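import Vale.Agent.Lib.P154.PChain.BD.R7_0

set_option linter.all false

namespace Vale.Agent.Lib.P154.PChain.BD.S8

open Vale.Agent.Lib.P154.Chain

noncomputable def pc0 : PT := (PT.nd (nat_lit 13015782) (PT.nd (nat_lit 12691302) (PT.nd (nat_lit 12610026) (PT.nd (nat_lit 7172412) (PT.nd (nat_lit 7091292) (PT.nd (nat_lit 7091214) PT.nil (PT.lf (nat_lit 76) (nat_lit 6) (nat_lit 1) (nat_lit 3) (nat_lit 346) (nat_lit 87) (nat_lit 347))) (PT.lf (nat_lit 76) (nat_lit 6) (nat_lit 1) (nat_lit 1) (nat_lit 347) (nat_lit 87) (nat_lit 346))) (PT.nd (nat_lit 5356494) (PT.lf (nat_lit 152) (nat_lit 3) (nat_lit 2) (nat_lit 1) (nat_lit 346) (nat_lit 88) (nat_lit 346)) (PT.lf (nat_lit 836) (nat_lit 3) (nat_lit 11) (nat_lit 1) (nat_lit 313) (nat_lit 154) (nat_lit 313)))) (PT.nd (nat_lit 81120) (PT.nd (nat_lit 78) (PT.lf (nat_lit 988) (nat_lit 6) (nat_lit 13) (nat_lit 3) (nat_lit 312) (nat_lit 155) (nat_lit 313)) (PT.lf (nat_lit 988) (nat_lit 6) (nat_lit 13) (nat_lit 1) (nat_lit 313)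 (nat_lit 155) (nat_lit 312))) (PT.nd (nat_lit 78) (PT.lf (nat_lit 1064) (nat_lit 6) (nat_lit 14) (nat_lit 3) (nat_lit 311) (nat_lit 156) (nat_lit 313)) (PT.lf (nat_lit 1140) (nat_lit 3) (nat_lit 15) (nat_lit 1) (nat_lit 312) (nat_lit 156) (nat_lit 312))))) (PT.nd (nat_lit 162240) (PT.nd (nat_lit 81120) (PT.nd (nat_lit 81042) (PT.lf (nat_lit 1064) (nat_lit 6) (nat_lit 14) (nat_lit 1) (nat_lit 313) (nat_lit 156) (nat_lit 311)) (PT.lf (nat_lit 1292) (nat_lit 6) (nat_lit 17) (nat_lit 3) (nat_lit 311) (nat_lit 157) (nat_lit 312))) (PT.nd (nat_lit 81042) (PT.lf (nat_lit 1292) (nat_lit 6) (nat_lit 17) (nat_lit 1) (nat_lit 312) (nat_lit 157) (nat_lit 311)) (PT.lf (nat_lit 1368) (nat_lit 6) (nat_lit 18) (nat_lit 3) (nat_lit 310) (nat_lit 158) (nat_lit 312)))) (PT.nd (nat_lit 81120) (PT.nd (nat_lit 78) (PT.lf (nat_lit 1444) (nat_lit 3) (nat_lit 19) (nat_lit 1) (nat_lit 311) (nat_lit 158) (nat_lit 311)) (PT.lf (nat_lit 1368) (nat_lit 6) (nat_lit 18) (nat_lit 1) (nat_lit 312)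 (nat_lit 158) (nat_lit 310))) (PT.nd (nat_lit 78) (PT.lf (nat_lit 1596) (nat_lit 6) (nat_lit 21) (nat_lit 3) (nat_lit 310) (nat_lit 159) (nat_lit 311)) (PT.lf (nat_lit 1596) (nat_lit 6) (nat_lit 21) (nat_lit 1) (nat_lit 311) (nat_lit 159) (nat_lit 310)))))) (PT.nd (nat_lit 162396) (PT.nd (nat_lit 81198) (PT.nd (nat_lit 156) (PT.nd (nat_lit 78) (PT.lf (nat_lit 1672) (nat_lit 6) (nat_lit 22) (nat_lit 3) (nat_lit 309) (nat_lit 160) (nat_lit 311)) (PT.lf (nat_lit 1748) (nat_lit 3) (nat_lit 23) (nat_lit 1) (nat_lit 310) (nat_lit 160) (nat_lit 310))) (PT.nd (nat_lit 80964) (PT.lf (nat_lit 1672) (nat_lit 6) (nat_lit 22) (nat_lit 1) (nat_lit 311) (nat_lit 160) (nat_lit 309)) (PT.lf (nat_lit 1824) (nat_lit 6) (nat_lit 24) (nat_lit 3) (nat_lit 308) (nat_lit 161) (nat_lit 311)))) (PT.nd (nat_lit 156) (PT.nd (nat_lit 78) (PT.lf (nat_lit 1900) (nat_lit 6) (nat_lit 25) (nat_lit 3) (nat_lit 309) (nat_lit 161) (nat_lit 310)) (PT.lf (nat_lit 1900) (nat_lit 6) (nat_lit 25) (nat_lit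 1) (nat_lit 310) (nat_lit 161) (nat_lit 309))) (PT.nd (nat_lit 80964) (PT.lf (nat_lit 1824) (nat_lit 6) (nat_lit 24) (nat_lit 1) (nat_lit 311) (nat_lit 161) (nat_lit 308)) (PT.lf (nat_lit 1976) (nat_lit 6) (nat_lit 26) (nat_lit 3) (nat_lit 308) (nat_lit 162) (nat_lit 310))))) (PT.nd (nat_lit 81198) (PT.nd (nat_lit 81042) (PT.nd (nat_lit 78) (PT.lf (nat_lit 2052) (nat_lit 3) (nat_lit 27) (nat_lit 1) (nat_lit 309) (nat_lit 162) (nat_lit 309)) (PT.lf (nat_lit 1976) (nat_lit 6) (nat_lit 26) (nat_lit 1) (nat_lit 310) (nat_lit 162) (nat_lit 308))) (PT.nd (nat_lit 78) (PT.lf (nat_lit 2128) (nat_lit 6) (nat_lit 28) (nat_lit 3) (nat_lit 307) (nat_lit 163) (nat_lit 310)) (PT.lf (nat_lit 2204) (nat_lit 6) (nat_lit 29) (nat_lit 3) (nat_lit 308) (nat_lit 163) (nat_lit 309)))) (PT.nd (nat_lit 81042) (PT.nd (nat_lit 78) (PT.lf (nat_lit 2204) (nat_lit 6) (nat_lit 29) (nat_lit 1) (nat_lit 309) (nat_lit 163) (nat_lit 308)) (PT.lf (nat_lit 2128) (nat_lit 6) (nat_lit 28) (nat_lit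 1) (nat_lit 310) (nat_lit 163) (nat_lit 307))) (PT.nd (nat_lit 78) (PT.lf (nat_lit 2280) (nat_lit 6) (nat_lit 30) (nat_lit 3) (nat_lit 307) (nat_lit 164) (nat_lit 309)) (PT.nd (nat_lit 78) (PT.lf (nat_lit 2356) (nat_lit 3) (nat_lit 31) (nat_lit 1) (nat_lit 308) (nat_lit 164) (nat_lit 308)) (PT.lf (nat_lit 2280) (nat_lit 6) (nat_lit 30) (nat_lit 1) (nat_lit 309) (nat_lit 164) (nat_lit 307))))))))
noncomputable def pc1 : PT := (PT.nd (nat_lit 324870) (PT.nd (nat_lit 162396) (PT.nd (nat_lit 81198) (PT.nd (nat_lit 156) (PT.nd (nat_lit 78) (PT.lf (nat_lit 2432) (nat_lit 6) (nat_lit 32) (nat_lit 3) (nat_lit 306) (nat_lit 165) (nat_lit 309)) (PT.lf (nat_lit 2508) (nat_lit 6) (nat_lit 33) (nat_lit 3) (nat_lit 307) (nat_lit 165) (nat_lit 308))) (PT.nd (nat_lit 78) (PT.lf (nat_lit 2508) (nat_lit 6) (nat_lit 33) (nat_lit 1) (nat_lit 308) (nat_lit 165) (nat_lit 307)) (PT.lf (nat_lit 2432) (nat_lit 6) (nat_lit 32) (nat_lit 1) (nat_lit 309) (nat_lit 165) (nat_lit 306)))) (PT.nd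 (nat_lit 156) (PT.nd (nat_lit 78) (PT.lf (nat_lit 2660) (nat_lit 6) (nat_lit 35) (nat_lit 3) (nat_lit 306) (nat_lit 166) (nat_lit 308)) (PT.lf (nat_lit 2736) (nat_lit 3) (nat_lit 36) (nat_lit 1) (nat_lit 307) (nat_lit 166) (nat_lit 307))) (PT.nd (nat_lit 80964) (PT.lf (nat_lit 2660) (nat_lit 6) (nat_lit 35) (nat_lit 1) (nat_lit 308) (nat_lit 166) (nat_lit 306)) (PT.lf (nat_lit 2812) (nat_lit 6) (nat_lit 37) (nat_lit 3) (nat_lit 305) (nat_lit 167) (nat_lit 308))))) (PT.nd (nat_lit 81198) (PT.nd (nat_lit 156) (PT.nd (nat_lit 78) (PT.lf (nat_lit 2888) (nat_lit 6) (nat_lit 38) (nat_lit 3) (nat_lit 306) (nat_lit 167) (nat_lit 307)) (PT.lf (nat_lit 2888) (nat_lit 6) (nat_lit 38) (nat_lit 1) (nat_lit 307) (nat_lit 167) (nat_lit 306))) (PT.nd (nat_lit 80964) (PT.lf (nat_lit 2812) (nat_lit 6) (nat_lit 37) (nat_lit 1) (nat_lit 308) (nat_lit 167) (nat_lit 305)) (PT.lf (nat_lit 3040) (nat_lit 6) (nat_lit 40) (nat_lit 3) (nat_lit 305) (nat_lit 168) (nat_lit 307)))) (PT.nd (nat_lit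 81042) (PT.nd (nat_lit 78) (PT.lf (nat_lit 3116) (nat_lit 3) (nat_lit 41) (nat_lit 1) (nat_lit 306) (nat_lit 168) (nat_lit 306)) (PT.lf (nat_lit 3040) (nat_lit 6) (nat_lit 40) (nat_lit 1) (nat_lit 307) (nat_lit 168) (nat_lit 305))) (PT.nd (nat_lit 78) (PT.lf (nat_lit 3192) (nat_lit 6) (nat_lit 42) (nat_lit 3) (nat_lit 304) (nat_lit 169) (nat_lit 307)) (PT.nd (nat_lit 78) (PT.lf (nat_lit 3268) (nat_lit 6) (nat_lit 43) (nat_lit 3) (nat_lit 305) (nat_lit 169) (nat_lit 306)) (PT.lf (nat_lit 3268) (nat_lit 6) (nat_lit 43) (nat_lit 1) (nat_lit 306) (nat_lit 169) (nat_lit 305))))))) (PT.nd (nat_lit 162240) (PT.nd (nat_lit 81120) (PT.nd (nat_lit 80964) (PT.nd (nat_lit 80886) (PT.lf (nat_lit 3192) (nat_lit 6) (nat_lit 42) (nat_lit 1) (nat_lit 307) (nat_lit 169) (nat_lit 304)) (PT.lf (nat_lit 3344) (nat_lit 6) (nat_lit 44) (nat_lit 3) (nat_lit 303) (nat_lit 170) (nat_lit 307))) (PT.nd (nat_lit 78) (PT.lf (nat_lit 3420) (nat_lit 6) (nat_lit 45) (nat_lit 3) (nat_lit 304) (nat_lit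 170) (nat_lit 306)) (PT.lf (nat_lit 3496) (nat_lit 3) (nat_lit 46) (nat_lit 1) (nat_lit 305) (nat_lit 170) (nat_lit 305)))) (PT.nd (nat_lit 80964) (PT.nd (nat_lit 78) (PT.lf (nat_lit 3420) (nat_lit 6) (nat_lit 45) (nat_lit 1) (nat_lit 306) (nat_lit 170) (nat_lit 304)) (PT.lf (nat_lit 3344) (nat_lit 6) (nat_lit 44) (nat_lit 1) (nat_lit 307) (nat_lit 170) (nat_lit 303))) (PT.nd (nat_lit 78) (PT.lf (nat_lit 3572) (nat_lit 6) (nat_lit 47) (nat_lit 3) (nat_lit 303) (nat_lit 171) (nat_lit 306)) (PT.lf (nat_lit 3648) (nat_lit 6) (nat_lit 48) (nat_lit 3) (nat_lit 304) (nat_lit 171) (nat_lit 305))))) (PT.nd (nat_lit 81120) (PT.nd (nat_lit 80964) (PT.nd (nat_lit 78) (PT.lf (nat_lit 3648) (nat_lit 6) (nat_lit 48) (nat_lit 1) (nat_lit 305) (nat_lit 171) (nat_lit 304)) (PT.lf (nat_lit 3572) (nat_lit 6) (nat_lit 47) (nat_lit 1) (nat_lit 306) (nat_lit 171) (nat_lit 303))) (PT.nd (nat_lit 78) (PT.lf (nat_lit 3724) (nat_lit 6) (nat_lit 49) (nat_lit 3) (nat_lit 302) (nat_lit 172)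 (nat_lit 306)) (PT.lf (nat_lit 3800) (nat_lit 6) (nat_lit 50) (nat_lit 3) (nat_lit 303) (nat_lit 172) (nat_lit 305)))) (PT.nd (nat_lit 156) (PT.nd (nat_lit 78) (PT.lf (nat_lit 3876) (nat_lit 3) (nat_lit 51) (nat_lit 1) (nat_lit 304) (nat_lit 172) (nat_lit 304)) (PT.lf (nat_lit 3800) (nat_lit 6) (nat_lit 50) (nat_lit 1) (nat_lit 305) (nat_lit 172) (nat_lit 303))) (PT.nd (nat_lit 80886) (PT.lf (nat_lit 3724) (nat_lit 6) (nat_lit 49) (nat_lit 1) (nat_lit 306) (nat_lit 172) (nat_lit 302)) (PT.nd (nat_lit 78) (PT.lf (nat_lit 4028) (nat_lit 6) (nat_lit 53) (nat_lit 3) (nat_lit 302) (nat_lit 173) (nat_lit 305)) (PT.lf (nat_lit 4104) (nat_lit 6) (nat_lit 54) (nat_lit 3) (nat_lit 303) (nat_lit 173) (nat_lit 304))))))))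
noncomputable def pc2 : PT := (PT.nd (nat_lit 324480) (PT.nd (nat_lit 162240) (PT.nd (nat_lit 81120) (PT.nd (nat_lit 80964) (PT.nd (nat_lit 78) (PT.lf (nat_lit 4104) (nat_lit 6) (nat_lit 54) (nat_lit 1) (nat_lit 304) (nat_lit 173) (nat_lit 303)) (PT.lf (nat_lit 4028) (nat_lit 6) (nat_lit 53) (nat_lit 1) (nat_lit 305) (nat_lit 173) (nat_lit 302))) (PT.nd (nat_lit 78) (PT.lf (nat_lit 4180) (nat_lit 6) (nat_lit 55) (nat_lit 3) (nat_lit 301) (nat_lit 174) (nat_lit 305)) (PT.lf (nat_lit 4256) (nat_lit 6) (nat_lit 56) (nat_lit 3) (nat_lit 302) (nat_lit 174) (nat_lit 304)))) (PT.nd (nat_lit 156) (PT.nd (nat_lit 78) (PT.lf (nat_lit 4332) (nat_lit 3) (nat_lit 57) (nat_lit 1) (nat_lit 303) (nat_lit 174) (nat_lit 303)) (PT.lf (nat_lit 4256) (nat_lit 6) (nat_lit 56) (nat_lit 1) (nat_lit 304) (nat_lit 174) (nat_lit 302))) (PT.nd (nat_lit 80886) (PT.lf (nat_lit 4180) (nat_lit 6) (nat_lit 55) (nat_lit 1) (nat_lit 305) (nat_lit 174) (nat_lit 301)) (PT.lf (nat_lit 4484) (nat_lit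 6) (nat_lit 59) (nat_lit 3) (nat_lit 301) (nat_lit 175) (nat_lit 304))))) (PT.nd (nat_lit 81120) (PT.nd (nat_lit 156) (PT.nd (nat_lit 78) (PT.lf (nat_lit 4560) (nat_lit 6) (nat_lit 60) (nat_lit 3) (nat_lit 302) (nat_lit 175) (nat_lit 303)) (PT.lf (nat_lit 4560) (nat_lit 6) (nat_lit 60) (nat_lit 1) (nat_lit 303) (nat_lit 175) (nat_lit 302))) (PT.nd (nat_lit 80886) (PT.lf (nat_lit 4484) (nat_lit 6) (nat_lit 59) (nat_lit 1) (nat_lit 304) (nat_lit 175) (nat_lit 301)) (PT.lf (nat_lit 4636) (nat_lit 6) (nat_lit 61) (nat_lit 3) (nat_lit 300) (nat_lit 176) (nat_lit 304)))) (PT.nd (nat_lit 156) (PT.nd (nat_lit 78) (PT.lf (nat_lit 4712) (nat_lit 6) (nat_lit 62) (nat_lit 3) (nat_lit 301) (nat_lit 176) (nat_lit 303)) (PT.lf (nat_lit 4788) (nat_lit 3) (nat_lit 63) (nat_lit 1) (nat_lit 302) (nat_lit 176) (nat_lit 302))) (PT.nd (nat_lit 78) (PT.lf (nat_lit 4712) (nat_lit 6) (nat_lit 62) (nat_lit 1) (nat_lit 303) (nat_lit 176) (nat_lit 301)) (PT.nd (nat_lit 80808) (PT.lf (nat_lit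 4636) (nat_lit 6) (nat_lit 61) (nat_lit 1) (nat_lit 304) (nat_lit 176) (nat_lit 300)) (PT.lf (nat_lit 4864) (nat_lit 6) (nat_lit 64) (nat_lit 3) (nat_lit 299) (nat_lit 177) (nat_lit 304))))))) (PT.nd (nat_lit 81354) (PT.nd (nat_lit 312) (PT.nd (nat_lit 156) (PT.nd (nat_lit 78) (PT.lf (nat_lit 4940) (nat_lit 6) (nat_lit 65) (nat_lit 3) (nat_lit 300) (nat_lit 177) (nat_lit 303)) (PT.lf (nat_lit 5016) (nat_lit 6) (nat_lit 66) (nat_lit 3) (nat_lit 301) (nat_lit 177) (nat_lit 302))) (PT.nd (nat_lit 78) (PT.lf (nat_lit 5016) (nat_lit 6) (nat_lit 66) (nat_lit 1) (nat_lit 302) (nat_lit 177) (nat_lit 301)) (PT.lf (nat_lit 4940) (nat_lit 6) (nat_lit 65) (nat_lit 1) (nat_lit 303) (nat_lit 177) (nat_lit 300)))) (PT.nd (nat_lit 80886) (PT.nd (nat_lit 80808) (PT.lf (nat_lit 4864) (nat_lit 6) (nat_lit 64) (nat_lit 1) (nat_lit 304) (nat_lit 177) (nat_lit 299)) (PT.lf (nat_lit 5092) (nat_lit 6) (nat_lit 67) (nat_lit 3) (nat_lit 299) (nat_lit 178) (nat_lit 303))) (PT.nd (nat_lit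 78) (PT.lf (nat_lit 5168) (nat_lit 6) (nat_lit 68) (nat_lit 3) (nat_lit 300) (nat_lit 178) (nat_lit 302)) (PT.lf (nat_lit 5244) (nat_lit 3) (nat_lit 69) (nat_lit 1) (nat_lit 301) (nat_lit 178) (nat_lit 301))))) (PT.nd (nat_lit 81042) (PT.nd (nat_lit 80886) (PT.nd (nat_lit 78) (PT.lf (nat_lit 5168) (nat_lit 6) (nat_lit 68) (nat_lit 1) (nat_lit 302) (nat_lit 178) (nat_lit 300)) (PT.lf (nat_lit 5092) (nat_lit 6) (nat_lit 67) (nat_lit 1) (nat_lit 303) (nat_lit 178) (nat_lit 299))) (PT.nd (nat_lit 78) (PT.lf (nat_lit 5320) (nat_lit 6) (nat_lit 70) (nat_lit 3) (nat_lit 298) (nat_lit 179) (nat_lit 303)) (PT.lf (nat_lit 5396) (nat_lit 6) (nat_lit 71) (nat_lit 3) (nat_lit 299) (nat_lit 179) (nat_lit 302)))) (PT.nd (nat_lit 156) (PT.nd (nat_lit 78) (PT.lf (nat_lit 5472) (nat_lit 6) (nat_lit 72) (nat_lit 3) (nat_lit 300) (nat_lit 179) (nat_lit 301)) (PT.lf (nat_lit 5472) (nat_lit 6) (nat_lit 72) (nat_lit 1) (nat_lit 301) (nat_lit 179) (nat_lit 300))) (PT.nd (nat_lit 78) (PT.lf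 (nat_lit 5396) (nat_lit 6) (nat_lit 71) (nat_lit 1) (nat_lit 302) (nat_lit 179) (nat_lit 299)) (PT.nd (nat_lit 80808) (PT.lf (nat_lit 5320) (nat_lit 6) (nat_lit 70) (nat_lit 1) (nat_lit 303) (nat_lit 179) (nat_lit 298)) (PT.lf (nat_lit 5624) (nat_lit 6) (nat_lit 74) (nat_lit 3) (nat_lit 298) (nat_lit 180) (nat_lit 302))))))))
noncomputable def pc3 : PT := (PT.nd (nat_lit 243360) (PT.nd (nat_lit 81354) (PT.nd (nat_lit 81042) (PT.nd (nat_lit 156) (PT.nd (nat_lit 78) (PT.lf (nat_lit 5700) (nat_lit 6) (nat_lit 75) (nat_lit 3) (nat_lit 299) (nat_lit 180) (nat_lit 301)) (PT.lf (nat_lit 5776) (nat_lit 3) (nat_lit 76) (nat_lit 1) (nat_lit 300) (nat_lit 180) (nat_lit 300))) (PT.nd (nat_lit 78) (PT.lf (nat_lit 5700) (nat_lit 6) (nat_lit 75) (nat_lit 1) (nat_lit 301) (nat_lit 180) (nat_lit 299)) (PT.lf (nat_lit 5624) (nat_lit 6) (nat_lit 74) (nat_lit 1) (nat_lit 302) (nat_lit 180) (nat_lit 298)))) (PT.nd (nat_lit 156) (PT.nd (nat_lit 78) (PT.lf (nat_lit 5852) (nat_lit 6)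 (nat_lit 77) (nat_lit 3) (nat_lit 297) (nat_lit 181) (nat_lit 302)) (PT.lf (nat_lit 5928) (nat_lit 6) (nat_lit 78) (nat_lit 3) (nat_lit 298) (nat_lit 181) (nat_lit 301))) (PT.nd (nat_lit 78) (PT.lf (nat_lit 6004) (nat_lit 6) (nat_lit 79) (nat_lit 3) (nat_lit 299) (nat_lit 181) (nat_lit 300)) (PT.lf (nat_lit 6004) (nat_lit 6) (nat_lit 79) (nat_lit 1) (nat_lit 300) (nat_lit 181) (nat_lit 299))))) (PT.nd (nat_lit 80964) (PT.nd (nat_lit 80808) (PT.nd (nat_lit 78) (PT.lf (nat_lit 5928) (nat_lit 6) (nat_lit 78) (nat_lit 1) (nat_lit 301) (nat_lit 181) (nat_lit 298)) (PT.lf (nat_lit 5852) (nat_lit 6) (nat_lit 77) (nat_lit 1) (nat_lit 302) (nat_lit 181) (nat_lit 297))) (PT.nd (nat_lit 78) (PT.lf (nat_lit 6080) (nat_lit 6) (nat_lit 80) (nat_lit 3) (nat_lit 296) (nat_lit 182) (nat_lit 302)) (PT.lf (nat_lit 6156) (nat_lit 6) (nat_lit 81) (nat_lit 3) (nat_lit 297) (nat_lit 182) (nat_lit 301)))) (PT.nd (nat_lit 156) (PT.nd (nat_lit 78) (PT.lf (nat_lit 6232) (nat_lit 6) (nat_lit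 82) (nat_lit 3) (nat_lit 298) (nat_lit 182) (nat_lit 300)) (PT.lf (nat_lit 6308) (nat_lit 3) (nat_lit 83) (nat_lit 1) (nat_lit 299) (nat_lit 182) (nat_lit 299))) (PT.nd (nat_lit 78) (PT.lf (nat_lit 6232) (nat_lit 6) (nat_lit 82) (nat_lit 1) (nat_lit 300) (nat_lit 182) (nat_lit 298)) (PT.nd (nat_lit 78) (PT.lf (nat_lit 6156) (nat_lit 6) (nat_lit 81) (nat_lit 1) (nat_lit 301) (nat_lit 182) (nat_lit 297)) (PT.lf (nat_lit 6080) (nat_lit 6) (nat_lit 80) (nat_lit 1) (nat_lit 302) (nat_lit 182) (nat_lit 296))))))) (PT.nd (nat_lit 81276) (PT.nd (nat_lit 312) (PT.nd (nat_lit 156) (PT.nd (nat_lit 78) (PT.lf (nat_lit 6384) (nat_lit 6) (nat_lit 84) (nat_lit 3) (nat_lit 296) (nat_lit 183) (nat_lit 301)) (PT.lf (nat_lit 6460) (nat_lit 6) (nat_lit 85) (nat_lit 3) (nat_lit 297) (nat_lit 183) (nat_lit 300))) (PT.nd (nat_lit 78) (PT.lf (nat_lit 6536) (nat_lit 6) (nat_lit 86) (nat_lit 3) (nat_lit 298) (nat_lit 183) (nat_lit 299)) (PT.lf (nat_lit 6536) (nat_lit 6) (nat_lit 86) (nat_lit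 1) (nat_lit 299) (nat_lit 183) (nat_lit 298)))) (PT.nd (nat_lit 80808) (PT.nd (nat_lit 78) (PT.lf (nat_lit 6460) (nat_lit 6) (nat_lit 85) (nat_lit 1) (nat_lit 300) (nat_lit 183) (nat_lit 297)) (PT.lf (nat_lit 6384) (nat_lit 6) (nat_lit 84) (nat_lit 1) (nat_lit 301) (nat_lit 183) (nat_lit 296))) (PT.nd (nat_lit 78) (PT.lf (nat_lit 6612) (nat_lit 6) (nat_lit 87) (nat_lit 3) (nat_lit 295) (nat_lit 184) (nat_lit 301)) (PT.lf (nat_lit 6688) (nat_lit 6) (nat_lit 88) (nat_lit 3) (nat_lit 296) (nat_lit 184) (nat_lit 300))))) (PT.nd (nat_lit 312) (PT.nd (nat_lit 156) (PT.nd (nat_lit 78) (PT.lf (nat_lit 6764) (nat_lit 6) (nat_lit 89) (nat_lit 3) (nat_lit 297) (nat_lit 184) (nat_lit 299)) (PT.lf (nat_lit 6840) (nat_lit 3) (nat_lit 90) (nat_lit 1) (nat_lit 298) (nat_lit 184) (nat_lit 298))) (PT.nd (nat_lit 78) (PT.lf (nat_lit 6764) (nat_lit 6) (nat_lit 89) (nat_lit 1) (nat_lit 299) (nat_lit 184) (nat_lit 297)) (PT.lf (nat_lit 6688) (nat_lit 6) (nat_lit 88) (nat_lit 1) (nat_lit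 300) (nat_lit 184) (nat_lit 296)))) (PT.nd (nat_lit 80808) (PT.nd (nat_lit 80730) (PT.lf (nat_lit 6612) (nat_lit 6) (nat_lit 87) (nat_lit 1) (nat_lit 301) (nat_lit 184) (nat_lit 295)) (PT.lf (nat_lit 6916) (nat_lit 6) (nat_lit 91) (nat_lit 3) (nat_lit 295) (nat_lit 185) (nat_lit 300))) (PT.nd (nat_lit 78) (PT.lf (nat_lit 6992) (nat_lit 6) (nat_lit 92) (nat_lit 3) (nat_lit 296) (nat_lit 185) (nat_lit 299)) (PT.nd (nat_lit 78) (PT.lf (nat_lit 7068) (nat_lit 6) (nat_lit 93) (nat_lit 3) (nat_lit 297) (nat_lit 185) (nat_lit 298)) (PT.lf (nat_lit 7068) (nat_lit 6) (nat_lit 93) (nat_lit 1) (nat_lit 298) (nat_lit 185) (nat_lit 297))))))))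
noncomputable def pc4 : PT := (PT.nd (nat_lit 243126) (PT.nd (nat_lit 81276) (PT.nd (nat_lit 80964) (PT.nd (nat_lit 80808) (PT.nd (nat_lit 78) (PT.lf (nat_lit 6992) (nat_lit 6) (nat_lit 92) (nat_lit 1) (nat_lit 299) (nat_lit 185) (nat_lit 296)) (PT.lf (nat_lit 6916) (nat_lit 6) (nat_lit 91) (nat_lit 1) (nat_lit 300) (nat_lit 185) (nat_lit 295))) (PT.nd (nat_lit 78) (PT.lf (nat_lit 7144) (nat_lit 6) (nat_lit 94) (nat_lit 3) (nat_lit 294) (nat_lit 186) (nat_lit 300)) (PT.lf (nat_lit 7220) (nat_lit 6) (nat_lit 95) (nat_lit 3) (nat_lit 295) (nat_lit 186) (nat_lit 299)))) (PT.nd (nat_lit 156) (PT.nd (nat_lit 78) (PT.lf (nat_lit 7296) (nat_lit 6) (nat_lit 96) (nat_lit 3) (nat_lit 296) (nat_lit 186) (nat_lit 298)) (PT.lf (nat_lit 7372) (nat_lit 3) (nat_lit 97) (nat_lit 1) (nat_lit 297) (nat_lit 186) (nat_lit 297))) (PT.nd (nat_lit 78) (PT.lf (nat_lit 7296) (nat_lit 6) (nat_lit 96) (nat_lit 1) (nat_lit 298) (nat_lit 186) (nat_lit 296)) (PT.lf (nat_lit 7220) (nat_lit 6)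 (nat_lit 95) (nat_lit 1) (nat_lit 299) (nat_lit 186) (nat_lit 295))))) (PT.nd (nat_lit 80886) (PT.nd (nat_lit 80730) (PT.nd (nat_lit 80652) (PT.lf (nat_lit 7144) (nat_lit 6) (nat_lit 94) (nat_lit 1) (nat_lit 300) (nat_lit 186) (nat_lit 294)) (PT.lf (nat_lit 7448) (nat_lit 6) (nat_lit 98) (nat_lit 3) (nat_lit 293) (nat_lit 187) (nat_lit 300))) (PT.nd (nat_lit 78) (PT.lf (nat_lit 7524) (nat_lit 6) (nat_lit 99) (nat_lit 3) (nat_lit 294) (nat_lit 187) (nat_lit 299)) (PT.lf (nat_lit 7600) (nat_lit 6) (nat_lit 100) (nat_lit 3) (nat_lit 295) (nat_lit 187) (nat_lit 298)))) (PT.nd (nat_lit 156) (PT.nd (nat_lit 78) (PT.lf (nat_lit 7676) (nat_lit 6) (nat_lit 101) (nat_lit 3) (nat_lit 296) (nat_lit 187) (nat_lit 297)) (PT.lf (nat_lit 7676) (nat_lit 6) (nat_lit 101) (nat_lit 1) (nat_lit 297) (nat_lit 187) (nat_lit 296))) (PT.nd (nat_lit 78) (PT.lf (nat_lit 7600) (nat_lit 6) (nat_lit 100) (nat_lit 1) (nat_lit 298) (nat_lit 187) (nat_lit 295)) (PT.nd (nat_lit 78) (PT.lf (nat_lit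 7524) (nat_lit 6) (nat_lit 99) (nat_lit 1) (nat_lit 299) (nat_lit 187) (nat_lit 294)) (PT.lf (nat_lit 7448) (nat_lit 6) (nat_lit 98) (nat_lit 1) (nat_lit 300) (nat_lit 187) (nat_lit 293))))))) (PT.nd (nat_lit 81198) (PT.nd (nat_lit 312) (PT.nd (nat_lit 156) (PT.nd (nat_lit 78) (PT.lf (nat_lit 7752) (nat_lit 6) (nat_lit 102) (nat_lit 3) (nat_lit 293) (nat_lit 188) (nat_lit 299)) (PT.lf (nat_lit 7828) (nat_lit 6) (nat_lit 103) (nat_lit 3) (nat_lit 294) (nat_lit 188) (nat_lit 298))) (PT.nd (nat_lit 78) (PT.lf (nat_lit 7904) (nat_lit 6) (nat_lit 104) (nat_lit 3) (nat_lit 295) (nat_lit 188) (nat_lit 297)) (PT.lf (nat_lit 7980) (nat_lit 3) (nat_lit 105) (nat_lit 1) (nat_lit 296) (nat_lit 188) (nat_lit 296)))) (PT.nd (nat_lit 156) (PT.nd (nat_lit 78) (PT.lf (nat_lit 7904) (nat_lit 6) (nat_lit 104) (nat_lit 1) (nat_lit 297) (nat_lit 188) (nat_lit 295)) (PT.lf (nat_lit 7828) (nat_lit 6) (nat_lit 103) (nat_lit 1) (nat_lit 298) (nat_lit 188) (nat_lit 294))) (PT.nd (nat_lit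 80652) (PT.lf (nat_lit 7752) (nat_lit 6) (nat_lit 102) (nat_lit 1) (nat_lit 299) (nat_lit 188) (nat_lit 293)) (PT.lf (nat_lit 8056) (nat_lit 6) (nat_lit 106) (nat_lit 3) (nat_lit 292) (nat_lit 189) (nat_lit 299))))) (PT.nd (nat_lit 312) (PT.nd (nat_lit 156) (PT.nd (nat_lit 78) (PT.lf (nat_lit 8132) (nat_lit 6) (nat_lit 107) (nat_lit 3) (nat_lit 293) (nat_lit 189) (nat_lit 298)) (PT.lf (nat_lit 8208) (nat_lit 6) (nat_lit 108) (nat_lit 3) (nat_lit 294) (nat_lit 189) (nat_lit 297))) (PT.nd (nat_lit 78) (PT.lf (nat_lit 8284) (nat_lit 6) (nat_lit 109) (nat_lit 3) (nat_lit 295) (nat_lit 189) (nat_lit 296)) (PT.lf (nat_lit 8284) (nat_lit 6) (nat_lit 109) (nat_lit 1) (nat_lit 296) (nat_lit 189) (nat_lit 295)))) (PT.nd (nat_lit 156) (PT.nd (nat_lit 78) (PT.lf (nat_lit 8208) (nat_lit 6) (nat_lit 108) (nat_lit 1) (nat_lit 297) (nat_lit 189) (nat_lit 294)) (PT.lf (nat_lit 8132) (nat_lit 6) (nat_lit 107) (nat_lit 1) (nat_lit 298) (nat_lit 189) (nat_lit 293))) (PT.nd (nat_lit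 80652) (PT.lf (nat_lit 8056) (nat_lit 6) (nat_lit 106) (nat_lit 1) (nat_lit 299) (nat_lit 189) (nat_lit 292)) (PT.nd (nat_lit 78) (PT.lf (nat_lit 8360) (nat_lit 6) (nat_lit 110) (nat_lit 3) (nat_lit 292) (nat_lit 190) (nat_lit 298)) (PT.lf (nat_lit 8436) (nat_lit 6) (nat_lit 111) (nat_lit 3) (nat_lit 293) (nat_lit 190) (nat_lit 297))))))))
noncomputable def pc5 : PT := (PT.nd (nat_lit 162396) (PT.nd (nat_lit 81198) (PT.nd (nat_lit 312) (PT.nd (nat_lit 156) (PT.nd (nat_lit 78) (PT.lf (nat_lit 8512) (nat_lit 6) (nat_lit 112) (nat_lit 3) (nat_lit 294) (nat_lit 190) (nat_lit 296)) (PT.lf (nat_lit 8588) (nat_lit 3) (nat_lit 113) (nat_lit 1) (nat_lit 295) (nat_lit 190) (nat_lit 295))) (PT.nd (nat_lit 78) (PT.lf (nat_lit 8512) (nat_lit 6) (nat_lit 112) (nat_lit 1) (nat_lit 296) (nat_lit 190) (nat_lit 294)) (PT.lf (nat_lit 8436) (nat_lit 6) (nat_lit 111) (nat_lit 1) (nat_lit 297) (nat_lit 190) (nat_lit 293)))) (PT.nd (nat_lit 80730) (PT.nd (nat_lit 80652) (PT.lf (nat_lit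 8360) (nat_lit 6) (nat_lit 110) (nat_lit 1) (nat_lit 298) (nat_lit 190) (nat_lit 292)) (PT.lf (nat_lit 8664) (nat_lit 6) (nat_lit 114) (nat_lit 3) (nat_lit 291) (nat_lit 191) (nat_lit 298))) (PT.nd (nat_lit 78) (PT.lf (nat_lit 8740) (nat_lit 6) (nat_lit 115) (nat_lit 3) (nat_lit 292) (nat_lit 191) (nat_lit 297)) (PT.lf (nat_lit 8816) (nat_lit 6) (nat_lit 116) (nat_lit 3) (nat_lit 293) (nat_lit 191) (nat_lit 296))))) (PT.nd (nat_lit 312) (PT.nd (nat_lit 156) (PT.nd (nat_lit 78) (PT.lf (nat_lit 8892) (nat_lit 6) (nat_lit 117) (nat_lit 3) (nat_lit 294) (nat_lit 191) (nat_lit 295)) (PT.lf (nat_lit 8892) (nat_lit 6) (nat_lit 117) (nat_lit 1) (nat_lit 295) (nat_lit 191) (nat_lit 294))) (PT.nd (nat_lit 78) (PT.lf (nat_lit 8816) (nat_lit 6) (nat_lit 116) (nat_lit 1) (nat_lit 296) (nat_lit 191) (nat_lit 293)) (PT.lf (nat_lit 8740) (nat_lit 6) (nat_lit 115) (nat_lit 1) (nat_lit 297) (nat_lit 191) (nat_lit 292)))) (PT.nd (nat_lit 80652) (PT.nd (nat_lit 80574) (PT.lf (nat_lit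 8664) (nat_lit 6) (nat_lit 114) (nat_lit 1) (nat_lit 298) (nat_lit 191) (nat_lit 291)) (PT.lf (nat_lit 8968) (nat_lit 6) (nat_lit 118) (nat_lit 3) (nat_lit 290) (nat_lit 192) (nat_lit 298))) (PT.nd (nat_lit 78) (PT.lf (nat_lit 9044) (nat_lit 6) (nat_lit 119) (nat_lit 3) (nat_lit 291) (nat_lit 192) (nat_lit 297)) (PT.nd (nat_lit 78) (PT.lf (nat_lit 9120) (nat_lit 6) (nat_lit 120) (nat_lit 3) (nat_lit 292) (nat_lit 192) (nat_lit 296)) (PT.lf (nat_lit 9196) (nat_lit 6) (nat_lit 121) (nat_lit 3) (nat_lit 293) (nat_lit 192) (nat_lit 295))))))) (PT.nd (nat_lit 81120) (PT.nd (nat_lit 312) (PT.nd (nat_lit 156) (PT.nd (nat_lit 78) (PT.lf (nat_lit 9272) (nat_lit 3) (nat_lit 122) (nat_lit 1) (nat_lit 294) (nat_lit 192) (nat_lit 294)) (PT.lf (nat_lit 9196) (nat_lit 6) (nat_lit 121) (nat_lit 1) (nat_lit 295) (nat_lit 192) (nat_lit 293))) (PT.nd (nat_lit 78) (PT.lf (nat_lit 9120) (nat_lit 6) (nat_lit 120) (nat_lit 1) (nat_lit 296) (nat_lit 192) (nat_lit 292)) (PT.lf (nat_lit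 9044) (nat_lit 6) (nat_lit 119) (nat_lit 1) (nat_lit 297) (nat_lit 192) (nat_lit 291)))) (PT.nd (nat_lit 80652) (PT.nd (nat_lit 80574) (PT.lf (nat_lit 8968) (nat_lit 6) (nat_lit 118) (nat_lit 1) (nat_lit 298) (nat_lit 192) (nat_lit 290)) (PT.lf (nat_lit 9348) (nat_lit 6) (nat_lit 123) (nat_lit 3) (nat_lit 290) (nat_lit 193) (nat_lit 297))) (PT.nd (nat_lit 78) (PT.lf (nat_lit 9424) (nat_lit 6) (nat_lit 124) (nat_lit 3) (nat_lit 291) (nat_lit 193) (nat_lit 296)) (PT.lf (nat_lit 9500) (nat_lit 6) (nat_lit 125) (nat_lit 3) (nat_lit 292) (nat_lit 193) (nat_lit 295))))) (PT.nd (nat_lit 312) (PT.nd (nat_lit 156) (PT.nd (nat_lit 78) (PT.lf (nat_lit 9576) (nat_lit 6) (nat_lit 126) (nat_lit 3) (nat_lit 293) (nat_lit 193) (nat_lit 294)) (PT.lf (nat_lit 9576) (nat_lit 6) (nat_lit 126) (nat_lit 1) (nat_lit 294) (nat_lit 193) (nat_lit 293))) (PT.nd (nat_lit 78) (PT.lf (nat_lit 9500) (nat_lit 6) (nat_lit 125) (nat_lit 1) (nat_lit 295) (nat_lit 193) (nat_lit 292)) (PT.lf (nat_lit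 9424) (nat_lit 6) (nat_lit 124) (nat_lit 1) (nat_lit 296) (nat_lit 193) (nat_lit 291)))) (PT.nd (nat_lit 80652) (PT.nd (nat_lit 80574) (PT.lf (nat_lit 9348) (nat_lit 6) (nat_lit 123) (nat_lit 1) (nat_lit 297) (nat_lit 193) (nat_lit 290)) (PT.lf (nat_lit 9652) (nat_lit 6) (nat_lit 127) (nat_lit 3) (nat_lit 289) (nat_lit 194) (nat_lit 297))) (PT.nd (nat_lit 78) (PT.lf (nat_lit 9728) (nat_lit 6) (nat_lit 128) (nat_lit 3) (nat_lit 290) (nat_lit 194) (nat_lit 296)) (PT.nd (nat_lit 78) (PT.lf (nat_lit 9804) (nat_lit 6) (nat_lit 129) (nat_lit 3) (nat_lit 291) (nat_lit 194) (nat_lit 295)) (PT.lf (nat_lit 9880) (nat_lit 6) (nat_lit 130) (nat_lit 3) (nat_lit 292) (nat_lit 194) (nat_lit 294))))))))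
noncomputable def pc6 : PT := (PT.nd (nat_lit 162318) (PT.nd (nat_lit 81120) (PT.nd (nat_lit 312) (PT.nd (nat_lit 156) (PT.nd (nat_lit 78) (PT.lf (nat_lit 9956) (nat_lit 3) (nat_lit 131) (nat_lit 1) (nat_lit 293) (nat_lit 194) (nat_lit 293)) (PT.lf (nat_lit 9880) (nat_lit 6) (nat_lit 130) (nat_lit 1) (nat_lit 294) (nat_lit 194) (nat_lit 292))) (PT.nd (nat_lit 78) (PT.lf (nat_lit 9804) (nat_lit 6) (nat_lit 129) (nat_lit 1) (nat_lit 295) (nat_lit 194) (nat_lit 291)) (PT.lf (nat_lit 9728) (nat_lit 6) (nat_lit 128) (nat_lit 1) (nat_lit 296) (nat_lit 194) (nat_lit 290)))) (PT.nd (nat_lit 80652) (PT.nd (nat_lit 80574) (PT.lf (nat_lit 9652) (nat_lit 6) (nat_lit 127) (nat_lit 1) (nat_lit 297) (nat_lit 194) (nat_lit 289)) (PT.lf (nat_lit 10032) (nat_lit 6) (nat_lit 132) (nat_lit 3) (nat_lit 289) (nat_lit 195) (nat_lit 296))) (PT.nd (nat_lit 78) (PT.lf (nat_lit 10108) (nat_lit 6) (nat_lit 133) (nat_lit 3) (nat_lit 290) (nat_lit 195) (nat_lit 295)) (PT.lf (nat_lit 10184)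 (nat_lit 6) (nat_lit 134) (nat_lit 3) (nat_lit 291) (nat_lit 195) (nat_lit 294))))) (PT.nd (nat_lit 312) (PT.nd (nat_lit 156) (PT.nd (nat_lit 78) (PT.lf (nat_lit 10260) (nat_lit 6) (nat_lit 135) (nat_lit 3) (nat_lit 292) (nat_lit 195) (nat_lit 293)) (PT.lf (nat_lit 10260) (nat_lit 6) (nat_lit 135) (nat_lit 1) (nat_lit 293) (nat_lit 195) (nat_lit 292))) (PT.nd (nat_lit 78) (PT.lf (nat_lit 10184) (nat_lit 6) (nat_lit 134) (nat_lit 1) (nat_lit 294) (nat_lit 195) (nat_lit 291)) (PT.lf (nat_lit 10108) (nat_lit 6) (nat_lit 133) (nat_lit 1) (nat_lit 295) (nat_lit 195) (nat_lit 290)))) (PT.nd (nat_lit 80652) (PT.nd (nat_lit 80574) (PT.lf (nat_lit 10032) (nat_lit 6) (nat_lit 132) (nat_lit 1) (nat_lit 296) (nat_lit 195) (nat_lit 289)) (PT.lf (nat_lit 10336) (nat_lit 6) (nat_lit 136) (nat_lit 3) (nat_lit 288) (nat_lit 196) (nat_lit 296))) (PT.nd (nat_lit 78) (PT.lf (nat_lit 10412) (nat_lit 6) (nat_lit 137) (nat_lit 3) (nat_lit 289) (nat_lit 196) (nat_lit 295)) (PT.nd (nat_lit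 78) (PT.lf (nat_lit 10488) (nat_lit 6) (nat_lit 138) (nat_lit 3) (nat_lit 290) (nat_lit 196) (nat_lit 294)) (PT.lf (nat_lit 10564) (nat_lit 6) (nat_lit 139) (nat_lit 3) (nat_lit 291) (nat_lit 196) (nat_lit 293))))))) (PT.nd (nat_lit 81042) (PT.nd (nat_lit 312) (PT.nd (nat_lit 156) (PT.nd (nat_lit 78) (PT.lf (nat_lit 10640) (nat_lit 3) (nat_lit 140) (nat_lit 1) (nat_lit 292) (nat_lit 196) (nat_lit 292)) (PT.lf (nat_lit 10564) (nat_lit 6) (nat_lit 139) (nat_lit 1) (nat_lit 293) (nat_lit 196) (nat_lit 291))) (PT.nd (nat_lit 78) (PT.lf (nat_lit 10488) (nat_lit 6) (nat_lit 138) (nat_lit 1) (nat_lit 294) (nat_lit 196) (nat_lit 290)) (PT.lf (nat_lit 10412) (nat_lit 6) (nat_lit 137) (nat_lit 1) (nat_lit 295) (nat_lit 196) (nat_lit 289)))) (PT.nd (nat_lit 80574) (PT.nd (nat_lit 80496) (PT.lf (nat_lit 10336) (nat_lit 6) (nat_lit 136) (nat_lit 1) (nat_lit 296) (nat_lit 196) (nat_lit 288)) (PT.lf (nat_lit 10716) (nat_lit 6) (nat_lit 141) (nat_lit 3) (nat_lit 287) (nat_lit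 197) (nat_lit 296))) (PT.nd (nat_lit 78) (PT.lf (nat_lit 10792) (nat_lit 6) (nat_lit 142) (nat_lit 3) (nat_lit 288) (nat_lit 197) (nat_lit 295)) (PT.lf (nat_lit 10868) (nat_lit 6) (nat_lit 143) (nat_lit 3) (nat_lit 289) (nat_lit 197) (nat_lit 294))))) (PT.nd (nat_lit 312) (PT.nd (nat_lit 156) (PT.nd (nat_lit 78) (PT.lf (nat_lit 10944) (nat_lit 6) (nat_lit 144) (nat_lit 3) (nat_lit 290) (nat_lit 197) (nat_lit 293)) (PT.lf (nat_lit 11020) (nat_lit 6) (nat_lit 145) (nat_lit 3) (nat_lit 291) (nat_lit 197) (nat_lit 292))) (PT.nd (nat_lit 78) (PT.lf (nat_lit 11020) (nat_lit 6) (nat_lit 145) (nat_lit 1) (nat_lit 292) (nat_lit 197) (nat_lit 291)) (PT.lf (nat_lit 10944) (nat_lit 6) (nat_lit 144) (nat_lit 1) (nat_lit 293) (nat_lit 197) (nat_lit 290)))) (PT.nd (nat_lit 156) (PT.nd (nat_lit 78) (PT.lf (nat_lit 10868) (nat_lit 6) (nat_lit 143) (nat_lit 1) (nat_lit 294) (nat_lit 197) (nat_lit 289)) (PT.lf (nat_lit 10792) (nat_lit 6) (nat_lit 142) (nat_lit 1) (nat_lit 295) (nat_lit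 197) (nat_lit 288))) (PT.nd (nat_lit 80496) (PT.lf (nat_lit 10716) (nat_lit 6) (nat_lit 141) (nat_lit 1) (nat_lit 296) (nat_lit 197) (nat_lit 287)) (PT.nd (nat_lit 78) (PT.lf (nat_lit 11096) (nat_lit 6) (nat_lit 146) (nat_lit 3) (nat_lit 287) (nat_lit 198) (nat_lit 295)) (PT.lf (nat_lit 11172) (nat_lit 6) (nat_lit 147) (nat_lit 3) (nat_lit 288) (nat_lit 198) (nat_lit 294))))))))
noncomputable def pc7 : PT := (PT.nd (nat_lit 162162) (PT.nd (nat_lit 81042) (PT.nd (nat_lit 312) (PT.nd (nat_lit 156) (PT.nd (nat_lit 78) (PT.lf (nat_lit 11248) (nat_lit 6) (nat_lit 148) (nat_lit 3) (nat_lit 289) (nat_lit 198) (nat_lit 293)) (PT.lf (nat_lit 11324) (nat_lit 6) (nat_lit 149) (nat_lit 3) (nat_lit 290) (nat_lit 198) (nat_lit 292))) (PT.nd (nat_lit 78) (PT.lf (nat_lit 11400) (nat_lit 3) (nat_lit 150) (nat_lit 1) (nat_lit 291) (nat_lit 198) (nat_lit 291)) (PT.lf (nat_lit 11324) (nat_lit 6) (nat_lit 149) (nat_lit 1) (nat_lit 292) (nat_lit 198) (nat_lit 290)))) (PT.nd (nat_lit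 156) (PT.nd (nat_lit 78) (PT.lf (nat_lit 11248) (nat_lit 6) (nat_lit 148) (nat_lit 1) (nat_lit 293) (nat_lit 198) (nat_lit 289)) (PT.lf (nat_lit 11172) (nat_lit 6) (nat_lit 147) (nat_lit 1) (nat_lit 294) (nat_lit 198) (nat_lit 288))) (PT.nd (nat_lit 80496) (PT.lf (nat_lit 11096) (nat_lit 6) (nat_lit 146) (nat_lit 1) (nat_lit 295) (nat_lit 198) (nat_lit 287)) (PT.lf (nat_lit 11476) (nat_lit 6) (nat_lit 151) (nat_lit 3) (nat_lit 286) (nat_lit 199) (nat_lit 295))))) (PT.nd (nat_lit 312) (PT.nd (nat_lit 156) (PT.nd (nat_lit 78) (PT.lf (nat_lit 11552) (nat_lit 6) (nat_lit 152) (nat_lit 3) (nat_lit 287) (nat_lit 199) (nat_lit 294)) (PT.lf (nat_lit 11628) (nat_lit 6) (nat_lit 153) (nat_lit 3) (nat_lit 288) (nat_lit 199) (nat_lit 293))) (PT.nd (nat_lit 78) (PT.lf (nat_lit 11704) (nat_lit 6) (nat_lit 154) (nat_lit 3) (nat_lit 289) (nat_lit 199) (nat_lit 292)) (PT.lf (nat_lit 11780) (nat_lit 6) (nat_lit 155) (nat_lit 3) (nat_lit 290) (nat_lit 199) (nat_lit 291)))) (PT.nd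 (nat_lit 156) (PT.nd (nat_lit 78) (PT.lf (nat_lit 11780) (nat_lit 6) (nat_lit 155) (nat_lit 1) (nat_lit 291) (nat_lit 199) (nat_lit 290)) (PT.lf (nat_lit 11704) (nat_lit 6) (nat_lit 154) (nat_lit 1) (nat_lit 292) (nat_lit 199) (nat_lit 289))) (PT.nd (nat_lit 78) (PT.lf (nat_lit 11628) (nat_lit 6) (nat_lit 153) (nat_lit 1) (nat_lit 293) (nat_lit 199) (nat_lit 288)) (PT.nd (nat_lit 78) (PT.lf (nat_lit 11552) (nat_lit 6) (nat_lit 152) (nat_lit 1) (nat_lit 294) (nat_lit 199) (nat_lit 287)) (PT.lf (nat_lit 11476) (nat_lit 6) (nat_lit 151) (nat_lit 1) (nat_lit 295) (nat_lit 199) (nat_lit 286))))))) (PT.nd (nat_lit 624) (PT.nd (nat_lit 312) (PT.nd (nat_lit 156) (PT.nd (nat_lit 78) (PT.lf (nat_lit 11932) (nat_lit 6) (nat_lit 157) (nat_lit 3) (nat_lit 286) (nat_lit 200) (nat_lit 294)) (PT.lf (nat_lit 12008) (nat_lit 6) (nat_lit 158) (nat_lit 3) (nat_lit 287) (nat_lit 200) (nat_lit 293))) (PT.nd (nat_lit 78) (PT.lf (nat_lit 12084) (nat_lit 6) (nat_lit 159) (nat_lit 3) (nat_lit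 288) (nat_lit 200) (nat_lit 292)) (PT.lf (nat_lit 12160) (nat_lit 6) (nat_lit 160) (nat_lit 3) (nat_lit 289) (nat_lit 200) (nat_lit 291)))) (PT.nd (nat_lit 156) (PT.nd (nat_lit 78) (PT.lf (nat_lit 12236) (nat_lit 3) (nat_lit 161) (nat_lit 1) (nat_lit 290) (nat_lit 200) (nat_lit 290)) (PT.lf (nat_lit 12160) (nat_lit 6) (nat_lit 160) (nat_lit 1) (nat_lit 291) (nat_lit 200) (nat_lit 289))) (PT.nd (nat_lit 78) (PT.lf (nat_lit 12084) (nat_lit 6) (nat_lit 159) (nat_lit 1) (nat_lit 292) (nat_lit 200) (nat_lit 288)) (PT.lf (nat_lit 12008) (nat_lit 6) (nat_lit 158) (nat_lit 1) (nat_lit 293) (nat_lit 200) (nat_lit 287))))) (PT.nd (nat_lit 80730) (PT.nd (nat_lit 80574) (PT.nd (nat_lit 80496) (PT.lf (nat_lit 11932) (nat_lit 6) (nat_lit 157) (nat_lit 1) (nat_lit 294) (nat_lit 200) (nat_lit 286)) (PT.lf (nat_lit 12312) (nat_lit 6) (nat_lit 162) (nat_lit 3) (nat_lit 285) (nat_lit 201) (nat_lit 294))) (PT.nd (nat_lit 78) (PT.lf (nat_lit 12388) (nat_lit 6) (nat_lit 163) (nat_lit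 3) (nat_lit 286) (nat_lit 201) (nat_lit 293)) (PT.lf (nat_lit 12464) (nat_lit 6) (nat_lit 164) (nat_lit 3) (nat_lit 287) (nat_lit 201) (nat_lit 292)))) (PT.nd (nat_lit 156) (PT.nd (nat_lit 78) (PT.lf (nat_lit 12540) (nat_lit 6) (nat_lit 165) (nat_lit 3) (nat_lit 288) (nat_lit 201) (nat_lit 291)) (PT.lf (nat_lit 12616) (nat_lit 6) (nat_lit 166) (nat_lit 3) (nat_lit 289) (nat_lit 201) (nat_lit 290))) (PT.nd (nat_lit 78) (PT.lf (nat_lit 12616) (nat_lit 6) (nat_lit 166) (nat_lit 1) (nat_lit 290) (nat_lit 201) (nat_lit 289)) (PT.nd (nat_lit 78) (PT.lf (nat_lit 12540) (nat_lit 6) (nat_lit 165) (nat_lit 1) (nat_lit 291) (nat_lit 201) (nat_lit 288)) (PT.lf (nat_lit 12464) (nat_lit 6) (nat_lit 164) (nat_lit 1) (nat_lit 292) (nat_lit 201) (nat_lit 287))))))))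
noncomputable def pc8 : PT := (PT.nd (nat_lit 161928) (PT.nd (nat_lit 80964) (PT.nd (nat_lit 80652) (PT.nd (nat_lit 80496) (PT.nd (nat_lit 78) (PT.lf (nat_lit 12388) (nat_lit 6) (nat_lit 163) (nat_lit 1) (nat_lit 293) (nat_lit 201) (nat_lit 286)) (PT.lf (nat_lit 12312) (nat_lit 6) (nat_lit 162) (nat_lit 1) (nat_lit 294) (nat_lit 201) (nat_lit 285))) (PT.nd (nat_lit 78) (PT.lf (nat_lit 12692) (nat_lit 6) (nat_lit 167) (nat_lit 3) (nat_lit 284) (nat_lit 202) (nat_lit 294)) (PT.lf (nat_lit 12768) (nat_lit 6) (nat_lit 168) (nat_lit 3) (nat_lit 285) (nat_lit 202) (nat_lit 293)))) (PT.nd (nat_lit 156) (PT.nd (nat_lit 78) (PT.lf (nat_lit 12844) (nat_lit 6) (nat_lit 169) (nat_lit 3) (nat_lit 286) (nat_lit 202) (nat_lit 292)) (PT.lf (nat_lit 12920) (nat_lit 6) (nat_lit 170) (nat_lit 3) (nat_lit 287) (nat_lit 202) (nat_lit 291))) (PT.nd (nat_lit 78) (PT.lf (nat_lit 12996) (nat_lit 6) (nat_lit 171) (nat_lit 3) (nat_lit 288) (nat_lit 202) (nat_lit 290)) (PT.lf (nat_lit 13072)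 (nat_lit 3) (nat_lit 172) (nat_lit 1) (nat_lit 289) (nat_lit 202) (nat_lit 289))))) (PT.nd (nat_lit 312) (PT.nd (nat_lit 156) (PT.nd (nat_lit 78) (PT.lf (nat_lit 12996) (nat_lit 6) (nat_lit 171) (nat_lit 1) (nat_lit 290) (nat_lit 202) (nat_lit 288)) (PT.lf (nat_lit 12920) (nat_lit 6) (nat_lit 170) (nat_lit 1) (nat_lit 291) (nat_lit 202) (nat_lit 287))) (PT.nd (nat_lit 78) (PT.lf (nat_lit 12844) (nat_lit 6) (nat_lit 169) (nat_lit 1) (nat_lit 292) (nat_lit 202) (nat_lit 286)) (PT.lf (nat_lit 12768) (nat_lit 6) (nat_lit 168) (nat_lit 1) (nat_lit 293) (nat_lit 202) (nat_lit 285)))) (PT.nd (nat_lit 80496) (PT.nd (nat_lit 80418) (PT.lf (nat_lit 12692) (nat_lit 6) (nat_lit 167) (nat_lit 1) (nat_lit 294) (nat_lit 202) (nat_lit 284)) (PT.lf (nat_lit 13148) (nat_lit 6) (nat_lit 173) (nat_lit 3) (nat_lit 284) (nat_lit 203) (nat_lit 293))) (PT.nd (nat_lit 78) (PT.lf (nat_lit 13224) (nat_lit 6) (nat_lit 174) (nat_lit 3) (nat_lit 285) (nat_lit 203) (nat_lit 292)) (PT.lf (nat_lit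 13300) (nat_lit 6) (nat_lit 175) (nat_lit 3) (nat_lit 286) (nat_lit 203) (nat_lit 291)))))) (PT.nd (nat_lit 80964) (PT.nd (nat_lit 312) (PT.nd (nat_lit 156) (PT.nd (nat_lit 78) (PT.lf (nat_lit 13376) (nat_lit 6) (nat_lit 176) (nat_lit 3) (nat_lit 287) (nat_lit 203) (nat_lit 290)) (PT.lf (nat_lit 13452) (nat_lit 6) (nat_lit 177) (nat_lit 3) (nat_lit 288) (nat_lit 203) (nat_lit 289))) (PT.nd (nat_lit 78) (PT.lf (nat_lit 13452) (nat_lit 6) (nat_lit 177) (nat_lit 1) (nat_lit 289) (nat_lit 203) (nat_lit 288)) (PT.lf (nat_lit 13376) (nat_lit 6) (nat_lit 176) (nat_lit 1) (nat_lit 290) (nat_lit 203) (nat_lit 287)))) (PT.nd (nat_lit 156) (PT.nd (nat_lit 78) (PT.lf (nat_lit 13300) (nat_lit 6) (nat_lit 175) (nat_lit 1) (nat_lit 291) (nat_lit 203) (nat_lit 286)) (PT.lf (nat_lit 13224) (nat_lit 6) (nat_lit 174) (nat_lit 1) (nat_lit 292) (nat_lit 203) (nat_lit 285))) (PT.nd (nat_lit 80418) (PT.lf (nat_lit 13148) (nat_lit 6) (nat_lit 173) (nat_lit 1) (nat_lit 293) (nat_lit 203)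 (nat_lit 284)) (PT.lf (nat_lit 13528) (nat_lit 6) (nat_lit 178) (nat_lit 3) (nat_lit 283) (nat_lit 204) (nat_lit 293))))) (PT.nd (nat_lit 312) (PT.nd (nat_lit 156) (PT.nd (nat_lit 78) (PT.lf (nat_lit 13604) (nat_lit 6) (nat_lit 179) (nat_lit 3) (nat_lit 284) (nat_lit 204) (nat_lit 292)) (PT.lf (nat_lit 13680) (nat_lit 6) (nat_lit 180) (nat_lit 3) (nat_lit 285) (nat_lit 204) (nat_lit 291))) (PT.nd (nat_lit 78) (PT.lf (nat_lit 13756) (nat_lit 6) (nat_lit 181) (nat_lit 3) (nat_lit 286) (nat_lit 204) (nat_lit 290)) (PT.lf (nat_lit 13832) (nat_lit 6) (nat_lit 182) (nat_lit 3) (nat_lit 287) (nat_lit 204) (nat_lit 289)))) (PT.nd (nat_lit 156) (PT.nd (nat_lit 78) (PT.lf (nat_lit 13908) (nat_lit 3) (nat_lit 183) (nat_lit 1) (nat_lit 288) (nat_lit 204) (nat_lit 288)) (PT.lf (nat_lit 13832) (nat_lit 6) (nat_lit 182) (nat_lit 1) (nat_lit 289) (nat_lit 204) (nat_lit 287))) (PT.nd (nat_lit 78) (PT.lf (nat_lit 13756) (nat_lit 6) (nat_lit 181) (nat_lit 1) (nat_lit 290) (nat_lit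 204) (nat_lit 286)) (PT.nd (nat_lit 78) (PT.lf (nat_lit 13680) (nat_lit 6) (nat_lit 180) (nat_lit 1) (nat_lit 291) (nat_lit 204) (nat_lit 285)) (PT.lf (nat_lit 13604) (nat_lit 6) (nat_lit 179) (nat_lit 1) (nat_lit 292) (nat_lit 204) (nat_lit 284))))))))
noncomputable def pc9 : PT := (PT.nd (nat_lit 161850) (PT.nd (nat_lit 80886) (PT.nd (nat_lit 80574) (PT.nd (nat_lit 80418) (PT.nd (nat_lit 80340) (PT.lf (nat_lit 13528) (nat_lit 6) (nat_lit 178) (nat_lit 1) (nat_lit 293) (nat_lit 204) (nat_lit 283)) (PT.lf (nat_lit 13984) (nat_lit 6) (nat_lit 184) (nat_lit 3) (nat_lit 282) (nat_lit 205) (nat_lit 293))) (PT.nd (nat_lit 78) (PT.lf (nat_lit 14060) (nat_lit 6) (nat_lit 185) (nat_lit 3) (nat_lit 283) (nat_lit 205) (nat_lit 292)) (PT.lf (nat_lit 14136) (nat_lit 6) (nat_lit 186) (nat_lit 3) (nat_lit 284) (nat_lit 205) (nat_lit 291)))) (PT.nd (nat_lit 156) (PT.nd (nat_lit 78) (PT.lf (nat_lit 14212) (nat_lit 6) (nat_lit 187) (nat_lit 3) (nat_lit 285) (nat_lit 205) (nat_lit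 290)) (PT.lf (nat_lit 14288) (nat_lit 6) (nat_lit 188) (nat_lit 3) (nat_lit 286) (nat_lit 205) (nat_lit 289))) (PT.nd (nat_lit 78) (PT.lf (nat_lit 14364) (nat_lit 6) (nat_lit 189) (nat_lit 3) (nat_lit 287) (nat_lit 205) (nat_lit 288)) (PT.lf (nat_lit 14364) (nat_lit 6) (nat_lit 189) (nat_lit 1) (nat_lit 288) (nat_lit 205) (nat_lit 287))))) (PT.nd (nat_lit 312) (PT.nd (nat_lit 156) (PT.nd (nat_lit 78) (PT.lf (nat_lit 14288) (nat_lit 6) (nat_lit 188) (nat_lit 1) (nat_lit 289) (nat_lit 205) (nat_lit 286)) (PT.lf (nat_lit 14212) (nat_lit 6) (nat_lit 187) (nat_lit 1) (nat_lit 290) (nat_lit 205) (nat_lit 285))) (PT.nd (nat_lit 78) (PT.lf (nat_lit 14136) (nat_lit 6) (nat_lit 186) (nat_lit 1) (nat_lit 291) (nat_lit 205) (nat_lit 284)) (PT.lf (nat_lit 14060) (nat_lit 6) (nat_lit 185) (nat_lit 1) (nat_lit 292) (nat_lit 205) (nat_lit 283)))) (PT.nd (nat_lit 80418) (PT.nd (nat_lit 80340) (PT.lf (nat_lit 13984) (nat_lit 6) (nat_lit 184) (nat_lit 1) (nat_lit 293) (nat_lit 205)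 (nat_lit 282)) (PT.lf (nat_lit 14440) (nat_lit 6) (nat_lit 190) (nat_lit 3) (nat_lit 282) (nat_lit 206) (nat_lit 292))) (PT.nd (nat_lit 78) (PT.lf (nat_lit 14516) (nat_lit 6) (nat_lit 191) (nat_lit 3) (nat_lit 283) (nat_lit 206) (nat_lit 291)) (PT.nd (nat_lit 78) (PT.lf (nat_lit 14592) (nat_lit 6) (nat_lit 192) (nat_lit 3) (nat_lit 284) (nat_lit 206) (nat_lit 290)) (PT.lf (nat_lit 14668) (nat_lit 6) (nat_lit 193) (nat_lit 3) (nat_lit 285) (nat_lit 206) (nat_lit 289))))))) (PT.nd (nat_lit 80886) (PT.nd (nat_lit 312) (PT.nd (nat_lit 156) (PT.nd (nat_lit 78) (PT.lf (nat_lit 14744) (nat_lit 6) (nat_lit 194) (nat_lit 3) (nat_lit 286) (nat_lit 206) (nat_lit 288)) (PT.lf (nat_lit 14820) (nat_lit 3) (nat_lit 195) (nat_lit 1) (nat_lit 287) (nat_lit 206) (nat_lit 287))) (PT.nd (nat_lit 78) (PT.lf (nat_lit 14744) (nat_lit 6) (nat_lit 194) (nat_lit 1) (nat_lit 288) (nat_lit 206) (nat_lit 286)) (PT.lf (nat_lit 14668) (nat_lit 6) (nat_lit 193) (nat_lit 1) (nat_lit 289) (nat_lit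 206) (nat_lit 285)))) (PT.nd (nat_lit 156) (PT.nd (nat_lit 78) (PT.lf (nat_lit 14592) (nat_lit 6) (nat_lit 192) (nat_lit 1) (nat_lit 290) (nat_lit 206) (nat_lit 284)) (PT.lf (nat_lit 14516) (nat_lit 6) (nat_lit 191) (nat_lit 1) (nat_lit 291) (nat_lit 206) (nat_lit 283))) (PT.nd (nat_lit 80340) (PT.lf (nat_lit 14440) (nat_lit 6) (nat_lit 190) (nat_lit 1) (nat_lit 292) (nat_lit 206) (nat_lit 282)) (PT.lf (nat_lit 14896) (nat_lit 6) (nat_lit 196) (nat_lit 3) (nat_lit 281) (nat_lit 207) (nat_lit 292))))) (PT.nd (nat_lit 312) (PT.nd (nat_lit 156) (PT.nd (nat_lit 78) (PT.lf (nat_lit 14972) (nat_lit 6) (nat_lit 197) (nat_lit 3) (nat_lit 282) (nat_lit 207) (nat_lit 291)) (PT.lf (nat_lit 15048) (nat_lit 6) (nat_lit 198) (nat_lit 3) (nat_lit 283) (nat_lit 207) (nat_lit 290))) (PT.nd (nat_lit 78) (PT.lf (nat_lit 15124) (nat_lit 6) (nat_lit 199) (nat_lit 3) (nat_lit 284) (nat_lit 207) (nat_lit 289)) (PT.lf (nat_lit 15200) (nat_lit 6) (nat_lit 200) (nat_lit 3) (nat_lit 285)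 (nat_lit 207) (nat_lit 288)))) (PT.nd (nat_lit 156) (PT.nd (nat_lit 78) (PT.lf (nat_lit 15276) (nat_lit 6) (nat_lit 201) (nat_lit 3) (nat_lit 286) (nat_lit 207) (nat_lit 287)) (PT.lf (nat_lit 15276) (nat_lit 6) (nat_lit 201) (nat_lit 1) (nat_lit 287) (nat_lit 207) (nat_lit 286))) (PT.nd (nat_lit 78) (PT.lf (nat_lit 15200) (nat_lit 6) (nat_lit 200) (nat_lit 1) (nat_lit 288) (nat_lit 207) (nat_lit 285)) (PT.nd (nat_lit 78) (PT.lf (nat_lit 15124) (nat_lit 6) (nat_lit 199) (nat_lit 1) (nat_lit 289) (nat_lit 207) (nat_lit 284)) (PT.lf (nat_lit 15048) (nat_lit 6) (nat_lit 198) (nat_lit 1) (nat_lit 290) (nat_lit 207) (nat_lit 283))))))))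
noncomputable def pc10 : PT := (PT.nd (nat_lit 161694) (PT.nd (nat_lit 80808) (PT.nd (nat_lit 80496) (PT.nd (nat_lit 80340) (PT.nd (nat_lit 78) (PT.lf (nat_lit 14972) (nat_lit 6) (nat_lit 197) (nat_lit 1) (nat_lit 291) (nat_lit 207) (nat_lit 282)) (PT.lf (nat_lit 14896) (nat_lit 6) (nat_lit 196) (nat_lit 1) (nat_lit 292) (nat_lit 207) (nat_lit 281))) (PT.nd (nat_lit 78) (PT.lf (nat_lit 15352) (nat_lit 6) (nat_lit 202) (nat_lit 3) (nat_lit 280) (nat_lit 208) (nat_lit 292)) (PT.lf (nat_lit 15428) (nat_lit 6) (nat_lit 203) (nat_lit 3) (nat_lit 281) (nat_lit 208) (nat_lit 291)))) (PT.nd (nat_lit 156) (PT.nd (nat_lit 78) (PT.lf (nat_lit 15504) (nat_lit 6) (nat_lit 204) (nat_lit 3) (nat_lit 282) (nat_lit 208) (nat_lit 290)) (PT.lf (nat_lit 15580) (nat_lit 6) (nat_lit 205) (nat_lit 3) (nat_lit 283) (nat_lit 208) (nat_lit 289))) (PT.nd (nat_lit 78) (PT.lf (nat_lit 15656) (nat_lit 6) (nat_lit 206) (nat_lit 3) (nat_lit 284) (nat_lit 208) (nat_lit 288)) (PT.lf (nat_lit 15732)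 (nat_lit 6) (nat_lit 207) (nat_lit 3) (nat_lit 285) (nat_lit 208) (nat_lit 287))))) (PT.nd (nat_lit 312) (PT.nd (nat_lit 156) (PT.nd (nat_lit 78) (PT.lf (nat_lit 15808) (nat_lit 3) (nat_lit 208) (nat_lit 1) (nat_lit 286) (nat_lit 208) (nat_lit 286)) (PT.lf (nat_lit 15732) (nat_lit 6) (nat_lit 207) (nat_lit 1) (nat_lit 287) (nat_lit 208) (nat_lit 285))) (PT.nd (nat_lit 78) (PT.lf (nat_lit 15656) (nat_lit 6) (nat_lit 206) (nat_lit 1) (nat_lit 288) (nat_lit 208) (nat_lit 284)) (PT.lf (nat_lit 15580) (nat_lit 6) (nat_lit 205) (nat_lit 1) (nat_lit 289) (nat_lit 208) (nat_lit 283)))) (PT.nd (nat_lit 156) (PT.nd (nat_lit 78) (PT.lf (nat_lit 15504) (nat_lit 6) (nat_lit 204) (nat_lit 1) (nat_lit 290) (nat_lit 208) (nat_lit 282)) (PT.lf (nat_lit 15428) (nat_lit 6) (nat_lit 203) (nat_lit 1) (nat_lit 291) (nat_lit 208) (nat_lit 281))) (PT.nd (nat_lit 80262) (PT.lf (nat_lit 15352) (nat_lit 6) (nat_lit 202) (nat_lit 1) (nat_lit 292) (nat_lit 208) (nat_lit 280)) (PT.nd (nat_lit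 78) (PT.lf (nat_lit 15884) (nat_lit 6) (nat_lit 209) (nat_lit 3) (nat_lit 280) (nat_lit 209) (nat_lit 291)) (PT.lf (nat_lit 15960) (nat_lit 6) (nat_lit 210) (nat_lit 3) (nat_lit 281) (nat_lit 209) (nat_lit 290))))))) (PT.nd (nat_lit 624) (PT.nd (nat_lit 312) (PT.nd (nat_lit 156) (PT.nd (nat_lit 78) (PT.lf (nat_lit 16036) (nat_lit 6) (nat_lit 211) (nat_lit 3) (nat_lit 282) (nat_lit 209) (nat_lit 289)) (PT.lf (nat_lit 16112) (nat_lit 6) (nat_lit 212) (nat_lit 3) (nat_lit 283) (nat_lit 209) (nat_lit 288))) (PT.nd (nat_lit 78) (PT.lf (nat_lit 16188) (nat_lit 6) (nat_lit 213) (nat_lit 3) (nat_lit 284) (nat_lit 209) (nat_lit 287)) (PT.lf (nat_lit 16264) (nat_lit 6) (nat_lit 214) (nat_lit 3) (nat_lit 285) (nat_lit 209) (nat_lit 286)))) (PT.nd (nat_lit 156) (PT.nd (nat_lit 78) (PT.lf (nat_lit 16264) (nat_lit 6) (nat_lit 214) (nat_lit 1) (nat_lit 286) (nat_lit 209) (nat_lit 285)) (PT.lf (nat_lit 16188) (nat_lit 6) (nat_lit 213) (nat_lit 1) (nat_lit 287) (nat_lit 209) (nat_lit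 284))) (PT.nd (nat_lit 78) (PT.lf (nat_lit 16112) (nat_lit 6) (nat_lit 212) (nat_lit 1) (nat_lit 288) (nat_lit 209) (nat_lit 283)) (PT.lf (nat_lit 16036) (nat_lit 6) (nat_lit 211) (nat_lit 1) (nat_lit 289) (nat_lit 209) (nat_lit 282))))) (PT.nd (nat_lit 80496) (PT.nd (nat_lit 80340) (PT.nd (nat_lit 78) (PT.lf (nat_lit 15960) (nat_lit 6) (nat_lit 210) (nat_lit 1) (nat_lit 290) (nat_lit 209) (nat_lit 281)) (PT.lf (nat_lit 15884) (nat_lit 6) (nat_lit 209) (nat_lit 1) (nat_lit 291) (nat_lit 209) (nat_lit 280))) (PT.nd (nat_lit 78) (PT.lf (nat_lit 16340) (nat_lit 6) (nat_lit 215) (nat_lit 3) (nat_lit 279) (nat_lit 210) (nat_lit 291)) (PT.lf (nat_lit 16416) (nat_lit 6) (nat_lit 216) (nat_lit 3) (nat_lit 280) (nat_lit 210) (nat_lit 290)))) (PT.nd (nat_lit 156) (PT.nd (nat_lit 78) (PT.lf (nat_lit 16492) (nat_lit 6) (nat_lit 217) (nat_lit 3) (nat_lit 281) (nat_lit 210) (nat_lit 289)) (PT.lf (nat_lit 16568) (nat_lit 6) (nat_lit 218) (nat_lit 3) (nat_lit 282) (nat_lit 210)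 (nat_lit 288))) (PT.nd (nat_lit 78) (PT.lf (nat_lit 16644) (nat_lit 6) (nat_lit 219) (nat_lit 3) (nat_lit 283) (nat_lit 210) (nat_lit 287)) (PT.nd (nat_lit 78) (PT.lf (nat_lit 16720) (nat_lit 6) (nat_lit 220) (nat_lit 3) (nat_lit 284) (nat_lit 210) (nat_lit 286)) (PT.lf (nat_lit 16796) (nat_lit 3) (nat_lit 221) (nat_lit 1) (nat_lit 285) (nat_lit 210) (nat_lit 285))))))))
noncomputable def pc11 : PT := (PT.nd (nat_lit 81432) (PT.nd (nat_lit 80730) (PT.nd (nat_lit 312) (PT.nd (nat_lit 156) (PT.nd (nat_lit 78) (PT.lf (nat_lit 16720) (nat_lit 6) (nat_lit 220) (nat_lit 1) (nat_lit 286) (nat_lit 210) (nat_lit 284)) (PT.lf (nat_lit 16644) (nat_lit 6) (nat_lit 219) (nat_lit 1) (nat_lit 287) (nat_lit 210) (nat_lit 283))) (PT.nd (nat_lit 78) (PT.lf (nat_lit 16568) (nat_lit 6) (nat_lit 218) (nat_lit 1) (nat_lit 288) (nat_lit 210) (nat_lit 282)) (PT.lf (nat_lit 16492) (nat_lit 6) (nat_lit 217) (nat_lit 1) (nat_lit 289) (nat_lit 210) (nat_lit 281)))) (PT.nd (nat_lit 80262)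 (PT.nd (nat_lit 78) (PT.lf (nat_lit 16416) (nat_lit 6) (nat_lit 216) (nat_lit 1) (nat_lit 290) (nat_lit 210) (nat_lit 280)) (PT.lf (nat_lit 16340) (nat_lit 6) (nat_lit 215) (nat_lit 1) (nat_lit 291) (nat_lit 210) (nat_lit 279))) (PT.nd (nat_lit 78) (PT.lf (nat_lit 16872) (nat_lit 6) (nat_lit 222) (nat_lit 3) (nat_lit 278) (nat_lit 211) (nat_lit 291)) (PT.lf (nat_lit 16948) (nat_lit 6) (nat_lit 223) (nat_lit 3) (nat_lit 279) (nat_lit 211) (nat_lit 290))))) (PT.nd (nat_lit 312) (PT.nd (nat_lit 156) (PT.nd (nat_lit 78) (PT.lf (nat_lit 17024) (nat_lit 6) (nat_lit 224) (nat_lit 3) (nat_lit 280) (nat_lit 211) (nat_lit 289)) (PT.lf (nat_lit 17100) (nat_lit 6) (nat_lit 225) (nat_lit 3) (nat_lit 281) (nat_lit 211) (nat_lit 288))) (PT.nd (nat_lit 78) (PT.lf (nat_lit 17176) (nat_lit 6) (nat_lit 226) (nat_lit 3) (nat_lit 282) (nat_lit 211) (nat_lit 287)) (PT.lf (nat_lit 17252) (nat_lit 6) (nat_lit 227) (nat_lit 3) (nat_lit 283) (nat_lit 211) (nat_lit 286)))) (PT.nd (nat_lit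 156) (PT.nd (nat_lit 78) (PT.lf (nat_lit 17328) (nat_lit 6) (nat_lit 228) (nat_lit 3) (nat_lit 284) (nat_lit 211) (nat_lit 285)) (PT.lf (nat_lit 17328) (nat_lit 6) (nat_lit 228) (nat_lit 1) (nat_lit 285) (nat_lit 211) (nat_lit 284))) (PT.nd (nat_lit 78) (PT.lf (nat_lit 17252) (nat_lit 6) (nat_lit 227) (nat_lit 1) (nat_lit 286) (nat_lit 211) (nat_lit 283)) (PT.nd (nat_lit 78) (PT.lf (nat_lit 17176) (nat_lit 6) (nat_lit 226) (nat_lit 1) (nat_lit 287) (nat_lit 211) (nat_lit 282)) (PT.lf (nat_lit 17100) (nat_lit 6) (nat_lit 225) (nat_lit 1) (nat_lit 288) (nat_lit 211) (nat_lit 281))))))) (PT.nd (nat_lit 80730) (PT.nd (nat_lit 80418) (PT.nd (nat_lit 156) (PT.nd (nat_lit 78) (PT.lf (nat_lit 17024) (nat_lit 6) (nat_lit 224) (nat_lit 1) (nat_lit 289) (nat_lit 211) (nat_lit 280)) (PT.lf (nat_lit 16948) (nat_lit 6) (nat_lit 223) (nat_lit 1) (nat_lit 290) (nat_lit 211) (nat_lit 279))) (PT.nd (nat_lit 80184) (PT.lf (nat_lit 16872) (nat_lit 6) (nat_lit 222) (nat_lit 1) (nat_lit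 291) (nat_lit 211) (nat_lit 278)) (PT.lf (nat_lit 17404) (nat_lit 6) (nat_lit 229) (nat_lit 3) (nat_lit 278) (nat_lit 212) (nat_lit 290)))) (PT.nd (nat_lit 156) (PT.nd (nat_lit 78) (PT.lf (nat_lit 17480) (nat_lit 6) (nat_lit 230) (nat_lit 3) (nat_lit 279) (nat_lit 212) (nat_lit 289)) (PT.lf (nat_lit 17556) (nat_lit 6) (nat_lit 231) (nat_lit 3) (nat_lit 280) (nat_lit 212) (nat_lit 288))) (PT.nd (nat_lit 78) (PT.lf (nat_lit 17632) (nat_lit 6) (nat_lit 232) (nat_lit 3) (nat_lit 281) (nat_lit 212) (nat_lit 287)) (PT.lf (nat_lit 17708) (nat_lit 6) (nat_lit 233) (nat_lit 3) (nat_lit 282) (nat_lit 212) (nat_lit 286))))) (PT.nd (nat_lit 312) (PT.nd (nat_lit 156) (PT.nd (nat_lit 78) (PT.lf (nat_lit 17784) (nat_lit 6) (nat_lit 234) (nat_lit 3) (nat_lit 283) (nat_lit 212) (nat_lit 285)) (PT.lf (nat_lit 17860) (nat_lit 3) (nat_lit 235) (nat_lit 1) (nat_lit 284) (nat_lit 212) (nat_lit 284))) (PT.nd (nat_lit 78) (PT.lf (nat_lit 17784) (nat_lit 6) (nat_lit 234) (nat_lit 1) (nat_lit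 285) (nat_lit 212) (nat_lit 283)) (PT.lf (nat_lit 17708) (nat_lit 6) (nat_lit 233) (nat_lit 1) (nat_lit 286) (nat_lit 212) (nat_lit 282)))) (PT.nd (nat_lit 156) (PT.nd (nat_lit 78) (PT.lf (nat_lit 17632) (nat_lit 6) (nat_lit 232) (nat_lit 1) (nat_lit 287) (nat_lit 212) (nat_lit 281)) (PT.lf (nat_lit 17556) (nat_lit 6) (nat_lit 231) (nat_lit 1) (nat_lit 288) (nat_lit 212) (nat_lit 280))) (PT.nd (nat_lit 78) (PT.lf (nat_lit 17480) (nat_lit 6) (nat_lit 230) (nat_lit 1) (nat_lit 289) (nat_lit 212) (nat_lit 279)) (PT.nd (nat_lit 80184) (PT.lf (nat_lit 17404) (nat_lit 6) (nat_lit 229) (nat_lit 1) (nat_lit 290) (nat_lit 212) (nat_lit 278)) (PT.lf (nat_lit 17936) (nat_lit 6) (nat_lit 236) (nat_lit 3) (nat_lit 277) (nat_lit 213) (nat_lit 290))))))))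
noncomputable def pc12 : PT := (PT.nd (nat_lit 81354) (PT.nd (nat_lit 624) (PT.nd (nat_lit 312) (PT.nd (nat_lit 156) (PT.nd (nat_lit 78) (PT.lf (nat_lit 18012) (nat_lit 6) (nat_lit 237) (nat_lit 3) (nat_lit 278) (nat_lit 213) (nat_lit 289)) (PT.lf (nat_lit 18088) (nat_lit 6) (nat_lit 238) (nat_lit 3) (nat_lit 279) (nat_lit 213) (nat_lit 288))) (PT.nd (nat_lit 78) (PT.lf (nat_lit 18164) (nat_lit 6) (nat_lit 239) (nat_lit 3) (nat_lit 280) (nat_lit 213) (nat_lit 287)) (PT.lf (nat_lit 18240) (nat_lit 6) (nat_lit 240) (nat_lit 3) (nat_lit 281) (nat_lit 213) (nat_lit 286)))) (PT.nd (nat_lit 156) (PT.nd (nat_lit 78) (PT.lf (nat_lit 18316) (nat_lit 6) (nat_lit 241) (nat_lit 3) (nat_lit 282) (nat_lit 213) (nat_lit 285)) (PT.lf (nat_lit 18392) (nat_lit 6) (nat_lit 242) (nat_lit 3) (nat_lit 283) (nat_lit 213) (nat_lit 284))) (PT.nd (nat_lit 78) (PT.lf (nat_lit 18392) (nat_lit 6) (nat_lit 242) (nat_lit 1) (nat_lit 284) (nat_lit 213) (nat_lit 283)) (PT.lf (nat_lit 18316) (nat_lit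 6) (nat_lit 241) (nat_lit 1) (nat_lit 285) (nat_lit 213) (nat_lit 282))))) (PT.nd (nat_lit 312) (PT.nd (nat_lit 156) (PT.nd (nat_lit 78) (PT.lf (nat_lit 18240) (nat_lit 6) (nat_lit 240) (nat_lit 1) (nat_lit 286) (nat_lit 213) (nat_lit 281)) (PT.lf (nat_lit 18164) (nat_lit 6) (nat_lit 239) (nat_lit 1) (nat_lit 287) (nat_lit 213) (nat_lit 280))) (PT.nd (nat_lit 78) (PT.lf (nat_lit 18088) (nat_lit 6) (nat_lit 238) (nat_lit 1) (nat_lit 288) (nat_lit 213) (nat_lit 279)) (PT.lf (nat_lit 18012) (nat_lit 6) (nat_lit 237) (nat_lit 1) (nat_lit 289) (nat_lit 213) (nat_lit 278)))) (PT.nd (nat_lit 80184) (PT.nd (nat_lit 80106) (PT.lf (nat_lit 17936) (nat_lit 6) (nat_lit 236) (nat_lit 1) (nat_lit 290) (nat_lit 213) (nat_lit 277)) (PT.lf (nat_lit 18468) (nat_lit 6) (nat_lit 243) (nat_lit 3) (nat_lit 276) (nat_lit 214) (nat_lit 290))) (PT.nd (nat_lit 78) (PT.lf (nat_lit 18544) (nat_lit 6) (nat_lit 244) (nat_lit 3) (nat_lit 277) (nat_lit 214) (nat_lit 289)) (PT.nd (nat_lit 78)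 (PT.lf (nat_lit 18620) (nat_lit 6) (nat_lit 245) (nat_lit 3) (nat_lit 278) (nat_lit 214) (nat_lit 288)) (PT.lf (nat_lit 18696) (nat_lit 6) (nat_lit 246) (nat_lit 3) (nat_lit 279) (nat_lit 214) (nat_lit 287))))))) (PT.nd (nat_lit 624) (PT.nd (nat_lit 312) (PT.nd (nat_lit 156) (PT.nd (nat_lit 78) (PT.lf (nat_lit 18772) (nat_lit 6) (nat_lit 247) (nat_lit 3) (nat_lit 280) (nat_lit 214) (nat_lit 286)) (PT.lf (nat_lit 18848) (nat_lit 6) (nat_lit 248) (nat_lit 3) (nat_lit 281) (nat_lit 214) (nat_lit 285))) (PT.nd (nat_lit 78) (PT.lf (nat_lit 18924) (nat_lit 6) (nat_lit 249) (nat_lit 3) (nat_lit 282) (nat_lit 214) (nat_lit 284)) (PT.lf (nat_lit 19000) (nat_lit 3) (nat_lit 250) (nat_lit 1) (nat_lit 283) (nat_lit 214) (nat_lit 283)))) (PT.nd (nat_lit 156) (PT.nd (nat_lit 78) (PT.lf (nat_lit 18924) (nat_lit 6) (nat_lit 249) (nat_lit 1) (nat_lit 284) (nat_lit 214) (nat_lit 282)) (PT.lf (nat_lit 18848) (nat_lit 6) (nat_lit 248) (nat_lit 1) (nat_lit 285) (nat_lit 214) (nat_lit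 281))) (PT.nd (nat_lit 78) (PT.lf (nat_lit 18772) (nat_lit 6) (nat_lit 247) (nat_lit 1) (nat_lit 286) (nat_lit 214) (nat_lit 280)) (PT.lf (nat_lit 18696) (nat_lit 6) (nat_lit 246) (nat_lit 1) (nat_lit 287) (nat_lit 214) (nat_lit 279))))) (PT.nd (nat_lit 80340) (PT.nd (nat_lit 156) (PT.nd (nat_lit 78) (PT.lf (nat_lit 18620) (nat_lit 6) (nat_lit 245) (nat_lit 1) (nat_lit 288) (nat_lit 214) (nat_lit 278)) (PT.lf (nat_lit 18544) (nat_lit 6) (nat_lit 244) (nat_lit 1) (nat_lit 289) (nat_lit 214) (nat_lit 277))) (PT.nd (nat_lit 80106) (PT.lf (nat_lit 18468) (nat_lit 6) (nat_lit 243) (nat_lit 1) (nat_lit 290) (nat_lit 214) (nat_lit 276)) (PT.lf (nat_lit 19076) (nat_lit 6) (nat_lit 251) (nat_lit 3) (nat_lit 276) (nat_lit 215) (nat_lit 289)))) (PT.nd (nat_lit 156) (PT.nd (nat_lit 78) (PT.lf (nat_lit 19152) (nat_lit 6) (nat_lit 252) (nat_lit 3) (nat_lit 277) (nat_lit 215) (nat_lit 288)) (PT.lf (nat_lit 19228) (nat_lit 6) (nat_lit 253) (nat_lit 3) (nat_lit 278) (nat_lit 215)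 (nat_lit 287))) (PT.nd (nat_lit 78) (PT.lf (nat_lit 19304) (nat_lit 6) (nat_lit 254) (nat_lit 3) (nat_lit 279) (nat_lit 215) (nat_lit 286)) (PT.nd (nat_lit 78) (PT.lf (nat_lit 19380) (nat_lit 6) (nat_lit 255) (nat_lit 3) (nat_lit 280) (nat_lit 215) (nat_lit 285)) (PT.lf (nat_lit 19456) (nat_lit 6) (nat_lit 256) (nat_lit 3) (nat_lit 281) (nat_lit 215) (nat_lit 284))))))))
noncomputable def pc13 : PT := (PT.nd (nat_lit 81354) (PT.nd (nat_lit 80652) (PT.nd (nat_lit 312) (PT.nd (nat_lit 156) (PT.nd (nat_lit 78) (PT.lf (nat_lit 19532) (nat_lit 6) (nat_lit 257) (nat_lit 3) (nat_lit 282) (nat_lit 215) (nat_lit 283)) (PT.lf (nat_lit 19532) (nat_lit 6) (nat_lit 257) (nat_lit 1) (nat_lit 283) (nat_lit 215) (nat_lit 282))) (PT.nd (nat_lit 78) (PT.lf (nat_lit 19456) (nat_lit 6) (nat_lit 256) (nat_lit 1) (nat_lit 284) (nat_lit 215) (nat_lit 281)) (PT.lf (nat_lit 19380) (nat_lit 6) (nat_lit 255) (nat_lit 1) (nat_lit 285) (nat_lit 215) (nat_lit 280)))) (PT.nd (nat_lit 156) (PT.nd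 (nat_lit 78) (PT.lf (nat_lit 19304) (nat_lit 6) (nat_lit 254) (nat_lit 1) (nat_lit 286) (nat_lit 215) (nat_lit 279)) (PT.lf (nat_lit 19228) (nat_lit 6) (nat_lit 253) (nat_lit 1) (nat_lit 287) (nat_lit 215) (nat_lit 278))) (PT.nd (nat_lit 78) (PT.lf (nat_lit 19152) (nat_lit 6) (nat_lit 252) (nat_lit 1) (nat_lit 288) (nat_lit 215) (nat_lit 277)) (PT.lf (nat_lit 19076) (nat_lit 6) (nat_lit 251) (nat_lit 1) (nat_lit 289) (nat_lit 215) (nat_lit 276))))) (PT.nd (nat_lit 312) (PT.nd (nat_lit 156) (PT.nd (nat_lit 78) (PT.lf (nat_lit 19608) (nat_lit 6) (nat_lit 258) (nat_lit 3) (nat_lit 275) (nat_lit 216) (nat_lit 289)) (PT.lf (nat_lit 19684) (nat_lit 6) (nat_lit 259) (nat_lit 3) (nat_lit 276) (nat_lit 216) (nat_lit 288))) (PT.nd (nat_lit 78) (PT.lf (nat_lit 19760) (nat_lit 6) (nat_lit 260) (nat_lit 3) (nat_lit 277) (nat_lit 216) (nat_lit 287)) (PT.lf (nat_lit 19836) (nat_lit 6) (nat_lit 261) (nat_lit 3) (nat_lit 278) (nat_lit 216) (nat_lit 286)))) (PT.nd (nat_lit 156)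 (PT.nd (nat_lit 78) (PT.lf (nat_lit 19912) (nat_lit 6) (nat_lit 262) (nat_lit 3) (nat_lit 279) (nat_lit 216) (nat_lit 285)) (PT.lf (nat_lit 19988) (nat_lit 6) (nat_lit 263) (nat_lit 3) (nat_lit 280) (nat_lit 216) (nat_lit 284))) (PT.nd (nat_lit 78) (PT.lf (nat_lit 20064) (nat_lit 6) (nat_lit 264) (nat_lit 3) (nat_lit 281) (nat_lit 216) (nat_lit 283)) (PT.nd (nat_lit 78) (PT.lf (nat_lit 20140) (nat_lit 3) (nat_lit 265) (nat_lit 1) (nat_lit 282) (nat_lit 216) (nat_lit 282)) (PT.lf (nat_lit 20064) (nat_lit 6) (nat_lit 264) (nat_lit 1) (nat_lit 283) (nat_lit 216) (nat_lit 281))))))) (PT.nd (nat_lit 80574) (PT.nd (nat_lit 312) (PT.nd (nat_lit 156) (PT.nd (nat_lit 78) (PT.lf (nat_lit 19988) (nat_lit 6) (nat_lit 263) (nat_lit 1) (nat_lit 284) (nat_lit 216) (nat_lit 280)) (PT.lf (nat_lit 19912) (nat_lit 6) (nat_lit 262) (nat_lit 1) (nat_lit 285) (nat_lit 216) (nat_lit 279))) (PT.nd (nat_lit 78) (PT.lf (nat_lit 19836) (nat_lit 6) (nat_lit 261) (nat_lit 1) (nat_lit 286)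 (nat_lit 216) (nat_lit 278)) (PT.lf (nat_lit 19760) (nat_lit 6) (nat_lit 260) (nat_lit 1) (nat_lit 287) (nat_lit 216) (nat_lit 277)))) (PT.nd (nat_lit 80106) (PT.nd (nat_lit 78) (PT.lf (nat_lit 19684) (nat_lit 6) (nat_lit 259) (nat_lit 1) (nat_lit 288) (nat_lit 216) (nat_lit 276)) (PT.lf (nat_lit 19608) (nat_lit 6) (nat_lit 258) (nat_lit 1) (nat_lit 289) (nat_lit 216) (nat_lit 275))) (PT.nd (nat_lit 78) (PT.lf (nat_lit 20216) (nat_lit 6) (nat_lit 266) (nat_lit 3) (nat_lit 274) (nat_lit 217) (nat_lit 289)) (PT.lf (nat_lit 20292) (nat_lit 6) (nat_lit 267) (nat_lit 3) (nat_lit 275) (nat_lit 217) (nat_lit 288))))) (PT.nd (nat_lit 312) (PT.nd (nat_lit 156) (PT.nd (nat_lit 78) (PT.lf (nat_lit 20368) (nat_lit 6) (nat_lit 268) (nat_lit 3) (nat_lit 276) (nat_lit 217) (nat_lit 287)) (PT.lf (nat_lit 20444) (nat_lit 6) (nat_lit 269) (nat_lit 3) (nat_lit 277) (nat_lit 217) (nat_lit 286))) (PT.nd (nat_lit 78) (PT.lf (nat_lit 20520) (nat_lit 6) (nat_lit 270) (nat_lit 3) (nat_lit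 278) (nat_lit 217) (nat_lit 285)) (PT.lf (nat_lit 20596) (nat_lit 6) (nat_lit 271) (nat_lit 3) (nat_lit 279) (nat_lit 217) (nat_lit 284)))) (PT.nd (nat_lit 156) (PT.nd (nat_lit 78) (PT.lf (nat_lit 20672) (nat_lit 6) (nat_lit 272) (nat_lit 3) (nat_lit 280) (nat_lit 217) (nat_lit 283)) (PT.lf (nat_lit 20748) (nat_lit 6) (nat_lit 273) (nat_lit 3) (nat_lit 281) (nat_lit 217) (nat_lit 282))) (PT.nd (nat_lit 78) (PT.lf (nat_lit 20748) (nat_lit 6) (nat_lit 273) (nat_lit 1) (nat_lit 282) (nat_lit 217) (nat_lit 281)) (PT.nd (nat_lit 78) (PT.lf (nat_lit 20672) (nat_lit 6) (nat_lit 272) (nat_lit 1) (nat_lit 283) (nat_lit 217) (nat_lit 280)) (PT.lf (nat_lit 20596) (nat_lit 6) (nat_lit 271) (nat_lit 1) (nat_lit 284) (nat_lit 217) (nat_lit 279))))))))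
noncomputable def pc14 : PT := (PT.nd (nat_lit 81276) (PT.nd (nat_lit 80574) (PT.nd (nat_lit 312) (PT.nd (nat_lit 156) (PT.nd (nat_lit 78) (PT.lf (nat_lit 20520) (nat_lit 6) (nat_lit 270) (nat_lit 1) (nat_lit 285) (nat_lit 217) (nat_lit 278)) (PT.lf (nat_lit 20444) (nat_lit 6) (nat_lit 269) (nat_lit 1) (nat_lit 286) (nat_lit 217) (nat_lit 277))) (PT.nd (nat_lit 78) (PT.lf (nat_lit 20368) (nat_lit 6) (nat_lit 268) (nat_lit 1) (nat_lit 287) (nat_lit 217) (nat_lit 276)) (PT.lf (nat_lit 20292) (nat_lit 6) (nat_lit 267) (nat_lit 1) (nat_lit 288) (nat_lit 217) (nat_lit 275)))) (PT.nd (nat_lit 80106) (PT.nd (nat_lit 80028) (PT.lf (nat_lit 20216) (nat_lit 6) (nat_lit 266) (nat_lit 1) (nat_lit 289) (nat_lit 217) (nat_lit 274)) (PT.lf (nat_lit 20900) (nat_lit 6) (nat_lit 275) (nat_lit 3) (nat_lit 274) (nat_lit 218) (nat_lit 288))) (PT.nd (nat_lit 78) (PT.lf (nat_lit 20976) (nat_lit 6) (nat_lit 276) (nat_lit 3) (nat_lit 275) (nat_lit 218) (nat_lit 287)) (PT.lf (nat_lit 21052)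 (nat_lit 6) (nat_lit 277) (nat_lit 3) (nat_lit 276) (nat_lit 218) (nat_lit 286))))) (PT.nd (nat_lit 312) (PT.nd (nat_lit 156) (PT.nd (nat_lit 78) (PT.lf (nat_lit 21128) (nat_lit 6) (nat_lit 278) (nat_lit 3) (nat_lit 277) (nat_lit 218) (nat_lit 285)) (PT.lf (nat_lit 21204) (nat_lit 6) (nat_lit 279) (nat_lit 3) (nat_lit 278) (nat_lit 218) (nat_lit 284))) (PT.nd (nat_lit 78) (PT.lf (nat_lit 21280) (nat_lit 6) (nat_lit 280) (nat_lit 3) (nat_lit 279) (nat_lit 218) (nat_lit 283)) (PT.lf (nat_lit 21356) (nat_lit 6) (nat_lit 281) (nat_lit 3) (nat_lit 280) (nat_lit 218) (nat_lit 282)))) (PT.nd (nat_lit 156) (PT.nd (nat_lit 78) (PT.lf (nat_lit 21432) (nat_lit 3) (nat_lit 282) (nat_lit 1) (nat_lit 281) (nat_lit 218) (nat_lit 281)) (PT.lf (nat_lit 21356) (nat_lit 6) (nat_lit 281) (nat_lit 1) (nat_lit 282) (nat_lit 218) (nat_lit 280))) (PT.nd (nat_lit 78) (PT.lf (nat_lit 21280) (nat_lit 6) (nat_lit 280) (nat_lit 1) (nat_lit 283) (nat_lit 218) (nat_lit 279)) (PT.nd (nat_lit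 78) (PT.lf (nat_lit 21204) (nat_lit 6) (nat_lit 279) (nat_lit 1) (nat_lit 284) (nat_lit 218) (nat_lit 278)) (PT.lf (nat_lit 21128) (nat_lit 6) (nat_lit 278) (nat_lit 1) (nat_lit 285) (nat_lit 218) (nat_lit 277))))))) (PT.nd (nat_lit 80574) (PT.nd (nat_lit 80262) (PT.nd (nat_lit 156) (PT.nd (nat_lit 78) (PT.lf (nat_lit 21052) (nat_lit 6) (nat_lit 277) (nat_lit 1) (nat_lit 286) (nat_lit 218) (nat_lit 276)) (PT.lf (nat_lit 20976) (nat_lit 6) (nat_lit 276) (nat_lit 1) (nat_lit 287) (nat_lit 218) (nat_lit 275))) (PT.nd (nat_lit 80028) (PT.lf (nat_lit 20900) (nat_lit 6) (nat_lit 275) (nat_lit 1) (nat_lit 288) (nat_lit 218) (nat_lit 274)) (PT.lf (nat_lit 21508) (nat_lit 6) (nat_lit 283) (nat_lit 3) (nat_lit 273) (nat_lit 219) (nat_lit 288)))) (PT.nd (nat_lit 156) (PT.nd (nat_lit 78) (PT.lf (nat_lit 21584) (nat_lit 6) (nat_lit 284) (nat_lit 3) (nat_lit 274) (nat_lit 219) (nat_lit 287)) (PT.lf (nat_lit 21660) (nat_lit 6) (nat_lit 285) (nat_lit 3) (nat_lit 275) (nat_lit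 219) (nat_lit 286))) (PT.nd (nat_lit 78) (PT.lf (nat_lit 21736) (nat_lit 6) (nat_lit 286) (nat_lit 3) (nat_lit 276) (nat_lit 219) (nat_lit 285)) (PT.lf (nat_lit 21812) (nat_lit 6) (nat_lit 287) (nat_lit 3) (nat_lit 277) (nat_lit 219) (nat_lit 284))))) (PT.nd (nat_lit 312) (PT.nd (nat_lit 156) (PT.nd (nat_lit 78) (PT.lf (nat_lit 21888) (nat_lit 6) (nat_lit 288) (nat_lit 3) (nat_lit 278) (nat_lit 219) (nat_lit 283)) (PT.lf (nat_lit 21964) (nat_lit 6) (nat_lit 289) (nat_lit 3) (nat_lit 279) (nat_lit 219) (nat_lit 282))) (PT.nd (nat_lit 78) (PT.lf (nat_lit 22040) (nat_lit 6) (nat_lit 290) (nat_lit 3) (nat_lit 280) (nat_lit 219) (nat_lit 281)) (PT.lf (nat_lit 22040) (nat_lit 6) (nat_lit 290) (nat_lit 1) (nat_lit 281) (nat_lit 219) (nat_lit 280)))) (PT.nd (nat_lit 156) (PT.nd (nat_lit 78) (PT.lf (nat_lit 21964) (nat_lit 6) (nat_lit 289) (nat_lit 1) (nat_lit 282) (nat_lit 219) (nat_lit 279)) (PT.lf (nat_lit 21888) (nat_lit 6) (nat_lit 288) (nat_lit 1) (nat_lit 283) (nat_lit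 219) (nat_lit 278))) (PT.nd (nat_lit 78) (PT.lf (nat_lit 21812) (nat_lit 6) (nat_lit 287) (nat_lit 1) (nat_lit 284) (nat_lit 219) (nat_lit 277)) (PT.nd (nat_lit 78) (PT.lf (nat_lit 21736) (nat_lit 6) (nat_lit 286) (nat_lit 1) (nat_lit 285) (nat_lit 219) (nat_lit 276)) (PT.lf (nat_lit 21660) (nat_lit 6) (nat_lit 285) (nat_lit 1) (nat_lit 286) (nat_lit 219) (nat_lit 275))))))))
noncomputable def pc15 : PT := (PT.nd (nat_lit 81198) (PT.nd (nat_lit 80496) (PT.nd (nat_lit 80184) (PT.nd (nat_lit 80028) (PT.nd (nat_lit 78) (PT.lf (nat_lit 21584) (nat_lit 6) (nat_lit 284) (nat_lit 1) (nat_lit 287) (nat_lit 219) (nat_lit 274)) (PT.lf (nat_lit 21508) (nat_lit 6) (nat_lit 283) (nat_lit 1) (nat_lit 288) (nat_lit 219) (nat_lit 273))) (PT.nd (nat_lit 78) (PT.lf (nat_lit 22116) (nat_lit 6) (nat_lit 291) (nat_lit 3) (nat_lit 272) (nat_lit 220) (nat_lit 288)) (PT.lf (nat_lit 22192) (nat_lit 6) (nat_lit 292) (nat_lit 3) (nat_lit 273) (nat_lit 220) (nat_lit 287)))) (PT.nd (nat_lit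 156) (PT.nd (nat_lit 78) (PT.lf (nat_lit 22268) (nat_lit 6) (nat_lit 293) (nat_lit 3) (nat_lit 274) (nat_lit 220) (nat_lit 286)) (PT.lf (nat_lit 22344) (nat_lit 6) (nat_lit 294) (nat_lit 3) (nat_lit 275) (nat_lit 220) (nat_lit 285))) (PT.nd (nat_lit 78) (PT.lf (nat_lit 22420) (nat_lit 6) (nat_lit 295) (nat_lit 3) (nat_lit 276) (nat_lit 220) (nat_lit 284)) (PT.lf (nat_lit 22496) (nat_lit 6) (nat_lit 296) (nat_lit 3) (nat_lit 277) (nat_lit 220) (nat_lit 283))))) (PT.nd (nat_lit 312) (PT.nd (nat_lit 156) (PT.nd (nat_lit 78) (PT.lf (nat_lit 22572) (nat_lit 6) (nat_lit 297) (nat_lit 3) (nat_lit 278) (nat_lit 220) (nat_lit 282)) (PT.lf (nat_lit 22648) (nat_lit 6) (nat_lit 298) (nat_lit 3) (nat_lit 279) (nat_lit 220) (nat_lit 281))) (PT.nd (nat_lit 78) (PT.lf (nat_lit 22724) (nat_lit 3) (nat_lit 299) (nat_lit 1) (nat_lit 280) (nat_lit 220) (nat_lit 280)) (PT.lf (nat_lit 22648) (nat_lit 6) (nat_lit 298) (nat_lit 1) (nat_lit 281) (nat_lit 220) (nat_lit 279)))) (PT.nd (nat_lit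 156) (PT.nd (nat_lit 78) (PT.lf (nat_lit 22572) (nat_lit 6) (nat_lit 297) (nat_lit 1) (nat_lit 282) (nat_lit 220) (nat_lit 278)) (PT.lf (nat_lit 22496) (nat_lit 6) (nat_lit 296) (nat_lit 1) (nat_lit 283) (nat_lit 220) (nat_lit 277))) (PT.nd (nat_lit 78) (PT.lf (nat_lit 22420) (nat_lit 6) (nat_lit 295) (nat_lit 1) (nat_lit 284) (nat_lit 220) (nat_lit 276)) (PT.nd (nat_lit 78) (PT.lf (nat_lit 22344) (nat_lit 6) (nat_lit 294) (nat_lit 1) (nat_lit 285) (nat_lit 220) (nat_lit 275)) (PT.lf (nat_lit 22268) (nat_lit 6) (nat_lit 293) (nat_lit 1) (nat_lit 286) (nat_lit 220) (nat_lit 274))))))) (PT.nd (nat_lit 80418) (PT.nd (nat_lit 80106) (PT.nd (nat_lit 79950) (PT.nd (nat_lit 78) (PT.lf (nat_lit 22192) (nat_lit 6) (nat_lit 292) (nat_lit 1) (nat_lit 287) (nat_lit 220) (nat_lit 273)) (PT.lf (nat_lit 22116) (nat_lit 6) (nat_lit 291) (nat_lit 1) (nat_lit 288) (nat_lit 220) (nat_lit 272))) (PT.nd (nat_lit 78) (PT.lf (nat_lit 22800) (nat_lit 6) (nat_lit 300) (nat_lit 3) (nat_lit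 271) (nat_lit 221) (nat_lit 288)) (PT.lf (nat_lit 22876) (nat_lit 6) (nat_lit 301) (nat_lit 3) (nat_lit 272) (nat_lit 221) (nat_lit 287)))) (PT.nd (nat_lit 156) (PT.nd (nat_lit 78) (PT.lf (nat_lit 22952) (nat_lit 6) (nat_lit 302) (nat_lit 3) (nat_lit 273) (nat_lit 221) (nat_lit 286)) (PT.lf (nat_lit 23028) (nat_lit 6) (nat_lit 303) (nat_lit 3) (nat_lit 274) (nat_lit 221) (nat_lit 285))) (PT.nd (nat_lit 78) (PT.lf (nat_lit 23104) (nat_lit 6) (nat_lit 304) (nat_lit 3) (nat_lit 275) (nat_lit 221) (nat_lit 284)) (PT.lf (nat_lit 23180) (nat_lit 6) (nat_lit 305) (nat_lit 3) (nat_lit 276) (nat_lit 221) (nat_lit 283))))) (PT.nd (nat_lit 312) (PT.nd (nat_lit 156) (PT.nd (nat_lit 78) (PT.lf (nat_lit 23256) (nat_lit 6) (nat_lit 306) (nat_lit 3) (nat_lit 277) (nat_lit 221) (nat_lit 282)) (PT.lf (nat_lit 23332) (nat_lit 6) (nat_lit 307) (nat_lit 3) (nat_lit 278) (nat_lit 221) (nat_lit 281))) (PT.nd (nat_lit 78) (PT.lf (nat_lit 23408) (nat_lit 6) (nat_lit 308) (nat_lit 3) (nat_lit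 279) (nat_lit 221) (nat_lit 280)) (PT.lf (nat_lit 23408) (nat_lit 6) (nat_lit 308) (nat_lit 1) (nat_lit 280) (nat_lit 221) (nat_lit 279)))) (PT.nd (nat_lit 156) (PT.nd (nat_lit 78) (PT.lf (nat_lit 23332) (nat_lit 6) (nat_lit 307) (nat_lit 1) (nat_lit 281) (nat_lit 221) (nat_lit 278)) (PT.lf (nat_lit 23256) (nat_lit 6) (nat_lit 306) (nat_lit 1) (nat_lit 282) (nat_lit 221) (nat_lit 277))) (PT.nd (nat_lit 78) (PT.lf (nat_lit 23180) (nat_lit 6) (nat_lit 305) (nat_lit 1) (nat_lit 283) (nat_lit 221) (nat_lit 276)) (PT.nd (nat_lit 78) (PT.lf (nat_lit 23104) (nat_lit 6) (nat_lit 304) (nat_lit 1) (nat_lit 284) (nat_lit 221) (nat_lit 275)) (PT.lf (nat_lit 23028) (nat_lit 6) (nat_lit 303) (nat_lit 1) (nat_lit 285) (nat_lit 221) (nat_lit 274))))))))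
noncomputable def pc16 : PT := (PT.nd (nat_lit 81042) (PT.nd (nat_lit 80418) (PT.nd (nat_lit 80106) (PT.nd (nat_lit 156) (PT.nd (nat_lit 78) (PT.lf (nat_lit 22952) (nat_lit 6) (nat_lit 302) (nat_lit 1) (nat_lit 286) (nat_lit 221) (nat_lit 273)) (PT.lf (nat_lit 22876) (nat_lit 6) (nat_lit 301) (nat_lit 1) (nat_lit 287) (nat_lit 221) (nat_lit 272))) (PT.nd (nat_lit 79872) (PT.lf (nat_lit 22800) (nat_lit 6) (nat_lit 300) (nat_lit 1) (nat_lit 288) (nat_lit 221) (nat_lit 271)) (PT.lf (nat_lit 23484) (nat_lit 6) (nat_lit 309) (nat_lit 3) (nat_lit 271) (nat_lit 222) (nat_lit 287)))) (PT.nd (nat_lit 156) (PT.nd (nat_lit 78) (PT.lf (nat_lit 23560) (nat_lit 6) (nat_lit 310) (nat_lit 3) (nat_lit 272) (nat_lit 222) (nat_lit 286)) (PT.lf (nat_lit 23636) (nat_lit 6) (nat_lit 311) (nat_lit 3) (nat_lit 273) (nat_lit 222) (nat_lit 285))) (PT.nd (nat_lit 78) (PT.lf (nat_lit 23712) (nat_lit 6) (nat_lit 312) (nat_lit 3) (nat_lit 274) (nat_lit 222) (nat_lit 284)) (PT.lf (nat_lit 23788)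 (nat_lit 6) (nat_lit 313) (nat_lit 3) (nat_lit 275) (nat_lit 222) (nat_lit 283))))) (PT.nd (nat_lit 312) (PT.nd (nat_lit 156) (PT.nd (nat_lit 78) (PT.lf (nat_lit 23864) (nat_lit 6) (nat_lit 314) (nat_lit 3) (nat_lit 276) (nat_lit 222) (nat_lit 282)) (PT.lf (nat_lit 23940) (nat_lit 6) (nat_lit 315) (nat_lit 3) (nat_lit 277) (nat_lit 222) (nat_lit 281))) (PT.nd (nat_lit 78) (PT.lf (nat_lit 24016) (nat_lit 6) (nat_lit 316) (nat_lit 3) (nat_lit 278) (nat_lit 222) (nat_lit 280)) (PT.lf (nat_lit 24092) (nat_lit 3) (nat_lit 317) (nat_lit 1) (nat_lit 279) (nat_lit 222) (nat_lit 279)))) (PT.nd (nat_lit 156) (PT.nd (nat_lit 78) (PT.lf (nat_lit 24016) (nat_lit 6) (nat_lit 316) (nat_lit 1) (nat_lit 280) (nat_lit 222) (nat_lit 278)) (PT.lf (nat_lit 23940) (nat_lit 6) (nat_lit 315) (nat_lit 1) (nat_lit 281) (nat_lit 222) (nat_lit 277))) (PT.nd (nat_lit 78) (PT.lf (nat_lit 23864) (nat_lit 6) (nat_lit 314) (nat_lit 1) (nat_lit 282) (nat_lit 222) (nat_lit 276)) (PT.lf (nat_lit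 23788) (nat_lit 6) (nat_lit 313) (nat_lit 1) (nat_lit 283) (nat_lit 222) (nat_lit 275)))))) (PT.nd (nat_lit 80418) (PT.nd (nat_lit 80106) (PT.nd (nat_lit 156) (PT.nd (nat_lit 78) (PT.lf (nat_lit 23712) (nat_lit 6) (nat_lit 312) (nat_lit 1) (nat_lit 284) (nat_lit 222) (nat_lit 274)) (PT.lf (nat_lit 23636) (nat_lit 6) (nat_lit 311) (nat_lit 1) (nat_lit 285) (nat_lit 222) (nat_lit 273))) (PT.nd (nat_lit 78) (PT.lf (nat_lit 23560) (nat_lit 6) (nat_lit 310) (nat_lit 1) (nat_lit 286) (nat_lit 222) (nat_lit 272)) (PT.lf (nat_lit 23484) (nat_lit 6) (nat_lit 309) (nat_lit 1) (nat_lit 287) (nat_lit 222) (nat_lit 271)))) (PT.nd (nat_lit 156) (PT.nd (nat_lit 78) (PT.lf (nat_lit 24168) (nat_lit 6) (nat_lit 318) (nat_lit 3) (nat_lit 270) (nat_lit 223) (nat_lit 287)) (PT.lf (nat_lit 24244) (nat_lit 6) (nat_lit 319) (nat_lit 3) (nat_lit 271) (nat_lit 223) (nat_lit 286))) (PT.nd (nat_lit 78) (PT.lf (nat_lit 24320) (nat_lit 6) (nat_lit 320) (nat_lit 3) (nat_lit 272) (nat_lit 223)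 (nat_lit 285)) (PT.lf (nat_lit 24396) (nat_lit 6) (nat_lit 321) (nat_lit 3) (nat_lit 273) (nat_lit 223) (nat_lit 284))))) (PT.nd (nat_lit 312) (PT.nd (nat_lit 156) (PT.nd (nat_lit 78) (PT.lf (nat_lit 24472) (nat_lit 6) (nat_lit 322) (nat_lit 3) (nat_lit 274) (nat_lit 223) (nat_lit 283)) (PT.lf (nat_lit 24548) (nat_lit 6) (nat_lit 323) (nat_lit 3) (nat_lit 275) (nat_lit 223) (nat_lit 282))) (PT.nd (nat_lit 78) (PT.lf (nat_lit 24624) (nat_lit 6) (nat_lit 324) (nat_lit 3) (nat_lit 276) (nat_lit 223) (nat_lit 281)) (PT.lf (nat_lit 24700) (nat_lit 6) (nat_lit 325) (nat_lit 3) (nat_lit 277) (nat_lit 223) (nat_lit 280)))) (PT.nd (nat_lit 156) (PT.nd (nat_lit 78) (PT.lf (nat_lit 24776) (nat_lit 6) (nat_lit 326) (nat_lit 3) (nat_lit 278) (nat_lit 223) (nat_lit 279)) (PT.lf (nat_lit 24776) (nat_lit 6) (nat_lit 326) (nat_lit 1) (nat_lit 279) (nat_lit 223) (nat_lit 278))) (PT.nd (nat_lit 78) (PT.lf (nat_lit 24700) (nat_lit 6) (nat_lit 325) (nat_lit 1) (nat_lit 280) (nat_lit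 223) (nat_lit 277)) (PT.nd (nat_lit 78) (PT.lf (nat_lit 24624) (nat_lit 6) (nat_lit 324) (nat_lit 1) (nat_lit 281) (nat_lit 223) (nat_lit 276)) (PT.lf (nat_lit 24548) (nat_lit 6) (nat_lit 323) (nat_lit 1) (nat_lit 282) (nat_lit 223) (nat_lit 275))))))))
noncomputable def pc17 : PT := (PT.nd (nat_lit 81042) (PT.nd (nat_lit 80340) (PT.nd (nat_lit 312) (PT.nd (nat_lit 156) (PT.nd (nat_lit 78) (PT.lf (nat_lit 24472) (nat_lit 6) (nat_lit 322) (nat_lit 1) (nat_lit 283) (nat_lit 223) (nat_lit 274)) (PT.lf (nat_lit 24396) (nat_lit 6) (nat_lit 321) (nat_lit 1) (nat_lit 284) (nat_lit 223) (nat_lit 273))) (PT.nd (nat_lit 78) (PT.lf (nat_lit 24320) (nat_lit 6) (nat_lit 320) (nat_lit 1) (nat_lit 285) (nat_lit 223) (nat_lit 272)) (PT.lf (nat_lit 24244) (nat_lit 6) (nat_lit 319) (nat_lit 1) (nat_lit 286) (nat_lit 223) (nat_lit 271)))) (PT.nd (nat_lit 79872) (PT.nd (nat_lit 79794) (PT.lf (nat_lit 24168) (nat_lit 6) (nat_lit 318) (nat_lit 1) (nat_lit 287) (nat_lit 223) (nat_lit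 270)) (PT.lf (nat_lit 24852) (nat_lit 6) (nat_lit 327) (nat_lit 3) (nat_lit 269) (nat_lit 224) (nat_lit 287))) (PT.nd (nat_lit 78) (PT.lf (nat_lit 24928) (nat_lit 6) (nat_lit 328) (nat_lit 3) (nat_lit 270) (nat_lit 224) (nat_lit 286)) (PT.lf (nat_lit 25004) (nat_lit 6) (nat_lit 329) (nat_lit 3) (nat_lit 271) (nat_lit 224) (nat_lit 285))))) (PT.nd (nat_lit 312) (PT.nd (nat_lit 156) (PT.nd (nat_lit 78) (PT.lf (nat_lit 25080) (nat_lit 6) (nat_lit 330) (nat_lit 3) (nat_lit 272) (nat_lit 224) (nat_lit 284)) (PT.lf (nat_lit 25156) (nat_lit 6) (nat_lit 331) (nat_lit 3) (nat_lit 273) (nat_lit 224) (nat_lit 283))) (PT.nd (nat_lit 78) (PT.lf (nat_lit 25232) (nat_lit 6) (nat_lit 332) (nat_lit 3) (nat_lit 274) (nat_lit 224) (nat_lit 282)) (PT.lf (nat_lit 25308) (nat_lit 6) (nat_lit 333) (nat_lit 3) (nat_lit 275) (nat_lit 224) (nat_lit 281)))) (PT.nd (nat_lit 156) (PT.nd (nat_lit 78) (PT.lf (nat_lit 25384) (nat_lit 6) (nat_lit 334) (nat_lit 3) (nat_lit 276) (nat_lit 224) (nat_lit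 280)) (PT.lf (nat_lit 25460) (nat_lit 6) (nat_lit 335) (nat_lit 3) (nat_lit 277) (nat_lit 224) (nat_lit 279))) (PT.nd (nat_lit 78) (PT.lf (nat_lit 25536) (nat_lit 3) (nat_lit 336) (nat_lit 1) (nat_lit 278) (nat_lit 224) (nat_lit 278)) (PT.nd (nat_lit 78) (PT.lf (nat_lit 25460) (nat_lit 6) (nat_lit 335) (nat_lit 1) (nat_lit 279) (nat_lit 224) (nat_lit 277)) (PT.lf (nat_lit 25384) (nat_lit 6) (nat_lit 334) (nat_lit 1) (nat_lit 280) (nat_lit 224) (nat_lit 276))))))) (PT.nd (nat_lit 80262) (PT.nd (nat_lit 312) (PT.nd (nat_lit 156) (PT.nd (nat_lit 78) (PT.lf (nat_lit 25308) (nat_lit 6) (nat_lit 333) (nat_lit 1) (nat_lit 281) (nat_lit 224) (nat_lit 275)) (PT.lf (nat_lit 25232) (nat_lit 6) (nat_lit 332) (nat_lit 1) (nat_lit 282) (nat_lit 224) (nat_lit 274))) (PT.nd (nat_lit 78) (PT.lf (nat_lit 25156) (nat_lit 6) (nat_lit 331) (nat_lit 1) (nat_lit 283) (nat_lit 224) (nat_lit 273)) (PT.lf (nat_lit 25080) (nat_lit 6) (nat_lit 330) (nat_lit 1) (nat_lit 284) (nat_lit 224)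 (nat_lit 272)))) (PT.nd (nat_lit 156) (PT.nd (nat_lit 78) (PT.lf (nat_lit 25004) (nat_lit 6) (nat_lit 329) (nat_lit 1) (nat_lit 285) (nat_lit 224) (nat_lit 271)) (PT.lf (nat_lit 24928) (nat_lit 6) (nat_lit 328) (nat_lit 1) (nat_lit 286) (nat_lit 224) (nat_lit 270))) (PT.nd (nat_lit 79716) (PT.lf (nat_lit 24852) (nat_lit 6) (nat_lit 327) (nat_lit 1) (nat_lit 287) (nat_lit 224) (nat_lit 269)) (PT.lf (nat_lit 25612) (nat_lit 6) (nat_lit 337) (nat_lit 3) (nat_lit 268) (nat_lit 225) (nat_lit 287))))) (PT.nd (nat_lit 312) (PT.nd (nat_lit 156) (PT.nd (nat_lit 78) (PT.lf (nat_lit 25688) (nat_lit 6) (nat_lit 338) (nat_lit 3) (nat_lit 269) (nat_lit 225) (nat_lit 286)) (PT.lf (nat_lit 25764) (nat_lit 6) (nat_lit 339) (nat_lit 3) (nat_lit 270) (nat_lit 225) (nat_lit 285))) (PT.nd (nat_lit 78) (PT.lf (nat_lit 25840) (nat_lit 6) (nat_lit 340) (nat_lit 3) (nat_lit 271) (nat_lit 225) (nat_lit 284)) (PT.lf (nat_lit 25916) (nat_lit 6) (nat_lit 341) (nat_lit 3) (nat_lit 272) (nat_lit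 225) (nat_lit 283)))) (PT.nd (nat_lit 156) (PT.nd (nat_lit 78) (PT.lf (nat_lit 25992) (nat_lit 6) (nat_lit 342) (nat_lit 3) (nat_lit 273) (nat_lit 225) (nat_lit 282)) (PT.lf (nat_lit 26068) (nat_lit 6) (nat_lit 343) (nat_lit 3) (nat_lit 274) (nat_lit 225) (nat_lit 281))) (PT.nd (nat_lit 78) (PT.lf (nat_lit 26144) (nat_lit 6) (nat_lit 344) (nat_lit 3) (nat_lit 275) (nat_lit 225) (nat_lit 280)) (PT.nd (nat_lit 78) (PT.lf (nat_lit 26220) (nat_lit 6) (nat_lit 345) (nat_lit 3) (nat_lit 276) (nat_lit 225) (nat_lit 279)) (PT.lf (nat_lit 26296) (nat_lit 6) (nat_lit 346) (nat_lit 3) (nat_lit 277) (nat_lit 225) (nat_lit 278))))))))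
noncomputable def pc18 : PT := (PT.nd (nat_lit 80964) (PT.nd (nat_lit 624) (PT.nd (nat_lit 312) (PT.nd (nat_lit 156) (PT.nd (nat_lit 78) (PT.lf (nat_lit 26296) (nat_lit 6) (nat_lit 346) (nat_lit 1) (nat_lit 278) (nat_lit 225) (nat_lit 277)) (PT.lf (nat_lit 26220) (nat_lit 6) (nat_lit 345) (nat_lit 1) (nat_lit 279) (nat_lit 225) (nat_lit 276))) (PT.nd (nat_lit 78) (PT.lf (nat_lit 26144) (nat_lit 6) (nat_lit 344) (nat_lit 1) (nat_lit 280) (nat_lit 225) (nat_lit 275)) (PT.lf (nat_lit 26068) (nat_lit 6) (nat_lit 343) (nat_lit 1) (nat_lit 281) (nat_lit 225) (nat_lit 274)))) (PT.nd (nat_lit 156) (PT.nd (nat_lit 78) (PT.lf (nat_lit 25992) (nat_lit 6) (nat_lit 342) (nat_lit 1) (nat_lit 282) (nat_lit 225) (nat_lit 273)) (PT.lf (nat_lit 25916) (nat_lit 6) (nat_lit 341) (nat_lit 1) (nat_lit 283) (nat_lit 225) (nat_lit 272))) (PT.nd (nat_lit 78) (PT.lf (nat_lit 25840) (nat_lit 6) (nat_lit 340) (nat_lit 1) (nat_lit 284) (nat_lit 225) (nat_lit 271)) (PT.lf (nat_lit 25764) (nat_lit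 6) (nat_lit 339) (nat_lit 1) (nat_lit 285) (nat_lit 225) (nat_lit 270))))) (PT.nd (nat_lit 79950) (PT.nd (nat_lit 79794) (PT.nd (nat_lit 78) (PT.lf (nat_lit 25688) (nat_lit 6) (nat_lit 338) (nat_lit 1) (nat_lit 286) (nat_lit 225) (nat_lit 269)) (PT.lf (nat_lit 25612) (nat_lit 6) (nat_lit 337) (nat_lit 1) (nat_lit 287) (nat_lit 225) (nat_lit 268))) (PT.nd (nat_lit 78) (PT.lf (nat_lit 26372) (nat_lit 6) (nat_lit 347) (nat_lit 3) (nat_lit 268) (nat_lit 226) (nat_lit 286)) (PT.lf (nat_lit 26448) (nat_lit 6) (nat_lit 348) (nat_lit 3) (nat_lit 269) (nat_lit 226) (nat_lit 285)))) (PT.nd (nat_lit 156) (PT.nd (nat_lit 78) (PT.lf (nat_lit 26524) (nat_lit 6) (nat_lit 349) (nat_lit 3) (nat_lit 270) (nat_lit 226) (nat_lit 284)) (PT.lf (nat_lit 26600) (nat_lit 6) (nat_lit 350) (nat_lit 3) (nat_lit 271) (nat_lit 226) (nat_lit 283))) (PT.nd (nat_lit 78) (PT.lf (nat_lit 26676) (nat_lit 6) (nat_lit 351) (nat_lit 3) (nat_lit 272) (nat_lit 226) (nat_lit 282)) (PT.nd (nat_lit 78) (PT.lf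 (nat_lit 26752) (nat_lit 6) (nat_lit 352) (nat_lit 3) (nat_lit 273) (nat_lit 226) (nat_lit 281)) (PT.lf (nat_lit 26828) (nat_lit 6) (nat_lit 353) (nat_lit 3) (nat_lit 274) (nat_lit 226) (nat_lit 280))))))) (PT.nd (nat_lit 624) (PT.nd (nat_lit 312) (PT.nd (nat_lit 156) (PT.nd (nat_lit 78) (PT.lf (nat_lit 26904) (nat_lit 6) (nat_lit 354) (nat_lit 3) (nat_lit 275) (nat_lit 226) (nat_lit 279)) (PT.lf (nat_lit 26980) (nat_lit 6) (nat_lit 355) (nat_lit 3) (nat_lit 276) (nat_lit 226) (nat_lit 278))) (PT.nd (nat_lit 78) (PT.lf (nat_lit 27056) (nat_lit 3) (nat_lit 356) (nat_lit 1) (nat_lit 277) (nat_lit 226) (nat_lit 277)) (PT.lf (nat_lit 26980) (nat_lit 6) (nat_lit 355) (nat_lit 1) (nat_lit 278) (nat_lit 226) (nat_lit 276)))) (PT.nd (nat_lit 156) (PT.nd (nat_lit 78) (PT.lf (nat_lit 26904) (nat_lit 6) (nat_lit 354) (nat_lit 1) (nat_lit 279) (nat_lit 226) (nat_lit 275)) (PT.lf (nat_lit 26828) (nat_lit 6) (nat_lit 353) (nat_lit 1) (nat_lit 280) (nat_lit 226) (nat_lit 274)))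 (PT.nd (nat_lit 78) (PT.lf (nat_lit 26752) (nat_lit 6) (nat_lit 352) (nat_lit 1) (nat_lit 281) (nat_lit 226) (nat_lit 273)) (PT.lf (nat_lit 26676) (nat_lit 6) (nat_lit 351) (nat_lit 1) (nat_lit 282) (nat_lit 226) (nat_lit 272))))) (PT.nd (nat_lit 79950) (PT.nd (nat_lit 156) (PT.nd (nat_lit 78) (PT.lf (nat_lit 26600) (nat_lit 6) (nat_lit 350) (nat_lit 1) (nat_lit 283) (nat_lit 226) (nat_lit 271)) (PT.lf (nat_lit 26524) (nat_lit 6) (nat_lit 349) (nat_lit 1) (nat_lit 284) (nat_lit 226) (nat_lit 270))) (PT.nd (nat_lit 78) (PT.lf (nat_lit 26448) (nat_lit 6) (nat_lit 348) (nat_lit 1) (nat_lit 285) (nat_lit 226) (nat_lit 269)) (PT.lf (nat_lit 26372) (nat_lit 6) (nat_lit 347) (nat_lit 1) (nat_lit 286) (nat_lit 226) (nat_lit 268)))) (PT.nd (nat_lit 156) (PT.nd (nat_lit 78) (PT.lf (nat_lit 27132) (nat_lit 6) (nat_lit 357) (nat_lit 3) (nat_lit 267) (nat_lit 227) (nat_lit 286)) (PT.lf (nat_lit 27208) (nat_lit 6) (nat_lit 358) (nat_lit 3) (nat_lit 268) (nat_lit 227) (nat_lit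 285))) (PT.nd (nat_lit 78) (PT.lf (nat_lit 27284) (nat_lit 6) (nat_lit 359) (nat_lit 3) (nat_lit 269) (nat_lit 227) (nat_lit 284)) (PT.nd (nat_lit 78) (PT.lf (nat_lit 27360) (nat_lit 6) (nat_lit 360) (nat_lit 3) (nat_lit 270) (nat_lit 227) (nat_lit 283)) (PT.lf (nat_lit 27436) (nat_lit 6) (nat_lit 361) (nat_lit 3) (nat_lit 271) (nat_lit 227) (nat_lit 282))))))))
noncomputable def pc19 : PT := (PT.nd (nat_lit 80886) (PT.nd (nat_lit 624) (PT.nd (nat_lit 312) (PT.nd (nat_lit 156) (PT.nd (nat_lit 78) (PT.lf (nat_lit 27512) (nat_lit 6) (nat_lit 362) (nat_lit 3) (nat_lit 272) (nat_lit 227) (nat_lit 281)) (PT.lf (nat_lit 27588) (nat_lit 6) (nat_lit 363) (nat_lit 3) (nat_lit 273) (nat_lit 227) (nat_lit 280))) (PT.nd (nat_lit 78) (PT.lf (nat_lit 27664) (nat_lit 6) (nat_lit 364) (nat_lit 3) (nat_lit 274) (nat_lit 227) (nat_lit 279)) (PT.lf (nat_lit 27740) (nat_lit 6) (nat_lit 365) (nat_lit 3) (nat_lit 275) (nat_lit 227) (nat_lit 278)))) (PT.nd (nat_lit 156) (PT.nd (nat_lit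 78) (PT.lf (nat_lit 27816) (nat_lit 6) (nat_lit 366) (nat_lit 3) (nat_lit 276) (nat_lit 227) (nat_lit 277)) (PT.lf (nat_lit 27816) (nat_lit 6) (nat_lit 366) (nat_lit 1) (nat_lit 277) (nat_lit 227) (nat_lit 276))) (PT.nd (nat_lit 78) (PT.lf (nat_lit 27740) (nat_lit 6) (nat_lit 365) (nat_lit 1) (nat_lit 278) (nat_lit 227) (nat_lit 275)) (PT.lf (nat_lit 27664) (nat_lit 6) (nat_lit 364) (nat_lit 1) (nat_lit 279) (nat_lit 227) (nat_lit 274))))) (PT.nd (nat_lit 312) (PT.nd (nat_lit 156) (PT.nd (nat_lit 78) (PT.lf (nat_lit 27588) (nat_lit 6) (nat_lit 363) (nat_lit 1) (nat_lit 280) (nat_lit 227) (nat_lit 273)) (PT.lf (nat_lit 27512) (nat_lit 6) (nat_lit 362) (nat_lit 1) (nat_lit 281) (nat_lit 227) (nat_lit 272))) (PT.nd (nat_lit 78) (PT.lf (nat_lit 27436) (nat_lit 6) (nat_lit 361) (nat_lit 1) (nat_lit 282) (nat_lit 227) (nat_lit 271)) (PT.lf (nat_lit 27360) (nat_lit 6) (nat_lit 360) (nat_lit 1) (nat_lit 283) (nat_lit 227) (nat_lit 270)))) (PT.nd (nat_lit 156) (PT.nd (nat_lit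 78) (PT.lf (nat_lit 27284) (nat_lit 6) (nat_lit 359) (nat_lit 1) (nat_lit 284) (nat_lit 227) (nat_lit 269)) (PT.lf (nat_lit 27208) (nat_lit 6) (nat_lit 358) (nat_lit 1) (nat_lit 285) (nat_lit 227) (nat_lit 268))) (PT.nd (nat_lit 79638) (PT.lf (nat_lit 27132) (nat_lit 6) (nat_lit 357) (nat_lit 1) (nat_lit 286) (nat_lit 227) (nat_lit 267)) (PT.nd (nat_lit 78) (PT.lf (nat_lit 27892) (nat_lit 6) (nat_lit 367) (nat_lit 3) (nat_lit 266) (nat_lit 228) (nat_lit 286)) (PT.lf (nat_lit 27968) (nat_lit 6) (nat_lit 368) (nat_lit 3) (nat_lit 267) (nat_lit 228) (nat_lit 285))))))) (PT.nd (nat_lit 624) (PT.nd (nat_lit 312) (PT.nd (nat_lit 156) (PT.nd (nat_lit 78) (PT.lf (nat_lit 28044) (nat_lit 6) (nat_lit 369) (nat_lit 3) (nat_lit 268) (nat_lit 228) (nat_lit 284)) (PT.lf (nat_lit 28120) (nat_lit 6) (nat_lit 370) (nat_lit 3) (nat_lit 269) (nat_lit 228) (nat_lit 283))) (PT.nd (nat_lit 78) (PT.lf (nat_lit 28196) (nat_lit 6) (nat_lit 371) (nat_lit 3) (nat_lit 270) (nat_lit 228) (nat_lit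 282)) (PT.lf (nat_lit 28272) (nat_lit 6) (nat_lit 372) (nat_lit 3) (nat_lit 271) (nat_lit 228) (nat_lit 281)))) (PT.nd (nat_lit 156) (PT.nd (nat_lit 78) (PT.lf (nat_lit 28348) (nat_lit 6) (nat_lit 373) (nat_lit 3) (nat_lit 272) (nat_lit 228) (nat_lit 280)) (PT.lf (nat_lit 28424) (nat_lit 6) (nat_lit 374) (nat_lit 3) (nat_lit 273) (nat_lit 228) (nat_lit 279))) (PT.nd (nat_lit 78) (PT.lf (nat_lit 28500) (nat_lit 6) (nat_lit 375) (nat_lit 3) (nat_lit 274) (nat_lit 228) (nat_lit 278)) (PT.lf (nat_lit 28576) (nat_lit 6) (nat_lit 376) (nat_lit 3) (nat_lit 275) (nat_lit 228) (nat_lit 277))))) (PT.nd (nat_lit 312) (PT.nd (nat_lit 156) (PT.nd (nat_lit 78) (PT.lf (nat_lit 28652) (nat_lit 3) (nat_lit 377) (nat_lit 1) (nat_lit 276) (nat_lit 228) (nat_lit 276)) (PT.lf (nat_lit 28576) (nat_lit 6) (nat_lit 376) (nat_lit 1) (nat_lit 277) (nat_lit 228) (nat_lit 275))) (PT.nd (nat_lit 78) (PT.lf (nat_lit 28500) (nat_lit 6) (nat_lit 375) (nat_lit 1) (nat_lit 278) (nat_lit 228) (nat_lit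 274)) (PT.lf (nat_lit 28424) (nat_lit 6) (nat_lit 374) (nat_lit 1) (nat_lit 279) (nat_lit 228) (nat_lit 273)))) (PT.nd (nat_lit 156) (PT.nd (nat_lit 78) (PT.lf (nat_lit 28348) (nat_lit 6) (nat_lit 373) (nat_lit 1) (nat_lit 280) (nat_lit 228) (nat_lit 272)) (PT.lf (nat_lit 28272) (nat_lit 6) (nat_lit 372) (nat_lit 1) (nat_lit 281) (nat_lit 228) (nat_lit 271))) (PT.nd (nat_lit 78) (PT.lf (nat_lit 28196) (nat_lit 6) (nat_lit 371) (nat_lit 1) (nat_lit 282) (nat_lit 228) (nat_lit 270)) (PT.nd (nat_lit 78) (PT.lf (nat_lit 28120) (nat_lit 6) (nat_lit 370) (nat_lit 1) (nat_lit 283) (nat_lit 228) (nat_lit 269)) (PT.lf (nat_lit 28044) (nat_lit 6) (nat_lit 369) (nat_lit 1) (nat_lit 284) (nat_lit 228) (nat_lit 268))))))))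
noncomputable def pc20 : PT := (PT.nd (nat_lit 80808) (PT.nd (nat_lit 80106) (PT.nd (nat_lit 79794) (PT.nd (nat_lit 79638) (PT.nd (nat_lit 78) (PT.lf (nat_lit 27968) (nat_lit 6) (nat_lit 368) (nat_lit 1) (nat_lit 285) (nat_lit 228) (nat_lit 267)) (PT.lf (nat_lit 27892) (nat_lit 6) (nat_lit 367) (nat_lit 1) (nat_lit 286) (nat_lit 228) (nat_lit 266))) (PT.nd (nat_lit 78) (PT.lf (nat_lit 28728) (nat_lit 6) (nat_lit 378) (nat_lit 3) (nat_lit 265) (nat_lit 229) (nat_lit 286)) (PT.lf (nat_lit 28804) (nat_lit 6) (nat_lit 379) (nat_lit 3) (nat_lit 266) (nat_lit 229) (nat_lit 285)))) (PT.nd (nat_lit 156) (PT.nd (nat_lit 78) (PT.lf (nat_lit 28880) (nat_lit 6) (nat_lit 380) (nat_lit 3) (nat_lit 267) (nat_lit 229) (nat_lit 284)) (PT.lf (nat_lit 28956) (nat_lit 6) (nat_lit 381) (nat_lit 3) (nat_lit 268) (nat_lit 229) (nat_lit 283))) (PT.nd (nat_lit 78) (PT.lf (nat_lit 29032) (nat_lit 6) (nat_lit 382) (nat_lit 3) (nat_lit 269) (nat_lit 229) (nat_lit 282)) (PT.lf (nat_lit 29108)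 (nat_lit 6) (nat_lit 383) (nat_lit 3) (nat_lit 270) (nat_lit 229) (nat_lit 281))))) (PT.nd (nat_lit 312) (PT.nd (nat_lit 156) (PT.nd (nat_lit 78) (PT.lf (nat_lit 29184) (nat_lit 6) (nat_lit 384) (nat_lit 3) (nat_lit 271) (nat_lit 229) (nat_lit 280)) (PT.lf (nat_lit 29260) (nat_lit 6) (nat_lit 385) (nat_lit 3) (nat_lit 272) (nat_lit 229) (nat_lit 279))) (PT.nd (nat_lit 78) (PT.lf (nat_lit 29336) (nat_lit 6) (nat_lit 386) (nat_lit 3) (nat_lit 273) (nat_lit 229) (nat_lit 278)) (PT.lf (nat_lit 29412) (nat_lit 6) (nat_lit 387) (nat_lit 3) (nat_lit 274) (nat_lit 229) (nat_lit 277)))) (PT.nd (nat_lit 156) (PT.nd (nat_lit 78) (PT.lf (nat_lit 29488) (nat_lit 6) (nat_lit 388) (nat_lit 3) (nat_lit 275) (nat_lit 229) (nat_lit 276)) (PT.lf (nat_lit 29488) (nat_lit 6) (nat_lit 388) (nat_lit 1) (nat_lit 276) (nat_lit 229) (nat_lit 275))) (PT.nd (nat_lit 78) (PT.lf (nat_lit 29412) (nat_lit 6) (nat_lit 387) (nat_lit 1) (nat_lit 277) (nat_lit 229) (nat_lit 274)) (PT.nd (nat_lit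 78) (PT.lf (nat_lit 29336) (nat_lit 6) (nat_lit 386) (nat_lit 1) (nat_lit 278) (nat_lit 229) (nat_lit 273)) (PT.lf (nat_lit 29260) (nat_lit 6) (nat_lit 385) (nat_lit 1) (nat_lit 279) (nat_lit 229) (nat_lit 272))))))) (PT.nd (nat_lit 80028) (PT.nd (nat_lit 312) (PT.nd (nat_lit 156) (PT.nd (nat_lit 78) (PT.lf (nat_lit 29184) (nat_lit 6) (nat_lit 384) (nat_lit 1) (nat_lit 280) (nat_lit 229) (nat_lit 271)) (PT.lf (nat_lit 29108) (nat_lit 6) (nat_lit 383) (nat_lit 1) (nat_lit 281) (nat_lit 229) (nat_lit 270))) (PT.nd (nat_lit 78) (PT.lf (nat_lit 29032) (nat_lit 6) (nat_lit 382) (nat_lit 1) (nat_lit 282) (nat_lit 229) (nat_lit 269)) (PT.lf (nat_lit 28956) (nat_lit 6) (nat_lit 381) (nat_lit 1) (nat_lit 283) (nat_lit 229) (nat_lit 268)))) (PT.nd (nat_lit 156) (PT.nd (nat_lit 78) (PT.lf (nat_lit 28880) (nat_lit 6) (nat_lit 380) (nat_lit 1) (nat_lit 284) (nat_lit 229) (nat_lit 267)) (PT.lf (nat_lit 28804) (nat_lit 6) (nat_lit 379) (nat_lit 1) (nat_lit 285) (nat_lit 229)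 (nat_lit 266))) (PT.nd (nat_lit 79482) (PT.lf (nat_lit 28728) (nat_lit 6) (nat_lit 378) (nat_lit 1) (nat_lit 286) (nat_lit 229) (nat_lit 265)) (PT.lf (nat_lit 29564) (nat_lit 6) (nat_lit 389) (nat_lit 3) (nat_lit 264) (nat_lit 230) (nat_lit 286))))) (PT.nd (nat_lit 312) (PT.nd (nat_lit 156) (PT.nd (nat_lit 78) (PT.lf (nat_lit 29640) (nat_lit 6) (nat_lit 390) (nat_lit 3) (nat_lit 265) (nat_lit 230) (nat_lit 285)) (PT.lf (nat_lit 29716) (nat_lit 6) (nat_lit 391) (nat_lit 3) (nat_lit 266) (nat_lit 230) (nat_lit 284))) (PT.nd (nat_lit 78) (PT.lf (nat_lit 29792) (nat_lit 6) (nat_lit 392) (nat_lit 3) (nat_lit 267) (nat_lit 230) (nat_lit 283)) (PT.lf (nat_lit 29868) (nat_lit 6) (nat_lit 393) (nat_lit 3) (nat_lit 268) (nat_lit 230) (nat_lit 282)))) (PT.nd (nat_lit 156) (PT.nd (nat_lit 78) (PT.lf (nat_lit 29944) (nat_lit 6) (nat_lit 394) (nat_lit 3) (nat_lit 269) (nat_lit 230) (nat_lit 281)) (PT.lf (nat_lit 30020) (nat_lit 6) (nat_lit 395) (nat_lit 3) (nat_lit 270) (nat_lit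 230) (nat_lit 280))) (PT.nd (nat_lit 78) (PT.lf (nat_lit 30096) (nat_lit 6) (nat_lit 396) (nat_lit 3) (nat_lit 271) (nat_lit 230) (nat_lit 279)) (PT.nd (nat_lit 78) (PT.lf (nat_lit 30172) (nat_lit 6) (nat_lit 397) (nat_lit 3) (nat_lit 272) (nat_lit 230) (nat_lit 278)) (PT.lf (nat_lit 30248) (nat_lit 6) (nat_lit 398) (nat_lit 3) (nat_lit 273) (nat_lit 230) (nat_lit 277))))))))
noncomputable def pc21 : PT := (PT.nd (nat_lit 80730) (PT.nd (nat_lit 624) (PT.nd (nat_lit 312) (PT.nd (nat_lit 156) (PT.nd (nat_lit 78) (PT.lf (nat_lit 30324) (nat_lit 6) (nat_lit 399) (nat_lit 3) (nat_lit 274) (nat_lit 230) (nat_lit 276)) (PT.lf (nat_lit 30400) (nat_lit 3) (nat_lit 400) (nat_lit 1) (nat_lit 275) (nat_lit 230) (nat_lit 275))) (PT.nd (nat_lit 78) (PT.lf (nat_lit 30324) (nat_lit 6) (nat_lit 399) (nat_lit 1) (nat_lit 276) (nat_lit 230) (nat_lit 274)) (PT.lf (nat_lit 30248) (nat_lit 6) (nat_lit 398) (nat_lit 1) (nat_lit 277) (nat_lit 230) (nat_lit 273)))) (PT.nd (nat_lit 156)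 (PT.nd (nat_lit 78) (PT.lf (nat_lit 30172) (nat_lit 6) (nat_lit 397) (nat_lit 1) (nat_lit 278) (nat_lit 230) (nat_lit 272)) (PT.lf (nat_lit 30096) (nat_lit 6) (nat_lit 396) (nat_lit 1) (nat_lit 279) (nat_lit 230) (nat_lit 271))) (PT.nd (nat_lit 78) (PT.lf (nat_lit 30020) (nat_lit 6) (nat_lit 395) (nat_lit 1) (nat_lit 280) (nat_lit 230) (nat_lit 270)) (PT.lf (nat_lit 29944) (nat_lit 6) (nat_lit 394) (nat_lit 1) (nat_lit 281) (nat_lit 230) (nat_lit 269))))) (PT.nd (nat_lit 312) (PT.nd (nat_lit 156) (PT.nd (nat_lit 78) (PT.lf (nat_lit 29868) (nat_lit 6) (nat_lit 393) (nat_lit 1) (nat_lit 282) (nat_lit 230) (nat_lit 268)) (PT.lf (nat_lit 29792) (nat_lit 6) (nat_lit 392) (nat_lit 1) (nat_lit 283) (nat_lit 230) (nat_lit 267))) (PT.nd (nat_lit 78) (PT.lf (nat_lit 29716) (nat_lit 6) (nat_lit 391) (nat_lit 1) (nat_lit 284) (nat_lit 230) (nat_lit 266)) (PT.lf (nat_lit 29640) (nat_lit 6) (nat_lit 390) (nat_lit 1) (nat_lit 285) (nat_lit 230) (nat_lit 265)))) (PT.nd (nat_lit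 79560) (PT.nd (nat_lit 79482) (PT.lf (nat_lit 29564) (nat_lit 6) (nat_lit 389) (nat_lit 1) (nat_lit 286) (nat_lit 230) (nat_lit 264)) (PT.lf (nat_lit 30476) (nat_lit 6) (nat_lit 401) (nat_lit 3) (nat_lit 264) (nat_lit 231) (nat_lit 285))) (PT.nd (nat_lit 78) (PT.lf (nat_lit 30552) (nat_lit 6) (nat_lit 402) (nat_lit 3) (nat_lit 265) (nat_lit 231) (nat_lit 284)) (PT.nd (nat_lit 78) (PT.lf (nat_lit 30628) (nat_lit 6) (nat_lit 403) (nat_lit 3) (nat_lit 266) (nat_lit 231) (nat_lit 283)) (PT.lf (nat_lit 30704) (nat_lit 6) (nat_lit 404) (nat_lit 3) (nat_lit 267) (nat_lit 231) (nat_lit 282))))))) (PT.nd (nat_lit 624) (PT.nd (nat_lit 312) (PT.nd (nat_lit 156) (PT.nd (nat_lit 78) (PT.lf (nat_lit 30780) (nat_lit 6) (nat_lit 405) (nat_lit 3) (nat_lit 268) (nat_lit 231) (nat_lit 281)) (PT.lf (nat_lit 30856) (nat_lit 6) (nat_lit 406) (nat_lit 3) (nat_lit 269) (nat_lit 231) (nat_lit 280))) (PT.nd (nat_lit 78) (PT.lf (nat_lit 30932) (nat_lit 6) (nat_lit 407) (nat_lit 3) (nat_lit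 270) (nat_lit 231) (nat_lit 279)) (PT.lf (nat_lit 31008) (nat_lit 6) (nat_lit 408) (nat_lit 3) (nat_lit 271) (nat_lit 231) (nat_lit 278)))) (PT.nd (nat_lit 156) (PT.nd (nat_lit 78) (PT.lf (nat_lit 31084) (nat_lit 6) (nat_lit 409) (nat_lit 3) (nat_lit 272) (nat_lit 231) (nat_lit 277)) (PT.lf (nat_lit 31160) (nat_lit 6) (nat_lit 410) (nat_lit 3) (nat_lit 273) (nat_lit 231) (nat_lit 276))) (PT.nd (nat_lit 78) (PT.lf (nat_lit 31236) (nat_lit 6) (nat_lit 411) (nat_lit 3) (nat_lit 274) (nat_lit 231) (nat_lit 275)) (PT.lf (nat_lit 31236) (nat_lit 6) (nat_lit 411) (nat_lit 1) (nat_lit 275) (nat_lit 231) (nat_lit 274))))) (PT.nd (nat_lit 312) (PT.nd (nat_lit 156) (PT.nd (nat_lit 78) (PT.lf (nat_lit 31160) (nat_lit 6) (nat_lit 410) (nat_lit 1) (nat_lit 276) (nat_lit 231) (nat_lit 273)) (PT.lf (nat_lit 31084) (nat_lit 6) (nat_lit 409) (nat_lit 1) (nat_lit 277) (nat_lit 231) (nat_lit 272))) (PT.nd (nat_lit 78) (PT.lf (nat_lit 31008) (nat_lit 6) (nat_lit 408) (nat_lit 1) (nat_lit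 278) (nat_lit 231) (nat_lit 271)) (PT.lf (nat_lit 30932) (nat_lit 6) (nat_lit 407) (nat_lit 1) (nat_lit 279) (nat_lit 231) (nat_lit 270)))) (PT.nd (nat_lit 156) (PT.nd (nat_lit 78) (PT.lf (nat_lit 30856) (nat_lit 6) (nat_lit 406) (nat_lit 1) (nat_lit 280) (nat_lit 231) (nat_lit 269)) (PT.lf (nat_lit 30780) (nat_lit 6) (nat_lit 405) (nat_lit 1) (nat_lit 281) (nat_lit 231) (nat_lit 268))) (PT.nd (nat_lit 78) (PT.lf (nat_lit 30704) (nat_lit 6) (nat_lit 404) (nat_lit 1) (nat_lit 282) (nat_lit 231) (nat_lit 267)) (PT.nd (nat_lit 78) (PT.lf (nat_lit 30628) (nat_lit 6) (nat_lit 403) (nat_lit 1) (nat_lit 283) (nat_lit 231) (nat_lit 266)) (PT.lf (nat_lit 30552) (nat_lit 6) (nat_lit 402) (nat_lit 1) (nat_lit 284) (nat_lit 231) (nat_lit 265))))))))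
noncomputable def pc22 : PT := (PT.nd (nat_lit 80730) (PT.nd (nat_lit 80028) (PT.nd (nat_lit 79716) (PT.nd (nat_lit 79560) (PT.nd (nat_lit 79482) (PT.lf (nat_lit 30476) (nat_lit 6) (nat_lit 401) (nat_lit 1) (nat_lit 285) (nat_lit 231) (nat_lit 264)) (PT.lf (nat_lit 31312) (nat_lit 6) (nat_lit 412) (nat_lit 3) (nat_lit 263) (nat_lit 232) (nat_lit 285))) (PT.nd (nat_lit 78) (PT.lf (nat_lit 31388) (nat_lit 6) (nat_lit 413) (nat_lit 3) (nat_lit 264) (nat_lit 232) (nat_lit 284)) (PT.lf (nat_lit 31464) (nat_lit 6) (nat_lit 414) (nat_lit 3) (nat_lit 265) (nat_lit 232) (nat_lit 283)))) (PT.nd (nat_lit 156) (PT.nd (nat_lit 78) (PT.lf (nat_lit 31540) (nat_lit 6) (nat_lit 415) (nat_lit 3) (nat_lit 266) (nat_lit 232) (nat_lit 282)) (PT.lf (nat_lit 31616) (nat_lit 6) (nat_lit 416) (nat_lit 3) (nat_lit 267) (nat_lit 232) (nat_lit 281))) (PT.nd (nat_lit 78) (PT.lf (nat_lit 31692) (nat_lit 6) (nat_lit 417) (nat_lit 3) (nat_lit 268) (nat_lit 232) (nat_lit 280)) (PT.lf (nat_lit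 31768) (nat_lit 6) (nat_lit 418) (nat_lit 3) (nat_lit 269) (nat_lit 232) (nat_lit 279))))) (PT.nd (nat_lit 312) (PT.nd (nat_lit 156) (PT.nd (nat_lit 78) (PT.lf (nat_lit 31844) (nat_lit 6) (nat_lit 419) (nat_lit 3) (nat_lit 270) (nat_lit 232) (nat_lit 278)) (PT.lf (nat_lit 31920) (nat_lit 6) (nat_lit 420) (nat_lit 3) (nat_lit 271) (nat_lit 232) (nat_lit 277))) (PT.nd (nat_lit 78) (PT.lf (nat_lit 31996) (nat_lit 6) (nat_lit 421) (nat_lit 3) (nat_lit 272) (nat_lit 232) (nat_lit 276)) (PT.lf (nat_lit 32072) (nat_lit 6) (nat_lit 422) (nat_lit 3) (nat_lit 273) (nat_lit 232) (nat_lit 275)))) (PT.nd (nat_lit 156) (PT.nd (nat_lit 78) (PT.lf (nat_lit 32148) (nat_lit 3) (nat_lit 423) (nat_lit 1) (nat_lit 274) (nat_lit 232) (nat_lit 274)) (PT.lf (nat_lit 32072) (nat_lit 6) (nat_lit 422) (nat_lit 1) (nat_lit 275) (nat_lit 232) (nat_lit 273))) (PT.nd (nat_lit 78) (PT.lf (nat_lit 31996) (nat_lit 6) (nat_lit 421) (nat_lit 1) (nat_lit 276) (nat_lit 232) (nat_lit 272)) (PT.nd (nat_lit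 78) (PT.lf (nat_lit 31920) (nat_lit 6) (nat_lit 420) (nat_lit 1) (nat_lit 277) (nat_lit 232) (nat_lit 271)) (PT.lf (nat_lit 31844) (nat_lit 6) (nat_lit 419) (nat_lit 1) (nat_lit 278) (nat_lit 232) (nat_lit 270))))))) (PT.nd (nat_lit 79950) (PT.nd (nat_lit 312) (PT.nd (nat_lit 156) (PT.nd (nat_lit 78) (PT.lf (nat_lit 31768) (nat_lit 6) (nat_lit 418) (nat_lit 1) (nat_lit 279) (nat_lit 232) (nat_lit 269)) (PT.lf (nat_lit 31692) (nat_lit 6) (nat_lit 417) (nat_lit 1) (nat_lit 280) (nat_lit 232) (nat_lit 268))) (PT.nd (nat_lit 78) (PT.lf (nat_lit 31616) (nat_lit 6) (nat_lit 416) (nat_lit 1) (nat_lit 281) (nat_lit 232) (nat_lit 267)) (PT.lf (nat_lit 31540) (nat_lit 6) (nat_lit 415) (nat_lit 1) (nat_lit 282) (nat_lit 232) (nat_lit 266)))) (PT.nd (nat_lit 156) (PT.nd (nat_lit 78) (PT.lf (nat_lit 31464) (nat_lit 6) (nat_lit 414) (nat_lit 1) (nat_lit 283) (nat_lit 232) (nat_lit 265)) (PT.lf (nat_lit 31388) (nat_lit 6) (nat_lit 413) (nat_lit 1) (nat_lit 284) (nat_lit 232)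 (nat_lit 264))) (PT.nd (nat_lit 79404) (PT.lf (nat_lit 31312) (nat_lit 6) (nat_lit 412) (nat_lit 1) (nat_lit 285) (nat_lit 232) (nat_lit 263)) (PT.lf (nat_lit 32224) (nat_lit 6) (nat_lit 424) (nat_lit 3) (nat_lit 262) (nat_lit 233) (nat_lit 285))))) (PT.nd (nat_lit 312) (PT.nd (nat_lit 156) (PT.nd (nat_lit 78) (PT.lf (nat_lit 32300) (nat_lit 6) (nat_lit 425) (nat_lit 3) (nat_lit 263) (nat_lit 233) (nat_lit 284)) (PT.lf (nat_lit 32376) (nat_lit 6) (nat_lit 426) (nat_lit 3) (nat_lit 264) (nat_lit 233) (nat_lit 283))) (PT.nd (nat_lit 78) (PT.lf (nat_lit 32452) (nat_lit 6) (nat_lit 427) (nat_lit 3) (nat_lit 265) (nat_lit 233) (nat_lit 282)) (PT.lf (nat_lit 32528) (nat_lit 6) (nat_lit 428) (nat_lit 3) (nat_lit 266) (nat_lit 233) (nat_lit 281)))) (PT.nd (nat_lit 156) (PT.nd (nat_lit 78) (PT.lf (nat_lit 32604) (nat_lit 6) (nat_lit 429) (nat_lit 3) (nat_lit 267) (nat_lit 233) (nat_lit 280)) (PT.lf (nat_lit 32680) (nat_lit 6) (nat_lit 430) (nat_lit 3) (nat_lit 268) (nat_lit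 233) (nat_lit 279))) (PT.nd (nat_lit 78) (PT.lf (nat_lit 32756) (nat_lit 6) (nat_lit 431) (nat_lit 3) (nat_lit 269) (nat_lit 233) (nat_lit 278)) (PT.nd (nat_lit 78) (PT.lf (nat_lit 32832) (nat_lit 6) (nat_lit 432) (nat_lit 3) (nat_lit 270) (nat_lit 233) (nat_lit 277)) (PT.lf (nat_lit 32908) (nat_lit 6) (nat_lit 433) (nat_lit 3) (nat_lit 271) (nat_lit 233) (nat_lit 276))))))))
noncomputable def pc23 : PT := (PT.nd (nat_lit 80574) (PT.nd (nat_lit 624) (PT.nd (nat_lit 312) (PT.nd (nat_lit 156) (PT.nd (nat_lit 78) (PT.lf (nat_lit 32984) (nat_lit 6) (nat_lit 434) (nat_lit 3) (nat_lit 272) (nat_lit 233) (nat_lit 275)) (PT.lf (nat_lit 33060) (nat_lit 6) (nat_lit 435) (nat_lit 3) (nat_lit 273) (nat_lit 233) (nat_lit 274))) (PT.nd (nat_lit 78) (PT.lf (nat_lit 33060) (nat_lit 6) (nat_lit 435) (nat_lit 1) (nat_lit 274) (nat_lit 233) (nat_lit 273)) (PT.lf (nat_lit 32984) (nat_lit 6) (nat_lit 434) (nat_lit 1) (nat_lit 275) (nat_lit 233) (nat_lit 272)))) (PT.nd (nat_lit 156)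 (PT.nd (nat_lit 78) (PT.lf (nat_lit 32908) (nat_lit 6) (nat_lit 433) (nat_lit 1) (nat_lit 276) (nat_lit 233) (nat_lit 271)) (PT.lf (nat_lit 32832) (nat_lit 6) (nat_lit 432) (nat_lit 1) (nat_lit 277) (nat_lit 233) (nat_lit 270))) (PT.nd (nat_lit 78) (PT.lf (nat_lit 32756) (nat_lit 6) (nat_lit 431) (nat_lit 1) (nat_lit 278) (nat_lit 233) (nat_lit 269)) (PT.lf (nat_lit 32680) (nat_lit 6) (nat_lit 430) (nat_lit 1) (nat_lit 279) (nat_lit 233) (nat_lit 268))))) (PT.nd (nat_lit 312) (PT.nd (nat_lit 156) (PT.nd (nat_lit 78) (PT.lf (nat_lit 32604) (nat_lit 6) (nat_lit 429) (nat_lit 1) (nat_lit 280) (nat_lit 233) (nat_lit 267)) (PT.lf (nat_lit 32528) (nat_lit 6) (nat_lit 428) (nat_lit 1) (nat_lit 281) (nat_lit 233) (nat_lit 266))) (PT.nd (nat_lit 78) (PT.lf (nat_lit 32452) (nat_lit 6) (nat_lit 427) (nat_lit 1) (nat_lit 282) (nat_lit 233) (nat_lit 265)) (PT.lf (nat_lit 32376) (nat_lit 6) (nat_lit 426) (nat_lit 1) (nat_lit 283) (nat_lit 233) (nat_lit 264)))) (PT.nd (nat_lit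 79404) (PT.nd (nat_lit 78) (PT.lf (nat_lit 32300) (nat_lit 6) (nat_lit 425) (nat_lit 1) (nat_lit 284) (nat_lit 233) (nat_lit 263)) (PT.lf (nat_lit 32224) (nat_lit 6) (nat_lit 424) (nat_lit 1) (nat_lit 285) (nat_lit 233) (nat_lit 262))) (PT.nd (nat_lit 78) (PT.lf (nat_lit 33136) (nat_lit 6) (nat_lit 436) (nat_lit 3) (nat_lit 261) (nat_lit 234) (nat_lit 285)) (PT.nd (nat_lit 78) (PT.lf (nat_lit 33212) (nat_lit 6) (nat_lit 437) (nat_lit 3) (nat_lit 262) (nat_lit 234) (nat_lit 284)) (PT.lf (nat_lit 33288) (nat_lit 6) (nat_lit 438) (nat_lit 3) (nat_lit 263) (nat_lit 234) (nat_lit 283))))))) (PT.nd (nat_lit 624) (PT.nd (nat_lit 312) (PT.nd (nat_lit 156) (PT.nd (nat_lit 78) (PT.lf (nat_lit 33364) (nat_lit 6) (nat_lit 439) (nat_lit 3) (nat_lit 264) (nat_lit 234) (nat_lit 282)) (PT.lf (nat_lit 33440) (nat_lit 6) (nat_lit 440) (nat_lit 3) (nat_lit 265) (nat_lit 234) (nat_lit 281))) (PT.nd (nat_lit 78) (PT.lf (nat_lit 33516) (nat_lit 6) (nat_lit 441) (nat_lit 3) (nat_lit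 266) (nat_lit 234) (nat_lit 280)) (PT.lf (nat_lit 33592) (nat_lit 6) (nat_lit 442) (nat_lit 3) (nat_lit 267) (nat_lit 234) (nat_lit 279)))) (PT.nd (nat_lit 156) (PT.nd (nat_lit 78) (PT.lf (nat_lit 33668) (nat_lit 6) (nat_lit 443) (nat_lit 3) (nat_lit 268) (nat_lit 234) (nat_lit 278)) (PT.lf (nat_lit 33744) (nat_lit 6) (nat_lit 444) (nat_lit 3) (nat_lit 269) (nat_lit 234) (nat_lit 277))) (PT.nd (nat_lit 78) (PT.lf (nat_lit 33820) (nat_lit 6) (nat_lit 445) (nat_lit 3) (nat_lit 270) (nat_lit 234) (nat_lit 276)) (PT.lf (nat_lit 33896) (nat_lit 6) (nat_lit 446) (nat_lit 3) (nat_lit 271) (nat_lit 234) (nat_lit 275))))) (PT.nd (nat_lit 312) (PT.nd (nat_lit 156) (PT.nd (nat_lit 78) (PT.lf (nat_lit 33972) (nat_lit 6) (nat_lit 447) (nat_lit 3) (nat_lit 272) (nat_lit 234) (nat_lit 274)) (PT.lf (nat_lit 34048) (nat_lit 3) (nat_lit 448) (nat_lit 1) (nat_lit 273) (nat_lit 234) (nat_lit 273))) (PT.nd (nat_lit 78) (PT.lf (nat_lit 33972) (nat_lit 6) (nat_lit 447) (nat_lit 1) (nat_lit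 274) (nat_lit 234) (nat_lit 272)) (PT.lf (nat_lit 33896) (nat_lit 6) (nat_lit 446) (nat_lit 1) (nat_lit 275) (nat_lit 234) (nat_lit 271)))) (PT.nd (nat_lit 156) (PT.nd (nat_lit 78) (PT.lf (nat_lit 33820) (nat_lit 6) (nat_lit 445) (nat_lit 1) (nat_lit 276) (nat_lit 234) (nat_lit 270)) (PT.lf (nat_lit 33744) (nat_lit 6) (nat_lit 444) (nat_lit 1) (nat_lit 277) (nat_lit 234) (nat_lit 269))) (PT.nd (nat_lit 78) (PT.lf (nat_lit 33668) (nat_lit 6) (nat_lit 443) (nat_lit 1) (nat_lit 278) (nat_lit 234) (nat_lit 268)) (PT.nd (nat_lit 78) (PT.lf (nat_lit 33592) (nat_lit 6) (nat_lit 442) (nat_lit 1) (nat_lit 279) (nat_lit 234) (nat_lit 267)) (PT.lf (nat_lit 33516) (nat_lit 6) (nat_lit 441) (nat_lit 1) (nat_lit 280) (nat_lit 234) (nat_lit 266))))))))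
noncomputable def pc24 : PT := (PT.nd (nat_lit 80418) (PT.nd (nat_lit 79794) (PT.nd (nat_lit 312) (PT.nd (nat_lit 156) (PT.nd (nat_lit 78) (PT.lf (nat_lit 33440) (nat_lit 6) (nat_lit 440) (nat_lit 1) (nat_lit 281) (nat_lit 234) (nat_lit 265)) (PT.lf (nat_lit 33364) (nat_lit 6) (nat_lit 439) (nat_lit 1) (nat_lit 282) (nat_lit 234) (nat_lit 264))) (PT.nd (nat_lit 78) (PT.lf (nat_lit 33288) (nat_lit 6) (nat_lit 438) (nat_lit 1) (nat_lit 283) (nat_lit 234) (nat_lit 263)) (PT.lf (nat_lit 33212) (nat_lit 6) (nat_lit 437) (nat_lit 1) (nat_lit 284) (nat_lit 234) (nat_lit 262)))) (PT.nd (nat_lit 79326) (PT.nd (nat_lit 79248) (PT.lf (nat_lit 33136) (nat_lit 6) (nat_lit 436) (nat_lit 1) (nat_lit 285) (nat_lit 234) (nat_lit 261)) (PT.lf (nat_lit 34200) (nat_lit 6) (nat_lit 450) (nat_lit 3) (nat_lit 260) (nat_lit 235) (nat_lit 285))) (PT.nd (nat_lit 78) (PT.lf (nat_lit 34276) (nat_lit 6) (nat_lit 451) (nat_lit 3) (nat_lit 261) (nat_lit 235) (nat_lit 284)) (PT.lf (nat_lit 34352)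 (nat_lit 6) (nat_lit 452) (nat_lit 3) (nat_lit 262) (nat_lit 235) (nat_lit 283))))) (PT.nd (nat_lit 312) (PT.nd (nat_lit 156) (PT.nd (nat_lit 78) (PT.lf (nat_lit 34428) (nat_lit 6) (nat_lit 453) (nat_lit 3) (nat_lit 263) (nat_lit 235) (nat_lit 282)) (PT.lf (nat_lit 34504) (nat_lit 6) (nat_lit 454) (nat_lit 3) (nat_lit 264) (nat_lit 235) (nat_lit 281))) (PT.nd (nat_lit 78) (PT.lf (nat_lit 34580) (nat_lit 6) (nat_lit 455) (nat_lit 3) (nat_lit 265) (nat_lit 235) (nat_lit 280)) (PT.lf (nat_lit 34656) (nat_lit 6) (nat_lit 456) (nat_lit 3) (nat_lit 266) (nat_lit 235) (nat_lit 279)))) (PT.nd (nat_lit 156) (PT.nd (nat_lit 78) (PT.lf (nat_lit 34732) (nat_lit 6) (nat_lit 457) (nat_lit 3) (nat_lit 267) (nat_lit 235) (nat_lit 278)) (PT.lf (nat_lit 34808) (nat_lit 6) (nat_lit 458) (nat_lit 3) (nat_lit 268) (nat_lit 235) (nat_lit 277))) (PT.nd (nat_lit 78) (PT.lf (nat_lit 34884) (nat_lit 6) (nat_lit 459) (nat_lit 3) (nat_lit 269) (nat_lit 235) (nat_lit 276)) (PT.lf (nat_lit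 34960) (nat_lit 6) (nat_lit 460) (nat_lit 3) (nat_lit 270) (nat_lit 235) (nat_lit 275)))))) (PT.nd (nat_lit 624) (PT.nd (nat_lit 312) (PT.nd (nat_lit 156) (PT.nd (nat_lit 78) (PT.lf (nat_lit 35036) (nat_lit 6) (nat_lit 461) (nat_lit 3) (nat_lit 271) (nat_lit 235) (nat_lit 274)) (PT.lf (nat_lit 35112) (nat_lit 6) (nat_lit 462) (nat_lit 3) (nat_lit 272) (nat_lit 235) (nat_lit 273))) (PT.nd (nat_lit 78) (PT.lf (nat_lit 35112) (nat_lit 6) (nat_lit 462) (nat_lit 1) (nat_lit 273) (nat_lit 235) (nat_lit 272)) (PT.lf (nat_lit 35036) (nat_lit 6) (nat_lit 461) (nat_lit 1) (nat_lit 274) (nat_lit 235) (nat_lit 271)))) (PT.nd (nat_lit 156) (PT.nd (nat_lit 78) (PT.lf (nat_lit 34960) (nat_lit 6) (nat_lit 460) (nat_lit 1) (nat_lit 275) (nat_lit 235) (nat_lit 270)) (PT.lf (nat_lit 34884) (nat_lit 6) (nat_lit 459) (nat_lit 1) (nat_lit 276) (nat_lit 235) (nat_lit 269))) (PT.nd (nat_lit 78) (PT.lf (nat_lit 34808) (nat_lit 6) (nat_lit 458) (nat_lit 1) (nat_lit 277) (nat_lit 235) (nat_lit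 268)) (PT.lf (nat_lit 34732) (nat_lit 6) (nat_lit 457) (nat_lit 1) (nat_lit 278) (nat_lit 235) (nat_lit 267))))) (PT.nd (nat_lit 312) (PT.nd (nat_lit 156) (PT.nd (nat_lit 78) (PT.lf (nat_lit 34656) (nat_lit 6) (nat_lit 456) (nat_lit 1) (nat_lit 279) (nat_lit 235) (nat_lit 266)) (PT.lf (nat_lit 34580) (nat_lit 6) (nat_lit 455) (nat_lit 1) (nat_lit 280) (nat_lit 235) (nat_lit 265))) (PT.nd (nat_lit 78) (PT.lf (nat_lit 34504) (nat_lit 6) (nat_lit 454) (nat_lit 1) (nat_lit 281) (nat_lit 235) (nat_lit 264)) (PT.lf (nat_lit 34428) (nat_lit 6) (nat_lit 453) (nat_lit 1) (nat_lit 282) (nat_lit 235) (nat_lit 263)))) (PT.nd (nat_lit 156) (PT.nd (nat_lit 78) (PT.lf (nat_lit 34352) (nat_lit 6) (nat_lit 452) (nat_lit 1) (nat_lit 283) (nat_lit 235) (nat_lit 262)) (PT.lf (nat_lit 34276) (nat_lit 6) (nat_lit 451) (nat_lit 1) (nat_lit 284) (nat_lit 235) (nat_lit 261))) (PT.nd (nat_lit 79170) (PT.lf (nat_lit 34200) (nat_lit 6) (nat_lit 450) (nat_lit 1) (nat_lit 285) (nat_lit 235)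 (nat_lit 260)) (PT.nd (nat_lit 78) (PT.lf (nat_lit 34124) (nat_lit 6) (nat_lit 449) (nat_lit 3) (nat_lit 259) (nat_lit 236) (nat_lit 285)) (PT.lf (nat_lit 36100) (nat_lit 6) (nat_lit 475) (nat_lit 3) (nat_lit 260) (nat_lit 236) (nat_lit 284))))))))
noncomputable def pc25 : PT := (PT.nd (nat_lit 1326) (PT.nd (nat_lit 624) (PT.nd (nat_lit 312) (PT.nd (nat_lit 156) (PT.nd (nat_lit 78) (PT.lf (nat_lit 36176) (nat_lit 6) (nat_lit 476) (nat_lit 3) (nat_lit 261) (nat_lit 236) (nat_lit 283)) (PT.lf (nat_lit 36252) (nat_lit 6) (nat_lit 477) (nat_lit 3) (nat_lit 262) (nat_lit 236) (nat_lit 282))) (PT.nd (nat_lit 78) (PT.lf (nat_lit 36328) (nat_lit 6) (nat_lit 478) (nat_lit 3) (nat_lit 263) (nat_lit 236) (nat_lit 281)) (PT.lf (nat_lit 36404) (nat_lit 6) (nat_lit 479) (nat_lit 3) (nat_lit 264) (nat_lit 236) (nat_lit 280)))) (PT.nd (nat_lit 156) (PT.nd (nat_lit 78) (PT.lf (nat_lit 36480) (nat_lit 6) (nat_lit 480) (nat_lit 3) (nat_lit 265) (nat_lit 236) (nat_lit 279)) (PT.lf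 (nat_lit 36556) (nat_lit 6) (nat_lit 481) (nat_lit 3) (nat_lit 266) (nat_lit 236) (nat_lit 278))) (PT.nd (nat_lit 78) (PT.lf (nat_lit 36632) (nat_lit 6) (nat_lit 482) (nat_lit 3) (nat_lit 267) (nat_lit 236) (nat_lit 277)) (PT.lf (nat_lit 36708) (nat_lit 6) (nat_lit 483) (nat_lit 3) (nat_lit 268) (nat_lit 236) (nat_lit 276))))) (PT.nd (nat_lit 312) (PT.nd (nat_lit 156) (PT.nd (nat_lit 78) (PT.lf (nat_lit 36784) (nat_lit 6) (nat_lit 484) (nat_lit 3) (nat_lit 269) (nat_lit 236) (nat_lit 275)) (PT.lf (nat_lit 36860) (nat_lit 6) (nat_lit 485) (nat_lit 3) (nat_lit 270) (nat_lit 236) (nat_lit 274))) (PT.nd (nat_lit 78) (PT.lf (nat_lit 36936) (nat_lit 6) (nat_lit 486) (nat_lit 3) (nat_lit 271) (nat_lit 236) (nat_lit 273)) (PT.lf (nat_lit 37012) (nat_lit 3) (nat_lit 487) (nat_lit 1) (nat_lit 272) (nat_lit 236) (nat_lit 272)))) (PT.nd (nat_lit 156) (PT.nd (nat_lit 78) (PT.lf (nat_lit 36936) (nat_lit 6) (nat_lit 486) (nat_lit 1) (nat_lit 273) (nat_lit 236) (nat_lit 271))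 (PT.lf (nat_lit 36860) (nat_lit 6) (nat_lit 485) (nat_lit 1) (nat_lit 274) (nat_lit 236) (nat_lit 270))) (PT.nd (nat_lit 78) (PT.lf (nat_lit 36784) (nat_lit 6) (nat_lit 484) (nat_lit 1) (nat_lit 275) (nat_lit 236) (nat_lit 269)) (PT.nd (nat_lit 78) (PT.lf (nat_lit 36708) (nat_lit 6) (nat_lit 483) (nat_lit 1) (nat_lit 276) (nat_lit 236) (nat_lit 268)) (PT.lf (nat_lit 36632) (nat_lit 6) (nat_lit 482) (nat_lit 1) (nat_lit 277) (nat_lit 236) (nat_lit 267))))))) (PT.nd (nat_lit 79716) (PT.nd (nat_lit 312) (PT.nd (nat_lit 156) (PT.nd (nat_lit 78) (PT.lf (nat_lit 36556) (nat_lit 6) (nat_lit 481) (nat_lit 1) (nat_lit 278) (nat_lit 236) (nat_lit 266)) (PT.lf (nat_lit 36480) (nat_lit 6) (nat_lit 480) (nat_lit 1) (nat_lit 279) (nat_lit 236) (nat_lit 265))) (PT.nd (nat_lit 78) (PT.lf (nat_lit 36404) (nat_lit 6) (nat_lit 479) (nat_lit 1) (nat_lit 280) (nat_lit 236) (nat_lit 264)) (PT.lf (nat_lit 36328) (nat_lit 6) (nat_lit 478) (nat_lit 1) (nat_lit 281) (nat_lit 236) (nat_lit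 263)))) (PT.nd (nat_lit 156) (PT.nd (nat_lit 78) (PT.lf (nat_lit 36252) (nat_lit 6) (nat_lit 477) (nat_lit 1) (nat_lit 282) (nat_lit 236) (nat_lit 262)) (PT.lf (nat_lit 36176) (nat_lit 6) (nat_lit 476) (nat_lit 1) (nat_lit 283) (nat_lit 236) (nat_lit 261))) (PT.nd (nat_lit 78) (PT.lf (nat_lit 36100) (nat_lit 6) (nat_lit 475) (nat_lit 1) (nat_lit 284) (nat_lit 236) (nat_lit 260)) (PT.lf (nat_lit 34124) (nat_lit 6) (nat_lit 449) (nat_lit 1) (nat_lit 285) (nat_lit 236) (nat_lit 259))))) (PT.nd (nat_lit 312) (PT.nd (nat_lit 156) (PT.nd (nat_lit 78) (PT.lf (nat_lit 36024) (nat_lit 6) (nat_lit 474) (nat_lit 3) (nat_lit 259) (nat_lit 237) (nat_lit 284)) (PT.lf (nat_lit 37924) (nat_lit 6) (nat_lit 499) (nat_lit 3) (nat_lit 260) (nat_lit 237) (nat_lit 283))) (PT.nd (nat_lit 78) (PT.lf (nat_lit 38000) (nat_lit 6) (nat_lit 500) (nat_lit 3) (nat_lit 261) (nat_lit 237) (nat_lit 282)) (PT.lf (nat_lit 38076) (nat_lit 6) (nat_lit 501) (nat_lit 3) (nat_lit 262) (nat_lit 237) (nat_lit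 281)))) (PT.nd (nat_lit 156) (PT.nd (nat_lit 78) (PT.lf (nat_lit 38152) (nat_lit 6) (nat_lit 502) (nat_lit 3) (nat_lit 263) (nat_lit 237) (nat_lit 280)) (PT.lf (nat_lit 38228) (nat_lit 6) (nat_lit 503) (nat_lit 3) (nat_lit 264) (nat_lit 237) (nat_lit 279))) (PT.nd (nat_lit 78) (PT.lf (nat_lit 38304) (nat_lit 6) (nat_lit 504) (nat_lit 3) (nat_lit 265) (nat_lit 237) (nat_lit 278)) (PT.nd (nat_lit 78) (PT.lf (nat_lit 38380) (nat_lit 6) (nat_lit 505) (nat_lit 3) (nat_lit 266) (nat_lit 237) (nat_lit 277)) (PT.lf (nat_lit 38456) (nat_lit 6) (nat_lit 506) (nat_lit 3) (nat_lit 267) (nat_lit 237) (nat_lit 276))))))))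
noncomputable def pc26 : PT := (PT.nd (nat_lit 80418) (PT.nd (nat_lit 624) (PT.nd (nat_lit 312) (PT.nd (nat_lit 156) (PT.nd (nat_lit 78) (PT.lf (nat_lit 38532) (nat_lit 6) (nat_lit 507) (nat_lit 3) (nat_lit 268) (nat_lit 237) (nat_lit 275)) (PT.lf (nat_lit 38608) (nat_lit 6) (nat_lit 508) (nat_lit 3) (nat_lit 269) (nat_lit 237) (nat_lit 274))) (PT.nd (nat_lit 78) (PT.lf (nat_lit 38684) (nat_lit 6) (nat_lit 509) (nat_lit 3) (nat_lit 270) (nat_lit 237) (nat_lit 273)) (PT.lf (nat_lit 38760) (nat_lit 6) (nat_lit 510) (nat_lit 3) (nat_lit 271) (nat_lit 237) (nat_lit 272)))) (PT.nd (nat_lit 156) (PT.nd (nat_lit 78) (PT.lf (nat_lit 38760) (nat_lit 6) (nat_lit 510) (nat_lit 1) (nat_lit 272) (nat_lit 237) (nat_lit 271)) (PT.lf (nat_lit 38684) (nat_lit 6) (nat_lit 509) (nat_lit 1) (nat_lit 273) (nat_lit 237) (nat_lit 270))) (PT.nd (nat_lit 78) (PT.lf (nat_lit 38608) (nat_lit 6) (nat_lit 508) (nat_lit 1) (nat_lit 274) (nat_lit 237) (nat_lit 269)) (PT.lf (nat_lit 38532) (nat_lit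 6) (nat_lit 507) (nat_lit 1) (nat_lit 275) (nat_lit 237) (nat_lit 268))))) (PT.nd (nat_lit 312) (PT.nd (nat_lit 156) (PT.nd (nat_lit 78) (PT.lf (nat_lit 38456) (nat_lit 6) (nat_lit 506) (nat_lit 1) (nat_lit 276) (nat_lit 237) (nat_lit 267)) (PT.lf (nat_lit 38380) (nat_lit 6) (nat_lit 505) (nat_lit 1) (nat_lit 277) (nat_lit 237) (nat_lit 266))) (PT.nd (nat_lit 78) (PT.lf (nat_lit 38304) (nat_lit 6) (nat_lit 504) (nat_lit 1) (nat_lit 278) (nat_lit 237) (nat_lit 265)) (PT.lf (nat_lit 38228) (nat_lit 6) (nat_lit 503) (nat_lit 1) (nat_lit 279) (nat_lit 237) (nat_lit 264)))) (PT.nd (nat_lit 156) (PT.nd (nat_lit 78) (PT.lf (nat_lit 38152) (nat_lit 6) (nat_lit 502) (nat_lit 1) (nat_lit 280) (nat_lit 237) (nat_lit 263)) (PT.lf (nat_lit 38076) (nat_lit 6) (nat_lit 501) (nat_lit 1) (nat_lit 281) (nat_lit 237) (nat_lit 262))) (PT.nd (nat_lit 78) (PT.lf (nat_lit 38000) (nat_lit 6) (nat_lit 500) (nat_lit 1) (nat_lit 282) (nat_lit 237) (nat_lit 261)) (PT.nd (nat_lit 78) (PT.lf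 (nat_lit 37924) (nat_lit 6) (nat_lit 499) (nat_lit 1) (nat_lit 283) (nat_lit 237) (nat_lit 260)) (PT.lf (nat_lit 36024) (nat_lit 6) (nat_lit 474) (nat_lit 1) (nat_lit 284) (nat_lit 237) (nat_lit 259))))))) (PT.nd (nat_lit 624) (PT.nd (nat_lit 312) (PT.nd (nat_lit 156) (PT.nd (nat_lit 78) (PT.lf (nat_lit 35948) (nat_lit 6) (nat_lit 473) (nat_lit 3) (nat_lit 258) (nat_lit 238) (nat_lit 284)) (PT.lf (nat_lit 37848) (nat_lit 6) (nat_lit 498) (nat_lit 3) (nat_lit 259) (nat_lit 238) (nat_lit 283))) (PT.nd (nat_lit 78) (PT.lf (nat_lit 39672) (nat_lit 6) (nat_lit 522) (nat_lit 3) (nat_lit 260) (nat_lit 238) (nat_lit 282)) (PT.lf (nat_lit 39748) (nat_lit 6) (nat_lit 523) (nat_lit 3) (nat_lit 261) (nat_lit 238) (nat_lit 281)))) (PT.nd (nat_lit 156) (PT.nd (nat_lit 78) (PT.lf (nat_lit 39824) (nat_lit 6) (nat_lit 524) (nat_lit 3) (nat_lit 262) (nat_lit 238) (nat_lit 280)) (PT.lf (nat_lit 39900) (nat_lit 6) (nat_lit 525) (nat_lit 3) (nat_lit 263) (nat_lit 238) (nat_lit 279)))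 (PT.nd (nat_lit 78) (PT.lf (nat_lit 39976) (nat_lit 6) (nat_lit 526) (nat_lit 3) (nat_lit 264) (nat_lit 238) (nat_lit 278)) (PT.lf (nat_lit 40052) (nat_lit 6) (nat_lit 527) (nat_lit 3) (nat_lit 265) (nat_lit 238) (nat_lit 277))))) (PT.nd (nat_lit 312) (PT.nd (nat_lit 156) (PT.nd (nat_lit 78) (PT.lf (nat_lit 40128) (nat_lit 6) (nat_lit 528) (nat_lit 3) (nat_lit 266) (nat_lit 238) (nat_lit 276)) (PT.lf (nat_lit 40204) (nat_lit 6) (nat_lit 529) (nat_lit 3) (nat_lit 267) (nat_lit 238) (nat_lit 275))) (PT.nd (nat_lit 78) (PT.lf (nat_lit 40280) (nat_lit 6) (nat_lit 530) (nat_lit 3) (nat_lit 268) (nat_lit 238) (nat_lit 274)) (PT.lf (nat_lit 40356) (nat_lit 6) (nat_lit 531) (nat_lit 3) (nat_lit 269) (nat_lit 238) (nat_lit 273)))) (PT.nd (nat_lit 156) (PT.nd (nat_lit 78) (PT.lf (nat_lit 40432) (nat_lit 6) (nat_lit 532) (nat_lit 3) (nat_lit 270) (nat_lit 238) (nat_lit 272)) (PT.lf (nat_lit 40508) (nat_lit 3) (nat_lit 533) (nat_lit 1) (nat_lit 271) (nat_lit 238) (nat_lit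 271))) (PT.nd (nat_lit 78) (PT.lf (nat_lit 40432) (nat_lit 6) (nat_lit 532) (nat_lit 1) (nat_lit 272) (nat_lit 238) (nat_lit 270)) (PT.nd (nat_lit 78) (PT.lf (nat_lit 40356) (nat_lit 6) (nat_lit 531) (nat_lit 1) (nat_lit 273) (nat_lit 238) (nat_lit 269)) (PT.lf (nat_lit 40280) (nat_lit 6) (nat_lit 530) (nat_lit 1) (nat_lit 274) (nat_lit 238) (nat_lit 268))))))))
noncomputable def pc27 : PT := (PT.nd (nat_lit 80340) (PT.nd (nat_lit 624) (PT.nd (nat_lit 312) (PT.nd (nat_lit 156) (PT.nd (nat_lit 78) (PT.lf (nat_lit 40204) (nat_lit 6) (nat_lit 529) (nat_lit 1) (nat_lit 275) (nat_lit 238) (nat_lit 267)) (PT.lf (nat_lit 40128) (nat_lit 6) (nat_lit 528) (nat_lit 1) (nat_lit 276) (nat_lit 238) (nat_lit 266))) (PT.nd (nat_lit 78) (PT.lf (nat_lit 40052) (nat_lit 6) (nat_lit 527) (nat_lit 1) (nat_lit 277) (nat_lit 238) (nat_lit 265)) (PT.lf (nat_lit 39976) (nat_lit 6) (nat_lit 526) (nat_lit 1) (nat_lit 278) (nat_lit 238) (nat_lit 264)))) (PT.nd (nat_lit 156) (PT.nd (nat_lit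 78) (PT.lf (nat_lit 39900) (nat_lit 6) (nat_lit 525) (nat_lit 1) (nat_lit 279) (nat_lit 238) (nat_lit 263)) (PT.lf (nat_lit 39824) (nat_lit 6) (nat_lit 524) (nat_lit 1) (nat_lit 280) (nat_lit 238) (nat_lit 262))) (PT.nd (nat_lit 78) (PT.lf (nat_lit 39748) (nat_lit 6) (nat_lit 523) (nat_lit 1) (nat_lit 281) (nat_lit 238) (nat_lit 261)) (PT.lf (nat_lit 39672) (nat_lit 6) (nat_lit 522) (nat_lit 1) (nat_lit 282) (nat_lit 238) (nat_lit 260))))) (PT.nd (nat_lit 79326) (PT.nd (nat_lit 79170) (PT.nd (nat_lit 78) (PT.lf (nat_lit 37848) (nat_lit 6) (nat_lit 498) (nat_lit 1) (nat_lit 283) (nat_lit 238) (nat_lit 259)) (PT.lf (nat_lit 35948) (nat_lit 6) (nat_lit 473) (nat_lit 1) (nat_lit 284) (nat_lit 238) (nat_lit 258))) (PT.nd (nat_lit 78) (PT.lf (nat_lit 35872) (nat_lit 6) (nat_lit 472) (nat_lit 3) (nat_lit 257) (nat_lit 239) (nat_lit 284)) (PT.lf (nat_lit 37772) (nat_lit 6) (nat_lit 497) (nat_lit 3) (nat_lit 258) (nat_lit 239) (nat_lit 283)))) (PT.nd (nat_lit 156) (PT.nd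 (nat_lit 78) (PT.lf (nat_lit 39596) (nat_lit 6) (nat_lit 521) (nat_lit 3) (nat_lit 259) (nat_lit 239) (nat_lit 282)) (PT.lf (nat_lit 41344) (nat_lit 6) (nat_lit 544) (nat_lit 3) (nat_lit 260) (nat_lit 239) (nat_lit 281))) (PT.nd (nat_lit 78) (PT.lf (nat_lit 41420) (nat_lit 6) (nat_lit 545) (nat_lit 3) (nat_lit 261) (nat_lit 239) (nat_lit 280)) (PT.nd (nat_lit 78) (PT.lf (nat_lit 41496) (nat_lit 6) (nat_lit 546) (nat_lit 3) (nat_lit 262) (nat_lit 239) (nat_lit 279)) (PT.lf (nat_lit 41572) (nat_lit 6) (nat_lit 547) (nat_lit 3) (nat_lit 263) (nat_lit 239) (nat_lit 278))))))) (PT.nd (nat_lit 624) (PT.nd (nat_lit 312) (PT.nd (nat_lit 156) (PT.nd (nat_lit 78) (PT.lf (nat_lit 41648) (nat_lit 6) (nat_lit 548) (nat_lit 3) (nat_lit 264) (nat_lit 239) (nat_lit 277)) (PT.lf (nat_lit 41724) (nat_lit 6) (nat_lit 549) (nat_lit 3) (nat_lit 265) (nat_lit 239) (nat_lit 276))) (PT.nd (nat_lit 78) (PT.lf (nat_lit 41800) (nat_lit 6) (nat_lit 550) (nat_lit 3) (nat_lit 266) (nat_lit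 239) (nat_lit 275)) (PT.lf (nat_lit 41876) (nat_lit 6) (nat_lit 551) (nat_lit 3) (nat_lit 267) (nat_lit 239) (nat_lit 274)))) (PT.nd (nat_lit 156) (PT.nd (nat_lit 78) (PT.lf (nat_lit 41952) (nat_lit 6) (nat_lit 552) (nat_lit 3) (nat_lit 268) (nat_lit 239) (nat_lit 273)) (PT.lf (nat_lit 42028) (nat_lit 6) (nat_lit 553) (nat_lit 3) (nat_lit 269) (nat_lit 239) (nat_lit 272))) (PT.nd (nat_lit 78) (PT.lf (nat_lit 42104) (nat_lit 6) (nat_lit 554) (nat_lit 3) (nat_lit 270) (nat_lit 239) (nat_lit 271)) (PT.lf (nat_lit 42104) (nat_lit 6) (nat_lit 554) (nat_lit 1) (nat_lit 271) (nat_lit 239) (nat_lit 270))))) (PT.nd (nat_lit 312) (PT.nd (nat_lit 156) (PT.nd (nat_lit 78) (PT.lf (nat_lit 42028) (nat_lit 6) (nat_lit 553) (nat_lit 1) (nat_lit 272) (nat_lit 239) (nat_lit 269)) (PT.lf (nat_lit 41952) (nat_lit 6) (nat_lit 552) (nat_lit 1) (nat_lit 273) (nat_lit 239) (nat_lit 268))) (PT.nd (nat_lit 78) (PT.lf (nat_lit 41876) (nat_lit 6) (nat_lit 551) (nat_lit 1) (nat_lit 274) (nat_lit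 239) (nat_lit 267)) (PT.lf (nat_lit 41800) (nat_lit 6) (nat_lit 550) (nat_lit 1) (nat_lit 275) (nat_lit 239) (nat_lit 266)))) (PT.nd (nat_lit 156) (PT.nd (nat_lit 78) (PT.lf (nat_lit 41724) (nat_lit 6) (nat_lit 549) (nat_lit 1) (nat_lit 276) (nat_lit 239) (nat_lit 265)) (PT.lf (nat_lit 41648) (nat_lit 6) (nat_lit 548) (nat_lit 1) (nat_lit 277) (nat_lit 239) (nat_lit 264))) (PT.nd (nat_lit 78) (PT.lf (nat_lit 41572) (nat_lit 6) (nat_lit 547) (nat_lit 1) (nat_lit 278) (nat_lit 239) (nat_lit 263)) (PT.nd (nat_lit 78) (PT.lf (nat_lit 41496) (nat_lit 6) (nat_lit 546) (nat_lit 1) (nat_lit 279) (nat_lit 239) (nat_lit 262)) (PT.lf (nat_lit 41420) (nat_lit 6) (nat_lit 545) (nat_lit 1) (nat_lit 280) (nat_lit 239) (nat_lit 261))))))))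
noncomputable def pc28 : PT := (PT.nd (nat_lit 80262) (PT.nd (nat_lit 79560) (PT.nd (nat_lit 79248) (PT.nd (nat_lit 156) (PT.nd (nat_lit 78) (PT.lf (nat_lit 41344) (nat_lit 6) (nat_lit 544) (nat_lit 1) (nat_lit 281) (nat_lit 239) (nat_lit 260)) (PT.lf (nat_lit 39596) (nat_lit 6) (nat_lit 521) (nat_lit 1) (nat_lit 282) (nat_lit 239) (nat_lit 259))) (PT.nd (nat_lit 78) (PT.lf (nat_lit 37772) (nat_lit 6) (nat_lit 497) (nat_lit 1) (nat_lit 283) (nat_lit 239) (nat_lit 258)) (PT.lf (nat_lit 35872) (nat_lit 6) (nat_lit 472) (nat_lit 1) (nat_lit 284) (nat_lit 239) (nat_lit 257)))) (PT.nd (nat_lit 156) (PT.nd (nat_lit 78) (PT.lf (nat_lit 35796) (nat_lit 6) (nat_lit 471) (nat_lit 3) (nat_lit 256) (nat_lit 240) (nat_lit 284)) (PT.lf (nat_lit 37696) (nat_lit 6) (nat_lit 496) (nat_lit 3) (nat_lit 257) (nat_lit 240) (nat_lit 283))) (PT.nd (nat_lit 78) (PT.lf (nat_lit 39520) (nat_lit 6) (nat_lit 520) (nat_lit 3) (nat_lit 258) (nat_lit 240) (nat_lit 282)) (PT.lf (nat_lit 41268)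 (nat_lit 6) (nat_lit 543) (nat_lit 3) (nat_lit 259) (nat_lit 240) (nat_lit 281))))) (PT.nd (nat_lit 312) (PT.nd (nat_lit 156) (PT.nd (nat_lit 78) (PT.lf (nat_lit 42940) (nat_lit 6) (nat_lit 565) (nat_lit 3) (nat_lit 260) (nat_lit 240) (nat_lit 280)) (PT.lf (nat_lit 43016) (nat_lit 6) (nat_lit 566) (nat_lit 3) (nat_lit 261) (nat_lit 240) (nat_lit 279))) (PT.nd (nat_lit 78) (PT.lf (nat_lit 43092) (nat_lit 6) (nat_lit 567) (nat_lit 3) (nat_lit 262) (nat_lit 240) (nat_lit 278)) (PT.lf (nat_lit 43168) (nat_lit 6) (nat_lit 568) (nat_lit 3) (nat_lit 263) (nat_lit 240) (nat_lit 277)))) (PT.nd (nat_lit 156) (PT.nd (nat_lit 78) (PT.lf (nat_lit 43244) (nat_lit 6) (nat_lit 569) (nat_lit 3) (nat_lit 264) (nat_lit 240) (nat_lit 276)) (PT.lf (nat_lit 43320) (nat_lit 6) (nat_lit 570) (nat_lit 3) (nat_lit 265) (nat_lit 240) (nat_lit 275))) (PT.nd (nat_lit 78) (PT.lf (nat_lit 43396) (nat_lit 6) (nat_lit 571) (nat_lit 3) (nat_lit 266) (nat_lit 240) (nat_lit 274)) (PT.nd (nat_lit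 78) (PT.lf (nat_lit 43472) (nat_lit 6) (nat_lit 572) (nat_lit 3) (nat_lit 267) (nat_lit 240) (nat_lit 273)) (PT.lf (nat_lit 43548) (nat_lit 6) (nat_lit 573) (nat_lit 3) (nat_lit 268) (nat_lit 240) (nat_lit 272))))))) (PT.nd (nat_lit 624) (PT.nd (nat_lit 312) (PT.nd (nat_lit 156) (PT.nd (nat_lit 78) (PT.lf (nat_lit 43624) (nat_lit 6) (nat_lit 574) (nat_lit 3) (nat_lit 269) (nat_lit 240) (nat_lit 271)) (PT.lf (nat_lit 43700) (nat_lit 3) (nat_lit 575) (nat_lit 1) (nat_lit 270) (nat_lit 240) (nat_lit 270))) (PT.nd (nat_lit 78) (PT.lf (nat_lit 43624) (nat_lit 6) (nat_lit 574) (nat_lit 1) (nat_lit 271) (nat_lit 240) (nat_lit 269)) (PT.lf (nat_lit 43548) (nat_lit 6) (nat_lit 573) (nat_lit 1) (nat_lit 272) (nat_lit 240) (nat_lit 268)))) (PT.nd (nat_lit 156) (PT.nd (nat_lit 78) (PT.lf (nat_lit 43472) (nat_lit 6) (nat_lit 572) (nat_lit 1) (nat_lit 273) (nat_lit 240) (nat_lit 267)) (PT.lf (nat_lit 43396) (nat_lit 6) (nat_lit 571) (nat_lit 1) (nat_lit 274) (nat_lit 240) (nat_lit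 266))) (PT.nd (nat_lit 78) (PT.lf (nat_lit 43320) (nat_lit 6) (nat_lit 570) (nat_lit 1) (nat_lit 275) (nat_lit 240) (nat_lit 265)) (PT.lf (nat_lit 43244) (nat_lit 6) (nat_lit 569) (nat_lit 1) (nat_lit 276) (nat_lit 240) (nat_lit 264))))) (PT.nd (nat_lit 312) (PT.nd (nat_lit 156) (PT.nd (nat_lit 78) (PT.lf (nat_lit 43168) (nat_lit 6) (nat_lit 568) (nat_lit 1) (nat_lit 277) (nat_lit 240) (nat_lit 263)) (PT.lf (nat_lit 43092) (nat_lit 6) (nat_lit 567) (nat_lit 1) (nat_lit 278) (nat_lit 240) (nat_lit 262))) (PT.nd (nat_lit 78) (PT.lf (nat_lit 43016) (nat_lit 6) (nat_lit 566) (nat_lit 1) (nat_lit 279) (nat_lit 240) (nat_lit 261)) (PT.lf (nat_lit 42940) (nat_lit 6) (nat_lit 565) (nat_lit 1) (nat_lit 280) (nat_lit 240) (nat_lit 260)))) (PT.nd (nat_lit 156) (PT.nd (nat_lit 78) (PT.lf (nat_lit 41268) (nat_lit 6) (nat_lit 543) (nat_lit 1) (nat_lit 281) (nat_lit 240) (nat_lit 259)) (PT.lf (nat_lit 39520) (nat_lit 6) (nat_lit 520) (nat_lit 1) (nat_lit 282) (nat_lit 240) (nat_lit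 258))) (PT.nd (nat_lit 78) (PT.lf (nat_lit 37696) (nat_lit 6) (nat_lit 496) (nat_lit 1) (nat_lit 283) (nat_lit 240) (nat_lit 257)) (PT.nd (nat_lit 78936) (PT.lf (nat_lit 35796) (nat_lit 6) (nat_lit 471) (nat_lit 1) (nat_lit 284) (nat_lit 240) (nat_lit 256)) (PT.lf (nat_lit 35720) (nat_lit 6) (nat_lit 470) (nat_lit 3) (nat_lit 255) (nat_lit 241) (nat_lit 284))))))))
noncomputable def pc29 : PT := (PT.nd (nat_lit 1326) (PT.nd (nat_lit 624) (PT.nd (nat_lit 312) (PT.nd (nat_lit 156) (PT.nd (nat_lit 78) (PT.lf (nat_lit 37620) (nat_lit 6) (nat_lit 495) (nat_lit 3) (nat_lit 256) (nat_lit 241) (nat_lit 283)) (PT.lf (nat_lit 39444) (nat_lit 6) (nat_lit 519) (nat_lit 3) (nat_lit 257) (nat_lit 241) (nat_lit 282))) (PT.nd (nat_lit 78) (PT.lf (nat_lit 41192) (nat_lit 6) (nat_lit 542) (nat_lit 3) (nat_lit 258) (nat_lit 241) (nat_lit 281)) (PT.lf (nat_lit 42864) (nat_lit 6) (nat_lit 564) (nat_lit 3) (nat_lit 259) (nat_lit 241) (nat_lit 280)))) (PT.nd (nat_lit 156) (PT.nd (nat_lit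 78) (PT.lf (nat_lit 44460) (nat_lit 6) (nat_lit 585) (nat_lit 3) (nat_lit 260) (nat_lit 241) (nat_lit 279)) (PT.lf (nat_lit 44536) (nat_lit 6) (nat_lit 586) (nat_lit 3) (nat_lit 261) (nat_lit 241) (nat_lit 278))) (PT.nd (nat_lit 78) (PT.lf (nat_lit 44612) (nat_lit 6) (nat_lit 587) (nat_lit 3) (nat_lit 262) (nat_lit 241) (nat_lit 277)) (PT.lf (nat_lit 44688) (nat_lit 6) (nat_lit 588) (nat_lit 3) (nat_lit 263) (nat_lit 241) (nat_lit 276))))) (PT.nd (nat_lit 312) (PT.nd (nat_lit 156) (PT.nd (nat_lit 78) (PT.lf (nat_lit 44764) (nat_lit 6) (nat_lit 589) (nat_lit 3) (nat_lit 264) (nat_lit 241) (nat_lit 275)) (PT.lf (nat_lit 44840) (nat_lit 6) (nat_lit 590) (nat_lit 3) (nat_lit 265) (nat_lit 241) (nat_lit 274))) (PT.nd (nat_lit 78) (PT.lf (nat_lit 44916) (nat_lit 6) (nat_lit 591) (nat_lit 3) (nat_lit 266) (nat_lit 241) (nat_lit 273)) (PT.lf (nat_lit 44992) (nat_lit 6) (nat_lit 592) (nat_lit 3) (nat_lit 267) (nat_lit 241) (nat_lit 272)))) (PT.nd (nat_lit 156) (PT.nd (nat_lit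 78) (PT.lf (nat_lit 45068) (nat_lit 6) (nat_lit 593) (nat_lit 3) (nat_lit 268) (nat_lit 241) (nat_lit 271)) (PT.lf (nat_lit 45144) (nat_lit 6) (nat_lit 594) (nat_lit 3) (nat_lit 269) (nat_lit 241) (nat_lit 270))) (PT.nd (nat_lit 78) (PT.lf (nat_lit 45144) (nat_lit 6) (nat_lit 594) (nat_lit 1) (nat_lit 270) (nat_lit 241) (nat_lit 269)) (PT.nd (nat_lit 78) (PT.lf (nat_lit 45068) (nat_lit 6) (nat_lit 593) (nat_lit 1) (nat_lit 271) (nat_lit 241) (nat_lit 268)) (PT.lf (nat_lit 44992) (nat_lit 6) (nat_lit 592) (nat_lit 1) (nat_lit 272) (nat_lit 241) (nat_lit 267))))))) (PT.nd (nat_lit 624) (PT.nd (nat_lit 312) (PT.nd (nat_lit 156) (PT.nd (nat_lit 78) (PT.lf (nat_lit 44916) (nat_lit 6) (nat_lit 591) (nat_lit 1) (nat_lit 273) (nat_lit 241) (nat_lit 266)) (PT.lf (nat_lit 44840) (nat_lit 6) (nat_lit 590) (nat_lit 1) (nat_lit 274) (nat_lit 241) (nat_lit 265))) (PT.nd (nat_lit 78) (PT.lf (nat_lit 44764) (nat_lit 6) (nat_lit 589) (nat_lit 1) (nat_lit 275) (nat_lit 241) (nat_lit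 264)) (PT.lf (nat_lit 44688) (nat_lit 6) (nat_lit 588) (nat_lit 1) (nat_lit 276) (nat_lit 241) (nat_lit 263)))) (PT.nd (nat_lit 156) (PT.nd (nat_lit 78) (PT.lf (nat_lit 44612) (nat_lit 6) (nat_lit 587) (nat_lit 1) (nat_lit 277) (nat_lit 241) (nat_lit 262)) (PT.lf (nat_lit 44536) (nat_lit 6) (nat_lit 586) (nat_lit 1) (nat_lit 278) (nat_lit 241) (nat_lit 261))) (PT.nd (nat_lit 78) (PT.lf (nat_lit 44460) (nat_lit 6) (nat_lit 585) (nat_lit 1) (nat_lit 279) (nat_lit 241) (nat_lit 260)) (PT.lf (nat_lit 42864) (nat_lit 6) (nat_lit 564) (nat_lit 1) (nat_lit 280) (nat_lit 241) (nat_lit 259))))) (PT.nd (nat_lit 79092) (PT.nd (nat_lit 156) (PT.nd (nat_lit 78) (PT.lf (nat_lit 41192) (nat_lit 6) (nat_lit 542) (nat_lit 1) (nat_lit 281) (nat_lit 241) (nat_lit 258)) (PT.lf (nat_lit 39444) (nat_lit 6) (nat_lit 519) (nat_lit 1) (nat_lit 282) (nat_lit 241) (nat_lit 257))) (PT.nd (nat_lit 78) (PT.lf (nat_lit 37620) (nat_lit 6) (nat_lit 495) (nat_lit 1) (nat_lit 283) (nat_lit 241)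 (nat_lit 256)) (PT.lf (nat_lit 35720) (nat_lit 6) (nat_lit 470) (nat_lit 1) (nat_lit 284) (nat_lit 241) (nat_lit 255)))) (PT.nd (nat_lit 156) (PT.nd (nat_lit 78) (PT.lf (nat_lit 35644) (nat_lit 6) (nat_lit 469) (nat_lit 3) (nat_lit 254) (nat_lit 242) (nat_lit 284)) (PT.lf (nat_lit 37544) (nat_lit 6) (nat_lit 494) (nat_lit 3) (nat_lit 255) (nat_lit 242) (nat_lit 283))) (PT.nd (nat_lit 78) (PT.lf (nat_lit 39368) (nat_lit 6) (nat_lit 518) (nat_lit 3) (nat_lit 256) (nat_lit 242) (nat_lit 282)) (PT.nd (nat_lit 78) (PT.lf (nat_lit 41116) (nat_lit 6) (nat_lit 541) (nat_lit 3) (nat_lit 257) (nat_lit 242) (nat_lit 281)) (PT.lf (nat_lit 42788) (nat_lit 6) (nat_lit 563) (nat_lit 3) (nat_lit 258) (nat_lit 242) (nat_lit 280))))))))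
noncomputable def pc30 : PT := (PT.nd (nat_lit 1326) (PT.nd (nat_lit 624) (PT.nd (nat_lit 312) (PT.nd (nat_lit 156) (PT.nd (nat_lit 78) (PT.lf (nat_lit 44384) (nat_lit 6) (nat_lit 584) (nat_lit 3) (nat_lit 259) (nat_lit 242) (nat_lit 279)) (PT.lf (nat_lit 45904) (nat_lit 6) (nat_lit 604) (nat_lit 3) (nat_lit 260) (nat_lit 242) (nat_lit 278))) (PT.nd (nat_lit 78) (PT.lf (nat_lit 45980) (nat_lit 6) (nat_lit 605) (nat_lit 3) (nat_lit 261) (nat_lit 242) (nat_lit 277)) (PT.lf (nat_lit 46056) (nat_lit 6) (nat_lit 606) (nat_lit 3) (nat_lit 262) (nat_lit 242) (nat_lit 276)))) (PT.nd (nat_lit 156) (PT.nd (nat_lit 78) (PT.lf (nat_lit 46132) (nat_lit 6) (nat_lit 607) (nat_lit 3) (nat_lit 263) (nat_lit 242) (nat_lit 275)) (PT.lf (nat_lit 46208) (nat_lit 6) (nat_lit 608) (nat_lit 3) (nat_lit 264) (nat_lit 242) (nat_lit 274))) (PT.nd (nat_lit 78) (PT.lf (nat_lit 46284) (nat_lit 6) (nat_lit 609) (nat_lit 3) (nat_lit 265) (nat_lit 242) (nat_lit 273)) (PT.lf (nat_lit 46360) (nat_lit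 6) (nat_lit 610) (nat_lit 3) (nat_lit 266) (nat_lit 242) (nat_lit 272))))) (PT.nd (nat_lit 312) (PT.nd (nat_lit 156) (PT.nd (nat_lit 78) (PT.lf (nat_lit 46436) (nat_lit 6) (nat_lit 611) (nat_lit 3) (nat_lit 267) (nat_lit 242) (nat_lit 271)) (PT.lf (nat_lit 46512) (nat_lit 6) (nat_lit 612) (nat_lit 3) (nat_lit 268) (nat_lit 242) (nat_lit 270))) (PT.nd (nat_lit 78) (PT.lf (nat_lit 46588) (nat_lit 3) (nat_lit 613) (nat_lit 1) (nat_lit 269) (nat_lit 242) (nat_lit 269)) (PT.lf (nat_lit 46512) (nat_lit 6) (nat_lit 612) (nat_lit 1) (nat_lit 270) (nat_lit 242) (nat_lit 268)))) (PT.nd (nat_lit 156) (PT.nd (nat_lit 78) (PT.lf (nat_lit 46436) (nat_lit 6) (nat_lit 611) (nat_lit 1) (nat_lit 271) (nat_lit 242) (nat_lit 267)) (PT.lf (nat_lit 46360) (nat_lit 6) (nat_lit 610) (nat_lit 1) (nat_lit 272) (nat_lit 242) (nat_lit 266))) (PT.nd (nat_lit 78) (PT.lf (nat_lit 46284) (nat_lit 6) (nat_lit 609) (nat_lit 1) (nat_lit 273) (nat_lit 242) (nat_lit 265)) (PT.nd (nat_lit 78) (PT.lf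 (nat_lit 46208) (nat_lit 6) (nat_lit 608) (nat_lit 1) (nat_lit 274) (nat_lit 242) (nat_lit 264)) (PT.lf (nat_lit 46132) (nat_lit 6) (nat_lit 607) (nat_lit 1) (nat_lit 275) (nat_lit 242) (nat_lit 263))))))) (PT.nd (nat_lit 624) (PT.nd (nat_lit 312) (PT.nd (nat_lit 156) (PT.nd (nat_lit 78) (PT.lf (nat_lit 46056) (nat_lit 6) (nat_lit 606) (nat_lit 1) (nat_lit 276) (nat_lit 242) (nat_lit 262)) (PT.lf (nat_lit 45980) (nat_lit 6) (nat_lit 605) (nat_lit 1) (nat_lit 277) (nat_lit 242) (nat_lit 261))) (PT.nd (nat_lit 78) (PT.lf (nat_lit 45904) (nat_lit 6) (nat_lit 604) (nat_lit 1) (nat_lit 278) (nat_lit 242) (nat_lit 260)) (PT.lf (nat_lit 44384) (nat_lit 6) (nat_lit 584) (nat_lit 1) (nat_lit 279) (nat_lit 242) (nat_lit 259)))) (PT.nd (nat_lit 156) (PT.nd (nat_lit 78) (PT.lf (nat_lit 42788) (nat_lit 6) (nat_lit 563) (nat_lit 1) (nat_lit 280) (nat_lit 242) (nat_lit 258)) (PT.lf (nat_lit 41116) (nat_lit 6) (nat_lit 541) (nat_lit 1) (nat_lit 281) (nat_lit 242) (nat_lit 257)))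 (PT.nd (nat_lit 78) (PT.lf (nat_lit 39368) (nat_lit 6) (nat_lit 518) (nat_lit 1) (nat_lit 282) (nat_lit 242) (nat_lit 256)) (PT.lf (nat_lit 37544) (nat_lit 6) (nat_lit 494) (nat_lit 1) (nat_lit 283) (nat_lit 242) (nat_lit 255))))) (PT.nd (nat_lit 79014) (PT.nd (nat_lit 78858) (PT.nd (nat_lit 78780) (PT.lf (nat_lit 35644) (nat_lit 6) (nat_lit 469) (nat_lit 1) (nat_lit 284) (nat_lit 242) (nat_lit 254)) (PT.lf (nat_lit 35568) (nat_lit 6) (nat_lit 468) (nat_lit 3) (nat_lit 253) (nat_lit 243) (nat_lit 284))) (PT.nd (nat_lit 78) (PT.lf (nat_lit 37468) (nat_lit 6) (nat_lit 493) (nat_lit 3) (nat_lit 254) (nat_lit 243) (nat_lit 283)) (PT.lf (nat_lit 39292) (nat_lit 6) (nat_lit 517) (nat_lit 3) (nat_lit 255) (nat_lit 243) (nat_lit 282)))) (PT.nd (nat_lit 156) (PT.nd (nat_lit 78) (PT.lf (nat_lit 41040) (nat_lit 6) (nat_lit 540) (nat_lit 3) (nat_lit 256) (nat_lit 243) (nat_lit 281)) (PT.lf (nat_lit 42712) (nat_lit 6) (nat_lit 562) (nat_lit 3) (nat_lit 257) (nat_lit 243) (nat_lit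 280))) (PT.nd (nat_lit 78) (PT.lf (nat_lit 44308) (nat_lit 6) (nat_lit 583) (nat_lit 3) (nat_lit 258) (nat_lit 243) (nat_lit 279)) (PT.nd (nat_lit 78) (PT.lf (nat_lit 45828) (nat_lit 6) (nat_lit 603) (nat_lit 3) (nat_lit 259) (nat_lit 243) (nat_lit 278)) (PT.lf (nat_lit 47272) (nat_lit 6) (nat_lit 622) (nat_lit 3) (nat_lit 260) (nat_lit 243) (nat_lit 277))))))))
noncomputable def pc31 : PT := (PT.nd (nat_lit 1326) (PT.nd (nat_lit 624) (PT.nd (nat_lit 312) (PT.nd (nat_lit 156) (PT.nd (nat_lit 78) (PT.lf (nat_lit 47348) (nat_lit 6) (nat_lit 623) (nat_lit 3) (nat_lit 261) (nat_lit 243) (nat_lit 276)) (PT.lf (nat_lit 47424) (nat_lit 6) (nat_lit 624) (nat_lit 3) (nat_lit 262) (nat_lit 243) (nat_lit 275))) (PT.nd (nat_lit 78) (PT.lf (nat_lit 47500) (nat_lit 6) (nat_lit 625) (nat_lit 3) (nat_lit 263) (nat_lit 243) (nat_lit 274)) (PT.lf (nat_lit 47576) (nat_lit 6) (nat_lit 626) (nat_lit 3) (nat_lit 264) (nat_lit 243) (nat_lit 273)))) (PT.nd (nat_lit 156) (PT.nd (nat_lit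 78) (PT.lf (nat_lit 47652) (nat_lit 6) (nat_lit 627) (nat_lit 3) (nat_lit 265) (nat_lit 243) (nat_lit 272)) (PT.lf (nat_lit 47728) (nat_lit 6) (nat_lit 628) (nat_lit 3) (nat_lit 266) (nat_lit 243) (nat_lit 271))) (PT.nd (nat_lit 78) (PT.lf (nat_lit 47804) (nat_lit 6) (nat_lit 629) (nat_lit 3) (nat_lit 267) (nat_lit 243) (nat_lit 270)) (PT.lf (nat_lit 47880) (nat_lit 6) (nat_lit 630) (nat_lit 3) (nat_lit 268) (nat_lit 243) (nat_lit 269))))) (PT.nd (nat_lit 312) (PT.nd (nat_lit 156) (PT.nd (nat_lit 78) (PT.lf (nat_lit 47880) (nat_lit 6) (nat_lit 630) (nat_lit 1) (nat_lit 269) (nat_lit 243) (nat_lit 268)) (PT.lf (nat_lit 47804) (nat_lit 6) (nat_lit 629) (nat_lit 1) (nat_lit 270) (nat_lit 243) (nat_lit 267))) (PT.nd (nat_lit 78) (PT.lf (nat_lit 47728) (nat_lit 6) (nat_lit 628) (nat_lit 1) (nat_lit 271) (nat_lit 243) (nat_lit 266)) (PT.lf (nat_lit 47652) (nat_lit 6) (nat_lit 627) (nat_lit 1) (nat_lit 272) (nat_lit 243) (nat_lit 265)))) (PT.nd (nat_lit 156) (PT.nd (nat_lit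 78) (PT.lf (nat_lit 47576) (nat_lit 6) (nat_lit 626) (nat_lit 1) (nat_lit 273) (nat_lit 243) (nat_lit 264)) (PT.lf (nat_lit 47500) (nat_lit 6) (nat_lit 625) (nat_lit 1) (nat_lit 274) (nat_lit 243) (nat_lit 263))) (PT.nd (nat_lit 78) (PT.lf (nat_lit 47424) (nat_lit 6) (nat_lit 624) (nat_lit 1) (nat_lit 275) (nat_lit 243) (nat_lit 262)) (PT.nd (nat_lit 78) (PT.lf (nat_lit 47348) (nat_lit 6) (nat_lit 623) (nat_lit 1) (nat_lit 276) (nat_lit 243) (nat_lit 261)) (PT.lf (nat_lit 47272) (nat_lit 6) (nat_lit 622) (nat_lit 1) (nat_lit 277) (nat_lit 243) (nat_lit 260))))))) (PT.nd (nat_lit 79248) (PT.nd (nat_lit 312) (PT.nd (nat_lit 156) (PT.nd (nat_lit 78) (PT.lf (nat_lit 45828) (nat_lit 6) (nat_lit 603) (nat_lit 1) (nat_lit 278) (nat_lit 243) (nat_lit 259)) (PT.lf (nat_lit 44308) (nat_lit 6) (nat_lit 583) (nat_lit 1) (nat_lit 279) (nat_lit 243) (nat_lit 258))) (PT.nd (nat_lit 78) (PT.lf (nat_lit 42712) (nat_lit 6) (nat_lit 562) (nat_lit 1) (nat_lit 280) (nat_lit 243) (nat_lit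 257)) (PT.lf (nat_lit 41040) (nat_lit 6) (nat_lit 540) (nat_lit 1) (nat_lit 281) (nat_lit 243) (nat_lit 256)))) (PT.nd (nat_lit 156) (PT.nd (nat_lit 78) (PT.lf (nat_lit 39292) (nat_lit 6) (nat_lit 517) (nat_lit 1) (nat_lit 282) (nat_lit 243) (nat_lit 255)) (PT.lf (nat_lit 37468) (nat_lit 6) (nat_lit 493) (nat_lit 1) (nat_lit 283) (nat_lit 243) (nat_lit 254))) (PT.nd (nat_lit 78702) (PT.lf (nat_lit 35568) (nat_lit 6) (nat_lit 468) (nat_lit 1) (nat_lit 284) (nat_lit 243) (nat_lit 253)) (PT.lf (nat_lit 35492) (nat_lit 6) (nat_lit 467) (nat_lit 3) (nat_lit 252) (nat_lit 244) (nat_lit 284))))) (PT.nd (nat_lit 312) (PT.nd (nat_lit 156) (PT.nd (nat_lit 78) (PT.lf (nat_lit 37392) (nat_lit 6) (nat_lit 492) (nat_lit 3) (nat_lit 253) (nat_lit 244) (nat_lit 283)) (PT.lf (nat_lit 39216) (nat_lit 6) (nat_lit 516) (nat_lit 3) (nat_lit 254) (nat_lit 244) (nat_lit 282))) (PT.nd (nat_lit 78) (PT.lf (nat_lit 40964) (nat_lit 6) (nat_lit 539) (nat_lit 3) (nat_lit 255) (nat_lit 244)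 (nat_lit 281)) (PT.lf (nat_lit 42636) (nat_lit 6) (nat_lit 561) (nat_lit 3) (nat_lit 256) (nat_lit 244) (nat_lit 280)))) (PT.nd (nat_lit 156) (PT.nd (nat_lit 78) (PT.lf (nat_lit 44232) (nat_lit 6) (nat_lit 582) (nat_lit 3) (nat_lit 257) (nat_lit 244) (nat_lit 279)) (PT.lf (nat_lit 45752) (nat_lit 6) (nat_lit 602) (nat_lit 3) (nat_lit 258) (nat_lit 244) (nat_lit 278))) (PT.nd (nat_lit 78) (PT.lf (nat_lit 47196) (nat_lit 6) (nat_lit 621) (nat_lit 3) (nat_lit 259) (nat_lit 244) (nat_lit 277)) (PT.nd (nat_lit 78) (PT.lf (nat_lit 48564) (nat_lit 6) (nat_lit 639) (nat_lit 3) (nat_lit 260) (nat_lit 244) (nat_lit 276)) (PT.lf (nat_lit 48640) (nat_lit 6) (nat_lit 640) (nat_lit 3) (nat_lit 261) (nat_lit 244) (nat_lit 275))))))))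
noncomputable def pc32 : PT := (PT.nd (nat_lit 1248) (PT.nd (nat_lit 624) (PT.nd (nat_lit 312) (PT.nd (nat_lit 156) (PT.nd (nat_lit 78) (PT.lf (nat_lit 48716) (nat_lit 6) (nat_lit 641) (nat_lit 3) (nat_lit 262) (nat_lit 244) (nat_lit 274)) (PT.lf (nat_lit 48792) (nat_lit 6) (nat_lit 642) (nat_lit 3) (nat_lit 263) (nat_lit 244) (nat_lit 273))) (PT.nd (nat_lit 78) (PT.lf (nat_lit 48868) (nat_lit 6) (nat_lit 643) (nat_lit 3) (nat_lit 264) (nat_lit 244) (nat_lit 272)) (PT.lf (nat_lit 48944) (nat_lit 6) (nat_lit 644) (nat_lit 3) (nat_lit 265) (nat_lit 244) (nat_lit 271)))) (PT.nd (nat_lit 156) (PT.nd (nat_lit 78) (PT.lf (nat_lit 49020) (nat_lit 6) (nat_lit 645) (nat_lit 3) (nat_lit 266) (nat_lit 244) (nat_lit 270)) (PT.lf (nat_lit 49096) (nat_lit 6) (nat_lit 646) (nat_lit 3) (nat_lit 267) (nat_lit 244) (nat_lit 269))) (PT.nd (nat_lit 78) (PT.lf (nat_lit 49172) (nat_lit 3) (nat_lit 647) (nat_lit 1) (nat_lit 268) (nat_lit 244) (nat_lit 268)) (PT.lf (nat_lit 49096) (nat_lit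 6) (nat_lit 646) (nat_lit 1) (nat_lit 269) (nat_lit 244) (nat_lit 267))))) (PT.nd (nat_lit 312) (PT.nd (nat_lit 156) (PT.nd (nat_lit 78) (PT.lf (nat_lit 49020) (nat_lit 6) (nat_lit 645) (nat_lit 1) (nat_lit 270) (nat_lit 244) (nat_lit 266)) (PT.lf (nat_lit 48944) (nat_lit 6) (nat_lit 644) (nat_lit 1) (nat_lit 271) (nat_lit 244) (nat_lit 265))) (PT.nd (nat_lit 78) (PT.lf (nat_lit 48868) (nat_lit 6) (nat_lit 643) (nat_lit 1) (nat_lit 272) (nat_lit 244) (nat_lit 264)) (PT.lf (nat_lit 48792) (nat_lit 6) (nat_lit 642) (nat_lit 1) (nat_lit 273) (nat_lit 244) (nat_lit 263)))) (PT.nd (nat_lit 156) (PT.nd (nat_lit 78) (PT.lf (nat_lit 48716) (nat_lit 6) (nat_lit 641) (nat_lit 1) (nat_lit 274) (nat_lit 244) (nat_lit 262)) (PT.lf (nat_lit 48640) (nat_lit 6) (nat_lit 640) (nat_lit 1) (nat_lit 275) (nat_lit 244) (nat_lit 261))) (PT.nd (nat_lit 78) (PT.lf (nat_lit 48564) (nat_lit 6) (nat_lit 639) (nat_lit 1) (nat_lit 276) (nat_lit 244) (nat_lit 260)) (PT.lf (nat_lit 47196) (nat_lit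 6) (nat_lit 621) (nat_lit 1) (nat_lit 277) (nat_lit 244) (nat_lit 259)))))) (PT.nd (nat_lit 79170) (PT.nd (nat_lit 312) (PT.nd (nat_lit 156) (PT.nd (nat_lit 78) (PT.lf (nat_lit 45752) (nat_lit 6) (nat_lit 602) (nat_lit 1) (nat_lit 278) (nat_lit 244) (nat_lit 258)) (PT.lf (nat_lit 44232) (nat_lit 6) (nat_lit 582) (nat_lit 1) (nat_lit 279) (nat_lit 244) (nat_lit 257))) (PT.nd (nat_lit 78) (PT.lf (nat_lit 42636) (nat_lit 6) (nat_lit 561) (nat_lit 1) (nat_lit 280) (nat_lit 244) (nat_lit 256)) (PT.lf (nat_lit 40964) (nat_lit 6) (nat_lit 539) (nat_lit 1) (nat_lit 281) (nat_lit 244) (nat_lit 255)))) (PT.nd (nat_lit 156) (PT.nd (nat_lit 78) (PT.lf (nat_lit 39216) (nat_lit 6) (nat_lit 516) (nat_lit 1) (nat_lit 282) (nat_lit 244) (nat_lit 254)) (PT.lf (nat_lit 37392) (nat_lit 6) (nat_lit 492) (nat_lit 1) (nat_lit 283) (nat_lit 244) (nat_lit 253))) (PT.nd (nat_lit 78624) (PT.lf (nat_lit 35492) (nat_lit 6) (nat_lit 467) (nat_lit 1) (nat_lit 284) (nat_lit 244) (nat_lit 252))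 (PT.lf (nat_lit 35416) (nat_lit 6) (nat_lit 466) (nat_lit 3) (nat_lit 251) (nat_lit 245) (nat_lit 284))))) (PT.nd (nat_lit 312) (PT.nd (nat_lit 156) (PT.nd (nat_lit 78) (PT.lf (nat_lit 37316) (nat_lit 6) (nat_lit 491) (nat_lit 3) (nat_lit 252) (nat_lit 245) (nat_lit 283)) (PT.lf (nat_lit 39140) (nat_lit 6) (nat_lit 515) (nat_lit 3) (nat_lit 253) (nat_lit 245) (nat_lit 282))) (PT.nd (nat_lit 78) (PT.lf (nat_lit 40888) (nat_lit 6) (nat_lit 538) (nat_lit 3) (nat_lit 254) (nat_lit 245) (nat_lit 281)) (PT.lf (nat_lit 42560) (nat_lit 6) (nat_lit 560) (nat_lit 3) (nat_lit 255) (nat_lit 245) (nat_lit 280)))) (PT.nd (nat_lit 156) (PT.nd (nat_lit 78) (PT.lf (nat_lit 44156) (nat_lit 6) (nat_lit 581) (nat_lit 3) (nat_lit 256) (nat_lit 245) (nat_lit 279)) (PT.lf (nat_lit 45676) (nat_lit 6) (nat_lit 601) (nat_lit 3) (nat_lit 257) (nat_lit 245) (nat_lit 278))) (PT.nd (nat_lit 78) (PT.lf (nat_lit 47120) (nat_lit 6) (nat_lit 620) (nat_lit 3) (nat_lit 258) (nat_lit 245) (nat_lit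 277)) (PT.nd (nat_lit 78) (PT.lf (nat_lit 48488) (nat_lit 6) (nat_lit 638) (nat_lit 3) (nat_lit 259) (nat_lit 245) (nat_lit 276)) (PT.lf (nat_lit 49780) (nat_lit 6) (nat_lit 655) (nat_lit 3) (nat_lit 260) (nat_lit 245) (nat_lit 275))))))))
noncomputable def pc33 : PT := (PT.nd (nat_lit 1326) (PT.nd (nat_lit 624) (PT.nd (nat_lit 312) (PT.nd (nat_lit 156) (PT.nd (nat_lit 78) (PT.lf (nat_lit 49856) (nat_lit 6) (nat_lit 656) (nat_lit 3) (nat_lit 261) (nat_lit 245) (nat_lit 274)) (PT.lf (nat_lit 49932) (nat_lit 6) (nat_lit 657) (nat_lit 3) (nat_lit 262) (nat_lit 245) (nat_lit 273))) (PT.nd (nat_lit 78) (PT.lf (nat_lit 50008) (nat_lit 6) (nat_lit 658) (nat_lit 3) (nat_lit 263) (nat_lit 245) (nat_lit 272)) (PT.lf (nat_lit 50084) (nat_lit 6) (nat_lit 659) (nat_lit 3) (nat_lit 264) (nat_lit 245) (nat_lit 271)))) (PT.nd (nat_lit 156) (PT.nd (nat_lit 78) (PT.lf (nat_lit 50160) (nat_lit 6) (nat_lit 660) (nat_lit 3) (nat_lit 265) (nat_lit 245) (nat_lit 270)) (PT.lf (nat_lit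 50236) (nat_lit 6) (nat_lit 661) (nat_lit 3) (nat_lit 266) (nat_lit 245) (nat_lit 269))) (PT.nd (nat_lit 78) (PT.lf (nat_lit 50312) (nat_lit 6) (nat_lit 662) (nat_lit 3) (nat_lit 267) (nat_lit 245) (nat_lit 268)) (PT.lf (nat_lit 50312) (nat_lit 6) (nat_lit 662) (nat_lit 1) (nat_lit 268) (nat_lit 245) (nat_lit 267))))) (PT.nd (nat_lit 312) (PT.nd (nat_lit 156) (PT.nd (nat_lit 78) (PT.lf (nat_lit 50236) (nat_lit 6) (nat_lit 661) (nat_lit 1) (nat_lit 269) (nat_lit 245) (nat_lit 266)) (PT.lf (nat_lit 50160) (nat_lit 6) (nat_lit 660) (nat_lit 1) (nat_lit 270) (nat_lit 245) (nat_lit 265))) (PT.nd (nat_lit 78) (PT.lf (nat_lit 50084) (nat_lit 6) (nat_lit 659) (nat_lit 1) (nat_lit 271) (nat_lit 245) (nat_lit 264)) (PT.lf (nat_lit 50008) (nat_lit 6) (nat_lit 658) (nat_lit 1) (nat_lit 272) (nat_lit 245) (nat_lit 263)))) (PT.nd (nat_lit 156) (PT.nd (nat_lit 78) (PT.lf (nat_lit 49932) (nat_lit 6) (nat_lit 657) (nat_lit 1) (nat_lit 273) (nat_lit 245) (nat_lit 262)) (PT.lf (nat_lit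 49856) (nat_lit 6) (nat_lit 656) (nat_lit 1) (nat_lit 274) (nat_lit 245) (nat_lit 261))) (PT.nd (nat_lit 78) (PT.lf (nat_lit 49780) (nat_lit 6) (nat_lit 655) (nat_lit 1) (nat_lit 275) (nat_lit 245) (nat_lit 260)) (PT.nd (nat_lit 78) (PT.lf (nat_lit 48488) (nat_lit 6) (nat_lit 638) (nat_lit 1) (nat_lit 276) (nat_lit 245) (nat_lit 259)) (PT.lf (nat_lit 47120) (nat_lit 6) (nat_lit 620) (nat_lit 1) (nat_lit 277) (nat_lit 245) (nat_lit 258))))))) (PT.nd (nat_lit 79092) (PT.nd (nat_lit 312) (PT.nd (nat_lit 156) (PT.nd (nat_lit 78) (PT.lf (nat_lit 45676) (nat_lit 6) (nat_lit 601) (nat_lit 1) (nat_lit 278) (nat_lit 245) (nat_lit 257)) (PT.lf (nat_lit 44156) (nat_lit 6) (nat_lit 581) (nat_lit 1) (nat_lit 279) (nat_lit 245) (nat_lit 256))) (PT.nd (nat_lit 78) (PT.lf (nat_lit 42560) (nat_lit 6) (nat_lit 560) (nat_lit 1) (nat_lit 280) (nat_lit 245) (nat_lit 255)) (PT.lf (nat_lit 40888) (nat_lit 6) (nat_lit 538) (nat_lit 1) (nat_lit 281) (nat_lit 245) (nat_lit 254)))) (PT.nd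 (nat_lit 156) (PT.nd (nat_lit 78) (PT.lf (nat_lit 39140) (nat_lit 6) (nat_lit 515) (nat_lit 1) (nat_lit 282) (nat_lit 245) (nat_lit 253)) (PT.lf (nat_lit 37316) (nat_lit 6) (nat_lit 491) (nat_lit 1) (nat_lit 283) (nat_lit 245) (nat_lit 252))) (PT.nd (nat_lit 78546) (PT.lf (nat_lit 35416) (nat_lit 6) (nat_lit 466) (nat_lit 1) (nat_lit 284) (nat_lit 245) (nat_lit 251)) (PT.lf (nat_lit 35340) (nat_lit 6) (nat_lit 465) (nat_lit 3) (nat_lit 250) (nat_lit 246) (nat_lit 284))))) (PT.nd (nat_lit 312) (PT.nd (nat_lit 156) (PT.nd (nat_lit 78) (PT.lf (nat_lit 37240) (nat_lit 6) (nat_lit 490) (nat_lit 3) (nat_lit 251) (nat_lit 246) (nat_lit 283)) (PT.lf (nat_lit 39064) (nat_lit 6) (nat_lit 514) (nat_lit 3) (nat_lit 252) (nat_lit 246) (nat_lit 282))) (PT.nd (nat_lit 78) (PT.lf (nat_lit 40812) (nat_lit 6) (nat_lit 537) (nat_lit 3) (nat_lit 253) (nat_lit 246) (nat_lit 281)) (PT.lf (nat_lit 42484) (nat_lit 6) (nat_lit 559) (nat_lit 3) (nat_lit 254) (nat_lit 246) (nat_lit 280))))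 (PT.nd (nat_lit 156) (PT.nd (nat_lit 78) (PT.lf (nat_lit 44080) (nat_lit 6) (nat_lit 580) (nat_lit 3) (nat_lit 255) (nat_lit 246) (nat_lit 279)) (PT.lf (nat_lit 45600) (nat_lit 6) (nat_lit 600) (nat_lit 3) (nat_lit 256) (nat_lit 246) (nat_lit 278))) (PT.nd (nat_lit 78) (PT.lf (nat_lit 47044) (nat_lit 6) (nat_lit 619) (nat_lit 3) (nat_lit 257) (nat_lit 246) (nat_lit 277)) (PT.nd (nat_lit 78) (PT.lf (nat_lit 48412) (nat_lit 6) (nat_lit 637) (nat_lit 3) (nat_lit 258) (nat_lit 246) (nat_lit 276)) (PT.lf (nat_lit 49704) (nat_lit 6) (nat_lit 654) (nat_lit 3) (nat_lit 259) (nat_lit 246) (nat_lit 275))))))))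
noncomputable def pc34 : PT := (PT.nd (nat_lit 1326) (PT.nd (nat_lit 624) (PT.nd (nat_lit 312) (PT.nd (nat_lit 156) (PT.nd (nat_lit 78) (PT.lf (nat_lit 50920) (nat_lit 6) (nat_lit 670) (nat_lit 3) (nat_lit 260) (nat_lit 246) (nat_lit 274)) (PT.lf (nat_lit 50996) (nat_lit 6) (nat_lit 671) (nat_lit 3) (nat_lit 261) (nat_lit 246) (nat_lit 273))) (PT.nd (nat_lit 78) (PT.lf (nat_lit 51072) (nat_lit 6) (nat_lit 672) (nat_lit 3) (nat_lit 262) (nat_lit 246) (nat_lit 272)) (PT.lf (nat_lit 51148) (nat_lit 6) (nat_lit 673) (nat_lit 3) (nat_lit 263) (nat_lit 246) (nat_lit 271)))) (PT.nd (nat_lit 156) (PT.nd (nat_lit 78) (PT.lf (nat_lit 51224) (nat_lit 6) (nat_lit 674) (nat_lit 3) (nat_lit 264) (nat_lit 246) (nat_lit 270)) (PT.lf (nat_lit 51300) (nat_lit 6) (nat_lit 675) (nat_lit 3) (nat_lit 265) (nat_lit 246) (nat_lit 269))) (PT.nd (nat_lit 78) (PT.lf (nat_lit 51376) (nat_lit 6) (nat_lit 676) (nat_lit 3) (nat_lit 266) (nat_lit 246) (nat_lit 268)) (PT.lf (nat_lit 51452) (nat_lit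 3) (nat_lit 677) (nat_lit 1) (nat_lit 267) (nat_lit 246) (nat_lit 267))))) (PT.nd (nat_lit 312) (PT.nd (nat_lit 156) (PT.nd (nat_lit 78) (PT.lf (nat_lit 51376) (nat_lit 6) (nat_lit 676) (nat_lit 1) (nat_lit 268) (nat_lit 246) (nat_lit 266)) (PT.lf (nat_lit 51300) (nat_lit 6) (nat_lit 675) (nat_lit 1) (nat_lit 269) (nat_lit 246) (nat_lit 265))) (PT.nd (nat_lit 78) (PT.lf (nat_lit 51224) (nat_lit 6) (nat_lit 674) (nat_lit 1) (nat_lit 270) (nat_lit 246) (nat_lit 264)) (PT.lf (nat_lit 51148) (nat_lit 6) (nat_lit 673) (nat_lit 1) (nat_lit 271) (nat_lit 246) (nat_lit 263)))) (PT.nd (nat_lit 156) (PT.nd (nat_lit 78) (PT.lf (nat_lit 51072) (nat_lit 6) (nat_lit 672) (nat_lit 1) (nat_lit 272) (nat_lit 246) (nat_lit 262)) (PT.lf (nat_lit 50996) (nat_lit 6) (nat_lit 671) (nat_lit 1) (nat_lit 273) (nat_lit 246) (nat_lit 261))) (PT.nd (nat_lit 78) (PT.lf (nat_lit 50920) (nat_lit 6) (nat_lit 670) (nat_lit 1) (nat_lit 274) (nat_lit 246) (nat_lit 260)) (PT.nd (nat_lit 78) (PT.lf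 (nat_lit 49704) (nat_lit 6) (nat_lit 654) (nat_lit 1) (nat_lit 275) (nat_lit 246) (nat_lit 259)) (PT.lf (nat_lit 48412) (nat_lit 6) (nat_lit 637) (nat_lit 1) (nat_lit 276) (nat_lit 246) (nat_lit 258))))))) (PT.nd (nat_lit 79014) (PT.nd (nat_lit 312) (PT.nd (nat_lit 156) (PT.nd (nat_lit 78) (PT.lf (nat_lit 47044) (nat_lit 6) (nat_lit 619) (nat_lit 1) (nat_lit 277) (nat_lit 246) (nat_lit 257)) (PT.lf (nat_lit 45600) (nat_lit 6) (nat_lit 600) (nat_lit 1) (nat_lit 278) (nat_lit 246) (nat_lit 256))) (PT.nd (nat_lit 78) (PT.lf (nat_lit 44080) (nat_lit 6) (nat_lit 580) (nat_lit 1) (nat_lit 279) (nat_lit 246) (nat_lit 255)) (PT.lf (nat_lit 42484) (nat_lit 6) (nat_lit 559) (nat_lit 1) (nat_lit 280) (nat_lit 246) (nat_lit 254)))) (PT.nd (nat_lit 156) (PT.nd (nat_lit 78) (PT.lf (nat_lit 40812) (nat_lit 6) (nat_lit 537) (nat_lit 1) (nat_lit 281) (nat_lit 246) (nat_lit 253)) (PT.lf (nat_lit 39064) (nat_lit 6) (nat_lit 514) (nat_lit 1) (nat_lit 282) (nat_lit 246) (nat_lit 252)))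 (PT.nd (nat_lit 78) (PT.lf (nat_lit 37240) (nat_lit 6) (nat_lit 490) (nat_lit 1) (nat_lit 283) (nat_lit 246) (nat_lit 251)) (PT.lf (nat_lit 35340) (nat_lit 6) (nat_lit 465) (nat_lit 1) (nat_lit 284) (nat_lit 246) (nat_lit 250))))) (PT.nd (nat_lit 312) (PT.nd (nat_lit 156) (PT.nd (nat_lit 78) (PT.lf (nat_lit 35264) (nat_lit 6) (nat_lit 464) (nat_lit 3) (nat_lit 249) (nat_lit 247) (nat_lit 284)) (PT.lf (nat_lit 37164) (nat_lit 6) (nat_lit 489) (nat_lit 3) (nat_lit 250) (nat_lit 247) (nat_lit 283))) (PT.nd (nat_lit 78) (PT.lf (nat_lit 38988) (nat_lit 6) (nat_lit 513) (nat_lit 3) (nat_lit 251) (nat_lit 247) (nat_lit 282)) (PT.lf (nat_lit 40736) (nat_lit 6) (nat_lit 536) (nat_lit 3) (nat_lit 252) (nat_lit 247) (nat_lit 281)))) (PT.nd (nat_lit 156) (PT.nd (nat_lit 78) (PT.lf (nat_lit 42408) (nat_lit 6) (nat_lit 558) (nat_lit 3) (nat_lit 253) (nat_lit 247) (nat_lit 280)) (PT.lf (nat_lit 44004) (nat_lit 6) (nat_lit 579) (nat_lit 3) (nat_lit 254) (nat_lit 247) (nat_lit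 279))) (PT.nd (nat_lit 78) (PT.lf (nat_lit 45524) (nat_lit 6) (nat_lit 599) (nat_lit 3) (nat_lit 255) (nat_lit 247) (nat_lit 278)) (PT.nd (nat_lit 78) (PT.lf (nat_lit 46968) (nat_lit 6) (nat_lit 618) (nat_lit 3) (nat_lit 256) (nat_lit 247) (nat_lit 277)) (PT.lf (nat_lit 48336) (nat_lit 6) (nat_lit 636) (nat_lit 3) (nat_lit 257) (nat_lit 247) (nat_lit 276))))))))
noncomputable def pc35 : PT := (PT.nd (nat_lit 1326) (PT.nd (nat_lit 624) (PT.nd (nat_lit 312) (PT.nd (nat_lit 156) (PT.nd (nat_lit 78) (PT.lf (nat_lit 49628) (nat_lit 6) (nat_lit 653) (nat_lit 3) (nat_lit 258) (nat_lit 247) (nat_lit 275)) (PT.lf (nat_lit 50844) (nat_lit 6) (nat_lit 669) (nat_lit 3) (nat_lit 259) (nat_lit 247) (nat_lit 274))) (PT.nd (nat_lit 78) (PT.lf (nat_lit 51984) (nat_lit 6) (nat_lit 684) (nat_lit 3) (nat_lit 260) (nat_lit 247) (nat_lit 273)) (PT.lf (nat_lit 52060) (nat_lit 6) (nat_lit 685) (nat_lit 3) (nat_lit 261) (nat_lit 247) (nat_lit 272)))) (PT.nd (nat_lit 156) (PT.nd (nat_lit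 78) (PT.lf (nat_lit 52136) (nat_lit 6) (nat_lit 686) (nat_lit 3) (nat_lit 262) (nat_lit 247) (nat_lit 271)) (PT.lf (nat_lit 52212) (nat_lit 6) (nat_lit 687) (nat_lit 3) (nat_lit 263) (nat_lit 247) (nat_lit 270))) (PT.nd (nat_lit 78) (PT.lf (nat_lit 52288) (nat_lit 6) (nat_lit 688) (nat_lit 3) (nat_lit 264) (nat_lit 247) (nat_lit 269)) (PT.lf (nat_lit 52364) (nat_lit 6) (nat_lit 689) (nat_lit 3) (nat_lit 265) (nat_lit 247) (nat_lit 268))))) (PT.nd (nat_lit 312) (PT.nd (nat_lit 156) (PT.nd (nat_lit 78) (PT.lf (nat_lit 52440) (nat_lit 6) (nat_lit 690) (nat_lit 3) (nat_lit 266) (nat_lit 247) (nat_lit 267)) (PT.lf (nat_lit 52440) (nat_lit 6) (nat_lit 690) (nat_lit 1) (nat_lit 267) (nat_lit 247) (nat_lit 266))) (PT.nd (nat_lit 78) (PT.lf (nat_lit 52364) (nat_lit 6) (nat_lit 689) (nat_lit 1) (nat_lit 268) (nat_lit 247) (nat_lit 265)) (PT.lf (nat_lit 52288) (nat_lit 6) (nat_lit 688) (nat_lit 1) (nat_lit 269) (nat_lit 247) (nat_lit 264)))) (PT.nd (nat_lit 156) (PT.nd (nat_lit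 78) (PT.lf (nat_lit 52212) (nat_lit 6) (nat_lit 687) (nat_lit 1) (nat_lit 270) (nat_lit 247) (nat_lit 263)) (PT.lf (nat_lit 52136) (nat_lit 6) (nat_lit 686) (nat_lit 1) (nat_lit 271) (nat_lit 247) (nat_lit 262))) (PT.nd (nat_lit 78) (PT.lf (nat_lit 52060) (nat_lit 6) (nat_lit 685) (nat_lit 1) (nat_lit 272) (nat_lit 247) (nat_lit 261)) (PT.nd (nat_lit 78) (PT.lf (nat_lit 51984) (nat_lit 6) (nat_lit 684) (nat_lit 1) (nat_lit 273) (nat_lit 247) (nat_lit 260)) (PT.lf (nat_lit 50844) (nat_lit 6) (nat_lit 669) (nat_lit 1) (nat_lit 274) (nat_lit 247) (nat_lit 259))))))) (PT.nd (nat_lit 624) (PT.nd (nat_lit 312) (PT.nd (nat_lit 156) (PT.nd (nat_lit 78) (PT.lf (nat_lit 49628) (nat_lit 6) (nat_lit 653) (nat_lit 1) (nat_lit 275) (nat_lit 247) (nat_lit 258)) (PT.lf (nat_lit 48336) (nat_lit 6) (nat_lit 636) (nat_lit 1) (nat_lit 276) (nat_lit 247) (nat_lit 257))) (PT.nd (nat_lit 78) (PT.lf (nat_lit 46968) (nat_lit 6) (nat_lit 618) (nat_lit 1) (nat_lit 277) (nat_lit 247) (nat_lit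 256)) (PT.lf (nat_lit 45524) (nat_lit 6) (nat_lit 599) (nat_lit 1) (nat_lit 278) (nat_lit 247) (nat_lit 255)))) (PT.nd (nat_lit 156) (PT.nd (nat_lit 78) (PT.lf (nat_lit 44004) (nat_lit 6) (nat_lit 579) (nat_lit 1) (nat_lit 279) (nat_lit 247) (nat_lit 254)) (PT.lf (nat_lit 42408) (nat_lit 6) (nat_lit 558) (nat_lit 1) (nat_lit 280) (nat_lit 247) (nat_lit 253))) (PT.nd (nat_lit 78) (PT.lf (nat_lit 40736) (nat_lit 6) (nat_lit 536) (nat_lit 1) (nat_lit 281) (nat_lit 247) (nat_lit 252)) (PT.lf (nat_lit 38988) (nat_lit 6) (nat_lit 513) (nat_lit 1) (nat_lit 282) (nat_lit 247) (nat_lit 251))))) (PT.nd (nat_lit 78624) (PT.nd (nat_lit 78468) (PT.nd (nat_lit 78) (PT.lf (nat_lit 37164) (nat_lit 6) (nat_lit 489) (nat_lit 1) (nat_lit 283) (nat_lit 247) (nat_lit 250)) (PT.lf (nat_lit 35264) (nat_lit 6) (nat_lit 464) (nat_lit 1) (nat_lit 284) (nat_lit 247) (nat_lit 249))) (PT.nd (nat_lit 78) (PT.lf (nat_lit 35188) (nat_lit 3) (nat_lit 463) (nat_lit 3) (nat_lit 248) (nat_lit 248)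 (nat_lit 284)) (PT.lf (nat_lit 37088) (nat_lit 6) (nat_lit 488) (nat_lit 3) (nat_lit 249) (nat_lit 248) (nat_lit 283)))) (PT.nd (nat_lit 156) (PT.nd (nat_lit 78) (PT.lf (nat_lit 38912) (nat_lit 6) (nat_lit 512) (nat_lit 3) (nat_lit 250) (nat_lit 248) (nat_lit 282)) (PT.lf (nat_lit 40660) (nat_lit 6) (nat_lit 535) (nat_lit 3) (nat_lit 251) (nat_lit 248) (nat_lit 281))) (PT.nd (nat_lit 78) (PT.lf (nat_lit 42332) (nat_lit 6) (nat_lit 557) (nat_lit 3) (nat_lit 252) (nat_lit 248) (nat_lit 280)) (PT.nd (nat_lit 78) (PT.lf (nat_lit 43928) (nat_lit 6) (nat_lit 578) (nat_lit 3) (nat_lit 253) (nat_lit 248) (nat_lit 279)) (PT.lf (nat_lit 45448) (nat_lit 6) (nat_lit 598) (nat_lit 3) (nat_lit 254) (nat_lit 248) (nat_lit 278))))))))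
noncomputable def pc36 : PT := (PT.nd (nat_lit 1326) (PT.nd (nat_lit 624) (PT.nd (nat_lit 312) (PT.nd (nat_lit 156) (PT.nd (nat_lit 78) (PT.lf (nat_lit 46892) (nat_lit 6) (nat_lit 617) (nat_lit 3) (nat_lit 255) (nat_lit 248) (nat_lit 277)) (PT.lf (nat_lit 48260) (nat_lit 6) (nat_lit 635) (nat_lit 3) (nat_lit 256) (nat_lit 248) (nat_lit 276))) (PT.nd (nat_lit 78) (PT.lf (nat_lit 49552) (nat_lit 6) (nat_lit 652) (nat_lit 3) (nat_lit 257) (nat_lit 248) (nat_lit 275)) (PT.lf (nat_lit 50768) (nat_lit 6) (nat_lit 668) (nat_lit 3) (nat_lit 258) (nat_lit 248) (nat_lit 274)))) (PT.nd (nat_lit 156) (PT.nd (nat_lit 78) (PT.lf (nat_lit 51908) (nat_lit 6) (nat_lit 683) (nat_lit 3) (nat_lit 259) (nat_lit 248) (nat_lit 273)) (PT.lf (nat_lit 52972) (nat_lit 6) (nat_lit 697) (nat_lit 3) (nat_lit 260) (nat_lit 248) (nat_lit 272))) (PT.nd (nat_lit 78) (PT.lf (nat_lit 53048) (nat_lit 6) (nat_lit 698) (nat_lit 3) (nat_lit 261) (nat_lit 248) (nat_lit 271)) (PT.lf (nat_lit 53124) (nat_lit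 6) (nat_lit 699) (nat_lit 3) (nat_lit 262) (nat_lit 248) (nat_lit 270))))) (PT.nd (nat_lit 312) (PT.nd (nat_lit 156) (PT.nd (nat_lit 78) (PT.lf (nat_lit 53200) (nat_lit 6) (nat_lit 700) (nat_lit 3) (nat_lit 263) (nat_lit 248) (nat_lit 269)) (PT.lf (nat_lit 53276) (nat_lit 6) (nat_lit 701) (nat_lit 3) (nat_lit 264) (nat_lit 248) (nat_lit 268))) (PT.nd (nat_lit 78) (PT.lf (nat_lit 53352) (nat_lit 6) (nat_lit 702) (nat_lit 3) (nat_lit 265) (nat_lit 248) (nat_lit 267)) (PT.lf (nat_lit 53428) (nat_lit 3) (nat_lit 703) (nat_lit 1) (nat_lit 266) (nat_lit 248) (nat_lit 266)))) (PT.nd (nat_lit 156) (PT.nd (nat_lit 78) (PT.lf (nat_lit 53352) (nat_lit 6) (nat_lit 702) (nat_lit 1) (nat_lit 267) (nat_lit 248) (nat_lit 265)) (PT.lf (nat_lit 53276) (nat_lit 6) (nat_lit 701) (nat_lit 1) (nat_lit 268) (nat_lit 248) (nat_lit 264))) (PT.nd (nat_lit 78) (PT.lf (nat_lit 53200) (nat_lit 6) (nat_lit 700) (nat_lit 1) (nat_lit 269) (nat_lit 248) (nat_lit 263)) (PT.nd (nat_lit 78) (PT.lf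 (nat_lit 53124) (nat_lit 6) (nat_lit 699) (nat_lit 1) (nat_lit 270) (nat_lit 248) (nat_lit 262)) (PT.lf (nat_lit 53048) (nat_lit 6) (nat_lit 698) (nat_lit 1) (nat_lit 271) (nat_lit 248) (nat_lit 261))))))) (PT.nd (nat_lit 624) (PT.nd (nat_lit 312) (PT.nd (nat_lit 156) (PT.nd (nat_lit 78) (PT.lf (nat_lit 52972) (nat_lit 6) (nat_lit 697) (nat_lit 1) (nat_lit 272) (nat_lit 248) (nat_lit 260)) (PT.lf (nat_lit 51908) (nat_lit 6) (nat_lit 683) (nat_lit 1) (nat_lit 273) (nat_lit 248) (nat_lit 259))) (PT.nd (nat_lit 78) (PT.lf (nat_lit 50768) (nat_lit 6) (nat_lit 668) (nat_lit 1) (nat_lit 274) (nat_lit 248) (nat_lit 258)) (PT.lf (nat_lit 49552) (nat_lit 6) (nat_lit 652) (nat_lit 1) (nat_lit 275) (nat_lit 248) (nat_lit 257)))) (PT.nd (nat_lit 156) (PT.nd (nat_lit 78) (PT.lf (nat_lit 48260) (nat_lit 6) (nat_lit 635) (nat_lit 1) (nat_lit 276) (nat_lit 248) (nat_lit 256)) (PT.lf (nat_lit 46892) (nat_lit 6) (nat_lit 617) (nat_lit 1) (nat_lit 277) (nat_lit 248) (nat_lit 255)))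 (PT.nd (nat_lit 78) (PT.lf (nat_lit 45448) (nat_lit 6) (nat_lit 598) (nat_lit 1) (nat_lit 278) (nat_lit 248) (nat_lit 254)) (PT.lf (nat_lit 43928) (nat_lit 6) (nat_lit 578) (nat_lit 1) (nat_lit 279) (nat_lit 248) (nat_lit 253))))) (PT.nd (nat_lit 312) (PT.nd (nat_lit 156) (PT.nd (nat_lit 78) (PT.lf (nat_lit 42332) (nat_lit 6) (nat_lit 557) (nat_lit 1) (nat_lit 280) (nat_lit 248) (nat_lit 252)) (PT.lf (nat_lit 40660) (nat_lit 6) (nat_lit 535) (nat_lit 1) (nat_lit 281) (nat_lit 248) (nat_lit 251))) (PT.nd (nat_lit 78) (PT.lf (nat_lit 38912) (nat_lit 6) (nat_lit 512) (nat_lit 1) (nat_lit 282) (nat_lit 248) (nat_lit 250)) (PT.lf (nat_lit 37088) (nat_lit 6) (nat_lit 488) (nat_lit 1) (nat_lit 283) (nat_lit 248) (nat_lit 249)))) (PT.nd (nat_lit 78390) (PT.nd (nat_lit 78312) (PT.lf (nat_lit 35188) (nat_lit 3) (nat_lit 463) (nat_lit 0) (nat_lit 284) (nat_lit 248) (nat_lit 248)) (PT.lf (nat_lit 35264) (nat_lit 6) (nat_lit 464) (nat_lit 5) (nat_lit 247) (nat_lit 249) (nat_lit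 284))) (PT.nd (nat_lit 78) (PT.lf (nat_lit 37088) (nat_lit 6) (nat_lit 488) (nat_lit 5) (nat_lit 248) (nat_lit 249) (nat_lit 283)) (PT.nd (nat_lit 78) (PT.lf (nat_lit 38836) (nat_lit 3) (nat_lit 511) (nat_lit 3) (nat_lit 249) (nat_lit 249) (nat_lit 282)) (PT.lf (nat_lit 40584) (nat_lit 6) (nat_lit 534) (nat_lit 3) (nat_lit 250) (nat_lit 249) (nat_lit 281))))))))
noncomputable def pc37 : PT := (PT.nd (nat_lit 1326) (PT.nd (nat_lit 624) (PT.nd (nat_lit 312) (PT.nd (nat_lit 156) (PT.nd (nat_lit 78) (PT.lf (nat_lit 42256) (nat_lit 6) (nat_lit 556) (nat_lit 3) (nat_lit 251) (nat_lit 249) (nat_lit 280)) (PT.lf (nat_lit 43852) (nat_lit 6) (nat_lit 577) (nat_lit 3) (nat_lit 252) (nat_lit 249) (nat_lit 279))) (PT.nd (nat_lit 78) (PT.lf (nat_lit 45372) (nat_lit 6) (nat_lit 597) (nat_lit 3) (nat_lit 253) (nat_lit 249) (nat_lit 278)) (PT.lf (nat_lit 46816) (nat_lit 6) (nat_lit 616) (nat_lit 3) (nat_lit 254) (nat_lit 249) (nat_lit 277)))) (PT.nd (nat_lit 156) (PT.nd (nat_lit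 78) (PT.lf (nat_lit 48184) (nat_lit 6) (nat_lit 634) (nat_lit 3) (nat_lit 255) (nat_lit 249) (nat_lit 276)) (PT.lf (nat_lit 49476) (nat_lit 6) (nat_lit 651) (nat_lit 3) (nat_lit 256) (nat_lit 249) (nat_lit 275))) (PT.nd (nat_lit 78) (PT.lf (nat_lit 50692) (nat_lit 6) (nat_lit 667) (nat_lit 3) (nat_lit 257) (nat_lit 249) (nat_lit 274)) (PT.lf (nat_lit 51832) (nat_lit 6) (nat_lit 682) (nat_lit 3) (nat_lit 258) (nat_lit 249) (nat_lit 273))))) (PT.nd (nat_lit 312) (PT.nd (nat_lit 156) (PT.nd (nat_lit 78) (PT.lf (nat_lit 52896) (nat_lit 6) (nat_lit 696) (nat_lit 3) (nat_lit 259) (nat_lit 249) (nat_lit 272)) (PT.lf (nat_lit 53884) (nat_lit 6) (nat_lit 709) (nat_lit 3) (nat_lit 260) (nat_lit 249) (nat_lit 271))) (PT.nd (nat_lit 78) (PT.lf (nat_lit 53960) (nat_lit 6) (nat_lit 710) (nat_lit 3) (nat_lit 261) (nat_lit 249) (nat_lit 270)) (PT.lf (nat_lit 54036) (nat_lit 6) (nat_lit 711) (nat_lit 3) (nat_lit 262) (nat_lit 249) (nat_lit 269)))) (PT.nd (nat_lit 156) (PT.nd (nat_lit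 78) (PT.lf (nat_lit 54112) (nat_lit 6) (nat_lit 712) (nat_lit 3) (nat_lit 263) (nat_lit 249) (nat_lit 268)) (PT.lf (nat_lit 54188) (nat_lit 6) (nat_lit 713) (nat_lit 3) (nat_lit 264) (nat_lit 249) (nat_lit 267))) (PT.nd (nat_lit 78) (PT.lf (nat_lit 54264) (nat_lit 6) (nat_lit 714) (nat_lit 3) (nat_lit 265) (nat_lit 249) (nat_lit 266)) (PT.nd (nat_lit 78) (PT.lf (nat_lit 54264) (nat_lit 6) (nat_lit 714) (nat_lit 1) (nat_lit 266) (nat_lit 249) (nat_lit 265)) (PT.lf (nat_lit 54188) (nat_lit 6) (nat_lit 713) (nat_lit 1) (nat_lit 267) (nat_lit 249) (nat_lit 264))))))) (PT.nd (nat_lit 624) (PT.nd (nat_lit 312) (PT.nd (nat_lit 156) (PT.nd (nat_lit 78) (PT.lf (nat_lit 54112) (nat_lit 6) (nat_lit 712) (nat_lit 1) (nat_lit 268) (nat_lit 249) (nat_lit 263)) (PT.lf (nat_lit 54036) (nat_lit 6) (nat_lit 711) (nat_lit 1) (nat_lit 269) (nat_lit 249) (nat_lit 262))) (PT.nd (nat_lit 78) (PT.lf (nat_lit 53960) (nat_lit 6) (nat_lit 710) (nat_lit 1) (nat_lit 270) (nat_lit 249) (nat_lit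 261)) (PT.lf (nat_lit 53884) (nat_lit 6) (nat_lit 709) (nat_lit 1) (nat_lit 271) (nat_lit 249) (nat_lit 260)))) (PT.nd (nat_lit 156) (PT.nd (nat_lit 78) (PT.lf (nat_lit 52896) (nat_lit 6) (nat_lit 696) (nat_lit 1) (nat_lit 272) (nat_lit 249) (nat_lit 259)) (PT.lf (nat_lit 51832) (nat_lit 6) (nat_lit 682) (nat_lit 1) (nat_lit 273) (nat_lit 249) (nat_lit 258))) (PT.nd (nat_lit 78) (PT.lf (nat_lit 50692) (nat_lit 6) (nat_lit 667) (nat_lit 1) (nat_lit 274) (nat_lit 249) (nat_lit 257)) (PT.lf (nat_lit 49476) (nat_lit 6) (nat_lit 651) (nat_lit 1) (nat_lit 275) (nat_lit 249) (nat_lit 256))))) (PT.nd (nat_lit 312) (PT.nd (nat_lit 156) (PT.nd (nat_lit 78) (PT.lf (nat_lit 48184) (nat_lit 6) (nat_lit 634) (nat_lit 1) (nat_lit 276) (nat_lit 249) (nat_lit 255)) (PT.lf (nat_lit 46816) (nat_lit 6) (nat_lit 616) (nat_lit 1) (nat_lit 277) (nat_lit 249) (nat_lit 254))) (PT.nd (nat_lit 78) (PT.lf (nat_lit 45372) (nat_lit 6) (nat_lit 597) (nat_lit 1) (nat_lit 278) (nat_lit 249) (nat_lit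 253)) (PT.lf (nat_lit 43852) (nat_lit 6) (nat_lit 577) (nat_lit 1) (nat_lit 279) (nat_lit 249) (nat_lit 252)))) (PT.nd (nat_lit 156) (PT.nd (nat_lit 78) (PT.lf (nat_lit 42256) (nat_lit 6) (nat_lit 556) (nat_lit 1) (nat_lit 280) (nat_lit 249) (nat_lit 251)) (PT.lf (nat_lit 40584) (nat_lit 6) (nat_lit 534) (nat_lit 1) (nat_lit 281) (nat_lit 249) (nat_lit 250))) (PT.nd (nat_lit 78) (PT.lf (nat_lit 38836) (nat_lit 3) (nat_lit 511) (nat_lit 0) (nat_lit 282) (nat_lit 249) (nat_lit 249)) (PT.nd (nat_lit 78) (PT.lf (nat_lit 37088) (nat_lit 6) (nat_lit 488) (nat_lit 0) (nat_lit 283) (nat_lit 249) (nat_lit 248)) (PT.lf (nat_lit 35264) (nat_lit 6) (nat_lit 464) (nat_lit 0) (nat_lit 284) (nat_lit 249) (nat_lit 247))))))))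
noncomputable def pc38 : PT := (PT.nd (nat_lit 1326) (PT.nd (nat_lit 624) (PT.nd (nat_lit 312) (PT.nd (nat_lit 156) (PT.nd (nat_lit 78) (PT.lf (nat_lit 35340) (nat_lit 6) (nat_lit 465) (nat_lit 5) (nat_lit 246) (nat_lit 250) (nat_lit 284)) (PT.lf (nat_lit 37164) (nat_lit 6) (nat_lit 489) (nat_lit 5) (nat_lit 247) (nat_lit 250) (nat_lit 283))) (PT.nd (nat_lit 78) (PT.lf (nat_lit 38912) (nat_lit 6) (nat_lit 512) (nat_lit 5) (nat_lit 248) (nat_lit 250) (nat_lit 282)) (PT.lf (nat_lit 40584) (nat_lit 6) (nat_lit 534) (nat_lit 5) (nat_lit 249) (nat_lit 250) (nat_lit 281)))) (PT.nd (nat_lit 156) (PT.nd (nat_lit 78) (PT.lf (nat_lit 42180) (nat_lit 3) (nat_lit 555) (nat_lit 3) (nat_lit 250) (nat_lit 250) (nat_lit 280)) (PT.lf (nat_lit 43776) (nat_lit 6) (nat_lit 576) (nat_lit 3) (nat_lit 251) (nat_lit 250) (nat_lit 279))) (PT.nd (nat_lit 78) (PT.lf (nat_lit 45296) (nat_lit 6) (nat_lit 596) (nat_lit 3) (nat_lit 252) (nat_lit 250) (nat_lit 278)) (PT.lf (nat_lit 46740) (nat_lit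 6) (nat_lit 615) (nat_lit 3) (nat_lit 253) (nat_lit 250) (nat_lit 277))))) (PT.nd (nat_lit 312) (PT.nd (nat_lit 156) (PT.nd (nat_lit 78) (PT.lf (nat_lit 48108) (nat_lit 6) (nat_lit 633) (nat_lit 3) (nat_lit 254) (nat_lit 250) (nat_lit 276)) (PT.lf (nat_lit 49400) (nat_lit 6) (nat_lit 650) (nat_lit 3) (nat_lit 255) (nat_lit 250) (nat_lit 275))) (PT.nd (nat_lit 78) (PT.lf (nat_lit 50616) (nat_lit 6) (nat_lit 666) (nat_lit 3) (nat_lit 256) (nat_lit 250) (nat_lit 274)) (PT.lf (nat_lit 51756) (nat_lit 6) (nat_lit 681) (nat_lit 3) (nat_lit 257) (nat_lit 250) (nat_lit 273)))) (PT.nd (nat_lit 156) (PT.nd (nat_lit 78) (PT.lf (nat_lit 52820) (nat_lit 6) (nat_lit 695) (nat_lit 3) (nat_lit 258) (nat_lit 250) (nat_lit 272)) (PT.lf (nat_lit 53808) (nat_lit 6) (nat_lit 708) (nat_lit 3) (nat_lit 259) (nat_lit 250) (nat_lit 271))) (PT.nd (nat_lit 78) (PT.lf (nat_lit 54720) (nat_lit 6) (nat_lit 720) (nat_lit 3) (nat_lit 260) (nat_lit 250) (nat_lit 270)) (PT.nd (nat_lit 78) (PT.lf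 (nat_lit 54796) (nat_lit 6) (nat_lit 721) (nat_lit 3) (nat_lit 261) (nat_lit 250) (nat_lit 269)) (PT.lf (nat_lit 54872) (nat_lit 6) (nat_lit 722) (nat_lit 3) (nat_lit 262) (nat_lit 250) (nat_lit 268))))))) (PT.nd (nat_lit 624) (PT.nd (nat_lit 312) (PT.nd (nat_lit 156) (PT.nd (nat_lit 78) (PT.lf (nat_lit 54948) (nat_lit 6) (nat_lit 723) (nat_lit 3) (nat_lit 263) (nat_lit 250) (nat_lit 267)) (PT.lf (nat_lit 55024) (nat_lit 6) (nat_lit 724) (nat_lit 3) (nat_lit 264) (nat_lit 250) (nat_lit 266))) (PT.nd (nat_lit 78) (PT.lf (nat_lit 55100) (nat_lit 3) (nat_lit 725) (nat_lit 1) (nat_lit 265) (nat_lit 250) (nat_lit 265)) (PT.lf (nat_lit 55024) (nat_lit 6) (nat_lit 724) (nat_lit 1) (nat_lit 266) (nat_lit 250) (nat_lit 264)))) (PT.nd (nat_lit 156) (PT.nd (nat_lit 78) (PT.lf (nat_lit 54948) (nat_lit 6) (nat_lit 723) (nat_lit 1) (nat_lit 267) (nat_lit 250) (nat_lit 263)) (PT.lf (nat_lit 54872) (nat_lit 6) (nat_lit 722) (nat_lit 1) (nat_lit 268) (nat_lit 250) (nat_lit 262)))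 (PT.nd (nat_lit 78) (PT.lf (nat_lit 54796) (nat_lit 6) (nat_lit 721) (nat_lit 1) (nat_lit 269) (nat_lit 250) (nat_lit 261)) (PT.lf (nat_lit 54720) (nat_lit 6) (nat_lit 720) (nat_lit 1) (nat_lit 270) (nat_lit 250) (nat_lit 260))))) (PT.nd (nat_lit 312) (PT.nd (nat_lit 156) (PT.nd (nat_lit 78) (PT.lf (nat_lit 53808) (nat_lit 6) (nat_lit 708) (nat_lit 1) (nat_lit 271) (nat_lit 250) (nat_lit 259)) (PT.lf (nat_lit 52820) (nat_lit 6) (nat_lit 695) (nat_lit 1) (nat_lit 272) (nat_lit 250) (nat_lit 258))) (PT.nd (nat_lit 78) (PT.lf (nat_lit 51756) (nat_lit 6) (nat_lit 681) (nat_lit 1) (nat_lit 273) (nat_lit 250) (nat_lit 257)) (PT.lf (nat_lit 50616) (nat_lit 6) (nat_lit 666) (nat_lit 1) (nat_lit 274) (nat_lit 250) (nat_lit 256)))) (PT.nd (nat_lit 156) (PT.nd (nat_lit 78) (PT.lf (nat_lit 49400) (nat_lit 6) (nat_lit 650) (nat_lit 1) (nat_lit 275) (nat_lit 250) (nat_lit 255)) (PT.lf (nat_lit 48108) (nat_lit 6) (nat_lit 633) (nat_lit 1) (nat_lit 276) (nat_lit 250) (nat_lit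 254))) (PT.nd (nat_lit 78) (PT.lf (nat_lit 46740) (nat_lit 6) (nat_lit 615) (nat_lit 1) (nat_lit 277) (nat_lit 250) (nat_lit 253)) (PT.nd (nat_lit 78) (PT.lf (nat_lit 45296) (nat_lit 6) (nat_lit 596) (nat_lit 1) (nat_lit 278) (nat_lit 250) (nat_lit 252)) (PT.lf (nat_lit 43776) (nat_lit 6) (nat_lit 576) (nat_lit 1) (nat_lit 279) (nat_lit 250) (nat_lit 251))))))))
noncomputable def pc39 : PT := (PT.nd (nat_lit 79404) (PT.nd (nat_lit 78702) (PT.nd (nat_lit 312) (PT.nd (nat_lit 156) (PT.nd (nat_lit 78) (PT.lf (nat_lit 42180) (nat_lit 3) (nat_lit 555) (nat_lit 0) (nat_lit 280) (nat_lit 250) (nat_lit 250)) (PT.lf (nat_lit 40584) (nat_lit 6) (nat_lit 534) (nat_lit 0) (nat_lit 281) (nat_lit 250) (nat_lit 249))) (PT.nd (nat_lit 78) (PT.lf (nat_lit 38912) (nat_lit 6) (nat_lit 512) (nat_lit 0) (nat_lit 282) (nat_lit 250) (nat_lit 248)) (PT.lf (nat_lit 37164) (nat_lit 6) (nat_lit 489) (nat_lit 0) (nat_lit 283) (nat_lit 250) (nat_lit 247)))) (PT.nd (nat_lit 78234) (PT.nd (nat_lit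 78156) (PT.lf (nat_lit 35340) (nat_lit 6) (nat_lit 465) (nat_lit 0) (nat_lit 284) (nat_lit 250) (nat_lit 246)) (PT.lf (nat_lit 35416) (nat_lit 6) (nat_lit 466) (nat_lit 5) (nat_lit 245) (nat_lit 251) (nat_lit 284))) (PT.nd (nat_lit 78) (PT.lf (nat_lit 37240) (nat_lit 6) (nat_lit 490) (nat_lit 5) (nat_lit 246) (nat_lit 251) (nat_lit 283)) (PT.lf (nat_lit 38988) (nat_lit 6) (nat_lit 513) (nat_lit 5) (nat_lit 247) (nat_lit 251) (nat_lit 282))))) (PT.nd (nat_lit 312) (PT.nd (nat_lit 156) (PT.nd (nat_lit 78) (PT.lf (nat_lit 40660) (nat_lit 6) (nat_lit 535) (nat_lit 5) (nat_lit 248) (nat_lit 251) (nat_lit 281)) (PT.lf (nat_lit 42256) (nat_lit 6) (nat_lit 556) (nat_lit 5) (nat_lit 249) (nat_lit 251) (nat_lit 280))) (PT.nd (nat_lit 78) (PT.lf (nat_lit 43776) (nat_lit 6) (nat_lit 576) (nat_lit 5) (nat_lit 250) (nat_lit 251) (nat_lit 279)) (PT.lf (nat_lit 45220) (nat_lit 3) (nat_lit 595) (nat_lit 3) (nat_lit 251) (nat_lit 251) (nat_lit 278)))) (PT.nd (nat_lit 156) (PT.nd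 (nat_lit 78) (PT.lf (nat_lit 46664) (nat_lit 6) (nat_lit 614) (nat_lit 3) (nat_lit 252) (nat_lit 251) (nat_lit 277)) (PT.lf (nat_lit 48032) (nat_lit 6) (nat_lit 632) (nat_lit 3) (nat_lit 253) (nat_lit 251) (nat_lit 276))) (PT.nd (nat_lit 78) (PT.lf (nat_lit 49324) (nat_lit 6) (nat_lit 649) (nat_lit 3) (nat_lit 254) (nat_lit 251) (nat_lit 275)) (PT.nd (nat_lit 78) (PT.lf (nat_lit 50540) (nat_lit 6) (nat_lit 665) (nat_lit 3) (nat_lit 255) (nat_lit 251) (nat_lit 274)) (PT.lf (nat_lit 51680) (nat_lit 6) (nat_lit 680) (nat_lit 3) (nat_lit 256) (nat_lit 251) (nat_lit 273))))))) (PT.nd (nat_lit 624) (PT.nd (nat_lit 312) (PT.nd (nat_lit 156) (PT.nd (nat_lit 78) (PT.lf (nat_lit 52744) (nat_lit 6) (nat_lit 694) (nat_lit 3) (nat_lit 257) (nat_lit 251) (nat_lit 272)) (PT.lf (nat_lit 53732) (nat_lit 6) (nat_lit 707) (nat_lit 3) (nat_lit 258) (nat_lit 251) (nat_lit 271))) (PT.nd (nat_lit 78) (PT.lf (nat_lit 54644) (nat_lit 6) (nat_lit 719) (nat_lit 3) (nat_lit 259) (nat_lit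 251) (nat_lit 270)) (PT.lf (nat_lit 55480) (nat_lit 6) (nat_lit 730) (nat_lit 3) (nat_lit 260) (nat_lit 251) (nat_lit 269)))) (PT.nd (nat_lit 156) (PT.nd (nat_lit 78) (PT.lf (nat_lit 55556) (nat_lit 6) (nat_lit 731) (nat_lit 3) (nat_lit 261) (nat_lit 251) (nat_lit 268)) (PT.lf (nat_lit 55632) (nat_lit 6) (nat_lit 732) (nat_lit 3) (nat_lit 262) (nat_lit 251) (nat_lit 267))) (PT.nd (nat_lit 78) (PT.lf (nat_lit 55708) (nat_lit 6) (nat_lit 733) (nat_lit 3) (nat_lit 263) (nat_lit 251) (nat_lit 266)) (PT.lf (nat_lit 55784) (nat_lit 6) (nat_lit 734) (nat_lit 3) (nat_lit 264) (nat_lit 251) (nat_lit 265))))) (PT.nd (nat_lit 312) (PT.nd (nat_lit 156) (PT.nd (nat_lit 78) (PT.lf (nat_lit 55784) (nat_lit 6) (nat_lit 734) (nat_lit 1) (nat_lit 265) (nat_lit 251) (nat_lit 264)) (PT.lf (nat_lit 55708) (nat_lit 6) (nat_lit 733) (nat_lit 1) (nat_lit 266) (nat_lit 251) (nat_lit 263))) (PT.nd (nat_lit 78) (PT.lf (nat_lit 55632) (nat_lit 6) (nat_lit 732) (nat_lit 1) (nat_lit 267) (nat_lit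 251) (nat_lit 262)) (PT.lf (nat_lit 55556) (nat_lit 6) (nat_lit 731) (nat_lit 1) (nat_lit 268) (nat_lit 251) (nat_lit 261)))) (PT.nd (nat_lit 156) (PT.nd (nat_lit 78) (PT.lf (nat_lit 55480) (nat_lit 6) (nat_lit 730) (nat_lit 1) (nat_lit 269) (nat_lit 251) (nat_lit 260)) (PT.lf (nat_lit 54644) (nat_lit 6) (nat_lit 719) (nat_lit 1) (nat_lit 270) (nat_lit 251) (nat_lit 259))) (PT.nd (nat_lit 78) (PT.lf (nat_lit 53732) (nat_lit 6) (nat_lit 707) (nat_lit 1) (nat_lit 271) (nat_lit 251) (nat_lit 258)) (PT.nd (nat_lit 78) (PT.lf (nat_lit 52744) (nat_lit 6) (nat_lit 694) (nat_lit 1) (nat_lit 272) (nat_lit 251) (nat_lit 257)) (PT.lf (nat_lit 51680) (nat_lit 6) (nat_lit 680) (nat_lit 1) (nat_lit 273) (nat_lit 251) (nat_lit 256))))))))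
noncomputable def pc40 : PT := (PT.nd (nat_lit 79248) (PT.nd (nat_lit 624) (PT.nd (nat_lit 312) (PT.nd (nat_lit 156) (PT.nd (nat_lit 78) (PT.lf (nat_lit 50540) (nat_lit 6) (nat_lit 665) (nat_lit 1) (nat_lit 274) (nat_lit 251) (nat_lit 255)) (PT.lf (nat_lit 49324) (nat_lit 6) (nat_lit 649) (nat_lit 1) (nat_lit 275) (nat_lit 251) (nat_lit 254))) (PT.nd (nat_lit 78) (PT.lf (nat_lit 48032) (nat_lit 6) (nat_lit 632) (nat_lit 1) (nat_lit 276) (nat_lit 251) (nat_lit 253)) (PT.lf (nat_lit 46664) (nat_lit 6) (nat_lit 614) (nat_lit 1) (nat_lit 277) (nat_lit 251) (nat_lit 252)))) (PT.nd (nat_lit 156) (PT.nd (nat_lit 78) (PT.lf (nat_lit 45220) (nat_lit 3) (nat_lit 595) (nat_lit 0) (nat_lit 278) (nat_lit 251) (nat_lit 251)) (PT.lf (nat_lit 43776) (nat_lit 6) (nat_lit 576) (nat_lit 0) (nat_lit 279) (nat_lit 251) (nat_lit 250))) (PT.nd (nat_lit 78) (PT.lf (nat_lit 42256) (nat_lit 6) (nat_lit 556) (nat_lit 0) (nat_lit 280) (nat_lit 251) (nat_lit 249)) (PT.lf (nat_lit 40660) (nat_lit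 6) (nat_lit 535) (nat_lit 0) (nat_lit 281) (nat_lit 251) (nat_lit 248))))) (PT.nd (nat_lit 78312) (PT.nd (nat_lit 156) (PT.nd (nat_lit 78) (PT.lf (nat_lit 38988) (nat_lit 6) (nat_lit 513) (nat_lit 0) (nat_lit 282) (nat_lit 251) (nat_lit 247)) (PT.lf (nat_lit 37240) (nat_lit 6) (nat_lit 490) (nat_lit 0) (nat_lit 283) (nat_lit 251) (nat_lit 246))) (PT.nd (nat_lit 78078) (PT.lf (nat_lit 35416) (nat_lit 6) (nat_lit 466) (nat_lit 0) (nat_lit 284) (nat_lit 251) (nat_lit 245)) (PT.lf (nat_lit 35492) (nat_lit 6) (nat_lit 467) (nat_lit 5) (nat_lit 244) (nat_lit 252) (nat_lit 284)))) (PT.nd (nat_lit 156) (PT.nd (nat_lit 78) (PT.lf (nat_lit 37316) (nat_lit 6) (nat_lit 491) (nat_lit 5) (nat_lit 245) (nat_lit 252) (nat_lit 283)) (PT.lf (nat_lit 39064) (nat_lit 6) (nat_lit 514) (nat_lit 5) (nat_lit 246) (nat_lit 252) (nat_lit 282))) (PT.nd (nat_lit 78) (PT.lf (nat_lit 40736) (nat_lit 6) (nat_lit 536) (nat_lit 5) (nat_lit 247) (nat_lit 252) (nat_lit 281)) (PT.lf (nat_lit 42332)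 (nat_lit 6) (nat_lit 557) (nat_lit 5) (nat_lit 248) (nat_lit 252) (nat_lit 280)))))) (PT.nd (nat_lit 624) (PT.nd (nat_lit 312) (PT.nd (nat_lit 156) (PT.nd (nat_lit 78) (PT.lf (nat_lit 43852) (nat_lit 6) (nat_lit 577) (nat_lit 5) (nat_lit 249) (nat_lit 252) (nat_lit 279)) (PT.lf (nat_lit 45296) (nat_lit 6) (nat_lit 596) (nat_lit 5) (nat_lit 250) (nat_lit 252) (nat_lit 278))) (PT.nd (nat_lit 78) (PT.lf (nat_lit 46664) (nat_lit 6) (nat_lit 614) (nat_lit 5) (nat_lit 251) (nat_lit 252) (nat_lit 277)) (PT.lf (nat_lit 47956) (nat_lit 3) (nat_lit 631) (nat_lit 3) (nat_lit 252) (nat_lit 252) (nat_lit 276)))) (PT.nd (nat_lit 156) (PT.nd (nat_lit 78) (PT.lf (nat_lit 49248) (nat_lit 6) (nat_lit 648) (nat_lit 3) (nat_lit 253) (nat_lit 252) (nat_lit 275)) (PT.lf (nat_lit 50464) (nat_lit 6) (nat_lit 664) (nat_lit 3) (nat_lit 254) (nat_lit 252) (nat_lit 274))) (PT.nd (nat_lit 78) (PT.lf (nat_lit 51604) (nat_lit 6) (nat_lit 679) (nat_lit 3) (nat_lit 255) (nat_lit 252) (nat_lit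 273)) (PT.lf (nat_lit 52668) (nat_lit 6) (nat_lit 693) (nat_lit 3) (nat_lit 256) (nat_lit 252) (nat_lit 272))))) (PT.nd (nat_lit 312) (PT.nd (nat_lit 156) (PT.nd (nat_lit 78) (PT.lf (nat_lit 53656) (nat_lit 6) (nat_lit 706) (nat_lit 3) (nat_lit 257) (nat_lit 252) (nat_lit 271)) (PT.lf (nat_lit 54568) (nat_lit 6) (nat_lit 718) (nat_lit 3) (nat_lit 258) (nat_lit 252) (nat_lit 270))) (PT.nd (nat_lit 78) (PT.lf (nat_lit 55404) (nat_lit 6) (nat_lit 729) (nat_lit 3) (nat_lit 259) (nat_lit 252) (nat_lit 269)) (PT.lf (nat_lit 56164) (nat_lit 6) (nat_lit 739) (nat_lit 3) (nat_lit 260) (nat_lit 252) (nat_lit 268)))) (PT.nd (nat_lit 156) (PT.nd (nat_lit 78) (PT.lf (nat_lit 56240) (nat_lit 6) (nat_lit 740) (nat_lit 3) (nat_lit 261) (nat_lit 252) (nat_lit 267)) (PT.lf (nat_lit 56316) (nat_lit 6) (nat_lit 741) (nat_lit 3) (nat_lit 262) (nat_lit 252) (nat_lit 266))) (PT.nd (nat_lit 78) (PT.lf (nat_lit 56392) (nat_lit 6) (nat_lit 742) (nat_lit 3) (nat_lit 263) (nat_lit 252) (nat_lit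 265)) (PT.nd (nat_lit 78) (PT.lf (nat_lit 56468) (nat_lit 3) (nat_lit 743) (nat_lit 1) (nat_lit 264) (nat_lit 252) (nat_lit 264)) (PT.lf (nat_lit 56392) (nat_lit 6) (nat_lit 742) (nat_lit 1) (nat_lit 265) (nat_lit 252) (nat_lit 263))))))))
noncomputable def pc41 : PT := (PT.nd (nat_lit 1326) (PT.nd (nat_lit 624) (PT.nd (nat_lit 312) (PT.nd (nat_lit 156) (PT.nd (nat_lit 78) (PT.lf (nat_lit 56316) (nat_lit 6) (nat_lit 741) (nat_lit 1) (nat_lit 266) (nat_lit 252) (nat_lit 262)) (PT.lf (nat_lit 56240) (nat_lit 6) (nat_lit 740) (nat_lit 1) (nat_lit 267) (nat_lit 252) (nat_lit 261))) (PT.nd (nat_lit 78) (PT.lf (nat_lit 56164) (nat_lit 6) (nat_lit 739) (nat_lit 1) (nat_lit 268) (nat_lit 252) (nat_lit 260)) (PT.lf (nat_lit 55404) (nat_lit 6) (nat_lit 729) (nat_lit 1) (nat_lit 269) (nat_lit 252) (nat_lit 259)))) (PT.nd (nat_lit 156) (PT.nd (nat_lit 78) (PT.lf (nat_lit 54568) (nat_lit 6) (nat_lit 718) (nat_lit 1) (nat_lit 270) (nat_lit 252) (nat_lit 258)) (PT.lf (nat_lit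 53656) (nat_lit 6) (nat_lit 706) (nat_lit 1) (nat_lit 271) (nat_lit 252) (nat_lit 257))) (PT.nd (nat_lit 78) (PT.lf (nat_lit 52668) (nat_lit 6) (nat_lit 693) (nat_lit 1) (nat_lit 272) (nat_lit 252) (nat_lit 256)) (PT.lf (nat_lit 51604) (nat_lit 6) (nat_lit 679) (nat_lit 1) (nat_lit 273) (nat_lit 252) (nat_lit 255))))) (PT.nd (nat_lit 312) (PT.nd (nat_lit 156) (PT.nd (nat_lit 78) (PT.lf (nat_lit 50464) (nat_lit 6) (nat_lit 664) (nat_lit 1) (nat_lit 274) (nat_lit 252) (nat_lit 254)) (PT.lf (nat_lit 49248) (nat_lit 6) (nat_lit 648) (nat_lit 1) (nat_lit 275) (nat_lit 252) (nat_lit 253))) (PT.nd (nat_lit 78) (PT.lf (nat_lit 47956) (nat_lit 3) (nat_lit 631) (nat_lit 0) (nat_lit 276) (nat_lit 252) (nat_lit 252)) (PT.lf (nat_lit 46664) (nat_lit 6) (nat_lit 614) (nat_lit 0) (nat_lit 277) (nat_lit 252) (nat_lit 251)))) (PT.nd (nat_lit 156) (PT.nd (nat_lit 78) (PT.lf (nat_lit 45296) (nat_lit 6) (nat_lit 596) (nat_lit 0) (nat_lit 278) (nat_lit 252) (nat_lit 250)) (PT.lf (nat_lit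 43852) (nat_lit 6) (nat_lit 577) (nat_lit 0) (nat_lit 279) (nat_lit 252) (nat_lit 249))) (PT.nd (nat_lit 78) (PT.lf (nat_lit 42332) (nat_lit 6) (nat_lit 557) (nat_lit 0) (nat_lit 280) (nat_lit 252) (nat_lit 248)) (PT.nd (nat_lit 78) (PT.lf (nat_lit 40736) (nat_lit 6) (nat_lit 536) (nat_lit 0) (nat_lit 281) (nat_lit 252) (nat_lit 247)) (PT.lf (nat_lit 39064) (nat_lit 6) (nat_lit 514) (nat_lit 0) (nat_lit 282) (nat_lit 252) (nat_lit 246))))))) (PT.nd (nat_lit 78546) (PT.nd (nat_lit 78234) (PT.nd (nat_lit 78078) (PT.nd (nat_lit 78) (PT.lf (nat_lit 37316) (nat_lit 6) (nat_lit 491) (nat_lit 0) (nat_lit 283) (nat_lit 252) (nat_lit 245)) (PT.lf (nat_lit 35492) (nat_lit 6) (nat_lit 467) (nat_lit 0) (nat_lit 284) (nat_lit 252) (nat_lit 244))) (PT.nd (nat_lit 78) (PT.lf (nat_lit 35568) (nat_lit 6) (nat_lit 468) (nat_lit 5) (nat_lit 243) (nat_lit 253) (nat_lit 284)) (PT.lf (nat_lit 37392) (nat_lit 6) (nat_lit 492) (nat_lit 5) (nat_lit 244) (nat_lit 253) (nat_lit 283)))) (PT.nd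 (nat_lit 156) (PT.nd (nat_lit 78) (PT.lf (nat_lit 39140) (nat_lit 6) (nat_lit 515) (nat_lit 5) (nat_lit 245) (nat_lit 253) (nat_lit 282)) (PT.lf (nat_lit 40812) (nat_lit 6) (nat_lit 537) (nat_lit 5) (nat_lit 246) (nat_lit 253) (nat_lit 281))) (PT.nd (nat_lit 78) (PT.lf (nat_lit 42408) (nat_lit 6) (nat_lit 558) (nat_lit 5) (nat_lit 247) (nat_lit 253) (nat_lit 280)) (PT.lf (nat_lit 43928) (nat_lit 6) (nat_lit 578) (nat_lit 5) (nat_lit 248) (nat_lit 253) (nat_lit 279))))) (PT.nd (nat_lit 312) (PT.nd (nat_lit 156) (PT.nd (nat_lit 78) (PT.lf (nat_lit 45372) (nat_lit 6) (nat_lit 597) (nat_lit 5) (nat_lit 249) (nat_lit 253) (nat_lit 278)) (PT.lf (nat_lit 46740) (nat_lit 6) (nat_lit 615) (nat_lit 5) (nat_lit 250) (nat_lit 253) (nat_lit 277))) (PT.nd (nat_lit 78) (PT.lf (nat_lit 48032) (nat_lit 6) (nat_lit 632) (nat_lit 5) (nat_lit 251) (nat_lit 253) (nat_lit 276)) (PT.lf (nat_lit 49248) (nat_lit 6) (nat_lit 648) (nat_lit 5) (nat_lit 252) (nat_lit 253) (nat_lit 275))))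 (PT.nd (nat_lit 156) (PT.nd (nat_lit 78) (PT.lf (nat_lit 50388) (nat_lit 3) (nat_lit 663) (nat_lit 3) (nat_lit 253) (nat_lit 253) (nat_lit 274)) (PT.lf (nat_lit 51528) (nat_lit 6) (nat_lit 678) (nat_lit 3) (nat_lit 254) (nat_lit 253) (nat_lit 273))) (PT.nd (nat_lit 78) (PT.lf (nat_lit 52592) (nat_lit 6) (nat_lit 692) (nat_lit 3) (nat_lit 255) (nat_lit 253) (nat_lit 272)) (PT.nd (nat_lit 78) (PT.lf (nat_lit 53580) (nat_lit 6) (nat_lit 705) (nat_lit 3) (nat_lit 256) (nat_lit 253) (nat_lit 271)) (PT.lf (nat_lit 54492) (nat_lit 6) (nat_lit 717) (nat_lit 3) (nat_lit 257) (nat_lit 253) (nat_lit 270))))))))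
noncomputable def pc42 : PT := (PT.nd (nat_lit 1326) (PT.nd (nat_lit 624) (PT.nd (nat_lit 312) (PT.nd (nat_lit 156) (PT.nd (nat_lit 78) (PT.lf (nat_lit 55328) (nat_lit 6) (nat_lit 728) (nat_lit 3) (nat_lit 258) (nat_lit 253) (nat_lit 269)) (PT.lf (nat_lit 56088) (nat_lit 6) (nat_lit 738) (nat_lit 3) (nat_lit 259) (nat_lit 253) (nat_lit 268))) (PT.nd (nat_lit 78) (PT.lf (nat_lit 56772) (nat_lit 6) (nat_lit 747) (nat_lit 3) (nat_lit 260) (nat_lit 253) (nat_lit 267)) (PT.lf (nat_lit 56848) (nat_lit 6) (nat_lit 748) (nat_lit 3) (nat_lit 261) (nat_lit 253) (nat_lit 266)))) (PT.nd (nat_lit 156) (PT.nd (nat_lit 78) (PT.lf (nat_lit 56924) (nat_lit 6) (nat_lit 749) (nat_lit 3) (nat_lit 262) (nat_lit 253) (nat_lit 265)) (PT.lf (nat_lit 57000) (nat_lit 6) (nat_lit 750) (nat_lit 3) (nat_lit 263) (nat_lit 253) (nat_lit 264))) (PT.nd (nat_lit 78) (PT.lf (nat_lit 57000) (nat_lit 6) (nat_lit 750) (nat_lit 1) (nat_lit 264) (nat_lit 253) (nat_lit 263)) (PT.lf (nat_lit 56924) (nat_lit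 6) (nat_lit 749) (nat_lit 1) (nat_lit 265) (nat_lit 253) (nat_lit 262))))) (PT.nd (nat_lit 312) (PT.nd (nat_lit 156) (PT.nd (nat_lit 78) (PT.lf (nat_lit 56848) (nat_lit 6) (nat_lit 748) (nat_lit 1) (nat_lit 266) (nat_lit 253) (nat_lit 261)) (PT.lf (nat_lit 56772) (nat_lit 6) (nat_lit 747) (nat_lit 1) (nat_lit 267) (nat_lit 253) (nat_lit 260))) (PT.nd (nat_lit 78) (PT.lf (nat_lit 56088) (nat_lit 6) (nat_lit 738) (nat_lit 1) (nat_lit 268) (nat_lit 253) (nat_lit 259)) (PT.lf (nat_lit 55328) (nat_lit 6) (nat_lit 728) (nat_lit 1) (nat_lit 269) (nat_lit 253) (nat_lit 258)))) (PT.nd (nat_lit 156) (PT.nd (nat_lit 78) (PT.lf (nat_lit 54492) (nat_lit 6) (nat_lit 717) (nat_lit 1) (nat_lit 270) (nat_lit 253) (nat_lit 257)) (PT.lf (nat_lit 53580) (nat_lit 6) (nat_lit 705) (nat_lit 1) (nat_lit 271) (nat_lit 253) (nat_lit 256))) (PT.nd (nat_lit 78) (PT.lf (nat_lit 52592) (nat_lit 6) (nat_lit 692) (nat_lit 1) (nat_lit 272) (nat_lit 253) (nat_lit 255)) (PT.nd (nat_lit 78) (PT.lf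 (nat_lit 51528) (nat_lit 6) (nat_lit 678) (nat_lit 1) (nat_lit 273) (nat_lit 253) (nat_lit 254)) (PT.lf (nat_lit 50388) (nat_lit 3) (nat_lit 663) (nat_lit 0) (nat_lit 274) (nat_lit 253) (nat_lit 253))))))) (PT.nd (nat_lit 624) (PT.nd (nat_lit 312) (PT.nd (nat_lit 156) (PT.nd (nat_lit 78) (PT.lf (nat_lit 49248) (nat_lit 6) (nat_lit 648) (nat_lit 0) (nat_lit 275) (nat_lit 253) (nat_lit 252)) (PT.lf (nat_lit 48032) (nat_lit 6) (nat_lit 632) (nat_lit 0) (nat_lit 276) (nat_lit 253) (nat_lit 251))) (PT.nd (nat_lit 78) (PT.lf (nat_lit 46740) (nat_lit 6) (nat_lit 615) (nat_lit 0) (nat_lit 277) (nat_lit 253) (nat_lit 250)) (PT.lf (nat_lit 45372) (nat_lit 6) (nat_lit 597) (nat_lit 0) (nat_lit 278) (nat_lit 253) (nat_lit 249)))) (PT.nd (nat_lit 156) (PT.nd (nat_lit 78) (PT.lf (nat_lit 43928) (nat_lit 6) (nat_lit 578) (nat_lit 0) (nat_lit 279) (nat_lit 253) (nat_lit 248)) (PT.lf (nat_lit 42408) (nat_lit 6) (nat_lit 558) (nat_lit 0) (nat_lit 280) (nat_lit 253) (nat_lit 247)))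 (PT.nd (nat_lit 78) (PT.lf (nat_lit 40812) (nat_lit 6) (nat_lit 537) (nat_lit 0) (nat_lit 281) (nat_lit 253) (nat_lit 246)) (PT.lf (nat_lit 39140) (nat_lit 6) (nat_lit 515) (nat_lit 0) (nat_lit 282) (nat_lit 253) (nat_lit 245))))) (PT.nd (nat_lit 78156) (PT.nd (nat_lit 78000) (PT.nd (nat_lit 78) (PT.lf (nat_lit 37392) (nat_lit 6) (nat_lit 492) (nat_lit 0) (nat_lit 283) (nat_lit 253) (nat_lit 244)) (PT.lf (nat_lit 35568) (nat_lit 6) (nat_lit 468) (nat_lit 0) (nat_lit 284) (nat_lit 253) (nat_lit 243))) (PT.nd (nat_lit 78) (PT.lf (nat_lit 35644) (nat_lit 6) (nat_lit 469) (nat_lit 5) (nat_lit 242) (nat_lit 254) (nat_lit 284)) (PT.lf (nat_lit 37468) (nat_lit 6) (nat_lit 493) (nat_lit 5) (nat_lit 243) (nat_lit 254) (nat_lit 283)))) (PT.nd (nat_lit 156) (PT.nd (nat_lit 78) (PT.lf (nat_lit 39216) (nat_lit 6) (nat_lit 516) (nat_lit 5) (nat_lit 244) (nat_lit 254) (nat_lit 282)) (PT.lf (nat_lit 40888) (nat_lit 6) (nat_lit 538) (nat_lit 5) (nat_lit 245) (nat_lit 254) (nat_lit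 281))) (PT.nd (nat_lit 78) (PT.lf (nat_lit 42484) (nat_lit 6) (nat_lit 559) (nat_lit 5) (nat_lit 246) (nat_lit 254) (nat_lit 280)) (PT.nd (nat_lit 78) (PT.lf (nat_lit 44004) (nat_lit 6) (nat_lit 579) (nat_lit 5) (nat_lit 247) (nat_lit 254) (nat_lit 279)) (PT.lf (nat_lit 45448) (nat_lit 6) (nat_lit 598) (nat_lit 5) (nat_lit 248) (nat_lit 254) (nat_lit 278))))))))
noncomputable def pc43 : PT := (PT.nd (nat_lit 1326) (PT.nd (nat_lit 624) (PT.nd (nat_lit 312) (PT.nd (nat_lit 156) (PT.nd (nat_lit 78) (PT.lf (nat_lit 46816) (nat_lit 6) (nat_lit 616) (nat_lit 5) (nat_lit 249) (nat_lit 254) (nat_lit 277)) (PT.lf (nat_lit 48108) (nat_lit 6) (nat_lit 633) (nat_lit 5) (nat_lit 250) (nat_lit 254) (nat_lit 276))) (PT.nd (nat_lit 78) (PT.lf (nat_lit 49324) (nat_lit 6) (nat_lit 649) (nat_lit 5) (nat_lit 251) (nat_lit 254) (nat_lit 275)) (PT.lf (nat_lit 50464) (nat_lit 6) (nat_lit 664) (nat_lit 5) (nat_lit 252) (nat_lit 254) (nat_lit 274)))) (PT.nd (nat_lit 156) (PT.nd (nat_lit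 78) (PT.lf (nat_lit 51528) (nat_lit 6) (nat_lit 678) (nat_lit 5) (nat_lit 253) (nat_lit 254) (nat_lit 273)) (PT.lf (nat_lit 52516) (nat_lit 3) (nat_lit 691) (nat_lit 3) (nat_lit 254) (nat_lit 254) (nat_lit 272))) (PT.nd (nat_lit 78) (PT.lf (nat_lit 53504) (nat_lit 6) (nat_lit 704) (nat_lit 3) (nat_lit 255) (nat_lit 254) (nat_lit 271)) (PT.lf (nat_lit 54416) (nat_lit 6) (nat_lit 716) (nat_lit 3) (nat_lit 256) (nat_lit 254) (nat_lit 270))))) (PT.nd (nat_lit 312) (PT.nd (nat_lit 156) (PT.nd (nat_lit 78) (PT.lf (nat_lit 55252) (nat_lit 6) (nat_lit 727) (nat_lit 3) (nat_lit 257) (nat_lit 254) (nat_lit 269)) (PT.lf (nat_lit 56012) (nat_lit 6) (nat_lit 737) (nat_lit 3) (nat_lit 258) (nat_lit 254) (nat_lit 268))) (PT.nd (nat_lit 78) (PT.lf (nat_lit 56696) (nat_lit 6) (nat_lit 746) (nat_lit 3) (nat_lit 259) (nat_lit 254) (nat_lit 267)) (PT.lf (nat_lit 57304) (nat_lit 6) (nat_lit 754) (nat_lit 3) (nat_lit 260) (nat_lit 254) (nat_lit 266)))) (PT.nd (nat_lit 156) (PT.nd (nat_lit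 78) (PT.lf (nat_lit 57380) (nat_lit 6) (nat_lit 755) (nat_lit 3) (nat_lit 261) (nat_lit 254) (nat_lit 265)) (PT.lf (nat_lit 57456) (nat_lit 6) (nat_lit 756) (nat_lit 3) (nat_lit 262) (nat_lit 254) (nat_lit 264))) (PT.nd (nat_lit 78) (PT.lf (nat_lit 57532) (nat_lit 3) (nat_lit 757) (nat_lit 1) (nat_lit 263) (nat_lit 254) (nat_lit 263)) (PT.nd (nat_lit 78) (PT.lf (nat_lit 57456) (nat_lit 6) (nat_lit 756) (nat_lit 1) (nat_lit 264) (nat_lit 254) (nat_lit 262)) (PT.lf (nat_lit 57380) (nat_lit 6) (nat_lit 755) (nat_lit 1) (nat_lit 265) (nat_lit 254) (nat_lit 261))))))) (PT.nd (nat_lit 624) (PT.nd (nat_lit 312) (PT.nd (nat_lit 156) (PT.nd (nat_lit 78) (PT.lf (nat_lit 57304) (nat_lit 6) (nat_lit 754) (nat_lit 1) (nat_lit 266) (nat_lit 254) (nat_lit 260)) (PT.lf (nat_lit 56696) (nat_lit 6) (nat_lit 746) (nat_lit 1) (nat_lit 267) (nat_lit 254) (nat_lit 259))) (PT.nd (nat_lit 78) (PT.lf (nat_lit 56012) (nat_lit 6) (nat_lit 737) (nat_lit 1) (nat_lit 268) (nat_lit 254) (nat_lit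 258)) (PT.lf (nat_lit 55252) (nat_lit 6) (nat_lit 727) (nat_lit 1) (nat_lit 269) (nat_lit 254) (nat_lit 257)))) (PT.nd (nat_lit 156) (PT.nd (nat_lit 78) (PT.lf (nat_lit 54416) (nat_lit 6) (nat_lit 716) (nat_lit 1) (nat_lit 270) (nat_lit 254) (nat_lit 256)) (PT.lf (nat_lit 53504) (nat_lit 6) (nat_lit 704) (nat_lit 1) (nat_lit 271) (nat_lit 254) (nat_lit 255))) (PT.nd (nat_lit 78) (PT.lf (nat_lit 52516) (nat_lit 3) (nat_lit 691) (nat_lit 0) (nat_lit 272) (nat_lit 254) (nat_lit 254)) (PT.lf (nat_lit 51528) (nat_lit 6) (nat_lit 678) (nat_lit 0) (nat_lit 273) (nat_lit 254) (nat_lit 253))))) (PT.nd (nat_lit 312) (PT.nd (nat_lit 156) (PT.nd (nat_lit 78) (PT.lf (nat_lit 50464) (nat_lit 6) (nat_lit 664) (nat_lit 0) (nat_lit 274) (nat_lit 254) (nat_lit 252)) (PT.lf (nat_lit 49324) (nat_lit 6) (nat_lit 649) (nat_lit 0) (nat_lit 275) (nat_lit 254) (nat_lit 251))) (PT.nd (nat_lit 78) (PT.lf (nat_lit 48108) (nat_lit 6) (nat_lit 633) (nat_lit 0) (nat_lit 276) (nat_lit 254) (nat_lit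 250)) (PT.lf (nat_lit 46816) (nat_lit 6) (nat_lit 616) (nat_lit 0) (nat_lit 277) (nat_lit 254) (nat_lit 249)))) (PT.nd (nat_lit 156) (PT.nd (nat_lit 78) (PT.lf (nat_lit 45448) (nat_lit 6) (nat_lit 598) (nat_lit 0) (nat_lit 278) (nat_lit 254) (nat_lit 248)) (PT.lf (nat_lit 44004) (nat_lit 6) (nat_lit 579) (nat_lit 0) (nat_lit 279) (nat_lit 254) (nat_lit 247))) (PT.nd (nat_lit 78) (PT.lf (nat_lit 42484) (nat_lit 6) (nat_lit 559) (nat_lit 0) (nat_lit 280) (nat_lit 254) (nat_lit 246)) (PT.nd (nat_lit 78) (PT.lf (nat_lit 40888) (nat_lit 6) (nat_lit 538) (nat_lit 0) (nat_lit 281) (nat_lit 254) (nat_lit 245)) (PT.lf (nat_lit 39216) (nat_lit 6) (nat_lit 516) (nat_lit 0) (nat_lit 282) (nat_lit 254) (nat_lit 244))))))))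
noncomputable def pc44 : PT := (PT.nd (nat_lit 79092) (PT.nd (nat_lit 78390) (PT.nd (nat_lit 78078) (PT.nd (nat_lit 77922) (PT.nd (nat_lit 78) (PT.lf (nat_lit 37468) (nat_lit 6) (nat_lit 493) (nat_lit 0) (nat_lit 283) (nat_lit 254) (nat_lit 243)) (PT.lf (nat_lit 35644) (nat_lit 6) (nat_lit 469) (nat_lit 0) (nat_lit 284) (nat_lit 254) (nat_lit 242))) (PT.nd (nat_lit 78) (PT.lf (nat_lit 35720) (nat_lit 6) (nat_lit 470) (nat_lit 5) (nat_lit 241) (nat_lit 255) (nat_lit 284)) (PT.lf (nat_lit 37544) (nat_lit 6) (nat_lit 494) (nat_lit 5) (nat_lit 242) (nat_lit 255) (nat_lit 283)))) (PT.nd (nat_lit 156) (PT.nd (nat_lit 78) (PT.lf (nat_lit 39292) (nat_lit 6) (nat_lit 517) (nat_lit 5) (nat_lit 243) (nat_lit 255) (nat_lit 282)) (PT.lf (nat_lit 40964) (nat_lit 6) (nat_lit 539) (nat_lit 5) (nat_lit 244) (nat_lit 255) (nat_lit 281))) (PT.nd (nat_lit 78) (PT.lf (nat_lit 42560) (nat_lit 6) (nat_lit 560) (nat_lit 5) (nat_lit 245) (nat_lit 255) (nat_lit 280)) (PT.lf (nat_lit 44080)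 (nat_lit 6) (nat_lit 580) (nat_lit 5) (nat_lit 246) (nat_lit 255) (nat_lit 279))))) (PT.nd (nat_lit 312) (PT.nd (nat_lit 156) (PT.nd (nat_lit 78) (PT.lf (nat_lit 45524) (nat_lit 6) (nat_lit 599) (nat_lit 5) (nat_lit 247) (nat_lit 255) (nat_lit 278)) (PT.lf (nat_lit 46892) (nat_lit 6) (nat_lit 617) (nat_lit 5) (nat_lit 248) (nat_lit 255) (nat_lit 277))) (PT.nd (nat_lit 78) (PT.lf (nat_lit 48184) (nat_lit 6) (nat_lit 634) (nat_lit 5) (nat_lit 249) (nat_lit 255) (nat_lit 276)) (PT.lf (nat_lit 49400) (nat_lit 6) (nat_lit 650) (nat_lit 5) (nat_lit 250) (nat_lit 255) (nat_lit 275)))) (PT.nd (nat_lit 156) (PT.nd (nat_lit 78) (PT.lf (nat_lit 50540) (nat_lit 6) (nat_lit 665) (nat_lit 5) (nat_lit 251) (nat_lit 255) (nat_lit 274)) (PT.lf (nat_lit 51604) (nat_lit 6) (nat_lit 679) (nat_lit 5) (nat_lit 252) (nat_lit 255) (nat_lit 273))) (PT.nd (nat_lit 78) (PT.lf (nat_lit 52592) (nat_lit 6) (nat_lit 692) (nat_lit 5) (nat_lit 253) (nat_lit 255) (nat_lit 272)) (PT.nd (nat_lit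 78) (PT.lf (nat_lit 53504) (nat_lit 6) (nat_lit 704) (nat_lit 5) (nat_lit 254) (nat_lit 255) (nat_lit 271)) (PT.lf (nat_lit 54340) (nat_lit 3) (nat_lit 715) (nat_lit 3) (nat_lit 255) (nat_lit 255) (nat_lit 270))))))) (PT.nd (nat_lit 624) (PT.nd (nat_lit 312) (PT.nd (nat_lit 156) (PT.nd (nat_lit 78) (PT.lf (nat_lit 55176) (nat_lit 6) (nat_lit 726) (nat_lit 3) (nat_lit 256) (nat_lit 255) (nat_lit 269)) (PT.lf (nat_lit 55936) (nat_lit 6) (nat_lit 736) (nat_lit 3) (nat_lit 257) (nat_lit 255) (nat_lit 268))) (PT.nd (nat_lit 78) (PT.lf (nat_lit 56620) (nat_lit 6) (nat_lit 745) (nat_lit 3) (nat_lit 258) (nat_lit 255) (nat_lit 267)) (PT.lf (nat_lit 57228) (nat_lit 6) (nat_lit 753) (nat_lit 3) (nat_lit 259) (nat_lit 255) (nat_lit 266)))) (PT.nd (nat_lit 156) (PT.nd (nat_lit 78) (PT.lf (nat_lit 57760) (nat_lit 6) (nat_lit 760) (nat_lit 3) (nat_lit 260) (nat_lit 255) (nat_lit 265)) (PT.lf (nat_lit 57836) (nat_lit 6) (nat_lit 761) (nat_lit 3) (nat_lit 261) (nat_lit 255) (nat_lit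 264))) (PT.nd (nat_lit 78) (PT.lf (nat_lit 57912) (nat_lit 6) (nat_lit 762) (nat_lit 3) (nat_lit 262) (nat_lit 255) (nat_lit 263)) (PT.lf (nat_lit 57912) (nat_lit 6) (nat_lit 762) (nat_lit 1) (nat_lit 263) (nat_lit 255) (nat_lit 262))))) (PT.nd (nat_lit 312) (PT.nd (nat_lit 156) (PT.nd (nat_lit 78) (PT.lf (nat_lit 57836) (nat_lit 6) (nat_lit 761) (nat_lit 1) (nat_lit 264) (nat_lit 255) (nat_lit 261)) (PT.lf (nat_lit 57760) (nat_lit 6) (nat_lit 760) (nat_lit 1) (nat_lit 265) (nat_lit 255) (nat_lit 260))) (PT.nd (nat_lit 78) (PT.lf (nat_lit 57228) (nat_lit 6) (nat_lit 753) (nat_lit 1) (nat_lit 266) (nat_lit 255) (nat_lit 259)) (PT.lf (nat_lit 56620) (nat_lit 6) (nat_lit 745) (nat_lit 1) (nat_lit 267) (nat_lit 255) (nat_lit 258)))) (PT.nd (nat_lit 156) (PT.nd (nat_lit 78) (PT.lf (nat_lit 55936) (nat_lit 6) (nat_lit 736) (nat_lit 1) (nat_lit 268) (nat_lit 255) (nat_lit 257)) (PT.lf (nat_lit 55176) (nat_lit 6) (nat_lit 726) (nat_lit 1) (nat_lit 269) (nat_lit 255) (nat_lit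 256))) (PT.nd (nat_lit 78) (PT.lf (nat_lit 54340) (nat_lit 3) (nat_lit 715) (nat_lit 0) (nat_lit 270) (nat_lit 255) (nat_lit 255)) (PT.nd (nat_lit 78) (PT.lf (nat_lit 53504) (nat_lit 6) (nat_lit 704) (nat_lit 0) (nat_lit 271) (nat_lit 255) (nat_lit 254)) (PT.lf (nat_lit 52592) (nat_lit 6) (nat_lit 692) (nat_lit 0) (nat_lit 272) (nat_lit 255) (nat_lit 253))))))))
noncomputable def pc45 : PT := (PT.nd (nat_lit 79014) (PT.nd (nat_lit 624) (PT.nd (nat_lit 312) (PT.nd (nat_lit 156) (PT.nd (nat_lit 78) (PT.lf (nat_lit 51604) (nat_lit 6) (nat_lit 679) (nat_lit 0) (nat_lit 273) (nat_lit 255) (nat_lit 252)) (PT.lf (nat_lit 50540) (nat_lit 6) (nat_lit 665) (nat_lit 0) (nat_lit 274) (nat_lit 255) (nat_lit 251))) (PT.nd (nat_lit 78) (PT.lf (nat_lit 49400) (nat_lit 6) (nat_lit 650) (nat_lit 0) (nat_lit 275) (nat_lit 255) (nat_lit 250)) (PT.lf (nat_lit 48184) (nat_lit 6) (nat_lit 634) (nat_lit 0) (nat_lit 276) (nat_lit 255) (nat_lit 249)))) (PT.nd (nat_lit 156) (PT.nd (nat_lit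 78) (PT.lf (nat_lit 46892) (nat_lit 6) (nat_lit 617) (nat_lit 0) (nat_lit 277) (nat_lit 255) (nat_lit 248)) (PT.lf (nat_lit 45524) (nat_lit 6) (nat_lit 599) (nat_lit 0) (nat_lit 278) (nat_lit 255) (nat_lit 247))) (PT.nd (nat_lit 78) (PT.lf (nat_lit 44080) (nat_lit 6) (nat_lit 580) (nat_lit 0) (nat_lit 279) (nat_lit 255) (nat_lit 246)) (PT.lf (nat_lit 42560) (nat_lit 6) (nat_lit 560) (nat_lit 0) (nat_lit 280) (nat_lit 255) (nat_lit 245))))) (PT.nd (nat_lit 78000) (PT.nd (nat_lit 156) (PT.nd (nat_lit 78) (PT.lf (nat_lit 40964) (nat_lit 6) (nat_lit 539) (nat_lit 0) (nat_lit 281) (nat_lit 255) (nat_lit 244)) (PT.lf (nat_lit 39292) (nat_lit 6) (nat_lit 517) (nat_lit 0) (nat_lit 282) (nat_lit 255) (nat_lit 243))) (PT.nd (nat_lit 78) (PT.lf (nat_lit 37544) (nat_lit 6) (nat_lit 494) (nat_lit 0) (nat_lit 283) (nat_lit 255) (nat_lit 242)) (PT.lf (nat_lit 35720) (nat_lit 6) (nat_lit 470) (nat_lit 0) (nat_lit 284) (nat_lit 255) (nat_lit 241)))) (PT.nd (nat_lit 156) (PT.nd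 (nat_lit 78) (PT.lf (nat_lit 35796) (nat_lit 6) (nat_lit 471) (nat_lit 5) (nat_lit 240) (nat_lit 256) (nat_lit 284)) (PT.lf (nat_lit 37620) (nat_lit 6) (nat_lit 495) (nat_lit 5) (nat_lit 241) (nat_lit 256) (nat_lit 283))) (PT.nd (nat_lit 78) (PT.lf (nat_lit 39368) (nat_lit 6) (nat_lit 518) (nat_lit 5) (nat_lit 242) (nat_lit 256) (nat_lit 282)) (PT.nd (nat_lit 78) (PT.lf (nat_lit 41040) (nat_lit 6) (nat_lit 540) (nat_lit 5) (nat_lit 243) (nat_lit 256) (nat_lit 281)) (PT.lf (nat_lit 42636) (nat_lit 6) (nat_lit 561) (nat_lit 5) (nat_lit 244) (nat_lit 256) (nat_lit 280))))))) (PT.nd (nat_lit 624) (PT.nd (nat_lit 312) (PT.nd (nat_lit 156) (PT.nd (nat_lit 78) (PT.lf (nat_lit 44156) (nat_lit 6) (nat_lit 581) (nat_lit 5) (nat_lit 245) (nat_lit 256) (nat_lit 279)) (PT.lf (nat_lit 45600) (nat_lit 6) (nat_lit 600) (nat_lit 5) (nat_lit 246) (nat_lit 256) (nat_lit 278))) (PT.nd (nat_lit 78) (PT.lf (nat_lit 46968) (nat_lit 6) (nat_lit 618) (nat_lit 5) (nat_lit 247) (nat_lit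 256) (nat_lit 277)) (PT.lf (nat_lit 48260) (nat_lit 6) (nat_lit 635) (nat_lit 5) (nat_lit 248) (nat_lit 256) (nat_lit 276)))) (PT.nd (nat_lit 156) (PT.nd (nat_lit 78) (PT.lf (nat_lit 49476) (nat_lit 6) (nat_lit 651) (nat_lit 5) (nat_lit 249) (nat_lit 256) (nat_lit 275)) (PT.lf (nat_lit 50616) (nat_lit 6) (nat_lit 666) (nat_lit 5) (nat_lit 250) (nat_lit 256) (nat_lit 274))) (PT.nd (nat_lit 78) (PT.lf (nat_lit 51680) (nat_lit 6) (nat_lit 680) (nat_lit 5) (nat_lit 251) (nat_lit 256) (nat_lit 273)) (PT.lf (nat_lit 52668) (nat_lit 6) (nat_lit 693) (nat_lit 5) (nat_lit 252) (nat_lit 256) (nat_lit 272))))) (PT.nd (nat_lit 312) (PT.nd (nat_lit 156) (PT.nd (nat_lit 78) (PT.lf (nat_lit 53580) (nat_lit 6) (nat_lit 705) (nat_lit 5) (nat_lit 253) (nat_lit 256) (nat_lit 271)) (PT.lf (nat_lit 54416) (nat_lit 6) (nat_lit 716) (nat_lit 5) (nat_lit 254) (nat_lit 256) (nat_lit 270))) (PT.nd (nat_lit 78) (PT.lf (nat_lit 55176) (nat_lit 6) (nat_lit 726) (nat_lit 5) (nat_lit 255) (nat_lit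 256) (nat_lit 269)) (PT.lf (nat_lit 55860) (nat_lit 3) (nat_lit 735) (nat_lit 3) (nat_lit 256) (nat_lit 256) (nat_lit 268)))) (PT.nd (nat_lit 156) (PT.nd (nat_lit 78) (PT.lf (nat_lit 56544) (nat_lit 6) (nat_lit 744) (nat_lit 3) (nat_lit 257) (nat_lit 256) (nat_lit 267)) (PT.lf (nat_lit 57152) (nat_lit 6) (nat_lit 752) (nat_lit 3) (nat_lit 258) (nat_lit 256) (nat_lit 266))) (PT.nd (nat_lit 78) (PT.lf (nat_lit 57684) (nat_lit 6) (nat_lit 759) (nat_lit 3) (nat_lit 259) (nat_lit 256) (nat_lit 265)) (PT.nd (nat_lit 78) (PT.lf (nat_lit 58140) (nat_lit 6) (nat_lit 765) (nat_lit 3) (nat_lit 260) (nat_lit 256) (nat_lit 264)) (PT.lf (nat_lit 58216) (nat_lit 6) (nat_lit 766) (nat_lit 3) (nat_lit 261) (nat_lit 256) (nat_lit 263))))))))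
noncomputable def pc46 : PT := (PT.nd (nat_lit 1326) (PT.nd (nat_lit 624) (PT.nd (nat_lit 312) (PT.nd (nat_lit 156) (PT.nd (nat_lit 78) (PT.lf (nat_lit 58292) (nat_lit 3) (nat_lit 767) (nat_lit 1) (nat_lit 262) (nat_lit 256) (nat_lit 262)) (PT.lf (nat_lit 58216) (nat_lit 6) (nat_lit 766) (nat_lit 1) (nat_lit 263) (nat_lit 256) (nat_lit 261))) (PT.nd (nat_lit 78) (PT.lf (nat_lit 58140) (nat_lit 6) (nat_lit 765) (nat_lit 1) (nat_lit 264) (nat_lit 256) (nat_lit 260)) (PT.lf (nat_lit 57684) (nat_lit 6) (nat_lit 759) (nat_lit 1) (nat_lit 265) (nat_lit 256) (nat_lit 259)))) (PT.nd (nat_lit 156) (PT.nd (nat_lit 78) (PT.lf (nat_lit 57152) (nat_lit 6) (nat_lit 752) (nat_lit 1) (nat_lit 266) (nat_lit 256) (nat_lit 258)) (PT.lf (nat_lit 56544) (nat_lit 6) (nat_lit 744) (nat_lit 1) (nat_lit 267) (nat_lit 256) (nat_lit 257))) (PT.nd (nat_lit 78) (PT.lf (nat_lit 55860) (nat_lit 3) (nat_lit 735) (nat_lit 0) (nat_lit 268) (nat_lit 256) (nat_lit 256)) (PT.lf (nat_lit 55176) (nat_lit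 6) (nat_lit 726) (nat_lit 0) (nat_lit 269) (nat_lit 256) (nat_lit 255))))) (PT.nd (nat_lit 312) (PT.nd (nat_lit 156) (PT.nd (nat_lit 78) (PT.lf (nat_lit 54416) (nat_lit 6) (nat_lit 716) (nat_lit 0) (nat_lit 270) (nat_lit 256) (nat_lit 254)) (PT.lf (nat_lit 53580) (nat_lit 6) (nat_lit 705) (nat_lit 0) (nat_lit 271) (nat_lit 256) (nat_lit 253))) (PT.nd (nat_lit 78) (PT.lf (nat_lit 52668) (nat_lit 6) (nat_lit 693) (nat_lit 0) (nat_lit 272) (nat_lit 256) (nat_lit 252)) (PT.lf (nat_lit 51680) (nat_lit 6) (nat_lit 680) (nat_lit 0) (nat_lit 273) (nat_lit 256) (nat_lit 251)))) (PT.nd (nat_lit 156) (PT.nd (nat_lit 78) (PT.lf (nat_lit 50616) (nat_lit 6) (nat_lit 666) (nat_lit 0) (nat_lit 274) (nat_lit 256) (nat_lit 250)) (PT.lf (nat_lit 49476) (nat_lit 6) (nat_lit 651) (nat_lit 0) (nat_lit 275) (nat_lit 256) (nat_lit 249))) (PT.nd (nat_lit 78) (PT.lf (nat_lit 48260) (nat_lit 6) (nat_lit 635) (nat_lit 0) (nat_lit 276) (nat_lit 256) (nat_lit 248)) (PT.nd (nat_lit 78) (PT.lf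 (nat_lit 46968) (nat_lit 6) (nat_lit 618) (nat_lit 0) (nat_lit 277) (nat_lit 256) (nat_lit 247)) (PT.lf (nat_lit 45600) (nat_lit 6) (nat_lit 600) (nat_lit 0) (nat_lit 278) (nat_lit 256) (nat_lit 246))))))) (PT.nd (nat_lit 78234) (PT.nd (nat_lit 312) (PT.nd (nat_lit 156) (PT.nd (nat_lit 78) (PT.lf (nat_lit 44156) (nat_lit 6) (nat_lit 581) (nat_lit 0) (nat_lit 279) (nat_lit 256) (nat_lit 245)) (PT.lf (nat_lit 42636) (nat_lit 6) (nat_lit 561) (nat_lit 0) (nat_lit 280) (nat_lit 256) (nat_lit 244))) (PT.nd (nat_lit 78) (PT.lf (nat_lit 41040) (nat_lit 6) (nat_lit 540) (nat_lit 0) (nat_lit 281) (nat_lit 256) (nat_lit 243)) (PT.lf (nat_lit 39368) (nat_lit 6) (nat_lit 518) (nat_lit 0) (nat_lit 282) (nat_lit 256) (nat_lit 242)))) (PT.nd (nat_lit 77766) (PT.nd (nat_lit 78) (PT.lf (nat_lit 37620) (nat_lit 6) (nat_lit 495) (nat_lit 0) (nat_lit 283) (nat_lit 256) (nat_lit 241)) (PT.lf (nat_lit 35796) (nat_lit 6) (nat_lit 471) (nat_lit 0) (nat_lit 284) (nat_lit 256) (nat_lit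 240))) (PT.nd (nat_lit 78) (PT.lf (nat_lit 35872) (nat_lit 6) (nat_lit 472) (nat_lit 5) (nat_lit 239) (nat_lit 257) (nat_lit 284)) (PT.lf (nat_lit 37696) (nat_lit 6) (nat_lit 496) (nat_lit 5) (nat_lit 240) (nat_lit 257) (nat_lit 283))))) (PT.nd (nat_lit 312) (PT.nd (nat_lit 156) (PT.nd (nat_lit 78) (PT.lf (nat_lit 39444) (nat_lit 6) (nat_lit 519) (nat_lit 5) (nat_lit 241) (nat_lit 257) (nat_lit 282)) (PT.lf (nat_lit 41116) (nat_lit 6) (nat_lit 541) (nat_lit 5) (nat_lit 242) (nat_lit 257) (nat_lit 281))) (PT.nd (nat_lit 78) (PT.lf (nat_lit 42712) (nat_lit 6) (nat_lit 562) (nat_lit 5) (nat_lit 243) (nat_lit 257) (nat_lit 280)) (PT.lf (nat_lit 44232) (nat_lit 6) (nat_lit 582) (nat_lit 5) (nat_lit 244) (nat_lit 257) (nat_lit 279)))) (PT.nd (nat_lit 156) (PT.nd (nat_lit 78) (PT.lf (nat_lit 45676) (nat_lit 6) (nat_lit 601) (nat_lit 5) (nat_lit 245) (nat_lit 257) (nat_lit 278)) (PT.lf (nat_lit 47044) (nat_lit 6) (nat_lit 619) (nat_lit 5) (nat_lit 246) (nat_lit 257) (nat_lit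 277))) (PT.nd (nat_lit 78) (PT.lf (nat_lit 48336) (nat_lit 6) (nat_lit 636) (nat_lit 5) (nat_lit 247) (nat_lit 257) (nat_lit 276)) (PT.nd (nat_lit 78) (PT.lf (nat_lit 49552) (nat_lit 6) (nat_lit 652) (nat_lit 5) (nat_lit 248) (nat_lit 257) (nat_lit 275)) (PT.lf (nat_lit 50692) (nat_lit 6) (nat_lit 667) (nat_lit 5) (nat_lit 249) (nat_lit 257) (nat_lit 274))))))))
noncomputable def pc47 : PT := (PT.nd (nat_lit 1326) (PT.nd (nat_lit 624) (PT.nd (nat_lit 312) (PT.nd (nat_lit 156) (PT.nd (nat_lit 78) (PT.lf (nat_lit 51756) (nat_lit 6) (nat_lit 681) (nat_lit 5) (nat_lit 250) (nat_lit 257) (nat_lit 273)) (PT.lf (nat_lit 52744) (nat_lit 6) (nat_lit 694) (nat_lit 5) (nat_lit 251) (nat_lit 257) (nat_lit 272))) (PT.nd (nat_lit 78) (PT.lf (nat_lit 53656) (nat_lit 6) (nat_lit 706) (nat_lit 5) (nat_lit 252) (nat_lit 257) (nat_lit 271)) (PT.lf (nat_lit 54492) (nat_lit 6) (nat_lit 717) (nat_lit 5) (nat_lit 253) (nat_lit 257) (nat_lit 270)))) (PT.nd (nat_lit 156) (PT.nd (nat_lit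 78) (PT.lf (nat_lit 55252) (nat_lit 6) (nat_lit 727) (nat_lit 5) (nat_lit 254) (nat_lit 257) (nat_lit 269)) (PT.lf (nat_lit 55936) (nat_lit 6) (nat_lit 736) (nat_lit 5) (nat_lit 255) (nat_lit 257) (nat_lit 268))) (PT.nd (nat_lit 78) (PT.lf (nat_lit 56544) (nat_lit 6) (nat_lit 744) (nat_lit 5) (nat_lit 256) (nat_lit 257) (nat_lit 267)) (PT.lf (nat_lit 57076) (nat_lit 3) (nat_lit 751) (nat_lit 3) (nat_lit 257) (nat_lit 257) (nat_lit 266))))) (PT.nd (nat_lit 312) (PT.nd (nat_lit 156) (PT.nd (nat_lit 78) (PT.lf (nat_lit 57608) (nat_lit 6) (nat_lit 758) (nat_lit 3) (nat_lit 258) (nat_lit 257) (nat_lit 265)) (PT.lf (nat_lit 58064) (nat_lit 6) (nat_lit 764) (nat_lit 3) (nat_lit 259) (nat_lit 257) (nat_lit 264))) (PT.nd (nat_lit 78) (PT.lf (nat_lit 58444) (nat_lit 6) (nat_lit 769) (nat_lit 3) (nat_lit 260) (nat_lit 257) (nat_lit 263)) (PT.lf (nat_lit 58520) (nat_lit 6) (nat_lit 770) (nat_lit 3) (nat_lit 261) (nat_lit 257) (nat_lit 262)))) (PT.nd (nat_lit 156) (PT.nd (nat_lit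 78) (PT.lf (nat_lit 58520) (nat_lit 6) (nat_lit 770) (nat_lit 1) (nat_lit 262) (nat_lit 257) (nat_lit 261)) (PT.lf (nat_lit 58444) (nat_lit 6) (nat_lit 769) (nat_lit 1) (nat_lit 263) (nat_lit 257) (nat_lit 260))) (PT.nd (nat_lit 78) (PT.lf (nat_lit 58064) (nat_lit 6) (nat_lit 764) (nat_lit 1) (nat_lit 264) (nat_lit 257) (nat_lit 259)) (PT.nd (nat_lit 78) (PT.lf (nat_lit 57608) (nat_lit 6) (nat_lit 758) (nat_lit 1) (nat_lit 265) (nat_lit 257) (nat_lit 258)) (PT.lf (nat_lit 57076) (nat_lit 3) (nat_lit 751) (nat_lit 0) (nat_lit 266) (nat_lit 257) (nat_lit 257))))))) (PT.nd (nat_lit 624) (PT.nd (nat_lit 312) (PT.nd (nat_lit 156) (PT.nd (nat_lit 78) (PT.lf (nat_lit 56544) (nat_lit 6) (nat_lit 744) (nat_lit 0) (nat_lit 267) (nat_lit 257) (nat_lit 256)) (PT.lf (nat_lit 55936) (nat_lit 6) (nat_lit 736) (nat_lit 0) (nat_lit 268) (nat_lit 257) (nat_lit 255))) (PT.nd (nat_lit 78) (PT.lf (nat_lit 55252) (nat_lit 6) (nat_lit 727) (nat_lit 0) (nat_lit 269) (nat_lit 257) (nat_lit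 254)) (PT.lf (nat_lit 54492) (nat_lit 6) (nat_lit 717) (nat_lit 0) (nat_lit 270) (nat_lit 257) (nat_lit 253)))) (PT.nd (nat_lit 156) (PT.nd (nat_lit 78) (PT.lf (nat_lit 53656) (nat_lit 6) (nat_lit 706) (nat_lit 0) (nat_lit 271) (nat_lit 257) (nat_lit 252)) (PT.lf (nat_lit 52744) (nat_lit 6) (nat_lit 694) (nat_lit 0) (nat_lit 272) (nat_lit 257) (nat_lit 251))) (PT.nd (nat_lit 78) (PT.lf (nat_lit 51756) (nat_lit 6) (nat_lit 681) (nat_lit 0) (nat_lit 273) (nat_lit 257) (nat_lit 250)) (PT.lf (nat_lit 50692) (nat_lit 6) (nat_lit 667) (nat_lit 0) (nat_lit 274) (nat_lit 257) (nat_lit 249))))) (PT.nd (nat_lit 312) (PT.nd (nat_lit 156) (PT.nd (nat_lit 78) (PT.lf (nat_lit 49552) (nat_lit 6) (nat_lit 652) (nat_lit 0) (nat_lit 275) (nat_lit 257) (nat_lit 248)) (PT.lf (nat_lit 48336) (nat_lit 6) (nat_lit 636) (nat_lit 0) (nat_lit 276) (nat_lit 257) (nat_lit 247))) (PT.nd (nat_lit 78) (PT.lf (nat_lit 47044) (nat_lit 6) (nat_lit 619) (nat_lit 0) (nat_lit 277) (nat_lit 257) (nat_lit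 246)) (PT.lf (nat_lit 45676) (nat_lit 6) (nat_lit 601) (nat_lit 0) (nat_lit 278) (nat_lit 257) (nat_lit 245)))) (PT.nd (nat_lit 156) (PT.nd (nat_lit 78) (PT.lf (nat_lit 44232) (nat_lit 6) (nat_lit 582) (nat_lit 0) (nat_lit 279) (nat_lit 257) (nat_lit 244)) (PT.lf (nat_lit 42712) (nat_lit 6) (nat_lit 562) (nat_lit 0) (nat_lit 280) (nat_lit 257) (nat_lit 243))) (PT.nd (nat_lit 78) (PT.lf (nat_lit 41116) (nat_lit 6) (nat_lit 541) (nat_lit 0) (nat_lit 281) (nat_lit 257) (nat_lit 242)) (PT.nd (nat_lit 78) (PT.lf (nat_lit 39444) (nat_lit 6) (nat_lit 519) (nat_lit 0) (nat_lit 282) (nat_lit 257) (nat_lit 241)) (PT.lf (nat_lit 37696) (nat_lit 6) (nat_lit 496) (nat_lit 0) (nat_lit 283) (nat_lit 257) (nat_lit 240))))))))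
noncomputable def pc48 : PT := (PT.nd (nat_lit 78780) (PT.nd (nat_lit 78156) (PT.nd (nat_lit 77844) (PT.nd (nat_lit 77688) (PT.nd (nat_lit 77610) (PT.lf (nat_lit 35872) (nat_lit 6) (nat_lit 472) (nat_lit 0) (nat_lit 284) (nat_lit 257) (nat_lit 239)) (PT.lf (nat_lit 35948) (nat_lit 6) (nat_lit 473) (nat_lit 5) (nat_lit 238) (nat_lit 258) (nat_lit 284))) (PT.nd (nat_lit 78) (PT.lf (nat_lit 37772) (nat_lit 6) (nat_lit 497) (nat_lit 5) (nat_lit 239) (nat_lit 258) (nat_lit 283)) (PT.lf (nat_lit 39520) (nat_lit 6) (nat_lit 520) (nat_lit 5) (nat_lit 240) (nat_lit 258) (nat_lit 282)))) (PT.nd (nat_lit 156) (PT.nd (nat_lit 78) (PT.lf (nat_lit 41192) (nat_lit 6) (nat_lit 542) (nat_lit 5) (nat_lit 241) (nat_lit 258) (nat_lit 281)) (PT.lf (nat_lit 42788) (nat_lit 6) (nat_lit 563) (nat_lit 5) (nat_lit 242) (nat_lit 258) (nat_lit 280))) (PT.nd (nat_lit 78) (PT.lf (nat_lit 44308) (nat_lit 6) (nat_lit 583) (nat_lit 5) (nat_lit 243) (nat_lit 258) (nat_lit 279)) (PT.lf (nat_lit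 45752) (nat_lit 6) (nat_lit 602) (nat_lit 5) (nat_lit 244) (nat_lit 258) (nat_lit 278))))) (PT.nd (nat_lit 312) (PT.nd (nat_lit 156) (PT.nd (nat_lit 78) (PT.lf (nat_lit 47120) (nat_lit 6) (nat_lit 620) (nat_lit 5) (nat_lit 245) (nat_lit 258) (nat_lit 277)) (PT.lf (nat_lit 48412) (nat_lit 6) (nat_lit 637) (nat_lit 5) (nat_lit 246) (nat_lit 258) (nat_lit 276))) (PT.nd (nat_lit 78) (PT.lf (nat_lit 49628) (nat_lit 6) (nat_lit 653) (nat_lit 5) (nat_lit 247) (nat_lit 258) (nat_lit 275)) (PT.lf (nat_lit 50768) (nat_lit 6) (nat_lit 668) (nat_lit 5) (nat_lit 248) (nat_lit 258) (nat_lit 274)))) (PT.nd (nat_lit 156) (PT.nd (nat_lit 78) (PT.lf (nat_lit 51832) (nat_lit 6) (nat_lit 682) (nat_lit 5) (nat_lit 249) (nat_lit 258) (nat_lit 273)) (PT.lf (nat_lit 52820) (nat_lit 6) (nat_lit 695) (nat_lit 5) (nat_lit 250) (nat_lit 258) (nat_lit 272))) (PT.nd (nat_lit 78) (PT.lf (nat_lit 53732) (nat_lit 6) (nat_lit 707) (nat_lit 5) (nat_lit 251) (nat_lit 258) (nat_lit 271)) (PT.lf (nat_lit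 54568) (nat_lit 6) (nat_lit 718) (nat_lit 5) (nat_lit 252) (nat_lit 258) (nat_lit 270)))))) (PT.nd (nat_lit 624) (PT.nd (nat_lit 312) (PT.nd (nat_lit 156) (PT.nd (nat_lit 78) (PT.lf (nat_lit 55328) (nat_lit 6) (nat_lit 728) (nat_lit 5) (nat_lit 253) (nat_lit 258) (nat_lit 269)) (PT.lf (nat_lit 56012) (nat_lit 6) (nat_lit 737) (nat_lit 5) (nat_lit 254) (nat_lit 258) (nat_lit 268))) (PT.nd (nat_lit 78) (PT.lf (nat_lit 56620) (nat_lit 6) (nat_lit 745) (nat_lit 5) (nat_lit 255) (nat_lit 258) (nat_lit 267)) (PT.lf (nat_lit 57152) (nat_lit 6) (nat_lit 752) (nat_lit 5) (nat_lit 256) (nat_lit 258) (nat_lit 266)))) (PT.nd (nat_lit 156) (PT.nd (nat_lit 78) (PT.lf (nat_lit 57608) (nat_lit 6) (nat_lit 758) (nat_lit 5) (nat_lit 257) (nat_lit 258) (nat_lit 265)) (PT.lf (nat_lit 57988) (nat_lit 3) (nat_lit 763) (nat_lit 3) (nat_lit 258) (nat_lit 258) (nat_lit 264))) (PT.nd (nat_lit 78) (PT.lf (nat_lit 58368) (nat_lit 6) (nat_lit 768) (nat_lit 3) (nat_lit 259) (nat_lit 258) (nat_lit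 263)) (PT.lf (nat_lit 58672) (nat_lit 6) (nat_lit 772) (nat_lit 3) (nat_lit 260) (nat_lit 258) (nat_lit 262))))) (PT.nd (nat_lit 312) (PT.nd (nat_lit 156) (PT.nd (nat_lit 78) (PT.lf (nat_lit 58748) (nat_lit 3) (nat_lit 773) (nat_lit 1) (nat_lit 261) (nat_lit 258) (nat_lit 261)) (PT.lf (nat_lit 58672) (nat_lit 6) (nat_lit 772) (nat_lit 1) (nat_lit 262) (nat_lit 258) (nat_lit 260))) (PT.nd (nat_lit 78) (PT.lf (nat_lit 58368) (nat_lit 6) (nat_lit 768) (nat_lit 1) (nat_lit 263) (nat_lit 258) (nat_lit 259)) (PT.lf (nat_lit 57988) (nat_lit 3) (nat_lit 763) (nat_lit 0) (nat_lit 264) (nat_lit 258) (nat_lit 258)))) (PT.nd (nat_lit 156) (PT.nd (nat_lit 78) (PT.lf (nat_lit 57608) (nat_lit 6) (nat_lit 758) (nat_lit 0) (nat_lit 265) (nat_lit 258) (nat_lit 257)) (PT.lf (nat_lit 57152) (nat_lit 6) (nat_lit 752) (nat_lit 0) (nat_lit 266) (nat_lit 258) (nat_lit 256))) (PT.nd (nat_lit 78) (PT.lf (nat_lit 56620) (nat_lit 6) (nat_lit 745) (nat_lit 0) (nat_lit 267) (nat_lit 258) (nat_lit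 255)) (PT.nd (nat_lit 78) (PT.lf (nat_lit 56012) (nat_lit 6) (nat_lit 737) (nat_lit 0) (nat_lit 268) (nat_lit 258) (nat_lit 254)) (PT.lf (nat_lit 55328) (nat_lit 6) (nat_lit 728) (nat_lit 0) (nat_lit 269) (nat_lit 258) (nat_lit 253))))))))
noncomputable def pc49 : PT := (PT.nd (nat_lit 78702) (PT.nd (nat_lit 624) (PT.nd (nat_lit 312) (PT.nd (nat_lit 156) (PT.nd (nat_lit 78) (PT.lf (nat_lit 54568) (nat_lit 6) (nat_lit 718) (nat_lit 0) (nat_lit 270) (nat_lit 258) (nat_lit 252)) (PT.lf (nat_lit 53732) (nat_lit 6) (nat_lit 707) (nat_lit 0) (nat_lit 271) (nat_lit 258) (nat_lit 251))) (PT.nd (nat_lit 78) (PT.lf (nat_lit 52820) (nat_lit 6) (nat_lit 695) (nat_lit 0) (nat_lit 272) (nat_lit 258) (nat_lit 250)) (PT.lf (nat_lit 51832) (nat_lit 6) (nat_lit 682) (nat_lit 0) (nat_lit 273) (nat_lit 258) (nat_lit 249)))) (PT.nd (nat_lit 156) (PT.nd (nat_lit 78) (PT.lf (nat_lit 50768) (nat_lit 6) (nat_lit 668) (nat_lit 0) (nat_lit 274) (nat_lit 258) (nat_lit 248)) (PT.lf (nat_lit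 49628) (nat_lit 6) (nat_lit 653) (nat_lit 0) (nat_lit 275) (nat_lit 258) (nat_lit 247))) (PT.nd (nat_lit 78) (PT.lf (nat_lit 48412) (nat_lit 6) (nat_lit 637) (nat_lit 0) (nat_lit 276) (nat_lit 258) (nat_lit 246)) (PT.lf (nat_lit 47120) (nat_lit 6) (nat_lit 620) (nat_lit 0) (nat_lit 277) (nat_lit 258) (nat_lit 245))))) (PT.nd (nat_lit 312) (PT.nd (nat_lit 156) (PT.nd (nat_lit 78) (PT.lf (nat_lit 45752) (nat_lit 6) (nat_lit 602) (nat_lit 0) (nat_lit 278) (nat_lit 258) (nat_lit 244)) (PT.lf (nat_lit 44308) (nat_lit 6) (nat_lit 583) (nat_lit 0) (nat_lit 279) (nat_lit 258) (nat_lit 243))) (PT.nd (nat_lit 78) (PT.lf (nat_lit 42788) (nat_lit 6) (nat_lit 563) (nat_lit 0) (nat_lit 280) (nat_lit 258) (nat_lit 242)) (PT.lf (nat_lit 41192) (nat_lit 6) (nat_lit 542) (nat_lit 0) (nat_lit 281) (nat_lit 258) (nat_lit 241)))) (PT.nd (nat_lit 156) (PT.nd (nat_lit 78) (PT.lf (nat_lit 39520) (nat_lit 6) (nat_lit 520) (nat_lit 0) (nat_lit 282) (nat_lit 258) (nat_lit 240)) (PT.lf (nat_lit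 37772) (nat_lit 6) (nat_lit 497) (nat_lit 0) (nat_lit 283) (nat_lit 258) (nat_lit 239))) (PT.nd (nat_lit 77454) (PT.lf (nat_lit 35948) (nat_lit 6) (nat_lit 473) (nat_lit 0) (nat_lit 284) (nat_lit 258) (nat_lit 238)) (PT.nd (nat_lit 78) (PT.lf (nat_lit 34124) (nat_lit 6) (nat_lit 449) (nat_lit 5) (nat_lit 236) (nat_lit 259) (nat_lit 285)) (PT.lf (nat_lit 36024) (nat_lit 6) (nat_lit 474) (nat_lit 5) (nat_lit 237) (nat_lit 259) (nat_lit 284))))))) (PT.nd (nat_lit 624) (PT.nd (nat_lit 312) (PT.nd (nat_lit 156) (PT.nd (nat_lit 78) (PT.lf (nat_lit 37848) (nat_lit 6) (nat_lit 498) (nat_lit 5) (nat_lit 238) (nat_lit 259) (nat_lit 283)) (PT.lf (nat_lit 39596) (nat_lit 6) (nat_lit 521) (nat_lit 5) (nat_lit 239) (nat_lit 259) (nat_lit 282))) (PT.nd (nat_lit 78) (PT.lf (nat_lit 41268) (nat_lit 6) (nat_lit 543) (nat_lit 5) (nat_lit 240) (nat_lit 259) (nat_lit 281)) (PT.lf (nat_lit 42864) (nat_lit 6) (nat_lit 564) (nat_lit 5) (nat_lit 241) (nat_lit 259) (nat_lit 280)))) (PT.nd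 (nat_lit 156) (PT.nd (nat_lit 78) (PT.lf (nat_lit 44384) (nat_lit 6) (nat_lit 584) (nat_lit 5) (nat_lit 242) (nat_lit 259) (nat_lit 279)) (PT.lf (nat_lit 45828) (nat_lit 6) (nat_lit 603) (nat_lit 5) (nat_lit 243) (nat_lit 259) (nat_lit 278))) (PT.nd (nat_lit 78) (PT.lf (nat_lit 47196) (nat_lit 6) (nat_lit 621) (nat_lit 5) (nat_lit 244) (nat_lit 259) (nat_lit 277)) (PT.lf (nat_lit 48488) (nat_lit 6) (nat_lit 638) (nat_lit 5) (nat_lit 245) (nat_lit 259) (nat_lit 276))))) (PT.nd (nat_lit 312) (PT.nd (nat_lit 156) (PT.nd (nat_lit 78) (PT.lf (nat_lit 49704) (nat_lit 6) (nat_lit 654) (nat_lit 5) (nat_lit 246) (nat_lit 259) (nat_lit 275)) (PT.lf (nat_lit 50844) (nat_lit 6) (nat_lit 669) (nat_lit 5) (nat_lit 247) (nat_lit 259) (nat_lit 274))) (PT.nd (nat_lit 78) (PT.lf (nat_lit 51908) (nat_lit 6) (nat_lit 683) (nat_lit 5) (nat_lit 248) (nat_lit 259) (nat_lit 273)) (PT.lf (nat_lit 52896) (nat_lit 6) (nat_lit 696) (nat_lit 5) (nat_lit 249) (nat_lit 259) (nat_lit 272))))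 (PT.nd (nat_lit 156) (PT.nd (nat_lit 78) (PT.lf (nat_lit 53808) (nat_lit 6) (nat_lit 708) (nat_lit 5) (nat_lit 250) (nat_lit 259) (nat_lit 271)) (PT.lf (nat_lit 54644) (nat_lit 6) (nat_lit 719) (nat_lit 5) (nat_lit 251) (nat_lit 259) (nat_lit 270))) (PT.nd (nat_lit 78) (PT.lf (nat_lit 55404) (nat_lit 6) (nat_lit 729) (nat_lit 5) (nat_lit 252) (nat_lit 259) (nat_lit 269)) (PT.nd (nat_lit 78) (PT.lf (nat_lit 56088) (nat_lit 6) (nat_lit 738) (nat_lit 5) (nat_lit 253) (nat_lit 259) (nat_lit 268)) (PT.lf (nat_lit 56696) (nat_lit 6) (nat_lit 746) (nat_lit 5) (nat_lit 254) (nat_lit 259) (nat_lit 267))))))))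
noncomputable def pc50 : PT := (PT.nd (nat_lit 1326) (PT.nd (nat_lit 624) (PT.nd (nat_lit 312) (PT.nd (nat_lit 156) (PT.nd (nat_lit 78) (PT.lf (nat_lit 57228) (nat_lit 6) (nat_lit 753) (nat_lit 5) (nat_lit 255) (nat_lit 259) (nat_lit 266)) (PT.lf (nat_lit 57684) (nat_lit 6) (nat_lit 759) (nat_lit 5) (nat_lit 256) (nat_lit 259) (nat_lit 265))) (PT.nd (nat_lit 78) (PT.lf (nat_lit 58064) (nat_lit 6) (nat_lit 764) (nat_lit 5) (nat_lit 257) (nat_lit 259) (nat_lit 264)) (PT.lf (nat_lit 58368) (nat_lit 6) (nat_lit 768) (nat_lit 5) (nat_lit 258) (nat_lit 259) (nat_lit 263)))) (PT.nd (nat_lit 156) (PT.nd (nat_lit 78) (PT.lf (nat_lit 58596) (nat_lit 3) (nat_lit 771) (nat_lit 3) (nat_lit 259) (nat_lit 259) (nat_lit 262)) (PT.lf (nat_lit 58824) (nat_lit 6) (nat_lit 774) (nat_lit 3) (nat_lit 260) (nat_lit 259) (nat_lit 261))) (PT.nd (nat_lit 78) (PT.lf (nat_lit 58824) (nat_lit 6) (nat_lit 774) (nat_lit 1) (nat_lit 261) (nat_lit 259) (nat_lit 260)) (PT.lf (nat_lit 58596) (nat_lit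 3) (nat_lit 771) (nat_lit 0) (nat_lit 262) (nat_lit 259) (nat_lit 259))))) (PT.nd (nat_lit 312) (PT.nd (nat_lit 156) (PT.nd (nat_lit 78) (PT.lf (nat_lit 58368) (nat_lit 6) (nat_lit 768) (nat_lit 0) (nat_lit 263) (nat_lit 259) (nat_lit 258)) (PT.lf (nat_lit 58064) (nat_lit 6) (nat_lit 764) (nat_lit 0) (nat_lit 264) (nat_lit 259) (nat_lit 257))) (PT.nd (nat_lit 78) (PT.lf (nat_lit 57684) (nat_lit 6) (nat_lit 759) (nat_lit 0) (nat_lit 265) (nat_lit 259) (nat_lit 256)) (PT.lf (nat_lit 57228) (nat_lit 6) (nat_lit 753) (nat_lit 0) (nat_lit 266) (nat_lit 259) (nat_lit 255)))) (PT.nd (nat_lit 156) (PT.nd (nat_lit 78) (PT.lf (nat_lit 56696) (nat_lit 6) (nat_lit 746) (nat_lit 0) (nat_lit 267) (nat_lit 259) (nat_lit 254)) (PT.lf (nat_lit 56088) (nat_lit 6) (nat_lit 738) (nat_lit 0) (nat_lit 268) (nat_lit 259) (nat_lit 253))) (PT.nd (nat_lit 78) (PT.lf (nat_lit 55404) (nat_lit 6) (nat_lit 729) (nat_lit 0) (nat_lit 269) (nat_lit 259) (nat_lit 252)) (PT.nd (nat_lit 78) (PT.lf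 (nat_lit 54644) (nat_lit 6) (nat_lit 719) (nat_lit 0) (nat_lit 270) (nat_lit 259) (nat_lit 251)) (PT.lf (nat_lit 53808) (nat_lit 6) (nat_lit 708) (nat_lit 0) (nat_lit 271) (nat_lit 259) (nat_lit 250))))))) (PT.nd (nat_lit 624) (PT.nd (nat_lit 312) (PT.nd (nat_lit 156) (PT.nd (nat_lit 78) (PT.lf (nat_lit 52896) (nat_lit 6) (nat_lit 696) (nat_lit 0) (nat_lit 272) (nat_lit 259) (nat_lit 249)) (PT.lf (nat_lit 51908) (nat_lit 6) (nat_lit 683) (nat_lit 0) (nat_lit 273) (nat_lit 259) (nat_lit 248))) (PT.nd (nat_lit 78) (PT.lf (nat_lit 50844) (nat_lit 6) (nat_lit 669) (nat_lit 0) (nat_lit 274) (nat_lit 259) (nat_lit 247)) (PT.lf (nat_lit 49704) (nat_lit 6) (nat_lit 654) (nat_lit 0) (nat_lit 275) (nat_lit 259) (nat_lit 246)))) (PT.nd (nat_lit 156) (PT.nd (nat_lit 78) (PT.lf (nat_lit 48488) (nat_lit 6) (nat_lit 638) (nat_lit 0) (nat_lit 276) (nat_lit 259) (nat_lit 245)) (PT.lf (nat_lit 47196) (nat_lit 6) (nat_lit 621) (nat_lit 0) (nat_lit 277) (nat_lit 259) (nat_lit 244)))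 (PT.nd (nat_lit 78) (PT.lf (nat_lit 45828) (nat_lit 6) (nat_lit 603) (nat_lit 0) (nat_lit 278) (nat_lit 259) (nat_lit 243)) (PT.lf (nat_lit 44384) (nat_lit 6) (nat_lit 584) (nat_lit 0) (nat_lit 279) (nat_lit 259) (nat_lit 242))))) (PT.nd (nat_lit 312) (PT.nd (nat_lit 156) (PT.nd (nat_lit 78) (PT.lf (nat_lit 42864) (nat_lit 6) (nat_lit 564) (nat_lit 0) (nat_lit 280) (nat_lit 259) (nat_lit 241)) (PT.lf (nat_lit 41268) (nat_lit 6) (nat_lit 543) (nat_lit 0) (nat_lit 281) (nat_lit 259) (nat_lit 240))) (PT.nd (nat_lit 78) (PT.lf (nat_lit 39596) (nat_lit 6) (nat_lit 521) (nat_lit 0) (nat_lit 282) (nat_lit 259) (nat_lit 239)) (PT.lf (nat_lit 37848) (nat_lit 6) (nat_lit 498) (nat_lit 0) (nat_lit 283) (nat_lit 259) (nat_lit 238)))) (PT.nd (nat_lit 77376) (PT.nd (nat_lit 78) (PT.lf (nat_lit 36024) (nat_lit 6) (nat_lit 474) (nat_lit 0) (nat_lit 284) (nat_lit 259) (nat_lit 237)) (PT.lf (nat_lit 34124) (nat_lit 6) (nat_lit 449) (nat_lit 0) (nat_lit 285) (nat_lit 259) (nat_lit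 236))) (PT.nd (nat_lit 78) (PT.lf (nat_lit 34200) (nat_lit 6) (nat_lit 450) (nat_lit 5) (nat_lit 235) (nat_lit 260) (nat_lit 285)) (PT.nd (nat_lit 78) (PT.lf (nat_lit 36100) (nat_lit 6) (nat_lit 475) (nat_lit 5) (nat_lit 236) (nat_lit 260) (nat_lit 284)) (PT.lf (nat_lit 37924) (nat_lit 6) (nat_lit 499) (nat_lit 5) (nat_lit 237) (nat_lit 260) (nat_lit 283))))))))
noncomputable def pc51 : PT := (PT.nd (nat_lit 1326) (PT.nd (nat_lit 624) (PT.nd (nat_lit 312) (PT.nd (nat_lit 156) (PT.nd (nat_lit 78) (PT.lf (nat_lit 39672) (nat_lit 6) (nat_lit 522) (nat_lit 5) (nat_lit 238) (nat_lit 260) (nat_lit 282)) (PT.lf (nat_lit 41344) (nat_lit 6) (nat_lit 544) (nat_lit 5) (nat_lit 239) (nat_lit 260) (nat_lit 281))) (PT.nd (nat_lit 78) (PT.lf (nat_lit 42940) (nat_lit 6) (nat_lit 565) (nat_lit 5) (nat_lit 240) (nat_lit 260) (nat_lit 280)) (PT.lf (nat_lit 44460) (nat_lit 6) (nat_lit 585) (nat_lit 5) (nat_lit 241) (nat_lit 260) (nat_lit 279)))) (PT.nd (nat_lit 156) (PT.nd (nat_lit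 78) (PT.lf (nat_lit 45904) (nat_lit 6) (nat_lit 604) (nat_lit 5) (nat_lit 242) (nat_lit 260) (nat_lit 278)) (PT.lf (nat_lit 47272) (nat_lit 6) (nat_lit 622) (nat_lit 5) (nat_lit 243) (nat_lit 260) (nat_lit 277))) (PT.nd (nat_lit 78) (PT.lf (nat_lit 48564) (nat_lit 6) (nat_lit 639) (nat_lit 5) (nat_lit 244) (nat_lit 260) (nat_lit 276)) (PT.lf (nat_lit 49780) (nat_lit 6) (nat_lit 655) (nat_lit 5) (nat_lit 245) (nat_lit 260) (nat_lit 275))))) (PT.nd (nat_lit 312) (PT.nd (nat_lit 156) (PT.nd (nat_lit 78) (PT.lf (nat_lit 50920) (nat_lit 6) (nat_lit 670) (nat_lit 5) (nat_lit 246) (nat_lit 260) (nat_lit 274)) (PT.lf (nat_lit 51984) (nat_lit 6) (nat_lit 684) (nat_lit 5) (nat_lit 247) (nat_lit 260) (nat_lit 273))) (PT.nd (nat_lit 78) (PT.lf (nat_lit 52972) (nat_lit 6) (nat_lit 697) (nat_lit 5) (nat_lit 248) (nat_lit 260) (nat_lit 272)) (PT.lf (nat_lit 53884) (nat_lit 6) (nat_lit 709) (nat_lit 5) (nat_lit 249) (nat_lit 260) (nat_lit 271)))) (PT.nd (nat_lit 156) (PT.nd (nat_lit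 78) (PT.lf (nat_lit 54720) (nat_lit 6) (nat_lit 720) (nat_lit 5) (nat_lit 250) (nat_lit 260) (nat_lit 270)) (PT.lf (nat_lit 55480) (nat_lit 6) (nat_lit 730) (nat_lit 5) (nat_lit 251) (nat_lit 260) (nat_lit 269))) (PT.nd (nat_lit 78) (PT.lf (nat_lit 56164) (nat_lit 6) (nat_lit 739) (nat_lit 5) (nat_lit 252) (nat_lit 260) (nat_lit 268)) (PT.nd (nat_lit 78) (PT.lf (nat_lit 56772) (nat_lit 6) (nat_lit 747) (nat_lit 5) (nat_lit 253) (nat_lit 260) (nat_lit 267)) (PT.lf (nat_lit 57304) (nat_lit 6) (nat_lit 754) (nat_lit 5) (nat_lit 254) (nat_lit 260) (nat_lit 266))))))) (PT.nd (nat_lit 624) (PT.nd (nat_lit 312) (PT.nd (nat_lit 156) (PT.nd (nat_lit 78) (PT.lf (nat_lit 57760) (nat_lit 6) (nat_lit 760) (nat_lit 5) (nat_lit 255) (nat_lit 260) (nat_lit 265)) (PT.lf (nat_lit 58140) (nat_lit 6) (nat_lit 765) (nat_lit 5) (nat_lit 256) (nat_lit 260) (nat_lit 264))) (PT.nd (nat_lit 78) (PT.lf (nat_lit 58444) (nat_lit 6) (nat_lit 769) (nat_lit 5) (nat_lit 257) (nat_lit 260) (nat_lit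 263)) (PT.lf (nat_lit 58672) (nat_lit 6) (nat_lit 772) (nat_lit 5) (nat_lit 258) (nat_lit 260) (nat_lit 262)))) (PT.nd (nat_lit 156) (PT.nd (nat_lit 78) (PT.lf (nat_lit 58824) (nat_lit 6) (nat_lit 774) (nat_lit 5) (nat_lit 259) (nat_lit 260) (nat_lit 261)) (PT.lf (nat_lit 58900) (nat_lit 1) (nat_lit 775) (nat_lit 0) (nat_lit 260) (nat_lit 260) (nat_lit 260))) (PT.nd (nat_lit 78) (PT.lf (nat_lit 58824) (nat_lit 6) (nat_lit 774) (nat_lit 0) (nat_lit 261) (nat_lit 260) (nat_lit 259)) (PT.lf (nat_lit 58672) (nat_lit 6) (nat_lit 772) (nat_lit 0) (nat_lit 262) (nat_lit 260) (nat_lit 258))))) (PT.nd (nat_lit 312) (PT.nd (nat_lit 156) (PT.nd (nat_lit 78) (PT.lf (nat_lit 58444) (nat_lit 6) (nat_lit 769) (nat_lit 0) (nat_lit 263) (nat_lit 260) (nat_lit 257)) (PT.lf (nat_lit 58140) (nat_lit 6) (nat_lit 765) (nat_lit 0) (nat_lit 264) (nat_lit 260) (nat_lit 256))) (PT.nd (nat_lit 78) (PT.lf (nat_lit 57760) (nat_lit 6) (nat_lit 760) (nat_lit 0) (nat_lit 265) (nat_lit 260) (nat_lit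 255)) (PT.lf (nat_lit 57304) (nat_lit 6) (nat_lit 754) (nat_lit 0) (nat_lit 266) (nat_lit 260) (nat_lit 254)))) (PT.nd (nat_lit 156) (PT.nd (nat_lit 78) (PT.lf (nat_lit 56772) (nat_lit 6) (nat_lit 747) (nat_lit 0) (nat_lit 267) (nat_lit 260) (nat_lit 253)) (PT.lf (nat_lit 56164) (nat_lit 6) (nat_lit 739) (nat_lit 0) (nat_lit 268) (nat_lit 260) (nat_lit 252))) (PT.nd (nat_lit 78) (PT.lf (nat_lit 55480) (nat_lit 6) (nat_lit 730) (nat_lit 0) (nat_lit 269) (nat_lit 260) (nat_lit 251)) (PT.nd (nat_lit 78) (PT.lf (nat_lit 54720) (nat_lit 6) (nat_lit 720) (nat_lit 0) (nat_lit 270) (nat_lit 260) (nat_lit 250)) (PT.lf (nat_lit 53884) (nat_lit 6) (nat_lit 709) (nat_lit 0) (nat_lit 271) (nat_lit 260) (nat_lit 249))))))))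
noncomputable def pc52 : PT := (PT.nd (nat_lit 78468) (PT.nd (nat_lit 624) (PT.nd (nat_lit 312) (PT.nd (nat_lit 156) (PT.nd (nat_lit 78) (PT.lf (nat_lit 52972) (nat_lit 6) (nat_lit 697) (nat_lit 0) (nat_lit 272) (nat_lit 260) (nat_lit 248)) (PT.lf (nat_lit 51984) (nat_lit 6) (nat_lit 684) (nat_lit 0) (nat_lit 273) (nat_lit 260) (nat_lit 247))) (PT.nd (nat_lit 78) (PT.lf (nat_lit 50920) (nat_lit 6) (nat_lit 670) (nat_lit 0) (nat_lit 274) (nat_lit 260) (nat_lit 246)) (PT.lf (nat_lit 49780) (nat_lit 6) (nat_lit 655) (nat_lit 0) (nat_lit 275) (nat_lit 260) (nat_lit 245)))) (PT.nd (nat_lit 156) (PT.nd (nat_lit 78) (PT.lf (nat_lit 48564) (nat_lit 6) (nat_lit 639) (nat_lit 0) (nat_lit 276) (nat_lit 260) (nat_lit 244)) (PT.lf (nat_lit 47272) (nat_lit 6) (nat_lit 622) (nat_lit 0) (nat_lit 277) (nat_lit 260) (nat_lit 243))) (PT.nd (nat_lit 78) (PT.lf (nat_lit 45904) (nat_lit 6) (nat_lit 604) (nat_lit 0) (nat_lit 278) (nat_lit 260) (nat_lit 242)) (PT.lf (nat_lit 44460) (nat_lit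 6) (nat_lit 585) (nat_lit 0) (nat_lit 279) (nat_lit 260) (nat_lit 241))))) (PT.nd (nat_lit 312) (PT.nd (nat_lit 156) (PT.nd (nat_lit 78) (PT.lf (nat_lit 42940) (nat_lit 6) (nat_lit 565) (nat_lit 0) (nat_lit 280) (nat_lit 260) (nat_lit 240)) (PT.lf (nat_lit 41344) (nat_lit 6) (nat_lit 544) (nat_lit 0) (nat_lit 281) (nat_lit 260) (nat_lit 239))) (PT.nd (nat_lit 78) (PT.lf (nat_lit 39672) (nat_lit 6) (nat_lit 522) (nat_lit 0) (nat_lit 282) (nat_lit 260) (nat_lit 238)) (PT.lf (nat_lit 37924) (nat_lit 6) (nat_lit 499) (nat_lit 0) (nat_lit 283) (nat_lit 260) (nat_lit 237)))) (PT.nd (nat_lit 77298) (PT.nd (nat_lit 78) (PT.lf (nat_lit 36100) (nat_lit 6) (nat_lit 475) (nat_lit 0) (nat_lit 284) (nat_lit 260) (nat_lit 236)) (PT.lf (nat_lit 34200) (nat_lit 6) (nat_lit 450) (nat_lit 0) (nat_lit 285) (nat_lit 260) (nat_lit 235))) (PT.nd (nat_lit 78) (PT.lf (nat_lit 33136) (nat_lit 6) (nat_lit 436) (nat_lit 5) (nat_lit 234) (nat_lit 261) (nat_lit 285)) (PT.nd (nat_lit 78) (PT.lf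 (nat_lit 34276) (nat_lit 6) (nat_lit 451) (nat_lit 5) (nat_lit 235) (nat_lit 261) (nat_lit 284)) (PT.lf (nat_lit 36176) (nat_lit 6) (nat_lit 476) (nat_lit 5) (nat_lit 236) (nat_lit 261) (nat_lit 283))))))) (PT.nd (nat_lit 624) (PT.nd (nat_lit 312) (PT.nd (nat_lit 156) (PT.nd (nat_lit 78) (PT.lf (nat_lit 38000) (nat_lit 6) (nat_lit 500) (nat_lit 5) (nat_lit 237) (nat_lit 261) (nat_lit 282)) (PT.lf (nat_lit 39748) (nat_lit 6) (nat_lit 523) (nat_lit 5) (nat_lit 238) (nat_lit 261) (nat_lit 281))) (PT.nd (nat_lit 78) (PT.lf (nat_lit 41420) (nat_lit 6) (nat_lit 545) (nat_lit 5) (nat_lit 239) (nat_lit 261) (nat_lit 280)) (PT.lf (nat_lit 43016) (nat_lit 6) (nat_lit 566) (nat_lit 5) (nat_lit 240) (nat_lit 261) (nat_lit 279)))) (PT.nd (nat_lit 156) (PT.nd (nat_lit 78) (PT.lf (nat_lit 44536) (nat_lit 6) (nat_lit 586) (nat_lit 5) (nat_lit 241) (nat_lit 261) (nat_lit 278)) (PT.lf (nat_lit 45980) (nat_lit 6) (nat_lit 605) (nat_lit 5) (nat_lit 242) (nat_lit 261) (nat_lit 277)))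 (PT.nd (nat_lit 78) (PT.lf (nat_lit 47348) (nat_lit 6) (nat_lit 623) (nat_lit 5) (nat_lit 243) (nat_lit 261) (nat_lit 276)) (PT.lf (nat_lit 48640) (nat_lit 6) (nat_lit 640) (nat_lit 5) (nat_lit 244) (nat_lit 261) (nat_lit 275))))) (PT.nd (nat_lit 312) (PT.nd (nat_lit 156) (PT.nd (nat_lit 78) (PT.lf (nat_lit 49856) (nat_lit 6) (nat_lit 656) (nat_lit 5) (nat_lit 245) (nat_lit 261) (nat_lit 274)) (PT.lf (nat_lit 50996) (nat_lit 6) (nat_lit 671) (nat_lit 5) (nat_lit 246) (nat_lit 261) (nat_lit 273))) (PT.nd (nat_lit 78) (PT.lf (nat_lit 52060) (nat_lit 6) (nat_lit 685) (nat_lit 5) (nat_lit 247) (nat_lit 261) (nat_lit 272)) (PT.lf (nat_lit 53048) (nat_lit 6) (nat_lit 698) (nat_lit 5) (nat_lit 248) (nat_lit 261) (nat_lit 271)))) (PT.nd (nat_lit 156) (PT.nd (nat_lit 78) (PT.lf (nat_lit 53960) (nat_lit 6) (nat_lit 710) (nat_lit 5) (nat_lit 249) (nat_lit 261) (nat_lit 270)) (PT.lf (nat_lit 54796) (nat_lit 6) (nat_lit 721) (nat_lit 5) (nat_lit 250) (nat_lit 261) (nat_lit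 269))) (PT.nd (nat_lit 78) (PT.lf (nat_lit 55556) (nat_lit 6) (nat_lit 731) (nat_lit 5) (nat_lit 251) (nat_lit 261) (nat_lit 268)) (PT.nd (nat_lit 78) (PT.lf (nat_lit 56240) (nat_lit 6) (nat_lit 740) (nat_lit 5) (nat_lit 252) (nat_lit 261) (nat_lit 267)) (PT.lf (nat_lit 56848) (nat_lit 6) (nat_lit 748) (nat_lit 5) (nat_lit 253) (nat_lit 261) (nat_lit 266))))))))
noncomputable def pc53 : PT := (PT.nd (nat_lit 1326) (PT.nd (nat_lit 624) (PT.nd (nat_lit 312) (PT.nd (nat_lit 156) (PT.nd (nat_lit 78) (PT.lf (nat_lit 57380) (nat_lit 6) (nat_lit 755) (nat_lit 5) (nat_lit 254) (nat_lit 261) (nat_lit 265)) (PT.lf (nat_lit 57836) (nat_lit 6) (nat_lit 761) (nat_lit 5) (nat_lit 255) (nat_lit 261) (nat_lit 264))) (PT.nd (nat_lit 78) (PT.lf (nat_lit 58216) (nat_lit 6) (nat_lit 766) (nat_lit 5) (nat_lit 256) (nat_lit 261) (nat_lit 263)) (PT.lf (nat_lit 58520) (nat_lit 6) (nat_lit 770) (nat_lit 5) (nat_lit 257) (nat_lit 261) (nat_lit 262)))) (PT.nd (nat_lit 156) (PT.nd (nat_lit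 78) (PT.lf (nat_lit 58748) (nat_lit 3) (nat_lit 773) (nat_lit 4) (nat_lit 258) (nat_lit 261) (nat_lit 261)) (PT.lf (nat_lit 58824) (nat_lit 6) (nat_lit 774) (nat_lit 4) (nat_lit 259) (nat_lit 261) (nat_lit 260))) (PT.nd (nat_lit 78) (PT.lf (nat_lit 58824) (nat_lit 6) (nat_lit 774) (nat_lit 2) (nat_lit 260) (nat_lit 261) (nat_lit 259)) (PT.lf (nat_lit 58748) (nat_lit 3) (nat_lit 773) (nat_lit 0) (nat_lit 261) (nat_lit 261) (nat_lit 258))))) (PT.nd (nat_lit 312) (PT.nd (nat_lit 156) (PT.nd (nat_lit 78) (PT.lf (nat_lit 58520) (nat_lit 6) (nat_lit 770) (nat_lit 0) (nat_lit 262) (nat_lit 261) (nat_lit 257)) (PT.lf (nat_lit 58216) (nat_lit 6) (nat_lit 766) (nat_lit 0) (nat_lit 263) (nat_lit 261) (nat_lit 256))) (PT.nd (nat_lit 78) (PT.lf (nat_lit 57836) (nat_lit 6) (nat_lit 761) (nat_lit 0) (nat_lit 264) (nat_lit 261) (nat_lit 255)) (PT.lf (nat_lit 57380) (nat_lit 6) (nat_lit 755) (nat_lit 0) (nat_lit 265) (nat_lit 261) (nat_lit 254)))) (PT.nd (nat_lit 156) (PT.nd (nat_lit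 78) (PT.lf (nat_lit 56848) (nat_lit 6) (nat_lit 748) (nat_lit 0) (nat_lit 266) (nat_lit 261) (nat_lit 253)) (PT.lf (nat_lit 56240) (nat_lit 6) (nat_lit 740) (nat_lit 0) (nat_lit 267) (nat_lit 261) (nat_lit 252))) (PT.nd (nat_lit 78) (PT.lf (nat_lit 55556) (nat_lit 6) (nat_lit 731) (nat_lit 0) (nat_lit 268) (nat_lit 261) (nat_lit 251)) (PT.nd (nat_lit 78) (PT.lf (nat_lit 54796) (nat_lit 6) (nat_lit 721) (nat_lit 0) (nat_lit 269) (nat_lit 261) (nat_lit 250)) (PT.lf (nat_lit 53960) (nat_lit 6) (nat_lit 710) (nat_lit 0) (nat_lit 270) (nat_lit 261) (nat_lit 249))))))) (PT.nd (nat_lit 624) (PT.nd (nat_lit 312) (PT.nd (nat_lit 156) (PT.nd (nat_lit 78) (PT.lf (nat_lit 53048) (nat_lit 6) (nat_lit 698) (nat_lit 0) (nat_lit 271) (nat_lit 261) (nat_lit 248)) (PT.lf (nat_lit 52060) (nat_lit 6) (nat_lit 685) (nat_lit 0) (nat_lit 272) (nat_lit 261) (nat_lit 247))) (PT.nd (nat_lit 78) (PT.lf (nat_lit 50996) (nat_lit 6) (nat_lit 671) (nat_lit 0) (nat_lit 273) (nat_lit 261) (nat_lit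 246)) (PT.lf (nat_lit 49856) (nat_lit 6) (nat_lit 656) (nat_lit 0) (nat_lit 274) (nat_lit 261) (nat_lit 245)))) (PT.nd (nat_lit 156) (PT.nd (nat_lit 78) (PT.lf (nat_lit 48640) (nat_lit 6) (nat_lit 640) (nat_lit 0) (nat_lit 275) (nat_lit 261) (nat_lit 244)) (PT.lf (nat_lit 47348) (nat_lit 6) (nat_lit 623) (nat_lit 0) (nat_lit 276) (nat_lit 261) (nat_lit 243))) (PT.nd (nat_lit 78) (PT.lf (nat_lit 45980) (nat_lit 6) (nat_lit 605) (nat_lit 0) (nat_lit 277) (nat_lit 261) (nat_lit 242)) (PT.lf (nat_lit 44536) (nat_lit 6) (nat_lit 586) (nat_lit 0) (nat_lit 278) (nat_lit 261) (nat_lit 241))))) (PT.nd (nat_lit 312) (PT.nd (nat_lit 156) (PT.nd (nat_lit 78) (PT.lf (nat_lit 43016) (nat_lit 6) (nat_lit 566) (nat_lit 0) (nat_lit 279) (nat_lit 261) (nat_lit 240)) (PT.lf (nat_lit 41420) (nat_lit 6) (nat_lit 545) (nat_lit 0) (nat_lit 280) (nat_lit 261) (nat_lit 239))) (PT.nd (nat_lit 78) (PT.lf (nat_lit 39748) (nat_lit 6) (nat_lit 523) (nat_lit 0) (nat_lit 281) (nat_lit 261) (nat_lit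 238)) (PT.lf (nat_lit 38000) (nat_lit 6) (nat_lit 500) (nat_lit 0) (nat_lit 282) (nat_lit 261) (nat_lit 237)))) (PT.nd (nat_lit 156) (PT.nd (nat_lit 78) (PT.lf (nat_lit 36176) (nat_lit 6) (nat_lit 476) (nat_lit 0) (nat_lit 283) (nat_lit 261) (nat_lit 236)) (PT.lf (nat_lit 34276) (nat_lit 6) (nat_lit 451) (nat_lit 0) (nat_lit 284) (nat_lit 261) (nat_lit 235))) (PT.nd (nat_lit 77142) (PT.lf (nat_lit 33136) (nat_lit 6) (nat_lit 436) (nat_lit 0) (nat_lit 285) (nat_lit 261) (nat_lit 234)) (PT.nd (nat_lit 78) (PT.lf (nat_lit 32224) (nat_lit 6) (nat_lit 424) (nat_lit 5) (nat_lit 233) (nat_lit 262) (nat_lit 285)) (PT.lf (nat_lit 33212) (nat_lit 6) (nat_lit 437) (nat_lit 5) (nat_lit 234) (nat_lit 262) (nat_lit 284))))))))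
noncomputable def pc54 : PT := (PT.nd (nat_lit 1326) (PT.nd (nat_lit 624) (PT.nd (nat_lit 312) (PT.nd (nat_lit 156) (PT.nd (nat_lit 78) (PT.lf (nat_lit 34352) (nat_lit 6) (nat_lit 452) (nat_lit 5) (nat_lit 235) (nat_lit 262) (nat_lit 283)) (PT.lf (nat_lit 36252) (nat_lit 6) (nat_lit 477) (nat_lit 5) (nat_lit 236) (nat_lit 262) (nat_lit 282))) (PT.nd (nat_lit 78) (PT.lf (nat_lit 38076) (nat_lit 6) (nat_lit 501) (nat_lit 5) (nat_lit 237) (nat_lit 262) (nat_lit 281)) (PT.lf (nat_lit 39824) (nat_lit 6) (nat_lit 524) (nat_lit 5) (nat_lit 238) (nat_lit 262) (nat_lit 280)))) (PT.nd (nat_lit 156) (PT.nd (nat_lit 78) (PT.lf (nat_lit 41496) (nat_lit 6) (nat_lit 546) (nat_lit 5) (nat_lit 239) (nat_lit 262) (nat_lit 279)) (PT.lf (nat_lit 43092) (nat_lit 6) (nat_lit 567) (nat_lit 5) (nat_lit 240) (nat_lit 262) (nat_lit 278))) (PT.nd (nat_lit 78) (PT.lf (nat_lit 44612) (nat_lit 6) (nat_lit 587) (nat_lit 5) (nat_lit 241) (nat_lit 262) (nat_lit 277)) (PT.lf (nat_lit 46056) (nat_lit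 6) (nat_lit 606) (nat_lit 5) (nat_lit 242) (nat_lit 262) (nat_lit 276))))) (PT.nd (nat_lit 312) (PT.nd (nat_lit 156) (PT.nd (nat_lit 78) (PT.lf (nat_lit 47424) (nat_lit 6) (nat_lit 624) (nat_lit 5) (nat_lit 243) (nat_lit 262) (nat_lit 275)) (PT.lf (nat_lit 48716) (nat_lit 6) (nat_lit 641) (nat_lit 5) (nat_lit 244) (nat_lit 262) (nat_lit 274))) (PT.nd (nat_lit 78) (PT.lf (nat_lit 49932) (nat_lit 6) (nat_lit 657) (nat_lit 5) (nat_lit 245) (nat_lit 262) (nat_lit 273)) (PT.lf (nat_lit 51072) (nat_lit 6) (nat_lit 672) (nat_lit 5) (nat_lit 246) (nat_lit 262) (nat_lit 272)))) (PT.nd (nat_lit 156) (PT.nd (nat_lit 78) (PT.lf (nat_lit 52136) (nat_lit 6) (nat_lit 686) (nat_lit 5) (nat_lit 247) (nat_lit 262) (nat_lit 271)) (PT.lf (nat_lit 53124) (nat_lit 6) (nat_lit 699) (nat_lit 5) (nat_lit 248) (nat_lit 262) (nat_lit 270))) (PT.nd (nat_lit 78) (PT.lf (nat_lit 54036) (nat_lit 6) (nat_lit 711) (nat_lit 5) (nat_lit 249) (nat_lit 262) (nat_lit 269)) (PT.nd (nat_lit 78) (PT.lf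 (nat_lit 54872) (nat_lit 6) (nat_lit 722) (nat_lit 5) (nat_lit 250) (nat_lit 262) (nat_lit 268)) (PT.lf (nat_lit 55632) (nat_lit 6) (nat_lit 732) (nat_lit 5) (nat_lit 251) (nat_lit 262) (nat_lit 267))))))) (PT.nd (nat_lit 624) (PT.nd (nat_lit 312) (PT.nd (nat_lit 156) (PT.nd (nat_lit 78) (PT.lf (nat_lit 56316) (nat_lit 6) (nat_lit 741) (nat_lit 5) (nat_lit 252) (nat_lit 262) (nat_lit 266)) (PT.lf (nat_lit 56924) (nat_lit 6) (nat_lit 749) (nat_lit 5) (nat_lit 253) (nat_lit 262) (nat_lit 265))) (PT.nd (nat_lit 78) (PT.lf (nat_lit 57456) (nat_lit 6) (nat_lit 756) (nat_lit 5) (nat_lit 254) (nat_lit 262) (nat_lit 264)) (PT.lf (nat_lit 57912) (nat_lit 6) (nat_lit 762) (nat_lit 5) (nat_lit 255) (nat_lit 262) (nat_lit 263)))) (PT.nd (nat_lit 156) (PT.nd (nat_lit 78) (PT.lf (nat_lit 58292) (nat_lit 3) (nat_lit 767) (nat_lit 4) (nat_lit 256) (nat_lit 262) (nat_lit 262)) (PT.lf (nat_lit 58520) (nat_lit 6) (nat_lit 770) (nat_lit 4) (nat_lit 257) (nat_lit 262) (nat_lit 261)))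 (PT.nd (nat_lit 78) (PT.lf (nat_lit 58672) (nat_lit 6) (nat_lit 772) (nat_lit 4) (nat_lit 258) (nat_lit 262) (nat_lit 260)) (PT.lf (nat_lit 58596) (nat_lit 3) (nat_lit 771) (nat_lit 2) (nat_lit 259) (nat_lit 262) (nat_lit 259))))) (PT.nd (nat_lit 312) (PT.nd (nat_lit 156) (PT.nd (nat_lit 78) (PT.lf (nat_lit 58672) (nat_lit 6) (nat_lit 772) (nat_lit 2) (nat_lit 260) (nat_lit 262) (nat_lit 258)) (PT.lf (nat_lit 58520) (nat_lit 6) (nat_lit 770) (nat_lit 2) (nat_lit 261) (nat_lit 262) (nat_lit 257))) (PT.nd (nat_lit 78) (PT.lf (nat_lit 58292) (nat_lit 3) (nat_lit 767) (nat_lit 0) (nat_lit 262) (nat_lit 262) (nat_lit 256)) (PT.lf (nat_lit 57912) (nat_lit 6) (nat_lit 762) (nat_lit 0) (nat_lit 263) (nat_lit 262) (nat_lit 255)))) (PT.nd (nat_lit 156) (PT.nd (nat_lit 78) (PT.lf (nat_lit 57456) (nat_lit 6) (nat_lit 756) (nat_lit 0) (nat_lit 264) (nat_lit 262) (nat_lit 254)) (PT.lf (nat_lit 56924) (nat_lit 6) (nat_lit 749) (nat_lit 0) (nat_lit 265) (nat_lit 262) (nat_lit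 253))) (PT.nd (nat_lit 78) (PT.lf (nat_lit 56316) (nat_lit 6) (nat_lit 741) (nat_lit 0) (nat_lit 266) (nat_lit 262) (nat_lit 252)) (PT.nd (nat_lit 78) (PT.lf (nat_lit 55632) (nat_lit 6) (nat_lit 732) (nat_lit 0) (nat_lit 267) (nat_lit 262) (nat_lit 251)) (PT.lf (nat_lit 54872) (nat_lit 6) (nat_lit 722) (nat_lit 0) (nat_lit 268) (nat_lit 262) (nat_lit 250))))))))
noncomputable def pc55 : PT := (PT.nd (nat_lit 78312) (PT.nd (nat_lit 624) (PT.nd (nat_lit 312) (PT.nd (nat_lit 156) (PT.nd (nat_lit 78) (PT.lf (nat_lit 54036) (nat_lit 6) (nat_lit 711) (nat_lit 0) (nat_lit 269) (nat_lit 262) (nat_lit 249)) (PT.lf (nat_lit 53124) (nat_lit 6) (nat_lit 699) (nat_lit 0) (nat_lit 270) (nat_lit 262) (nat_lit 248))) (PT.nd (nat_lit 78) (PT.lf (nat_lit 52136) (nat_lit 6) (nat_lit 686) (nat_lit 0) (nat_lit 271) (nat_lit 262) (nat_lit 247)) (PT.lf (nat_lit 51072) (nat_lit 6) (nat_lit 672) (nat_lit 0) (nat_lit 272) (nat_lit 262) (nat_lit 246)))) (PT.nd (nat_lit 156) (PT.nd (nat_lit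 78) (PT.lf (nat_lit 49932) (nat_lit 6) (nat_lit 657) (nat_lit 0) (nat_lit 273) (nat_lit 262) (nat_lit 245)) (PT.lf (nat_lit 48716) (nat_lit 6) (nat_lit 641) (nat_lit 0) (nat_lit 274) (nat_lit 262) (nat_lit 244))) (PT.nd (nat_lit 78) (PT.lf (nat_lit 47424) (nat_lit 6) (nat_lit 624) (nat_lit 0) (nat_lit 275) (nat_lit 262) (nat_lit 243)) (PT.lf (nat_lit 46056) (nat_lit 6) (nat_lit 606) (nat_lit 0) (nat_lit 276) (nat_lit 262) (nat_lit 242))))) (PT.nd (nat_lit 312) (PT.nd (nat_lit 156) (PT.nd (nat_lit 78) (PT.lf (nat_lit 44612) (nat_lit 6) (nat_lit 587) (nat_lit 0) (nat_lit 277) (nat_lit 262) (nat_lit 241)) (PT.lf (nat_lit 43092) (nat_lit 6) (nat_lit 567) (nat_lit 0) (nat_lit 278) (nat_lit 262) (nat_lit 240))) (PT.nd (nat_lit 78) (PT.lf (nat_lit 41496) (nat_lit 6) (nat_lit 546) (nat_lit 0) (nat_lit 279) (nat_lit 262) (nat_lit 239)) (PT.lf (nat_lit 39824) (nat_lit 6) (nat_lit 524) (nat_lit 0) (nat_lit 280) (nat_lit 262) (nat_lit 238)))) (PT.nd (nat_lit 156) (PT.nd (nat_lit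 78) (PT.lf (nat_lit 38076) (nat_lit 6) (nat_lit 501) (nat_lit 0) (nat_lit 281) (nat_lit 262) (nat_lit 237)) (PT.lf (nat_lit 36252) (nat_lit 6) (nat_lit 477) (nat_lit 0) (nat_lit 282) (nat_lit 262) (nat_lit 236))) (PT.nd (nat_lit 78) (PT.lf (nat_lit 34352) (nat_lit 6) (nat_lit 452) (nat_lit 0) (nat_lit 283) (nat_lit 262) (nat_lit 235)) (PT.nd (nat_lit 78) (PT.lf (nat_lit 33212) (nat_lit 6) (nat_lit 437) (nat_lit 0) (nat_lit 284) (nat_lit 262) (nat_lit 234)) (PT.lf (nat_lit 32224) (nat_lit 6) (nat_lit 424) (nat_lit 0) (nat_lit 285) (nat_lit 262) (nat_lit 233))))))) (PT.nd (nat_lit 624) (PT.nd (nat_lit 312) (PT.nd (nat_lit 156) (PT.nd (nat_lit 78) (PT.lf (nat_lit 31312) (nat_lit 6) (nat_lit 412) (nat_lit 5) (nat_lit 232) (nat_lit 263) (nat_lit 285)) (PT.lf (nat_lit 32300) (nat_lit 6) (nat_lit 425) (nat_lit 5) (nat_lit 233) (nat_lit 263) (nat_lit 284))) (PT.nd (nat_lit 78) (PT.lf (nat_lit 33288) (nat_lit 6) (nat_lit 438) (nat_lit 5) (nat_lit 234) (nat_lit 263) (nat_lit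 283)) (PT.lf (nat_lit 34428) (nat_lit 6) (nat_lit 453) (nat_lit 5) (nat_lit 235) (nat_lit 263) (nat_lit 282)))) (PT.nd (nat_lit 156) (PT.nd (nat_lit 78) (PT.lf (nat_lit 36328) (nat_lit 6) (nat_lit 478) (nat_lit 5) (nat_lit 236) (nat_lit 263) (nat_lit 281)) (PT.lf (nat_lit 38152) (nat_lit 6) (nat_lit 502) (nat_lit 5) (nat_lit 237) (nat_lit 263) (nat_lit 280))) (PT.nd (nat_lit 78) (PT.lf (nat_lit 39900) (nat_lit 6) (nat_lit 525) (nat_lit 5) (nat_lit 238) (nat_lit 263) (nat_lit 279)) (PT.lf (nat_lit 41572) (nat_lit 6) (nat_lit 547) (nat_lit 5) (nat_lit 239) (nat_lit 263) (nat_lit 278))))) (PT.nd (nat_lit 312) (PT.nd (nat_lit 156) (PT.nd (nat_lit 78) (PT.lf (nat_lit 43168) (nat_lit 6) (nat_lit 568) (nat_lit 5) (nat_lit 240) (nat_lit 263) (nat_lit 277)) (PT.lf (nat_lit 44688) (nat_lit 6) (nat_lit 588) (nat_lit 5) (nat_lit 241) (nat_lit 263) (nat_lit 276))) (PT.nd (nat_lit 78) (PT.lf (nat_lit 46132) (nat_lit 6) (nat_lit 607) (nat_lit 5) (nat_lit 242) (nat_lit 263) (nat_lit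 275)) (PT.lf (nat_lit 47500) (nat_lit 6) (nat_lit 625) (nat_lit 5) (nat_lit 243) (nat_lit 263) (nat_lit 274)))) (PT.nd (nat_lit 156) (PT.nd (nat_lit 78) (PT.lf (nat_lit 48792) (nat_lit 6) (nat_lit 642) (nat_lit 5) (nat_lit 244) (nat_lit 263) (nat_lit 273)) (PT.lf (nat_lit 50008) (nat_lit 6) (nat_lit 658) (nat_lit 5) (nat_lit 245) (nat_lit 263) (nat_lit 272))) (PT.nd (nat_lit 78) (PT.lf (nat_lit 51148) (nat_lit 6) (nat_lit 673) (nat_lit 5) (nat_lit 246) (nat_lit 263) (nat_lit 271)) (PT.nd (nat_lit 78) (PT.lf (nat_lit 52212) (nat_lit 6) (nat_lit 687) (nat_lit 5) (nat_lit 247) (nat_lit 263) (nat_lit 270)) (PT.lf (nat_lit 53200) (nat_lit 6) (nat_lit 700) (nat_lit 5) (nat_lit 248) (nat_lit 263) (nat_lit 269))))))))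
noncomputable def pc56 : PT := (PT.nd (nat_lit 1326) (PT.nd (nat_lit 624) (PT.nd (nat_lit 312) (PT.nd (nat_lit 156) (PT.nd (nat_lit 78) (PT.lf (nat_lit 54112) (nat_lit 6) (nat_lit 712) (nat_lit 5) (nat_lit 249) (nat_lit 263) (nat_lit 268)) (PT.lf (nat_lit 54948) (nat_lit 6) (nat_lit 723) (nat_lit 5) (nat_lit 250) (nat_lit 263) (nat_lit 267))) (PT.nd (nat_lit 78) (PT.lf (nat_lit 55708) (nat_lit 6) (nat_lit 733) (nat_lit 5) (nat_lit 251) (nat_lit 263) (nat_lit 266)) (PT.lf (nat_lit 56392) (nat_lit 6) (nat_lit 742) (nat_lit 5) (nat_lit 252) (nat_lit 263) (nat_lit 265)))) (PT.nd (nat_lit 156) (PT.nd (nat_lit 78) (PT.lf (nat_lit 57000) (nat_lit 6) (nat_lit 750) (nat_lit 5) (nat_lit 253) (nat_lit 263) (nat_lit 264)) (PT.lf (nat_lit 57532) (nat_lit 3) (nat_lit 757) (nat_lit 4) (nat_lit 254) (nat_lit 263) (nat_lit 263))) (PT.nd (nat_lit 78) (PT.lf (nat_lit 57912) (nat_lit 6) (nat_lit 762) (nat_lit 4) (nat_lit 255) (nat_lit 263) (nat_lit 262)) (PT.lf (nat_lit 58216) (nat_lit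 6) (nat_lit 766) (nat_lit 4) (nat_lit 256) (nat_lit 263) (nat_lit 261))))) (PT.nd (nat_lit 312) (PT.nd (nat_lit 156) (PT.nd (nat_lit 78) (PT.lf (nat_lit 58444) (nat_lit 6) (nat_lit 769) (nat_lit 4) (nat_lit 257) (nat_lit 263) (nat_lit 260)) (PT.lf (nat_lit 58368) (nat_lit 6) (nat_lit 768) (nat_lit 4) (nat_lit 258) (nat_lit 263) (nat_lit 259))) (PT.nd (nat_lit 78) (PT.lf (nat_lit 58368) (nat_lit 6) (nat_lit 768) (nat_lit 2) (nat_lit 259) (nat_lit 263) (nat_lit 258)) (PT.lf (nat_lit 58444) (nat_lit 6) (nat_lit 769) (nat_lit 2) (nat_lit 260) (nat_lit 263) (nat_lit 257)))) (PT.nd (nat_lit 156) (PT.nd (nat_lit 78) (PT.lf (nat_lit 58216) (nat_lit 6) (nat_lit 766) (nat_lit 2) (nat_lit 261) (nat_lit 263) (nat_lit 256)) (PT.lf (nat_lit 57912) (nat_lit 6) (nat_lit 762) (nat_lit 2) (nat_lit 262) (nat_lit 263) (nat_lit 255))) (PT.nd (nat_lit 78) (PT.lf (nat_lit 57532) (nat_lit 3) (nat_lit 757) (nat_lit 0) (nat_lit 263) (nat_lit 263) (nat_lit 254)) (PT.nd (nat_lit 78) (PT.lf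 (nat_lit 57000) (nat_lit 6) (nat_lit 750) (nat_lit 0) (nat_lit 264) (nat_lit 263) (nat_lit 253)) (PT.lf (nat_lit 56392) (nat_lit 6) (nat_lit 742) (nat_lit 0) (nat_lit 265) (nat_lit 263) (nat_lit 252))))))) (PT.nd (nat_lit 624) (PT.nd (nat_lit 312) (PT.nd (nat_lit 156) (PT.nd (nat_lit 78) (PT.lf (nat_lit 55708) (nat_lit 6) (nat_lit 733) (nat_lit 0) (nat_lit 266) (nat_lit 263) (nat_lit 251)) (PT.lf (nat_lit 54948) (nat_lit 6) (nat_lit 723) (nat_lit 0) (nat_lit 267) (nat_lit 263) (nat_lit 250))) (PT.nd (nat_lit 78) (PT.lf (nat_lit 54112) (nat_lit 6) (nat_lit 712) (nat_lit 0) (nat_lit 268) (nat_lit 263) (nat_lit 249)) (PT.lf (nat_lit 53200) (nat_lit 6) (nat_lit 700) (nat_lit 0) (nat_lit 269) (nat_lit 263) (nat_lit 248)))) (PT.nd (nat_lit 156) (PT.nd (nat_lit 78) (PT.lf (nat_lit 52212) (nat_lit 6) (nat_lit 687) (nat_lit 0) (nat_lit 270) (nat_lit 263) (nat_lit 247)) (PT.lf (nat_lit 51148) (nat_lit 6) (nat_lit 673) (nat_lit 0) (nat_lit 271) (nat_lit 263) (nat_lit 246)))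 (PT.nd (nat_lit 78) (PT.lf (nat_lit 50008) (nat_lit 6) (nat_lit 658) (nat_lit 0) (nat_lit 272) (nat_lit 263) (nat_lit 245)) (PT.lf (nat_lit 48792) (nat_lit 6) (nat_lit 642) (nat_lit 0) (nat_lit 273) (nat_lit 263) (nat_lit 244))))) (PT.nd (nat_lit 312) (PT.nd (nat_lit 156) (PT.nd (nat_lit 78) (PT.lf (nat_lit 47500) (nat_lit 6) (nat_lit 625) (nat_lit 0) (nat_lit 274) (nat_lit 263) (nat_lit 243)) (PT.lf (nat_lit 46132) (nat_lit 6) (nat_lit 607) (nat_lit 0) (nat_lit 275) (nat_lit 263) (nat_lit 242))) (PT.nd (nat_lit 78) (PT.lf (nat_lit 44688) (nat_lit 6) (nat_lit 588) (nat_lit 0) (nat_lit 276) (nat_lit 263) (nat_lit 241)) (PT.lf (nat_lit 43168) (nat_lit 6) (nat_lit 568) (nat_lit 0) (nat_lit 277) (nat_lit 263) (nat_lit 240)))) (PT.nd (nat_lit 156) (PT.nd (nat_lit 78) (PT.lf (nat_lit 41572) (nat_lit 6) (nat_lit 547) (nat_lit 0) (nat_lit 278) (nat_lit 263) (nat_lit 239)) (PT.lf (nat_lit 39900) (nat_lit 6) (nat_lit 525) (nat_lit 0) (nat_lit 279) (nat_lit 263) (nat_lit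 238))) (PT.nd (nat_lit 78) (PT.lf (nat_lit 38152) (nat_lit 6) (nat_lit 502) (nat_lit 0) (nat_lit 280) (nat_lit 263) (nat_lit 237)) (PT.nd (nat_lit 78) (PT.lf (nat_lit 36328) (nat_lit 6) (nat_lit 478) (nat_lit 0) (nat_lit 281) (nat_lit 263) (nat_lit 236)) (PT.lf (nat_lit 34428) (nat_lit 6) (nat_lit 453) (nat_lit 0) (nat_lit 282) (nat_lit 263) (nat_lit 235))))))))
noncomputable def pc57 : PT := (PT.nd (nat_lit 78156) (PT.nd (nat_lit 77454) (PT.nd (nat_lit 77142) (PT.nd (nat_lit 156) (PT.nd (nat_lit 78) (PT.lf (nat_lit 33288) (nat_lit 6) (nat_lit 438) (nat_lit 0) (nat_lit 283) (nat_lit 263) (nat_lit 234)) (PT.lf (nat_lit 32300) (nat_lit 6) (nat_lit 425) (nat_lit 0) (nat_lit 284) (nat_lit 263) (nat_lit 233))) (PT.nd (nat_lit 76908) (PT.lf (nat_lit 31312) (nat_lit 6) (nat_lit 412) (nat_lit 0) (nat_lit 285) (nat_lit 263) (nat_lit 232)) (PT.lf (nat_lit 29564) (nat_lit 6) (nat_lit 389) (nat_lit 5) (nat_lit 230) (nat_lit 264) (nat_lit 286)))) (PT.nd (nat_lit 156) (PT.nd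 (nat_lit 78) (PT.lf (nat_lit 30476) (nat_lit 6) (nat_lit 401) (nat_lit 5) (nat_lit 231) (nat_lit 264) (nat_lit 285)) (PT.lf (nat_lit 31388) (nat_lit 6) (nat_lit 413) (nat_lit 5) (nat_lit 232) (nat_lit 264) (nat_lit 284))) (PT.nd (nat_lit 78) (PT.lf (nat_lit 32376) (nat_lit 6) (nat_lit 426) (nat_lit 5) (nat_lit 233) (nat_lit 264) (nat_lit 283)) (PT.lf (nat_lit 33364) (nat_lit 6) (nat_lit 439) (nat_lit 5) (nat_lit 234) (nat_lit 264) (nat_lit 282))))) (PT.nd (nat_lit 312) (PT.nd (nat_lit 156) (PT.nd (nat_lit 78) (PT.lf (nat_lit 34504) (nat_lit 6) (nat_lit 454) (nat_lit 5) (nat_lit 235) (nat_lit 264) (nat_lit 281)) (PT.lf (nat_lit 36404) (nat_lit 6) (nat_lit 479) (nat_lit 5) (nat_lit 236) (nat_lit 264) (nat_lit 280))) (PT.nd (nat_lit 78) (PT.lf (nat_lit 38228) (nat_lit 6) (nat_lit 503) (nat_lit 5) (nat_lit 237) (nat_lit 264) (nat_lit 279)) (PT.lf (nat_lit 39976) (nat_lit 6) (nat_lit 526) (nat_lit 5) (nat_lit 238) (nat_lit 264) (nat_lit 278)))) (PT.nd (nat_lit 156)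 (PT.nd (nat_lit 78) (PT.lf (nat_lit 41648) (nat_lit 6) (nat_lit 548) (nat_lit 5) (nat_lit 239) (nat_lit 264) (nat_lit 277)) (PT.lf (nat_lit 43244) (nat_lit 6) (nat_lit 569) (nat_lit 5) (nat_lit 240) (nat_lit 264) (nat_lit 276))) (PT.nd (nat_lit 78) (PT.lf (nat_lit 44764) (nat_lit 6) (nat_lit 589) (nat_lit 5) (nat_lit 241) (nat_lit 264) (nat_lit 275)) (PT.nd (nat_lit 78) (PT.lf (nat_lit 46208) (nat_lit 6) (nat_lit 608) (nat_lit 5) (nat_lit 242) (nat_lit 264) (nat_lit 274)) (PT.lf (nat_lit 47576) (nat_lit 6) (nat_lit 626) (nat_lit 5) (nat_lit 243) (nat_lit 264) (nat_lit 273))))))) (PT.nd (nat_lit 624) (PT.nd (nat_lit 312) (PT.nd (nat_lit 156) (PT.nd (nat_lit 78) (PT.lf (nat_lit 48868) (nat_lit 6) (nat_lit 643) (nat_lit 5) (nat_lit 244) (nat_lit 264) (nat_lit 272)) (PT.lf (nat_lit 50084) (nat_lit 6) (nat_lit 659) (nat_lit 5) (nat_lit 245) (nat_lit 264) (nat_lit 271))) (PT.nd (nat_lit 78) (PT.lf (nat_lit 51224) (nat_lit 6) (nat_lit 674) (nat_lit 5) (nat_lit 246) (nat_lit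 264) (nat_lit 270)) (PT.lf (nat_lit 52288) (nat_lit 6) (nat_lit 688) (nat_lit 5) (nat_lit 247) (nat_lit 264) (nat_lit 269)))) (PT.nd (nat_lit 156) (PT.nd (nat_lit 78) (PT.lf (nat_lit 53276) (nat_lit 6) (nat_lit 701) (nat_lit 5) (nat_lit 248) (nat_lit 264) (nat_lit 268)) (PT.lf (nat_lit 54188) (nat_lit 6) (nat_lit 713) (nat_lit 5) (nat_lit 249) (nat_lit 264) (nat_lit 267))) (PT.nd (nat_lit 78) (PT.lf (nat_lit 55024) (nat_lit 6) (nat_lit 724) (nat_lit 5) (nat_lit 250) (nat_lit 264) (nat_lit 266)) (PT.lf (nat_lit 55784) (nat_lit 6) (nat_lit 734) (nat_lit 5) (nat_lit 251) (nat_lit 264) (nat_lit 265))))) (PT.nd (nat_lit 312) (PT.nd (nat_lit 156) (PT.nd (nat_lit 78) (PT.lf (nat_lit 56468) (nat_lit 3) (nat_lit 743) (nat_lit 4) (nat_lit 252) (nat_lit 264) (nat_lit 264)) (PT.lf (nat_lit 57000) (nat_lit 6) (nat_lit 750) (nat_lit 4) (nat_lit 253) (nat_lit 264) (nat_lit 263))) (PT.nd (nat_lit 78) (PT.lf (nat_lit 57456) (nat_lit 6) (nat_lit 756) (nat_lit 4) (nat_lit 254) (nat_lit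 264) (nat_lit 262)) (PT.lf (nat_lit 57836) (nat_lit 6) (nat_lit 761) (nat_lit 4) (nat_lit 255) (nat_lit 264) (nat_lit 261)))) (PT.nd (nat_lit 156) (PT.nd (nat_lit 78) (PT.lf (nat_lit 58140) (nat_lit 6) (nat_lit 765) (nat_lit 4) (nat_lit 256) (nat_lit 264) (nat_lit 260)) (PT.lf (nat_lit 58064) (nat_lit 6) (nat_lit 764) (nat_lit 4) (nat_lit 257) (nat_lit 264) (nat_lit 259))) (PT.nd (nat_lit 78) (PT.lf (nat_lit 57988) (nat_lit 3) (nat_lit 763) (nat_lit 2) (nat_lit 258) (nat_lit 264) (nat_lit 258)) (PT.nd (nat_lit 78) (PT.lf (nat_lit 58064) (nat_lit 6) (nat_lit 764) (nat_lit 2) (nat_lit 259) (nat_lit 264) (nat_lit 257)) (PT.lf (nat_lit 58140) (nat_lit 6) (nat_lit 765) (nat_lit 2) (nat_lit 260) (nat_lit 264) (nat_lit 256))))))))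
noncomputable def pc58 : PT := (PT.nd (nat_lit 1326) (PT.nd (nat_lit 624) (PT.nd (nat_lit 312) (PT.nd (nat_lit 156) (PT.nd (nat_lit 78) (PT.lf (nat_lit 57836) (nat_lit 6) (nat_lit 761) (nat_lit 2) (nat_lit 261) (nat_lit 264) (nat_lit 255)) (PT.lf (nat_lit 57456) (nat_lit 6) (nat_lit 756) (nat_lit 2) (nat_lit 262) (nat_lit 264) (nat_lit 254))) (PT.nd (nat_lit 78) (PT.lf (nat_lit 57000) (nat_lit 6) (nat_lit 750) (nat_lit 2) (nat_lit 263) (nat_lit 264) (nat_lit 253)) (PT.lf (nat_lit 56468) (nat_lit 3) (nat_lit 743) (nat_lit 0) (nat_lit 264) (nat_lit 264) (nat_lit 252)))) (PT.nd (nat_lit 156) (PT.nd (nat_lit 78) (PT.lf (nat_lit 55784) (nat_lit 6) (nat_lit 734) (nat_lit 0) (nat_lit 265) (nat_lit 264) (nat_lit 251)) (PT.lf (nat_lit 55024) (nat_lit 6) (nat_lit 724) (nat_lit 0) (nat_lit 266) (nat_lit 264) (nat_lit 250))) (PT.nd (nat_lit 78) (PT.lf (nat_lit 54188) (nat_lit 6) (nat_lit 713) (nat_lit 0) (nat_lit 267) (nat_lit 264) (nat_lit 249)) (PT.lf (nat_lit 53276) (nat_lit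 6) (nat_lit 701) (nat_lit 0) (nat_lit 268) (nat_lit 264) (nat_lit 248))))) (PT.nd (nat_lit 312) (PT.nd (nat_lit 156) (PT.nd (nat_lit 78) (PT.lf (nat_lit 52288) (nat_lit 6) (nat_lit 688) (nat_lit 0) (nat_lit 269) (nat_lit 264) (nat_lit 247)) (PT.lf (nat_lit 51224) (nat_lit 6) (nat_lit 674) (nat_lit 0) (nat_lit 270) (nat_lit 264) (nat_lit 246))) (PT.nd (nat_lit 78) (PT.lf (nat_lit 50084) (nat_lit 6) (nat_lit 659) (nat_lit 0) (nat_lit 271) (nat_lit 264) (nat_lit 245)) (PT.lf (nat_lit 48868) (nat_lit 6) (nat_lit 643) (nat_lit 0) (nat_lit 272) (nat_lit 264) (nat_lit 244)))) (PT.nd (nat_lit 156) (PT.nd (nat_lit 78) (PT.lf (nat_lit 47576) (nat_lit 6) (nat_lit 626) (nat_lit 0) (nat_lit 273) (nat_lit 264) (nat_lit 243)) (PT.lf (nat_lit 46208) (nat_lit 6) (nat_lit 608) (nat_lit 0) (nat_lit 274) (nat_lit 264) (nat_lit 242))) (PT.nd (nat_lit 78) (PT.lf (nat_lit 44764) (nat_lit 6) (nat_lit 589) (nat_lit 0) (nat_lit 275) (nat_lit 264) (nat_lit 241)) (PT.nd (nat_lit 78) (PT.lf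 (nat_lit 43244) (nat_lit 6) (nat_lit 569) (nat_lit 0) (nat_lit 276) (nat_lit 264) (nat_lit 240)) (PT.lf (nat_lit 41648) (nat_lit 6) (nat_lit 548) (nat_lit 0) (nat_lit 277) (nat_lit 264) (nat_lit 239))))))) (PT.nd (nat_lit 624) (PT.nd (nat_lit 312) (PT.nd (nat_lit 156) (PT.nd (nat_lit 78) (PT.lf (nat_lit 39976) (nat_lit 6) (nat_lit 526) (nat_lit 0) (nat_lit 278) (nat_lit 264) (nat_lit 238)) (PT.lf (nat_lit 38228) (nat_lit 6) (nat_lit 503) (nat_lit 0) (nat_lit 279) (nat_lit 264) (nat_lit 237))) (PT.nd (nat_lit 78) (PT.lf (nat_lit 36404) (nat_lit 6) (nat_lit 479) (nat_lit 0) (nat_lit 280) (nat_lit 264) (nat_lit 236)) (PT.lf (nat_lit 34504) (nat_lit 6) (nat_lit 454) (nat_lit 0) (nat_lit 281) (nat_lit 264) (nat_lit 235)))) (PT.nd (nat_lit 156) (PT.nd (nat_lit 78) (PT.lf (nat_lit 33364) (nat_lit 6) (nat_lit 439) (nat_lit 0) (nat_lit 282) (nat_lit 264) (nat_lit 234)) (PT.lf (nat_lit 32376) (nat_lit 6) (nat_lit 426) (nat_lit 0) (nat_lit 283) (nat_lit 264) (nat_lit 233)))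 (PT.nd (nat_lit 78) (PT.lf (nat_lit 31388) (nat_lit 6) (nat_lit 413) (nat_lit 0) (nat_lit 284) (nat_lit 264) (nat_lit 232)) (PT.lf (nat_lit 30476) (nat_lit 6) (nat_lit 401) (nat_lit 0) (nat_lit 285) (nat_lit 264) (nat_lit 231))))) (PT.nd (nat_lit 76986) (PT.nd (nat_lit 76830) (PT.nd (nat_lit 76752) (PT.lf (nat_lit 29564) (nat_lit 6) (nat_lit 389) (nat_lit 0) (nat_lit 286) (nat_lit 264) (nat_lit 230)) (PT.lf (nat_lit 28728) (nat_lit 6) (nat_lit 378) (nat_lit 5) (nat_lit 229) (nat_lit 265) (nat_lit 286))) (PT.nd (nat_lit 78) (PT.lf (nat_lit 29640) (nat_lit 6) (nat_lit 390) (nat_lit 5) (nat_lit 230) (nat_lit 265) (nat_lit 285)) (PT.lf (nat_lit 30552) (nat_lit 6) (nat_lit 402) (nat_lit 5) (nat_lit 231) (nat_lit 265) (nat_lit 284)))) (PT.nd (nat_lit 156) (PT.nd (nat_lit 78) (PT.lf (nat_lit 31464) (nat_lit 6) (nat_lit 414) (nat_lit 5) (nat_lit 232) (nat_lit 265) (nat_lit 283)) (PT.lf (nat_lit 32452) (nat_lit 6) (nat_lit 427) (nat_lit 5) (nat_lit 233) (nat_lit 265) (nat_lit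 282))) (PT.nd (nat_lit 78) (PT.lf (nat_lit 33440) (nat_lit 6) (nat_lit 440) (nat_lit 5) (nat_lit 234) (nat_lit 265) (nat_lit 281)) (PT.nd (nat_lit 78) (PT.lf (nat_lit 34580) (nat_lit 6) (nat_lit 455) (nat_lit 5) (nat_lit 235) (nat_lit 265) (nat_lit 280)) (PT.lf (nat_lit 36480) (nat_lit 6) (nat_lit 480) (nat_lit 5) (nat_lit 236) (nat_lit 265) (nat_lit 279))))))))
noncomputable def pc59 : PT := (PT.nd (nat_lit 1326) (PT.nd (nat_lit 624) (PT.nd (nat_lit 312) (PT.nd (nat_lit 156) (PT.nd (nat_lit 78) (PT.lf (nat_lit 38304) (nat_lit 6) (nat_lit 504) (nat_lit 5) (nat_lit 237) (nat_lit 265) (nat_lit 278)) (PT.lf (nat_lit 40052) (nat_lit 6) (nat_lit 527) (nat_lit 5) (nat_lit 238) (nat_lit 265) (nat_lit 277))) (PT.nd (nat_lit 78) (PT.lf (nat_lit 41724) (nat_lit 6) (nat_lit 549) (nat_lit 5) (nat_lit 239) (nat_lit 265) (nat_lit 276)) (PT.lf (nat_lit 43320) (nat_lit 6) (nat_lit 570) (nat_lit 5) (nat_lit 240) (nat_lit 265) (nat_lit 275)))) (PT.nd (nat_lit 156) (PT.nd (nat_lit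 78) (PT.lf (nat_lit 44840) (nat_lit 6) (nat_lit 590) (nat_lit 5) (nat_lit 241) (nat_lit 265) (nat_lit 274)) (PT.lf (nat_lit 46284) (nat_lit 6) (nat_lit 609) (nat_lit 5) (nat_lit 242) (nat_lit 265) (nat_lit 273))) (PT.nd (nat_lit 78) (PT.lf (nat_lit 47652) (nat_lit 6) (nat_lit 627) (nat_lit 5) (nat_lit 243) (nat_lit 265) (nat_lit 272)) (PT.lf (nat_lit 48944) (nat_lit 6) (nat_lit 644) (nat_lit 5) (nat_lit 244) (nat_lit 265) (nat_lit 271))))) (PT.nd (nat_lit 312) (PT.nd (nat_lit 156) (PT.nd (nat_lit 78) (PT.lf (nat_lit 50160) (nat_lit 6) (nat_lit 660) (nat_lit 5) (nat_lit 245) (nat_lit 265) (nat_lit 270)) (PT.lf (nat_lit 51300) (nat_lit 6) (nat_lit 675) (nat_lit 5) (nat_lit 246) (nat_lit 265) (nat_lit 269))) (PT.nd (nat_lit 78) (PT.lf (nat_lit 52364) (nat_lit 6) (nat_lit 689) (nat_lit 5) (nat_lit 247) (nat_lit 265) (nat_lit 268)) (PT.lf (nat_lit 53352) (nat_lit 6) (nat_lit 702) (nat_lit 5) (nat_lit 248) (nat_lit 265) (nat_lit 267)))) (PT.nd (nat_lit 156) (PT.nd (nat_lit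 78) (PT.lf (nat_lit 54264) (nat_lit 6) (nat_lit 714) (nat_lit 5) (nat_lit 249) (nat_lit 265) (nat_lit 266)) (PT.lf (nat_lit 55100) (nat_lit 3) (nat_lit 725) (nat_lit 4) (nat_lit 250) (nat_lit 265) (nat_lit 265))) (PT.nd (nat_lit 78) (PT.lf (nat_lit 55784) (nat_lit 6) (nat_lit 734) (nat_lit 4) (nat_lit 251) (nat_lit 265) (nat_lit 264)) (PT.nd (nat_lit 78) (PT.lf (nat_lit 56392) (nat_lit 6) (nat_lit 742) (nat_lit 4) (nat_lit 252) (nat_lit 265) (nat_lit 263)) (PT.lf (nat_lit 56924) (nat_lit 6) (nat_lit 749) (nat_lit 4) (nat_lit 253) (nat_lit 265) (nat_lit 262))))))) (PT.nd (nat_lit 624) (PT.nd (nat_lit 312) (PT.nd (nat_lit 156) (PT.nd (nat_lit 78) (PT.lf (nat_lit 57380) (nat_lit 6) (nat_lit 755) (nat_lit 4) (nat_lit 254) (nat_lit 265) (nat_lit 261)) (PT.lf (nat_lit 57760) (nat_lit 6) (nat_lit 760) (nat_lit 4) (nat_lit 255) (nat_lit 265) (nat_lit 260))) (PT.nd (nat_lit 78) (PT.lf (nat_lit 57684) (nat_lit 6) (nat_lit 759) (nat_lit 4) (nat_lit 256) (nat_lit 265) (nat_lit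 259)) (PT.lf (nat_lit 57608) (nat_lit 6) (nat_lit 758) (nat_lit 4) (nat_lit 257) (nat_lit 265) (nat_lit 258)))) (PT.nd (nat_lit 156) (PT.nd (nat_lit 78) (PT.lf (nat_lit 57608) (nat_lit 6) (nat_lit 758) (nat_lit 2) (nat_lit 258) (nat_lit 265) (nat_lit 257)) (PT.lf (nat_lit 57684) (nat_lit 6) (nat_lit 759) (nat_lit 2) (nat_lit 259) (nat_lit 265) (nat_lit 256))) (PT.nd (nat_lit 78) (PT.lf (nat_lit 57760) (nat_lit 6) (nat_lit 760) (nat_lit 2) (nat_lit 260) (nat_lit 265) (nat_lit 255)) (PT.lf (nat_lit 57380) (nat_lit 6) (nat_lit 755) (nat_lit 2) (nat_lit 261) (nat_lit 265) (nat_lit 254))))) (PT.nd (nat_lit 312) (PT.nd (nat_lit 156) (PT.nd (nat_lit 78) (PT.lf (nat_lit 56924) (nat_lit 6) (nat_lit 749) (nat_lit 2) (nat_lit 262) (nat_lit 265) (nat_lit 253)) (PT.lf (nat_lit 56392) (nat_lit 6) (nat_lit 742) (nat_lit 2) (nat_lit 263) (nat_lit 265) (nat_lit 252))) (PT.nd (nat_lit 78) (PT.lf (nat_lit 55784) (nat_lit 6) (nat_lit 734) (nat_lit 2) (nat_lit 264) (nat_lit 265) (nat_lit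 251)) (PT.lf (nat_lit 55100) (nat_lit 3) (nat_lit 725) (nat_lit 0) (nat_lit 265) (nat_lit 265) (nat_lit 250)))) (PT.nd (nat_lit 156) (PT.nd (nat_lit 78) (PT.lf (nat_lit 54264) (nat_lit 6) (nat_lit 714) (nat_lit 0) (nat_lit 266) (nat_lit 265) (nat_lit 249)) (PT.lf (nat_lit 53352) (nat_lit 6) (nat_lit 702) (nat_lit 0) (nat_lit 267) (nat_lit 265) (nat_lit 248))) (PT.nd (nat_lit 78) (PT.lf (nat_lit 52364) (nat_lit 6) (nat_lit 689) (nat_lit 0) (nat_lit 268) (nat_lit 265) (nat_lit 247)) (PT.nd (nat_lit 78) (PT.lf (nat_lit 51300) (nat_lit 6) (nat_lit 675) (nat_lit 0) (nat_lit 269) (nat_lit 265) (nat_lit 246)) (PT.lf (nat_lit 50160) (nat_lit 6) (nat_lit 660) (nat_lit 0) (nat_lit 270) (nat_lit 265) (nat_lit 245))))))))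
noncomputable def pc60 : PT := (PT.nd (nat_lit 77922) (PT.nd (nat_lit 624) (PT.nd (nat_lit 312) (PT.nd (nat_lit 156) (PT.nd (nat_lit 78) (PT.lf (nat_lit 48944) (nat_lit 6) (nat_lit 644) (nat_lit 0) (nat_lit 271) (nat_lit 265) (nat_lit 244)) (PT.lf (nat_lit 47652) (nat_lit 6) (nat_lit 627) (nat_lit 0) (nat_lit 272) (nat_lit 265) (nat_lit 243))) (PT.nd (nat_lit 78) (PT.lf (nat_lit 46284) (nat_lit 6) (nat_lit 609) (nat_lit 0) (nat_lit 273) (nat_lit 265) (nat_lit 242)) (PT.lf (nat_lit 44840) (nat_lit 6) (nat_lit 590) (nat_lit 0) (nat_lit 274) (nat_lit 265) (nat_lit 241)))) (PT.nd (nat_lit 156) (PT.nd (nat_lit 78) (PT.lf (nat_lit 43320) (nat_lit 6) (nat_lit 570) (nat_lit 0) (nat_lit 275) (nat_lit 265) (nat_lit 240)) (PT.lf (nat_lit 41724) (nat_lit 6) (nat_lit 549) (nat_lit 0) (nat_lit 276) (nat_lit 265) (nat_lit 239))) (PT.nd (nat_lit 78) (PT.lf (nat_lit 40052) (nat_lit 6) (nat_lit 527) (nat_lit 0) (nat_lit 277) (nat_lit 265) (nat_lit 238)) (PT.lf (nat_lit 38304) (nat_lit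 6) (nat_lit 504) (nat_lit 0) (nat_lit 278) (nat_lit 265) (nat_lit 237))))) (PT.nd (nat_lit 312) (PT.nd (nat_lit 156) (PT.nd (nat_lit 78) (PT.lf (nat_lit 36480) (nat_lit 6) (nat_lit 480) (nat_lit 0) (nat_lit 279) (nat_lit 265) (nat_lit 236)) (PT.lf (nat_lit 34580) (nat_lit 6) (nat_lit 455) (nat_lit 0) (nat_lit 280) (nat_lit 265) (nat_lit 235))) (PT.nd (nat_lit 78) (PT.lf (nat_lit 33440) (nat_lit 6) (nat_lit 440) (nat_lit 0) (nat_lit 281) (nat_lit 265) (nat_lit 234)) (PT.lf (nat_lit 32452) (nat_lit 6) (nat_lit 427) (nat_lit 0) (nat_lit 282) (nat_lit 265) (nat_lit 233)))) (PT.nd (nat_lit 156) (PT.nd (nat_lit 78) (PT.lf (nat_lit 31464) (nat_lit 6) (nat_lit 414) (nat_lit 0) (nat_lit 283) (nat_lit 265) (nat_lit 232)) (PT.lf (nat_lit 30552) (nat_lit 6) (nat_lit 402) (nat_lit 0) (nat_lit 284) (nat_lit 265) (nat_lit 231))) (PT.nd (nat_lit 78) (PT.lf (nat_lit 29640) (nat_lit 6) (nat_lit 390) (nat_lit 0) (nat_lit 285) (nat_lit 265) (nat_lit 230)) (PT.nd (nat_lit 76674) (PT.lf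 (nat_lit 28728) (nat_lit 6) (nat_lit 378) (nat_lit 0) (nat_lit 286) (nat_lit 265) (nat_lit 229)) (PT.lf (nat_lit 27892) (nat_lit 6) (nat_lit 367) (nat_lit 5) (nat_lit 228) (nat_lit 266) (nat_lit 286))))))) (PT.nd (nat_lit 624) (PT.nd (nat_lit 312) (PT.nd (nat_lit 156) (PT.nd (nat_lit 78) (PT.lf (nat_lit 28804) (nat_lit 6) (nat_lit 379) (nat_lit 5) (nat_lit 229) (nat_lit 266) (nat_lit 285)) (PT.lf (nat_lit 29716) (nat_lit 6) (nat_lit 391) (nat_lit 5) (nat_lit 230) (nat_lit 266) (nat_lit 284))) (PT.nd (nat_lit 78) (PT.lf (nat_lit 30628) (nat_lit 6) (nat_lit 403) (nat_lit 5) (nat_lit 231) (nat_lit 266) (nat_lit 283)) (PT.lf (nat_lit 31540) (nat_lit 6) (nat_lit 415) (nat_lit 5) (nat_lit 232) (nat_lit 266) (nat_lit 282)))) (PT.nd (nat_lit 156) (PT.nd (nat_lit 78) (PT.lf (nat_lit 32528) (nat_lit 6) (nat_lit 428) (nat_lit 5) (nat_lit 233) (nat_lit 266) (nat_lit 281)) (PT.lf (nat_lit 33516) (nat_lit 6) (nat_lit 441) (nat_lit 5) (nat_lit 234) (nat_lit 266) (nat_lit 280)))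 (PT.nd (nat_lit 78) (PT.lf (nat_lit 34656) (nat_lit 6) (nat_lit 456) (nat_lit 5) (nat_lit 235) (nat_lit 266) (nat_lit 279)) (PT.lf (nat_lit 36556) (nat_lit 6) (nat_lit 481) (nat_lit 5) (nat_lit 236) (nat_lit 266) (nat_lit 278))))) (PT.nd (nat_lit 312) (PT.nd (nat_lit 156) (PT.nd (nat_lit 78) (PT.lf (nat_lit 38380) (nat_lit 6) (nat_lit 505) (nat_lit 5) (nat_lit 237) (nat_lit 266) (nat_lit 277)) (PT.lf (nat_lit 40128) (nat_lit 6) (nat_lit 528) (nat_lit 5) (nat_lit 238) (nat_lit 266) (nat_lit 276))) (PT.nd (nat_lit 78) (PT.lf (nat_lit 41800) (nat_lit 6) (nat_lit 550) (nat_lit 5) (nat_lit 239) (nat_lit 266) (nat_lit 275)) (PT.lf (nat_lit 43396) (nat_lit 6) (nat_lit 571) (nat_lit 5) (nat_lit 240) (nat_lit 266) (nat_lit 274)))) (PT.nd (nat_lit 156) (PT.nd (nat_lit 78) (PT.lf (nat_lit 44916) (nat_lit 6) (nat_lit 591) (nat_lit 5) (nat_lit 241) (nat_lit 266) (nat_lit 273)) (PT.lf (nat_lit 46360) (nat_lit 6) (nat_lit 610) (nat_lit 5) (nat_lit 242) (nat_lit 266) (nat_lit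 272))) (PT.nd (nat_lit 78) (PT.lf (nat_lit 47728) (nat_lit 6) (nat_lit 628) (nat_lit 5) (nat_lit 243) (nat_lit 266) (nat_lit 271)) (PT.nd (nat_lit 78) (PT.lf (nat_lit 49020) (nat_lit 6) (nat_lit 645) (nat_lit 5) (nat_lit 244) (nat_lit 266) (nat_lit 270)) (PT.lf (nat_lit 50236) (nat_lit 6) (nat_lit 661) (nat_lit 5) (nat_lit 245) (nat_lit 266) (nat_lit 269))))))))
noncomputable def pc61 : PT := (PT.nd (nat_lit 1326) (PT.nd (nat_lit 624) (PT.nd (nat_lit 312) (PT.nd (nat_lit 156) (PT.nd (nat_lit 78) (PT.lf (nat_lit 51376) (nat_lit 6) (nat_lit 676) (nat_lit 5) (nat_lit 246) (nat_lit 266) (nat_lit 268)) (PT.lf (nat_lit 52440) (nat_lit 6) (nat_lit 690) (nat_lit 5) (nat_lit 247) (nat_lit 266) (nat_lit 267))) (PT.nd (nat_lit 78) (PT.lf (nat_lit 53428) (nat_lit 3) (nat_lit 703) (nat_lit 4) (nat_lit 248) (nat_lit 266) (nat_lit 266)) (PT.lf (nat_lit 54264) (nat_lit 6) (nat_lit 714) (nat_lit 4) (nat_lit 249) (nat_lit 266) (nat_lit 265)))) (PT.nd (nat_lit 156) (PT.nd (nat_lit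 78) (PT.lf (nat_lit 55024) (nat_lit 6) (nat_lit 724) (nat_lit 4) (nat_lit 250) (nat_lit 266) (nat_lit 264)) (PT.lf (nat_lit 55708) (nat_lit 6) (nat_lit 733) (nat_lit 4) (nat_lit 251) (nat_lit 266) (nat_lit 263))) (PT.nd (nat_lit 78) (PT.lf (nat_lit 56316) (nat_lit 6) (nat_lit 741) (nat_lit 4) (nat_lit 252) (nat_lit 266) (nat_lit 262)) (PT.lf (nat_lit 56848) (nat_lit 6) (nat_lit 748) (nat_lit 4) (nat_lit 253) (nat_lit 266) (nat_lit 261))))) (PT.nd (nat_lit 312) (PT.nd (nat_lit 156) (PT.nd (nat_lit 78) (PT.lf (nat_lit 57304) (nat_lit 6) (nat_lit 754) (nat_lit 4) (nat_lit 254) (nat_lit 266) (nat_lit 260)) (PT.lf (nat_lit 57228) (nat_lit 6) (nat_lit 753) (nat_lit 4) (nat_lit 255) (nat_lit 266) (nat_lit 259))) (PT.nd (nat_lit 78) (PT.lf (nat_lit 57152) (nat_lit 6) (nat_lit 752) (nat_lit 4) (nat_lit 256) (nat_lit 266) (nat_lit 258)) (PT.lf (nat_lit 57076) (nat_lit 3) (nat_lit 751) (nat_lit 2) (nat_lit 257) (nat_lit 266) (nat_lit 257)))) (PT.nd (nat_lit 156) (PT.nd (nat_lit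 78) (PT.lf (nat_lit 57152) (nat_lit 6) (nat_lit 752) (nat_lit 2) (nat_lit 258) (nat_lit 266) (nat_lit 256)) (PT.lf (nat_lit 57228) (nat_lit 6) (nat_lit 753) (nat_lit 2) (nat_lit 259) (nat_lit 266) (nat_lit 255))) (PT.nd (nat_lit 78) (PT.lf (nat_lit 57304) (nat_lit 6) (nat_lit 754) (nat_lit 2) (nat_lit 260) (nat_lit 266) (nat_lit 254)) (PT.nd (nat_lit 78) (PT.lf (nat_lit 56848) (nat_lit 6) (nat_lit 748) (nat_lit 2) (nat_lit 261) (nat_lit 266) (nat_lit 253)) (PT.lf (nat_lit 56316) (nat_lit 6) (nat_lit 741) (nat_lit 2) (nat_lit 262) (nat_lit 266) (nat_lit 252))))))) (PT.nd (nat_lit 624) (PT.nd (nat_lit 312) (PT.nd (nat_lit 156) (PT.nd (nat_lit 78) (PT.lf (nat_lit 55708) (nat_lit 6) (nat_lit 733) (nat_lit 2) (nat_lit 263) (nat_lit 266) (nat_lit 251)) (PT.lf (nat_lit 55024) (nat_lit 6) (nat_lit 724) (nat_lit 2) (nat_lit 264) (nat_lit 266) (nat_lit 250))) (PT.nd (nat_lit 78) (PT.lf (nat_lit 54264) (nat_lit 6) (nat_lit 714) (nat_lit 2) (nat_lit 265) (nat_lit 266) (nat_lit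 249)) (PT.lf (nat_lit 53428) (nat_lit 3) (nat_lit 703) (nat_lit 0) (nat_lit 266) (nat_lit 266) (nat_lit 248)))) (PT.nd (nat_lit 156) (PT.nd (nat_lit 78) (PT.lf (nat_lit 52440) (nat_lit 6) (nat_lit 690) (nat_lit 0) (nat_lit 267) (nat_lit 266) (nat_lit 247)) (PT.lf (nat_lit 51376) (nat_lit 6) (nat_lit 676) (nat_lit 0) (nat_lit 268) (nat_lit 266) (nat_lit 246))) (PT.nd (nat_lit 78) (PT.lf (nat_lit 50236) (nat_lit 6) (nat_lit 661) (nat_lit 0) (nat_lit 269) (nat_lit 266) (nat_lit 245)) (PT.lf (nat_lit 49020) (nat_lit 6) (nat_lit 645) (nat_lit 0) (nat_lit 270) (nat_lit 266) (nat_lit 244))))) (PT.nd (nat_lit 312) (PT.nd (nat_lit 156) (PT.nd (nat_lit 78) (PT.lf (nat_lit 47728) (nat_lit 6) (nat_lit 628) (nat_lit 0) (nat_lit 271) (nat_lit 266) (nat_lit 243)) (PT.lf (nat_lit 46360) (nat_lit 6) (nat_lit 610) (nat_lit 0) (nat_lit 272) (nat_lit 266) (nat_lit 242))) (PT.nd (nat_lit 78) (PT.lf (nat_lit 44916) (nat_lit 6) (nat_lit 591) (nat_lit 0) (nat_lit 273) (nat_lit 266) (nat_lit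 241)) (PT.lf (nat_lit 43396) (nat_lit 6) (nat_lit 571) (nat_lit 0) (nat_lit 274) (nat_lit 266) (nat_lit 240)))) (PT.nd (nat_lit 156) (PT.nd (nat_lit 78) (PT.lf (nat_lit 41800) (nat_lit 6) (nat_lit 550) (nat_lit 0) (nat_lit 275) (nat_lit 266) (nat_lit 239)) (PT.lf (nat_lit 40128) (nat_lit 6) (nat_lit 528) (nat_lit 0) (nat_lit 276) (nat_lit 266) (nat_lit 238))) (PT.nd (nat_lit 78) (PT.lf (nat_lit 38380) (nat_lit 6) (nat_lit 505) (nat_lit 0) (nat_lit 277) (nat_lit 266) (nat_lit 237)) (PT.nd (nat_lit 78) (PT.lf (nat_lit 36556) (nat_lit 6) (nat_lit 481) (nat_lit 0) (nat_lit 278) (nat_lit 266) (nat_lit 236)) (PT.lf (nat_lit 34656) (nat_lit 6) (nat_lit 456) (nat_lit 0) (nat_lit 279) (nat_lit 266) (nat_lit 235))))))))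
noncomputable def pc62 : PT := (PT.nd (nat_lit 77844) (PT.nd (nat_lit 77142) (PT.nd (nat_lit 312) (PT.nd (nat_lit 156) (PT.nd (nat_lit 78) (PT.lf (nat_lit 33516) (nat_lit 6) (nat_lit 441) (nat_lit 0) (nat_lit 280) (nat_lit 266) (nat_lit 234)) (PT.lf (nat_lit 32528) (nat_lit 6) (nat_lit 428) (nat_lit 0) (nat_lit 281) (nat_lit 266) (nat_lit 233))) (PT.nd (nat_lit 78) (PT.lf (nat_lit 31540) (nat_lit 6) (nat_lit 415) (nat_lit 0) (nat_lit 282) (nat_lit 266) (nat_lit 232)) (PT.lf (nat_lit 30628) (nat_lit 6) (nat_lit 403) (nat_lit 0) (nat_lit 283) (nat_lit 266) (nat_lit 231)))) (PT.nd (nat_lit 156) (PT.nd (nat_lit 78) (PT.lf (nat_lit 29716) (nat_lit 6) (nat_lit 391) (nat_lit 0) (nat_lit 284) (nat_lit 266) (nat_lit 230)) (PT.lf (nat_lit 28804) (nat_lit 6) (nat_lit 379) (nat_lit 0) (nat_lit 285) (nat_lit 266) (nat_lit 229))) (PT.nd (nat_lit 76596) (PT.lf (nat_lit 27892) (nat_lit 6) (nat_lit 367) (nat_lit 0) (nat_lit 286) (nat_lit 266) (nat_lit 228)) (PT.lf (nat_lit 27132)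 (nat_lit 6) (nat_lit 357) (nat_lit 5) (nat_lit 227) (nat_lit 267) (nat_lit 286))))) (PT.nd (nat_lit 312) (PT.nd (nat_lit 156) (PT.nd (nat_lit 78) (PT.lf (nat_lit 27968) (nat_lit 6) (nat_lit 368) (nat_lit 5) (nat_lit 228) (nat_lit 267) (nat_lit 285)) (PT.lf (nat_lit 28880) (nat_lit 6) (nat_lit 380) (nat_lit 5) (nat_lit 229) (nat_lit 267) (nat_lit 284))) (PT.nd (nat_lit 78) (PT.lf (nat_lit 29792) (nat_lit 6) (nat_lit 392) (nat_lit 5) (nat_lit 230) (nat_lit 267) (nat_lit 283)) (PT.lf (nat_lit 30704) (nat_lit 6) (nat_lit 404) (nat_lit 5) (nat_lit 231) (nat_lit 267) (nat_lit 282)))) (PT.nd (nat_lit 156) (PT.nd (nat_lit 78) (PT.lf (nat_lit 31616) (nat_lit 6) (nat_lit 416) (nat_lit 5) (nat_lit 232) (nat_lit 267) (nat_lit 281)) (PT.lf (nat_lit 32604) (nat_lit 6) (nat_lit 429) (nat_lit 5) (nat_lit 233) (nat_lit 267) (nat_lit 280))) (PT.nd (nat_lit 78) (PT.lf (nat_lit 33592) (nat_lit 6) (nat_lit 442) (nat_lit 5) (nat_lit 234) (nat_lit 267) (nat_lit 279)) (PT.nd (nat_lit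 78) (PT.lf (nat_lit 34732) (nat_lit 6) (nat_lit 457) (nat_lit 5) (nat_lit 235) (nat_lit 267) (nat_lit 278)) (PT.lf (nat_lit 36632) (nat_lit 6) (nat_lit 482) (nat_lit 5) (nat_lit 236) (nat_lit 267) (nat_lit 277))))))) (PT.nd (nat_lit 624) (PT.nd (nat_lit 312) (PT.nd (nat_lit 156) (PT.nd (nat_lit 78) (PT.lf (nat_lit 38456) (nat_lit 6) (nat_lit 506) (nat_lit 5) (nat_lit 237) (nat_lit 267) (nat_lit 276)) (PT.lf (nat_lit 40204) (nat_lit 6) (nat_lit 529) (nat_lit 5) (nat_lit 238) (nat_lit 267) (nat_lit 275))) (PT.nd (nat_lit 78) (PT.lf (nat_lit 41876) (nat_lit 6) (nat_lit 551) (nat_lit 5) (nat_lit 239) (nat_lit 267) (nat_lit 274)) (PT.lf (nat_lit 43472) (nat_lit 6) (nat_lit 572) (nat_lit 5) (nat_lit 240) (nat_lit 267) (nat_lit 273)))) (PT.nd (nat_lit 156) (PT.nd (nat_lit 78) (PT.lf (nat_lit 44992) (nat_lit 6) (nat_lit 592) (nat_lit 5) (nat_lit 241) (nat_lit 267) (nat_lit 272)) (PT.lf (nat_lit 46436) (nat_lit 6) (nat_lit 611) (nat_lit 5) (nat_lit 242) (nat_lit 267) (nat_lit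 271))) (PT.nd (nat_lit 78) (PT.lf (nat_lit 47804) (nat_lit 6) (nat_lit 629) (nat_lit 5) (nat_lit 243) (nat_lit 267) (nat_lit 270)) (PT.lf (nat_lit 49096) (nat_lit 6) (nat_lit 646) (nat_lit 5) (nat_lit 244) (nat_lit 267) (nat_lit 269))))) (PT.nd (nat_lit 312) (PT.nd (nat_lit 156) (PT.nd (nat_lit 78) (PT.lf (nat_lit 50312) (nat_lit 6) (nat_lit 662) (nat_lit 5) (nat_lit 245) (nat_lit 267) (nat_lit 268)) (PT.lf (nat_lit 51452) (nat_lit 3) (nat_lit 677) (nat_lit 4) (nat_lit 246) (nat_lit 267) (nat_lit 267))) (PT.nd (nat_lit 78) (PT.lf (nat_lit 52440) (nat_lit 6) (nat_lit 690) (nat_lit 4) (nat_lit 247) (nat_lit 267) (nat_lit 266)) (PT.lf (nat_lit 53352) (nat_lit 6) (nat_lit 702) (nat_lit 4) (nat_lit 248) (nat_lit 267) (nat_lit 265)))) (PT.nd (nat_lit 156) (PT.nd (nat_lit 78) (PT.lf (nat_lit 54188) (nat_lit 6) (nat_lit 713) (nat_lit 4) (nat_lit 249) (nat_lit 267) (nat_lit 264)) (PT.lf (nat_lit 54948) (nat_lit 6) (nat_lit 723) (nat_lit 4) (nat_lit 250) (nat_lit 267) (nat_lit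 263))) (PT.nd (nat_lit 78) (PT.lf (nat_lit 55632) (nat_lit 6) (nat_lit 732) (nat_lit 4) (nat_lit 251) (nat_lit 267) (nat_lit 262)) (PT.nd (nat_lit 78) (PT.lf (nat_lit 56240) (nat_lit 6) (nat_lit 740) (nat_lit 4) (nat_lit 252) (nat_lit 267) (nat_lit 261)) (PT.lf (nat_lit 56772) (nat_lit 6) (nat_lit 747) (nat_lit 4) (nat_lit 253) (nat_lit 267) (nat_lit 260))))))))
noncomputable def pc63 : PT := (PT.nd (nat_lit 1326) (PT.nd (nat_lit 624) (PT.nd (nat_lit 312) (PT.nd (nat_lit 156) (PT.nd (nat_lit 78) (PT.lf (nat_lit 56696) (nat_lit 6) (nat_lit 746) (nat_lit 4) (nat_lit 254) (nat_lit 267) (nat_lit 259)) (PT.lf (nat_lit 56620) (nat_lit 6) (nat_lit 745) (nat_lit 4) (nat_lit 255) (nat_lit 267) (nat_lit 258))) (PT.nd (nat_lit 78) (PT.lf (nat_lit 56544) (nat_lit 6) (nat_lit 744) (nat_lit 4) (nat_lit 256) (nat_lit 267) (nat_lit 257)) (PT.lf (nat_lit 56544) (nat_lit 6) (nat_lit 744) (nat_lit 2) (nat_lit 257) (nat_lit 267) (nat_lit 256)))) (PT.nd (nat_lit 156) (PT.nd (nat_lit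 78) (PT.lf (nat_lit 56620) (nat_lit 6) (nat_lit 745) (nat_lit 2) (nat_lit 258) (nat_lit 267) (nat_lit 255)) (PT.lf (nat_lit 56696) (nat_lit 6) (nat_lit 746) (nat_lit 2) (nat_lit 259) (nat_lit 267) (nat_lit 254))) (PT.nd (nat_lit 78) (PT.lf (nat_lit 56772) (nat_lit 6) (nat_lit 747) (nat_lit 2) (nat_lit 260) (nat_lit 267) (nat_lit 253)) (PT.lf (nat_lit 56240) (nat_lit 6) (nat_lit 740) (nat_lit 2) (nat_lit 261) (nat_lit 267) (nat_lit 252))))) (PT.nd (nat_lit 312) (PT.nd (nat_lit 156) (PT.nd (nat_lit 78) (PT.lf (nat_lit 55632) (nat_lit 6) (nat_lit 732) (nat_lit 2) (nat_lit 262) (nat_lit 267) (nat_lit 251)) (PT.lf (nat_lit 54948) (nat_lit 6) (nat_lit 723) (nat_lit 2) (nat_lit 263) (nat_lit 267) (nat_lit 250))) (PT.nd (nat_lit 78) (PT.lf (nat_lit 54188) (nat_lit 6) (nat_lit 713) (nat_lit 2) (nat_lit 264) (nat_lit 267) (nat_lit 249)) (PT.lf (nat_lit 53352) (nat_lit 6) (nat_lit 702) (nat_lit 2) (nat_lit 265) (nat_lit 267) (nat_lit 248)))) (PT.nd (nat_lit 156) (PT.nd (nat_lit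 78) (PT.lf (nat_lit 52440) (nat_lit 6) (nat_lit 690) (nat_lit 2) (nat_lit 266) (nat_lit 267) (nat_lit 247)) (PT.lf (nat_lit 51452) (nat_lit 3) (nat_lit 677) (nat_lit 0) (nat_lit 267) (nat_lit 267) (nat_lit 246))) (PT.nd (nat_lit 78) (PT.lf (nat_lit 50312) (nat_lit 6) (nat_lit 662) (nat_lit 0) (nat_lit 268) (nat_lit 267) (nat_lit 245)) (PT.nd (nat_lit 78) (PT.lf (nat_lit 49096) (nat_lit 6) (nat_lit 646) (nat_lit 0) (nat_lit 269) (nat_lit 267) (nat_lit 244)) (PT.lf (nat_lit 47804) (nat_lit 6) (nat_lit 629) (nat_lit 0) (nat_lit 270) (nat_lit 267) (nat_lit 243))))))) (PT.nd (nat_lit 624) (PT.nd (nat_lit 312) (PT.nd (nat_lit 156) (PT.nd (nat_lit 78) (PT.lf (nat_lit 46436) (nat_lit 6) (nat_lit 611) (nat_lit 0) (nat_lit 271) (nat_lit 267) (nat_lit 242)) (PT.lf (nat_lit 44992) (nat_lit 6) (nat_lit 592) (nat_lit 0) (nat_lit 272) (nat_lit 267) (nat_lit 241))) (PT.nd (nat_lit 78) (PT.lf (nat_lit 43472) (nat_lit 6) (nat_lit 572) (nat_lit 0) (nat_lit 273) (nat_lit 267) (nat_lit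 240)) (PT.lf (nat_lit 41876) (nat_lit 6) (nat_lit 551) (nat_lit 0) (nat_lit 274) (nat_lit 267) (nat_lit 239)))) (PT.nd (nat_lit 156) (PT.nd (nat_lit 78) (PT.lf (nat_lit 40204) (nat_lit 6) (nat_lit 529) (nat_lit 0) (nat_lit 275) (nat_lit 267) (nat_lit 238)) (PT.lf (nat_lit 38456) (nat_lit 6) (nat_lit 506) (nat_lit 0) (nat_lit 276) (nat_lit 267) (nat_lit 237))) (PT.nd (nat_lit 78) (PT.lf (nat_lit 36632) (nat_lit 6) (nat_lit 482) (nat_lit 0) (nat_lit 277) (nat_lit 267) (nat_lit 236)) (PT.lf (nat_lit 34732) (nat_lit 6) (nat_lit 457) (nat_lit 0) (nat_lit 278) (nat_lit 267) (nat_lit 235))))) (PT.nd (nat_lit 312) (PT.nd (nat_lit 156) (PT.nd (nat_lit 78) (PT.lf (nat_lit 33592) (nat_lit 6) (nat_lit 442) (nat_lit 0) (nat_lit 279) (nat_lit 267) (nat_lit 234)) (PT.lf (nat_lit 32604) (nat_lit 6) (nat_lit 429) (nat_lit 0) (nat_lit 280) (nat_lit 267) (nat_lit 233))) (PT.nd (nat_lit 78) (PT.lf (nat_lit 31616) (nat_lit 6) (nat_lit 416) (nat_lit 0) (nat_lit 281) (nat_lit 267) (nat_lit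 232)) (PT.lf (nat_lit 30704) (nat_lit 6) (nat_lit 404) (nat_lit 0) (nat_lit 282) (nat_lit 267) (nat_lit 231)))) (PT.nd (nat_lit 156) (PT.nd (nat_lit 78) (PT.lf (nat_lit 29792) (nat_lit 6) (nat_lit 392) (nat_lit 0) (nat_lit 283) (nat_lit 267) (nat_lit 230)) (PT.lf (nat_lit 28880) (nat_lit 6) (nat_lit 380) (nat_lit 0) (nat_lit 284) (nat_lit 267) (nat_lit 229))) (PT.nd (nat_lit 78) (PT.lf (nat_lit 27968) (nat_lit 6) (nat_lit 368) (nat_lit 0) (nat_lit 285) (nat_lit 267) (nat_lit 228)) (PT.nd (nat_lit 76440) (PT.lf (nat_lit 27132) (nat_lit 6) (nat_lit 357) (nat_lit 0) (nat_lit 286) (nat_lit 267) (nat_lit 227)) (PT.lf (nat_lit 25612) (nat_lit 6) (nat_lit 337) (nat_lit 5) (nat_lit 225) (nat_lit 268) (nat_lit 287))))))))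
noncomputable def pc64 : PT := (PT.nd (nat_lit 1248) (PT.nd (nat_lit 624) (PT.nd (nat_lit 312) (PT.nd (nat_lit 156) (PT.nd (nat_lit 78) (PT.lf (nat_lit 26372) (nat_lit 6) (nat_lit 347) (nat_lit 5) (nat_lit 226) (nat_lit 268) (nat_lit 286)) (PT.lf (nat_lit 27208) (nat_lit 6) (nat_lit 358) (nat_lit 5) (nat_lit 227) (nat_lit 268) (nat_lit 285))) (PT.nd (nat_lit 78) (PT.lf (nat_lit 28044) (nat_lit 6) (nat_lit 369) (nat_lit 5) (nat_lit 228) (nat_lit 268) (nat_lit 284)) (PT.lf (nat_lit 28956) (nat_lit 6) (nat_lit 381) (nat_lit 5) (nat_lit 229) (nat_lit 268) (nat_lit 283)))) (PT.nd (nat_lit 156) (PT.nd (nat_lit 78) (PT.lf (nat_lit 29868) (nat_lit 6) (nat_lit 393) (nat_lit 5) (nat_lit 230) (nat_lit 268) (nat_lit 282)) (PT.lf (nat_lit 30780) (nat_lit 6) (nat_lit 405) (nat_lit 5) (nat_lit 231) (nat_lit 268) (nat_lit 281))) (PT.nd (nat_lit 78) (PT.lf (nat_lit 31692) (nat_lit 6) (nat_lit 417) (nat_lit 5) (nat_lit 232) (nat_lit 268) (nat_lit 280)) (PT.lf (nat_lit 32680) (nat_lit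 6) (nat_lit 430) (nat_lit 5) (nat_lit 233) (nat_lit 268) (nat_lit 279))))) (PT.nd (nat_lit 312) (PT.nd (nat_lit 156) (PT.nd (nat_lit 78) (PT.lf (nat_lit 33668) (nat_lit 6) (nat_lit 443) (nat_lit 5) (nat_lit 234) (nat_lit 268) (nat_lit 278)) (PT.lf (nat_lit 34808) (nat_lit 6) (nat_lit 458) (nat_lit 5) (nat_lit 235) (nat_lit 268) (nat_lit 277))) (PT.nd (nat_lit 78) (PT.lf (nat_lit 36708) (nat_lit 6) (nat_lit 483) (nat_lit 5) (nat_lit 236) (nat_lit 268) (nat_lit 276)) (PT.lf (nat_lit 38532) (nat_lit 6) (nat_lit 507) (nat_lit 5) (nat_lit 237) (nat_lit 268) (nat_lit 275)))) (PT.nd (nat_lit 156) (PT.nd (nat_lit 78) (PT.lf (nat_lit 40280) (nat_lit 6) (nat_lit 530) (nat_lit 5) (nat_lit 238) (nat_lit 268) (nat_lit 274)) (PT.lf (nat_lit 41952) (nat_lit 6) (nat_lit 552) (nat_lit 5) (nat_lit 239) (nat_lit 268) (nat_lit 273))) (PT.nd (nat_lit 78) (PT.lf (nat_lit 43548) (nat_lit 6) (nat_lit 573) (nat_lit 5) (nat_lit 240) (nat_lit 268) (nat_lit 272)) (PT.lf (nat_lit 45068) (nat_lit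 6) (nat_lit 593) (nat_lit 5) (nat_lit 241) (nat_lit 268) (nat_lit 271)))))) (PT.nd (nat_lit 624) (PT.nd (nat_lit 312) (PT.nd (nat_lit 156) (PT.nd (nat_lit 78) (PT.lf (nat_lit 46512) (nat_lit 6) (nat_lit 612) (nat_lit 5) (nat_lit 242) (nat_lit 268) (nat_lit 270)) (PT.lf (nat_lit 47880) (nat_lit 6) (nat_lit 630) (nat_lit 5) (nat_lit 243) (nat_lit 268) (nat_lit 269))) (PT.nd (nat_lit 78) (PT.lf (nat_lit 49172) (nat_lit 3) (nat_lit 647) (nat_lit 4) (nat_lit 244) (nat_lit 268) (nat_lit 268)) (PT.lf (nat_lit 50312) (nat_lit 6) (nat_lit 662) (nat_lit 4) (nat_lit 245) (nat_lit 268) (nat_lit 267)))) (PT.nd (nat_lit 156) (PT.nd (nat_lit 78) (PT.lf (nat_lit 51376) (nat_lit 6) (nat_lit 676) (nat_lit 4) (nat_lit 246) (nat_lit 268) (nat_lit 266)) (PT.lf (nat_lit 52364) (nat_lit 6) (nat_lit 689) (nat_lit 4) (nat_lit 247) (nat_lit 268) (nat_lit 265))) (PT.nd (nat_lit 78) (PT.lf (nat_lit 53276) (nat_lit 6) (nat_lit 701) (nat_lit 4) (nat_lit 248) (nat_lit 268) (nat_lit 264)) (PT.lf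 (nat_lit 54112) (nat_lit 6) (nat_lit 712) (nat_lit 4) (nat_lit 249) (nat_lit 268) (nat_lit 263))))) (PT.nd (nat_lit 312) (PT.nd (nat_lit 156) (PT.nd (nat_lit 78) (PT.lf (nat_lit 54872) (nat_lit 6) (nat_lit 722) (nat_lit 4) (nat_lit 250) (nat_lit 268) (nat_lit 262)) (PT.lf (nat_lit 55556) (nat_lit 6) (nat_lit 731) (nat_lit 4) (nat_lit 251) (nat_lit 268) (nat_lit 261))) (PT.nd (nat_lit 78) (PT.lf (nat_lit 56164) (nat_lit 6) (nat_lit 739) (nat_lit 4) (nat_lit 252) (nat_lit 268) (nat_lit 260)) (PT.lf (nat_lit 56088) (nat_lit 6) (nat_lit 738) (nat_lit 4) (nat_lit 253) (nat_lit 268) (nat_lit 259)))) (PT.nd (nat_lit 156) (PT.nd (nat_lit 78) (PT.lf (nat_lit 56012) (nat_lit 6) (nat_lit 737) (nat_lit 4) (nat_lit 254) (nat_lit 268) (nat_lit 258)) (PT.lf (nat_lit 55936) (nat_lit 6) (nat_lit 736) (nat_lit 4) (nat_lit 255) (nat_lit 268) (nat_lit 257))) (PT.nd (nat_lit 78) (PT.lf (nat_lit 55860) (nat_lit 3) (nat_lit 735) (nat_lit 2) (nat_lit 256) (nat_lit 268) (nat_lit 256))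 (PT.nd (nat_lit 78) (PT.lf (nat_lit 55936) (nat_lit 6) (nat_lit 736) (nat_lit 2) (nat_lit 257) (nat_lit 268) (nat_lit 255)) (PT.lf (nat_lit 56012) (nat_lit 6) (nat_lit 737) (nat_lit 2) (nat_lit 258) (nat_lit 268) (nat_lit 254))))))))
noncomputable def pc65 : PT := (PT.nd (nat_lit 1326) (PT.nd (nat_lit 624) (PT.nd (nat_lit 312) (PT.nd (nat_lit 156) (PT.nd (nat_lit 78) (PT.lf (nat_lit 56088) (nat_lit 6) (nat_lit 738) (nat_lit 2) (nat_lit 259) (nat_lit 268) (nat_lit 253)) (PT.lf (nat_lit 56164) (nat_lit 6) (nat_lit 739) (nat_lit 2) (nat_lit 260) (nat_lit 268) (nat_lit 252))) (PT.nd (nat_lit 78) (PT.lf (nat_lit 55556) (nat_lit 6) (nat_lit 731) (nat_lit 2) (nat_lit 261) (nat_lit 268) (nat_lit 251)) (PT.lf (nat_lit 54872) (nat_lit 6) (nat_lit 722) (nat_lit 2) (nat_lit 262) (nat_lit 268) (nat_lit 250)))) (PT.nd (nat_lit 156) (PT.nd (nat_lit 78) (PT.lf (nat_lit 54112) (nat_lit 6) (nat_lit 712) (nat_lit 2) (nat_lit 263) (nat_lit 268) (nat_lit 249)) (PT.lf (nat_lit 53276)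 (nat_lit 6) (nat_lit 701) (nat_lit 2) (nat_lit 264) (nat_lit 268) (nat_lit 248))) (PT.nd (nat_lit 78) (PT.lf (nat_lit 52364) (nat_lit 6) (nat_lit 689) (nat_lit 2) (nat_lit 265) (nat_lit 268) (nat_lit 247)) (PT.lf (nat_lit 51376) (nat_lit 6) (nat_lit 676) (nat_lit 2) (nat_lit 266) (nat_lit 268) (nat_lit 246))))) (PT.nd (nat_lit 312) (PT.nd (nat_lit 156) (PT.nd (nat_lit 78) (PT.lf (nat_lit 50312) (nat_lit 6) (nat_lit 662) (nat_lit 2) (nat_lit 267) (nat_lit 268) (nat_lit 245)) (PT.lf (nat_lit 49172) (nat_lit 3) (nat_lit 647) (nat_lit 0) (nat_lit 268) (nat_lit 268) (nat_lit 244))) (PT.nd (nat_lit 78) (PT.lf (nat_lit 47880) (nat_lit 6) (nat_lit 630) (nat_lit 0) (nat_lit 269) (nat_lit 268) (nat_lit 243)) (PT.lf (nat_lit 46512) (nat_lit 6) (nat_lit 612) (nat_lit 0) (nat_lit 270) (nat_lit 268) (nat_lit 242)))) (PT.nd (nat_lit 156) (PT.nd (nat_lit 78) (PT.lf (nat_lit 45068) (nat_lit 6) (nat_lit 593) (nat_lit 0) (nat_lit 271) (nat_lit 268) (nat_lit 241)) (PT.lf (nat_lit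 43548) (nat_lit 6) (nat_lit 573) (nat_lit 0) (nat_lit 272) (nat_lit 268) (nat_lit 240))) (PT.nd (nat_lit 78) (PT.lf (nat_lit 41952) (nat_lit 6) (nat_lit 552) (nat_lit 0) (nat_lit 273) (nat_lit 268) (nat_lit 239)) (PT.nd (nat_lit 78) (PT.lf (nat_lit 40280) (nat_lit 6) (nat_lit 530) (nat_lit 0) (nat_lit 274) (nat_lit 268) (nat_lit 238)) (PT.lf (nat_lit 38532) (nat_lit 6) (nat_lit 507) (nat_lit 0) (nat_lit 275) (nat_lit 268) (nat_lit 237))))))) (PT.nd (nat_lit 624) (PT.nd (nat_lit 312) (PT.nd (nat_lit 156) (PT.nd (nat_lit 78) (PT.lf (nat_lit 36708) (nat_lit 6) (nat_lit 483) (nat_lit 0) (nat_lit 276) (nat_lit 268) (nat_lit 236)) (PT.lf (nat_lit 34808) (nat_lit 6) (nat_lit 458) (nat_lit 0) (nat_lit 277) (nat_lit 268) (nat_lit 235))) (PT.nd (nat_lit 78) (PT.lf (nat_lit 33668) (nat_lit 6) (nat_lit 443) (nat_lit 0) (nat_lit 278) (nat_lit 268) (nat_lit 234)) (PT.lf (nat_lit 32680) (nat_lit 6) (nat_lit 430) (nat_lit 0) (nat_lit 279) (nat_lit 268) (nat_lit 233)))) (PT.nd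 (nat_lit 156) (PT.nd (nat_lit 78) (PT.lf (nat_lit 31692) (nat_lit 6) (nat_lit 417) (nat_lit 0) (nat_lit 280) (nat_lit 268) (nat_lit 232)) (PT.lf (nat_lit 30780) (nat_lit 6) (nat_lit 405) (nat_lit 0) (nat_lit 281) (nat_lit 268) (nat_lit 231))) (PT.nd (nat_lit 78) (PT.lf (nat_lit 29868) (nat_lit 6) (nat_lit 393) (nat_lit 0) (nat_lit 282) (nat_lit 268) (nat_lit 230)) (PT.lf (nat_lit 28956) (nat_lit 6) (nat_lit 381) (nat_lit 0) (nat_lit 283) (nat_lit 268) (nat_lit 229))))) (PT.nd (nat_lit 76518) (PT.nd (nat_lit 156) (PT.nd (nat_lit 78) (PT.lf (nat_lit 28044) (nat_lit 6) (nat_lit 369) (nat_lit 0) (nat_lit 284) (nat_lit 268) (nat_lit 228)) (PT.lf (nat_lit 27208) (nat_lit 6) (nat_lit 358) (nat_lit 0) (nat_lit 285) (nat_lit 268) (nat_lit 227))) (PT.nd (nat_lit 78) (PT.lf (nat_lit 26372) (nat_lit 6) (nat_lit 347) (nat_lit 0) (nat_lit 286) (nat_lit 268) (nat_lit 226)) (PT.lf (nat_lit 25612) (nat_lit 6) (nat_lit 337) (nat_lit 0) (nat_lit 287) (nat_lit 268) (nat_lit 225))))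 (PT.nd (nat_lit 156) (PT.nd (nat_lit 78) (PT.lf (nat_lit 24852) (nat_lit 6) (nat_lit 327) (nat_lit 5) (nat_lit 224) (nat_lit 269) (nat_lit 287)) (PT.lf (nat_lit 25688) (nat_lit 6) (nat_lit 338) (nat_lit 5) (nat_lit 225) (nat_lit 269) (nat_lit 286))) (PT.nd (nat_lit 78) (PT.lf (nat_lit 26448) (nat_lit 6) (nat_lit 348) (nat_lit 5) (nat_lit 226) (nat_lit 269) (nat_lit 285)) (PT.nd (nat_lit 78) (PT.lf (nat_lit 27284) (nat_lit 6) (nat_lit 359) (nat_lit 5) (nat_lit 227) (nat_lit 269) (nat_lit 284)) (PT.lf (nat_lit 28120) (nat_lit 6) (nat_lit 370) (nat_lit 5) (nat_lit 228) (nat_lit 269) (nat_lit 283))))))))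
noncomputable def pc66 : PT := (PT.nd (nat_lit 1326) (PT.nd (nat_lit 624) (PT.nd (nat_lit 312) (PT.nd (nat_lit 156) (PT.nd (nat_lit 78) (PT.lf (nat_lit 29032) (nat_lit 6) (nat_lit 382) (nat_lit 5) (nat_lit 229) (nat_lit 269) (nat_lit 282)) (PT.lf (nat_lit 29944) (nat_lit 6) (nat_lit 394) (nat_lit 5) (nat_lit 230) (nat_lit 269) (nat_lit 281))) (PT.nd (nat_lit 78) (PT.lf (nat_lit 30856) (nat_lit 6) (nat_lit 406) (nat_lit 5) (nat_lit 231) (nat_lit 269) (nat_lit 280)) (PT.lf (nat_lit 31768) (nat_lit 6) (nat_lit 418) (nat_lit 5) (nat_lit 232) (nat_lit 269) (nat_lit 279)))) (PT.nd (nat_lit 156) (PT.nd (nat_lit 78) (PT.lf (nat_lit 32756) (nat_lit 6) (nat_lit 431) (nat_lit 5) (nat_lit 233) (nat_lit 269) (nat_lit 278)) (PT.lf (nat_lit 33744) (nat_lit 6) (nat_lit 444) (nat_lit 5) (nat_lit 234) (nat_lit 269) (nat_lit 277))) (PT.nd (nat_lit 78) (PT.lf (nat_lit 34884) (nat_lit 6) (nat_lit 459) (nat_lit 5) (nat_lit 235) (nat_lit 269) (nat_lit 276)) (PT.lf (nat_lit 36784) (nat_lit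 6) (nat_lit 484) (nat_lit 5) (nat_lit 236) (nat_lit 269) (nat_lit 275))))) (PT.nd (nat_lit 312) (PT.nd (nat_lit 156) (PT.nd (nat_lit 78) (PT.lf (nat_lit 38608) (nat_lit 6) (nat_lit 508) (nat_lit 5) (nat_lit 237) (nat_lit 269) (nat_lit 274)) (PT.lf (nat_lit 40356) (nat_lit 6) (nat_lit 531) (nat_lit 5) (nat_lit 238) (nat_lit 269) (nat_lit 273))) (PT.nd (nat_lit 78) (PT.lf (nat_lit 42028) (nat_lit 6) (nat_lit 553) (nat_lit 5) (nat_lit 239) (nat_lit 269) (nat_lit 272)) (PT.lf (nat_lit 43624) (nat_lit 6) (nat_lit 574) (nat_lit 5) (nat_lit 240) (nat_lit 269) (nat_lit 271)))) (PT.nd (nat_lit 156) (PT.nd (nat_lit 78) (PT.lf (nat_lit 45144) (nat_lit 6) (nat_lit 594) (nat_lit 5) (nat_lit 241) (nat_lit 269) (nat_lit 270)) (PT.lf (nat_lit 46588) (nat_lit 3) (nat_lit 613) (nat_lit 4) (nat_lit 242) (nat_lit 269) (nat_lit 269))) (PT.nd (nat_lit 78) (PT.lf (nat_lit 47880) (nat_lit 6) (nat_lit 630) (nat_lit 4) (nat_lit 243) (nat_lit 269) (nat_lit 268)) (PT.nd (nat_lit 78) (PT.lf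 (nat_lit 49096) (nat_lit 6) (nat_lit 646) (nat_lit 4) (nat_lit 244) (nat_lit 269) (nat_lit 267)) (PT.lf (nat_lit 50236) (nat_lit 6) (nat_lit 661) (nat_lit 4) (nat_lit 245) (nat_lit 269) (nat_lit 266))))))) (PT.nd (nat_lit 624) (PT.nd (nat_lit 312) (PT.nd (nat_lit 156) (PT.nd (nat_lit 78) (PT.lf (nat_lit 51300) (nat_lit 6) (nat_lit 675) (nat_lit 4) (nat_lit 246) (nat_lit 269) (nat_lit 265)) (PT.lf (nat_lit 52288) (nat_lit 6) (nat_lit 688) (nat_lit 4) (nat_lit 247) (nat_lit 269) (nat_lit 264))) (PT.nd (nat_lit 78) (PT.lf (nat_lit 53200) (nat_lit 6) (nat_lit 700) (nat_lit 4) (nat_lit 248) (nat_lit 269) (nat_lit 263)) (PT.lf (nat_lit 54036) (nat_lit 6) (nat_lit 711) (nat_lit 4) (nat_lit 249) (nat_lit 269) (nat_lit 262)))) (PT.nd (nat_lit 156) (PT.nd (nat_lit 78) (PT.lf (nat_lit 54796) (nat_lit 6) (nat_lit 721) (nat_lit 4) (nat_lit 250) (nat_lit 269) (nat_lit 261)) (PT.lf (nat_lit 55480) (nat_lit 6) (nat_lit 730) (nat_lit 4) (nat_lit 251) (nat_lit 269) (nat_lit 260)))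 (PT.nd (nat_lit 78) (PT.lf (nat_lit 55404) (nat_lit 6) (nat_lit 729) (nat_lit 4) (nat_lit 252) (nat_lit 269) (nat_lit 259)) (PT.lf (nat_lit 55328) (nat_lit 6) (nat_lit 728) (nat_lit 4) (nat_lit 253) (nat_lit 269) (nat_lit 258))))) (PT.nd (nat_lit 312) (PT.nd (nat_lit 156) (PT.nd (nat_lit 78) (PT.lf (nat_lit 55252) (nat_lit 6) (nat_lit 727) (nat_lit 4) (nat_lit 254) (nat_lit 269) (nat_lit 257)) (PT.lf (nat_lit 55176) (nat_lit 6) (nat_lit 726) (nat_lit 4) (nat_lit 255) (nat_lit 269) (nat_lit 256))) (PT.nd (nat_lit 78) (PT.lf (nat_lit 55176) (nat_lit 6) (nat_lit 726) (nat_lit 2) (nat_lit 256) (nat_lit 269) (nat_lit 255)) (PT.lf (nat_lit 55252) (nat_lit 6) (nat_lit 727) (nat_lit 2) (nat_lit 257) (nat_lit 269) (nat_lit 254)))) (PT.nd (nat_lit 156) (PT.nd (nat_lit 78) (PT.lf (nat_lit 55328) (nat_lit 6) (nat_lit 728) (nat_lit 2) (nat_lit 258) (nat_lit 269) (nat_lit 253)) (PT.lf (nat_lit 55404) (nat_lit 6) (nat_lit 729) (nat_lit 2) (nat_lit 259) (nat_lit 269) (nat_lit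 252))) (PT.nd (nat_lit 78) (PT.lf (nat_lit 55480) (nat_lit 6) (nat_lit 730) (nat_lit 2) (nat_lit 260) (nat_lit 269) (nat_lit 251)) (PT.nd (nat_lit 78) (PT.lf (nat_lit 54796) (nat_lit 6) (nat_lit 721) (nat_lit 2) (nat_lit 261) (nat_lit 269) (nat_lit 250)) (PT.lf (nat_lit 54036) (nat_lit 6) (nat_lit 711) (nat_lit 2) (nat_lit 262) (nat_lit 269) (nat_lit 249))))))))
noncomputable def pc67 : PT := (PT.nd (nat_lit 1326) (PT.nd (nat_lit 624) (PT.nd (nat_lit 312) (PT.nd (nat_lit 156) (PT.nd (nat_lit 78) (PT.lf (nat_lit 53200) (nat_lit 6) (nat_lit 700) (nat_lit 2) (nat_lit 263) (nat_lit 269) (nat_lit 248)) (PT.lf (nat_lit 52288) (nat_lit 6) (nat_lit 688) (nat_lit 2) (nat_lit 264) (nat_lit 269) (nat_lit 247))) (PT.nd (nat_lit 78) (PT.lf (nat_lit 51300) (nat_lit 6) (nat_lit 675) (nat_lit 2) (nat_lit 265) (nat_lit 269) (nat_lit 246)) (PT.lf (nat_lit 50236) (nat_lit 6) (nat_lit 661) (nat_lit 2) (nat_lit 266) (nat_lit 269) (nat_lit 245)))) (PT.nd (nat_lit 156) (PT.nd (nat_lit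 78) (PT.lf (nat_lit 49096) (nat_lit 6) (nat_lit 646) (nat_lit 2) (nat_lit 267) (nat_lit 269) (nat_lit 244)) (PT.lf (nat_lit 47880) (nat_lit 6) (nat_lit 630) (nat_lit 2) (nat_lit 268) (nat_lit 269) (nat_lit 243))) (PT.nd (nat_lit 78) (PT.lf (nat_lit 46588) (nat_lit 3) (nat_lit 613) (nat_lit 0) (nat_lit 269) (nat_lit 269) (nat_lit 242)) (PT.lf (nat_lit 45144) (nat_lit 6) (nat_lit 594) (nat_lit 0) (nat_lit 270) (nat_lit 269) (nat_lit 241))))) (PT.nd (nat_lit 312) (PT.nd (nat_lit 156) (PT.nd (nat_lit 78) (PT.lf (nat_lit 43624) (nat_lit 6) (nat_lit 574) (nat_lit 0) (nat_lit 271) (nat_lit 269) (nat_lit 240)) (PT.lf (nat_lit 42028) (nat_lit 6) (nat_lit 553) (nat_lit 0) (nat_lit 272) (nat_lit 269) (nat_lit 239))) (PT.nd (nat_lit 78) (PT.lf (nat_lit 40356) (nat_lit 6) (nat_lit 531) (nat_lit 0) (nat_lit 273) (nat_lit 269) (nat_lit 238)) (PT.lf (nat_lit 38608) (nat_lit 6) (nat_lit 508) (nat_lit 0) (nat_lit 274) (nat_lit 269) (nat_lit 237)))) (PT.nd (nat_lit 156) (PT.nd (nat_lit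 78) (PT.lf (nat_lit 36784) (nat_lit 6) (nat_lit 484) (nat_lit 0) (nat_lit 275) (nat_lit 269) (nat_lit 236)) (PT.lf (nat_lit 34884) (nat_lit 6) (nat_lit 459) (nat_lit 0) (nat_lit 276) (nat_lit 269) (nat_lit 235))) (PT.nd (nat_lit 78) (PT.lf (nat_lit 33744) (nat_lit 6) (nat_lit 444) (nat_lit 0) (nat_lit 277) (nat_lit 269) (nat_lit 234)) (PT.nd (nat_lit 78) (PT.lf (nat_lit 32756) (nat_lit 6) (nat_lit 431) (nat_lit 0) (nat_lit 278) (nat_lit 269) (nat_lit 233)) (PT.lf (nat_lit 31768) (nat_lit 6) (nat_lit 418) (nat_lit 0) (nat_lit 279) (nat_lit 269) (nat_lit 232))))))) (PT.nd (nat_lit 76752) (PT.nd (nat_lit 312) (PT.nd (nat_lit 156) (PT.nd (nat_lit 78) (PT.lf (nat_lit 30856) (nat_lit 6) (nat_lit 406) (nat_lit 0) (nat_lit 280) (nat_lit 269) (nat_lit 231)) (PT.lf (nat_lit 29944) (nat_lit 6) (nat_lit 394) (nat_lit 0) (nat_lit 281) (nat_lit 269) (nat_lit 230))) (PT.nd (nat_lit 78) (PT.lf (nat_lit 29032) (nat_lit 6) (nat_lit 382) (nat_lit 0) (nat_lit 282) (nat_lit 269) (nat_lit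 229)) (PT.lf (nat_lit 28120) (nat_lit 6) (nat_lit 370) (nat_lit 0) (nat_lit 283) (nat_lit 269) (nat_lit 228)))) (PT.nd (nat_lit 156) (PT.nd (nat_lit 78) (PT.lf (nat_lit 27284) (nat_lit 6) (nat_lit 359) (nat_lit 0) (nat_lit 284) (nat_lit 269) (nat_lit 227)) (PT.lf (nat_lit 26448) (nat_lit 6) (nat_lit 348) (nat_lit 0) (nat_lit 285) (nat_lit 269) (nat_lit 226))) (PT.nd (nat_lit 78) (PT.lf (nat_lit 25688) (nat_lit 6) (nat_lit 338) (nat_lit 0) (nat_lit 286) (nat_lit 269) (nat_lit 225)) (PT.lf (nat_lit 24852) (nat_lit 6) (nat_lit 327) (nat_lit 0) (nat_lit 287) (nat_lit 269) (nat_lit 224))))) (PT.nd (nat_lit 312) (PT.nd (nat_lit 156) (PT.nd (nat_lit 78) (PT.lf (nat_lit 24168) (nat_lit 6) (nat_lit 318) (nat_lit 5) (nat_lit 223) (nat_lit 270) (nat_lit 287)) (PT.lf (nat_lit 24928) (nat_lit 6) (nat_lit 328) (nat_lit 5) (nat_lit 224) (nat_lit 270) (nat_lit 286))) (PT.nd (nat_lit 78) (PT.lf (nat_lit 25764) (nat_lit 6) (nat_lit 339) (nat_lit 5) (nat_lit 225) (nat_lit 270) (nat_lit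 285)) (PT.lf (nat_lit 26524) (nat_lit 6) (nat_lit 349) (nat_lit 5) (nat_lit 226) (nat_lit 270) (nat_lit 284)))) (PT.nd (nat_lit 156) (PT.nd (nat_lit 78) (PT.lf (nat_lit 27360) (nat_lit 6) (nat_lit 360) (nat_lit 5) (nat_lit 227) (nat_lit 270) (nat_lit 283)) (PT.lf (nat_lit 28196) (nat_lit 6) (nat_lit 371) (nat_lit 5) (nat_lit 228) (nat_lit 270) (nat_lit 282))) (PT.nd (nat_lit 78) (PT.lf (nat_lit 29108) (nat_lit 6) (nat_lit 383) (nat_lit 5) (nat_lit 229) (nat_lit 270) (nat_lit 281)) (PT.nd (nat_lit 78) (PT.lf (nat_lit 30020) (nat_lit 6) (nat_lit 395) (nat_lit 5) (nat_lit 230) (nat_lit 270) (nat_lit 280)) (PT.lf (nat_lit 30932) (nat_lit 6) (nat_lit 407) (nat_lit 5) (nat_lit 231) (nat_lit 270) (nat_lit 279))))))))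
noncomputable def pc68 : PT := (PT.nd (nat_lit 1326) (PT.nd (nat_lit 624) (PT.nd (nat_lit 312) (PT.nd (nat_lit 156) (PT.nd (nat_lit 78) (PT.lf (nat_lit 31844) (nat_lit 6) (nat_lit 419) (nat_lit 5) (nat_lit 232) (nat_lit 270) (nat_lit 278)) (PT.lf (nat_lit 32832) (nat_lit 6) (nat_lit 432) (nat_lit 5) (nat_lit 233) (nat_lit 270) (nat_lit 277))) (PT.nd (nat_lit 78) (PT.lf (nat_lit 33820) (nat_lit 6) (nat_lit 445) (nat_lit 5) (nat_lit 234) (nat_lit 270) (nat_lit 276)) (PT.lf (nat_lit 34960) (nat_lit 6) (nat_lit 460) (nat_lit 5) (nat_lit 235) (nat_lit 270) (nat_lit 275)))) (PT.nd (nat_lit 156) (PT.nd (nat_lit 78) (PT.lf (nat_lit 36860) (nat_lit 6) (nat_lit 485) (nat_lit 5) (nat_lit 236) (nat_lit 270) (nat_lit 274)) (PT.lf (nat_lit 38684) (nat_lit 6) (nat_lit 509) (nat_lit 5) (nat_lit 237) (nat_lit 270) (nat_lit 273))) (PT.nd (nat_lit 78) (PT.lf (nat_lit 40432) (nat_lit 6) (nat_lit 532) (nat_lit 5) (nat_lit 238) (nat_lit 270) (nat_lit 272)) (PT.lf (nat_lit 42104) (nat_lit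 6) (nat_lit 554) (nat_lit 5) (nat_lit 239) (nat_lit 270) (nat_lit 271))))) (PT.nd (nat_lit 312) (PT.nd (nat_lit 156) (PT.nd (nat_lit 78) (PT.lf (nat_lit 43700) (nat_lit 3) (nat_lit 575) (nat_lit 4) (nat_lit 240) (nat_lit 270) (nat_lit 270)) (PT.lf (nat_lit 45144) (nat_lit 6) (nat_lit 594) (nat_lit 4) (nat_lit 241) (nat_lit 270) (nat_lit 269))) (PT.nd (nat_lit 78) (PT.lf (nat_lit 46512) (nat_lit 6) (nat_lit 612) (nat_lit 4) (nat_lit 242) (nat_lit 270) (nat_lit 268)) (PT.lf (nat_lit 47804) (nat_lit 6) (nat_lit 629) (nat_lit 4) (nat_lit 243) (nat_lit 270) (nat_lit 267)))) (PT.nd (nat_lit 156) (PT.nd (nat_lit 78) (PT.lf (nat_lit 49020) (nat_lit 6) (nat_lit 645) (nat_lit 4) (nat_lit 244) (nat_lit 270) (nat_lit 266)) (PT.lf (nat_lit 50160) (nat_lit 6) (nat_lit 660) (nat_lit 4) (nat_lit 245) (nat_lit 270) (nat_lit 265))) (PT.nd (nat_lit 78) (PT.lf (nat_lit 51224) (nat_lit 6) (nat_lit 674) (nat_lit 4) (nat_lit 246) (nat_lit 270) (nat_lit 264)) (PT.nd (nat_lit 78) (PT.lf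 (nat_lit 52212) (nat_lit 6) (nat_lit 687) (nat_lit 4) (nat_lit 247) (nat_lit 270) (nat_lit 263)) (PT.lf (nat_lit 53124) (nat_lit 6) (nat_lit 699) (nat_lit 4) (nat_lit 248) (nat_lit 270) (nat_lit 262))))))) (PT.nd (nat_lit 624) (PT.nd (nat_lit 312) (PT.nd (nat_lit 156) (PT.nd (nat_lit 78) (PT.lf (nat_lit 53960) (nat_lit 6) (nat_lit 710) (nat_lit 4) (nat_lit 249) (nat_lit 270) (nat_lit 261)) (PT.lf (nat_lit 54720) (nat_lit 6) (nat_lit 720) (nat_lit 4) (nat_lit 250) (nat_lit 270) (nat_lit 260))) (PT.nd (nat_lit 78) (PT.lf (nat_lit 54644) (nat_lit 6) (nat_lit 719) (nat_lit 4) (nat_lit 251) (nat_lit 270) (nat_lit 259)) (PT.lf (nat_lit 54568) (nat_lit 6) (nat_lit 718) (nat_lit 4) (nat_lit 252) (nat_lit 270) (nat_lit 258)))) (PT.nd (nat_lit 156) (PT.nd (nat_lit 78) (PT.lf (nat_lit 54492) (nat_lit 6) (nat_lit 717) (nat_lit 4) (nat_lit 253) (nat_lit 270) (nat_lit 257)) (PT.lf (nat_lit 54416) (nat_lit 6) (nat_lit 716) (nat_lit 4) (nat_lit 254) (nat_lit 270) (nat_lit 256)))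 (PT.nd (nat_lit 78) (PT.lf (nat_lit 54340) (nat_lit 3) (nat_lit 715) (nat_lit 2) (nat_lit 255) (nat_lit 270) (nat_lit 255)) (PT.lf (nat_lit 54416) (nat_lit 6) (nat_lit 716) (nat_lit 2) (nat_lit 256) (nat_lit 270) (nat_lit 254))))) (PT.nd (nat_lit 312) (PT.nd (nat_lit 156) (PT.nd (nat_lit 78) (PT.lf (nat_lit 54492) (nat_lit 6) (nat_lit 717) (nat_lit 2) (nat_lit 257) (nat_lit 270) (nat_lit 253)) (PT.lf (nat_lit 54568) (nat_lit 6) (nat_lit 718) (nat_lit 2) (nat_lit 258) (nat_lit 270) (nat_lit 252))) (PT.nd (nat_lit 78) (PT.lf (nat_lit 54644) (nat_lit 6) (nat_lit 719) (nat_lit 2) (nat_lit 259) (nat_lit 270) (nat_lit 251)) (PT.lf (nat_lit 54720) (nat_lit 6) (nat_lit 720) (nat_lit 2) (nat_lit 260) (nat_lit 270) (nat_lit 250)))) (PT.nd (nat_lit 156) (PT.nd (nat_lit 78) (PT.lf (nat_lit 53960) (nat_lit 6) (nat_lit 710) (nat_lit 2) (nat_lit 261) (nat_lit 270) (nat_lit 249)) (PT.lf (nat_lit 53124) (nat_lit 6) (nat_lit 699) (nat_lit 2) (nat_lit 262) (nat_lit 270) (nat_lit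 248))) (PT.nd (nat_lit 78) (PT.lf (nat_lit 52212) (nat_lit 6) (nat_lit 687) (nat_lit 2) (nat_lit 263) (nat_lit 270) (nat_lit 247)) (PT.nd (nat_lit 78) (PT.lf (nat_lit 51224) (nat_lit 6) (nat_lit 674) (nat_lit 2) (nat_lit 264) (nat_lit 270) (nat_lit 246)) (PT.lf (nat_lit 50160) (nat_lit 6) (nat_lit 660) (nat_lit 2) (nat_lit 265) (nat_lit 270) (nat_lit 245))))))))
noncomputable def pc69 : PT := (PT.nd (nat_lit 1326) (PT.nd (nat_lit 624) (PT.nd (nat_lit 312) (PT.nd (nat_lit 156) (PT.nd (nat_lit 78) (PT.lf (nat_lit 49020) (nat_lit 6) (nat_lit 645) (nat_lit 2) (nat_lit 266) (nat_lit 270) (nat_lit 244)) (PT.lf (nat_lit 47804) (nat_lit 6) (nat_lit 629) (nat_lit 2) (nat_lit 267) (nat_lit 270) (nat_lit 243))) (PT.nd (nat_lit 78) (PT.lf (nat_lit 46512) (nat_lit 6) (nat_lit 612) (nat_lit 2) (nat_lit 268) (nat_lit 270) (nat_lit 242)) (PT.lf (nat_lit 45144) (nat_lit 6) (nat_lit 594) (nat_lit 2) (nat_lit 269) (nat_lit 270) (nat_lit 241)))) (PT.nd (nat_lit 156) (PT.nd (nat_lit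 78) (PT.lf (nat_lit 43700) (nat_lit 3) (nat_lit 575) (nat_lit 0) (nat_lit 270) (nat_lit 270) (nat_lit 240)) (PT.lf (nat_lit 42104) (nat_lit 6) (nat_lit 554) (nat_lit 0) (nat_lit 271) (nat_lit 270) (nat_lit 239))) (PT.nd (nat_lit 78) (PT.lf (nat_lit 40432) (nat_lit 6) (nat_lit 532) (nat_lit 0) (nat_lit 272) (nat_lit 270) (nat_lit 238)) (PT.lf (nat_lit 38684) (nat_lit 6) (nat_lit 509) (nat_lit 0) (nat_lit 273) (nat_lit 270) (nat_lit 237))))) (PT.nd (nat_lit 312) (PT.nd (nat_lit 156) (PT.nd (nat_lit 78) (PT.lf (nat_lit 36860) (nat_lit 6) (nat_lit 485) (nat_lit 0) (nat_lit 274) (nat_lit 270) (nat_lit 236)) (PT.lf (nat_lit 34960) (nat_lit 6) (nat_lit 460) (nat_lit 0) (nat_lit 275) (nat_lit 270) (nat_lit 235))) (PT.nd (nat_lit 78) (PT.lf (nat_lit 33820) (nat_lit 6) (nat_lit 445) (nat_lit 0) (nat_lit 276) (nat_lit 270) (nat_lit 234)) (PT.lf (nat_lit 32832) (nat_lit 6) (nat_lit 432) (nat_lit 0) (nat_lit 277) (nat_lit 270) (nat_lit 233)))) (PT.nd (nat_lit 156) (PT.nd (nat_lit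 78) (PT.lf (nat_lit 31844) (nat_lit 6) (nat_lit 419) (nat_lit 0) (nat_lit 278) (nat_lit 270) (nat_lit 232)) (PT.lf (nat_lit 30932) (nat_lit 6) (nat_lit 407) (nat_lit 0) (nat_lit 279) (nat_lit 270) (nat_lit 231))) (PT.nd (nat_lit 78) (PT.lf (nat_lit 30020) (nat_lit 6) (nat_lit 395) (nat_lit 0) (nat_lit 280) (nat_lit 270) (nat_lit 230)) (PT.nd (nat_lit 78) (PT.lf (nat_lit 29108) (nat_lit 6) (nat_lit 383) (nat_lit 0) (nat_lit 281) (nat_lit 270) (nat_lit 229)) (PT.lf (nat_lit 28196) (nat_lit 6) (nat_lit 371) (nat_lit 0) (nat_lit 282) (nat_lit 270) (nat_lit 228))))))) (PT.nd (nat_lit 76596) (PT.nd (nat_lit 312) (PT.nd (nat_lit 156) (PT.nd (nat_lit 78) (PT.lf (nat_lit 27360) (nat_lit 6) (nat_lit 360) (nat_lit 0) (nat_lit 283) (nat_lit 270) (nat_lit 227)) (PT.lf (nat_lit 26524) (nat_lit 6) (nat_lit 349) (nat_lit 0) (nat_lit 284) (nat_lit 270) (nat_lit 226))) (PT.nd (nat_lit 78) (PT.lf (nat_lit 25764) (nat_lit 6) (nat_lit 339) (nat_lit 0) (nat_lit 285) (nat_lit 270) (nat_lit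 225)) (PT.lf (nat_lit 24928) (nat_lit 6) (nat_lit 328) (nat_lit 0) (nat_lit 286) (nat_lit 270) (nat_lit 224)))) (PT.nd (nat_lit 76128) (PT.nd (nat_lit 76050) (PT.lf (nat_lit 24168) (nat_lit 6) (nat_lit 318) (nat_lit 0) (nat_lit 287) (nat_lit 270) (nat_lit 223)) (PT.lf (nat_lit 22800) (nat_lit 6) (nat_lit 300) (nat_lit 5) (nat_lit 221) (nat_lit 271) (nat_lit 288))) (PT.nd (nat_lit 78) (PT.lf (nat_lit 23484) (nat_lit 6) (nat_lit 309) (nat_lit 5) (nat_lit 222) (nat_lit 271) (nat_lit 287)) (PT.lf (nat_lit 24244) (nat_lit 6) (nat_lit 319) (nat_lit 5) (nat_lit 223) (nat_lit 271) (nat_lit 286))))) (PT.nd (nat_lit 312) (PT.nd (nat_lit 156) (PT.nd (nat_lit 78) (PT.lf (nat_lit 25004) (nat_lit 6) (nat_lit 329) (nat_lit 5) (nat_lit 224) (nat_lit 271) (nat_lit 285)) (PT.lf (nat_lit 25840) (nat_lit 6) (nat_lit 340) (nat_lit 5) (nat_lit 225) (nat_lit 271) (nat_lit 284))) (PT.nd (nat_lit 78) (PT.lf (nat_lit 26600) (nat_lit 6) (nat_lit 350) (nat_lit 5) (nat_lit 226) (nat_lit 271)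 (nat_lit 283)) (PT.lf (nat_lit 27436) (nat_lit 6) (nat_lit 361) (nat_lit 5) (nat_lit 227) (nat_lit 271) (nat_lit 282)))) (PT.nd (nat_lit 156) (PT.nd (nat_lit 78) (PT.lf (nat_lit 28272) (nat_lit 6) (nat_lit 372) (nat_lit 5) (nat_lit 228) (nat_lit 271) (nat_lit 281)) (PT.lf (nat_lit 29184) (nat_lit 6) (nat_lit 384) (nat_lit 5) (nat_lit 229) (nat_lit 271) (nat_lit 280))) (PT.nd (nat_lit 78) (PT.lf (nat_lit 30096) (nat_lit 6) (nat_lit 396) (nat_lit 5) (nat_lit 230) (nat_lit 271) (nat_lit 279)) (PT.nd (nat_lit 78) (PT.lf (nat_lit 31008) (nat_lit 6) (nat_lit 408) (nat_lit 5) (nat_lit 231) (nat_lit 271) (nat_lit 278)) (PT.lf (nat_lit 31920) (nat_lit 6) (nat_lit 420) (nat_lit 5) (nat_lit 232) (nat_lit 271) (nat_lit 277))))))))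
noncomputable def pc70 : PT := (PT.nd (nat_lit 1326) (PT.nd (nat_lit 624) (PT.nd (nat_lit 312) (PT.nd (nat_lit 156) (PT.nd (nat_lit 78) (PT.lf (nat_lit 32908) (nat_lit 6) (nat_lit 433) (nat_lit 5) (nat_lit 233) (nat_lit 271) (nat_lit 276)) (PT.lf (nat_lit 33896) (nat_lit 6) (nat_lit 446) (nat_lit 5) (nat_lit 234) (nat_lit 271) (nat_lit 275))) (PT.nd (nat_lit 78) (PT.lf (nat_lit 35036) (nat_lit 6) (nat_lit 461) (nat_lit 5) (nat_lit 235) (nat_lit 271) (nat_lit 274)) (PT.lf (nat_lit 36936) (nat_lit 6) (nat_lit 486) (nat_lit 5) (nat_lit 236) (nat_lit 271) (nat_lit 273)))) (PT.nd (nat_lit 156) (PT.nd (nat_lit 78) (PT.lf (nat_lit 38760) (nat_lit 6) (nat_lit 510) (nat_lit 5) (nat_lit 237) (nat_lit 271) (nat_lit 272)) (PT.lf (nat_lit 40508) (nat_lit 3) (nat_lit 533) (nat_lit 4) (nat_lit 238) (nat_lit 271) (nat_lit 271))) (PT.nd (nat_lit 78) (PT.lf (nat_lit 42104) (nat_lit 6) (nat_lit 554) (nat_lit 4) (nat_lit 239) (nat_lit 271) (nat_lit 270)) (PT.lf (nat_lit 43624) (nat_lit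 6) (nat_lit 574) (nat_lit 4) (nat_lit 240) (nat_lit 271) (nat_lit 269))))) (PT.nd (nat_lit 312) (PT.nd (nat_lit 156) (PT.nd (nat_lit 78) (PT.lf (nat_lit 45068) (nat_lit 6) (nat_lit 593) (nat_lit 4) (nat_lit 241) (nat_lit 271) (nat_lit 268)) (PT.lf (nat_lit 46436) (nat_lit 6) (nat_lit 611) (nat_lit 4) (nat_lit 242) (nat_lit 271) (nat_lit 267))) (PT.nd (nat_lit 78) (PT.lf (nat_lit 47728) (nat_lit 6) (nat_lit 628) (nat_lit 4) (nat_lit 243) (nat_lit 271) (nat_lit 266)) (PT.lf (nat_lit 48944) (nat_lit 6) (nat_lit 644) (nat_lit 4) (nat_lit 244) (nat_lit 271) (nat_lit 265)))) (PT.nd (nat_lit 156) (PT.nd (nat_lit 78) (PT.lf (nat_lit 50084) (nat_lit 6) (nat_lit 659) (nat_lit 4) (nat_lit 245) (nat_lit 271) (nat_lit 264)) (PT.lf (nat_lit 51148) (nat_lit 6) (nat_lit 673) (nat_lit 4) (nat_lit 246) (nat_lit 271) (nat_lit 263))) (PT.nd (nat_lit 78) (PT.lf (nat_lit 52136) (nat_lit 6) (nat_lit 686) (nat_lit 4) (nat_lit 247) (nat_lit 271) (nat_lit 262)) (PT.nd (nat_lit 78) (PT.lf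 (nat_lit 53048) (nat_lit 6) (nat_lit 698) (nat_lit 4) (nat_lit 248) (nat_lit 271) (nat_lit 261)) (PT.lf (nat_lit 53884) (nat_lit 6) (nat_lit 709) (nat_lit 4) (nat_lit 249) (nat_lit 271) (nat_lit 260))))))) (PT.nd (nat_lit 624) (PT.nd (nat_lit 312) (PT.nd (nat_lit 156) (PT.nd (nat_lit 78) (PT.lf (nat_lit 53808) (nat_lit 6) (nat_lit 708) (nat_lit 4) (nat_lit 250) (nat_lit 271) (nat_lit 259)) (PT.lf (nat_lit 53732) (nat_lit 6) (nat_lit 707) (nat_lit 4) (nat_lit 251) (nat_lit 271) (nat_lit 258))) (PT.nd (nat_lit 78) (PT.lf (nat_lit 53656) (nat_lit 6) (nat_lit 706) (nat_lit 4) (nat_lit 252) (nat_lit 271) (nat_lit 257)) (PT.lf (nat_lit 53580) (nat_lit 6) (nat_lit 705) (nat_lit 4) (nat_lit 253) (nat_lit 271) (nat_lit 256)))) (PT.nd (nat_lit 156) (PT.nd (nat_lit 78) (PT.lf (nat_lit 53504) (nat_lit 6) (nat_lit 704) (nat_lit 4) (nat_lit 254) (nat_lit 271) (nat_lit 255)) (PT.lf (nat_lit 53504) (nat_lit 6) (nat_lit 704) (nat_lit 2) (nat_lit 255) (nat_lit 271) (nat_lit 254)))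 (PT.nd (nat_lit 78) (PT.lf (nat_lit 53580) (nat_lit 6) (nat_lit 705) (nat_lit 2) (nat_lit 256) (nat_lit 271) (nat_lit 253)) (PT.lf (nat_lit 53656) (nat_lit 6) (nat_lit 706) (nat_lit 2) (nat_lit 257) (nat_lit 271) (nat_lit 252))))) (PT.nd (nat_lit 312) (PT.nd (nat_lit 156) (PT.nd (nat_lit 78) (PT.lf (nat_lit 53732) (nat_lit 6) (nat_lit 707) (nat_lit 2) (nat_lit 258) (nat_lit 271) (nat_lit 251)) (PT.lf (nat_lit 53808) (nat_lit 6) (nat_lit 708) (nat_lit 2) (nat_lit 259) (nat_lit 271) (nat_lit 250))) (PT.nd (nat_lit 78) (PT.lf (nat_lit 53884) (nat_lit 6) (nat_lit 709) (nat_lit 2) (nat_lit 260) (nat_lit 271) (nat_lit 249)) (PT.lf (nat_lit 53048) (nat_lit 6) (nat_lit 698) (nat_lit 2) (nat_lit 261) (nat_lit 271) (nat_lit 248)))) (PT.nd (nat_lit 156) (PT.nd (nat_lit 78) (PT.lf (nat_lit 52136) (nat_lit 6) (nat_lit 686) (nat_lit 2) (nat_lit 262) (nat_lit 271) (nat_lit 247)) (PT.lf (nat_lit 51148) (nat_lit 6) (nat_lit 673) (nat_lit 2) (nat_lit 263) (nat_lit 271) (nat_lit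 246))) (PT.nd (nat_lit 78) (PT.lf (nat_lit 50084) (nat_lit 6) (nat_lit 659) (nat_lit 2) (nat_lit 264) (nat_lit 271) (nat_lit 245)) (PT.nd (nat_lit 78) (PT.lf (nat_lit 48944) (nat_lit 6) (nat_lit 644) (nat_lit 2) (nat_lit 265) (nat_lit 271) (nat_lit 244)) (PT.lf (nat_lit 47728) (nat_lit 6) (nat_lit 628) (nat_lit 2) (nat_lit 266) (nat_lit 271) (nat_lit 243))))))))
noncomputable def pc71 : PT := (PT.nd (nat_lit 1326) (PT.nd (nat_lit 624) (PT.nd (nat_lit 312) (PT.nd (nat_lit 156) (PT.nd (nat_lit 78) (PT.lf (nat_lit 46436) (nat_lit 6) (nat_lit 611) (nat_lit 2) (nat_lit 267) (nat_lit 271) (nat_lit 242)) (PT.lf (nat_lit 45068) (nat_lit 6) (nat_lit 593) (nat_lit 2) (nat_lit 268) (nat_lit 271) (nat_lit 241))) (PT.nd (nat_lit 78) (PT.lf (nat_lit 43624) (nat_lit 6) (nat_lit 574) (nat_lit 2) (nat_lit 269) (nat_lit 271) (nat_lit 240)) (PT.lf (nat_lit 42104) (nat_lit 6) (nat_lit 554) (nat_lit 2) (nat_lit 270) (nat_lit 271) (nat_lit 239)))) (PT.nd (nat_lit 156) (PT.nd (nat_lit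 78) (PT.lf (nat_lit 40508) (nat_lit 3) (nat_lit 533) (nat_lit 0) (nat_lit 271) (nat_lit 271) (nat_lit 238)) (PT.lf (nat_lit 38760) (nat_lit 6) (nat_lit 510) (nat_lit 0) (nat_lit 272) (nat_lit 271) (nat_lit 237))) (PT.nd (nat_lit 78) (PT.lf (nat_lit 36936) (nat_lit 6) (nat_lit 486) (nat_lit 0) (nat_lit 273) (nat_lit 271) (nat_lit 236)) (PT.lf (nat_lit 35036) (nat_lit 6) (nat_lit 461) (nat_lit 0) (nat_lit 274) (nat_lit 271) (nat_lit 235))))) (PT.nd (nat_lit 312) (PT.nd (nat_lit 156) (PT.nd (nat_lit 78) (PT.lf (nat_lit 33896) (nat_lit 6) (nat_lit 446) (nat_lit 0) (nat_lit 275) (nat_lit 271) (nat_lit 234)) (PT.lf (nat_lit 32908) (nat_lit 6) (nat_lit 433) (nat_lit 0) (nat_lit 276) (nat_lit 271) (nat_lit 233))) (PT.nd (nat_lit 78) (PT.lf (nat_lit 31920) (nat_lit 6) (nat_lit 420) (nat_lit 0) (nat_lit 277) (nat_lit 271) (nat_lit 232)) (PT.lf (nat_lit 31008) (nat_lit 6) (nat_lit 408) (nat_lit 0) (nat_lit 278) (nat_lit 271) (nat_lit 231)))) (PT.nd (nat_lit 156) (PT.nd (nat_lit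 78) (PT.lf (nat_lit 30096) (nat_lit 6) (nat_lit 396) (nat_lit 0) (nat_lit 279) (nat_lit 271) (nat_lit 230)) (PT.lf (nat_lit 29184) (nat_lit 6) (nat_lit 384) (nat_lit 0) (nat_lit 280) (nat_lit 271) (nat_lit 229))) (PT.nd (nat_lit 78) (PT.lf (nat_lit 28272) (nat_lit 6) (nat_lit 372) (nat_lit 0) (nat_lit 281) (nat_lit 271) (nat_lit 228)) (PT.nd (nat_lit 78) (PT.lf (nat_lit 27436) (nat_lit 6) (nat_lit 361) (nat_lit 0) (nat_lit 282) (nat_lit 271) (nat_lit 227)) (PT.lf (nat_lit 26600) (nat_lit 6) (nat_lit 350) (nat_lit 0) (nat_lit 283) (nat_lit 271) (nat_lit 226))))))) (PT.nd (nat_lit 76440) (PT.nd (nat_lit 312) (PT.nd (nat_lit 156) (PT.nd (nat_lit 78) (PT.lf (nat_lit 25840) (nat_lit 6) (nat_lit 340) (nat_lit 0) (nat_lit 284) (nat_lit 271) (nat_lit 225)) (PT.lf (nat_lit 25004) (nat_lit 6) (nat_lit 329) (nat_lit 0) (nat_lit 285) (nat_lit 271) (nat_lit 224))) (PT.nd (nat_lit 78) (PT.lf (nat_lit 24244) (nat_lit 6) (nat_lit 319) (nat_lit 0) (nat_lit 286) (nat_lit 271) (nat_lit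 223)) (PT.lf (nat_lit 23484) (nat_lit 6) (nat_lit 309) (nat_lit 0) (nat_lit 287) (nat_lit 271) (nat_lit 222)))) (PT.nd (nat_lit 75972) (PT.nd (nat_lit 75894) (PT.lf (nat_lit 22800) (nat_lit 6) (nat_lit 300) (nat_lit 0) (nat_lit 288) (nat_lit 271) (nat_lit 221)) (PT.lf (nat_lit 22116) (nat_lit 6) (nat_lit 291) (nat_lit 5) (nat_lit 220) (nat_lit 272) (nat_lit 288))) (PT.nd (nat_lit 78) (PT.lf (nat_lit 22876) (nat_lit 6) (nat_lit 301) (nat_lit 5) (nat_lit 221) (nat_lit 272) (nat_lit 287)) (PT.lf (nat_lit 23560) (nat_lit 6) (nat_lit 310) (nat_lit 5) (nat_lit 222) (nat_lit 272) (nat_lit 286))))) (PT.nd (nat_lit 312) (PT.nd (nat_lit 156) (PT.nd (nat_lit 78) (PT.lf (nat_lit 24320) (nat_lit 6) (nat_lit 320) (nat_lit 5) (nat_lit 223) (nat_lit 272) (nat_lit 285)) (PT.lf (nat_lit 25080) (nat_lit 6) (nat_lit 330) (nat_lit 5) (nat_lit 224) (nat_lit 272) (nat_lit 284))) (PT.nd (nat_lit 78) (PT.lf (nat_lit 25916) (nat_lit 6) (nat_lit 341) (nat_lit 5) (nat_lit 225) (nat_lit 272)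 (nat_lit 283)) (PT.lf (nat_lit 26676) (nat_lit 6) (nat_lit 351) (nat_lit 5) (nat_lit 226) (nat_lit 272) (nat_lit 282)))) (PT.nd (nat_lit 156) (PT.nd (nat_lit 78) (PT.lf (nat_lit 27512) (nat_lit 6) (nat_lit 362) (nat_lit 5) (nat_lit 227) (nat_lit 272) (nat_lit 281)) (PT.lf (nat_lit 28348) (nat_lit 6) (nat_lit 373) (nat_lit 5) (nat_lit 228) (nat_lit 272) (nat_lit 280))) (PT.nd (nat_lit 78) (PT.lf (nat_lit 29260) (nat_lit 6) (nat_lit 385) (nat_lit 5) (nat_lit 229) (nat_lit 272) (nat_lit 279)) (PT.nd (nat_lit 78) (PT.lf (nat_lit 30172) (nat_lit 6) (nat_lit 397) (nat_lit 5) (nat_lit 230) (nat_lit 272) (nat_lit 278)) (PT.lf (nat_lit 31084) (nat_lit 6) (nat_lit 409) (nat_lit 5) (nat_lit 231) (nat_lit 272) (nat_lit 277))))))))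
noncomputable def pc72 : PT := (PT.nd (nat_lit 1248) (PT.nd (nat_lit 624) (PT.nd (nat_lit 312) (PT.nd (nat_lit 156) (PT.nd (nat_lit 78) (PT.lf (nat_lit 31996) (nat_lit 6) (nat_lit 421) (nat_lit 5) (nat_lit 232) (nat_lit 272) (nat_lit 276)) (PT.lf (nat_lit 32984) (nat_lit 6) (nat_lit 434) (nat_lit 5) (nat_lit 233) (nat_lit 272) (nat_lit 275))) (PT.nd (nat_lit 78) (PT.lf (nat_lit 33972) (nat_lit 6) (nat_lit 447) (nat_lit 5) (nat_lit 234) (nat_lit 272) (nat_lit 274)) (PT.lf (nat_lit 35112) (nat_lit 6) (nat_lit 462) (nat_lit 5) (nat_lit 235) (nat_lit 272) (nat_lit 273)))) (PT.nd (nat_lit 156) (PT.nd (nat_lit 78) (PT.lf (nat_lit 37012) (nat_lit 3) (nat_lit 487) (nat_lit 4) (nat_lit 236) (nat_lit 272) (nat_lit 272)) (PT.lf (nat_lit 38760) (nat_lit 6) (nat_lit 510) (nat_lit 4) (nat_lit 237) (nat_lit 272) (nat_lit 271))) (PT.nd (nat_lit 78) (PT.lf (nat_lit 40432) (nat_lit 6) (nat_lit 532) (nat_lit 4) (nat_lit 238) (nat_lit 272) (nat_lit 270)) (PT.lf (nat_lit 42028) (nat_lit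 6) (nat_lit 553) (nat_lit 4) (nat_lit 239) (nat_lit 272) (nat_lit 269))))) (PT.nd (nat_lit 312) (PT.nd (nat_lit 156) (PT.nd (nat_lit 78) (PT.lf (nat_lit 43548) (nat_lit 6) (nat_lit 573) (nat_lit 4) (nat_lit 240) (nat_lit 272) (nat_lit 268)) (PT.lf (nat_lit 44992) (nat_lit 6) (nat_lit 592) (nat_lit 4) (nat_lit 241) (nat_lit 272) (nat_lit 267))) (PT.nd (nat_lit 78) (PT.lf (nat_lit 46360) (nat_lit 6) (nat_lit 610) (nat_lit 4) (nat_lit 242) (nat_lit 272) (nat_lit 266)) (PT.lf (nat_lit 47652) (nat_lit 6) (nat_lit 627) (nat_lit 4) (nat_lit 243) (nat_lit 272) (nat_lit 265)))) (PT.nd (nat_lit 156) (PT.nd (nat_lit 78) (PT.lf (nat_lit 48868) (nat_lit 6) (nat_lit 643) (nat_lit 4) (nat_lit 244) (nat_lit 272) (nat_lit 264)) (PT.lf (nat_lit 50008) (nat_lit 6) (nat_lit 658) (nat_lit 4) (nat_lit 245) (nat_lit 272) (nat_lit 263))) (PT.nd (nat_lit 78) (PT.lf (nat_lit 51072) (nat_lit 6) (nat_lit 672) (nat_lit 4) (nat_lit 246) (nat_lit 272) (nat_lit 262)) (PT.lf (nat_lit 52060) (nat_lit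 6) (nat_lit 685) (nat_lit 4) (nat_lit 247) (nat_lit 272) (nat_lit 261)))))) (PT.nd (nat_lit 624) (PT.nd (nat_lit 312) (PT.nd (nat_lit 156) (PT.nd (nat_lit 78) (PT.lf (nat_lit 52972) (nat_lit 6) (nat_lit 697) (nat_lit 4) (nat_lit 248) (nat_lit 272) (nat_lit 260)) (PT.lf (nat_lit 52896) (nat_lit 6) (nat_lit 696) (nat_lit 4) (nat_lit 249) (nat_lit 272) (nat_lit 259))) (PT.nd (nat_lit 78) (PT.lf (nat_lit 52820) (nat_lit 6) (nat_lit 695) (nat_lit 4) (nat_lit 250) (nat_lit 272) (nat_lit 258)) (PT.lf (nat_lit 52744) (nat_lit 6) (nat_lit 694) (nat_lit 4) (nat_lit 251) (nat_lit 272) (nat_lit 257)))) (PT.nd (nat_lit 156) (PT.nd (nat_lit 78) (PT.lf (nat_lit 52668) (nat_lit 6) (nat_lit 693) (nat_lit 4) (nat_lit 252) (nat_lit 272) (nat_lit 256)) (PT.lf (nat_lit 52592) (nat_lit 6) (nat_lit 692) (nat_lit 4) (nat_lit 253) (nat_lit 272) (nat_lit 255))) (PT.nd (nat_lit 78) (PT.lf (nat_lit 52516) (nat_lit 3) (nat_lit 691) (nat_lit 2) (nat_lit 254) (nat_lit 272) (nat_lit 254)) (PT.lf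 (nat_lit 52592) (nat_lit 6) (nat_lit 692) (nat_lit 2) (nat_lit 255) (nat_lit 272) (nat_lit 253))))) (PT.nd (nat_lit 312) (PT.nd (nat_lit 156) (PT.nd (nat_lit 78) (PT.lf (nat_lit 52668) (nat_lit 6) (nat_lit 693) (nat_lit 2) (nat_lit 256) (nat_lit 272) (nat_lit 252)) (PT.lf (nat_lit 52744) (nat_lit 6) (nat_lit 694) (nat_lit 2) (nat_lit 257) (nat_lit 272) (nat_lit 251))) (PT.nd (nat_lit 78) (PT.lf (nat_lit 52820) (nat_lit 6) (nat_lit 695) (nat_lit 2) (nat_lit 258) (nat_lit 272) (nat_lit 250)) (PT.lf (nat_lit 52896) (nat_lit 6) (nat_lit 696) (nat_lit 2) (nat_lit 259) (nat_lit 272) (nat_lit 249)))) (PT.nd (nat_lit 156) (PT.nd (nat_lit 78) (PT.lf (nat_lit 52972) (nat_lit 6) (nat_lit 697) (nat_lit 2) (nat_lit 260) (nat_lit 272) (nat_lit 248)) (PT.lf (nat_lit 52060) (nat_lit 6) (nat_lit 685) (nat_lit 2) (nat_lit 261) (nat_lit 272) (nat_lit 247))) (PT.nd (nat_lit 78) (PT.lf (nat_lit 51072) (nat_lit 6) (nat_lit 672) (nat_lit 2) (nat_lit 262) (nat_lit 272) (nat_lit 246))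 (PT.nd (nat_lit 78) (PT.lf (nat_lit 50008) (nat_lit 6) (nat_lit 658) (nat_lit 2) (nat_lit 263) (nat_lit 272) (nat_lit 245)) (PT.lf (nat_lit 48868) (nat_lit 6) (nat_lit 643) (nat_lit 2) (nat_lit 264) (nat_lit 272) (nat_lit 244))))))))
noncomputable def pc73 : PT := (PT.nd (nat_lit 1326) (PT.nd (nat_lit 624) (PT.nd (nat_lit 312) (PT.nd (nat_lit 156) (PT.nd (nat_lit 78) (PT.lf (nat_lit 47652) (nat_lit 6) (nat_lit 627) (nat_lit 2) (nat_lit 265) (nat_lit 272) (nat_lit 243)) (PT.lf (nat_lit 46360) (nat_lit 6) (nat_lit 610) (nat_lit 2) (nat_lit 266) (nat_lit 272) (nat_lit 242))) (PT.nd (nat_lit 78) (PT.lf (nat_lit 44992) (nat_lit 6) (nat_lit 592) (nat_lit 2) (nat_lit 267) (nat_lit 272) (nat_lit 241)) (PT.lf (nat_lit 43548) (nat_lit 6) (nat_lit 573) (nat_lit 2) (nat_lit 268) (nat_lit 272) (nat_lit 240)))) (PT.nd (nat_lit 156) (PT.nd (nat_lit 78) (PT.lf (nat_lit 42028) (nat_lit 6) (nat_lit 553) (nat_lit 2) (nat_lit 269) (nat_lit 272) (nat_lit 239)) (PT.lf (nat_lit 40432)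 (nat_lit 6) (nat_lit 532) (nat_lit 2) (nat_lit 270) (nat_lit 272) (nat_lit 238))) (PT.nd (nat_lit 78) (PT.lf (nat_lit 38760) (nat_lit 6) (nat_lit 510) (nat_lit 2) (nat_lit 271) (nat_lit 272) (nat_lit 237)) (PT.lf (nat_lit 37012) (nat_lit 3) (nat_lit 487) (nat_lit 0) (nat_lit 272) (nat_lit 272) (nat_lit 236))))) (PT.nd (nat_lit 312) (PT.nd (nat_lit 156) (PT.nd (nat_lit 78) (PT.lf (nat_lit 35112) (nat_lit 6) (nat_lit 462) (nat_lit 0) (nat_lit 273) (nat_lit 272) (nat_lit 235)) (PT.lf (nat_lit 33972) (nat_lit 6) (nat_lit 447) (nat_lit 0) (nat_lit 274) (nat_lit 272) (nat_lit 234))) (PT.nd (nat_lit 78) (PT.lf (nat_lit 32984) (nat_lit 6) (nat_lit 434) (nat_lit 0) (nat_lit 275) (nat_lit 272) (nat_lit 233)) (PT.lf (nat_lit 31996) (nat_lit 6) (nat_lit 421) (nat_lit 0) (nat_lit 276) (nat_lit 272) (nat_lit 232)))) (PT.nd (nat_lit 156) (PT.nd (nat_lit 78) (PT.lf (nat_lit 31084) (nat_lit 6) (nat_lit 409) (nat_lit 0) (nat_lit 277) (nat_lit 272) (nat_lit 231)) (PT.lf (nat_lit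 30172) (nat_lit 6) (nat_lit 397) (nat_lit 0) (nat_lit 278) (nat_lit 272) (nat_lit 230))) (PT.nd (nat_lit 78) (PT.lf (nat_lit 29260) (nat_lit 6) (nat_lit 385) (nat_lit 0) (nat_lit 279) (nat_lit 272) (nat_lit 229)) (PT.nd (nat_lit 78) (PT.lf (nat_lit 28348) (nat_lit 6) (nat_lit 373) (nat_lit 0) (nat_lit 280) (nat_lit 272) (nat_lit 228)) (PT.lf (nat_lit 27512) (nat_lit 6) (nat_lit 362) (nat_lit 0) (nat_lit 281) (nat_lit 272) (nat_lit 227))))))) (PT.nd (nat_lit 76362) (PT.nd (nat_lit 312) (PT.nd (nat_lit 156) (PT.nd (nat_lit 78) (PT.lf (nat_lit 26676) (nat_lit 6) (nat_lit 351) (nat_lit 0) (nat_lit 282) (nat_lit 272) (nat_lit 226)) (PT.lf (nat_lit 25916) (nat_lit 6) (nat_lit 341) (nat_lit 0) (nat_lit 283) (nat_lit 272) (nat_lit 225))) (PT.nd (nat_lit 78) (PT.lf (nat_lit 25080) (nat_lit 6) (nat_lit 330) (nat_lit 0) (nat_lit 284) (nat_lit 272) (nat_lit 224)) (PT.lf (nat_lit 24320) (nat_lit 6) (nat_lit 320) (nat_lit 0) (nat_lit 285) (nat_lit 272) (nat_lit 223)))) (PT.nd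 (nat_lit 156) (PT.nd (nat_lit 78) (PT.lf (nat_lit 23560) (nat_lit 6) (nat_lit 310) (nat_lit 0) (nat_lit 286) (nat_lit 272) (nat_lit 222)) (PT.lf (nat_lit 22876) (nat_lit 6) (nat_lit 301) (nat_lit 0) (nat_lit 287) (nat_lit 272) (nat_lit 221))) (PT.nd (nat_lit 75816) (PT.lf (nat_lit 22116) (nat_lit 6) (nat_lit 291) (nat_lit 0) (nat_lit 288) (nat_lit 272) (nat_lit 220)) (PT.lf (nat_lit 21508) (nat_lit 6) (nat_lit 283) (nat_lit 5) (nat_lit 219) (nat_lit 273) (nat_lit 288))))) (PT.nd (nat_lit 312) (PT.nd (nat_lit 156) (PT.nd (nat_lit 78) (PT.lf (nat_lit 22192) (nat_lit 6) (nat_lit 292) (nat_lit 5) (nat_lit 220) (nat_lit 273) (nat_lit 287)) (PT.lf (nat_lit 22952) (nat_lit 6) (nat_lit 302) (nat_lit 5) (nat_lit 221) (nat_lit 273) (nat_lit 286))) (PT.nd (nat_lit 78) (PT.lf (nat_lit 23636) (nat_lit 6) (nat_lit 311) (nat_lit 5) (nat_lit 222) (nat_lit 273) (nat_lit 285)) (PT.lf (nat_lit 24396) (nat_lit 6) (nat_lit 321) (nat_lit 5) (nat_lit 223) (nat_lit 273) (nat_lit 284))))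 (PT.nd (nat_lit 156) (PT.nd (nat_lit 78) (PT.lf (nat_lit 25156) (nat_lit 6) (nat_lit 331) (nat_lit 5) (nat_lit 224) (nat_lit 273) (nat_lit 283)) (PT.lf (nat_lit 25992) (nat_lit 6) (nat_lit 342) (nat_lit 5) (nat_lit 225) (nat_lit 273) (nat_lit 282))) (PT.nd (nat_lit 78) (PT.lf (nat_lit 26752) (nat_lit 6) (nat_lit 352) (nat_lit 5) (nat_lit 226) (nat_lit 273) (nat_lit 281)) (PT.nd (nat_lit 78) (PT.lf (nat_lit 27588) (nat_lit 6) (nat_lit 363) (nat_lit 5) (nat_lit 227) (nat_lit 273) (nat_lit 280)) (PT.lf (nat_lit 28424) (nat_lit 6) (nat_lit 374) (nat_lit 5) (nat_lit 228) (nat_lit 273) (nat_lit 279))))))))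
noncomputable def pc74 : PT := (PT.nd (nat_lit 1326) (PT.nd (nat_lit 624) (PT.nd (nat_lit 312) (PT.nd (nat_lit 156) (PT.nd (nat_lit 78) (PT.lf (nat_lit 29336) (nat_lit 6) (nat_lit 386) (nat_lit 5) (nat_lit 229) (nat_lit 273) (nat_lit 278)) (PT.lf (nat_lit 30248) (nat_lit 6) (nat_lit 398) (nat_lit 5) (nat_lit 230) (nat_lit 273) (nat_lit 277))) (PT.nd (nat_lit 78) (PT.lf (nat_lit 31160) (nat_lit 6) (nat_lit 410) (nat_lit 5) (nat_lit 231) (nat_lit 273) (nat_lit 276)) (PT.lf (nat_lit 32072) (nat_lit 6) (nat_lit 422) (nat_lit 5) (nat_lit 232) (nat_lit 273) (nat_lit 275)))) (PT.nd (nat_lit 156) (PT.nd (nat_lit 78) (PT.lf (nat_lit 33060) (nat_lit 6) (nat_lit 435) (nat_lit 5) (nat_lit 233) (nat_lit 273) (nat_lit 274)) (PT.lf (nat_lit 34048) (nat_lit 3) (nat_lit 448) (nat_lit 4) (nat_lit 234) (nat_lit 273) (nat_lit 273))) (PT.nd (nat_lit 78) (PT.lf (nat_lit 35112) (nat_lit 6) (nat_lit 462) (nat_lit 4) (nat_lit 235) (nat_lit 273) (nat_lit 272)) (PT.lf (nat_lit 36936) (nat_lit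 6) (nat_lit 486) (nat_lit 4) (nat_lit 236) (nat_lit 273) (nat_lit 271))))) (PT.nd (nat_lit 312) (PT.nd (nat_lit 156) (PT.nd (nat_lit 78) (PT.lf (nat_lit 38684) (nat_lit 6) (nat_lit 509) (nat_lit 4) (nat_lit 237) (nat_lit 273) (nat_lit 270)) (PT.lf (nat_lit 40356) (nat_lit 6) (nat_lit 531) (nat_lit 4) (nat_lit 238) (nat_lit 273) (nat_lit 269))) (PT.nd (nat_lit 78) (PT.lf (nat_lit 41952) (nat_lit 6) (nat_lit 552) (nat_lit 4) (nat_lit 239) (nat_lit 273) (nat_lit 268)) (PT.lf (nat_lit 43472) (nat_lit 6) (nat_lit 572) (nat_lit 4) (nat_lit 240) (nat_lit 273) (nat_lit 267)))) (PT.nd (nat_lit 156) (PT.nd (nat_lit 78) (PT.lf (nat_lit 44916) (nat_lit 6) (nat_lit 591) (nat_lit 4) (nat_lit 241) (nat_lit 273) (nat_lit 266)) (PT.lf (nat_lit 46284) (nat_lit 6) (nat_lit 609) (nat_lit 4) (nat_lit 242) (nat_lit 273) (nat_lit 265))) (PT.nd (nat_lit 78) (PT.lf (nat_lit 47576) (nat_lit 6) (nat_lit 626) (nat_lit 4) (nat_lit 243) (nat_lit 273) (nat_lit 264)) (PT.nd (nat_lit 78) (PT.lf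 (nat_lit 48792) (nat_lit 6) (nat_lit 642) (nat_lit 4) (nat_lit 244) (nat_lit 273) (nat_lit 263)) (PT.lf (nat_lit 49932) (nat_lit 6) (nat_lit 657) (nat_lit 4) (nat_lit 245) (nat_lit 273) (nat_lit 262))))))) (PT.nd (nat_lit 624) (PT.nd (nat_lit 312) (PT.nd (nat_lit 156) (PT.nd (nat_lit 78) (PT.lf (nat_lit 50996) (nat_lit 6) (nat_lit 671) (nat_lit 4) (nat_lit 246) (nat_lit 273) (nat_lit 261)) (PT.lf (nat_lit 51984) (nat_lit 6) (nat_lit 684) (nat_lit 4) (nat_lit 247) (nat_lit 273) (nat_lit 260))) (PT.nd (nat_lit 78) (PT.lf (nat_lit 51908) (nat_lit 6) (nat_lit 683) (nat_lit 4) (nat_lit 248) (nat_lit 273) (nat_lit 259)) (PT.lf (nat_lit 51832) (nat_lit 6) (nat_lit 682) (nat_lit 4) (nat_lit 249) (nat_lit 273) (nat_lit 258)))) (PT.nd (nat_lit 156) (PT.nd (nat_lit 78) (PT.lf (nat_lit 51756) (nat_lit 6) (nat_lit 681) (nat_lit 4) (nat_lit 250) (nat_lit 273) (nat_lit 257)) (PT.lf (nat_lit 51680) (nat_lit 6) (nat_lit 680) (nat_lit 4) (nat_lit 251) (nat_lit 273) (nat_lit 256)))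 (PT.nd (nat_lit 78) (PT.lf (nat_lit 51604) (nat_lit 6) (nat_lit 679) (nat_lit 4) (nat_lit 252) (nat_lit 273) (nat_lit 255)) (PT.lf (nat_lit 51528) (nat_lit 6) (nat_lit 678) (nat_lit 4) (nat_lit 253) (nat_lit 273) (nat_lit 254))))) (PT.nd (nat_lit 312) (PT.nd (nat_lit 156) (PT.nd (nat_lit 78) (PT.lf (nat_lit 51528) (nat_lit 6) (nat_lit 678) (nat_lit 2) (nat_lit 254) (nat_lit 273) (nat_lit 253)) (PT.lf (nat_lit 51604) (nat_lit 6) (nat_lit 679) (nat_lit 2) (nat_lit 255) (nat_lit 273) (nat_lit 252))) (PT.nd (nat_lit 78) (PT.lf (nat_lit 51680) (nat_lit 6) (nat_lit 680) (nat_lit 2) (nat_lit 256) (nat_lit 273) (nat_lit 251)) (PT.lf (nat_lit 51756) (nat_lit 6) (nat_lit 681) (nat_lit 2) (nat_lit 257) (nat_lit 273) (nat_lit 250)))) (PT.nd (nat_lit 156) (PT.nd (nat_lit 78) (PT.lf (nat_lit 51832) (nat_lit 6) (nat_lit 682) (nat_lit 2) (nat_lit 258) (nat_lit 273) (nat_lit 249)) (PT.lf (nat_lit 51908) (nat_lit 6) (nat_lit 683) (nat_lit 2) (nat_lit 259) (nat_lit 273) (nat_lit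 248))) (PT.nd (nat_lit 78) (PT.lf (nat_lit 51984) (nat_lit 6) (nat_lit 684) (nat_lit 2) (nat_lit 260) (nat_lit 273) (nat_lit 247)) (PT.nd (nat_lit 78) (PT.lf (nat_lit 50996) (nat_lit 6) (nat_lit 671) (nat_lit 2) (nat_lit 261) (nat_lit 273) (nat_lit 246)) (PT.lf (nat_lit 49932) (nat_lit 6) (nat_lit 657) (nat_lit 2) (nat_lit 262) (nat_lit 273) (nat_lit 245))))))))
noncomputable def pc75 : PT := (PT.nd (nat_lit 1326) (PT.nd (nat_lit 624) (PT.nd (nat_lit 312) (PT.nd (nat_lit 156) (PT.nd (nat_lit 78) (PT.lf (nat_lit 48792) (nat_lit 6) (nat_lit 642) (nat_lit 2) (nat_lit 263) (nat_lit 273) (nat_lit 244)) (PT.lf (nat_lit 47576) (nat_lit 6) (nat_lit 626) (nat_lit 2) (nat_lit 264) (nat_lit 273) (nat_lit 243))) (PT.nd (nat_lit 78) (PT.lf (nat_lit 46284) (nat_lit 6) (nat_lit 609) (nat_lit 2) (nat_lit 265) (nat_lit 273) (nat_lit 242)) (PT.lf (nat_lit 44916) (nat_lit 6) (nat_lit 591) (nat_lit 2) (nat_lit 266) (nat_lit 273) (nat_lit 241)))) (PT.nd (nat_lit 156) (PT.nd (nat_lit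 78) (PT.lf (nat_lit 43472) (nat_lit 6) (nat_lit 572) (nat_lit 2) (nat_lit 267) (nat_lit 273) (nat_lit 240)) (PT.lf (nat_lit 41952) (nat_lit 6) (nat_lit 552) (nat_lit 2) (nat_lit 268) (nat_lit 273) (nat_lit 239))) (PT.nd (nat_lit 78) (PT.lf (nat_lit 40356) (nat_lit 6) (nat_lit 531) (nat_lit 2) (nat_lit 269) (nat_lit 273) (nat_lit 238)) (PT.lf (nat_lit 38684) (nat_lit 6) (nat_lit 509) (nat_lit 2) (nat_lit 270) (nat_lit 273) (nat_lit 237))))) (PT.nd (nat_lit 312) (PT.nd (nat_lit 156) (PT.nd (nat_lit 78) (PT.lf (nat_lit 36936) (nat_lit 6) (nat_lit 486) (nat_lit 2) (nat_lit 271) (nat_lit 273) (nat_lit 236)) (PT.lf (nat_lit 35112) (nat_lit 6) (nat_lit 462) (nat_lit 2) (nat_lit 272) (nat_lit 273) (nat_lit 235))) (PT.nd (nat_lit 78) (PT.lf (nat_lit 34048) (nat_lit 3) (nat_lit 448) (nat_lit 0) (nat_lit 273) (nat_lit 273) (nat_lit 234)) (PT.lf (nat_lit 33060) (nat_lit 6) (nat_lit 435) (nat_lit 0) (nat_lit 274) (nat_lit 273) (nat_lit 233)))) (PT.nd (nat_lit 156) (PT.nd (nat_lit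 78) (PT.lf (nat_lit 32072) (nat_lit 6) (nat_lit 422) (nat_lit 0) (nat_lit 275) (nat_lit 273) (nat_lit 232)) (PT.lf (nat_lit 31160) (nat_lit 6) (nat_lit 410) (nat_lit 0) (nat_lit 276) (nat_lit 273) (nat_lit 231))) (PT.nd (nat_lit 78) (PT.lf (nat_lit 30248) (nat_lit 6) (nat_lit 398) (nat_lit 0) (nat_lit 277) (nat_lit 273) (nat_lit 230)) (PT.nd (nat_lit 78) (PT.lf (nat_lit 29336) (nat_lit 6) (nat_lit 386) (nat_lit 0) (nat_lit 278) (nat_lit 273) (nat_lit 229)) (PT.lf (nat_lit 28424) (nat_lit 6) (nat_lit 374) (nat_lit 0) (nat_lit 279) (nat_lit 273) (nat_lit 228))))))) (PT.nd (nat_lit 624) (PT.nd (nat_lit 312) (PT.nd (nat_lit 156) (PT.nd (nat_lit 78) (PT.lf (nat_lit 27588) (nat_lit 6) (nat_lit 363) (nat_lit 0) (nat_lit 280) (nat_lit 273) (nat_lit 227)) (PT.lf (nat_lit 26752) (nat_lit 6) (nat_lit 352) (nat_lit 0) (nat_lit 281) (nat_lit 273) (nat_lit 226))) (PT.nd (nat_lit 78) (PT.lf (nat_lit 25992) (nat_lit 6) (nat_lit 342) (nat_lit 0) (nat_lit 282) (nat_lit 273) (nat_lit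 225)) (PT.lf (nat_lit 25156) (nat_lit 6) (nat_lit 331) (nat_lit 0) (nat_lit 283) (nat_lit 273) (nat_lit 224)))) (PT.nd (nat_lit 156) (PT.nd (nat_lit 78) (PT.lf (nat_lit 24396) (nat_lit 6) (nat_lit 321) (nat_lit 0) (nat_lit 284) (nat_lit 273) (nat_lit 223)) (PT.lf (nat_lit 23636) (nat_lit 6) (nat_lit 311) (nat_lit 0) (nat_lit 285) (nat_lit 273) (nat_lit 222))) (PT.nd (nat_lit 78) (PT.lf (nat_lit 22952) (nat_lit 6) (nat_lit 302) (nat_lit 0) (nat_lit 286) (nat_lit 273) (nat_lit 221)) (PT.lf (nat_lit 22192) (nat_lit 6) (nat_lit 292) (nat_lit 0) (nat_lit 287) (nat_lit 273) (nat_lit 220))))) (PT.nd (nat_lit 75894) (PT.nd (nat_lit 75738) (PT.nd (nat_lit 75660) (PT.lf (nat_lit 21508) (nat_lit 6) (nat_lit 283) (nat_lit 0) (nat_lit 288) (nat_lit 273) (nat_lit 219)) (PT.lf (nat_lit 20216) (nat_lit 6) (nat_lit 266) (nat_lit 5) (nat_lit 217) (nat_lit 274) (nat_lit 289))) (PT.nd (nat_lit 78) (PT.lf (nat_lit 20900) (nat_lit 6) (nat_lit 275) (nat_lit 5) (nat_lit 218) (nat_lit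 274) (nat_lit 288)) (PT.lf (nat_lit 21584) (nat_lit 6) (nat_lit 284) (nat_lit 5) (nat_lit 219) (nat_lit 274) (nat_lit 287)))) (PT.nd (nat_lit 156) (PT.nd (nat_lit 78) (PT.lf (nat_lit 22268) (nat_lit 6) (nat_lit 293) (nat_lit 5) (nat_lit 220) (nat_lit 274) (nat_lit 286)) (PT.lf (nat_lit 23028) (nat_lit 6) (nat_lit 303) (nat_lit 5) (nat_lit 221) (nat_lit 274) (nat_lit 285))) (PT.nd (nat_lit 78) (PT.lf (nat_lit 23712) (nat_lit 6) (nat_lit 312) (nat_lit 5) (nat_lit 222) (nat_lit 274) (nat_lit 284)) (PT.nd (nat_lit 78) (PT.lf (nat_lit 24472) (nat_lit 6) (nat_lit 322) (nat_lit 5) (nat_lit 223) (nat_lit 274) (nat_lit 283)) (PT.lf (nat_lit 25232) (nat_lit 6) (nat_lit 332) (nat_lit 5) (nat_lit 224) (nat_lit 274) (nat_lit 282))))))))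
noncomputable def pc76 : PT := (PT.nd (nat_lit 1326) (PT.nd (nat_lit 624) (PT.nd (nat_lit 312) (PT.nd (nat_lit 156) (PT.nd (nat_lit 78) (PT.lf (nat_lit 26068) (nat_lit 6) (nat_lit 343) (nat_lit 5) (nat_lit 225) (nat_lit 274) (nat_lit 281)) (PT.lf (nat_lit 26828) (nat_lit 6) (nat_lit 353) (nat_lit 5) (nat_lit 226) (nat_lit 274) (nat_lit 280))) (PT.nd (nat_lit 78) (PT.lf (nat_lit 27664) (nat_lit 6) (nat_lit 364) (nat_lit 5) (nat_lit 227) (nat_lit 274) (nat_lit 279)) (PT.lf (nat_lit 28500) (nat_lit 6) (nat_lit 375) (nat_lit 5) (nat_lit 228) (nat_lit 274) (nat_lit 278)))) (PT.nd (nat_lit 156) (PT.nd (nat_lit 78) (PT.lf (nat_lit 29412) (nat_lit 6) (nat_lit 387) (nat_lit 5) (nat_lit 229) (nat_lit 274) (nat_lit 277)) (PT.lf (nat_lit 30324) (nat_lit 6) (nat_lit 399) (nat_lit 5) (nat_lit 230) (nat_lit 274) (nat_lit 276))) (PT.nd (nat_lit 78) (PT.lf (nat_lit 31236) (nat_lit 6) (nat_lit 411) (nat_lit 5) (nat_lit 231) (nat_lit 274) (nat_lit 275)) (PT.lf (nat_lit 32148) (nat_lit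 3) (nat_lit 423) (nat_lit 4) (nat_lit 232) (nat_lit 274) (nat_lit 274))))) (PT.nd (nat_lit 312) (PT.nd (nat_lit 156) (PT.nd (nat_lit 78) (PT.lf (nat_lit 33060) (nat_lit 6) (nat_lit 435) (nat_lit 4) (nat_lit 233) (nat_lit 274) (nat_lit 273)) (PT.lf (nat_lit 33972) (nat_lit 6) (nat_lit 447) (nat_lit 4) (nat_lit 234) (nat_lit 274) (nat_lit 272))) (PT.nd (nat_lit 78) (PT.lf (nat_lit 35036) (nat_lit 6) (nat_lit 461) (nat_lit 4) (nat_lit 235) (nat_lit 274) (nat_lit 271)) (PT.lf (nat_lit 36860) (nat_lit 6) (nat_lit 485) (nat_lit 4) (nat_lit 236) (nat_lit 274) (nat_lit 270)))) (PT.nd (nat_lit 156) (PT.nd (nat_lit 78) (PT.lf (nat_lit 38608) (nat_lit 6) (nat_lit 508) (nat_lit 4) (nat_lit 237) (nat_lit 274) (nat_lit 269)) (PT.lf (nat_lit 40280) (nat_lit 6) (nat_lit 530) (nat_lit 4) (nat_lit 238) (nat_lit 274) (nat_lit 268))) (PT.nd (nat_lit 78) (PT.lf (nat_lit 41876) (nat_lit 6) (nat_lit 551) (nat_lit 4) (nat_lit 239) (nat_lit 274) (nat_lit 267)) (PT.nd (nat_lit 78) (PT.lf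 (nat_lit 43396) (nat_lit 6) (nat_lit 571) (nat_lit 4) (nat_lit 240) (nat_lit 274) (nat_lit 266)) (PT.lf (nat_lit 44840) (nat_lit 6) (nat_lit 590) (nat_lit 4) (nat_lit 241) (nat_lit 274) (nat_lit 265))))))) (PT.nd (nat_lit 624) (PT.nd (nat_lit 312) (PT.nd (nat_lit 156) (PT.nd (nat_lit 78) (PT.lf (nat_lit 46208) (nat_lit 6) (nat_lit 608) (nat_lit 4) (nat_lit 242) (nat_lit 274) (nat_lit 264)) (PT.lf (nat_lit 47500) (nat_lit 6) (nat_lit 625) (nat_lit 4) (nat_lit 243) (nat_lit 274) (nat_lit 263))) (PT.nd (nat_lit 78) (PT.lf (nat_lit 48716) (nat_lit 6) (nat_lit 641) (nat_lit 4) (nat_lit 244) (nat_lit 274) (nat_lit 262)) (PT.lf (nat_lit 49856) (nat_lit 6) (nat_lit 656) (nat_lit 4) (nat_lit 245) (nat_lit 274) (nat_lit 261)))) (PT.nd (nat_lit 156) (PT.nd (nat_lit 78) (PT.lf (nat_lit 50920) (nat_lit 6) (nat_lit 670) (nat_lit 4) (nat_lit 246) (nat_lit 274) (nat_lit 260)) (PT.lf (nat_lit 50844) (nat_lit 6) (nat_lit 669) (nat_lit 4) (nat_lit 247) (nat_lit 274) (nat_lit 259)))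 (PT.nd (nat_lit 78) (PT.lf (nat_lit 50768) (nat_lit 6) (nat_lit 668) (nat_lit 4) (nat_lit 248) (nat_lit 274) (nat_lit 258)) (PT.lf (nat_lit 50692) (nat_lit 6) (nat_lit 667) (nat_lit 4) (nat_lit 249) (nat_lit 274) (nat_lit 257))))) (PT.nd (nat_lit 312) (PT.nd (nat_lit 156) (PT.nd (nat_lit 78) (PT.lf (nat_lit 50616) (nat_lit 6) (nat_lit 666) (nat_lit 4) (nat_lit 250) (nat_lit 274) (nat_lit 256)) (PT.lf (nat_lit 50540) (nat_lit 6) (nat_lit 665) (nat_lit 4) (nat_lit 251) (nat_lit 274) (nat_lit 255))) (PT.nd (nat_lit 78) (PT.lf (nat_lit 50464) (nat_lit 6) (nat_lit 664) (nat_lit 4) (nat_lit 252) (nat_lit 274) (nat_lit 254)) (PT.lf (nat_lit 50388) (nat_lit 3) (nat_lit 663) (nat_lit 2) (nat_lit 253) (nat_lit 274) (nat_lit 253)))) (PT.nd (nat_lit 156) (PT.nd (nat_lit 78) (PT.lf (nat_lit 50464) (nat_lit 6) (nat_lit 664) (nat_lit 2) (nat_lit 254) (nat_lit 274) (nat_lit 252)) (PT.lf (nat_lit 50540) (nat_lit 6) (nat_lit 665) (nat_lit 2) (nat_lit 255) (nat_lit 274) (nat_lit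 251))) (PT.nd (nat_lit 78) (PT.lf (nat_lit 50616) (nat_lit 6) (nat_lit 666) (nat_lit 2) (nat_lit 256) (nat_lit 274) (nat_lit 250)) (PT.nd (nat_lit 78) (PT.lf (nat_lit 50692) (nat_lit 6) (nat_lit 667) (nat_lit 2) (nat_lit 257) (nat_lit 274) (nat_lit 249)) (PT.lf (nat_lit 50768) (nat_lit 6) (nat_lit 668) (nat_lit 2) (nat_lit 258) (nat_lit 274) (nat_lit 248))))))))
noncomputable def pc77 : PT := (PT.nd (nat_lit 1326) (PT.nd (nat_lit 624) (PT.nd (nat_lit 312) (PT.nd (nat_lit 156) (PT.nd (nat_lit 78) (PT.lf (nat_lit 50844) (nat_lit 6) (nat_lit 669) (nat_lit 2) (nat_lit 259) (nat_lit 274) (nat_lit 247)) (PT.lf (nat_lit 50920) (nat_lit 6) (nat_lit 670) (nat_lit 2) (nat_lit 260) (nat_lit 274) (nat_lit 246))) (PT.nd (nat_lit 78) (PT.lf (nat_lit 49856) (nat_lit 6) (nat_lit 656) (nat_lit 2) (nat_lit 261) (nat_lit 274) (nat_lit 245)) (PT.lf (nat_lit 48716) (nat_lit 6) (nat_lit 641) (nat_lit 2) (nat_lit 262) (nat_lit 274) (nat_lit 244)))) (PT.nd (nat_lit 156) (PT.nd (nat_lit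 78) (PT.lf (nat_lit 47500) (nat_lit 6) (nat_lit 625) (nat_lit 2) (nat_lit 263) (nat_lit 274) (nat_lit 243)) (PT.lf (nat_lit 46208) (nat_lit 6) (nat_lit 608) (nat_lit 2) (nat_lit 264) (nat_lit 274) (nat_lit 242))) (PT.nd (nat_lit 78) (PT.lf (nat_lit 44840) (nat_lit 6) (nat_lit 590) (nat_lit 2) (nat_lit 265) (nat_lit 274) (nat_lit 241)) (PT.lf (nat_lit 43396) (nat_lit 6) (nat_lit 571) (nat_lit 2) (nat_lit 266) (nat_lit 274) (nat_lit 240))))) (PT.nd (nat_lit 312) (PT.nd (nat_lit 156) (PT.nd (nat_lit 78) (PT.lf (nat_lit 41876) (nat_lit 6) (nat_lit 551) (nat_lit 2) (nat_lit 267) (nat_lit 274) (nat_lit 239)) (PT.lf (nat_lit 40280) (nat_lit 6) (nat_lit 530) (nat_lit 2) (nat_lit 268) (nat_lit 274) (nat_lit 238))) (PT.nd (nat_lit 78) (PT.lf (nat_lit 38608) (nat_lit 6) (nat_lit 508) (nat_lit 2) (nat_lit 269) (nat_lit 274) (nat_lit 237)) (PT.lf (nat_lit 36860) (nat_lit 6) (nat_lit 485) (nat_lit 2) (nat_lit 270) (nat_lit 274) (nat_lit 236)))) (PT.nd (nat_lit 156) (PT.nd (nat_lit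 78) (PT.lf (nat_lit 35036) (nat_lit 6) (nat_lit 461) (nat_lit 2) (nat_lit 271) (nat_lit 274) (nat_lit 235)) (PT.lf (nat_lit 33972) (nat_lit 6) (nat_lit 447) (nat_lit 2) (nat_lit 272) (nat_lit 274) (nat_lit 234))) (PT.nd (nat_lit 78) (PT.lf (nat_lit 33060) (nat_lit 6) (nat_lit 435) (nat_lit 2) (nat_lit 273) (nat_lit 274) (nat_lit 233)) (PT.nd (nat_lit 78) (PT.lf (nat_lit 32148) (nat_lit 3) (nat_lit 423) (nat_lit 0) (nat_lit 274) (nat_lit 274) (nat_lit 232)) (PT.lf (nat_lit 31236) (nat_lit 6) (nat_lit 411) (nat_lit 0) (nat_lit 275) (nat_lit 274) (nat_lit 231))))))) (PT.nd (nat_lit 624) (PT.nd (nat_lit 312) (PT.nd (nat_lit 156) (PT.nd (nat_lit 78) (PT.lf (nat_lit 30324) (nat_lit 6) (nat_lit 399) (nat_lit 0) (nat_lit 276) (nat_lit 274) (nat_lit 230)) (PT.lf (nat_lit 29412) (nat_lit 6) (nat_lit 387) (nat_lit 0) (nat_lit 277) (nat_lit 274) (nat_lit 229))) (PT.nd (nat_lit 78) (PT.lf (nat_lit 28500) (nat_lit 6) (nat_lit 375) (nat_lit 0) (nat_lit 278) (nat_lit 274) (nat_lit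 228)) (PT.lf (nat_lit 27664) (nat_lit 6) (nat_lit 364) (nat_lit 0) (nat_lit 279) (nat_lit 274) (nat_lit 227)))) (PT.nd (nat_lit 156) (PT.nd (nat_lit 78) (PT.lf (nat_lit 26828) (nat_lit 6) (nat_lit 353) (nat_lit 0) (nat_lit 280) (nat_lit 274) (nat_lit 226)) (PT.lf (nat_lit 26068) (nat_lit 6) (nat_lit 343) (nat_lit 0) (nat_lit 281) (nat_lit 274) (nat_lit 225))) (PT.nd (nat_lit 78) (PT.lf (nat_lit 25232) (nat_lit 6) (nat_lit 332) (nat_lit 0) (nat_lit 282) (nat_lit 274) (nat_lit 224)) (PT.lf (nat_lit 24472) (nat_lit 6) (nat_lit 322) (nat_lit 0) (nat_lit 283) (nat_lit 274) (nat_lit 223))))) (PT.nd (nat_lit 312) (PT.nd (nat_lit 156) (PT.nd (nat_lit 78) (PT.lf (nat_lit 23712) (nat_lit 6) (nat_lit 312) (nat_lit 0) (nat_lit 284) (nat_lit 274) (nat_lit 222)) (PT.lf (nat_lit 23028) (nat_lit 6) (nat_lit 303) (nat_lit 0) (nat_lit 285) (nat_lit 274) (nat_lit 221))) (PT.nd (nat_lit 78) (PT.lf (nat_lit 22268) (nat_lit 6) (nat_lit 293) (nat_lit 0) (nat_lit 286) (nat_lit 274) (nat_lit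 220)) (PT.lf (nat_lit 21584) (nat_lit 6) (nat_lit 284) (nat_lit 0) (nat_lit 287) (nat_lit 274) (nat_lit 219)))) (PT.nd (nat_lit 75582) (PT.nd (nat_lit 78) (PT.lf (nat_lit 20900) (nat_lit 6) (nat_lit 275) (nat_lit 0) (nat_lit 288) (nat_lit 274) (nat_lit 218)) (PT.lf (nat_lit 20216) (nat_lit 6) (nat_lit 266) (nat_lit 0) (nat_lit 289) (nat_lit 274) (nat_lit 217))) (PT.nd (nat_lit 78) (PT.lf (nat_lit 19608) (nat_lit 6) (nat_lit 258) (nat_lit 5) (nat_lit 216) (nat_lit 275) (nat_lit 289)) (PT.nd (nat_lit 78) (PT.lf (nat_lit 20292) (nat_lit 6) (nat_lit 267) (nat_lit 5) (nat_lit 217) (nat_lit 275) (nat_lit 288)) (PT.lf (nat_lit 20976) (nat_lit 6) (nat_lit 276) (nat_lit 5) (nat_lit 218) (nat_lit 275) (nat_lit 287))))))))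
noncomputable def pc78 : PT := (PT.nd (nat_lit 1326) (PT.nd (nat_lit 624) (PT.nd (nat_lit 312) (PT.nd (nat_lit 156) (PT.nd (nat_lit 78) (PT.lf (nat_lit 21660) (nat_lit 6) (nat_lit 285) (nat_lit 5) (nat_lit 219) (nat_lit 275) (nat_lit 286)) (PT.lf (nat_lit 22344) (nat_lit 6) (nat_lit 294) (nat_lit 5) (nat_lit 220) (nat_lit 275) (nat_lit 285))) (PT.nd (nat_lit 78) (PT.lf (nat_lit 23104) (nat_lit 6) (nat_lit 304) (nat_lit 5) (nat_lit 221) (nat_lit 275) (nat_lit 284)) (PT.lf (nat_lit 23788) (nat_lit 6) (nat_lit 313) (nat_lit 5) (nat_lit 222) (nat_lit 275) (nat_lit 283)))) (PT.nd (nat_lit 156) (PT.nd (nat_lit 78) (PT.lf (nat_lit 24548) (nat_lit 6) (nat_lit 323) (nat_lit 5) (nat_lit 223) (nat_lit 275) (nat_lit 282)) (PT.lf (nat_lit 25308) (nat_lit 6) (nat_lit 333) (nat_lit 5) (nat_lit 224) (nat_lit 275) (nat_lit 281))) (PT.nd (nat_lit 78) (PT.lf (nat_lit 26144) (nat_lit 6) (nat_lit 344) (nat_lit 5) (nat_lit 225) (nat_lit 275) (nat_lit 280)) (PT.lf (nat_lit 26904) (nat_lit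 6) (nat_lit 354) (nat_lit 5) (nat_lit 226) (nat_lit 275) (nat_lit 279))))) (PT.nd (nat_lit 312) (PT.nd (nat_lit 156) (PT.nd (nat_lit 78) (PT.lf (nat_lit 27740) (nat_lit 6) (nat_lit 365) (nat_lit 5) (nat_lit 227) (nat_lit 275) (nat_lit 278)) (PT.lf (nat_lit 28576) (nat_lit 6) (nat_lit 376) (nat_lit 5) (nat_lit 228) (nat_lit 275) (nat_lit 277))) (PT.nd (nat_lit 78) (PT.lf (nat_lit 29488) (nat_lit 6) (nat_lit 388) (nat_lit 5) (nat_lit 229) (nat_lit 275) (nat_lit 276)) (PT.lf (nat_lit 30400) (nat_lit 3) (nat_lit 400) (nat_lit 4) (nat_lit 230) (nat_lit 275) (nat_lit 275)))) (PT.nd (nat_lit 156) (PT.nd (nat_lit 78) (PT.lf (nat_lit 31236) (nat_lit 6) (nat_lit 411) (nat_lit 4) (nat_lit 231) (nat_lit 275) (nat_lit 274)) (PT.lf (nat_lit 32072) (nat_lit 6) (nat_lit 422) (nat_lit 4) (nat_lit 232) (nat_lit 275) (nat_lit 273))) (PT.nd (nat_lit 78) (PT.lf (nat_lit 32984) (nat_lit 6) (nat_lit 434) (nat_lit 4) (nat_lit 233) (nat_lit 275) (nat_lit 272)) (PT.nd (nat_lit 78) (PT.lf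 (nat_lit 33896) (nat_lit 6) (nat_lit 446) (nat_lit 4) (nat_lit 234) (nat_lit 275) (nat_lit 271)) (PT.lf (nat_lit 34960) (nat_lit 6) (nat_lit 460) (nat_lit 4) (nat_lit 235) (nat_lit 275) (nat_lit 270))))))) (PT.nd (nat_lit 624) (PT.nd (nat_lit 312) (PT.nd (nat_lit 156) (PT.nd (nat_lit 78) (PT.lf (nat_lit 36784) (nat_lit 6) (nat_lit 484) (nat_lit 4) (nat_lit 236) (nat_lit 275) (nat_lit 269)) (PT.lf (nat_lit 38532) (nat_lit 6) (nat_lit 507) (nat_lit 4) (nat_lit 237) (nat_lit 275) (nat_lit 268))) (PT.nd (nat_lit 78) (PT.lf (nat_lit 40204) (nat_lit 6) (nat_lit 529) (nat_lit 4) (nat_lit 238) (nat_lit 275) (nat_lit 267)) (PT.lf (nat_lit 41800) (nat_lit 6) (nat_lit 550) (nat_lit 4) (nat_lit 239) (nat_lit 275) (nat_lit 266)))) (PT.nd (nat_lit 156) (PT.nd (nat_lit 78) (PT.lf (nat_lit 43320) (nat_lit 6) (nat_lit 570) (nat_lit 4) (nat_lit 240) (nat_lit 275) (nat_lit 265)) (PT.lf (nat_lit 44764) (nat_lit 6) (nat_lit 589) (nat_lit 4) (nat_lit 241) (nat_lit 275) (nat_lit 264)))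 (PT.nd (nat_lit 78) (PT.lf (nat_lit 46132) (nat_lit 6) (nat_lit 607) (nat_lit 4) (nat_lit 242) (nat_lit 275) (nat_lit 263)) (PT.lf (nat_lit 47424) (nat_lit 6) (nat_lit 624) (nat_lit 4) (nat_lit 243) (nat_lit 275) (nat_lit 262))))) (PT.nd (nat_lit 312) (PT.nd (nat_lit 156) (PT.nd (nat_lit 78) (PT.lf (nat_lit 48640) (nat_lit 6) (nat_lit 640) (nat_lit 4) (nat_lit 244) (nat_lit 275) (nat_lit 261)) (PT.lf (nat_lit 49780) (nat_lit 6) (nat_lit 655) (nat_lit 4) (nat_lit 245) (nat_lit 275) (nat_lit 260))) (PT.nd (nat_lit 78) (PT.lf (nat_lit 49704) (nat_lit 6) (nat_lit 654) (nat_lit 4) (nat_lit 246) (nat_lit 275) (nat_lit 259)) (PT.lf (nat_lit 49628) (nat_lit 6) (nat_lit 653) (nat_lit 4) (nat_lit 247) (nat_lit 275) (nat_lit 258)))) (PT.nd (nat_lit 156) (PT.nd (nat_lit 78) (PT.lf (nat_lit 49552) (nat_lit 6) (nat_lit 652) (nat_lit 4) (nat_lit 248) (nat_lit 275) (nat_lit 257)) (PT.lf (nat_lit 49476) (nat_lit 6) (nat_lit 651) (nat_lit 4) (nat_lit 249) (nat_lit 275) (nat_lit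 256))) (PT.nd (nat_lit 78) (PT.lf (nat_lit 49400) (nat_lit 6) (nat_lit 650) (nat_lit 4) (nat_lit 250) (nat_lit 275) (nat_lit 255)) (PT.nd (nat_lit 78) (PT.lf (nat_lit 49324) (nat_lit 6) (nat_lit 649) (nat_lit 4) (nat_lit 251) (nat_lit 275) (nat_lit 254)) (PT.lf (nat_lit 49248) (nat_lit 6) (nat_lit 648) (nat_lit 4) (nat_lit 252) (nat_lit 275) (nat_lit 253))))))))
noncomputable def pc79 : PT := (PT.nd (nat_lit 1326) (PT.nd (nat_lit 624) (PT.nd (nat_lit 312) (PT.nd (nat_lit 156) (PT.nd (nat_lit 78) (PT.lf (nat_lit 49248) (nat_lit 6) (nat_lit 648) (nat_lit 2) (nat_lit 253) (nat_lit 275) (nat_lit 252)) (PT.lf (nat_lit 49324) (nat_lit 6) (nat_lit 649) (nat_lit 2) (nat_lit 254) (nat_lit 275) (nat_lit 251))) (PT.nd (nat_lit 78) (PT.lf (nat_lit 49400) (nat_lit 6) (nat_lit 650) (nat_lit 2) (nat_lit 255) (nat_lit 275) (nat_lit 250)) (PT.lf (nat_lit 49476) (nat_lit 6) (nat_lit 651) (nat_lit 2) (nat_lit 256) (nat_lit 275) (nat_lit 249)))) (PT.nd (nat_lit 156) (PT.nd (nat_lit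 78) (PT.lf (nat_lit 49552) (nat_lit 6) (nat_lit 652) (nat_lit 2) (nat_lit 257) (nat_lit 275) (nat_lit 248)) (PT.lf (nat_lit 49628) (nat_lit 6) (nat_lit 653) (nat_lit 2) (nat_lit 258) (nat_lit 275) (nat_lit 247))) (PT.nd (nat_lit 78) (PT.lf (nat_lit 49704) (nat_lit 6) (nat_lit 654) (nat_lit 2) (nat_lit 259) (nat_lit 275) (nat_lit 246)) (PT.lf (nat_lit 49780) (nat_lit 6) (nat_lit 655) (nat_lit 2) (nat_lit 260) (nat_lit 275) (nat_lit 245))))) (PT.nd (nat_lit 312) (PT.nd (nat_lit 156) (PT.nd (nat_lit 78) (PT.lf (nat_lit 48640) (nat_lit 6) (nat_lit 640) (nat_lit 2) (nat_lit 261) (nat_lit 275) (nat_lit 244)) (PT.lf (nat_lit 47424) (nat_lit 6) (nat_lit 624) (nat_lit 2) (nat_lit 262) (nat_lit 275) (nat_lit 243))) (PT.nd (nat_lit 78) (PT.lf (nat_lit 46132) (nat_lit 6) (nat_lit 607) (nat_lit 2) (nat_lit 263) (nat_lit 275) (nat_lit 242)) (PT.lf (nat_lit 44764) (nat_lit 6) (nat_lit 589) (nat_lit 2) (nat_lit 264) (nat_lit 275) (nat_lit 241)))) (PT.nd (nat_lit 156) (PT.nd (nat_lit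 78) (PT.lf (nat_lit 43320) (nat_lit 6) (nat_lit 570) (nat_lit 2) (nat_lit 265) (nat_lit 275) (nat_lit 240)) (PT.lf (nat_lit 41800) (nat_lit 6) (nat_lit 550) (nat_lit 2) (nat_lit 266) (nat_lit 275) (nat_lit 239))) (PT.nd (nat_lit 78) (PT.lf (nat_lit 40204) (nat_lit 6) (nat_lit 529) (nat_lit 2) (nat_lit 267) (nat_lit 275) (nat_lit 238)) (PT.nd (nat_lit 78) (PT.lf (nat_lit 38532) (nat_lit 6) (nat_lit 507) (nat_lit 2) (nat_lit 268) (nat_lit 275) (nat_lit 237)) (PT.lf (nat_lit 36784) (nat_lit 6) (nat_lit 484) (nat_lit 2) (nat_lit 269) (nat_lit 275) (nat_lit 236))))))) (PT.nd (nat_lit 624) (PT.nd (nat_lit 312) (PT.nd (nat_lit 156) (PT.nd (nat_lit 78) (PT.lf (nat_lit 34960) (nat_lit 6) (nat_lit 460) (nat_lit 2) (nat_lit 270) (nat_lit 275) (nat_lit 235)) (PT.lf (nat_lit 33896) (nat_lit 6) (nat_lit 446) (nat_lit 2) (nat_lit 271) (nat_lit 275) (nat_lit 234))) (PT.nd (nat_lit 78) (PT.lf (nat_lit 32984) (nat_lit 6) (nat_lit 434) (nat_lit 2) (nat_lit 272) (nat_lit 275) (nat_lit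 233)) (PT.lf (nat_lit 32072) (nat_lit 6) (nat_lit 422) (nat_lit 2) (nat_lit 273) (nat_lit 275) (nat_lit 232)))) (PT.nd (nat_lit 156) (PT.nd (nat_lit 78) (PT.lf (nat_lit 31236) (nat_lit 6) (nat_lit 411) (nat_lit 2) (nat_lit 274) (nat_lit 275) (nat_lit 231)) (PT.lf (nat_lit 30400) (nat_lit 3) (nat_lit 400) (nat_lit 0) (nat_lit 275) (nat_lit 275) (nat_lit 230))) (PT.nd (nat_lit 78) (PT.lf (nat_lit 29488) (nat_lit 6) (nat_lit 388) (nat_lit 0) (nat_lit 276) (nat_lit 275) (nat_lit 229)) (PT.lf (nat_lit 28576) (nat_lit 6) (nat_lit 376) (nat_lit 0) (nat_lit 277) (nat_lit 275) (nat_lit 228))))) (PT.nd (nat_lit 312) (PT.nd (nat_lit 156) (PT.nd (nat_lit 78) (PT.lf (nat_lit 27740) (nat_lit 6) (nat_lit 365) (nat_lit 0) (nat_lit 278) (nat_lit 275) (nat_lit 227)) (PT.lf (nat_lit 26904) (nat_lit 6) (nat_lit 354) (nat_lit 0) (nat_lit 279) (nat_lit 275) (nat_lit 226))) (PT.nd (nat_lit 78) (PT.lf (nat_lit 26144) (nat_lit 6) (nat_lit 344) (nat_lit 0) (nat_lit 280) (nat_lit 275) (nat_lit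 225)) (PT.lf (nat_lit 25308) (nat_lit 6) (nat_lit 333) (nat_lit 0) (nat_lit 281) (nat_lit 275) (nat_lit 224)))) (PT.nd (nat_lit 156) (PT.nd (nat_lit 78) (PT.lf (nat_lit 24548) (nat_lit 6) (nat_lit 323) (nat_lit 0) (nat_lit 282) (nat_lit 275) (nat_lit 223)) (PT.lf (nat_lit 23788) (nat_lit 6) (nat_lit 313) (nat_lit 0) (nat_lit 283) (nat_lit 275) (nat_lit 222))) (PT.nd (nat_lit 78) (PT.lf (nat_lit 23104) (nat_lit 6) (nat_lit 304) (nat_lit 0) (nat_lit 284) (nat_lit 275) (nat_lit 221)) (PT.nd (nat_lit 78) (PT.lf (nat_lit 22344) (nat_lit 6) (nat_lit 294) (nat_lit 0) (nat_lit 285) (nat_lit 275) (nat_lit 220)) (PT.lf (nat_lit 21660) (nat_lit 6) (nat_lit 285) (nat_lit 0) (nat_lit 286) (nat_lit 275) (nat_lit 219))))))))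
noncomputable def pc80 : PT := (PT.nd (nat_lit 76518) (PT.nd (nat_lit 75894) (PT.nd (nat_lit 75582) (PT.nd (nat_lit 156) (PT.nd (nat_lit 78) (PT.lf (nat_lit 20976) (nat_lit 6) (nat_lit 276) (nat_lit 0) (nat_lit 287) (nat_lit 275) (nat_lit 218)) (PT.lf (nat_lit 20292) (nat_lit 6) (nat_lit 267) (nat_lit 0) (nat_lit 288) (nat_lit 275) (nat_lit 217))) (PT.nd (nat_lit 75348) (PT.lf (nat_lit 19608) (nat_lit 6) (nat_lit 258) (nat_lit 0) (nat_lit 289) (nat_lit 275) (nat_lit 216)) (PT.lf (nat_lit 18468) (nat_lit 6) (nat_lit 243) (nat_lit 5) (nat_lit 214) (nat_lit 276) (nat_lit 290)))) (PT.nd (nat_lit 156) (PT.nd (nat_lit 78) (PT.lf (nat_lit 19076) (nat_lit 6) (nat_lit 251) (nat_lit 5) (nat_lit 215) (nat_lit 276) (nat_lit 289)) (PT.lf (nat_lit 19684) (nat_lit 6) (nat_lit 259) (nat_lit 5) (nat_lit 216) (nat_lit 276) (nat_lit 288))) (PT.nd (nat_lit 78) (PT.lf (nat_lit 20368) (nat_lit 6) (nat_lit 268) (nat_lit 5) (nat_lit 217) (nat_lit 276) (nat_lit 287)) (PT.lf (nat_lit 21052)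 (nat_lit 6) (nat_lit 277) (nat_lit 5) (nat_lit 218) (nat_lit 276) (nat_lit 286))))) (PT.nd (nat_lit 312) (PT.nd (nat_lit 156) (PT.nd (nat_lit 78) (PT.lf (nat_lit 21736) (nat_lit 6) (nat_lit 286) (nat_lit 5) (nat_lit 219) (nat_lit 276) (nat_lit 285)) (PT.lf (nat_lit 22420) (nat_lit 6) (nat_lit 295) (nat_lit 5) (nat_lit 220) (nat_lit 276) (nat_lit 284))) (PT.nd (nat_lit 78) (PT.lf (nat_lit 23180) (nat_lit 6) (nat_lit 305) (nat_lit 5) (nat_lit 221) (nat_lit 276) (nat_lit 283)) (PT.lf (nat_lit 23864) (nat_lit 6) (nat_lit 314) (nat_lit 5) (nat_lit 222) (nat_lit 276) (nat_lit 282)))) (PT.nd (nat_lit 156) (PT.nd (nat_lit 78) (PT.lf (nat_lit 24624) (nat_lit 6) (nat_lit 324) (nat_lit 5) (nat_lit 223) (nat_lit 276) (nat_lit 281)) (PT.lf (nat_lit 25384) (nat_lit 6) (nat_lit 334) (nat_lit 5) (nat_lit 224) (nat_lit 276) (nat_lit 280))) (PT.nd (nat_lit 78) (PT.lf (nat_lit 26220) (nat_lit 6) (nat_lit 345) (nat_lit 5) (nat_lit 225) (nat_lit 276) (nat_lit 279)) (PT.lf (nat_lit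 26980) (nat_lit 6) (nat_lit 355) (nat_lit 5) (nat_lit 226) (nat_lit 276) (nat_lit 278)))))) (PT.nd (nat_lit 624) (PT.nd (nat_lit 312) (PT.nd (nat_lit 156) (PT.nd (nat_lit 78) (PT.lf (nat_lit 27816) (nat_lit 6) (nat_lit 366) (nat_lit 5) (nat_lit 227) (nat_lit 276) (nat_lit 277)) (PT.lf (nat_lit 28652) (nat_lit 3) (nat_lit 377) (nat_lit 4) (nat_lit 228) (nat_lit 276) (nat_lit 276))) (PT.nd (nat_lit 78) (PT.lf (nat_lit 29488) (nat_lit 6) (nat_lit 388) (nat_lit 4) (nat_lit 229) (nat_lit 276) (nat_lit 275)) (PT.lf (nat_lit 30324) (nat_lit 6) (nat_lit 399) (nat_lit 4) (nat_lit 230) (nat_lit 276) (nat_lit 274)))) (PT.nd (nat_lit 156) (PT.nd (nat_lit 78) (PT.lf (nat_lit 31160) (nat_lit 6) (nat_lit 410) (nat_lit 4) (nat_lit 231) (nat_lit 276) (nat_lit 273)) (PT.lf (nat_lit 31996) (nat_lit 6) (nat_lit 421) (nat_lit 4) (nat_lit 232) (nat_lit 276) (nat_lit 272))) (PT.nd (nat_lit 78) (PT.lf (nat_lit 32908) (nat_lit 6) (nat_lit 433) (nat_lit 4) (nat_lit 233) (nat_lit 276) (nat_lit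 271)) (PT.lf (nat_lit 33820) (nat_lit 6) (nat_lit 445) (nat_lit 4) (nat_lit 234) (nat_lit 276) (nat_lit 270))))) (PT.nd (nat_lit 312) (PT.nd (nat_lit 156) (PT.nd (nat_lit 78) (PT.lf (nat_lit 34884) (nat_lit 6) (nat_lit 459) (nat_lit 4) (nat_lit 235) (nat_lit 276) (nat_lit 269)) (PT.lf (nat_lit 36708) (nat_lit 6) (nat_lit 483) (nat_lit 4) (nat_lit 236) (nat_lit 276) (nat_lit 268))) (PT.nd (nat_lit 78) (PT.lf (nat_lit 38456) (nat_lit 6) (nat_lit 506) (nat_lit 4) (nat_lit 237) (nat_lit 276) (nat_lit 267)) (PT.lf (nat_lit 40128) (nat_lit 6) (nat_lit 528) (nat_lit 4) (nat_lit 238) (nat_lit 276) (nat_lit 266)))) (PT.nd (nat_lit 156) (PT.nd (nat_lit 78) (PT.lf (nat_lit 41724) (nat_lit 6) (nat_lit 549) (nat_lit 4) (nat_lit 239) (nat_lit 276) (nat_lit 265)) (PT.lf (nat_lit 43244) (nat_lit 6) (nat_lit 569) (nat_lit 4) (nat_lit 240) (nat_lit 276) (nat_lit 264))) (PT.nd (nat_lit 78) (PT.lf (nat_lit 44688) (nat_lit 6) (nat_lit 588) (nat_lit 4) (nat_lit 241) (nat_lit 276) (nat_lit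 263)) (PT.nd (nat_lit 78) (PT.lf (nat_lit 46056) (nat_lit 6) (nat_lit 606) (nat_lit 4) (nat_lit 242) (nat_lit 276) (nat_lit 262)) (PT.lf (nat_lit 47348) (nat_lit 6) (nat_lit 623) (nat_lit 4) (nat_lit 243) (nat_lit 276) (nat_lit 261))))))))
noncomputable def pc81 : PT := (PT.nd (nat_lit 1326) (PT.nd (nat_lit 624) (PT.nd (nat_lit 312) (PT.nd (nat_lit 156) (PT.nd (nat_lit 78) (PT.lf (nat_lit 48564) (nat_lit 6) (nat_lit 639) (nat_lit 4) (nat_lit 244) (nat_lit 276) (nat_lit 260)) (PT.lf (nat_lit 48488) (nat_lit 6) (nat_lit 638) (nat_lit 4) (nat_lit 245) (nat_lit 276) (nat_lit 259))) (PT.nd (nat_lit 78) (PT.lf (nat_lit 48412) (nat_lit 6) (nat_lit 637) (nat_lit 4) (nat_lit 246) (nat_lit 276) (nat_lit 258)) (PT.lf (nat_lit 48336) (nat_lit 6) (nat_lit 636) (nat_lit 4) (nat_lit 247) (nat_lit 276) (nat_lit 257)))) (PT.nd (nat_lit 156) (PT.nd (nat_lit 78) (PT.lf (nat_lit 48260) (nat_lit 6) (nat_lit 635) (nat_lit 4) (nat_lit 248) (nat_lit 276) (nat_lit 256)) (PT.lf (nat_lit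 48184) (nat_lit 6) (nat_lit 634) (nat_lit 4) (nat_lit 249) (nat_lit 276) (nat_lit 255))) (PT.nd (nat_lit 78) (PT.lf (nat_lit 48108) (nat_lit 6) (nat_lit 633) (nat_lit 4) (nat_lit 250) (nat_lit 276) (nat_lit 254)) (PT.lf (nat_lit 48032) (nat_lit 6) (nat_lit 632) (nat_lit 4) (nat_lit 251) (nat_lit 276) (nat_lit 253))))) (PT.nd (nat_lit 312) (PT.nd (nat_lit 156) (PT.nd (nat_lit 78) (PT.lf (nat_lit 47956) (nat_lit 3) (nat_lit 631) (nat_lit 2) (nat_lit 252) (nat_lit 276) (nat_lit 252)) (PT.lf (nat_lit 48032) (nat_lit 6) (nat_lit 632) (nat_lit 2) (nat_lit 253) (nat_lit 276) (nat_lit 251))) (PT.nd (nat_lit 78) (PT.lf (nat_lit 48108) (nat_lit 6) (nat_lit 633) (nat_lit 2) (nat_lit 254) (nat_lit 276) (nat_lit 250)) (PT.lf (nat_lit 48184) (nat_lit 6) (nat_lit 634) (nat_lit 2) (nat_lit 255) (nat_lit 276) (nat_lit 249)))) (PT.nd (nat_lit 156) (PT.nd (nat_lit 78) (PT.lf (nat_lit 48260) (nat_lit 6) (nat_lit 635) (nat_lit 2) (nat_lit 256) (nat_lit 276) (nat_lit 248)) (PT.lf (nat_lit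 48336) (nat_lit 6) (nat_lit 636) (nat_lit 2) (nat_lit 257) (nat_lit 276) (nat_lit 247))) (PT.nd (nat_lit 78) (PT.lf (nat_lit 48412) (nat_lit 6) (nat_lit 637) (nat_lit 2) (nat_lit 258) (nat_lit 276) (nat_lit 246)) (PT.nd (nat_lit 78) (PT.lf (nat_lit 48488) (nat_lit 6) (nat_lit 638) (nat_lit 2) (nat_lit 259) (nat_lit 276) (nat_lit 245)) (PT.lf (nat_lit 48564) (nat_lit 6) (nat_lit 639) (nat_lit 2) (nat_lit 260) (nat_lit 276) (nat_lit 244))))))) (PT.nd (nat_lit 624) (PT.nd (nat_lit 312) (PT.nd (nat_lit 156) (PT.nd (nat_lit 78) (PT.lf (nat_lit 47348) (nat_lit 6) (nat_lit 623) (nat_lit 2) (nat_lit 261) (nat_lit 276) (nat_lit 243)) (PT.lf (nat_lit 46056) (nat_lit 6) (nat_lit 606) (nat_lit 2) (nat_lit 262) (nat_lit 276) (nat_lit 242))) (PT.nd (nat_lit 78) (PT.lf (nat_lit 44688) (nat_lit 6) (nat_lit 588) (nat_lit 2) (nat_lit 263) (nat_lit 276) (nat_lit 241)) (PT.lf (nat_lit 43244) (nat_lit 6) (nat_lit 569) (nat_lit 2) (nat_lit 264) (nat_lit 276) (nat_lit 240)))) (PT.nd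 (nat_lit 156) (PT.nd (nat_lit 78) (PT.lf (nat_lit 41724) (nat_lit 6) (nat_lit 549) (nat_lit 2) (nat_lit 265) (nat_lit 276) (nat_lit 239)) (PT.lf (nat_lit 40128) (nat_lit 6) (nat_lit 528) (nat_lit 2) (nat_lit 266) (nat_lit 276) (nat_lit 238))) (PT.nd (nat_lit 78) (PT.lf (nat_lit 38456) (nat_lit 6) (nat_lit 506) (nat_lit 2) (nat_lit 267) (nat_lit 276) (nat_lit 237)) (PT.lf (nat_lit 36708) (nat_lit 6) (nat_lit 483) (nat_lit 2) (nat_lit 268) (nat_lit 276) (nat_lit 236))))) (PT.nd (nat_lit 312) (PT.nd (nat_lit 156) (PT.nd (nat_lit 78) (PT.lf (nat_lit 34884) (nat_lit 6) (nat_lit 459) (nat_lit 2) (nat_lit 269) (nat_lit 276) (nat_lit 235)) (PT.lf (nat_lit 33820) (nat_lit 6) (nat_lit 445) (nat_lit 2) (nat_lit 270) (nat_lit 276) (nat_lit 234))) (PT.nd (nat_lit 78) (PT.lf (nat_lit 32908) (nat_lit 6) (nat_lit 433) (nat_lit 2) (nat_lit 271) (nat_lit 276) (nat_lit 233)) (PT.lf (nat_lit 31996) (nat_lit 6) (nat_lit 421) (nat_lit 2) (nat_lit 272) (nat_lit 276) (nat_lit 232))))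 (PT.nd (nat_lit 156) (PT.nd (nat_lit 78) (PT.lf (nat_lit 31160) (nat_lit 6) (nat_lit 410) (nat_lit 2) (nat_lit 273) (nat_lit 276) (nat_lit 231)) (PT.lf (nat_lit 30324) (nat_lit 6) (nat_lit 399) (nat_lit 2) (nat_lit 274) (nat_lit 276) (nat_lit 230))) (PT.nd (nat_lit 78) (PT.lf (nat_lit 29488) (nat_lit 6) (nat_lit 388) (nat_lit 2) (nat_lit 275) (nat_lit 276) (nat_lit 229)) (PT.nd (nat_lit 78) (PT.lf (nat_lit 28652) (nat_lit 3) (nat_lit 377) (nat_lit 0) (nat_lit 276) (nat_lit 276) (nat_lit 228)) (PT.lf (nat_lit 27816) (nat_lit 6) (nat_lit 366) (nat_lit 0) (nat_lit 277) (nat_lit 276) (nat_lit 227))))))))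
noncomputable def pc82 : PT := (PT.nd (nat_lit 76440) (PT.nd (nat_lit 624) (PT.nd (nat_lit 312) (PT.nd (nat_lit 156) (PT.nd (nat_lit 78) (PT.lf (nat_lit 26980) (nat_lit 6) (nat_lit 355) (nat_lit 0) (nat_lit 278) (nat_lit 276) (nat_lit 226)) (PT.lf (nat_lit 26220) (nat_lit 6) (nat_lit 345) (nat_lit 0) (nat_lit 279) (nat_lit 276) (nat_lit 225))) (PT.nd (nat_lit 78) (PT.lf (nat_lit 25384) (nat_lit 6) (nat_lit 334) (nat_lit 0) (nat_lit 280) (nat_lit 276) (nat_lit 224)) (PT.lf (nat_lit 24624) (nat_lit 6) (nat_lit 324) (nat_lit 0) (nat_lit 281) (nat_lit 276) (nat_lit 223)))) (PT.nd (nat_lit 156) (PT.nd (nat_lit 78) (PT.lf (nat_lit 23864) (nat_lit 6) (nat_lit 314) (nat_lit 0) (nat_lit 282) (nat_lit 276) (nat_lit 222)) (PT.lf (nat_lit 23180) (nat_lit 6) (nat_lit 305) (nat_lit 0) (nat_lit 283) (nat_lit 276) (nat_lit 221))) (PT.nd (nat_lit 78) (PT.lf (nat_lit 22420) (nat_lit 6) (nat_lit 295) (nat_lit 0) (nat_lit 284) (nat_lit 276) (nat_lit 220)) (PT.lf (nat_lit 21736) (nat_lit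 6) (nat_lit 286) (nat_lit 0) (nat_lit 285) (nat_lit 276) (nat_lit 219))))) (PT.nd (nat_lit 312) (PT.nd (nat_lit 156) (PT.nd (nat_lit 78) (PT.lf (nat_lit 21052) (nat_lit 6) (nat_lit 277) (nat_lit 0) (nat_lit 286) (nat_lit 276) (nat_lit 218)) (PT.lf (nat_lit 20368) (nat_lit 6) (nat_lit 268) (nat_lit 0) (nat_lit 287) (nat_lit 276) (nat_lit 217))) (PT.nd (nat_lit 78) (PT.lf (nat_lit 19684) (nat_lit 6) (nat_lit 259) (nat_lit 0) (nat_lit 288) (nat_lit 276) (nat_lit 216)) (PT.lf (nat_lit 19076) (nat_lit 6) (nat_lit 251) (nat_lit 0) (nat_lit 289) (nat_lit 276) (nat_lit 215)))) (PT.nd (nat_lit 75270) (PT.nd (nat_lit 75192) (PT.lf (nat_lit 18468) (nat_lit 6) (nat_lit 243) (nat_lit 0) (nat_lit 290) (nat_lit 276) (nat_lit 214)) (PT.lf (nat_lit 17936) (nat_lit 6) (nat_lit 236) (nat_lit 5) (nat_lit 213) (nat_lit 277) (nat_lit 290))) (PT.nd (nat_lit 78) (PT.lf (nat_lit 18544) (nat_lit 6) (nat_lit 244) (nat_lit 5) (nat_lit 214) (nat_lit 277) (nat_lit 289)) (PT.nd (nat_lit 78)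 (PT.lf (nat_lit 19152) (nat_lit 6) (nat_lit 252) (nat_lit 5) (nat_lit 215) (nat_lit 277) (nat_lit 288)) (PT.lf (nat_lit 19760) (nat_lit 6) (nat_lit 260) (nat_lit 5) (nat_lit 216) (nat_lit 277) (nat_lit 287))))))) (PT.nd (nat_lit 624) (PT.nd (nat_lit 312) (PT.nd (nat_lit 156) (PT.nd (nat_lit 78) (PT.lf (nat_lit 20444) (nat_lit 6) (nat_lit 269) (nat_lit 5) (nat_lit 217) (nat_lit 277) (nat_lit 286)) (PT.lf (nat_lit 21128) (nat_lit 6) (nat_lit 278) (nat_lit 5) (nat_lit 218) (nat_lit 277) (nat_lit 285))) (PT.nd (nat_lit 78) (PT.lf (nat_lit 21812) (nat_lit 6) (nat_lit 287) (nat_lit 5) (nat_lit 219) (nat_lit 277) (nat_lit 284)) (PT.lf (nat_lit 22496) (nat_lit 6) (nat_lit 296) (nat_lit 5) (nat_lit 220) (nat_lit 277) (nat_lit 283)))) (PT.nd (nat_lit 156) (PT.nd (nat_lit 78) (PT.lf (nat_lit 23256) (nat_lit 6) (nat_lit 306) (nat_lit 5) (nat_lit 221) (nat_lit 277) (nat_lit 282)) (PT.lf (nat_lit 23940) (nat_lit 6) (nat_lit 315) (nat_lit 5) (nat_lit 222) (nat_lit 277) (nat_lit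 281))) (PT.nd (nat_lit 78) (PT.lf (nat_lit 24700) (nat_lit 6) (nat_lit 325) (nat_lit 5) (nat_lit 223) (nat_lit 277) (nat_lit 280)) (PT.lf (nat_lit 25460) (nat_lit 6) (nat_lit 335) (nat_lit 5) (nat_lit 224) (nat_lit 277) (nat_lit 279))))) (PT.nd (nat_lit 312) (PT.nd (nat_lit 156) (PT.nd (nat_lit 78) (PT.lf (nat_lit 26296) (nat_lit 6) (nat_lit 346) (nat_lit 5) (nat_lit 225) (nat_lit 277) (nat_lit 278)) (PT.lf (nat_lit 27056) (nat_lit 3) (nat_lit 356) (nat_lit 4) (nat_lit 226) (nat_lit 277) (nat_lit 277))) (PT.nd (nat_lit 78) (PT.lf (nat_lit 27816) (nat_lit 6) (nat_lit 366) (nat_lit 4) (nat_lit 227) (nat_lit 277) (nat_lit 276)) (PT.lf (nat_lit 28576) (nat_lit 6) (nat_lit 376) (nat_lit 4) (nat_lit 228) (nat_lit 277) (nat_lit 275)))) (PT.nd (nat_lit 156) (PT.nd (nat_lit 78) (PT.lf (nat_lit 29412) (nat_lit 6) (nat_lit 387) (nat_lit 4) (nat_lit 229) (nat_lit 277) (nat_lit 274)) (PT.lf (nat_lit 30248) (nat_lit 6) (nat_lit 398) (nat_lit 4) (nat_lit 230) (nat_lit 277) (nat_lit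 273))) (PT.nd (nat_lit 78) (PT.lf (nat_lit 31084) (nat_lit 6) (nat_lit 409) (nat_lit 4) (nat_lit 231) (nat_lit 277) (nat_lit 272)) (PT.nd (nat_lit 78) (PT.lf (nat_lit 31920) (nat_lit 6) (nat_lit 420) (nat_lit 4) (nat_lit 232) (nat_lit 277) (nat_lit 271)) (PT.lf (nat_lit 32832) (nat_lit 6) (nat_lit 432) (nat_lit 4) (nat_lit 233) (nat_lit 277) (nat_lit 270))))))))
noncomputable def pc83 : PT := (PT.nd (nat_lit 1326) (PT.nd (nat_lit 624) (PT.nd (nat_lit 312) (PT.nd (nat_lit 156) (PT.nd (nat_lit 78) (PT.lf (nat_lit 33744) (nat_lit 6) (nat_lit 444) (nat_lit 4) (nat_lit 234) (nat_lit 277) (nat_lit 269)) (PT.lf (nat_lit 34808) (nat_lit 6) (nat_lit 458) (nat_lit 4) (nat_lit 235) (nat_lit 277) (nat_lit 268))) (PT.nd (nat_lit 78) (PT.lf (nat_lit 36632) (nat_lit 6) (nat_lit 482) (nat_lit 4) (nat_lit 236) (nat_lit 277) (nat_lit 267)) (PT.lf (nat_lit 38380) (nat_lit 6) (nat_lit 505) (nat_lit 4) (nat_lit 237) (nat_lit 277) (nat_lit 266)))) (PT.nd (nat_lit 156) (PT.nd (nat_lit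 78) (PT.lf (nat_lit 40052) (nat_lit 6) (nat_lit 527) (nat_lit 4) (nat_lit 238) (nat_lit 277) (nat_lit 265)) (PT.lf (nat_lit 41648) (nat_lit 6) (nat_lit 548) (nat_lit 4) (nat_lit 239) (nat_lit 277) (nat_lit 264))) (PT.nd (nat_lit 78) (PT.lf (nat_lit 43168) (nat_lit 6) (nat_lit 568) (nat_lit 4) (nat_lit 240) (nat_lit 277) (nat_lit 263)) (PT.lf (nat_lit 44612) (nat_lit 6) (nat_lit 587) (nat_lit 4) (nat_lit 241) (nat_lit 277) (nat_lit 262))))) (PT.nd (nat_lit 312) (PT.nd (nat_lit 156) (PT.nd (nat_lit 78) (PT.lf (nat_lit 45980) (nat_lit 6) (nat_lit 605) (nat_lit 4) (nat_lit 242) (nat_lit 277) (nat_lit 261)) (PT.lf (nat_lit 47272) (nat_lit 6) (nat_lit 622) (nat_lit 4) (nat_lit 243) (nat_lit 277) (nat_lit 260))) (PT.nd (nat_lit 78) (PT.lf (nat_lit 47196) (nat_lit 6) (nat_lit 621) (nat_lit 4) (nat_lit 244) (nat_lit 277) (nat_lit 259)) (PT.lf (nat_lit 47120) (nat_lit 6) (nat_lit 620) (nat_lit 4) (nat_lit 245) (nat_lit 277) (nat_lit 258)))) (PT.nd (nat_lit 156) (PT.nd (nat_lit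 78) (PT.lf (nat_lit 47044) (nat_lit 6) (nat_lit 619) (nat_lit 4) (nat_lit 246) (nat_lit 277) (nat_lit 257)) (PT.lf (nat_lit 46968) (nat_lit 6) (nat_lit 618) (nat_lit 4) (nat_lit 247) (nat_lit 277) (nat_lit 256))) (PT.nd (nat_lit 78) (PT.lf (nat_lit 46892) (nat_lit 6) (nat_lit 617) (nat_lit 4) (nat_lit 248) (nat_lit 277) (nat_lit 255)) (PT.nd (nat_lit 78) (PT.lf (nat_lit 46816) (nat_lit 6) (nat_lit 616) (nat_lit 4) (nat_lit 249) (nat_lit 277) (nat_lit 254)) (PT.lf (nat_lit 46740) (nat_lit 6) (nat_lit 615) (nat_lit 4) (nat_lit 250) (nat_lit 277) (nat_lit 253))))))) (PT.nd (nat_lit 624) (PT.nd (nat_lit 312) (PT.nd (nat_lit 156) (PT.nd (nat_lit 78) (PT.lf (nat_lit 46664) (nat_lit 6) (nat_lit 614) (nat_lit 4) (nat_lit 251) (nat_lit 277) (nat_lit 252)) (PT.lf (nat_lit 46664) (nat_lit 6) (nat_lit 614) (nat_lit 2) (nat_lit 252) (nat_lit 277) (nat_lit 251))) (PT.nd (nat_lit 78) (PT.lf (nat_lit 46740) (nat_lit 6) (nat_lit 615) (nat_lit 2) (nat_lit 253) (nat_lit 277) (nat_lit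 250)) (PT.lf (nat_lit 46816) (nat_lit 6) (nat_lit 616) (nat_lit 2) (nat_lit 254) (nat_lit 277) (nat_lit 249)))) (PT.nd (nat_lit 156) (PT.nd (nat_lit 78) (PT.lf (nat_lit 46892) (nat_lit 6) (nat_lit 617) (nat_lit 2) (nat_lit 255) (nat_lit 277) (nat_lit 248)) (PT.lf (nat_lit 46968) (nat_lit 6) (nat_lit 618) (nat_lit 2) (nat_lit 256) (nat_lit 277) (nat_lit 247))) (PT.nd (nat_lit 78) (PT.lf (nat_lit 47044) (nat_lit 6) (nat_lit 619) (nat_lit 2) (nat_lit 257) (nat_lit 277) (nat_lit 246)) (PT.lf (nat_lit 47120) (nat_lit 6) (nat_lit 620) (nat_lit 2) (nat_lit 258) (nat_lit 277) (nat_lit 245))))) (PT.nd (nat_lit 312) (PT.nd (nat_lit 156) (PT.nd (nat_lit 78) (PT.lf (nat_lit 47196) (nat_lit 6) (nat_lit 621) (nat_lit 2) (nat_lit 259) (nat_lit 277) (nat_lit 244)) (PT.lf (nat_lit 47272) (nat_lit 6) (nat_lit 622) (nat_lit 2) (nat_lit 260) (nat_lit 277) (nat_lit 243))) (PT.nd (nat_lit 78) (PT.lf (nat_lit 45980) (nat_lit 6) (nat_lit 605) (nat_lit 2) (nat_lit 261) (nat_lit 277) (nat_lit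 242)) (PT.lf (nat_lit 44612) (nat_lit 6) (nat_lit 587) (nat_lit 2) (nat_lit 262) (nat_lit 277) (nat_lit 241)))) (PT.nd (nat_lit 156) (PT.nd (nat_lit 78) (PT.lf (nat_lit 43168) (nat_lit 6) (nat_lit 568) (nat_lit 2) (nat_lit 263) (nat_lit 277) (nat_lit 240)) (PT.lf (nat_lit 41648) (nat_lit 6) (nat_lit 548) (nat_lit 2) (nat_lit 264) (nat_lit 277) (nat_lit 239))) (PT.nd (nat_lit 78) (PT.lf (nat_lit 40052) (nat_lit 6) (nat_lit 527) (nat_lit 2) (nat_lit 265) (nat_lit 277) (nat_lit 238)) (PT.nd (nat_lit 78) (PT.lf (nat_lit 38380) (nat_lit 6) (nat_lit 505) (nat_lit 2) (nat_lit 266) (nat_lit 277) (nat_lit 237)) (PT.lf (nat_lit 36632) (nat_lit 6) (nat_lit 482) (nat_lit 2) (nat_lit 267) (nat_lit 277) (nat_lit 236))))))))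
noncomputable def pc84 : PT := (PT.nd (nat_lit 1326) (PT.nd (nat_lit 624) (PT.nd (nat_lit 312) (PT.nd (nat_lit 156) (PT.nd (nat_lit 78) (PT.lf (nat_lit 34808) (nat_lit 6) (nat_lit 458) (nat_lit 2) (nat_lit 268) (nat_lit 277) (nat_lit 235)) (PT.lf (nat_lit 33744) (nat_lit 6) (nat_lit 444) (nat_lit 2) (nat_lit 269) (nat_lit 277) (nat_lit 234))) (PT.nd (nat_lit 78) (PT.lf (nat_lit 32832) (nat_lit 6) (nat_lit 432) (nat_lit 2) (nat_lit 270) (nat_lit 277) (nat_lit 233)) (PT.lf (nat_lit 31920) (nat_lit 6) (nat_lit 420) (nat_lit 2) (nat_lit 271) (nat_lit 277) (nat_lit 232)))) (PT.nd (nat_lit 156) (PT.nd (nat_lit 78) (PT.lf (nat_lit 31084) (nat_lit 6) (nat_lit 409) (nat_lit 2) (nat_lit 272) (nat_lit 277) (nat_lit 231)) (PT.lf (nat_lit 30248) (nat_lit 6) (nat_lit 398) (nat_lit 2) (nat_lit 273) (nat_lit 277) (nat_lit 230))) (PT.nd (nat_lit 78) (PT.lf (nat_lit 29412) (nat_lit 6) (nat_lit 387) (nat_lit 2) (nat_lit 274) (nat_lit 277) (nat_lit 229)) (PT.lf (nat_lit 28576) (nat_lit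 6) (nat_lit 376) (nat_lit 2) (nat_lit 275) (nat_lit 277) (nat_lit 228))))) (PT.nd (nat_lit 312) (PT.nd (nat_lit 156) (PT.nd (nat_lit 78) (PT.lf (nat_lit 27816) (nat_lit 6) (nat_lit 366) (nat_lit 2) (nat_lit 276) (nat_lit 277) (nat_lit 227)) (PT.lf (nat_lit 27056) (nat_lit 3) (nat_lit 356) (nat_lit 0) (nat_lit 277) (nat_lit 277) (nat_lit 226))) (PT.nd (nat_lit 78) (PT.lf (nat_lit 26296) (nat_lit 6) (nat_lit 346) (nat_lit 0) (nat_lit 278) (nat_lit 277) (nat_lit 225)) (PT.lf (nat_lit 25460) (nat_lit 6) (nat_lit 335) (nat_lit 0) (nat_lit 279) (nat_lit 277) (nat_lit 224)))) (PT.nd (nat_lit 156) (PT.nd (nat_lit 78) (PT.lf (nat_lit 24700) (nat_lit 6) (nat_lit 325) (nat_lit 0) (nat_lit 280) (nat_lit 277) (nat_lit 223)) (PT.lf (nat_lit 23940) (nat_lit 6) (nat_lit 315) (nat_lit 0) (nat_lit 281) (nat_lit 277) (nat_lit 222))) (PT.nd (nat_lit 78) (PT.lf (nat_lit 23256) (nat_lit 6) (nat_lit 306) (nat_lit 0) (nat_lit 282) (nat_lit 277) (nat_lit 221)) (PT.nd (nat_lit 78) (PT.lf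 (nat_lit 22496) (nat_lit 6) (nat_lit 296) (nat_lit 0) (nat_lit 283) (nat_lit 277) (nat_lit 220)) (PT.lf (nat_lit 21812) (nat_lit 6) (nat_lit 287) (nat_lit 0) (nat_lit 284) (nat_lit 277) (nat_lit 219))))))) (PT.nd (nat_lit 75582) (PT.nd (nat_lit 312) (PT.nd (nat_lit 156) (PT.nd (nat_lit 78) (PT.lf (nat_lit 21128) (nat_lit 6) (nat_lit 278) (nat_lit 0) (nat_lit 285) (nat_lit 277) (nat_lit 218)) (PT.lf (nat_lit 20444) (nat_lit 6) (nat_lit 269) (nat_lit 0) (nat_lit 286) (nat_lit 277) (nat_lit 217))) (PT.nd (nat_lit 78) (PT.lf (nat_lit 19760) (nat_lit 6) (nat_lit 260) (nat_lit 0) (nat_lit 287) (nat_lit 277) (nat_lit 216)) (PT.lf (nat_lit 19152) (nat_lit 6) (nat_lit 252) (nat_lit 0) (nat_lit 288) (nat_lit 277) (nat_lit 215)))) (PT.nd (nat_lit 75114) (PT.nd (nat_lit 78) (PT.lf (nat_lit 18544) (nat_lit 6) (nat_lit 244) (nat_lit 0) (nat_lit 289) (nat_lit 277) (nat_lit 214)) (PT.lf (nat_lit 17936) (nat_lit 6) (nat_lit 236) (nat_lit 0) (nat_lit 290) (nat_lit 277) (nat_lit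 213))) (PT.nd (nat_lit 78) (PT.lf (nat_lit 16872) (nat_lit 6) (nat_lit 222) (nat_lit 5) (nat_lit 211) (nat_lit 278) (nat_lit 291)) (PT.lf (nat_lit 17404) (nat_lit 6) (nat_lit 229) (nat_lit 5) (nat_lit 212) (nat_lit 278) (nat_lit 290))))) (PT.nd (nat_lit 312) (PT.nd (nat_lit 156) (PT.nd (nat_lit 78) (PT.lf (nat_lit 18012) (nat_lit 6) (nat_lit 237) (nat_lit 5) (nat_lit 213) (nat_lit 278) (nat_lit 289)) (PT.lf (nat_lit 18620) (nat_lit 6) (nat_lit 245) (nat_lit 5) (nat_lit 214) (nat_lit 278) (nat_lit 288))) (PT.nd (nat_lit 78) (PT.lf (nat_lit 19228) (nat_lit 6) (nat_lit 253) (nat_lit 5) (nat_lit 215) (nat_lit 278) (nat_lit 287)) (PT.lf (nat_lit 19836) (nat_lit 6) (nat_lit 261) (nat_lit 5) (nat_lit 216) (nat_lit 278) (nat_lit 286)))) (PT.nd (nat_lit 156) (PT.nd (nat_lit 78) (PT.lf (nat_lit 20520) (nat_lit 6) (nat_lit 270) (nat_lit 5) (nat_lit 217) (nat_lit 278) (nat_lit 285)) (PT.lf (nat_lit 21204) (nat_lit 6) (nat_lit 279) (nat_lit 5) (nat_lit 218) (nat_lit 278) (nat_lit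 284))) (PT.nd (nat_lit 78) (PT.lf (nat_lit 21888) (nat_lit 6) (nat_lit 288) (nat_lit 5) (nat_lit 219) (nat_lit 278) (nat_lit 283)) (PT.nd (nat_lit 78) (PT.lf (nat_lit 22572) (nat_lit 6) (nat_lit 297) (nat_lit 5) (nat_lit 220) (nat_lit 278) (nat_lit 282)) (PT.lf (nat_lit 23332) (nat_lit 6) (nat_lit 307) (nat_lit 5) (nat_lit 221) (nat_lit 278) (nat_lit 281))))))))
noncomputable def pc85 : PT := (PT.nd (nat_lit 1326) (PT.nd (nat_lit 624) (PT.nd (nat_lit 312) (PT.nd (nat_lit 156) (PT.nd (nat_lit 78) (PT.lf (nat_lit 24016) (nat_lit 6) (nat_lit 316) (nat_lit 5) (nat_lit 222) (nat_lit 278) (nat_lit 280)) (PT.lf (nat_lit 24776) (nat_lit 6) (nat_lit 326) (nat_lit 5) (nat_lit 223) (nat_lit 278) (nat_lit 279))) (PT.nd (nat_lit 78) (PT.lf (nat_lit 25536) (nat_lit 3) (nat_lit 336) (nat_lit 4) (nat_lit 224) (nat_lit 278) (nat_lit 278)) (PT.lf (nat_lit 26296) (nat_lit 6) (nat_lit 346) (nat_lit 4) (nat_lit 225) (nat_lit 278) (nat_lit 277)))) (PT.nd (nat_lit 156) (PT.nd (nat_lit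 78) (PT.lf (nat_lit 26980) (nat_lit 6) (nat_lit 355) (nat_lit 4) (nat_lit 226) (nat_lit 278) (nat_lit 276)) (PT.lf (nat_lit 27740) (nat_lit 6) (nat_lit 365) (nat_lit 4) (nat_lit 227) (nat_lit 278) (nat_lit 275))) (PT.nd (nat_lit 78) (PT.lf (nat_lit 28500) (nat_lit 6) (nat_lit 375) (nat_lit 4) (nat_lit 228) (nat_lit 278) (nat_lit 274)) (PT.lf (nat_lit 29336) (nat_lit 6) (nat_lit 386) (nat_lit 4) (nat_lit 229) (nat_lit 278) (nat_lit 273))))) (PT.nd (nat_lit 312) (PT.nd (nat_lit 156) (PT.nd (nat_lit 78) (PT.lf (nat_lit 30172) (nat_lit 6) (nat_lit 397) (nat_lit 4) (nat_lit 230) (nat_lit 278) (nat_lit 272)) (PT.lf (nat_lit 31008) (nat_lit 6) (nat_lit 408) (nat_lit 4) (nat_lit 231) (nat_lit 278) (nat_lit 271))) (PT.nd (nat_lit 78) (PT.lf (nat_lit 31844) (nat_lit 6) (nat_lit 419) (nat_lit 4) (nat_lit 232) (nat_lit 278) (nat_lit 270)) (PT.lf (nat_lit 32756) (nat_lit 6) (nat_lit 431) (nat_lit 4) (nat_lit 233) (nat_lit 278) (nat_lit 269)))) (PT.nd (nat_lit 156) (PT.nd (nat_lit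 78) (PT.lf (nat_lit 33668) (nat_lit 6) (nat_lit 443) (nat_lit 4) (nat_lit 234) (nat_lit 278) (nat_lit 268)) (PT.lf (nat_lit 34732) (nat_lit 6) (nat_lit 457) (nat_lit 4) (nat_lit 235) (nat_lit 278) (nat_lit 267))) (PT.nd (nat_lit 78) (PT.lf (nat_lit 36556) (nat_lit 6) (nat_lit 481) (nat_lit 4) (nat_lit 236) (nat_lit 278) (nat_lit 266)) (PT.nd (nat_lit 78) (PT.lf (nat_lit 38304) (nat_lit 6) (nat_lit 504) (nat_lit 4) (nat_lit 237) (nat_lit 278) (nat_lit 265)) (PT.lf (nat_lit 39976) (nat_lit 6) (nat_lit 526) (nat_lit 4) (nat_lit 238) (nat_lit 278) (nat_lit 264))))))) (PT.nd (nat_lit 624) (PT.nd (nat_lit 312) (PT.nd (nat_lit 156) (PT.nd (nat_lit 78) (PT.lf (nat_lit 41572) (nat_lit 6) (nat_lit 547) (nat_lit 4) (nat_lit 239) (nat_lit 278) (nat_lit 263)) (PT.lf (nat_lit 43092) (nat_lit 6) (nat_lit 567) (nat_lit 4) (nat_lit 240) (nat_lit 278) (nat_lit 262))) (PT.nd (nat_lit 78) (PT.lf (nat_lit 44536) (nat_lit 6) (nat_lit 586) (nat_lit 4) (nat_lit 241) (nat_lit 278) (nat_lit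 261)) (PT.lf (nat_lit 45904) (nat_lit 6) (nat_lit 604) (nat_lit 4) (nat_lit 242) (nat_lit 278) (nat_lit 260)))) (PT.nd (nat_lit 156) (PT.nd (nat_lit 78) (PT.lf (nat_lit 45828) (nat_lit 6) (nat_lit 603) (nat_lit 4) (nat_lit 243) (nat_lit 278) (nat_lit 259)) (PT.lf (nat_lit 45752) (nat_lit 6) (nat_lit 602) (nat_lit 4) (nat_lit 244) (nat_lit 278) (nat_lit 258))) (PT.nd (nat_lit 78) (PT.lf (nat_lit 45676) (nat_lit 6) (nat_lit 601) (nat_lit 4) (nat_lit 245) (nat_lit 278) (nat_lit 257)) (PT.lf (nat_lit 45600) (nat_lit 6) (nat_lit 600) (nat_lit 4) (nat_lit 246) (nat_lit 278) (nat_lit 256))))) (PT.nd (nat_lit 312) (PT.nd (nat_lit 156) (PT.nd (nat_lit 78) (PT.lf (nat_lit 45524) (nat_lit 6) (nat_lit 599) (nat_lit 4) (nat_lit 247) (nat_lit 278) (nat_lit 255)) (PT.lf (nat_lit 45448) (nat_lit 6) (nat_lit 598) (nat_lit 4) (nat_lit 248) (nat_lit 278) (nat_lit 254))) (PT.nd (nat_lit 78) (PT.lf (nat_lit 45372) (nat_lit 6) (nat_lit 597) (nat_lit 4) (nat_lit 249) (nat_lit 278) (nat_lit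 253)) (PT.lf (nat_lit 45296) (nat_lit 6) (nat_lit 596) (nat_lit 4) (nat_lit 250) (nat_lit 278) (nat_lit 252)))) (PT.nd (nat_lit 156) (PT.nd (nat_lit 78) (PT.lf (nat_lit 45220) (nat_lit 3) (nat_lit 595) (nat_lit 2) (nat_lit 251) (nat_lit 278) (nat_lit 251)) (PT.lf (nat_lit 45296) (nat_lit 6) (nat_lit 596) (nat_lit 2) (nat_lit 252) (nat_lit 278) (nat_lit 250))) (PT.nd (nat_lit 78) (PT.lf (nat_lit 45372) (nat_lit 6) (nat_lit 597) (nat_lit 2) (nat_lit 253) (nat_lit 278) (nat_lit 249)) (PT.nd (nat_lit 78) (PT.lf (nat_lit 45448) (nat_lit 6) (nat_lit 598) (nat_lit 2) (nat_lit 254) (nat_lit 278) (nat_lit 248)) (PT.lf (nat_lit 45524) (nat_lit 6) (nat_lit 599) (nat_lit 2) (nat_lit 255) (nat_lit 278) (nat_lit 247))))))))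
noncomputable def pc86 : PT := (PT.nd (nat_lit 1326) (PT.nd (nat_lit 624) (PT.nd (nat_lit 312) (PT.nd (nat_lit 156) (PT.nd (nat_lit 78) (PT.lf (nat_lit 45600) (nat_lit 6) (nat_lit 600) (nat_lit 2) (nat_lit 256) (nat_lit 278) (nat_lit 246)) (PT.lf (nat_lit 45676) (nat_lit 6) (nat_lit 601) (nat_lit 2) (nat_lit 257) (nat_lit 278) (nat_lit 245))) (PT.nd (nat_lit 78) (PT.lf (nat_lit 45752) (nat_lit 6) (nat_lit 602) (nat_lit 2) (nat_lit 258) (nat_lit 278) (nat_lit 244)) (PT.lf (nat_lit 45828) (nat_lit 6) (nat_lit 603) (nat_lit 2) (nat_lit 259) (nat_lit 278) (nat_lit 243)))) (PT.nd (nat_lit 156) (PT.nd (nat_lit 78) (PT.lf (nat_lit 45904) (nat_lit 6) (nat_lit 604) (nat_lit 2) (nat_lit 260) (nat_lit 278) (nat_lit 242)) (PT.lf (nat_lit 44536) (nat_lit 6) (nat_lit 586) (nat_lit 2) (nat_lit 261) (nat_lit 278) (nat_lit 241))) (PT.nd (nat_lit 78) (PT.lf (nat_lit 43092) (nat_lit 6) (nat_lit 567) (nat_lit 2) (nat_lit 262) (nat_lit 278) (nat_lit 240)) (PT.lf (nat_lit 41572) (nat_lit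 6) (nat_lit 547) (nat_lit 2) (nat_lit 263) (nat_lit 278) (nat_lit 239))))) (PT.nd (nat_lit 312) (PT.nd (nat_lit 156) (PT.nd (nat_lit 78) (PT.lf (nat_lit 39976) (nat_lit 6) (nat_lit 526) (nat_lit 2) (nat_lit 264) (nat_lit 278) (nat_lit 238)) (PT.lf (nat_lit 38304) (nat_lit 6) (nat_lit 504) (nat_lit 2) (nat_lit 265) (nat_lit 278) (nat_lit 237))) (PT.nd (nat_lit 78) (PT.lf (nat_lit 36556) (nat_lit 6) (nat_lit 481) (nat_lit 2) (nat_lit 266) (nat_lit 278) (nat_lit 236)) (PT.lf (nat_lit 34732) (nat_lit 6) (nat_lit 457) (nat_lit 2) (nat_lit 267) (nat_lit 278) (nat_lit 235)))) (PT.nd (nat_lit 156) (PT.nd (nat_lit 78) (PT.lf (nat_lit 33668) (nat_lit 6) (nat_lit 443) (nat_lit 2) (nat_lit 268) (nat_lit 278) (nat_lit 234)) (PT.lf (nat_lit 32756) (nat_lit 6) (nat_lit 431) (nat_lit 2) (nat_lit 269) (nat_lit 278) (nat_lit 233))) (PT.nd (nat_lit 78) (PT.lf (nat_lit 31844) (nat_lit 6) (nat_lit 419) (nat_lit 2) (nat_lit 270) (nat_lit 278) (nat_lit 232)) (PT.nd (nat_lit 78) (PT.lf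 (nat_lit 31008) (nat_lit 6) (nat_lit 408) (nat_lit 2) (nat_lit 271) (nat_lit 278) (nat_lit 231)) (PT.lf (nat_lit 30172) (nat_lit 6) (nat_lit 397) (nat_lit 2) (nat_lit 272) (nat_lit 278) (nat_lit 230))))))) (PT.nd (nat_lit 624) (PT.nd (nat_lit 312) (PT.nd (nat_lit 156) (PT.nd (nat_lit 78) (PT.lf (nat_lit 29336) (nat_lit 6) (nat_lit 386) (nat_lit 2) (nat_lit 273) (nat_lit 278) (nat_lit 229)) (PT.lf (nat_lit 28500) (nat_lit 6) (nat_lit 375) (nat_lit 2) (nat_lit 274) (nat_lit 278) (nat_lit 228))) (PT.nd (nat_lit 78) (PT.lf (nat_lit 27740) (nat_lit 6) (nat_lit 365) (nat_lit 2) (nat_lit 275) (nat_lit 278) (nat_lit 227)) (PT.lf (nat_lit 26980) (nat_lit 6) (nat_lit 355) (nat_lit 2) (nat_lit 276) (nat_lit 278) (nat_lit 226)))) (PT.nd (nat_lit 156) (PT.nd (nat_lit 78) (PT.lf (nat_lit 26296) (nat_lit 6) (nat_lit 346) (nat_lit 2) (nat_lit 277) (nat_lit 278) (nat_lit 225)) (PT.lf (nat_lit 25536) (nat_lit 3) (nat_lit 336) (nat_lit 0) (nat_lit 278) (nat_lit 278) (nat_lit 224)))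 (PT.nd (nat_lit 78) (PT.lf (nat_lit 24776) (nat_lit 6) (nat_lit 326) (nat_lit 0) (nat_lit 279) (nat_lit 278) (nat_lit 223)) (PT.lf (nat_lit 24016) (nat_lit 6) (nat_lit 316) (nat_lit 0) (nat_lit 280) (nat_lit 278) (nat_lit 222))))) (PT.nd (nat_lit 312) (PT.nd (nat_lit 156) (PT.nd (nat_lit 78) (PT.lf (nat_lit 23332) (nat_lit 6) (nat_lit 307) (nat_lit 0) (nat_lit 281) (nat_lit 278) (nat_lit 221)) (PT.lf (nat_lit 22572) (nat_lit 6) (nat_lit 297) (nat_lit 0) (nat_lit 282) (nat_lit 278) (nat_lit 220))) (PT.nd (nat_lit 78) (PT.lf (nat_lit 21888) (nat_lit 6) (nat_lit 288) (nat_lit 0) (nat_lit 283) (nat_lit 278) (nat_lit 219)) (PT.lf (nat_lit 21204) (nat_lit 6) (nat_lit 279) (nat_lit 0) (nat_lit 284) (nat_lit 278) (nat_lit 218)))) (PT.nd (nat_lit 156) (PT.nd (nat_lit 78) (PT.lf (nat_lit 20520) (nat_lit 6) (nat_lit 270) (nat_lit 0) (nat_lit 285) (nat_lit 278) (nat_lit 217)) (PT.lf (nat_lit 19836) (nat_lit 6) (nat_lit 261) (nat_lit 0) (nat_lit 286) (nat_lit 278) (nat_lit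 216))) (PT.nd (nat_lit 78) (PT.lf (nat_lit 19228) (nat_lit 6) (nat_lit 253) (nat_lit 0) (nat_lit 287) (nat_lit 278) (nat_lit 215)) (PT.nd (nat_lit 78) (PT.lf (nat_lit 18620) (nat_lit 6) (nat_lit 245) (nat_lit 0) (nat_lit 288) (nat_lit 278) (nat_lit 214)) (PT.lf (nat_lit 18012) (nat_lit 6) (nat_lit 237) (nat_lit 0) (nat_lit 289) (nat_lit 278) (nat_lit 213))))))))
noncomputable def pc87 : PT := (PT.nd (nat_lit 76128) (PT.nd (nat_lit 75426) (PT.nd (nat_lit 75114) (PT.nd (nat_lit 74958) (PT.nd (nat_lit 78) (PT.lf (nat_lit 17404) (nat_lit 6) (nat_lit 229) (nat_lit 0) (nat_lit 290) (nat_lit 278) (nat_lit 212)) (PT.lf (nat_lit 16872) (nat_lit 6) (nat_lit 222) (nat_lit 0) (nat_lit 291) (nat_lit 278) (nat_lit 211))) (PT.nd (nat_lit 78) (PT.lf (nat_lit 16340) (nat_lit 6) (nat_lit 215) (nat_lit 5) (nat_lit 210) (nat_lit 279) (nat_lit 291)) (PT.lf (nat_lit 16948) (nat_lit 6) (nat_lit 223) (nat_lit 5) (nat_lit 211) (nat_lit 279) (nat_lit 290)))) (PT.nd (nat_lit 156) (PT.nd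 (nat_lit 78) (PT.lf (nat_lit 17480) (nat_lit 6) (nat_lit 230) (nat_lit 5) (nat_lit 212) (nat_lit 279) (nat_lit 289)) (PT.lf (nat_lit 18088) (nat_lit 6) (nat_lit 238) (nat_lit 5) (nat_lit 213) (nat_lit 279) (nat_lit 288))) (PT.nd (nat_lit 78) (PT.lf (nat_lit 18696) (nat_lit 6) (nat_lit 246) (nat_lit 5) (nat_lit 214) (nat_lit 279) (nat_lit 287)) (PT.lf (nat_lit 19304) (nat_lit 6) (nat_lit 254) (nat_lit 5) (nat_lit 215) (nat_lit 279) (nat_lit 286))))) (PT.nd (nat_lit 312) (PT.nd (nat_lit 156) (PT.nd (nat_lit 78) (PT.lf (nat_lit 19912) (nat_lit 6) (nat_lit 262) (nat_lit 5) (nat_lit 216) (nat_lit 279) (nat_lit 285)) (PT.lf (nat_lit 20596) (nat_lit 6) (nat_lit 271) (nat_lit 5) (nat_lit 217) (nat_lit 279) (nat_lit 284))) (PT.nd (nat_lit 78) (PT.lf (nat_lit 21280) (nat_lit 6) (nat_lit 280) (nat_lit 5) (nat_lit 218) (nat_lit 279) (nat_lit 283)) (PT.lf (nat_lit 21964) (nat_lit 6) (nat_lit 289) (nat_lit 5) (nat_lit 219) (nat_lit 279) (nat_lit 282)))) (PT.nd (nat_lit 156)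 (PT.nd (nat_lit 78) (PT.lf (nat_lit 22648) (nat_lit 6) (nat_lit 298) (nat_lit 5) (nat_lit 220) (nat_lit 279) (nat_lit 281)) (PT.lf (nat_lit 23408) (nat_lit 6) (nat_lit 308) (nat_lit 5) (nat_lit 221) (nat_lit 279) (nat_lit 280))) (PT.nd (nat_lit 78) (PT.lf (nat_lit 24092) (nat_lit 3) (nat_lit 317) (nat_lit 4) (nat_lit 222) (nat_lit 279) (nat_lit 279)) (PT.nd (nat_lit 78) (PT.lf (nat_lit 24776) (nat_lit 6) (nat_lit 326) (nat_lit 4) (nat_lit 223) (nat_lit 279) (nat_lit 278)) (PT.lf (nat_lit 25460) (nat_lit 6) (nat_lit 335) (nat_lit 4) (nat_lit 224) (nat_lit 279) (nat_lit 277))))))) (PT.nd (nat_lit 624) (PT.nd (nat_lit 312) (PT.nd (nat_lit 156) (PT.nd (nat_lit 78) (PT.lf (nat_lit 26220) (nat_lit 6) (nat_lit 345) (nat_lit 4) (nat_lit 225) (nat_lit 279) (nat_lit 276)) (PT.lf (nat_lit 26904) (nat_lit 6) (nat_lit 354) (nat_lit 4) (nat_lit 226) (nat_lit 279) (nat_lit 275))) (PT.nd (nat_lit 78) (PT.lf (nat_lit 27664) (nat_lit 6) (nat_lit 364) (nat_lit 4) (nat_lit 227) (nat_lit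 279) (nat_lit 274)) (PT.lf (nat_lit 28424) (nat_lit 6) (nat_lit 374) (nat_lit 4) (nat_lit 228) (nat_lit 279) (nat_lit 273)))) (PT.nd (nat_lit 156) (PT.nd (nat_lit 78) (PT.lf (nat_lit 29260) (nat_lit 6) (nat_lit 385) (nat_lit 4) (nat_lit 229) (nat_lit 279) (nat_lit 272)) (PT.lf (nat_lit 30096) (nat_lit 6) (nat_lit 396) (nat_lit 4) (nat_lit 230) (nat_lit 279) (nat_lit 271))) (PT.nd (nat_lit 78) (PT.lf (nat_lit 30932) (nat_lit 6) (nat_lit 407) (nat_lit 4) (nat_lit 231) (nat_lit 279) (nat_lit 270)) (PT.lf (nat_lit 31768) (nat_lit 6) (nat_lit 418) (nat_lit 4) (nat_lit 232) (nat_lit 279) (nat_lit 269))))) (PT.nd (nat_lit 312) (PT.nd (nat_lit 156) (PT.nd (nat_lit 78) (PT.lf (nat_lit 32680) (nat_lit 6) (nat_lit 430) (nat_lit 4) (nat_lit 233) (nat_lit 279) (nat_lit 268)) (PT.lf (nat_lit 33592) (nat_lit 6) (nat_lit 442) (nat_lit 4) (nat_lit 234) (nat_lit 279) (nat_lit 267))) (PT.nd (nat_lit 78) (PT.lf (nat_lit 34656) (nat_lit 6) (nat_lit 456) (nat_lit 4) (nat_lit 235) (nat_lit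 279) (nat_lit 266)) (PT.lf (nat_lit 36480) (nat_lit 6) (nat_lit 480) (nat_lit 4) (nat_lit 236) (nat_lit 279) (nat_lit 265)))) (PT.nd (nat_lit 156) (PT.nd (nat_lit 78) (PT.lf (nat_lit 38228) (nat_lit 6) (nat_lit 503) (nat_lit 4) (nat_lit 237) (nat_lit 279) (nat_lit 264)) (PT.lf (nat_lit 39900) (nat_lit 6) (nat_lit 525) (nat_lit 4) (nat_lit 238) (nat_lit 279) (nat_lit 263))) (PT.nd (nat_lit 78) (PT.lf (nat_lit 41496) (nat_lit 6) (nat_lit 546) (nat_lit 4) (nat_lit 239) (nat_lit 279) (nat_lit 262)) (PT.nd (nat_lit 78) (PT.lf (nat_lit 43016) (nat_lit 6) (nat_lit 566) (nat_lit 4) (nat_lit 240) (nat_lit 279) (nat_lit 261)) (PT.lf (nat_lit 44460) (nat_lit 6) (nat_lit 585) (nat_lit 4) (nat_lit 241) (nat_lit 279) (nat_lit 260))))))))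
noncomputable def pc88 : PT := (PT.nd (nat_lit 1326) (PT.nd (nat_lit 624) (PT.nd (nat_lit 312) (PT.nd (nat_lit 156) (PT.nd (nat_lit 78) (PT.lf (nat_lit 44384) (nat_lit 6) (nat_lit 584) (nat_lit 4) (nat_lit 242) (nat_lit 279) (nat_lit 259)) (PT.lf (nat_lit 44308) (nat_lit 6) (nat_lit 583) (nat_lit 4) (nat_lit 243) (nat_lit 279) (nat_lit 258))) (PT.nd (nat_lit 78) (PT.lf (nat_lit 44232) (nat_lit 6) (nat_lit 582) (nat_lit 4) (nat_lit 244) (nat_lit 279) (nat_lit 257)) (PT.lf (nat_lit 44156) (nat_lit 6) (nat_lit 581) (nat_lit 4) (nat_lit 245) (nat_lit 279) (nat_lit 256)))) (PT.nd (nat_lit 156) (PT.nd (nat_lit 78) (PT.lf (nat_lit 44080) (nat_lit 6) (nat_lit 580) (nat_lit 4) (nat_lit 246) (nat_lit 279) (nat_lit 255)) (PT.lf (nat_lit 44004) (nat_lit 6) (nat_lit 579) (nat_lit 4) (nat_lit 247) (nat_lit 279) (nat_lit 254))) (PT.nd (nat_lit 78) (PT.lf (nat_lit 43928) (nat_lit 6) (nat_lit 578) (nat_lit 4) (nat_lit 248) (nat_lit 279) (nat_lit 253)) (PT.lf (nat_lit 43852) (nat_lit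 6) (nat_lit 577) (nat_lit 4) (nat_lit 249) (nat_lit 279) (nat_lit 252))))) (PT.nd (nat_lit 312) (PT.nd (nat_lit 156) (PT.nd (nat_lit 78) (PT.lf (nat_lit 43776) (nat_lit 6) (nat_lit 576) (nat_lit 4) (nat_lit 250) (nat_lit 279) (nat_lit 251)) (PT.lf (nat_lit 43776) (nat_lit 6) (nat_lit 576) (nat_lit 2) (nat_lit 251) (nat_lit 279) (nat_lit 250))) (PT.nd (nat_lit 78) (PT.lf (nat_lit 43852) (nat_lit 6) (nat_lit 577) (nat_lit 2) (nat_lit 252) (nat_lit 279) (nat_lit 249)) (PT.lf (nat_lit 43928) (nat_lit 6) (nat_lit 578) (nat_lit 2) (nat_lit 253) (nat_lit 279) (nat_lit 248)))) (PT.nd (nat_lit 156) (PT.nd (nat_lit 78) (PT.lf (nat_lit 44004) (nat_lit 6) (nat_lit 579) (nat_lit 2) (nat_lit 254) (nat_lit 279) (nat_lit 247)) (PT.lf (nat_lit 44080) (nat_lit 6) (nat_lit 580) (nat_lit 2) (nat_lit 255) (nat_lit 279) (nat_lit 246))) (PT.nd (nat_lit 78) (PT.lf (nat_lit 44156) (nat_lit 6) (nat_lit 581) (nat_lit 2) (nat_lit 256) (nat_lit 279) (nat_lit 245)) (PT.nd (nat_lit 78) (PT.lf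 (nat_lit 44232) (nat_lit 6) (nat_lit 582) (nat_lit 2) (nat_lit 257) (nat_lit 279) (nat_lit 244)) (PT.lf (nat_lit 44308) (nat_lit 6) (nat_lit 583) (nat_lit 2) (nat_lit 258) (nat_lit 279) (nat_lit 243))))))) (PT.nd (nat_lit 624) (PT.nd (nat_lit 312) (PT.nd (nat_lit 156) (PT.nd (nat_lit 78) (PT.lf (nat_lit 44384) (nat_lit 6) (nat_lit 584) (nat_lit 2) (nat_lit 259) (nat_lit 279) (nat_lit 242)) (PT.lf (nat_lit 44460) (nat_lit 6) (nat_lit 585) (nat_lit 2) (nat_lit 260) (nat_lit 279) (nat_lit 241))) (PT.nd (nat_lit 78) (PT.lf (nat_lit 43016) (nat_lit 6) (nat_lit 566) (nat_lit 2) (nat_lit 261) (nat_lit 279) (nat_lit 240)) (PT.lf (nat_lit 41496) (nat_lit 6) (nat_lit 546) (nat_lit 2) (nat_lit 262) (nat_lit 279) (nat_lit 239)))) (PT.nd (nat_lit 156) (PT.nd (nat_lit 78) (PT.lf (nat_lit 39900) (nat_lit 6) (nat_lit 525) (nat_lit 2) (nat_lit 263) (nat_lit 279) (nat_lit 238)) (PT.lf (nat_lit 38228) (nat_lit 6) (nat_lit 503) (nat_lit 2) (nat_lit 264) (nat_lit 279) (nat_lit 237)))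 (PT.nd (nat_lit 78) (PT.lf (nat_lit 36480) (nat_lit 6) (nat_lit 480) (nat_lit 2) (nat_lit 265) (nat_lit 279) (nat_lit 236)) (PT.lf (nat_lit 34656) (nat_lit 6) (nat_lit 456) (nat_lit 2) (nat_lit 266) (nat_lit 279) (nat_lit 235))))) (PT.nd (nat_lit 312) (PT.nd (nat_lit 156) (PT.nd (nat_lit 78) (PT.lf (nat_lit 33592) (nat_lit 6) (nat_lit 442) (nat_lit 2) (nat_lit 267) (nat_lit 279) (nat_lit 234)) (PT.lf (nat_lit 32680) (nat_lit 6) (nat_lit 430) (nat_lit 2) (nat_lit 268) (nat_lit 279) (nat_lit 233))) (PT.nd (nat_lit 78) (PT.lf (nat_lit 31768) (nat_lit 6) (nat_lit 418) (nat_lit 2) (nat_lit 269) (nat_lit 279) (nat_lit 232)) (PT.lf (nat_lit 30932) (nat_lit 6) (nat_lit 407) (nat_lit 2) (nat_lit 270) (nat_lit 279) (nat_lit 231)))) (PT.nd (nat_lit 156) (PT.nd (nat_lit 78) (PT.lf (nat_lit 30096) (nat_lit 6) (nat_lit 396) (nat_lit 2) (nat_lit 271) (nat_lit 279) (nat_lit 230)) (PT.lf (nat_lit 29260) (nat_lit 6) (nat_lit 385) (nat_lit 2) (nat_lit 272) (nat_lit 279) (nat_lit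 229))) (PT.nd (nat_lit 78) (PT.lf (nat_lit 28424) (nat_lit 6) (nat_lit 374) (nat_lit 2) (nat_lit 273) (nat_lit 279) (nat_lit 228)) (PT.nd (nat_lit 78) (PT.lf (nat_lit 27664) (nat_lit 6) (nat_lit 364) (nat_lit 2) (nat_lit 274) (nat_lit 279) (nat_lit 227)) (PT.lf (nat_lit 26904) (nat_lit 6) (nat_lit 354) (nat_lit 2) (nat_lit 275) (nat_lit 279) (nat_lit 226))))))))
noncomputable def pc89 : PT := (PT.nd (nat_lit 75972) (PT.nd (nat_lit 624) (PT.nd (nat_lit 312) (PT.nd (nat_lit 156) (PT.nd (nat_lit 78) (PT.lf (nat_lit 26220) (nat_lit 6) (nat_lit 345) (nat_lit 2) (nat_lit 276) (nat_lit 279) (nat_lit 225)) (PT.lf (nat_lit 25460) (nat_lit 6) (nat_lit 335) (nat_lit 2) (nat_lit 277) (nat_lit 279) (nat_lit 224))) (PT.nd (nat_lit 78) (PT.lf (nat_lit 24776) (nat_lit 6) (nat_lit 326) (nat_lit 2) (nat_lit 278) (nat_lit 279) (nat_lit 223)) (PT.lf (nat_lit 24092) (nat_lit 3) (nat_lit 317) (nat_lit 0) (nat_lit 279) (nat_lit 279) (nat_lit 222)))) (PT.nd (nat_lit 156) (PT.nd (nat_lit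 78) (PT.lf (nat_lit 23408) (nat_lit 6) (nat_lit 308) (nat_lit 0) (nat_lit 280) (nat_lit 279) (nat_lit 221)) (PT.lf (nat_lit 22648) (nat_lit 6) (nat_lit 298) (nat_lit 0) (nat_lit 281) (nat_lit 279) (nat_lit 220))) (PT.nd (nat_lit 78) (PT.lf (nat_lit 21964) (nat_lit 6) (nat_lit 289) (nat_lit 0) (nat_lit 282) (nat_lit 279) (nat_lit 219)) (PT.lf (nat_lit 21280) (nat_lit 6) (nat_lit 280) (nat_lit 0) (nat_lit 283) (nat_lit 279) (nat_lit 218))))) (PT.nd (nat_lit 312) (PT.nd (nat_lit 156) (PT.nd (nat_lit 78) (PT.lf (nat_lit 20596) (nat_lit 6) (nat_lit 271) (nat_lit 0) (nat_lit 284) (nat_lit 279) (nat_lit 217)) (PT.lf (nat_lit 19912) (nat_lit 6) (nat_lit 262) (nat_lit 0) (nat_lit 285) (nat_lit 279) (nat_lit 216))) (PT.nd (nat_lit 78) (PT.lf (nat_lit 19304) (nat_lit 6) (nat_lit 254) (nat_lit 0) (nat_lit 286) (nat_lit 279) (nat_lit 215)) (PT.lf (nat_lit 18696) (nat_lit 6) (nat_lit 246) (nat_lit 0) (nat_lit 287) (nat_lit 279) (nat_lit 214)))) (PT.nd (nat_lit 156) (PT.nd (nat_lit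 78) (PT.lf (nat_lit 18088) (nat_lit 6) (nat_lit 238) (nat_lit 0) (nat_lit 288) (nat_lit 279) (nat_lit 213)) (PT.lf (nat_lit 17480) (nat_lit 6) (nat_lit 230) (nat_lit 0) (nat_lit 289) (nat_lit 279) (nat_lit 212))) (PT.nd (nat_lit 78) (PT.lf (nat_lit 16948) (nat_lit 6) (nat_lit 223) (nat_lit 0) (nat_lit 290) (nat_lit 279) (nat_lit 211)) (PT.nd (nat_lit 74724) (PT.lf (nat_lit 16340) (nat_lit 6) (nat_lit 215) (nat_lit 0) (nat_lit 291) (nat_lit 279) (nat_lit 210)) (PT.lf (nat_lit 15352) (nat_lit 6) (nat_lit 202) (nat_lit 5) (nat_lit 208) (nat_lit 280) (nat_lit 292))))))) (PT.nd (nat_lit 624) (PT.nd (nat_lit 312) (PT.nd (nat_lit 156) (PT.nd (nat_lit 78) (PT.lf (nat_lit 15884) (nat_lit 6) (nat_lit 209) (nat_lit 5) (nat_lit 209) (nat_lit 280) (nat_lit 291)) (PT.lf (nat_lit 16416) (nat_lit 6) (nat_lit 216) (nat_lit 5) (nat_lit 210) (nat_lit 280) (nat_lit 290))) (PT.nd (nat_lit 78) (PT.lf (nat_lit 17024) (nat_lit 6) (nat_lit 224) (nat_lit 5) (nat_lit 211) (nat_lit 280) (nat_lit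 289)) (PT.lf (nat_lit 17556) (nat_lit 6) (nat_lit 231) (nat_lit 5) (nat_lit 212) (nat_lit 280) (nat_lit 288)))) (PT.nd (nat_lit 156) (PT.nd (nat_lit 78) (PT.lf (nat_lit 18164) (nat_lit 6) (nat_lit 239) (nat_lit 5) (nat_lit 213) (nat_lit 280) (nat_lit 287)) (PT.lf (nat_lit 18772) (nat_lit 6) (nat_lit 247) (nat_lit 5) (nat_lit 214) (nat_lit 280) (nat_lit 286))) (PT.nd (nat_lit 78) (PT.lf (nat_lit 19380) (nat_lit 6) (nat_lit 255) (nat_lit 5) (nat_lit 215) (nat_lit 280) (nat_lit 285)) (PT.lf (nat_lit 19988) (nat_lit 6) (nat_lit 263) (nat_lit 5) (nat_lit 216) (nat_lit 280) (nat_lit 284))))) (PT.nd (nat_lit 312) (PT.nd (nat_lit 156) (PT.nd (nat_lit 78) (PT.lf (nat_lit 20672) (nat_lit 6) (nat_lit 272) (nat_lit 5) (nat_lit 217) (nat_lit 280) (nat_lit 283)) (PT.lf (nat_lit 21356) (nat_lit 6) (nat_lit 281) (nat_lit 5) (nat_lit 218) (nat_lit 280) (nat_lit 282))) (PT.nd (nat_lit 78) (PT.lf (nat_lit 22040) (nat_lit 6) (nat_lit 290) (nat_lit 5) (nat_lit 219) (nat_lit 280) (nat_lit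 281)) (PT.lf (nat_lit 22724) (nat_lit 3) (nat_lit 299) (nat_lit 4) (nat_lit 220) (nat_lit 280) (nat_lit 280)))) (PT.nd (nat_lit 156) (PT.nd (nat_lit 78) (PT.lf (nat_lit 23408) (nat_lit 6) (nat_lit 308) (nat_lit 4) (nat_lit 221) (nat_lit 280) (nat_lit 279)) (PT.lf (nat_lit 24016) (nat_lit 6) (nat_lit 316) (nat_lit 4) (nat_lit 222) (nat_lit 280) (nat_lit 278))) (PT.nd (nat_lit 78) (PT.lf (nat_lit 24700) (nat_lit 6) (nat_lit 325) (nat_lit 4) (nat_lit 223) (nat_lit 280) (nat_lit 277)) (PT.nd (nat_lit 78) (PT.lf (nat_lit 25384) (nat_lit 6) (nat_lit 334) (nat_lit 4) (nat_lit 224) (nat_lit 280) (nat_lit 276)) (PT.lf (nat_lit 26144) (nat_lit 6) (nat_lit 344) (nat_lit 4) (nat_lit 225) (nat_lit 280) (nat_lit 275))))))))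
noncomputable def pc90 : PT := (PT.nd (nat_lit 1326) (PT.nd (nat_lit 624) (PT.nd (nat_lit 312) (PT.nd (nat_lit 156) (PT.nd (nat_lit 78) (PT.lf (nat_lit 26828) (nat_lit 6) (nat_lit 353) (nat_lit 4) (nat_lit 226) (nat_lit 280) (nat_lit 274)) (PT.lf (nat_lit 27588) (nat_lit 6) (nat_lit 363) (nat_lit 4) (nat_lit 227) (nat_lit 280) (nat_lit 273))) (PT.nd (nat_lit 78) (PT.lf (nat_lit 28348) (nat_lit 6) (nat_lit 373) (nat_lit 4) (nat_lit 228) (nat_lit 280) (nat_lit 272)) (PT.lf (nat_lit 29184) (nat_lit 6) (nat_lit 384) (nat_lit 4) (nat_lit 229) (nat_lit 280) (nat_lit 271)))) (PT.nd (nat_lit 156) (PT.nd (nat_lit 78) (PT.lf (nat_lit 30020) (nat_lit 6) (nat_lit 395) (nat_lit 4) (nat_lit 230) (nat_lit 280) (nat_lit 270)) (PT.lf (nat_lit 30856) (nat_lit 6) (nat_lit 406) (nat_lit 4) (nat_lit 231) (nat_lit 280) (nat_lit 269))) (PT.nd (nat_lit 78) (PT.lf (nat_lit 31692) (nat_lit 6) (nat_lit 417) (nat_lit 4) (nat_lit 232) (nat_lit 280) (nat_lit 268)) (PT.lf (nat_lit 32604) (nat_lit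 6) (nat_lit 429) (nat_lit 4) (nat_lit 233) (nat_lit 280) (nat_lit 267))))) (PT.nd (nat_lit 312) (PT.nd (nat_lit 156) (PT.nd (nat_lit 78) (PT.lf (nat_lit 33516) (nat_lit 6) (nat_lit 441) (nat_lit 4) (nat_lit 234) (nat_lit 280) (nat_lit 266)) (PT.lf (nat_lit 34580) (nat_lit 6) (nat_lit 455) (nat_lit 4) (nat_lit 235) (nat_lit 280) (nat_lit 265))) (PT.nd (nat_lit 78) (PT.lf (nat_lit 36404) (nat_lit 6) (nat_lit 479) (nat_lit 4) (nat_lit 236) (nat_lit 280) (nat_lit 264)) (PT.lf (nat_lit 38152) (nat_lit 6) (nat_lit 502) (nat_lit 4) (nat_lit 237) (nat_lit 280) (nat_lit 263)))) (PT.nd (nat_lit 156) (PT.nd (nat_lit 78) (PT.lf (nat_lit 39824) (nat_lit 6) (nat_lit 524) (nat_lit 4) (nat_lit 238) (nat_lit 280) (nat_lit 262)) (PT.lf (nat_lit 41420) (nat_lit 6) (nat_lit 545) (nat_lit 4) (nat_lit 239) (nat_lit 280) (nat_lit 261))) (PT.nd (nat_lit 78) (PT.lf (nat_lit 42940) (nat_lit 6) (nat_lit 565) (nat_lit 4) (nat_lit 240) (nat_lit 280) (nat_lit 260)) (PT.nd (nat_lit 78) (PT.lf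 (nat_lit 42864) (nat_lit 6) (nat_lit 564) (nat_lit 4) (nat_lit 241) (nat_lit 280) (nat_lit 259)) (PT.lf (nat_lit 42788) (nat_lit 6) (nat_lit 563) (nat_lit 4) (nat_lit 242) (nat_lit 280) (nat_lit 258))))))) (PT.nd (nat_lit 624) (PT.nd (nat_lit 312) (PT.nd (nat_lit 156) (PT.nd (nat_lit 78) (PT.lf (nat_lit 42712) (nat_lit 6) (nat_lit 562) (nat_lit 4) (nat_lit 243) (nat_lit 280) (nat_lit 257)) (PT.lf (nat_lit 42636) (nat_lit 6) (nat_lit 561) (nat_lit 4) (nat_lit 244) (nat_lit 280) (nat_lit 256))) (PT.nd (nat_lit 78) (PT.lf (nat_lit 42560) (nat_lit 6) (nat_lit 560) (nat_lit 4) (nat_lit 245) (nat_lit 280) (nat_lit 255)) (PT.lf (nat_lit 42484) (nat_lit 6) (nat_lit 559) (nat_lit 4) (nat_lit 246) (nat_lit 280) (nat_lit 254)))) (PT.nd (nat_lit 156) (PT.nd (nat_lit 78) (PT.lf (nat_lit 42408) (nat_lit 6) (nat_lit 558) (nat_lit 4) (nat_lit 247) (nat_lit 280) (nat_lit 253)) (PT.lf (nat_lit 42332) (nat_lit 6) (nat_lit 557) (nat_lit 4) (nat_lit 248) (nat_lit 280) (nat_lit 252)))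 (PT.nd (nat_lit 78) (PT.lf (nat_lit 42256) (nat_lit 6) (nat_lit 556) (nat_lit 4) (nat_lit 249) (nat_lit 280) (nat_lit 251)) (PT.lf (nat_lit 42180) (nat_lit 3) (nat_lit 555) (nat_lit 2) (nat_lit 250) (nat_lit 280) (nat_lit 250))))) (PT.nd (nat_lit 312) (PT.nd (nat_lit 156) (PT.nd (nat_lit 78) (PT.lf (nat_lit 42256) (nat_lit 6) (nat_lit 556) (nat_lit 2) (nat_lit 251) (nat_lit 280) (nat_lit 249)) (PT.lf (nat_lit 42332) (nat_lit 6) (nat_lit 557) (nat_lit 2) (nat_lit 252) (nat_lit 280) (nat_lit 248))) (PT.nd (nat_lit 78) (PT.lf (nat_lit 42408) (nat_lit 6) (nat_lit 558) (nat_lit 2) (nat_lit 253) (nat_lit 280) (nat_lit 247)) (PT.lf (nat_lit 42484) (nat_lit 6) (nat_lit 559) (nat_lit 2) (nat_lit 254) (nat_lit 280) (nat_lit 246)))) (PT.nd (nat_lit 156) (PT.nd (nat_lit 78) (PT.lf (nat_lit 42560) (nat_lit 6) (nat_lit 560) (nat_lit 2) (nat_lit 255) (nat_lit 280) (nat_lit 245)) (PT.lf (nat_lit 42636) (nat_lit 6) (nat_lit 561) (nat_lit 2) (nat_lit 256) (nat_lit 280) (nat_lit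 244))) (PT.nd (nat_lit 78) (PT.lf (nat_lit 42712) (nat_lit 6) (nat_lit 562) (nat_lit 2) (nat_lit 257) (nat_lit 280) (nat_lit 243)) (PT.nd (nat_lit 78) (PT.lf (nat_lit 42788) (nat_lit 6) (nat_lit 563) (nat_lit 2) (nat_lit 258) (nat_lit 280) (nat_lit 242)) (PT.lf (nat_lit 42864) (nat_lit 6) (nat_lit 564) (nat_lit 2) (nat_lit 259) (nat_lit 280) (nat_lit 241))))))))
noncomputable def pc91 : PT := (PT.nd (nat_lit 1326) (PT.nd (nat_lit 624) (PT.nd (nat_lit 312) (PT.nd (nat_lit 156) (PT.nd (nat_lit 78) (PT.lf (nat_lit 42940) (nat_lit 6) (nat_lit 565) (nat_lit 2) (nat_lit 260) (nat_lit 280) (nat_lit 240)) (PT.lf (nat_lit 41420) (nat_lit 6) (nat_lit 545) (nat_lit 2) (nat_lit 261) (nat_lit 280) (nat_lit 239))) (PT.nd (nat_lit 78) (PT.lf (nat_lit 39824) (nat_lit 6) (nat_lit 524) (nat_lit 2) (nat_lit 262) (nat_lit 280) (nat_lit 238)) (PT.lf (nat_lit 38152) (nat_lit 6) (nat_lit 502) (nat_lit 2) (nat_lit 263) (nat_lit 280) (nat_lit 237)))) (PT.nd (nat_lit 156) (PT.nd (nat_lit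 78) (PT.lf (nat_lit 36404) (nat_lit 6) (nat_lit 479) (nat_lit 2) (nat_lit 264) (nat_lit 280) (nat_lit 236)) (PT.lf (nat_lit 34580) (nat_lit 6) (nat_lit 455) (nat_lit 2) (nat_lit 265) (nat_lit 280) (nat_lit 235))) (PT.nd (nat_lit 78) (PT.lf (nat_lit 33516) (nat_lit 6) (nat_lit 441) (nat_lit 2) (nat_lit 266) (nat_lit 280) (nat_lit 234)) (PT.lf (nat_lit 32604) (nat_lit 6) (nat_lit 429) (nat_lit 2) (nat_lit 267) (nat_lit 280) (nat_lit 233))))) (PT.nd (nat_lit 312) (PT.nd (nat_lit 156) (PT.nd (nat_lit 78) (PT.lf (nat_lit 31692) (nat_lit 6) (nat_lit 417) (nat_lit 2) (nat_lit 268) (nat_lit 280) (nat_lit 232)) (PT.lf (nat_lit 30856) (nat_lit 6) (nat_lit 406) (nat_lit 2) (nat_lit 269) (nat_lit 280) (nat_lit 231))) (PT.nd (nat_lit 78) (PT.lf (nat_lit 30020) (nat_lit 6) (nat_lit 395) (nat_lit 2) (nat_lit 270) (nat_lit 280) (nat_lit 230)) (PT.lf (nat_lit 29184) (nat_lit 6) (nat_lit 384) (nat_lit 2) (nat_lit 271) (nat_lit 280) (nat_lit 229)))) (PT.nd (nat_lit 156) (PT.nd (nat_lit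 78) (PT.lf (nat_lit 28348) (nat_lit 6) (nat_lit 373) (nat_lit 2) (nat_lit 272) (nat_lit 280) (nat_lit 228)) (PT.lf (nat_lit 27588) (nat_lit 6) (nat_lit 363) (nat_lit 2) (nat_lit 273) (nat_lit 280) (nat_lit 227))) (PT.nd (nat_lit 78) (PT.lf (nat_lit 26828) (nat_lit 6) (nat_lit 353) (nat_lit 2) (nat_lit 274) (nat_lit 280) (nat_lit 226)) (PT.nd (nat_lit 78) (PT.lf (nat_lit 26144) (nat_lit 6) (nat_lit 344) (nat_lit 2) (nat_lit 275) (nat_lit 280) (nat_lit 225)) (PT.lf (nat_lit 25384) (nat_lit 6) (nat_lit 334) (nat_lit 2) (nat_lit 276) (nat_lit 280) (nat_lit 224))))))) (PT.nd (nat_lit 624) (PT.nd (nat_lit 312) (PT.nd (nat_lit 156) (PT.nd (nat_lit 78) (PT.lf (nat_lit 24700) (nat_lit 6) (nat_lit 325) (nat_lit 2) (nat_lit 277) (nat_lit 280) (nat_lit 223)) (PT.lf (nat_lit 24016) (nat_lit 6) (nat_lit 316) (nat_lit 2) (nat_lit 278) (nat_lit 280) (nat_lit 222))) (PT.nd (nat_lit 78) (PT.lf (nat_lit 23408) (nat_lit 6) (nat_lit 308) (nat_lit 2) (nat_lit 279) (nat_lit 280) (nat_lit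 221)) (PT.lf (nat_lit 22724) (nat_lit 3) (nat_lit 299) (nat_lit 0) (nat_lit 280) (nat_lit 280) (nat_lit 220)))) (PT.nd (nat_lit 156) (PT.nd (nat_lit 78) (PT.lf (nat_lit 22040) (nat_lit 6) (nat_lit 290) (nat_lit 0) (nat_lit 281) (nat_lit 280) (nat_lit 219)) (PT.lf (nat_lit 21356) (nat_lit 6) (nat_lit 281) (nat_lit 0) (nat_lit 282) (nat_lit 280) (nat_lit 218))) (PT.nd (nat_lit 78) (PT.lf (nat_lit 20672) (nat_lit 6) (nat_lit 272) (nat_lit 0) (nat_lit 283) (nat_lit 280) (nat_lit 217)) (PT.lf (nat_lit 19988) (nat_lit 6) (nat_lit 263) (nat_lit 0) (nat_lit 284) (nat_lit 280) (nat_lit 216))))) (PT.nd (nat_lit 312) (PT.nd (nat_lit 156) (PT.nd (nat_lit 78) (PT.lf (nat_lit 19380) (nat_lit 6) (nat_lit 255) (nat_lit 0) (nat_lit 285) (nat_lit 280) (nat_lit 215)) (PT.lf (nat_lit 18772) (nat_lit 6) (nat_lit 247) (nat_lit 0) (nat_lit 286) (nat_lit 280) (nat_lit 214))) (PT.nd (nat_lit 78) (PT.lf (nat_lit 18164) (nat_lit 6) (nat_lit 239) (nat_lit 0) (nat_lit 287) (nat_lit 280) (nat_lit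 213)) (PT.lf (nat_lit 17556) (nat_lit 6) (nat_lit 231) (nat_lit 0) (nat_lit 288) (nat_lit 280) (nat_lit 212)))) (PT.nd (nat_lit 156) (PT.nd (nat_lit 78) (PT.lf (nat_lit 17024) (nat_lit 6) (nat_lit 224) (nat_lit 0) (nat_lit 289) (nat_lit 280) (nat_lit 211)) (PT.lf (nat_lit 16416) (nat_lit 6) (nat_lit 216) (nat_lit 0) (nat_lit 290) (nat_lit 280) (nat_lit 210))) (PT.nd (nat_lit 78) (PT.lf (nat_lit 15884) (nat_lit 6) (nat_lit 209) (nat_lit 0) (nat_lit 291) (nat_lit 280) (nat_lit 209)) (PT.nd (nat_lit 74568) (PT.lf (nat_lit 15352) (nat_lit 6) (nat_lit 202) (nat_lit 0) (nat_lit 292) (nat_lit 280) (nat_lit 208)) (PT.lf (nat_lit 14896) (nat_lit 6) (nat_lit 196) (nat_lit 5) (nat_lit 207) (nat_lit 281) (nat_lit 292))))))))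
noncomputable def pc92 : PT := (PT.nd (nat_lit 1326) (PT.nd (nat_lit 624) (PT.nd (nat_lit 312) (PT.nd (nat_lit 156) (PT.nd (nat_lit 78) (PT.lf (nat_lit 15428) (nat_lit 6) (nat_lit 203) (nat_lit 5) (nat_lit 208) (nat_lit 281) (nat_lit 291)) (PT.lf (nat_lit 15960) (nat_lit 6) (nat_lit 210) (nat_lit 5) (nat_lit 209) (nat_lit 281) (nat_lit 290))) (PT.nd (nat_lit 78) (PT.lf (nat_lit 16492) (nat_lit 6) (nat_lit 217) (nat_lit 5) (nat_lit 210) (nat_lit 281) (nat_lit 289)) (PT.lf (nat_lit 17100) (nat_lit 6) (nat_lit 225) (nat_lit 5) (nat_lit 211) (nat_lit 281) (nat_lit 288)))) (PT.nd (nat_lit 156) (PT.nd (nat_lit 78) (PT.lf (nat_lit 17632) (nat_lit 6) (nat_lit 232) (nat_lit 5) (nat_lit 212) (nat_lit 281) (nat_lit 287)) (PT.lf (nat_lit 18240) (nat_lit 6) (nat_lit 240) (nat_lit 5) (nat_lit 213) (nat_lit 281) (nat_lit 286))) (PT.nd (nat_lit 78) (PT.lf (nat_lit 18848) (nat_lit 6) (nat_lit 248) (nat_lit 5) (nat_lit 214) (nat_lit 281) (nat_lit 285)) (PT.lf (nat_lit 19456) (nat_lit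 6) (nat_lit 256) (nat_lit 5) (nat_lit 215) (nat_lit 281) (nat_lit 284))))) (PT.nd (nat_lit 312) (PT.nd (nat_lit 156) (PT.nd (nat_lit 78) (PT.lf (nat_lit 20064) (nat_lit 6) (nat_lit 264) (nat_lit 5) (nat_lit 216) (nat_lit 281) (nat_lit 283)) (PT.lf (nat_lit 20748) (nat_lit 6) (nat_lit 273) (nat_lit 5) (nat_lit 217) (nat_lit 281) (nat_lit 282))) (PT.nd (nat_lit 78) (PT.lf (nat_lit 21432) (nat_lit 3) (nat_lit 282) (nat_lit 4) (nat_lit 218) (nat_lit 281) (nat_lit 281)) (PT.lf (nat_lit 22040) (nat_lit 6) (nat_lit 290) (nat_lit 4) (nat_lit 219) (nat_lit 281) (nat_lit 280)))) (PT.nd (nat_lit 156) (PT.nd (nat_lit 78) (PT.lf (nat_lit 22648) (nat_lit 6) (nat_lit 298) (nat_lit 4) (nat_lit 220) (nat_lit 281) (nat_lit 279)) (PT.lf (nat_lit 23332) (nat_lit 6) (nat_lit 307) (nat_lit 4) (nat_lit 221) (nat_lit 281) (nat_lit 278))) (PT.nd (nat_lit 78) (PT.lf (nat_lit 23940) (nat_lit 6) (nat_lit 315) (nat_lit 4) (nat_lit 222) (nat_lit 281) (nat_lit 277)) (PT.nd (nat_lit 78) (PT.lf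 (nat_lit 24624) (nat_lit 6) (nat_lit 324) (nat_lit 4) (nat_lit 223) (nat_lit 281) (nat_lit 276)) (PT.lf (nat_lit 25308) (nat_lit 6) (nat_lit 333) (nat_lit 4) (nat_lit 224) (nat_lit 281) (nat_lit 275))))))) (PT.nd (nat_lit 624) (PT.nd (nat_lit 312) (PT.nd (nat_lit 156) (PT.nd (nat_lit 78) (PT.lf (nat_lit 26068) (nat_lit 6) (nat_lit 343) (nat_lit 4) (nat_lit 225) (nat_lit 281) (nat_lit 274)) (PT.lf (nat_lit 26752) (nat_lit 6) (nat_lit 352) (nat_lit 4) (nat_lit 226) (nat_lit 281) (nat_lit 273))) (PT.nd (nat_lit 78) (PT.lf (nat_lit 27512) (nat_lit 6) (nat_lit 362) (nat_lit 4) (nat_lit 227) (nat_lit 281) (nat_lit 272)) (PT.lf (nat_lit 28272) (nat_lit 6) (nat_lit 372) (nat_lit 4) (nat_lit 228) (nat_lit 281) (nat_lit 271)))) (PT.nd (nat_lit 156) (PT.nd (nat_lit 78) (PT.lf (nat_lit 29108) (nat_lit 6) (nat_lit 383) (nat_lit 4) (nat_lit 229) (nat_lit 281) (nat_lit 270)) (PT.lf (nat_lit 29944) (nat_lit 6) (nat_lit 394) (nat_lit 4) (nat_lit 230) (nat_lit 281) (nat_lit 269)))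 (PT.nd (nat_lit 78) (PT.lf (nat_lit 30780) (nat_lit 6) (nat_lit 405) (nat_lit 4) (nat_lit 231) (nat_lit 281) (nat_lit 268)) (PT.lf (nat_lit 31616) (nat_lit 6) (nat_lit 416) (nat_lit 4) (nat_lit 232) (nat_lit 281) (nat_lit 267))))) (PT.nd (nat_lit 312) (PT.nd (nat_lit 156) (PT.nd (nat_lit 78) (PT.lf (nat_lit 32528) (nat_lit 6) (nat_lit 428) (nat_lit 4) (nat_lit 233) (nat_lit 281) (nat_lit 266)) (PT.lf (nat_lit 33440) (nat_lit 6) (nat_lit 440) (nat_lit 4) (nat_lit 234) (nat_lit 281) (nat_lit 265))) (PT.nd (nat_lit 78) (PT.lf (nat_lit 34504) (nat_lit 6) (nat_lit 454) (nat_lit 4) (nat_lit 235) (nat_lit 281) (nat_lit 264)) (PT.lf (nat_lit 36328) (nat_lit 6) (nat_lit 478) (nat_lit 4) (nat_lit 236) (nat_lit 281) (nat_lit 263)))) (PT.nd (nat_lit 156) (PT.nd (nat_lit 78) (PT.lf (nat_lit 38076) (nat_lit 6) (nat_lit 501) (nat_lit 4) (nat_lit 237) (nat_lit 281) (nat_lit 262)) (PT.lf (nat_lit 39748) (nat_lit 6) (nat_lit 523) (nat_lit 4) (nat_lit 238) (nat_lit 281) (nat_lit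 261))) (PT.nd (nat_lit 78) (PT.lf (nat_lit 41344) (nat_lit 6) (nat_lit 544) (nat_lit 4) (nat_lit 239) (nat_lit 281) (nat_lit 260)) (PT.nd (nat_lit 78) (PT.lf (nat_lit 41268) (nat_lit 6) (nat_lit 543) (nat_lit 4) (nat_lit 240) (nat_lit 281) (nat_lit 259)) (PT.lf (nat_lit 41192) (nat_lit 6) (nat_lit 542) (nat_lit 4) (nat_lit 241) (nat_lit 281) (nat_lit 258))))))))
noncomputable def pc93 : PT := (PT.nd (nat_lit 1326) (PT.nd (nat_lit 624) (PT.nd (nat_lit 312) (PT.nd (nat_lit 156) (PT.nd (nat_lit 78) (PT.lf (nat_lit 41116) (nat_lit 6) (nat_lit 541) (nat_lit 4) (nat_lit 242) (nat_lit 281) (nat_lit 257)) (PT.lf (nat_lit 41040) (nat_lit 6) (nat_lit 540) (nat_lit 4) (nat_lit 243) (nat_lit 281) (nat_lit 256))) (PT.nd (nat_lit 78) (PT.lf (nat_lit 40964) (nat_lit 6) (nat_lit 539) (nat_lit 4) (nat_lit 244) (nat_lit 281) (nat_lit 255)) (PT.lf (nat_lit 40888) (nat_lit 6) (nat_lit 538) (nat_lit 4) (nat_lit 245) (nat_lit 281) (nat_lit 254)))) (PT.nd (nat_lit 156) (PT.nd (nat_lit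 78) (PT.lf (nat_lit 40812) (nat_lit 6) (nat_lit 537) (nat_lit 4) (nat_lit 246) (nat_lit 281) (nat_lit 253)) (PT.lf (nat_lit 40736) (nat_lit 6) (nat_lit 536) (nat_lit 4) (nat_lit 247) (nat_lit 281) (nat_lit 252))) (PT.nd (nat_lit 78) (PT.lf (nat_lit 40660) (nat_lit 6) (nat_lit 535) (nat_lit 4) (nat_lit 248) (nat_lit 281) (nat_lit 251)) (PT.lf (nat_lit 40584) (nat_lit 6) (nat_lit 534) (nat_lit 4) (nat_lit 249) (nat_lit 281) (nat_lit 250))))) (PT.nd (nat_lit 312) (PT.nd (nat_lit 156) (PT.nd (nat_lit 78) (PT.lf (nat_lit 40584) (nat_lit 6) (nat_lit 534) (nat_lit 2) (nat_lit 250) (nat_lit 281) (nat_lit 249)) (PT.lf (nat_lit 40660) (nat_lit 6) (nat_lit 535) (nat_lit 2) (nat_lit 251) (nat_lit 281) (nat_lit 248))) (PT.nd (nat_lit 78) (PT.lf (nat_lit 40736) (nat_lit 6) (nat_lit 536) (nat_lit 2) (nat_lit 252) (nat_lit 281) (nat_lit 247)) (PT.lf (nat_lit 40812) (nat_lit 6) (nat_lit 537) (nat_lit 2) (nat_lit 253) (nat_lit 281) (nat_lit 246)))) (PT.nd (nat_lit 156) (PT.nd (nat_lit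 78) (PT.lf (nat_lit 40888) (nat_lit 6) (nat_lit 538) (nat_lit 2) (nat_lit 254) (nat_lit 281) (nat_lit 245)) (PT.lf (nat_lit 40964) (nat_lit 6) (nat_lit 539) (nat_lit 2) (nat_lit 255) (nat_lit 281) (nat_lit 244))) (PT.nd (nat_lit 78) (PT.lf (nat_lit 41040) (nat_lit 6) (nat_lit 540) (nat_lit 2) (nat_lit 256) (nat_lit 281) (nat_lit 243)) (PT.nd (nat_lit 78) (PT.lf (nat_lit 41116) (nat_lit 6) (nat_lit 541) (nat_lit 2) (nat_lit 257) (nat_lit 281) (nat_lit 242)) (PT.lf (nat_lit 41192) (nat_lit 6) (nat_lit 542) (nat_lit 2) (nat_lit 258) (nat_lit 281) (nat_lit 241))))))) (PT.nd (nat_lit 624) (PT.nd (nat_lit 312) (PT.nd (nat_lit 156) (PT.nd (nat_lit 78) (PT.lf (nat_lit 41268) (nat_lit 6) (nat_lit 543) (nat_lit 2) (nat_lit 259) (nat_lit 281) (nat_lit 240)) (PT.lf (nat_lit 41344) (nat_lit 6) (nat_lit 544) (nat_lit 2) (nat_lit 260) (nat_lit 281) (nat_lit 239))) (PT.nd (nat_lit 78) (PT.lf (nat_lit 39748) (nat_lit 6) (nat_lit 523) (nat_lit 2) (nat_lit 261) (nat_lit 281) (nat_lit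 238)) (PT.lf (nat_lit 38076) (nat_lit 6) (nat_lit 501) (nat_lit 2) (nat_lit 262) (nat_lit 281) (nat_lit 237)))) (PT.nd (nat_lit 156) (PT.nd (nat_lit 78) (PT.lf (nat_lit 36328) (nat_lit 6) (nat_lit 478) (nat_lit 2) (nat_lit 263) (nat_lit 281) (nat_lit 236)) (PT.lf (nat_lit 34504) (nat_lit 6) (nat_lit 454) (nat_lit 2) (nat_lit 264) (nat_lit 281) (nat_lit 235))) (PT.nd (nat_lit 78) (PT.lf (nat_lit 33440) (nat_lit 6) (nat_lit 440) (nat_lit 2) (nat_lit 265) (nat_lit 281) (nat_lit 234)) (PT.lf (nat_lit 32528) (nat_lit 6) (nat_lit 428) (nat_lit 2) (nat_lit 266) (nat_lit 281) (nat_lit 233))))) (PT.nd (nat_lit 312) (PT.nd (nat_lit 156) (PT.nd (nat_lit 78) (PT.lf (nat_lit 31616) (nat_lit 6) (nat_lit 416) (nat_lit 2) (nat_lit 267) (nat_lit 281) (nat_lit 232)) (PT.lf (nat_lit 30780) (nat_lit 6) (nat_lit 405) (nat_lit 2) (nat_lit 268) (nat_lit 281) (nat_lit 231))) (PT.nd (nat_lit 78) (PT.lf (nat_lit 29944) (nat_lit 6) (nat_lit 394) (nat_lit 2) (nat_lit 269) (nat_lit 281) (nat_lit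 230)) (PT.lf (nat_lit 29108) (nat_lit 6) (nat_lit 383) (nat_lit 2) (nat_lit 270) (nat_lit 281) (nat_lit 229)))) (PT.nd (nat_lit 156) (PT.nd (nat_lit 78) (PT.lf (nat_lit 28272) (nat_lit 6) (nat_lit 372) (nat_lit 2) (nat_lit 271) (nat_lit 281) (nat_lit 228)) (PT.lf (nat_lit 27512) (nat_lit 6) (nat_lit 362) (nat_lit 2) (nat_lit 272) (nat_lit 281) (nat_lit 227))) (PT.nd (nat_lit 78) (PT.lf (nat_lit 26752) (nat_lit 6) (nat_lit 352) (nat_lit 2) (nat_lit 273) (nat_lit 281) (nat_lit 226)) (PT.nd (nat_lit 78) (PT.lf (nat_lit 26068) (nat_lit 6) (nat_lit 343) (nat_lit 2) (nat_lit 274) (nat_lit 281) (nat_lit 225)) (PT.lf (nat_lit 25308) (nat_lit 6) (nat_lit 333) (nat_lit 2) (nat_lit 275) (nat_lit 281) (nat_lit 224))))))))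
noncomputable def pc94 : PT := (PT.nd (nat_lit 75660) (PT.nd (nat_lit 624) (PT.nd (nat_lit 312) (PT.nd (nat_lit 156) (PT.nd (nat_lit 78) (PT.lf (nat_lit 24624) (nat_lit 6) (nat_lit 324) (nat_lit 2) (nat_lit 276) (nat_lit 281) (nat_lit 223)) (PT.lf (nat_lit 23940) (nat_lit 6) (nat_lit 315) (nat_lit 2) (nat_lit 277) (nat_lit 281) (nat_lit 222))) (PT.nd (nat_lit 78) (PT.lf (nat_lit 23332) (nat_lit 6) (nat_lit 307) (nat_lit 2) (nat_lit 278) (nat_lit 281) (nat_lit 221)) (PT.lf (nat_lit 22648) (nat_lit 6) (nat_lit 298) (nat_lit 2) (nat_lit 279) (nat_lit 281) (nat_lit 220)))) (PT.nd (nat_lit 156) (PT.nd (nat_lit 78) (PT.lf (nat_lit 22040) (nat_lit 6) (nat_lit 290) (nat_lit 2) (nat_lit 280) (nat_lit 281) (nat_lit 219)) (PT.lf (nat_lit 21432) (nat_lit 3) (nat_lit 282) (nat_lit 0) (nat_lit 281) (nat_lit 281) (nat_lit 218))) (PT.nd (nat_lit 78) (PT.lf (nat_lit 20748) (nat_lit 6) (nat_lit 273) (nat_lit 0) (nat_lit 282) (nat_lit 281) (nat_lit 217)) (PT.lf (nat_lit 20064) (nat_lit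 6) (nat_lit 264) (nat_lit 0) (nat_lit 283) (nat_lit 281) (nat_lit 216))))) (PT.nd (nat_lit 312) (PT.nd (nat_lit 156) (PT.nd (nat_lit 78) (PT.lf (nat_lit 19456) (nat_lit 6) (nat_lit 256) (nat_lit 0) (nat_lit 284) (nat_lit 281) (nat_lit 215)) (PT.lf (nat_lit 18848) (nat_lit 6) (nat_lit 248) (nat_lit 0) (nat_lit 285) (nat_lit 281) (nat_lit 214))) (PT.nd (nat_lit 78) (PT.lf (nat_lit 18240) (nat_lit 6) (nat_lit 240) (nat_lit 0) (nat_lit 286) (nat_lit 281) (nat_lit 213)) (PT.lf (nat_lit 17632) (nat_lit 6) (nat_lit 232) (nat_lit 0) (nat_lit 287) (nat_lit 281) (nat_lit 212)))) (PT.nd (nat_lit 156) (PT.nd (nat_lit 78) (PT.lf (nat_lit 17100) (nat_lit 6) (nat_lit 225) (nat_lit 0) (nat_lit 288) (nat_lit 281) (nat_lit 211)) (PT.lf (nat_lit 16492) (nat_lit 6) (nat_lit 217) (nat_lit 0) (nat_lit 289) (nat_lit 281) (nat_lit 210))) (PT.nd (nat_lit 78) (PT.lf (nat_lit 15960) (nat_lit 6) (nat_lit 210) (nat_lit 0) (nat_lit 290) (nat_lit 281) (nat_lit 209)) (PT.nd (nat_lit 78) (PT.lf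 (nat_lit 15428) (nat_lit 6) (nat_lit 203) (nat_lit 0) (nat_lit 291) (nat_lit 281) (nat_lit 208)) (PT.lf (nat_lit 14896) (nat_lit 6) (nat_lit 196) (nat_lit 0) (nat_lit 292) (nat_lit 281) (nat_lit 207))))))) (PT.nd (nat_lit 624) (PT.nd (nat_lit 312) (PT.nd (nat_lit 156) (PT.nd (nat_lit 78) (PT.lf (nat_lit 13984) (nat_lit 6) (nat_lit 184) (nat_lit 5) (nat_lit 205) (nat_lit 282) (nat_lit 293)) (PT.lf (nat_lit 14440) (nat_lit 6) (nat_lit 190) (nat_lit 5) (nat_lit 206) (nat_lit 282) (nat_lit 292))) (PT.nd (nat_lit 78) (PT.lf (nat_lit 14972) (nat_lit 6) (nat_lit 197) (nat_lit 5) (nat_lit 207) (nat_lit 282) (nat_lit 291)) (PT.lf (nat_lit 15504) (nat_lit 6) (nat_lit 204) (nat_lit 5) (nat_lit 208) (nat_lit 282) (nat_lit 290)))) (PT.nd (nat_lit 156) (PT.nd (nat_lit 78) (PT.lf (nat_lit 16036) (nat_lit 6) (nat_lit 211) (nat_lit 5) (nat_lit 209) (nat_lit 282) (nat_lit 289)) (PT.lf (nat_lit 16568) (nat_lit 6) (nat_lit 218) (nat_lit 5) (nat_lit 210) (nat_lit 282) (nat_lit 288)))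 (PT.nd (nat_lit 78) (PT.lf (nat_lit 17176) (nat_lit 6) (nat_lit 226) (nat_lit 5) (nat_lit 211) (nat_lit 282) (nat_lit 287)) (PT.lf (nat_lit 17708) (nat_lit 6) (nat_lit 233) (nat_lit 5) (nat_lit 212) (nat_lit 282) (nat_lit 286))))) (PT.nd (nat_lit 312) (PT.nd (nat_lit 156) (PT.nd (nat_lit 78) (PT.lf (nat_lit 18316) (nat_lit 6) (nat_lit 241) (nat_lit 5) (nat_lit 213) (nat_lit 282) (nat_lit 285)) (PT.lf (nat_lit 18924) (nat_lit 6) (nat_lit 249) (nat_lit 5) (nat_lit 214) (nat_lit 282) (nat_lit 284))) (PT.nd (nat_lit 78) (PT.lf (nat_lit 19532) (nat_lit 6) (nat_lit 257) (nat_lit 5) (nat_lit 215) (nat_lit 282) (nat_lit 283)) (PT.lf (nat_lit 20140) (nat_lit 3) (nat_lit 265) (nat_lit 4) (nat_lit 216) (nat_lit 282) (nat_lit 282)))) (PT.nd (nat_lit 156) (PT.nd (nat_lit 78) (PT.lf (nat_lit 20748) (nat_lit 6) (nat_lit 273) (nat_lit 4) (nat_lit 217) (nat_lit 282) (nat_lit 281)) (PT.lf (nat_lit 21356) (nat_lit 6) (nat_lit 281) (nat_lit 4) (nat_lit 218) (nat_lit 282) (nat_lit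 280))) (PT.nd (nat_lit 78) (PT.lf (nat_lit 21964) (nat_lit 6) (nat_lit 289) (nat_lit 4) (nat_lit 219) (nat_lit 282) (nat_lit 279)) (PT.nd (nat_lit 78) (PT.lf (nat_lit 22572) (nat_lit 6) (nat_lit 297) (nat_lit 4) (nat_lit 220) (nat_lit 282) (nat_lit 278)) (PT.lf (nat_lit 23256) (nat_lit 6) (nat_lit 306) (nat_lit 4) (nat_lit 221) (nat_lit 282) (nat_lit 277))))))))
noncomputable def pc95 : PT := (PT.nd (nat_lit 1326) (PT.nd (nat_lit 624) (PT.nd (nat_lit 312) (PT.nd (nat_lit 156) (PT.nd (nat_lit 78) (PT.lf (nat_lit 23864) (nat_lit 6) (nat_lit 314) (nat_lit 4) (nat_lit 222) (nat_lit 282) (nat_lit 276)) (PT.lf (nat_lit 24548) (nat_lit 6) (nat_lit 323) (nat_lit 4) (nat_lit 223) (nat_lit 282) (nat_lit 275))) (PT.nd (nat_lit 78) (PT.lf (nat_lit 25232) (nat_lit 6) (nat_lit 332) (nat_lit 4) (nat_lit 224) (nat_lit 282) (nat_lit 274)) (PT.lf (nat_lit 25992) (nat_lit 6) (nat_lit 342) (nat_lit 4) (nat_lit 225) (nat_lit 282) (nat_lit 273)))) (PT.nd (nat_lit 156) (PT.nd (nat_lit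 78) (PT.lf (nat_lit 26676) (nat_lit 6) (nat_lit 351) (nat_lit 4) (nat_lit 226) (nat_lit 282) (nat_lit 272)) (PT.lf (nat_lit 27436) (nat_lit 6) (nat_lit 361) (nat_lit 4) (nat_lit 227) (nat_lit 282) (nat_lit 271))) (PT.nd (nat_lit 78) (PT.lf (nat_lit 28196) (nat_lit 6) (nat_lit 371) (nat_lit 4) (nat_lit 228) (nat_lit 282) (nat_lit 270)) (PT.lf (nat_lit 29032) (nat_lit 6) (nat_lit 382) (nat_lit 4) (nat_lit 229) (nat_lit 282) (nat_lit 269))))) (PT.nd (nat_lit 312) (PT.nd (nat_lit 156) (PT.nd (nat_lit 78) (PT.lf (nat_lit 29868) (nat_lit 6) (nat_lit 393) (nat_lit 4) (nat_lit 230) (nat_lit 282) (nat_lit 268)) (PT.lf (nat_lit 30704) (nat_lit 6) (nat_lit 404) (nat_lit 4) (nat_lit 231) (nat_lit 282) (nat_lit 267))) (PT.nd (nat_lit 78) (PT.lf (nat_lit 31540) (nat_lit 6) (nat_lit 415) (nat_lit 4) (nat_lit 232) (nat_lit 282) (nat_lit 266)) (PT.lf (nat_lit 32452) (nat_lit 6) (nat_lit 427) (nat_lit 4) (nat_lit 233) (nat_lit 282) (nat_lit 265)))) (PT.nd (nat_lit 156) (PT.nd (nat_lit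 78) (PT.lf (nat_lit 33364) (nat_lit 6) (nat_lit 439) (nat_lit 4) (nat_lit 234) (nat_lit 282) (nat_lit 264)) (PT.lf (nat_lit 34428) (nat_lit 6) (nat_lit 453) (nat_lit 4) (nat_lit 235) (nat_lit 282) (nat_lit 263))) (PT.nd (nat_lit 78) (PT.lf (nat_lit 36252) (nat_lit 6) (nat_lit 477) (nat_lit 4) (nat_lit 236) (nat_lit 282) (nat_lit 262)) (PT.nd (nat_lit 78) (PT.lf (nat_lit 38000) (nat_lit 6) (nat_lit 500) (nat_lit 4) (nat_lit 237) (nat_lit 282) (nat_lit 261)) (PT.lf (nat_lit 39672) (nat_lit 6) (nat_lit 522) (nat_lit 4) (nat_lit 238) (nat_lit 282) (nat_lit 260))))))) (PT.nd (nat_lit 624) (PT.nd (nat_lit 312) (PT.nd (nat_lit 156) (PT.nd (nat_lit 78) (PT.lf (nat_lit 39596) (nat_lit 6) (nat_lit 521) (nat_lit 4) (nat_lit 239) (nat_lit 282) (nat_lit 259)) (PT.lf (nat_lit 39520) (nat_lit 6) (nat_lit 520) (nat_lit 4) (nat_lit 240) (nat_lit 282) (nat_lit 258))) (PT.nd (nat_lit 78) (PT.lf (nat_lit 39444) (nat_lit 6) (nat_lit 519) (nat_lit 4) (nat_lit 241) (nat_lit 282) (nat_lit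 257)) (PT.lf (nat_lit 39368) (nat_lit 6) (nat_lit 518) (nat_lit 4) (nat_lit 242) (nat_lit 282) (nat_lit 256)))) (PT.nd (nat_lit 156) (PT.nd (nat_lit 78) (PT.lf (nat_lit 39292) (nat_lit 6) (nat_lit 517) (nat_lit 4) (nat_lit 243) (nat_lit 282) (nat_lit 255)) (PT.lf (nat_lit 39216) (nat_lit 6) (nat_lit 516) (nat_lit 4) (nat_lit 244) (nat_lit 282) (nat_lit 254))) (PT.nd (nat_lit 78) (PT.lf (nat_lit 39140) (nat_lit 6) (nat_lit 515) (nat_lit 4) (nat_lit 245) (nat_lit 282) (nat_lit 253)) (PT.lf (nat_lit 39064) (nat_lit 6) (nat_lit 514) (nat_lit 4) (nat_lit 246) (nat_lit 282) (nat_lit 252))))) (PT.nd (nat_lit 312) (PT.nd (nat_lit 156) (PT.nd (nat_lit 78) (PT.lf (nat_lit 38988) (nat_lit 6) (nat_lit 513) (nat_lit 4) (nat_lit 247) (nat_lit 282) (nat_lit 251)) (PT.lf (nat_lit 38912) (nat_lit 6) (nat_lit 512) (nat_lit 4) (nat_lit 248) (nat_lit 282) (nat_lit 250))) (PT.nd (nat_lit 78) (PT.lf (nat_lit 38836) (nat_lit 3) (nat_lit 511) (nat_lit 2) (nat_lit 249) (nat_lit 282) (nat_lit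 249)) (PT.lf (nat_lit 38912) (nat_lit 6) (nat_lit 512) (nat_lit 2) (nat_lit 250) (nat_lit 282) (nat_lit 248)))) (PT.nd (nat_lit 156) (PT.nd (nat_lit 78) (PT.lf (nat_lit 38988) (nat_lit 6) (nat_lit 513) (nat_lit 2) (nat_lit 251) (nat_lit 282) (nat_lit 247)) (PT.lf (nat_lit 39064) (nat_lit 6) (nat_lit 514) (nat_lit 2) (nat_lit 252) (nat_lit 282) (nat_lit 246))) (PT.nd (nat_lit 78) (PT.lf (nat_lit 39140) (nat_lit 6) (nat_lit 515) (nat_lit 2) (nat_lit 253) (nat_lit 282) (nat_lit 245)) (PT.nd (nat_lit 78) (PT.lf (nat_lit 39216) (nat_lit 6) (nat_lit 516) (nat_lit 2) (nat_lit 254) (nat_lit 282) (nat_lit 244)) (PT.lf (nat_lit 39292) (nat_lit 6) (nat_lit 517) (nat_lit 2) (nat_lit 255) (nat_lit 282) (nat_lit 243))))))))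
noncomputable def pc96 : PT := (PT.nd (nat_lit 1248) (PT.nd (nat_lit 624) (PT.nd (nat_lit 312) (PT.nd (nat_lit 156) (PT.nd (nat_lit 78) (PT.lf (nat_lit 39368) (nat_lit 6) (nat_lit 518) (nat_lit 2) (nat_lit 256) (nat_lit 282) (nat_lit 242)) (PT.lf (nat_lit 39444) (nat_lit 6) (nat_lit 519) (nat_lit 2) (nat_lit 257) (nat_lit 282) (nat_lit 241))) (PT.nd (nat_lit 78) (PT.lf (nat_lit 39520) (nat_lit 6) (nat_lit 520) (nat_lit 2) (nat_lit 258) (nat_lit 282) (nat_lit 240)) (PT.lf (nat_lit 39596) (nat_lit 6) (nat_lit 521) (nat_lit 2) (nat_lit 259) (nat_lit 282) (nat_lit 239)))) (PT.nd (nat_lit 156) (PT.nd (nat_lit 78) (PT.lf (nat_lit 39672) (nat_lit 6) (nat_lit 522) (nat_lit 2) (nat_lit 260) (nat_lit 282) (nat_lit 238)) (PT.lf (nat_lit 38000) (nat_lit 6) (nat_lit 500) (nat_lit 2) (nat_lit 261) (nat_lit 282) (nat_lit 237))) (PT.nd (nat_lit 78) (PT.lf (nat_lit 36252) (nat_lit 6) (nat_lit 477) (nat_lit 2) (nat_lit 262) (nat_lit 282) (nat_lit 236)) (PT.lf (nat_lit 34428) (nat_lit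 6) (nat_lit 453) (nat_lit 2) (nat_lit 263) (nat_lit 282) (nat_lit 235))))) (PT.nd (nat_lit 312) (PT.nd (nat_lit 156) (PT.nd (nat_lit 78) (PT.lf (nat_lit 33364) (nat_lit 6) (nat_lit 439) (nat_lit 2) (nat_lit 264) (nat_lit 282) (nat_lit 234)) (PT.lf (nat_lit 32452) (nat_lit 6) (nat_lit 427) (nat_lit 2) (nat_lit 265) (nat_lit 282) (nat_lit 233))) (PT.nd (nat_lit 78) (PT.lf (nat_lit 31540) (nat_lit 6) (nat_lit 415) (nat_lit 2) (nat_lit 266) (nat_lit 282) (nat_lit 232)) (PT.lf (nat_lit 30704) (nat_lit 6) (nat_lit 404) (nat_lit 2) (nat_lit 267) (nat_lit 282) (nat_lit 231)))) (PT.nd (nat_lit 156) (PT.nd (nat_lit 78) (PT.lf (nat_lit 29868) (nat_lit 6) (nat_lit 393) (nat_lit 2) (nat_lit 268) (nat_lit 282) (nat_lit 230)) (PT.lf (nat_lit 29032) (nat_lit 6) (nat_lit 382) (nat_lit 2) (nat_lit 269) (nat_lit 282) (nat_lit 229))) (PT.nd (nat_lit 78) (PT.lf (nat_lit 28196) (nat_lit 6) (nat_lit 371) (nat_lit 2) (nat_lit 270) (nat_lit 282) (nat_lit 228)) (PT.lf (nat_lit 27436) (nat_lit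 6) (nat_lit 361) (nat_lit 2) (nat_lit 271) (nat_lit 282) (nat_lit 227)))))) (PT.nd (nat_lit 624) (PT.nd (nat_lit 312) (PT.nd (nat_lit 156) (PT.nd (nat_lit 78) (PT.lf (nat_lit 26676) (nat_lit 6) (nat_lit 351) (nat_lit 2) (nat_lit 272) (nat_lit 282) (nat_lit 226)) (PT.lf (nat_lit 25992) (nat_lit 6) (nat_lit 342) (nat_lit 2) (nat_lit 273) (nat_lit 282) (nat_lit 225))) (PT.nd (nat_lit 78) (PT.lf (nat_lit 25232) (nat_lit 6) (nat_lit 332) (nat_lit 2) (nat_lit 274) (nat_lit 282) (nat_lit 224)) (PT.lf (nat_lit 24548) (nat_lit 6) (nat_lit 323) (nat_lit 2) (nat_lit 275) (nat_lit 282) (nat_lit 223)))) (PT.nd (nat_lit 156) (PT.nd (nat_lit 78) (PT.lf (nat_lit 23864) (nat_lit 6) (nat_lit 314) (nat_lit 2) (nat_lit 276) (nat_lit 282) (nat_lit 222)) (PT.lf (nat_lit 23256) (nat_lit 6) (nat_lit 306) (nat_lit 2) (nat_lit 277) (nat_lit 282) (nat_lit 221))) (PT.nd (nat_lit 78) (PT.lf (nat_lit 22572) (nat_lit 6) (nat_lit 297) (nat_lit 2) (nat_lit 278) (nat_lit 282) (nat_lit 220)) (PT.lf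 (nat_lit 21964) (nat_lit 6) (nat_lit 289) (nat_lit 2) (nat_lit 279) (nat_lit 282) (nat_lit 219))))) (PT.nd (nat_lit 312) (PT.nd (nat_lit 156) (PT.nd (nat_lit 78) (PT.lf (nat_lit 21356) (nat_lit 6) (nat_lit 281) (nat_lit 2) (nat_lit 280) (nat_lit 282) (nat_lit 218)) (PT.lf (nat_lit 20748) (nat_lit 6) (nat_lit 273) (nat_lit 2) (nat_lit 281) (nat_lit 282) (nat_lit 217))) (PT.nd (nat_lit 78) (PT.lf (nat_lit 20140) (nat_lit 3) (nat_lit 265) (nat_lit 0) (nat_lit 282) (nat_lit 282) (nat_lit 216)) (PT.lf (nat_lit 19532) (nat_lit 6) (nat_lit 257) (nat_lit 0) (nat_lit 283) (nat_lit 282) (nat_lit 215)))) (PT.nd (nat_lit 156) (PT.nd (nat_lit 78) (PT.lf (nat_lit 18924) (nat_lit 6) (nat_lit 249) (nat_lit 0) (nat_lit 284) (nat_lit 282) (nat_lit 214)) (PT.lf (nat_lit 18316) (nat_lit 6) (nat_lit 241) (nat_lit 0) (nat_lit 285) (nat_lit 282) (nat_lit 213))) (PT.nd (nat_lit 78) (PT.lf (nat_lit 17708) (nat_lit 6) (nat_lit 233) (nat_lit 0) (nat_lit 286) (nat_lit 282) (nat_lit 212))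 (PT.nd (nat_lit 78) (PT.lf (nat_lit 17176) (nat_lit 6) (nat_lit 226) (nat_lit 0) (nat_lit 287) (nat_lit 282) (nat_lit 211)) (PT.lf (nat_lit 16568) (nat_lit 6) (nat_lit 218) (nat_lit 0) (nat_lit 288) (nat_lit 282) (nat_lit 210))))))))
noncomputable def pc97 : PT := (PT.nd (nat_lit 75504) (PT.nd (nat_lit 74802) (PT.nd (nat_lit 312) (PT.nd (nat_lit 156) (PT.nd (nat_lit 78) (PT.lf (nat_lit 16036) (nat_lit 6) (nat_lit 211) (nat_lit 0) (nat_lit 289) (nat_lit 282) (nat_lit 209)) (PT.lf (nat_lit 15504) (nat_lit 6) (nat_lit 204) (nat_lit 0) (nat_lit 290) (nat_lit 282) (nat_lit 208))) (PT.nd (nat_lit 78) (PT.lf (nat_lit 14972) (nat_lit 6) (nat_lit 197) (nat_lit 0) (nat_lit 291) (nat_lit 282) (nat_lit 207)) (PT.lf (nat_lit 14440) (nat_lit 6) (nat_lit 190) (nat_lit 0) (nat_lit 292) (nat_lit 282) (nat_lit 206)))) (PT.nd (nat_lit 74334) (PT.nd (nat_lit 74256) (PT.lf (nat_lit 13984) (nat_lit 6) (nat_lit 184) (nat_lit 0) (nat_lit 293) (nat_lit 282) (nat_lit 205)) (PT.lf (nat_lit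 13528) (nat_lit 6) (nat_lit 178) (nat_lit 5) (nat_lit 204) (nat_lit 283) (nat_lit 293))) (PT.nd (nat_lit 78) (PT.lf (nat_lit 14060) (nat_lit 6) (nat_lit 185) (nat_lit 5) (nat_lit 205) (nat_lit 283) (nat_lit 292)) (PT.lf (nat_lit 14516) (nat_lit 6) (nat_lit 191) (nat_lit 5) (nat_lit 206) (nat_lit 283) (nat_lit 291))))) (PT.nd (nat_lit 312) (PT.nd (nat_lit 156) (PT.nd (nat_lit 78) (PT.lf (nat_lit 15048) (nat_lit 6) (nat_lit 198) (nat_lit 5) (nat_lit 207) (nat_lit 283) (nat_lit 290)) (PT.lf (nat_lit 15580) (nat_lit 6) (nat_lit 205) (nat_lit 5) (nat_lit 208) (nat_lit 283) (nat_lit 289))) (PT.nd (nat_lit 78) (PT.lf (nat_lit 16112) (nat_lit 6) (nat_lit 212) (nat_lit 5) (nat_lit 209) (nat_lit 283) (nat_lit 288)) (PT.lf (nat_lit 16644) (nat_lit 6) (nat_lit 219) (nat_lit 5) (nat_lit 210) (nat_lit 283) (nat_lit 287)))) (PT.nd (nat_lit 156) (PT.nd (nat_lit 78) (PT.lf (nat_lit 17252) (nat_lit 6) (nat_lit 227) (nat_lit 5) (nat_lit 211) (nat_lit 283) (nat_lit 286)) (PT.lf (nat_lit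 17784) (nat_lit 6) (nat_lit 234) (nat_lit 5) (nat_lit 212) (nat_lit 283) (nat_lit 285))) (PT.nd (nat_lit 78) (PT.lf (nat_lit 18392) (nat_lit 6) (nat_lit 242) (nat_lit 5) (nat_lit 213) (nat_lit 283) (nat_lit 284)) (PT.nd (nat_lit 78) (PT.lf (nat_lit 19000) (nat_lit 3) (nat_lit 250) (nat_lit 4) (nat_lit 214) (nat_lit 283) (nat_lit 283)) (PT.lf (nat_lit 19532) (nat_lit 6) (nat_lit 257) (nat_lit 4) (nat_lit 215) (nat_lit 283) (nat_lit 282))))))) (PT.nd (nat_lit 624) (PT.nd (nat_lit 312) (PT.nd (nat_lit 156) (PT.nd (nat_lit 78) (PT.lf (nat_lit 20064) (nat_lit 6) (nat_lit 264) (nat_lit 4) (nat_lit 216) (nat_lit 283) (nat_lit 281)) (PT.lf (nat_lit 20672) (nat_lit 6) (nat_lit 272) (nat_lit 4) (nat_lit 217) (nat_lit 283) (nat_lit 280))) (PT.nd (nat_lit 78) (PT.lf (nat_lit 21280) (nat_lit 6) (nat_lit 280) (nat_lit 4) (nat_lit 218) (nat_lit 283) (nat_lit 279)) (PT.lf (nat_lit 21888) (nat_lit 6) (nat_lit 288) (nat_lit 4) (nat_lit 219) (nat_lit 283) (nat_lit 278)))) (PT.nd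 (nat_lit 156) (PT.nd (nat_lit 78) (PT.lf (nat_lit 22496) (nat_lit 6) (nat_lit 296) (nat_lit 4) (nat_lit 220) (nat_lit 283) (nat_lit 277)) (PT.lf (nat_lit 23180) (nat_lit 6) (nat_lit 305) (nat_lit 4) (nat_lit 221) (nat_lit 283) (nat_lit 276))) (PT.nd (nat_lit 78) (PT.lf (nat_lit 23788) (nat_lit 6) (nat_lit 313) (nat_lit 4) (nat_lit 222) (nat_lit 283) (nat_lit 275)) (PT.lf (nat_lit 24472) (nat_lit 6) (nat_lit 322) (nat_lit 4) (nat_lit 223) (nat_lit 283) (nat_lit 274))))) (PT.nd (nat_lit 312) (PT.nd (nat_lit 156) (PT.nd (nat_lit 78) (PT.lf (nat_lit 25156) (nat_lit 6) (nat_lit 331) (nat_lit 4) (nat_lit 224) (nat_lit 283) (nat_lit 273)) (PT.lf (nat_lit 25916) (nat_lit 6) (nat_lit 341) (nat_lit 4) (nat_lit 225) (nat_lit 283) (nat_lit 272))) (PT.nd (nat_lit 78) (PT.lf (nat_lit 26600) (nat_lit 6) (nat_lit 350) (nat_lit 4) (nat_lit 226) (nat_lit 283) (nat_lit 271)) (PT.lf (nat_lit 27360) (nat_lit 6) (nat_lit 360) (nat_lit 4) (nat_lit 227) (nat_lit 283) (nat_lit 270))))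 (PT.nd (nat_lit 156) (PT.nd (nat_lit 78) (PT.lf (nat_lit 28120) (nat_lit 6) (nat_lit 370) (nat_lit 4) (nat_lit 228) (nat_lit 283) (nat_lit 269)) (PT.lf (nat_lit 28956) (nat_lit 6) (nat_lit 381) (nat_lit 4) (nat_lit 229) (nat_lit 283) (nat_lit 268))) (PT.nd (nat_lit 78) (PT.lf (nat_lit 29792) (nat_lit 6) (nat_lit 392) (nat_lit 4) (nat_lit 230) (nat_lit 283) (nat_lit 267)) (PT.nd (nat_lit 78) (PT.lf (nat_lit 30628) (nat_lit 6) (nat_lit 403) (nat_lit 4) (nat_lit 231) (nat_lit 283) (nat_lit 266)) (PT.lf (nat_lit 31464) (nat_lit 6) (nat_lit 414) (nat_lit 4) (nat_lit 232) (nat_lit 283) (nat_lit 265))))))))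
noncomputable def pc98 : PT := (PT.nd (nat_lit 1326) (PT.nd (nat_lit 624) (PT.nd (nat_lit 312) (PT.nd (nat_lit 156) (PT.nd (nat_lit 78) (PT.lf (nat_lit 32376) (nat_lit 6) (nat_lit 426) (nat_lit 4) (nat_lit 233) (nat_lit 283) (nat_lit 264)) (PT.lf (nat_lit 33288) (nat_lit 6) (nat_lit 438) (nat_lit 4) (nat_lit 234) (nat_lit 283) (nat_lit 263))) (PT.nd (nat_lit 78) (PT.lf (nat_lit 34352) (nat_lit 6) (nat_lit 452) (nat_lit 4) (nat_lit 235) (nat_lit 283) (nat_lit 262)) (PT.lf (nat_lit 36176) (nat_lit 6) (nat_lit 476) (nat_lit 4) (nat_lit 236) (nat_lit 283) (nat_lit 261)))) (PT.nd (nat_lit 156) (PT.nd (nat_lit 78) (PT.lf (nat_lit 37924) (nat_lit 6) (nat_lit 499) (nat_lit 4) (nat_lit 237) (nat_lit 283) (nat_lit 260)) (PT.lf (nat_lit 37848) (nat_lit 6) (nat_lit 498) (nat_lit 4) (nat_lit 238) (nat_lit 283) (nat_lit 259))) (PT.nd (nat_lit 78) (PT.lf (nat_lit 37772) (nat_lit 6) (nat_lit 497) (nat_lit 4) (nat_lit 239) (nat_lit 283) (nat_lit 258)) (PT.lf (nat_lit 37696) (nat_lit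 6) (nat_lit 496) (nat_lit 4) (nat_lit 240) (nat_lit 283) (nat_lit 257))))) (PT.nd (nat_lit 312) (PT.nd (nat_lit 156) (PT.nd (nat_lit 78) (PT.lf (nat_lit 37620) (nat_lit 6) (nat_lit 495) (nat_lit 4) (nat_lit 241) (nat_lit 283) (nat_lit 256)) (PT.lf (nat_lit 37544) (nat_lit 6) (nat_lit 494) (nat_lit 4) (nat_lit 242) (nat_lit 283) (nat_lit 255))) (PT.nd (nat_lit 78) (PT.lf (nat_lit 37468) (nat_lit 6) (nat_lit 493) (nat_lit 4) (nat_lit 243) (nat_lit 283) (nat_lit 254)) (PT.lf (nat_lit 37392) (nat_lit 6) (nat_lit 492) (nat_lit 4) (nat_lit 244) (nat_lit 283) (nat_lit 253)))) (PT.nd (nat_lit 156) (PT.nd (nat_lit 78) (PT.lf (nat_lit 37316) (nat_lit 6) (nat_lit 491) (nat_lit 4) (nat_lit 245) (nat_lit 283) (nat_lit 252)) (PT.lf (nat_lit 37240) (nat_lit 6) (nat_lit 490) (nat_lit 4) (nat_lit 246) (nat_lit 283) (nat_lit 251))) (PT.nd (nat_lit 78) (PT.lf (nat_lit 37164) (nat_lit 6) (nat_lit 489) (nat_lit 4) (nat_lit 247) (nat_lit 283) (nat_lit 250)) (PT.nd (nat_lit 78) (PT.lf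 (nat_lit 37088) (nat_lit 6) (nat_lit 488) (nat_lit 4) (nat_lit 248) (nat_lit 283) (nat_lit 249)) (PT.lf (nat_lit 37088) (nat_lit 6) (nat_lit 488) (nat_lit 2) (nat_lit 249) (nat_lit 283) (nat_lit 248))))))) (PT.nd (nat_lit 624) (PT.nd (nat_lit 312) (PT.nd (nat_lit 156) (PT.nd (nat_lit 78) (PT.lf (nat_lit 37164) (nat_lit 6) (nat_lit 489) (nat_lit 2) (nat_lit 250) (nat_lit 283) (nat_lit 247)) (PT.lf (nat_lit 37240) (nat_lit 6) (nat_lit 490) (nat_lit 2) (nat_lit 251) (nat_lit 283) (nat_lit 246))) (PT.nd (nat_lit 78) (PT.lf (nat_lit 37316) (nat_lit 6) (nat_lit 491) (nat_lit 2) (nat_lit 252) (nat_lit 283) (nat_lit 245)) (PT.lf (nat_lit 37392) (nat_lit 6) (nat_lit 492) (nat_lit 2) (nat_lit 253) (nat_lit 283) (nat_lit 244)))) (PT.nd (nat_lit 156) (PT.nd (nat_lit 78) (PT.lf (nat_lit 37468) (nat_lit 6) (nat_lit 493) (nat_lit 2) (nat_lit 254) (nat_lit 283) (nat_lit 243)) (PT.lf (nat_lit 37544) (nat_lit 6) (nat_lit 494) (nat_lit 2) (nat_lit 255) (nat_lit 283) (nat_lit 242)))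 (PT.nd (nat_lit 78) (PT.lf (nat_lit 37620) (nat_lit 6) (nat_lit 495) (nat_lit 2) (nat_lit 256) (nat_lit 283) (nat_lit 241)) (PT.lf (nat_lit 37696) (nat_lit 6) (nat_lit 496) (nat_lit 2) (nat_lit 257) (nat_lit 283) (nat_lit 240))))) (PT.nd (nat_lit 312) (PT.nd (nat_lit 156) (PT.nd (nat_lit 78) (PT.lf (nat_lit 37772) (nat_lit 6) (nat_lit 497) (nat_lit 2) (nat_lit 258) (nat_lit 283) (nat_lit 239)) (PT.lf (nat_lit 37848) (nat_lit 6) (nat_lit 498) (nat_lit 2) (nat_lit 259) (nat_lit 283) (nat_lit 238))) (PT.nd (nat_lit 78) (PT.lf (nat_lit 37924) (nat_lit 6) (nat_lit 499) (nat_lit 2) (nat_lit 260) (nat_lit 283) (nat_lit 237)) (PT.lf (nat_lit 36176) (nat_lit 6) (nat_lit 476) (nat_lit 2) (nat_lit 261) (nat_lit 283) (nat_lit 236)))) (PT.nd (nat_lit 156) (PT.nd (nat_lit 78) (PT.lf (nat_lit 34352) (nat_lit 6) (nat_lit 452) (nat_lit 2) (nat_lit 262) (nat_lit 283) (nat_lit 235)) (PT.lf (nat_lit 33288) (nat_lit 6) (nat_lit 438) (nat_lit 2) (nat_lit 263) (nat_lit 283) (nat_lit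 234))) (PT.nd (nat_lit 78) (PT.lf (nat_lit 32376) (nat_lit 6) (nat_lit 426) (nat_lit 2) (nat_lit 264) (nat_lit 283) (nat_lit 233)) (PT.nd (nat_lit 78) (PT.lf (nat_lit 31464) (nat_lit 6) (nat_lit 414) (nat_lit 2) (nat_lit 265) (nat_lit 283) (nat_lit 232)) (PT.lf (nat_lit 30628) (nat_lit 6) (nat_lit 403) (nat_lit 2) (nat_lit 266) (nat_lit 283) (nat_lit 231))))))))
noncomputable def pc99 : PT := (PT.nd (nat_lit 1326) (PT.nd (nat_lit 624) (PT.nd (nat_lit 312) (PT.nd (nat_lit 156) (PT.nd (nat_lit 78) (PT.lf (nat_lit 29792) (nat_lit 6) (nat_lit 392) (nat_lit 2) (nat_lit 267) (nat_lit 283) (nat_lit 230)) (PT.lf (nat_lit 28956) (nat_lit 6) (nat_lit 381) (nat_lit 2) (nat_lit 268) (nat_lit 283) (nat_lit 229))) (PT.nd (nat_lit 78) (PT.lf (nat_lit 28120) (nat_lit 6) (nat_lit 370) (nat_lit 2) (nat_lit 269) (nat_lit 283) (nat_lit 228)) (PT.lf (nat_lit 27360) (nat_lit 6) (nat_lit 360) (nat_lit 2) (nat_lit 270) (nat_lit 283) (nat_lit 227)))) (PT.nd (nat_lit 156) (PT.nd (nat_lit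 78) (PT.lf (nat_lit 26600) (nat_lit 6) (nat_lit 350) (nat_lit 2) (nat_lit 271) (nat_lit 283) (nat_lit 226)) (PT.lf (nat_lit 25916) (nat_lit 6) (nat_lit 341) (nat_lit 2) (nat_lit 272) (nat_lit 283) (nat_lit 225))) (PT.nd (nat_lit 78) (PT.lf (nat_lit 25156) (nat_lit 6) (nat_lit 331) (nat_lit 2) (nat_lit 273) (nat_lit 283) (nat_lit 224)) (PT.lf (nat_lit 24472) (nat_lit 6) (nat_lit 322) (nat_lit 2) (nat_lit 274) (nat_lit 283) (nat_lit 223))))) (PT.nd (nat_lit 312) (PT.nd (nat_lit 156) (PT.nd (nat_lit 78) (PT.lf (nat_lit 23788) (nat_lit 6) (nat_lit 313) (nat_lit 2) (nat_lit 275) (nat_lit 283) (nat_lit 222)) (PT.lf (nat_lit 23180) (nat_lit 6) (nat_lit 305) (nat_lit 2) (nat_lit 276) (nat_lit 283) (nat_lit 221))) (PT.nd (nat_lit 78) (PT.lf (nat_lit 22496) (nat_lit 6) (nat_lit 296) (nat_lit 2) (nat_lit 277) (nat_lit 283) (nat_lit 220)) (PT.lf (nat_lit 21888) (nat_lit 6) (nat_lit 288) (nat_lit 2) (nat_lit 278) (nat_lit 283) (nat_lit 219)))) (PT.nd (nat_lit 156) (PT.nd (nat_lit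 78) (PT.lf (nat_lit 21280) (nat_lit 6) (nat_lit 280) (nat_lit 2) (nat_lit 279) (nat_lit 283) (nat_lit 218)) (PT.lf (nat_lit 20672) (nat_lit 6) (nat_lit 272) (nat_lit 2) (nat_lit 280) (nat_lit 283) (nat_lit 217))) (PT.nd (nat_lit 78) (PT.lf (nat_lit 20064) (nat_lit 6) (nat_lit 264) (nat_lit 2) (nat_lit 281) (nat_lit 283) (nat_lit 216)) (PT.nd (nat_lit 78) (PT.lf (nat_lit 19532) (nat_lit 6) (nat_lit 257) (nat_lit 2) (nat_lit 282) (nat_lit 283) (nat_lit 215)) (PT.lf (nat_lit 19000) (nat_lit 3) (nat_lit 250) (nat_lit 0) (nat_lit 283) (nat_lit 283) (nat_lit 214))))))) (PT.nd (nat_lit 624) (PT.nd (nat_lit 312) (PT.nd (nat_lit 156) (PT.nd (nat_lit 78) (PT.lf (nat_lit 18392) (nat_lit 6) (nat_lit 242) (nat_lit 0) (nat_lit 284) (nat_lit 283) (nat_lit 213)) (PT.lf (nat_lit 17784) (nat_lit 6) (nat_lit 234) (nat_lit 0) (nat_lit 285) (nat_lit 283) (nat_lit 212))) (PT.nd (nat_lit 78) (PT.lf (nat_lit 17252) (nat_lit 6) (nat_lit 227) (nat_lit 0) (nat_lit 286) (nat_lit 283) (nat_lit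 211)) (PT.lf (nat_lit 16644) (nat_lit 6) (nat_lit 219) (nat_lit 0) (nat_lit 287) (nat_lit 283) (nat_lit 210)))) (PT.nd (nat_lit 156) (PT.nd (nat_lit 78) (PT.lf (nat_lit 16112) (nat_lit 6) (nat_lit 212) (nat_lit 0) (nat_lit 288) (nat_lit 283) (nat_lit 209)) (PT.lf (nat_lit 15580) (nat_lit 6) (nat_lit 205) (nat_lit 0) (nat_lit 289) (nat_lit 283) (nat_lit 208))) (PT.nd (nat_lit 78) (PT.lf (nat_lit 15048) (nat_lit 6) (nat_lit 198) (nat_lit 0) (nat_lit 290) (nat_lit 283) (nat_lit 207)) (PT.lf (nat_lit 14516) (nat_lit 6) (nat_lit 191) (nat_lit 0) (nat_lit 291) (nat_lit 283) (nat_lit 206))))) (PT.nd (nat_lit 74334) (PT.nd (nat_lit 74178) (PT.nd (nat_lit 78) (PT.lf (nat_lit 14060) (nat_lit 6) (nat_lit 185) (nat_lit 0) (nat_lit 292) (nat_lit 283) (nat_lit 205)) (PT.lf (nat_lit 13528) (nat_lit 6) (nat_lit 178) (nat_lit 0) (nat_lit 293) (nat_lit 283) (nat_lit 204))) (PT.nd (nat_lit 78) (PT.lf (nat_lit 12692) (nat_lit 6) (nat_lit 167) (nat_lit 5) (nat_lit 202) (nat_lit 284)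 (nat_lit 294)) (PT.lf (nat_lit 13148) (nat_lit 6) (nat_lit 173) (nat_lit 5) (nat_lit 203) (nat_lit 284) (nat_lit 293)))) (PT.nd (nat_lit 156) (PT.nd (nat_lit 78) (PT.lf (nat_lit 13604) (nat_lit 6) (nat_lit 179) (nat_lit 5) (nat_lit 204) (nat_lit 284) (nat_lit 292)) (PT.lf (nat_lit 14136) (nat_lit 6) (nat_lit 186) (nat_lit 5) (nat_lit 205) (nat_lit 284) (nat_lit 291))) (PT.nd (nat_lit 78) (PT.lf (nat_lit 14592) (nat_lit 6) (nat_lit 192) (nat_lit 5) (nat_lit 206) (nat_lit 284) (nat_lit 290)) (PT.nd (nat_lit 78) (PT.lf (nat_lit 15124) (nat_lit 6) (nat_lit 199) (nat_lit 5) (nat_lit 207) (nat_lit 284) (nat_lit 289)) (PT.lf (nat_lit 15656) (nat_lit 6) (nat_lit 206) (nat_lit 5) (nat_lit 208) (nat_lit 284) (nat_lit 288))))))))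
noncomputable def pc100 : PT := (PT.nd (nat_lit 1326) (PT.nd (nat_lit 624) (PT.nd (nat_lit 312) (PT.nd (nat_lit 156) (PT.nd (nat_lit 78) (PT.lf (nat_lit 16188) (nat_lit 6) (nat_lit 213) (nat_lit 5) (nat_lit 209) (nat_lit 284) (nat_lit 287)) (PT.lf (nat_lit 16720) (nat_lit 6) (nat_lit 220) (nat_lit 5) (nat_lit 210) (nat_lit 284) (nat_lit 286))) (PT.nd (nat_lit 78) (PT.lf (nat_lit 17328) (nat_lit 6) (nat_lit 228) (nat_lit 5) (nat_lit 211) (nat_lit 284) (nat_lit 285)) (PT.lf (nat_lit 17860) (nat_lit 3) (nat_lit 235) (nat_lit 4) (nat_lit 212) (nat_lit 284) (nat_lit 284)))) (PT.nd (nat_lit 156) (PT.nd (nat_lit 78) (PT.lf (nat_lit 18392) (nat_lit 6) (nat_lit 242) (nat_lit 4) (nat_lit 213) (nat_lit 284) (nat_lit 283)) (PT.lf (nat_lit 18924) (nat_lit 6) (nat_lit 249) (nat_lit 4) (nat_lit 214) (nat_lit 284) (nat_lit 282))) (PT.nd (nat_lit 78) (PT.lf (nat_lit 19456) (nat_lit 6) (nat_lit 256) (nat_lit 4) (nat_lit 215) (nat_lit 284) (nat_lit 281)) (PT.lf (nat_lit 19988) (nat_lit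 6) (nat_lit 263) (nat_lit 4) (nat_lit 216) (nat_lit 284) (nat_lit 280))))) (PT.nd (nat_lit 312) (PT.nd (nat_lit 156) (PT.nd (nat_lit 78) (PT.lf (nat_lit 20596) (nat_lit 6) (nat_lit 271) (nat_lit 4) (nat_lit 217) (nat_lit 284) (nat_lit 279)) (PT.lf (nat_lit 21204) (nat_lit 6) (nat_lit 279) (nat_lit 4) (nat_lit 218) (nat_lit 284) (nat_lit 278))) (PT.nd (nat_lit 78) (PT.lf (nat_lit 21812) (nat_lit 6) (nat_lit 287) (nat_lit 4) (nat_lit 219) (nat_lit 284) (nat_lit 277)) (PT.lf (nat_lit 22420) (nat_lit 6) (nat_lit 295) (nat_lit 4) (nat_lit 220) (nat_lit 284) (nat_lit 276)))) (PT.nd (nat_lit 156) (PT.nd (nat_lit 78) (PT.lf (nat_lit 23104) (nat_lit 6) (nat_lit 304) (nat_lit 4) (nat_lit 221) (nat_lit 284) (nat_lit 275)) (PT.lf (nat_lit 23712) (nat_lit 6) (nat_lit 312) (nat_lit 4) (nat_lit 222) (nat_lit 284) (nat_lit 274))) (PT.nd (nat_lit 78) (PT.lf (nat_lit 24396) (nat_lit 6) (nat_lit 321) (nat_lit 4) (nat_lit 223) (nat_lit 284) (nat_lit 273)) (PT.nd (nat_lit 78) (PT.lf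 (nat_lit 25080) (nat_lit 6) (nat_lit 330) (nat_lit 4) (nat_lit 224) (nat_lit 284) (nat_lit 272)) (PT.lf (nat_lit 25840) (nat_lit 6) (nat_lit 340) (nat_lit 4) (nat_lit 225) (nat_lit 284) (nat_lit 271))))))) (PT.nd (nat_lit 624) (PT.nd (nat_lit 312) (PT.nd (nat_lit 156) (PT.nd (nat_lit 78) (PT.lf (nat_lit 26524) (nat_lit 6) (nat_lit 349) (nat_lit 4) (nat_lit 226) (nat_lit 284) (nat_lit 270)) (PT.lf (nat_lit 27284) (nat_lit 6) (nat_lit 359) (nat_lit 4) (nat_lit 227) (nat_lit 284) (nat_lit 269))) (PT.nd (nat_lit 78) (PT.lf (nat_lit 28044) (nat_lit 6) (nat_lit 369) (nat_lit 4) (nat_lit 228) (nat_lit 284) (nat_lit 268)) (PT.lf (nat_lit 28880) (nat_lit 6) (nat_lit 380) (nat_lit 4) (nat_lit 229) (nat_lit 284) (nat_lit 267)))) (PT.nd (nat_lit 156) (PT.nd (nat_lit 78) (PT.lf (nat_lit 29716) (nat_lit 6) (nat_lit 391) (nat_lit 4) (nat_lit 230) (nat_lit 284) (nat_lit 266)) (PT.lf (nat_lit 30552) (nat_lit 6) (nat_lit 402) (nat_lit 4) (nat_lit 231) (nat_lit 284) (nat_lit 265)))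 (PT.nd (nat_lit 78) (PT.lf (nat_lit 31388) (nat_lit 6) (nat_lit 413) (nat_lit 4) (nat_lit 232) (nat_lit 284) (nat_lit 264)) (PT.lf (nat_lit 32300) (nat_lit 6) (nat_lit 425) (nat_lit 4) (nat_lit 233) (nat_lit 284) (nat_lit 263))))) (PT.nd (nat_lit 312) (PT.nd (nat_lit 156) (PT.nd (nat_lit 78) (PT.lf (nat_lit 33212) (nat_lit 6) (nat_lit 437) (nat_lit 4) (nat_lit 234) (nat_lit 284) (nat_lit 262)) (PT.lf (nat_lit 34276) (nat_lit 6) (nat_lit 451) (nat_lit 4) (nat_lit 235) (nat_lit 284) (nat_lit 261))) (PT.nd (nat_lit 78) (PT.lf (nat_lit 36100) (nat_lit 6) (nat_lit 475) (nat_lit 4) (nat_lit 236) (nat_lit 284) (nat_lit 260)) (PT.lf (nat_lit 36024) (nat_lit 6) (nat_lit 474) (nat_lit 4) (nat_lit 237) (nat_lit 284) (nat_lit 259)))) (PT.nd (nat_lit 156) (PT.nd (nat_lit 78) (PT.lf (nat_lit 35948) (nat_lit 6) (nat_lit 473) (nat_lit 4) (nat_lit 238) (nat_lit 284) (nat_lit 258)) (PT.lf (nat_lit 35872) (nat_lit 6) (nat_lit 472) (nat_lit 4) (nat_lit 239) (nat_lit 284) (nat_lit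 257))) (PT.nd (nat_lit 78) (PT.lf (nat_lit 35796) (nat_lit 6) (nat_lit 471) (nat_lit 4) (nat_lit 240) (nat_lit 284) (nat_lit 256)) (PT.nd (nat_lit 78) (PT.lf (nat_lit 35720) (nat_lit 6) (nat_lit 470) (nat_lit 4) (nat_lit 241) (nat_lit 284) (nat_lit 255)) (PT.lf (nat_lit 35644) (nat_lit 6) (nat_lit 469) (nat_lit 4) (nat_lit 242) (nat_lit 284) (nat_lit 254))))))))
noncomputable def pc101 : PT := (PT.nd (nat_lit 1326) (PT.nd (nat_lit 624) (PT.nd (nat_lit 312) (PT.nd (nat_lit 156) (PT.nd (nat_lit 78) (PT.lf (nat_lit 35568) (nat_lit 6) (nat_lit 468) (nat_lit 4) (nat_lit 243) (nat_lit 284) (nat_lit 253)) (PT.lf (nat_lit 35492) (nat_lit 6) (nat_lit 467) (nat_lit 4) (nat_lit 244) (nat_lit 284) (nat_lit 252))) (PT.nd (nat_lit 78) (PT.lf (nat_lit 35416) (nat_lit 6) (nat_lit 466) (nat_lit 4) (nat_lit 245) (nat_lit 284) (nat_lit 251)) (PT.lf (nat_lit 35340) (nat_lit 6) (nat_lit 465) (nat_lit 4) (nat_lit 246) (nat_lit 284) (nat_lit 250)))) (PT.nd (nat_lit 156) (PT.nd (nat_lit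 78) (PT.lf (nat_lit 35264) (nat_lit 6) (nat_lit 464) (nat_lit 4) (nat_lit 247) (nat_lit 284) (nat_lit 249)) (PT.lf (nat_lit 35188) (nat_lit 3) (nat_lit 463) (nat_lit 2) (nat_lit 248) (nat_lit 284) (nat_lit 248))) (PT.nd (nat_lit 78) (PT.lf (nat_lit 35264) (nat_lit 6) (nat_lit 464) (nat_lit 2) (nat_lit 249) (nat_lit 284) (nat_lit 247)) (PT.lf (nat_lit 35340) (nat_lit 6) (nat_lit 465) (nat_lit 2) (nat_lit 250) (nat_lit 284) (nat_lit 246))))) (PT.nd (nat_lit 312) (PT.nd (nat_lit 156) (PT.nd (nat_lit 78) (PT.lf (nat_lit 35416) (nat_lit 6) (nat_lit 466) (nat_lit 2) (nat_lit 251) (nat_lit 284) (nat_lit 245)) (PT.lf (nat_lit 35492) (nat_lit 6) (nat_lit 467) (nat_lit 2) (nat_lit 252) (nat_lit 284) (nat_lit 244))) (PT.nd (nat_lit 78) (PT.lf (nat_lit 35568) (nat_lit 6) (nat_lit 468) (nat_lit 2) (nat_lit 253) (nat_lit 284) (nat_lit 243)) (PT.lf (nat_lit 35644) (nat_lit 6) (nat_lit 469) (nat_lit 2) (nat_lit 254) (nat_lit 284) (nat_lit 242)))) (PT.nd (nat_lit 156) (PT.nd (nat_lit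 78) (PT.lf (nat_lit 35720) (nat_lit 6) (nat_lit 470) (nat_lit 2) (nat_lit 255) (nat_lit 284) (nat_lit 241)) (PT.lf (nat_lit 35796) (nat_lit 6) (nat_lit 471) (nat_lit 2) (nat_lit 256) (nat_lit 284) (nat_lit 240))) (PT.nd (nat_lit 78) (PT.lf (nat_lit 35872) (nat_lit 6) (nat_lit 472) (nat_lit 2) (nat_lit 257) (nat_lit 284) (nat_lit 239)) (PT.nd (nat_lit 78) (PT.lf (nat_lit 35948) (nat_lit 6) (nat_lit 473) (nat_lit 2) (nat_lit 258) (nat_lit 284) (nat_lit 238)) (PT.lf (nat_lit 36024) (nat_lit 6) (nat_lit 474) (nat_lit 2) (nat_lit 259) (nat_lit 284) (nat_lit 237))))))) (PT.nd (nat_lit 624) (PT.nd (nat_lit 312) (PT.nd (nat_lit 156) (PT.nd (nat_lit 78) (PT.lf (nat_lit 36100) (nat_lit 6) (nat_lit 475) (nat_lit 2) (nat_lit 260) (nat_lit 284) (nat_lit 236)) (PT.lf (nat_lit 34276) (nat_lit 6) (nat_lit 451) (nat_lit 2) (nat_lit 261) (nat_lit 284) (nat_lit 235))) (PT.nd (nat_lit 78) (PT.lf (nat_lit 33212) (nat_lit 6) (nat_lit 437) (nat_lit 2) (nat_lit 262) (nat_lit 284) (nat_lit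 234)) (PT.lf (nat_lit 32300) (nat_lit 6) (nat_lit 425) (nat_lit 2) (nat_lit 263) (nat_lit 284) (nat_lit 233)))) (PT.nd (nat_lit 156) (PT.nd (nat_lit 78) (PT.lf (nat_lit 31388) (nat_lit 6) (nat_lit 413) (nat_lit 2) (nat_lit 264) (nat_lit 284) (nat_lit 232)) (PT.lf (nat_lit 30552) (nat_lit 6) (nat_lit 402) (nat_lit 2) (nat_lit 265) (nat_lit 284) (nat_lit 231))) (PT.nd (nat_lit 78) (PT.lf (nat_lit 29716) (nat_lit 6) (nat_lit 391) (nat_lit 2) (nat_lit 266) (nat_lit 284) (nat_lit 230)) (PT.lf (nat_lit 28880) (nat_lit 6) (nat_lit 380) (nat_lit 2) (nat_lit 267) (nat_lit 284) (nat_lit 229))))) (PT.nd (nat_lit 312) (PT.nd (nat_lit 156) (PT.nd (nat_lit 78) (PT.lf (nat_lit 28044) (nat_lit 6) (nat_lit 369) (nat_lit 2) (nat_lit 268) (nat_lit 284) (nat_lit 228)) (PT.lf (nat_lit 27284) (nat_lit 6) (nat_lit 359) (nat_lit 2) (nat_lit 269) (nat_lit 284) (nat_lit 227))) (PT.nd (nat_lit 78) (PT.lf (nat_lit 26524) (nat_lit 6) (nat_lit 349) (nat_lit 2) (nat_lit 270) (nat_lit 284) (nat_lit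 226)) (PT.lf (nat_lit 25840) (nat_lit 6) (nat_lit 340) (nat_lit 2) (nat_lit 271) (nat_lit 284) (nat_lit 225)))) (PT.nd (nat_lit 156) (PT.nd (nat_lit 78) (PT.lf (nat_lit 25080) (nat_lit 6) (nat_lit 330) (nat_lit 2) (nat_lit 272) (nat_lit 284) (nat_lit 224)) (PT.lf (nat_lit 24396) (nat_lit 6) (nat_lit 321) (nat_lit 2) (nat_lit 273) (nat_lit 284) (nat_lit 223))) (PT.nd (nat_lit 78) (PT.lf (nat_lit 23712) (nat_lit 6) (nat_lit 312) (nat_lit 2) (nat_lit 274) (nat_lit 284) (nat_lit 222)) (PT.nd (nat_lit 78) (PT.lf (nat_lit 23104) (nat_lit 6) (nat_lit 304) (nat_lit 2) (nat_lit 275) (nat_lit 284) (nat_lit 221)) (PT.lf (nat_lit 22420) (nat_lit 6) (nat_lit 295) (nat_lit 2) (nat_lit 276) (nat_lit 284) (nat_lit 220))))))))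
noncomputable def pc102 : PT := (PT.nd (nat_lit 1326) (PT.nd (nat_lit 624) (PT.nd (nat_lit 312) (PT.nd (nat_lit 156) (PT.nd (nat_lit 78) (PT.lf (nat_lit 21812) (nat_lit 6) (nat_lit 287) (nat_lit 2) (nat_lit 277) (nat_lit 284) (nat_lit 219)) (PT.lf (nat_lit 21204) (nat_lit 6) (nat_lit 279) (nat_lit 2) (nat_lit 278) (nat_lit 284) (nat_lit 218))) (PT.nd (nat_lit 78) (PT.lf (nat_lit 20596) (nat_lit 6) (nat_lit 271) (nat_lit 2) (nat_lit 279) (nat_lit 284) (nat_lit 217)) (PT.lf (nat_lit 19988) (nat_lit 6) (nat_lit 263) (nat_lit 2) (nat_lit 280) (nat_lit 284) (nat_lit 216)))) (PT.nd (nat_lit 156) (PT.nd (nat_lit 78) (PT.lf (nat_lit 19456) (nat_lit 6) (nat_lit 256) (nat_lit 2) (nat_lit 281) (nat_lit 284) (nat_lit 215)) (PT.lf (nat_lit 18924) (nat_lit 6) (nat_lit 249) (nat_lit 2) (nat_lit 282) (nat_lit 284) (nat_lit 214))) (PT.nd (nat_lit 78) (PT.lf (nat_lit 18392) (nat_lit 6) (nat_lit 242) (nat_lit 2) (nat_lit 283) (nat_lit 284) (nat_lit 213)) (PT.lf (nat_lit 17860) (nat_lit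 3) (nat_lit 235) (nat_lit 0) (nat_lit 284) (nat_lit 284) (nat_lit 212))))) (PT.nd (nat_lit 312) (PT.nd (nat_lit 156) (PT.nd (nat_lit 78) (PT.lf (nat_lit 17328) (nat_lit 6) (nat_lit 228) (nat_lit 0) (nat_lit 285) (nat_lit 284) (nat_lit 211)) (PT.lf (nat_lit 16720) (nat_lit 6) (nat_lit 220) (nat_lit 0) (nat_lit 286) (nat_lit 284) (nat_lit 210))) (PT.nd (nat_lit 78) (PT.lf (nat_lit 16188) (nat_lit 6) (nat_lit 213) (nat_lit 0) (nat_lit 287) (nat_lit 284) (nat_lit 209)) (PT.lf (nat_lit 15656) (nat_lit 6) (nat_lit 206) (nat_lit 0) (nat_lit 288) (nat_lit 284) (nat_lit 208)))) (PT.nd (nat_lit 156) (PT.nd (nat_lit 78) (PT.lf (nat_lit 15124) (nat_lit 6) (nat_lit 199) (nat_lit 0) (nat_lit 289) (nat_lit 284) (nat_lit 207)) (PT.lf (nat_lit 14592) (nat_lit 6) (nat_lit 192) (nat_lit 0) (nat_lit 290) (nat_lit 284) (nat_lit 206))) (PT.nd (nat_lit 78) (PT.lf (nat_lit 14136) (nat_lit 6) (nat_lit 186) (nat_lit 0) (nat_lit 291) (nat_lit 284) (nat_lit 205)) (PT.nd (nat_lit 78) (PT.lf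 (nat_lit 13604) (nat_lit 6) (nat_lit 179) (nat_lit 0) (nat_lit 292) (nat_lit 284) (nat_lit 204)) (PT.lf (nat_lit 13148) (nat_lit 6) (nat_lit 173) (nat_lit 0) (nat_lit 293) (nat_lit 284) (nat_lit 203))))))) (PT.nd (nat_lit 74490) (PT.nd (nat_lit 74178) (PT.nd (nat_lit 74022) (PT.nd (nat_lit 73944) (PT.lf (nat_lit 12692) (nat_lit 6) (nat_lit 167) (nat_lit 0) (nat_lit 294) (nat_lit 284) (nat_lit 202)) (PT.lf (nat_lit 12312) (nat_lit 6) (nat_lit 162) (nat_lit 5) (nat_lit 201) (nat_lit 285) (nat_lit 294))) (PT.nd (nat_lit 78) (PT.lf (nat_lit 12768) (nat_lit 6) (nat_lit 168) (nat_lit 5) (nat_lit 202) (nat_lit 285) (nat_lit 293)) (PT.lf (nat_lit 13224) (nat_lit 6) (nat_lit 174) (nat_lit 5) (nat_lit 203) (nat_lit 285) (nat_lit 292)))) (PT.nd (nat_lit 156) (PT.nd (nat_lit 78) (PT.lf (nat_lit 13680) (nat_lit 6) (nat_lit 180) (nat_lit 5) (nat_lit 204) (nat_lit 285) (nat_lit 291)) (PT.lf (nat_lit 14212) (nat_lit 6) (nat_lit 187) (nat_lit 5) (nat_lit 205) (nat_lit 285) (nat_lit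 290))) (PT.nd (nat_lit 78) (PT.lf (nat_lit 14668) (nat_lit 6) (nat_lit 193) (nat_lit 5) (nat_lit 206) (nat_lit 285) (nat_lit 289)) (PT.lf (nat_lit 15200) (nat_lit 6) (nat_lit 200) (nat_lit 5) (nat_lit 207) (nat_lit 285) (nat_lit 288))))) (PT.nd (nat_lit 312) (PT.nd (nat_lit 156) (PT.nd (nat_lit 78) (PT.lf (nat_lit 15732) (nat_lit 6) (nat_lit 207) (nat_lit 5) (nat_lit 208) (nat_lit 285) (nat_lit 287)) (PT.lf (nat_lit 16264) (nat_lit 6) (nat_lit 214) (nat_lit 5) (nat_lit 209) (nat_lit 285) (nat_lit 286))) (PT.nd (nat_lit 78) (PT.lf (nat_lit 16796) (nat_lit 3) (nat_lit 221) (nat_lit 4) (nat_lit 210) (nat_lit 285) (nat_lit 285)) (PT.lf (nat_lit 17328) (nat_lit 6) (nat_lit 228) (nat_lit 4) (nat_lit 211) (nat_lit 285) (nat_lit 284)))) (PT.nd (nat_lit 156) (PT.nd (nat_lit 78) (PT.lf (nat_lit 17784) (nat_lit 6) (nat_lit 234) (nat_lit 4) (nat_lit 212) (nat_lit 285) (nat_lit 283)) (PT.lf (nat_lit 18316) (nat_lit 6) (nat_lit 241) (nat_lit 4) (nat_lit 213) (nat_lit 285) (nat_lit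 282))) (PT.nd (nat_lit 78) (PT.lf (nat_lit 18848) (nat_lit 6) (nat_lit 248) (nat_lit 4) (nat_lit 214) (nat_lit 285) (nat_lit 281)) (PT.nd (nat_lit 78) (PT.lf (nat_lit 19380) (nat_lit 6) (nat_lit 255) (nat_lit 4) (nat_lit 215) (nat_lit 285) (nat_lit 280)) (PT.lf (nat_lit 19912) (nat_lit 6) (nat_lit 262) (nat_lit 4) (nat_lit 216) (nat_lit 285) (nat_lit 279))))))))
noncomputable def pc103 : PT := (PT.nd (nat_lit 1326) (PT.nd (nat_lit 624) (PT.nd (nat_lit 312) (PT.nd (nat_lit 156) (PT.nd (nat_lit 78) (PT.lf (nat_lit 20520) (nat_lit 6) (nat_lit 270) (nat_lit 4) (nat_lit 217) (nat_lit 285) (nat_lit 278)) (PT.lf (nat_lit 21128) (nat_lit 6) (nat_lit 278) (nat_lit 4) (nat_lit 218) (nat_lit 285) (nat_lit 277))) (PT.nd (nat_lit 78) (PT.lf (nat_lit 21736) (nat_lit 6) (nat_lit 286) (nat_lit 4) (nat_lit 219) (nat_lit 285) (nat_lit 276)) (PT.lf (nat_lit 22344) (nat_lit 6) (nat_lit 294) (nat_lit 4) (nat_lit 220) (nat_lit 285) (nat_lit 275)))) (PT.nd (nat_lit 156) (PT.nd (nat_lit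 78) (PT.lf (nat_lit 23028) (nat_lit 6) (nat_lit 303) (nat_lit 4) (nat_lit 221) (nat_lit 285) (nat_lit 274)) (PT.lf (nat_lit 23636) (nat_lit 6) (nat_lit 311) (nat_lit 4) (nat_lit 222) (nat_lit 285) (nat_lit 273))) (PT.nd (nat_lit 78) (PT.lf (nat_lit 24320) (nat_lit 6) (nat_lit 320) (nat_lit 4) (nat_lit 223) (nat_lit 285) (nat_lit 272)) (PT.lf (nat_lit 25004) (nat_lit 6) (nat_lit 329) (nat_lit 4) (nat_lit 224) (nat_lit 285) (nat_lit 271))))) (PT.nd (nat_lit 312) (PT.nd (nat_lit 156) (PT.nd (nat_lit 78) (PT.lf (nat_lit 25764) (nat_lit 6) (nat_lit 339) (nat_lit 4) (nat_lit 225) (nat_lit 285) (nat_lit 270)) (PT.lf (nat_lit 26448) (nat_lit 6) (nat_lit 348) (nat_lit 4) (nat_lit 226) (nat_lit 285) (nat_lit 269))) (PT.nd (nat_lit 78) (PT.lf (nat_lit 27208) (nat_lit 6) (nat_lit 358) (nat_lit 4) (nat_lit 227) (nat_lit 285) (nat_lit 268)) (PT.lf (nat_lit 27968) (nat_lit 6) (nat_lit 368) (nat_lit 4) (nat_lit 228) (nat_lit 285) (nat_lit 267)))) (PT.nd (nat_lit 156) (PT.nd (nat_lit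 78) (PT.lf (nat_lit 28804) (nat_lit 6) (nat_lit 379) (nat_lit 4) (nat_lit 229) (nat_lit 285) (nat_lit 266)) (PT.lf (nat_lit 29640) (nat_lit 6) (nat_lit 390) (nat_lit 4) (nat_lit 230) (nat_lit 285) (nat_lit 265))) (PT.nd (nat_lit 78) (PT.lf (nat_lit 30476) (nat_lit 6) (nat_lit 401) (nat_lit 4) (nat_lit 231) (nat_lit 285) (nat_lit 264)) (PT.nd (nat_lit 78) (PT.lf (nat_lit 31312) (nat_lit 6) (nat_lit 412) (nat_lit 4) (nat_lit 232) (nat_lit 285) (nat_lit 263)) (PT.lf (nat_lit 32224) (nat_lit 6) (nat_lit 424) (nat_lit 4) (nat_lit 233) (nat_lit 285) (nat_lit 262))))))) (PT.nd (nat_lit 2340) (PT.nd (nat_lit 2028) (PT.nd (nat_lit 156) (PT.nd (nat_lit 78) (PT.lf (nat_lit 33136) (nat_lit 6) (nat_lit 436) (nat_lit 4) (nat_lit 234) (nat_lit 285) (nat_lit 261)) (PT.lf (nat_lit 34200) (nat_lit 6) (nat_lit 450) (nat_lit 4) (nat_lit 235) (nat_lit 285) (nat_lit 260))) (PT.nd (nat_lit 1794) (PT.lf (nat_lit 34124) (nat_lit 6) (nat_lit 449) (nat_lit 4) (nat_lit 236) (nat_lit 285)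 (nat_lit 259)) (PT.lf (nat_lit 34124) (nat_lit 6) (nat_lit 449) (nat_lit 2) (nat_lit 259) (nat_lit 285) (nat_lit 236)))) (PT.nd (nat_lit 156) (PT.nd (nat_lit 78) (PT.lf (nat_lit 34200) (nat_lit 6) (nat_lit 450) (nat_lit 2) (nat_lit 260) (nat_lit 285) (nat_lit 235)) (PT.lf (nat_lit 33136) (nat_lit 6) (nat_lit 436) (nat_lit 2) (nat_lit 261) (nat_lit 285) (nat_lit 234))) (PT.nd (nat_lit 78) (PT.lf (nat_lit 32224) (nat_lit 6) (nat_lit 424) (nat_lit 2) (nat_lit 262) (nat_lit 285) (nat_lit 233)) (PT.lf (nat_lit 31312) (nat_lit 6) (nat_lit 412) (nat_lit 2) (nat_lit 263) (nat_lit 285) (nat_lit 232))))) (PT.nd (nat_lit 312) (PT.nd (nat_lit 156) (PT.nd (nat_lit 78) (PT.lf (nat_lit 30476) (nat_lit 6) (nat_lit 401) (nat_lit 2) (nat_lit 264) (nat_lit 285) (nat_lit 231)) (PT.lf (nat_lit 29640) (nat_lit 6) (nat_lit 390) (nat_lit 2) (nat_lit 265) (nat_lit 285) (nat_lit 230))) (PT.nd (nat_lit 78) (PT.lf (nat_lit 28804) (nat_lit 6) (nat_lit 379) (nat_lit 2) (nat_lit 266) (nat_lit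 285) (nat_lit 229)) (PT.lf (nat_lit 27968) (nat_lit 6) (nat_lit 368) (nat_lit 2) (nat_lit 267) (nat_lit 285) (nat_lit 228)))) (PT.nd (nat_lit 156) (PT.nd (nat_lit 78) (PT.lf (nat_lit 27208) (nat_lit 6) (nat_lit 358) (nat_lit 2) (nat_lit 268) (nat_lit 285) (nat_lit 227)) (PT.lf (nat_lit 26448) (nat_lit 6) (nat_lit 348) (nat_lit 2) (nat_lit 269) (nat_lit 285) (nat_lit 226))) (PT.nd (nat_lit 78) (PT.lf (nat_lit 25764) (nat_lit 6) (nat_lit 339) (nat_lit 2) (nat_lit 270) (nat_lit 285) (nat_lit 225)) (PT.nd (nat_lit 78) (PT.lf (nat_lit 25004) (nat_lit 6) (nat_lit 329) (nat_lit 2) (nat_lit 271) (nat_lit 285) (nat_lit 224)) (PT.lf (nat_lit 24320) (nat_lit 6) (nat_lit 320) (nat_lit 2) (nat_lit 272) (nat_lit 285) (nat_lit 223))))))))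
noncomputable def pc104 : PT := (PT.nd (nat_lit 1248) (PT.nd (nat_lit 624) (PT.nd (nat_lit 312) (PT.nd (nat_lit 156) (PT.nd (nat_lit 78) (PT.lf (nat_lit 23636) (nat_lit 6) (nat_lit 311) (nat_lit 2) (nat_lit 273) (nat_lit 285) (nat_lit 222)) (PT.lf (nat_lit 23028) (nat_lit 6) (nat_lit 303) (nat_lit 2) (nat_lit 274) (nat_lit 285) (nat_lit 221))) (PT.nd (nat_lit 78) (PT.lf (nat_lit 22344) (nat_lit 6) (nat_lit 294) (nat_lit 2) (nat_lit 275) (nat_lit 285) (nat_lit 220)) (PT.lf (nat_lit 21736) (nat_lit 6) (nat_lit 286) (nat_lit 2) (nat_lit 276) (nat_lit 285) (nat_lit 219)))) (PT.nd (nat_lit 156) (PT.nd (nat_lit 78) (PT.lf (nat_lit 21128) (nat_lit 6) (nat_lit 278) (nat_lit 2) (nat_lit 277) (nat_lit 285) (nat_lit 218)) (PT.lf (nat_lit 20520) (nat_lit 6) (nat_lit 270) (nat_lit 2) (nat_lit 278) (nat_lit 285) (nat_lit 217))) (PT.nd (nat_lit 78) (PT.lf (nat_lit 19912) (nat_lit 6) (nat_lit 262) (nat_lit 2) (nat_lit 279) (nat_lit 285) (nat_lit 216)) (PT.lf (nat_lit 19380) (nat_lit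 6) (nat_lit 255) (nat_lit 2) (nat_lit 280) (nat_lit 285) (nat_lit 215))))) (PT.nd (nat_lit 312) (PT.nd (nat_lit 156) (PT.nd (nat_lit 78) (PT.lf (nat_lit 18848) (nat_lit 6) (nat_lit 248) (nat_lit 2) (nat_lit 281) (nat_lit 285) (nat_lit 214)) (PT.lf (nat_lit 18316) (nat_lit 6) (nat_lit 241) (nat_lit 2) (nat_lit 282) (nat_lit 285) (nat_lit 213))) (PT.nd (nat_lit 78) (PT.lf (nat_lit 17784) (nat_lit 6) (nat_lit 234) (nat_lit 2) (nat_lit 283) (nat_lit 285) (nat_lit 212)) (PT.lf (nat_lit 17328) (nat_lit 6) (nat_lit 228) (nat_lit 2) (nat_lit 284) (nat_lit 285) (nat_lit 211)))) (PT.nd (nat_lit 156) (PT.nd (nat_lit 78) (PT.lf (nat_lit 16796) (nat_lit 3) (nat_lit 221) (nat_lit 0) (nat_lit 285) (nat_lit 285) (nat_lit 210)) (PT.lf (nat_lit 16264) (nat_lit 6) (nat_lit 214) (nat_lit 0) (nat_lit 286) (nat_lit 285) (nat_lit 209))) (PT.nd (nat_lit 78) (PT.lf (nat_lit 15732) (nat_lit 6) (nat_lit 207) (nat_lit 0) (nat_lit 287) (nat_lit 285) (nat_lit 208)) (PT.lf (nat_lit 15200) (nat_lit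 6) (nat_lit 200) (nat_lit 0) (nat_lit 288) (nat_lit 285) (nat_lit 207)))))) (PT.nd (nat_lit 74334) (PT.nd (nat_lit 312) (PT.nd (nat_lit 156) (PT.nd (nat_lit 78) (PT.lf (nat_lit 14668) (nat_lit 6) (nat_lit 193) (nat_lit 0) (nat_lit 289) (nat_lit 285) (nat_lit 206)) (PT.lf (nat_lit 14212) (nat_lit 6) (nat_lit 187) (nat_lit 0) (nat_lit 290) (nat_lit 285) (nat_lit 205))) (PT.nd (nat_lit 78) (PT.lf (nat_lit 13680) (nat_lit 6) (nat_lit 180) (nat_lit 0) (nat_lit 291) (nat_lit 285) (nat_lit 204)) (PT.lf (nat_lit 13224) (nat_lit 6) (nat_lit 174) (nat_lit 0) (nat_lit 292) (nat_lit 285) (nat_lit 203)))) (PT.nd (nat_lit 73866) (PT.nd (nat_lit 78) (PT.lf (nat_lit 12768) (nat_lit 6) (nat_lit 168) (nat_lit 0) (nat_lit 293) (nat_lit 285) (nat_lit 202)) (PT.lf (nat_lit 12312) (nat_lit 6) (nat_lit 162) (nat_lit 0) (nat_lit 294) (nat_lit 285) (nat_lit 201))) (PT.nd (nat_lit 78) (PT.lf (nat_lit 11476) (nat_lit 6) (nat_lit 151) (nat_lit 5) (nat_lit 199) (nat_lit 286) (nat_lit 295))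 (PT.lf (nat_lit 11932) (nat_lit 6) (nat_lit 157) (nat_lit 5) (nat_lit 200) (nat_lit 286) (nat_lit 294))))) (PT.nd (nat_lit 312) (PT.nd (nat_lit 156) (PT.nd (nat_lit 78) (PT.lf (nat_lit 12388) (nat_lit 6) (nat_lit 163) (nat_lit 5) (nat_lit 201) (nat_lit 286) (nat_lit 293)) (PT.lf (nat_lit 12844) (nat_lit 6) (nat_lit 169) (nat_lit 5) (nat_lit 202) (nat_lit 286) (nat_lit 292))) (PT.nd (nat_lit 78) (PT.lf (nat_lit 13300) (nat_lit 6) (nat_lit 175) (nat_lit 5) (nat_lit 203) (nat_lit 286) (nat_lit 291)) (PT.lf (nat_lit 13756) (nat_lit 6) (nat_lit 181) (nat_lit 5) (nat_lit 204) (nat_lit 286) (nat_lit 290)))) (PT.nd (nat_lit 156) (PT.nd (nat_lit 78) (PT.lf (nat_lit 14288) (nat_lit 6) (nat_lit 188) (nat_lit 5) (nat_lit 205) (nat_lit 286) (nat_lit 289)) (PT.lf (nat_lit 14744) (nat_lit 6) (nat_lit 194) (nat_lit 5) (nat_lit 206) (nat_lit 286) (nat_lit 288))) (PT.nd (nat_lit 78) (PT.lf (nat_lit 15276) (nat_lit 6) (nat_lit 201) (nat_lit 5) (nat_lit 207) (nat_lit 286) (nat_lit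 287)) (PT.nd (nat_lit 78) (PT.lf (nat_lit 15808) (nat_lit 3) (nat_lit 208) (nat_lit 4) (nat_lit 208) (nat_lit 286) (nat_lit 286)) (PT.lf (nat_lit 16264) (nat_lit 6) (nat_lit 214) (nat_lit 4) (nat_lit 209) (nat_lit 286) (nat_lit 285))))))))
noncomputable def pc105 : PT := (PT.nd (nat_lit 1326) (PT.nd (nat_lit 624) (PT.nd (nat_lit 312) (PT.nd (nat_lit 156) (PT.nd (nat_lit 78) (PT.lf (nat_lit 16720) (nat_lit 6) (nat_lit 220) (nat_lit 4) (nat_lit 210) (nat_lit 286) (nat_lit 284)) (PT.lf (nat_lit 17252) (nat_lit 6) (nat_lit 227) (nat_lit 4) (nat_lit 211) (nat_lit 286) (nat_lit 283))) (PT.nd (nat_lit 78) (PT.lf (nat_lit 17708) (nat_lit 6) (nat_lit 233) (nat_lit 4) (nat_lit 212) (nat_lit 286) (nat_lit 282)) (PT.lf (nat_lit 18240) (nat_lit 6) (nat_lit 240) (nat_lit 4) (nat_lit 213) (nat_lit 286) (nat_lit 281)))) (PT.nd (nat_lit 156) (PT.nd (nat_lit 78) (PT.lf (nat_lit 18772) (nat_lit 6) (nat_lit 247) (nat_lit 4) (nat_lit 214) (nat_lit 286) (nat_lit 280)) (PT.lf (nat_lit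 19304) (nat_lit 6) (nat_lit 254) (nat_lit 4) (nat_lit 215) (nat_lit 286) (nat_lit 279))) (PT.nd (nat_lit 78) (PT.lf (nat_lit 19836) (nat_lit 6) (nat_lit 261) (nat_lit 4) (nat_lit 216) (nat_lit 286) (nat_lit 278)) (PT.lf (nat_lit 20444) (nat_lit 6) (nat_lit 269) (nat_lit 4) (nat_lit 217) (nat_lit 286) (nat_lit 277))))) (PT.nd (nat_lit 312) (PT.nd (nat_lit 156) (PT.nd (nat_lit 78) (PT.lf (nat_lit 21052) (nat_lit 6) (nat_lit 277) (nat_lit 4) (nat_lit 218) (nat_lit 286) (nat_lit 276)) (PT.lf (nat_lit 21660) (nat_lit 6) (nat_lit 285) (nat_lit 4) (nat_lit 219) (nat_lit 286) (nat_lit 275))) (PT.nd (nat_lit 78) (PT.lf (nat_lit 22268) (nat_lit 6) (nat_lit 293) (nat_lit 4) (nat_lit 220) (nat_lit 286) (nat_lit 274)) (PT.lf (nat_lit 22952) (nat_lit 6) (nat_lit 302) (nat_lit 4) (nat_lit 221) (nat_lit 286) (nat_lit 273)))) (PT.nd (nat_lit 156) (PT.nd (nat_lit 78) (PT.lf (nat_lit 23560) (nat_lit 6) (nat_lit 310) (nat_lit 4) (nat_lit 222) (nat_lit 286) (nat_lit 272)) (PT.lf (nat_lit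 24244) (nat_lit 6) (nat_lit 319) (nat_lit 4) (nat_lit 223) (nat_lit 286) (nat_lit 271))) (PT.nd (nat_lit 78) (PT.lf (nat_lit 24928) (nat_lit 6) (nat_lit 328) (nat_lit 4) (nat_lit 224) (nat_lit 286) (nat_lit 270)) (PT.nd (nat_lit 78) (PT.lf (nat_lit 25688) (nat_lit 6) (nat_lit 338) (nat_lit 4) (nat_lit 225) (nat_lit 286) (nat_lit 269)) (PT.lf (nat_lit 26372) (nat_lit 6) (nat_lit 347) (nat_lit 4) (nat_lit 226) (nat_lit 286) (nat_lit 268))))))) (PT.nd (nat_lit 3198) (PT.nd (nat_lit 2886) (PT.nd (nat_lit 156) (PT.nd (nat_lit 78) (PT.lf (nat_lit 27132) (nat_lit 6) (nat_lit 357) (nat_lit 4) (nat_lit 227) (nat_lit 286) (nat_lit 267)) (PT.lf (nat_lit 27892) (nat_lit 6) (nat_lit 367) (nat_lit 4) (nat_lit 228) (nat_lit 286) (nat_lit 266))) (PT.nd (nat_lit 78) (PT.lf (nat_lit 28728) (nat_lit 6) (nat_lit 378) (nat_lit 4) (nat_lit 229) (nat_lit 286) (nat_lit 265)) (PT.lf (nat_lit 29564) (nat_lit 6) (nat_lit 389) (nat_lit 4) (nat_lit 230) (nat_lit 286) (nat_lit 264)))) (PT.nd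 (nat_lit 156) (PT.nd (nat_lit 78) (PT.lf (nat_lit 29564) (nat_lit 6) (nat_lit 389) (nat_lit 2) (nat_lit 264) (nat_lit 286) (nat_lit 230)) (PT.lf (nat_lit 28728) (nat_lit 6) (nat_lit 378) (nat_lit 2) (nat_lit 265) (nat_lit 286) (nat_lit 229))) (PT.nd (nat_lit 78) (PT.lf (nat_lit 27892) (nat_lit 6) (nat_lit 367) (nat_lit 2) (nat_lit 266) (nat_lit 286) (nat_lit 228)) (PT.lf (nat_lit 27132) (nat_lit 6) (nat_lit 357) (nat_lit 2) (nat_lit 267) (nat_lit 286) (nat_lit 227))))) (PT.nd (nat_lit 312) (PT.nd (nat_lit 156) (PT.nd (nat_lit 78) (PT.lf (nat_lit 26372) (nat_lit 6) (nat_lit 347) (nat_lit 2) (nat_lit 268) (nat_lit 286) (nat_lit 226)) (PT.lf (nat_lit 25688) (nat_lit 6) (nat_lit 338) (nat_lit 2) (nat_lit 269) (nat_lit 286) (nat_lit 225))) (PT.nd (nat_lit 78) (PT.lf (nat_lit 24928) (nat_lit 6) (nat_lit 328) (nat_lit 2) (nat_lit 270) (nat_lit 286) (nat_lit 224)) (PT.lf (nat_lit 24244) (nat_lit 6) (nat_lit 319) (nat_lit 2) (nat_lit 271) (nat_lit 286) (nat_lit 223))))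 (PT.nd (nat_lit 156) (PT.nd (nat_lit 78) (PT.lf (nat_lit 23560) (nat_lit 6) (nat_lit 310) (nat_lit 2) (nat_lit 272) (nat_lit 286) (nat_lit 222)) (PT.lf (nat_lit 22952) (nat_lit 6) (nat_lit 302) (nat_lit 2) (nat_lit 273) (nat_lit 286) (nat_lit 221))) (PT.nd (nat_lit 78) (PT.lf (nat_lit 22268) (nat_lit 6) (nat_lit 293) (nat_lit 2) (nat_lit 274) (nat_lit 286) (nat_lit 220)) (PT.nd (nat_lit 78) (PT.lf (nat_lit 21660) (nat_lit 6) (nat_lit 285) (nat_lit 2) (nat_lit 275) (nat_lit 286) (nat_lit 219)) (PT.lf (nat_lit 21052) (nat_lit 6) (nat_lit 277) (nat_lit 2) (nat_lit 276) (nat_lit 286) (nat_lit 218))))))))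
noncomputable def pc106 : PT := (PT.nd (nat_lit 1326) (PT.nd (nat_lit 624) (PT.nd (nat_lit 312) (PT.nd (nat_lit 156) (PT.nd (nat_lit 78) (PT.lf (nat_lit 20444) (nat_lit 6) (nat_lit 269) (nat_lit 2) (nat_lit 277) (nat_lit 286) (nat_lit 217)) (PT.lf (nat_lit 19836) (nat_lit 6) (nat_lit 261) (nat_lit 2) (nat_lit 278) (nat_lit 286) (nat_lit 216))) (PT.nd (nat_lit 78) (PT.lf (nat_lit 19304) (nat_lit 6) (nat_lit 254) (nat_lit 2) (nat_lit 279) (nat_lit 286) (nat_lit 215)) (PT.lf (nat_lit 18772) (nat_lit 6) (nat_lit 247) (nat_lit 2) (nat_lit 280) (nat_lit 286) (nat_lit 214)))) (PT.nd (nat_lit 156) (PT.nd (nat_lit 78) (PT.lf (nat_lit 18240) (nat_lit 6) (nat_lit 240) (nat_lit 2) (nat_lit 281) (nat_lit 286) (nat_lit 213)) (PT.lf (nat_lit 17708) (nat_lit 6) (nat_lit 233) (nat_lit 2) (nat_lit 282) (nat_lit 286) (nat_lit 212))) (PT.nd (nat_lit 78) (PT.lf (nat_lit 17252) (nat_lit 6) (nat_lit 227) (nat_lit 2) (nat_lit 283) (nat_lit 286) (nat_lit 211)) (PT.lf (nat_lit 16720) (nat_lit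 6) (nat_lit 220) (nat_lit 2) (nat_lit 284) (nat_lit 286) (nat_lit 210))))) (PT.nd (nat_lit 312) (PT.nd (nat_lit 156) (PT.nd (nat_lit 78) (PT.lf (nat_lit 16264) (nat_lit 6) (nat_lit 214) (nat_lit 2) (nat_lit 285) (nat_lit 286) (nat_lit 209)) (PT.lf (nat_lit 15808) (nat_lit 3) (nat_lit 208) (nat_lit 0) (nat_lit 286) (nat_lit 286) (nat_lit 208))) (PT.nd (nat_lit 78) (PT.lf (nat_lit 15276) (nat_lit 6) (nat_lit 201) (nat_lit 0) (nat_lit 287) (nat_lit 286) (nat_lit 207)) (PT.lf (nat_lit 14744) (nat_lit 6) (nat_lit 194) (nat_lit 0) (nat_lit 288) (nat_lit 286) (nat_lit 206)))) (PT.nd (nat_lit 156) (PT.nd (nat_lit 78) (PT.lf (nat_lit 14288) (nat_lit 6) (nat_lit 188) (nat_lit 0) (nat_lit 289) (nat_lit 286) (nat_lit 205)) (PT.lf (nat_lit 13756) (nat_lit 6) (nat_lit 181) (nat_lit 0) (nat_lit 290) (nat_lit 286) (nat_lit 204))) (PT.nd (nat_lit 78) (PT.lf (nat_lit 13300) (nat_lit 6) (nat_lit 175) (nat_lit 0) (nat_lit 291) (nat_lit 286) (nat_lit 203)) (PT.nd (nat_lit 78) (PT.lf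 (nat_lit 12844) (nat_lit 6) (nat_lit 169) (nat_lit 0) (nat_lit 292) (nat_lit 286) (nat_lit 202)) (PT.lf (nat_lit 12388) (nat_lit 6) (nat_lit 163) (nat_lit 0) (nat_lit 293) (nat_lit 286) (nat_lit 201))))))) (PT.nd (nat_lit 74100) (PT.nd (nat_lit 73788) (PT.nd (nat_lit 73632) (PT.nd (nat_lit 78) (PT.lf (nat_lit 11932) (nat_lit 6) (nat_lit 157) (nat_lit 0) (nat_lit 294) (nat_lit 286) (nat_lit 200)) (PT.lf (nat_lit 11476) (nat_lit 6) (nat_lit 151) (nat_lit 0) (nat_lit 295) (nat_lit 286) (nat_lit 199))) (PT.nd (nat_lit 78) (PT.lf (nat_lit 10716) (nat_lit 6) (nat_lit 141) (nat_lit 5) (nat_lit 197) (nat_lit 287) (nat_lit 296)) (PT.lf (nat_lit 11096) (nat_lit 6) (nat_lit 146) (nat_lit 5) (nat_lit 198) (nat_lit 287) (nat_lit 295)))) (PT.nd (nat_lit 156) (PT.nd (nat_lit 78) (PT.lf (nat_lit 11552) (nat_lit 6) (nat_lit 152) (nat_lit 5) (nat_lit 199) (nat_lit 287) (nat_lit 294)) (PT.lf (nat_lit 12008) (nat_lit 6) (nat_lit 158) (nat_lit 5) (nat_lit 200) (nat_lit 287) (nat_lit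 293))) (PT.nd (nat_lit 78) (PT.lf (nat_lit 12464) (nat_lit 6) (nat_lit 164) (nat_lit 5) (nat_lit 201) (nat_lit 287) (nat_lit 292)) (PT.lf (nat_lit 12920) (nat_lit 6) (nat_lit 170) (nat_lit 5) (nat_lit 202) (nat_lit 287) (nat_lit 291))))) (PT.nd (nat_lit 312) (PT.nd (nat_lit 156) (PT.nd (nat_lit 78) (PT.lf (nat_lit 13376) (nat_lit 6) (nat_lit 176) (nat_lit 5) (nat_lit 203) (nat_lit 287) (nat_lit 290)) (PT.lf (nat_lit 13832) (nat_lit 6) (nat_lit 182) (nat_lit 5) (nat_lit 204) (nat_lit 287) (nat_lit 289))) (PT.nd (nat_lit 78) (PT.lf (nat_lit 14364) (nat_lit 6) (nat_lit 189) (nat_lit 5) (nat_lit 205) (nat_lit 287) (nat_lit 288)) (PT.lf (nat_lit 14820) (nat_lit 3) (nat_lit 195) (nat_lit 4) (nat_lit 206) (nat_lit 287) (nat_lit 287)))) (PT.nd (nat_lit 156) (PT.nd (nat_lit 78) (PT.lf (nat_lit 15276) (nat_lit 6) (nat_lit 201) (nat_lit 4) (nat_lit 207) (nat_lit 287) (nat_lit 286)) (PT.lf (nat_lit 15732) (nat_lit 6) (nat_lit 207) (nat_lit 4) (nat_lit 208) (nat_lit 287) (nat_lit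 285))) (PT.nd (nat_lit 78) (PT.lf (nat_lit 16188) (nat_lit 6) (nat_lit 213) (nat_lit 4) (nat_lit 209) (nat_lit 287) (nat_lit 284)) (PT.nd (nat_lit 78) (PT.lf (nat_lit 16644) (nat_lit 6) (nat_lit 219) (nat_lit 4) (nat_lit 210) (nat_lit 287) (nat_lit 283)) (PT.lf (nat_lit 17176) (nat_lit 6) (nat_lit 226) (nat_lit 4) (nat_lit 211) (nat_lit 287) (nat_lit 282))))))))
noncomputable def pc107 : PT := (PT.nd (nat_lit 4602) (PT.nd (nat_lit 624) (PT.nd (nat_lit 312) (PT.nd (nat_lit 156) (PT.nd (nat_lit 78) (PT.lf (nat_lit 17632) (nat_lit 6) (nat_lit 232) (nat_lit 4) (nat_lit 212) (nat_lit 287) (nat_lit 281)) (PT.lf (nat_lit 18164) (nat_lit 6) (nat_lit 239) (nat_lit 4) (nat_lit 213) (nat_lit 287) (nat_lit 280))) (PT.nd (nat_lit 78) (PT.lf (nat_lit 18696) (nat_lit 6) (nat_lit 246) (nat_lit 4) (nat_lit 214) (nat_lit 287) (nat_lit 279)) (PT.lf (nat_lit 19228) (nat_lit 6) (nat_lit 253) (nat_lit 4) (nat_lit 215) (nat_lit 287) (nat_lit 278)))) (PT.nd (nat_lit 156) (PT.nd (nat_lit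 78) (PT.lf (nat_lit 19760) (nat_lit 6) (nat_lit 260) (nat_lit 4) (nat_lit 216) (nat_lit 287) (nat_lit 277)) (PT.lf (nat_lit 20368) (nat_lit 6) (nat_lit 268) (nat_lit 4) (nat_lit 217) (nat_lit 287) (nat_lit 276))) (PT.nd (nat_lit 78) (PT.lf (nat_lit 20976) (nat_lit 6) (nat_lit 276) (nat_lit 4) (nat_lit 218) (nat_lit 287) (nat_lit 275)) (PT.lf (nat_lit 21584) (nat_lit 6) (nat_lit 284) (nat_lit 4) (nat_lit 219) (nat_lit 287) (nat_lit 274))))) (PT.nd (nat_lit 312) (PT.nd (nat_lit 156) (PT.nd (nat_lit 78) (PT.lf (nat_lit 22192) (nat_lit 6) (nat_lit 292) (nat_lit 4) (nat_lit 220) (nat_lit 287) (nat_lit 273)) (PT.lf (nat_lit 22876) (nat_lit 6) (nat_lit 301) (nat_lit 4) (nat_lit 221) (nat_lit 287) (nat_lit 272))) (PT.nd (nat_lit 78) (PT.lf (nat_lit 23484) (nat_lit 6) (nat_lit 309) (nat_lit 4) (nat_lit 222) (nat_lit 287) (nat_lit 271)) (PT.lf (nat_lit 24168) (nat_lit 6) (nat_lit 318) (nat_lit 4) (nat_lit 223) (nat_lit 287) (nat_lit 270)))) (PT.nd (nat_lit 3432) (PT.nd (nat_lit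 78) (PT.lf (nat_lit 24852) (nat_lit 6) (nat_lit 327) (nat_lit 4) (nat_lit 224) (nat_lit 287) (nat_lit 269)) (PT.lf (nat_lit 25612) (nat_lit 6) (nat_lit 337) (nat_lit 4) (nat_lit 225) (nat_lit 287) (nat_lit 268))) (PT.nd (nat_lit 78) (PT.lf (nat_lit 25612) (nat_lit 6) (nat_lit 337) (nat_lit 2) (nat_lit 268) (nat_lit 287) (nat_lit 225)) (PT.nd (nat_lit 78) (PT.lf (nat_lit 24852) (nat_lit 6) (nat_lit 327) (nat_lit 2) (nat_lit 269) (nat_lit 287) (nat_lit 224)) (PT.lf (nat_lit 24168) (nat_lit 6) (nat_lit 318) (nat_lit 2) (nat_lit 270) (nat_lit 287) (nat_lit 223))))))) (PT.nd (nat_lit 624) (PT.nd (nat_lit 312) (PT.nd (nat_lit 156) (PT.nd (nat_lit 78) (PT.lf (nat_lit 23484) (nat_lit 6) (nat_lit 309) (nat_lit 2) (nat_lit 271) (nat_lit 287) (nat_lit 222)) (PT.lf (nat_lit 22876) (nat_lit 6) (nat_lit 301) (nat_lit 2) (nat_lit 272) (nat_lit 287) (nat_lit 221))) (PT.nd (nat_lit 78) (PT.lf (nat_lit 22192) (nat_lit 6) (nat_lit 292) (nat_lit 2) (nat_lit 273) (nat_lit 287) (nat_lit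 220)) (PT.lf (nat_lit 21584) (nat_lit 6) (nat_lit 284) (nat_lit 2) (nat_lit 274) (nat_lit 287) (nat_lit 219)))) (PT.nd (nat_lit 156) (PT.nd (nat_lit 78) (PT.lf (nat_lit 20976) (nat_lit 6) (nat_lit 276) (nat_lit 2) (nat_lit 275) (nat_lit 287) (nat_lit 218)) (PT.lf (nat_lit 20368) (nat_lit 6) (nat_lit 268) (nat_lit 2) (nat_lit 276) (nat_lit 287) (nat_lit 217))) (PT.nd (nat_lit 78) (PT.lf (nat_lit 19760) (nat_lit 6) (nat_lit 260) (nat_lit 2) (nat_lit 277) (nat_lit 287) (nat_lit 216)) (PT.lf (nat_lit 19228) (nat_lit 6) (nat_lit 253) (nat_lit 2) (nat_lit 278) (nat_lit 287) (nat_lit 215))))) (PT.nd (nat_lit 312) (PT.nd (nat_lit 156) (PT.nd (nat_lit 78) (PT.lf (nat_lit 18696) (nat_lit 6) (nat_lit 246) (nat_lit 2) (nat_lit 279) (nat_lit 287) (nat_lit 214)) (PT.lf (nat_lit 18164) (nat_lit 6) (nat_lit 239) (nat_lit 2) (nat_lit 280) (nat_lit 287) (nat_lit 213))) (PT.nd (nat_lit 78) (PT.lf (nat_lit 17632) (nat_lit 6) (nat_lit 232) (nat_lit 2) (nat_lit 281) (nat_lit 287) (nat_lit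 212)) (PT.lf (nat_lit 17176) (nat_lit 6) (nat_lit 226) (nat_lit 2) (nat_lit 282) (nat_lit 287) (nat_lit 211)))) (PT.nd (nat_lit 156) (PT.nd (nat_lit 78) (PT.lf (nat_lit 16644) (nat_lit 6) (nat_lit 219) (nat_lit 2) (nat_lit 283) (nat_lit 287) (nat_lit 210)) (PT.lf (nat_lit 16188) (nat_lit 6) (nat_lit 213) (nat_lit 2) (nat_lit 284) (nat_lit 287) (nat_lit 209))) (PT.nd (nat_lit 78) (PT.lf (nat_lit 15732) (nat_lit 6) (nat_lit 207) (nat_lit 2) (nat_lit 285) (nat_lit 287) (nat_lit 208)) (PT.nd (nat_lit 78) (PT.lf (nat_lit 15276) (nat_lit 6) (nat_lit 201) (nat_lit 2) (nat_lit 286) (nat_lit 287) (nat_lit 207)) (PT.lf (nat_lit 14820) (nat_lit 3) (nat_lit 195) (nat_lit 0) (nat_lit 287) (nat_lit 287) (nat_lit 206))))))))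
noncomputable def pc108 : PT := (PT.nd (nat_lit 74646) (PT.nd (nat_lit 624) (PT.nd (nat_lit 312) (PT.nd (nat_lit 156) (PT.nd (nat_lit 78) (PT.lf (nat_lit 14364) (nat_lit 6) (nat_lit 189) (nat_lit 0) (nat_lit 288) (nat_lit 287) (nat_lit 205)) (PT.lf (nat_lit 13832) (nat_lit 6) (nat_lit 182) (nat_lit 0) (nat_lit 289) (nat_lit 287) (nat_lit 204))) (PT.nd (nat_lit 78) (PT.lf (nat_lit 13376) (nat_lit 6) (nat_lit 176) (nat_lit 0) (nat_lit 290) (nat_lit 287) (nat_lit 203)) (PT.lf (nat_lit 12920) (nat_lit 6) (nat_lit 170) (nat_lit 0) (nat_lit 291) (nat_lit 287) (nat_lit 202)))) (PT.nd (nat_lit 156) (PT.nd (nat_lit 78) (PT.lf (nat_lit 12464) (nat_lit 6) (nat_lit 164) (nat_lit 0) (nat_lit 292) (nat_lit 287) (nat_lit 201)) (PT.lf (nat_lit 12008) (nat_lit 6) (nat_lit 158) (nat_lit 0) (nat_lit 293) (nat_lit 287) (nat_lit 200))) (PT.nd (nat_lit 78) (PT.lf (nat_lit 11552) (nat_lit 6) (nat_lit 152) (nat_lit 0) (nat_lit 294) (nat_lit 287) (nat_lit 199)) (PT.lf (nat_lit 11096) (nat_lit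 6) (nat_lit 146) (nat_lit 0) (nat_lit 295) (nat_lit 287) (nat_lit 198))))) (PT.nd (nat_lit 73632) (PT.nd (nat_lit 73476) (PT.nd (nat_lit 73398) (PT.lf (nat_lit 10716) (nat_lit 6) (nat_lit 141) (nat_lit 0) (nat_lit 296) (nat_lit 287) (nat_lit 197)) (PT.lf (nat_lit 10336) (nat_lit 6) (nat_lit 136) (nat_lit 5) (nat_lit 196) (nat_lit 288) (nat_lit 296))) (PT.nd (nat_lit 78) (PT.lf (nat_lit 10792) (nat_lit 6) (nat_lit 142) (nat_lit 5) (nat_lit 197) (nat_lit 288) (nat_lit 295)) (PT.lf (nat_lit 11172) (nat_lit 6) (nat_lit 147) (nat_lit 5) (nat_lit 198) (nat_lit 288) (nat_lit 294)))) (PT.nd (nat_lit 156) (PT.nd (nat_lit 78) (PT.lf (nat_lit 11628) (nat_lit 6) (nat_lit 153) (nat_lit 5) (nat_lit 199) (nat_lit 288) (nat_lit 293)) (PT.lf (nat_lit 12084) (nat_lit 6) (nat_lit 159) (nat_lit 5) (nat_lit 200) (nat_lit 288) (nat_lit 292))) (PT.nd (nat_lit 78) (PT.lf (nat_lit 12540) (nat_lit 6) (nat_lit 165) (nat_lit 5) (nat_lit 201) (nat_lit 288) (nat_lit 291)) (PT.nd (nat_lit 78)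 (PT.lf (nat_lit 12996) (nat_lit 6) (nat_lit 171) (nat_lit 5) (nat_lit 202) (nat_lit 288) (nat_lit 290)) (PT.lf (nat_lit 13452) (nat_lit 6) (nat_lit 177) (nat_lit 5) (nat_lit 203) (nat_lit 288) (nat_lit 289))))))) (PT.nd (nat_lit 624) (PT.nd (nat_lit 312) (PT.nd (nat_lit 156) (PT.nd (nat_lit 78) (PT.lf (nat_lit 13908) (nat_lit 3) (nat_lit 183) (nat_lit 4) (nat_lit 204) (nat_lit 288) (nat_lit 288)) (PT.lf (nat_lit 14364) (nat_lit 6) (nat_lit 189) (nat_lit 4) (nat_lit 205) (nat_lit 288) (nat_lit 287))) (PT.nd (nat_lit 78) (PT.lf (nat_lit 14744) (nat_lit 6) (nat_lit 194) (nat_lit 4) (nat_lit 206) (nat_lit 288) (nat_lit 286)) (PT.lf (nat_lit 15200) (nat_lit 6) (nat_lit 200) (nat_lit 4) (nat_lit 207) (nat_lit 288) (nat_lit 285)))) (PT.nd (nat_lit 156) (PT.nd (nat_lit 78) (PT.lf (nat_lit 15656) (nat_lit 6) (nat_lit 206) (nat_lit 4) (nat_lit 208) (nat_lit 288) (nat_lit 284)) (PT.lf (nat_lit 16112) (nat_lit 6) (nat_lit 212) (nat_lit 4) (nat_lit 209) (nat_lit 288) (nat_lit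 283))) (PT.nd (nat_lit 78) (PT.lf (nat_lit 16568) (nat_lit 6) (nat_lit 218) (nat_lit 4) (nat_lit 210) (nat_lit 288) (nat_lit 282)) (PT.lf (nat_lit 17100) (nat_lit 6) (nat_lit 225) (nat_lit 4) (nat_lit 211) (nat_lit 288) (nat_lit 281))))) (PT.nd (nat_lit 312) (PT.nd (nat_lit 156) (PT.nd (nat_lit 78) (PT.lf (nat_lit 17556) (nat_lit 6) (nat_lit 231) (nat_lit 4) (nat_lit 212) (nat_lit 288) (nat_lit 280)) (PT.lf (nat_lit 18088) (nat_lit 6) (nat_lit 238) (nat_lit 4) (nat_lit 213) (nat_lit 288) (nat_lit 279))) (PT.nd (nat_lit 78) (PT.lf (nat_lit 18620) (nat_lit 6) (nat_lit 245) (nat_lit 4) (nat_lit 214) (nat_lit 288) (nat_lit 278)) (PT.lf (nat_lit 19152) (nat_lit 6) (nat_lit 252) (nat_lit 4) (nat_lit 215) (nat_lit 288) (nat_lit 277)))) (PT.nd (nat_lit 156) (PT.nd (nat_lit 78) (PT.lf (nat_lit 19684) (nat_lit 6) (nat_lit 259) (nat_lit 4) (nat_lit 216) (nat_lit 288) (nat_lit 276)) (PT.lf (nat_lit 20292) (nat_lit 6) (nat_lit 267) (nat_lit 4) (nat_lit 217) (nat_lit 288) (nat_lit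 275))) (PT.nd (nat_lit 78) (PT.lf (nat_lit 20900) (nat_lit 6) (nat_lit 275) (nat_lit 4) (nat_lit 218) (nat_lit 288) (nat_lit 274)) (PT.nd (nat_lit 78) (PT.lf (nat_lit 21508) (nat_lit 6) (nat_lit 283) (nat_lit 4) (nat_lit 219) (nat_lit 288) (nat_lit 273)) (PT.lf (nat_lit 22116) (nat_lit 6) (nat_lit 291) (nat_lit 4) (nat_lit 220) (nat_lit 288) (nat_lit 272))))))))
noncomputable def pc109 : PT := (PT.nd (nat_lit 5148) (PT.nd (nat_lit 4446) (PT.nd (nat_lit 4134) (PT.nd (nat_lit 3978) (PT.nd (nat_lit 3900) (PT.lf (nat_lit 22800) (nat_lit 6) (nat_lit 300) (nat_lit 4) (nat_lit 221) (nat_lit 288) (nat_lit 271)) (PT.lf (nat_lit 22800) (nat_lit 6) (nat_lit 300) (nat_lit 2) (nat_lit 271) (nat_lit 288) (nat_lit 221))) (PT.nd (nat_lit 78) (PT.lf (nat_lit 22116) (nat_lit 6) (nat_lit 291) (nat_lit 2) (nat_lit 272) (nat_lit 288) (nat_lit 220)) (PT.lf (nat_lit 21508) (nat_lit 6) (nat_lit 283) (nat_lit 2) (nat_lit 273) (nat_lit 288) (nat_lit 219)))) (PT.nd (nat_lit 156) (PT.nd (nat_lit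 78) (PT.lf (nat_lit 20900) (nat_lit 6) (nat_lit 275) (nat_lit 2) (nat_lit 274) (nat_lit 288) (nat_lit 218)) (PT.lf (nat_lit 20292) (nat_lit 6) (nat_lit 267) (nat_lit 2) (nat_lit 275) (nat_lit 288) (nat_lit 217))) (PT.nd (nat_lit 78) (PT.lf (nat_lit 19684) (nat_lit 6) (nat_lit 259) (nat_lit 2) (nat_lit 276) (nat_lit 288) (nat_lit 216)) (PT.lf (nat_lit 19152) (nat_lit 6) (nat_lit 252) (nat_lit 2) (nat_lit 277) (nat_lit 288) (nat_lit 215))))) (PT.nd (nat_lit 312) (PT.nd (nat_lit 156) (PT.nd (nat_lit 78) (PT.lf (nat_lit 18620) (nat_lit 6) (nat_lit 245) (nat_lit 2) (nat_lit 278) (nat_lit 288) (nat_lit 214)) (PT.lf (nat_lit 18088) (nat_lit 6) (nat_lit 238) (nat_lit 2) (nat_lit 279) (nat_lit 288) (nat_lit 213))) (PT.nd (nat_lit 78) (PT.lf (nat_lit 17556) (nat_lit 6) (nat_lit 231) (nat_lit 2) (nat_lit 280) (nat_lit 288) (nat_lit 212)) (PT.lf (nat_lit 17100) (nat_lit 6) (nat_lit 225) (nat_lit 2) (nat_lit 281) (nat_lit 288) (nat_lit 211)))) (PT.nd (nat_lit 156) (PT.nd (nat_lit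 78) (PT.lf (nat_lit 16568) (nat_lit 6) (nat_lit 218) (nat_lit 2) (nat_lit 282) (nat_lit 288) (nat_lit 210)) (PT.lf (nat_lit 16112) (nat_lit 6) (nat_lit 212) (nat_lit 2) (nat_lit 283) (nat_lit 288) (nat_lit 209))) (PT.nd (nat_lit 78) (PT.lf (nat_lit 15656) (nat_lit 6) (nat_lit 206) (nat_lit 2) (nat_lit 284) (nat_lit 288) (nat_lit 208)) (PT.nd (nat_lit 78) (PT.lf (nat_lit 15200) (nat_lit 6) (nat_lit 200) (nat_lit 2) (nat_lit 285) (nat_lit 288) (nat_lit 207)) (PT.lf (nat_lit 14744) (nat_lit 6) (nat_lit 194) (nat_lit 2) (nat_lit 286) (nat_lit 288) (nat_lit 206))))))) (PT.nd (nat_lit 624) (PT.nd (nat_lit 312) (PT.nd (nat_lit 156) (PT.nd (nat_lit 78) (PT.lf (nat_lit 14364) (nat_lit 6) (nat_lit 189) (nat_lit 2) (nat_lit 287) (nat_lit 288) (nat_lit 205)) (PT.lf (nat_lit 13908) (nat_lit 3) (nat_lit 183) (nat_lit 0) (nat_lit 288) (nat_lit 288) (nat_lit 204))) (PT.nd (nat_lit 78) (PT.lf (nat_lit 13452) (nat_lit 6) (nat_lit 177) (nat_lit 0) (nat_lit 289) (nat_lit 288) (nat_lit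 203)) (PT.lf (nat_lit 12996) (nat_lit 6) (nat_lit 171) (nat_lit 0) (nat_lit 290) (nat_lit 288) (nat_lit 202)))) (PT.nd (nat_lit 156) (PT.nd (nat_lit 78) (PT.lf (nat_lit 12540) (nat_lit 6) (nat_lit 165) (nat_lit 0) (nat_lit 291) (nat_lit 288) (nat_lit 201)) (PT.lf (nat_lit 12084) (nat_lit 6) (nat_lit 159) (nat_lit 0) (nat_lit 292) (nat_lit 288) (nat_lit 200))) (PT.nd (nat_lit 78) (PT.lf (nat_lit 11628) (nat_lit 6) (nat_lit 153) (nat_lit 0) (nat_lit 293) (nat_lit 288) (nat_lit 199)) (PT.lf (nat_lit 11172) (nat_lit 6) (nat_lit 147) (nat_lit 0) (nat_lit 294) (nat_lit 288) (nat_lit 198))))) (PT.nd (nat_lit 73476) (PT.nd (nat_lit 73320) (PT.nd (nat_lit 78) (PT.lf (nat_lit 10792) (nat_lit 6) (nat_lit 142) (nat_lit 0) (nat_lit 295) (nat_lit 288) (nat_lit 197)) (PT.lf (nat_lit 10336) (nat_lit 6) (nat_lit 136) (nat_lit 0) (nat_lit 296) (nat_lit 288) (nat_lit 196))) (PT.nd (nat_lit 78) (PT.lf (nat_lit 9652) (nat_lit 6) (nat_lit 127) (nat_lit 5) (nat_lit 194) (nat_lit 289)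 (nat_lit 297)) (PT.lf (nat_lit 10032) (nat_lit 6) (nat_lit 132) (nat_lit 5) (nat_lit 195) (nat_lit 289) (nat_lit 296)))) (PT.nd (nat_lit 156) (PT.nd (nat_lit 78) (PT.lf (nat_lit 10412) (nat_lit 6) (nat_lit 137) (nat_lit 5) (nat_lit 196) (nat_lit 289) (nat_lit 295)) (PT.lf (nat_lit 10868) (nat_lit 6) (nat_lit 143) (nat_lit 5) (nat_lit 197) (nat_lit 289) (nat_lit 294))) (PT.nd (nat_lit 78) (PT.lf (nat_lit 11248) (nat_lit 6) (nat_lit 148) (nat_lit 5) (nat_lit 198) (nat_lit 289) (nat_lit 293)) (PT.nd (nat_lit 78) (PT.lf (nat_lit 11704) (nat_lit 6) (nat_lit 154) (nat_lit 5) (nat_lit 199) (nat_lit 289) (nat_lit 292)) (PT.lf (nat_lit 12160) (nat_lit 6) (nat_lit 160) (nat_lit 5) (nat_lit 200) (nat_lit 289) (nat_lit 291))))))))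
noncomputable def pc110 : PT := (PT.nd (nat_lit 5694) (PT.nd (nat_lit 624) (PT.nd (nat_lit 312) (PT.nd (nat_lit 156) (PT.nd (nat_lit 78) (PT.lf (nat_lit 12616) (nat_lit 6) (nat_lit 166) (nat_lit 5) (nat_lit 201) (nat_lit 289) (nat_lit 290)) (PT.lf (nat_lit 13072) (nat_lit 3) (nat_lit 172) (nat_lit 4) (nat_lit 202) (nat_lit 289) (nat_lit 289))) (PT.nd (nat_lit 78) (PT.lf (nat_lit 13452) (nat_lit 6) (nat_lit 177) (nat_lit 4) (nat_lit 203) (nat_lit 289) (nat_lit 288)) (PT.lf (nat_lit 13832) (nat_lit 6) (nat_lit 182) (nat_lit 4) (nat_lit 204) (nat_lit 289) (nat_lit 287)))) (PT.nd (nat_lit 156) (PT.nd (nat_lit 78) (PT.lf (nat_lit 14288) (nat_lit 6) (nat_lit 188) (nat_lit 4) (nat_lit 205) (nat_lit 289) (nat_lit 286)) (PT.lf (nat_lit 14668) (nat_lit 6) (nat_lit 193) (nat_lit 4) (nat_lit 206) (nat_lit 289) (nat_lit 285))) (PT.nd (nat_lit 78) (PT.lf (nat_lit 15124) (nat_lit 6) (nat_lit 199) (nat_lit 4) (nat_lit 207) (nat_lit 289) (nat_lit 284)) (PT.lf (nat_lit 15580) (nat_lit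 6) (nat_lit 205) (nat_lit 4) (nat_lit 208) (nat_lit 289) (nat_lit 283))))) (PT.nd (nat_lit 312) (PT.nd (nat_lit 156) (PT.nd (nat_lit 78) (PT.lf (nat_lit 16036) (nat_lit 6) (nat_lit 211) (nat_lit 4) (nat_lit 209) (nat_lit 289) (nat_lit 282)) (PT.lf (nat_lit 16492) (nat_lit 6) (nat_lit 217) (nat_lit 4) (nat_lit 210) (nat_lit 289) (nat_lit 281))) (PT.nd (nat_lit 78) (PT.lf (nat_lit 17024) (nat_lit 6) (nat_lit 224) (nat_lit 4) (nat_lit 211) (nat_lit 289) (nat_lit 280)) (PT.lf (nat_lit 17480) (nat_lit 6) (nat_lit 230) (nat_lit 4) (nat_lit 212) (nat_lit 289) (nat_lit 279)))) (PT.nd (nat_lit 156) (PT.nd (nat_lit 78) (PT.lf (nat_lit 18012) (nat_lit 6) (nat_lit 237) (nat_lit 4) (nat_lit 213) (nat_lit 289) (nat_lit 278)) (PT.lf (nat_lit 18544) (nat_lit 6) (nat_lit 244) (nat_lit 4) (nat_lit 214) (nat_lit 289) (nat_lit 277))) (PT.nd (nat_lit 78) (PT.lf (nat_lit 19076) (nat_lit 6) (nat_lit 251) (nat_lit 4) (nat_lit 215) (nat_lit 289) (nat_lit 276)) (PT.nd (nat_lit 78) (PT.lf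 (nat_lit 19608) (nat_lit 6) (nat_lit 258) (nat_lit 4) (nat_lit 216) (nat_lit 289) (nat_lit 275)) (PT.lf (nat_lit 20216) (nat_lit 6) (nat_lit 266) (nat_lit 4) (nat_lit 217) (nat_lit 289) (nat_lit 274))))))) (PT.nd (nat_lit 624) (PT.nd (nat_lit 312) (PT.nd (nat_lit 156) (PT.nd (nat_lit 78) (PT.lf (nat_lit 20216) (nat_lit 6) (nat_lit 266) (nat_lit 2) (nat_lit 274) (nat_lit 289) (nat_lit 217)) (PT.lf (nat_lit 19608) (nat_lit 6) (nat_lit 258) (nat_lit 2) (nat_lit 275) (nat_lit 289) (nat_lit 216))) (PT.nd (nat_lit 78) (PT.lf (nat_lit 19076) (nat_lit 6) (nat_lit 251) (nat_lit 2) (nat_lit 276) (nat_lit 289) (nat_lit 215)) (PT.lf (nat_lit 18544) (nat_lit 6) (nat_lit 244) (nat_lit 2) (nat_lit 277) (nat_lit 289) (nat_lit 214)))) (PT.nd (nat_lit 156) (PT.nd (nat_lit 78) (PT.lf (nat_lit 18012) (nat_lit 6) (nat_lit 237) (nat_lit 2) (nat_lit 278) (nat_lit 289) (nat_lit 213)) (PT.lf (nat_lit 17480) (nat_lit 6) (nat_lit 230) (nat_lit 2) (nat_lit 279) (nat_lit 289) (nat_lit 212)))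 (PT.nd (nat_lit 78) (PT.lf (nat_lit 17024) (nat_lit 6) (nat_lit 224) (nat_lit 2) (nat_lit 280) (nat_lit 289) (nat_lit 211)) (PT.lf (nat_lit 16492) (nat_lit 6) (nat_lit 217) (nat_lit 2) (nat_lit 281) (nat_lit 289) (nat_lit 210))))) (PT.nd (nat_lit 312) (PT.nd (nat_lit 156) (PT.nd (nat_lit 78) (PT.lf (nat_lit 16036) (nat_lit 6) (nat_lit 211) (nat_lit 2) (nat_lit 282) (nat_lit 289) (nat_lit 209)) (PT.lf (nat_lit 15580) (nat_lit 6) (nat_lit 205) (nat_lit 2) (nat_lit 283) (nat_lit 289) (nat_lit 208))) (PT.nd (nat_lit 78) (PT.lf (nat_lit 15124) (nat_lit 6) (nat_lit 199) (nat_lit 2) (nat_lit 284) (nat_lit 289) (nat_lit 207)) (PT.lf (nat_lit 14668) (nat_lit 6) (nat_lit 193) (nat_lit 2) (nat_lit 285) (nat_lit 289) (nat_lit 206)))) (PT.nd (nat_lit 156) (PT.nd (nat_lit 78) (PT.lf (nat_lit 14288) (nat_lit 6) (nat_lit 188) (nat_lit 2) (nat_lit 286) (nat_lit 289) (nat_lit 205)) (PT.lf (nat_lit 13832) (nat_lit 6) (nat_lit 182) (nat_lit 2) (nat_lit 287) (nat_lit 289) (nat_lit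 204))) (PT.nd (nat_lit 78) (PT.lf (nat_lit 13452) (nat_lit 6) (nat_lit 177) (nat_lit 2) (nat_lit 288) (nat_lit 289) (nat_lit 203)) (PT.nd (nat_lit 78) (PT.lf (nat_lit 13072) (nat_lit 3) (nat_lit 172) (nat_lit 0) (nat_lit 289) (nat_lit 289) (nat_lit 202)) (PT.lf (nat_lit 12616) (nat_lit 6) (nat_lit 166) (nat_lit 0) (nat_lit 290) (nat_lit 289) (nat_lit 201))))))))
noncomputable def pc111 : PT := (PT.nd (nat_lit 74256) (PT.nd (nat_lit 73554) (PT.nd (nat_lit 312) (PT.nd (nat_lit 156) (PT.nd (nat_lit 78) (PT.lf (nat_lit 12160) (nat_lit 6) (nat_lit 160) (nat_lit 0) (nat_lit 291) (nat_lit 289) (nat_lit 200)) (PT.lf (nat_lit 11704) (nat_lit 6) (nat_lit 154) (nat_lit 0) (nat_lit 292) (nat_lit 289) (nat_lit 199))) (PT.nd (nat_lit 78) (PT.lf (nat_lit 11248) (nat_lit 6) (nat_lit 148) (nat_lit 0) (nat_lit 293) (nat_lit 289) (nat_lit 198)) (PT.lf (nat_lit 10868) (nat_lit 6) (nat_lit 143) (nat_lit 0) (nat_lit 294) (nat_lit 289) (nat_lit 197)))) (PT.nd (nat_lit 156) (PT.nd (nat_lit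 78) (PT.lf (nat_lit 10412) (nat_lit 6) (nat_lit 137) (nat_lit 0) (nat_lit 295) (nat_lit 289) (nat_lit 196)) (PT.lf (nat_lit 10032) (nat_lit 6) (nat_lit 132) (nat_lit 0) (nat_lit 296) (nat_lit 289) (nat_lit 195))) (PT.nd (nat_lit 73008) (PT.lf (nat_lit 9652) (nat_lit 6) (nat_lit 127) (nat_lit 0) (nat_lit 297) (nat_lit 289) (nat_lit 194)) (PT.lf (nat_lit 8968) (nat_lit 6) (nat_lit 118) (nat_lit 5) (nat_lit 192) (nat_lit 290) (nat_lit 298))))) (PT.nd (nat_lit 312) (PT.nd (nat_lit 156) (PT.nd (nat_lit 78) (PT.lf (nat_lit 9348) (nat_lit 6) (nat_lit 123) (nat_lit 5) (nat_lit 193) (nat_lit 290) (nat_lit 297)) (PT.lf (nat_lit 9728) (nat_lit 6) (nat_lit 128) (nat_lit 5) (nat_lit 194) (nat_lit 290) (nat_lit 296))) (PT.nd (nat_lit 78) (PT.lf (nat_lit 10108) (nat_lit 6) (nat_lit 133) (nat_lit 5) (nat_lit 195) (nat_lit 290) (nat_lit 295)) (PT.lf (nat_lit 10488) (nat_lit 6) (nat_lit 138) (nat_lit 5) (nat_lit 196) (nat_lit 290) (nat_lit 294)))) (PT.nd (nat_lit 156) (PT.nd (nat_lit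 78) (PT.lf (nat_lit 10944) (nat_lit 6) (nat_lit 144) (nat_lit 5) (nat_lit 197) (nat_lit 290) (nat_lit 293)) (PT.lf (nat_lit 11324) (nat_lit 6) (nat_lit 149) (nat_lit 5) (nat_lit 198) (nat_lit 290) (nat_lit 292))) (PT.nd (nat_lit 78) (PT.lf (nat_lit 11780) (nat_lit 6) (nat_lit 155) (nat_lit 5) (nat_lit 199) (nat_lit 290) (nat_lit 291)) (PT.nd (nat_lit 78) (PT.lf (nat_lit 12236) (nat_lit 3) (nat_lit 161) (nat_lit 4) (nat_lit 200) (nat_lit 290) (nat_lit 290)) (PT.lf (nat_lit 12616) (nat_lit 6) (nat_lit 166) (nat_lit 4) (nat_lit 201) (nat_lit 290) (nat_lit 289))))))) (PT.nd (nat_lit 624) (PT.nd (nat_lit 312) (PT.nd (nat_lit 156) (PT.nd (nat_lit 78) (PT.lf (nat_lit 12996) (nat_lit 6) (nat_lit 171) (nat_lit 4) (nat_lit 202) (nat_lit 290) (nat_lit 288)) (PT.lf (nat_lit 13376) (nat_lit 6) (nat_lit 176) (nat_lit 4) (nat_lit 203) (nat_lit 290) (nat_lit 287))) (PT.nd (nat_lit 78) (PT.lf (nat_lit 13756) (nat_lit 6) (nat_lit 181) (nat_lit 4) (nat_lit 204) (nat_lit 290) (nat_lit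 286)) (PT.lf (nat_lit 14212) (nat_lit 6) (nat_lit 187) (nat_lit 4) (nat_lit 205) (nat_lit 290) (nat_lit 285)))) (PT.nd (nat_lit 156) (PT.nd (nat_lit 78) (PT.lf (nat_lit 14592) (nat_lit 6) (nat_lit 192) (nat_lit 4) (nat_lit 206) (nat_lit 290) (nat_lit 284)) (PT.lf (nat_lit 15048) (nat_lit 6) (nat_lit 198) (nat_lit 4) (nat_lit 207) (nat_lit 290) (nat_lit 283))) (PT.nd (nat_lit 78) (PT.lf (nat_lit 15504) (nat_lit 6) (nat_lit 204) (nat_lit 4) (nat_lit 208) (nat_lit 290) (nat_lit 282)) (PT.lf (nat_lit 15960) (nat_lit 6) (nat_lit 210) (nat_lit 4) (nat_lit 209) (nat_lit 290) (nat_lit 281))))) (PT.nd (nat_lit 312) (PT.nd (nat_lit 156) (PT.nd (nat_lit 78) (PT.lf (nat_lit 16416) (nat_lit 6) (nat_lit 216) (nat_lit 4) (nat_lit 210) (nat_lit 290) (nat_lit 280)) (PT.lf (nat_lit 16948) (nat_lit 6) (nat_lit 223) (nat_lit 4) (nat_lit 211) (nat_lit 290) (nat_lit 279))) (PT.nd (nat_lit 78) (PT.lf (nat_lit 17404) (nat_lit 6) (nat_lit 229) (nat_lit 4) (nat_lit 212) (nat_lit 290) (nat_lit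 278)) (PT.lf (nat_lit 17936) (nat_lit 6) (nat_lit 236) (nat_lit 4) (nat_lit 213) (nat_lit 290) (nat_lit 277)))) (PT.nd (nat_lit 4914) (PT.nd (nat_lit 4836) (PT.lf (nat_lit 18468) (nat_lit 6) (nat_lit 243) (nat_lit 4) (nat_lit 214) (nat_lit 290) (nat_lit 276)) (PT.lf (nat_lit 18468) (nat_lit 6) (nat_lit 243) (nat_lit 2) (nat_lit 276) (nat_lit 290) (nat_lit 214))) (PT.nd (nat_lit 78) (PT.lf (nat_lit 17936) (nat_lit 6) (nat_lit 236) (nat_lit 2) (nat_lit 277) (nat_lit 290) (nat_lit 213)) (PT.nd (nat_lit 78) (PT.lf (nat_lit 17404) (nat_lit 6) (nat_lit 229) (nat_lit 2) (nat_lit 278) (nat_lit 290) (nat_lit 212)) (PT.lf (nat_lit 16948) (nat_lit 6) (nat_lit 223) (nat_lit 2) (nat_lit 279) (nat_lit 290) (nat_lit 211))))))))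
noncomputable def pc112 : PT := (PT.nd (nat_lit 1248) (PT.nd (nat_lit 624) (PT.nd (nat_lit 312) (PT.nd (nat_lit 156) (PT.nd (nat_lit 78) (PT.lf (nat_lit 16416) (nat_lit 6) (nat_lit 216) (nat_lit 2) (nat_lit 280) (nat_lit 290) (nat_lit 210)) (PT.lf (nat_lit 15960) (nat_lit 6) (nat_lit 210) (nat_lit 2) (nat_lit 281) (nat_lit 290) (nat_lit 209))) (PT.nd (nat_lit 78) (PT.lf (nat_lit 15504) (nat_lit 6) (nat_lit 204) (nat_lit 2) (nat_lit 282) (nat_lit 290) (nat_lit 208)) (PT.lf (nat_lit 15048) (nat_lit 6) (nat_lit 198) (nat_lit 2) (nat_lit 283) (nat_lit 290) (nat_lit 207)))) (PT.nd (nat_lit 156) (PT.nd (nat_lit 78) (PT.lf (nat_lit 14592) (nat_lit 6) (nat_lit 192) (nat_lit 2) (nat_lit 284) (nat_lit 290) (nat_lit 206)) (PT.lf (nat_lit 14212) (nat_lit 6) (nat_lit 187) (nat_lit 2) (nat_lit 285) (nat_lit 290) (nat_lit 205))) (PT.nd (nat_lit 78) (PT.lf (nat_lit 13756) (nat_lit 6) (nat_lit 181) (nat_lit 2) (nat_lit 286) (nat_lit 290) (nat_lit 204)) (PT.lf (nat_lit 13376) (nat_lit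 6) (nat_lit 176) (nat_lit 2) (nat_lit 287) (nat_lit 290) (nat_lit 203))))) (PT.nd (nat_lit 312) (PT.nd (nat_lit 156) (PT.nd (nat_lit 78) (PT.lf (nat_lit 12996) (nat_lit 6) (nat_lit 171) (nat_lit 2) (nat_lit 288) (nat_lit 290) (nat_lit 202)) (PT.lf (nat_lit 12616) (nat_lit 6) (nat_lit 166) (nat_lit 2) (nat_lit 289) (nat_lit 290) (nat_lit 201))) (PT.nd (nat_lit 78) (PT.lf (nat_lit 12236) (nat_lit 3) (nat_lit 161) (nat_lit 0) (nat_lit 290) (nat_lit 290) (nat_lit 200)) (PT.lf (nat_lit 11780) (nat_lit 6) (nat_lit 155) (nat_lit 0) (nat_lit 291) (nat_lit 290) (nat_lit 199)))) (PT.nd (nat_lit 156) (PT.nd (nat_lit 78) (PT.lf (nat_lit 11324) (nat_lit 6) (nat_lit 149) (nat_lit 0) (nat_lit 292) (nat_lit 290) (nat_lit 198)) (PT.lf (nat_lit 10944) (nat_lit 6) (nat_lit 144) (nat_lit 0) (nat_lit 293) (nat_lit 290) (nat_lit 197))) (PT.nd (nat_lit 78) (PT.lf (nat_lit 10488) (nat_lit 6) (nat_lit 138) (nat_lit 0) (nat_lit 294) (nat_lit 290) (nat_lit 196)) (PT.lf (nat_lit 10108) (nat_lit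 6) (nat_lit 133) (nat_lit 0) (nat_lit 295) (nat_lit 290) (nat_lit 195)))))) (PT.nd (nat_lit 73398) (PT.nd (nat_lit 73086) (PT.nd (nat_lit 156) (PT.nd (nat_lit 78) (PT.lf (nat_lit 9728) (nat_lit 6) (nat_lit 128) (nat_lit 0) (nat_lit 296) (nat_lit 290) (nat_lit 194)) (PT.lf (nat_lit 9348) (nat_lit 6) (nat_lit 123) (nat_lit 0) (nat_lit 297) (nat_lit 290) (nat_lit 193))) (PT.nd (nat_lit 72852) (PT.lf (nat_lit 8968) (nat_lit 6) (nat_lit 118) (nat_lit 0) (nat_lit 298) (nat_lit 290) (nat_lit 192)) (PT.lf (nat_lit 8664) (nat_lit 6) (nat_lit 114) (nat_lit 5) (nat_lit 191) (nat_lit 291) (nat_lit 298)))) (PT.nd (nat_lit 156) (PT.nd (nat_lit 78) (PT.lf (nat_lit 9044) (nat_lit 6) (nat_lit 119) (nat_lit 5) (nat_lit 192) (nat_lit 291) (nat_lit 297)) (PT.lf (nat_lit 9424) (nat_lit 6) (nat_lit 124) (nat_lit 5) (nat_lit 193) (nat_lit 291) (nat_lit 296))) (PT.nd (nat_lit 78) (PT.lf (nat_lit 9804) (nat_lit 6) (nat_lit 129) (nat_lit 5) (nat_lit 194) (nat_lit 291) (nat_lit 295)) (PT.lf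 (nat_lit 10184) (nat_lit 6) (nat_lit 134) (nat_lit 5) (nat_lit 195) (nat_lit 291) (nat_lit 294))))) (PT.nd (nat_lit 312) (PT.nd (nat_lit 156) (PT.nd (nat_lit 78) (PT.lf (nat_lit 10564) (nat_lit 6) (nat_lit 139) (nat_lit 5) (nat_lit 196) (nat_lit 291) (nat_lit 293)) (PT.lf (nat_lit 11020) (nat_lit 6) (nat_lit 145) (nat_lit 5) (nat_lit 197) (nat_lit 291) (nat_lit 292))) (PT.nd (nat_lit 78) (PT.lf (nat_lit 11400) (nat_lit 3) (nat_lit 150) (nat_lit 4) (nat_lit 198) (nat_lit 291) (nat_lit 291)) (PT.lf (nat_lit 11780) (nat_lit 6) (nat_lit 155) (nat_lit 4) (nat_lit 199) (nat_lit 291) (nat_lit 290)))) (PT.nd (nat_lit 156) (PT.nd (nat_lit 78) (PT.lf (nat_lit 12160) (nat_lit 6) (nat_lit 160) (nat_lit 4) (nat_lit 200) (nat_lit 291) (nat_lit 289)) (PT.lf (nat_lit 12540) (nat_lit 6) (nat_lit 165) (nat_lit 4) (nat_lit 201) (nat_lit 291) (nat_lit 288))) (PT.nd (nat_lit 78) (PT.lf (nat_lit 12920) (nat_lit 6) (nat_lit 170) (nat_lit 4) (nat_lit 202) (nat_lit 291) (nat_lit 287))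 (PT.nd (nat_lit 78) (PT.lf (nat_lit 13300) (nat_lit 6) (nat_lit 175) (nat_lit 4) (nat_lit 203) (nat_lit 291) (nat_lit 286)) (PT.lf (nat_lit 13680) (nat_lit 6) (nat_lit 180) (nat_lit 4) (nat_lit 204) (nat_lit 291) (nat_lit 285))))))))
noncomputable def pc113 : PT := (PT.nd (nat_lit 6474) (PT.nd (nat_lit 5772) (PT.nd (nat_lit 312) (PT.nd (nat_lit 156) (PT.nd (nat_lit 78) (PT.lf (nat_lit 14136) (nat_lit 6) (nat_lit 186) (nat_lit 4) (nat_lit 205) (nat_lit 291) (nat_lit 284)) (PT.lf (nat_lit 14516) (nat_lit 6) (nat_lit 191) (nat_lit 4) (nat_lit 206) (nat_lit 291) (nat_lit 283))) (PT.nd (nat_lit 78) (PT.lf (nat_lit 14972) (nat_lit 6) (nat_lit 197) (nat_lit 4) (nat_lit 207) (nat_lit 291) (nat_lit 282)) (PT.lf (nat_lit 15428) (nat_lit 6) (nat_lit 203) (nat_lit 4) (nat_lit 208) (nat_lit 291) (nat_lit 281)))) (PT.nd (nat_lit 156) (PT.nd (nat_lit 78) (PT.lf (nat_lit 15884) (nat_lit 6) (nat_lit 209) (nat_lit 4) (nat_lit 209) (nat_lit 291) (nat_lit 280)) (PT.lf (nat_lit 16340)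 (nat_lit 6) (nat_lit 215) (nat_lit 4) (nat_lit 210) (nat_lit 291) (nat_lit 279))) (PT.nd (nat_lit 5226) (PT.lf (nat_lit 16872) (nat_lit 6) (nat_lit 222) (nat_lit 4) (nat_lit 211) (nat_lit 291) (nat_lit 278)) (PT.lf (nat_lit 16872) (nat_lit 6) (nat_lit 222) (nat_lit 2) (nat_lit 278) (nat_lit 291) (nat_lit 211))))) (PT.nd (nat_lit 312) (PT.nd (nat_lit 156) (PT.nd (nat_lit 78) (PT.lf (nat_lit 16340) (nat_lit 6) (nat_lit 215) (nat_lit 2) (nat_lit 279) (nat_lit 291) (nat_lit 210)) (PT.lf (nat_lit 15884) (nat_lit 6) (nat_lit 209) (nat_lit 2) (nat_lit 280) (nat_lit 291) (nat_lit 209))) (PT.nd (nat_lit 78) (PT.lf (nat_lit 15428) (nat_lit 6) (nat_lit 203) (nat_lit 2) (nat_lit 281) (nat_lit 291) (nat_lit 208)) (PT.lf (nat_lit 14972) (nat_lit 6) (nat_lit 197) (nat_lit 2) (nat_lit 282) (nat_lit 291) (nat_lit 207)))) (PT.nd (nat_lit 156) (PT.nd (nat_lit 78) (PT.lf (nat_lit 14516) (nat_lit 6) (nat_lit 191) (nat_lit 2) (nat_lit 283) (nat_lit 291) (nat_lit 206)) (PT.lf (nat_lit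 14136) (nat_lit 6) (nat_lit 186) (nat_lit 2) (nat_lit 284) (nat_lit 291) (nat_lit 205))) (PT.nd (nat_lit 78) (PT.lf (nat_lit 13680) (nat_lit 6) (nat_lit 180) (nat_lit 2) (nat_lit 285) (nat_lit 291) (nat_lit 204)) (PT.nd (nat_lit 78) (PT.lf (nat_lit 13300) (nat_lit 6) (nat_lit 175) (nat_lit 2) (nat_lit 286) (nat_lit 291) (nat_lit 203)) (PT.lf (nat_lit 12920) (nat_lit 6) (nat_lit 170) (nat_lit 2) (nat_lit 287) (nat_lit 291) (nat_lit 202))))))) (PT.nd (nat_lit 624) (PT.nd (nat_lit 312) (PT.nd (nat_lit 156) (PT.nd (nat_lit 78) (PT.lf (nat_lit 12540) (nat_lit 6) (nat_lit 165) (nat_lit 2) (nat_lit 288) (nat_lit 291) (nat_lit 201)) (PT.lf (nat_lit 12160) (nat_lit 6) (nat_lit 160) (nat_lit 2) (nat_lit 289) (nat_lit 291) (nat_lit 200))) (PT.nd (nat_lit 78) (PT.lf (nat_lit 11780) (nat_lit 6) (nat_lit 155) (nat_lit 2) (nat_lit 290) (nat_lit 291) (nat_lit 199)) (PT.lf (nat_lit 11400) (nat_lit 3) (nat_lit 150) (nat_lit 0) (nat_lit 291) (nat_lit 291) (nat_lit 198)))) (PT.nd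 (nat_lit 156) (PT.nd (nat_lit 78) (PT.lf (nat_lit 11020) (nat_lit 6) (nat_lit 145) (nat_lit 0) (nat_lit 292) (nat_lit 291) (nat_lit 197)) (PT.lf (nat_lit 10564) (nat_lit 6) (nat_lit 139) (nat_lit 0) (nat_lit 293) (nat_lit 291) (nat_lit 196))) (PT.nd (nat_lit 78) (PT.lf (nat_lit 10184) (nat_lit 6) (nat_lit 134) (nat_lit 0) (nat_lit 294) (nat_lit 291) (nat_lit 195)) (PT.lf (nat_lit 9804) (nat_lit 6) (nat_lit 129) (nat_lit 0) (nat_lit 295) (nat_lit 291) (nat_lit 194))))) (PT.nd (nat_lit 72930) (PT.nd (nat_lit 156) (PT.nd (nat_lit 78) (PT.lf (nat_lit 9424) (nat_lit 6) (nat_lit 124) (nat_lit 0) (nat_lit 296) (nat_lit 291) (nat_lit 193)) (PT.lf (nat_lit 9044) (nat_lit 6) (nat_lit 119) (nat_lit 0) (nat_lit 297) (nat_lit 291) (nat_lit 192))) (PT.nd (nat_lit 72696) (PT.lf (nat_lit 8664) (nat_lit 6) (nat_lit 114) (nat_lit 0) (nat_lit 298) (nat_lit 291) (nat_lit 191)) (PT.lf (nat_lit 8056) (nat_lit 6) (nat_lit 106) (nat_lit 5) (nat_lit 189) (nat_lit 292) (nat_lit 299))))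 (PT.nd (nat_lit 156) (PT.nd (nat_lit 78) (PT.lf (nat_lit 8360) (nat_lit 6) (nat_lit 110) (nat_lit 5) (nat_lit 190) (nat_lit 292) (nat_lit 298)) (PT.lf (nat_lit 8740) (nat_lit 6) (nat_lit 115) (nat_lit 5) (nat_lit 191) (nat_lit 292) (nat_lit 297))) (PT.nd (nat_lit 78) (PT.lf (nat_lit 9120) (nat_lit 6) (nat_lit 120) (nat_lit 5) (nat_lit 192) (nat_lit 292) (nat_lit 296)) (PT.nd (nat_lit 78) (PT.lf (nat_lit 9500) (nat_lit 6) (nat_lit 125) (nat_lit 5) (nat_lit 193) (nat_lit 292) (nat_lit 295)) (PT.lf (nat_lit 9880) (nat_lit 6) (nat_lit 130) (nat_lit 5) (nat_lit 194) (nat_lit 292) (nat_lit 294))))))))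
noncomputable def pc114 : PT := (PT.nd (nat_lit 6864) (PT.nd (nat_lit 624) (PT.nd (nat_lit 312) (PT.nd (nat_lit 156) (PT.nd (nat_lit 78) (PT.lf (nat_lit 10260) (nat_lit 6) (nat_lit 135) (nat_lit 5) (nat_lit 195) (nat_lit 292) (nat_lit 293)) (PT.lf (nat_lit 10640) (nat_lit 3) (nat_lit 140) (nat_lit 4) (nat_lit 196) (nat_lit 292) (nat_lit 292))) (PT.nd (nat_lit 78) (PT.lf (nat_lit 11020) (nat_lit 6) (nat_lit 145) (nat_lit 4) (nat_lit 197) (nat_lit 292) (nat_lit 291)) (PT.lf (nat_lit 11324) (nat_lit 6) (nat_lit 149) (nat_lit 4) (nat_lit 198) (nat_lit 292) (nat_lit 290)))) (PT.nd (nat_lit 156) (PT.nd (nat_lit 78) (PT.lf (nat_lit 11704) (nat_lit 6) (nat_lit 154) (nat_lit 4) (nat_lit 199) (nat_lit 292) (nat_lit 289)) (PT.lf (nat_lit 12084) (nat_lit 6) (nat_lit 159) (nat_lit 4) (nat_lit 200) (nat_lit 292) (nat_lit 288))) (PT.nd (nat_lit 78) (PT.lf (nat_lit 12464) (nat_lit 6) (nat_lit 164) (nat_lit 4) (nat_lit 201) (nat_lit 292) (nat_lit 287)) (PT.lf (nat_lit 12844) (nat_lit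 6) (nat_lit 169) (nat_lit 4) (nat_lit 202) (nat_lit 292) (nat_lit 286))))) (PT.nd (nat_lit 312) (PT.nd (nat_lit 156) (PT.nd (nat_lit 78) (PT.lf (nat_lit 13224) (nat_lit 6) (nat_lit 174) (nat_lit 4) (nat_lit 203) (nat_lit 292) (nat_lit 285)) (PT.lf (nat_lit 13604) (nat_lit 6) (nat_lit 179) (nat_lit 4) (nat_lit 204) (nat_lit 292) (nat_lit 284))) (PT.nd (nat_lit 78) (PT.lf (nat_lit 14060) (nat_lit 6) (nat_lit 185) (nat_lit 4) (nat_lit 205) (nat_lit 292) (nat_lit 283)) (PT.lf (nat_lit 14440) (nat_lit 6) (nat_lit 190) (nat_lit 4) (nat_lit 206) (nat_lit 292) (nat_lit 282)))) (PT.nd (nat_lit 5694) (PT.nd (nat_lit 78) (PT.lf (nat_lit 14896) (nat_lit 6) (nat_lit 196) (nat_lit 4) (nat_lit 207) (nat_lit 292) (nat_lit 281)) (PT.lf (nat_lit 15352) (nat_lit 6) (nat_lit 202) (nat_lit 4) (nat_lit 208) (nat_lit 292) (nat_lit 280))) (PT.nd (nat_lit 78) (PT.lf (nat_lit 15352) (nat_lit 6) (nat_lit 202) (nat_lit 2) (nat_lit 280) (nat_lit 292) (nat_lit 208)) (PT.nd (nat_lit 78) (PT.lf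 (nat_lit 14896) (nat_lit 6) (nat_lit 196) (nat_lit 2) (nat_lit 281) (nat_lit 292) (nat_lit 207)) (PT.lf (nat_lit 14440) (nat_lit 6) (nat_lit 190) (nat_lit 2) (nat_lit 282) (nat_lit 292) (nat_lit 206))))))) (PT.nd (nat_lit 624) (PT.nd (nat_lit 312) (PT.nd (nat_lit 156) (PT.nd (nat_lit 78) (PT.lf (nat_lit 14060) (nat_lit 6) (nat_lit 185) (nat_lit 2) (nat_lit 283) (nat_lit 292) (nat_lit 205)) (PT.lf (nat_lit 13604) (nat_lit 6) (nat_lit 179) (nat_lit 2) (nat_lit 284) (nat_lit 292) (nat_lit 204))) (PT.nd (nat_lit 78) (PT.lf (nat_lit 13224) (nat_lit 6) (nat_lit 174) (nat_lit 2) (nat_lit 285) (nat_lit 292) (nat_lit 203)) (PT.lf (nat_lit 12844) (nat_lit 6) (nat_lit 169) (nat_lit 2) (nat_lit 286) (nat_lit 292) (nat_lit 202)))) (PT.nd (nat_lit 156) (PT.nd (nat_lit 78) (PT.lf (nat_lit 12464) (nat_lit 6) (nat_lit 164) (nat_lit 2) (nat_lit 287) (nat_lit 292) (nat_lit 201)) (PT.lf (nat_lit 12084) (nat_lit 6) (nat_lit 159) (nat_lit 2) (nat_lit 288) (nat_lit 292) (nat_lit 200)))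 (PT.nd (nat_lit 78) (PT.lf (nat_lit 11704) (nat_lit 6) (nat_lit 154) (nat_lit 2) (nat_lit 289) (nat_lit 292) (nat_lit 199)) (PT.lf (nat_lit 11324) (nat_lit 6) (nat_lit 149) (nat_lit 2) (nat_lit 290) (nat_lit 292) (nat_lit 198))))) (PT.nd (nat_lit 312) (PT.nd (nat_lit 156) (PT.nd (nat_lit 78) (PT.lf (nat_lit 11020) (nat_lit 6) (nat_lit 145) (nat_lit 2) (nat_lit 291) (nat_lit 292) (nat_lit 197)) (PT.lf (nat_lit 10640) (nat_lit 3) (nat_lit 140) (nat_lit 0) (nat_lit 292) (nat_lit 292) (nat_lit 196))) (PT.nd (nat_lit 78) (PT.lf (nat_lit 10260) (nat_lit 6) (nat_lit 135) (nat_lit 0) (nat_lit 293) (nat_lit 292) (nat_lit 195)) (PT.lf (nat_lit 9880) (nat_lit 6) (nat_lit 130) (nat_lit 0) (nat_lit 294) (nat_lit 292) (nat_lit 194)))) (PT.nd (nat_lit 156) (PT.nd (nat_lit 78) (PT.lf (nat_lit 9500) (nat_lit 6) (nat_lit 125) (nat_lit 0) (nat_lit 295) (nat_lit 292) (nat_lit 193)) (PT.lf (nat_lit 9120) (nat_lit 6) (nat_lit 120) (nat_lit 0) (nat_lit 296) (nat_lit 292) (nat_lit 192)))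 (PT.nd (nat_lit 78) (PT.lf (nat_lit 8740) (nat_lit 6) (nat_lit 115) (nat_lit 0) (nat_lit 297) (nat_lit 292) (nat_lit 191)) (PT.nd (nat_lit 78) (PT.lf (nat_lit 8360) (nat_lit 6) (nat_lit 110) (nat_lit 0) (nat_lit 298) (nat_lit 292) (nat_lit 190)) (PT.lf (nat_lit 8056) (nat_lit 6) (nat_lit 106) (nat_lit 0) (nat_lit 299) (nat_lit 292) (nat_lit 189))))))))
noncomputable def pc115 : PT := (PT.nd (nat_lit 1326) (PT.nd (nat_lit 624) (PT.nd (nat_lit 312) (PT.nd (nat_lit 156) (PT.nd (nat_lit 78) (PT.lf (nat_lit 7448) (nat_lit 6) (nat_lit 98) (nat_lit 5) (nat_lit 187) (nat_lit 293) (nat_lit 300)) (PT.lf (nat_lit 7752) (nat_lit 6) (nat_lit 102) (nat_lit 5) (nat_lit 188) (nat_lit 293) (nat_lit 299))) (PT.nd (nat_lit 78) (PT.lf (nat_lit 8132) (nat_lit 6) (nat_lit 107) (nat_lit 5) (nat_lit 189) (nat_lit 293) (nat_lit 298)) (PT.lf (nat_lit 8436) (nat_lit 6) (nat_lit 111) (nat_lit 5) (nat_lit 190) (nat_lit 293) (nat_lit 297)))) (PT.nd (nat_lit 156) (PT.nd (nat_lit 78) (PT.lf (nat_lit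 8816) (nat_lit 6) (nat_lit 116) (nat_lit 5) (nat_lit 191) (nat_lit 293) (nat_lit 296)) (PT.lf (nat_lit 9196) (nat_lit 6) (nat_lit 121) (nat_lit 5) (nat_lit 192) (nat_lit 293) (nat_lit 295))) (PT.nd (nat_lit 78) (PT.lf (nat_lit 9576) (nat_lit 6) (nat_lit 126) (nat_lit 5) (nat_lit 193) (nat_lit 293) (nat_lit 294)) (PT.lf (nat_lit 9956) (nat_lit 3) (nat_lit 131) (nat_lit 4) (nat_lit 194) (nat_lit 293) (nat_lit 293))))) (PT.nd (nat_lit 312) (PT.nd (nat_lit 156) (PT.nd (nat_lit 78) (PT.lf (nat_lit 10260) (nat_lit 6) (nat_lit 135) (nat_lit 4) (nat_lit 195) (nat_lit 293) (nat_lit 292)) (PT.lf (nat_lit 10564) (nat_lit 6) (nat_lit 139) (nat_lit 4) (nat_lit 196) (nat_lit 293) (nat_lit 291))) (PT.nd (nat_lit 78) (PT.lf (nat_lit 10944) (nat_lit 6) (nat_lit 144) (nat_lit 4) (nat_lit 197) (nat_lit 293) (nat_lit 290)) (PT.lf (nat_lit 11248) (nat_lit 6) (nat_lit 148) (nat_lit 4) (nat_lit 198) (nat_lit 293) (nat_lit 289)))) (PT.nd (nat_lit 156) (PT.nd (nat_lit 78) (PT.lf (nat_lit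 11628) (nat_lit 6) (nat_lit 153) (nat_lit 4) (nat_lit 199) (nat_lit 293) (nat_lit 288)) (PT.lf (nat_lit 12008) (nat_lit 6) (nat_lit 158) (nat_lit 4) (nat_lit 200) (nat_lit 293) (nat_lit 287))) (PT.nd (nat_lit 78) (PT.lf (nat_lit 12388) (nat_lit 6) (nat_lit 163) (nat_lit 4) (nat_lit 201) (nat_lit 293) (nat_lit 286)) (PT.nd (nat_lit 78) (PT.lf (nat_lit 12768) (nat_lit 6) (nat_lit 168) (nat_lit 4) (nat_lit 202) (nat_lit 293) (nat_lit 285)) (PT.lf (nat_lit 13148) (nat_lit 6) (nat_lit 173) (nat_lit 4) (nat_lit 203) (nat_lit 293) (nat_lit 284))))))) (PT.nd (nat_lit 6552) (PT.nd (nat_lit 6240) (PT.nd (nat_lit 6084) (PT.nd (nat_lit 78) (PT.lf (nat_lit 13528) (nat_lit 6) (nat_lit 178) (nat_lit 4) (nat_lit 204) (nat_lit 293) (nat_lit 283)) (PT.lf (nat_lit 13984) (nat_lit 6) (nat_lit 184) (nat_lit 4) (nat_lit 205) (nat_lit 293) (nat_lit 282))) (PT.nd (nat_lit 78) (PT.lf (nat_lit 13984) (nat_lit 6) (nat_lit 184) (nat_lit 2) (nat_lit 282) (nat_lit 293) (nat_lit 205)) (PT.lf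 (nat_lit 13528) (nat_lit 6) (nat_lit 178) (nat_lit 2) (nat_lit 283) (nat_lit 293) (nat_lit 204)))) (PT.nd (nat_lit 156) (PT.nd (nat_lit 78) (PT.lf (nat_lit 13148) (nat_lit 6) (nat_lit 173) (nat_lit 2) (nat_lit 284) (nat_lit 293) (nat_lit 203)) (PT.lf (nat_lit 12768) (nat_lit 6) (nat_lit 168) (nat_lit 2) (nat_lit 285) (nat_lit 293) (nat_lit 202))) (PT.nd (nat_lit 78) (PT.lf (nat_lit 12388) (nat_lit 6) (nat_lit 163) (nat_lit 2) (nat_lit 286) (nat_lit 293) (nat_lit 201)) (PT.lf (nat_lit 12008) (nat_lit 6) (nat_lit 158) (nat_lit 2) (nat_lit 287) (nat_lit 293) (nat_lit 200))))) (PT.nd (nat_lit 312) (PT.nd (nat_lit 156) (PT.nd (nat_lit 78) (PT.lf (nat_lit 11628) (nat_lit 6) (nat_lit 153) (nat_lit 2) (nat_lit 288) (nat_lit 293) (nat_lit 199)) (PT.lf (nat_lit 11248) (nat_lit 6) (nat_lit 148) (nat_lit 2) (nat_lit 289) (nat_lit 293) (nat_lit 198))) (PT.nd (nat_lit 78) (PT.lf (nat_lit 10944) (nat_lit 6) (nat_lit 144) (nat_lit 2) (nat_lit 290) (nat_lit 293) (nat_lit 197))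 (PT.lf (nat_lit 10564) (nat_lit 6) (nat_lit 139) (nat_lit 2) (nat_lit 291) (nat_lit 293) (nat_lit 196)))) (PT.nd (nat_lit 156) (PT.nd (nat_lit 78) (PT.lf (nat_lit 10260) (nat_lit 6) (nat_lit 135) (nat_lit 2) (nat_lit 292) (nat_lit 293) (nat_lit 195)) (PT.lf (nat_lit 9956) (nat_lit 3) (nat_lit 131) (nat_lit 0) (nat_lit 293) (nat_lit 293) (nat_lit 194))) (PT.nd (nat_lit 78) (PT.lf (nat_lit 9576) (nat_lit 6) (nat_lit 126) (nat_lit 0) (nat_lit 294) (nat_lit 293) (nat_lit 193)) (PT.nd (nat_lit 78) (PT.lf (nat_lit 9196) (nat_lit 6) (nat_lit 121) (nat_lit 0) (nat_lit 295) (nat_lit 293) (nat_lit 192)) (PT.lf (nat_lit 8816) (nat_lit 6) (nat_lit 116) (nat_lit 0) (nat_lit 296) (nat_lit 293) (nat_lit 191))))))))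
noncomputable def pc116 : PT := (PT.nd (nat_lit 73554) (PT.nd (nat_lit 72852) (PT.nd (nat_lit 72540) (PT.nd (nat_lit 156) (PT.nd (nat_lit 78) (PT.lf (nat_lit 8436) (nat_lit 6) (nat_lit 111) (nat_lit 0) (nat_lit 297) (nat_lit 293) (nat_lit 190)) (PT.lf (nat_lit 8132) (nat_lit 6) (nat_lit 107) (nat_lit 0) (nat_lit 298) (nat_lit 293) (nat_lit 189))) (PT.nd (nat_lit 78) (PT.lf (nat_lit 7752) (nat_lit 6) (nat_lit 102) (nat_lit 0) (nat_lit 299) (nat_lit 293) (nat_lit 188)) (PT.lf (nat_lit 7448) (nat_lit 6) (nat_lit 98) (nat_lit 0) (nat_lit 300) (nat_lit 293) (nat_lit 187)))) (PT.nd (nat_lit 156) (PT.nd (nat_lit 78) (PT.lf (nat_lit 7144) (nat_lit 6) (nat_lit 94) (nat_lit 5) (nat_lit 186) (nat_lit 294) (nat_lit 300)) (PT.lf (nat_lit 7524) (nat_lit 6) (nat_lit 99) (nat_lit 5) (nat_lit 187) (nat_lit 294) (nat_lit 299))) (PT.nd (nat_lit 78) (PT.lf (nat_lit 7828) (nat_lit 6) (nat_lit 103) (nat_lit 5) (nat_lit 188) (nat_lit 294) (nat_lit 298)) (PT.lf (nat_lit 8208) (nat_lit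 6) (nat_lit 108) (nat_lit 5) (nat_lit 189) (nat_lit 294) (nat_lit 297))))) (PT.nd (nat_lit 312) (PT.nd (nat_lit 156) (PT.nd (nat_lit 78) (PT.lf (nat_lit 8512) (nat_lit 6) (nat_lit 112) (nat_lit 5) (nat_lit 190) (nat_lit 294) (nat_lit 296)) (PT.lf (nat_lit 8892) (nat_lit 6) (nat_lit 117) (nat_lit 5) (nat_lit 191) (nat_lit 294) (nat_lit 295))) (PT.nd (nat_lit 78) (PT.lf (nat_lit 9272) (nat_lit 3) (nat_lit 122) (nat_lit 4) (nat_lit 192) (nat_lit 294) (nat_lit 294)) (PT.lf (nat_lit 9576) (nat_lit 6) (nat_lit 126) (nat_lit 4) (nat_lit 193) (nat_lit 294) (nat_lit 293)))) (PT.nd (nat_lit 156) (PT.nd (nat_lit 78) (PT.lf (nat_lit 9880) (nat_lit 6) (nat_lit 130) (nat_lit 4) (nat_lit 194) (nat_lit 294) (nat_lit 292)) (PT.lf (nat_lit 10184) (nat_lit 6) (nat_lit 134) (nat_lit 4) (nat_lit 195) (nat_lit 294) (nat_lit 291))) (PT.nd (nat_lit 78) (PT.lf (nat_lit 10488) (nat_lit 6) (nat_lit 138) (nat_lit 4) (nat_lit 196) (nat_lit 294) (nat_lit 290)) (PT.nd (nat_lit 78) (PT.lf (nat_lit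 10868) (nat_lit 6) (nat_lit 143) (nat_lit 4) (nat_lit 197) (nat_lit 294) (nat_lit 289)) (PT.lf (nat_lit 11172) (nat_lit 6) (nat_lit 147) (nat_lit 4) (nat_lit 198) (nat_lit 294) (nat_lit 288))))))) (PT.nd (nat_lit 6942) (PT.nd (nat_lit 6630) (PT.nd (nat_lit 156) (PT.nd (nat_lit 78) (PT.lf (nat_lit 11552) (nat_lit 6) (nat_lit 152) (nat_lit 4) (nat_lit 199) (nat_lit 294) (nat_lit 287)) (PT.lf (nat_lit 11932) (nat_lit 6) (nat_lit 157) (nat_lit 4) (nat_lit 200) (nat_lit 294) (nat_lit 286))) (PT.nd (nat_lit 78) (PT.lf (nat_lit 12312) (nat_lit 6) (nat_lit 162) (nat_lit 4) (nat_lit 201) (nat_lit 294) (nat_lit 285)) (PT.lf (nat_lit 12692) (nat_lit 6) (nat_lit 167) (nat_lit 4) (nat_lit 202) (nat_lit 294) (nat_lit 284)))) (PT.nd (nat_lit 156) (PT.nd (nat_lit 78) (PT.lf (nat_lit 12692) (nat_lit 6) (nat_lit 167) (nat_lit 2) (nat_lit 284) (nat_lit 294) (nat_lit 202)) (PT.lf (nat_lit 12312) (nat_lit 6) (nat_lit 162) (nat_lit 2) (nat_lit 285) (nat_lit 294) (nat_lit 201))) (PT.nd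 (nat_lit 78) (PT.lf (nat_lit 11932) (nat_lit 6) (nat_lit 157) (nat_lit 2) (nat_lit 286) (nat_lit 294) (nat_lit 200)) (PT.lf (nat_lit 11552) (nat_lit 6) (nat_lit 152) (nat_lit 2) (nat_lit 287) (nat_lit 294) (nat_lit 199))))) (PT.nd (nat_lit 312) (PT.nd (nat_lit 156) (PT.nd (nat_lit 78) (PT.lf (nat_lit 11172) (nat_lit 6) (nat_lit 147) (nat_lit 2) (nat_lit 288) (nat_lit 294) (nat_lit 198)) (PT.lf (nat_lit 10868) (nat_lit 6) (nat_lit 143) (nat_lit 2) (nat_lit 289) (nat_lit 294) (nat_lit 197))) (PT.nd (nat_lit 78) (PT.lf (nat_lit 10488) (nat_lit 6) (nat_lit 138) (nat_lit 2) (nat_lit 290) (nat_lit 294) (nat_lit 196)) (PT.lf (nat_lit 10184) (nat_lit 6) (nat_lit 134) (nat_lit 2) (nat_lit 291) (nat_lit 294) (nat_lit 195)))) (PT.nd (nat_lit 156) (PT.nd (nat_lit 78) (PT.lf (nat_lit 9880) (nat_lit 6) (nat_lit 130) (nat_lit 2) (nat_lit 292) (nat_lit 294) (nat_lit 194)) (PT.lf (nat_lit 9576) (nat_lit 6) (nat_lit 126) (nat_lit 2) (nat_lit 293) (nat_lit 294) (nat_lit 193))) (PT.nd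 (nat_lit 78) (PT.lf (nat_lit 9272) (nat_lit 3) (nat_lit 122) (nat_lit 0) (nat_lit 294) (nat_lit 294) (nat_lit 192)) (PT.nd (nat_lit 78) (PT.lf (nat_lit 8892) (nat_lit 6) (nat_lit 117) (nat_lit 0) (nat_lit 295) (nat_lit 294) (nat_lit 191)) (PT.lf (nat_lit 8512) (nat_lit 6) (nat_lit 112) (nat_lit 0) (nat_lit 296) (nat_lit 294) (nat_lit 190))))))))
noncomputable def pc117 : PT := (PT.nd (nat_lit 73398) (PT.nd (nat_lit 72696) (PT.nd (nat_lit 72384) (PT.nd (nat_lit 156) (PT.nd (nat_lit 78) (PT.lf (nat_lit 8208) (nat_lit 6) (nat_lit 108) (nat_lit 0) (nat_lit 297) (nat_lit 294) (nat_lit 189)) (PT.lf (nat_lit 7828) (nat_lit 6) (nat_lit 103) (nat_lit 0) (nat_lit 298) (nat_lit 294) (nat_lit 188))) (PT.nd (nat_lit 78) (PT.lf (nat_lit 7524) (nat_lit 6) (nat_lit 99) (nat_lit 0) (nat_lit 299) (nat_lit 294) (nat_lit 187)) (PT.lf (nat_lit 7144) (nat_lit 6) (nat_lit 94) (nat_lit 0) (nat_lit 300) (nat_lit 294) (nat_lit 186)))) (PT.nd (nat_lit 156) (PT.nd (nat_lit 78) (PT.lf (nat_lit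 6612) (nat_lit 6) (nat_lit 87) (nat_lit 5) (nat_lit 184) (nat_lit 295) (nat_lit 301)) (PT.lf (nat_lit 6916) (nat_lit 6) (nat_lit 91) (nat_lit 5) (nat_lit 185) (nat_lit 295) (nat_lit 300))) (PT.nd (nat_lit 78) (PT.lf (nat_lit 7220) (nat_lit 6) (nat_lit 95) (nat_lit 5) (nat_lit 186) (nat_lit 295) (nat_lit 299)) (PT.lf (nat_lit 7600) (nat_lit 6) (nat_lit 100) (nat_lit 5) (nat_lit 187) (nat_lit 295) (nat_lit 298))))) (PT.nd (nat_lit 312) (PT.nd (nat_lit 156) (PT.nd (nat_lit 78) (PT.lf (nat_lit 7904) (nat_lit 6) (nat_lit 104) (nat_lit 5) (nat_lit 188) (nat_lit 295) (nat_lit 297)) (PT.lf (nat_lit 8284) (nat_lit 6) (nat_lit 109) (nat_lit 5) (nat_lit 189) (nat_lit 295) (nat_lit 296))) (PT.nd (nat_lit 78) (PT.lf (nat_lit 8588) (nat_lit 3) (nat_lit 113) (nat_lit 4) (nat_lit 190) (nat_lit 295) (nat_lit 295)) (PT.lf (nat_lit 8892) (nat_lit 6) (nat_lit 117) (nat_lit 4) (nat_lit 191) (nat_lit 295) (nat_lit 294)))) (PT.nd (nat_lit 156) (PT.nd (nat_lit 78) (PT.lf (nat_lit 9196)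 (nat_lit 6) (nat_lit 121) (nat_lit 4) (nat_lit 192) (nat_lit 295) (nat_lit 293)) (PT.lf (nat_lit 9500) (nat_lit 6) (nat_lit 125) (nat_lit 4) (nat_lit 193) (nat_lit 295) (nat_lit 292))) (PT.nd (nat_lit 78) (PT.lf (nat_lit 9804) (nat_lit 6) (nat_lit 129) (nat_lit 4) (nat_lit 194) (nat_lit 295) (nat_lit 291)) (PT.nd (nat_lit 78) (PT.lf (nat_lit 10108) (nat_lit 6) (nat_lit 133) (nat_lit 4) (nat_lit 195) (nat_lit 295) (nat_lit 290)) (PT.lf (nat_lit 10412) (nat_lit 6) (nat_lit 137) (nat_lit 4) (nat_lit 196) (nat_lit 295) (nat_lit 289))))))) (PT.nd (nat_lit 7332) (PT.nd (nat_lit 7020) (PT.nd (nat_lit 156) (PT.nd (nat_lit 78) (PT.lf (nat_lit 10792) (nat_lit 6) (nat_lit 142) (nat_lit 4) (nat_lit 197) (nat_lit 295) (nat_lit 288)) (PT.lf (nat_lit 11096) (nat_lit 6) (nat_lit 146) (nat_lit 4) (nat_lit 198) (nat_lit 295) (nat_lit 287))) (PT.nd (nat_lit 6786) (PT.lf (nat_lit 11476) (nat_lit 6) (nat_lit 151) (nat_lit 4) (nat_lit 199) (nat_lit 295) (nat_lit 286)) (PT.lf (nat_lit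 11476) (nat_lit 6) (nat_lit 151) (nat_lit 2) (nat_lit 286) (nat_lit 295) (nat_lit 199)))) (PT.nd (nat_lit 156) (PT.nd (nat_lit 78) (PT.lf (nat_lit 11096) (nat_lit 6) (nat_lit 146) (nat_lit 2) (nat_lit 287) (nat_lit 295) (nat_lit 198)) (PT.lf (nat_lit 10792) (nat_lit 6) (nat_lit 142) (nat_lit 2) (nat_lit 288) (nat_lit 295) (nat_lit 197))) (PT.nd (nat_lit 78) (PT.lf (nat_lit 10412) (nat_lit 6) (nat_lit 137) (nat_lit 2) (nat_lit 289) (nat_lit 295) (nat_lit 196)) (PT.lf (nat_lit 10108) (nat_lit 6) (nat_lit 133) (nat_lit 2) (nat_lit 290) (nat_lit 295) (nat_lit 195))))) (PT.nd (nat_lit 312) (PT.nd (nat_lit 156) (PT.nd (nat_lit 78) (PT.lf (nat_lit 9804) (nat_lit 6) (nat_lit 129) (nat_lit 2) (nat_lit 291) (nat_lit 295) (nat_lit 194)) (PT.lf (nat_lit 9500) (nat_lit 6) (nat_lit 125) (nat_lit 2) (nat_lit 292) (nat_lit 295) (nat_lit 193))) (PT.nd (nat_lit 78) (PT.lf (nat_lit 9196) (nat_lit 6) (nat_lit 121) (nat_lit 2) (nat_lit 293) (nat_lit 295) (nat_lit 192)) (PT.lf (nat_lit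 8892) (nat_lit 6) (nat_lit 117) (nat_lit 2) (nat_lit 294) (nat_lit 295) (nat_lit 191)))) (PT.nd (nat_lit 156) (PT.nd (nat_lit 78) (PT.lf (nat_lit 8588) (nat_lit 3) (nat_lit 113) (nat_lit 0) (nat_lit 295) (nat_lit 295) (nat_lit 190)) (PT.lf (nat_lit 8284) (nat_lit 6) (nat_lit 109) (nat_lit 0) (nat_lit 296) (nat_lit 295) (nat_lit 189))) (PT.nd (nat_lit 78) (PT.lf (nat_lit 7904) (nat_lit 6) (nat_lit 104) (nat_lit 0) (nat_lit 297) (nat_lit 295) (nat_lit 188)) (PT.nd (nat_lit 78) (PT.lf (nat_lit 7600) (nat_lit 6) (nat_lit 100) (nat_lit 0) (nat_lit 298) (nat_lit 295) (nat_lit 187)) (PT.lf (nat_lit 7220) (nat_lit 6) (nat_lit 95) (nat_lit 0) (nat_lit 299) (nat_lit 295) (nat_lit 186))))))))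
noncomputable def pc118 : PT := (PT.nd (nat_lit 73164) (PT.nd (nat_lit 72462) (PT.nd (nat_lit 72150) (PT.nd (nat_lit 71994) (PT.nd (nat_lit 78) (PT.lf (nat_lit 6916) (nat_lit 6) (nat_lit 91) (nat_lit 0) (nat_lit 300) (nat_lit 295) (nat_lit 185)) (PT.lf (nat_lit 6612) (nat_lit 6) (nat_lit 87) (nat_lit 0) (nat_lit 301) (nat_lit 295) (nat_lit 184))) (PT.nd (nat_lit 78) (PT.lf (nat_lit 6080) (nat_lit 6) (nat_lit 80) (nat_lit 5) (nat_lit 182) (nat_lit 296) (nat_lit 302)) (PT.lf (nat_lit 6384) (nat_lit 6) (nat_lit 84) (nat_lit 5) (nat_lit 183) (nat_lit 296) (nat_lit 301)))) (PT.nd (nat_lit 156) (PT.nd (nat_lit 78) (PT.lf (nat_lit 6688) (nat_lit 6) (nat_lit 88) (nat_lit 5) (nat_lit 184) (nat_lit 296) (nat_lit 300)) (PT.lf (nat_lit 6992) (nat_lit 6) (nat_lit 92) (nat_lit 5) (nat_lit 185) (nat_lit 296) (nat_lit 299))) (PT.nd (nat_lit 78) (PT.lf (nat_lit 7296) (nat_lit 6) (nat_lit 96) (nat_lit 5) (nat_lit 186) (nat_lit 296) (nat_lit 298)) (PT.lf (nat_lit 7676) (nat_lit 6)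 (nat_lit 101) (nat_lit 5) (nat_lit 187) (nat_lit 296) (nat_lit 297))))) (PT.nd (nat_lit 312) (PT.nd (nat_lit 156) (PT.nd (nat_lit 78) (PT.lf (nat_lit 7980) (nat_lit 3) (nat_lit 105) (nat_lit 4) (nat_lit 188) (nat_lit 296) (nat_lit 296)) (PT.lf (nat_lit 8284) (nat_lit 6) (nat_lit 109) (nat_lit 4) (nat_lit 189) (nat_lit 296) (nat_lit 295))) (PT.nd (nat_lit 78) (PT.lf (nat_lit 8512) (nat_lit 6) (nat_lit 112) (nat_lit 4) (nat_lit 190) (nat_lit 296) (nat_lit 294)) (PT.lf (nat_lit 8816) (nat_lit 6) (nat_lit 116) (nat_lit 4) (nat_lit 191) (nat_lit 296) (nat_lit 293)))) (PT.nd (nat_lit 156) (PT.nd (nat_lit 78) (PT.lf (nat_lit 9120) (nat_lit 6) (nat_lit 120) (nat_lit 4) (nat_lit 192) (nat_lit 296) (nat_lit 292)) (PT.lf (nat_lit 9424) (nat_lit 6) (nat_lit 124) (nat_lit 4) (nat_lit 193) (nat_lit 296) (nat_lit 291))) (PT.nd (nat_lit 78) (PT.lf (nat_lit 9728) (nat_lit 6) (nat_lit 128) (nat_lit 4) (nat_lit 194) (nat_lit 296) (nat_lit 290)) (PT.nd (nat_lit 78) (PT.lf (nat_lit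 10032) (nat_lit 6) (nat_lit 132) (nat_lit 4) (nat_lit 195) (nat_lit 296) (nat_lit 289)) (PT.lf (nat_lit 10336) (nat_lit 6) (nat_lit 136) (nat_lit 4) (nat_lit 196) (nat_lit 296) (nat_lit 288))))))) (PT.nd (nat_lit 7566) (PT.nd (nat_lit 7254) (PT.nd (nat_lit 7098) (PT.nd (nat_lit 7020) (PT.lf (nat_lit 10716) (nat_lit 6) (nat_lit 141) (nat_lit 4) (nat_lit 197) (nat_lit 296) (nat_lit 287)) (PT.lf (nat_lit 10716) (nat_lit 6) (nat_lit 141) (nat_lit 2) (nat_lit 287) (nat_lit 296) (nat_lit 197))) (PT.nd (nat_lit 78) (PT.lf (nat_lit 10336) (nat_lit 6) (nat_lit 136) (nat_lit 2) (nat_lit 288) (nat_lit 296) (nat_lit 196)) (PT.lf (nat_lit 10032) (nat_lit 6) (nat_lit 132) (nat_lit 2) (nat_lit 289) (nat_lit 296) (nat_lit 195)))) (PT.nd (nat_lit 156) (PT.nd (nat_lit 78) (PT.lf (nat_lit 9728) (nat_lit 6) (nat_lit 128) (nat_lit 2) (nat_lit 290) (nat_lit 296) (nat_lit 194)) (PT.lf (nat_lit 9424) (nat_lit 6) (nat_lit 124) (nat_lit 2) (nat_lit 291) (nat_lit 296) (nat_lit 193))) (PT.nd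 (nat_lit 78) (PT.lf (nat_lit 9120) (nat_lit 6) (nat_lit 120) (nat_lit 2) (nat_lit 292) (nat_lit 296) (nat_lit 192)) (PT.lf (nat_lit 8816) (nat_lit 6) (nat_lit 116) (nat_lit 2) (nat_lit 293) (nat_lit 296) (nat_lit 191))))) (PT.nd (nat_lit 312) (PT.nd (nat_lit 156) (PT.nd (nat_lit 78) (PT.lf (nat_lit 8512) (nat_lit 6) (nat_lit 112) (nat_lit 2) (nat_lit 294) (nat_lit 296) (nat_lit 190)) (PT.lf (nat_lit 8284) (nat_lit 6) (nat_lit 109) (nat_lit 2) (nat_lit 295) (nat_lit 296) (nat_lit 189))) (PT.nd (nat_lit 78) (PT.lf (nat_lit 7980) (nat_lit 3) (nat_lit 105) (nat_lit 0) (nat_lit 296) (nat_lit 296) (nat_lit 188)) (PT.lf (nat_lit 7676) (nat_lit 6) (nat_lit 101) (nat_lit 0) (nat_lit 297) (nat_lit 296) (nat_lit 187)))) (PT.nd (nat_lit 156) (PT.nd (nat_lit 78) (PT.lf (nat_lit 7296) (nat_lit 6) (nat_lit 96) (nat_lit 0) (nat_lit 298) (nat_lit 296) (nat_lit 186)) (PT.lf (nat_lit 6992) (nat_lit 6) (nat_lit 92) (nat_lit 0) (nat_lit 299) (nat_lit 296) (nat_lit 185))) (PT.nd (nat_lit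 78) (PT.lf (nat_lit 6688) (nat_lit 6) (nat_lit 88) (nat_lit 0) (nat_lit 300) (nat_lit 296) (nat_lit 184)) (PT.nd (nat_lit 78) (PT.lf (nat_lit 6384) (nat_lit 6) (nat_lit 84) (nat_lit 0) (nat_lit 301) (nat_lit 296) (nat_lit 183)) (PT.lf (nat_lit 6080) (nat_lit 6) (nat_lit 80) (nat_lit 0) (nat_lit 302) (nat_lit 296) (nat_lit 182))))))))
noncomputable def pc119 : PT := (PT.nd (nat_lit 8658) (PT.nd (nat_lit 624) (PT.nd (nat_lit 312) (PT.nd (nat_lit 156) (PT.nd (nat_lit 78) (PT.lf (nat_lit 5852) (nat_lit 6) (nat_lit 77) (nat_lit 5) (nat_lit 181) (nat_lit 297) (nat_lit 302)) (PT.lf (nat_lit 6156) (nat_lit 6) (nat_lit 81) (nat_lit 5) (nat_lit 182) (nat_lit 297) (nat_lit 301))) (PT.nd (nat_lit 78) (PT.lf (nat_lit 6460) (nat_lit 6) (nat_lit 85) (nat_lit 5) (nat_lit 183) (nat_lit 297) (nat_lit 300)) (PT.lf (nat_lit 6764) (nat_lit 6) (nat_lit 89) (nat_lit 5) (nat_lit 184) (nat_lit 297) (nat_lit 299)))) (PT.nd (nat_lit 156) (PT.nd (nat_lit 78) (PT.lf (nat_lit 7068) (nat_lit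 6) (nat_lit 93) (nat_lit 5) (nat_lit 185) (nat_lit 297) (nat_lit 298)) (PT.lf (nat_lit 7372) (nat_lit 3) (nat_lit 97) (nat_lit 4) (nat_lit 186) (nat_lit 297) (nat_lit 297))) (PT.nd (nat_lit 78) (PT.lf (nat_lit 7676) (nat_lit 6) (nat_lit 101) (nat_lit 4) (nat_lit 187) (nat_lit 297) (nat_lit 296)) (PT.lf (nat_lit 7904) (nat_lit 6) (nat_lit 104) (nat_lit 4) (nat_lit 188) (nat_lit 297) (nat_lit 295))))) (PT.nd (nat_lit 312) (PT.nd (nat_lit 156) (PT.nd (nat_lit 78) (PT.lf (nat_lit 8208) (nat_lit 6) (nat_lit 108) (nat_lit 4) (nat_lit 189) (nat_lit 297) (nat_lit 294)) (PT.lf (nat_lit 8436) (nat_lit 6) (nat_lit 111) (nat_lit 4) (nat_lit 190) (nat_lit 297) (nat_lit 293))) (PT.nd (nat_lit 78) (PT.lf (nat_lit 8740) (nat_lit 6) (nat_lit 115) (nat_lit 4) (nat_lit 191) (nat_lit 297) (nat_lit 292)) (PT.lf (nat_lit 9044) (nat_lit 6) (nat_lit 119) (nat_lit 4) (nat_lit 192) (nat_lit 297) (nat_lit 291)))) (PT.nd (nat_lit 7488) (PT.nd (nat_lit 78) (PT.lf (nat_lit 9348) (nat_lit 6)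 (nat_lit 123) (nat_lit 4) (nat_lit 193) (nat_lit 297) (nat_lit 290)) (PT.lf (nat_lit 9652) (nat_lit 6) (nat_lit 127) (nat_lit 4) (nat_lit 194) (nat_lit 297) (nat_lit 289))) (PT.nd (nat_lit 78) (PT.lf (nat_lit 9652) (nat_lit 6) (nat_lit 127) (nat_lit 2) (nat_lit 289) (nat_lit 297) (nat_lit 194)) (PT.nd (nat_lit 78) (PT.lf (nat_lit 9348) (nat_lit 6) (nat_lit 123) (nat_lit 2) (nat_lit 290) (nat_lit 297) (nat_lit 193)) (PT.lf (nat_lit 9044) (nat_lit 6) (nat_lit 119) (nat_lit 2) (nat_lit 291) (nat_lit 297) (nat_lit 192))))))) (PT.nd (nat_lit 624) (PT.nd (nat_lit 312) (PT.nd (nat_lit 156) (PT.nd (nat_lit 78) (PT.lf (nat_lit 8740) (nat_lit 6) (nat_lit 115) (nat_lit 2) (nat_lit 292) (nat_lit 297) (nat_lit 191)) (PT.lf (nat_lit 8436) (nat_lit 6) (nat_lit 111) (nat_lit 2) (nat_lit 293) (nat_lit 297) (nat_lit 190))) (PT.nd (nat_lit 78) (PT.lf (nat_lit 8208) (nat_lit 6) (nat_lit 108) (nat_lit 2) (nat_lit 294) (nat_lit 297) (nat_lit 189)) (PT.lf (nat_lit 7904) (nat_lit 6) (nat_lit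 104) (nat_lit 2) (nat_lit 295) (nat_lit 297) (nat_lit 188)))) (PT.nd (nat_lit 156) (PT.nd (nat_lit 78) (PT.lf (nat_lit 7676) (nat_lit 6) (nat_lit 101) (nat_lit 2) (nat_lit 296) (nat_lit 297) (nat_lit 187)) (PT.lf (nat_lit 7372) (nat_lit 3) (nat_lit 97) (nat_lit 0) (nat_lit 297) (nat_lit 297) (nat_lit 186))) (PT.nd (nat_lit 78) (PT.lf (nat_lit 7068) (nat_lit 6) (nat_lit 93) (nat_lit 0) (nat_lit 298) (nat_lit 297) (nat_lit 185)) (PT.lf (nat_lit 6764) (nat_lit 6) (nat_lit 89) (nat_lit 0) (nat_lit 299) (nat_lit 297) (nat_lit 184))))) (PT.nd (nat_lit 71838) (PT.nd (nat_lit 156) (PT.nd (nat_lit 78) (PT.lf (nat_lit 6460) (nat_lit 6) (nat_lit 85) (nat_lit 0) (nat_lit 300) (nat_lit 297) (nat_lit 183)) (PT.lf (nat_lit 6156) (nat_lit 6) (nat_lit 81) (nat_lit 0) (nat_lit 301) (nat_lit 297) (nat_lit 182))) (PT.nd (nat_lit 71604) (PT.lf (nat_lit 5852) (nat_lit 6) (nat_lit 77) (nat_lit 0) (nat_lit 302) (nat_lit 297) (nat_lit 181)) (PT.lf (nat_lit 5320) (nat_lit 6) (nat_lit 70)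 (nat_lit 5) (nat_lit 179) (nat_lit 298) (nat_lit 303)))) (PT.nd (nat_lit 156) (PT.nd (nat_lit 78) (PT.lf (nat_lit 5624) (nat_lit 6) (nat_lit 74) (nat_lit 5) (nat_lit 180) (nat_lit 298) (nat_lit 302)) (PT.lf (nat_lit 5928) (nat_lit 6) (nat_lit 78) (nat_lit 5) (nat_lit 181) (nat_lit 298) (nat_lit 301))) (PT.nd (nat_lit 78) (PT.lf (nat_lit 6232) (nat_lit 6) (nat_lit 82) (nat_lit 5) (nat_lit 182) (nat_lit 298) (nat_lit 300)) (PT.nd (nat_lit 78) (PT.lf (nat_lit 6536) (nat_lit 6) (nat_lit 86) (nat_lit 5) (nat_lit 183) (nat_lit 298) (nat_lit 299)) (PT.lf (nat_lit 6840) (nat_lit 3) (nat_lit 90) (nat_lit 4) (nat_lit 184) (nat_lit 298) (nat_lit 298))))))))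
noncomputable def pc120 : PT := (PT.nd (nat_lit 8892) (PT.nd (nat_lit 8190) (PT.nd (nat_lit 312) (PT.nd (nat_lit 156) (PT.nd (nat_lit 78) (PT.lf (nat_lit 7068) (nat_lit 6) (nat_lit 93) (nat_lit 4) (nat_lit 185) (nat_lit 298) (nat_lit 297)) (PT.lf (nat_lit 7296) (nat_lit 6) (nat_lit 96) (nat_lit 4) (nat_lit 186) (nat_lit 298) (nat_lit 296))) (PT.nd (nat_lit 78) (PT.lf (nat_lit 7600) (nat_lit 6) (nat_lit 100) (nat_lit 4) (nat_lit 187) (nat_lit 298) (nat_lit 295)) (PT.lf (nat_lit 7828) (nat_lit 6) (nat_lit 103) (nat_lit 4) (nat_lit 188) (nat_lit 298) (nat_lit 294)))) (PT.nd (nat_lit 156) (PT.nd (nat_lit 78) (PT.lf (nat_lit 8132) (nat_lit 6) (nat_lit 107) (nat_lit 4) (nat_lit 189) (nat_lit 298) (nat_lit 293)) (PT.lf (nat_lit 8360) (nat_lit 6) (nat_lit 110) (nat_lit 4) (nat_lit 190) (nat_lit 298) (nat_lit 292))) (PT.nd (nat_lit 78) (PT.lf (nat_lit 8664) (nat_lit 6) (nat_lit 114) (nat_lit 4) (nat_lit 191) (nat_lit 298) (nat_lit 291)) (PT.lf (nat_lit 8968) (nat_lit 6)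 (nat_lit 118) (nat_lit 4) (nat_lit 192) (nat_lit 298) (nat_lit 290))))) (PT.nd (nat_lit 312) (PT.nd (nat_lit 156) (PT.nd (nat_lit 78) (PT.lf (nat_lit 8968) (nat_lit 6) (nat_lit 118) (nat_lit 2) (nat_lit 290) (nat_lit 298) (nat_lit 192)) (PT.lf (nat_lit 8664) (nat_lit 6) (nat_lit 114) (nat_lit 2) (nat_lit 291) (nat_lit 298) (nat_lit 191))) (PT.nd (nat_lit 78) (PT.lf (nat_lit 8360) (nat_lit 6) (nat_lit 110) (nat_lit 2) (nat_lit 292) (nat_lit 298) (nat_lit 190)) (PT.lf (nat_lit 8132) (nat_lit 6) (nat_lit 107) (nat_lit 2) (nat_lit 293) (nat_lit 298) (nat_lit 189)))) (PT.nd (nat_lit 156) (PT.nd (nat_lit 78) (PT.lf (nat_lit 7828) (nat_lit 6) (nat_lit 103) (nat_lit 2) (nat_lit 294) (nat_lit 298) (nat_lit 188)) (PT.lf (nat_lit 7600) (nat_lit 6) (nat_lit 100) (nat_lit 2) (nat_lit 295) (nat_lit 298) (nat_lit 187))) (PT.nd (nat_lit 78) (PT.lf (nat_lit 7296) (nat_lit 6) (nat_lit 96) (nat_lit 2) (nat_lit 296) (nat_lit 298) (nat_lit 186)) (PT.nd (nat_lit 78) (PT.lf (nat_lit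 7068) (nat_lit 6) (nat_lit 93) (nat_lit 2) (nat_lit 297) (nat_lit 298) (nat_lit 185)) (PT.lf (nat_lit 6840) (nat_lit 3) (nat_lit 90) (nat_lit 0) (nat_lit 298) (nat_lit 298) (nat_lit 184))))))) (PT.nd (nat_lit 71916) (PT.nd (nat_lit 312) (PT.nd (nat_lit 156) (PT.nd (nat_lit 78) (PT.lf (nat_lit 6536) (nat_lit 6) (nat_lit 86) (nat_lit 0) (nat_lit 299) (nat_lit 298) (nat_lit 183)) (PT.lf (nat_lit 6232) (nat_lit 6) (nat_lit 82) (nat_lit 0) (nat_lit 300) (nat_lit 298) (nat_lit 182))) (PT.nd (nat_lit 78) (PT.lf (nat_lit 5928) (nat_lit 6) (nat_lit 78) (nat_lit 0) (nat_lit 301) (nat_lit 298) (nat_lit 181)) (PT.lf (nat_lit 5624) (nat_lit 6) (nat_lit 74) (nat_lit 0) (nat_lit 302) (nat_lit 298) (nat_lit 180)))) (PT.nd (nat_lit 71448) (PT.nd (nat_lit 71370) (PT.lf (nat_lit 5320) (nat_lit 6) (nat_lit 70) (nat_lit 0) (nat_lit 303) (nat_lit 298) (nat_lit 179)) (PT.lf (nat_lit 4864) (nat_lit 6) (nat_lit 64) (nat_lit 5) (nat_lit 177) (nat_lit 299) (nat_lit 304))) (PT.nd (nat_lit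 78) (PT.lf (nat_lit 5092) (nat_lit 6) (nat_lit 67) (nat_lit 5) (nat_lit 178) (nat_lit 299) (nat_lit 303)) (PT.lf (nat_lit 5396) (nat_lit 6) (nat_lit 71) (nat_lit 5) (nat_lit 179) (nat_lit 299) (nat_lit 302))))) (PT.nd (nat_lit 312) (PT.nd (nat_lit 156) (PT.nd (nat_lit 78) (PT.lf (nat_lit 5700) (nat_lit 6) (nat_lit 75) (nat_lit 5) (nat_lit 180) (nat_lit 299) (nat_lit 301)) (PT.lf (nat_lit 6004) (nat_lit 6) (nat_lit 79) (nat_lit 5) (nat_lit 181) (nat_lit 299) (nat_lit 300))) (PT.nd (nat_lit 78) (PT.lf (nat_lit 6308) (nat_lit 3) (nat_lit 83) (nat_lit 4) (nat_lit 182) (nat_lit 299) (nat_lit 299)) (PT.lf (nat_lit 6536) (nat_lit 6) (nat_lit 86) (nat_lit 4) (nat_lit 183) (nat_lit 299) (nat_lit 298)))) (PT.nd (nat_lit 156) (PT.nd (nat_lit 78) (PT.lf (nat_lit 6764) (nat_lit 6) (nat_lit 89) (nat_lit 4) (nat_lit 184) (nat_lit 299) (nat_lit 297)) (PT.lf (nat_lit 6992) (nat_lit 6) (nat_lit 92) (nat_lit 4) (nat_lit 185) (nat_lit 299) (nat_lit 296))) (PT.nd (nat_lit 78) (PT.lf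 (nat_lit 7220) (nat_lit 6) (nat_lit 95) (nat_lit 4) (nat_lit 186) (nat_lit 299) (nat_lit 295)) (PT.nd (nat_lit 78) (PT.lf (nat_lit 7524) (nat_lit 6) (nat_lit 99) (nat_lit 4) (nat_lit 187) (nat_lit 299) (nat_lit 294)) (PT.lf (nat_lit 7752) (nat_lit 6) (nat_lit 102) (nat_lit 4) (nat_lit 188) (nat_lit 299) (nat_lit 293))))))))
noncomputable def pc121 : PT := (PT.nd (nat_lit 80418) (PT.nd (nat_lit 8580) (PT.nd (nat_lit 8268) (PT.nd (nat_lit 8112) (PT.nd (nat_lit 8034) (PT.lf (nat_lit 8056) (nat_lit 6) (nat_lit 106) (nat_lit 4) (nat_lit 189) (nat_lit 299) (nat_lit 292)) (PT.lf (nat_lit 8056) (nat_lit 6) (nat_lit 106) (nat_lit 2) (nat_lit 292) (nat_lit 299) (nat_lit 189))) (PT.nd (nat_lit 78) (PT.lf (nat_lit 7752) (nat_lit 6) (nat_lit 102) (nat_lit 2) (nat_lit 293) (nat_lit 299) (nat_lit 188)) (PT.lf (nat_lit 7524) (nat_lit 6) (nat_lit 99) (nat_lit 2) (nat_lit 294) (nat_lit 299) (nat_lit 187)))) (PT.nd (nat_lit 156) (PT.nd (nat_lit 78) (PT.lf (nat_lit 7220) (nat_lit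 6) (nat_lit 95) (nat_lit 2) (nat_lit 295) (nat_lit 299) (nat_lit 186)) (PT.lf (nat_lit 6992) (nat_lit 6) (nat_lit 92) (nat_lit 2) (nat_lit 296) (nat_lit 299) (nat_lit 185))) (PT.nd (nat_lit 78) (PT.lf (nat_lit 6764) (nat_lit 6) (nat_lit 89) (nat_lit 2) (nat_lit 297) (nat_lit 299) (nat_lit 184)) (PT.lf (nat_lit 6536) (nat_lit 6) (nat_lit 86) (nat_lit 2) (nat_lit 298) (nat_lit 299) (nat_lit 183))))) (PT.nd (nat_lit 312) (PT.nd (nat_lit 156) (PT.nd (nat_lit 78) (PT.lf (nat_lit 6308) (nat_lit 3) (nat_lit 83) (nat_lit 0) (nat_lit 299) (nat_lit 299) (nat_lit 182)) (PT.lf (nat_lit 6004) (nat_lit 6) (nat_lit 79) (nat_lit 0) (nat_lit 300) (nat_lit 299) (nat_lit 181))) (PT.nd (nat_lit 78) (PT.lf (nat_lit 5700) (nat_lit 6) (nat_lit 75) (nat_lit 0) (nat_lit 301) (nat_lit 299) (nat_lit 180)) (PT.lf (nat_lit 5396) (nat_lit 6) (nat_lit 71) (nat_lit 0) (nat_lit 302) (nat_lit 299) (nat_lit 179)))) (PT.nd (nat_lit 71292) (PT.nd (nat_lit 78) (PT.lf (nat_lit 5092) (nat_lit 6) (nat_lit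 67) (nat_lit 0) (nat_lit 303) (nat_lit 299) (nat_lit 178)) (PT.lf (nat_lit 4864) (nat_lit 6) (nat_lit 64) (nat_lit 0) (nat_lit 304) (nat_lit 299) (nat_lit 177))) (PT.nd (nat_lit 78) (PT.lf (nat_lit 4636) (nat_lit 6) (nat_lit 61) (nat_lit 5) (nat_lit 176) (nat_lit 300) (nat_lit 304)) (PT.nd (nat_lit 78) (PT.lf (nat_lit 4940) (nat_lit 6) (nat_lit 65) (nat_lit 5) (nat_lit 177) (nat_lit 300) (nat_lit 303)) (PT.lf (nat_lit 5168) (nat_lit 6) (nat_lit 68) (nat_lit 5) (nat_lit 178) (nat_lit 300) (nat_lit 302))))))) (PT.nd (nat_lit 624) (PT.nd (nat_lit 312) (PT.nd (nat_lit 156) (PT.nd (nat_lit 78) (PT.lf (nat_lit 5472) (nat_lit 6) (nat_lit 72) (nat_lit 5) (nat_lit 179) (nat_lit 300) (nat_lit 301)) (PT.lf (nat_lit 5776) (nat_lit 3) (nat_lit 76) (nat_lit 4) (nat_lit 180) (nat_lit 300) (nat_lit 300))) (PT.nd (nat_lit 78) (PT.lf (nat_lit 6004) (nat_lit 6) (nat_lit 79) (nat_lit 4) (nat_lit 181) (nat_lit 300) (nat_lit 299)) (PT.lf (nat_lit 6232) (nat_lit 6) (nat_lit 82) (nat_lit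 4) (nat_lit 182) (nat_lit 300) (nat_lit 298)))) (PT.nd (nat_lit 156) (PT.nd (nat_lit 78) (PT.lf (nat_lit 6460) (nat_lit 6) (nat_lit 85) (nat_lit 4) (nat_lit 183) (nat_lit 300) (nat_lit 297)) (PT.lf (nat_lit 6688) (nat_lit 6) (nat_lit 88) (nat_lit 4) (nat_lit 184) (nat_lit 300) (nat_lit 296))) (PT.nd (nat_lit 78) (PT.lf (nat_lit 6916) (nat_lit 6) (nat_lit 91) (nat_lit 4) (nat_lit 185) (nat_lit 300) (nat_lit 295)) (PT.lf (nat_lit 7144) (nat_lit 6) (nat_lit 94) (nat_lit 4) (nat_lit 186) (nat_lit 300) (nat_lit 294))))) (PT.nd (nat_lit 8502) (PT.nd (nat_lit 8346) (PT.nd (nat_lit 8268) (PT.lf (nat_lit 7448) (nat_lit 6) (nat_lit 98) (nat_lit 4) (nat_lit 187) (nat_lit 300) (nat_lit 293)) (PT.lf (nat_lit 7448) (nat_lit 6) (nat_lit 98) (nat_lit 2) (nat_lit 293) (nat_lit 300) (nat_lit 187))) (PT.nd (nat_lit 78) (PT.lf (nat_lit 7144) (nat_lit 6) (nat_lit 94) (nat_lit 2) (nat_lit 294) (nat_lit 300) (nat_lit 186)) (PT.lf (nat_lit 6916) (nat_lit 6) (nat_lit 91) (nat_lit 2) (nat_lit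 295) (nat_lit 300) (nat_lit 185)))) (PT.nd (nat_lit 156) (PT.nd (nat_lit 78) (PT.lf (nat_lit 6688) (nat_lit 6) (nat_lit 88) (nat_lit 2) (nat_lit 296) (nat_lit 300) (nat_lit 184)) (PT.lf (nat_lit 6460) (nat_lit 6) (nat_lit 85) (nat_lit 2) (nat_lit 297) (nat_lit 300) (nat_lit 183))) (PT.nd (nat_lit 78) (PT.lf (nat_lit 6232) (nat_lit 6) (nat_lit 82) (nat_lit 2) (nat_lit 298) (nat_lit 300) (nat_lit 182)) (PT.nd (nat_lit 78) (PT.lf (nat_lit 6004) (nat_lit 6) (nat_lit 79) (nat_lit 2) (nat_lit 299) (nat_lit 300) (nat_lit 181)) (PT.lf (nat_lit 5776) (nat_lit 3) (nat_lit 76) (nat_lit 0) (nat_lit 300) (nat_lit 300) (nat_lit 180))))))))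
noncomputable def pc122 : PT := (PT.nd (nat_lit 80886) (PT.nd (nat_lit 71604) (PT.nd (nat_lit 71292) (PT.nd (nat_lit 156) (PT.nd (nat_lit 78) (PT.lf (nat_lit 5472) (nat_lit 6) (nat_lit 72) (nat_lit 0) (nat_lit 301) (nat_lit 300) (nat_lit 179)) (PT.lf (nat_lit 5168) (nat_lit 6) (nat_lit 68) (nat_lit 0) (nat_lit 302) (nat_lit 300) (nat_lit 178))) (PT.nd (nat_lit 78) (PT.lf (nat_lit 4940) (nat_lit 6) (nat_lit 65) (nat_lit 0) (nat_lit 303) (nat_lit 300) (nat_lit 177)) (PT.lf (nat_lit 4636) (nat_lit 6) (nat_lit 61) (nat_lit 0) (nat_lit 304) (nat_lit 300) (nat_lit 176)))) (PT.nd (nat_lit 156) (PT.nd (nat_lit 78) (PT.lf (nat_lit 4180) (nat_lit 6) (nat_lit 55) (nat_lit 5) (nat_lit 174) (nat_lit 301) (nat_lit 305)) (PT.lf (nat_lit 4484) (nat_lit 6) (nat_lit 59) (nat_lit 5) (nat_lit 175) (nat_lit 301) (nat_lit 304))) (PT.nd (nat_lit 78) (PT.lf (nat_lit 4712) (nat_lit 6) (nat_lit 62) (nat_lit 5) (nat_lit 176) (nat_lit 301) (nat_lit 303)) (PT.lf (nat_lit 5016) (nat_lit 6)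 (nat_lit 66) (nat_lit 5) (nat_lit 177) (nat_lit 301) (nat_lit 302))))) (PT.nd (nat_lit 312) (PT.nd (nat_lit 156) (PT.nd (nat_lit 78) (PT.lf (nat_lit 5244) (nat_lit 3) (nat_lit 69) (nat_lit 4) (nat_lit 178) (nat_lit 301) (nat_lit 301)) (PT.lf (nat_lit 5472) (nat_lit 6) (nat_lit 72) (nat_lit 4) (nat_lit 179) (nat_lit 301) (nat_lit 300))) (PT.nd (nat_lit 78) (PT.lf (nat_lit 5700) (nat_lit 6) (nat_lit 75) (nat_lit 4) (nat_lit 180) (nat_lit 301) (nat_lit 299)) (PT.lf (nat_lit 5928) (nat_lit 6) (nat_lit 78) (nat_lit 4) (nat_lit 181) (nat_lit 301) (nat_lit 298)))) (PT.nd (nat_lit 156) (PT.nd (nat_lit 78) (PT.lf (nat_lit 6156) (nat_lit 6) (nat_lit 81) (nat_lit 4) (nat_lit 182) (nat_lit 301) (nat_lit 297)) (PT.lf (nat_lit 6384) (nat_lit 6) (nat_lit 84) (nat_lit 4) (nat_lit 183) (nat_lit 301) (nat_lit 296))) (PT.nd (nat_lit 8658) (PT.lf (nat_lit 6612) (nat_lit 6) (nat_lit 87) (nat_lit 4) (nat_lit 184) (nat_lit 301) (nat_lit 295)) (PT.nd (nat_lit 78) (PT.lf (nat_lit 6612)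 (nat_lit 6) (nat_lit 87) (nat_lit 2) (nat_lit 295) (nat_lit 301) (nat_lit 184)) (PT.lf (nat_lit 6384) (nat_lit 6) (nat_lit 84) (nat_lit 2) (nat_lit 296) (nat_lit 301) (nat_lit 183))))))) (PT.nd (nat_lit 624) (PT.nd (nat_lit 312) (PT.nd (nat_lit 156) (PT.nd (nat_lit 78) (PT.lf (nat_lit 6156) (nat_lit 6) (nat_lit 81) (nat_lit 2) (nat_lit 297) (nat_lit 301) (nat_lit 182)) (PT.lf (nat_lit 5928) (nat_lit 6) (nat_lit 78) (nat_lit 2) (nat_lit 298) (nat_lit 301) (nat_lit 181))) (PT.nd (nat_lit 78) (PT.lf (nat_lit 5700) (nat_lit 6) (nat_lit 75) (nat_lit 2) (nat_lit 299) (nat_lit 301) (nat_lit 180)) (PT.lf (nat_lit 5472) (nat_lit 6) (nat_lit 72) (nat_lit 2) (nat_lit 300) (nat_lit 301) (nat_lit 179)))) (PT.nd (nat_lit 156) (PT.nd (nat_lit 78) (PT.lf (nat_lit 5244) (nat_lit 3) (nat_lit 69) (nat_lit 0) (nat_lit 301) (nat_lit 301) (nat_lit 178)) (PT.lf (nat_lit 5016) (nat_lit 6) (nat_lit 66) (nat_lit 0) (nat_lit 302) (nat_lit 301) (nat_lit 177))) (PT.nd (nat_lit 78) (PT.lf (nat_lit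 4712) (nat_lit 6) (nat_lit 62) (nat_lit 0) (nat_lit 303) (nat_lit 301) (nat_lit 176)) (PT.lf (nat_lit 4484) (nat_lit 6) (nat_lit 59) (nat_lit 0) (nat_lit 304) (nat_lit 301) (nat_lit 175))))) (PT.nd (nat_lit 71058) (PT.nd (nat_lit 70902) (PT.nd (nat_lit 70824) (PT.lf (nat_lit 4180) (nat_lit 6) (nat_lit 55) (nat_lit 0) (nat_lit 305) (nat_lit 301) (nat_lit 174)) (PT.lf (nat_lit 3724) (nat_lit 6) (nat_lit 49) (nat_lit 5) (nat_lit 172) (nat_lit 302) (nat_lit 306))) (PT.nd (nat_lit 78) (PT.lf (nat_lit 4028) (nat_lit 6) (nat_lit 53) (nat_lit 5) (nat_lit 173) (nat_lit 302) (nat_lit 305)) (PT.lf (nat_lit 4256) (nat_lit 6) (nat_lit 56) (nat_lit 5) (nat_lit 174) (nat_lit 302) (nat_lit 304)))) (PT.nd (nat_lit 156) (PT.nd (nat_lit 78) (PT.lf (nat_lit 4560) (nat_lit 6) (nat_lit 60) (nat_lit 5) (nat_lit 175) (nat_lit 302) (nat_lit 303)) (PT.lf (nat_lit 4788) (nat_lit 3) (nat_lit 63) (nat_lit 4) (nat_lit 176) (nat_lit 302) (nat_lit 302))) (PT.nd (nat_lit 78) (PT.lf (nat_lit 5016)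 (nat_lit 6) (nat_lit 66) (nat_lit 4) (nat_lit 177) (nat_lit 302) (nat_lit 301)) (PT.nd (nat_lit 78) (PT.lf (nat_lit 5168) (nat_lit 6) (nat_lit 68) (nat_lit 4) (nat_lit 178) (nat_lit 302) (nat_lit 300)) (PT.lf (nat_lit 5396) (nat_lit 6) (nat_lit 71) (nat_lit 4) (nat_lit 179) (nat_lit 302) (nat_lit 299))))))))
noncomputable def pc123 : PT := (PT.nd (nat_lit 80652) (PT.nd (nat_lit 9438) (PT.nd (nat_lit 9126) (PT.nd (nat_lit 156) (PT.nd (nat_lit 78) (PT.lf (nat_lit 5624) (nat_lit 6) (nat_lit 74) (nat_lit 4) (nat_lit 180) (nat_lit 302) (nat_lit 298)) (PT.lf (nat_lit 5852) (nat_lit 6) (nat_lit 77) (nat_lit 4) (nat_lit 181) (nat_lit 302) (nat_lit 297))) (PT.nd (nat_lit 8892) (PT.lf (nat_lit 6080) (nat_lit 6) (nat_lit 80) (nat_lit 4) (nat_lit 182) (nat_lit 302) (nat_lit 296)) (PT.lf (nat_lit 6080) (nat_lit 6) (nat_lit 80) (nat_lit 2) (nat_lit 296) (nat_lit 302) (nat_lit 182)))) (PT.nd (nat_lit 156) (PT.nd (nat_lit 78) (PT.lf (nat_lit 5852) (nat_lit 6) (nat_lit 77) (nat_lit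 2) (nat_lit 297) (nat_lit 302) (nat_lit 181)) (PT.lf (nat_lit 5624) (nat_lit 6) (nat_lit 74) (nat_lit 2) (nat_lit 298) (nat_lit 302) (nat_lit 180))) (PT.nd (nat_lit 78) (PT.lf (nat_lit 5396) (nat_lit 6) (nat_lit 71) (nat_lit 2) (nat_lit 299) (nat_lit 302) (nat_lit 179)) (PT.lf (nat_lit 5168) (nat_lit 6) (nat_lit 68) (nat_lit 2) (nat_lit 300) (nat_lit 302) (nat_lit 178))))) (PT.nd (nat_lit 312) (PT.nd (nat_lit 156) (PT.nd (nat_lit 78) (PT.lf (nat_lit 5016) (nat_lit 6) (nat_lit 66) (nat_lit 2) (nat_lit 301) (nat_lit 302) (nat_lit 177)) (PT.lf (nat_lit 4788) (nat_lit 3) (nat_lit 63) (nat_lit 0) (nat_lit 302) (nat_lit 302) (nat_lit 176))) (PT.nd (nat_lit 78) (PT.lf (nat_lit 4560) (nat_lit 6) (nat_lit 60) (nat_lit 0) (nat_lit 303) (nat_lit 302) (nat_lit 175)) (PT.lf (nat_lit 4256) (nat_lit 6) (nat_lit 56) (nat_lit 0) (nat_lit 304) (nat_lit 302) (nat_lit 174)))) (PT.nd (nat_lit 70668) (PT.nd (nat_lit 78) (PT.lf (nat_lit 4028) (nat_lit 6) (nat_lit 53) (nat_lit 0) (nat_lit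 305) (nat_lit 302) (nat_lit 173)) (PT.lf (nat_lit 3724) (nat_lit 6) (nat_lit 49) (nat_lit 0) (nat_lit 306) (nat_lit 302) (nat_lit 172))) (PT.nd (nat_lit 78) (PT.lf (nat_lit 3344) (nat_lit 6) (nat_lit 44) (nat_lit 5) (nat_lit 170) (nat_lit 303) (nat_lit 307)) (PT.nd (nat_lit 78) (PT.lf (nat_lit 3572) (nat_lit 6) (nat_lit 47) (nat_lit 5) (nat_lit 171) (nat_lit 303) (nat_lit 306)) (PT.lf (nat_lit 3800) (nat_lit 6) (nat_lit 50) (nat_lit 5) (nat_lit 172) (nat_lit 303) (nat_lit 305))))))) (PT.nd (nat_lit 9828) (PT.nd (nat_lit 312) (PT.nd (nat_lit 156) (PT.nd (nat_lit 78) (PT.lf (nat_lit 4104) (nat_lit 6) (nat_lit 54) (nat_lit 5) (nat_lit 173) (nat_lit 303) (nat_lit 304)) (PT.lf (nat_lit 4332) (nat_lit 3) (nat_lit 57) (nat_lit 4) (nat_lit 174) (nat_lit 303) (nat_lit 303))) (PT.nd (nat_lit 78) (PT.lf (nat_lit 4560) (nat_lit 6) (nat_lit 60) (nat_lit 4) (nat_lit 175) (nat_lit 303) (nat_lit 302)) (PT.lf (nat_lit 4712) (nat_lit 6) (nat_lit 62) (nat_lit 4) (nat_lit 176) (nat_lit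 303) (nat_lit 301)))) (PT.nd (nat_lit 156) (PT.nd (nat_lit 78) (PT.lf (nat_lit 4940) (nat_lit 6) (nat_lit 65) (nat_lit 4) (nat_lit 177) (nat_lit 303) (nat_lit 300)) (PT.lf (nat_lit 5092) (nat_lit 6) (nat_lit 67) (nat_lit 4) (nat_lit 178) (nat_lit 303) (nat_lit 299))) (PT.nd (nat_lit 9282) (PT.lf (nat_lit 5320) (nat_lit 6) (nat_lit 70) (nat_lit 4) (nat_lit 179) (nat_lit 303) (nat_lit 298)) (PT.lf (nat_lit 5320) (nat_lit 6) (nat_lit 70) (nat_lit 2) (nat_lit 298) (nat_lit 303) (nat_lit 179))))) (PT.nd (nat_lit 312) (PT.nd (nat_lit 156) (PT.nd (nat_lit 78) (PT.lf (nat_lit 5092) (nat_lit 6) (nat_lit 67) (nat_lit 2) (nat_lit 299) (nat_lit 303) (nat_lit 178)) (PT.lf (nat_lit 4940) (nat_lit 6) (nat_lit 65) (nat_lit 2) (nat_lit 300) (nat_lit 303) (nat_lit 177))) (PT.nd (nat_lit 78) (PT.lf (nat_lit 4712) (nat_lit 6) (nat_lit 62) (nat_lit 2) (nat_lit 301) (nat_lit 303) (nat_lit 176)) (PT.lf (nat_lit 4560) (nat_lit 6) (nat_lit 60) (nat_lit 2) (nat_lit 302) (nat_lit 303) (nat_lit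 175)))) (PT.nd (nat_lit 156) (PT.nd (nat_lit 78) (PT.lf (nat_lit 4332) (nat_lit 3) (nat_lit 57) (nat_lit 0) (nat_lit 303) (nat_lit 303) (nat_lit 174)) (PT.lf (nat_lit 4104) (nat_lit 6) (nat_lit 54) (nat_lit 0) (nat_lit 304) (nat_lit 303) (nat_lit 173))) (PT.nd (nat_lit 78) (PT.lf (nat_lit 3800) (nat_lit 6) (nat_lit 50) (nat_lit 0) (nat_lit 305) (nat_lit 303) (nat_lit 172)) (PT.nd (nat_lit 78) (PT.lf (nat_lit 3572) (nat_lit 6) (nat_lit 47) (nat_lit 0) (nat_lit 306) (nat_lit 303) (nat_lit 171)) (PT.lf (nat_lit 3344) (nat_lit 6) (nat_lit 44) (nat_lit 0) (nat_lit 307) (nat_lit 303) (nat_lit 170))))))))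
noncomputable def pc124 : PT := (PT.nd (nat_lit 10764) (PT.nd (nat_lit 624) (PT.nd (nat_lit 312) (PT.nd (nat_lit 156) (PT.nd (nat_lit 78) (PT.lf (nat_lit 3192) (nat_lit 6) (nat_lit 42) (nat_lit 5) (nat_lit 169) (nat_lit 304) (nat_lit 307)) (PT.lf (nat_lit 3420) (nat_lit 6) (nat_lit 45) (nat_lit 5) (nat_lit 170) (nat_lit 304) (nat_lit 306))) (PT.nd (nat_lit 78) (PT.lf (nat_lit 3648) (nat_lit 6) (nat_lit 48) (nat_lit 5) (nat_lit 171) (nat_lit 304) (nat_lit 305)) (PT.lf (nat_lit 3876) (nat_lit 3) (nat_lit 51) (nat_lit 4) (nat_lit 172) (nat_lit 304) (nat_lit 304)))) (PT.nd (nat_lit 156) (PT.nd (nat_lit 78) (PT.lf (nat_lit 4104) (nat_lit 6) (nat_lit 54) (nat_lit 4) (nat_lit 173) (nat_lit 304) (nat_lit 303)) (PT.lf (nat_lit 4256) (nat_lit 6) (nat_lit 56) (nat_lit 4) (nat_lit 174) (nat_lit 304) (nat_lit 302))) (PT.nd (nat_lit 78) (PT.lf (nat_lit 4484) (nat_lit 6) (nat_lit 59) (nat_lit 4) (nat_lit 175) (nat_lit 304) (nat_lit 301)) (PT.lf (nat_lit 4636) (nat_lit 6) (nat_lit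 61) (nat_lit 4) (nat_lit 176) (nat_lit 304) (nat_lit 300))))) (PT.nd (nat_lit 9750) (PT.nd (nat_lit 9594) (PT.nd (nat_lit 9516) (PT.lf (nat_lit 4864) (nat_lit 6) (nat_lit 64) (nat_lit 4) (nat_lit 177) (nat_lit 304) (nat_lit 299)) (PT.lf (nat_lit 4864) (nat_lit 6) (nat_lit 64) (nat_lit 2) (nat_lit 299) (nat_lit 304) (nat_lit 177))) (PT.nd (nat_lit 78) (PT.lf (nat_lit 4636) (nat_lit 6) (nat_lit 61) (nat_lit 2) (nat_lit 300) (nat_lit 304) (nat_lit 176)) (PT.lf (nat_lit 4484) (nat_lit 6) (nat_lit 59) (nat_lit 2) (nat_lit 301) (nat_lit 304) (nat_lit 175)))) (PT.nd (nat_lit 156) (PT.nd (nat_lit 78) (PT.lf (nat_lit 4256) (nat_lit 6) (nat_lit 56) (nat_lit 2) (nat_lit 302) (nat_lit 304) (nat_lit 174)) (PT.lf (nat_lit 4104) (nat_lit 6) (nat_lit 54) (nat_lit 2) (nat_lit 303) (nat_lit 304) (nat_lit 173))) (PT.nd (nat_lit 78) (PT.lf (nat_lit 3876) (nat_lit 3) (nat_lit 51) (nat_lit 0) (nat_lit 304) (nat_lit 304) (nat_lit 172)) (PT.nd (nat_lit 78) (PT.lf (nat_lit 3648) (nat_lit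 6) (nat_lit 48) (nat_lit 0) (nat_lit 305) (nat_lit 304) (nat_lit 171)) (PT.lf (nat_lit 3420) (nat_lit 6) (nat_lit 45) (nat_lit 0) (nat_lit 306) (nat_lit 304) (nat_lit 170))))))) (PT.nd (nat_lit 70824) (PT.nd (nat_lit 70512) (PT.nd (nat_lit 70356) (PT.nd (nat_lit 70278) (PT.lf (nat_lit 3192) (nat_lit 6) (nat_lit 42) (nat_lit 0) (nat_lit 307) (nat_lit 304) (nat_lit 169)) (PT.lf (nat_lit 2812) (nat_lit 6) (nat_lit 37) (nat_lit 5) (nat_lit 167) (nat_lit 305) (nat_lit 308))) (PT.nd (nat_lit 78) (PT.lf (nat_lit 3040) (nat_lit 6) (nat_lit 40) (nat_lit 5) (nat_lit 168) (nat_lit 305) (nat_lit 307)) (PT.lf (nat_lit 3268) (nat_lit 6) (nat_lit 43) (nat_lit 5) (nat_lit 169) (nat_lit 305) (nat_lit 306)))) (PT.nd (nat_lit 156) (PT.nd (nat_lit 78) (PT.lf (nat_lit 3496) (nat_lit 3) (nat_lit 46) (nat_lit 4) (nat_lit 170) (nat_lit 305) (nat_lit 305)) (PT.lf (nat_lit 3648) (nat_lit 6) (nat_lit 48) (nat_lit 4) (nat_lit 171) (nat_lit 305) (nat_lit 304))) (PT.nd (nat_lit 78) (PT.lf (nat_lit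 3800) (nat_lit 6) (nat_lit 50) (nat_lit 4) (nat_lit 172) (nat_lit 305) (nat_lit 303)) (PT.lf (nat_lit 4028) (nat_lit 6) (nat_lit 53) (nat_lit 4) (nat_lit 173) (nat_lit 305) (nat_lit 302))))) (PT.nd (nat_lit 10140) (PT.nd (nat_lit 9984) (PT.nd (nat_lit 9906) (PT.lf (nat_lit 4180) (nat_lit 6) (nat_lit 55) (nat_lit 4) (nat_lit 174) (nat_lit 305) (nat_lit 301)) (PT.lf (nat_lit 4180) (nat_lit 6) (nat_lit 55) (nat_lit 2) (nat_lit 301) (nat_lit 305) (nat_lit 174))) (PT.nd (nat_lit 78) (PT.lf (nat_lit 4028) (nat_lit 6) (nat_lit 53) (nat_lit 2) (nat_lit 302) (nat_lit 305) (nat_lit 173)) (PT.lf (nat_lit 3800) (nat_lit 6) (nat_lit 50) (nat_lit 2) (nat_lit 303) (nat_lit 305) (nat_lit 172)))) (PT.nd (nat_lit 156) (PT.nd (nat_lit 78) (PT.lf (nat_lit 3648) (nat_lit 6) (nat_lit 48) (nat_lit 2) (nat_lit 304) (nat_lit 305) (nat_lit 171)) (PT.lf (nat_lit 3496) (nat_lit 3) (nat_lit 46) (nat_lit 0) (nat_lit 305) (nat_lit 305) (nat_lit 170))) (PT.nd (nat_lit 78) (PT.lf (nat_lit 3268)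 (nat_lit 6) (nat_lit 43) (nat_lit 0) (nat_lit 306) (nat_lit 305) (nat_lit 169)) (PT.nd (nat_lit 78) (PT.lf (nat_lit 3040) (nat_lit 6) (nat_lit 40) (nat_lit 0) (nat_lit 307) (nat_lit 305) (nat_lit 168)) (PT.lf (nat_lit 2812) (nat_lit 6) (nat_lit 37) (nat_lit 0) (nat_lit 308) (nat_lit 305) (nat_lit 167))))))))
noncomputable def pc125 : PT := (PT.nd (nat_lit 81120) (PT.nd (nat_lit 10686) (PT.nd (nat_lit 312) (PT.nd (nat_lit 156) (PT.nd (nat_lit 78) (PT.lf (nat_lit 2432) (nat_lit 6) (nat_lit 32) (nat_lit 5) (nat_lit 165) (nat_lit 306) (nat_lit 309)) (PT.lf (nat_lit 2660) (nat_lit 6) (nat_lit 35) (nat_lit 5) (nat_lit 166) (nat_lit 306) (nat_lit 308))) (PT.nd (nat_lit 78) (PT.lf (nat_lit 2888) (nat_lit 6) (nat_lit 38) (nat_lit 5) (nat_lit 167) (nat_lit 306) (nat_lit 307)) (PT.lf (nat_lit 3116) (nat_lit 3) (nat_lit 41) (nat_lit 4) (nat_lit 168) (nat_lit 306) (nat_lit 306)))) (PT.nd (nat_lit 156) (PT.nd (nat_lit 78) (PT.lf (nat_lit 3268) (nat_lit 6) (nat_lit 43) (nat_lit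 4) (nat_lit 169) (nat_lit 306) (nat_lit 305)) (PT.lf (nat_lit 3420) (nat_lit 6) (nat_lit 45) (nat_lit 4) (nat_lit 170) (nat_lit 306) (nat_lit 304))) (PT.nd (nat_lit 78) (PT.lf (nat_lit 3572) (nat_lit 6) (nat_lit 47) (nat_lit 4) (nat_lit 171) (nat_lit 306) (nat_lit 303)) (PT.lf (nat_lit 3724) (nat_lit 6) (nat_lit 49) (nat_lit 4) (nat_lit 172) (nat_lit 306) (nat_lit 302))))) (PT.nd (nat_lit 312) (PT.nd (nat_lit 156) (PT.nd (nat_lit 78) (PT.lf (nat_lit 3724) (nat_lit 6) (nat_lit 49) (nat_lit 2) (nat_lit 302) (nat_lit 306) (nat_lit 172)) (PT.lf (nat_lit 3572) (nat_lit 6) (nat_lit 47) (nat_lit 2) (nat_lit 303) (nat_lit 306) (nat_lit 171))) (PT.nd (nat_lit 78) (PT.lf (nat_lit 3420) (nat_lit 6) (nat_lit 45) (nat_lit 2) (nat_lit 304) (nat_lit 306) (nat_lit 170)) (PT.lf (nat_lit 3268) (nat_lit 6) (nat_lit 43) (nat_lit 2) (nat_lit 305) (nat_lit 306) (nat_lit 169)))) (PT.nd (nat_lit 156) (PT.nd (nat_lit 78) (PT.lf (nat_lit 3116) (nat_lit 3) (nat_lit 41) (nat_lit 0) (nat_lit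 306) (nat_lit 306) (nat_lit 168)) (PT.lf (nat_lit 2888) (nat_lit 6) (nat_lit 38) (nat_lit 0) (nat_lit 307) (nat_lit 306) (nat_lit 167))) (PT.nd (nat_lit 78) (PT.lf (nat_lit 2660) (nat_lit 6) (nat_lit 35) (nat_lit 0) (nat_lit 308) (nat_lit 306) (nat_lit 166)) (PT.nd (nat_lit 69810) (PT.lf (nat_lit 2432) (nat_lit 6) (nat_lit 32) (nat_lit 0) (nat_lit 309) (nat_lit 306) (nat_lit 165)) (PT.lf (nat_lit 2128) (nat_lit 6) (nat_lit 28) (nat_lit 5) (nat_lit 163) (nat_lit 307) (nat_lit 310))))))) (PT.nd (nat_lit 10920) (PT.nd (nat_lit 312) (PT.nd (nat_lit 156) (PT.nd (nat_lit 78) (PT.lf (nat_lit 2280) (nat_lit 6) (nat_lit 30) (nat_lit 5) (nat_lit 164) (nat_lit 307) (nat_lit 309)) (PT.lf (nat_lit 2508) (nat_lit 6) (nat_lit 33) (nat_lit 5) (nat_lit 165) (nat_lit 307) (nat_lit 308))) (PT.nd (nat_lit 78) (PT.lf (nat_lit 2736) (nat_lit 3) (nat_lit 36) (nat_lit 4) (nat_lit 166) (nat_lit 307) (nat_lit 307)) (PT.lf (nat_lit 2888) (nat_lit 6) (nat_lit 38) (nat_lit 4) (nat_lit 167)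 (nat_lit 307) (nat_lit 306)))) (PT.nd (nat_lit 156) (PT.nd (nat_lit 78) (PT.lf (nat_lit 3040) (nat_lit 6) (nat_lit 40) (nat_lit 4) (nat_lit 168) (nat_lit 307) (nat_lit 305)) (PT.lf (nat_lit 3192) (nat_lit 6) (nat_lit 42) (nat_lit 4) (nat_lit 169) (nat_lit 307) (nat_lit 304))) (PT.nd (nat_lit 10374) (PT.lf (nat_lit 3344) (nat_lit 6) (nat_lit 44) (nat_lit 4) (nat_lit 170) (nat_lit 307) (nat_lit 303)) (PT.lf (nat_lit 3344) (nat_lit 6) (nat_lit 44) (nat_lit 2) (nat_lit 303) (nat_lit 307) (nat_lit 170))))) (PT.nd (nat_lit 312) (PT.nd (nat_lit 156) (PT.nd (nat_lit 78) (PT.lf (nat_lit 3192) (nat_lit 6) (nat_lit 42) (nat_lit 2) (nat_lit 304) (nat_lit 307) (nat_lit 169)) (PT.lf (nat_lit 3040) (nat_lit 6) (nat_lit 40) (nat_lit 2) (nat_lit 305) (nat_lit 307) (nat_lit 168))) (PT.nd (nat_lit 78) (PT.lf (nat_lit 2888) (nat_lit 6) (nat_lit 38) (nat_lit 2) (nat_lit 306) (nat_lit 307) (nat_lit 167)) (PT.lf (nat_lit 2736) (nat_lit 3) (nat_lit 36) (nat_lit 0) (nat_lit 307) (nat_lit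 307) (nat_lit 166)))) (PT.nd (nat_lit 156) (PT.nd (nat_lit 78) (PT.lf (nat_lit 2508) (nat_lit 6) (nat_lit 33) (nat_lit 0) (nat_lit 308) (nat_lit 307) (nat_lit 165)) (PT.lf (nat_lit 2280) (nat_lit 6) (nat_lit 30) (nat_lit 0) (nat_lit 309) (nat_lit 307) (nat_lit 164))) (PT.nd (nat_lit 69576) (PT.lf (nat_lit 2128) (nat_lit 6) (nat_lit 28) (nat_lit 0) (nat_lit 310) (nat_lit 307) (nat_lit 163)) (PT.nd (nat_lit 78) (PT.lf (nat_lit 1824) (nat_lit 6) (nat_lit 24) (nat_lit 5) (nat_lit 161) (nat_lit 308) (nat_lit 311)) (PT.lf (nat_lit 1976) (nat_lit 6) (nat_lit 26) (nat_lit 5) (nat_lit 162) (nat_lit 308) (nat_lit 310))))))))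
noncomputable def pc126 : PT := (PT.nd (nat_lit 81354) (PT.nd (nat_lit 11310) (PT.nd (nat_lit 312) (PT.nd (nat_lit 156) (PT.nd (nat_lit 78) (PT.lf (nat_lit 2204) (nat_lit 6) (nat_lit 29) (nat_lit 5) (nat_lit 163) (nat_lit 308) (nat_lit 309)) (PT.lf (nat_lit 2356) (nat_lit 3) (nat_lit 31) (nat_lit 4) (nat_lit 164) (nat_lit 308) (nat_lit 308))) (PT.nd (nat_lit 78) (PT.lf (nat_lit 2508) (nat_lit 6) (nat_lit 33) (nat_lit 4) (nat_lit 165) (nat_lit 308) (nat_lit 307)) (PT.lf (nat_lit 2660) (nat_lit 6) (nat_lit 35) (nat_lit 4) (nat_lit 166) (nat_lit 308) (nat_lit 306)))) (PT.nd (nat_lit 10842) (PT.nd (nat_lit 10764) (PT.lf (nat_lit 2812) (nat_lit 6) (nat_lit 37) (nat_lit 4) (nat_lit 167) (nat_lit 308) (nat_lit 305)) (PT.lf (nat_lit 2812) (nat_lit 6) (nat_lit 37) (nat_lit 2) (nat_lit 305) (nat_lit 308) (nat_lit 167))) (PT.nd (nat_lit 78) (PT.lf (nat_lit 2660) (nat_lit 6) (nat_lit 35) (nat_lit 2) (nat_lit 306) (nat_lit 308) (nat_lit 166)) (PT.lf (nat_lit 2508) (nat_lit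 6) (nat_lit 33) (nat_lit 2) (nat_lit 307) (nat_lit 308) (nat_lit 165))))) (PT.nd (nat_lit 69654) (PT.nd (nat_lit 156) (PT.nd (nat_lit 78) (PT.lf (nat_lit 2356) (nat_lit 3) (nat_lit 31) (nat_lit 0) (nat_lit 308) (nat_lit 308) (nat_lit 164)) (PT.lf (nat_lit 2204) (nat_lit 6) (nat_lit 29) (nat_lit 0) (nat_lit 309) (nat_lit 308) (nat_lit 163))) (PT.nd (nat_lit 78) (PT.lf (nat_lit 1976) (nat_lit 6) (nat_lit 26) (nat_lit 0) (nat_lit 310) (nat_lit 308) (nat_lit 162)) (PT.lf (nat_lit 1824) (nat_lit 6) (nat_lit 24) (nat_lit 0) (nat_lit 311) (nat_lit 308) (nat_lit 161)))) (PT.nd (nat_lit 156) (PT.nd (nat_lit 78) (PT.lf (nat_lit 1672) (nat_lit 6) (nat_lit 22) (nat_lit 5) (nat_lit 160) (nat_lit 309) (nat_lit 311)) (PT.lf (nat_lit 1900) (nat_lit 6) (nat_lit 25) (nat_lit 5) (nat_lit 161) (nat_lit 309) (nat_lit 310))) (PT.nd (nat_lit 78) (PT.lf (nat_lit 2052) (nat_lit 3) (nat_lit 27) (nat_lit 4) (nat_lit 162) (nat_lit 309) (nat_lit 309)) (PT.nd (nat_lit 78) (PT.lf (nat_lit 2204)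 (nat_lit 6) (nat_lit 29) (nat_lit 4) (nat_lit 163) (nat_lit 309) (nat_lit 308)) (PT.lf (nat_lit 2280) (nat_lit 6) (nat_lit 30) (nat_lit 4) (nat_lit 164) (nat_lit 309) (nat_lit 307))))))) (PT.nd (nat_lit 80730) (PT.nd (nat_lit 11232) (PT.nd (nat_lit 11076) (PT.nd (nat_lit 10998) (PT.lf (nat_lit 2432) (nat_lit 6) (nat_lit 32) (nat_lit 4) (nat_lit 165) (nat_lit 309) (nat_lit 306)) (PT.lf (nat_lit 2432) (nat_lit 6) (nat_lit 32) (nat_lit 2) (nat_lit 306) (nat_lit 309) (nat_lit 165))) (PT.nd (nat_lit 78) (PT.lf (nat_lit 2280) (nat_lit 6) (nat_lit 30) (nat_lit 2) (nat_lit 307) (nat_lit 309) (nat_lit 164)) (PT.lf (nat_lit 2204) (nat_lit 6) (nat_lit 29) (nat_lit 2) (nat_lit 308) (nat_lit 309) (nat_lit 163)))) (PT.nd (nat_lit 156) (PT.nd (nat_lit 78) (PT.lf (nat_lit 2052) (nat_lit 3) (nat_lit 27) (nat_lit 0) (nat_lit 309) (nat_lit 309) (nat_lit 162)) (PT.lf (nat_lit 1900) (nat_lit 6) (nat_lit 25) (nat_lit 0) (nat_lit 310) (nat_lit 309) (nat_lit 161))) (PT.nd (nat_lit 69264)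 (PT.lf (nat_lit 1672) (nat_lit 6) (nat_lit 22) (nat_lit 0) (nat_lit 311) (nat_lit 309) (nat_lit 160)) (PT.lf (nat_lit 1368) (nat_lit 6) (nat_lit 18) (nat_lit 5) (nat_lit 158) (nat_lit 310) (nat_lit 312))))) (PT.nd (nat_lit 312) (PT.nd (nat_lit 156) (PT.nd (nat_lit 78) (PT.lf (nat_lit 1596) (nat_lit 6) (nat_lit 21) (nat_lit 5) (nat_lit 159) (nat_lit 310) (nat_lit 311)) (PT.lf (nat_lit 1748) (nat_lit 3) (nat_lit 23) (nat_lit 4) (nat_lit 160) (nat_lit 310) (nat_lit 310))) (PT.nd (nat_lit 78) (PT.lf (nat_lit 1900) (nat_lit 6) (nat_lit 25) (nat_lit 4) (nat_lit 161) (nat_lit 310) (nat_lit 309)) (PT.lf (nat_lit 1976) (nat_lit 6) (nat_lit 26) (nat_lit 4) (nat_lit 162) (nat_lit 310) (nat_lit 308)))) (PT.nd (nat_lit 11310) (PT.nd (nat_lit 11232) (PT.lf (nat_lit 2128) (nat_lit 6) (nat_lit 28) (nat_lit 4) (nat_lit 163) (nat_lit 310) (nat_lit 307)) (PT.lf (nat_lit 2128) (nat_lit 6) (nat_lit 28) (nat_lit 2) (nat_lit 307) (nat_lit 310) (nat_lit 163))) (PT.nd (nat_lit 78) (PT.lf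 (nat_lit 1976) (nat_lit 6) (nat_lit 26) (nat_lit 2) (nat_lit 308) (nat_lit 310) (nat_lit 162)) (PT.nd (nat_lit 78) (PT.lf (nat_lit 1900) (nat_lit 6) (nat_lit 25) (nat_lit 2) (nat_lit 309) (nat_lit 310) (nat_lit 161)) (PT.lf (nat_lit 1748) (nat_lit 3) (nat_lit 23) (nat_lit 0) (nat_lit 310) (nat_lit 310) (nat_lit 160))))))))
noncomputable def pc127 : PT := (PT.nd (nat_lit 150462) (PT.nd (nat_lit 80964) (PT.nd (nat_lit 69264) (PT.nd (nat_lit 69108) (PT.nd (nat_lit 78) (PT.lf (nat_lit 1596) (nat_lit 6) (nat_lit 21) (nat_lit 0) (nat_lit 311) (nat_lit 310) (nat_lit 159)) (PT.lf (nat_lit 1368) (nat_lit 6) (nat_lit 18) (nat_lit 0) (nat_lit 312) (nat_lit 310) (nat_lit 158))) (PT.nd (nat_lit 78) (PT.lf (nat_lit 1064) (nat_lit 6) (nat_lit 14) (nat_lit 5) (nat_lit 156) (nat_lit 311) (nat_lit 313)) (PT.lf (nat_lit 1292) (nat_lit 6) (nat_lit 17) (nat_lit 5) (nat_lit 157) (nat_lit 311) (nat_lit 312)))) (PT.nd (nat_lit 156) (PT.nd (nat_lit 78) (PT.lf (nat_lit 1444) (nat_lit 3)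 (nat_lit 19) (nat_lit 4) (nat_lit 158) (nat_lit 311) (nat_lit 311)) (PT.lf (nat_lit 1596) (nat_lit 6) (nat_lit 21) (nat_lit 4) (nat_lit 159) (nat_lit 311) (nat_lit 310))) (PT.nd (nat_lit 78) (PT.lf (nat_lit 1672) (nat_lit 6) (nat_lit 22) (nat_lit 4) (nat_lit 160) (nat_lit 311) (nat_lit 309)) (PT.lf (nat_lit 1824) (nat_lit 6) (nat_lit 24) (nat_lit 4) (nat_lit 161) (nat_lit 311) (nat_lit 308))))) (PT.nd (nat_lit 312) (PT.nd (nat_lit 156) (PT.nd (nat_lit 78) (PT.lf (nat_lit 1824) (nat_lit 6) (nat_lit 24) (nat_lit 2) (nat_lit 308) (nat_lit 311) (nat_lit 161)) (PT.lf (nat_lit 1672) (nat_lit 6) (nat_lit 22) (nat_lit 2) (nat_lit 309) (nat_lit 311) (nat_lit 160))) (PT.nd (nat_lit 78) (PT.lf (nat_lit 1596) (nat_lit 6) (nat_lit 21) (nat_lit 2) (nat_lit 310) (nat_lit 311) (nat_lit 159)) (PT.lf (nat_lit 1444) (nat_lit 3) (nat_lit 19) (nat_lit 0) (nat_lit 311) (nat_lit 311) (nat_lit 158)))) (PT.nd (nat_lit 68952) (PT.nd (nat_lit 78) (PT.lf (nat_lit 1292) (nat_lit 6) (nat_lit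 17) (nat_lit 0) (nat_lit 312) (nat_lit 311) (nat_lit 157)) (PT.lf (nat_lit 1064) (nat_lit 6) (nat_lit 14) (nat_lit 0) (nat_lit 313) (nat_lit 311) (nat_lit 156))) (PT.nd (nat_lit 78) (PT.lf (nat_lit 988) (nat_lit 6) (nat_lit 13) (nat_lit 5) (nat_lit 155) (nat_lit 312) (nat_lit 313)) (PT.nd (nat_lit 78) (PT.lf (nat_lit 1140) (nat_lit 3) (nat_lit 15) (nat_lit 4) (nat_lit 156) (nat_lit 312) (nat_lit 312)) (PT.lf (nat_lit 1292) (nat_lit 6) (nat_lit 17) (nat_lit 4) (nat_lit 157) (nat_lit 312) (nat_lit 311))))))) (PT.nd (nat_lit 93132) (PT.nd (nat_lit 12090) (PT.nd (nat_lit 11934) (PT.nd (nat_lit 11856) (PT.lf (nat_lit 1368) (nat_lit 6) (nat_lit 18) (nat_lit 4) (nat_lit 158) (nat_lit 312) (nat_lit 310)) (PT.lf (nat_lit 1368) (nat_lit 6) (nat_lit 18) (nat_lit 2) (nat_lit 310) (nat_lit 312) (nat_lit 158))) (PT.nd (nat_lit 78) (PT.lf (nat_lit 1292) (nat_lit 6) (nat_lit 17) (nat_lit 2) (nat_lit 311) (nat_lit 312) (nat_lit 157)) (PT.lf (nat_lit 1140) (nat_lit 3) (nat_lit 15)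 (nat_lit 0) (nat_lit 312) (nat_lit 312) (nat_lit 156)))) (PT.nd (nat_lit 68874) (PT.nd (nat_lit 68796) (PT.lf (nat_lit 988) (nat_lit 6) (nat_lit 13) (nat_lit 0) (nat_lit 313) (nat_lit 312) (nat_lit 155)) (PT.lf (nat_lit 836) (nat_lit 3) (nat_lit 11) (nat_lit 4) (nat_lit 154) (nat_lit 313) (nat_lit 313))) (PT.nd (nat_lit 78) (PT.lf (nat_lit 988) (nat_lit 6) (nat_lit 13) (nat_lit 4) (nat_lit 155) (nat_lit 313) (nat_lit 312)) (PT.lf (nat_lit 1064) (nat_lit 6) (nat_lit 14) (nat_lit 4) (nat_lit 156) (nat_lit 313) (nat_lit 311))))) (PT.nd (nat_lit 2662140) (PT.nd (nat_lit 156) (PT.nd (nat_lit 78) (PT.lf (nat_lit 1064) (nat_lit 6) (nat_lit 14) (nat_lit 2) (nat_lit 311) (nat_lit 313) (nat_lit 156)) (PT.lf (nat_lit 988) (nat_lit 6) (nat_lit 13) (nat_lit 2) (nat_lit 312) (nat_lit 313) (nat_lit 155))) (PT.nd (nat_lit 2661906) (PT.lf (nat_lit 836) (nat_lit 3) (nat_lit 11) (nat_lit 0) (nat_lit 313) (nat_lit 313) (nat_lit 154)) (PT.lf (nat_lit 76) (nat_lit 6) (nat_lit 1) (nat_lit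 5) (nat_lit 87) (nat_lit 346) (nat_lit 347)))) (PT.nd (nat_lit 20202) (PT.nd (nat_lit 20124) (PT.lf (nat_lit 152) (nat_lit 3) (nat_lit 2) (nat_lit 4) (nat_lit 88) (nat_lit 346) (nat_lit 346)) (PT.lf (nat_lit 152) (nat_lit 3) (nat_lit 2) (nat_lit 0) (nat_lit 346) (nat_lit 346) (nat_lit 88))) (PT.nd (nat_lit 60918) (PT.lf (nat_lit 76) (nat_lit 6) (nat_lit 1) (nat_lit 0) (nat_lit 347) (nat_lit 346) (nat_lit 87)) (PT.nd (nat_lit 20202) (PT.lf (nat_lit 76) (nat_lit 6) (nat_lit 1) (nat_lit 4) (nat_lit 87) (nat_lit 347) (nat_lit 346)) (PT.lf (nat_lit 76) (nat_lit 6) (nat_lit 1) (nat_lit 2) (nat_lit 346) (nat_lit 347) (nat_lit 87))))))))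
noncomputable def xc0 : XT := (XT.nd (nat_lit 324402) (nat_lit 0) (nat_lit 0) (XT.nd (nat_lit 162474) (nat_lit 0) (nat_lit 0) (XT.nd (nat_lit 81276) (nat_lit 0) (nat_lit 0) (XT.nd (nat_lit 81042) (nat_lit 0) (nat_lit 152) (XT.nd (nat_lit 78) (nat_lit 152) (nat_lit 0) (XT.lf (nat_lit 0) (nat_lit 11325437888) (nat_lit 152) (nat_lit 2349177130) (nat_lit 152) (nat_lit 2034493114) (nat_lit 15) (nat_lit 4) (nat_lit 17) (nat_lit 5) (nat_lit 17) (nat_lit 4) (nat_lit 651) (nat_lit 455) (nat_lit 454)) (XT.nd (nat_lit 80886) (nat_lit 0) (nat_lit 456) (XT.lf (nat_lit 0) (nat_lit 4803871403) (nat_lit 152) (nat_lit 6883352622) (nat_lit 0) (nat_lit 4192893211) (nat_lit 13) (nat_lit 5) (nat_lit 15) (nat_lit 4) (nat_lit 13) (nat_lit 4) (nat_lit 652) (nat_lit 455) (nat_lit 453)) (XT.lf (nat_lit 0) (nat_lit 1177523704) (nat_lit 152) (nat_lit 3214258477) (nat_lit 152) (nat_lit 3214258477) (nat_lit 19) (nat_lit 4) (nat_lit 21) (nat_lit 5) (nat_lit 21) (nat_lit 4) (nat_lit 648) (nat_lit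 456) (nat_lit 456)))) (XT.nd (nat_lit 78) (nat_lit 152) (nat_lit 0) (XT.lf (nat_lit 0) (nat_lit 187036701) (nat_lit 76) (nat_lit 67633571) (nat_lit 152) (nat_lit 15121322828) (nat_lit 17) (nat_lit 5) (nat_lit 18) (nat_lit 5) (nat_lit 19) (nat_lit 4) (nat_lit 649) (nat_lit 456) (nat_lit 455)) (XT.nd (nat_lit 78) (nat_lit 152) (nat_lit 0) (XT.lf (nat_lit 0) (nat_lit 7020483283) (nat_lit 152) (nat_lit 2136329153) (nat_lit 0) (nat_lit 6384821572) (nat_lit 17) (nat_lit 5) (nat_lit 19) (nat_lit 4) (nat_lit 17) (nat_lit 4) (nat_lit 650) (nat_lit 456) (nat_lit 454)) (XT.lf (nat_lit 0) (nat_lit 11150287303) (nat_lit 152) (nat_lit 2752427672) (nat_lit 152) (nat_lit 1808252221) (nat_lit 15) (nat_lit 4) (nat_lit 17) (nat_lit 5) (nat_lit 17) (nat_lit 4) (nat_lit 651) (nat_lit 456) (nat_lit 453))))) (XT.nd (nat_lit 80886) (nat_lit 0) (nat_lit 152) (XT.nd (nat_lit 80730) (nat_lit 0) (nat_lit 608) (XT.lf (nat_lit 0) (nat_lit 4977149712) (nat_lit 152) (nat_lit 7150844107) (nat_lit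 0) (nat_lit 3754953729) (nat_lit 13) (nat_lit 5) (nat_lit 15) (nat_lit 4) (nat_lit 13) (nat_lit 4) (nat_lit 652) (nat_lit 456) (nat_lit 452)) (XT.nd (nat_lit 78) (nat_lit 152) (nat_lit 0) (XT.lf (nat_lit 0) (nat_lit 3220677652) (nat_lit 152) (nat_lit 2112903847) (nat_lit 152) (nat_lit 2112903847) (nat_lit 23) (nat_lit 4) (nat_lit 25) (nat_lit 5) (nat_lit 25) (nat_lit 4) (nat_lit 646) (nat_lit 457) (nat_lit 457)) (XT.lf (nat_lit 0) (nat_lit 2381089699) (nat_lit 152) (nat_lit 10623522545) (nat_lit 0) (nat_lit 2047144504) (nat_lit 21) (nat_lit 5) (nat_lit 23) (nat_lit 4) (nat_lit 21) (nat_lit 4) (nat_lit 647) (nat_lit 457) (nat_lit 456)))) (XT.nd (nat_lit 156) (nat_lit 152) (nat_lit 0) (XT.nd (nat_lit 78) (nat_lit 152) (nat_lit 0) (XT.lf (nat_lit 0) (nat_lit 2268467451) (nat_lit 152) (nat_lit 6802939578) (nat_lit 152) (nat_lit 6141597134) (nat_lit 19) (nat_lit 4) (nat_lit 21) (nat_lit 5) (nat_lit 21) (nat_lit 4) (nat_lit 648) (nat_lit 457) (nat_lit 455)) (XT.lf (nat_lit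 0) (nat_lit 9859590) (nat_lit 76) (nat_lit 481318493) (nat_lit 152) (nat_lit 14886634345) (nat_lit 17) (nat_lit 5) (nat_lit 18) (nat_lit 5) (nat_lit 19) (nat_lit 4) (nat_lit 649) (nat_lit 457) (nat_lit 454))) (XT.nd (nat_lit 78) (nat_lit 152) (nat_lit 0) (XT.lf (nat_lit 0) (nat_lit 7208889067) (nat_lit 152) (nat_lit 2398210692) (nat_lit 0) (nat_lit 5937316366) (nat_lit 17) (nat_lit 5) (nat_lit 19) (nat_lit 4) (nat_lit 17) (nat_lit 4) (nat_lit 650) (nat_lit 457) (nat_lit 453)) (XT.lf (nat_lit 0) (nat_lit 10799917448) (nat_lit 152) (nat_lit 3244402879) (nat_lit 152) (nat_lit 1670365727) (nat_lit 15) (nat_lit 4) (nat_lit 17) (nat_lit 5) (nat_lit 17) (nat_lit 4) (nat_lit 651) (nat_lit 457) (nat_lit 452)))))) (XT.nd (nat_lit 81042) (nat_lit 0) (nat_lit 0) (XT.nd (nat_lit 80730) (nat_lit 0) (nat_lit 380) (XT.nd (nat_lit 80574) (nat_lit 0) (nat_lit 912) (XT.lf (nat_lit 0) (nat_lit 5062389617) (nat_lit 152) (nat_lit 7596779801) (nat_lit 0) (nat_lit 3228496550) (nat_lit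 13) (nat_lit 5) (nat_lit 15) (nat_lit 4) (nat_lit 13) (nat_lit 4) (nat_lit 652) (nat_lit 457) (nat_lit 451)) (XT.nd (nat_lit 78) (nat_lit 152) (nat_lit 0) (XT.lf (nat_lit 0) (nat_lit 5106074441) (nat_lit 152) (nat_lit 1092777534) (nat_lit 152) (nat_lit 1092777534) (nat_lit 27) (nat_lit 4) (nat_lit 29) (nat_lit 5) (nat_lit 29) (nat_lit 4) (nat_lit 644) (nat_lit 458) (nat_lit 458)) (XT.lf (nat_lit 0) (nat_lit 4343772670) (nat_lit 152) (nat_lit 6397013284) (nat_lit 0) (nat_lit 3996336089) (nat_lit 25) (nat_lit 5) (nat_lit 27) (nat_lit 4) (nat_lit 25) (nat_lit 4) (nat_lit 645) (nat_lit 458) (nat_lit 457)))) (XT.nd (nat_lit 156) (nat_lit 228) (nat_lit 0) (XT.nd (nat_lit 78) (nat_lit 152) (nat_lit 0) (XT.lf (nat_lit 0) (nat_lit 6356606428) (nat_lit 152) (nat_lit 4612666155) (nat_lit 152) (nat_lit 3924605476) (nat_lit 23) (nat_lit 4) (nat_lit 25) (nat_lit 5) (nat_lit 25) (nat_lit 4) (nat_lit 646) (nat_lit 458) (nat_lit 456)) (XT.lf (nat_lit 0) (nat_lit 2629722199) (nat_lit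 152) (nat_lit 10796120326) (nat_lit 0) (nat_lit 1627755657) (nat_lit 21) (nat_lit 5) (nat_lit 23) (nat_lit 4) (nat_lit 21) (nat_lit 4) (nat_lit 647) (nat_lit 458) (nat_lit 455))) (XT.nd (nat_lit 78) (nat_lit 76) (nat_lit 0) (XT.lf (nat_lit 0) (nat_lit 2008693626) (nat_lit 152) (nat_lit 7265011834) (nat_lit 152) (nat_lit 5942067596) (nat_lit 19) (nat_lit 4) (nat_lit 21) (nat_lit 5) (nat_lit 21) (nat_lit 4) (nat_lit 648) (nat_lit 458) (nat_lit 454)) (XT.lf (nat_lit 0) (nat_lit 643420218) (nat_lit 228) (nat_lit 337919412) (nat_lit 76) (nat_lit 14400109940) (nat_lit 18) (nat_lit 5) (nat_lit 21) (nat_lit 5) (nat_lit 19) (nat_lit 4) (nat_lit 649) (nat_lit 458) (nat_lit 453))))) (XT.nd (nat_lit 80574) (nat_lit 0) (nat_lit 912) (XT.nd (nat_lit 78) (nat_lit 304) (nat_lit 0) (XT.lf (nat_lit 0) (nat_lit 7311121256) (nat_lit 152) (nat_lit 2834794031) (nat_lit 0) (nat_lit 5403138909) (nat_lit 17) (nat_lit 5) (nat_lit 19) (nat_lit 4) (nat_lit 17) (nat_lit 4) (nat_lit 650) (nat_lit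 458) (nat_lit 452)) (XT.nd (nat_lit 78) (nat_lit 152) (nat_lit 0) (XT.lf (nat_lit 0) (nat_lit 10274190921) (nat_lit 152) (nat_lit 3825295681) (nat_lit 152) (nat_lit 1620779559) (nat_lit 15) (nat_lit 4) (nat_lit 17) (nat_lit 5) (nat_lit 17) (nat_lit 4) (nat_lit 651) (nat_lit 458) (nat_lit 451)) (XT.lf (nat_lit 0) (nat_lit 5059624545) (nat_lit 152) (nat_lit 8221334580) (nat_lit 0) (nat_lit 2613315220) (nat_lit 13) (nat_lit 5) (nat_lit 15) (nat_lit 4) (nat_lit 13) (nat_lit 4) (nat_lit 652) (nat_lit 458) (nat_lit 450)))) (XT.nd (nat_lit 156) (nat_lit 304) (nat_lit 0) (XT.nd (nat_lit 78) (nat_lit 152) (nat_lit 0) (XT.lf (nat_lit 0) (nat_lit 6847372589) (nat_lit 152) (nat_lit 146960097) (nat_lit 152) (nat_lit 146960097) (nat_lit 31) (nat_lit 4) (nat_lit 33) (nat_lit 5) (nat_lit 33) (nat_lit 4) (nat_lit 642) (nat_lit 459) (nat_lit 459)) (XT.lf (nat_lit 0) (nat_lit 6156437068) (nat_lit 152) (nat_lit 2480321902) (nat_lit 0) (nat_lit 5794964049) (nat_lit 29) (nat_lit 5)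 (nat_lit 31) (nat_lit 4) (nat_lit 29) (nat_lit 4) (nat_lit 643) (nat_lit 459) (nat_lit 458))) (XT.nd (nat_lit 78) (nat_lit 152) (nat_lit 0) (XT.lf (nat_lit 0) (nat_lit 10129200573) (nat_lit 152) (nat_lit 2585404536) (nat_lit 152) (nat_lit 1869546206) (nat_lit 27) (nat_lit 4) (nat_lit 29) (nat_lit 5) (nat_lit 29) (nat_lit 4) (nat_lit 644) (nat_lit 459) (nat_lit 457)) (XT.lf (nat_lit 0) (nat_lit 4607708944) (nat_lit 152) (nat_lit 6565960792) (nat_lit 0) (nat_lit 3565262953) (nat_lit 25) (nat_lit 5) (nat_lit 27) (nat_lit 4) (nat_lit 25) (nat_lit 4) (nat_lit 645) (nat_lit 459) (nat_lit 456))))))) (XT.nd (nat_lit 81198) (nat_lit 0) (nat_lit 0) (XT.nd (nat_lit 468) (nat_lit 152) (nat_lit 0) (XT.nd (nat_lit 234) (nat_lit 304) (nat_lit 0) (XT.nd (nat_lit 78) (nat_lit 304) (nat_lit 0) (XT.lf (nat_lit 0) (nat_lit 6102326562) (nat_lit 152) (nat_lit 5085332566) (nat_lit 152) (nat_lit 3708941381) (nat_lit 23) (nat_lit 4) (nat_lit 25) (nat_lit 5) (nat_lit 25) (nat_lit 4) (nat_lit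 646) (nat_lit 459) (nat_lit 455)) (XT.nd (nat_lit 78) (nat_lit 152) (nat_lit 0) (XT.lf (nat_lit 0) (nat_lit 2793139509) (nat_lit 152) (nat_lit 11141383572) (nat_lit 0) (nat_lit 1122758691) (nat_lit 21) (nat_lit 5) (nat_lit 23) (nat_lit 4) (nat_lit 21) (nat_lit 4) (nat_lit 647) (nat_lit 459) (nat_lit 454)) (XT.lf (nat_lit 0) (nat_lit 1575624061) (nat_lit 152) (nat_lit 7814914928) (nat_lit 152) (nat_lit 5829850094) (nat_lit 19) (nat_lit 4) (nat_lit 21) (nat_lit 5) (nat_lit 21) (nat_lit 4) (nat_lit 648) (nat_lit 459) (nat_lit 453)))) (XT.nd (nat_lit 78) (nat_lit 228) (nat_lit 0) (XT.lf (nat_lit 0) (nat_lit 710434081) (nat_lit 228) (nat_lit 858501728) (nat_lit 76) (nat_lit 13817990585) (nat_lit 18) (nat_lit 5) (nat_lit 21) (nat_lit 5) (nat_lit 19) (nat_lit 4) (nat_lit 649) (nat_lit 459) (nat_lit 452)) (XT.nd (nat_lit 78) (nat_lit 152) (nat_lit 0) (XT.lf (nat_lit 0) (nat_lit 7327219942) (nat_lit 152) (nat_lit 3446250380) (nat_lit 0) (nat_lit 4782079721) (nat_lit 17)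 (nat_lit 5) (nat_lit 19) (nat_lit 4) (nat_lit 17) (nat_lit 4) (nat_lit 650) (nat_lit 459) (nat_lit 451)) (XT.lf (nat_lit 0) (nat_lit 9572901556) (nat_lit 152) (nat_lit 4495333881) (nat_lit 152) (nat_lit 1659474272) (nat_lit 15) (nat_lit 4) (nat_lit 17) (nat_lit 5) (nat_lit 17) (nat_lit 4) (nat_lit 651) (nat_lit 459) (nat_lit 450))))) (XT.nd (nat_lit 80418) (nat_lit 0) (nat_lit 912) (XT.nd (nat_lit 80262) (nat_lit 0) (nat_lit 1368) (XT.lf (nat_lit 0) (nat_lit 4968853411) (nat_lit 152) (nat_lit 9024753369) (nat_lit 0) (nat_lit 1909168493) (nat_lit 13) (nat_lit 5) (nat_lit 15) (nat_lit 4) (nat_lit 13) (nat_lit 4) (nat_lit 652) (nat_lit 459) (nat_lit 449)) (XT.nd (nat_lit 78) (nat_lit 152) (nat_lit 0) (XT.lf (nat_lit 0) (nat_lit 735799089) (nat_lit 228) (nat_lit 5523324681) (nat_lit 0) (nat_lit 735799089) (nat_lit 33) (nat_lit 5) (nat_lit 36) (nat_lit 4) (nat_lit 33) (nat_lit 4) (nat_lit 640) (nat_lit 460) (nat_lit 460)) (XT.lf (nat_lit 0) (nat_lit 1168427512) (nat_lit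 152) (nat_lit 6671353120) (nat_lit 152) (nat_lit 6295276591) (nat_lit 31) (nat_lit 4) (nat_lit 33) (nat_lit 5) (nat_lit 33) (nat_lit 4) (nat_lit 641) (nat_lit 460) (nat_lit 459)))) (XT.nd (nat_lit 156) (nat_lit 304) (nat_lit 0) (XT.nd (nat_lit 78) (nat_lit 76) (nat_lit 0) (XT.lf (nat_lit 0) (nat_lit 36950718) (nat_lit 228) (nat_lit 670138555) (nat_lit 76) (nat_lit 13576369062) (nat_lit 30) (nat_lit 5) (nat_lit 33) (nat_lit 5) (nat_lit 31) (nat_lit 4) (nat_lit 642) (nat_lit 460) (nat_lit 458)) (XT.lf (nat_lit 0) (nat_lit 6436192271) (nat_lit 152) (nat_lit 2645679966) (nat_lit 0) (nat_lit 5351631462) (nat_lit 29) (nat_lit 5) (nat_lit 31) (nat_lit 4) (nat_lit 29) (nat_lit 4) (nat_lit 643) (nat_lit 460) (nat_lit 457))) (XT.nd (nat_lit 78) (nat_lit 152) (nat_lit 0) (XT.lf (nat_lit 0) (nat_lit 9880323116) (nat_lit 152) (nat_lit 3069251412) (nat_lit 152) (nat_lit 1637254023) (nat_lit 27) (nat_lit 4) (nat_lit 29) (nat_lit 5) (nat_lit 29) (nat_lit 4) (nat_lit 644) (nat_lit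 460) (nat_lit 456)) (XT.lf (nat_lit 0) (nat_lit 4788248417) (nat_lit 152) (nat_lit 6903922063) (nat_lit 0) (nat_lit 3050384214) (nat_lit 25) (nat_lit 5) (nat_lit 27) (nat_lit 4) (nat_lit 25) (nat_lit 4) (nat_lit 645) (nat_lit 460) (nat_lit 455)))))) (XT.nd (nat_lit 80574) (nat_lit 0) (nat_lit 1064) (XT.nd (nat_lit 234) (nat_lit 456) (nat_lit 0) (XT.nd (nat_lit 78) (nat_lit 304) (nat_lit 0) (XT.lf (nat_lit 0) (nat_lit 5678415989) (nat_lit 152) (nat_lit 5643992288) (nat_lit 152) (nat_lit 3578730836) (nat_lit 23) (nat_lit 4) (nat_lit 25) (nat_lit 5) (nat_lit 25) (nat_lit 4) (nat_lit 646) (nat_lit 460) (nat_lit 454)) (XT.nd (nat_lit 78) (nat_lit 152) (nat_lit 0) (XT.lf (nat_lit 0) (nat_lit 2871405712) (nat_lit 152) (nat_lit 11659447681) (nat_lit 0) (nat_lit 531955567) (nat_lit 21) (nat_lit 5) (nat_lit 23) (nat_lit 4) (nat_lit 21) (nat_lit 4) (nat_lit 647) (nat_lit 460) (nat_lit 453)) (XT.lf (nat_lit 0) (nat_lit 969088924) (nat_lit 152) (nat_lit 8452864508) (nat_lit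 152) (nat_lit 5804900622) (nat_lit 19) (nat_lit 4) (nat_lit 21) (nat_lit 5) (nat_lit 21) (nat_lit 4) (nat_lit 648) (nat_lit 460) (nat_lit 452)))) (XT.nd (nat_lit 156) (nat_lit 304) (nat_lit 0) (XT.nd (nat_lit 78) (nat_lit 76) (nat_lit 0) (XT.lf (nat_lit 0) (nat_lit 692181939) (nat_lit 228) (nat_lit 1552220819) (nat_lit 76) (nat_lit 13149843575) (nat_lit 18) (nat_lit 5) (nat_lit 21) (nat_lit 5) (nat_lit 19) (nat_lit 4) (nat_lit 649) (nat_lit 460) (nat_lit 451)) (XT.lf (nat_lit 0) (nat_lit 7257191439) (nat_lit 152) (nat_lit 4232819525) (nat_lit 0) (nat_lit 4073895249) (nat_lit 17) (nat_lit 5) (nat_lit 19) (nat_lit 4) (nat_lit 17) (nat_lit 4) (nat_lit 650) (nat_lit 460) (nat_lit 450))) (XT.nd (nat_lit 78) (nat_lit 152) (nat_lit 0) (XT.lf (nat_lit 0) (nat_lit 8695774337) (nat_lit 152) (nat_lit 5254780238) (nat_lit 152) (nat_lit 1786465041) (nat_lit 15) (nat_lit 4) (nat_lit 17) (nat_lit 5) (nat_lit 17) (nat_lit 4) (nat_lit 651) (nat_lit 460) (nat_lit 449)) (XT.lf (nat_lit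 0) (nat_lit 4790040621) (nat_lit 152) (nat_lit 10007351232) (nat_lit 0) (nat_lit 1115780231) (nat_lit 13) (nat_lit 5) (nat_lit 15) (nat_lit 4) (nat_lit 13) (nat_lit 4) (nat_lit 652) (nat_lit 460) (nat_lit 448))))) (XT.nd (nat_lit 234) (nat_lit 456) (nat_lit 0) (XT.nd (nat_lit 78) (nat_lit 380) (nat_lit 0) (XT.lf (nat_lit 0) (nat_lit 1557162153) (nat_lit 228) (nat_lit 3738376206) (nat_lit 0) (nat_lit 1557162153) (nat_lit 38) (nat_lit 5) (nat_lit 41) (nat_lit 4) (nat_lit 38) (nat_lit 4) (nat_lit 638) (nat_lit 461) (nat_lit 461)) (XT.nd (nat_lit 78) (nat_lit 228) (nat_lit 0) (XT.lf (nat_lit 0) (nat_lit 4588036253) (nat_lit 152) (nat_lit 4824944735) (nat_lit 152) (nat_lit 4433674715) (nat_lit 36) (nat_lit 4) (nat_lit 38) (nat_lit 5) (nat_lit 38) (nat_lit 4) (nat_lit 639) (nat_lit 461) (nat_lit 460)) (XT.lf (nat_lit 0) (nat_lit 1811020168) (nat_lit 228) (nat_lit 11128364401) (nat_lit 0) (nat_lit 1051345582) (nat_lit 33) (nat_lit 5) (nat_lit 36) (nat_lit 4) (nat_lit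 33) (nat_lit 4) (nat_lit 640) (nat_lit 461) (nat_lit 459)))) (XT.nd (nat_lit 156) (nat_lit 228) (nat_lit 0) (XT.nd (nat_lit 78) (nat_lit 76) (nat_lit 0) (XT.lf (nat_lit 0) (nat_lit 1004449086) (nat_lit 152) (nat_lit 7130379009) (nat_lit 152) (nat_lit 6002001944) (nat_lit 31) (nat_lit 4) (nat_lit 33) (nat_lit 5) (nat_lit 33) (nat_lit 4) (nat_lit 641) (nat_lit 461) (nat_lit 458)) (XT.lf (nat_lit 0) (nat_lit 283116152) (nat_lit 228) (nat_lit 917955454) (nat_lit 76) (nat_lit 13084987577) (nat_lit 30) (nat_lit 5) (nat_lit 33) (nat_lit 5) (nat_lit 31) (nat_lit 4) (nat_lit 642) (nat_lit 461) (nat_lit 457))) (XT.nd (nat_lit 78) (nat_lit 152) (nat_lit 0) (XT.lf (nat_lit 0) (nat_lit 6634339366) (nat_lit 152) (nat_lit 2976460940) (nat_lit 0) (nat_lit 4826265449) (nat_lit 29) (nat_lit 5) (nat_lit 31) (nat_lit 4) (nat_lit 29) (nat_lit 4) (nat_lit 643) (nat_lit 461) (nat_lit 456)) (XT.lf (nat_lit 0) (nat_lit 9465418911) (nat_lit 152) (nat_lit 3637285441) (nat_lit 152) (nat_lit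 1488587426) (nat_lit 27) (nat_lit 4) (nat_lit 29) (nat_lit 5) (nat_lit 29) (nat_lit 4) (nat_lit 644) (nat_lit 461) (nat_lit 455))))))))
noncomputable def xc1 : XT := (XT.nd (nat_lit 161694) (nat_lit 0) (nat_lit 0) (XT.nd (nat_lit 80886) (nat_lit 0) (nat_lit 0) (XT.nd (nat_lit 468) (nat_lit 304) (nat_lit 0) (XT.nd (nat_lit 234) (nat_lit 304) (nat_lit 0) (XT.nd (nat_lit 78) (nat_lit 304) (nat_lit 0) (XT.lf (nat_lit 0) (nat_lit 4885461889) (nat_lit 152) (nat_lit 7411029630) (nat_lit 0) (nat_lit 2451497958) (nat_lit 25) (nat_lit 5) (nat_lit 27) (nat_lit 4) (nat_lit 25) (nat_lit 4) (nat_lit 645) (nat_lit 461) (nat_lit 454)) (XT.nd (nat_lit 78) (nat_lit 152) (nat_lit 0) (XT.lf (nat_lit 0) (nat_lit 5084708470) (nat_lit 152) (nat_lit 6288864403) (nat_lit 152) (nat_lit 3533922776) (nat_lit 23) (nat_lit 4) (nat_lit 25) (nat_lit 5) (nat_lit 25) (nat_lit 4) (nat_lit 646) (nat_lit 461) (nat_lit 453)) (XT.lf (nat_lit 0) (nat_lit 2718693845) (nat_lit 76) (nat_lit 146810851) (nat_lit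 152) (nat_lit 12204658159) (nat_lit 21) (nat_lit 5) (nat_lit 22) (nat_lit 5) (nat_lit 23) (nat_lit 4) (nat_lit 647) (nat_lit 461) (nat_lit 452)))) (XT.nd (nat_lit 78) (nat_lit 152) (nat_lit 0) (XT.lf (nat_lit 0) (nat_lit 188850360) (nat_lit 152) (nat_lit 9179110751) (nat_lit 152) (nat_lit 5867209396) (nat_lit 19) (nat_lit 4) (nat_lit 21) (nat_lit 5) (nat_lit 21) (nat_lit 4) (nat_lit 648) (nat_lit 461) (nat_lit 451)) (XT.nd (nat_lit 78) (nat_lit 76) (nat_lit 0) (XT.lf (nat_lit 0) (nat_lit 588656633) (nat_lit 228) (nat_lit 2419348731) (nat_lit 76) (nat_lit 12395406890) (nat_lit 18) (nat_lit 5) (nat_lit 21) (nat_lit 5) (nat_lit 19) (nat_lit 4) (nat_lit 649) (nat_lit 461) (nat_lit 450)) (XT.lf (nat_lit 0) (nat_lit 7101008283) (nat_lit 152) (nat_lit 5194809925) (nat_lit 0) (nat_lit 3278307774) (nat_lit 17) (nat_lit 5) (nat_lit 19) (nat_lit 4) (nat_lit 17) (nat_lit 4) (nat_lit 650) (nat_lit 461) (nat_lit 449))))) (XT.nd (nat_lit 80106) (nat_lit 0) (nat_lit 1520) (XT.nd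 (nat_lit 78) (nat_lit 152) (nat_lit 0) (XT.lf (nat_lit 0) (nat_lit 7642465293) (nat_lit 152) (nat_lit 6103932574) (nat_lit 152) (nat_lit 2001801665) (nat_lit 15) (nat_lit 4) (nat_lit 17) (nat_lit 5) (nat_lit 17) (nat_lit 4) (nat_lit 651) (nat_lit 461) (nat_lit 448)) (XT.nd (nat_lit 79950) (nat_lit 0) (nat_lit 2280) (XT.lf (nat_lit 0) (nat_lit 4523116049) (nat_lit 152) (nat_lit 11169513504) (nat_lit 0) (nat_lit 232839302) (nat_lit 13) (nat_lit 5) (nat_lit 15) (nat_lit 4) (nat_lit 13) (nat_lit 4) (nat_lit 652) (nat_lit 461) (nat_lit 447)) (XT.lf (nat_lit 0) (nat_lit 2321699217) (nat_lit 228) (nat_lit 2071153435) (nat_lit 0) (nat_lit 2321699217) (nat_lit 43) (nat_lit 5) (nat_lit 46) (nat_lit 4) (nat_lit 43) (nat_lit 4) (nat_lit 636) (nat_lit 462) (nat_lit 462)))) (XT.nd (nat_lit 156) (nat_lit 380) (nat_lit 0) (XT.nd (nat_lit 78) (nat_lit 228) (nat_lit 0) (XT.lf (nat_lit 0) (nat_lit 7768647356) (nat_lit 152) (nat_lit 3102482148) (nat_lit 152) (nat_lit 2695404819) (nat_lit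 41) (nat_lit 4) (nat_lit 43) (nat_lit 5) (nat_lit 43) (nat_lit 4) (nat_lit 637) (nat_lit 462) (nat_lit 461)) (XT.lf (nat_lit 0) (nat_lit 3469961325) (nat_lit 228) (nat_lit 7556713931) (nat_lit 0) (nat_lit 2679595885) (nat_lit 38) (nat_lit 5) (nat_lit 41) (nat_lit 4) (nat_lit 38) (nat_lit 4) (nat_lit 638) (nat_lit 462) (nat_lit 460))) (XT.nd (nat_lit 78) (nat_lit 228) (nat_lit 0) (XT.lf (nat_lit 0) (nat_lit 4427576632) (nat_lit 152) (nat_lit 5297393288) (nat_lit 152) (nat_lit 4123429789) (nat_lit 36) (nat_lit 4) (nat_lit 38) (nat_lit 5) (nat_lit 38) (nat_lit 4) (nat_lit 639) (nat_lit 462) (nat_lit 459)) (XT.lf (nat_lit 0) (nat_lit 2069744660) (nat_lit 228) (nat_lit 11373541559) (nat_lit 0) (nat_lit 550097575) (nat_lit 33) (nat_lit 5) (nat_lit 36) (nat_lit 4) (nat_lit 33) (nat_lit 4) (nat_lit 640) (nat_lit 462) (nat_lit 458)))))) (XT.nd (nat_lit 546) (nat_lit 608) (nat_lit 0) (XT.nd (nat_lit 234) (nat_lit 608) (nat_lit 0) (XT.nd (nat_lit 78) (nat_lit 152) (nat_lit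 0) (XT.lf (nat_lit 0) (nat_lit 676427928) (nat_lit 152) (nat_lit 7672534270) (nat_lit 152) (nat_lit 5791414167) (nat_lit 31) (nat_lit 4) (nat_lit 33) (nat_lit 5) (nat_lit 33) (nat_lit 4) (nat_lit 641) (nat_lit 462) (nat_lit 457)) (XT.nd (nat_lit 78) (nat_lit 76) (nat_lit 0) (XT.lf (nat_lit 0) (nat_lit 448527461) (nat_lit 228) (nat_lit 1329479942) (nat_lit 76) (nat_lit 12512419894) (nat_lit 30) (nat_lit 5) (nat_lit 33) (nat_lit 5) (nat_lit 31) (nat_lit 4) (nat_lit 642) (nat_lit 462) (nat_lit 456)) (XT.lf (nat_lit 0) (nat_lit 6750956059) (nat_lit 152) (nat_lit 3472794542) (nat_lit 0) (nat_lit 4218659985) (nat_lit 29) (nat_lit 5) (nat_lit 31) (nat_lit 4) (nat_lit 29) (nat_lit 4) (nat_lit 643) (nat_lit 462) (nat_lit 455)))) (XT.nd (nat_lit 156) (nat_lit 304) (nat_lit 0) (XT.nd (nat_lit 78) (nat_lit 152) (nat_lit 0) (XT.lf (nat_lit 0) (nat_lit 8884325253) (nat_lit 152) (nat_lit 4289729381) (nat_lit 152) (nat_lit 1423488113) (nat_lit 27) (nat_lit 4) (nat_lit 29) (nat_lit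 5) (nat_lit 29) (nat_lit 4) (nat_lit 644) (nat_lit 462) (nat_lit 454)) (XT.lf (nat_lit 0) (nat_lit 4899387482) (nat_lit 152) (nat_lit 8087482358) (nat_lit 0) (nat_lit 1768369327) (nat_lit 25) (nat_lit 5) (nat_lit 27) (nat_lit 4) (nat_lit 25) (nat_lit 4) (nat_lit 645) (nat_lit 462) (nat_lit 453))) (XT.nd (nat_lit 78) (nat_lit 152) (nat_lit 0) (XT.lf (nat_lit 0) (nat_lit 4320971178) (nat_lit 152) (nat_lit 7020201802) (nat_lit 152) (nat_lit 3574499632) (nat_lit 23) (nat_lit 4) (nat_lit 25) (nat_lit 5) (nat_lit 25) (nat_lit 4) (nat_lit 646) (nat_lit 462) (nat_lit 452)) (XT.lf (nat_lit 0) (nat_lit 1858451194) (nat_lit 76) (nat_lit 920096877) (nat_lit 152) (nat_lit 12300735986) (nat_lit 21) (nat_lit 5) (nat_lit 22) (nat_lit 5) (nat_lit 23) (nat_lit 4) (nat_lit 647) (nat_lit 462) (nat_lit 451))))) (XT.nd (nat_lit 234) (nat_lit 304) (nat_lit 0) (XT.nd (nat_lit 78) (nat_lit 304) (nat_lit 0) (XT.lf (nat_lit 0) (nat_lit 9233510320) (nat_lit 152) (nat_lit 755359281) (nat_lit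 0) (nat_lit 5256372710) (nat_lit 21) (nat_lit 5) (nat_lit 23) (nat_lit 4) (nat_lit 21) (nat_lit 4) (nat_lit 648) (nat_lit 462) (nat_lit 450)) (XT.nd (nat_lit 78) (nat_lit 76) (nat_lit 0) (XT.lf (nat_lit 0) (nat_lit 399817565) (nat_lit 228) (nat_lit 3460225514) (nat_lit 76) (nat_lit 11554384674) (nat_lit 18) (nat_lit 5) (nat_lit 21) (nat_lit 5) (nat_lit 19) (nat_lit 4) (nat_lit 649) (nat_lit 462) (nat_lit 449)) (XT.lf (nat_lit 0) (nat_lit 6858609227) (nat_lit 152) (nat_lit 6332598832) (nat_lit 0) (nat_lit 2395005299) (nat_lit 17) (nat_lit 5) (nat_lit 19) (nat_lit 4) (nat_lit 17) (nat_lit 4) (nat_lit 650) (nat_lit 462) (nat_lit 448)))) (XT.nd (nat_lit 79872) (nat_lit 0) (nat_lit 2508) (XT.nd (nat_lit 78) (nat_lit 152) (nat_lit 0) (XT.lf (nat_lit 0) (nat_lit 6412561362) (nat_lit 152) (nat_lit 7043123891) (nat_lit 152) (nat_lit 2305568591) (nat_lit 15) (nat_lit 4) (nat_lit 17) (nat_lit 5) (nat_lit 17) (nat_lit 4) (nat_lit 651) (nat_lit 462) (nat_lit 447)) (XT.lf (nat_lit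 0) (nat_lit 3423008684) (nat_lit 76) (nat_lit 749834761) (nat_lit 152) (nat_lit 11766729597) (nat_lit 13) (nat_lit 5) (nat_lit 14) (nat_lit 5) (nat_lit 15) (nat_lit 4) (nat_lit 652) (nat_lit 462) (nat_lit 446))) (XT.nd (nat_lit 78) (nat_lit 152) (nat_lit 0) (XT.lf (nat_lit 0) (nat_lit 3034551902) (nat_lit 228) (nat_lit 511231712) (nat_lit 0) (nat_lit 3034551902) (nat_lit 48) (nat_lit 5) (nat_lit 51) (nat_lit 4) (nat_lit 48) (nat_lit 4) (nat_lit 634) (nat_lit 463) (nat_lit 463)) (XT.lf (nat_lit 0) (nat_lit 10731686331) (nat_lit 152) (nat_lit 1493119597) (nat_lit 152) (nat_lit 1069596344) (nat_lit 46) (nat_lit 4) (nat_lit 48) (nat_lit 5) (nat_lit 48) (nat_lit 4) (nat_lit 635) (nat_lit 463) (nat_lit 462))))))) (XT.nd (nat_lit 1014) (nat_lit 608) (nat_lit 0) (XT.nd (nat_lit 468) (nat_lit 760) (nat_lit 0) (XT.nd (nat_lit 234) (nat_lit 532) (nat_lit 0) (XT.nd (nat_lit 78) (nat_lit 380) (nat_lit 0) (XT.lf (nat_lit 0) (nat_lit 5015856501) (nat_lit 228) (nat_lit 4220543141)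 (nat_lit 0) (nat_lit 4193560297) (nat_lit 43) (nat_lit 5) (nat_lit 46) (nat_lit 4) (nat_lit 43) (nat_lit 4) (nat_lit 636) (nat_lit 463) (nat_lit 461)) (XT.nd (nat_lit 78) (nat_lit 228) (nat_lit 0) (XT.lf (nat_lit 0) (nat_lit 7611649808) (nat_lit 152) (nat_lit 3588996071) (nat_lit 152) (nat_lit 2367604447) (nat_lit 41) (nat_lit 4) (nat_lit 43) (nat_lit 5) (nat_lit 43) (nat_lit 4) (nat_lit 637) (nat_lit 463) (nat_lit 460)) (XT.lf (nat_lit 0) (nat_lit 3746646406) (nat_lit 228) (nat_lit 7796629844) (nat_lit 0) (nat_lit 2165605579) (nat_lit 38) (nat_lit 5) (nat_lit 41) (nat_lit 4) (nat_lit 38) (nat_lit 4) (nat_lit 638) (nat_lit 463) (nat_lit 459)))) (XT.nd (nat_lit 78) (nat_lit 380) (nat_lit 0) (XT.lf (nat_lit 0) (nat_lit 4106594465) (nat_lit 152) (nat_lit 5851205648) (nat_lit 152) (nat_lit 3894088292) (nat_lit 36) (nat_lit 4) (nat_lit 38) (nat_lit 5) (nat_lit 38) (nat_lit 4) (nat_lit 639) (nat_lit 463) (nat_lit 458)) (XT.nd (nat_lit 78) (nat_lit 152) (nat_lit 0) (XT.lf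 (nat_lit 0) (nat_lit 2215313670) (nat_lit 152) (nat_lit 32772222) (nat_lit 228) (nat_lit 11749717541) (nat_lit 33) (nat_lit 5) (nat_lit 35) (nat_lit 5) (nat_lit 36) (nat_lit 4) (nat_lit 640) (nat_lit 463) (nat_lit 457)) (XT.lf (nat_lit 0) (nat_lit 184235403) (nat_lit 152) (nat_lit 8298031513) (nat_lit 152) (nat_lit 5663430677) (nat_lit 31) (nat_lit 4) (nat_lit 33) (nat_lit 5) (nat_lit 33) (nat_lit 4) (nat_lit 641) (nat_lit 463) (nat_lit 456))))) (XT.nd (nat_lit 234) (nat_lit 456) (nat_lit 0) (XT.nd (nat_lit 78) (nat_lit 228) (nat_lit 0) (XT.lf (nat_lit 0) (nat_lit 533249511) (nat_lit 228) (nat_lit 1904873403) (nat_lit 76) (nat_lit 11858441476) (nat_lit 30) (nat_lit 5) (nat_lit 33) (nat_lit 5) (nat_lit 31) (nat_lit 4) (nat_lit 642) (nat_lit 463) (nat_lit 455)) (XT.nd (nat_lit 78) (nat_lit 152) (nat_lit 0) (XT.lf (nat_lit 0) (nat_lit 6786088082) (nat_lit 152) (nat_lit 4134875412) (nat_lit 0) (nat_lit 3528576794) (nat_lit 29) (nat_lit 5) (nat_lit 31) (nat_lit 4) (nat_lit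 29) (nat_lit 4) (nat_lit 643) (nat_lit 463) (nat_lit 454)) (XT.lf (nat_lit 0) (nat_lit 8136814259) (nat_lit 152) (nat_lit 5026839092) (nat_lit 152) (nat_lit 1441930555) (nat_lit 27) (nat_lit 4) (nat_lit 29) (nat_lit 5) (nat_lit 29) (nat_lit 4) (nat_lit 644) (nat_lit 463) (nat_lit 453)))) (XT.nd (nat_lit 156) (nat_lit 152) (nat_lit 0) (XT.nd (nat_lit 78) (nat_lit 152) (nat_lit 0) (XT.lf (nat_lit 0) (nat_lit 4830030657) (nat_lit 152) (nat_lit 8933545524) (nat_lit 0) (nat_lit 1000730428) (nat_lit 25) (nat_lit 5) (nat_lit 27) (nat_lit 4) (nat_lit 25) (nat_lit 4) (nat_lit 645) (nat_lit 463) (nat_lit 452)) (XT.lf (nat_lit 0) (nat_lit 3386904609) (nat_lit 152) (nat_lit 7838291283) (nat_lit 152) (nat_lit 3700477314) (nat_lit 23) (nat_lit 4) (nat_lit 25) (nat_lit 5) (nat_lit 25) (nat_lit 4) (nat_lit 646) (nat_lit 463) (nat_lit 451))) (XT.nd (nat_lit 78) (nat_lit 0) (nat_lit 0) (XT.lf (nat_lit 0) (nat_lit 825865680) (nat_lit 76) (nat_lit 1781136349) (nat_lit 152) (nat_lit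 12483244111) (nat_lit 21) (nat_lit 5) (nat_lit 22) (nat_lit 5) (nat_lit 23) (nat_lit 4) (nat_lit 647) (nat_lit 463) (nat_lit 450)) (XT.lf (nat_lit 0) (nat_lit 9015935271) (nat_lit 152) (nat_lit 1869188662) (nat_lit 0) (nat_lit 4372001745) (nat_lit 21) (nat_lit 5) (nat_lit 23) (nat_lit 4) (nat_lit 21) (nat_lit 4) (nat_lit 648) (nat_lit 463) (nat_lit 449)))))) (XT.nd (nat_lit 80106) (nat_lit 0) (nat_lit 1520) (XT.nd (nat_lit 234) (nat_lit 152) (nat_lit 0) (XT.nd (nat_lit 78) (nat_lit 228) (nat_lit 0) (XT.lf (nat_lit 0) (nat_lit 125590682) (nat_lit 228) (nat_lit 4675259355) (nat_lit 76) (nat_lit 10626447114) (nat_lit 18) (nat_lit 5) (nat_lit 21) (nat_lit 5) (nat_lit 19) (nat_lit 4) (nat_lit 649) (nat_lit 463) (nat_lit 448)) (XT.nd (nat_lit 78) (nat_lit 152) (nat_lit 0) (XT.lf (nat_lit 0) (nat_lit 6529899212) (nat_lit 152) (nat_lit 7646632436) (nat_lit 0) (nat_lit 1423641433) (nat_lit 17) (nat_lit 5) (nat_lit 19) (nat_lit 4) (nat_lit 17) (nat_lit 4) (nat_lit 650) (nat_lit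 463) (nat_lit 447)) (XT.lf (nat_lit 0) (nat_lit 5005580228) (nat_lit 152) (nat_lit 8072722498) (nat_lit 152) (nat_lit 2697884942) (nat_lit 15) (nat_lit 4) (nat_lit 17) (nat_lit 5) (nat_lit 17) (nat_lit 4) (nat_lit 651) (nat_lit 463) (nat_lit 446)))) (XT.nd (nat_lit 79716) (nat_lit 0) (nat_lit 2660) (XT.nd (nat_lit 79638) (nat_lit 0) (nat_lit 2888) (XT.lf (nat_lit 0) (nat_lit 1909257561) (nat_lit 76) (nat_lit 1827083341) (nat_lit 152) (nat_lit 12219204163) (nat_lit 13) (nat_lit 5) (nat_lit 14) (nat_lit 5) (nat_lit 15) (nat_lit 4) (nat_lit 652) (nat_lit 463) (nat_lit 445)) (XT.lf (nat_lit 0) (nat_lit 963703644) (nat_lit 228) (nat_lit 2743045092) (nat_lit 228) (nat_lit 2743045092) (nat_lit 51) (nat_lit 4) (nat_lit 54) (nat_lit 5) (nat_lit 54) (nat_lit 4) (nat_lit 632) (nat_lit 464) (nat_lit 464))) (XT.nd (nat_lit 78) (nat_lit 0) (nat_lit 0) (XT.lf (nat_lit 0) (nat_lit 451065333) (nat_lit 228) (nat_lit 12559727656) (nat_lit 0) (nat_lit 19071615) (nat_lit 48) (nat_lit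 5) (nat_lit 51) (nat_lit 4) (nat_lit 48) (nat_lit 4) (nat_lit 633) (nat_lit 464) (nat_lit 463)) (XT.lf (nat_lit 0) (nat_lit 6459014386) (nat_lit 228) (nat_lit 1099001918) (nat_lit 0) (nat_lit 5603497416) (nat_lit 48) (nat_lit 5) (nat_lit 51) (nat_lit 4) (nat_lit 48) (nat_lit 4) (nat_lit 634) (nat_lit 464) (nat_lit 462))))) (XT.nd (nat_lit 234) (nat_lit 608) (nat_lit 0) (XT.nd (nat_lit 78) (nat_lit 380) (nat_lit 0) (XT.lf (nat_lit 0) (nat_lit 10578095730) (nat_lit 152) (nat_lit 1994365593) (nat_lit 152) (nat_lit 723629747) (nat_lit 46) (nat_lit 4) (nat_lit 48) (nat_lit 5) (nat_lit 48) (nat_lit 4) (nat_lit 635) (nat_lit 464) (nat_lit 461)) (XT.nd (nat_lit 78) (nat_lit 152) (nat_lit 0) (XT.lf (nat_lit 0) (nat_lit 5311080562) (nat_lit 228) (nat_lit 4455282635) (nat_lit 0) (nat_lit 3666165685) (nat_lit 43) (nat_lit 5) (nat_lit 46) (nat_lit 4) (nat_lit 43) (nat_lit 4) (nat_lit 636) (nat_lit 464) (nat_lit 460)) (XT.lf (nat_lit 0) (nat_lit 7297593144) (nat_lit 152) (nat_lit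 4155137378) (nat_lit 152) (nat_lit 2118952481) (nat_lit 41) (nat_lit 4) (nat_lit 43) (nat_lit 5) (nat_lit 43) (nat_lit 4) (nat_lit 637) (nat_lit 464) (nat_lit 459)))) (XT.nd (nat_lit 156) (nat_lit 228) (nat_lit 0) (XT.nd (nat_lit 78) (nat_lit 152) (nat_lit 0) (XT.lf (nat_lit 0) (nat_lit 3944488054) (nat_lit 228) (nat_lit 8196594235) (nat_lit 0) (nat_lit 1572151824) (nat_lit 38) (nat_lit 5) (nat_lit 41) (nat_lit 4) (nat_lit 38) (nat_lit 4) (nat_lit 638) (nat_lit 464) (nat_lit 458)) (XT.lf (nat_lit 0) (nat_lit 3624963878) (nat_lit 152) (nat_lit 6486598996) (nat_lit 152) (nat_lit 3745560287) (nat_lit 36) (nat_lit 4) (nat_lit 38) (nat_lit 5) (nat_lit 38) (nat_lit 4) (nat_lit 639) (nat_lit 464) (nat_lit 457))) (XT.nd (nat_lit 78) (nat_lit 0) (nat_lit 0) (XT.lf (nat_lit 0) (nat_lit 1644600716) (nat_lit 152) (nat_lit 705454948) (nat_lit 228) (nat_lit 11653856301) (nat_lit 33) (nat_lit 5) (nat_lit 35) (nat_lit 5) (nat_lit 36) (nat_lit 4) (nat_lit 640) (nat_lit 464) (nat_lit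 456)) (XT.lf (nat_lit 0) (nat_lit 8537861149) (nat_lit 228) (nat_lit 466126923) (nat_lit 0) (nat_lit 5148746405) (nat_lit 33) (nat_lit 5) (nat_lit 36) (nat_lit 4) (nat_lit 33) (nat_lit 4) (nat_lit 641) (nat_lit 464) (nat_lit 455))))))))
noncomputable def xc2 : XT := (XT.nd (nat_lit 81510) (nat_lit 0) (nat_lit 76) (XT.nd (nat_lit 80418) (nat_lit 0) (nat_lit 912) (XT.nd (nat_lit 468) (nat_lit 684) (nat_lit 0) (XT.nd (nat_lit 234) (nat_lit 380) (nat_lit 0) (XT.nd (nat_lit 78) (nat_lit 228) (nat_lit 0) (XT.lf (nat_lit 0) (nat_lit 537315526) (nat_lit 228) (nat_lit 2644361479) (nat_lit 76) (nat_lit 11122795862) (nat_lit 30) (nat_lit 5) (nat_lit 33) (nat_lit 5) (nat_lit 31) (nat_lit 4) (nat_lit 642) (nat_lit 464) (nat_lit 454)) (XT.nd (nat_lit 78) (nat_lit 152) (nat_lit 0) (XT.lf (nat_lit 0) (nat_lit 6739749211) (nat_lit 152) (nat_lit 4962963191) (nat_lit 0) (nat_lit 2755745253) (nat_lit 29) (nat_lit 5) (nat_lit 31) (nat_lit 4) (nat_lit 29) (nat_lit 4) (nat_lit 643) (nat_lit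 464) (nat_lit 453)) (XT.lf (nat_lit 0) (nat_lit 7222592791) (nat_lit 152) (nat_lit 5848903638) (nat_lit 152) (nat_lit 1543921984) (nat_lit 27) (nat_lit 4) (nat_lit 29) (nat_lit 5) (nat_lit 29) (nat_lit 4) (nat_lit 644) (nat_lit 464) (nat_lit 452)))) (XT.nd (nat_lit 78) (nat_lit 228) (nat_lit 0) (XT.lf (nat_lit 0) (nat_lit 4677364216) (nat_lit 152) (nat_lit 9949550917) (nat_lit 0) (nat_lit 148280227) (nat_lit 25) (nat_lit 5) (nat_lit 27) (nat_lit 4) (nat_lit 25) (nat_lit 4) (nat_lit 645) (nat_lit 464) (nat_lit 451)) (XT.nd (nat_lit 78) (nat_lit 76) (nat_lit 0) (XT.lf (nat_lit 0) (nat_lit 2282142462) (nat_lit 152) (nat_lit 8743453667) (nat_lit 152) (nat_lit 3911905227) (nat_lit 23) (nat_lit 4) (nat_lit 25) (nat_lit 5) (nat_lit 25) (nat_lit 4) (nat_lit 646) (nat_lit 464) (nat_lit 450)) (XT.lf (nat_lit 0) (nat_lit 2353263053) (nat_lit 228) (nat_lit 374490847) (nat_lit 76) (nat_lit 12375250227) (nat_lit 22) (nat_lit 5) (nat_lit 25) (nat_lit 5) (nat_lit 23) (nat_lit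 4) (nat_lit 647) (nat_lit 464) (nat_lit 449))))) (XT.nd (nat_lit 234) (nat_lit 304) (nat_lit 0) (XT.nd (nat_lit 78) (nat_lit 304) (nat_lit 0) (XT.lf (nat_lit 0) (nat_lit 8713924500) (nat_lit 152) (nat_lit 3155551385) (nat_lit 0) (nat_lit 3401373907) (nat_lit 21) (nat_lit 5) (nat_lit 23) (nat_lit 4) (nat_lit 21) (nat_lit 4) (nat_lit 648) (nat_lit 464) (nat_lit 448)) (XT.nd (nat_lit 78) (nat_lit 152) (nat_lit 0) (XT.lf (nat_lit 0) (nat_lit 9375527609) (nat_lit 152) (nat_lit 5829224035) (nat_lit 152) (nat_lit 237243042) (nat_lit 19) (nat_lit 4) (nat_lit 21) (nat_lit 5) (nat_lit 21) (nat_lit 4) (nat_lit 649) (nat_lit 464) (nat_lit 447)) (XT.lf (nat_lit 0) (nat_lit 6114749332) (nat_lit 152) (nat_lit 9137426045) (nat_lit 0) (nat_lit 363835249) (nat_lit 17) (nat_lit 5) (nat_lit 19) (nat_lit 4) (nat_lit 17) (nat_lit 4) (nat_lit 650) (nat_lit 464) (nat_lit 446)))) (XT.nd (nat_lit 79560) (nat_lit 0) (nat_lit 3116) (XT.nd (nat_lit 78) (nat_lit 152) (nat_lit 0) (XT.lf (nat_lit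 0) (nat_lit 3420970133) (nat_lit 152) (nat_lit 9193132159) (nat_lit 152) (nat_lit 3178904569) (nat_lit 15) (nat_lit 4) (nat_lit 17) (nat_lit 5) (nat_lit 17) (nat_lit 4) (nat_lit 651) (nat_lit 464) (nat_lit 445)) (XT.lf (nat_lit 0) (nat_lit 215670829) (nat_lit 76) (nat_lit 2996234574) (nat_lit 152) (nat_lit 12761516420) (nat_lit 13) (nat_lit 5) (nat_lit 14) (nat_lit 5) (nat_lit 15) (nat_lit 4) (nat_lit 652) (nat_lit 464) (nat_lit 444))) (XT.nd (nat_lit 78) (nat_lit 228) (nat_lit 0) (XT.lf (nat_lit 0) (nat_lit 2355615060) (nat_lit 228) (nat_lit 1983628570) (nat_lit 228) (nat_lit 1983628570) (nat_lit 57) (nat_lit 4) (nat_lit 60) (nat_lit 5) (nat_lit 60) (nat_lit 4) (nat_lit 630) (nat_lit 465) (nat_lit 465)) (XT.lf (nat_lit 0) (nat_lit 1890733914) (nat_lit 228) (nat_lit 9440143751) (nat_lit 0) (nat_lit 1441287650) (nat_lit 54) (nat_lit 5) (nat_lit 57) (nat_lit 4) (nat_lit 54) (nat_lit 4) (nat_lit 631) (nat_lit 465) (nat_lit 464)))))) (XT.nd (nat_lit 546) (nat_lit 988)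 (nat_lit 0) (XT.nd (nat_lit 234) (nat_lit 760) (nat_lit 0) (XT.nd (nat_lit 78) (nat_lit 228) (nat_lit 0) (XT.lf (nat_lit 0) (nat_lit 1851544949) (nat_lit 228) (nat_lit 5969480993) (nat_lit 228) (nat_lit 5079401137) (nat_lit 51) (nat_lit 4) (nat_lit 54) (nat_lit 5) (nat_lit 54) (nat_lit 4) (nat_lit 632) (nat_lit 465) (nat_lit 463)) (XT.nd (nat_lit 78) (nat_lit 0) (nat_lit 0) (XT.lf (nat_lit 0) (nat_lit 313946891) (nat_lit 152) (nat_lit 495964229) (nat_lit 228) (nat_lit 12221591312) (nat_lit 48) (nat_lit 5) (nat_lit 50) (nat_lit 5) (nat_lit 51) (nat_lit 4) (nat_lit 633) (nat_lit 465) (nat_lit 462)) (XT.lf (nat_lit 0) (nat_lit 6773382070) (nat_lit 228) (nat_lit 1328647414) (nat_lit 0) (nat_lit 5062012632) (nat_lit 48) (nat_lit 5) (nat_lit 51) (nat_lit 4) (nat_lit 48) (nat_lit 4) (nat_lit 634) (nat_lit 465) (nat_lit 461)))) (XT.nd (nat_lit 156) (nat_lit 380) (nat_lit 0) (XT.nd (nat_lit 78) (nat_lit 228) (nat_lit 0) (XT.lf (nat_lit 0) (nat_lit 10270854297) (nat_lit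 152) (nat_lit 2573530899) (nat_lit 152) (nat_lit 455084132) (nat_lit 46) (nat_lit 4) (nat_lit 48) (nat_lit 5) (nat_lit 48) (nat_lit 4) (nat_lit 635) (nat_lit 465) (nat_lit 460)) (XT.lf (nat_lit 0) (nat_lit 5529186390) (nat_lit 228) (nat_lit 4846617405) (nat_lit 0) (nat_lit 3061007776) (nat_lit 43) (nat_lit 5) (nat_lit 46) (nat_lit 4) (nat_lit 43) (nat_lit 4) (nat_lit 636) (nat_lit 465) (nat_lit 459))) (XT.nd (nat_lit 78) (nat_lit 228) (nat_lit 0) (XT.lf (nat_lit 0) (nat_lit 6826354205) (nat_lit 152) (nat_lit 4801128085) (nat_lit 152) (nat_lit 1949351412) (nat_lit 41) (nat_lit 4) (nat_lit 43) (nat_lit 5) (nat_lit 43) (nat_lit 4) (nat_lit 637) (nat_lit 465) (nat_lit 458)) (XT.lf (nat_lit 0) (nat_lit 4063563854) (nat_lit 228) (nat_lit 8756763955) (nat_lit 0) (nat_lit 899001892) (nat_lit 38) (nat_lit 5) (nat_lit 41) (nat_lit 4) (nat_lit 38) (nat_lit 4) (nat_lit 638) (nat_lit 465) (nat_lit 457))))) (XT.nd (nat_lit 234) (nat_lit 608) (nat_lit 0) (XT.nd (nat_lit 78) (nat_lit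 228) (nat_lit 0) (XT.lf (nat_lit 0) (nat_lit 2982495993) (nat_lit 152) (nat_lit 7203822507) (nat_lit 152) (nat_lit 3677787526) (nat_lit 36) (nat_lit 4) (nat_lit 38) (nat_lit 5) (nat_lit 38) (nat_lit 4) (nat_lit 639) (nat_lit 465) (nat_lit 456)) (XT.nd (nat_lit 78) (nat_lit 0) (nat_lit 0) (XT.lf (nat_lit 0) (nat_lit 911171009) (nat_lit 152) (nat_lit 1460903892) (nat_lit 228) (nat_lit 11639709265) (nat_lit 33) (nat_lit 5) (nat_lit 35) (nat_lit 5) (nat_lit 36) (nat_lit 4) (nat_lit 640) (nat_lit 465) (nat_lit 455)) (XT.lf (nat_lit 0) (nat_lit 8514963884) (nat_lit 228) (nat_lit 1276535782) (nat_lit 0) (nat_lit 4370006166) (nat_lit 33) (nat_lit 5) (nat_lit 36) (nat_lit 4) (nat_lit 33) (nat_lit 4) (nat_lit 641) (nat_lit 465) (nat_lit 454)))) (XT.nd (nat_lit 156) (nat_lit 304) (nat_lit 0) (XT.nd (nat_lit 78) (nat_lit 76) (nat_lit 0) (XT.lf (nat_lit 0) (nat_lit 460727101) (nat_lit 228) (nat_lit 3548234168) (nat_lit 76) (nat_lit 10305194562) (nat_lit 30) (nat_lit 5) (nat_lit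 33) (nat_lit 5) (nat_lit 31) (nat_lit 4) (nat_lit 642) (nat_lit 465) (nat_lit 453)) (XT.lf (nat_lit 0) (nat_lit 6611921276) (nat_lit 152) (nat_lit 5957382618) (nat_lit 0) (nat_lit 1899862293) (nat_lit 29) (nat_lit 5) (nat_lit 31) (nat_lit 4) (nat_lit 29) (nat_lit 4) (nat_lit 643) (nat_lit 465) (nat_lit 452))) (XT.nd (nat_lit 78) (nat_lit 152) (nat_lit 0) (XT.lf (nat_lit 0) (nat_lit 6141302327) (nat_lit 152) (nat_lit 6756245396) (nat_lit 152) (nat_lit 1729502398) (nat_lit 27) (nat_lit 4) (nat_lit 29) (nat_lit 5) (nat_lit 29) (nat_lit 4) (nat_lit 644) (nat_lit 465) (nat_lit 451)) (XT.lf (nat_lit 0) (nat_lit 3646715995) (nat_lit 76) (nat_lit 799805159) (nat_lit 152) (nat_lit 10341284676) (nat_lit 25) (nat_lit 5) (nat_lit 26) (nat_lit 5) (nat_lit 27) (nat_lit 4) (nat_lit 645) (nat_lit 465) (nat_lit 450))))))) (XT.nd (nat_lit 80262) (nat_lit 0) (nat_lit 608) (XT.nd (nat_lit 468) (nat_lit 76) (nat_lit 0) (XT.nd (nat_lit 234) (nat_lit 456) (nat_lit 0) (XT.nd (nat_lit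 78) (nat_lit 152) (nat_lit 0) (XT.lf (nat_lit 0) (nat_lit 1006251497) (nat_lit 152) (nat_lit 9736043919) (nat_lit 152) (nat_lit 4208866282) (nat_lit 23) (nat_lit 4) (nat_lit 25) (nat_lit 5) (nat_lit 25) (nat_lit 4) (nat_lit 646) (nat_lit 465) (nat_lit 449)) (XT.nd (nat_lit 78) (nat_lit 76) (nat_lit 0) (XT.lf (nat_lit 0) (nat_lit 2021253645) (nat_lit 228) (nat_lit 1734964660) (nat_lit 76) (nat_lit 11361264277) (nat_lit 22) (nat_lit 5) (nat_lit 25) (nat_lit 5) (nat_lit 23) (nat_lit 4) (nat_lit 647) (nat_lit 465) (nat_lit 448)) (XT.lf (nat_lit 0) (nat_lit 8327359570) (nat_lit 152) (nat_lit 4614951907) (nat_lit 0) (nat_lit 2344108557) (nat_lit 21) (nat_lit 5) (nat_lit 23) (nat_lit 4) (nat_lit 21) (nat_lit 4) (nat_lit 648) (nat_lit 465) (nat_lit 447)))) (XT.nd (nat_lit 78) (nat_lit 304) (nat_lit 0) (XT.lf (nat_lit 0) (nat_lit 7824286187) (nat_lit 152) (nat_lit 6945722673) (nat_lit 152) (nat_lit 688520288) (nat_lit 19) (nat_lit 4) (nat_lit 21) (nat_lit 5) (nat_lit 21)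 (nat_lit 4) (nat_lit 649) (nat_lit 465) (nat_lit 446)) (XT.nd (nat_lit 78) (nat_lit 152) (nat_lit 0) (XT.lf (nat_lit 0) (nat_lit 4822901304) (nat_lit 76) (nat_lit 795258827) (nat_lit 152) (nat_lit 10015468806) (nat_lit 17) (nat_lit 5) (nat_lit 18) (nat_lit 5) (nat_lit 19) (nat_lit 4) (nat_lit 650) (nat_lit 465) (nat_lit 445)) (XT.lf (nat_lit 0) (nat_lit 1658109663) (nat_lit 152) (nat_lit 10404792252) (nat_lit 152) (nat_lit 3748816106) (nat_lit 15) (nat_lit 4) (nat_lit 17) (nat_lit 5) (nat_lit 17) (nat_lit 4) (nat_lit 651) (nat_lit 465) (nat_lit 444))))) (XT.nd (nat_lit 79482) (nat_lit 0) (nat_lit 2584) (XT.nd (nat_lit 79326) (nat_lit 0) (nat_lit 3496) (XT.lf (nat_lit 0) (nat_lit 2610098824) (nat_lit 228) (nat_lit 1636665242) (nat_lit 76) (nat_lit 11746230913) (nat_lit 14) (nat_lit 5) (nat_lit 17) (nat_lit 5) (nat_lit 15) (nat_lit 4) (nat_lit 652) (nat_lit 465) (nat_lit 443)) (XT.nd (nat_lit 78) (nat_lit 228) (nat_lit 0) (XT.lf (nat_lit 0) (nat_lit 3666169780) (nat_lit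 228) (nat_lit 1266675339) (nat_lit 228) (nat_lit 1266675339) (nat_lit 63) (nat_lit 4) (nat_lit 66) (nat_lit 5) (nat_lit 66) (nat_lit 4) (nat_lit 628) (nat_lit 466) (nat_lit 466)) (XT.lf (nat_lit 0) (nat_lit 3245532220) (nat_lit 228) (nat_lit 6498272280) (nat_lit 0) (nat_lit 2777928327) (nat_lit 60) (nat_lit 5) (nat_lit 63) (nat_lit 4) (nat_lit 60) (nat_lit 4) (nat_lit 629) (nat_lit 466) (nat_lit 465)))) (XT.nd (nat_lit 156) (nat_lit 456) (nat_lit 0) (XT.nd (nat_lit 78) (nat_lit 228) (nat_lit 0) (XT.lf (nat_lit 0) (nat_lit 4637034862) (nat_lit 228) (nat_lit 4467787552) (nat_lit 228) (nat_lit 3541748470) (nat_lit 57) (nat_lit 4) (nat_lit 60) (nat_lit 5) (nat_lit 60) (nat_lit 4) (nat_lit 630) (nat_lit 466) (nat_lit 464)) (XT.lf (nat_lit 0) (nat_lit 2265490107) (nat_lit 228) (nat_lit 9591375881) (nat_lit 0) (nat_lit 916975062) (nat_lit 54) (nat_lit 5) (nat_lit 57) (nat_lit 4) (nat_lit 54) (nat_lit 4) (nat_lit 631) (nat_lit 466) (nat_lit 463))) (XT.nd (nat_lit 78) (nat_lit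 228) (nat_lit 0) (XT.lf (nat_lit 0) (nat_lit 1623928180) (nat_lit 228) (nat_lit 6529763130) (nat_lit 228) (nat_lit 4749254367) (nat_lit 51) (nat_lit 4) (nat_lit 54) (nat_lit 5) (nat_lit 54) (nat_lit 4) (nat_lit 632) (nat_lit 466) (nat_lit 462)) (XT.lf (nat_lit 0) (nat_lit 4148418) (nat_lit 152) (nat_lit 1089010212) (nat_lit 228) (nat_lit 11941671923) (nat_lit 48) (nat_lit 5) (nat_lit 50) (nat_lit 5) (nat_lit 51) (nat_lit 4) (nat_lit 633) (nat_lit 466) (nat_lit 461)))))) (XT.nd (nat_lit 546) (nat_lit 836) (nat_lit 0) (XT.nd (nat_lit 234) (nat_lit 760) (nat_lit 0) (XT.nd (nat_lit 78) (nat_lit 380) (nat_lit 0) (XT.lf (nat_lit 0) (nat_lit 7012330136) (nat_lit 228) (nat_lit 1711489969) (nat_lit 0) (nat_lit 4444437105) (nat_lit 48) (nat_lit 5) (nat_lit 51) (nat_lit 4) (nat_lit 48) (nat_lit 4) (nat_lit 634) (nat_lit 466) (nat_lit 460)) (XT.nd (nat_lit 78) (nat_lit 228) (nat_lit 0) (XT.lf (nat_lit 0) (nat_lit 9809841545) (nat_lit 152) (nat_lit 3230842638) (nat_lit 152)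 (nat_lit 263854187) (nat_lit 46) (nat_lit 4) (nat_lit 48) (nat_lit 5) (nat_lit 48) (nat_lit 4) (nat_lit 635) (nat_lit 466) (nat_lit 459)) (XT.lf (nat_lit 0) (nat_lit 5670259517) (nat_lit 228) (nat_lit 5394700917) (nat_lit 0) (nat_lit 2377849252) (nat_lit 43) (nat_lit 5) (nat_lit 46) (nat_lit 4) (nat_lit 43) (nat_lit 4) (nat_lit 636) (nat_lit 466) (nat_lit 458)))) (XT.nd (nat_lit 156) (nat_lit 380) (nat_lit 0) (XT.nd (nat_lit 78) (nat_lit 228) (nat_lit 0) (XT.lf (nat_lit 0) (nat_lit 6197748191) (nat_lit 152) (nat_lit 5527221523) (nat_lit 152) (nat_lit 1858734729) (nat_lit 41) (nat_lit 4) (nat_lit 43) (nat_lit 5) (nat_lit 43) (nat_lit 4) (nat_lit 637) (nat_lit 466) (nat_lit 457)) (XT.lf (nat_lit 0) (nat_lit 4103920502) (nat_lit 228) (nat_lit 9477358676) (nat_lit 0) (nat_lit 145891804) (nat_lit 38) (nat_lit 5) (nat_lit 41) (nat_lit 4) (nat_lit 38) (nat_lit 4) (nat_lit 638) (nat_lit 466) (nat_lit 456))) (XT.nd (nat_lit 78) (nat_lit 228) (nat_lit 0) (XT.lf (nat_lit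 0) (nat_lit 2178938865) (nat_lit 152) (nat_lit 8003157443) (nat_lit 152) (nat_lit 3690743434) (nat_lit 36) (nat_lit 4) (nat_lit 38) (nat_lit 5) (nat_lit 38) (nat_lit 4) (nat_lit 639) (nat_lit 466) (nat_lit 455)) (XT.lf (nat_lit 0) (nat_lit 14736930) (nat_lit 152) (nat_lit 2299415307) (nat_lit 228) (nat_lit 11707270886) (nat_lit 33) (nat_lit 5) (nat_lit 35) (nat_lit 5) (nat_lit 36) (nat_lit 4) (nat_lit 640) (nat_lit 466) (nat_lit 454))))) (XT.nd (nat_lit 234) (nat_lit 532) (nat_lit 0) (XT.nd (nat_lit 78) (nat_lit 304) (nat_lit 0) (XT.lf (nat_lit 0) (nat_lit 8412369964) (nat_lit 228) (nat_lit 2249725261) (nat_lit 0) (nat_lit 3509943799) (nat_lit 33) (nat_lit 5) (nat_lit 36) (nat_lit 4) (nat_lit 33) (nat_lit 4) (nat_lit 641) (nat_lit 466) (nat_lit 453)) (XT.nd (nat_lit 78) (nat_lit 76) (nat_lit 0) (XT.lf (nat_lit 0) (nat_lit 303454201) (nat_lit 228) (nat_lit 4616845928) (nat_lit 76) (nat_lit 9405316949) (nat_lit 30) (nat_lit 5) (nat_lit 33) (nat_lit 5) (nat_lit 31)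 (nat_lit 4) (nat_lit 642) (nat_lit 466) (nat_lit 452)) (XT.lf (nat_lit 0) (nat_lit 6402554146) (nat_lit 152) (nat_lit 7118523662) (nat_lit 0) (nat_lit 960592273) (nat_lit 29) (nat_lit 5) (nat_lit 31) (nat_lit 4) (nat_lit 29) (nat_lit 4) (nat_lit 643) (nat_lit 466) (nat_lit 451)))) (XT.nd (nat_lit 156) (nat_lit 228) (nat_lit 0) (XT.nd (nat_lit 78) (nat_lit 152) (nat_lit 0) (XT.lf (nat_lit 0) (nat_lit 4892518835) (nat_lit 152) (nat_lit 7749220186) (nat_lit 152) (nat_lit 1998744573) (nat_lit 27) (nat_lit 4) (nat_lit 29) (nat_lit 5) (nat_lit 29) (nat_lit 4) (nat_lit 644) (nat_lit 466) (nat_lit 450)) (XT.lf (nat_lit 0) (nat_lit 2297243340) (nat_lit 76) (nat_lit 1836510820) (nat_lit 152) (nat_lit 10668461942) (nat_lit 25) (nat_lit 5) (nat_lit 26) (nat_lit 5) (nat_lit 27) (nat_lit 4) (nat_lit 645) (nat_lit 466) (nat_lit 449))) (XT.nd (nat_lit 78) (nat_lit 228) (nat_lit 0) (XT.lf (nat_lit 0) (nat_lit 10378047662) (nat_lit 152) (nat_lit 435481318) (nat_lit 0) (nat_lit 4153073309)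 (nat_lit 25) (nat_lit 5) (nat_lit 27) (nat_lit 4) (nat_lit 25) (nat_lit 4) (nat_lit 646) (nat_lit 466) (nat_lit 448)) (XT.lf (nat_lit 0) (nat_lit 1605481538) (nat_lit 228) (nat_lit 3266920653) (nat_lit 76) (nat_lit 10261392232) (nat_lit 22) (nat_lit 5) (nat_lit 25) (nat_lit 5) (nat_lit 23) (nat_lit 4) (nat_lit 647) (nat_lit 466) (nat_lit 447))))))))
noncomputable def xc3 : XT := (XT.nd (nat_lit 81198) (nat_lit 0) (nat_lit 0) (XT.nd (nat_lit 80106) (nat_lit 0) (nat_lit 608) (XT.nd (nat_lit 79560) (nat_lit 0) (nat_lit 2736) (XT.nd (nat_lit 234) (nat_lit 228) (nat_lit 0) (XT.nd (nat_lit 78) (nat_lit 304) (nat_lit 0) (XT.lf (nat_lit 0) (nat_lit 7856088887) (nat_lit 152) (nat_lit 6247962540) (nat_lit 0) (nat_lit 1199791082) (nat_lit 21) (nat_lit 5) (nat_lit 23) (nat_lit 4) (nat_lit 21) (nat_lit 4) (nat_lit 648) (nat_lit 466) (nat_lit 446)) (XT.nd (nat_lit 78) (nat_lit 152) (nat_lit 0) (XT.lf (nat_lit 0) (nat_lit 6098547981) (nat_lit 152) (nat_lit 8151626574) (nat_lit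 152) (nat_lit 1226748992) (nat_lit 19) (nat_lit 4) (nat_lit 21) (nat_lit 5) (nat_lit 21) (nat_lit 4) (nat_lit 649) (nat_lit 466) (nat_lit 445)) (XT.lf (nat_lit 0) (nat_lit 2988069375) (nat_lit 76) (nat_lit 2049683329) (nat_lit 152) (nat_lit 10615325901) (nat_lit 17) (nat_lit 5) (nat_lit 18) (nat_lit 5) (nat_lit 19) (nat_lit 4) (nat_lit 650) (nat_lit 466) (nat_lit 444)))) (XT.nd (nat_lit 78) (nat_lit 228) (nat_lit 0) (XT.lf (nat_lit 0) (nat_lit 11426327356) (nat_lit 152) (nat_lit 279971821) (nat_lit 0) (nat_lit 4125992467) (nat_lit 17) (nat_lit 5) (nat_lit 19) (nat_lit 4) (nat_lit 17) (nat_lit 4) (nat_lit 651) (nat_lit 466) (nat_lit 443)) (XT.nd (nat_lit 79170) (nat_lit 0) (nat_lit 4180) (XT.lf (nat_lit 0) (nat_lit 1922490377) (nat_lit 228) (nat_lit 3665030523) (nat_lit 76) (nat_lit 10426915202) (nat_lit 14) (nat_lit 5) (nat_lit 17) (nat_lit 5) (nat_lit 15) (nat_lit 4) (nat_lit 652) (nat_lit 466) (nat_lit 442)) (XT.lf (nat_lit 0) (nat_lit 4903236635) (nat_lit 228)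 (nat_lit 588195956) (nat_lit 228) (nat_lit 588195956) (nat_lit 69) (nat_lit 4) (nat_lit 72) (nat_lit 5) (nat_lit 72) (nat_lit 4) (nat_lit 626) (nat_lit 467) (nat_lit 467))))) (XT.nd (nat_lit 234) (nat_lit 760) (nat_lit 0) (XT.nd (nat_lit 78) (nat_lit 456) (nat_lit 0) (XT.lf (nat_lit 0) (nat_lit 4523606124) (nat_lit 228) (nat_lit 3717621533) (nat_lit 0) (nat_lit 4037111034) (nat_lit 66) (nat_lit 5) (nat_lit 69) (nat_lit 4) (nat_lit 66) (nat_lit 4) (nat_lit 627) (nat_lit 467) (nat_lit 466)) (XT.nd (nat_lit 78) (nat_lit 228) (nat_lit 0) (XT.lf (nat_lit 0) (nat_lit 7259785952) (nat_lit 228) (nat_lit 3051759984) (nat_lit 228) (nat_lit 2088308923) (nat_lit 63) (nat_lit 4) (nat_lit 66) (nat_lit 5) (nat_lit 66) (nat_lit 4) (nat_lit 628) (nat_lit 467) (nat_lit 465)) (XT.lf (nat_lit 0) (nat_lit 3640098423) (nat_lit 228) (nat_lit 6646181071) (nat_lit 0) (nat_lit 2237103370) (nat_lit 60) (nat_lit 5) (nat_lit 63) (nat_lit 4) (nat_lit 60) (nat_lit 4) (nat_lit 629) (nat_lit 467)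 (nat_lit 464)))) (XT.nd (nat_lit 156) (nat_lit 304) (nat_lit 0) (XT.nd (nat_lit 78) (nat_lit 228) (nat_lit 0) (XT.lf (nat_lit 0) (nat_lit 4414419992) (nat_lit 228) (nat_lit 5043535994) (nat_lit 228) (nat_lit 3191094677) (nat_lit 57) (nat_lit 4) (nat_lit 60) (nat_lit 5) (nat_lit 60) (nat_lit 4) (nat_lit 630) (nat_lit 467) (nat_lit 463)) (XT.lf (nat_lit 0) (nat_lit 2565703193) (nat_lit 228) (nat_lit 9893899449) (nat_lit 0) (nat_lit 317590537) (nat_lit 54) (nat_lit 5) (nat_lit 57) (nat_lit 4) (nat_lit 54) (nat_lit 4) (nat_lit 631) (nat_lit 467) (nat_lit 462))) (XT.nd (nat_lit 78) (nat_lit 76) (nat_lit 0) (XT.lf (nat_lit 0) (nat_lit 1244467721) (nat_lit 228) (nat_lit 7167156313) (nat_lit 228) (nat_lit 4495520405) (nat_lit 51) (nat_lit 4) (nat_lit 54) (nat_lit 5) (nat_lit 54) (nat_lit 4) (nat_lit 632) (nat_lit 467) (nat_lit 461)) (XT.lf (nat_lit 0) (nat_lit 1303775236) (nat_lit 304) (nat_lit 453228805) (nat_lit 76) (nat_lit 11282789102) (nat_lit 50) (nat_lit 5) (nat_lit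 54) (nat_lit 5) (nat_lit 51) (nat_lit 4) (nat_lit 633) (nat_lit 467) (nat_lit 460)))))) (XT.nd (nat_lit 546) (nat_lit 988) (nat_lit 0) (XT.nd (nat_lit 234) (nat_lit 608) (nat_lit 0) (XT.nd (nat_lit 78) (nat_lit 380) (nat_lit 0) (XT.lf (nat_lit 0) (nat_lit 7175952289) (nat_lit 228) (nat_lit 2247679718) (nat_lit 0) (nat_lit 3750528649) (nat_lit 48) (nat_lit 5) (nat_lit 51) (nat_lit 4) (nat_lit 48) (nat_lit 4) (nat_lit 634) (nat_lit 467) (nat_lit 459)) (XT.nd (nat_lit 78) (nat_lit 228) (nat_lit 0) (XT.lf (nat_lit 0) (nat_lit 9194876684) (nat_lit 152) (nat_lit 3966558581) (nat_lit 152) (nat_lit 149864921) (nat_lit 46) (nat_lit 4) (nat_lit 48) (nat_lit 5) (nat_lit 48) (nat_lit 4) (nat_lit 635) (nat_lit 467) (nat_lit 458)) (XT.lf (nat_lit 0) (nat_lit 5734355266) (nat_lit 228) (nat_lit 6099748106) (nat_lit 0) (nat_lit 1616422209) (nat_lit 43) (nat_lit 5) (nat_lit 46) (nat_lit 4) (nat_lit 43) (nat_lit 4) (nat_lit 636) (nat_lit 467) (nat_lit 457)))) (XT.nd (nat_lit 156)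 (nat_lit 228) (nat_lit 0) (XT.nd (nat_lit 78) (nat_lit 228) (nat_lit 0) (XT.lf (nat_lit 0) (nat_lit 5411528590) (nat_lit 152) (nat_lit 6333702432) (nat_lit 152) (nat_lit 1847066897) (nat_lit 41) (nat_lit 4) (nat_lit 43) (nat_lit 5) (nat_lit 43) (nat_lit 4) (nat_lit 637) (nat_lit 467) (nat_lit 456)) (XT.lf (nat_lit 0) (nat_lit 3373486735) (nat_lit 152) (nat_lit 696609942) (nat_lit 228) (nat_lit 9666573897) (nat_lit 38) (nat_lit 5) (nat_lit 40) (nat_lit 5) (nat_lit 41) (nat_lit 4) (nat_lit 638) (nat_lit 467) (nat_lit 455))) (XT.nd (nat_lit 78) (nat_lit 76) (nat_lit 0) (XT.lf (nat_lit 0) (nat_lit 1213977372) (nat_lit 152) (nat_lit 8884917271) (nat_lit 152) (nat_lit 3784433089) (nat_lit 36) (nat_lit 4) (nat_lit 38) (nat_lit 5) (nat_lit 38) (nat_lit 4) (nat_lit 639) (nat_lit 467) (nat_lit 454)) (XT.lf (nat_lit 0) (nat_lit 2183050136) (nat_lit 228) (nat_lit 1031347005) (nat_lit 76) (nat_lit 10818299771) (nat_lit 35) (nat_lit 5) (nat_lit 38) (nat_lit 5) (nat_lit 36) (nat_lit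 4) (nat_lit 640) (nat_lit 467) (nat_lit 453))))) (XT.nd (nat_lit 234) (nat_lit 532) (nat_lit 0) (XT.nd (nat_lit 78) (nat_lit 304) (nat_lit 0) (XT.lf (nat_lit 0) (nat_lit 8230039155) (nat_lit 228) (nat_lit 3386077001) (nat_lit 0) (nat_lit 2568222023) (nat_lit 33) (nat_lit 5) (nat_lit 36) (nat_lit 4) (nat_lit 33) (nat_lit 4) (nat_lit 641) (nat_lit 467) (nat_lit 452)) (XT.nd (nat_lit 78) (nat_lit 76) (nat_lit 0) (XT.lf (nat_lit 0) (nat_lit 65435150) (nat_lit 228) (nat_lit 5850615823) (nat_lit 76) (nat_lit 8422810130) (nat_lit 30) (nat_lit 5) (nat_lit 33) (nat_lit 5) (nat_lit 31) (nat_lit 4) (nat_lit 642) (nat_lit 467) (nat_lit 451)) (XT.lf (nat_lit 0) (nat_lit 6048713610) (nat_lit 76) (nat_lit 63262851) (nat_lit 152) (nat_lit 8383989564) (nat_lit 29) (nat_lit 5) (nat_lit 30) (nat_lit 5) (nat_lit 31) (nat_lit 4) (nat_lit 643) (nat_lit 467) (nat_lit 450)))) (XT.nd (nat_lit 156) (nat_lit 228) (nat_lit 0) (XT.nd (nat_lit 78) (nat_lit 152) (nat_lit 0) (XT.lf (nat_lit 0)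 (nat_lit 3475752594) (nat_lit 152) (nat_lit 8828217411) (nat_lit 152) (nat_lit 2351754094) (nat_lit 27) (nat_lit 4) (nat_lit 29) (nat_lit 5) (nat_lit 29) (nat_lit 4) (nat_lit 644) (nat_lit 467) (nat_lit 449)) (XT.lf (nat_lit 0) (nat_lit 777692310) (nat_lit 76) (nat_lit 2960272741) (nat_lit 152) (nat_lit 11080486287) (nat_lit 25) (nat_lit 5) (nat_lit 26) (nat_lit 5) (nat_lit 27) (nat_lit 4) (nat_lit 645) (nat_lit 467) (nat_lit 448))) (XT.nd (nat_lit 78) (nat_lit 228) (nat_lit 0) (XT.lf (nat_lit 0) (nat_lit 9937495163) (nat_lit 152) (nat_lit 2033955394) (nat_lit 0) (nat_lit 3012282926) (nat_lit 25) (nat_lit 5) (nat_lit 27) (nat_lit 4) (nat_lit 25) (nat_lit 4) (nat_lit 646) (nat_lit 467) (nat_lit 447)) (XT.lf (nat_lit 0) (nat_lit 1105783684) (nat_lit 228) (nat_lit 4970959593) (nat_lit 76) (nat_lit 9075202770) (nat_lit 22) (nat_lit 5) (nat_lit 25) (nat_lit 5) (nat_lit 23) (nat_lit 4) (nat_lit 647) (nat_lit 467) (nat_lit 446))))))) (XT.nd (nat_lit 80028) (nat_lit 0)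 (nat_lit 836) (XT.nd (nat_lit 79482) (nat_lit 0) (nat_lit 2812) (XT.nd (nat_lit 234) (nat_lit 228) (nat_lit 0) (XT.nd (nat_lit 78) (nat_lit 304) (nat_lit 0) (XT.lf (nat_lit 0) (nat_lit 7267685450) (nat_lit 76) (nat_lit 32452896) (nat_lit 152) (nat_lit 8022981492) (nat_lit 21) (nat_lit 5) (nat_lit 22) (nat_lit 5) (nat_lit 23) (nat_lit 4) (nat_lit 648) (nat_lit 467) (nat_lit 445)) (XT.nd (nat_lit 78) (nat_lit 152) (nat_lit 0) (XT.lf (nat_lit 0) (nat_lit 4197636230) (nat_lit 152) (nat_lit 9447408641) (nat_lit 152) (nat_lit 1852140224) (nat_lit 19) (nat_lit 4) (nat_lit 21) (nat_lit 5) (nat_lit 21) (nat_lit 4) (nat_lit 649) (nat_lit 467) (nat_lit 444)) (XT.lf (nat_lit 0) (nat_lit 975810778) (nat_lit 76) (nat_lit 3395095010) (nat_lit 152) (nat_lit 11303509344) (nat_lit 17) (nat_lit 5) (nat_lit 18) (nat_lit 5) (nat_lit 19) (nat_lit 4) (nat_lit 650) (nat_lit 467) (nat_lit 443)))) (XT.nd (nat_lit 79092) (nat_lit 0) (nat_lit 4408) (XT.nd (nat_lit 78) (nat_lit 228) (nat_lit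 0) (XT.lf (nat_lit 0) (nat_lit 10714218635) (nat_lit 152) (nat_lit 2373653246) (nat_lit 0) (nat_lit 2766662128) (nat_lit 17) (nat_lit 5) (nat_lit 19) (nat_lit 4) (nat_lit 17) (nat_lit 4) (nat_lit 651) (nat_lit 467) (nat_lit 442)) (XT.lf (nat_lit 0) (nat_lit 1147410134) (nat_lit 228) (nat_lit 5873049013) (nat_lit 76) (nat_lit 9017322461) (nat_lit 14) (nat_lit 5) (nat_lit 17) (nat_lit 5) (nat_lit 15) (nat_lit 4) (nat_lit 652) (nat_lit 467) (nat_lit 441))) (XT.nd (nat_lit 78) (nat_lit 0) (nat_lit 0) (XT.lf (nat_lit 0) (nat_lit 55890797) (nat_lit 304) (nat_lit 5851282605) (nat_lit 0) (nat_lit 55890797) (nat_lit 72) (nat_lit 5) (nat_lit 76) (nat_lit 4) (nat_lit 72) (nat_lit 4) (nat_lit 624) (nat_lit 468) (nat_lit 468)) (XT.lf (nat_lit 0) (nat_lit 5732535762) (nat_lit 304) (nat_lit 1082846794) (nat_lit 0) (nat_lit 5226386270) (nat_lit 72) (nat_lit 5) (nat_lit 76) (nat_lit 4) (nat_lit 72) (nat_lit 4) (nat_lit 625) (nat_lit 468) (nat_lit 467))))) (XT.nd (nat_lit 234) (nat_lit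 912) (nat_lit 0) (XT.nd (nat_lit 78) (nat_lit 456) (nat_lit 0) (XT.lf (nat_lit 0) (nat_lit 9735536670) (nat_lit 228) (nat_lit 1713448352) (nat_lit 228) (nat_lit 711073868) (nat_lit 69) (nat_lit 4) (nat_lit 72) (nat_lit 5) (nat_lit 72) (nat_lit 4) (nat_lit 626) (nat_lit 468) (nat_lit 466)) (XT.nd (nat_lit 78) (nat_lit 228) (nat_lit 0) (XT.lf (nat_lit 0) (nat_lit 4938691097) (nat_lit 228) (nat_lit 3862257685) (nat_lit 0) (nat_lit 3479015044) (nat_lit 66) (nat_lit 5) (nat_lit 69) (nat_lit 4) (nat_lit 66) (nat_lit 4) (nat_lit 627) (nat_lit 468) (nat_lit 465)) (XT.lf (nat_lit 0) (nat_lit 7042096673) (nat_lit 228) (nat_lit 3643740141) (nat_lit 228) (nat_lit 1716460194) (nat_lit 63) (nat_lit 4) (nat_lit 66) (nat_lit 5) (nat_lit 66) (nat_lit 4) (nat_lit 628) (nat_lit 468) (nat_lit 464)))) (XT.nd (nat_lit 156) (nat_lit 456) (nat_lit 0) (XT.nd (nat_lit 78) (nat_lit 228) (nat_lit 0) (XT.lf (nat_lit 0) (nat_lit 3961781669) (nat_lit 228) (nat_lit 6942056657) (nat_lit 0) (nat_lit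 1622845262) (nat_lit 60) (nat_lit 5) (nat_lit 63) (nat_lit 4) (nat_lit 60) (nat_lit 4) (nat_lit 629) (nat_lit 468) (nat_lit 463)) (XT.lf (nat_lit 0) (nat_lit 4043298210) (nat_lit 228) (nat_lit 5694728250) (nat_lit 228) (nat_lit 2915158250) (nat_lit 57) (nat_lit 4) (nat_lit 60) (nat_lit 5) (nat_lit 60) (nat_lit 4) (nat_lit 630) (nat_lit 468) (nat_lit 462))) (XT.nd (nat_lit 78) (nat_lit 228) (nat_lit 0) (XT.lf (nat_lit 0) (nat_lit 2431993588) (nat_lit 152) (nat_lit 361846661) (nat_lit 228) (nat_lit 9988335778) (nat_lit 54) (nat_lit 5) (nat_lit 56) (nat_lit 5) (nat_lit 57) (nat_lit 4) (nat_lit 631) (nat_lit 468) (nat_lit 461)) (XT.lf (nat_lit 0) (nat_lit 713014763) (nat_lit 228) (nat_lit 7881910501) (nat_lit 228) (nat_lit 4318099746) (nat_lit 51) (nat_lit 4) (nat_lit 54) (nat_lit 5) (nat_lit 54) (nat_lit 4) (nat_lit 632) (nat_lit 468) (nat_lit 460)))))) (XT.nd (nat_lit 546) (nat_lit 836) (nat_lit 0) (XT.nd (nat_lit 234) (nat_lit 760) (nat_lit 0) (XT.nd (nat_lit 78)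 (nat_lit 304) (nat_lit 0) (XT.lf (nat_lit 0) (nat_lit 1439885995) (nat_lit 304) (nat_lit 1062318372) (nat_lit 76) (nat_lit 10544226935) (nat_lit 50) (nat_lit 5) (nat_lit 54) (nat_lit 5) (nat_lit 51) (nat_lit 4) (nat_lit 633) (nat_lit 468) (nat_lit 459)) (XT.nd (nat_lit 78) (nat_lit 152) (nat_lit 0) (XT.lf (nat_lit 0) (nat_lit 7264312695) (nat_lit 228) (nat_lit 2937426931) (nat_lit 0) (nat_lit 2980015143) (nat_lit 48) (nat_lit 5) (nat_lit 51) (nat_lit 4) (nat_lit 48) (nat_lit 4) (nat_lit 634) (nat_lit 468) (nat_lit 458)) (XT.lf (nat_lit 0) (nat_lit 8425718551) (nat_lit 152) (nat_lit 4780967242) (nat_lit 152) (nat_lit 113071631) (nat_lit 46) (nat_lit 4) (nat_lit 48) (nat_lit 5) (nat_lit 48) (nat_lit 4) (nat_lit 635) (nat_lit 468) (nat_lit 457)))) (XT.nd (nat_lit 156) (nat_lit 380) (nat_lit 0) (XT.nd (nat_lit 78) (nat_lit 152) (nat_lit 0) (XT.lf (nat_lit 0) (nat_lit 5721498773) (nat_lit 228) (nat_lit 6962035460) (nat_lit 0) (nat_lit 776428048) (nat_lit 43) (nat_lit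 5) (nat_lit 46) (nat_lit 4) (nat_lit 43) (nat_lit 4) (nat_lit 636) (nat_lit 468) (nat_lit 456)) (XT.lf (nat_lit 0) (nat_lit 4467387080) (nat_lit 152) (nat_lit 7220887082) (nat_lit 152) (nat_lit 1914343339) (nat_lit 41) (nat_lit 4) (nat_lit 43) (nat_lit 5) (nat_lit 43) (nat_lit 4) (nat_lit 637) (nat_lit 468) (nat_lit 455))) (XT.nd (nat_lit 78) (nat_lit 152) (nat_lit 0) (XT.lf (nat_lit 0) (nat_lit 2336340736) (nat_lit 152) (nat_lit 1622703714) (nat_lit 228) (nat_lit 9788848446) (nat_lit 38) (nat_lit 5) (nat_lit 40) (nat_lit 5) (nat_lit 41) (nat_lit 4) (nat_lit 638) (nat_lit 468) (nat_lit 454)) (XT.lf (nat_lit 0) (nat_lit 87233098) (nat_lit 152) (nat_lit 9849447778) (nat_lit 152) (nat_lit 3958893234) (nat_lit 36) (nat_lit 4) (nat_lit 38) (nat_lit 5) (nat_lit 38) (nat_lit 4) (nat_lit 639) (nat_lit 468) (nat_lit 453))))) (XT.nd (nat_lit 234) (nat_lit 456) (nat_lit 0) (XT.nd (nat_lit 78) (nat_lit 304) (nat_lit 0) (XT.lf (nat_lit 0) (nat_lit 1973088341) (nat_lit 228)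 (nat_lit 2238861289) (nat_lit 76) (nat_lit 9833772901) (nat_lit 35) (nat_lit 5) (nat_lit 38) (nat_lit 5) (nat_lit 36) (nat_lit 4) (nat_lit 640) (nat_lit 468) (nat_lit 452)) (XT.nd (nat_lit 78) (nat_lit 152) (nat_lit 0) (XT.lf (nat_lit 0) (nat_lit 7967899956) (nat_lit 228) (nat_lit 4686036633) (nat_lit 0) (nat_lit 1544471536) (nat_lit 33) (nat_lit 5) (nat_lit 36) (nat_lit 4) (nat_lit 33) (nat_lit 4) (nat_lit 641) (nat_lit 468) (nat_lit 451)) (XT.lf (nat_lit 0) (nat_lit 7102164812) (nat_lit 152) (nat_lit 6994903689) (nat_lit 152) (nat_lit 256791254) (nat_lit 31) (nat_lit 4) (nat_lit 33) (nat_lit 5) (nat_lit 33) (nat_lit 4) (nat_lit 642) (nat_lit 468) (nat_lit 450)))) (XT.nd (nat_lit 156) (nat_lit 152) (nat_lit 0) (XT.nd (nat_lit 78) (nat_lit 152) (nat_lit 0) (XT.lf (nat_lit 0) (nat_lit 4561377986) (nat_lit 76) (nat_lit 1185158727) (nat_lit 152) (nat_lit 8765393667) (nat_lit 29) (nat_lit 5) (nat_lit 30) (nat_lit 5) (nat_lit 31) (nat_lit 4) (nat_lit 643) (nat_lit 468)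 (nat_lit 449)) (XT.lf (nat_lit 0) (nat_lit 1890448009) (nat_lit 152) (nat_lit 9993660206) (nat_lit 152) (nat_lit 2788669395) (nat_lit 27) (nat_lit 4) (nat_lit 29) (nat_lit 5) (nat_lit 29) (nat_lit 4) (nat_lit 644) (nat_lit 468) (nat_lit 448))) (XT.nd (nat_lit 78) (nat_lit 76) (nat_lit 0) (XT.lf (nat_lit 0) (nat_lit 3264923384) (nat_lit 228) (nat_lit 900564962) (nat_lit 76) (nat_lit 10670911061) (nat_lit 26) (nat_lit 5) (nat_lit 29) (nat_lit 5) (nat_lit 27) (nat_lit 4) (nat_lit 645) (nat_lit 468) (nat_lit 447)) (XT.lf (nat_lit 0) (nat_lit 9413931899) (nat_lit 152) (nat_lit 3802994752) (nat_lit 0) (nat_lit 1785766010) (nat_lit 25) (nat_lit 5) (nat_lit 27) (nat_lit 4) (nat_lit 25) (nat_lit 4) (nat_lit 646) (nat_lit 468) (nat_lit 446))))))))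
noncomputable def xc4 : XT := (XT.nd (nat_lit 80886) (nat_lit 0) (nat_lit 76) (XT.nd (nat_lit 79794) (nat_lit 0) (nat_lit 1292) (XT.nd (nat_lit 79248) (nat_lit 0) (nat_lit 3724) (XT.nd (nat_lit 234) (nat_lit 380) (nat_lit 0) (XT.nd (nat_lit 78) (nat_lit 228) (nat_lit 0) (XT.lf (nat_lit 0) (nat_lit 521964123) (nat_lit 228) (nat_lit 6847749732) (nat_lit 76) (nat_lit 7802230717) (nat_lit 22) (nat_lit 5) (nat_lit 25) (nat_lit 5) (nat_lit 23) (nat_lit 4) (nat_lit 647) (nat_lit 468) (nat_lit 445)) (XT.nd (nat_lit 78) (nat_lit 152) (nat_lit 0) (XT.lf (nat_lit 0) (nat_lit 5297756671) (nat_lit 76) (nat_lit 1369794670) (nat_lit 152) (nat_lit 8676543008) (nat_lit 21) (nat_lit 5) (nat_lit 22) (nat_lit 5) (nat_lit 23) (nat_lit 4) (nat_lit 648) (nat_lit 468) (nat_lit 444)) (XT.lf (nat_lit 0) (nat_lit 2120805479) (nat_lit 152) (nat_lit 10833577025) (nat_lit 152) (nat_lit 2564939236) (nat_lit 19) (nat_lit 4) (nat_lit 21) (nat_lit 5) (nat_lit 21) (nat_lit 4) (nat_lit 649) (nat_lit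 468) (nat_lit 443)))) (XT.nd (nat_lit 78) (nat_lit 304) (nat_lit 0) (XT.lf (nat_lit 0) (nat_lit 3625244275) (nat_lit 228) (nat_lit 1198733075) (nat_lit 76) (nat_lit 10873511806) (nat_lit 18) (nat_lit 5) (nat_lit 21) (nat_lit 5) (nat_lit 19) (nat_lit 4) (nat_lit 650) (nat_lit 468) (nat_lit 442)) (XT.nd (nat_lit 78) (nat_lit 228) (nat_lit 0) (XT.lf (nat_lit 0) (nat_lit 9915530946) (nat_lit 152) (nat_lit 4645502067) (nat_lit 0) (nat_lit 1317636132) (nat_lit 17) (nat_lit 5) (nat_lit 19) (nat_lit 4) (nat_lit 17) (nat_lit 4) (nat_lit 651) (nat_lit 468) (nat_lit 441)) (XT.lf (nat_lit 0) (nat_lit 284554143) (nat_lit 228) (nat_lit 8261586600) (nat_lit 76) (nat_lit 7516899907) (nat_lit 14) (nat_lit 5) (nat_lit 17) (nat_lit 5) (nat_lit 15) (nat_lit 4) (nat_lit 652) (nat_lit 468) (nat_lit 440))))) (XT.nd (nat_lit 234) (nat_lit 684) (nat_lit 0) (XT.nd (nat_lit 78) (nat_lit 532) (nat_lit 0) (XT.lf (nat_lit 0) (nat_lit 672365048) (nat_lit 304) (nat_lit 4504737642) (nat_lit 0)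 (nat_lit 672365048) (nat_lit 79) (nat_lit 5) (nat_lit 83) (nat_lit 4) (nat_lit 79) (nat_lit 4) (nat_lit 622) (nat_lit 469) (nat_lit 469)) (XT.nd (nat_lit 78) (nat_lit 304) (nat_lit 0) (XT.lf (nat_lit 0) (nat_lit 1439217203) (nat_lit 228) (nat_lit 5449508228) (nat_lit 228) (nat_lit 4922910296) (nat_lit 76) (nat_lit 4) (nat_lit 79) (nat_lit 5) (nat_lit 79) (nat_lit 4) (nat_lit 623) (nat_lit 469) (nat_lit 468)) (XT.lf (nat_lit 0) (nat_lit 150047988) (nat_lit 228) (nat_lit 440505675) (nat_lit 304) (nat_lit 11336325970) (nat_lit 72) (nat_lit 5) (nat_lit 75) (nat_lit 5) (nat_lit 76) (nat_lit 4) (nat_lit 624) (nat_lit 469) (nat_lit 467)))) (XT.nd (nat_lit 156) (nat_lit 456) (nat_lit 0) (XT.nd (nat_lit 78) (nat_lit 228) (nat_lit 0) (XT.lf (nat_lit 0) (nat_lit 6168878691) (nat_lit 304) (nat_lit 1224259428) (nat_lit 0) (nat_lit 4650231726) (nat_lit 72) (nat_lit 5) (nat_lit 76) (nat_lit 4) (nat_lit 72) (nat_lit 4) (nat_lit 625) (nat_lit 469) (nat_lit 466)) (XT.lf (nat_lit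 0) (nat_lit 9522699049) (nat_lit 228) (nat_lit 2322453798) (nat_lit 228) (nat_lit 317311742) (nat_lit 69) (nat_lit 4) (nat_lit 72) (nat_lit 5) (nat_lit 72) (nat_lit 4) (nat_lit 626) (nat_lit 469) (nat_lit 465))) (XT.nd (nat_lit 78) (nat_lit 228) (nat_lit 0) (XT.lf (nat_lit 0) (nat_lit 5282528730) (nat_lit 228) (nat_lit 4151586709) (nat_lit 0) (nat_lit 2849099291) (nat_lit 66) (nat_lit 5) (nat_lit 69) (nat_lit 4) (nat_lit 66) (nat_lit 4) (nat_lit 627) (nat_lit 469) (nat_lit 464)) (XT.lf (nat_lit 0) (nat_lit 6679186354) (nat_lit 228) (nat_lit 4309523296) (nat_lit 228) (nat_lit 1417658668) (nat_lit 63) (nat_lit 4) (nat_lit 66) (nat_lit 5) (nat_lit 66) (nat_lit 4) (nat_lit 628) (nat_lit 469) (nat_lit 463)))))) (XT.nd (nat_lit 546) (nat_lit 1140) (nat_lit 0) (XT.nd (nat_lit 234) (nat_lit 608) (nat_lit 0) (XT.nd (nat_lit 78) (nat_lit 456) (nat_lit 0) (XT.lf (nat_lit 0) (nat_lit 4210708107) (nat_lit 228) (nat_lit 7386015067) (nat_lit 0) (nat_lit 934913116) (nat_lit 60)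 (nat_lit 5) (nat_lit 63) (nat_lit 4) (nat_lit 60) (nat_lit 4) (nat_lit 629) (nat_lit 469) (nat_lit 462)) (XT.nd (nat_lit 78) (nat_lit 228) (nat_lit 0) (XT.lf (nat_lit 0) (nat_lit 3523523977) (nat_lit 228) (nat_lit 6421619688) (nat_lit 228) (nat_lit 2713830978) (nat_lit 57) (nat_lit 4) (nat_lit 60) (nat_lit 5) (nat_lit 60) (nat_lit 4) (nat_lit 630) (nat_lit 469) (nat_lit 461)) (XT.lf (nat_lit 0) (nat_lit 1828146714) (nat_lit 152) (nat_lit 1122080353) (nat_lit 228) (nat_lit 9838559757) (nat_lit 54) (nat_lit 5) (nat_lit 56) (nat_lit 5) (nat_lit 57) (nat_lit 4) (nat_lit 631) (nat_lit 469) (nat_lit 460)))) (XT.nd (nat_lit 156) (nat_lit 304) (nat_lit 0) (XT.nd (nat_lit 78) (nat_lit 76) (nat_lit 0) (XT.lf (nat_lit 0) (nat_lit 29360893) (nat_lit 228) (nat_lit 8674305988) (nat_lit 228) (nat_lit 4216922814) (nat_lit 51) (nat_lit 4) (nat_lit 54) (nat_lit 5) (nat_lit 54) (nat_lit 4) (nat_lit 632) (nat_lit 469) (nat_lit 459)) (XT.lf (nat_lit 0) (nat_lit 1501517349) (nat_lit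 304) (nat_lit 1823413547) (nat_lit 76) (nat_lit 9729817273) (nat_lit 50) (nat_lit 5) (nat_lit 54) (nat_lit 5) (nat_lit 51) (nat_lit 4) (nat_lit 633) (nat_lit 469) (nat_lit 458))) (XT.nd (nat_lit 78) (nat_lit 152) (nat_lit 0) (XT.lf (nat_lit 0) (nat_lit 7277446006) (nat_lit 228) (nat_lit 3781002098) (nat_lit 0) (nat_lit 2132594424) (nat_lit 48) (nat_lit 5) (nat_lit 51) (nat_lit 4) (nat_lit 48) (nat_lit 4) (nat_lit 634) (nat_lit 469) (nat_lit 457)) (XT.lf (nat_lit 0) (nat_lit 7502065517) (nat_lit 152) (nat_lit 5674387999) (nat_lit 152) (nat_lit 153459889) (nat_lit 46) (nat_lit 4) (nat_lit 48) (nat_lit 5) (nat_lit 48) (nat_lit 4) (nat_lit 635) (nat_lit 469) (nat_lit 456))))) (XT.nd (nat_lit 234) (nat_lit 532) (nat_lit 0) (XT.nd (nat_lit 78) (nat_lit 380) (nat_lit 0) (XT.lf (nat_lit 0) (nat_lit 5488266355) (nat_lit 152) (nat_lit 144355894) (nat_lit 228) (nat_lit 7838482491) (nat_lit 43) (nat_lit 5) (nat_lit 45) (nat_lit 5) (nat_lit 46) (nat_lit 4) (nat_lit 636) (nat_lit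 469) (nat_lit 455)) (XT.nd (nat_lit 78) (nat_lit 228) (nat_lit 0) (XT.lf (nat_lit 0) (nat_lit 3364953411) (nat_lit 152) (nat_lit 8189123386) (nat_lit 152) (nat_lit 2060590438) (nat_lit 41) (nat_lit 4) (nat_lit 43) (nat_lit 5) (nat_lit 43) (nat_lit 4) (nat_lit 637) (nat_lit 469) (nat_lit 454)) (XT.lf (nat_lit 0) (nat_lit 1138946595) (nat_lit 152) (nat_lit 2630813861) (nat_lit 228) (nat_lit 9991101089) (nat_lit 38) (nat_lit 5) (nat_lit 40) (nat_lit 5) (nat_lit 41) (nat_lit 4) (nat_lit 638) (nat_lit 469) (nat_lit 453)))) (XT.nd (nat_lit 156) (nat_lit 304) (nat_lit 0) (XT.nd (nat_lit 78) (nat_lit 228) (nat_lit 0) (XT.lf (nat_lit 0) (nat_lit 9703193861) (nat_lit 228) (nat_lit 1185974835) (nat_lit 0) (nat_lit 3020258933) (nat_lit 38) (nat_lit 5) (nat_lit 41) (nat_lit 4) (nat_lit 38) (nat_lit 4) (nat_lit 639) (nat_lit 469) (nat_lit 452)) (XT.lf (nat_lit 0) (nat_lit 1684088833) (nat_lit 228) (nat_lit 3608472734) (nat_lit 76) (nat_lit 8767945436) (nat_lit 35) (nat_lit 5)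 (nat_lit 38) (nat_lit 5) (nat_lit 36) (nat_lit 4) (nat_lit 640) (nat_lit 469) (nat_lit 451))) (XT.nd (nat_lit 78) (nat_lit 152) (nat_lit 0) (XT.lf (nat_lit 0) (nat_lit 7625849566) (nat_lit 228) (nat_lit 6150113942) (nat_lit 0) (nat_lit 438290867) (nat_lit 33) (nat_lit 5) (nat_lit 36) (nat_lit 4) (nat_lit 33) (nat_lit 4) (nat_lit 641) (nat_lit 469) (nat_lit 450)) (XT.lf (nat_lit 0) (nat_lit 5550705036) (nat_lit 152) (nat_lit 8158000207) (nat_lit 152) (nat_lit 661927768) (nat_lit 31) (nat_lit 4) (nat_lit 33) (nat_lit 5) (nat_lit 33) (nat_lit 4) (nat_lit 642) (nat_lit 469) (nat_lit 449))))))) (XT.nd (nat_lit 79638) (nat_lit 0) (nat_lit 2128) (XT.nd (nat_lit 468) (nat_lit 456) (nat_lit 0) (XT.nd (nat_lit 234) (nat_lit 380) (nat_lit 0) (XT.nd (nat_lit 78) (nat_lit 228) (nat_lit 0) (XT.lf (nat_lit 0) (nat_lit 2907002358) (nat_lit 76) (nat_lit 2392769547) (nat_lit 152) (nat_lit 9229923892) (nat_lit 29) (nat_lit 5) (nat_lit 30) (nat_lit 5) (nat_lit 31) (nat_lit 4) (nat_lit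 643) (nat_lit 469) (nat_lit 448)) (XT.nd (nat_lit 78) (nat_lit 76) (nat_lit 0) (XT.lf (nat_lit 0) (nat_lit 135983394) (nat_lit 152) (nat_lit 11246005609) (nat_lit 152) (nat_lit 3309661818) (nat_lit 27) (nat_lit 4) (nat_lit 29) (nat_lit 5) (nat_lit 29) (nat_lit 4) (nat_lit 644) (nat_lit 469) (nat_lit 447)) (XT.lf (nat_lit 0) (nat_lit 2714678289) (nat_lit 228) (nat_lit 2737712653) (nat_lit 76) (nat_lit 9403671715) (nat_lit 26) (nat_lit 5) (nat_lit 29) (nat_lit 5) (nat_lit 27) (nat_lit 4) (nat_lit 645) (nat_lit 469) (nat_lit 446)))) (XT.nd (nat_lit 78) (nat_lit 304) (nat_lit 0) (XT.lf (nat_lit 0) (nat_lit 8807152552) (nat_lit 152) (nat_lit 5743293135) (nat_lit 0) (nat_lit 473041573) (nat_lit 25) (nat_lit 5) (nat_lit 27) (nat_lit 4) (nat_lit 25) (nat_lit 4) (nat_lit 646) (nat_lit 469) (nat_lit 445)) (XT.nd (nat_lit 78) (nat_lit 152) (nat_lit 0) (XT.lf (nat_lit 0) (nat_lit 6294789656) (nat_lit 152) (nat_lit 8750839852) (nat_lit 152) (nat_lit 148149095) (nat_lit 23)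 (nat_lit 4) (nat_lit 25) (nat_lit 5) (nat_lit 25) (nat_lit 4) (nat_lit 647) (nat_lit 469) (nat_lit 444)) (XT.lf (nat_lit 0) (nat_lit 3153372343) (nat_lit 76) (nat_lit 2796814095) (nat_lit 152) (nat_lit 9416745699) (nat_lit 21) (nat_lit 5) (nat_lit 22) (nat_lit 5) (nat_lit 23) (nat_lit 4) (nat_lit 648) (nat_lit 469) (nat_lit 443))))) (XT.nd (nat_lit 234) (nat_lit 152) (nat_lit 0) (XT.nd (nat_lit 78) (nat_lit 304) (nat_lit 0) (XT.lf (nat_lit 0) (nat_lit 12178778563) (nat_lit 152) (nat_lit 131017561) (nat_lit 0) (nat_lit 3233528798) (nat_lit 21) (nat_lit 5) (nat_lit 23) (nat_lit 4) (nat_lit 21) (nat_lit 4) (nat_lit 649) (nat_lit 469) (nat_lit 442)) (XT.nd (nat_lit 78) (nat_lit 76) (nat_lit 0) (XT.lf (nat_lit 0) (nat_lit 2800084538) (nat_lit 228) (nat_lit 3537205196) (nat_lit 76) (nat_lit 9385027817) (nat_lit 18) (nat_lit 5) (nat_lit 21) (nat_lit 5) (nat_lit 19) (nat_lit 4) (nat_lit 650) (nat_lit 469) (nat_lit 441)) (XT.lf (nat_lit 0) (nat_lit 8806809901) (nat_lit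 76) (nat_lit 224599427) (nat_lit 152) (nat_lit 6873268027) (nat_lit 17) (nat_lit 5) (nat_lit 18) (nat_lit 5) (nat_lit 19) (nat_lit 4) (nat_lit 651) (nat_lit 469) (nat_lit 440)))) (XT.nd (nat_lit 78780) (nat_lit 0) (nat_lit 4864) (XT.nd (nat_lit 78702) (nat_lit 0) (nat_lit 5396) (XT.lf (nat_lit 0) (nat_lit 5254171167) (nat_lit 152) (nat_lit 10160691993) (nat_lit 152) (nat_lit 675272289) (nat_lit 15) (nat_lit 4) (nat_lit 17) (nat_lit 5) (nat_lit 17) (nat_lit 4) (nat_lit 652) (nat_lit 469) (nat_lit 439)) (XT.lf (nat_lit 0) (nat_lit 1260579421) (nat_lit 304) (nat_lit 3217896642) (nat_lit 0) (nat_lit 1260579421) (nat_lit 86) (nat_lit 5) (nat_lit 90) (nat_lit 4) (nat_lit 86) (nat_lit 4) (nat_lit 620) (nat_lit 470) (nat_lit 470))) (XT.nd (nat_lit 78) (nat_lit 304) (nat_lit 0) (XT.lf (nat_lit 0) (nat_lit 3855833402) (nat_lit 228) (nat_lit 4139925232) (nat_lit 228) (nat_lit 3592052744) (nat_lit 83) (nat_lit 4) (nat_lit 86) (nat_lit 5) (nat_lit 86) (nat_lit 4) (nat_lit 621)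 (nat_lit 470) (nat_lit 469)) (XT.lf (nat_lit 0) (nat_lit 1842090998) (nat_lit 304) (nat_lit 9079277958) (nat_lit 0) (nat_lit 778363177) (nat_lit 79) (nat_lit 5) (nat_lit 83) (nat_lit 4) (nat_lit 79) (nat_lit 4) (nat_lit 622) (nat_lit 470) (nat_lit 468)))))) (XT.nd (nat_lit 546) (nat_lit 1292) (nat_lit 0) (XT.nd (nat_lit 234) (nat_lit 912) (nat_lit 0) (XT.nd (nat_lit 78) (nat_lit 304) (nat_lit 0) (XT.lf (nat_lit 0) (nat_lit 1299143443) (nat_lit 228) (nat_lit 6047044233) (nat_lit 228) (nat_lit 4467043930) (nat_lit 76) (nat_lit 4) (nat_lit 79) (nat_lit 5) (nat_lit 79) (nat_lit 4) (nat_lit 623) (nat_lit 470) (nat_lit 467)) (XT.nd (nat_lit 78) (nat_lit 228) (nat_lit 0) (XT.lf (nat_lit 0) (nat_lit 1000543667) (nat_lit 304) (nat_lit 65051586) (nat_lit 76) (nat_lit 10863620217) (nat_lit 75) (nat_lit 5) (nat_lit 79) (nat_lit 5) (nat_lit 76) (nat_lit 4) (nat_lit 624) (nat_lit 470) (nat_lit 466)) (XT.lf (nat_lit 0) (nat_lit 6535586172) (nat_lit 304) (nat_lit 1507140153) (nat_lit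 0) (nat_lit 4003846185) (nat_lit 72) (nat_lit 5) (nat_lit 76) (nat_lit 4) (nat_lit 72) (nat_lit 4) (nat_lit 625) (nat_lit 470) (nat_lit 465)))) (XT.nd (nat_lit 156) (nat_lit 456) (nat_lit 0) (XT.nd (nat_lit 78) (nat_lit 152) (nat_lit 0) (XT.lf (nat_lit 0) (nat_lit 4982665) (nat_lit 304) (nat_lit 2998630974) (nat_lit 76) (nat_lit 9162860841) (nat_lit 68) (nat_lit 5) (nat_lit 72) (nat_lit 5) (nat_lit 69) (nat_lit 4) (nat_lit 626) (nat_lit 470) (nat_lit 464)) (XT.lf (nat_lit 0) (nat_lit 5555253861) (nat_lit 228) (nat_lit 4585722067) (nat_lit 0) (nat_lit 2147116752) (nat_lit 66) (nat_lit 5) (nat_lit 69) (nat_lit 4) (nat_lit 66) (nat_lit 4) (nat_lit 627) (nat_lit 470) (nat_lit 463))) (XT.nd (nat_lit 78) (nat_lit 228) (nat_lit 0) (XT.lf (nat_lit 0) (nat_lit 6170912679) (nat_lit 228) (nat_lit 5049370541) (nat_lit 228) (nat_lit 1191787168) (nat_lit 63) (nat_lit 4) (nat_lit 66) (nat_lit 5) (nat_lit 66) (nat_lit 4) (nat_lit 628) (nat_lit 470) (nat_lit 462)) (XT.lf (nat_lit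 0) (nat_lit 4386975357) (nat_lit 228) (nat_lit 7978230403) (nat_lit 0) (nat_lit 173037155) (nat_lit 60) (nat_lit 5) (nat_lit 63) (nat_lit 4) (nat_lit 60) (nat_lit 4) (nat_lit 629) (nat_lit 470) (nat_lit 461))))) (XT.nd (nat_lit 234) (nat_lit 836) (nat_lit 0) (XT.nd (nat_lit 78) (nat_lit 228) (nat_lit 0) (XT.lf (nat_lit 0) (nat_lit 2854893462) (nat_lit 228) (nat_lit 7224495364) (nat_lit 228) (nat_lit 2587033909) (nat_lit 57) (nat_lit 4) (nat_lit 60) (nat_lit 5) (nat_lit 60) (nat_lit 4) (nat_lit 630) (nat_lit 470) (nat_lit 460)) (XT.nd (nat_lit 78) (nat_lit 0) (nat_lit 0) (XT.lf (nat_lit 0) (nat_lit 1073647504) (nat_lit 152) (nat_lit 1959188056) (nat_lit 228) (nat_lit 9764234388) (nat_lit 54) (nat_lit 5) (nat_lit 56) (nat_lit 5) (nat_lit 57) (nat_lit 4) (nat_lit 631) (nat_lit 470) (nat_lit 459)) (XT.lf (nat_lit 0) (nat_lit 8743129566) (nat_lit 228) (nat_lit 796181158) (nat_lit 0) (nat_lit 3390425979) (nat_lit 54) (nat_lit 5) (nat_lit 57) (nat_lit 4) (nat_lit 54)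 (nat_lit 4) (nat_lit 632) (nat_lit 470) (nat_lit 458)))) (XT.nd (nat_lit 156) (nat_lit 380) (nat_lit 0) (XT.nd (nat_lit 78) (nat_lit 152) (nat_lit 0) (XT.lf (nat_lit 0) (nat_lit 1488693468) (nat_lit 304) (nat_lit 2736812799) (nat_lit 76) (nat_lit 8839240742) (nat_lit 50) (nat_lit 5) (nat_lit 54) (nat_lit 5) (nat_lit 51) (nat_lit 4) (nat_lit 633) (nat_lit 470) (nat_lit 457)) (XT.lf (nat_lit 0) (nat_lit 7215357371) (nat_lit 228) (nat_lit 4778736031) (nat_lit 0) (nat_lit 1207934170) (nat_lit 48) (nat_lit 5) (nat_lit 51) (nat_lit 4) (nat_lit 48) (nat_lit 4) (nat_lit 634) (nat_lit 470) (nat_lit 456))) (XT.nd (nat_lit 78) (nat_lit 228) (nat_lit 0) (XT.lf (nat_lit 0) (nat_lit 6423555365) (nat_lit 152) (nat_lit 6647171212) (nat_lit 152) (nat_lit 271045533) (nat_lit 46) (nat_lit 4) (nat_lit 48) (nat_lit 5) (nat_lit 48) (nat_lit 4) (nat_lit 635) (nat_lit 470) (nat_lit 455)) (XT.lf (nat_lit 0) (nat_lit 4316614410) (nat_lit 152) (nat_lit 1155768316) (nat_lit 228) (nat_lit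 8011480766) (nat_lit 43) (nat_lit 5) (nat_lit 45) (nat_lit 5) (nat_lit 46) (nat_lit 4) (nat_lit 636) (nat_lit 470) (nat_lit 454))))))))
noncomputable def xc5 : XT := (XT.nd (nat_lit 80652) (nat_lit 0) (nat_lit 0) (XT.nd (nat_lit 1014) (nat_lit 304) (nat_lit 0) (XT.nd (nat_lit 468) (nat_lit 760) (nat_lit 0) (XT.nd (nat_lit 234) (nat_lit 532) (nat_lit 0) (XT.nd (nat_lit 78) (nat_lit 228) (nat_lit 0) (XT.lf (nat_lit 0) (nat_lit 2103795255) (nat_lit 152) (nat_lit 9238791046) (nat_lit 152) (nat_lit 2285865547) (nat_lit 41) (nat_lit 4) (nat_lit 43) (nat_lit 5) (nat_lit 43) (nat_lit 4) (nat_lit 637) (nat_lit 470) (nat_lit 453)) (XT.nd (nat_lit 78) (nat_lit 152) (nat_lit 0) (XT.lf (nat_lit 0) (nat_lit 3503593433) (nat_lit 228) (nat_lit 216290861) (nat_lit 76) (nat_lit 10055668854) (nat_lit 40) (nat_lit 5) (nat_lit 43) (nat_lit 5) (nat_lit 41) (nat_lit 4) (nat_lit 638) (nat_lit 470) (nat_lit 452)) (XT.lf (nat_lit 0) (nat_lit 9392159434) (nat_lit 228) (nat_lit 2618634576)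 (nat_lit 0) (nat_lit 1914223363) (nat_lit 38) (nat_lit 5) (nat_lit 41) (nat_lit 4) (nat_lit 38) (nat_lit 4) (nat_lit 639) (nat_lit 470) (nat_lit 451)))) (XT.nd (nat_lit 78) (nat_lit 304) (nat_lit 0) (XT.lf (nat_lit 0) (nat_lit 1315938278) (nat_lit 228) (nat_lit 5140718442) (nat_lit 76) (nat_lit 7620399403) (nat_lit 35) (nat_lit 5) (nat_lit 38) (nat_lit 5) (nat_lit 36) (nat_lit 4) (nat_lit 640) (nat_lit 470) (nat_lit 450)) (XT.nd (nat_lit 78) (nat_lit 152) (nat_lit 0) (XT.lf (nat_lit 0) (nat_lit 6447962117) (nat_lit 152) (nat_lit 760730901) (nat_lit 228) (nat_lit 7023091346) (nat_lit 33) (nat_lit 5) (nat_lit 35) (nat_lit 5) (nat_lit 36) (nat_lit 4) (nat_lit 641) (nat_lit 470) (nat_lit 449)) (XT.lf (nat_lit 0) (nat_lit 3833696641) (nat_lit 152) (nat_lit 9406235749) (nat_lit 152) (nat_lit 1149263668) (nat_lit 31) (nat_lit 4) (nat_lit 33) (nat_lit 5) (nat_lit 33) (nat_lit 4) (nat_lit 642) (nat_lit 470) (nat_lit 448))))) (XT.nd (nat_lit 234) (nat_lit 380) (nat_lit 0)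 (XT.nd (nat_lit 78) (nat_lit 228) (nat_lit 0) (XT.lf (nat_lit 0) (nat_lit 1084937952) (nat_lit 76) (nat_lit 3686568883) (nat_lit 152) (nat_lit 9777762408) (nat_lit 29) (nat_lit 5) (nat_lit 30) (nat_lit 5) (nat_lit 31) (nat_lit 4) (nat_lit 643) (nat_lit 470) (nat_lit 447)) (XT.nd (nat_lit 78) (nat_lit 228) (nat_lit 0) (XT.lf (nat_lit 0) (nat_lit 10809026476) (nat_lit 152) (nat_lit 1764875017) (nat_lit 0) (nat_lit 2138217413) (nat_lit 29) (nat_lit 5) (nat_lit 31) (nat_lit 4) (nat_lit 29) (nat_lit 4) (nat_lit 644) (nat_lit 470) (nat_lit 446)) (XT.lf (nat_lit 0) (nat_lit 2081964690) (nat_lit 228) (nat_lit 4744670787) (nat_lit 76) (nat_lit 8050914307) (nat_lit 26) (nat_lit 5) (nat_lit 29) (nat_lit 5) (nat_lit 27) (nat_lit 4) (nat_lit 645) (nat_lit 470) (nat_lit 445)))) (XT.nd (nat_lit 156) (nat_lit 152) (nat_lit 0) (XT.nd (nat_lit 78) (nat_lit 152) (nat_lit 0) (XT.lf (nat_lit 0) (nat_lit 7184297325) (nat_lit 76) (nat_lit 938716615) (nat_lit 152) (nat_lit 6922989598)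 (nat_lit 25) (nat_lit 5) (nat_lit 26) (nat_lit 5) (nat_lit 27) (nat_lit 4) (nat_lit 646) (nat_lit 470) (nat_lit 444)) (XT.lf (nat_lit 0) (nat_lit 4088886112) (nat_lit 152) (nat_lit 10217573940) (nat_lit 152) (nat_lit 910936084) (nat_lit 23) (nat_lit 4) (nat_lit 25) (nat_lit 5) (nat_lit 25) (nat_lit 4) (nat_lit 647) (nat_lit 470) (nat_lit 443))) (XT.nd (nat_lit 78) (nat_lit 0) (nat_lit 0) (XT.lf (nat_lit 0) (nat_lit 833691529) (nat_lit 76) (nat_lit 4314070788) (nat_lit 152) (nat_lit 10243879840) (nat_lit 21) (nat_lit 5) (nat_lit 22) (nat_lit 5) (nat_lit 23) (nat_lit 4) (nat_lit 648) (nat_lit 470) (nat_lit 442)) (XT.lf (nat_lit 0) (nat_lit 11331989477) (nat_lit 152) (nat_lit 2530313570) (nat_lit 0) (nat_lit 1706619796) (nat_lit 21) (nat_lit 5) (nat_lit 23) (nat_lit 4) (nat_lit 21) (nat_lit 4) (nat_lit 649) (nat_lit 470) (nat_lit 441)))))) (XT.nd (nat_lit 79092) (nat_lit 0) (nat_lit 3268) (XT.nd (nat_lit 78780) (nat_lit 0) (nat_lit 4712) (XT.nd (nat_lit 78) (nat_lit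 76) (nat_lit 0) (XT.lf (nat_lit 0) (nat_lit 1888767373) (nat_lit 228) (nat_lit 6053320566) (nat_lit 76) (nat_lit 7806948826) (nat_lit 18) (nat_lit 5) (nat_lit 21) (nat_lit 5) (nat_lit 19) (nat_lit 4) (nat_lit 650) (nat_lit 470) (nat_lit 440)) (XT.nd (nat_lit 78624) (nat_lit 0) (nat_lit 5776) (XT.lf (nat_lit 0) (nat_lit 6192893913) (nat_lit 76) (nat_lit 1876420803) (nat_lit 152) (nat_lit 7863097967) (nat_lit 17) (nat_lit 5) (nat_lit 18) (nat_lit 5) (nat_lit 19) (nat_lit 4) (nat_lit 651) (nat_lit 470) (nat_lit 439)) (XT.lf (nat_lit 0) (nat_lit 1823566303) (nat_lit 304) (nat_lit 1984608418) (nat_lit 0) (nat_lit 1823566303) (nat_lit 93) (nat_lit 5) (nat_lit 97) (nat_lit 4) (nat_lit 93) (nat_lit 4) (nat_lit 618) (nat_lit 471) (nat_lit 471)))) (XT.nd (nat_lit 156) (nat_lit 532) (nat_lit 0) (XT.nd (nat_lit 78) (nat_lit 304) (nat_lit 0) (XT.lf (nat_lit 0) (nat_lit 6165205219) (nat_lit 228) (nat_lit 2887530914) (nat_lit 228) (nat_lit 2317524378) (nat_lit 90) (nat_lit 4)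 (nat_lit 93) (nat_lit 5) (nat_lit 93) (nat_lit 4) (nat_lit 619) (nat_lit 471) (nat_lit 470)) (XT.lf (nat_lit 0) (nat_lit 3040791596) (nat_lit 304) (nat_lit 6504015473) (nat_lit 0) (nat_lit 1934089171) (nat_lit 86) (nat_lit 5) (nat_lit 90) (nat_lit 4) (nat_lit 86) (nat_lit 4) (nat_lit 620) (nat_lit 471) (nat_lit 469))) (XT.nd (nat_lit 78) (nat_lit 304) (nat_lit 0) (XT.lf (nat_lit 0) (nat_lit 3718931219) (nat_lit 228) (nat_lit 4757142698) (nat_lit 228) (nat_lit 3113310382) (nat_lit 83) (nat_lit 4) (nat_lit 86) (nat_lit 5) (nat_lit 86) (nat_lit 4) (nat_lit 621) (nat_lit 471) (nat_lit 468)) (XT.lf (nat_lit 0) (nat_lit 2270640924) (nat_lit 304) (nat_lit 9288713353) (nat_lit 0) (nat_lit 142768133) (nat_lit 79) (nat_lit 5) (nat_lit 83) (nat_lit 4) (nat_lit 79) (nat_lit 4) (nat_lit 622) (nat_lit 471) (nat_lit 467))))) (XT.nd (nat_lit 234) (nat_lit 912) (nat_lit 0) (XT.nd (nat_lit 78) (nat_lit 304) (nat_lit 0) (XT.lf (nat_lit 0) (nat_lit 1018940992) (nat_lit 228) (nat_lit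 6715752640) (nat_lit 228) (nat_lit 4081730357) (nat_lit 76) (nat_lit 4) (nat_lit 79) (nat_lit 5) (nat_lit 79) (nat_lit 4) (nat_lit 623) (nat_lit 471) (nat_lit 466)) (XT.nd (nat_lit 78) (nat_lit 228) (nat_lit 0) (XT.lf (nat_lit 0) (nat_lit 1342643604) (nat_lit 304) (nat_lit 418107193) (nat_lit 76) (nat_lit 10172371403) (nat_lit 75) (nat_lit 5) (nat_lit 79) (nat_lit 5) (nat_lit 76) (nat_lit 4) (nat_lit 624) (nat_lit 471) (nat_lit 465)) (XT.lf (nat_lit 0) (nat_lit 6832802012) (nat_lit 304) (nat_lit 1931599902) (nat_lit 0) (nat_lit 3286976164) (nat_lit 72) (nat_lit 5) (nat_lit 76) (nat_lit 4) (nat_lit 72) (nat_lit 4) (nat_lit 625) (nat_lit 471) (nat_lit 464)))) (XT.nd (nat_lit 156) (nat_lit 456) (nat_lit 0) (XT.nd (nat_lit 78) (nat_lit 152) (nat_lit 0) (XT.lf (nat_lit 0) (nat_lit 252775172) (nat_lit 304) (nat_lit 3502823893) (nat_lit 76) (nat_lit 8416459777) (nat_lit 68) (nat_lit 5) (nat_lit 72) (nat_lit 5) (nat_lit 69) (nat_lit 4) (nat_lit 626) (nat_lit 471) (nat_lit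 463)) (XT.lf (nat_lit 0) (nat_lit 5756973443) (nat_lit 228) (nat_lit 5164834009) (nat_lit 0) (nat_lit 1372792138) (nat_lit 66) (nat_lit 5) (nat_lit 69) (nat_lit 4) (nat_lit 66) (nat_lit 4) (nat_lit 627) (nat_lit 471) (nat_lit 462))) (XT.nd (nat_lit 78) (nat_lit 228) (nat_lit 0) (XT.lf (nat_lit 0) (nat_lit 5517076325) (nat_lit 228) (nat_lit 5863572013) (nat_lit 228) (nat_lit 1038757116) (nat_lit 63) (nat_lit 4) (nat_lit 66) (nat_lit 5) (nat_lit 66) (nat_lit 4) (nat_lit 628) (nat_lit 471) (nat_lit 461)) (XT.lf (nat_lit 0) (nat_lit 3823121522) (nat_lit 152) (nat_lit 671893397) (nat_lit 228) (nat_lit 8051403886) (nat_lit 60) (nat_lit 5) (nat_lit 62) (nat_lit 5) (nat_lit 63) (nat_lit 4) (nat_lit 629) (nat_lit 471) (nat_lit 460))))))) (XT.nd (nat_lit 1092) (nat_lit 988) (nat_lit 0) (XT.nd (nat_lit 546) (nat_lit 988) (nat_lit 0) (XT.nd (nat_lit 234) (nat_lit 836) (nat_lit 0) (XT.nd (nat_lit 78) (nat_lit 228) (nat_lit 0) (XT.lf (nat_lit 0) (nat_lit 2037144455) (nat_lit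 228) (nat_lit 8103670131) (nat_lit 228) (nat_lit 2534717320) (nat_lit 57) (nat_lit 4) (nat_lit 60) (nat_lit 5) (nat_lit 60) (nat_lit 4) (nat_lit 630) (nat_lit 471) (nat_lit 459)) (XT.nd (nat_lit 78) (nat_lit 0) (nat_lit 0) (XT.lf (nat_lit 0) (nat_lit 168200078) (nat_lit 152) (nat_lit 2873498049) (nat_lit 228) (nat_lit 9765330524) (nat_lit 54) (nat_lit 5) (nat_lit 56) (nat_lit 5) (nat_lit 57) (nat_lit 4) (nat_lit 631) (nat_lit 471) (nat_lit 458)) (XT.lf (nat_lit 0) (nat_lit 8709271392) (nat_lit 228) (nat_lit 1772131081) (nat_lit 0) (nat_lit 2459148294) (nat_lit 54) (nat_lit 5) (nat_lit 57) (nat_lit 4) (nat_lit 54) (nat_lit 4) (nat_lit 632) (nat_lit 471) (nat_lit 457)))) (XT.nd (nat_lit 156) (nat_lit 380) (nat_lit 0) (XT.nd (nat_lit 78) (nat_lit 152) (nat_lit 0) (XT.lf (nat_lit 0) (nat_lit 1401409323) (nat_lit 304) (nat_lit 3802874323) (nat_lit 76) (nat_lit 7872148095) (nat_lit 50) (nat_lit 5) (nat_lit 54) (nat_lit 5) (nat_lit 51) (nat_lit 4) (nat_lit 633) (nat_lit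 471) (nat_lit 456)) (XT.lf (nat_lit 0) (nat_lit 7078022442) (nat_lit 228) (nat_lit 5931020000) (nat_lit 0) (nat_lit 205671770) (nat_lit 48) (nat_lit 5) (nat_lit 51) (nat_lit 4) (nat_lit 48) (nat_lit 4) (nat_lit 634) (nat_lit 471) (nat_lit 455))) (XT.nd (nat_lit 78) (nat_lit 228) (nat_lit 0) (XT.lf (nat_lit 0) (nat_lit 5189765148) (nat_lit 152) (nat_lit 7699698365) (nat_lit 152) (nat_lit 465874675) (nat_lit 46) (nat_lit 4) (nat_lit 48) (nat_lit 5) (nat_lit 48) (nat_lit 4) (nat_lit 635) (nat_lit 471) (nat_lit 454)) (XT.lf (nat_lit 0) (nat_lit 2987721756) (nat_lit 152) (nat_lit 2247887529) (nat_lit 228) (nat_lit 8262736416) (nat_lit 43) (nat_lit 5) (nat_lit 45) (nat_lit 5) (nat_lit 46) (nat_lit 4) (nat_lit 636) (nat_lit 471) (nat_lit 453))))) (XT.nd (nat_lit 234) (nat_lit 608) (nat_lit 0) (XT.nd (nat_lit 78) (nat_lit 228) (nat_lit 0) (XT.lf (nat_lit 0) (nat_lit 683418040) (nat_lit 152) (nat_lit 10370301697) (nat_lit 152) (nat_lit 2590257009) (nat_lit 41) (nat_lit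 4) (nat_lit 43) (nat_lit 5) (nat_lit 43) (nat_lit 4) (nat_lit 637) (nat_lit 471) (nat_lit 452)) (XT.nd (nat_lit 78) (nat_lit 152) (nat_lit 0) (XT.lf (nat_lit 0) (nat_lit 3167457217) (nat_lit 228) (nat_lit 1715726302) (nat_lit 76) (nat_lit 8908649583) (nat_lit 40) (nat_lit 5) (nat_lit 43) (nat_lit 5) (nat_lit 41) (nat_lit 4) (nat_lit 638) (nat_lit 471) (nat_lit 451)) (XT.lf (nat_lit 0) (nat_lit 9002889246) (nat_lit 228) (nat_lit 4212452029) (nat_lit 0) (nat_lit 727019509) (nat_lit 38) (nat_lit 5) (nat_lit 41) (nat_lit 4) (nat_lit 38) (nat_lit 4) (nat_lit 639) (nat_lit 471) (nat_lit 450)))) (XT.nd (nat_lit 156) (nat_lit 228) (nat_lit 0) (XT.nd (nat_lit 78) (nat_lit 152) (nat_lit 0) (XT.lf (nat_lit 0) (nat_lit 868492305) (nat_lit 228) (nat_lit 6836199295) (nat_lit 76) (nat_lit 6390684786) (nat_lit 35) (nat_lit 5) (nat_lit 38) (nat_lit 5) (nat_lit 36) (nat_lit 4) (nat_lit 640) (nat_lit 471) (nat_lit 449)) (XT.lf (nat_lit 0) (nat_lit 4664742322) (nat_lit 152) (nat_lit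 2050015012) (nat_lit 228) (nat_lit 7536277819) (nat_lit 33) (nat_lit 5) (nat_lit 35) (nat_lit 5) (nat_lit 36) (nat_lit 4) (nat_lit 641) (nat_lit 471) (nat_lit 448))) (XT.nd (nat_lit 78) (nat_lit 76) (nat_lit 0) (XT.lf (nat_lit 0) (nat_lit 1950466291) (nat_lit 152) (nat_lit 10740099817) (nat_lit 152) (nat_lit 1718990068) (nat_lit 31) (nat_lit 4) (nat_lit 33) (nat_lit 5) (nat_lit 33) (nat_lit 4) (nat_lit 642) (nat_lit 471) (nat_lit 447)) (XT.lf (nat_lit 0) (nat_lit 4167413642) (nat_lit 228) (nat_lit 893653580) (nat_lit 76) (nat_lit 9509473588) (nat_lit 30) (nat_lit 5) (nat_lit 33) (nat_lit 5) (nat_lit 31) (nat_lit 4) (nat_lit 643) (nat_lit 471) (nat_lit 446)))))) (XT.nd (nat_lit 546) (nat_lit 76) (nat_lit 0) (XT.nd (nat_lit 234) (nat_lit 532) (nat_lit 0) (XT.nd (nat_lit 78) (nat_lit 304) (nat_lit 0) (XT.lf (nat_lit 0) (nat_lit 10155370931) (nat_lit 152) (nat_lit 3832315187) (nat_lit 0) (nat_lit 746696279) (nat_lit 29) (nat_lit 5) (nat_lit 31) (nat_lit 4) (nat_lit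 29) (nat_lit 4) (nat_lit 644) (nat_lit 471) (nat_lit 445)) (XT.nd (nat_lit 78) (nat_lit 76) (nat_lit 0) (XT.lf (nat_lit 0) (nat_lit 1366534463) (nat_lit 228) (nat_lit 6922226407) (nat_lit 76) (nat_lit 6612108345) (nat_lit 26) (nat_lit 5) (nat_lit 29) (nat_lit 5) (nat_lit 27) (nat_lit 4) (nat_lit 645) (nat_lit 471) (nat_lit 444)) (XT.lf (nat_lit 0) (nat_lit 4913644699) (nat_lit 76) (nat_lit 2445192182) (nat_lit 152) (nat_lit 7711461662) (nat_lit 25) (nat_lit 5) (nat_lit 26) (nat_lit 5) (nat_lit 27) (nat_lit 4) (nat_lit 646) (nat_lit 471) (nat_lit 443)))) (XT.nd (nat_lit 156) (nat_lit 304) (nat_lit 0) (XT.nd (nat_lit 78) (nat_lit 76) (nat_lit 0) (XT.lf (nat_lit 0) (nat_lit 1709121801) (nat_lit 152) (nat_lit 11773993964) (nat_lit 152) (nat_lit 1759759347) (nat_lit 23) (nat_lit 4) (nat_lit 25) (nat_lit 5) (nat_lit 25) (nat_lit 4) (nat_lit 647) (nat_lit 471) (nat_lit 442)) (XT.lf (nat_lit 0) (nat_lit 4270756378) (nat_lit 228) (nat_lit 1640395455) (nat_lit 76) (nat_lit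 9506866426) (nat_lit 22) (nat_lit 5) (nat_lit 25) (nat_lit 5) (nat_lit 23) (nat_lit 4) (nat_lit 648) (nat_lit 471) (nat_lit 441))) (XT.nd (nat_lit 78) (nat_lit 228) (nat_lit 0) (XT.lf (nat_lit 0) (nat_lit 10399913497) (nat_lit 152) (nat_lit 5105838191) (nat_lit 0) (nat_lit 90649245) (nat_lit 21) (nat_lit 5) (nat_lit 23) (nat_lit 4) (nat_lit 21) (nat_lit 4) (nat_lit 649) (nat_lit 471) (nat_lit 440)) (XT.lf (nat_lit 0) (nat_lit 890935402) (nat_lit 228) (nat_lit 8748065895) (nat_lit 76) (nat_lit 6138655979) (nat_lit 18) (nat_lit 5) (nat_lit 21) (nat_lit 5) (nat_lit 19) (nat_lit 4) (nat_lit 650) (nat_lit 471) (nat_lit 439))))) (XT.nd (nat_lit 78624) (nat_lit 0) (nat_lit 5016) (XT.nd (nat_lit 78468) (nat_lit 0) (nat_lit 6080) (XT.lf (nat_lit 0) (nat_lit 3399236082) (nat_lit 76) (nat_lit 3620965080) (nat_lit 152) (nat_lit 8941858220) (nat_lit 17) (nat_lit 5) (nat_lit 18) (nat_lit 5) (nat_lit 19) (nat_lit 4) (nat_lit 651) (nat_lit 471) (nat_lit 438)) (XT.nd (nat_lit 78)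 (nat_lit 304) (nat_lit 0) (XT.lf (nat_lit 0) (nat_lit 2364160257) (nat_lit 304) (nat_lit 799122927) (nat_lit 0) (nat_lit 2364160257) (nat_lit 101) (nat_lit 5) (nat_lit 105) (nat_lit 4) (nat_lit 101) (nat_lit 4) (nat_lit 616) (nat_lit 472) (nat_lit 472)) (XT.lf (nat_lit 0) (nat_lit 8379097637) (nat_lit 304) (nat_lit 1686376909) (nat_lit 304) (nat_lit 1093342108) (nat_lit 97) (nat_lit 4) (nat_lit 101) (nat_lit 5) (nat_lit 101) (nat_lit 4) (nat_lit 617) (nat_lit 472) (nat_lit 471)))) (XT.nd (nat_lit 156) (nat_lit 532) (nat_lit 0) (XT.nd (nat_lit 78) (nat_lit 228) (nat_lit 0) (XT.lf (nat_lit 0) (nat_lit 4189894280) (nat_lit 304) (nat_lit 4035880973) (nat_lit 0) (nat_lit 3038481076) (nat_lit 93) (nat_lit 5) (nat_lit 97) (nat_lit 4) (nat_lit 93) (nat_lit 4) (nat_lit 618) (nat_lit 472) (nat_lit 470)) (XT.lf (nat_lit 0) (nat_lit 6031429596) (nat_lit 228) (nat_lit 3525312403) (nat_lit 228) (nat_lit 1815069262) (nat_lit 90) (nat_lit 4) (nat_lit 93) (nat_lit 5) (nat_lit 93)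 (nat_lit 4) (nat_lit 619) (nat_lit 472) (nat_lit 469))) (XT.nd (nat_lit 78) (nat_lit 228) (nat_lit 0) (XT.lf (nat_lit 0) (nat_lit 3493191210) (nat_lit 304) (nat_lit 6708708791) (nat_lit 0) (nat_lit 1279352358) (nat_lit 86) (nat_lit 5) (nat_lit 90) (nat_lit 4) (nat_lit 86) (nat_lit 4) (nat_lit 620) (nat_lit 472) (nat_lit 468)) (XT.lf (nat_lit 0) (nat_lit 3445073165) (nat_lit 228) (nat_lit 5443947187) (nat_lit 228) (nat_lit 2703510404) (nat_lit 83) (nat_lit 4) (nat_lit 86) (nat_lit 5) (nat_lit 86) (nat_lit 4) (nat_lit 621) (nat_lit 472) (nat_lit 467))))))))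
noncomputable def xc6 : XT := (XT.nd (nat_lit 2106) (nat_lit 380) (nat_lit 0) (XT.nd (nat_lit 1014) (nat_lit 1976) (nat_lit 0) (XT.nd (nat_lit 468) (nat_lit 1368) (nat_lit 0) (XT.nd (nat_lit 234) (nat_lit 684) (nat_lit 0) (XT.nd (nat_lit 78) (nat_lit 304) (nat_lit 0) (XT.lf (nat_lit 0) (nat_lit 2064470291) (nat_lit 228) (nat_lit 569777013) (nat_lit 304) (nat_lit 9071785956) (nat_lit 79) (nat_lit 5) (nat_lit 82) (nat_lit 5) (nat_lit 83) (nat_lit 4) (nat_lit 622) (nat_lit 472) (nat_lit 466)) (XT.nd (nat_lit 78) (nat_lit 76) (nat_lit 0) (XT.lf (nat_lit 0) (nat_lit 598499967) (nat_lit 228) (nat_lit 7455895687) (nat_lit 228) (nat_lit 3766818474) (nat_lit 76) (nat_lit 4) (nat_lit 79) (nat_lit 5) (nat_lit 79) (nat_lit 4) (nat_lit 623) (nat_lit 472) (nat_lit 465)) (XT.lf (nat_lit 0) (nat_lit 1616013421) (nat_lit 304) (nat_lit 911225192) (nat_lit 76) (nat_lit 9411382228) (nat_lit 75) (nat_lit 5) (nat_lit 79) (nat_lit 5) (nat_lit 76) (nat_lit 4) (nat_lit 624) (nat_lit 472)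 (nat_lit 464)))) (XT.nd (nat_lit 78) (nat_lit 456) (nat_lit 0) (XT.lf (nat_lit 0) (nat_lit 7060642766) (nat_lit 304) (nat_lit 2497805129) (nat_lit 0) (nat_lit 2499340537) (nat_lit 72) (nat_lit 5) (nat_lit 76) (nat_lit 4) (nat_lit 72) (nat_lit 4) (nat_lit 625) (nat_lit 472) (nat_lit 463)) (XT.nd (nat_lit 78) (nat_lit 152) (nat_lit 0) (XT.lf (nat_lit 0) (nat_lit 430324552) (nat_lit 304) (nat_lit 4150481822) (nat_lit 76) (nat_lit 7598454696) (nat_lit 68) (nat_lit 5) (nat_lit 72) (nat_lit 5) (nat_lit 69) (nat_lit 4) (nat_lit 626) (nat_lit 472) (nat_lit 462)) (XT.lf (nat_lit 0) (nat_lit 5887766580) (nat_lit 228) (nat_lit 5889149637) (nat_lit 0) (nat_lit 525821793) (nat_lit 66) (nat_lit 5) (nat_lit 69) (nat_lit 4) (nat_lit 66) (nat_lit 4) (nat_lit 627) (nat_lit 472) (nat_lit 461))))) (XT.nd (nat_lit 234) (nat_lit 684) (nat_lit 0) (XT.nd (nat_lit 78) (nat_lit 456) (nat_lit 0) (XT.lf (nat_lit 0) (nat_lit 4717420884) (nat_lit 228) (nat_lit 6752447006) (nat_lit 228) (nat_lit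 958508502) (nat_lit 63) (nat_lit 4) (nat_lit 66) (nat_lit 5) (nat_lit 66) (nat_lit 4) (nat_lit 628) (nat_lit 472) (nat_lit 460)) (XT.nd (nat_lit 78) (nat_lit 228) (nat_lit 0) (XT.lf (nat_lit 0) (nat_lit 2937449067) (nat_lit 152) (nat_lit 1594685004) (nat_lit 228) (nat_lit 8024087796) (nat_lit 60) (nat_lit 5) (nat_lit 62) (nat_lit 5) (nat_lit 63) (nat_lit 4) (nat_lit 629) (nat_lit 472) (nat_lit 459)) (XT.lf (nat_lit 0) (nat_lit 1069956271) (nat_lit 228) (nat_lit 9059488764) (nat_lit 228) (nat_lit 2556860693) (nat_lit 57) (nat_lit 4) (nat_lit 60) (nat_lit 5) (nat_lit 60) (nat_lit 4) (nat_lit 630) (nat_lit 472) (nat_lit 458)))) (XT.nd (nat_lit 156) (nat_lit 456) (nat_lit 0) (XT.nd (nat_lit 78) (nat_lit 152) (nat_lit 0) (XT.lf (nat_lit 0) (nat_lit 2982587301) (nat_lit 304) (nat_lit 876897141) (nat_lit 76) (nat_lit 8959067011) (nat_lit 56) (nat_lit 5) (nat_lit 60) (nat_lit 5) (nat_lit 57) (nat_lit 4) (nat_lit 631) (nat_lit 472) (nat_lit 457)) (XT.lf (nat_lit 0) (nat_lit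 8601888454) (nat_lit 228) (nat_lit 2899256673) (nat_lit 0) (nat_lit 1451894815) (nat_lit 54) (nat_lit 5) (nat_lit 57) (nat_lit 4) (nat_lit 54) (nat_lit 4) (nat_lit 632) (nat_lit 472) (nat_lit 456))) (XT.nd (nat_lit 78) (nat_lit 152) (nat_lit 0) (XT.lf (nat_lit 0) (nat_lit 1239630684) (nat_lit 304) (nat_lit 5022016183) (nat_lit 76) (nat_lit 6828160079) (nat_lit 50) (nat_lit 5) (nat_lit 54) (nat_lit 5) (nat_lit 51) (nat_lit 4) (nat_lit 633) (nat_lit 472) (nat_lit 455)) (XT.lf (nat_lit 0) (nat_lit 5984932611) (nat_lit 152) (nat_lit 886208604) (nat_lit 228) (nat_lit 6357851130) (nat_lit 48) (nat_lit 5) (nat_lit 50) (nat_lit 5) (nat_lit 51) (nat_lit 4) (nat_lit 634) (nat_lit 472) (nat_lit 454)))))) (XT.nd (nat_lit 546) (nat_lit 836) (nat_lit 0) (XT.nd (nat_lit 234) (nat_lit 760) (nat_lit 0) (XT.nd (nat_lit 78) (nat_lit 228) (nat_lit 0) (XT.lf (nat_lit 0) (nat_lit 3800211028) (nat_lit 152) (nat_lit 8832382213) (nat_lit 152) (nat_lit 738023719) (nat_lit 46) (nat_lit 4)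 (nat_lit 48) (nat_lit 5) (nat_lit 48) (nat_lit 4) (nat_lit 635) (nat_lit 472) (nat_lit 453)) (XT.nd (nat_lit 78) (nat_lit 0) (nat_lit 0) (XT.lf (nat_lit 0) (nat_lit 1501067259) (nat_lit 152) (nat_lit 3421141816) (nat_lit 228) (nat_lit 8592347972) (nat_lit 43) (nat_lit 5) (nat_lit 45) (nat_lit 5) (nat_lit 46) (nat_lit 4) (nat_lit 636) (nat_lit 472) (nat_lit 452)) (XT.lf (nat_lit 0) (nat_lit 10693186022) (nat_lit 228) (nat_lit 884974399) (nat_lit 0) (nat_lit 2082971148) (nat_lit 43) (nat_lit 5) (nat_lit 46) (nat_lit 4) (nat_lit 43) (nat_lit 4) (nat_lit 637) (nat_lit 472) (nat_lit 451)))) (XT.nd (nat_lit 156) (nat_lit 380) (nat_lit 0) (XT.nd (nat_lit 78) (nat_lit 152) (nat_lit 0) (XT.lf (nat_lit 0) (nat_lit 2753825194) (nat_lit 228) (nat_lit 3374885231) (nat_lit 76) (nat_lit 7681145262) (nat_lit 40) (nat_lit 5) (nat_lit 43) (nat_lit 5) (nat_lit 41) (nat_lit 4) (nat_lit 638) (nat_lit 472) (nat_lit 450)) (XT.lf (nat_lit 0) (nat_lit 7989776556) (nat_lit 152) (nat_lit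 549018678) (nat_lit 228) (nat_lit 5422598135) (nat_lit 38) (nat_lit 5) (nat_lit 40) (nat_lit 5) (nat_lit 41) (nat_lit 4) (nat_lit 639) (nat_lit 472) (nat_lit 449))) (XT.nd (nat_lit 78) (nat_lit 152) (nat_lit 0) (XT.lf (nat_lit 0) (nat_lit 341575443) (nat_lit 228) (nat_lit 8695580187) (nat_lit 76) (nat_lit 5078319342) (nat_lit 35) (nat_lit 5) (nat_lit 38) (nat_lit 5) (nat_lit 36) (nat_lit 4) (nat_lit 640) (nat_lit 472) (nat_lit 448)) (XT.lf (nat_lit 0) (nat_lit 2716722909) (nat_lit 152) (nat_lit 3424242409) (nat_lit 228) (nat_lit 8131106642) (nat_lit 33) (nat_lit 5) (nat_lit 35) (nat_lit 5) (nat_lit 36) (nat_lit 4) (nat_lit 641) (nat_lit 472) (nat_lit 447))))) (XT.nd (nat_lit 234) (nat_lit 532) (nat_lit 0) (XT.nd (nat_lit 78) (nat_lit 304) (nat_lit 0) (XT.lf (nat_lit 0) (nat_lit 12061038440) (nat_lit 228) (nat_lit 98416630) (nat_lit 0) (nat_lit 2272253331) (nat_lit 33) (nat_lit 5) (nat_lit 36) (nat_lit 4) (nat_lit 33) (nat_lit 4) (nat_lit 642) (nat_lit 472) (nat_lit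 446)) (XT.nd (nat_lit 78) (nat_lit 76) (nat_lit 0) (XT.lf (nat_lit 0) (nat_lit 3489516409) (nat_lit 228) (nat_lit 3024980969) (nat_lit 76) (nat_lit 8078976241) (nat_lit 30) (nat_lit 5) (nat_lit 33) (nat_lit 5) (nat_lit 31) (nat_lit 4) (nat_lit 643) (nat_lit 472) (nat_lit 445)) (XT.lf (nat_lit 0) (nat_lit 8684635348) (nat_lit 76) (nat_lit 740052703) (nat_lit 152) (nat_lit 5333683531) (nat_lit 29) (nat_lit 5) (nat_lit 30) (nat_lit 5) (nat_lit 31) (nat_lit 4) (nat_lit 644) (nat_lit 472) (nat_lit 444)))) (XT.nd (nat_lit 156) (nat_lit 228) (nat_lit 0) (XT.nd (nat_lit 78) (nat_lit 76) (nat_lit 0) (XT.lf (nat_lit 0) (nat_lit 568107048) (nat_lit 228) (nat_lit 9271233456) (nat_lit 76) (nat_lit 5086689591) (nat_lit 26) (nat_lit 5) (nat_lit 29) (nat_lit 5) (nat_lit 27) (nat_lit 4) (nat_lit 645) (nat_lit 472) (nat_lit 443)) (XT.lf (nat_lit 0) (nat_lit 2470520153) (nat_lit 76) (nat_lit 4040689428) (nat_lit 152) (nat_lit 8585234464) (nat_lit 25) (nat_lit 5) (nat_lit 26) (nat_lit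 5) (nat_lit 27) (nat_lit 4) (nat_lit 646) (nat_lit 472) (nat_lit 442))) (XT.nd (nat_lit 78) (nat_lit 228) (nat_lit 0) (XT.lf (nat_lit 0) (nat_lit 12580762900) (nat_lit 152) (nat_lit 834348465) (nat_lit 0) (nat_lit 1855004372) (nat_lit 25) (nat_lit 5) (nat_lit 27) (nat_lit 4) (nat_lit 25) (nat_lit 4) (nat_lit 647) (nat_lit 472) (nat_lit 441)) (XT.lf (nat_lit 0) (nat_lit 3314591668) (nat_lit 228) (nat_lit 4278409556) (nat_lit 76) (nat_lit 7853154221) (nat_lit 22) (nat_lit 5) (nat_lit 25) (nat_lit 5) (nat_lit 23) (nat_lit 4) (nat_lit 648) (nat_lit 472) (nat_lit 440))))))) (XT.nd (nat_lit 79248) (nat_lit 0) (nat_lit 1976) (XT.nd (nat_lit 78702) (nat_lit 0) (nat_lit 4484) (XT.nd (nat_lit 78468) (nat_lit 0) (nat_lit 6384) (XT.nd (nat_lit 78) (nat_lit 304) (nat_lit 0) (XT.lf (nat_lit 0) (nat_lit 7756330924) (nat_lit 76) (nat_lit 1636479288) (nat_lit 152) (nat_lit 6232747257) (nat_lit 21) (nat_lit 5) (nat_lit 22) (nat_lit 5) (nat_lit 23) (nat_lit 4) (nat_lit 649) (nat_lit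 472) (nat_lit 439)) (XT.nd (nat_lit 78) (nat_lit 152) (nat_lit 0) (XT.lf (nat_lit 0) (nat_lit 4184391842) (nat_lit 152) (nat_lit 11427394748) (nat_lit 152) (nat_lit 196378217) (nat_lit 19) (nat_lit 4) (nat_lit 21) (nat_lit 5) (nat_lit 21) (nat_lit 4) (nat_lit 650) (nat_lit 472) (nat_lit 438)) (XT.lf (nat_lit 0) (nat_lit 424740856) (nat_lit 76) (nat_lit 5458916391) (nat_lit 152) (nat_lit 10109971828) (nat_lit 17) (nat_lit 5) (nat_lit 18) (nat_lit 5) (nat_lit 19) (nat_lit 4) (nat_lit 651) (nat_lit 472) (nat_lit 437)))) (XT.nd (nat_lit 78) (nat_lit 304) (nat_lit 0) (XT.lf (nat_lit 0) (nat_lit 348512757) (nat_lit 304) (nat_lit 2538764492) (nat_lit 304) (nat_lit 2538764492) (nat_lit 105) (nat_lit 4) (nat_lit 109) (nat_lit 5) (nat_lit 109) (nat_lit 4) (nat_lit 614) (nat_lit 473) (nat_lit 473)) (XT.nd (nat_lit 78) (nat_lit 228) (nat_lit 0) (XT.lf (nat_lit 0) (nat_lit 84963270) (nat_lit 380) (nat_lit 445367599) (nat_lit 76) (nat_lit 10422981901) (nat_lit 104) (nat_lit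 5) (nat_lit 109) (nat_lit 5) (nat_lit 105) (nat_lit 4) (nat_lit 615) (nat_lit 473) (nat_lit 472)) (XT.lf (nat_lit 0) (nat_lit 5295103639) (nat_lit 304) (nat_lit 1663373585) (nat_lit 0) (nat_lit 4097173342) (nat_lit 101) (nat_lit 5) (nat_lit 105) (nat_lit 4) (nat_lit 101) (nat_lit 4) (nat_lit 616) (nat_lit 473) (nat_lit 471))))) (XT.nd (nat_lit 234) (nat_lit 1064) (nat_lit 0) (XT.nd (nat_lit 78) (nat_lit 532) (nat_lit 0) (XT.lf (nat_lit 0) (nat_lit 8248405134) (nat_lit 304) (nat_lit 2345638924) (nat_lit 304) (nat_lit 566301960) (nat_lit 97) (nat_lit 4) (nat_lit 101) (nat_lit 5) (nat_lit 101) (nat_lit 4) (nat_lit 617) (nat_lit 473) (nat_lit 470)) (XT.nd (nat_lit 78) (nat_lit 228) (nat_lit 0) (XT.lf (nat_lit 0) (nat_lit 4666978946) (nat_lit 304) (nat_lit 4235899522) (nat_lit 0) (nat_lit 2363701005) (nat_lit 93) (nat_lit 5) (nat_lit 97) (nat_lit 4) (nat_lit 93) (nat_lit 4) (nat_lit 618) (nat_lit 473) (nat_lit 469)) (XT.lf (nat_lit 0) (nat_lit 5763825890) (nat_lit 228)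 (nat_lit 4231118954) (nat_lit 228) (nat_lit 1379968525) (nat_lit 90) (nat_lit 4) (nat_lit 93) (nat_lit 5) (nat_lit 93) (nat_lit 4) (nat_lit 619) (nat_lit 473) (nat_lit 468)))) (XT.nd (nat_lit 156) (nat_lit 532) (nat_lit 0) (XT.nd (nat_lit 78) (nat_lit 228) (nat_lit 0) (XT.lf (nat_lit 0) (nat_lit 3878535095) (nat_lit 304) (nat_lit 7049953511) (nat_lit 0) (nat_lit 556691645) (nat_lit 86) (nat_lit 5) (nat_lit 90) (nat_lit 4) (nat_lit 86) (nat_lit 4) (nat_lit 620) (nat_lit 473) (nat_lit 467)) (XT.lf (nat_lit 0) (nat_lit 3034151846) (nat_lit 228) (nat_lit 6200608036) (nat_lit 228) (nat_lit 2362492104) (nat_lit 83) (nat_lit 4) (nat_lit 86) (nat_lit 5) (nat_lit 86) (nat_lit 4) (nat_lit 621) (nat_lit 473) (nat_lit 466))) (XT.nd (nat_lit 78) (nat_lit 228) (nat_lit 0) (XT.lf (nat_lit 0) (nat_lit 1575849738) (nat_lit 228) (nat_lit 1354900342) (nat_lit 304) (nat_lit 8780762191) (nat_lit 79) (nat_lit 5) (nat_lit 82) (nat_lit 5) (nat_lit 83) (nat_lit 4) (nat_lit 622) (nat_lit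 473) (nat_lit 465)) (XT.lf (nat_lit 0) (nat_lit 37655488) (nat_lit 228) (nat_lit 8267763626) (nat_lit 228) (nat_lit 3522184787) (nat_lit 76) (nat_lit 4) (nat_lit 79) (nat_lit 5) (nat_lit 79) (nat_lit 4) (nat_lit 623) (nat_lit 473) (nat_lit 464)))))) (XT.nd (nat_lit 546) (nat_lit 1292) (nat_lit 0) (XT.nd (nat_lit 234) (nat_lit 608) (nat_lit 0) (XT.nd (nat_lit 78) (nat_lit 532) (nat_lit 0) (XT.lf (nat_lit 0) (nat_lit 1820760320) (nat_lit 304) (nat_lit 1544598962) (nat_lit 76) (nat_lit 8580354266) (nat_lit 75) (nat_lit 5) (nat_lit 79) (nat_lit 5) (nat_lit 76) (nat_lit 4) (nat_lit 624) (nat_lit 473) (nat_lit 463)) (XT.nd (nat_lit 78) (nat_lit 304) (nat_lit 0) (XT.lf (nat_lit 0) (nat_lit 7219197784) (nat_lit 304) (nat_lit 3205977876) (nat_lit 0) (nat_lit 1640630427) (nat_lit 72) (nat_lit 5) (nat_lit 76) (nat_lit 4) (nat_lit 72) (nat_lit 4) (nat_lit 625) (nat_lit 473) (nat_lit 462)) (XT.lf (nat_lit 0) (nat_lit 537700433) (nat_lit 304) (nat_lit 4941858744) (nat_lit 76)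 (nat_lit 6708524810) (nat_lit 68) (nat_lit 5) (nat_lit 72) (nat_lit 5) (nat_lit 69) (nat_lit 4) (nat_lit 626) (nat_lit 473) (nat_lit 461)))) (XT.nd (nat_lit 156) (nat_lit 228) (nat_lit 0) (XT.nd (nat_lit 78) (nat_lit 228) (nat_lit 0) (XT.lf (nat_lit 0) (nat_lit 5550913340) (nat_lit 152) (nat_lit 399364161) (nat_lit 228) (nat_lit 6362181772) (nat_lit 66) (nat_lit 5) (nat_lit 68) (nat_lit 5) (nat_lit 69) (nat_lit 4) (nat_lit 627) (nat_lit 473) (nat_lit 460)) (XT.lf (nat_lit 0) (nat_lit 3771632768) (nat_lit 228) (nat_lit 7716344099) (nat_lit 228) (nat_lit 951009854) (nat_lit 63) (nat_lit 4) (nat_lit 66) (nat_lit 5) (nat_lit 66) (nat_lit 4) (nat_lit 628) (nat_lit 473) (nat_lit 459))) (XT.nd (nat_lit 78) (nat_lit 0) (nat_lit 0) (XT.lf (nat_lit 0) (nat_lit 1903808996) (nat_lit 152) (nat_lit 2593399972) (nat_lit 228) (nat_lit 8070469747) (nat_lit 60) (nat_lit 5) (nat_lit 62) (nat_lit 5) (nat_lit 63) (nat_lit 4) (nat_lit 629) (nat_lit 473) (nat_lit 458)) (XT.lf (nat_lit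 0) (nat_lit 10045581197) (nat_lit 228) (nat_lit 46433304) (nat_lit 0) (nat_lit 2606727816) (nat_lit 60) (nat_lit 5) (nat_lit 63) (nat_lit 4) (nat_lit 60) (nat_lit 4) (nat_lit 630) (nat_lit 473) (nat_lit 457))))) (XT.nd (nat_lit 234) (nat_lit 532) (nat_lit 0) (XT.nd (nat_lit 78) (nat_lit 456) (nat_lit 0) (XT.lf (nat_lit 0) (nat_lit 2851785698) (nat_lit 304) (nat_lit 2069516289) (nat_lit 76) (nat_lit 7910414772) (nat_lit 56) (nat_lit 5) (nat_lit 60) (nat_lit 5) (nat_lit 57) (nat_lit 4) (nat_lit 631) (nat_lit 473) (nat_lit 456)) (XT.nd (nat_lit 78) (nat_lit 304) (nat_lit 0) (XT.lf (nat_lit 0) (nat_lit 8420938639) (nat_lit 228) (nat_lit 4177999943) (nat_lit 0) (nat_lit 368270541) (nat_lit 54) (nat_lit 5) (nat_lit 57) (nat_lit 4) (nat_lit 54) (nat_lit 4) (nat_lit 632) (nat_lit 473) (nat_lit 455)) (XT.lf (nat_lit 0) (nat_lit 1003294109) (nat_lit 304) (nat_lit 6394716474) (nat_lit 76) (nat_lit 5706867289) (nat_lit 50) (nat_lit 5) (nat_lit 54) (nat_lit 5) (nat_lit 51)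 (nat_lit 4) (nat_lit 633) (nat_lit 473) (nat_lit 454)))) (XT.nd (nat_lit 156) (nat_lit 228) (nat_lit 0) (XT.nd (nat_lit 78) (nat_lit 152) (nat_lit 0) (XT.lf (nat_lit 0) (nat_lit 4530462255) (nat_lit 152) (nat_lit 2060283214) (nat_lit 228) (nat_lit 6654199843) (nat_lit 48) (nat_lit 5) (nat_lit 50) (nat_lit 5) (nat_lit 51) (nat_lit 4) (nat_lit 634) (nat_lit 473) (nat_lit 453)) (XT.lf (nat_lit 0) (nat_lit 2254348081) (nat_lit 152) (nat_lit 10045666946) (nat_lit 152) (nat_lit 1087599391) (nat_lit 46) (nat_lit 4) (nat_lit 48) (nat_lit 5) (nat_lit 48) (nat_lit 4) (nat_lit 635) (nat_lit 473) (nat_lit 452))) (XT.nd (nat_lit 78) (nat_lit 152) (nat_lit 0) (XT.lf (nat_lit 0) (nat_lit 4532993695) (nat_lit 228) (nat_lit 142044388) (nat_lit 76) (nat_lit 8857447114) (nat_lit 45) (nat_lit 5) (nat_lit 48) (nat_lit 5) (nat_lit 46) (nat_lit 4) (nat_lit 636) (nat_lit 473) (nat_lit 451)) (XT.lf (nat_lit 0) (nat_lit 10260497888) (nat_lit 228) (nat_lit 2602695808) (nat_lit 0) (nat_lit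 816736272) (nat_lit 43) (nat_lit 5) (nat_lit 46) (nat_lit 4) (nat_lit 43) (nat_lit 4) (nat_lit 637) (nat_lit 473) (nat_lit 450))))))))
noncomputable def xc7 : XT := (XT.nd (nat_lit 80184) (nat_lit 0) (nat_lit 0) (XT.nd (nat_lit 1014) (nat_lit 76) (nat_lit 0) (XT.nd (nat_lit 468) (nat_lit 836) (nat_lit 0) (XT.nd (nat_lit 234) (nat_lit 456) (nat_lit 0) (XT.nd (nat_lit 78) (nat_lit 304) (nat_lit 0) (XT.lf (nat_lit 0) (nat_lit 2262535155) (nat_lit 228) (nat_lit 5194418298) (nat_lit 76) (nat_lit 6372674518) (nat_lit 40) (nat_lit 5) (nat_lit 43) (nat_lit 5) (nat_lit 41) (nat_lit 4) (nat_lit 638) (nat_lit 473) (nat_lit 449)) (XT.nd (nat_lit 78) (nat_lit 152) (nat_lit 0) (XT.lf (nat_lit 0) (nat_lit 6083511280) (nat_lit 152) (nat_lit 1917941495) (nat_lit 228) (nat_lit 5980634675) (nat_lit 38) (nat_lit 5) (nat_lit 40) (nat_lit 5) (nat_lit 41) (nat_lit 4) (nat_lit 639) (nat_lit 473) (nat_lit 448)) (XT.lf (nat_lit 0) (nat_lit 3415991061) (nat_lit 152) (nat_lit 10452792929)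 (nat_lit 152) (nat_lit 268540902) (nat_lit 36) (nat_lit 4) (nat_lit 38) (nat_lit 5) (nat_lit 38) (nat_lit 4) (nat_lit 640) (nat_lit 473) (nat_lit 447)))) (XT.nd (nat_lit 78) (nat_lit 228) (nat_lit 0) (XT.lf (nat_lit 0) (nat_lit 603139950) (nat_lit 152) (nat_lit 4883952006) (nat_lit 228) (nat_lit 8807811079) (nat_lit 33) (nat_lit 5) (nat_lit 35) (nat_lit 5) (nat_lit 36) (nat_lit 4) (nat_lit 641) (nat_lit 473) (nat_lit 446)) (XT.nd (nat_lit 78) (nat_lit 228) (nat_lit 0) (XT.lf (nat_lit 0) (nat_lit 11364207736) (nat_lit 228) (nat_lit 2287283048) (nat_lit 0) (nat_lit 803908530) (nat_lit 33) (nat_lit 5) (nat_lit 36) (nat_lit 4) (nat_lit 33) (nat_lit 4) (nat_lit 642) (nat_lit 473) (nat_lit 445)) (XT.lf (nat_lit 0) (nat_lit 2730505159) (nat_lit 228) (nat_lit 5324109184) (nat_lit 76) (nat_lit 6563603202) (nat_lit 30) (nat_lit 5) (nat_lit 33) (nat_lit 5) (nat_lit 31) (nat_lit 4) (nat_lit 643) (nat_lit 473) (nat_lit 444))))) (XT.nd (nat_lit 234) (nat_lit 532) (nat_lit 0)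 (XT.nd (nat_lit 78) (nat_lit 228) (nat_lit 0) (XT.lf (nat_lit 0) (nat_lit 6293393145) (nat_lit 76) (nat_lit 2323970282) (nat_lit 152) (nat_lit 6166718999) (nat_lit 29) (nat_lit 5) (nat_lit 30) (nat_lit 5) (nat_lit 31) (nat_lit 4) (nat_lit 644) (nat_lit 473) (nat_lit 443)) (XT.nd (nat_lit 78) (nat_lit 76) (nat_lit 0) (XT.lf (nat_lit 0) (nat_lit 3158324550) (nat_lit 152) (nat_lit 11476877823) (nat_lit 152) (nat_lit 317798650) (nat_lit 27) (nat_lit 4) (nat_lit 29) (nat_lit 5) (nat_lit 29) (nat_lit 4) (nat_lit 645) (nat_lit 473) (nat_lit 442)) (XT.lf (nat_lit 0) (nat_lit 5580747790) (nat_lit 228) (nat_lit 144119131) (nat_lit 76) (nat_lit 9399564413) (nat_lit 26) (nat_lit 5) (nat_lit 29) (nat_lit 5) (nat_lit 27) (nat_lit 4) (nat_lit 646) (nat_lit 473) (nat_lit 441)))) (XT.nd (nat_lit 156) (nat_lit 228) (nat_lit 0) (XT.nd (nat_lit 78) (nat_lit 228) (nat_lit 0) (XT.lf (nat_lit 0) (nat_lit 11605794443) (nat_lit 152) (nat_lit 3528893494) (nat_lit 0) (nat_lit 164305824)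 (nat_lit 25) (nat_lit 5) (nat_lit 27) (nat_lit 4) (nat_lit 25) (nat_lit 4) (nat_lit 647) (nat_lit 473) (nat_lit 440)) (XT.lf (nat_lit 0) (nat_lit 2273480343) (nat_lit 228) (nat_lit 7092319304) (nat_lit 76) (nat_lit 6110373361) (nat_lit 22) (nat_lit 5) (nat_lit 25) (nat_lit 5) (nat_lit 23) (nat_lit 4) (nat_lit 648) (nat_lit 473) (nat_lit 439))) (XT.nd (nat_lit 78) (nat_lit 152) (nat_lit 0) (XT.lf (nat_lit 0) (nat_lit 4844468736) (nat_lit 76) (nat_lit 3456377546) (nat_lit 152) (nat_lit 7355746369) (nat_lit 21) (nat_lit 5) (nat_lit 22) (nat_lit 5) (nat_lit 23) (nat_lit 4) (nat_lit 649) (nat_lit 473) (nat_lit 438)) (XT.lf (nat_lit 0) (nat_lit 1153738162) (nat_lit 152) (nat_lit 13302705963) (nat_lit 152) (nat_lit 1384023990) (nat_lit 19) (nat_lit 4) (nat_lit 21) (nat_lit 5) (nat_lit 21) (nat_lit 4) (nat_lit 650) (nat_lit 473) (nat_lit 437)))))) (XT.nd (nat_lit 78624) (nat_lit 0) (nat_lit 4332) (XT.nd (nat_lit 78312) (nat_lit 0) (nat_lit 6004) (XT.nd (nat_lit 78156)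 (nat_lit 0) (nat_lit 6916) (XT.lf (nat_lit 0) (nat_lit 4676973654) (nat_lit 228) (nat_lit 2695930733) (nat_lit 76) (nat_lit 8653875029) (nat_lit 18) (nat_lit 5) (nat_lit 21) (nat_lit 5) (nat_lit 19) (nat_lit 4) (nat_lit 651) (nat_lit 473) (nat_lit 436)) (XT.nd (nat_lit 78) (nat_lit 304) (nat_lit 0) (XT.lf (nat_lit 0) (nat_lit 1468896042) (nat_lit 304) (nat_lit 1929257027) (nat_lit 304) (nat_lit 1929257027) (nat_lit 113) (nat_lit 4) (nat_lit 117) (nat_lit 5) (nat_lit 117) (nat_lit 4) (nat_lit 612) (nat_lit 474) (nat_lit 474)) (XT.lf (nat_lit 0) (nat_lit 1225725259) (nat_lit 304) (nat_lit 8931044505) (nat_lit 0) (nat_lit 596391985) (nat_lit 109) (nat_lit 5) (nat_lit 113) (nat_lit 4) (nat_lit 109) (nat_lit 4) (nat_lit 613) (nat_lit 474) (nat_lit 473)))) (XT.nd (nat_lit 156) (nat_lit 532) (nat_lit 0) (XT.nd (nat_lit 78) (nat_lit 76) (nat_lit 0) (XT.lf (nat_lit 0) (nat_lit 632567953) (nat_lit 304) (nat_lit 5733302030) (nat_lit 304) (nat_lit 4486975350) (nat_lit 105)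 (nat_lit 4) (nat_lit 109) (nat_lit 5) (nat_lit 109) (nat_lit 4) (nat_lit 614) (nat_lit 474) (nat_lit 472)) (XT.lf (nat_lit 0) (nat_lit 630251063) (nat_lit 380) (nat_lit 578115029) (nat_lit 76) (nat_lit 9746383692) (nat_lit 104) (nat_lit 5) (nat_lit 109) (nat_lit 5) (nat_lit 105) (nat_lit 4) (nat_lit 615) (nat_lit 474) (nat_lit 471))) (XT.nd (nat_lit 78) (nat_lit 304) (nat_lit 0) (XT.lf (nat_lit 0) (nat_lit 5797744985) (nat_lit 304) (nat_lit 1858782317) (nat_lit 0) (nat_lit 3401414615) (nat_lit 101) (nat_lit 5) (nat_lit 105) (nat_lit 4) (nat_lit 101) (nat_lit 4) (nat_lit 616) (nat_lit 474) (nat_lit 470)) (XT.lf (nat_lit 0) (nat_lit 7986968878) (nat_lit 304) (nat_lit 3071386687) (nat_lit 304) (nat_lit 105049781) (nat_lit 97) (nat_lit 4) (nat_lit 101) (nat_lit 5) (nat_lit 101) (nat_lit 4) (nat_lit 617) (nat_lit 474) (nat_lit 469))))) (XT.nd (nat_lit 234) (nat_lit 836) (nat_lit 0) (XT.nd (nat_lit 78) (nat_lit 532) (nat_lit 0) (XT.lf (nat_lit 0) (nat_lit 5078573697)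 (nat_lit 304) (nat_lit 4569350925) (nat_lit 0) (nat_lit 1622527771) (nat_lit 93) (nat_lit 5) (nat_lit 97) (nat_lit 4) (nat_lit 93) (nat_lit 4) (nat_lit 618) (nat_lit 474) (nat_lit 468)) (XT.nd (nat_lit 78) (nat_lit 304) (nat_lit 0) (XT.lf (nat_lit 0) (nat_lit 5362289157) (nat_lit 228) (nat_lit 5005227355) (nat_lit 228) (nat_lit 1012051539) (nat_lit 90) (nat_lit 4) (nat_lit 93) (nat_lit 5) (nat_lit 93) (nat_lit 4) (nat_lit 619) (nat_lit 474) (nat_lit 467)) (XT.lf (nat_lit 0) (nat_lit 3961226555) (nat_lit 228) (nat_lit 237288445) (nat_lit 304) (nat_lit 7292135644) (nat_lit 86) (nat_lit 5) (nat_lit 89) (nat_lit 5) (nat_lit 90) (nat_lit 4) (nat_lit 620) (nat_lit 474) (nat_lit 466)))) (XT.nd (nat_lit 156) (nat_lit 304) (nat_lit 0) (XT.nd (nat_lit 78) (nat_lit 304) (nat_lit 0) (XT.lf (nat_lit 0) (nat_lit 2486006116) (nat_lit 228) (nat_lit 7027421974) (nat_lit 228) (nat_lit 2090121750) (nat_lit 83) (nat_lit 4) (nat_lit 86) (nat_lit 5) (nat_lit 86) (nat_lit 4) (nat_lit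 621) (nat_lit 474) (nat_lit 465)) (XT.lf (nat_lit 0) (nat_lit 948313832) (nat_lit 228) (nat_lit 2211012429) (nat_lit 304) (nat_lit 8559254112) (nat_lit 79) (nat_lit 5) (nat_lit 82) (nat_lit 5) (nat_lit 83) (nat_lit 4) (nat_lit 622) (nat_lit 474) (nat_lit 464))) (XT.nd (nat_lit 78) (nat_lit 304) (nat_lit 0) (XT.lf (nat_lit 0) (nat_lit 8492172366) (nat_lit 304) (nat_lit 655106362) (nat_lit 0) (nat_lit 2688230889) (nat_lit 79) (nat_lit 5) (nat_lit 83) (nat_lit 4) (nat_lit 79) (nat_lit 4) (nat_lit 623) (nat_lit 474) (nat_lit 463)) (XT.lf (nat_lit 0) (nat_lit 1956964596) (nat_lit 304) (nat_lit 2318476885) (nat_lit 76) (nat_lit 7678961622) (nat_lit 75) (nat_lit 5) (nat_lit 79) (nat_lit 5) (nat_lit 76) (nat_lit 4) (nat_lit 624) (nat_lit 474) (nat_lit 462))))))) (XT.nd (nat_lit 1092) (nat_lit 1672) (nat_lit 0) (XT.nd (nat_lit 546) (nat_lit 1216) (nat_lit 0) (XT.nd (nat_lit 234) (nat_lit 760) (nat_lit 0) (XT.nd (nat_lit 78) (nat_lit 456) (nat_lit 0) (XT.lf (nat_lit 0) (nat_lit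 7308529243) (nat_lit 304) (nat_lit 4056395859) (nat_lit 0) (nat_lit 710509086) (nat_lit 72) (nat_lit 5) (nat_lit 76) (nat_lit 4) (nat_lit 72) (nat_lit 4) (nat_lit 625) (nat_lit 474) (nat_lit 461)) (XT.nd (nat_lit 78) (nat_lit 152) (nat_lit 0) (XT.lf (nat_lit 0) (nat_lit 574944923) (nat_lit 304) (nat_lit 5877265003) (nat_lit 76) (nat_lit 5746321129) (nat_lit 68) (nat_lit 5) (nat_lit 72) (nat_lit 5) (nat_lit 69) (nat_lit 4) (nat_lit 626) (nat_lit 474) (nat_lit 460)) (XT.lf (nat_lit 0) (nat_lit 4540027328) (nat_lit 152) (nat_lit 1405851282) (nat_lit 228) (nat_lit 6377861623) (nat_lit 66) (nat_lit 5) (nat_lit 68) (nat_lit 5) (nat_lit 69) (nat_lit 4) (nat_lit 627) (nat_lit 474) (nat_lit 459)))) (XT.nd (nat_lit 156) (nat_lit 304) (nat_lit 0) (XT.nd (nat_lit 78) (nat_lit 228) (nat_lit 0) (XT.lf (nat_lit 0) (nat_lit 2679341077) (nat_lit 228) (nat_lit 8755641290) (nat_lit 228) (nat_lit 1016258232) (nat_lit 63) (nat_lit 4) (nat_lit 66) (nat_lit 5) (nat_lit 66) (nat_lit 4)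 (nat_lit 628) (nat_lit 474) (nat_lit 458)) (XT.lf (nat_lit 0) (nat_lit 721795961) (nat_lit 152) (nat_lit 3668429953) (nat_lit 228) (nat_lit 8190567927) (nat_lit 60) (nat_lit 5) (nat_lit 62) (nat_lit 5) (nat_lit 63) (nat_lit 4) (nat_lit 629) (nat_lit 474) (nat_lit 457))) (XT.nd (nat_lit 78) (nat_lit 304) (nat_lit 0) (XT.lf (nat_lit 0) (nat_lit 9896807012) (nat_lit 228) (nat_lit 1297076078) (nat_lit 0) (nat_lit 1518811123) (nat_lit 60) (nat_lit 5) (nat_lit 63) (nat_lit 4) (nat_lit 60) (nat_lit 4) (nat_lit 630) (nat_lit 474) (nat_lit 456)) (XT.lf (nat_lit 0) (nat_lit 2648149958) (nat_lit 304) (nat_lit 3412331032) (nat_lit 76) (nat_lit 6786070585) (nat_lit 56) (nat_lit 5) (nat_lit 60) (nat_lit 5) (nat_lit 57) (nat_lit 4) (nat_lit 631) (nat_lit 474) (nat_lit 455))))) (XT.nd (nat_lit 234) (nat_lit 608) (nat_lit 0) (XT.nd (nat_lit 78) (nat_lit 456) (nat_lit 0) (XT.lf (nat_lit 0) (nat_lit 7368885768) (nat_lit 152) (nat_lit 802676728) (nat_lit 228) (nat_lit 4811397142)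 (nat_lit 54) (nat_lit 5) (nat_lit 56) (nat_lit 5) (nat_lit 57) (nat_lit 4) (nat_lit 632) (nat_lit 474) (nat_lit 454)) (XT.nd (nat_lit 78) (nat_lit 152) (nat_lit 0) (XT.lf (nat_lit 0) (nat_lit 692306918) (nat_lit 304) (nat_lit 7921513510) (nat_lit 76) (nat_lit 4507830001) (nat_lit 50) (nat_lit 5) (nat_lit 54) (nat_lit 5) (nat_lit 51) (nat_lit 4) (nat_lit 633) (nat_lit 474) (nat_lit 453)) (XT.lf (nat_lit 0) (nat_lit 2921092929) (nat_lit 152) (nat_lit 3314279212) (nat_lit 228) (nat_lit 7027234292) (nat_lit 48) (nat_lit 5) (nat_lit 50) (nat_lit 5) (nat_lit 51) (nat_lit 4) (nat_lit 634) (nat_lit 474) (nat_lit 452)))) (XT.nd (nat_lit 156) (nat_lit 380) (nat_lit 0) (XT.nd (nat_lit 78) (nat_lit 76) (nat_lit 0) (XT.lf (nat_lit 0) (nat_lit 551570088) (nat_lit 152) (nat_lit 11340028363) (nat_lit 152) (nat_lit 1514738777) (nat_lit 46) (nat_lit 4) (nat_lit 48) (nat_lit 5) (nat_lit 48) (nat_lit 4) (nat_lit 635) (nat_lit 474) (nat_lit 451)) (XT.lf (nat_lit 0) (nat_lit 4077653836)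 (nat_lit 228) (nat_lit 1922374029) (nat_lit 76) (nat_lit 7551912449) (nat_lit 45) (nat_lit 5) (nat_lit 48) (nat_lit 5) (nat_lit 46) (nat_lit 4) (nat_lit 636) (nat_lit 474) (nat_lit 450))) (XT.nd (nat_lit 78) (nat_lit 228) (nat_lit 0) (XT.lf (nat_lit 0) (nat_lit 9217528771) (nat_lit 152) (nat_lit 537006278) (nat_lit 228) (nat_lit 3945863273) (nat_lit 43) (nat_lit 5) (nat_lit 45) (nat_lit 5) (nat_lit 46) (nat_lit 4) (nat_lit 637) (nat_lit 474) (nat_lit 449)) (XT.lf (nat_lit 0) (nat_lit 1693394436) (nat_lit 228) (nat_lit 7175039045) (nat_lit 76) (nat_lit 4982724224) (nat_lit 40) (nat_lit 5) (nat_lit 43) (nat_lit 5) (nat_lit 41) (nat_lit 4) (nat_lit 638) (nat_lit 474) (nat_lit 448)))))) (XT.nd (nat_lit 546) (nat_lit 684) (nat_lit 0) (XT.nd (nat_lit 234) (nat_lit 608) (nat_lit 0) (XT.nd (nat_lit 78) (nat_lit 228) (nat_lit 0) (XT.lf (nat_lit 0) (nat_lit 4015244053) (nat_lit 152) (nat_lit 3370624066) (nat_lit 228) (nat_lit 6618678677) (nat_lit 38) (nat_lit 5) (nat_lit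 40) (nat_lit 5) (nat_lit 41) (nat_lit 4) (nat_lit 639) (nat_lit 474) (nat_lit 447)) (XT.nd (nat_lit 78) (nat_lit 76) (nat_lit 0) (XT.lf (nat_lit 0) (nat_lit 1245630763) (nat_lit 152) (nat_lit 11951109337) (nat_lit 152) (nat_lit 964174042) (nat_lit 36) (nat_lit 4) (nat_lit 38) (nat_lit 5) (nat_lit 38) (nat_lit 4) (nat_lit 640) (nat_lit 474) (nat_lit 446)) (XT.lf (nat_lit 0) (nat_lit 4763767955) (nat_lit 228) (nat_lit 1654843413) (nat_lit 76) (nat_lit 7900708222) (nat_lit 35) (nat_lit 5) (nat_lit 38) (nat_lit 5) (nat_lit 36) (nat_lit 4) (nat_lit 641) (nat_lit 474) (nat_lit 445)))) (XT.nd (nat_lit 156) (nat_lit 228) (nat_lit 0) (XT.nd (nat_lit 78) (nat_lit 228) (nat_lit 0) (XT.lf (nat_lit 0) (nat_lit 9833294463) (nat_lit 152) (nat_lit 758768979) (nat_lit 228) (nat_lit 3888729509) (nat_lit 33) (nat_lit 5) (nat_lit 35) (nat_lit 5) (nat_lit 36) (nat_lit 4) (nat_lit 642) (nat_lit 474) (nat_lit 444)) (XT.lf (nat_lit 0) (nat_lit 1890082240) (nat_lit 228) (nat_lit 7791939844)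 (nat_lit 76) (nat_lit 4962760208) (nat_lit 30) (nat_lit 5) (nat_lit 33) (nat_lit 5) (nat_lit 31) (nat_lit 4) (nat_lit 643) (nat_lit 474) (nat_lit 443))) (XT.nd (nat_lit 78) (nat_lit 152) (nat_lit 0) (XT.lf (nat_lit 0) (nat_lit 3732413584) (nat_lit 76) (nat_lit 3995754401) (nat_lit 152) (nat_lit 7083455276) (nat_lit 29) (nat_lit 5) (nat_lit 30) (nat_lit 5) (nat_lit 31) (nat_lit 4) (nat_lit 644) (nat_lit 474) (nat_lit 442)) (XT.lf (nat_lit 0) (nat_lit 485979311) (nat_lit 152) (nat_lit 13199746774) (nat_lit 152) (nat_lit 1296022015) (nat_lit 27) (nat_lit 4) (nat_lit 29) (nat_lit 5) (nat_lit 29) (nat_lit 4) (nat_lit 645) (nat_lit 474) (nat_lit 441))))) (XT.nd (nat_lit 234) (nat_lit 304) (nat_lit 0) (XT.nd (nat_lit 78) (nat_lit 304) (nat_lit 0) (XT.lf (nat_lit 0) (nat_lit 4583311037) (nat_lit 228) (nat_lit 2898525186) (nat_lit 76) (nat_lit 7672110675) (nat_lit 26) (nat_lit 5) (nat_lit 29) (nat_lit 5) (nat_lit 27) (nat_lit 4) (nat_lit 646) (nat_lit 474) (nat_lit 440))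 (XT.nd (nat_lit 78) (nat_lit 228) (nat_lit 0) (XT.lf (nat_lit 0) (nat_lit 8920919706) (nat_lit 76) (nat_lit 1636436425) (nat_lit 152) (nat_lit 4772173814) (nat_lit 25) (nat_lit 5) (nat_lit 26) (nat_lit 5) (nat_lit 27) (nat_lit 4) (nat_lit 647) (nat_lit 474) (nat_lit 439)) (XT.lf (nat_lit 0) (nat_lit 1147014125) (nat_lit 228) (nat_lit 10083228191) (nat_lit 76) (nat_lit 4277840403) (nat_lit 22) (nat_lit 5) (nat_lit 25) (nat_lit 5) (nat_lit 23) (nat_lit 4) (nat_lit 648) (nat_lit 474) (nat_lit 438)))) (XT.nd (nat_lit 156) (nat_lit 228) (nat_lit 0) (XT.nd (nat_lit 78) (nat_lit 0) (nat_lit 0) (XT.lf (nat_lit 0) (nat_lit 1754442576) (nat_lit 76) (nat_lit 5368554532) (nat_lit 152) (nat_lit 8566533468) (nat_lit 21) (nat_lit 5) (nat_lit 22) (nat_lit 5) (nat_lit 23) (nat_lit 4) (nat_lit 649) (nat_lit 474) (nat_lit 437)) (XT.lf (nat_lit 0) (nat_lit 13227428669) (nat_lit 152) (nat_lit 2030593981) (nat_lit 0) (nat_lit 616407260) (nat_lit 21) (nat_lit 5) (nat_lit 23) (nat_lit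 4) (nat_lit 21) (nat_lit 4) (nat_lit 650) (nat_lit 474) (nat_lit 436))) (XT.nd (nat_lit 78000) (nat_lit 0) (nat_lit 7904) (XT.lf (nat_lit 0) (nat_lit 3385881258) (nat_lit 228) (nat_lit 5991870229) (nat_lit 76) (nat_lit 6684047835) (nat_lit 18) (nat_lit 5) (nat_lit 21) (nat_lit 5) (nat_lit 19) (nat_lit 4) (nat_lit 651) (nat_lit 474) (nat_lit 435)) (XT.lf (nat_lit 0) (nat_lit 2556206382) (nat_lit 304) (nat_lit 1337690209) (nat_lit 304) (nat_lit 1337690209) (nat_lit 122) (nat_lit 4) (nat_lit 126) (nat_lit 5) (nat_lit 126) (nat_lit 4) (nat_lit 610) (nat_lit 475) (nat_lit 475))))))))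
noncomputable def xc8 : XT := (XT.nd (nat_lit 2106) (nat_lit 1900) (nat_lit 0) (XT.nd (nat_lit 1014) (nat_lit 2736) (nat_lit 0) (XT.nd (nat_lit 468) (nat_lit 1672) (nat_lit 0) (XT.nd (nat_lit 234) (nat_lit 608) (nat_lit 0) (XT.nd (nat_lit 78) (nat_lit 608) (nat_lit 0) (XT.lf (nat_lit 0) (nat_lit 2338058463) (nat_lit 380) (nat_lit 6537211612) (nat_lit 0) (nat_lit 1683300124) (nat_lit 117) (nat_lit 5) (nat_lit 122) (nat_lit 4) (nat_lit 117) (nat_lit 4) (nat_lit 611) (nat_lit 475) (nat_lit 474)) (XT.nd (nat_lit 78) (nat_lit 304) (nat_lit 0) (XT.lf (nat_lit 0) (nat_lit 2874849860) (nat_lit 304) (nat_lit 4538700229) (nat_lit 304) (nat_lit 3242021950) (nat_lit 113) (nat_lit 4) (nat_lit 117) (nat_lit 5) (nat_lit 117) (nat_lit 4) (nat_lit 612) (nat_lit 475) (nat_lit 473)) (XT.lf (nat_lit 0) (nat_lit 1694494738) (nat_lit 228) (nat_lit 97835108) (nat_lit 304) (nat_lit 8962341228) (nat_lit 109) (nat_lit 5) (nat_lit 112) (nat_lit 5) (nat_lit 113) (nat_lit 4) (nat_lit 613)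 (nat_lit 475) (nat_lit 472)))) (XT.nd (nat_lit 78) (nat_lit 304) (nat_lit 0) (XT.lf (nat_lit 0) (nat_lit 439169992) (nat_lit 304) (nat_lit 6454551654) (nat_lit 304) (nat_lit 3961409536) (nat_lit 105) (nat_lit 4) (nat_lit 109) (nat_lit 5) (nat_lit 109) (nat_lit 4) (nat_lit 614) (nat_lit 475) (nat_lit 471)) (XT.nd (nat_lit 78) (nat_lit 228) (nat_lit 0) (XT.lf (nat_lit 0) (nat_lit 1112139059) (nat_lit 380) (nat_lit 839656016) (nat_lit 76) (nat_lit 9005909417) (nat_lit 104) (nat_lit 5) (nat_lit 109) (nat_lit 5) (nat_lit 105) (nat_lit 4) (nat_lit 615) (nat_lit 475) (nat_lit 470)) (XT.lf (nat_lit 0) (nat_lit 6236441666) (nat_lit 304) (nat_lit 2184548681) (nat_lit 0) (nat_lit 2640771485) (nat_lit 101) (nat_lit 5) (nat_lit 105) (nat_lit 4) (nat_lit 101) (nat_lit 4) (nat_lit 616) (nat_lit 475) (nat_lit 469))))) (XT.nd (nat_lit 234) (nat_lit 836) (nat_lit 0) (XT.nd (nat_lit 78) (nat_lit 456) (nat_lit 0) (XT.lf (nat_lit 0) (nat_lit 286784102) (nat_lit 380) (nat_lit 3575196232)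 (nat_lit 76) (nat_lit 7305977768) (nat_lit 96) (nat_lit 5) (nat_lit 101) (nat_lit 5) (nat_lit 97) (nat_lit 4) (nat_lit 617) (nat_lit 475) (nat_lit 468)) (XT.nd (nat_lit 78) (nat_lit 228) (nat_lit 0) (XT.lf (nat_lit 0) (nat_lit 5424839942) (nat_lit 304) (nat_lit 5036365945) (nat_lit 0) (nat_lit 814670720) (nat_lit 93) (nat_lit 5) (nat_lit 97) (nat_lit 4) (nat_lit 93) (nat_lit 4) (nat_lit 618) (nat_lit 475) (nat_lit 467)) (XT.lf (nat_lit 0) (nat_lit 4826661932) (nat_lit 228) (nat_lit 5847941178) (nat_lit 228) (nat_lit 711174024) (nat_lit 90) (nat_lit 4) (nat_lit 93) (nat_lit 5) (nat_lit 93) (nat_lit 4) (nat_lit 619) (nat_lit 475) (nat_lit 466)))) (XT.nd (nat_lit 156) (nat_lit 304) (nat_lit 0) (XT.nd (nat_lit 78) (nat_lit 228) (nat_lit 0) (XT.lf (nat_lit 0) (nat_lit 3347733712) (nat_lit 228) (nat_lit 1108094677) (nat_lit 304) (nat_lit 7041785854) (nat_lit 86) (nat_lit 5) (nat_lit 89) (nat_lit 5) (nat_lit 90) (nat_lit 4) (nat_lit 620) (nat_lit 475) (nat_lit 465)) (XT.lf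 (nat_lit 0) (nat_lit 1800421015) (nat_lit 228) (nat_lit 7924713241) (nat_lit 228) (nat_lit 1886292528) (nat_lit 83) (nat_lit 4) (nat_lit 86) (nat_lit 5) (nat_lit 86) (nat_lit 4) (nat_lit 621) (nat_lit 475) (nat_lit 464))) (XT.nd (nat_lit 78) (nat_lit 0) (nat_lit 0) (XT.lf (nat_lit 0) (nat_lit 181616480) (nat_lit 228) (nat_lit 3138449006) (nat_lit 304) (nat_lit 8407174854) (nat_lit 79) (nat_lit 5) (nat_lit 82) (nat_lit 5) (nat_lit 83) (nat_lit 4) (nat_lit 622) (nat_lit 475) (nat_lit 463)) (XT.lf (nat_lit 0) (nat_lit 8611576335) (nat_lit 304) (nat_lit 1486424924) (nat_lit 0) (nat_lit 1746996164) (nat_lit 79) (nat_lit 5) (nat_lit 83) (nat_lit 4) (nat_lit 79) (nat_lit 4) (nat_lit 623) (nat_lit 475) (nat_lit 462)))))) (XT.nd (nat_lit 546) (nat_lit 1292) (nat_lit 0) (XT.nd (nat_lit 234) (nat_lit 608) (nat_lit 0) (XT.nd (nat_lit 78) (nat_lit 532) (nat_lit 0) (XT.lf (nat_lit 0) (nat_lit 2024679661) (nat_lit 304) (nat_lit 3233162443) (nat_lit 76) (nat_lit 6706850810) (nat_lit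 75) (nat_lit 5) (nat_lit 79) (nat_lit 5) (nat_lit 76) (nat_lit 4) (nat_lit 624) (nat_lit 475) (nat_lit 461)) (XT.nd (nat_lit 78) (nat_lit 304) (nat_lit 0) (XT.lf (nat_lit 0) (nat_lit 7035328567) (nat_lit 228) (nat_lit 295260636) (nat_lit 304) (nat_lit 4756048965) (nat_lit 72) (nat_lit 5) (nat_lit 75) (nat_lit 5) (nat_lit 76) (nat_lit 4) (nat_lit 625) (nat_lit 475) (nat_lit 460)) (XT.lf (nat_lit 0) (nat_lit 542072627) (nat_lit 304) (nat_lit 6957067425) (nat_lit 76) (nat_lit 4711466317) (nat_lit 68) (nat_lit 5) (nat_lit 72) (nat_lit 5) (nat_lit 69) (nat_lit 4) (nat_lit 626) (nat_lit 475) (nat_lit 459)))) (XT.nd (nat_lit 156) (nat_lit 228) (nat_lit 0) (XT.nd (nat_lit 78) (nat_lit 228) (nat_lit 0) (XT.lf (nat_lit 0) (nat_lit 3384062453) (nat_lit 152) (nat_lit 2487046377) (nat_lit 228) (nat_lit 6465545672) (nat_lit 66) (nat_lit 5) (nat_lit 68) (nat_lit 5) (nat_lit 69) (nat_lit 4) (nat_lit 627) (nat_lit 475) (nat_lit 458)) (XT.lf (nat_lit 0) (nat_lit 1440117463) (nat_lit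 228) (nat_lit 9870746147) (nat_lit 228) (nat_lit 1154279224) (nat_lit 63) (nat_lit 4) (nat_lit 66) (nat_lit 5) (nat_lit 66) (nat_lit 4) (nat_lit 628) (nat_lit 475) (nat_lit 457))) (XT.nd (nat_lit 78) (nat_lit 152) (nat_lit 0) (XT.lf (nat_lit 0) (nat_lit 4215097335) (nat_lit 304) (nat_lit 601065726) (nat_lit 76) (nat_lit 7779330240) (nat_lit 62) (nat_lit 5) (nat_lit 66) (nat_lit 5) (nat_lit 63) (nat_lit 4) (nat_lit 629) (nat_lit 475) (nat_lit 456)) (XT.lf (nat_lit 0) (nat_lit 9676117272) (nat_lit 228) (nat_lit 2696495168) (nat_lit 0) (nat_lit 355693386) (nat_lit 60) (nat_lit 5) (nat_lit 63) (nat_lit 4) (nat_lit 60) (nat_lit 4) (nat_lit 630) (nat_lit 475) (nat_lit 455))))) (XT.nd (nat_lit 234) (nat_lit 532) (nat_lit 0) (XT.nd (nat_lit 78) (nat_lit 456) (nat_lit 0) (XT.lf (nat_lit 0) (nat_lit 2371600222) (nat_lit 304) (nat_lit 4905867964) (nat_lit 76) (nat_lit 5585593528) (nat_lit 56) (nat_lit 5) (nat_lit 60) (nat_lit 5) (nat_lit 57) (nat_lit 4) (nat_lit 631) (nat_lit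 475) (nat_lit 454)) (XT.nd (nat_lit 78) (nat_lit 304) (nat_lit 0) (XT.lf (nat_lit 0) (nat_lit 5794584185) (nat_lit 152) (nat_lit 2056795555) (nat_lit 228) (nat_lit 5148963574) (nat_lit 54) (nat_lit 5) (nat_lit 56) (nat_lit 5) (nat_lit 57) (nat_lit 4) (nat_lit 632) (nat_lit 475) (nat_lit 453)) (XT.lf (nat_lit 0) (nat_lit 306547153) (nat_lit 304) (nat_lit 9603006034) (nat_lit 76) (nat_lit 3230578004) (nat_lit 50) (nat_lit 5) (nat_lit 54) (nat_lit 5) (nat_lit 51) (nat_lit 4) (nat_lit 633) (nat_lit 475) (nat_lit 452)))) (XT.nd (nat_lit 156) (nat_lit 380) (nat_lit 0) (XT.nd (nat_lit 78) (nat_lit 0) (nat_lit 0) (XT.lf (nat_lit 0) (nat_lit 1156193507) (nat_lit 152) (nat_lit 4648688359) (nat_lit 228) (nat_lit 7477100764) (nat_lit 48) (nat_lit 5) (nat_lit 50) (nat_lit 5) (nat_lit 51) (nat_lit 4) (nat_lit 634) (nat_lit 475) (nat_lit 451)) (XT.lf (nat_lit 0) (nat_lit 11415680884) (nat_lit 228) (nat_lit 1291625682) (nat_lit 0) (nat_lit 719316214) (nat_lit 48) (nat_lit 5) (nat_lit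 51) (nat_lit 4) (nat_lit 48) (nat_lit 4) (nat_lit 635) (nat_lit 475) (nat_lit 450))) (XT.nd (nat_lit 78) (nat_lit 152) (nat_lit 0) (XT.lf (nat_lit 0) (nat_lit 3546265008) (nat_lit 228) (nat_lit 3860306601) (nat_lit 76) (nat_lit 6166553339) (nat_lit 45) (nat_lit 5) (nat_lit 48) (nat_lit 5) (nat_lit 46) (nat_lit 4) (nat_lit 636) (nat_lit 475) (nat_lit 449)) (XT.lf (nat_lit 0) (nat_lit 7193845200) (nat_lit 152) (nat_lit 1983672034) (nat_lit 228) (nat_lit 4544979063) (nat_lit 43) (nat_lit 5) (nat_lit 45) (nat_lit 5) (nat_lit 46) (nat_lit 4) (nat_lit 637) (nat_lit 475) (nat_lit 448))))))) (XT.nd (nat_lit 1014) (nat_lit 228) (nat_lit 0) (XT.nd (nat_lit 468) (nat_lit 684) (nat_lit 0) (XT.nd (nat_lit 234) (nat_lit 608) (nat_lit 0) (XT.nd (nat_lit 78) (nat_lit 152) (nat_lit 0) (XT.lf (nat_lit 0) (nat_lit 1046179847) (nat_lit 228) (nat_lit 9317524188) (nat_lit 76) (nat_lit 3510749303) (nat_lit 40) (nat_lit 5) (nat_lit 43) (nat_lit 5) (nat_lit 41) (nat_lit 4) (nat_lit 638)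 (nat_lit 475) (nat_lit 447)) (XT.nd (nat_lit 78) (nat_lit 0) (nat_lit 0) (XT.lf (nat_lit 0) (nat_lit 1784163792) (nat_lit 152) (nat_lit 4907636071) (nat_lit 228) (nat_lit 7336980357) (nat_lit 38) (nat_lit 5) (nat_lit 40) (nat_lit 5) (nat_lit 41) (nat_lit 4) (nat_lit 639) (nat_lit 475) (nat_lit 446)) (XT.lf (nat_lit 0) (nat_lit 12452314849) (nat_lit 228) (nat_lit 1075452876) (nat_lit 0) (nat_lit 658387684) (nat_lit 38) (nat_lit 5) (nat_lit 41) (nat_lit 4) (nat_lit 38) (nat_lit 4) (nat_lit 640) (nat_lit 475) (nat_lit 445)))) (XT.nd (nat_lit 78) (nat_lit 380) (nat_lit 0) (XT.lf (nat_lit 0) (nat_lit 3964820379) (nat_lit 228) (nat_lit 4070009006) (nat_lit 76) (nat_lit 6310619600) (nat_lit 35) (nat_lit 5) (nat_lit 38) (nat_lit 5) (nat_lit 36) (nat_lit 4) (nat_lit 641) (nat_lit 475) (nat_lit 444)) (XT.nd (nat_lit 78) (nat_lit 228) (nat_lit 0) (XT.lf (nat_lit 0) (nat_lit 7326972698) (nat_lit 152) (nat_lit 2418249713) (nat_lit 228) (nat_lit 4762658468) (nat_lit 33) (nat_lit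 5) (nat_lit 35) (nat_lit 5) (nat_lit 36) (nat_lit 4) (nat_lit 642) (nat_lit 475) (nat_lit 443)) (XT.lf (nat_lit 0) (nat_lit 967918075) (nat_lit 228) (nat_lit 10429440727) (nat_lit 76) (nat_lit 3275819476) (nat_lit 30) (nat_lit 5) (nat_lit 33) (nat_lit 5) (nat_lit 31) (nat_lit 4) (nat_lit 643) (nat_lit 475) (nat_lit 442))))) (XT.nd (nat_lit 234) (nat_lit 380) (nat_lit 0) (XT.nd (nat_lit 78) (nat_lit 228) (nat_lit 0) (XT.lf (nat_lit 0) (nat_lit 1000692361) (nat_lit 76) (nat_lit 5756060662) (nat_lit 152) (nat_lit 8084251866) (nat_lit 29) (nat_lit 5) (nat_lit 30) (nat_lit 5) (nat_lit 31) (nat_lit 4) (nat_lit 644) (nat_lit 475) (nat_lit 441)) (XT.nd (nat_lit 78) (nat_lit 228) (nat_lit 0) (XT.lf (nat_lit 0) (nat_lit 12668279810) (nat_lit 152) (nat_lit 2328529822) (nat_lit 0) (nat_lit 15241335) (nat_lit 29) (nat_lit 5) (nat_lit 31) (nat_lit 4) (nat_lit 29) (nat_lit 4) (nat_lit 645) (nat_lit 475) (nat_lit 440)) (XT.lf (nat_lit 0) (nat_lit 3502467915) (nat_lit 228) (nat_lit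 5826179483) (nat_lit 76) (nat_lit 5856675717) (nat_lit 26) (nat_lit 5) (nat_lit 29) (nat_lit 5) (nat_lit 27) (nat_lit 4) (nat_lit 646) (nat_lit 475) (nat_lit 439)))) (XT.nd (nat_lit 156) (nat_lit 152) (nat_lit 0) (XT.nd (nat_lit 78) (nat_lit 152) (nat_lit 0) (XT.lf (nat_lit 0) (nat_lit 5896248150) (nat_lit 76) (nat_lit 3529827989) (nat_lit 152) (nat_lit 5935839339) (nat_lit 25) (nat_lit 5) (nat_lit 26) (nat_lit 5) (nat_lit 27) (nat_lit 4) (nat_lit 647) (nat_lit 475) (nat_lit 438)) (XT.lf (nat_lit 0) (nat_lit 2289150116) (nat_lit 152) (nat_lit 13186622533) (nat_lit 152) (nat_lit 66115859) (nat_lit 23) (nat_lit 4) (nat_lit 25) (nat_lit 5) (nat_lit 25) (nat_lit 4) (nat_lit 648) (nat_lit 475) (nat_lit 437))) (XT.nd (nat_lit 78) (nat_lit 76) (nat_lit 0) (XT.lf (nat_lit 0) (nat_lit 5868636911) (nat_lit 228) (nat_lit 1495090366) (nat_lit 76) (nat_lit 8360460164) (nat_lit 22) (nat_lit 5) (nat_lit 25) (nat_lit 5) (nat_lit 23) (nat_lit 4) (nat_lit 649) (nat_lit 475) (nat_lit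 436)) (XT.lf (nat_lit 0) (nat_lit 10521506169) (nat_lit 76) (nat_lit 1407196127) (nat_lit 152) (nat_lit 3981272337) (nat_lit 21) (nat_lit 5) (nat_lit 22) (nat_lit 5) (nat_lit 23) (nat_lit 4) (nat_lit 650) (nat_lit 475) (nat_lit 435)))))) (XT.nd (nat_lit 78312) (nat_lit 0) (nat_lit 5168) (XT.nd (nat_lit 78000) (nat_lit 0) (nat_lit 6916) (XT.nd (nat_lit 77844) (nat_lit 0) (nat_lit 8208) (XT.lf (nat_lit 0) (nat_lit 2007116049) (nat_lit 228) (nat_lit 9469940710) (nat_lit 76) (nat_lit 4621700924) (nat_lit 18) (nat_lit 5) (nat_lit 21) (nat_lit 5) (nat_lit 19) (nat_lit 4) (nat_lit 651) (nat_lit 475) (nat_lit 434)) (XT.nd (nat_lit 78) (nat_lit 380) (nat_lit 0) (XT.lf (nat_lit 0) (nat_lit 3614957352) (nat_lit 304) (nat_lit 761776022) (nat_lit 304) (nat_lit 761776022) (nat_lit 131) (nat_lit 4) (nat_lit 135) (nat_lit 5) (nat_lit 135) (nat_lit 4) (nat_lit 608) (nat_lit 476) (nat_lit 476)) (XT.lf (nat_lit 0) (nat_lit 3420227860) (nat_lit 380) (nat_lit 4210290967) (nat_lit 0)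 (nat_lit 2739017285) (nat_lit 126) (nat_lit 5) (nat_lit 131) (nat_lit 4) (nat_lit 126) (nat_lit 4) (nat_lit 609) (nat_lit 476) (nat_lit 475)))) (XT.nd (nat_lit 156) (nat_lit 608) (nat_lit 0) (XT.nd (nat_lit 78) (nat_lit 380) (nat_lit 0) (XT.lf (nat_lit 0) (nat_lit 5050966321) (nat_lit 304) (nat_lit 3381006795) (nat_lit 304) (nat_lit 2031942714) (nat_lit 122) (nat_lit 4) (nat_lit 126) (nat_lit 5) (nat_lit 126) (nat_lit 4) (nat_lit 610) (nat_lit 476) (nat_lit 474)) (XT.lf (nat_lit 0) (nat_lit 2930958397) (nat_lit 380) (nat_lit 6662687400) (nat_lit 0) (nat_lit 966426613) (nat_lit 117) (nat_lit 5) (nat_lit 122) (nat_lit 4) (nat_lit 117) (nat_lit 4) (nat_lit 611) (nat_lit 476) (nat_lit 473))) (XT.nd (nat_lit 78) (nat_lit 304) (nat_lit 0) (XT.lf (nat_lit 0) (nat_lit 2685998500) (nat_lit 304) (nat_lit 5282847209) (nat_lit 304) (nat_lit 2688982151) (nat_lit 113) (nat_lit 4) (nat_lit 117) (nat_lit 5) (nat_lit 117) (nat_lit 4) (nat_lit 612) (nat_lit 476) (nat_lit 472)) (XT.lf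 (nat_lit 0) (nat_lit 1435417058) (nat_lit 228) (nat_lit 864719339) (nat_lit 304) (nat_lit 8457479751) (nat_lit 109) (nat_lit 5) (nat_lit 112) (nat_lit 5) (nat_lit 113) (nat_lit 4) (nat_lit 613) (nat_lit 476) (nat_lit 471))))) (XT.nd (nat_lit 234) (nat_lit 1140) (nat_lit 0) (XT.nd (nat_lit 78) (nat_lit 304) (nat_lit 0) (XT.lf (nat_lit 0) (nat_lit 116755789) (nat_lit 304) (nat_lit 7241560697) (nat_lit 304) (nat_lit 3500625440) (nat_lit 105) (nat_lit 4) (nat_lit 109) (nat_lit 5) (nat_lit 109) (nat_lit 4) (nat_lit 614) (nat_lit 476) (nat_lit 470)) (XT.nd (nat_lit 78) (nat_lit 228) (nat_lit 0) (XT.lf (nat_lit 0) (nat_lit 1530816236) (nat_lit 380) (nat_lit 1230093126) (nat_lit 76) (nat_lit 8201268694) (nat_lit 104) (nat_lit 5) (nat_lit 109) (nat_lit 5) (nat_lit 105) (nat_lit 4) (nat_lit 615) (nat_lit 476) (nat_lit 469)) (XT.lf (nat_lit 0) (nat_lit 6611365721) (nat_lit 304) (nat_lit 2640800429) (nat_lit 0) (nat_lit 1814945662) (nat_lit 101) (nat_lit 5) (nat_lit 105) (nat_lit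 4) (nat_lit 101) (nat_lit 4) (nat_lit 616) (nat_lit 476) (nat_lit 468)))) (XT.nd (nat_lit 156) (nat_lit 532) (nat_lit 0) (XT.nd (nat_lit 78) (nat_lit 228) (nat_lit 0) (XT.lf (nat_lit 0) (nat_lit 612646721) (nat_lit 380) (nat_lit 4106746169) (nat_lit 76) (nat_lit 6454645790) (nat_lit 96) (nat_lit 5) (nat_lit 101) (nat_lit 5) (nat_lit 97) (nat_lit 4) (nat_lit 617) (nat_lit 476) (nat_lit 467)) (XT.lf (nat_lit 0) (nat_lit 5645322629) (nat_lit 228) (nat_lit 60986809) (nat_lit 304) (nat_lit 5576536885) (nat_lit 93) (nat_lit 5) (nat_lit 96) (nat_lit 5) (nat_lit 97) (nat_lit 4) (nat_lit 618) (nat_lit 476) (nat_lit 466))) (XT.nd (nat_lit 78) (nat_lit 304) (nat_lit 0) (XT.lf (nat_lit 0) (nat_lit 4156734166) (nat_lit 228) (nat_lit 6759590897) (nat_lit 228) (nat_lit 477217987) (nat_lit 90) (nat_lit 4) (nat_lit 93) (nat_lit 5) (nat_lit 93) (nat_lit 4) (nat_lit 619) (nat_lit 476) (nat_lit 465)) (XT.lf (nat_lit 0) (nat_lit 2598243319) (nat_lit 228) (nat_lit 2048670404) (nat_lit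 304) (nat_lit 6859233306) (nat_lit 86) (nat_lit 5) (nat_lit 89) (nat_lit 5) (nat_lit 90) (nat_lit 4) (nat_lit 620) (nat_lit 476) (nat_lit 464))))))))
noncomputable def xc9 : XT := (XT.nd (nat_lit 2106) (nat_lit 532) (nat_lit 0) (XT.nd (nat_lit 1014) (nat_lit 1976) (nat_lit 0) (XT.nd (nat_lit 468) (nat_lit 1292) (nat_lit 0) (XT.nd (nat_lit 234) (nat_lit 836) (nat_lit 0) (XT.nd (nat_lit 78) (nat_lit 304) (nat_lit 0) (XT.lf (nat_lit 0) (nat_lit 977127688) (nat_lit 228) (nat_lit 8892833717) (nat_lit 228) (nat_lit 1750924507) (nat_lit 83) (nat_lit 4) (nat_lit 86) (nat_lit 5) (nat_lit 86) (nat_lit 4) (nat_lit 621) (nat_lit 476) (nat_lit 463)) (XT.nd (nat_lit 78) (nat_lit 228) (nat_lit 0) (XT.lf (nat_lit 0) (nat_lit 3417735005) (nat_lit 304) (nat_lit 715040469) (nat_lit 76) (nat_lit 7604626010) (nat_lit 82) (nat_lit 5) (nat_lit 86) (nat_lit 5) (nat_lit 83) (nat_lit 4) (nat_lit 622) (nat_lit 476) (nat_lit 462)) (XT.lf (nat_lit 0) (nat_lit 8663433361) (nat_lit 304) (nat_lit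 2457120062) (nat_lit 0) (nat_lit 735522504) (nat_lit 79) (nat_lit 5) (nat_lit 83) (nat_lit 4) (nat_lit 79) (nat_lit 4) (nat_lit 623) (nat_lit 476) (nat_lit 461)))) (XT.nd (nat_lit 78) (nat_lit 532) (nat_lit 0) (XT.lf (nat_lit 0) (nat_lit 2023932071) (nat_lit 304) (nat_lit 4289014336) (nat_lit 76) (nat_lit 5663640610) (nat_lit 75) (nat_lit 5) (nat_lit 79) (nat_lit 5) (nat_lit 76) (nat_lit 4) (nat_lit 624) (nat_lit 476) (nat_lit 460)) (XT.nd (nat_lit 78) (nat_lit 304) (nat_lit 0) (XT.lf (nat_lit 0) (nat_lit 5905017111) (nat_lit 228) (nat_lit 1383600623) (nat_lit 304) (nat_lit 4810740060) (nat_lit 72) (nat_lit 5) (nat_lit 75) (nat_lit 5) (nat_lit 76) (nat_lit 4) (nat_lit 625) (nat_lit 476) (nat_lit 459)) (XT.lf (nat_lit 0) (nat_lit 439070655) (nat_lit 304) (nat_lit 8181689461) (nat_lit 76) (nat_lit 3603554549) (nat_lit 68) (nat_lit 5) (nat_lit 72) (nat_lit 5) (nat_lit 69) (nat_lit 4) (nat_lit 626) (nat_lit 476) (nat_lit 458))))) (XT.nd (nat_lit 234) (nat_lit 836)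 (nat_lit 0) (XT.nd (nat_lit 78) (nat_lit 304) (nat_lit 0) (XT.lf (nat_lit 0) (nat_lit 2082565396) (nat_lit 152) (nat_lit 3643373444) (nat_lit 228) (nat_lit 6625268306) (nat_lit 66) (nat_lit 5) (nat_lit 68) (nat_lit 5) (nat_lit 69) (nat_lit 4) (nat_lit 627) (nat_lit 476) (nat_lit 457)) (XT.nd (nat_lit 78) (nat_lit 76) (nat_lit 0) (XT.lf (nat_lit 0) (nat_lit 53475956) (nat_lit 228) (nat_lit 11062095966) (nat_lit 228) (nat_lit 1365126955) (nat_lit 63) (nat_lit 4) (nat_lit 66) (nat_lit 5) (nat_lit 66) (nat_lit 4) (nat_lit 628) (nat_lit 476) (nat_lit 456)) (XT.lf (nat_lit 0) (nat_lit 3973454732) (nat_lit 304) (nat_lit 2061860469) (nat_lit 76) (nat_lit 6576433654) (nat_lit 62) (nat_lit 5) (nat_lit 66) (nat_lit 5) (nat_lit 63) (nat_lit 4) (nat_lit 629) (nat_lit 476) (nat_lit 455)))) (XT.nd (nat_lit 156) (nat_lit 380) (nat_lit 0) (XT.nd (nat_lit 78) (nat_lit 304) (nat_lit 0) (XT.lf (nat_lit 0) (nat_lit 8494417970) (nat_lit 152) (nat_lit 894817207) (nat_lit 228) (nat_lit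 3356231905) (nat_lit 60) (nat_lit 5) (nat_lit 62) (nat_lit 5) (nat_lit 63) (nat_lit 4) (nat_lit 630) (nat_lit 476) (nat_lit 454)) (XT.lf (nat_lit 0) (nat_lit 2022028039) (nat_lit 304) (nat_lit 6550712787) (nat_lit 76) (nat_lit 4308512828) (nat_lit 56) (nat_lit 5) (nat_lit 60) (nat_lit 5) (nat_lit 57) (nat_lit 4) (nat_lit 631) (nat_lit 476) (nat_lit 453))) (XT.nd (nat_lit 78) (nat_lit 228) (nat_lit 0) (XT.lf (nat_lit 0) (nat_lit 4068158348) (nat_lit 152) (nat_lit 3389683629) (nat_lit 228) (nat_lit 5561573448) (nat_lit 54) (nat_lit 5) (nat_lit 56) (nat_lit 5) (nat_lit 57) (nat_lit 4) (nat_lit 632) (nat_lit 476) (nat_lit 452)) (XT.lf (nat_lit 0) (nat_lit 1719439617) (nat_lit 228) (nat_lit 11284682656) (nat_lit 228) (nat_lit 156184854) (nat_lit 51) (nat_lit 4) (nat_lit 54) (nat_lit 5) (nat_lit 54) (nat_lit 4) (nat_lit 633) (nat_lit 476) (nat_lit 451)))))) (XT.nd (nat_lit 546) (nat_lit 988) (nat_lit 0) (XT.nd (nat_lit 234) (nat_lit 532) (nat_lit 0) (XT.nd (nat_lit 78)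 (nat_lit 380) (nat_lit 0) (XT.lf (nat_lit 0) (nat_lit 5304072249) (nat_lit 304) (nat_lit 754895956) (nat_lit 76) (nat_lit 7244013972) (nat_lit 50) (nat_lit 5) (nat_lit 54) (nat_lit 5) (nat_lit 51) (nat_lit 4) (nat_lit 634) (nat_lit 476) (nat_lit 450)) (XT.nd (nat_lit 78) (nat_lit 228) (nat_lit 0) (XT.lf (nat_lit 0) (nat_lit 10160012771) (nat_lit 152) (nat_lit 712799043) (nat_lit 228) (nat_lit 2575652495) (nat_lit 48) (nat_lit 5) (nat_lit 50) (nat_lit 5) (nat_lit 51) (nat_lit 4) (nat_lit 635) (nat_lit 476) (nat_lit 449)) (XT.lf (nat_lit 0) (nat_lit 2938618824) (nat_lit 228) (nat_lit 5956602076) (nat_lit 76) (nat_lit 4700826505) (nat_lit 45) (nat_lit 5) (nat_lit 48) (nat_lit 5) (nat_lit 46) (nat_lit 4) (nat_lit 636) (nat_lit 476) (nat_lit 448)))) (XT.nd (nat_lit 156) (nat_lit 152) (nat_lit 0) (XT.nd (nat_lit 78) (nat_lit 228) (nat_lit 0) (XT.lf (nat_lit 0) (nat_lit 5010870575) (nat_lit 152) (nat_lit 3512974322) (nat_lit 228) (nat_lit 5222495128) (nat_lit 43) (nat_lit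 5) (nat_lit 45) (nat_lit 5) (nat_lit 46) (nat_lit 4) (nat_lit 637) (nat_lit 476) (nat_lit 447)) (XT.lf (nat_lit 0) (nat_lit 320637577) (nat_lit 228) (nat_lit 11622713916) (nat_lit 76) (nat_lit 1956172508) (nat_lit 40) (nat_lit 5) (nat_lit 43) (nat_lit 5) (nat_lit 41) (nat_lit 4) (nat_lit 638) (nat_lit 476) (nat_lit 446))) (XT.nd (nat_lit 78) (nat_lit 152) (nat_lit 0) (XT.lf (nat_lit 0) (nat_lit 5922940270) (nat_lit 228) (nat_lit 602596250) (nat_lit 76) (nat_lit 7529181412) (nat_lit 40) (nat_lit 5) (nat_lit 43) (nat_lit 5) (nat_lit 41) (nat_lit 4) (nat_lit 639) (nat_lit 476) (nat_lit 445)) (XT.lf (nat_lit 0) (nat_lit 10662564447) (nat_lit 152) (nat_lit 981108539) (nat_lit 228) (nat_lit 2569216472) (nat_lit 38) (nat_lit 5) (nat_lit 40) (nat_lit 5) (nat_lit 41) (nat_lit 4) (nat_lit 640) (nat_lit 476) (nat_lit 444))))) (XT.nd (nat_lit 234) (nat_lit 456) (nat_lit 0) (XT.nd (nat_lit 78) (nat_lit 304) (nat_lit 0) (XT.lf (nat_lit 0) (nat_lit 3086019932) (nat_lit 228) (nat_lit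 6651214240) (nat_lit 76) (nat_lit 4636145614) (nat_lit 35) (nat_lit 5) (nat_lit 38) (nat_lit 5) (nat_lit 36) (nat_lit 4) (nat_lit 641) (nat_lit 476) (nat_lit 443)) (XT.nd (nat_lit 78) (nat_lit 152) (nat_lit 0) (XT.lf (nat_lit 0) (nat_lit 4653562748) (nat_lit 152) (nat_lit 4164500927) (nat_lit 228) (nat_lit 5718715821) (nat_lit 33) (nat_lit 5) (nat_lit 35) (nat_lit 5) (nat_lit 36) (nat_lit 4) (nat_lit 642) (nat_lit 476) (nat_lit 442)) (XT.lf (nat_lit 0) (nat_lit 1465526574) (nat_lit 152) (nat_lit 13201053256) (nat_lit 152) (nat_lit 36832027) (nat_lit 31) (nat_lit 4) (nat_lit 33) (nat_lit 5) (nat_lit 33) (nat_lit 4) (nat_lit 643) (nat_lit 476) (nat_lit 441)))) (XT.nd (nat_lit 156) (nat_lit 304) (nat_lit 0) (XT.nd (nat_lit 78) (nat_lit 76) (nat_lit 0) (XT.lf (nat_lit 0) (nat_lit 5715092103) (nat_lit 228) (nat_lit 1877885676) (nat_lit 76) (nat_lit 7279013961) (nat_lit 30) (nat_lit 5) (nat_lit 33) (nat_lit 5) (nat_lit 31) (nat_lit 4) (nat_lit 644) (nat_lit 476) (nat_lit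 440)) (XT.lf (nat_lit 0) (nat_lit 9723217548) (nat_lit 76) (nat_lit 1860286410) (nat_lit 152) (nat_lit 3460396760) (nat_lit 29) (nat_lit 5) (nat_lit 30) (nat_lit 5) (nat_lit 31) (nat_lit 4) (nat_lit 645) (nat_lit 476) (nat_lit 439))) (XT.nd (nat_lit 78) (nat_lit 76) (nat_lit 0) (XT.lf (nat_lit 0) (nat_lit 2337794563) (nat_lit 228) (nat_lit 8928230124) (nat_lit 76) (nat_lit 3952547603) (nat_lit 26) (nat_lit 5) (nat_lit 29) (nat_lit 5) (nat_lit 27) (nat_lit 4) (nat_lit 646) (nat_lit 476) (nat_lit 438)) (XT.lf (nat_lit 0) (nat_lit 2696002032) (nat_lit 76) (nat_lit 5514427835) (nat_lit 152) (nat_lit 7185754812) (nat_lit 25) (nat_lit 5) (nat_lit 26) (nat_lit 5) (nat_lit 27) (nat_lit 4) (nat_lit 647) (nat_lit 476) (nat_lit 437))))))) (XT.nd (nat_lit 78624) (nat_lit 0) (nat_lit 3648) (XT.nd (nat_lit 78078) (nat_lit 0) (nat_lit 6916) (XT.nd (nat_lit 234) (nat_lit 228) (nat_lit 0) (XT.nd (nat_lit 78) (nat_lit 304) (nat_lit 0) (XT.lf (nat_lit 0) (nat_lit 14202244888) (nat_lit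 152) (nat_lit 1018788038) (nat_lit 0) (nat_lit 356282968) (nat_lit 25) (nat_lit 5) (nat_lit 27) (nat_lit 4) (nat_lit 25) (nat_lit 4) (nat_lit 648) (nat_lit 476) (nat_lit 436)) (XT.nd (nat_lit 78) (nat_lit 76) (nat_lit 0) (XT.lf (nat_lit 0) (nat_lit 4539997761) (nat_lit 228) (nat_lit 4899901984) (nat_lit 76) (nat_lit 6320622611) (nat_lit 22) (nat_lit 5) (nat_lit 25) (nat_lit 5) (nat_lit 23) (nat_lit 4) (nat_lit 649) (nat_lit 476) (nat_lit 435)) (XT.lf (nat_lit 0) (nat_lit 7015501033) (nat_lit 76) (nat_lit 3532284837) (nat_lit 152) (nat_lit 5399569746) (nat_lit 21) (nat_lit 5) (nat_lit 22) (nat_lit 5) (nat_lit 23) (nat_lit 4) (nat_lit 650) (nat_lit 476) (nat_lit 434)))) (XT.nd (nat_lit 77688) (nat_lit 0) (nat_lit 8892) (XT.lf (nat_lit 0) (nat_lit 540137335) (nat_lit 228) (nat_lit 13131506124) (nat_lit 76) (nat_lit 2466025532) (nat_lit 18) (nat_lit 5) (nat_lit 21) (nat_lit 5) (nat_lit 19) (nat_lit 4) (nat_lit 651) (nat_lit 476) (nat_lit 433)) (XT.nd (nat_lit 78) (nat_lit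 380) (nat_lit 0) (XT.lf (nat_lit 0) (nat_lit 4649401670) (nat_lit 380) (nat_lit 199358973) (nat_lit 380) (nat_lit 199358973) (nat_lit 140) (nat_lit 4) (nat_lit 145) (nat_lit 5) (nat_lit 145) (nat_lit 4) (nat_lit 606) (nat_lit 477) (nat_lit 477)) (XT.lf (nat_lit 0) (nat_lit 4476619768) (nat_lit 380) (nat_lit 1941430195) (nat_lit 0) (nat_lit 3767888285) (nat_lit 135) (nat_lit 5) (nat_lit 140) (nat_lit 4) (nat_lit 135) (nat_lit 4) (nat_lit 607) (nat_lit 477) (nat_lit 476))))) (XT.nd (nat_lit 234) (nat_lit 988) (nat_lit 0) (XT.nd (nat_lit 78) (nat_lit 684) (nat_lit 0) (XT.lf (nat_lit 0) (nat_lit 7169945285) (nat_lit 304) (nat_lit 2255686396) (nat_lit 304) (nat_lit 852120125) (nat_lit 131) (nat_lit 4) (nat_lit 135) (nat_lit 5) (nat_lit 135) (nat_lit 4) (nat_lit 608) (nat_lit 477) (nat_lit 475)) (XT.nd (nat_lit 78) (nat_lit 304) (nat_lit 0) (XT.lf (nat_lit 0) (nat_lit 4041066633) (nat_lit 380) (nat_lit 4332784902) (nat_lit 0) (nat_lit 1997167765) (nat_lit 126) (nat_lit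 5) (nat_lit 131) (nat_lit 4) (nat_lit 126) (nat_lit 4) (nat_lit 609) (nat_lit 477) (nat_lit 474)) (XT.lf (nat_lit 0) (nat_lit 4866602895) (nat_lit 304) (nat_lit 4149098561) (nat_lit 304) (nat_lit 1450441354) (nat_lit 122) (nat_lit 4) (nat_lit 126) (nat_lit 5) (nat_lit 126) (nat_lit 4) (nat_lit 610) (nat_lit 477) (nat_lit 473)))) (XT.nd (nat_lit 156) (nat_lit 304) (nat_lit 0) (XT.nd (nat_lit 78) (nat_lit 304) (nat_lit 0) (XT.lf (nat_lit 0) (nat_lit 3462232437) (nat_lit 380) (nat_lit 6913688182) (nat_lit 0) (nat_lit 187156803) (nat_lit 117) (nat_lit 5) (nat_lit 122) (nat_lit 4) (nat_lit 117) (nat_lit 4) (nat_lit 611) (nat_lit 477) (nat_lit 472)) (XT.lf (nat_lit 0) (nat_lit 2371163947) (nat_lit 304) (nat_lit 6091246820) (nat_lit 304) (nat_lit 2199177779) (nat_lit 113) (nat_lit 4) (nat_lit 117) (nat_lit 5) (nat_lit 117) (nat_lit 4) (nat_lit 612) (nat_lit 477) (nat_lit 471))) (XT.nd (nat_lit 78) (nat_lit 0) (nat_lit 0) (XT.lf (nat_lit 0) (nat_lit 1048784708) (nat_lit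 228) (nat_lit 1696635710) (nat_lit 304) (nat_lit 8016656179) (nat_lit 109) (nat_lit 5) (nat_lit 112) (nat_lit 5) (nat_lit 113) (nat_lit 4) (nat_lit 613) (nat_lit 477) (nat_lit 470)) (XT.lf (nat_lit 0) (nat_lit 7762010449) (nat_lit 304) (nat_lit 330410115) (nat_lit 0) (nat_lit 2771815020) (nat_lit 109) (nat_lit 5) (nat_lit 113) (nat_lit 4) (nat_lit 109) (nat_lit 4) (nat_lit 614) (nat_lit 477) (nat_lit 469)))))) (XT.nd (nat_lit 546) (nat_lit 1292) (nat_lit 0) (XT.nd (nat_lit 234) (nat_lit 988) (nat_lit 0) (XT.nd (nat_lit 78) (nat_lit 608) (nat_lit 0) (XT.lf (nat_lit 0) (nat_lit 1886446779) (nat_lit 380) (nat_lit 1749579471) (nat_lit 76) (nat_lit 7332145977) (nat_lit 104) (nat_lit 5) (nat_lit 109) (nat_lit 5) (nat_lit 105) (nat_lit 4) (nat_lit 615) (nat_lit 477) (nat_lit 468)) (XT.nd (nat_lit 78) (nat_lit 380) (nat_lit 0) (XT.lf (nat_lit 0) (nat_lit 6922664177) (nat_lit 304) (nat_lit 3227716483) (nat_lit 0) (nat_lit 923613292) (nat_lit 101) (nat_lit 5) (nat_lit 105)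 (nat_lit 4) (nat_lit 101) (nat_lit 4) (nat_lit 616) (nat_lit 477) (nat_lit 467)) (XT.lf (nat_lit 0) (nat_lit 874043612) (nat_lit 380) (nat_lit 4770612679) (nat_lit 76) (nat_lit 5537006815) (nat_lit 96) (nat_lit 5) (nat_lit 101) (nat_lit 5) (nat_lit 97) (nat_lit 4) (nat_lit 617) (nat_lit 477) (nat_lit 466)))) (XT.nd (nat_lit 156) (nat_lit 532) (nat_lit 0) (XT.nd (nat_lit 78) (nat_lit 228) (nat_lit 0) (XT.lf (nat_lit 0) (nat_lit 4912789619) (nat_lit 228) (nat_lit 1015709552) (nat_lit 304) (nat_lit 5362756971) (nat_lit 93) (nat_lit 5) (nat_lit 96) (nat_lit 5) (nat_lit 97) (nat_lit 4) (nat_lit 618) (nat_lit 477) (nat_lit 465)) (XT.lf (nat_lit 0) (nat_lit 3352243141) (nat_lit 228) (nat_lit 7740534024) (nat_lit 228) (nat_lit 310091682) (nat_lit 90) (nat_lit 4) (nat_lit 93) (nat_lit 5) (nat_lit 93) (nat_lit 4) (nat_lit 619) (nat_lit 477) (nat_lit 464))) (XT.nd (nat_lit 78) (nat_lit 228) (nat_lit 0) (XT.lf (nat_lit 0) (nat_lit 1712461458) (nat_lit 228) (nat_lit 3059384478)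 (nat_lit 304) (nat_lit 6744406410) (nat_lit 86) (nat_lit 5) (nat_lit 89) (nat_lit 5) (nat_lit 90) (nat_lit 4) (nat_lit 620) (nat_lit 477) (nat_lit 463)) (XT.lf (nat_lit 0) (nat_lit 15803272) (nat_lit 228) (nat_lit 9932163057) (nat_lit 228) (nat_lit 1683964602) (nat_lit 83) (nat_lit 4) (nat_lit 86) (nat_lit 5) (nat_lit 86) (nat_lit 4) (nat_lit 621) (nat_lit 477) (nat_lit 462))))) (XT.nd (nat_lit 234) (nat_lit 684) (nat_lit 0) (XT.nd (nat_lit 78) (nat_lit 532) (nat_lit 0) (XT.lf (nat_lit 0) (nat_lit 3449754022) (nat_lit 304) (nat_lit 1747299223) (nat_lit 76) (nat_lit 6552066927) (nat_lit 82) (nat_lit 5) (nat_lit 86) (nat_lit 5) (nat_lit 83) (nat_lit 4) (nat_lit 622) (nat_lit 477) (nat_lit 461)) (XT.nd (nat_lit 78) (nat_lit 304) (nat_lit 0) (XT.lf (nat_lit 0) (nat_lit 8298851255) (nat_lit 228) (nat_lit 351192701) (nat_lit 304) (nat_lit 3218659915) (nat_lit 79) (nat_lit 5) (nat_lit 82) (nat_lit 5) (nat_lit 83) (nat_lit 4) (nat_lit 623) (nat_lit 477) (nat_lit 460))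 (XT.lf (nat_lit 0) (nat_lit 1954721532) (nat_lit 304) (nat_lit 5486446624) (nat_lit 76) (nat_lit 4548921919) (nat_lit 75) (nat_lit 5) (nat_lit 79) (nat_lit 5) (nat_lit 76) (nat_lit 4) (nat_lit 624) (nat_lit 477) (nat_lit 459)))) (XT.nd (nat_lit 156) (nat_lit 152) (nat_lit 0) (XT.nd (nat_lit 78) (nat_lit 304) (nat_lit 0) (XT.lf (nat_lit 0) (nat_lit 4632428591) (nat_lit 228) (nat_lit 2545495382) (nat_lit 304) (nat_lit 4935767568) (nat_lit 72) (nat_lit 5) (nat_lit 75) (nat_lit 5) (nat_lit 76) (nat_lit 4) (nat_lit 625) (nat_lit 477) (nat_lit 458)) (XT.lf (nat_lit 0) (nat_lit 265898614) (nat_lit 304) (nat_lit 9551611357) (nat_lit 76) (nat_lit 2422151349) (nat_lit 68) (nat_lit 5) (nat_lit 72) (nat_lit 5) (nat_lit 69) (nat_lit 4) (nat_lit 626) (nat_lit 477) (nat_lit 457))) (XT.nd (nat_lit 78) (nat_lit 0) (nat_lit 0) (XT.lf (nat_lit 0) (nat_lit 635025765) (nat_lit 152) (nat_lit 4875285943) (nat_lit 228) (nat_lit 6857092160) (nat_lit 66) (nat_lit 5) (nat_lit 68) (nat_lit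 5) (nat_lit 69) (nat_lit 4) (nat_lit 627) (nat_lit 477) (nat_lit 456)) (XT.lf (nat_lit 0) (nat_lit 10858647177) (nat_lit 228) (nat_lit 1461701975) (nat_lit 0) (nat_lit 177373347) (nat_lit 66) (nat_lit 5) (nat_lit 69) (nat_lit 4) (nat_lit 66) (nat_lit 4) (nat_lit 628) (nat_lit 477) (nat_lit 455))))))))
noncomputable def xc10 : XT := (XT.nd (nat_lit 79560) (nat_lit 0) (nat_lit 2204) (XT.nd (nat_lit 1014) (nat_lit 1064) (nat_lit 0) (XT.nd (nat_lit 468) (nat_lit 1140) (nat_lit 0) (XT.nd (nat_lit 234) (nat_lit 456) (nat_lit 0) (XT.nd (nat_lit 78) (nat_lit 456) (nat_lit 0) (XT.lf (nat_lit 0) (nat_lit 3660516968) (nat_lit 304) (nat_lit 3670627612) (nat_lit 76) (nat_lit 5298516028) (nat_lit 62) (nat_lit 5) (nat_lit 66) (nat_lit 5) (nat_lit 63) (nat_lit 4) (nat_lit 629) (nat_lit 477) (nat_lit 454)) (XT.nd (nat_lit 78) (nat_lit 304) (nat_lit 0) (XT.lf (nat_lit 0) (nat_lit 6805867588) (nat_lit 152) (nat_lit 2227209642) (nat_lit 228) (nat_lit 3731166900) (nat_lit 60) (nat_lit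 5) (nat_lit 62) (nat_lit 5) (nat_lit 63) (nat_lit 4) (nat_lit 630) (nat_lit 477) (nat_lit 453)) (XT.lf (nat_lit 0) (nat_lit 1599296324) (nat_lit 304) (nat_lit 8347510538) (nat_lit 76) (nat_lit 2954327668) (nat_lit 56) (nat_lit 5) (nat_lit 60) (nat_lit 5) (nat_lit 57) (nat_lit 4) (nat_lit 631) (nat_lit 477) (nat_lit 452)))) (XT.nd (nat_lit 78) (nat_lit 304) (nat_lit 0) (XT.lf (nat_lit 0) (nat_lit 2188931226) (nat_lit 152) (nat_lit 4801863650) (nat_lit 228) (nat_lit 6049388572) (nat_lit 54) (nat_lit 5) (nat_lit 56) (nat_lit 5) (nat_lit 57) (nat_lit 4) (nat_lit 632) (nat_lit 477) (nat_lit 451)) (XT.nd (nat_lit 78) (nat_lit 304) (nat_lit 0) (XT.lf (nat_lit 0) (nat_lit 12484719560) (nat_lit 228) (nat_lit 251812406) (nat_lit 0) (nat_lit 445591122) (nat_lit 54) (nat_lit 5) (nat_lit 57) (nat_lit 4) (nat_lit 54) (nat_lit 4) (nat_lit 633) (nat_lit 477) (nat_lit 450)) (XT.lf (nat_lit 0) (nat_lit 4736304487) (nat_lit 304) (nat_lit 2805738565) (nat_lit 76) (nat_lit 5783499102)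 (nat_lit 50) (nat_lit 5) (nat_lit 54) (nat_lit 5) (nat_lit 51) (nat_lit 4) (nat_lit 634) (nat_lit 477) (nat_lit 449))))) (XT.nd (nat_lit 234) (nat_lit 608) (nat_lit 0) (XT.nd (nat_lit 78) (nat_lit 380) (nat_lit 0) (XT.lf (nat_lit 0) (nat_lit 8024376638) (nat_lit 152) (nat_lit 2235448866) (nat_lit 228) (nat_lit 3212103932) (nat_lit 48) (nat_lit 5) (nat_lit 50) (nat_lit 5) (nat_lit 51) (nat_lit 4) (nat_lit 635) (nat_lit 477) (nat_lit 448)) (XT.nd (nat_lit 78) (nat_lit 152) (nat_lit 0) (XT.lf (nat_lit 0) (nat_lit 2254476991) (nat_lit 228) (nat_lit 8212082531) (nat_lit 76) (nat_lit 3154157153) (nat_lit 45) (nat_lit 5) (nat_lit 48) (nat_lit 5) (nat_lit 46) (nat_lit 4) (nat_lit 636) (nat_lit 477) (nat_lit 447)) (XT.lf (nat_lit 0) (nat_lit 2667748828) (nat_lit 152) (nat_lit 5125512866) (nat_lit 228) (nat_lit 5978677161) (nat_lit 43) (nat_lit 5) (nat_lit 45) (nat_lit 5) (nat_lit 46) (nat_lit 4) (nat_lit 637) (nat_lit 477) (nat_lit 446)))) (XT.nd (nat_lit 156) (nat_lit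 380) (nat_lit 0) (XT.nd (nat_lit 78) (nat_lit 228) (nat_lit 0) (XT.lf (nat_lit 0) (nat_lit 13437466538) (nat_lit 228) (nat_lit 166169051) (nat_lit 0) (nat_lit 322658452) (nat_lit 43) (nat_lit 5) (nat_lit 46) (nat_lit 4) (nat_lit 43) (nat_lit 4) (nat_lit 638) (nat_lit 477) (nat_lit 445)) (XT.lf (nat_lit 0) (nat_lit 5087674668) (nat_lit 228) (nat_lit 3128424643) (nat_lit 76) (nat_lit 5866097059) (nat_lit 40) (nat_lit 5) (nat_lit 43) (nat_lit 5) (nat_lit 41) (nat_lit 4) (nat_lit 639) (nat_lit 477) (nat_lit 444))) (XT.nd (nat_lit 78) (nat_lit 228) (nat_lit 0) (XT.lf (nat_lit 0) (nat_lit 8046514237) (nat_lit 152) (nat_lit 2714406910) (nat_lit 228) (nat_lit 3480397150) (nat_lit 38) (nat_lit 5) (nat_lit 40) (nat_lit 5) (nat_lit 41) (nat_lit 4) (nat_lit 640) (nat_lit 477) (nat_lit 443)) (XT.lf (nat_lit 0) (nat_lit 2127021986) (nat_lit 228) (nat_lit 9399471354) (nat_lit 76) (nat_lit 2876629607) (nat_lit 35) (nat_lit 5) (nat_lit 38) (nat_lit 5) (nat_lit 36) (nat_lit 4) (nat_lit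 641) (nat_lit 477) (nat_lit 442)))))) (XT.nd (nat_lit 546) (nat_lit 304) (nat_lit 0) (XT.nd (nat_lit 234) (nat_lit 380) (nat_lit 0) (XT.nd (nat_lit 78) (nat_lit 228) (nat_lit 0) (XT.lf (nat_lit 0) (nat_lit 1812016219) (nat_lit 152) (nat_lit 5998207425) (nat_lit 228) (nat_lit 6757276492) (nat_lit 33) (nat_lit 5) (nat_lit 35) (nat_lit 5) (nat_lit 36) (nat_lit 4) (nat_lit 642) (nat_lit 477) (nat_lit 441)) (XT.nd (nat_lit 78) (nat_lit 228) (nat_lit 0) (XT.lf (nat_lit 0) (nat_lit 13262725870) (nat_lit 152) (nat_lit 346519139) (nat_lit 228) (nat_lit 1125878009) (nat_lit 33) (nat_lit 5) (nat_lit 35) (nat_lit 5) (nat_lit 36) (nat_lit 4) (nat_lit 643) (nat_lit 477) (nat_lit 440)) (XT.lf (nat_lit 0) (nat_lit 4598037450) (nat_lit 228) (nat_lit 4914022730) (nat_lit 76) (nat_lit 5392630573) (nat_lit 30) (nat_lit 5) (nat_lit 33) (nat_lit 5) (nat_lit 31) (nat_lit 4) (nat_lit 644) (nat_lit 477) (nat_lit 439)))) (XT.nd (nat_lit 156) (nat_lit 76) (nat_lit 0) (XT.nd (nat_lit 78)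 (nat_lit 228) (nat_lit 0) (XT.lf (nat_lit 0) (nat_lit 6590975238) (nat_lit 76) (nat_lit 3825440512) (nat_lit 152) (nat_lit 4661185241) (nat_lit 29) (nat_lit 5) (nat_lit 30) (nat_lit 5) (nat_lit 31) (nat_lit 4) (nat_lit 645) (nat_lit 477) (nat_lit 438)) (XT.lf (nat_lit 0) (nat_lit 1088834248) (nat_lit 228) (nat_lit 12205893599) (nat_lit 76) (nat_lit 1958979617) (nat_lit 26) (nat_lit 5) (nat_lit 29) (nat_lit 5) (nat_lit 27) (nat_lit 4) (nat_lit 646) (nat_lit 477) (nat_lit 437))) (XT.nd (nat_lit 78) (nat_lit 76) (nat_lit 0) (XT.lf (nat_lit 0) (nat_lit 6914362572) (nat_lit 228) (nat_lit 672141243) (nat_lit 76) (nat_lit 7845758731) (nat_lit 26) (nat_lit 5) (nat_lit 29) (nat_lit 5) (nat_lit 27) (nat_lit 4) (nat_lit 647) (nat_lit 477) (nat_lit 436)) (XT.lf (nat_lit 0) (nat_lit 11129084415) (nat_lit 76) (nat_lit 1740949400) (nat_lit 152) (nat_lit 2744083366) (nat_lit 25) (nat_lit 5) (nat_lit 26) (nat_lit 5) (nat_lit 27) (nat_lit 4) (nat_lit 648) (nat_lit 477) (nat_lit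 435))))) (XT.nd (nat_lit 77688) (nat_lit 0) (nat_lit 8664) (XT.nd (nat_lit 78) (nat_lit 76) (nat_lit 0) (XT.lf (nat_lit 0) (nat_lit 3125167618) (nat_lit 228) (nat_lit 8484337328) (nat_lit 76) (nat_lit 4189272444) (nat_lit 22) (nat_lit 5) (nat_lit 25) (nat_lit 5) (nat_lit 23) (nat_lit 4) (nat_lit 649) (nat_lit 477) (nat_lit 434)) (XT.nd (nat_lit 78) (nat_lit 0) (nat_lit 0) (XT.lf (nat_lit 0) (nat_lit 3328582034) (nat_lit 76) (nat_lit 5751500509) (nat_lit 152) (nat_lit 6906586083) (nat_lit 21) (nat_lit 5) (nat_lit 22) (nat_lit 5) (nat_lit 23) (nat_lit 4) (nat_lit 650) (nat_lit 477) (nat_lit 433)) (XT.lf (nat_lit 0) (nat_lit 15154522346) (nat_lit 152) (nat_lit 795694919) (nat_lit 0) (nat_lit 228092908) (nat_lit 21) (nat_lit 5) (nat_lit 23) (nat_lit 4) (nat_lit 21) (nat_lit 4) (nat_lit 651) (nat_lit 477) (nat_lit 432)))) (XT.nd (nat_lit 156) (nat_lit 380) (nat_lit 0) (XT.nd (nat_lit 78) (nat_lit 380) (nat_lit 0) (XT.lf (nat_lit 0) (nat_lit 353924048) (nat_lit 380)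 (nat_lit 4252330612) (nat_lit 0) (nat_lit 353924048) (nat_lit 145) (nat_lit 5) (nat_lit 150) (nat_lit 4) (nat_lit 145) (nat_lit 4) (nat_lit 604) (nat_lit 478) (nat_lit 478)) (XT.lf (nat_lit 0) (nat_lit 281409178) (nat_lit 380) (nat_lit 5231791027) (nat_lit 380) (nat_lit 4494426792) (nat_lit 140) (nat_lit 4) (nat_lit 145) (nat_lit 5) (nat_lit 145) (nat_lit 4) (nat_lit 605) (nat_lit 478) (nat_lit 477))) (XT.nd (nat_lit 78) (nat_lit 304) (nat_lit 0) (XT.lf (nat_lit 0) (nat_lit 297841788) (nat_lit 456) (nat_lit 858629934) (nat_lit 76) (nat_lit 8940452515) (nat_lit 139) (nat_lit 5) (nat_lit 145) (nat_lit 5) (nat_lit 140) (nat_lit 4) (nat_lit 606) (nat_lit 478) (nat_lit 476)) (XT.lf (nat_lit 0) (nat_lit 5126447957) (nat_lit 380) (nat_lit 2060979674) (nat_lit 0) (nat_lit 2999975574) (nat_lit 135) (nat_lit 5) (nat_lit 140) (nat_lit 4) (nat_lit 135) (nat_lit 4) (nat_lit 607) (nat_lit 478) (nat_lit 475))))))) (XT.nd (nat_lit 1014) (nat_lit 2736) (nat_lit 0) (XT.nd (nat_lit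 468) (nat_lit 1748) (nat_lit 0) (XT.nd (nat_lit 234) (nat_lit 988) (nat_lit 0) (XT.nd (nat_lit 78) (nat_lit 684) (nat_lit 0) (XT.lf (nat_lit 0) (nat_lit 6990013507) (nat_lit 304) (nat_lit 3048810293) (nat_lit 304) (nat_lit 241127335) (nat_lit 131) (nat_lit 4) (nat_lit 135) (nat_lit 5) (nat_lit 135) (nat_lit 4) (nat_lit 608) (nat_lit 478) (nat_lit 474)) (XT.nd (nat_lit 78) (nat_lit 304) (nat_lit 0) (XT.lf (nat_lit 0) (nat_lit 4601777069) (nat_lit 380) (nat_lit 4577820808) (nat_lit 0) (nat_lit 1194388379) (nat_lit 126) (nat_lit 5) (nat_lit 131) (nat_lit 4) (nat_lit 126) (nat_lit 4) (nat_lit 609) (nat_lit 478) (nat_lit 473)) (XT.lf (nat_lit 0) (nat_lit 4559250188) (nat_lit 304) (nat_lit 4979956930) (nat_lit 304) (nat_lit 930648300) (nat_lit 122) (nat_lit 4) (nat_lit 126) (nat_lit 5) (nat_lit 126) (nat_lit 4) (nat_lit 610) (nat_lit 478) (nat_lit 472)))) (XT.nd (nat_lit 78) (nat_lit 608) (nat_lit 0) (XT.lf (nat_lit 0) (nat_lit 3272879872) (nat_lit 304) (nat_lit 663517047)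 (nat_lit 380) (nat_lit 6631103336) (nat_lit 117) (nat_lit 5) (nat_lit 121) (nat_lit 5) (nat_lit 122) (nat_lit 4) (nat_lit 611) (nat_lit 478) (nat_lit 471)) (XT.nd (nat_lit 78) (nat_lit 304) (nat_lit 0) (XT.lf (nat_lit 0) (nat_lit 1930222737) (nat_lit 304) (nat_lit 6964216080) (nat_lit 304) (nat_lit 1772416755) (nat_lit 113) (nat_lit 4) (nat_lit 117) (nat_lit 5) (nat_lit 117) (nat_lit 4) (nat_lit 612) (nat_lit 478) (nat_lit 470)) (XT.lf (nat_lit 0) (nat_lit 534446069) (nat_lit 228) (nat_lit 2593910462) (nat_lit 304) (nat_lit 7639697641) (nat_lit 109) (nat_lit 5) (nat_lit 112) (nat_lit 5) (nat_lit 113) (nat_lit 4) (nat_lit 613) (nat_lit 478) (nat_lit 469))))) (XT.nd (nat_lit 234) (nat_lit 1140) (nat_lit 0) (XT.nd (nat_lit 78) (nat_lit 608) (nat_lit 0) (XT.lf (nat_lit 0) (nat_lit 8104384929) (nat_lit 304) (nat_lit 903668456) (nat_lit 0) (nat_lit 1862972388) (nat_lit 109) (nat_lit 5) (nat_lit 113) (nat_lit 4) (nat_lit 109) (nat_lit 4) (nat_lit 614) (nat_lit 478) (nat_lit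 468)) (XT.nd (nat_lit 78) (nat_lit 228) (nat_lit 0) (XT.lf (nat_lit 0) (nat_lit 2179170151) (nat_lit 380) (nat_lit 2398318772) (nat_lit 76) (nat_lit 6398200435) (nat_lit 104) (nat_lit 5) (nat_lit 109) (nat_lit 5) (nat_lit 105) (nat_lit 4) (nat_lit 615) (nat_lit 478) (nat_lit 467)) (XT.lf (nat_lit 0) (nat_lit 7136658641) (nat_lit 228) (nat_lit 34021362) (nat_lit 304) (nat_lit 3911726532) (nat_lit 101) (nat_lit 5) (nat_lit 104) (nat_lit 5) (nat_lit 105) (nat_lit 4) (nat_lit 616) (nat_lit 478) (nat_lit 466)))) (XT.nd (nat_lit 156) (nat_lit 532) (nat_lit 0) (XT.nd (nat_lit 78) (nat_lit 228) (nat_lit 0) (XT.lf (nat_lit 0) (nat_lit 1071077283) (nat_lit 380) (nat_lit 5567056099) (nat_lit 76) (nat_lit 4552700985) (nat_lit 96) (nat_lit 5) (nat_lit 101) (nat_lit 5) (nat_lit 97) (nat_lit 4) (nat_lit 617) (nat_lit 478) (nat_lit 465)) (XT.lf (nat_lit 0) (nat_lit 4047091233) (nat_lit 228) (nat_lit 2039045364) (nat_lit 304) (nat_lit 5215079958) (nat_lit 93) (nat_lit 5) (nat_lit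 96) (nat_lit 5) (nat_lit 97) (nat_lit 4) (nat_lit 618) (nat_lit 478) (nat_lit 464))) (XT.nd (nat_lit 78) (nat_lit 304) (nat_lit 0) (XT.lf (nat_lit 0) (nat_lit 2412873371) (nat_lit 228) (nat_lit 8791155242) (nat_lit 228) (nat_lit 209729569) (nat_lit 90) (nat_lit 4) (nat_lit 93) (nat_lit 5) (nat_lit 93) (nat_lit 4) (nat_lit 619) (nat_lit 478) (nat_lit 463)) (XT.lf (nat_lit 0) (nat_lit 690040763) (nat_lit 228) (nat_lit 4140633259) (nat_lit 304) (nat_lit 6697260136) (nat_lit 86) (nat_lit 5) (nat_lit 89) (nat_lit 5) (nat_lit 90) (nat_lit 4) (nat_lit 620) (nat_lit 478) (nat_lit 462)))))) (XT.nd (nat_lit 546) (nat_lit 1368) (nat_lit 0) (XT.nd (nat_lit 234) (nat_lit 836) (nat_lit 0) (XT.nd (nat_lit 78) (nat_lit 532) (nat_lit 0) (XT.lf (nat_lit 0) (nat_lit 9966217208) (nat_lit 304) (nat_lit 1069713293) (nat_lit 0) (nat_lit 608494920) (nat_lit 86) (nat_lit 5) (nat_lit 90) (nat_lit 4) (nat_lit 86) (nat_lit 4) (nat_lit 621) (nat_lit 478) (nat_lit 461)) (XT.nd (nat_lit 78)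 (nat_lit 228) (nat_lit 0) (XT.lf (nat_lit 0) (nat_lit 3414955919) (nat_lit 304) (nat_lit 2917946521) (nat_lit 76) (nat_lit 5429522143) (nat_lit 82) (nat_lit 5) (nat_lit 86) (nat_lit 5) (nat_lit 83) (nat_lit 4) (nat_lit 622) (nat_lit 478) (nat_lit 460)) (XT.lf (nat_lit 0) (nat_lit 7054741354) (nat_lit 228) (nat_lit 1519686910) (nat_lit 304) (nat_lit 3308397436) (nat_lit 79) (nat_lit 5) (nat_lit 82) (nat_lit 5) (nat_lit 83) (nat_lit 4) (nat_lit 623) (nat_lit 478) (nat_lit 459)))) (XT.nd (nat_lit 156) (nat_lit 304) (nat_lit 0) (XT.nd (nat_lit 78) (nat_lit 228) (nat_lit 0) (XT.lf (nat_lit 0) (nat_lit 1817020902) (nat_lit 304) (nat_lit 6825928887) (nat_lit 76) (nat_lit 3362257592) (nat_lit 75) (nat_lit 5) (nat_lit 79) (nat_lit 5) (nat_lit 76) (nat_lit 4) (nat_lit 624) (nat_lit 478) (nat_lit 458)) (XT.lf (nat_lit 0) (nat_lit 3217063954) (nat_lit 228) (nat_lit 3781400559) (nat_lit 304) (nat_lit 5131180518) (nat_lit 72) (nat_lit 5) (nat_lit 75) (nat_lit 5) (nat_lit 76)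 (nat_lit 4) (nat_lit 625) (nat_lit 478) (nat_lit 457))) (XT.nd (nat_lit 78) (nat_lit 0) (nat_lit 0) (XT.lf (nat_lit 0) (nat_lit 22488592) (nat_lit 304) (nat_lit 11067370336) (nat_lit 76) (nat_lit 1166793423) (nat_lit 68) (nat_lit 5) (nat_lit 72) (nat_lit 5) (nat_lit 69) (nat_lit 4) (nat_lit 626) (nat_lit 478) (nat_lit 456)) (XT.lf (nat_lit 0) (nat_lit 5230370147) (nat_lit 304) (nat_lit 946545016) (nat_lit 76) (nat_lit 6208211315) (nat_lit 68) (nat_lit 5) (nat_lit 72) (nat_lit 5) (nat_lit 69) (nat_lit 4) (nat_lit 627) (nat_lit 478) (nat_lit 455))))) (XT.nd (nat_lit 234) (nat_lit 760) (nat_lit 0) (XT.nd (nat_lit 78) (nat_lit 456) (nat_lit 0) (XT.lf (nat_lit 0) (nat_lit 9385955779) (nat_lit 152) (nat_lit 1153211800) (nat_lit 228) (nat_lit 1977069218) (nat_lit 66) (nat_lit 5) (nat_lit 68) (nat_lit 5) (nat_lit 69) (nat_lit 4) (nat_lit 628) (nat_lit 478) (nat_lit 454)) (XT.nd (nat_lit 78) (nat_lit 152) (nat_lit 0) (XT.lf (nat_lit 0) (nat_lit 3276161321) (nat_lit 304)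 (nat_lit 5427998043) (nat_lit 76) (nat_lit 3945076217) (nat_lit 62) (nat_lit 5) (nat_lit 66) (nat_lit 5) (nat_lit 63) (nat_lit 4) (nat_lit 629) (nat_lit 478) (nat_lit 453)) (XT.lf (nat_lit 0) (nat_lit 4967884226) (nat_lit 152) (nat_lit 3637279446) (nat_lit 228) (nat_lit 4179527465) (nat_lit 60) (nat_lit 5) (nat_lit 62) (nat_lit 5) (nat_lit 63) (nat_lit 4) (nat_lit 630) (nat_lit 478) (nat_lit 452)))) (XT.nd (nat_lit 156) (nat_lit 304) (nat_lit 0) (XT.nd (nat_lit 78) (nat_lit 152) (nat_lit 0) (XT.lf (nat_lit 0) (nat_lit 1103239298) (nat_lit 304) (nat_lit 10296965842) (nat_lit 76) (nat_lit 1522506994) (nat_lit 56) (nat_lit 5) (nat_lit 60) (nat_lit 5) (nat_lit 57) (nat_lit 4) (nat_lit 631) (nat_lit 478) (nat_lit 451)) (XT.lf (nat_lit 0) (nat_lit 156165868) (nat_lit 152) (nat_lit 6293889416) (nat_lit 228) (nat_lit 6612600246) (nat_lit 54) (nat_lit 5) (nat_lit 56) (nat_lit 5) (nat_lit 57) (nat_lit 4) (nat_lit 632) (nat_lit 478) (nat_lit 450))) (XT.nd (nat_lit 78) (nat_lit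 304) (nat_lit 0) (XT.lf (nat_lit 0) (nat_lit 10844258202) (nat_lit 152) (nat_lit 1065557692) (nat_lit 228) (nat_lit 1295463366) (nat_lit 54) (nat_lit 5) (nat_lit 56) (nat_lit 5) (nat_lit 57) (nat_lit 4) (nat_lit 633) (nat_lit 478) (nat_lit 449)) (XT.lf (nat_lit 0) (nat_lit 4093849153) (nat_lit 304) (nat_lit 5012302257) (nat_lit 76) (nat_lit 4243670137) (nat_lit 50) (nat_lit 5) (nat_lit 54) (nat_lit 5) (nat_lit 51) (nat_lit 4) (nat_lit 634) (nat_lit 478) (nat_lit 448))))))))
noncomputable def xc11 : XT := (XT.nd (nat_lit 79404) (nat_lit 0) (nat_lit 1444) (XT.nd (nat_lit 1014) (nat_lit 380) (nat_lit 0) (XT.nd (nat_lit 468) (nat_lit 912) (nat_lit 0) (XT.nd (nat_lit 234) (nat_lit 380) (nat_lit 0) (XT.nd (nat_lit 78) (nat_lit 380) (nat_lit 0) (XT.lf (nat_lit 0) (nat_lit 5732078184) (nat_lit 152) (nat_lit 3839671037) (nat_lit 228) (nat_lit 3925372788) (nat_lit 48) (nat_lit 5) (nat_lit 50) (nat_lit 5) (nat_lit 51) (nat_lit 4) (nat_lit 635) (nat_lit 478) (nat_lit 447))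 (XT.nd (nat_lit 78) (nat_lit 152) (nat_lit 0) (XT.lf (nat_lit 0) (nat_lit 1493571219) (nat_lit 228) (nat_lit 10627632469) (nat_lit 76) (nat_lit 1525938746) (nat_lit 45) (nat_lit 5) (nat_lit 48) (nat_lit 5) (nat_lit 46) (nat_lit 4) (nat_lit 636) (nat_lit 478) (nat_lit 446)) (XT.lf (nat_lit 0) (nat_lit 163561089) (nat_lit 152) (nat_lit 6821920035) (nat_lit 228) (nat_lit 6813821702) (nat_lit 43) (nat_lit 5) (nat_lit 45) (nat_lit 5) (nat_lit 46) (nat_lit 4) (nat_lit 637) (nat_lit 478) (nat_lit 445)))) (XT.nd (nat_lit 78) (nat_lit 380) (nat_lit 0) (XT.lf (nat_lit 0) (nat_lit 11202674601) (nat_lit 152) (nat_lit 1394513102) (nat_lit 228) (nat_lit 1357120979) (nat_lit 43) (nat_lit 5) (nat_lit 45) (nat_lit 5) (nat_lit 46) (nat_lit 4) (nat_lit 638) (nat_lit 478) (nat_lit 444)) (XT.nd (nat_lit 78) (nat_lit 152) (nat_lit 0) (XT.lf (nat_lit 0) (nat_lit 4174091525) (nat_lit 228) (nat_lit 5817711536) (nat_lit 76) (nat_lit 4119654926) (nat_lit 40) (nat_lit 5) (nat_lit 43) (nat_lit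 5) (nat_lit 41) (nat_lit 4) (nat_lit 639) (nat_lit 478) (nat_lit 443)) (XT.lf (nat_lit 0) (nat_lit 5265944130) (nat_lit 152) (nat_lit 4533437527) (nat_lit 228) (nat_lit 4472158048) (nat_lit 38) (nat_lit 5) (nat_lit 40) (nat_lit 5) (nat_lit 41) (nat_lit 4) (nat_lit 640) (nat_lit 478) (nat_lit 442))))) (XT.nd (nat_lit 234) (nat_lit 532) (nat_lit 0) (XT.nd (nat_lit 78) (nat_lit 152) (nat_lit 0) (XT.lf (nat_lit 0) (nat_lit 1087450463) (nat_lit 228) (nat_lit 12315858094) (nat_lit 76) (nat_lit 1031381574) (nat_lit 35) (nat_lit 5) (nat_lit 38) (nat_lit 5) (nat_lit 36) (nat_lit 4) (nat_lit 641) (nat_lit 478) (nat_lit 441)) (XT.nd (nat_lit 78) (nat_lit 152) (nat_lit 0) (XT.lf (nat_lit 0) (nat_lit 6729090369) (nat_lit 228) (nat_lit 1183058991) (nat_lit 76) (nat_lit 6687749821) (nat_lit 35) (nat_lit 5) (nat_lit 38) (nat_lit 5) (nat_lit 36) (nat_lit 4) (nat_lit 642) (nat_lit 478) (nat_lit 440)) (XT.lf (nat_lit 0) (nat_lit 10197366216) (nat_lit 152) (nat_lit 2293395294) (nat_lit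 228) (nat_lit 2277508170) (nat_lit 33) (nat_lit 5) (nat_lit 35) (nat_lit 5) (nat_lit 36) (nat_lit 4) (nat_lit 643) (nat_lit 478) (nat_lit 439)))) (XT.nd (nat_lit 156) (nat_lit 228) (nat_lit 0) (XT.nd (nat_lit 78) (nat_lit 76) (nat_lit 0) (XT.lf (nat_lit 0) (nat_lit 3398653844) (nat_lit 228) (nat_lit 8122033702) (nat_lit 76) (nat_lit 3418557147) (nat_lit 30) (nat_lit 5) (nat_lit 33) (nat_lit 5) (nat_lit 31) (nat_lit 4) (nat_lit 644) (nat_lit 478) (nat_lit 438)) (XT.lf (nat_lit 0) (nat_lit 3285668162) (nat_lit 76) (nat_lit 5880789070) (nat_lit 152) (nat_lit 5946709775) (nat_lit 29) (nat_lit 5) (nat_lit 30) (nat_lit 5) (nat_lit 31) (nat_lit 4) (nat_lit 645) (nat_lit 478) (nat_lit 437))) (XT.nd (nat_lit 78) (nat_lit 228) (nat_lit 0) (XT.lf (nat_lit 0) (nat_lit 14923365545) (nat_lit 76) (nat_lit 122392944) (nat_lit 152) (nat_lit 244887586) (nat_lit 29) (nat_lit 5) (nat_lit 30) (nat_lit 5) (nat_lit 31) (nat_lit 4) (nat_lit 646) (nat_lit 478) (nat_lit 436)) (XT.lf (nat_lit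 0) (nat_lit 5551603205) (nat_lit 228) (nat_lit 4180743349) (nat_lit 76) (nat_lit 5737531931) (nat_lit 26) (nat_lit 5) (nat_lit 29) (nat_lit 5) (nat_lit 27) (nat_lit 4) (nat_lit 647) (nat_lit 478) (nat_lit 435)))))) (XT.nd (nat_lit 77844) (nat_lit 0) (nat_lit 7296) (XT.nd (nat_lit 234) (nat_lit 76) (nat_lit 0) (XT.nd (nat_lit 78) (nat_lit 228) (nat_lit 0) (XT.lf (nat_lit 0) (nat_lit 7520169922) (nat_lit 76) (nat_lit 3935219824) (nat_lit 152) (nat_lit 4197381601) (nat_lit 25) (nat_lit 5) (nat_lit 26) (nat_lit 5) (nat_lit 27) (nat_lit 4) (nat_lit 648) (nat_lit 478) (nat_lit 434)) (XT.nd (nat_lit 78) (nat_lit 0) (nat_lit 0) (XT.lf (nat_lit 0) (nat_lit 1623591648) (nat_lit 228) (nat_lit 12249802058) (nat_lit 76) (nat_lit 1965573840) (nat_lit 22) (nat_lit 5) (nat_lit 25) (nat_lit 5) (nat_lit 23) (nat_lit 4) (nat_lit 649) (nat_lit 478) (nat_lit 433)) (XT.lf (nat_lit 0) (nat_lit 7528527310) (nat_lit 228) (nat_lit 533605342) (nat_lit 76) (nat_lit 7965726219) (nat_lit 22)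 (nat_lit 5) (nat_lit 25) (nat_lit 5) (nat_lit 23) (nat_lit 4) (nat_lit 650) (nat_lit 478) (nat_lit 432)))) (XT.nd (nat_lit 77454) (nat_lit 0) (nat_lit 9424) (XT.nd (nat_lit 77376) (nat_lit 0) (nat_lit 10184) (XT.lf (nat_lit 0) (nat_lit 11462148600) (nat_lit 76) (nat_lit 2107653385) (nat_lit 152) (nat_lit 2650362226) (nat_lit 21) (nat_lit 5) (nat_lit 22) (nat_lit 5) (nat_lit 23) (nat_lit 4) (nat_lit 651) (nat_lit 478) (nat_lit 431)) (XT.lf (nat_lit 0) (nat_lit 898926387) (nat_lit 456) (nat_lit 3076868236) (nat_lit 0) (nat_lit 898926387) (nat_lit 155) (nat_lit 5) (nat_lit 161) (nat_lit 4) (nat_lit 155) (nat_lit 4) (nat_lit 602) (nat_lit 479) (nat_lit 479))) (XT.nd (nat_lit 78) (nat_lit 380) (nat_lit 0) (XT.lf (nat_lit 0) (nat_lit 2487669227) (nat_lit 380) (nat_lit 4056884090) (nat_lit 380) (nat_lit 3289730340) (nat_lit 150) (nat_lit 4) (nat_lit 155) (nat_lit 5) (nat_lit 155) (nat_lit 4) (nat_lit 603) (nat_lit 479) (nat_lit 478)) (XT.lf (nat_lit 0) (nat_lit 1357086557)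 (nat_lit 304) (nat_lit 66849990) (nat_lit 380) (nat_lit 8497143116) (nat_lit 145) (nat_lit 5) (nat_lit 149) (nat_lit 5) (nat_lit 150) (nat_lit 4) (nat_lit 604) (nat_lit 479) (nat_lit 477))))) (XT.nd (nat_lit 234) (nat_lit 1368) (nat_lit 0) (XT.nd (nat_lit 78) (nat_lit 380) (nat_lit 0) (XT.lf (nat_lit 0) (nat_lit 163218246) (nat_lit 380) (nat_lit 6029126745) (nat_lit 380) (nat_lit 3816744878) (nat_lit 140) (nat_lit 4) (nat_lit 145) (nat_lit 5) (nat_lit 145) (nat_lit 4) (nat_lit 605) (nat_lit 479) (nat_lit 476)) (XT.nd (nat_lit 78) (nat_lit 304) (nat_lit 0) (XT.lf (nat_lit 0) (nat_lit 930985692) (nat_lit 456) (nat_lit 1040522251) (nat_lit 76) (nat_lit 8127505851) (nat_lit 139) (nat_lit 5) (nat_lit 145) (nat_lit 5) (nat_lit 140) (nat_lit 4) (nat_lit 606) (nat_lit 479) (nat_lit 475)) (XT.lf (nat_lit 0) (nat_lit 5717627687) (nat_lit 380) (nat_lit 2300125514) (nat_lit 0) (nat_lit 2172580494) (nat_lit 135) (nat_lit 5) (nat_lit 140) (nat_lit 4) (nat_lit 135) (nat_lit 4)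 (nat_lit 607) (nat_lit 479) (nat_lit 474)))) (XT.nd (nat_lit 156) (nat_lit 684) (nat_lit 0) (XT.nd (nat_lit 78) (nat_lit 304) (nat_lit 0) (XT.lf (nat_lit 0) (nat_lit 305604608) (nat_lit 380) (nat_lit 3595579389) (nat_lit 76) (nat_lit 6382393433) (nat_lit 130) (nat_lit 5) (nat_lit 135) (nat_lit 5) (nat_lit 131) (nat_lit 4) (nat_lit 608) (nat_lit 479) (nat_lit 473)) (XT.lf (nat_lit 0) (nat_lit 5102579054) (nat_lit 380) (nat_lit 4945494780) (nat_lit 0) (nat_lit 330364311) (nat_lit 126) (nat_lit 5) (nat_lit 131) (nat_lit 4) (nat_lit 126) (nat_lit 4) (nat_lit 609) (nat_lit 479) (nat_lit 472))) (XT.nd (nat_lit 78) (nat_lit 380) (nat_lit 0) (XT.lf (nat_lit 0) (nat_lit 4128787667) (nat_lit 304) (nat_lit 5873907728) (nat_lit 304) (nat_lit 472359710) (nat_lit 122) (nat_lit 4) (nat_lit 126) (nat_lit 5) (nat_lit 126) (nat_lit 4) (nat_lit 610) (nat_lit 479) (nat_lit 471)) (XT.lf (nat_lit 0) (nat_lit 2770426229) (nat_lit 304) (nat_lit 1580547856) (nat_lit 380) (nat_lit 6222421829)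 (nat_lit 117) (nat_lit 5) (nat_lit 121) (nat_lit 5) (nat_lit 122) (nat_lit 4) (nat_lit 611) (nat_lit 479) (nat_lit 470))))))) (XT.nd (nat_lit 1092) (nat_lit 2432) (nat_lit 0) (XT.nd (nat_lit 546) (nat_lit 1596) (nat_lit 0) (XT.nd (nat_lit 234) (nat_lit 1216) (nat_lit 0) (XT.nd (nat_lit 78) (nat_lit 304) (nat_lit 0) (XT.lf (nat_lit 0) (nat_lit 1363001950) (nat_lit 304) (nat_lit 7902097330) (nat_lit 304) (nat_lit 1408531722) (nat_lit 113) (nat_lit 4) (nat_lit 117) (nat_lit 5) (nat_lit 117) (nat_lit 4) (nat_lit 612) (nat_lit 479) (nat_lit 469)) (XT.nd (nat_lit 78) (nat_lit 228) (nat_lit 0) (XT.lf (nat_lit 0) (nat_lit 3449794820) (nat_lit 380) (nat_lit 106386737) (nat_lit 76) (nat_lit 7219355660) (nat_lit 112) (nat_lit 5) (nat_lit 117) (nat_lit 5) (nat_lit 113) (nat_lit 4) (nat_lit 613) (nat_lit 479) (nat_lit 468)) (XT.lf (nat_lit 0) (nat_lit 8384816133) (nat_lit 304) (nat_lit 1604775312) (nat_lit 0) (nat_lit 889738867) (nat_lit 109) (nat_lit 5) (nat_lit 113) (nat_lit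 4) (nat_lit 109) (nat_lit 4) (nat_lit 614) (nat_lit 479) (nat_lit 467)))) (XT.nd (nat_lit 156) (nat_lit 608) (nat_lit 0) (XT.nd (nat_lit 78) (nat_lit 228) (nat_lit 0) (XT.lf (nat_lit 0) (nat_lit 2409101147) (nat_lit 380) (nat_lit 3176565435) (nat_lit 76) (nat_lit 5399065815) (nat_lit 104) (nat_lit 5) (nat_lit 109) (nat_lit 5) (nat_lit 105) (nat_lit 4) (nat_lit 615) (nat_lit 479) (nat_lit 466)) (XT.lf (nat_lit 0) (nat_lit 6290759630) (nat_lit 228) (nat_lit 1071041990) (nat_lit 304) (nat_lit 3730425416) (nat_lit 101) (nat_lit 5) (nat_lit 104) (nat_lit 5) (nat_lit 105) (nat_lit 4) (nat_lit 616) (nat_lit 479) (nat_lit 465))) (XT.nd (nat_lit 78) (nat_lit 228) (nat_lit 0) (XT.lf (nat_lit 0) (nat_lit 1203825003) (nat_lit 380) (nat_lit 6496388763) (nat_lit 76) (nat_lit 3501342299) (nat_lit 96) (nat_lit 5) (nat_lit 101) (nat_lit 5) (nat_lit 97) (nat_lit 4) (nat_lit 617) (nat_lit 479) (nat_lit 464)) (XT.lf (nat_lit 0) (nat_lit 3047887981) (nat_lit 228) (nat_lit 3131395554)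 (nat_lit 304) (nat_lit 5133447933) (nat_lit 93) (nat_lit 5) (nat_lit 96) (nat_lit 5) (nat_lit 97) (nat_lit 4) (nat_lit 618) (nat_lit 479) (nat_lit 463))))) (XT.nd (nat_lit 234) (nat_lit 1064) (nat_lit 0) (XT.nd (nat_lit 78) (nat_lit 304) (nat_lit 0) (XT.lf (nat_lit 0) (nat_lit 1338256476) (nat_lit 228) (nat_lit 9911866559) (nat_lit 228) (nat_lit 176092290) (nat_lit 90) (nat_lit 4) (nat_lit 93) (nat_lit 5) (nat_lit 93) (nat_lit 4) (nat_lit 619) (nat_lit 479) (nat_lit 462)) (XT.nd (nat_lit 78) (nat_lit 228) (nat_lit 0) (XT.lf (nat_lit 0) (nat_lit 4826468837) (nat_lit 304) (nat_lit 463263188) (nat_lit 76) (nat_lit 6251404067) (nat_lit 89) (nat_lit 5) (nat_lit 93) (nat_lit 5) (nat_lit 90) (nat_lit 4) (nat_lit 620) (nat_lit 479) (nat_lit 461)) (XT.lf (nat_lit 0) (nat_lit 9362748208) (nat_lit 228) (nat_lit 559569782) (nat_lit 304) (nat_lit 1736104354) (nat_lit 86) (nat_lit 5) (nat_lit 89) (nat_lit 5) (nat_lit 90) (nat_lit 4) (nat_lit 621) (nat_lit 479) (nat_lit 460))))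 (XT.nd (nat_lit 156) (nat_lit 532) (nat_lit 0) (XT.nd (nat_lit 78) (nat_lit 228) (nat_lit 0) (XT.lf (nat_lit 0) (nat_lit 3313327049) (nat_lit 304) (nat_lit 4227441439) (nat_lit 76) (nat_lit 4236551443) (nat_lit 82) (nat_lit 5) (nat_lit 86) (nat_lit 5) (nat_lit 83) (nat_lit 4) (nat_lit 622) (nat_lit 479) (nat_lit 459)) (XT.lf (nat_lit 0) (nat_lit 5671074018) (nat_lit 228) (nat_lit 2760643650) (nat_lit 304) (nat_lit 3466826063) (nat_lit 79) (nat_lit 5) (nat_lit 82) (nat_lit 5) (nat_lit 83) (nat_lit 4) (nat_lit 623) (nat_lit 479) (nat_lit 458))) (XT.nd (nat_lit 78) (nat_lit 228) (nat_lit 0) (XT.lf (nat_lit 0) (nat_lit 1610776183) (nat_lit 304) (nat_lit 8307986414) (nat_lit 76) (nat_lit 2103182273) (nat_lit 75) (nat_lit 5) (nat_lit 79) (nat_lit 5) (nat_lit 76) (nat_lit 4) (nat_lit 624) (nat_lit 479) (nat_lit 457)) (XT.lf (nat_lit 0) (nat_lit 1658368153) (nat_lit 228) (nat_lit 5091800823) (nat_lit 304) (nat_lit 5397055545) (nat_lit 72) (nat_lit 5) (nat_lit 75) (nat_lit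 5) (nat_lit 76) (nat_lit 4) (nat_lit 625) (nat_lit 479) (nat_lit 456)))))) (XT.nd (nat_lit 546) (nat_lit 1216) (nat_lit 0) (XT.nd (nat_lit 234) (nat_lit 760) (nat_lit 0) (XT.nd (nat_lit 78) (nat_lit 456) (nat_lit 0) (XT.lf (nat_lit 0) (nat_lit 11823898253) (nat_lit 228) (nat_lit 160234796) (nat_lit 304) (nat_lit 291043000) (nat_lit 72) (nat_lit 5) (nat_lit 75) (nat_lit 5) (nat_lit 76) (nat_lit 4) (nat_lit 626) (nat_lit 479) (nat_lit 455)) (XT.nd (nat_lit 78) (nat_lit 152) (nat_lit 0) (XT.lf (nat_lit 0) (nat_lit 4884853619) (nat_lit 304) (nat_lit 2665091695) (nat_lit 76) (nat_lit 4854459623) (nat_lit 68) (nat_lit 5) (nat_lit 72) (nat_lit 5) (nat_lit 69) (nat_lit 4) (nat_lit 627) (nat_lit 479) (nat_lit 454)) (XT.lf (nat_lit 0) (nat_lit 7588585082) (nat_lit 152) (nat_lit 2562246179) (nat_lit 228) (nat_lit 2385541304) (nat_lit 66) (nat_lit 5) (nat_lit 68) (nat_lit 5) (nat_lit 69) (nat_lit 4) (nat_lit 628) (nat_lit 479) (nat_lit 453)))) (XT.nd (nat_lit 156) (nat_lit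 304) (nat_lit 0) (XT.nd (nat_lit 78) (nat_lit 152) (nat_lit 0) (XT.lf (nat_lit 0) (nat_lit 2820237064) (nat_lit 304) (nat_lit 7334660928) (nat_lit 76) (nat_lit 2515583460) (nat_lit 62) (nat_lit 5) (nat_lit 66) (nat_lit 5) (nat_lit 63) (nat_lit 4) (nat_lit 629) (nat_lit 479) (nat_lit 452)) (XT.lf (nat_lit 0) (nat_lit 2979747107) (nat_lit 152) (nat_lit 5125579587) (nat_lit 228) (nat_lit 4701489427) (nat_lit 60) (nat_lit 5) (nat_lit 62) (nat_lit 5) (nat_lit 63) (nat_lit 4) (nat_lit 630) (nat_lit 479) (nat_lit 451))) (XT.nd (nat_lit 78) (nat_lit 0) (nat_lit 0) (XT.lf (nat_lit 0) (nat_lit 533662430) (nat_lit 304) (nat_lit 12399843193) (nat_lit 76) (nat_lit 12489309) (nat_lit 56) (nat_lit 5) (nat_lit 60) (nat_lit 5) (nat_lit 57) (nat_lit 4) (nat_lit 631) (nat_lit 479) (nat_lit 450)) (XT.lf (nat_lit 0) (nat_lit 5848597320) (nat_lit 304) (nat_lit 2004298812) (nat_lit 76) (nat_lit 5233680625) (nat_lit 56) (nat_lit 5) (nat_lit 60) (nat_lit 5) (nat_lit 57) (nat_lit 4) (nat_lit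 632) (nat_lit 479) (nat_lit 449))))) (XT.nd (nat_lit 234) (nat_lit 608) (nat_lit 0) (XT.nd (nat_lit 78) (nat_lit 456) (nat_lit 0) (XT.lf (nat_lit 0) (nat_lit 8601983648) (nat_lit 152) (nat_lit 2662567957) (nat_lit 228) (nat_lit 1965525803) (nat_lit 54) (nat_lit 5) (nat_lit 56) (nat_lit 5) (nat_lit 57) (nat_lit 4) (nat_lit 633) (nat_lit 479) (nat_lit 448)) (XT.nd (nat_lit 78) (nat_lit 152) (nat_lit 0) (XT.lf (nat_lit 0) (nat_lit 3376454303) (nat_lit 304) (nat_lit 7375452350) (nat_lit 76) (nat_lit 2623923222) (nat_lit 50) (nat_lit 5) (nat_lit 54) (nat_lit 5) (nat_lit 51) (nat_lit 4) (nat_lit 634) (nat_lit 479) (nat_lit 447)) (XT.lf (nat_lit 0) (nat_lit 3282218470) (nat_lit 152) (nat_lit 5526094662) (nat_lit 228) (nat_lit 4715738776) (nat_lit 48) (nat_lit 5) (nat_lit 50) (nat_lit 5) (nat_lit 51) (nat_lit 4) (nat_lit 635) (nat_lit 479) (nat_lit 446)))) (XT.nd (nat_lit 156) (nat_lit 380) (nat_lit 0) (XT.nd (nat_lit 78) (nat_lit 0) (nat_lit 0) (XT.lf (nat_lit 0) (nat_lit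 469898006) (nat_lit 152) (nat_lit 186918706) (nat_lit 228) (nat_lit 13018494057) (nat_lit 45) (nat_lit 5) (nat_lit 47) (nat_lit 5) (nat_lit 48) (nat_lit 5) (nat_lit 636) (nat_lit 479) (nat_lit 445)) (XT.lf (nat_lit 0) (nat_lit 6116435434) (nat_lit 228) (nat_lit 2469851649) (nat_lit 76) (nat_lit 5241830608) (nat_lit 45) (nat_lit 5) (nat_lit 48) (nat_lit 5) (nat_lit 46) (nat_lit 4) (nat_lit 637) (nat_lit 479) (nat_lit 444))) (XT.nd (nat_lit 78) (nat_lit 228) (nat_lit 0) (XT.lf (nat_lit 0) (nat_lit 8482097797) (nat_lit 152) (nat_lit 3200015278) (nat_lit 228) (nat_lit 2301931739) (nat_lit 43) (nat_lit 5) (nat_lit 45) (nat_lit 5) (nat_lit 46) (nat_lit 4) (nat_lit 638) (nat_lit 479) (nat_lit 443)) (XT.lf (nat_lit 0) (nat_lit 3181832575) (nat_lit 228) (nat_lit 8671511552) (nat_lit 76) (nat_lit 2289170135) (nat_lit 40) (nat_lit 5) (nat_lit 43) (nat_lit 5) (nat_lit 41) (nat_lit 4) (nat_lit 639) (nat_lit 479) (nat_lit 442))))))))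
noncomputable def xc12 : XT := (XT.nd (nat_lit 79248) (nat_lit 0) (nat_lit 1292) (XT.nd (nat_lit 78156) (nat_lit 0) (nat_lit 6688) (XT.nd (nat_lit 468) (nat_lit 684) (nat_lit 0) (XT.nd (nat_lit 234) (nat_lit 380) (nat_lit 0) (XT.nd (nat_lit 78) (nat_lit 228) (nat_lit 0) (XT.lf (nat_lit 0) (nat_lit 2319763706) (nat_lit 152) (nat_lit 6438913736) (nat_lit 228) (nat_lit 5544888093) (nat_lit 38) (nat_lit 5) (nat_lit 40) (nat_lit 5) (nat_lit 41) (nat_lit 4) (nat_lit 640) (nat_lit 479) (nat_lit 441)) (XT.nd (nat_lit 78) (nat_lit 228) (nat_lit 0) (XT.lf (nat_lit 0) (nat_lit 13540567017) (nat_lit 152) (nat_lit 905923835) (nat_lit 228) (nat_lit 21359637) (nat_lit 38) (nat_lit 5) (nat_lit 40) (nat_lit 5) (nat_lit 41) (nat_lit 4) (nat_lit 641) (nat_lit 479) (nat_lit 440)) (XT.lf (nat_lit 0) (nat_lit 5579324907) (nat_lit 228) (nat_lit 4322565658) (nat_lit 76) (nat_lit 4731997069) (nat_lit 35) (nat_lit 5) (nat_lit 38) (nat_lit 5) (nat_lit 36) (nat_lit 4) (nat_lit 642) (nat_lit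 479) (nat_lit 439)))) (XT.nd (nat_lit 78) (nat_lit 228) (nat_lit 0) (XT.lf (nat_lit 0) (nat_lit 6962644793) (nat_lit 152) (nat_lit 4328709408) (nat_lit 228) (nat_lit 3511897371) (nat_lit 33) (nat_lit 5) (nat_lit 35) (nat_lit 5) (nat_lit 36) (nat_lit 4) (nat_lit 643) (nat_lit 479) (nat_lit 438)) (XT.nd (nat_lit 78) (nat_lit 0) (nat_lit 0) (XT.lf (nat_lit 0) (nat_lit 2116470939) (nat_lit 228) (nat_lit 11503176636) (nat_lit 76) (nat_lit 1356019535) (nat_lit 30) (nat_lit 5) (nat_lit 33) (nat_lit 5) (nat_lit 31) (nat_lit 4) (nat_lit 644) (nat_lit 479) (nat_lit 437)) (XT.lf (nat_lit 0) (nat_lit 7834397799) (nat_lit 228) (nat_lit 191455535) (nat_lit 76) (nat_lit 7124734187) (nat_lit 30) (nat_lit 5) (nat_lit 33) (nat_lit 5) (nat_lit 31) (nat_lit 4) (nat_lit 645) (nat_lit 479) (nat_lit 436))))) (XT.nd (nat_lit 234) (nat_lit 304) (nat_lit 0) (XT.nd (nat_lit 78) (nat_lit 304) (nat_lit 0) (XT.lf (nat_lit 0) (nat_lit 11391156821) (nat_lit 76) (nat_lit 2292957421) (nat_lit 152)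 (nat_lit 1644544598) (nat_lit 29) (nat_lit 5) (nat_lit 30) (nat_lit 5) (nat_lit 31) (nat_lit 4) (nat_lit 646) (nat_lit 479) (nat_lit 435)) (XT.nd (nat_lit 78) (nat_lit 76) (nat_lit 0) (XT.lf (nat_lit 0) (nat_lit 4104113116) (nat_lit 228) (nat_lit 7866538762) (nat_lit 76) (nat_lit 3538745454) (nat_lit 26) (nat_lit 5) (nat_lit 29) (nat_lit 5) (nat_lit 27) (nat_lit 4) (nat_lit 647) (nat_lit 479) (nat_lit 434)) (XT.lf (nat_lit 0) (nat_lit 3732759964) (nat_lit 76) (nat_lit 6222653989) (nat_lit 152) (nat_lit 5737926480) (nat_lit 25) (nat_lit 5) (nat_lit 26) (nat_lit 5) (nat_lit 27) (nat_lit 4) (nat_lit 648) (nat_lit 479) (nat_lit 433)))) (XT.nd (nat_lit 156) (nat_lit 76) (nat_lit 0) (XT.nd (nat_lit 78) (nat_lit 152) (nat_lit 0) (XT.lf (nat_lit 0) (nat_lit 39063780) (nat_lit 152) (nat_lit 314837924) (nat_lit 76) (nat_lit 15527119222) (nat_lit 24) (nat_lit 5) (nat_lit 26) (nat_lit 5) (nat_lit 25) (nat_lit 5) (nat_lit 649) (nat_lit 479) (nat_lit 432)) (XT.lf (nat_lit 0)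 (nat_lit 5911804990) (nat_lit 228) (nat_lit 4533603263) (nat_lit 76) (nat_lit 5625148381) (nat_lit 22) (nat_lit 5) (nat_lit 25) (nat_lit 5) (nat_lit 23) (nat_lit 4) (nat_lit 650) (nat_lit 479) (nat_lit 431))) (XT.nd (nat_lit 77220) (nat_lit 0) (nat_lit 11020) (XT.lf (nat_lit 0) (nat_lit 7357307944) (nat_lit 76) (nat_lit 4541854032) (nat_lit 152) (nat_lit 4364778836) (nat_lit 21) (nat_lit 5) (nat_lit 22) (nat_lit 5) (nat_lit 23) (nat_lit 4) (nat_lit 651) (nat_lit 479) (nat_lit 430)) (XT.lf (nat_lit 0) (nat_lit 1436164713) (nat_lit 456) (nat_lit 1919473801) (nat_lit 0) (nat_lit 1436164713) (nat_lit 166) (nat_lit 5) (nat_lit 172) (nat_lit 4) (nat_lit 166) (nat_lit 4) (nat_lit 600) (nat_lit 480) (nat_lit 480)))))) (XT.nd (nat_lit 546) (nat_lit 1976) (nat_lit 0) (XT.nd (nat_lit 234) (nat_lit 1140) (nat_lit 0) (XT.nd (nat_lit 78) (nat_lit 836) (nat_lit 0) (XT.lf (nat_lit 0) (nat_lit 4659118756) (nat_lit 380) (nat_lit 2902546402) (nat_lit 380) (nat_lit 2104399640) (nat_lit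 161) (nat_lit 4) (nat_lit 166) (nat_lit 5) (nat_lit 166) (nat_lit 4) (nat_lit 601) (nat_lit 480) (nat_lit 479)) (XT.nd (nat_lit 78) (nat_lit 380) (nat_lit 0) (XT.lf (nat_lit 0) (nat_lit 2544316121) (nat_lit 456) (nat_lit 6211182883) (nat_lit 0) (nat_lit 994665546) (nat_lit 155) (nat_lit 5) (nat_lit 161) (nat_lit 4) (nat_lit 155) (nat_lit 4) (nat_lit 602) (nat_lit 480) (nat_lit 478)) (XT.lf (nat_lit 0) (nat_lit 2372390913) (nat_lit 380) (nat_lit 4882550348) (nat_lit 380) (nat_lit 2580788254) (nat_lit 150) (nat_lit 4) (nat_lit 155) (nat_lit 5) (nat_lit 155) (nat_lit 4) (nat_lit 603) (nat_lit 480) (nat_lit 477)))) (XT.nd (nat_lit 156) (nat_lit 760) (nat_lit 0) (XT.nd (nat_lit 78) (nat_lit 0) (nat_lit 0) (XT.lf (nat_lit 0) (nat_lit 1176977870) (nat_lit 304) (nat_lit 910202426) (nat_lit 380) (nat_lit 7835982925) (nat_lit 145) (nat_lit 5) (nat_lit 149) (nat_lit 5) (nat_lit 150) (nat_lit 4) (nat_lit 604) (nat_lit 480) (nat_lit 476)) (XT.lf (nat_lit 0) (nat_lit 6814011987)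 (nat_lit 380) (nat_lit 72249803) (nat_lit 0) (nat_lit 3125744887) (nat_lit 145) (nat_lit 5) (nat_lit 150) (nat_lit 4) (nat_lit 145) (nat_lit 4) (nat_lit 605) (nat_lit 480) (nat_lit 475))) (XT.nd (nat_lit 78) (nat_lit 304) (nat_lit 0) (XT.lf (nat_lit 0) (nat_lit 1506191313) (nat_lit 456) (nat_lit 1340595433) (nat_lit 76) (nat_lit 7255773751) (nat_lit 139) (nat_lit 5) (nat_lit 145) (nat_lit 5) (nat_lit 140) (nat_lit 4) (nat_lit 606) (nat_lit 480) (nat_lit 474)) (XT.lf (nat_lit 0) (nat_lit 6250390793) (nat_lit 380) (nat_lit 2658961499) (nat_lit 0) (nat_lit 1285378575) (nat_lit 135) (nat_lit 5) (nat_lit 140) (nat_lit 4) (nat_lit 135) (nat_lit 4) (nat_lit 607) (nat_lit 480) (nat_lit 473))))) (XT.nd (nat_lit 234) (nat_lit 988) (nat_lit 0) (XT.nd (nat_lit 78) (nat_lit 608) (nat_lit 0) (XT.lf (nat_lit 0) (nat_lit 789977294) (nat_lit 380) (nat_lit 4024016423) (nat_lit 76) (nat_lit 5474655102) (nat_lit 130) (nat_lit 5) (nat_lit 135) (nat_lit 5) (nat_lit 131) (nat_lit 4)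 (nat_lit 608) (nat_lit 480) (nat_lit 472)) (XT.nd (nat_lit 78) (nat_lit 304) (nat_lit 0) (XT.lf (nat_lit 0) (nat_lit 4944431317) (nat_lit 304) (nat_lit 603153739) (nat_lit 380) (nat_lit 4836713336) (nat_lit 126) (nat_lit 5) (nat_lit 130) (nat_lit 5) (nat_lit 131) (nat_lit 4) (nat_lit 609) (nat_lit 480) (nat_lit 471)) (XT.lf (nat_lit 0) (nat_lit 3575046526) (nat_lit 304) (nat_lit 6831301523) (nat_lit 304) (nat_lit 75395864) (nat_lit 122) (nat_lit 4) (nat_lit 126) (nat_lit 5) (nat_lit 126) (nat_lit 4) (nat_lit 610) (nat_lit 480) (nat_lit 470)))) (XT.nd (nat_lit 156) (nat_lit 304) (nat_lit 0) (XT.nd (nat_lit 78) (nat_lit 304) (nat_lit 0) (XT.lf (nat_lit 0) (nat_lit 2143087193) (nat_lit 304) (nat_lit 2561808028) (nat_lit 380) (nat_lit 5875896119) (nat_lit 117) (nat_lit 5) (nat_lit 121) (nat_lit 5) (nat_lit 122) (nat_lit 4) (nat_lit 611) (nat_lit 480) (nat_lit 469)) (XT.lf (nat_lit 0) (nat_lit 669279148) (nat_lit 304) (nat_lit 8905258367) (nat_lit 304) (nat_lit 1107379979)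 (nat_lit 113) (nat_lit 4) (nat_lit 117) (nat_lit 5) (nat_lit 117) (nat_lit 4) (nat_lit 612) (nat_lit 480) (nat_lit 468))) (XT.nd (nat_lit 78) (nat_lit 228) (nat_lit 0) (XT.lf (nat_lit 0) (nat_lit 3713463228) (nat_lit 380) (nat_lit 866689201) (nat_lit 76) (nat_lit 6204304201) (nat_lit 112) (nat_lit 5) (nat_lit 117) (nat_lit 5) (nat_lit 113) (nat_lit 4) (nat_lit 613) (nat_lit 480) (nat_lit 467)) (XT.lf (nat_lit 0) (nat_lit 8454151885) (nat_lit 228) (nat_lit 150237593) (nat_lit 304) (nat_lit 2284743476) (nat_lit 109) (nat_lit 5) (nat_lit 112) (nat_lit 5) (nat_lit 113) (nat_lit 4) (nat_lit 614) (nat_lit 480) (nat_lit 466))))))) (XT.nd (nat_lit 1014) (nat_lit 2280) (nat_lit 0) (XT.nd (nat_lit 468) (nat_lit 1596) (nat_lit 0) (XT.nd (nat_lit 234) (nat_lit 532) (nat_lit 0) (XT.nd (nat_lit 78) (nat_lit 608) (nat_lit 0) (XT.lf (nat_lit 0) (nat_lit 2576329935) (nat_lit 380) (nat_lit 4084624656) (nat_lit 76) (nat_lit 4334350297) (nat_lit 104) (nat_lit 5) (nat_lit 109) (nat_lit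 5) (nat_lit 105) (nat_lit 4) (nat_lit 615) (nat_lit 480) (nat_lit 465)) (XT.nd (nat_lit 78) (nat_lit 380) (nat_lit 0) (XT.lf (nat_lit 0) (nat_lit 5314446644) (nat_lit 228) (nat_lit 2175580931) (nat_lit 304) (nat_lit 3613553260) (nat_lit 101) (nat_lit 5) (nat_lit 104) (nat_lit 5) (nat_lit 105) (nat_lit 4) (nat_lit 616) (nat_lit 480) (nat_lit 464)) (XT.lf (nat_lit 0) (nat_lit 1272338829) (nat_lit 380) (nat_lit 7558975113) (nat_lit 76) (nat_lit 2382518457) (nat_lit 96) (nat_lit 5) (nat_lit 101) (nat_lit 5) (nat_lit 97) (nat_lit 4) (nat_lit 617) (nat_lit 480) (nat_lit 463)))) (XT.nd (nat_lit 78) (nat_lit 304) (nat_lit 0) (XT.lf (nat_lit 0) (nat_lit 1914788019) (nat_lit 228) (nat_lit 4293188495) (nat_lit 304) (nat_lit 5117828884) (nat_lit 93) (nat_lit 5) (nat_lit 96) (nat_lit 5) (nat_lit 97) (nat_lit 4) (nat_lit 618) (nat_lit 480) (nat_lit 462)) (XT.nd (nat_lit 78) (nat_lit 76) (nat_lit 0) (XT.lf (nat_lit 0) (nat_lit 127971037) (nat_lit 228) (nat_lit 11103107469) (nat_lit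 228) (nat_lit 209166654) (nat_lit 90) (nat_lit 4) (nat_lit 93) (nat_lit 5) (nat_lit 93) (nat_lit 4) (nat_lit 619) (nat_lit 480) (nat_lit 461)) (XT.lf (nat_lit 0) (nat_lit 4761552657) (nat_lit 304) (nat_lit 1743208340) (nat_lit 76) (nat_lit 5051055847) (nat_lit 89) (nat_lit 5) (nat_lit 93) (nat_lit 5) (nat_lit 90) (nat_lit 4) (nat_lit 620) (nat_lit 480) (nat_lit 460))))) (XT.nd (nat_lit 234) (nat_lit 836) (nat_lit 0) (XT.nd (nat_lit 78) (nat_lit 532) (nat_lit 0) (XT.lf (nat_lit 0) (nat_lit 8010316039) (nat_lit 228) (nat_lit 1806662147) (nat_lit 304) (nat_lit 1856934471) (nat_lit 86) (nat_lit 5) (nat_lit 89) (nat_lit 5) (nat_lit 90) (nat_lit 4) (nat_lit 621) (nat_lit 480) (nat_lit 459)) (XT.nd (nat_lit 78) (nat_lit 228) (nat_lit 0) (XT.lf (nat_lit 0) (nat_lit 3144827560) (nat_lit 304) (nat_lit 5676297506) (nat_lit 76) (nat_lit 2972686997) (nat_lit 82) (nat_lit 5) (nat_lit 86) (nat_lit 5) (nat_lit 83) (nat_lit 4) (nat_lit 622) (nat_lit 480) (nat_lit 458)) (XT.lf (nat_lit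 0) (nat_lit 4147306634) (nat_lit 228) (nat_lit 4074549568) (nat_lit 304) (nat_lit 3694007926) (nat_lit 79) (nat_lit 5) (nat_lit 82) (nat_lit 5) (nat_lit 83) (nat_lit 4) (nat_lit 623) (nat_lit 480) (nat_lit 457)))) (XT.nd (nat_lit 156) (nat_lit 532) (nat_lit 0) (XT.nd (nat_lit 78) (nat_lit 0) (nat_lit 0) (XT.lf (nat_lit 0) (nat_lit 1335906492) (nat_lit 304) (nat_lit 9933200402) (nat_lit 76) (nat_lit 771202204) (nat_lit 75) (nat_lit 5) (nat_lit 79) (nat_lit 5) (nat_lit 76) (nat_lit 4) (nat_lit 624) (nat_lit 480) (nat_lit 456)) (XT.lf (nat_lit 0) (nat_lit 6433227422) (nat_lit 304) (nat_lit 43689453) (nat_lit 76) (nat_lit 5689514279) (nat_lit 75) (nat_lit 5) (nat_lit 79) (nat_lit 5) (nat_lit 76) (nat_lit 4) (nat_lit 625) (nat_lit 480) (nat_lit 455))) (XT.nd (nat_lit 78) (nat_lit 304) (nat_lit 0) (XT.lf (nat_lit 0) (nat_lit 10066528673) (nat_lit 228) (nat_lit 1569329217) (nat_lit 304) (nat_lit 659152412) (nat_lit 72) (nat_lit 5) (nat_lit 75) (nat_lit 5) (nat_lit 76)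 (nat_lit 4) (nat_lit 626) (nat_lit 480) (nat_lit 454)) (XT.lf (nat_lit 0) (nat_lit 4469503622) (nat_lit 304) (nat_lit 4529616689) (nat_lit 76) (nat_lit 3426208959) (nat_lit 68) (nat_lit 5) (nat_lit 72) (nat_lit 5) (nat_lit 69) (nat_lit 4) (nat_lit 627) (nat_lit 480) (nat_lit 453)))))) (XT.nd (nat_lit 546) (nat_lit 912) (nat_lit 0) (XT.nd (nat_lit 234) (nat_lit 760) (nat_lit 0) (XT.nd (nat_lit 78) (nat_lit 456) (nat_lit 0) (XT.lf (nat_lit 0) (nat_lit 5644393848) (nat_lit 152) (nat_lit 4047925152) (nat_lit 228) (nat_lit 2865842035) (nat_lit 66) (nat_lit 5) (nat_lit 68) (nat_lit 5) (nat_lit 69) (nat_lit 4) (nat_lit 628) (nat_lit 480) (nat_lit 452)) (XT.nd (nat_lit 78) (nat_lit 152) (nat_lit 0) (XT.lf (nat_lit 0) (nat_lit 2292565402) (nat_lit 304) (nat_lit 9391363978) (nat_lit 76) (nat_lit 1009477173) (nat_lit 62) (nat_lit 5) (nat_lit 66) (nat_lit 5) (nat_lit 63) (nat_lit 4) (nat_lit 629) (nat_lit 480) (nat_lit 451)) (XT.lf (nat_lit 0) (nat_lit 840676567) (nat_lit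 152) (nat_lit 6692693715) (nat_lit 228) (nat_lit 5297257476) (nat_lit 60) (nat_lit 5) (nat_lit 62) (nat_lit 5) (nat_lit 63) (nat_lit 4) (nat_lit 630) (nat_lit 480) (nat_lit 450)))) (XT.nd (nat_lit 156) (nat_lit 456) (nat_lit 0) (XT.nd (nat_lit 78) (nat_lit 304) (nat_lit 0) (XT.lf (nat_lit 0) (nat_lit 11295669474) (nat_lit 152) (nat_lit 1585438177) (nat_lit 228) (nat_lit 89445073) (nat_lit 60) (nat_lit 5) (nat_lit 62) (nat_lit 5) (nat_lit 63) (nat_lit 4) (nat_lit 631) (nat_lit 480) (nat_lit 449)) (XT.lf (nat_lit 0) (nat_lit 5175015322) (nat_lit 304) (nat_lit 4315873050) (nat_lit 76) (nat_lit 3621291538) (nat_lit 56) (nat_lit 5) (nat_lit 60) (nat_lit 5) (nat_lit 57) (nat_lit 4) (nat_lit 632) (nat_lit 480) (nat_lit 448))) (XT.nd (nat_lit 78) (nat_lit 304) (nat_lit 0) (XT.lf (nat_lit 0) (nat_lit 6205597847) (nat_lit 152) (nat_lit 4340144280) (nat_lit 228) (nat_lit 2710843760) (nat_lit 54) (nat_lit 5) (nat_lit 56) (nat_lit 5) (nat_lit 57) (nat_lit 4) (nat_lit 633) (nat_lit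 480) (nat_lit 447)) (XT.lf (nat_lit 0) (nat_lit 2583838606) (nat_lit 304) (nat_lit 9896115571) (nat_lit 76) (nat_lit 923623161) (nat_lit 50) (nat_lit 5) (nat_lit 54) (nat_lit 5) (nat_lit 51) (nat_lit 4) (nat_lit 634) (nat_lit 480) (nat_lit 446))))) (XT.nd (nat_lit 234) (nat_lit 532) (nat_lit 0) (XT.nd (nat_lit 78) (nat_lit 228) (nat_lit 0) (XT.lf (nat_lit 0) (nat_lit 673836766) (nat_lit 152) (nat_lit 7295381086) (nat_lit 228) (nat_lit 5583511843) (nat_lit 48) (nat_lit 5) (nat_lit 50) (nat_lit 5) (nat_lit 51) (nat_lit 4) (nat_lit 635) (nat_lit 480) (nat_lit 445)) (XT.nd (nat_lit 78) (nat_lit 228) (nat_lit 0) (XT.lf (nat_lit 0) (nat_lit 11481955352) (nat_lit 152) (nat_lit 1987551132) (nat_lit 228) (nat_lit 235216030) (nat_lit 48) (nat_lit 5) (nat_lit 50) (nat_lit 5) (nat_lit 51) (nat_lit 4) (nat_lit 636) (nat_lit 480) (nat_lit 444)) (XT.lf (nat_lit 0) (nat_lit 5171649283) (nat_lit 228) (nat_lit 5262073862) (nat_lit 76) (nat_lit 3424954291) (nat_lit 45) (nat_lit 5)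 (nat_lit 48) (nat_lit 5) (nat_lit 46) (nat_lit 4) (nat_lit 637) (nat_lit 480) (nat_lit 443)))) (XT.nd (nat_lit 156) (nat_lit 152) (nat_lit 0) (XT.nd (nat_lit 78) (nat_lit 228) (nat_lit 0) (XT.lf (nat_lit 0) (nat_lit 5599492893) (nat_lit 152) (nat_lit 5090268154) (nat_lit 228) (nat_lit 3325795507) (nat_lit 43) (nat_lit 5) (nat_lit 45) (nat_lit 5) (nat_lit 46) (nat_lit 4) (nat_lit 638) (nat_lit 480) (nat_lit 442)) (XT.lf (nat_lit 0) (nat_lit 2110508696) (nat_lit 228) (nat_lit 11690943828) (nat_lit 76) (nat_lit 373924846) (nat_lit 40) (nat_lit 5) (nat_lit 43) (nat_lit 5) (nat_lit 41) (nat_lit 4) (nat_lit 639) (nat_lit 480) (nat_lit 441))) (XT.nd (nat_lit 78) (nat_lit 152) (nat_lit 0) (XT.lf (nat_lit 0) (nat_lit 7643550248) (nat_lit 228) (nat_lit 782779670) (nat_lit 76) (nat_lit 5910975429) (nat_lit 40) (nat_lit 5) (nat_lit 43) (nat_lit 5) (nat_lit 41) (nat_lit 4) (nat_lit 640) (nat_lit 480) (nat_lit 440)) (XT.lf (nat_lit 0) (nat_lit 10375280553) (nat_lit 152) (nat_lit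 2922415106) (nat_lit 228) (nat_lit 1204568628) (nat_lit 38) (nat_lit 5) (nat_lit 40) (nat_lit 5) (nat_lit 41) (nat_lit 4) (nat_lit 641) (nat_lit 480) (nat_lit 439))))))))
noncomputable def xc13 : XT := (XT.nd (nat_lit 79092) (nat_lit 0) (nat_lit 1064) (XT.nd (nat_lit 78000) (nat_lit 0) (nat_lit 6688) (XT.nd (nat_lit 468) (nat_lit 380) (nat_lit 0) (XT.nd (nat_lit 234) (nat_lit 456) (nat_lit 0) (XT.nd (nat_lit 78) (nat_lit 228) (nat_lit 0) (XT.lf (nat_lit 0) (nat_lit 4348711559) (nat_lit 228) (nat_lit 7631499880) (nat_lit 76) (nat_lit 2689502684) (nat_lit 35) (nat_lit 5) (nat_lit 38) (nat_lit 5) (nat_lit 36) (nat_lit 4) (nat_lit 642) (nat_lit 480) (nat_lit 438)) (XT.nd (nat_lit 78) (nat_lit 76) (nat_lit 0) (XT.lf (nat_lit 0) (nat_lit 3557293082) (nat_lit 152) (nat_lit 6453259646) (nat_lit 228) (nat_lit 4829529685) (nat_lit 33) (nat_lit 5) (nat_lit 35) (nat_lit 5) (nat_lit 36) (nat_lit 4) (nat_lit 643) (nat_lit 480) (nat_lit 437)) (XT.lf (nat_lit 0) (nat_lit 756546964)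 (nat_lit 228) (nat_lit 49487690) (nat_lit 76) (nat_lit 14207826415) (nat_lit 32) (nat_lit 5) (nat_lit 35) (nat_lit 5) (nat_lit 33) (nat_lit 5) (nat_lit 644) (nat_lit 480) (nat_lit 436)))) (XT.nd (nat_lit 78) (nat_lit 304) (nat_lit 0) (XT.lf (nat_lit 0) (nat_lit 6440928670) (nat_lit 228) (nat_lit 3798907971) (nat_lit 76) (nat_lit 4949616296) (nat_lit 30) (nat_lit 5) (nat_lit 33) (nat_lit 5) (nat_lit 31) (nat_lit 4) (nat_lit 645) (nat_lit 480) (nat_lit 435)) (XT.nd (nat_lit 78) (nat_lit 228) (nat_lit 0) (XT.lf (nat_lit 0) (nat_lit 7684252767) (nat_lit 76) (nat_lit 4554889266) (nat_lit 152) (nat_lit 3129412830) (nat_lit 29) (nat_lit 5) (nat_lit 30) (nat_lit 5) (nat_lit 31) (nat_lit 4) (nat_lit 646) (nat_lit 480) (nat_lit 434)) (XT.lf (nat_lit 0) (nat_lit 2571324662) (nat_lit 228) (nat_lit 11730972889) (nat_lit 76) (nat_lit 1248537031) (nat_lit 26) (nat_lit 5) (nat_lit 29) (nat_lit 5) (nat_lit 27) (nat_lit 4) (nat_lit 647) (nat_lit 480) (nat_lit 433))))) (XT.nd (nat_lit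 234) (nat_lit 76) (nat_lit 0) (XT.nd (nat_lit 78) (nat_lit 304) (nat_lit 0) (XT.lf (nat_lit 0) (nat_lit 8371041584) (nat_lit 228) (nat_lit 231553495) (nat_lit 76) (nat_lit 7133214795) (nat_lit 26) (nat_lit 5) (nat_lit 29) (nat_lit 5) (nat_lit 27) (nat_lit 4) (nat_lit 648) (nat_lit 480) (nat_lit 432)) (XT.nd (nat_lit 78) (nat_lit 228) (nat_lit 0) (XT.lf (nat_lit 0) (nat_lit 11548465967) (nat_lit 76) (nat_lit 2759106698) (nat_lit 152) (nat_lit 1616496626) (nat_lit 25) (nat_lit 5) (nat_lit 26) (nat_lit 5) (nat_lit 27) (nat_lit 4) (nat_lit 649) (nat_lit 480) (nat_lit 431)) (XT.lf (nat_lit 0) (nat_lit 4207670213) (nat_lit 228) (nat_lit 8716635307) (nat_lit 76) (nat_lit 3190905369) (nat_lit 22) (nat_lit 5) (nat_lit 25) (nat_lit 5) (nat_lit 23) (nat_lit 4) (nat_lit 650) (nat_lit 480) (nat_lit 430)))) (XT.nd (nat_lit 77142) (nat_lit 0) (nat_lit 11020) (XT.nd (nat_lit 77064) (nat_lit 0) (nat_lit 11856) (XT.lf (nat_lit 0) (nat_lit 3068014166) (nat_lit 76) (nat_lit 7072432385)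 (nat_lit 152) (nat_lit 6169240603) (nat_lit 21) (nat_lit 5) (nat_lit 22) (nat_lit 5) (nat_lit 23) (nat_lit 4) (nat_lit 651) (nat_lit 480) (nat_lit 429)) (XT.lf (nat_lit 0) (nat_lit 1967384904) (nat_lit 456) (nat_lit 776611150) (nat_lit 0) (nat_lit 1967384904) (nat_lit 177) (nat_lit 5) (nat_lit 183) (nat_lit 4) (nat_lit 177) (nat_lit 4) (nat_lit 598) (nat_lit 481) (nat_lit 481))) (XT.nd (nat_lit 78) (nat_lit 456) (nat_lit 0) (XT.lf (nat_lit 0) (nat_lit 6802943073) (nat_lit 380) (nat_lit 1765163735) (nat_lit 380) (nat_lit 934771844) (nat_lit 172) (nat_lit 4) (nat_lit 177) (nat_lit 5) (nat_lit 177) (nat_lit 4) (nat_lit 599) (nat_lit 481) (nat_lit 480)) (XT.lf (nat_lit 0) (nat_lit 3650809197) (nat_lit 456) (nat_lit 3894959051) (nat_lit 0) (nat_lit 2038552739) (nat_lit 166) (nat_lit 5) (nat_lit 172) (nat_lit 4) (nat_lit 166) (nat_lit 4) (nat_lit 600) (nat_lit 481) (nat_lit 479)))))) (XT.nd (nat_lit 546) (nat_lit 1976) (nat_lit 0) (XT.nd (nat_lit 234) (nat_lit 1140)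 (nat_lit 0) (XT.nd (nat_lit 78) (nat_lit 836) (nat_lit 0) (XT.lf (nat_lit 0) (nat_lit 4546719994) (nat_lit 380) (nat_lit 3757763868) (nat_lit 380) (nat_lit 1363010585) (nat_lit 161) (nat_lit 4) (nat_lit 166) (nat_lit 5) (nat_lit 166) (nat_lit 4) (nat_lit 601) (nat_lit 481) (nat_lit 478)) (XT.nd (nat_lit 78) (nat_lit 380) (nat_lit 0) (XT.lf (nat_lit 0) (nat_lit 3234348317) (nat_lit 456) (nat_lit 6383544638) (nat_lit 0) (nat_lit 134439461) (nat_lit 155) (nat_lit 5) (nat_lit 161) (nat_lit 4) (nat_lit 155) (nat_lit 4) (nat_lit 602) (nat_lit 481) (nat_lit 477)) (XT.lf (nat_lit 0) (nat_lit 2141789077) (nat_lit 380) (nat_lit 5767052904) (nat_lit 380) (nat_lit 1929779814) (nat_lit 150) (nat_lit 4) (nat_lit 155) (nat_lit 5) (nat_lit 155) (nat_lit 4) (nat_lit 603) (nat_lit 481) (nat_lit 476)))) (XT.nd (nat_lit 156) (nat_lit 760) (nat_lit 0) (XT.nd (nat_lit 78) (nat_lit 0) (nat_lit 0) (XT.lf (nat_lit 0) (nat_lit 880049534) (nat_lit 304) (nat_lit 1813133008) (nat_lit 380)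 (nat_lit 7233519502) (nat_lit 145) (nat_lit 5) (nat_lit 149) (nat_lit 5) (nat_lit 150) (nat_lit 4) (nat_lit 604) (nat_lit 481) (nat_lit 475)) (XT.lf (nat_lit 0) (nat_lit 7379797468) (nat_lit 380) (nat_lit 422355296) (nat_lit 0) (nat_lit 2214198756) (nat_lit 145) (nat_lit 5) (nat_lit 150) (nat_lit 4) (nat_lit 145) (nat_lit 4) (nat_lit 605) (nat_lit 481) (nat_lit 474))) (XT.nd (nat_lit 78) (nat_lit 304) (nat_lit 0) (XT.lf (nat_lit 0) (nat_lit 2023684223) (nat_lit 456) (nat_lit 1758967155) (nat_lit 76) (nat_lit 6324914360) (nat_lit 139) (nat_lit 5) (nat_lit 145) (nat_lit 5) (nat_lit 140) (nat_lit 4) (nat_lit 606) (nat_lit 481) (nat_lit 473)) (XT.lf (nat_lit 0) (nat_lit 6724946201) (nat_lit 380) (nat_lit 3137628347) (nat_lit 0) (nat_lit 338021894) (nat_lit 135) (nat_lit 5) (nat_lit 140) (nat_lit 4) (nat_lit 135) (nat_lit 4) (nat_lit 607) (nat_lit 481) (nat_lit 472))))) (XT.nd (nat_lit 234) (nat_lit 912) (nat_lit 0) (XT.nd (nat_lit 78) (nat_lit 684) (nat_lit 0) (XT.lf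 (nat_lit 0) (nat_lit 1215343099) (nat_lit 380) (nat_lit 4573851186) (nat_lit 76) (nat_lit 4506004315) (nat_lit 130) (nat_lit 5) (nat_lit 135) (nat_lit 5) (nat_lit 131) (nat_lit 4) (nat_lit 608) (nat_lit 481) (nat_lit 471)) (XT.nd (nat_lit 78) (nat_lit 380) (nat_lit 0) (XT.lf (nat_lit 0) (nat_lit 4331801077) (nat_lit 304) (nat_lit 1603831892) (nat_lit 380) (nat_lit 4455963056) (nat_lit 126) (nat_lit 5) (nat_lit 130) (nat_lit 5) (nat_lit 131) (nat_lit 4) (nat_lit 609) (nat_lit 481) (nat_lit 470)) (XT.lf (nat_lit 0) (nat_lit 256983731) (nat_lit 380) (nat_lit 7593805536) (nat_lit 76) (nat_lit 2639101382) (nat_lit 121) (nat_lit 5) (nat_lit 126) (nat_lit 5) (nat_lit 122) (nat_lit 4) (nat_lit 610) (nat_lit 481) (nat_lit 469)))) (XT.nd (nat_lit 156) (nat_lit 608) (nat_lit 0) (XT.nd (nat_lit 78) (nat_lit 0) (nat_lit 0) (XT.lf (nat_lit 0) (nat_lit 1390616749) (nat_lit 304) (nat_lit 3607682371) (nat_lit 380) (nat_lit 5591390312) (nat_lit 117) (nat_lit 5) (nat_lit 121) (nat_lit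 5) (nat_lit 122) (nat_lit 4) (nat_lit 611) (nat_lit 481) (nat_lit 468)) (XT.lf (nat_lit 0) (nat_lit 9823856675) (nat_lit 380) (nat_lit 149234469) (nat_lit 0) (nat_lit 718607516) (nat_lit 117) (nat_lit 5) (nat_lit 122) (nat_lit 4) (nat_lit 117) (nat_lit 4) (nat_lit 612) (nat_lit 481) (nat_lit 467))) (XT.nd (nat_lit 78) (nat_lit 228) (nat_lit 0) (XT.lf (nat_lit 0) (nat_lit 3915995178) (nat_lit 380) (nat_lit 1753768836) (nat_lit 76) (nat_lit 5125121295) (nat_lit 112) (nat_lit 5) (nat_lit 117) (nat_lit 5) (nat_lit 113) (nat_lit 4) (nat_lit 613) (nat_lit 481) (nat_lit 466)) (XT.lf (nat_lit 0) (nat_lit 7500413576) (nat_lit 228) (nat_lit 1268084027) (nat_lit 304) (nat_lit 2131833806) (nat_lit 109) (nat_lit 5) (nat_lit 112) (nat_lit 5) (nat_lit 113) (nat_lit 4) (nat_lit 614) (nat_lit 481) (nat_lit 465))))))) (XT.nd (nat_lit 1092) (nat_lit 2356) (nat_lit 0) (XT.nd (nat_lit 546) (nat_lit 1520) (nat_lit 0) (XT.nd (nat_lit 234) (nat_lit 760) (nat_lit 0) (XT.nd (nat_lit 78)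 (nat_lit 608) (nat_lit 0) (XT.lf (nat_lit 0) (nat_lit 2680922096) (nat_lit 380) (nat_lit 5122852536) (nat_lit 76) (nat_lit 3203636348) (nat_lit 104) (nat_lit 5) (nat_lit 109) (nat_lit 5) (nat_lit 105) (nat_lit 4) (nat_lit 615) (nat_lit 481) (nat_lit 464)) (XT.nd (nat_lit 78) (nat_lit 380) (nat_lit 0) (XT.lf (nat_lit 0) (nat_lit 4207336814) (nat_lit 228) (nat_lit 3348071337) (nat_lit 304) (nat_lit 3561064232) (nat_lit 101) (nat_lit 5) (nat_lit 104) (nat_lit 5) (nat_lit 105) (nat_lit 4) (nat_lit 616) (nat_lit 481) (nat_lit 463)) (XT.lf (nat_lit 0) (nat_lit 1276645630) (nat_lit 380) (nat_lit 8755231850) (nat_lit 76) (nat_lit 1195790707) (nat_lit 96) (nat_lit 5) (nat_lit 101) (nat_lit 5) (nat_lit 97) (nat_lit 4) (nat_lit 617) (nat_lit 481) (nat_lit 462)))) (XT.nd (nat_lit 156) (nat_lit 532) (nat_lit 0) (XT.nd (nat_lit 78) (nat_lit 0) (nat_lit 0) (XT.lf (nat_lit 0) (nat_lit 647346995) (nat_lit 228) (nat_lit 5524879791) (nat_lit 304) (nat_lit 5168216686) (nat_lit 93)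 (nat_lit 5) (nat_lit 96) (nat_lit 5) (nat_lit 97) (nat_lit 4) (nat_lit 618) (nat_lit 481) (nat_lit 461)) (XT.lf (nat_lit 0) (nat_lit 10247167611) (nat_lit 228) (nat_lit 913562436) (nat_lit 304) (nat_lit 294846293) (nat_lit 93) (nat_lit 5) (nat_lit 96) (nat_lit 5) (nat_lit 97) (nat_lit 4) (nat_lit 619) (nat_lit 481) (nat_lit 460))) (XT.nd (nat_lit 78) (nat_lit 228) (nat_lit 0) (XT.lf (nat_lit 0) (nat_lit 4631419823) (nat_lit 304) (nat_lit 3159346640) (nat_lit 76) (nat_lit 3781305313) (nat_lit 89) (nat_lit 5) (nat_lit 93) (nat_lit 5) (nat_lit 90) (nat_lit 4) (nat_lit 620) (nat_lit 481) (nat_lit 459)) (XT.lf (nat_lit 0) (nat_lit 6520968576) (nat_lit 228) (nat_lit 3125184653) (nat_lit 304) (nat_lit 2044829270) (nat_lit 86) (nat_lit 5) (nat_lit 89) (nat_lit 5) (nat_lit 90) (nat_lit 4) (nat_lit 621) (nat_lit 481) (nat_lit 458))))) (XT.nd (nat_lit 234) (nat_lit 684) (nat_lit 0) (XT.nd (nat_lit 78) (nat_lit 532) (nat_lit 0) (XT.lf (nat_lit 0) (nat_lit 2909391371) (nat_lit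 304) (nat_lit 7265082900) (nat_lit 76) (nat_lit 1637433171) (nat_lit 82) (nat_lit 5) (nat_lit 86) (nat_lit 5) (nat_lit 83) (nat_lit 4) (nat_lit 622) (nat_lit 481) (nat_lit 457)) (XT.nd (nat_lit 78) (nat_lit 304) (nat_lit 0) (XT.lf (nat_lit 0) (nat_lit 2482841644) (nat_lit 228) (nat_lit 5461919924) (nat_lit 304) (nat_lit 3990032114) (nat_lit 79) (nat_lit 5) (nat_lit 82) (nat_lit 5) (nat_lit 83) (nat_lit 4) (nat_lit 623) (nat_lit 481) (nat_lit 456)) (XT.lf (nat_lit 0) (nat_lit 353843233) (nat_lit 228) (nat_lit 642633207) (nat_lit 304) (nat_lit 11063747385) (nat_lit 75) (nat_lit 5) (nat_lit 78) (nat_lit 5) (nat_lit 79) (nat_lit 5) (nat_lit 624) (nat_lit 481) (nat_lit 455)))) (XT.nd (nat_lit 156) (nat_lit 456) (nat_lit 0) (XT.nd (nat_lit 78) (nat_lit 228) (nat_lit 0) (XT.lf (nat_lit 0) (nat_lit 6058934147) (nat_lit 304) (nat_lit 1866710794) (nat_lit 76) (nat_lit 4261399151) (nat_lit 75) (nat_lit 5) (nat_lit 79) (nat_lit 5) (nat_lit 76) (nat_lit 4) (nat_lit 625) (nat_lit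 481) (nat_lit 454)) (XT.lf (nat_lit 0) (nat_lit 8165622140) (nat_lit 228) (nat_lit 3053511489) (nat_lit 304) (nat_lit 1097339160) (nat_lit 72) (nat_lit 5) (nat_lit 75) (nat_lit 5) (nat_lit 76) (nat_lit 4) (nat_lit 626) (nat_lit 481) (nat_lit 453))) (XT.nd (nat_lit 78) (nat_lit 152) (nat_lit 0) (XT.lf (nat_lit 0) (nat_lit 3984157272) (nat_lit 304) (nat_lit 6540851183) (nat_lit 76) (nat_lit 1922899225) (nat_lit 68) (nat_lit 5) (nat_lit 72) (nat_lit 5) (nat_lit 69) (nat_lit 4) (nat_lit 627) (nat_lit 481) (nat_lit 452)) (XT.lf (nat_lit 0) (nat_lit 3552619651) (nat_lit 152) (nat_lit 5610831340) (nat_lit 228) (nat_lit 3418159762) (nat_lit 66) (nat_lit 5) (nat_lit 68) (nat_lit 5) (nat_lit 69) (nat_lit 4) (nat_lit 628) (nat_lit 481) (nat_lit 451)))))) (XT.nd (nat_lit 546) (nat_lit 1140) (nat_lit 0) (XT.nd (nat_lit 234) (nat_lit 760) (nat_lit 0) (XT.nd (nat_lit 78) (nat_lit 152) (nat_lit 0) (XT.lf (nat_lit 0) (nat_lit 1115255408) (nat_lit 228) (nat_lit 581459216) (nat_lit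 304) (nat_lit 11021229745) (nat_lit 62) (nat_lit 5) (nat_lit 65) (nat_lit 5) (nat_lit 66) (nat_lit 5) (nat_lit 629) (nat_lit 481) (nat_lit 450)) (XT.nd (nat_lit 78) (nat_lit 152) (nat_lit 0) (XT.lf (nat_lit 0) (nat_lit 6898485580) (nat_lit 304) (nat_lit 1431147051) (nat_lit 76) (nat_lit 4526314446) (nat_lit 62) (nat_lit 5) (nat_lit 66) (nat_lit 5) (nat_lit 63) (nat_lit 4) (nat_lit 630) (nat_lit 481) (nat_lit 449)) (XT.lf (nat_lit 0) (nat_lit 8951928751) (nat_lit 152) (nat_lit 3255319156) (nat_lit 228) (nat_lit 789404447) (nat_lit 60) (nat_lit 5) (nat_lit 62) (nat_lit 5) (nat_lit 63) (nat_lit 4) (nat_lit 631) (nat_lit 481) (nat_lit 448)))) (XT.nd (nat_lit 156) (nat_lit 304) (nat_lit 0) (XT.nd (nat_lit 78) (nat_lit 152) (nat_lit 0) (XT.lf (nat_lit 0) (nat_lit 4428031206) (nat_lit 304) (nat_lit 6781511488) (nat_lit 76) (nat_lit 1929952611) (nat_lit 56) (nat_lit 5) (nat_lit 60) (nat_lit 5) (nat_lit 57) (nat_lit 4) (nat_lit 632) (nat_lit 481) (nat_lit 447)) (XT.lf (nat_lit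 0) (nat_lit 3654161040) (nat_lit 152) (nat_lit 6098944534) (nat_lit 228) (nat_lit 3531709519) (nat_lit 54) (nat_lit 5) (nat_lit 56) (nat_lit 5) (nat_lit 57) (nat_lit 4) (nat_lit 633) (nat_lit 481) (nat_lit 446))) (XT.nd (nat_lit 78) (nat_lit 0) (nat_lit 0) (XT.lf (nat_lit 0) (nat_lit 852037464) (nat_lit 228) (nat_lit 869297825) (nat_lit 304) (nat_lit 11711626646) (nat_lit 50) (nat_lit 5) (nat_lit 53) (nat_lit 5) (nat_lit 54) (nat_lit 5) (nat_lit 634) (nat_lit 481) (nat_lit 445)) (XT.lf (nat_lit 0) (nat_lit 7067730543) (nat_lit 304) (nat_lit 2066625456) (nat_lit 76) (nat_lit 4448538692) (nat_lit 50) (nat_lit 5) (nat_lit 54) (nat_lit 5) (nat_lit 51) (nat_lit 4) (nat_lit 635) (nat_lit 481) (nat_lit 444))))) (XT.nd (nat_lit 234) (nat_lit 608) (nat_lit 0) (XT.nd (nat_lit 78) (nat_lit 380) (nat_lit 0) (XT.lf (nat_lit 0) (nat_lit 8661914004) (nat_lit 152) (nat_lit 3863773586) (nat_lit 228) (nat_lit 1210047256) (nat_lit 48) (nat_lit 5) (nat_lit 50) (nat_lit 5) (nat_lit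 51) (nat_lit 4) (nat_lit 636) (nat_lit 481) (nat_lit 443)) (XT.nd (nat_lit 78) (nat_lit 152) (nat_lit 0) (XT.lf (nat_lit 0) (nat_lit 4149690220) (nat_lit 228) (nat_lit 8216345673) (nat_lit 76) (nat_lit 1524979394) (nat_lit 45) (nat_lit 5) (nat_lit 48) (nat_lit 5) (nat_lit 46) (nat_lit 4) (nat_lit 637) (nat_lit 481) (nat_lit 442)) (XT.lf (nat_lit 0) (nat_lit 2553729456) (nat_lit 152) (nat_lit 7066013006) (nat_lit 228) (nat_lit 4429113797) (nat_lit 43) (nat_lit 5) (nat_lit 45) (nat_lit 5) (nat_lit 46) (nat_lit 4) (nat_lit 638) (nat_lit 481) (nat_lit 441)))) (XT.nd (nat_lit 156) (nat_lit 380) (nat_lit 0) (XT.nd (nat_lit 78) (nat_lit 152) (nat_lit 0) (XT.lf (nat_lit 0) (nat_lit 974804948) (nat_lit 228) (nat_lit 669156415) (nat_lit 76) (nat_lit 12565796733) (nat_lit 42) (nat_lit 5) (nat_lit 45) (nat_lit 5) (nat_lit 43) (nat_lit 5) (nat_lit 639) (nat_lit 481) (nat_lit 440)) (XT.lf (nat_lit 0) (nat_lit 6464563009) (nat_lit 228) (nat_lit 4020682201) (nat_lit 76) (nat_lit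 3887307159) (nat_lit 40) (nat_lit 5) (nat_lit 43) (nat_lit 5) (nat_lit 41) (nat_lit 4) (nat_lit 640) (nat_lit 481) (nat_lit 439))) (XT.nd (nat_lit 78) (nat_lit 228) (nat_lit 0) (XT.lf (nat_lit 0) (nat_lit 7043033925) (nat_lit 152) (nat_lit 5026413550) (nat_lit 228) (nat_lit 2469049664) (nat_lit 38) (nat_lit 5) (nat_lit 40) (nat_lit 5) (nat_lit 41) (nat_lit 4) (nat_lit 641) (nat_lit 481) (nat_lit 438)) (XT.lf (nat_lit 0) (nat_lit 3036767731) (nat_lit 228) (nat_lit 11111159278) (nat_lit 76) (nat_lit 559465687) (nat_lit 35) (nat_lit 5) (nat_lit 38) (nat_lit 5) (nat_lit 36) (nat_lit 4) (nat_lit 642) (nat_lit 481) (nat_lit 437))))))))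
noncomputable def xc14 : XT := (XT.nd (nat_lit 78936) (nat_lit 0) (nat_lit 1368) (XT.nd (nat_lit 77844) (nat_lit 0) (nat_lit 6840) (XT.nd (nat_lit 468) (nat_lit 304) (nat_lit 0) (XT.nd (nat_lit 234) (nat_lit 304) (nat_lit 0) (XT.nd (nat_lit 78) (nat_lit 380) (nat_lit 0) (XT.lf (nat_lit 0) (nat_lit 8647984826) (nat_lit 228) (nat_lit 19761725) (nat_lit 76) (nat_lit 6211027493) (nat_lit 35) (nat_lit 5) (nat_lit 38) (nat_lit 5) (nat_lit 36) (nat_lit 4) (nat_lit 643) (nat_lit 481) (nat_lit 436)) (XT.nd (nat_lit 78) (nat_lit 228) (nat_lit 0) (XT.lf (nat_lit 0) (nat_lit 11341725726) (nat_lit 152) (nat_lit 3048822767) (nat_lit 228) (nat_lit 662653225) (nat_lit 33) (nat_lit 5) (nat_lit 35) (nat_lit 5) (nat_lit 36) (nat_lit 4) (nat_lit 644) (nat_lit 481) (nat_lit 435)) (XT.lf (nat_lit 0) (nat_lit 4964170649) (nat_lit 228) (nat_lit 7581195963) (nat_lit 76) (nat_lit 2684838539) (nat_lit 30) (nat_lit 5) (nat_lit 33) (nat_lit 5) (nat_lit 31) (nat_lit 4) (nat_lit 645) (nat_lit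 481) (nat_lit 434)))) (XT.nd (nat_lit 78) (nat_lit 228) (nat_lit 0) (XT.lf (nat_lit 0) (nat_lit 3801199694) (nat_lit 76) (nat_lit 6909075510) (nat_lit 152) (nat_lit 4700074583) (nat_lit 29) (nat_lit 5) (nat_lit 30) (nat_lit 5) (nat_lit 31) (nat_lit 4) (nat_lit 646) (nat_lit 481) (nat_lit 433)) (XT.nd (nat_lit 78) (nat_lit 152) (nat_lit 0) (XT.lf (nat_lit 0) (nat_lit 961324103) (nat_lit 152) (nat_lit 186486084) (nat_lit 76) (nat_lit 14446222555) (nat_lit 28) (nat_lit 5) (nat_lit 30) (nat_lit 5) (nat_lit 29) (nat_lit 5) (nat_lit 647) (nat_lit 481) (nat_lit 432)) (XT.lf (nat_lit 0) (nat_lit 6725541553) (nat_lit 228) (nat_lit 4326066816) (nat_lit 76) (nat_lit 4728110156) (nat_lit 26) (nat_lit 5) (nat_lit 29) (nat_lit 5) (nat_lit 27) (nat_lit 4) (nat_lit 648) (nat_lit 481) (nat_lit 431))))) (XT.nd (nat_lit 77064) (nat_lit 0) (nat_lit 11400) (XT.nd (nat_lit 78) (nat_lit 228) (nat_lit 0) (XT.lf (nat_lit 0) (nat_lit 7349942160) (nat_lit 76) (nat_lit 5258584482) (nat_lit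 152) (nat_lit 3360522713) (nat_lit 25) (nat_lit 5) (nat_lit 26) (nat_lit 5) (nat_lit 27) (nat_lit 4) (nat_lit 649) (nat_lit 481) (nat_lit 430)) (XT.nd (nat_lit 78) (nat_lit 0) (nat_lit 0) (XT.lf (nat_lit 0) (nat_lit 2415454692) (nat_lit 228) (nat_lit 13084341878) (nat_lit 76) (nat_lit 662042578) (nat_lit 22) (nat_lit 5) (nat_lit 25) (nat_lit 5) (nat_lit 23) (nat_lit 4) (nat_lit 650) (nat_lit 481) (nat_lit 429)) (XT.lf (nat_lit 0) (nat_lit 8302103891) (nat_lit 228) (nat_lit 1388956309) (nat_lit 76) (nat_lit 6666178219) (nat_lit 22) (nat_lit 5) (nat_lit 25) (nat_lit 5) (nat_lit 23) (nat_lit 4) (nat_lit 651) (nat_lit 481) (nat_lit 428)))) (XT.nd (nat_lit 156) (nat_lit 760) (nat_lit 0) (XT.nd (nat_lit 78) (nat_lit 76) (nat_lit 0) (XT.lf (nat_lit 0) (nat_lit 359807026) (nat_lit 456) (nat_lit 2136779698) (nat_lit 456) (nat_lit 2136779698) (nat_lit 183) (nat_lit 4) (nat_lit 189) (nat_lit 5) (nat_lit 189) (nat_lit 4) (nat_lit 596) (nat_lit 482) (nat_lit 482)) (XT.lf (nat_lit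 0) (nat_lit 219719822) (nat_lit 532) (nat_lit 420105681) (nat_lit 76) (nat_lit 8704785829) (nat_lit 182) (nat_lit 5) (nat_lit 189) (nat_lit 5) (nat_lit 183) (nat_lit 4) (nat_lit 597) (nat_lit 482) (nat_lit 481))) (XT.nd (nat_lit 78) (nat_lit 380) (nat_lit 0) (XT.lf (nat_lit 0) (nat_lit 4746523010) (nat_lit 456) (nat_lit 1607814458) (nat_lit 0) (nat_lit 3069131391) (nat_lit 177) (nat_lit 5) (nat_lit 183) (nat_lit 4) (nat_lit 177) (nat_lit 4) (nat_lit 598) (nat_lit 482) (nat_lit 480)) (XT.lf (nat_lit 0) (nat_lit 6693392415) (nat_lit 380) (nat_lit 2651200900) (nat_lit 380) (nat_lit 159699584) (nat_lit 172) (nat_lit 4) (nat_lit 177) (nat_lit 5) (nat_lit 177) (nat_lit 4) (nat_lit 599) (nat_lit 482) (nat_lit 479)))))) (XT.nd (nat_lit 546) (nat_lit 2052) (nat_lit 0) (XT.nd (nat_lit 234) (nat_lit 1216) (nat_lit 0) (XT.nd (nat_lit 78) (nat_lit 836) (nat_lit 0) (XT.lf (nat_lit 0) (nat_lit 4374297337) (nat_lit 456) (nat_lit 4063015361) (nat_lit 0) (nat_lit 1149152163) (nat_lit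 166) (nat_lit 5) (nat_lit 172) (nat_lit 4) (nat_lit 166) (nat_lit 4) (nat_lit 600) (nat_lit 482) (nat_lit 478)) (XT.nd (nat_lit 78) (nat_lit 456) (nat_lit 0) (XT.lf (nat_lit 0) (nat_lit 4321878390) (nat_lit 380) (nat_lit 4670387418) (nat_lit 380) (nat_lit 678088495) (nat_lit 161) (nat_lit 4) (nat_lit 166) (nat_lit 5) (nat_lit 166) (nat_lit 4) (nat_lit 601) (nat_lit 482) (nat_lit 477)) (XT.lf (nat_lit 0) (nat_lit 3079801702) (nat_lit 380) (nat_lit 793570646) (nat_lit 456) (nat_lit 5882471074) (nat_lit 155) (nat_lit 5) (nat_lit 160) (nat_lit 5) (nat_lit 161) (nat_lit 4) (nat_lit 602) (nat_lit 482) (nat_lit 476)))) (XT.nd (nat_lit 156) (nat_lit 456) (nat_lit 0) (XT.nd (nat_lit 78) (nat_lit 380) (nat_lit 0) (XT.lf (nat_lit 0) (nat_lit 1795773289) (nat_lit 380) (nat_lit 6710738623) (nat_lit 380) (nat_lit 1336449723) (nat_lit 150) (nat_lit 4) (nat_lit 155) (nat_lit 5) (nat_lit 155) (nat_lit 4) (nat_lit 603) (nat_lit 482) (nat_lit 475)) (XT.lf (nat_lit 0) (nat_lit 466185108)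 (nat_lit 304) (nat_lit 2775995827) (nat_lit 380) (nat_lit 6689516587) (nat_lit 145) (nat_lit 5) (nat_lit 149) (nat_lit 5) (nat_lit 150) (nat_lit 4) (nat_lit 604) (nat_lit 482) (nat_lit 474))) (XT.nd (nat_lit 78) (nat_lit 456) (nat_lit 0) (XT.lf (nat_lit 0) (nat_lit 7888863589) (nat_lit 380) (nat_lit 889376164) (nat_lit 0) (nat_lit 1243907540) (nat_lit 145) (nat_lit 5) (nat_lit 150) (nat_lit 4) (nat_lit 145) (nat_lit 4) (nat_lit 605) (nat_lit 482) (nat_lit 473)) (XT.lf (nat_lit 0) (nat_lit 2483667360) (nat_lit 456) (nat_lit 2295801485) (nat_lit 76) (nat_lit 5334562634) (nat_lit 139) (nat_lit 5) (nat_lit 145) (nat_lit 5) (nat_lit 140) (nat_lit 4) (nat_lit 606) (nat_lit 482) (nat_lit 472))))) (XT.nd (nat_lit 234) (nat_lit 1064) (nat_lit 0) (XT.nd (nat_lit 78) (nat_lit 684) (nat_lit 0) (XT.lf (nat_lit 0) (nat_lit 6467123834) (nat_lit 304) (nat_lit 678763159) (nat_lit 380) (nat_lit 3061957593) (nat_lit 135) (nat_lit 5) (nat_lit 139) (nat_lit 5) (nat_lit 140) (nat_lit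 4) (nat_lit 607) (nat_lit 482) (nat_lit 471)) (XT.nd (nat_lit 78) (nat_lit 304) (nat_lit 0) (XT.lf (nat_lit 0) (nat_lit 1581868834) (nat_lit 380) (nat_lit 5245299301) (nat_lit 76) (nat_lit 3476061209) (nat_lit 130) (nat_lit 5) (nat_lit 135) (nat_lit 5) (nat_lit 131) (nat_lit 4) (nat_lit 608) (nat_lit 482) (nat_lit 470)) (XT.lf (nat_lit 0) (nat_lit 3597029317) (nat_lit 304) (nat_lit 2667672202) (nat_lit 380) (nat_lit 4135675857) (nat_lit 126) (nat_lit 5) (nat_lit 130) (nat_lit 5) (nat_lit 131) (nat_lit 4) (nat_lit 609) (nat_lit 482) (nat_lit 469)))) (XT.nd (nat_lit 156) (nat_lit 380) (nat_lit 0) (XT.nd (nat_lit 78) (nat_lit 304) (nat_lit 0) (XT.lf (nat_lit 0) (nat_lit 528137626) (nat_lit 380) (nat_lit 8406263219) (nat_lit 76) (nat_lit 1565129627) (nat_lit 121) (nat_lit 5) (nat_lit 126) (nat_lit 5) (nat_lit 122) (nat_lit 4) (nat_lit 610) (nat_lit 482) (nat_lit 468)) (XT.lf (nat_lit 0) (nat_lit 512719809) (nat_lit 304) (nat_lit 4718581032) (nat_lit 380) (nat_lit 5368792837)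 (nat_lit 117) (nat_lit 5) (nat_lit 121) (nat_lit 5) (nat_lit 122) (nat_lit 4) (nat_lit 611) (nat_lit 482) (nat_lit 467))) (XT.nd (nat_lit 78) (nat_lit 380) (nat_lit 0) (XT.lf (nat_lit 0) (nat_lit 9615818779) (nat_lit 304) (nat_lit 404148154) (nat_lit 380) (nat_lit 682875157) (nat_lit 117) (nat_lit 5) (nat_lit 121) (nat_lit 5) (nat_lit 122) (nat_lit 4) (nat_lit 612) (nat_lit 482) (nat_lit 466)) (XT.lf (nat_lit 0) (nat_lit 4057470092) (nat_lit 380) (nat_lit 2767973516) (nat_lit 76) (nat_lit 3981383733) (nat_lit 112) (nat_lit 5) (nat_lit 117) (nat_lit 5) (nat_lit 113) (nat_lit 4) (nat_lit 613) (nat_lit 482) (nat_lit 465))))))) (XT.nd (nat_lit 1014) (nat_lit 2432) (nat_lit 0) (XT.nd (nat_lit 468) (nat_lit 1596) (nat_lit 0) (XT.nd (nat_lit 234) (nat_lit 608) (nat_lit 0) (XT.nd (nat_lit 78) (nat_lit 608) (nat_lit 0) (XT.lf (nat_lit 0) (nat_lit 6418936677) (nat_lit 228) (nat_lit 2452414644) (nat_lit 304) (nat_lit 2041695820) (nat_lit 109) (nat_lit 5) (nat_lit 112) (nat_lit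 5) (nat_lit 113) (nat_lit 4) (nat_lit 614) (nat_lit 482) (nat_lit 464)) (XT.nd (nat_lit 78) (nat_lit 228) (nat_lit 0) (XT.lf (nat_lit 0) (nat_lit 2722918645) (nat_lit 380) (nat_lit 6291656223) (nat_lit 76) (nat_lit 2006480550) (nat_lit 104) (nat_lit 5) (nat_lit 109) (nat_lit 5) (nat_lit 105) (nat_lit 4) (nat_lit 615) (nat_lit 482) (nat_lit 463)) (XT.lf (nat_lit 0) (nat_lit 2968995981) (nat_lit 228) (nat_lit 4588973009) (nat_lit 304) (nat_lit 3572937748) (nat_lit 101) (nat_lit 5) (nat_lit 104) (nat_lit 5) (nat_lit 105) (nat_lit 4) (nat_lit 616) (nat_lit 482) (nat_lit 462)))) (XT.nd (nat_lit 78) (nat_lit 228) (nat_lit 0) (XT.lf (nat_lit 0) (nat_lit 1157042782) (nat_lit 304) (nat_lit 60094485) (nat_lit 380) (nat_lit 10025923782) (nat_lit 96) (nat_lit 5) (nat_lit 100) (nat_lit 5) (nat_lit 101) (nat_lit 5) (nat_lit 617) (nat_lit 482) (nat_lit 461)) (XT.nd (nat_lit 78) (nat_lit 228) (nat_lit 0) (XT.lf (nat_lit 0) (nat_lit 6076921851) (nat_lit 380) (nat_lit 745031057)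 (nat_lit 76) (nat_lit 4534600490) (nat_lit 96) (nat_lit 5) (nat_lit 101) (nat_lit 5) (nat_lit 97) (nat_lit 4) (nat_lit 618) (nat_lit 482) (nat_lit 460)) (XT.lf (nat_lit 0) (nat_lit 8791748671) (nat_lit 228) (nat_lit 2237838339) (nat_lit 304) (nat_lit 442817129) (nat_lit 93) (nat_lit 5) (nat_lit 96) (nat_lit 5) (nat_lit 97) (nat_lit 4) (nat_lit 619) (nat_lit 482) (nat_lit 459))))) (XT.nd (nat_lit 234) (nat_lit 760) (nat_lit 0) (XT.nd (nat_lit 78) (nat_lit 532) (nat_lit 0) (XT.lf (nat_lit 0) (nat_lit 4436019305) (nat_lit 304) (nat_lit 4712233435) (nat_lit 76) (nat_lit 2441654524) (nat_lit 89) (nat_lit 5) (nat_lit 93) (nat_lit 5) (nat_lit 90) (nat_lit 4) (nat_lit 620) (nat_lit 482) (nat_lit 458)) (XT.nd (nat_lit 78) (nat_lit 304) (nat_lit 0) (XT.lf (nat_lit 0) (nat_lit 4894121761) (nat_lit 228) (nat_lit 4515654369) (nat_lit 304) (nat_lit 2299862434) (nat_lit 86) (nat_lit 5) (nat_lit 89) (nat_lit 5) (nat_lit 90) (nat_lit 4) (nat_lit 621) (nat_lit 482) (nat_lit 457))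 (XT.lf (nat_lit 0) (nat_lit 2606926156) (nat_lit 304) (nat_lit 8994420674) (nat_lit 76) (nat_lit 230266337) (nat_lit 82) (nat_lit 5) (nat_lit 86) (nat_lit 5) (nat_lit 83) (nat_lit 4) (nat_lit 622) (nat_lit 482) (nat_lit 456)))) (XT.nd (nat_lit 156) (nat_lit 456) (nat_lit 0) (XT.nd (nat_lit 78) (nat_lit 76) (nat_lit 0) (XT.lf (nat_lit 0) (nat_lit 677026318) (nat_lit 228) (nat_lit 6923298782) (nat_lit 304) (nat_lit 4355014717) (nat_lit 79) (nat_lit 5) (nat_lit 82) (nat_lit 5) (nat_lit 83) (nat_lit 4) (nat_lit 623) (nat_lit 482) (nat_lit 455)) (XT.lf (nat_lit 0) (nat_lit 603789528) (nat_lit 304) (nat_lit 1527638072) (nat_lit 76) (nat_lit 9950040524) (nat_lit 78) (nat_lit 5) (nat_lit 82) (nat_lit 5) (nat_lit 79) (nat_lit 5) (nat_lit 624) (nat_lit 482) (nat_lit 454))) (XT.nd (nat_lit 78) (nat_lit 228) (nat_lit 0) (XT.lf (nat_lit 0) (nat_lit 5616375145) (nat_lit 304) (nat_lit 3833160574) (nat_lit 76) (nat_lit 2759751044) (nat_lit 75) (nat_lit 5) (nat_lit 79) (nat_lit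 5) (nat_lit 76) (nat_lit 4) (nat_lit 625) (nat_lit 482) (nat_lit 453)) (XT.lf (nat_lit 0) (nat_lit 6120433199) (nat_lit 228) (nat_lit 4613363644) (nat_lit 304) (nat_lit 1605775082) (nat_lit 72) (nat_lit 5) (nat_lit 75) (nat_lit 5) (nat_lit 76) (nat_lit 4) (nat_lit 626) (nat_lit 482) (nat_lit 452)))))) (XT.nd (nat_lit 546) (nat_lit 1064) (nat_lit 0) (XT.nd (nat_lit 234) (nat_lit 836) (nat_lit 0) (XT.nd (nat_lit 78) (nat_lit 228) (nat_lit 0) (XT.lf (nat_lit 0) (nat_lit 3428624237) (nat_lit 304) (nat_lit 8699583897) (nat_lit 76) (nat_lit 343940887) (nat_lit 68) (nat_lit 5) (nat_lit 72) (nat_lit 5) (nat_lit 69) (nat_lit 4) (nat_lit 627) (nat_lit 482) (nat_lit 451)) (XT.nd (nat_lit 78) (nat_lit 76) (nat_lit 0) (XT.lf (nat_lit 0) (nat_lit 1312442188) (nat_lit 152) (nat_lit 7251577645) (nat_lit 228) (nat_lit 4042711083) (nat_lit 66) (nat_lit 5) (nat_lit 68) (nat_lit 5) (nat_lit 69) (nat_lit 4) (nat_lit 628) (nat_lit 482) (nat_lit 450)) (XT.lf (nat_lit 0) (nat_lit 1043806131)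 (nat_lit 228) (nat_lit 1212726185) (nat_lit 76) (nat_lit 10487345105) (nat_lit 65) (nat_lit 5) (nat_lit 68) (nat_lit 5) (nat_lit 66) (nat_lit 5) (nat_lit 629) (nat_lit 482) (nat_lit 449)))) (XT.nd (nat_lit 156) (nat_lit 456) (nat_lit 0) (XT.nd (nat_lit 78) (nat_lit 152) (nat_lit 0) (XT.lf (nat_lit 0) (nat_lit 6197453948) (nat_lit 304) (nat_lit 3842613384) (nat_lit 76) (nat_lit 2842776069) (nat_lit 62) (nat_lit 5) (nat_lit 66) (nat_lit 5) (nat_lit 63) (nat_lit 4) (nat_lit 630) (nat_lit 482) (nat_lit 448)) (XT.lf (nat_lit 0) (nat_lit 6456554601) (nat_lit 152) (nat_lit 5004816763) (nat_lit 228) (nat_lit 1563075005) (nat_lit 60) (nat_lit 5) (nat_lit 62) (nat_lit 5) (nat_lit 63) (nat_lit 4) (nat_lit 631) (nat_lit 482) (nat_lit 447))) (XT.nd (nat_lit 78) (nat_lit 152) (nat_lit 0) (XT.lf (nat_lit 0) (nat_lit 3607352038) (nat_lit 304) (nat_lit 9402181044) (nat_lit 76) (nat_lit 159000573) (nat_lit 56) (nat_lit 5) (nat_lit 60) (nat_lit 5) (nat_lit 57) (nat_lit 4) (nat_lit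 632) (nat_lit 482) (nat_lit 446)) (XT.lf (nat_lit 0) (nat_lit 946672664) (nat_lit 152) (nat_lit 7939658444) (nat_lit 228) (nat_lit 4428444987) (nat_lit 54) (nat_lit 5) (nat_lit 56) (nat_lit 5) (nat_lit 57) (nat_lit 4) (nat_lit 633) (nat_lit 482) (nat_lit 445))))) (XT.nd (nat_lit 234) (nat_lit 608) (nat_lit 0) (XT.nd (nat_lit 78) (nat_lit 380) (nat_lit 0) (XT.lf (nat_lit 0) (nat_lit 802352328) (nat_lit 228) (nat_lit 1942115551) (nat_lit 76) (nat_lit 10719252388) (nat_lit 53) (nat_lit 5) (nat_lit 56) (nat_lit 5) (nat_lit 54) (nat_lit 5) (nat_lit 634) (nat_lit 482) (nat_lit 444)) (XT.nd (nat_lit 78) (nat_lit 152) (nat_lit 0) (XT.lf (nat_lit 0) (nat_lit 6095314041) (nat_lit 304) (nat_lit 4956773840) (nat_lit 76) (nat_lit 2562634517) (nat_lit 50) (nat_lit 5) (nat_lit 54) (nat_lit 5) (nat_lit 51) (nat_lit 4) (nat_lit 635) (nat_lit 482) (nat_lit 443)) (XT.lf (nat_lit 0) (nat_lit 5682264168) (nat_lit 152) (nat_lit 5823820861) (nat_lit 228) (nat_lit 2262421935) (nat_lit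 48) (nat_lit 5) (nat_lit 50) (nat_lit 5) (nat_lit 51) (nat_lit 4) (nat_lit 636) (nat_lit 482) (nat_lit 442)))) (XT.nd (nat_lit 156) (nat_lit 380) (nat_lit 0) (XT.nd (nat_lit 78) (nat_lit 0) (nat_lit 0) (XT.lf (nat_lit 0) (nat_lit 2588239256) (nat_lit 152) (nat_lit 464936901) (nat_lit 228) (nat_lit 10871907397) (nat_lit 45) (nat_lit 5) (nat_lit 47) (nat_lit 5) (nat_lit 48) (nat_lit 5) (nat_lit 637) (nat_lit 482) (nat_lit 441)) (XT.lf (nat_lit 0) (nat_lit 8475899406) (nat_lit 228) (nat_lit 647778297) (nat_lit 76) (nat_lit 4960194052) (nat_lit 45) (nat_lit 5) (nat_lit 48) (nat_lit 5) (nat_lit 46) (nat_lit 4) (nat_lit 638) (nat_lit 482) (nat_lit 440))) (XT.nd (nat_lit 78) (nat_lit 228) (nat_lit 0) (XT.lf (nat_lit 0) (nat_lit 10286824031) (nat_lit 152) (nat_lit 3735205130) (nat_lit 228) (nat_lit 223508807) (nat_lit 43) (nat_lit 5) (nat_lit 45) (nat_lit 5) (nat_lit 46) (nat_lit 4) (nat_lit 639) (nat_lit 482) (nat_lit 439)) (XT.lf (nat_lit 0) (nat_lit 5206191931) (nat_lit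 228) (nat_lit 7425637770) (nat_lit 76) (nat_lit 1777791948) (nat_lit 40) (nat_lit 5) (nat_lit 43) (nat_lit 5) (nat_lit 41) (nat_lit 4) (nat_lit 640) (nat_lit 482) (nat_lit 438))))))))
noncomputable def xc15 : XT := (XT.nd (nat_lit 78780) (nat_lit 0) (nat_lit 1900) (XT.nd (nat_lit 77688) (nat_lit 0) (nat_lit 7904) (XT.nd (nat_lit 468) (nat_lit 608) (nat_lit 0) (XT.nd (nat_lit 234) (nat_lit 380) (nat_lit 0) (XT.nd (nat_lit 78) (nat_lit 228) (nat_lit 0) (XT.lf (nat_lit 0) (nat_lit 3542520370) (nat_lit 152) (nat_lit 7218744266) (nat_lit 228) (nat_lit 3815298621) (nat_lit 38) (nat_lit 5) (nat_lit 40) (nat_lit 5) (nat_lit 41) (nat_lit 4) (nat_lit 641) (nat_lit 482) (nat_lit 437)) (XT.nd (nat_lit 78) (nat_lit 152) (nat_lit 0) (XT.lf (nat_lit 0) (nat_lit 1654069044) (nat_lit 228) (nat_lit 26747260) (nat_lit 76) (nat_lit 13065900023) (nat_lit 37) (nat_lit 5) (nat_lit 40) (nat_lit 5) (nat_lit 38) (nat_lit 5) (nat_lit 642) (nat_lit 482) (nat_lit 436)) (XT.lf (nat_lit 0) (nat_lit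 7227208023) (nat_lit 228) (nat_lit 3721256824) (nat_lit 76) (nat_lit 3970394956) (nat_lit 35) (nat_lit 5) (nat_lit 38) (nat_lit 5) (nat_lit 36) (nat_lit 4) (nat_lit 643) (nat_lit 482) (nat_lit 435)))) (XT.nd (nat_lit 78) (nat_lit 228) (nat_lit 0) (XT.lf (nat_lit 0) (nat_lit 7541621029) (nat_lit 152) (nat_lit 5377019029) (nat_lit 228) (nat_lit 2175670607) (nat_lit 33) (nat_lit 5) (nat_lit 35) (nat_lit 5) (nat_lit 36) (nat_lit 4) (nat_lit 644) (nat_lit 482) (nat_lit 434)) (XT.nd (nat_lit 78) (nat_lit 0) (nat_lit 0) (XT.lf (nat_lit 0) (nat_lit 3403544616) (nat_lit 228) (nat_lit 11539802761) (nat_lit 76) (nat_lit 329512769) (nat_lit 30) (nat_lit 5) (nat_lit 33) (nat_lit 5) (nat_lit 31) (nat_lit 4) (nat_lit 645) (nat_lit 482) (nat_lit 433)) (XT.lf (nat_lit 0) (nat_lit 9098599210) (nat_lit 228) (nat_lit 256121443) (nat_lit 76) (nat_lit 6099305649) (nat_lit 30) (nat_lit 5) (nat_lit 33) (nat_lit 5) (nat_lit 31) (nat_lit 4) (nat_lit 646) (nat_lit 482) (nat_lit 432)))))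 (XT.nd (nat_lit 234) (nat_lit 228) (nat_lit 0) (XT.nd (nat_lit 78) (nat_lit 304) (nat_lit 0) (XT.lf (nat_lit 0) (nat_lit 11304733322) (nat_lit 76) (nat_lit 3623996361) (nat_lit 152) (nat_lit 709663642) (nat_lit 29) (nat_lit 5) (nat_lit 30) (nat_lit 5) (nat_lit 31) (nat_lit 4) (nat_lit 647) (nat_lit 482) (nat_lit 431)) (XT.nd (nat_lit 78) (nat_lit 76) (nat_lit 0) (XT.lf (nat_lit 0) (nat_lit 4994033013) (nat_lit 228) (nat_lit 8601341508) (nat_lit 76) (nat_lit 2230193795) (nat_lit 26) (nat_lit 5) (nat_lit 29) (nat_lit 5) (nat_lit 27) (nat_lit 4) (nat_lit 648) (nat_lit 482) (nat_lit 430)) (XT.lf (nat_lit 0) (nat_lit 2969227240) (nat_lit 76) (nat_lit 7853577383) (nat_lit 152) (nat_lit 5193179275) (nat_lit 25) (nat_lit 5) (nat_lit 26) (nat_lit 5) (nat_lit 27) (nat_lit 4) (nat_lit 649) (nat_lit 482) (nat_lit 429)))) (XT.nd (nat_lit 76830) (nat_lit 0) (nat_lit 12692) (XT.nd (nat_lit 78) (nat_lit 152) (nat_lit 0) (XT.lf (nat_lit 0) (nat_lit 556723201) (nat_lit 152) (nat_lit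 1422244179) (nat_lit 76) (nat_lit 14231046962) (nat_lit 24) (nat_lit 5) (nat_lit 26) (nat_lit 5) (nat_lit 25) (nat_lit 5) (nat_lit 650) (nat_lit 482) (nat_lit 428)) (XT.lf (nat_lit 0) (nat_lit 6395411113) (nat_lit 228) (nat_lit 5991115280) (nat_lit 76) (nat_lit 4019846903) (nat_lit 22) (nat_lit 5) (nat_lit 25) (nat_lit 5) (nat_lit 23) (nat_lit 4) (nat_lit 651) (nat_lit 482) (nat_lit 427))) (XT.nd (nat_lit 78) (nat_lit 456) (nat_lit 0) (XT.lf (nat_lit 0) (nat_lit 1498494140) (nat_lit 456) (nat_lit 1529586600) (nat_lit 456) (nat_lit 1529586600) (nat_lit 195) (nat_lit 4) (nat_lit 201) (nat_lit 5) (nat_lit 201) (nat_lit 4) (nat_lit 594) (nat_lit 483) (nat_lit 483)) (XT.lf (nat_lit 0) (nat_lit 1368455210) (nat_lit 456) (nat_lit 7335095656) (nat_lit 0) (nat_lit 487236693) (nat_lit 189) (nat_lit 5) (nat_lit 195) (nat_lit 4) (nat_lit 189) (nat_lit 4) (nat_lit 595) (nat_lit 483) (nat_lit 482)))))) (XT.nd (nat_lit 546) (nat_lit 2204) (nat_lit 0) (XT.nd (nat_lit 234) (nat_lit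 1672) (nat_lit 0) (XT.nd (nat_lit 78) (nat_lit 456) (nat_lit 0) (XT.lf (nat_lit 0) (nat_lit 665719488) (nat_lit 456) (nat_lit 5173439178) (nat_lit 456) (nat_lit 3428280938) (nat_lit 183) (nat_lit 4) (nat_lit 189) (nat_lit 5) (nat_lit 189) (nat_lit 4) (nat_lit 596) (nat_lit 483) (nat_lit 481)) (XT.nd (nat_lit 78) (nat_lit 380) (nat_lit 0) (XT.lf (nat_lit 0) (nat_lit 1019139068) (nat_lit 532) (nat_lit 533497049) (nat_lit 76) (nat_lit 7793269686) (nat_lit 182) (nat_lit 5) (nat_lit 189) (nat_lit 5) (nat_lit 183) (nat_lit 4) (nat_lit 597) (nat_lit 483) (nat_lit 480)) (XT.lf (nat_lit 0) (nat_lit 5504709330) (nat_lit 456) (nat_lit 1771612340) (nat_lit 0) (nat_lit 2149268291) (nat_lit 177) (nat_lit 5) (nat_lit 183) (nat_lit 4) (nat_lit 177) (nat_lit 4) (nat_lit 598) (nat_lit 483) (nat_lit 479)))) (XT.nd (nat_lit 156) (nat_lit 836) (nat_lit 0) (XT.nd (nat_lit 78) (nat_lit 380) (nat_lit 0) (XT.lf (nat_lit 0) (nat_lit 553007812) (nat_lit 456) (nat_lit 3036512019) (nat_lit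 76) (nat_lit 5917529352) (nat_lit 171) (nat_lit 5) (nat_lit 177) (nat_lit 5) (nat_lit 172) (nat_lit 4) (nat_lit 599) (nat_lit 483) (nat_lit 478)) (XT.lf (nat_lit 0) (nat_lit 5043077567) (nat_lit 456) (nat_lit 4343182437) (nat_lit 0) (nat_lit 203778915) (nat_lit 166) (nat_lit 5) (nat_lit 172) (nat_lit 4) (nat_lit 166) (nat_lit 4) (nat_lit 600) (nat_lit 483) (nat_lit 477))) (XT.nd (nat_lit 78) (nat_lit 456) (nat_lit 0) (XT.lf (nat_lit 0) (nat_lit 3984505773) (nat_lit 380) (nat_lit 5640774944) (nat_lit 380) (nat_lit 49364773) (nat_lit 161) (nat_lit 4) (nat_lit 166) (nat_lit 5) (nat_lit 166) (nat_lit 4) (nat_lit 601) (nat_lit 483) (nat_lit 476)) (XT.lf (nat_lit 0) (nat_lit 2675878010) (nat_lit 380) (nat_lit 1781870710) (nat_lit 456) (nat_lit 5303028027) (nat_lit 155) (nat_lit 5) (nat_lit 160) (nat_lit 5) (nat_lit 161) (nat_lit 4) (nat_lit 602) (nat_lit 483) (nat_lit 475))))) (XT.nd (nat_lit 234) (nat_lit 1444) (nat_lit 0) (XT.nd (nat_lit 78) (nat_lit 380) (nat_lit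 0) (XT.lf (nat_lit 0) (nat_lit 1334207854) (nat_lit 380) (nat_lit 7713977576) (nat_lit 380) (nat_lit 800565303) (nat_lit 150) (nat_lit 4) (nat_lit 155) (nat_lit 5) (nat_lit 155) (nat_lit 4) (nat_lit 603) (nat_lit 483) (nat_lit 474)) (XT.nd (nat_lit 78) (nat_lit 304) (nat_lit 0) (XT.lf (nat_lit 0) (nat_lit 3734811347) (nat_lit 456) (nat_lit 63928138) (nat_lit 76) (nat_lit 6139403715) (nat_lit 149) (nat_lit 5) (nat_lit 155) (nat_lit 5) (nat_lit 150) (nat_lit 4) (nat_lit 604) (nat_lit 483) (nat_lit 473)) (XT.lf (nat_lit 0) (nat_lit 8341409984) (nat_lit 380) (nat_lit 1473495552) (nat_lit 0) (nat_lit 214490733) (nat_lit 145) (nat_lit 5) (nat_lit 150) (nat_lit 4) (nat_lit 145) (nat_lit 4) (nat_lit 605) (nat_lit 483) (nat_lit 472)))) (XT.nd (nat_lit 156) (nat_lit 684) (nat_lit 0) (XT.nd (nat_lit 78) (nat_lit 304) (nat_lit 0) (XT.lf (nat_lit 0) (nat_lit 2886321110) (nat_lit 456) (nat_lit 2951308947) (nat_lit 76) (nat_lit 4284330201) (nat_lit 139) (nat_lit 5) (nat_lit 145)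 (nat_lit 5) (nat_lit 140) (nat_lit 4) (nat_lit 606) (nat_lit 483) (nat_lit 471)) (XT.lf (nat_lit 0) (nat_lit 5749822678) (nat_lit 304) (nat_lit 1761771483) (nat_lit 380) (nat_lit 2704919658) (nat_lit 135) (nat_lit 5) (nat_lit 139) (nat_lit 5) (nat_lit 140) (nat_lit 4) (nat_lit 607) (nat_lit 483) (nat_lit 470))) (XT.nd (nat_lit 78) (nat_lit 304) (nat_lit 0) (XT.lf (nat_lit 0) (nat_lit 1889698234) (nat_lit 380) (nat_lit 6038624079) (nat_lit 76) (nat_lit 2384421884) (nat_lit 130) (nat_lit 5) (nat_lit 135) (nat_lit 5) (nat_lit 131) (nat_lit 4) (nat_lit 608) (nat_lit 483) (nat_lit 469)) (XT.lf (nat_lit 0) (nat_lit 2739827893) (nat_lit 304) (nat_lit 3795091861) (nat_lit 380) (nat_lit 3875726137) (nat_lit 126) (nat_lit 5) (nat_lit 130) (nat_lit 5) (nat_lit 131) (nat_lit 4) (nat_lit 609) (nat_lit 483) (nat_lit 468))))))) (XT.nd (nat_lit 1092) (nat_lit 2660) (nat_lit 0) (XT.nd (nat_lit 546) (nat_lit 1444) (nat_lit 0) (XT.nd (nat_lit 234) (nat_lit 1216) (nat_lit 0) (XT.nd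 (nat_lit 78) (nat_lit 304) (nat_lit 0) (XT.lf (nat_lit 0) (nat_lit 739160985) (nat_lit 380) (nat_lit 9343899526) (nat_lit 76) (nat_lit 427616441) (nat_lit 121) (nat_lit 5) (nat_lit 126) (nat_lit 5) (nat_lit 122) (nat_lit 4) (nat_lit 610) (nat_lit 483) (nat_lit 467)) (XT.nd (nat_lit 78) (nat_lit 304) (nat_lit 0) (XT.lf (nat_lit 0) (nat_lit 5407179319) (nat_lit 380) (nat_lit 484509028) (nat_lit 76) (nat_lit 4720256063) (nat_lit 121) (nat_lit 5) (nat_lit 126) (nat_lit 5) (nat_lit 122) (nat_lit 4) (nat_lit 611) (nat_lit 483) (nat_lit 466)) (XT.lf (nat_lit 0) (nat_lit 8559630770) (nat_lit 304) (nat_lit 1601493962) (nat_lit 380) (nat_lit 554263830) (nat_lit 117) (nat_lit 5) (nat_lit 121) (nat_lit 5) (nat_lit 122) (nat_lit 4) (nat_lit 612) (nat_lit 483) (nat_lit 465)))) (XT.nd (nat_lit 156) (nat_lit 608) (nat_lit 0) (XT.nd (nat_lit 78) (nat_lit 228) (nat_lit 0) (XT.lf (nat_lit 0) (nat_lit 4137943452) (nat_lit 380) (nat_lit 3909700969) (nat_lit 76) (nat_lit 2772642991)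 (nat_lit 112) (nat_lit 5) (nat_lit 117) (nat_lit 5) (nat_lit 113) (nat_lit 4) (nat_lit 613) (nat_lit 483) (nat_lit 464)) (XT.lf (nat_lit 0) (nat_lit 5209297079) (nat_lit 228) (nat_lit 3703693888) (nat_lit 304) (nat_lit 2014294170) (nat_lit 109) (nat_lit 5) (nat_lit 112) (nat_lit 5) (nat_lit 113) (nat_lit 4) (nat_lit 614) (nat_lit 483) (nat_lit 463))) (XT.nd (nat_lit 78) (nat_lit 228) (nat_lit 0) (XT.lf (nat_lit 0) (nat_lit 2702336052) (nat_lit 380) (nat_lit 7591494073) (nat_lit 76) (nat_lit 742413429) (nat_lit 104) (nat_lit 5) (nat_lit 109) (nat_lit 5) (nat_lit 105) (nat_lit 4) (nat_lit 615) (nat_lit 483) (nat_lit 462)) (XT.lf (nat_lit 0) (nat_lit 1598938520) (nat_lit 228) (nat_lit 5898772574) (nat_lit 304) (nat_lit 3649178464) (nat_lit 101) (nat_lit 5) (nat_lit 104) (nat_lit 5) (nat_lit 105) (nat_lit 4) (nat_lit 616) (nat_lit 483) (nat_lit 461))))) (XT.nd (nat_lit 234) (nat_lit 836) (nat_lit 0) (XT.nd (nat_lit 78) (nat_lit 532) (nat_lit 0) (XT.lf (nat_lit 0) (nat_lit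 1103667489) (nat_lit 304) (nat_lit 295993963) (nat_lit 76) (nat_lit 9860158029) (nat_lit 100) (nat_lit 5) (nat_lit 104) (nat_lit 5) (nat_lit 101) (nat_lit 5) (nat_lit 617) (nat_lit 483) (nat_lit 460)) (XT.nd (nat_lit 78) (nat_lit 228) (nat_lit 0) (XT.lf (nat_lit 0) (nat_lit 5922202927) (nat_lit 380) (nat_lit 2262531411) (nat_lit 76) (nat_lit 3189403585) (nat_lit 96) (nat_lit 5) (nat_lit 101) (nat_lit 5) (nat_lit 97) (nat_lit 4) (nat_lit 618) (nat_lit 483) (nat_lit 459)) (XT.lf (nat_lit 0) (nat_lit 7201983676) (nat_lit 228) (nat_lit 3632570873) (nat_lit 304) (nat_lit 656241474) (nat_lit 93) (nat_lit 5) (nat_lit 96) (nat_lit 5) (nat_lit 97) (nat_lit 4) (nat_lit 619) (nat_lit 483) (nat_lit 458)))) (XT.nd (nat_lit 156) (nat_lit 304) (nat_lit 0) (XT.nd (nat_lit 78) (nat_lit 228) (nat_lit 0) (XT.lf (nat_lit 0) (nat_lit 4175274472) (nat_lit 304) (nat_lit 6402477701) (nat_lit 76) (nat_lit 1031578127) (nat_lit 89) (nat_lit 5) (nat_lit 93) (nat_lit 5) (nat_lit 90) (nat_lit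 4) (nat_lit 620) (nat_lit 483) (nat_lit 457)) (XT.lf (nat_lit 0) (nat_lit 3129137615) (nat_lit 228) (nat_lit 5978616577) (nat_lit 304) (nat_lit 2622133976) (nat_lit 86) (nat_lit 5) (nat_lit 89) (nat_lit 5) (nat_lit 90) (nat_lit 4) (nat_lit 621) (nat_lit 483) (nat_lit 456))) (XT.nd (nat_lit 78) (nat_lit 0) (nat_lit 0) (XT.lf (nat_lit 0) (nat_lit 979564065) (nat_lit 228) (nat_lit 1265968743) (nat_lit 304) (nat_lit 9607239765) (nat_lit 82) (nat_lit 5) (nat_lit 85) (nat_lit 5) (nat_lit 86) (nat_lit 5) (nat_lit 622) (nat_lit 483) (nat_lit 455)) (XT.lf (nat_lit 0) (nat_lit 7196662913) (nat_lit 304) (nat_lit 1254180112) (nat_lit 76) (nat_lit 3526502543) (nat_lit 82) (nat_lit 5) (nat_lit 86) (nat_lit 5) (nat_lit 83) (nat_lit 4) (nat_lit 623) (nat_lit 483) (nat_lit 454)))))) (XT.nd (nat_lit 546) (nat_lit 1140) (nat_lit 0) (XT.nd (nat_lit 234) (nat_lit 760) (nat_lit 0) (XT.nd (nat_lit 78) (nat_lit 456) (nat_lit 0) (XT.lf (nat_lit 0) (nat_lit 145796769) (nat_lit 304) (nat_lit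 3546676894) (nat_lit 76) (nat_lit 8411814566) (nat_lit 78) (nat_lit 5) (nat_lit 82) (nat_lit 5) (nat_lit 79) (nat_lit 5) (nat_lit 624) (nat_lit 483) (nat_lit 453)) (XT.nd (nat_lit 78) (nat_lit 228) (nat_lit 0) (XT.lf (nat_lit 0) (nat_lit 5105376862) (nat_lit 304) (nat_lit 5943809952) (nat_lit 76) (nat_lit 1183981075) (nat_lit 75) (nat_lit 5) (nat_lit 79) (nat_lit 5) (nat_lit 76) (nat_lit 4) (nat_lit 625) (nat_lit 483) (nat_lit 452)) (XT.lf (nat_lit 0) (nat_lit 3930159817) (nat_lit 228) (nat_lit 6249497390) (nat_lit 304) (nat_lit 2184659565) (nat_lit 72) (nat_lit 5) (nat_lit 75) (nat_lit 5) (nat_lit 76) (nat_lit 4) (nat_lit 626) (nat_lit 483) (nat_lit 451)))) (XT.nd (nat_lit 156) (nat_lit 456) (nat_lit 0) (XT.nd (nat_lit 78) (nat_lit 0) (nat_lit 0) (XT.lf (nat_lit 0) (nat_lit 1482601994) (nat_lit 228) (nat_lit 1328711544) (nat_lit 304) (nat_lit 9686576724) (nat_lit 68) (nat_lit 5) (nat_lit 71) (nat_lit 5) (nat_lit 72) (nat_lit 5) (nat_lit 627) (nat_lit 483) (nat_lit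 450)) (XT.lf (nat_lit 0) (nat_lit 7900783164) (nat_lit 304) (nat_lit 1062891771) (nat_lit 76) (nat_lit 3669716583) (nat_lit 68) (nat_lit 5) (nat_lit 72) (nat_lit 5) (nat_lit 69) (nat_lit 4) (nat_lit 628) (nat_lit 483) (nat_lit 449))) (XT.nd (nat_lit 78) (nat_lit 228) (nat_lit 0) (XT.lf (nat_lit 0) (nat_lit 327185323) (nat_lit 228) (nat_lit 3675550680) (nat_lit 76) (nat_lit 8768607849) (nat_lit 65) (nat_lit 5) (nat_lit 68) (nat_lit 5) (nat_lit 66) (nat_lit 5) (nat_lit 629) (nat_lit 483) (nat_lit 448)) (XT.lf (nat_lit 0) (nat_lit 5424542244) (nat_lit 304) (nat_lit 6405693727) (nat_lit 76) (nat_lit 1081200471) (nat_lit 62) (nat_lit 5) (nat_lit 66) (nat_lit 5) (nat_lit 63) (nat_lit 4) (nat_lit 630) (nat_lit 483) (nat_lit 447))))) (XT.nd (nat_lit 234) (nat_lit 684) (nat_lit 0) (XT.nd (nat_lit 78) (nat_lit 304) (nat_lit 0) (XT.lf (nat_lit 0) (nat_lit 3808568447) (nat_lit 152) (nat_lit 6834617076) (nat_lit 228) (nat_lit 2410760148) (nat_lit 60) (nat_lit 5) (nat_lit 62)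 (nat_lit 5) (nat_lit 63) (nat_lit 4) (nat_lit 631) (nat_lit 483) (nat_lit 446)) (XT.nd (nat_lit 78) (nat_lit 0) (nat_lit 0) (XT.lf (nat_lit 0) (nat_lit 1009040969) (nat_lit 228) (nat_lit 1714748297) (nat_lit 304) (nat_lit 10475294416) (nat_lit 56) (nat_lit 5) (nat_lit 59) (nat_lit 5) (nat_lit 60) (nat_lit 5) (nat_lit 632) (nat_lit 483) (nat_lit 445)) (XT.lf (nat_lit 0) (nat_lit 7957531286) (nat_lit 304) (nat_lit 1892775056) (nat_lit 76) (nat_lit 3495925253) (nat_lit 56) (nat_lit 5) (nat_lit 60) (nat_lit 5) (nat_lit 57) (nat_lit 4) (nat_lit 633) (nat_lit 483) (nat_lit 444)))) (XT.nd (nat_lit 156) (nat_lit 228) (nat_lit 0) (XT.nd (nat_lit 78) (nat_lit 304) (nat_lit 0) (XT.lf (nat_lit 0) (nat_lit 8612414610) (nat_lit 152) (nat_lit 4695440497) (nat_lit 228) (nat_lit 188230672) (nat_lit 54) (nat_lit 5) (nat_lit 56) (nat_lit 5) (nat_lit 57) (nat_lit 4) (nat_lit 634) (nat_lit 483) (nat_lit 443)) (XT.lf (nat_lit 0) (nat_lit 5047212013) (nat_lit 304) (nat_lit 8006579265)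 (nat_lit 76) (nat_lit 594521519) (nat_lit 50) (nat_lit 5) (nat_lit 54) (nat_lit 5) (nat_lit 51) (nat_lit 4) (nat_lit 635) (nat_lit 483) (nat_lit 442))) (XT.nd (nat_lit 78) (nat_lit 76) (nat_lit 0) (XT.lf (nat_lit 0) (nat_lit 2541837354) (nat_lit 152) (nat_lit 7868461603) (nat_lit 228) (nat_lit 3392752764) (nat_lit 48) (nat_lit 5) (nat_lit 50) (nat_lit 5) (nat_lit 51) (nat_lit 4) (nat_lit 636) (nat_lit 483) (nat_lit 441)) (XT.lf (nat_lit 0) (nat_lit 1893607300) (nat_lit 228) (nat_lit 662810476) (nat_lit 76) (nat_lit 11404239212) (nat_lit 47) (nat_lit 5) (nat_lit 50) (nat_lit 5) (nat_lit 48) (nat_lit 5) (nat_lit 637) (nat_lit 483) (nat_lit 440))))))))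
noncomputable def xc16 : XT := (XT.nd (nat_lit 78624) (nat_lit 0) (nat_lit 2888) (XT.nd (nat_lit 1014) (nat_lit 228) (nat_lit 0) (XT.nd (nat_lit 468) (nat_lit 760) (nat_lit 0) (XT.nd (nat_lit 234) (nat_lit 380) (nat_lit 0) (XT.nd (nat_lit 78) (nat_lit 380) (nat_lit 0) (XT.lf (nat_lit 0) (nat_lit 7271175707) (nat_lit 228) (nat_lit 3979233220) (nat_lit 76) (nat_lit 2869939997) (nat_lit 45) (nat_lit 5) (nat_lit 48) (nat_lit 5) (nat_lit 46) (nat_lit 4) (nat_lit 638) (nat_lit 483) (nat_lit 439)) (XT.nd (nat_lit 78) (nat_lit 228) (nat_lit 0) (XT.lf (nat_lit 0) (nat_lit 6861877474) (nat_lit 152) (nat_lit 5906537937) (nat_lit 228) (nat_lit 1514578153) (nat_lit 43) (nat_lit 5) (nat_lit 45) (nat_lit 5) (nat_lit 46) (nat_lit 4) (nat_lit 639) (nat_lit 483) (nat_lit 438)) (XT.lf (nat_lit 0) (nat_lit 3446738407) (nat_lit 152) (nat_lit 423957744) (nat_lit 228) (nat_lit 10577776525) (nat_lit 40) (nat_lit 5) (nat_lit 42) (nat_lit 5) (nat_lit 43) (nat_lit 5) (nat_lit 640) (nat_lit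 483) (nat_lit 437)))) (XT.nd (nat_lit 78) (nat_lit 380) (nat_lit 0) (XT.lf (nat_lit 0) (nat_lit 9373462805) (nat_lit 228) (nat_lit 125958934) (nat_lit 76) (nat_lit 5117039256) (nat_lit 40) (nat_lit 5) (nat_lit 43) (nat_lit 5) (nat_lit 41) (nat_lit 4) (nat_lit 641) (nat_lit 483) (nat_lit 436)) (XT.nd (nat_lit 78) (nat_lit 152) (nat_lit 0) (XT.lf (nat_lit 0) (nat_lit 217738452) (nat_lit 228) (nat_lit 3776247164) (nat_lit 76) (nat_lit 10793361517) (nat_lit 37) (nat_lit 5) (nat_lit 40) (nat_lit 5) (nat_lit 38) (nat_lit 5) (nat_lit 642) (nat_lit 483) (nat_lit 435)) (XT.lf (nat_lit 0) (nat_lit 5724568845) (nat_lit 228) (nat_lit 7595298319) (nat_lit 76) (nat_lit 1640950172) (nat_lit 35) (nat_lit 5) (nat_lit 38) (nat_lit 5) (nat_lit 36) (nat_lit 4) (nat_lit 643) (nat_lit 483) (nat_lit 434))))) (XT.nd (nat_lit 234) (nat_lit 380) (nat_lit 0) (XT.nd (nat_lit 78) (nat_lit 228) (nat_lit 0) (XT.lf (nat_lit 0) (nat_lit 3567645879) (nat_lit 152) (nat_lit 7796613288) (nat_lit 228)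 (nat_lit 3773044409) (nat_lit 33) (nat_lit 5) (nat_lit 35) (nat_lit 5) (nat_lit 36) (nat_lit 4) (nat_lit 644) (nat_lit 483) (nat_lit 433)) (XT.nd (nat_lit 78) (nat_lit 152) (nat_lit 0) (XT.lf (nat_lit 0) (nat_lit 1774790179) (nat_lit 228) (nat_lit 368161533) (nat_lit 76) (nat_lit 13174155903) (nat_lit 32) (nat_lit 5) (nat_lit 35) (nat_lit 5) (nat_lit 33) (nat_lit 5) (nat_lit 645) (nat_lit 483) (nat_lit 432)) (XT.lf (nat_lit 0) (nat_lit 7427640163) (nat_lit 228) (nat_lit 4440502307) (nat_lit 76) (nat_lit 3630975906) (nat_lit 30) (nat_lit 5) (nat_lit 33) (nat_lit 5) (nat_lit 31) (nat_lit 4) (nat_lit 646) (nat_lit 483) (nat_lit 431)))) (XT.nd (nat_lit 156) (nat_lit 76) (nat_lit 0) (XT.nd (nat_lit 78) (nat_lit 228) (nat_lit 0) (XT.lf (nat_lit 0) (nat_lit 7017156523) (nat_lit 76) (nat_lit 6187430250) (nat_lit 152) (nat_lit 2479962804) (nat_lit 29) (nat_lit 5) (nat_lit 30) (nat_lit 5) (nat_lit 31) (nat_lit 4) (nat_lit 647) (nat_lit 483) (nat_lit 430)) (XT.lf (nat_lit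 0) (nat_lit 2811897128) (nat_lit 152) (nat_lit 366318191) (nat_lit 228) (nat_lit 12695114339) (nat_lit 26) (nat_lit 5) (nat_lit 28) (nat_lit 5) (nat_lit 29) (nat_lit 5) (nat_lit 648) (nat_lit 483) (nat_lit 429))) (XT.nd (nat_lit 78) (nat_lit 76) (nat_lit 0) (XT.lf (nat_lit 0) (nat_lit 8960064699) (nat_lit 228) (nat_lit 1574472805) (nat_lit 76) (nat_lit 5530146655) (nat_lit 26) (nat_lit 5) (nat_lit 29) (nat_lit 5) (nat_lit 27) (nat_lit 4) (nat_lit 649) (nat_lit 483) (nat_lit 428)) (XT.lf (nat_lit 0) (nat_lit 10180146163) (nat_lit 76) (nat_lit 4695891200) (nat_lit 152) (nat_lit 1383459599) (nat_lit 25) (nat_lit 5) (nat_lit 26) (nat_lit 5) (nat_lit 27) (nat_lit 4) (nat_lit 650) (nat_lit 483) (nat_lit 427)))))) (XT.nd (nat_lit 77064) (nat_lit 0) (nat_lit 9652) (XT.nd (nat_lit 76752) (nat_lit 0) (nat_lit 12160) (XT.nd (nat_lit 76596) (nat_lit 0) (nat_lit 13604) (XT.lf (nat_lit 0) (nat_lit 4399700912) (nat_lit 228) (nat_lit 10780505072) (nat_lit 76) (nat_lit 1277303459)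 (nat_lit 22) (nat_lit 5) (nat_lit 25) (nat_lit 5) (nat_lit 23) (nat_lit 4) (nat_lit 651) (nat_lit 483) (nat_lit 426)) (XT.nd (nat_lit 78) (nat_lit 532) (nat_lit 0) (XT.lf (nat_lit 0) (nat_lit 2632251897) (nat_lit 456) (nat_lit 926049403) (nat_lit 456) (nat_lit 926049403) (nat_lit 208) (nat_lit 4) (nat_lit 214) (nat_lit 5) (nat_lit 214) (nat_lit 4) (nat_lit 592) (nat_lit 484) (nat_lit 484)) (XT.lf (nat_lit 0) (nat_lit 2518367603) (nat_lit 532) (nat_lit 4921710031) (nat_lit 0) (nat_lit 1601547857) (nat_lit 201) (nat_lit 5) (nat_lit 208) (nat_lit 4) (nat_lit 201) (nat_lit 4) (nat_lit 593) (nat_lit 484) (nat_lit 483)))) (XT.nd (nat_lit 156) (nat_lit 532) (nat_lit 0) (XT.nd (nat_lit 78) (nat_lit 456) (nat_lit 0) (XT.lf (nat_lit 0) (nat_lit 2944502579) (nat_lit 456) (nat_lit 3993597269) (nat_lit 456) (nat_lit 2177934636) (nat_lit 195) (nat_lit 4) (nat_lit 201) (nat_lit 5) (nat_lit 201) (nat_lit 4) (nat_lit 594) (nat_lit 484) (nat_lit 482)) (XT.lf (nat_lit 0) (nat_lit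 1746665481) (nat_lit 380) (nat_lit 453110079) (nat_lit 456) (nat_lit 6992366677) (nat_lit 189) (nat_lit 5) (nat_lit 194) (nat_lit 5) (nat_lit 195) (nat_lit 4) (nat_lit 595) (nat_lit 484) (nat_lit 481))) (XT.nd (nat_lit 78) (nat_lit 76) (nat_lit 0) (XT.lf (nat_lit 0) (nat_lit 504014660) (nat_lit 456) (nat_lit 6128273176) (nat_lit 456) (nat_lit 2637272320) (nat_lit 183) (nat_lit 4) (nat_lit 189) (nat_lit 5) (nat_lit 189) (nat_lit 4) (nat_lit 596) (nat_lit 484) (nat_lit 480)) (XT.lf (nat_lit 0) (nat_lit 1765682061) (nat_lit 532) (nat_lit 754714983) (nat_lit 76) (nat_lit 6828210397) (nat_lit 182) (nat_lit 5) (nat_lit 189) (nat_lit 5) (nat_lit 183) (nat_lit 4) (nat_lit 597) (nat_lit 484) (nat_lit 479))))) (XT.nd (nat_lit 234) (nat_lit 1292) (nat_lit 0) (XT.nd (nat_lit 78) (nat_lit 836) (nat_lit 0) (XT.lf (nat_lit 0) (nat_lit 6209626096) (nat_lit 456) (nat_lit 2044680181) (nat_lit 0) (nat_lit 1174819778) (nat_lit 177) (nat_lit 5) (nat_lit 183) (nat_lit 4) (nat_lit 177)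 (nat_lit 4) (nat_lit 598) (nat_lit 484) (nat_lit 478)) (XT.nd (nat_lit 78) (nat_lit 380) (nat_lit 0) (XT.lf (nat_lit 0) (nat_lit 1209605251) (nat_lit 456) (nat_lit 3373900534) (nat_lit 76) (nat_lit 4927701964) (nat_lit 171) (nat_lit 5) (nat_lit 177) (nat_lit 5) (nat_lit 172) (nat_lit 4) (nat_lit 599) (nat_lit 484) (nat_lit 477)) (XT.lf (nat_lit 0) (nat_lit 4854119833) (nat_lit 380) (nat_lit 808541912) (nat_lit 456) (nat_lit 3932277827) (nat_lit 166) (nat_lit 5) (nat_lit 171) (nat_lit 5) (nat_lit 172) (nat_lit 4) (nat_lit 600) (nat_lit 484) (nat_lit 476)))) (XT.nd (nat_lit 156) (nat_lit 456) (nat_lit 0) (XT.nd (nat_lit 78) (nat_lit 380) (nat_lit 0) (XT.lf (nat_lit 0) (nat_lit 516542560) (nat_lit 456) (nat_lit 6149298157) (nat_lit 76) (nat_lit 3014461006) (nat_lit 160) (nat_lit 5) (nat_lit 166) (nat_lit 5) (nat_lit 161) (nat_lit 4) (nat_lit 601) (nat_lit 484) (nat_lit 475)) (XT.lf (nat_lit 0) (nat_lit 2157760459) (nat_lit 380) (nat_lit 2829061669) (nat_lit 456) (nat_lit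 4780329888) (nat_lit 155) (nat_lit 5) (nat_lit 160) (nat_lit 5) (nat_lit 161) (nat_lit 4) (nat_lit 602) (nat_lit 484) (nat_lit 474))) (XT.nd (nat_lit 78) (nat_lit 76) (nat_lit 0) (XT.lf (nat_lit 0) (nat_lit 756911768) (nat_lit 380) (nat_lit 8777163192) (nat_lit 380) (nat_lit 321916403) (nat_lit 150) (nat_lit 4) (nat_lit 155) (nat_lit 5) (nat_lit 155) (nat_lit 4) (nat_lit 603) (nat_lit 484) (nat_lit 473)) (XT.lf (nat_lit 0) (nat_lit 4174634637) (nat_lit 456) (nat_lit 703695397) (nat_lit 76) (nat_lit 5067644220) (nat_lit 149) (nat_lit 5) (nat_lit 155) (nat_lit 5) (nat_lit 150) (nat_lit 4) (nat_lit 604) (nat_lit 484) (nat_lit 472))))))) (XT.nd (nat_lit 1014) (nat_lit 3040) (nat_lit 0) (XT.nd (nat_lit 468) (nat_lit 1596) (nat_lit 0) (XT.nd (nat_lit 234) (nat_lit 1064) (nat_lit 0) (XT.nd (nat_lit 78) (nat_lit 760) (nat_lit 0) (XT.lf (nat_lit 0) (nat_lit 7857290710) (nat_lit 304) (nat_lit 886076408) (nat_lit 380) (nat_lit 1294619113) (nat_lit 145) (nat_lit 5) (nat_lit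 149) (nat_lit 5) (nat_lit 150) (nat_lit 4) (nat_lit 605) (nat_lit 484) (nat_lit 471)) (XT.nd (nat_lit 78) (nat_lit 304) (nat_lit 0) (XT.lf (nat_lit 0) (nat_lit 3231803376) (nat_lit 456) (nat_lit 3725746601) (nat_lit 76) (nat_lit 3173805204) (nat_lit 139) (nat_lit 5) (nat_lit 145) (nat_lit 5) (nat_lit 140) (nat_lit 4) (nat_lit 606) (nat_lit 484) (nat_lit 470)) (XT.lf (nat_lit 0) (nat_lit 4913051641) (nat_lit 304) (nat_lit 2906935653) (nat_lit 380) (nat_lit 2406664725) (nat_lit 135) (nat_lit 5) (nat_lit 139) (nat_lit 5) (nat_lit 140) (nat_lit 4) (nat_lit 607) (nat_lit 484) (nat_lit 469)))) (XT.nd (nat_lit 78) (nat_lit 684) (nat_lit 0) (XT.lf (nat_lit 0) (nat_lit 2138952018) (nat_lit 380) (nat_lit 6954136630) (nat_lit 76) (nat_lit 1230658246) (nat_lit 130) (nat_lit 5) (nat_lit 135) (nat_lit 5) (nat_lit 131) (nat_lit 4) (nat_lit 608) (nat_lit 484) (nat_lit 468)) (XT.nd (nat_lit 78) (nat_lit 380) (nat_lit 0) (XT.lf (nat_lit 0) (nat_lit 1759860646) (nat_lit 304) (nat_lit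 4986532994) (nat_lit 380) (nat_lit 3676011953) (nat_lit 126) (nat_lit 5) (nat_lit 130) (nat_lit 5) (nat_lit 131) (nat_lit 4) (nat_lit 609) (nat_lit 484) (nat_lit 467)) (XT.lf (nat_lit 0) (nat_lit 111059133) (nat_lit 304) (nat_lit 784168773) (nat_lit 380) (nat_lit 9628004729) (nat_lit 121) (nat_lit 5) (nat_lit 125) (nat_lit 5) (nat_lit 126) (nat_lit 5) (nat_lit 610) (nat_lit 484) (nat_lit 466))))) (XT.nd (nat_lit 234) (nat_lit 912) (nat_lit 0) (XT.nd (nat_lit 78) (nat_lit 684) (nat_lit 0) (XT.lf (nat_lit 0) (nat_lit 5526962773) (nat_lit 380) (nat_lit 1599523149) (nat_lit 76) (nat_lit 3498741166) (nat_lit 121) (nat_lit 5) (nat_lit 126) (nat_lit 5) (nat_lit 122) (nat_lit 4) (nat_lit 611) (nat_lit 484) (nat_lit 465)) (XT.nd (nat_lit 78) (nat_lit 380) (nat_lit 0) (XT.lf (nat_lit 0) (nat_lit 7378308206) (nat_lit 304) (nat_lit 2864349539) (nat_lit 380) (nat_lit 486779805) (nat_lit 117) (nat_lit 5) (nat_lit 121) (nat_lit 5) (nat_lit 122) (nat_lit 4) (nat_lit 612) (nat_lit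 484) (nat_lit 464)) (XT.lf (nat_lit 0) (nat_lit 4157446816) (nat_lit 380) (nat_lit 5179398931) (nat_lit 76) (nat_lit 1498425052) (nat_lit 112) (nat_lit 5) (nat_lit 117) (nat_lit 5) (nat_lit 113) (nat_lit 4) (nat_lit 613) (nat_lit 484) (nat_lit 463)))) (XT.nd (nat_lit 156) (nat_lit 304) (nat_lit 0) (XT.nd (nat_lit 78) (nat_lit 380) (nat_lit 0) (XT.lf (nat_lit 0) (nat_lit 3871020412) (nat_lit 228) (nat_lit 5022412456) (nat_lit 304) (nat_lit 2049618111) (nat_lit 109) (nat_lit 5) (nat_lit 112) (nat_lit 5) (nat_lit 113) (nat_lit 4) (nat_lit 614) (nat_lit 484) (nat_lit 462)) (XT.lf (nat_lit 0) (nat_lit 2026152613) (nat_lit 304) (nat_lit 596889031) (nat_lit 380) (nat_lit 8429862192) (nat_lit 104) (nat_lit 5) (nat_lit 108) (nat_lit 5) (nat_lit 109) (nat_lit 5) (nat_lit 615) (nat_lit 484) (nat_lit 461))) (XT.nd (nat_lit 78) (nat_lit 76) (nat_lit 0) (XT.lf (nat_lit 0) (nat_lit 96627153) (nat_lit 228) (nat_lit 7277983680) (nat_lit 304) (nat_lit 3789816279) (nat_lit 101) (nat_lit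 5) (nat_lit 104) (nat_lit 5) (nat_lit 105) (nat_lit 4) (nat_lit 616) (nat_lit 484) (nat_lit 460)) (XT.lf (nat_lit 0) (nat_lit 934759768) (nat_lit 304) (nat_lit 1866220599) (nat_lit 76) (nat_lit 8476998329) (nat_lit 100) (nat_lit 5) (nat_lit 104) (nat_lit 5) (nat_lit 101) (nat_lit 5) (nat_lit 617) (nat_lit 484) (nat_lit 459)))))) (XT.nd (nat_lit 546) (nat_lit 1444) (nat_lit 0) (XT.nd (nat_lit 234) (nat_lit 760) (nat_lit 0) (XT.nd (nat_lit 78) (nat_lit 532) (nat_lit 0) (XT.lf (nat_lit 0) (nat_lit 5703806334) (nat_lit 380) (nat_lit 3914239238) (nat_lit 76) (nat_lit 1775242432) (nat_lit 96) (nat_lit 5) (nat_lit 101) (nat_lit 5) (nat_lit 97) (nat_lit 4) (nat_lit 618) (nat_lit 484) (nat_lit 458)) (XT.nd (nat_lit 78) (nat_lit 304) (nat_lit 0) (XT.lf (nat_lit 0) (nat_lit 5477249189) (nat_lit 228) (nat_lit 5098306992) (nat_lit 304) (nat_lit 935203025) (nat_lit 93) (nat_lit 5) (nat_lit 96) (nat_lit 5) (nat_lit 97) (nat_lit 4) (nat_lit 619) (nat_lit 484) (nat_lit 457)) (XT.lf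 (nat_lit 0) (nat_lit 3396589998) (nat_lit 228) (nat_lit 455450160) (nat_lit 304) (nat_lit 7778249203) (nat_lit 89) (nat_lit 5) (nat_lit 92) (nat_lit 5) (nat_lit 93) (nat_lit 5) (nat_lit 620) (nat_lit 484) (nat_lit 456)))) (XT.nd (nat_lit 156) (nat_lit 456) (nat_lit 0) (XT.nd (nat_lit 78) (nat_lit 76) (nat_lit 0) (XT.lf (nat_lit 0) (nat_lit 1225323988) (nat_lit 228) (nat_lit 7514644986) (nat_lit 304) (nat_lit 3011770278) (nat_lit 86) (nat_lit 5) (nat_lit 89) (nat_lit 5) (nat_lit 90) (nat_lit 4) (nat_lit 621) (nat_lit 484) (nat_lit 455)) (XT.lf (nat_lit 0) (nat_lit 1825467702) (nat_lit 304) (nat_lit 1007054194) (nat_lit 76) (nat_lit 9042864104) (nat_lit 85) (nat_lit 5) (nat_lit 89) (nat_lit 5) (nat_lit 86) (nat_lit 5) (nat_lit 622) (nat_lit 484) (nat_lit 454))) (XT.nd (nat_lit 78) (nat_lit 228) (nat_lit 0) (XT.lf (nat_lit 0) (nat_lit 6730685286) (nat_lit 304) (nat_lit 3317456452) (nat_lit 76) (nat_lit 1952736454) (nat_lit 82) (nat_lit 5) (nat_lit 86) (nat_lit 5)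 (nat_lit 83) (nat_lit 4) (nat_lit 623) (nat_lit 484) (nat_lit 453)) (XT.lf (nat_lit 0) (nat_lit 6417483449) (nat_lit 228) (nat_lit 5326177045) (nat_lit 304) (nat_lit 385028544) (nat_lit 79) (nat_lit 5) (nat_lit 82) (nat_lit 5) (nat_lit 83) (nat_lit 4) (nat_lit 624) (nat_lit 484) (nat_lit 452))))) (XT.nd (nat_lit 234) (nat_lit 836) (nat_lit 0) (XT.nd (nat_lit 78) (nat_lit 304) (nat_lit 0) (XT.lf (nat_lit 0) (nat_lit 4056079550) (nat_lit 228) (nat_lit 472728624) (nat_lit 304) (nat_lit 7729827275) (nat_lit 75) (nat_lit 5) (nat_lit 78) (nat_lit 5) (nat_lit 79) (nat_lit 5) (nat_lit 625) (nat_lit 484) (nat_lit 451)) (XT.nd (nat_lit 78) (nat_lit 76) (nat_lit 0) (XT.lf (nat_lit 0) (nat_lit 1593943062) (nat_lit 228) (nat_lit 7962554346) (nat_lit 304) (nat_lit 2834219622) (nat_lit 72) (nat_lit 5) (nat_lit 75) (nat_lit 5) (nat_lit 76) (nat_lit 4) (nat_lit 626) (nat_lit 484) (nat_lit 450)) (XT.lf (nat_lit 0) (nat_lit 2132339998) (nat_lit 304) (nat_lit 945191138) (nat_lit 76)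 (nat_lit 9447603226) (nat_lit 71) (nat_lit 5) (nat_lit 75) (nat_lit 5) (nat_lit 72) (nat_lit 5) (nat_lit 627) (nat_lit 484) (nat_lit 449)))) (XT.nd (nat_lit 156) (nat_lit 456) (nat_lit 0) (XT.nd (nat_lit 78) (nat_lit 152) (nat_lit 0) (XT.lf (nat_lit 0) (nat_lit 7175982005) (nat_lit 304) (nat_lit 3569261480) (nat_lit 76) (nat_lit 1916309510) (nat_lit 68) (nat_lit 5) (nat_lit 72) (nat_lit 5) (nat_lit 69) (nat_lit 4) (nat_lit 628) (nat_lit 484) (nat_lit 448)) (XT.lf (nat_lit 0) (nat_lit 6508597248) (nat_lit 152) (nat_lit 5825049522) (nat_lit 228) (nat_lit 466791865) (nat_lit 66) (nat_lit 5) (nat_lit 68) (nat_lit 5) (nat_lit 69) (nat_lit 4) (nat_lit 629) (nat_lit 484) (nat_lit 447))) (XT.nd (nat_lit 78) (nat_lit 152) (nat_lit 0) (XT.lf (nat_lit 0) (nat_lit 3815250221) (nat_lit 228) (nat_lit 769191241) (nat_lit 304) (nat_lit 8357196068) (nat_lit 62) (nat_lit 5) (nat_lit 65) (nat_lit 5) (nat_lit 66) (nat_lit 5) (nat_lit 630) (nat_lit 484) (nat_lit 446)) (XT.lf (nat_lit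 0) (nat_lit 1006931861) (nat_lit 152) (nat_lit 8745437664) (nat_lit 228) (nat_lit 3332792300) (nat_lit 60) (nat_lit 5) (nat_lit 62) (nat_lit 5) (nat_lit 63) (nat_lit 4) (nat_lit 631) (nat_lit 484) (nat_lit 445))))))))
noncomputable def xc17 : XT := (XT.nd (nat_lit 78468) (nat_lit 0) (nat_lit 4560) (XT.nd (nat_lit 1014) (nat_lit 988) (nat_lit 0) (XT.nd (nat_lit 468) (nat_lit 912) (nat_lit 0) (XT.nd (nat_lit 234) (nat_lit 532) (nat_lit 0) (XT.nd (nat_lit 78) (nat_lit 380) (nat_lit 0) (XT.lf (nat_lit 0) (nat_lit 1779808277) (nat_lit 228) (nat_lit 1880294637) (nat_lit 76) (nat_lit 9570998213) (nat_lit 59) (nat_lit 5) (nat_lit 62) (nat_lit 5) (nat_lit 60) (nat_lit 5) (nat_lit 632) (nat_lit 484) (nat_lit 444)) (XT.nd (nat_lit 78) (nat_lit 152) (nat_lit 0) (XT.lf (nat_lit 0) (nat_lit 6961058325) (nat_lit 304) (nat_lit 4875968394) (nat_lit 76) (nat_lit 1542272879) (nat_lit 56) (nat_lit 5) (nat_lit 60) (nat_lit 5) (nat_lit 57) (nat_lit 4) (nat_lit 633) (nat_lit 484) (nat_lit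 443)) (XT.lf (nat_lit 0) (nat_lit 5540583450) (nat_lit 152) (nat_lit 6723982608) (nat_lit 228) (nat_lit 1265524751) (nat_lit 54) (nat_lit 5) (nat_lit 56) (nat_lit 5) (nat_lit 57) (nat_lit 4) (nat_lit 634) (nat_lit 484) (nat_lit 442)))) (XT.nd (nat_lit 78) (nat_lit 228) (nat_lit 0) (XT.lf (nat_lit 0) (nat_lit 2456666962) (nat_lit 228) (nat_lit 1475929187) (nat_lit 304) (nat_lit 9750891258) (nat_lit 50) (nat_lit 5) (nat_lit 53) (nat_lit 5) (nat_lit 54) (nat_lit 5) (nat_lit 635) (nat_lit 484) (nat_lit 441)) (XT.nd (nat_lit 78) (nat_lit 228) (nat_lit 0) (XT.lf (nat_lit 0) (nat_lit 9242837960) (nat_lit 304) (nat_lit 750622598) (nat_lit 76) (nat_lit 3845823338) (nat_lit 50) (nat_lit 5) (nat_lit 54) (nat_lit 5) (nat_lit 51) (nat_lit 4) (nat_lit 636) (nat_lit 484) (nat_lit 440)) (XT.lf (nat_lit 0) (nat_lit 674006284) (nat_lit 228) (nat_lit 4042230633) (nat_lit 76) (nat_lit 9281443078) (nat_lit 47) (nat_lit 5) (nat_lit 50) (nat_lit 5) (nat_lit 48) (nat_lit 5) (nat_lit 637)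 (nat_lit 484) (nat_lit 439))))) (XT.nd (nat_lit 234) (nat_lit 532) (nat_lit 0) (XT.nd (nat_lit 78) (nat_lit 228) (nat_lit 0) (XT.lf (nat_lit 0) (nat_lit 5988518421) (nat_lit 228) (nat_lit 7475434386) (nat_lit 76) (nat_lit 694680875) (nat_lit 45) (nat_lit 5) (nat_lit 48) (nat_lit 5) (nat_lit 46) (nat_lit 4) (nat_lit 638) (nat_lit 484) (nat_lit 438)) (XT.nd (nat_lit 78) (nat_lit 76) (nat_lit 0) (XT.lf (nat_lit 0) (nat_lit 3270960348) (nat_lit 152) (nat_lit 8165352741) (nat_lit 228) (nat_lit 2885954745) (nat_lit 43) (nat_lit 5) (nat_lit 45) (nat_lit 5) (nat_lit 46) (nat_lit 4) (nat_lit 639) (nat_lit 484) (nat_lit 437)) (XT.lf (nat_lit 0) (nat_lit 2468829409) (nat_lit 228) (nat_lit 267408250) (nat_lit 76) (nat_lit 11752657476) (nat_lit 42) (nat_lit 5) (nat_lit 45) (nat_lit 5) (nat_lit 43) (nat_lit 5) (nat_lit 640) (nat_lit 484) (nat_lit 436)))) (XT.nd (nat_lit 156) (nat_lit 228) (nat_lit 0) (XT.nd (nat_lit 78) (nat_lit 152) (nat_lit 0) (XT.lf (nat_lit 0) (nat_lit 7928779893)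 (nat_lit 228) (nat_lit 3916812668) (nat_lit 76) (nat_lit 2812147792) (nat_lit 40) (nat_lit 5) (nat_lit 43) (nat_lit 5) (nat_lit 41) (nat_lit 4) (nat_lit 641) (nat_lit 484) (nat_lit 435)) (XT.lf (nat_lit 0) (nat_lit 7123922649) (nat_lit 152) (nat_lit 6388632726) (nat_lit 228) (nat_lit 1317115725) (nat_lit 38) (nat_lit 5) (nat_lit 40) (nat_lit 5) (nat_lit 41) (nat_lit 4) (nat_lit 642) (nat_lit 484) (nat_lit 434))) (XT.nd (nat_lit 78) (nat_lit 0) (nat_lit 0) (XT.lf (nat_lit 0) (nat_lit 3356035386) (nat_lit 152) (nat_lit 788562506) (nat_lit 228) (nat_lit 10859962807) (nat_lit 35) (nat_lit 5) (nat_lit 37) (nat_lit 5) (nat_lit 38) (nat_lit 5) (nat_lit 643) (nat_lit 484) (nat_lit 433)) (XT.lf (nat_lit 0) (nat_lit 9730573419) (nat_lit 228) (nat_lit 574128282) (nat_lit 76) (nat_lit 4877420068) (nat_lit 35) (nat_lit 5) (nat_lit 38) (nat_lit 5) (nat_lit 36) (nat_lit 4) (nat_lit 644) (nat_lit 484) (nat_lit 432)))))) (XT.nd (nat_lit 76908) (nat_lit 0) (nat_lit 12236) (XT.nd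 (nat_lit 234) (nat_lit 532) (nat_lit 0) (XT.nd (nat_lit 78) (nat_lit 228) (nat_lit 0) (XT.lf (nat_lit 0) (nat_lit 89095209) (nat_lit 228) (nat_lit 4598442742) (nat_lit 76) (nat_lit 10675190426) (nat_lit 32) (nat_lit 5) (nat_lit 35) (nat_lit 5) (nat_lit 33) (nat_lit 5) (nat_lit 645) (nat_lit 484) (nat_lit 431)) (XT.nd (nat_lit 78) (nat_lit 76) (nat_lit 0) (XT.lf (nat_lit 0) (nat_lit 5672062875) (nat_lit 228) (nat_lit 8803437248) (nat_lit 76) (nat_lit 1070637166) (nat_lit 30) (nat_lit 5) (nat_lit 33) (nat_lit 5) (nat_lit 31) (nat_lit 4) (nat_lit 646) (nat_lit 484) (nat_lit 430)) (XT.lf (nat_lit 0) (nat_lit 2549585851) (nat_lit 76) (nat_lit 8845568114) (nat_lit 152) (nat_lit 4337492127) (nat_lit 29) (nat_lit 5) (nat_lit 30) (nat_lit 5) (nat_lit 31) (nat_lit 4) (nat_lit 647) (nat_lit 484) (nat_lit 429)))) (XT.nd (nat_lit 156) (nat_lit 304) (nat_lit 0) (XT.nd (nat_lit 78) (nat_lit 152) (nat_lit 0) (XT.lf (nat_lit 0) (nat_lit 1301968522) (nat_lit 152) (nat_lit 1774658462)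 (nat_lit 76) (nat_lit 12845902455) (nat_lit 28) (nat_lit 5) (nat_lit 30) (nat_lit 5) (nat_lit 29) (nat_lit 5) (nat_lit 648) (nat_lit 484) (nat_lit 428)) (XT.lf (nat_lit 0) (nat_lit 7029697820) (nat_lit 228) (nat_lit 6262494514) (nat_lit 76) (nat_lit 2822774472) (nat_lit 26) (nat_lit 5) (nat_lit 29) (nat_lit 5) (nat_lit 27) (nat_lit 4) (nat_lit 649) (nat_lit 484) (nat_lit 427))) (XT.nd (nat_lit 78) (nat_lit 228) (nat_lit 0) (XT.lf (nat_lit 0) (nat_lit 5384003559) (nat_lit 76) (nat_lit 7506242625) (nat_lit 152) (nat_lit 3420642367) (nat_lit 25) (nat_lit 5) (nat_lit 26) (nat_lit 5) (nat_lit 27) (nat_lit 4) (nat_lit 650) (nat_lit 484) (nat_lit 426)) (XT.lf (nat_lit 0) (nat_lit 741177655) (nat_lit 152) (nat_lit 1583292787) (nat_lit 228) (nat_lit 14185990877) (nat_lit 22) (nat_lit 5) (nat_lit 24) (nat_lit 5) (nat_lit 25) (nat_lit 5) (nat_lit 651) (nat_lit 484) (nat_lit 425))))) (XT.nd (nat_lit 234) (nat_lit 1900) (nat_lit 0) (XT.nd (nat_lit 78) (nat_lit 988) (nat_lit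 0) (XT.lf (nat_lit 0) (nat_lit 3764079941) (nat_lit 532) (nat_lit 324652180) (nat_lit 532) (nat_lit 324652180) (nat_lit 221) (nat_lit 4) (nat_lit 228) (nat_lit 5) (nat_lit 228) (nat_lit 4) (nat_lit 590) (nat_lit 485) (nat_lit 485)) (XT.nd (nat_lit 78) (nat_lit 456) (nat_lit 0) (XT.lf (nat_lit 0) (nat_lit 3665597742) (nat_lit 532) (nat_lit 2519859856) (nat_lit 0) (nat_lit 2711738478) (nat_lit 214) (nat_lit 5) (nat_lit 221) (nat_lit 4) (nat_lit 214) (nat_lit 4) (nat_lit 591) (nat_lit 485) (nat_lit 484)) (XT.lf (nat_lit 0) (nat_lit 5213413558) (nat_lit 456) (nat_lit 2822498259) (nat_lit 456) (nat_lit 933482855) (nat_lit 208) (nat_lit 4) (nat_lit 214) (nat_lit 5) (nat_lit 214) (nat_lit 4) (nat_lit 592) (nat_lit 485) (nat_lit 483)))) (XT.nd (nat_lit 156) (nat_lit 912) (nat_lit 0) (XT.nd (nat_lit 78) (nat_lit 456) (nat_lit 0) (XT.lf (nat_lit 0) (nat_lit 3383751721) (nat_lit 532) (nat_lit 5026340660) (nat_lit 0) (nat_lit 632932947) (nat_lit 201) (nat_lit 5) (nat_lit 208)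 (nat_lit 4) (nat_lit 201) (nat_lit 4) (nat_lit 593) (nat_lit 485) (nat_lit 482)) (XT.lf (nat_lit 0) (nat_lit 2787024895) (nat_lit 456) (nat_lit 4981573284) (nat_lit 456) (nat_lit 1349535993) (nat_lit 195) (nat_lit 4) (nat_lit 201) (nat_lit 5) (nat_lit 201) (nat_lit 4) (nat_lit 594) (nat_lit 485) (nat_lit 481))) (XT.nd (nat_lit 78) (nat_lit 456) (nat_lit 0) (XT.lf (nat_lit 0) (nat_lit 1527942808) (nat_lit 380) (nat_lit 1454195717) (nat_lit 456) (nat_lit 6212701302) (nat_lit 189) (nat_lit 5) (nat_lit 194) (nat_lit 5) (nat_lit 195) (nat_lit 4) (nat_lit 595) (nat_lit 485) (nat_lit 480)) (XT.lf (nat_lit 0) (nat_lit 234436155) (nat_lit 456) (nat_lit 7138435835) (nat_lit 456) (nat_lit 1900223343) (nat_lit 183) (nat_lit 4) (nat_lit 189) (nat_lit 5) (nat_lit 189) (nat_lit 4) (nat_lit 596) (nat_lit 485) (nat_lit 479))))))) (XT.nd (nat_lit 1014) (nat_lit 3344) (nat_lit 0) (XT.nd (nat_lit 468) (nat_lit 2204) (nat_lit 0) (XT.nd (nat_lit 234) (nat_lit 1216) (nat_lit 0) (XT.nd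 (nat_lit 78) (nat_lit 836) (nat_lit 0) (XT.lf (nat_lit 0) (nat_lit 2459641562) (nat_lit 532) (nat_lit 1083846233) (nat_lit 76) (nat_lit 5809229507) (nat_lit 182) (nat_lit 5) (nat_lit 189) (nat_lit 5) (nat_lit 183) (nat_lit 4) (nat_lit 597) (nat_lit 485) (nat_lit 478)) (XT.nd (nat_lit 78) (nat_lit 456) (nat_lit 0) (XT.lf (nat_lit 0) (nat_lit 6861549746) (nat_lit 456) (nat_lit 2427125067) (nat_lit 0) (nat_lit 145403716) (nat_lit 177) (nat_lit 5) (nat_lit 183) (nat_lit 4) (nat_lit 177) (nat_lit 4) (nat_lit 598) (nat_lit 485) (nat_lit 477)) (XT.lf (nat_lit 0) (nat_lit 1812444712) (nat_lit 456) (nat_lit 3822161461) (nat_lit 76) (nat_lit 3882184790) (nat_lit 171) (nat_lit 5) (nat_lit 177) (nat_lit 5) (nat_lit 172) (nat_lit 4) (nat_lit 599) (nat_lit 485) (nat_lit 476)))) (XT.nd (nat_lit 78) (nat_lit 836) (nat_lit 0) (XT.lf (nat_lit 0) (nat_lit 4348694024) (nat_lit 380) (nat_lit 1881061086) (nat_lit 456) (nat_lit 3371484383) (nat_lit 166) (nat_lit 5) (nat_lit 171) (nat_lit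 5) (nat_lit 172) (nat_lit 4) (nat_lit 600) (nat_lit 485) (nat_lit 475)) (XT.nd (nat_lit 78) (nat_lit 380) (nat_lit 0) (XT.lf (nat_lit 0) (nat_lit 1026806144) (nat_lit 456) (nat_lit 6722690347) (nat_lit 76) (nat_lit 1937897548) (nat_lit 160) (nat_lit 5) (nat_lit 166) (nat_lit 5) (nat_lit 161) (nat_lit 4) (nat_lit 601) (nat_lit 485) (nat_lit 474)) (XT.lf (nat_lit 0) (nat_lit 1525245867) (nat_lit 380) (nat_lit 3935554186) (nat_lit 456) (nat_lit 4314171677) (nat_lit 155) (nat_lit 5) (nat_lit 160) (nat_lit 5) (nat_lit 161) (nat_lit 4) (nat_lit 602) (nat_lit 485) (nat_lit 473))))) (XT.nd (nat_lit 234) (nat_lit 1444) (nat_lit 0) (XT.nd (nat_lit 78) (nat_lit 304) (nat_lit 0) (XT.lf (nat_lit 0) (nat_lit 62761065) (nat_lit 380) (nat_lit 35848988) (nat_lit 456) (nat_lit 9766058710) (nat_lit 149) (nat_lit 5) (nat_lit 154) (nat_lit 5) (nat_lit 155) (nat_lit 5) (nat_lit 603) (nat_lit 485) (nat_lit 472)) (XT.nd (nat_lit 78) (nat_lit 304) (nat_lit 0) (XT.lf (nat_lit 0) (nat_lit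 4558796501) (nat_lit 456) (nat_lit 1459481661) (nat_lit 76) (nat_lit 3936976129) (nat_lit 149) (nat_lit 5) (nat_lit 155) (nat_lit 5) (nat_lit 150) (nat_lit 4) (nat_lit 604) (nat_lit 485) (nat_lit 471)) (XT.lf (nat_lit 0) (nat_lit 7040695813) (nat_lit 304) (nat_lit 2050247129) (nat_lit 380) (nat_lit 957056600) (nat_lit 145) (nat_lit 5) (nat_lit 149) (nat_lit 5) (nat_lit 150) (nat_lit 4) (nat_lit 605) (nat_lit 485) (nat_lit 470)))) (XT.nd (nat_lit 156) (nat_lit 684) (nat_lit 0) (XT.nd (nat_lit 78) (nat_lit 304) (nat_lit 0) (XT.lf (nat_lit 0) (nat_lit 3520249640) (nat_lit 456) (nat_lit 4619418149) (nat_lit 76) (nat_lit 2002552144) (nat_lit 139) (nat_lit 5) (nat_lit 145) (nat_lit 5) (nat_lit 140) (nat_lit 4) (nat_lit 606) (nat_lit 485) (nat_lit 469)) (XT.lf (nat_lit 0) (nat_lit 3956482576) (nat_lit 304) (nat_lit 4114704753) (nat_lit 380) (nat_lit 2167075833) (nat_lit 135) (nat_lit 5) (nat_lit 139) (nat_lit 5) (nat_lit 140) (nat_lit 4) (nat_lit 607) (nat_lit 485) (nat_lit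 468))) (XT.nd (nat_lit 78) (nat_lit 304) (nat_lit 0) (XT.lf (nat_lit 0) (nat_lit 2329727931) (nat_lit 380) (nat_lit 7992195976) (nat_lit 76) (nat_lit 14317840) (nat_lit 130) (nat_lit 5) (nat_lit 135) (nat_lit 5) (nat_lit 131) (nat_lit 4) (nat_lit 608) (nat_lit 485) (nat_lit 467)) (XT.lf (nat_lit 0) (nat_lit 656743275) (nat_lit 304) (nat_lit 6242462834) (nat_lit 380) (nat_lit 3536454987) (nat_lit 126) (nat_lit 5) (nat_lit 130) (nat_lit 5) (nat_lit 131) (nat_lit 4) (nat_lit 609) (nat_lit 485) (nat_lit 466)))))) (XT.nd (nat_lit 546) (nat_lit 1672) (nat_lit 0) (XT.nd (nat_lit 234) (nat_lit 988) (nat_lit 0) (XT.nd (nat_lit 78) (nat_lit 608) (nat_lit 0) (XT.lf (nat_lit 0) (nat_lit 1001506374) (nat_lit 380) (nat_lit 1058343681) (nat_lit 76) (nat_lit 8477250251) (nat_lit 125) (nat_lit 5) (nat_lit 130) (nat_lit 5) (nat_lit 126) (nat_lit 5) (nat_lit 610) (nat_lit 485) (nat_lit 465)) (XT.nd (nat_lit 78) (nat_lit 304) (nat_lit 0) (XT.lf (nat_lit 0) (nat_lit 5587369263) (nat_lit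 380) (nat_lit 2839484225) (nat_lit 76) (nat_lit 2213160012) (nat_lit 121) (nat_lit 5) (nat_lit 126) (nat_lit 5) (nat_lit 122) (nat_lit 4) (nat_lit 611) (nat_lit 485) (nat_lit 464)) (XT.lf (nat_lit 0) (nat_lit 6071387826) (nat_lit 304) (nat_lit 4193210120) (nat_lit 380) (nat_lit 480396617) (nat_lit 117) (nat_lit 5) (nat_lit 121) (nat_lit 5) (nat_lit 122) (nat_lit 4) (nat_lit 612) (nat_lit 485) (nat_lit 463)))) (XT.nd (nat_lit 156) (nat_lit 380) (nat_lit 0) (XT.nd (nat_lit 78) (nat_lit 228) (nat_lit 0) (XT.lf (nat_lit 0) (nat_lit 4115987832) (nat_lit 380) (nat_lit 6577565322) (nat_lit 76) (nat_lit 158230224) (nat_lit 112) (nat_lit 5) (nat_lit 117) (nat_lit 5) (nat_lit 113) (nat_lit 4) (nat_lit 613) (nat_lit 485) (nat_lit 462)) (XT.lf (nat_lit 0) (nat_lit 2403581863) (nat_lit 228) (nat_lit 6409087492) (nat_lit 304) (nat_lit 2147681495) (nat_lit 109) (nat_lit 5) (nat_lit 112) (nat_lit 5) (nat_lit 113) (nat_lit 4) (nat_lit 614) (nat_lit 485) (nat_lit 461))) (XT.nd (nat_lit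 78) (nat_lit 0) (nat_lit 0) (XT.lf (nat_lit 0) (nat_lit 471568908) (nat_lit 304) (nat_lit 2014889701) (nat_lit 380) (nat_lit 8584555103) (nat_lit 104) (nat_lit 5) (nat_lit 108) (nat_lit 5) (nat_lit 109) (nat_lit 5) (nat_lit 615) (nat_lit 485) (nat_lit 460)) (XT.lf (nat_lit 0) (nat_lit 7198609073) (nat_lit 380) (nat_lit 1518349198) (nat_lit 76) (nat_lit 2466368224) (nat_lit 104) (nat_lit 5) (nat_lit 109) (nat_lit 5) (nat_lit 105) (nat_lit 4) (nat_lit 616) (nat_lit 485) (nat_lit 459))))) (XT.nd (nat_lit 234) (nat_lit 836) (nat_lit 0) (XT.nd (nat_lit 78) (nat_lit 532) (nat_lit 0) (XT.lf (nat_lit 0) (nat_lit 702835577) (nat_lit 304) (nat_lit 3569427725) (nat_lit 76) (nat_lit 7025432758) (nat_lit 100) (nat_lit 5) (nat_lit 104) (nat_lit 5) (nat_lit 101) (nat_lit 5) (nat_lit 617) (nat_lit 485) (nat_lit 458)) (XT.nd (nat_lit 78) (nat_lit 228) (nat_lit 0) (XT.lf (nat_lit 0) (nat_lit 5421646427) (nat_lit 380) (nat_lit 5700802264) (nat_lit 76) (nat_lit 291562458) (nat_lit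 96) (nat_lit 5) (nat_lit 101) (nat_lit 5) (nat_lit 97) (nat_lit 4) (nat_lit 618) (nat_lit 485) (nat_lit 457)) (XT.lf (nat_lit 0) (nat_lit 3616868844) (nat_lit 228) (nat_lit 6635621494) (nat_lit 304) (nat_lit 1279811179) (nat_lit 93) (nat_lit 5) (nat_lit 96) (nat_lit 5) (nat_lit 97) (nat_lit 4) (nat_lit 619) (nat_lit 485) (nat_lit 456)))) (XT.nd (nat_lit 156) (nat_lit 532) (nat_lit 0) (XT.nd (nat_lit 78) (nat_lit 0) (nat_lit 0) (XT.lf (nat_lit 0) (nat_lit 1441790893) (nat_lit 228) (nat_lit 2028697950) (nat_lit 304) (nat_lit 8182217838) (nat_lit 89) (nat_lit 5) (nat_lit 92) (nat_lit 5) (nat_lit 93) (nat_lit 5) (nat_lit 620) (nat_lit 485) (nat_lit 455)) (XT.lf (nat_lit 0) (nat_lit 8311587673) (nat_lit 304) (nat_lit 807336635) (nat_lit 76) (nat_lit 2656169849) (nat_lit 89) (nat_lit 5) (nat_lit 93) (nat_lit 5) (nat_lit 90) (nat_lit 4) (nat_lit 621) (nat_lit 485) (nat_lit 454))) (XT.nd (nat_lit 78) (nat_lit 228) (nat_lit 0) (XT.lf (nat_lit 0) (nat_lit 1345702659) (nat_lit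 304) (nat_lit 3120580185) (nat_lit 76) (nat_lit 7433196737) (nat_lit 85) (nat_lit 5) (nat_lit 89) (nat_lit 5) (nat_lit 86) (nat_lit 5) (nat_lit 622) (nat_lit 485) (nat_lit 453)) (XT.lf (nat_lit 0) (nat_lit 6197813780) (nat_lit 304) (nat_lit 5522491149) (nat_lit 76) (nat_lit 305729902) (nat_lit 82) (nat_lit 5) (nat_lit 86) (nat_lit 5) (nat_lit 83) (nat_lit 4) (nat_lit 623) (nat_lit 485) (nat_lit 452))))))))
noncomputable def xc18 : XT := (XT.nd (nat_lit 2106) (nat_lit 76) (nat_lit 0) (XT.nd (nat_lit 1014) (nat_lit 1900) (nat_lit 0) (XT.nd (nat_lit 468) (nat_lit 1216) (nat_lit 0) (XT.nd (nat_lit 234) (nat_lit 684) (nat_lit 0) (XT.nd (nat_lit 78) (nat_lit 304) (nat_lit 0) (XT.lf (nat_lit 0) (nat_lit 4133723370) (nat_lit 228) (nat_lit 7034294656) (nat_lit 304) (nat_lit 986683981) (nat_lit 79) (nat_lit 5) (nat_lit 82) (nat_lit 5) (nat_lit 83) (nat_lit 4) (nat_lit 624) (nat_lit 485) (nat_lit 451)) (XT.nd (nat_lit 78) (nat_lit 0) (nat_lit 0) (XT.lf (nat_lit 0) (nat_lit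 1670096090) (nat_lit 228) (nat_lit 2221561732) (nat_lit 304) (nat_lit 8393937313) (nat_lit 75) (nat_lit 5) (nat_lit 78) (nat_lit 5) (nat_lit 79) (nat_lit 5) (nat_lit 625) (nat_lit 485) (nat_lit 450)) (XT.lf (nat_lit 0) (nat_lit 8869845914) (nat_lit 304) (nat_lit 877472086) (nat_lit 76) (nat_lit 2671349597) (nat_lit 75) (nat_lit 5) (nat_lit 79) (nat_lit 5) (nat_lit 76) (nat_lit 4) (nat_lit 626) (nat_lit 485) (nat_lit 449)))) (XT.nd (nat_lit 78) (nat_lit 380) (nat_lit 0) (XT.lf (nat_lit 0) (nat_lit 1393547483) (nat_lit 304) (nat_lit 3500625064) (nat_lit 76) (nat_lit 7659677252) (nat_lit 71) (nat_lit 5) (nat_lit 75) (nat_lit 5) (nat_lit 72) (nat_lit 5) (nat_lit 627) (nat_lit 485) (nat_lit 448)) (XT.nd (nat_lit 78) (nat_lit 152) (nat_lit 0) (XT.lf (nat_lit 0) (nat_lit 6380810875) (nat_lit 304) (nat_lit 6224862742) (nat_lit 76) (nat_lit 85723195) (nat_lit 68) (nat_lit 5) (nat_lit 72) (nat_lit 5) (nat_lit 69) (nat_lit 4) (nat_lit 628) (nat_lit 485) (nat_lit 447)) (XT.lf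 (nat_lit 0) (nat_lit 3768965750) (nat_lit 152) (nat_lit 7724604376) (nat_lit 228) (nat_lit 1337611231) (nat_lit 66) (nat_lit 5) (nat_lit 68) (nat_lit 5) (nat_lit 69) (nat_lit 4) (nat_lit 629) (nat_lit 485) (nat_lit 446))))) (XT.nd (nat_lit 234) (nat_lit 684) (nat_lit 0) (XT.nd (nat_lit 78) (nat_lit 228) (nat_lit 0) (XT.lf (nat_lit 0) (nat_lit 965004845) (nat_lit 228) (nat_lit 2714457108) (nat_lit 304) (nat_lit 9293943762) (nat_lit 62) (nat_lit 5) (nat_lit 65) (nat_lit 5) (nat_lit 66) (nat_lit 5) (nat_lit 630) (nat_lit 485) (nat_lit 445)) (XT.nd (nat_lit 78) (nat_lit 228) (nat_lit 0) (XT.lf (nat_lit 0) (nat_lit 8801231181) (nat_lit 304) (nat_lit 1923886397) (nat_lit 76) (nat_lit 2392736356) (nat_lit 62) (nat_lit 5) (nat_lit 66) (nat_lit 5) (nat_lit 63) (nat_lit 4) (nat_lit 631) (nat_lit 485) (nat_lit 444)) (XT.lf (nat_lit 0) (nat_lit 769188898) (nat_lit 228) (nat_lit 4911424236) (nat_lit 76) (nat_lit 7584102414) (nat_lit 59) (nat_lit 5) (nat_lit 62) (nat_lit 5)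 (nat_lit 60) (nat_lit 5) (nat_lit 632) (nat_lit 485) (nat_lit 443)))) (XT.nd (nat_lit 156) (nat_lit 304) (nat_lit 0) (XT.nd (nat_lit 78) (nat_lit 152) (nat_lit 0) (XT.lf (nat_lit 0) (nat_lit 5394316365) (nat_lit 228) (nat_lit 499300449) (nat_lit 304) (nat_lit 7520434351) (nat_lit 56) (nat_lit 5) (nat_lit 59) (nat_lit 5) (nat_lit 60) (nat_lit 5) (nat_lit 633) (nat_lit 485) (nat_lit 442)) (XT.lf (nat_lit 0) (nat_lit 2310290802) (nat_lit 152) (nat_lit 8836273927) (nat_lit 228) (nat_lit 2419289533) (nat_lit 54) (nat_lit 5) (nat_lit 56) (nat_lit 5) (nat_lit 57) (nat_lit 4) (nat_lit 634) (nat_lit 485) (nat_lit 441))) (XT.nd (nat_lit 78) (nat_lit 228) (nat_lit 0) (XT.lf (nat_lit 0) (nat_lit 2751705144) (nat_lit 228) (nat_lit 881558346) (nat_lit 76) (nat_lit 10086983015) (nat_lit 53) (nat_lit 5) (nat_lit 56) (nat_lit 5) (nat_lit 54) (nat_lit 5) (nat_lit 635) (nat_lit 485) (nat_lit 440)) (XT.lf (nat_lit 0) (nat_lit 8015867537) (nat_lit 304) (nat_lit 4170907731) (nat_lit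 76) (nat_lit 1690189966) (nat_lit 50) (nat_lit 5) (nat_lit 54) (nat_lit 5) (nat_lit 51) (nat_lit 4) (nat_lit 636) (nat_lit 485) (nat_lit 439)))))) (XT.nd (nat_lit 546) (nat_lit 912) (nat_lit 0) (XT.nd (nat_lit 234) (nat_lit 608) (nat_lit 0) (XT.nd (nat_lit 78) (nat_lit 228) (nat_lit 0) (XT.lf (nat_lit 0) (nat_lit 6447031433) (nat_lit 152) (nat_lit 6958201916) (nat_lit 228) (nat_lit 631187873) (nat_lit 48) (nat_lit 5) (nat_lit 50) (nat_lit 5) (nat_lit 51) (nat_lit 4) (nat_lit 637) (nat_lit 485) (nat_lit 438)) (XT.nd (nat_lit 78) (nat_lit 0) (nat_lit 0) (XT.lf (nat_lit 0) (nat_lit 3050476575) (nat_lit 152) (nat_lit 1587253470) (nat_lit 228) (nat_lit 9560804887) (nat_lit 45) (nat_lit 5) (nat_lit 47) (nat_lit 5) (nat_lit 48) (nat_lit 5) (nat_lit 638) (nat_lit 485) (nat_lit 437)) (XT.lf (nat_lit 0) (nat_lit 10028363911) (nat_lit 228) (nat_lit 480944054) (nat_lit 76) (nat_lit 3854004937) (nat_lit 45) (nat_lit 5) (nat_lit 48) (nat_lit 5) (nat_lit 46) (nat_lit 4) (nat_lit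 639) (nat_lit 485) (nat_lit 436)))) (XT.nd (nat_lit 156) (nat_lit 228) (nat_lit 0) (XT.nd (nat_lit 78) (nat_lit 152) (nat_lit 0) (XT.lf (nat_lit 0) (nat_lit 1010068149) (nat_lit 228) (nat_lit 4104103861) (nat_lit 76) (nat_lit 9416532343) (nat_lit 42) (nat_lit 5) (nat_lit 45) (nat_lit 5) (nat_lit 43) (nat_lit 5) (nat_lit 640) (nat_lit 485) (nat_lit 435)) (XT.lf (nat_lit 0) (nat_lit 6403648967) (nat_lit 228) (nat_lit 7877988234) (nat_lit 76) (nat_lit 419240329) (nat_lit 40) (nat_lit 5) (nat_lit 43) (nat_lit 5) (nat_lit 41) (nat_lit 4) (nat_lit 641) (nat_lit 485) (nat_lit 434))) (XT.nd (nat_lit 78) (nat_lit 76) (nat_lit 0) (XT.lf (nat_lit 0) (nat_lit 3063628404) (nat_lit 152) (nat_lit 8872412393) (nat_lit 228) (nat_lit 2937795708) (nat_lit 38) (nat_lit 5) (nat_lit 40) (nat_lit 5) (nat_lit 41) (nat_lit 4) (nat_lit 642) (nat_lit 485) (nat_lit 433)) (XT.lf (nat_lit 0) (nat_lit 2498392108) (nat_lit 228) (nat_lit 827814832) (nat_lit 76) (nat_lit 11723665774) (nat_lit 37)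 (nat_lit 5) (nat_lit 40) (nat_lit 5) (nat_lit 38) (nat_lit 5) (nat_lit 643) (nat_lit 485) (nat_lit 432))))) (XT.nd (nat_lit 234) (nat_lit 380) (nat_lit 0) (XT.nd (nat_lit 78) (nat_lit 380) (nat_lit 0) (XT.lf (nat_lit 0) (nat_lit 8037476599) (nat_lit 228) (nat_lit 4843846096) (nat_lit 76) (nat_lit 2347049433) (nat_lit 35) (nat_lit 5) (nat_lit 38) (nat_lit 5) (nat_lit 36) (nat_lit 4) (nat_lit 644) (nat_lit 485) (nat_lit 431)) (XT.nd (nat_lit 78) (nat_lit 228) (nat_lit 0) (XT.lf (nat_lit 0) (nat_lit 6392768176) (nat_lit 152) (nat_lit 7314323799) (nat_lit 228) (nat_lit 1702955608) (nat_lit 33) (nat_lit 5) (nat_lit 35) (nat_lit 5) (nat_lit 36) (nat_lit 4) (nat_lit 645) (nat_lit 485) (nat_lit 430)) (XT.lf (nat_lit 0) (nat_lit 2237843409) (nat_lit 152) (nat_lit 1603748070) (nat_lit 228) (nat_lit 11753301746) (nat_lit 30) (nat_lit 5) (nat_lit 32) (nat_lit 5) (nat_lit 33) (nat_lit 5) (nat_lit 646) (nat_lit 485) (nat_lit 429)))) (XT.nd (nat_lit 156) (nat_lit 304) (nat_lit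 0) (XT.nd (nat_lit 78) (nat_lit 76) (nat_lit 0) (XT.lf (nat_lit 0) (nat_lit 9513354520) (nat_lit 228) (nat_lit 2072192338) (nat_lit 76) (nat_lit 4196882215) (nat_lit 30) (nat_lit 5) (nat_lit 33) (nat_lit 5) (nat_lit 31) (nat_lit 4) (nat_lit 647) (nat_lit 485) (nat_lit 428)) (XT.lf (nat_lit 0) (nat_lit 9462448370) (nat_lit 76) (nat_lit 5859915774) (nat_lit 152) (nat_lit 650876226) (nat_lit 29) (nat_lit 5) (nat_lit 30) (nat_lit 5) (nat_lit 31) (nat_lit 4) (nat_lit 648) (nat_lit 485) (nat_lit 427))) (XT.nd (nat_lit 78) (nat_lit 76) (nat_lit 0) (XT.lf (nat_lit 0) (nat_lit 5011668789) (nat_lit 228) (nat_lit 11135618275) (nat_lit 76) (nat_lit 19950058) (nat_lit 26) (nat_lit 5) (nat_lit 29) (nat_lit 5) (nat_lit 27) (nat_lit 4) (nat_lit 649) (nat_lit 485) (nat_lit 426)) (XT.lf (nat_lit 0) (nat_lit 401197416) (nat_lit 76) (nat_lit 10414859660) (nat_lit 152) (nat_lit 5548225439) (nat_lit 25) (nat_lit 5) (nat_lit 26) (nat_lit 5) (nat_lit 27) (nat_lit 4) (nat_lit 650) (nat_lit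 485) (nat_lit 425))))))) (XT.nd (nat_lit 77220) (nat_lit 0) (nat_lit 6688) (XT.nd (nat_lit 76674) (nat_lit 0) (nat_lit 11172) (XT.nd (nat_lit 76440) (nat_lit 0) (nat_lit 13984) (XT.nd (nat_lit 76284) (nat_lit 0) (nat_lit 15504) (XT.lf (nat_lit 0) (nat_lit 196194381) (nat_lit 152) (nat_lit 4335286285) (nat_lit 76) (nat_lit 12033223252) (nat_lit 24) (nat_lit 5) (nat_lit 26) (nat_lit 5) (nat_lit 25) (nat_lit 5) (nat_lit 651) (nat_lit 485) (nat_lit 424)) (XT.nd (nat_lit 78) (nat_lit 0) (nat_lit 0) (XT.lf (nat_lit 0) (nat_lit 277893261) (nat_lit 532) (nat_lit 3788807448) (nat_lit 0) (nat_lit 277893261) (nat_lit 228) (nat_lit 5) (nat_lit 235) (nat_lit 4) (nat_lit 228) (nat_lit 4) (nat_lit 588) (nat_lit 486) (nat_lit 486)) (XT.lf (nat_lit 0) (nat_lit 4813108380) (nat_lit 532) (nat_lit 123615822) (nat_lit 0) (nat_lit 3820713202) (nat_lit 228) (nat_lit 5) (nat_lit 235) (nat_lit 4) (nat_lit 228) (nat_lit 4) (nat_lit 589) (nat_lit 486) (nat_lit 485)))) (XT.nd (nat_lit 78)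 (nat_lit 912) (nat_lit 0) (XT.lf (nat_lit 0) (nat_lit 304122583) (nat_lit 608) (nat_lit 1351004007) (nat_lit 76) (nat_lit 7172289142) (nat_lit 220) (nat_lit 5) (nat_lit 228) (nat_lit 5) (nat_lit 221) (nat_lit 4) (nat_lit 590) (nat_lit 486) (nat_lit 484)) (XT.nd (nat_lit 78) (nat_lit 456) (nat_lit 0) (XT.lf (nat_lit 0) (nat_lit 4569413153) (nat_lit 532) (nat_lit 2621708617) (nat_lit 0) (nat_lit 1707461301) (nat_lit 214) (nat_lit 5) (nat_lit 221) (nat_lit 4) (nat_lit 214) (nat_lit 4) (nat_lit 591) (nat_lit 486) (nat_lit 483)) (XT.lf (nat_lit 0) (nat_lit 5060122813) (nat_lit 456) (nat_lit 3845061763) (nat_lit 456) (nat_lit 66290165) (nat_lit 208) (nat_lit 4) (nat_lit 214) (nat_lit 5) (nat_lit 214) (nat_lit 4) (nat_lit 592) (nat_lit 486) (nat_lit 482))))) (XT.nd (nat_lit 234) (nat_lit 1368) (nat_lit 0) (XT.nd (nat_lit 78) (nat_lit 912) (nat_lit 0) (XT.lf (nat_lit 0) (nat_lit 3807579879) (nat_lit 456) (nat_lit 393011390) (nat_lit 532) (nat_lit 4845183250) (nat_lit 201)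 (nat_lit 5) (nat_lit 207) (nat_lit 5) (nat_lit 208) (nat_lit 4) (nat_lit 593) (nat_lit 486) (nat_lit 481)) (XT.nd (nat_lit 78) (nat_lit 456) (nat_lit 0) (XT.lf (nat_lit 0) (nat_lit 2524493472) (nat_lit 456) (nat_lit 6023488686) (nat_lit 456) (nat_lit 573652408) (nat_lit 195) (nat_lit 4) (nat_lit 201) (nat_lit 5) (nat_lit 201) (nat_lit 4) (nat_lit 594) (nat_lit 486) (nat_lit 480)) (XT.lf (nat_lit 0) (nat_lit 1202707726) (nat_lit 380) (nat_lit 2509937685) (nat_lit 456) (nat_lit 5486300087) (nat_lit 189) (nat_lit 5) (nat_lit 194) (nat_lit 5) (nat_lit 195) (nat_lit 4) (nat_lit 595) (nat_lit 486) (nat_lit 479)))) (XT.nd (nat_lit 156) (nat_lit 836) (nat_lit 0) (XT.nd (nat_lit 78) (nat_lit 532) (nat_lit 0) (XT.lf (nat_lit 0) (nat_lit 8062130796) (nat_lit 456) (nat_lit 141244675) (nat_lit 0) (nat_lit 1074652466) (nat_lit 189) (nat_lit 5) (nat_lit 195) (nat_lit 4) (nat_lit 189) (nat_lit 4) (nat_lit 596) (nat_lit 486) (nat_lit 478)) (XT.lf (nat_lit 0) (nat_lit 3101289711)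 (nat_lit 532) (nat_lit 1521019873) (nat_lit 76) (nat_lit 4735927415) (nat_lit 182) (nat_lit 5) (nat_lit 189) (nat_lit 5) (nat_lit 183) (nat_lit 4) (nat_lit 597) (nat_lit 486) (nat_lit 477))) (XT.nd (nat_lit 78) (nat_lit 456) (nat_lit 0) (XT.lf (nat_lit 0) (nat_lit 6515048590) (nat_lit 380) (nat_lit 951867502) (nat_lit 456) (nat_lit 1973409628) (nat_lit 177) (nat_lit 5) (nat_lit 182) (nat_lit 5) (nat_lit 183) (nat_lit 4) (nat_lit 598) (nat_lit 486) (nat_lit 476)) (XT.lf (nat_lit 0) (nat_lit 2361762600) (nat_lit 456) (nat_lit 4381470591) (nat_lit 76) (nat_lit 2780567825) (nat_lit 171) (nat_lit 5) (nat_lit 177) (nat_lit 5) (nat_lit 172) (nat_lit 4) (nat_lit 599) (nat_lit 486) (nat_lit 475)))))) (XT.nd (nat_lit 546) (nat_lit 2052) (nat_lit 0) (XT.nd (nat_lit 234) (nat_lit 1216) (nat_lit 0) (XT.nd (nat_lit 78) (nat_lit 836) (nat_lit 0) (XT.lf (nat_lit 0) (nat_lit 3731748315) (nat_lit 380) (nat_lit 3011491088) (nat_lit 456) (nat_lit 2865728567) (nat_lit 166) (nat_lit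 5) (nat_lit 171) (nat_lit 5) (nat_lit 172) (nat_lit 4) (nat_lit 600) (nat_lit 486) (nat_lit 474)) (XT.nd (nat_lit 78) (nat_lit 380) (nat_lit 0) (XT.lf (nat_lit 0) (nat_lit 1482273510) (nat_lit 456) (nat_lit 7410220638) (nat_lit 76) (nat_lit 803437483) (nat_lit 160) (nat_lit 5) (nat_lit 166) (nat_lit 5) (nat_lit 161) (nat_lit 4) (nat_lit 601) (nat_lit 486) (nat_lit 473)) (XT.lf (nat_lit 0) (nat_lit 778086188) (nat_lit 380) (nat_lit 5101782180) (nat_lit 456) (nat_lit 3904370585) (nat_lit 155) (nat_lit 5) (nat_lit 160) (nat_lit 5) (nat_lit 161) (nat_lit 4) (nat_lit 602) (nat_lit 486) (nat_lit 472)))) (XT.nd (nat_lit 156) (nat_lit 760) (nat_lit 0) (XT.nd (nat_lit 78) (nat_lit 380) (nat_lit 0) (XT.lf (nat_lit 0) (nat_lit 471169679) (nat_lit 456) (nat_lit 747071748) (nat_lit 76) (nat_lit 8656280268) (nat_lit 154) (nat_lit 5) (nat_lit 160) (nat_lit 5) (nat_lit 155) (nat_lit 5) (nat_lit 603) (nat_lit 486) (nat_lit 471)) (XT.lf (nat_lit 0) (nat_lit 4887447591) (nat_lit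 456) (nat_lit 2331583314) (nat_lit 76) (nat_lit 2746956042) (nat_lit 149) (nat_lit 5) (nat_lit 155) (nat_lit 5) (nat_lit 150) (nat_lit 4) (nat_lit 604) (nat_lit 486) (nat_lit 470))) (XT.nd (nat_lit 78) (nat_lit 456) (nat_lit 0) (XT.lf (nat_lit 0) (nat_lit 6107235141) (nat_lit 304) (nat_lit 3275627497) (nat_lit 380) (nat_lit 676605713) (nat_lit 145) (nat_lit 5) (nat_lit 149) (nat_lit 5) (nat_lit 150) (nat_lit 4) (nat_lit 605) (nat_lit 486) (nat_lit 469)) (XT.lf (nat_lit 0) (nat_lit 3751773021) (nat_lit 456) (nat_lit 5632674050) (nat_lit 76) (nat_lit 770111706) (nat_lit 139) (nat_lit 5) (nat_lit 145) (nat_lit 5) (nat_lit 140) (nat_lit 4) (nat_lit 606) (nat_lit 486) (nat_lit 468))))) (XT.nd (nat_lit 234) (nat_lit 1368) (nat_lit 0) (XT.nd (nat_lit 78) (nat_lit 380) (nat_lit 0) (XT.lf (nat_lit 0) (nat_lit 2879740358) (nat_lit 304) (nat_lit 5385552417) (nat_lit 380) (nat_lit 1986059025) (nat_lit 135) (nat_lit 5) (nat_lit 139) (nat_lit 5) (nat_lit 140) (nat_lit 4) (nat_lit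 607) (nat_lit 486) (nat_lit 467)) (XT.nd (nat_lit 78) (nat_lit 0) (nat_lit 0) (XT.lf (nat_lit 0) (nat_lit 1188535129) (nat_lit 304) (nat_lit 1281888529) (nat_lit 380) (nat_lit 7879643543) (nat_lit 130) (nat_lit 5) (nat_lit 134) (nat_lit 5) (nat_lit 135) (nat_lit 5) (nat_lit 608) (nat_lit 486) (nat_lit 466)) (XT.lf (nat_lit 0) (nat_lit 6997117624) (nat_lit 380) (nat_lit 562481727) (nat_lit 76) (nat_lit 2890744235) (nat_lit 130) (nat_lit 5) (nat_lit 135) (nat_lit 5) (nat_lit 131) (nat_lit 4) (nat_lit 609) (nat_lit 486) (nat_lit 465)))) (XT.nd (nat_lit 156) (nat_lit 684) (nat_lit 0) (XT.nd (nat_lit 78) (nat_lit 304) (nat_lit 0) (XT.lf (nat_lit 0) (nat_lit 1049794171) (nat_lit 380) (nat_lit 2349989950) (nat_lit 76) (nat_lit 7152666163) (nat_lit 125) (nat_lit 5) (nat_lit 130) (nat_lit 5) (nat_lit 126) (nat_lit 5) (nat_lit 610) (nat_lit 486) (nat_lit 464)) (XT.lf (nat_lit 0) (nat_lit 5588422475) (nat_lit 380) (nat_lit 4204878516) (nat_lit 76) (nat_lit 863008453) (nat_lit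 121) (nat_lit 5) (nat_lit 126) (nat_lit 5) (nat_lit 122) (nat_lit 4) (nat_lit 611) (nat_lit 486) (nat_lit 463))) (XT.nd (nat_lit 78) (nat_lit 380) (nat_lit 0) (XT.lf (nat_lit 0) (nat_lit 4638357109) (nat_lit 304) (nat_lit 5588596830) (nat_lit 380) (nat_lit 535111763) (nat_lit 117) (nat_lit 5) (nat_lit 121) (nat_lit 5) (nat_lit 122) (nat_lit 4) (nat_lit 612) (nat_lit 486) (nat_lit 462)) (XT.lf (nat_lit 0) (nat_lit 2756705310) (nat_lit 304) (nat_lit 1265058530) (nat_lit 380) (nat_lit 6847903513) (nat_lit 112) (nat_lit 5) (nat_lit 116) (nat_lit 5) (nat_lit 117) (nat_lit 5) (nat_lit 613) (nat_lit 486) (nat_lit 461))))))))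
noncomputable def xc19 : XT := (XT.nd (nat_lit 2106) (nat_lit 1368) (nat_lit 0) (XT.nd (nat_lit 1014) (nat_lit 2432) (nat_lit 0) (XT.nd (nat_lit 468) (nat_lit 1368) (nat_lit 0) (XT.nd (nat_lit 234) (nat_lit 836) (nat_lit 0) (XT.nd (nat_lit 78) (nat_lit 380) (nat_lit 0) (XT.lf (nat_lit 0) (nat_lit 806405966) (nat_lit 228) (nat_lit 7864262791) (nat_lit 304) (nat_lit 2308522778) (nat_lit 109) (nat_lit 5) (nat_lit 112) (nat_lit 5) (nat_lit 113) (nat_lit 4) (nat_lit 614) (nat_lit 486) (nat_lit 460)) (XT.nd (nat_lit 78) (nat_lit 304) (nat_lit 0) (XT.lf (nat_lit 0) (nat_lit 2295535265) (nat_lit 304) (nat_lit 1198699206) (nat_lit 76) (nat_lit 7596285774) (nat_lit 108) (nat_lit 5) (nat_lit 112) (nat_lit 5) (nat_lit 109) (nat_lit 5) (nat_lit 615) (nat_lit 486) (nat_lit 459)) (XT.lf (nat_lit 0) (nat_lit 6961137772) (nat_lit 380) (nat_lit 3263791881) (nat_lit 76) (nat_lit 978835445) (nat_lit 104) (nat_lit 5) (nat_lit 109) (nat_lit 5) (nat_lit 105) (nat_lit 4) (nat_lit 616)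 (nat_lit 486) (nat_lit 458)))) (XT.nd (nat_lit 78) (nat_lit 532) (nat_lit 0) (XT.lf (nat_lit 0) (nat_lit 407803967) (nat_lit 304) (nat_lit 5406283263) (nat_lit 76) (nat_lit 5504892076) (nat_lit 100) (nat_lit 5) (nat_lit 104) (nat_lit 5) (nat_lit 101) (nat_lit 5) (nat_lit 617) (nat_lit 486) (nat_lit 457)) (XT.nd (nat_lit 78) (nat_lit 228) (nat_lit 0) (XT.lf (nat_lit 0) (nat_lit 3804924234) (nat_lit 304) (nat_lit 1278992387) (nat_lit 380) (nat_lit 6352232784) (nat_lit 96) (nat_lit 5) (nat_lit 100) (nat_lit 5) (nat_lit 101) (nat_lit 5) (nat_lit 618) (nat_lit 486) (nat_lit 456)) (XT.lf (nat_lit 0) (nat_lit 1620113079) (nat_lit 228) (nat_lit 8245117248) (nat_lit 304) (nat_lit 1690201075) (nat_lit 93) (nat_lit 5) (nat_lit 96) (nat_lit 5) (nat_lit 97) (nat_lit 4) (nat_lit 619) (nat_lit 486) (nat_lit 455))))) (XT.nd (nat_lit 234) (nat_lit 760) (nat_lit 0) (XT.nd (nat_lit 78) (nat_lit 532) (nat_lit 0) (XT.lf (nat_lit 0) (nat_lit 3027913450) (nat_lit 304) (nat_lit 642845788)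 (nat_lit 76) (nat_lit 8005882961) (nat_lit 92) (nat_lit 5) (nat_lit 96) (nat_lit 5) (nat_lit 93) (nat_lit 5) (nat_lit 620) (nat_lit 486) (nat_lit 454)) (XT.nd (nat_lit 78) (nat_lit 304) (nat_lit 0) (XT.lf (nat_lit 0) (nat_lit 7825995826) (nat_lit 304) (nat_lit 2962463244) (nat_lit 76) (nat_lit 1011431901) (nat_lit 89) (nat_lit 5) (nat_lit 93) (nat_lit 5) (nat_lit 90) (nat_lit 4) (nat_lit 621) (nat_lit 486) (nat_lit 453)) (XT.lf (nat_lit 0) (nat_lit 799689555) (nat_lit 304) (nat_lit 5374689899) (nat_lit 76) (nat_lit 5750810510) (nat_lit 85) (nat_lit 5) (nat_lit 89) (nat_lit 5) (nat_lit 86) (nat_lit 5) (nat_lit 622) (nat_lit 486) (nat_lit 452)))) (XT.nd (nat_lit 156) (nat_lit 304) (nat_lit 0) (XT.nd (nat_lit 78) (nat_lit 228) (nat_lit 0) (XT.lf (nat_lit 0) (nat_lit 4173179938) (nat_lit 228) (nat_lit 1433969769) (nat_lit 304) (nat_lit 6445489438) (nat_lit 82) (nat_lit 5) (nat_lit 85) (nat_lit 5) (nat_lit 86) (nat_lit 5) (nat_lit 623) (nat_lit 486) (nat_lit 451)) (XT.lf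 (nat_lit 0) (nat_lit 1706413879) (nat_lit 228) (nat_lit 8818474719) (nat_lit 304) (nat_lit 1657467922) (nat_lit 79) (nat_lit 5) (nat_lit 82) (nat_lit 5) (nat_lit 83) (nat_lit 4) (nat_lit 624) (nat_lit 486) (nat_lit 450))) (XT.nd (nat_lit 78) (nat_lit 228) (nat_lit 0) (XT.lf (nat_lit 0) (nat_lit 3191480564) (nat_lit 304) (nat_lit 850283169) (nat_lit 76) (nat_lit 8272337694) (nat_lit 78) (nat_lit 5) (nat_lit 82) (nat_lit 5) (nat_lit 79) (nat_lit 5) (nat_lit 625) (nat_lit 486) (nat_lit 449)) (XT.lf (nat_lit 0) (nat_lit 8124967110) (nat_lit 304) (nat_lit 3473876817) (nat_lit 76) (nat_lit 849224834) (nat_lit 75) (nat_lit 5) (nat_lit 79) (nat_lit 5) (nat_lit 76) (nat_lit 4) (nat_lit 626) (nat_lit 486) (nat_lit 448)))))) (XT.nd (nat_lit 546) (nat_lit 988) (nat_lit 0) (XT.nd (nat_lit 234) (nat_lit 760) (nat_lit 0) (XT.nd (nat_lit 78) (nat_lit 380) (nat_lit 0) (XT.lf (nat_lit 0) (nat_lit 585020236) (nat_lit 304) (nat_lit 6204146506) (nat_lit 76) (nat_lit 5795073615) (nat_lit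 71) (nat_lit 5) (nat_lit 75) (nat_lit 5) (nat_lit 72) (nat_lit 5) (nat_lit 627) (nat_lit 486) (nat_lit 447)) (XT.nd (nat_lit 78) (nat_lit 152) (nat_lit 0) (XT.lf (nat_lit 0) (nat_lit 3679966025) (nat_lit 228) (nat_lit 1846983761) (nat_lit 304) (nat_lit 7195745053) (nat_lit 68) (nat_lit 5) (nat_lit 71) (nat_lit 5) (nat_lit 72) (nat_lit 5) (nat_lit 628) (nat_lit 486) (nat_lit 446)) (XT.lf (nat_lit 0) (nat_lit 878019897) (nat_lit 152) (nat_lit 9704341075) (nat_lit 228) (nat_lit 2281266150) (nat_lit 66) (nat_lit 5) (nat_lit 68) (nat_lit 5) (nat_lit 69) (nat_lit 4) (nat_lit 629) (nat_lit 486) (nat_lit 445)))) (XT.nd (nat_lit 156) (nat_lit 456) (nat_lit 0) (XT.nd (nat_lit 78) (nat_lit 228) (nat_lit 0) (XT.lf (nat_lit 0) (nat_lit 2715373264) (nat_lit 228) (nat_lit 2012115770) (nat_lit 76) (nat_lit 8279141930) (nat_lit 65) (nat_lit 5) (nat_lit 68) (nat_lit 5) (nat_lit 66) (nat_lit 5) (nat_lit 630) (nat_lit 486) (nat_lit 444)) (XT.lf (nat_lit 0) (nat_lit 7784285313) (nat_lit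 304) (nat_lit 4995362274) (nat_lit 76) (nat_lit 372489472) (nat_lit 62) (nat_lit 5) (nat_lit 66) (nat_lit 5) (nat_lit 63) (nat_lit 4) (nat_lit 631) (nat_lit 486) (nat_lit 443))) (XT.nd (nat_lit 78) (nat_lit 304) (nat_lit 0) (XT.lf (nat_lit 0) (nat_lit 5199186966) (nat_lit 152) (nat_lit 7781639778) (nat_lit 228) (nat_lit 319202959) (nat_lit 60) (nat_lit 5) (nat_lit 62) (nat_lit 5) (nat_lit 63) (nat_lit 4) (nat_lit 632) (nat_lit 486) (nat_lit 442)) (XT.lf (nat_lit 0) (nat_lit 2117599850) (nat_lit 228) (nat_lit 2644632367) (nat_lit 304) (nat_lit 8688118827) (nat_lit 56) (nat_lit 5) (nat_lit 59) (nat_lit 5) (nat_lit 60) (nat_lit 5) (nat_lit 633) (nat_lit 486) (nat_lit 441))))) (XT.nd (nat_lit 234) (nat_lit 532) (nat_lit 0) (XT.nd (nat_lit 78) (nat_lit 456) (nat_lit 0) (XT.lf (nat_lit 0) (nat_lit 9960423014) (nat_lit 304) (nat_lit 1065569259) (nat_lit 76) (nat_lit 2577257688) (nat_lit 56) (nat_lit 5) (nat_lit 60) (nat_lit 5) (nat_lit 57) (nat_lit 4) (nat_lit 634) (nat_lit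 486) (nat_lit 440)) (XT.nd (nat_lit 78) (nat_lit 228) (nat_lit 0) (XT.lf (nat_lit 0) (nat_lit 1511365989) (nat_lit 228) (nat_lit 4347635100) (nat_lit 76) (nat_lit 7899457617) (nat_lit 53) (nat_lit 5) (nat_lit 56) (nat_lit 5) (nat_lit 54) (nat_lit 5) (nat_lit 635) (nat_lit 486) (nat_lit 439)) (XT.lf (nat_lit 0) (nat_lit 6159056090) (nat_lit 228) (nat_lit 556963313) (nat_lit 304) (nat_lit 7200348850) (nat_lit 50) (nat_lit 5) (nat_lit 53) (nat_lit 5) (nat_lit 54) (nat_lit 5) (nat_lit 636) (nat_lit 486) (nat_lit 438)))) (XT.nd (nat_lit 156) (nat_lit 304) (nat_lit 0) (XT.nd (nat_lit 78) (nat_lit 76) (nat_lit 0) (XT.lf (nat_lit 0) (nat_lit 2770353391) (nat_lit 152) (nat_lit 9282328493) (nat_lit 228) (nat_lit 2024197048) (nat_lit 48) (nat_lit 5) (nat_lit 50) (nat_lit 5) (nat_lit 51) (nat_lit 4) (nat_lit 637) (nat_lit 486) (nat_lit 437)) (XT.lf (nat_lit 0) (nat_lit 3218002582) (nat_lit 228) (nat_lit 743326678) (nat_lit 76) (nat_lit 10278744626) (nat_lit 47) (nat_lit 5)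 (nat_lit 50) (nat_lit 5) (nat_lit 48) (nat_lit 5) (nat_lit 638) (nat_lit 486) (nat_lit 436))) (XT.nd (nat_lit 78) (nat_lit 152) (nat_lit 0) (XT.lf (nat_lit 0) (nat_lit 8563183937) (nat_lit 228) (nat_lit 4356587304) (nat_lit 76) (nat_lit 1485990254) (nat_lit 45) (nat_lit 5) (nat_lit 48) (nat_lit 5) (nat_lit 46) (nat_lit 4) (nat_lit 639) (nat_lit 486) (nat_lit 435)) (XT.lf (nat_lit 0) (nat_lit 6460759923) (nat_lit 152) (nat_lit 7577972631) (nat_lit 228) (nat_lit 535562197) (nat_lit 43) (nat_lit 5) (nat_lit 45) (nat_lit 5) (nat_lit 46) (nat_lit 4) (nat_lit 640) (nat_lit 486) (nat_lit 434))))))) (XT.nd (nat_lit 77142) (nat_lit 0) (nat_lit 10260) (XT.nd (nat_lit 546) (nat_lit 380) (nat_lit 0) (XT.nd (nat_lit 234) (nat_lit 532) (nat_lit 0) (XT.nd (nat_lit 78) (nat_lit 228) (nat_lit 0) (XT.lf (nat_lit 0) (nat_lit 2721009133) (nat_lit 152) (nat_lit 2090032682) (nat_lit 228) (nat_lit 9934576230) (nat_lit 40) (nat_lit 5) (nat_lit 42) (nat_lit 5) (nat_lit 43) (nat_lit 5)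 (nat_lit 641) (nat_lit 486) (nat_lit 433)) (XT.nd (nat_lit 78) (nat_lit 228) (nat_lit 0) (XT.lf (nat_lit 0) (nat_lit 10285441750) (nat_lit 228) (nat_lit 1154570264) (nat_lit 76) (nat_lit 3479725387) (nat_lit 40) (nat_lit 5) (nat_lit 43) (nat_lit 5) (nat_lit 41) (nat_lit 4) (nat_lit 642) (nat_lit 486) (nat_lit 432)) (XT.lf (nat_lit 0) (nat_lit 791994235) (nat_lit 228) (nat_lit 5141342969) (nat_lit 76) (nat_lit 9163300183) (nat_lit 37) (nat_lit 5) (nat_lit 40) (nat_lit 5) (nat_lit 38) (nat_lit 5) (nat_lit 643) (nat_lit 486) (nat_lit 431)))) (XT.nd (nat_lit 156) (nat_lit 228) (nat_lit 0) (XT.nd (nat_lit 78) (nat_lit 152) (nat_lit 0) (XT.lf (nat_lit 0) (nat_lit 5984721226) (nat_lit 152) (nat_lit 278226429) (nat_lit 228) (nat_lit 9013552280) (nat_lit 35) (nat_lit 5) (nat_lit 37) (nat_lit 5) (nat_lit 38) (nat_lit 5) (nat_lit 644) (nat_lit 486) (nat_lit 430)) (XT.lf (nat_lit 0) (nat_lit 1842795298) (nat_lit 152) (nat_lit 10034455283) (nat_lit 228) (nat_lit 3582031561)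 (nat_lit 33) (nat_lit 5) (nat_lit 35) (nat_lit 5) (nat_lit 36) (nat_lit 4) (nat_lit 645) (nat_lit 486) (nat_lit 429))) (XT.nd (nat_lit 78) (nat_lit 152) (nat_lit 0) (XT.lf (nat_lit 0) (nat_lit 1948692816) (nat_lit 228) (nat_lit 2422714509) (nat_lit 76) (nat_lit 11273734288) (nat_lit 32) (nat_lit 5) (nat_lit 35) (nat_lit 5) (nat_lit 33) (nat_lit 5) (nat_lit 646) (nat_lit 486) (nat_lit 428)) (XT.lf (nat_lit 0) (nat_lit 7562557743) (nat_lit 228) (nat_lit 6841693832) (nat_lit 76) (nat_lit 1429584322) (nat_lit 30) (nat_lit 5) (nat_lit 33) (nat_lit 5) (nat_lit 31) (nat_lit 4) (nat_lit 647) (nat_lit 486) (nat_lit 427))))) (XT.nd (nat_lit 234) (nat_lit 76) (nat_lit 0) (XT.nd (nat_lit 78) (nat_lit 228) (nat_lit 0) (XT.lf (nat_lit 0) (nat_lit 4585599017) (nat_lit 76) (nat_lit 8730888758) (nat_lit 152) (nat_lit 2709261474) (nat_lit 29) (nat_lit 5) (nat_lit 30) (nat_lit 5) (nat_lit 31) (nat_lit 4) (nat_lit 648) (nat_lit 486) (nat_lit 426)) (XT.nd (nat_lit 78) (nat_lit 0) (nat_lit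 0) (XT.lf (nat_lit 0) (nat_lit 6438027) (nat_lit 152) (nat_lit 2917691784) (nat_lit 228) (nat_lit 13297006923) (nat_lit 26) (nat_lit 5) (nat_lit 28) (nat_lit 5) (nat_lit 29) (nat_lit 5) (nat_lit 649) (nat_lit 486) (nat_lit 425)) (XT.lf (nat_lit 0) (nat_lit 8683628106) (nat_lit 228) (nat_lit 4707663930) (nat_lit 76) (nat_lit 3027788328) (nat_lit 26) (nat_lit 5) (nat_lit 29) (nat_lit 5) (nat_lit 27) (nat_lit 4) (nat_lit 650) (nat_lit 486) (nat_lit 424)))) (XT.nd (nat_lit 76206) (nat_lit 0) (nat_lit 15428) (XT.nd (nat_lit 76128) (nat_lit 0) (nat_lit 16492) (XT.lf (nat_lit 0) (nat_lit 7016133689) (nat_lit 76) (nat_lit 7560833085) (nat_lit 152) (nat_lit 2043643951) (nat_lit 25) (nat_lit 5) (nat_lit 26) (nat_lit 5) (nat_lit 27) (nat_lit 4) (nat_lit 651) (nat_lit 486) (nat_lit 423)) (XT.lf (nat_lit 0) (nat_lit 883323975) (nat_lit 608) (nat_lit 2511279338) (nat_lit 0) (nat_lit 883323975) (nat_lit 242) (nat_lit 5) (nat_lit 250) (nat_lit 4) (nat_lit 242) (nat_lit 4) (nat_lit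 586) (nat_lit 487) (nat_lit 487))) (XT.nd (nat_lit 78) (nat_lit 532) (nat_lit 0) (XT.lf (nat_lit 0) (nat_lit 2302944841) (nat_lit 532) (nat_lit 3675768647) (nat_lit 532) (nat_lit 2643280704) (nat_lit 235) (nat_lit 4) (nat_lit 242) (nat_lit 5) (nat_lit 242) (nat_lit 4) (nat_lit 587) (nat_lit 487) (nat_lit 486)) (XT.lf (nat_lit 0) (nat_lit 1059068804) (nat_lit 456) (nat_lit 477465764) (nat_lit 532) (nat_lit 7153285680) (nat_lit 228) (nat_lit 5) (nat_lit 234) (nat_lit 5) (nat_lit 235) (nat_lit 4) (nat_lit 588) (nat_lit 487) (nat_lit 485)))))) (XT.nd (nat_lit 546) (nat_lit 2204) (nat_lit 0) (XT.nd (nat_lit 234) (nat_lit 1900) (nat_lit 0) (XT.nd (nat_lit 78) (nat_lit 1064) (nat_lit 0) (XT.lf (nat_lit 0) (nat_lit 5756839674) (nat_lit 532) (nat_lit 222707758) (nat_lit 0) (nat_lit 2779264967) (nat_lit 228) (nat_lit 5) (nat_lit 235) (nat_lit 4) (nat_lit 228) (nat_lit 4) (nat_lit 589) (nat_lit 487) (nat_lit 484)) (XT.nd (nat_lit 78) (nat_lit 456) (nat_lit 0) (XT.lf (nat_lit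 0) (nat_lit 1199670790) (nat_lit 608) (nat_lit 1508098974) (nat_lit 76) (nat_lit 6121589839) (nat_lit 220) (nat_lit 5) (nat_lit 228) (nat_lit 5) (nat_lit 221) (nat_lit 4) (nat_lit 590) (nat_lit 487) (nat_lit 483)) (XT.lf (nat_lit 0) (nat_lit 5423539151) (nat_lit 532) (nat_lit 2825446080) (nat_lit 0) (nat_lit 652372376) (nat_lit 214) (nat_lit 5) (nat_lit 221) (nat_lit 4) (nat_lit 214) (nat_lit 4) (nat_lit 591) (nat_lit 487) (nat_lit 482)))) (XT.nd (nat_lit 156) (nat_lit 912) (nat_lit 0) (XT.nd (nat_lit 78) (nat_lit 456) (nat_lit 0) (XT.lf (nat_lit 0) (nat_lit 739985324) (nat_lit 532) (nat_lit 4175239308) (nat_lit 76) (nat_lit 4059620432) (nat_lit 207) (nat_lit 5) (nat_lit 214) (nat_lit 5) (nat_lit 208) (nat_lit 4) (nat_lit 592) (nat_lit 487) (nat_lit 481)) (XT.lf (nat_lit 0) (nat_lit 3490522713) (nat_lit 456) (nat_lit 1480641095) (nat_lit 532) (nat_lit 4078671188) (nat_lit 201) (nat_lit 5) (nat_lit 207) (nat_lit 5) (nat_lit 208) (nat_lit 4) (nat_lit 593) (nat_lit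 487) (nat_lit 480))) (XT.nd (nat_lit 78) (nat_lit 380) (nat_lit 0) (XT.lf (nat_lit 0) (nat_lit 148052840) (nat_lit 532) (nat_lit 6970705716) (nat_lit 76) (nat_lit 2007759002) (nat_lit 194) (nat_lit 5) (nat_lit 201) (nat_lit 5) (nat_lit 195) (nat_lit 4) (nat_lit 594) (nat_lit 487) (nat_lit 479)) (XT.lf (nat_lit 0) (nat_lit 770832691) (nat_lit 380) (nat_lit 3620749999) (nat_lit 456) (nat_lit 4812878169) (nat_lit 189) (nat_lit 5) (nat_lit 194) (nat_lit 5) (nat_lit 195) (nat_lit 4) (nat_lit 595) (nat_lit 487) (nat_lit 478))))) (XT.nd (nat_lit 234) (nat_lit 1292) (nat_lit 0) (XT.nd (nat_lit 78) (nat_lit 912) (nat_lit 0) (XT.lf (nat_lit 0) (nat_lit 8663519804) (nat_lit 380) (nat_lit 38358336) (nat_lit 456) (nat_lit 582450890) (nat_lit 189) (nat_lit 5) (nat_lit 194) (nat_lit 5) (nat_lit 195) (nat_lit 4) (nat_lit 596) (nat_lit 487) (nat_lit 477)) (XT.nd (nat_lit 78) (nat_lit 380) (nat_lit 0) (XT.lf (nat_lit 0) (nat_lit 3690878137) (nat_lit 532) (nat_lit 2066407341) (nat_lit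 76) (nat_lit 3607883218) (nat_lit 182) (nat_lit 5) (nat_lit 189) (nat_lit 5) (nat_lit 183) (nat_lit 4) (nat_lit 597) (nat_lit 487) (nat_lit 476)) (XT.lf (nat_lit 0) (nat_lit 5913494423) (nat_lit 380) (nat_lit 2107609216) (nat_lit 456) (nat_lit 1426863617) (nat_lit 177) (nat_lit 5) (nat_lit 182) (nat_lit 5) (nat_lit 183) (nat_lit 4) (nat_lit 598) (nat_lit 487) (nat_lit 475)))) (XT.nd (nat_lit 156) (nat_lit 456) (nat_lit 0) (XT.nd (nat_lit 78) (nat_lit 380) (nat_lit 0) (XT.lf (nat_lit 0) (nat_lit 2857774336) (nat_lit 456) (nat_lit 5052047259) (nat_lit 76) (nat_lit 1622419062) (nat_lit 171) (nat_lit 5) (nat_lit 177) (nat_lit 5) (nat_lit 172) (nat_lit 4) (nat_lit 599) (nat_lit 487) (nat_lit 474)) (XT.lf (nat_lit 0) (nat_lit 3003040765) (nat_lit 380) (nat_lit 4200275223) (nat_lit 456) (nat_lit 2414812042) (nat_lit 166) (nat_lit 5) (nat_lit 171) (nat_lit 5) (nat_lit 172) (nat_lit 4) (nat_lit 600) (nat_lit 487) (nat_lit 473))) (XT.nd (nat_lit 78) (nat_lit 0) (nat_lit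 0) (XT.lf (nat_lit 0) (nat_lit 1491146360) (nat_lit 380) (nat_lit 394538518) (nat_lit 456) (nat_lit 7820181736) (nat_lit 160) (nat_lit 5) (nat_lit 165) (nat_lit 5) (nat_lit 166) (nat_lit 5) (nat_lit 601) (nat_lit 487) (nat_lit 472)) (XT.lf (nat_lit 0) (nat_lit 6244736873) (nat_lit 456) (nat_lit 82909754) (nat_lit 76) (nat_lit 3467299784) (nat_lit 160) (nat_lit 5) (nat_lit 166) (nat_lit 5) (nat_lit 161) (nat_lit 4) (nat_lit 602) (nat_lit 487) (nat_lit 471))))))))
noncomputable def xc20 : XT := (XT.nd (nat_lit 2106) (nat_lit 3268) (nat_lit 0) (XT.nd (nat_lit 1014) (nat_lit 3040) (nat_lit 0) (XT.nd (nat_lit 468) (nat_lit 1976) (nat_lit 0) (XT.nd (nat_lit 234) (nat_lit 836) (nat_lit 0) (XT.nd (nat_lit 78) (nat_lit 684) (nat_lit 0) (XT.lf (nat_lit 0) (nat_lit 789294253) (nat_lit 456) (nat_lit 1671126945) (nat_lit 76) (nat_lit 7425391352) (nat_lit 154) (nat_lit 5) (nat_lit 160) (nat_lit 5) (nat_lit 155) (nat_lit 5) (nat_lit 603) (nat_lit 487) (nat_lit 470)) (XT.nd (nat_lit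 78) (nat_lit 304) (nat_lit 0) (XT.lf (nat_lit 0) (nat_lit 5160716791) (nat_lit 456) (nat_lit 3320342359) (nat_lit 76) (nat_lit 1497117285) (nat_lit 149) (nat_lit 5) (nat_lit 155) (nat_lit 5) (nat_lit 150) (nat_lit 4) (nat_lit 604) (nat_lit 487) (nat_lit 469)) (XT.lf (nat_lit 0) (nat_lit 5056542630) (nat_lit 304) (nat_lit 4562698053) (nat_lit 380) (nat_lit 453156472) (nat_lit 145) (nat_lit 5) (nat_lit 149) (nat_lit 5) (nat_lit 150) (nat_lit 4) (nat_lit 605) (nat_lit 487) (nat_lit 468)))) (XT.nd (nat_lit 78) (nat_lit 380) (nat_lit 0) (XT.lf (nat_lit 0) (nat_lit 3398948578) (nat_lit 380) (nat_lit 530963096) (nat_lit 456) (nat_lit 6238395928) (nat_lit 139) (nat_lit 5) (nat_lit 144) (nat_lit 5) (nat_lit 145) (nat_lit 5) (nat_lit 606) (nat_lit 487) (nat_lit 467)) (XT.nd (nat_lit 78) (nat_lit 76) (nat_lit 0) (XT.lf (nat_lit 0) (nat_lit 1682402735) (nat_lit 304) (nat_lit 6719977018) (nat_lit 380) (nat_lit 1863543314) (nat_lit 135) (nat_lit 5) (nat_lit 139) (nat_lit 5)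 (nat_lit 140) (nat_lit 4) (nat_lit 607) (nat_lit 487) (nat_lit 466)) (XT.lf (nat_lit 0) (nat_lit 2553861039) (nat_lit 380) (nat_lit 88232158) (nat_lit 76) (nat_lit 7723280145) (nat_lit 134) (nat_lit 5) (nat_lit 139) (nat_lit 5) (nat_lit 135) (nat_lit 5) (nat_lit 608) (nat_lit 487) (nat_lit 465))))) (XT.nd (nat_lit 234) (nat_lit 988) (nat_lit 0) (XT.nd (nat_lit 78) (nat_lit 684) (nat_lit 0) (XT.lf (nat_lit 0) (nat_lit 7041534112) (nat_lit 380) (nat_lit 1895530083) (nat_lit 76) (nat_lit 1529367278) (nat_lit 130) (nat_lit 5) (nat_lit 135) (nat_lit 5) (nat_lit 131) (nat_lit 4) (nat_lit 609) (nat_lit 487) (nat_lit 464)) (XT.nd (nat_lit 78) (nat_lit 304) (nat_lit 0) (XT.lf (nat_lit 0) (nat_lit 1039389161) (nat_lit 380) (nat_lit 3765842763) (nat_lit 76) (nat_lit 5764071083) (nat_lit 125) (nat_lit 5) (nat_lit 130) (nat_lit 5) (nat_lit 126) (nat_lit 5) (nat_lit 610) (nat_lit 487) (nat_lit 463)) (XT.lf (nat_lit 0) (nat_lit 4974174000) (nat_lit 304) (nat_lit 559582001) (nat_lit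 380) (nat_lit 5140292647) (nat_lit 121) (nat_lit 5) (nat_lit 125) (nat_lit 5) (nat_lit 126) (nat_lit 5) (nat_lit 611) (nat_lit 487) (nat_lit 462)))) (XT.nd (nat_lit 156) (nat_lit 304) (nat_lit 0) (XT.nd (nat_lit 78) (nat_lit 380) (nat_lit 0) (XT.lf (nat_lit 0) (nat_lit 3078654085) (nat_lit 304) (nat_lit 7051056877) (nat_lit 380) (nat_lit 650946700) (nat_lit 117) (nat_lit 5) (nat_lit 121) (nat_lit 5) (nat_lit 122) (nat_lit 4) (nat_lit 612) (nat_lit 487) (nat_lit 461)) (XT.lf (nat_lit 0) (nat_lit 1109607907) (nat_lit 304) (nat_lit 2758395296) (nat_lit 380) (nat_lit 7021061226) (nat_lit 112) (nat_lit 5) (nat_lit 116) (nat_lit 5) (nat_lit 117) (nat_lit 5) (nat_lit 613) (nat_lit 487) (nat_lit 460))) (XT.nd (nat_lit 78) (nat_lit 304) (nat_lit 0) (XT.lf (nat_lit 0) (nat_lit 8473355997) (nat_lit 380) (nat_lit 909052789) (nat_lit 76) (nat_lit 1617052024) (nat_lit 112) (nat_lit 5) (nat_lit 117) (nat_lit 5) (nat_lit 113) (nat_lit 4) (nat_lit 614) (nat_lit 487) (nat_lit 459))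 (XT.lf (nat_lit 0) (nat_lit 2046228027) (nat_lit 304) (nat_lit 2993323536) (nat_lit 76) (nat_lit 6071958898) (nat_lit 108) (nat_lit 5) (nat_lit 112) (nat_lit 5) (nat_lit 109) (nat_lit 5) (nat_lit 615) (nat_lit 487) (nat_lit 458)))))) (XT.nd (nat_lit 546) (nat_lit 1292) (nat_lit 0) (XT.nd (nat_lit 234) (nat_lit 836) (nat_lit 0) (XT.nd (nat_lit 78) (nat_lit 608) (nat_lit 0) (XT.lf (nat_lit 0) (nat_lit 6080236392) (nat_lit 304) (nat_lit 585038501) (nat_lit 380) (nat_lit 4560412621) (nat_lit 104) (nat_lit 5) (nat_lit 108) (nat_lit 5) (nat_lit 109) (nat_lit 5) (nat_lit 616) (nat_lit 487) (nat_lit 457)) (XT.nd (nat_lit 78) (nat_lit 304) (nat_lit 0) (XT.lf (nat_lit 0) (nat_lit 49549237) (nat_lit 304) (nat_lit 7377507550) (nat_lit 76) (nat_lit 3914779991) (nat_lit 100) (nat_lit 5) (nat_lit 104) (nat_lit 5) (nat_lit 101) (nat_lit 5) (nat_lit 617) (nat_lit 487) (nat_lit 456)) (XT.lf (nat_lit 0) (nat_lit 1759488896) (nat_lit 304) (nat_lit 2925071625) (nat_lit 380) (nat_lit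 6775269411) (nat_lit 96) (nat_lit 5) (nat_lit 100) (nat_lit 5) (nat_lit 101) (nat_lit 5) (nat_lit 618) (nat_lit 487) (nat_lit 455)))) (XT.nd (nat_lit 156) (nat_lit 532) (nat_lit 0) (XT.nd (nat_lit 78) (nat_lit 304) (nat_lit 0) (XT.lf (nat_lit 0) (nat_lit 9416960220) (nat_lit 380) (nat_lit 507062551) (nat_lit 76) (nat_lit 1656068443) (nat_lit 96) (nat_lit 5) (nat_lit 101) (nat_lit 5) (nat_lit 97) (nat_lit 4) (nat_lit 619) (nat_lit 487) (nat_lit 454)) (XT.lf (nat_lit 0) (nat_lit 2530174363) (nat_lit 304) (nat_lit 2845948984) (nat_lit 76) (nat_lit 6325861277) (nat_lit 92) (nat_lit 5) (nat_lit 96) (nat_lit 5) (nat_lit 93) (nat_lit 5) (nat_lit 620) (nat_lit 487) (nat_lit 453))) (XT.nd (nat_lit 78) (nat_lit 304) (nat_lit 0) (XT.lf (nat_lit 0) (nat_lit 6564591447) (nat_lit 228) (nat_lit 715098838) (nat_lit 304) (nat_lit 4546515387) (nat_lit 89) (nat_lit 5) (nat_lit 92) (nat_lit 5) (nat_lit 93) (nat_lit 5) (nat_lit 621) (nat_lit 487) (nat_lit 452)) (XT.lf (nat_lit 0) (nat_lit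 187214269) (nat_lit 304) (nat_lit 7770267302) (nat_lit 76) (nat_lit 3995045664) (nat_lit 85) (nat_lit 5) (nat_lit 89) (nat_lit 5) (nat_lit 86) (nat_lit 5) (nat_lit 622) (nat_lit 487) (nat_lit 451))))) (XT.nd (nat_lit 234) (nat_lit 760) (nat_lit 0) (XT.nd (nat_lit 78) (nat_lit 304) (nat_lit 0) (XT.lf (nat_lit 0) (nat_lit 1698364900) (nat_lit 228) (nat_lit 3253284517) (nat_lit 304) (nat_lit 7129188390) (nat_lit 82) (nat_lit 5) (nat_lit 85) (nat_lit 5) (nat_lit 86) (nat_lit 5) (nat_lit 623) (nat_lit 487) (nat_lit 450)) (XT.nd (nat_lit 78) (nat_lit 304) (nat_lit 0) (XT.lf (nat_lit 0) (nat_lit 9819638736) (nat_lit 304) (nat_lit 854047072) (nat_lit 76) (nat_lit 1537865243) (nat_lit 82) (nat_lit 5) (nat_lit 86) (nat_lit 5) (nat_lit 83) (nat_lit 4) (nat_lit 624) (nat_lit 487) (nat_lit 449)) (XT.lf (nat_lit 0) (nat_lit 2434201425) (nat_lit 304) (nat_lit 3493523406) (nat_lit 76) (nat_lit 6416316679) (nat_lit 78) (nat_lit 5) (nat_lit 82) (nat_lit 5) (nat_lit 79) (nat_lit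 5) (nat_lit 625) (nat_lit 487) (nat_lit 448)))) (XT.nd (nat_lit 156) (nat_lit 304) (nat_lit 0) (XT.nd (nat_lit 78) (nat_lit 228) (nat_lit 0) (XT.lf (nat_lit 0) (nat_lit 6254903666) (nat_lit 228) (nat_lit 1063219411) (nat_lit 304) (nat_lit 5160877891) (nat_lit 75) (nat_lit 5) (nat_lit 78) (nat_lit 5) (nat_lit 79) (nat_lit 5) (nat_lit 626) (nat_lit 487) (nat_lit 447)) (XT.lf (nat_lit 0) (nat_lit 3557532350) (nat_lit 228) (nat_lit 8761286921) (nat_lit 304) (nat_lit 297460054) (nat_lit 72) (nat_lit 5) (nat_lit 75) (nat_lit 5) (nat_lit 76) (nat_lit 4) (nat_lit 627) (nat_lit 487) (nat_lit 446))) (XT.nd (nat_lit 78) (nat_lit 0) (nat_lit 0) (XT.lf (nat_lit 0) (nat_lit 742628083) (nat_lit 228) (nat_lit 3860520637) (nat_lit 304) (nat_lit 8152528934) (nat_lit 68) (nat_lit 5) (nat_lit 71) (nat_lit 5) (nat_lit 72) (nat_lit 5) (nat_lit 628) (nat_lit 487) (nat_lit 445)) (XT.lf (nat_lit 0) (nat_lit 9613721017) (nat_lit 304) (nat_lit 2136974744) (nat_lit 76) (nat_lit 1146811715)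 (nat_lit 68) (nat_lit 5) (nat_lit 72) (nat_lit 5) (nat_lit 69) (nat_lit 4) (nat_lit 629) (nat_lit 487) (nat_lit 444))))))) (XT.nd (nat_lit 1014) (nat_lit 1140) (nat_lit 0) (XT.nd (nat_lit 468) (nat_lit 988) (nat_lit 0) (XT.nd (nat_lit 234) (nat_lit 532) (nat_lit 0) (XT.nd (nat_lit 78) (nat_lit 380) (nat_lit 0) (XT.lf (nat_lit 0) (nat_lit 1685824996) (nat_lit 228) (nat_lit 5129343220) (nat_lit 76) (nat_lit 6226277538) (nat_lit 65) (nat_lit 5) (nat_lit 68) (nat_lit 5) (nat_lit 66) (nat_lit 5) (nat_lit 630) (nat_lit 487) (nat_lit 443)) (XT.nd (nat_lit 78) (nat_lit 152) (nat_lit 0) (XT.lf (nat_lit 0) (nat_lit 4954650922) (nat_lit 228) (nat_lit 1751315226) (nat_lit 304) (nat_lit 6481961836) (nat_lit 62) (nat_lit 5) (nat_lit 65) (nat_lit 5) (nat_lit 66) (nat_lit 5) (nat_lit 631) (nat_lit 487) (nat_lit 442)) (XT.lf (nat_lit 0) (nat_lit 1883712988) (nat_lit 152) (nat_lit 9960463217) (nat_lit 228) (nat_lit 1492811755) (nat_lit 60) (nat_lit 5) (nat_lit 62) (nat_lit 5) (nat_lit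 63) (nat_lit 4) (nat_lit 632) (nat_lit 487) (nat_lit 441)))) (XT.nd (nat_lit 78) (nat_lit 456) (nat_lit 0) (XT.lf (nat_lit 0) (nat_lit 3564870054) (nat_lit 228) (nat_lit 1300471284) (nat_lit 76) (nat_lit 8622903947) (nat_lit 59) (nat_lit 5) (nat_lit 62) (nat_lit 5) (nat_lit 60) (nat_lit 5) (nat_lit 633) (nat_lit 487) (nat_lit 440)) (XT.nd (nat_lit 78) (nat_lit 228) (nat_lit 0) (XT.lf (nat_lit 0) (nat_lit 8714708317) (nat_lit 304) (nat_lit 4570074829) (nat_lit 76) (nat_lit 357328768) (nat_lit 56) (nat_lit 5) (nat_lit 60) (nat_lit 5) (nat_lit 57) (nat_lit 4) (nat_lit 634) (nat_lit 487) (nat_lit 439)) (XT.lf (nat_lit 0) (nat_lit 195141964) (nat_lit 228) (nat_lit 7975142175) (nat_lit 76) (nat_lit 5628173862) (nat_lit 53) (nat_lit 5) (nat_lit 56) (nat_lit 5) (nat_lit 54) (nat_lit 5) (nat_lit 635) (nat_lit 487) (nat_lit 438))))) (XT.nd (nat_lit 234) (nat_lit 532) (nat_lit 0) (XT.nd (nat_lit 78) (nat_lit 228) (nat_lit 0) (XT.lf (nat_lit 0) (nat_lit 2438042937) (nat_lit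 228) (nat_lit 2912802782) (nat_lit 304) (nat_lit 8606501447) (nat_lit 50) (nat_lit 5) (nat_lit 53) (nat_lit 5) (nat_lit 54) (nat_lit 5) (nat_lit 636) (nat_lit 487) (nat_lit 437)) (XT.nd (nat_lit 78) (nat_lit 228) (nat_lit 0) (XT.lf (nat_lit 0) (nat_lit 10629504259) (nat_lit 304) (nat_lit 1057450696) (nat_lit 76) (nat_lit 2432063582) (nat_lit 50) (nat_lit 5) (nat_lit 54) (nat_lit 5) (nat_lit 51) (nat_lit 4) (nat_lit 637) (nat_lit 487) (nat_lit 436)) (XT.lf (nat_lit 0) (nat_lit 1740211896) (nat_lit 228) (nat_lit 4662710720) (nat_lit 76) (nat_lit 7880115568) (nat_lit 47) (nat_lit 5) (nat_lit 50) (nat_lit 5) (nat_lit 48) (nat_lit 5) (nat_lit 638) (nat_lit 487) (nat_lit 435)))) (XT.nd (nat_lit 156) (nat_lit 228) (nat_lit 0) (XT.nd (nat_lit 78) (nat_lit 152) (nat_lit 0) (XT.lf (nat_lit 0) (nat_lit 6043162036) (nat_lit 152) (nat_lit 982176248) (nat_lit 228) (nat_lit 7424589186) (nat_lit 45) (nat_lit 5) (nat_lit 47) (nat_lit 5) (nat_lit 48) (nat_lit 5) (nat_lit 639) (nat_lit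 487) (nat_lit 434)) (XT.lf (nat_lit 0) (nat_lit 2318640165) (nat_lit 152) (nat_lit 10124835940) (nat_lit 228) (nat_lit 2176133402) (nat_lit 43) (nat_lit 5) (nat_lit 45) (nat_lit 5) (nat_lit 46) (nat_lit 4) (nat_lit 640) (nat_lit 487) (nat_lit 433))) (XT.nd (nat_lit 78) (nat_lit 152) (nat_lit 0) (XT.lf (nat_lit 0) (nat_lit 3150210353) (nat_lit 228) (nat_lit 1535485670) (nat_lit 76) (nat_lit 10106285889) (nat_lit 42) (nat_lit 5) (nat_lit 45) (nat_lit 5) (nat_lit 43) (nat_lit 5) (nat_lit 641) (nat_lit 487) (nat_lit 432)) (XT.lf (nat_lit 0) (nat_lit 8573538829) (nat_lit 228) (nat_lit 5505203212) (nat_lit 76) (nat_lit 888381191) (nat_lit 40) (nat_lit 5) (nat_lit 43) (nat_lit 5) (nat_lit 41) (nat_lit 4) (nat_lit 642) (nat_lit 487) (nat_lit 431)))))) (XT.nd (nat_lit 546) (nat_lit 228) (nat_lit 0) (XT.nd (nat_lit 234) (nat_lit 532) (nat_lit 0) (XT.nd (nat_lit 78) (nat_lit 228) (nat_lit 0) (XT.lf (nat_lit 0) (nat_lit 5508362477) (nat_lit 152) (nat_lit 8626510339) (nat_lit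 228) (nat_lit 1010304840) (nat_lit 38) (nat_lit 5) (nat_lit 40) (nat_lit 5) (nat_lit 41) (nat_lit 4) (nat_lit 643) (nat_lit 487) (nat_lit 430)) (XT.nd (nat_lit 78) (nat_lit 0) (nat_lit 0) (XT.lf (nat_lit 0) (nat_lit 1392327721) (nat_lit 152) (nat_lit 3028204083) (nat_lit 228) (nat_lit 10905707436) (nat_lit 35) (nat_lit 5) (nat_lit 37) (nat_lit 5) (nat_lit 38) (nat_lit 5) (nat_lit 644) (nat_lit 487) (nat_lit 429)) (XT.lf (nat_lit 0) (nat_lit 9981520717) (nat_lit 228) (nat_lit 2848958269) (nat_lit 76) (nat_lit 2679609234) (nat_lit 35) (nat_lit 5) (nat_lit 38) (nat_lit 5) (nat_lit 36) (nat_lit 4) (nat_lit 645) (nat_lit 487) (nat_lit 428)))) (XT.nd (nat_lit 156) (nat_lit 152) (nat_lit 0) (XT.nd (nat_lit 78) (nat_lit 228) (nat_lit 0) (XT.lf (nat_lit 0) (nat_lit 8462867203) (nat_lit 152) (nat_lit 7219334393) (nat_lit 228) (nat_lit 14844114) (nat_lit 33) (nat_lit 5) (nat_lit 35) (nat_lit 5) (nat_lit 36) (nat_lit 4) (nat_lit 646) (nat_lit 487) (nat_lit 427)) (XT.lf (nat_lit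 0) (nat_lit 4083377973) (nat_lit 152) (nat_lit 1451491083) (nat_lit 228) (nat_lit 10352160260) (nat_lit 30) (nat_lit 5) (nat_lit 32) (nat_lit 5) (nat_lit 33) (nat_lit 5) (nat_lit 647) (nat_lit 487) (nat_lit 426))) (XT.nd (nat_lit 78) (nat_lit 152) (nat_lit 0) (XT.lf (nat_lit 0) (nat_lit 11226645579) (nat_lit 228) (nat_lit 469611780) (nat_lit 76) (nat_lit 4383928835) (nat_lit 30) (nat_lit 5) (nat_lit 33) (nat_lit 5) (nat_lit 31) (nat_lit 4) (nat_lit 648) (nat_lit 487) (nat_lit 425)) (XT.lf (nat_lit 0) (nat_lit 781889216) (nat_lit 152) (nat_lit 5138216016) (nat_lit 76) (nat_lit 10356269006) (nat_lit 28) (nat_lit 5) (nat_lit 30) (nat_lit 5) (nat_lit 29) (nat_lit 5) (nat_lit 649) (nat_lit 487) (nat_lit 424))))) (XT.nd (nat_lit 76128) (nat_lit 0) (nat_lit 15428) (XT.nd (nat_lit 78) (nat_lit 76) (nat_lit 0) (XT.lf (nat_lit 0) (nat_lit 6464982045) (nat_lit 228) (nat_lit 9999408738) (nat_lit 76) (nat_lit 11455624) (nat_lit 26) (nat_lit 5) (nat_lit 29) (nat_lit 5) (nat_lit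 27) (nat_lit 4) (nat_lit 650) (nat_lit 487) (nat_lit 423)) (XT.nd (nat_lit 75972) (nat_lit 0) (nat_lit 17632) (XT.lf (nat_lit 0) (nat_lit 1611734191) (nat_lit 76) (nat_lit 10689062394) (nat_lit 152) (nat_lit 4377731087) (nat_lit 25) (nat_lit 5) (nat_lit 26) (nat_lit 5) (nat_lit 27) (nat_lit 4) (nat_lit 651) (nat_lit 487) (nat_lit 422)) (XT.lf (nat_lit 0) (nat_lit 1490866026) (nat_lit 608) (nat_lit 1231797951) (nat_lit 0) (nat_lit 1490866026) (nat_lit 257) (nat_lit 5) (nat_lit 265) (nat_lit 4) (nat_lit 257) (nat_lit 4) (nat_lit 584) (nat_lit 488) (nat_lit 488)))) (XT.nd (nat_lit 156) (nat_lit 1064) (nat_lit 0) (XT.nd (nat_lit 78) (nat_lit 608) (nat_lit 0) (XT.lf (nat_lit 0) (nat_lit 4736870619) (nat_lit 532) (nat_lit 2414213786) (nat_lit 532) (nat_lit 1340013330) (nat_lit 250) (nat_lit 4) (nat_lit 257) (nat_lit 5) (nat_lit 257) (nat_lit 4) (nat_lit 585) (nat_lit 488) (nat_lit 487)) (XT.lf (nat_lit 0) (nat_lit 2785476981) (nat_lit 608) (nat_lit 5071214934) (nat_lit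 0) (nat_lit 699851337) (nat_lit 242) (nat_lit 5) (nat_lit 250) (nat_lit 4) (nat_lit 242) (nat_lit 4) (nat_lit 586) (nat_lit 488) (nat_lit 486))) (XT.nd (nat_lit 78) (nat_lit 532) (nat_lit 0) (XT.lf (nat_lit 0) (nat_lit 2205305817) (nat_lit 532) (nat_lit 4757966812) (nat_lit 532) (nat_lit 1660098087) (nat_lit 235) (nat_lit 4) (nat_lit 242) (nat_lit 5) (nat_lit 242) (nat_lit 4) (nat_lit 587) (nat_lit 488) (nat_lit 485)) (XT.lf (nat_lit 0) (nat_lit 903797341) (nat_lit 456) (nat_lit 1568510205) (nat_lit 532) (nat_lit 6219454211) (nat_lit 228) (nat_lit 5) (nat_lit 234) (nat_lit 5) (nat_lit 235) (nat_lit 4) (nat_lit 588) (nat_lit 488) (nat_lit 484))))))))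
noncomputable def xc21 : XT := (XT.nd (nat_lit 2106) (nat_lit 5320) (nat_lit 0) (XT.nd (nat_lit 1014) (nat_lit 3952) (nat_lit 0) (XT.nd (nat_lit 468) (nat_lit 2584) (nat_lit 0) (XT.nd (nat_lit 234) (nat_lit 1520) (nat_lit 0) (XT.nd (nat_lit 78) (nat_lit 1064) (nat_lit 0) (XT.lf (nat_lit 0) (nat_lit 6652277176) (nat_lit 532) (nat_lit 420930490) (nat_lit 0) (nat_lit 1688355263) (nat_lit 228) (nat_lit 5) (nat_lit 235) (nat_lit 4) (nat_lit 228) (nat_lit 4) (nat_lit 589) (nat_lit 488) (nat_lit 483)) (XT.nd (nat_lit 78) (nat_lit 456) (nat_lit 0) (XT.lf (nat_lit 0) (nat_lit 2046207198) (nat_lit 608) (nat_lit 1765739513) (nat_lit 76) (nat_lit 5020738580) (nat_lit 220) (nat_lit 5) (nat_lit 228) (nat_lit 5) (nat_lit 221) (nat_lit 4) (nat_lit 590) (nat_lit 488) (nat_lit 482)) (XT.lf (nat_lit 0) (nat_lit 5771322438) (nat_lit 456) (nat_lit 459974708) (nat_lit 532) (nat_lit 2674163894) (nat_lit 214) (nat_lit 5) (nat_lit 220) (nat_lit 5) (nat_lit 221) (nat_lit 4) (nat_lit 591)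 (nat_lit 488) (nat_lit 481)))) (XT.nd (nat_lit 78) (nat_lit 988) (nat_lit 0) (XT.lf (nat_lit 0) (nat_lit 1495294032) (nat_lit 532) (nat_lit 4542977316) (nat_lit 76) (nat_lit 2941330999) (nat_lit 207) (nat_lit 5) (nat_lit 214) (nat_lit 5) (nat_lit 208) (nat_lit 4) (nat_lit 592) (nat_lit 488) (nat_lit 480)) (XT.nd (nat_lit 78) (nat_lit 532) (nat_lit 0) (XT.lf (nat_lit 0) (nat_lit 3069636147) (nat_lit 456) (nat_lit 2621971343) (nat_lit 532) (nat_lit 3363684141) (nat_lit 201) (nat_lit 5) (nat_lit 207) (nat_lit 5) (nat_lit 208) (nat_lit 4) (nat_lit 593) (nat_lit 488) (nat_lit 479)) (XT.lf (nat_lit 0) (nat_lit 810988569) (nat_lit 532) (nat_lit 7454362612) (nat_lit 76) (nat_lit 867385624) (nat_lit 194) (nat_lit 5) (nat_lit 201) (nat_lit 5) (nat_lit 195) (nat_lit 4) (nat_lit 594) (nat_lit 488) (nat_lit 478))))) (XT.nd (nat_lit 234) (nat_lit 1672) (nat_lit 0) (XT.nd (nat_lit 78) (nat_lit 532) (nat_lit 0) (XT.lf (nat_lit 0) (nat_lit 232148342) (nat_lit 380) (nat_lit 4787068271)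 (nat_lit 456) (nat_lit 4192171461) (nat_lit 189) (nat_lit 5) (nat_lit 194) (nat_lit 5) (nat_lit 195) (nat_lit 4) (nat_lit 595) (nat_lit 488) (nat_lit 477)) (XT.nd (nat_lit 78) (nat_lit 456) (nat_lit 0) (XT.lf (nat_lit 0) (nat_lit 6053619) (nat_lit 456) (nat_lit 1214739283) (nat_lit 76) (nat_lit 8071094244) (nat_lit 188) (nat_lit 5) (nat_lit 194) (nat_lit 5) (nat_lit 189) (nat_lit 5) (nat_lit 596) (nat_lit 488) (nat_lit 476)) (XT.lf (nat_lit 0) (nat_lit 4228638049) (nat_lit 532) (nat_lit 2720222517) (nat_lit 76) (nat_lit 2424654547) (nat_lit 182) (nat_lit 5) (nat_lit 189) (nat_lit 5) (nat_lit 183) (nat_lit 4) (nat_lit 597) (nat_lit 488) (nat_lit 475)))) (XT.nd (nat_lit 156) (nat_lit 836) (nat_lit 0) (XT.nd (nat_lit 78) (nat_lit 456) (nat_lit 0) (XT.lf (nat_lit 0) (nat_lit 5203030795) (nat_lit 380) (nat_lit 3320342319) (nat_lit 456) (nat_lit 933652153) (nat_lit 177) (nat_lit 5) (nat_lit 182) (nat_lit 5) (nat_lit 183) (nat_lit 4) (nat_lit 598) (nat_lit 488) (nat_lit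 474)) (XT.lf (nat_lit 0) (nat_lit 3300674434) (nat_lit 456) (nat_lit 5834154438) (nat_lit 76) (nat_lit 407284324) (nat_lit 171) (nat_lit 5) (nat_lit 177) (nat_lit 5) (nat_lit 172) (nat_lit 4) (nat_lit 599) (nat_lit 488) (nat_lit 473))) (XT.nd (nat_lit 78) (nat_lit 456) (nat_lit 0) (XT.lf (nat_lit 0) (nat_lit 2162285607) (nat_lit 380) (nat_lit 5447879682) (nat_lit 456) (nat_lit 2018557978) (nat_lit 166) (nat_lit 5) (nat_lit 171) (nat_lit 5) (nat_lit 172) (nat_lit 4) (nat_lit 600) (nat_lit 488) (nat_lit 472)) (XT.lf (nat_lit 0) (nat_lit 577525931) (nat_lit 380) (nat_lit 1662782585) (nat_lit 456) (nat_lit 7476832168) (nat_lit 160) (nat_lit 5) (nat_lit 165) (nat_lit 5) (nat_lit 166) (nat_lit 5) (nat_lit 601) (nat_lit 488) (nat_lit 471)))))) (XT.nd (nat_lit 546) (nat_lit 1976) (nat_lit 0) (XT.nd (nat_lit 234) (nat_lit 1140) (nat_lit 0) (XT.nd (nat_lit 78) (nat_lit 836) (nat_lit 0) (XT.lf (nat_lit 0) (nat_lit 6560803280) (nat_lit 456) (nat_lit 1047465257) (nat_lit 76)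 (nat_lit 2198724673) (nat_lit 160) (nat_lit 5) (nat_lit 166) (nat_lit 5) (nat_lit 161) (nat_lit 4) (nat_lit 602) (nat_lit 488) (nat_lit 470)) (XT.nd (nat_lit 78) (nat_lit 380) (nat_lit 0) (XT.lf (nat_lit 0) (nat_lit 1052701045) (nat_lit 456) (nat_lit 2710590023) (nat_lit 76) (nat_lit 6135262839) (nat_lit 154) (nat_lit 5) (nat_lit 160) (nat_lit 5) (nat_lit 155) (nat_lit 5) (nat_lit 603) (nat_lit 488) (nat_lit 469)) (XT.lf (nat_lit 0) (nat_lit 5378711264) (nat_lit 456) (nat_lit 4426146543) (nat_lit 76) (nat_lit 186969725) (nat_lit 149) (nat_lit 5) (nat_lit 155) (nat_lit 5) (nat_lit 150) (nat_lit 4) (nat_lit 604) (nat_lit 488) (nat_lit 468)))) (XT.nd (nat_lit 156) (nat_lit 380) (nat_lit 0) (XT.nd (nat_lit 78) (nat_lit 456) (nat_lit 0) (XT.lf (nat_lit 0) (nat_lit 3888206245) (nat_lit 304) (nat_lit 5911963531) (nat_lit 380) (nat_lit 286621250) (nat_lit 145) (nat_lit 5) (nat_lit 149) (nat_lit 5) (nat_lit 150) (nat_lit 4) (nat_lit 605) (nat_lit 488) (nat_lit 467)) (XT.lf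 (nat_lit 0) (nat_lit 2151485558) (nat_lit 380) (nat_lit 1905276776) (nat_lit 456) (nat_lit 6126668929) (nat_lit 139) (nat_lit 5) (nat_lit 144) (nat_lit 5) (nat_lit 145) (nat_lit 5) (nat_lit 606) (nat_lit 488) (nat_lit 466))) (XT.nd (nat_lit 78) (nat_lit 76) (nat_lit 0) (XT.lf (nat_lit 0) (nat_lit 364000164) (nat_lit 304) (nat_lit 8118501858) (nat_lit 380) (nat_lit 1799480655) (nat_lit 135) (nat_lit 5) (nat_lit 139) (nat_lit 5) (nat_lit 140) (nat_lit 4) (nat_lit 607) (nat_lit 488) (nat_lit 465)) (XT.lf (nat_lit 0) (nat_lit 2587912176) (nat_lit 380) (nat_lit 1470634878) (nat_lit 76) (nat_lit 6323462333) (nat_lit 134) (nat_lit 5) (nat_lit 139) (nat_lit 5) (nat_lit 135) (nat_lit 5) (nat_lit 608) (nat_lit 488) (nat_lit 464))))) (XT.nd (nat_lit 234) (nat_lit 988) (nat_lit 0) (XT.nd (nat_lit 78) (nat_lit 684) (nat_lit 0) (XT.lf (nat_lit 0) (nat_lit 7028208977) (nat_lit 380) (nat_lit 3351537861) (nat_lit 76) (nat_lit 104269505) (nat_lit 130) (nat_lit 5) (nat_lit 135) (nat_lit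 5) (nat_lit 131) (nat_lit 4) (nat_lit 609) (nat_lit 488) (nat_lit 463)) (XT.nd (nat_lit 78) (nat_lit 304) (nat_lit 0) (XT.lf (nat_lit 0) (nat_lit 970287266) (nat_lit 380) (nat_lit 5306457357) (nat_lit 76) (nat_lit 4310920465) (nat_lit 125) (nat_lit 5) (nat_lit 130) (nat_lit 5) (nat_lit 126) (nat_lit 5) (nat_lit 610) (nat_lit 488) (nat_lit 462)) (XT.lf (nat_lit 0) (nat_lit 3365654648) (nat_lit 304) (nat_lit 2060168781) (nat_lit 380) (nat_lit 5267365139) (nat_lit 121) (nat_lit 5) (nat_lit 125) (nat_lit 5) (nat_lit 126) (nat_lit 5) (nat_lit 611) (nat_lit 488) (nat_lit 461)))) (XT.nd (nat_lit 156) (nat_lit 608) (nat_lit 0) (XT.nd (nat_lit 78) (nat_lit 76) (nat_lit 0) (XT.lf (nat_lit 0) (nat_lit 1391667105) (nat_lit 304) (nat_lit 8581163775) (nat_lit 380) (nat_lit 827946854) (nat_lit 117) (nat_lit 5) (nat_lit 121) (nat_lit 5) (nat_lit 122) (nat_lit 4) (nat_lit 612) (nat_lit 488) (nat_lit 460)) (XT.lf (nat_lit 0) (nat_lit 3657933025) (nat_lit 380) (nat_lit 657914920)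 (nat_lit 76) (nat_lit 6594068523) (nat_lit 116) (nat_lit 5) (nat_lit 121) (nat_lit 5) (nat_lit 117) (nat_lit 5) (nat_lit 613) (nat_lit 488) (nat_lit 459))) (XT.nd (nat_lit 78) (nat_lit 304) (nat_lit 0) (XT.lf (nat_lit 0) (nat_lit 8220757271) (nat_lit 380) (nat_lit 2743257915) (nat_lit 76) (nat_lit 57149366) (nat_lit 112) (nat_lit 5) (nat_lit 117) (nat_lit 5) (nat_lit 113) (nat_lit 4) (nat_lit 614) (nat_lit 488) (nat_lit 458)) (XT.lf (nat_lit 0) (nat_lit 1735377390) (nat_lit 304) (nat_lit 4919192567) (nat_lit 76) (nat_lit 4479483868) (nat_lit 108) (nat_lit 5) (nat_lit 112) (nat_lit 5) (nat_lit 109) (nat_lit 5) (nat_lit 615) (nat_lit 488) (nat_lit 457))))))) (XT.nd (nat_lit 1092) (nat_lit 2280) (nat_lit 0) (XT.nd (nat_lit 546) (nat_lit 1368) (nat_lit 0) (XT.nd (nat_lit 234) (nat_lit 1064) (nat_lit 0) (XT.nd (nat_lit 78) (nat_lit 304) (nat_lit 0) (XT.lf (nat_lit 0) (nat_lit 4081880063) (nat_lit 304) (nat_lit 2232119891) (nat_lit 380) (nat_lit 4935040477) (nat_lit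 104) (nat_lit 5) (nat_lit 108) (nat_lit 5) (nat_lit 109) (nat_lit 5) (nat_lit 616) (nat_lit 488) (nat_lit 456)) (XT.nd (nat_lit 78) (nat_lit 76) (nat_lit 0) (XT.lf (nat_lit 0) (nat_lit 1879907049) (nat_lit 228) (nat_lit 9109307734) (nat_lit 304) (nat_lit 377013704) (nat_lit 101) (nat_lit 5) (nat_lit 104) (nat_lit 5) (nat_lit 105) (nat_lit 4) (nat_lit 617) (nat_lit 488) (nat_lit 455)) (XT.lf (nat_lit 0) (nat_lit 4224242875) (nat_lit 304) (nat_lit 416408866) (nat_lit 76) (nat_lit 6844393847) (nat_lit 100) (nat_lit 5) (nat_lit 104) (nat_lit 5) (nat_lit 101) (nat_lit 5) (nat_lit 618) (nat_lit 488) (nat_lit 454)))) (XT.nd (nat_lit 156) (nat_lit 456) (nat_lit 0) (XT.nd (nat_lit 78) (nat_lit 304) (nat_lit 0) (XT.lf (nat_lit 0) (nat_lit 8856560082) (nat_lit 304) (nat_lit 59407413) (nat_lit 380) (nat_lit 2690153863) (nat_lit 96) (nat_lit 5) (nat_lit 100) (nat_lit 5) (nat_lit 101) (nat_lit 5) (nat_lit 619) (nat_lit 488) (nat_lit 453)) (XT.lf (nat_lit 0) (nat_lit 1967715328)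 (nat_lit 304) (nat_lit 5187292002) (nat_lit 76) (nat_lit 4573923784) (nat_lit 92) (nat_lit 5) (nat_lit 96) (nat_lit 5) (nat_lit 93) (nat_lit 5) (nat_lit 620) (nat_lit 488) (nat_lit 452))) (XT.nd (nat_lit 78) (nat_lit 228) (nat_lit 0) (XT.lf (nat_lit 0) (nat_lit 4145817288) (nat_lit 228) (nat_lit 2529129807) (nat_lit 304) (nat_lit 5179051682) (nat_lit 89) (nat_lit 5) (nat_lit 92) (nat_lit 5) (nat_lit 93) (nat_lit 5) (nat_lit 621) (nat_lit 488) (nat_lit 451)) (XT.lf (nat_lit 0) (nat_lit 1669948945) (nat_lit 228) (nat_lit 9812987116) (nat_lit 304) (nat_lit 498501319) (nat_lit 86) (nat_lit 5) (nat_lit 89) (nat_lit 5) (nat_lit 90) (nat_lit 4) (nat_lit 622) (nat_lit 488) (nat_lit 450))))) (XT.nd (nat_lit 234) (nat_lit 760) (nat_lit 0) (XT.nd (nat_lit 78) (nat_lit 532) (nat_lit 0) (XT.lf (nat_lit 0) (nat_lit 4235016555) (nat_lit 304) (nat_lit 907756729) (nat_lit 76) (nat_lit 6967789380) (nat_lit 85) (nat_lit 5) (nat_lit 89) (nat_lit 5) (nat_lit 86) (nat_lit 5) (nat_lit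 623) (nat_lit 488) (nat_lit 449)) (XT.nd (nat_lit 78) (nat_lit 304) (nat_lit 0) (XT.lf (nat_lit 0) (nat_lit 8704077618) (nat_lit 228) (nat_lit 356632729) (nat_lit 304) (nat_lit 3181412329) (nat_lit 82) (nat_lit 5) (nat_lit 85) (nat_lit 5) (nat_lit 86) (nat_lit 5) (nat_lit 624) (nat_lit 488) (nat_lit 448)) (XT.lf (nat_lit 0) (nat_lit 1608680064) (nat_lit 304) (nat_lit 6282564795) (nat_lit 76) (nat_lit 4484399136) (nat_lit 78) (nat_lit 5) (nat_lit 82) (nat_lit 5) (nat_lit 79) (nat_lit 5) (nat_lit 625) (nat_lit 488) (nat_lit 447)))) (XT.nd (nat_lit 156) (nat_lit 304) (nat_lit 0) (XT.nd (nat_lit 78) (nat_lit 228) (nat_lit 0) (XT.lf (nat_lit 0) (nat_lit 3383091978) (nat_lit 228) (nat_lit 3065093967) (nat_lit 304) (nat_lit 6063306631) (nat_lit 75) (nat_lit 5) (nat_lit 78) (nat_lit 5) (nat_lit 79) (nat_lit 5) (nat_lit 626) (nat_lit 488) (nat_lit 446)) (XT.lf (nat_lit 0) (nat_lit 582005862) (nat_lit 228) (nat_lit 10808878981) (nat_lit 304) (nat_lit 1259046829) (nat_lit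 72) (nat_lit 5) (nat_lit 75) (nat_lit 5) (nat_lit 76) (nat_lit 4) (nat_lit 627) (nat_lit 488) (nat_lit 445))) (XT.nd (nat_lit 78) (nat_lit 228) (nat_lit 0) (XT.lf (nat_lit 0) (nat_lit 3623713584) (nat_lit 304) (nat_lit 2315287453) (nat_lit 76) (nat_lit 6851063785) (nat_lit 71) (nat_lit 5) (nat_lit 75) (nat_lit 5) (nat_lit 72) (nat_lit 5) (nat_lit 628) (nat_lit 488) (nat_lit 444)) (XT.lf (nat_lit 0) (nat_lit 7634601327) (nat_lit 228) (nat_lit 951480386) (nat_lit 304) (nat_lit 4346777763) (nat_lit 68) (nat_lit 5) (nat_lit 71) (nat_lit 5) (nat_lit 72) (nat_lit 5) (nat_lit 629) (nat_lit 488) (nat_lit 443)))))) (XT.nd (nat_lit 546) (nat_lit 1140) (nat_lit 0) (XT.nd (nat_lit 234) (nat_lit 684) (nat_lit 0) (XT.nd (nat_lit 78) (nat_lit 228) (nat_lit 0) (XT.lf (nat_lit 0) (nat_lit 584147956) (nat_lit 228) (nat_lit 8400556156) (nat_lit 76) (nat_lit 4093284935) (nat_lit 65) (nat_lit 5) (nat_lit 68) (nat_lit 5) (nat_lit 66) (nat_lit 5) (nat_lit 630) (nat_lit 488) (nat_lit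 442)) (XT.nd (nat_lit 78) (nat_lit 0) (nat_lit 0) (XT.lf (nat_lit 0) (nat_lit 1594896953) (nat_lit 228) (nat_lit 3962564907) (nat_lit 304) (nat_lit 7667946666) (nat_lit 62) (nat_lit 5) (nat_lit 65) (nat_lit 5) (nat_lit 66) (nat_lit 5) (nat_lit 631) (nat_lit 488) (nat_lit 441)) (XT.lf (nat_lit 0) (nat_lit 10644148998) (nat_lit 304) (nat_lit 1568425594) (nat_lit 76) (nat_lit 1162925059) (nat_lit 62) (nat_lit 5) (nat_lit 66) (nat_lit 5) (nat_lit 63) (nat_lit 4) (nat_lit 632) (nat_lit 488) (nat_lit 440)))) (XT.nd (nat_lit 156) (nat_lit 228) (nat_lit 0) (XT.nd (nat_lit 78) (nat_lit 228) (nat_lit 0) (XT.lf (nat_lit 0) (nat_lit 2307289270) (nat_lit 228) (nat_lit 4848655888) (nat_lit 76) (nat_lit 6371679019) (nat_lit 59) (nat_lit 5) (nat_lit 62) (nat_lit 5) (nat_lit 60) (nat_lit 5) (nat_lit 633) (nat_lit 488) (nat_lit 439)) (XT.lf (nat_lit 0) (nat_lit 5434796062) (nat_lit 228) (nat_lit 1971939259) (nat_lit 304) (nat_lit 6275763981) (nat_lit 56) (nat_lit 5) (nat_lit 59)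 (nat_lit 5) (nat_lit 60) (nat_lit 5) (nat_lit 634) (nat_lit 488) (nat_lit 438))) (XT.nd (nat_lit 78) (nat_lit 76) (nat_lit 0) (XT.lf (nat_lit 0) (nat_lit 2066722213) (nat_lit 152) (nat_lit 10559983284) (nat_lit 228) (nat_lit 1213397015) (nat_lit 54) (nat_lit 5) (nat_lit 56) (nat_lit 5) (nat_lit 57) (nat_lit 4) (nat_lit 635) (nat_lit 488) (nat_lit 437)) (XT.lf (nat_lit 0) (nat_lit 3918086979) (nat_lit 228) (nat_lit 1428120148) (nat_lit 76) (nat_lit 8653745401) (nat_lit 53) (nat_lit 5) (nat_lit 56) (nat_lit 5) (nat_lit 54) (nat_lit 5) (nat_lit 636) (nat_lit 488) (nat_lit 436))))) (XT.nd (nat_lit 234) (nat_lit 532) (nat_lit 0) (XT.nd (nat_lit 78) (nat_lit 380) (nat_lit 0) (XT.lf (nat_lit 0) (nat_lit 9147251928) (nat_lit 304) (nat_lit 5013420611) (nat_lit 76) (nat_lit 1941833) (nat_lit 50) (nat_lit 5) (nat_lit 54) (nat_lit 5) (nat_lit 51) (nat_lit 4) (nat_lit 637) (nat_lit 488) (nat_lit 435)) (XT.nd (nat_lit 78) (nat_lit 152) (nat_lit 0) (XT.lf (nat_lit 0) (nat_lit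 183972744) (nat_lit 228) (nat_lit 8749220112) (nat_lit 76) (nat_lit 5394647931) (nat_lit 47) (nat_lit 5) (nat_lit 50) (nat_lit 5) (nat_lit 48) (nat_lit 5) (nat_lit 638) (nat_lit 488) (nat_lit 434)) (XT.lf (nat_lit 0) (nat_lit 1858704556) (nat_lit 152) (nat_lit 3559496613) (nat_lit 228) (nat_lit 9077547430) (nat_lit 45) (nat_lit 5) (nat_lit 47) (nat_lit 5) (nat_lit 48) (nat_lit 5) (nat_lit 639) (nat_lit 488) (nat_lit 433)))) (XT.nd (nat_lit 156) (nat_lit 304) (nat_lit 0) (XT.nd (nat_lit 78) (nat_lit 228) (nat_lit 0) (XT.lf (nat_lit 0) (nat_lit 10780884043) (nat_lit 228) (nat_lit 1968445447) (nat_lit 76) (nat_lit 1917210801) (nat_lit 45) (nat_lit 5) (nat_lit 48) (nat_lit 5) (nat_lit 46) (nat_lit 4) (nat_lit 640) (nat_lit 488) (nat_lit 432)) (XT.lf (nat_lit 0) (nat_lit 1426434844) (nat_lit 228) (nat_lit 5927897754) (nat_lit 76) (nat_lit 7485536085) (nat_lit 42) (nat_lit 5) (nat_lit 45) (nat_lit 5) (nat_lit 43) (nat_lit 5) (nat_lit 641) (nat_lit 488) (nat_lit 431)))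 (XT.nd (nat_lit 78) (nat_lit 152) (nat_lit 0) (XT.lf (nat_lit 0) (nat_lit 4974218361) (nat_lit 152) (nat_lit 1817350680) (nat_lit 228) (nat_lit 8224605371) (nat_lit 40) (nat_lit 5) (nat_lit 42) (nat_lit 5) (nat_lit 43) (nat_lit 5) (nat_lit 642) (nat_lit 488) (nat_lit 430)) (XT.lf (nat_lit 0) (nat_lit 880337511) (nat_lit 152) (nat_lit 11407601838) (nat_lit 228) (nat_lit 2907589273) (nat_lit 38) (nat_lit 5) (nat_lit 40) (nat_lit 5) (nat_lit 41) (nat_lit 4) (nat_lit 643) (nat_lit 488) (nat_lit 429))))))))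
noncomputable def xc22 : XT := (XT.nd (nat_lit 77844) (nat_lit 0) (nat_lit 3724) (XT.nd (nat_lit 76752) (nat_lit 0) (nat_lit 10640) (XT.nd (nat_lit 468) (nat_lit 228) (nat_lit 0) (XT.nd (nat_lit 234) (nat_lit 304) (nat_lit 0) (XT.nd (nat_lit 78) (nat_lit 304) (nat_lit 0) (XT.lf (nat_lit 0) (nat_lit 2516002212) (nat_lit 228) (nat_lit 3334393152) (nat_lit 76) (nat_lit 9527084272) (nat_lit 37) (nat_lit 5) (nat_lit 40) (nat_lit 5) (nat_lit 38) (nat_lit 5) (nat_lit 644) (nat_lit 488) (nat_lit 428)) (XT.nd (nat_lit 78) (nat_lit 152) (nat_lit 0) (XT.lf (nat_lit 0) (nat_lit 7865954559) (nat_lit 152) (nat_lit 148561509) (nat_lit 228) (nat_lit 7548062532) (nat_lit 35) (nat_lit 5) (nat_lit 37) (nat_lit 5) (nat_lit 38) (nat_lit 5) (nat_lit 645) (nat_lit 488) (nat_lit 427)) (XT.lf (nat_lit 0) (nat_lit 3509577519) (nat_lit 152) (nat_lit 10149912470) (nat_lit 228) (nat_lit 2091160715) (nat_lit 33) (nat_lit 5) (nat_lit 35) (nat_lit 5) (nat_lit 36) (nat_lit 4) (nat_lit 646) (nat_lit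 488) (nat_lit 426)))) (XT.nd (nat_lit 78) (nat_lit 228) (nat_lit 0) (XT.lf (nat_lit 0) (nat_lit 3436714820) (nat_lit 228) (nat_lit 1005241678) (nat_lit 76) (nat_lit 11499929261) (nat_lit 32) (nat_lit 5) (nat_lit 35) (nat_lit 5) (nat_lit 33) (nat_lit 5) (nat_lit 647) (nat_lit 488) (nat_lit 425)) (XT.nd (nat_lit 78) (nat_lit 76) (nat_lit 0) (XT.lf (nat_lit 0) (nat_lit 9079911444) (nat_lit 228) (nat_lit 5648821721) (nat_lit 76) (nat_lit 1407281516) (nat_lit 30) (nat_lit 5) (nat_lit 33) (nat_lit 5) (nat_lit 31) (nat_lit 4) (nat_lit 648) (nat_lit 488) (nat_lit 424)) (XT.lf (nat_lit 0) (nat_lit 5853938226) (nat_lit 76) (nat_lit 9011676865) (nat_lit 152) (nat_lit 1467819113) (nat_lit 29) (nat_lit 5) (nat_lit 30) (nat_lit 5) (nat_lit 31) (nat_lit 4) (nat_lit 649) (nat_lit 488) (nat_lit 423))))) (XT.nd (nat_lit 75972) (nat_lit 0) (nat_lit 16416) (XT.nd (nat_lit 78) (nat_lit 0) (nat_lit 0) (XT.lf (nat_lit 0) (nat_lit 1032455827) (nat_lit 152) (nat_lit 3144605031) (nat_lit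 228) (nat_lit 12357185808) (nat_lit 26) (nat_lit 5) (nat_lit 28) (nat_lit 5) (nat_lit 29) (nat_lit 5) (nat_lit 650) (nat_lit 488) (nat_lit 422)) (XT.nd (nat_lit 75816) (nat_lit 0) (nat_lit 18164) (XT.lf (nat_lit 0) (nat_lit 9959998814) (nat_lit 228) (nat_lit 3932325131) (nat_lit 76) (nat_lit 2845661930) (nat_lit 26) (nat_lit 5) (nat_lit 29) (nat_lit 5) (nat_lit 27) (nat_lit 4) (nat_lit 651) (nat_lit 488) (nat_lit 421)) (XT.lf (nat_lit 0) (nat_lit 53030375) (nat_lit 608) (nat_lit 2049171467) (nat_lit 608) (nat_lit 2049171467) (nat_lit 265) (nat_lit 4) (nat_lit 273) (nat_lit 5) (nat_lit 273) (nat_lit 4) (nat_lit 582) (nat_lit 489) (nat_lit 489)))) (XT.nd (nat_lit 156) (nat_lit 1140) (nat_lit 0) (XT.nd (nat_lit 78) (nat_lit 608) (nat_lit 0) (XT.lf (nat_lit 0) (nat_lit 7181962743) (nat_lit 608) (nat_lit 1150176801) (nat_lit 608) (nat_lit 32578647) (nat_lit 265) (nat_lit 4) (nat_lit 273) (nat_lit 5) (nat_lit 273) (nat_lit 4) (nat_lit 583) (nat_lit 489) (nat_lit 488))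 (XT.lf (nat_lit 0) (nat_lit 4043372785) (nat_lit 608) (nat_lit 2510882833) (nat_lit 0) (nat_lit 1873487864) (nat_lit 257) (nat_lit 5) (nat_lit 265) (nat_lit 4) (nat_lit 257) (nat_lit 4) (nat_lit 584) (nat_lit 489) (nat_lit 487))) (XT.nd (nat_lit 78) (nat_lit 608) (nat_lit 0) (XT.lf (nat_lit 0) (nat_lit 4641979437) (nat_lit 532) (nat_lit 3536753397) (nat_lit 532) (nat_lit 313730775) (nat_lit 250) (nat_lit 4) (nat_lit 257) (nat_lit 5) (nat_lit 257) (nat_lit 4) (nat_lit 585) (nat_lit 489) (nat_lit 486)) (XT.lf (nat_lit 0) (nat_lit 3338619666) (nat_lit 532) (nat_lit 420850744) (nat_lit 608) (nat_lit 4799084485) (nat_lit 242) (nat_lit 5) (nat_lit 249) (nat_lit 5) (nat_lit 250) (nat_lit 4) (nat_lit 586) (nat_lit 489) (nat_lit 485)))))) (XT.nd (nat_lit 546) (nat_lit 2660) (nat_lit 0) (XT.nd (nat_lit 234) (nat_lit 2052) (nat_lit 0) (XT.nd (nat_lit 78) (nat_lit 532) (nat_lit 0) (XT.lf (nat_lit 0) (nat_lit 2009989479) (nat_lit 532) (nat_lit 5890299591) (nat_lit 532) (nat_lit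 725835232) (nat_lit 235) (nat_lit 4) (nat_lit 242) (nat_lit 5) (nat_lit 242) (nat_lit 4) (nat_lit 587) (nat_lit 489) (nat_lit 484)) (XT.nd (nat_lit 78) (nat_lit 0) (nat_lit 0) (XT.lf (nat_lit 0) (nat_lit 649427388) (nat_lit 456) (nat_lit 2710388549) (nat_lit 532) (nat_lit 5335270428) (nat_lit 228) (nat_lit 5) (nat_lit 234) (nat_lit 5) (nat_lit 235) (nat_lit 4) (nat_lit 588) (nat_lit 489) (nat_lit 483)) (XT.lf (nat_lit 0) (nat_lit 7499772038) (nat_lit 532) (nat_lit 718361751) (nat_lit 0) (nat_lit 547556283) (nat_lit 228) (nat_lit 5) (nat_lit 235) (nat_lit 4) (nat_lit 228) (nat_lit 4) (nat_lit 589) (nat_lit 489) (nat_lit 482)))) (XT.nd (nat_lit 156) (nat_lit 988) (nat_lit 0) (XT.nd (nat_lit 78) (nat_lit 456) (nat_lit 0) (XT.lf (nat_lit 0) (nat_lit 2844063782) (nat_lit 608) (nat_lit 2124026659) (nat_lit 76) (nat_lit 3869303660) (nat_lit 220) (nat_lit 5) (nat_lit 228) (nat_lit 5) (nat_lit 221) (nat_lit 4) (nat_lit 590) (nat_lit 489) (nat_lit 481)) (XT.lf (nat_lit 0)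 (nat_lit 5361310701) (nat_lit 456) (nat_lit 1633337362) (nat_lit 532) (nat_lit 1916214034) (nat_lit 214) (nat_lit 5) (nat_lit 220) (nat_lit 5) (nat_lit 221) (nat_lit 4) (nat_lit 591) (nat_lit 489) (nat_lit 480))) (XT.nd (nat_lit 78) (nat_lit 456) (nat_lit 0) (XT.lf (nat_lit 0) (nat_lit 2200801565) (nat_lit 532) (nat_lit 5014279765) (nat_lit 76) (nat_lit 1770675738) (nat_lit 207) (nat_lit 5) (nat_lit 214) (nat_lit 5) (nat_lit 208) (nat_lit 4) (nat_lit 592) (nat_lit 489) (nat_lit 479)) (XT.lf (nat_lit 0) (nat_lit 2544755128) (nat_lit 456) (nat_lit 3817449714) (nat_lit 532) (nat_lit 2699941724) (nat_lit 201) (nat_lit 5) (nat_lit 207) (nat_lit 5) (nat_lit 208) (nat_lit 4) (nat_lit 593) (nat_lit 489) (nat_lit 478))))) (XT.nd (nat_lit 234) (nat_lit 1672) (nat_lit 0) (XT.nd (nat_lit 78) (nat_lit 456) (nat_lit 0) (XT.lf (nat_lit 0) (nat_lit 1093596996) (nat_lit 456) (nat_lit 331493587) (nat_lit 532) (nat_lit 7715235607) (nat_lit 194) (nat_lit 5) (nat_lit 200) (nat_lit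 5) (nat_lit 201) (nat_lit 5) (nat_lit 594) (nat_lit 489) (nat_lit 477)) (XT.nd (nat_lit 78) (nat_lit 456) (nat_lit 0) (XT.lf (nat_lit 0) (nat_lit 5598478396) (nat_lit 532) (nat_lit 408132700) (nat_lit 76) (nat_lit 3213065063) (nat_lit 194) (nat_lit 5) (nat_lit 201) (nat_lit 5) (nat_lit 195) (nat_lit 4) (nat_lit 595) (nat_lit 489) (nat_lit 476)) (XT.lf (nat_lit 0) (nat_lit 535757141) (nat_lit 456) (nat_lit 1919602898) (nat_lit 76) (nat_lit 6845418506) (nat_lit 188) (nat_lit 5) (nat_lit 194) (nat_lit 5) (nat_lit 189) (nat_lit 5) (nat_lit 596) (nat_lit 489) (nat_lit 475)))) (XT.nd (nat_lit 156) (nat_lit 836) (nat_lit 0) (XT.nd (nat_lit 78) (nat_lit 380) (nat_lit 0) (XT.lf (nat_lit 0) (nat_lit 4714780335) (nat_lit 532) (nat_lit 3482721797) (nat_lit 76) (nat_lit 1185777390) (nat_lit 182) (nat_lit 5) (nat_lit 189) (nat_lit 5) (nat_lit 183) (nat_lit 4) (nat_lit 597) (nat_lit 489) (nat_lit 474)) (XT.lf (nat_lit 0) (nat_lit 4383379092) (nat_lit 380) (nat_lit 4590542393)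 (nat_lit 456) (nat_lit 493581820) (nat_lit 177) (nat_lit 5) (nat_lit 182) (nat_lit 5) (nat_lit 183) (nat_lit 4) (nat_lit 598) (nat_lit 489) (nat_lit 473))) (XT.nd (nat_lit 78) (nat_lit 380) (nat_lit 0) (XT.lf (nat_lit 0) (nat_lit 2819516965) (nat_lit 380) (nat_lit 876812463) (nat_lit 456) (nat_lit 5856979219) (nat_lit 171) (nat_lit 5) (nat_lit 176) (nat_lit 5) (nat_lit 177) (nat_lit 5) (nat_lit 599) (nat_lit 489) (nat_lit 472)) (XT.lf (nat_lit 0) (nat_lit 1209153134) (nat_lit 380) (nat_lit 6754793721) (nat_lit 456) (nat_lit 1676810981) (nat_lit 166) (nat_lit 5) (nat_lit 171) (nat_lit 5) (nat_lit 172) (nat_lit 4) (nat_lit 600) (nat_lit 489) (nat_lit 471))))))) (XT.nd (nat_lit 1014) (nat_lit 3116) (nat_lit 0) (XT.nd (nat_lit 468) (nat_lit 1748) (nat_lit 0) (XT.nd (nat_lit 234) (nat_lit 1140) (nat_lit 0) (XT.nd (nat_lit 78) (nat_lit 836) (nat_lit 0) (XT.lf (nat_lit 0) (nat_lit 2543920176) (nat_lit 456) (nat_lit 444213722) (nat_lit 76) (nat_lit 6741671629) (nat_lit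 165) (nat_lit 5) (nat_lit 171) (nat_lit 5) (nat_lit 166) (nat_lit 5) (nat_lit 601) (nat_lit 489) (nat_lit 470)) (XT.nd (nat_lit 78) (nat_lit 456) (nat_lit 0) (XT.lf (nat_lit 0) (nat_lit 6823139687) (nat_lit 456) (nat_lit 2126163318) (nat_lit 76) (nat_lit 871182109) (nat_lit 160) (nat_lit 5) (nat_lit 166) (nat_lit 5) (nat_lit 161) (nat_lit 4) (nat_lit 602) (nat_lit 489) (nat_lit 469)) (XT.lf (nat_lit 0) (nat_lit 1261493351) (nat_lit 456) (nat_lit 3865868614) (nat_lit 76) (nat_lit 4785388797) (nat_lit 154) (nat_lit 5) (nat_lit 160) (nat_lit 5) (nat_lit 155) (nat_lit 5) (nat_lit 603) (nat_lit 489) (nat_lit 468)))) (XT.nd (nat_lit 78) (nat_lit 760) (nat_lit 0) (XT.lf (nat_lit 0) (nat_lit 4349570811) (nat_lit 380) (nat_lit 1199735163) (nat_lit 456) (nat_lit 4457483829) (nat_lit 149) (nat_lit 5) (nat_lit 154) (nat_lit 5) (nat_lit 155) (nat_lit 5) (nat_lit 604) (nat_lit 489) (nat_lit 467)) (XT.nd (nat_lit 78) (nat_lit 456) (nat_lit 0) (XT.lf (nat_lit 0) (nat_lit 2601767812)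 (nat_lit 304) (nat_lit 7323953055) (nat_lit 380) (nat_lit 176934739) (nat_lit 145) (nat_lit 5) (nat_lit 149) (nat_lit 5) (nat_lit 150) (nat_lit 4) (nat_lit 605) (nat_lit 489) (nat_lit 466)) (XT.lf (nat_lit 0) (nat_lit 784174321) (nat_lit 380) (nat_lit 3343133901) (nat_lit 456) (nat_lit 6072728800) (nat_lit 139) (nat_lit 5) (nat_lit 144) (nat_lit 5) (nat_lit 145) (nat_lit 5) (nat_lit 606) (nat_lit 489) (nat_lit 465))))) (XT.nd (nat_lit 234) (nat_lit 1064) (nat_lit 0) (XT.nd (nat_lit 78) (nat_lit 684) (nat_lit 0) (XT.lf (nat_lit 0) (nat_lit 8512677007) (nat_lit 456) (nat_lit 1061872648) (nat_lit 76) (nat_lit 724847552) (nat_lit 139) (nat_lit 5) (nat_lit 145) (nat_lit 5) (nat_lit 140) (nat_lit 4) (nat_lit 607) (nat_lit 489) (nat_lit 464)) (XT.nd (nat_lit 78) (nat_lit 304) (nat_lit 0) (XT.lf (nat_lit 0) (nat_lit 2564873663) (nat_lit 380) (nat_lit 2974803000) (nat_lit 76) (nat_lit 4860459529) (nat_lit 134) (nat_lit 5) (nat_lit 139) (nat_lit 5) (nat_lit 135) (nat_lit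 5) (nat_lit 608) (nat_lit 489) (nat_lit 463)) (XT.lf (nat_lit 0) (nat_lit 5562734245) (nat_lit 304) (nat_lit 1403515300) (nat_lit 380) (nat_lit 3536673298) (nat_lit 130) (nat_lit 5) (nat_lit 134) (nat_lit 5) (nat_lit 135) (nat_lit 5) (nat_lit 609) (nat_lit 489) (nat_lit 462)))) (XT.nd (nat_lit 156) (nat_lit 380) (nat_lit 0) (XT.nd (nat_lit 78) (nat_lit 304) (nat_lit 0) (XT.lf (nat_lit 0) (nat_lit 842461385) (nat_lit 380) (nat_lit 6972437893) (nat_lit 76) (nat_lit 2792644446) (nat_lit 125) (nat_lit 5) (nat_lit 130) (nat_lit 5) (nat_lit 126) (nat_lit 5) (nat_lit 610) (nat_lit 489) (nat_lit 461)) (XT.lf (nat_lit 0) (nat_lit 1631033321) (nat_lit 304) (nat_lit 3627871422) (nat_lit 380) (nat_lit 5454945519) (nat_lit 121) (nat_lit 5) (nat_lit 125) (nat_lit 5) (nat_lit 126) (nat_lit 5) (nat_lit 611) (nat_lit 489) (nat_lit 460))) (XT.nd (nat_lit 78) (nat_lit 380) (nat_lit 0) (XT.lf (nat_lit 0) (nat_lit 9759000291) (nat_lit 380) (nat_lit 417714193) (nat_lit 76) (nat_lit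 645664359) (nat_lit 121) (nat_lit 5) (nat_lit 126) (nat_lit 5) (nat_lit 122) (nat_lit 4) (nat_lit 612) (nat_lit 489) (nat_lit 459)) (XT.lf (nat_lit 0) (nat_lit 3395188320) (nat_lit 380) (nat_lit 2539047179) (nat_lit 76) (nat_lit 4997921800) (nat_lit 116) (nat_lit 5) (nat_lit 121) (nat_lit 5) (nat_lit 117) (nat_lit 5) (nat_lit 613) (nat_lit 489) (nat_lit 458)))))) (XT.nd (nat_lit 546) (nat_lit 1292) (nat_lit 0) (XT.nd (nat_lit 234) (nat_lit 912) (nat_lit 0) (XT.nd (nat_lit 78) (nat_lit 608) (nat_lit 0) (XT.lf (nat_lit 0) (nat_lit 6326371388) (nat_lit 304) (nat_lit 1591499479) (nat_lit 380) (nat_lit 3126338459) (nat_lit 112) (nat_lit 5) (nat_lit 116) (nat_lit 5) (nat_lit 117) (nat_lit 5) (nat_lit 614) (nat_lit 489) (nat_lit 457)) (XT.nd (nat_lit 78) (nat_lit 304) (nat_lit 0) (XT.lf (nat_lit 0) (nat_lit 1362861452) (nat_lit 304) (nat_lit 6977061540) (nat_lit 76) (nat_lit 2818236186) (nat_lit 108) (nat_lit 5) (nat_lit 112) (nat_lit 5) (nat_lit 109) (nat_lit 5) (nat_lit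 615) (nat_lit 489) (nat_lit 456)) (XT.lf (nat_lit 0) (nat_lit 1950689062) (nat_lit 304) (nat_lit 3950046429) (nat_lit 380) (nat_lit 5373226309) (nat_lit 104) (nat_lit 5) (nat_lit 108) (nat_lit 5) (nat_lit 109) (nat_lit 5) (nat_lit 616) (nat_lit 489) (nat_lit 455)))) (XT.nd (nat_lit 156) (nat_lit 608) (nat_lit 0) (XT.nd (nat_lit 78) (nat_lit 304) (nat_lit 0) (XT.lf (nat_lit 0) (nat_lit 10525794973) (nat_lit 380) (nat_lit 335194414) (nat_lit 76) (nat_lit 531164602) (nat_lit 104) (nat_lit 5) (nat_lit 109) (nat_lit 5) (nat_lit 105) (nat_lit 4) (nat_lit 617) (nat_lit 489) (nat_lit 454)) (XT.lf (nat_lit 0) (nat_lit 3712354861) (nat_lit 304) (nat_lit 2704287524) (nat_lit 76) (nat_lit 5094972444) (nat_lit 100) (nat_lit 5) (nat_lit 104) (nat_lit 5) (nat_lit 101) (nat_lit 5) (nat_lit 618) (nat_lit 489) (nat_lit 453))) (XT.nd (nat_lit 78) (nat_lit 304) (nat_lit 0) (XT.lf (nat_lit 0) (nat_lit 6493031569) (nat_lit 304) (nat_lit 1869485923) (nat_lit 380) (nat_lit 3271005314)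 (nat_lit 96) (nat_lit 5) (nat_lit 100) (nat_lit 5) (nat_lit 101) (nat_lit 5) (nat_lit 619) (nat_lit 489) (nat_lit 452)) (XT.lf (nat_lit 0) (nat_lit 1340315774) (nat_lit 304) (nat_lit 7667793017) (nat_lit 76) (nat_lit 2749383447) (nat_lit 92) (nat_lit 5) (nat_lit 96) (nat_lit 5) (nat_lit 93) (nat_lit 5) (nat_lit 620) (nat_lit 489) (nat_lit 451))))) (XT.nd (nat_lit 234) (nat_lit 760) (nat_lit 0) (XT.nd (nat_lit 78) (nat_lit 304) (nat_lit 0) (XT.lf (nat_lit 0) (nat_lit 1586943950) (nat_lit 228) (nat_lit 4417930990) (nat_lit 304) (nat_lit 5878539323) (nat_lit 89) (nat_lit 5) (nat_lit 92) (nat_lit 5) (nat_lit 93) (nat_lit 5) (nat_lit 621) (nat_lit 489) (nat_lit 450)) (XT.nd (nat_lit 78) (nat_lit 304) (nat_lit 0) (XT.lf (nat_lit 0) (nat_lit 10763800075) (nat_lit 304) (nat_lit 972891972) (nat_lit 76) (nat_lit 275142989) (nat_lit 89) (nat_lit 5) (nat_lit 93) (nat_lit 5) (nat_lit 90) (nat_lit 4) (nat_lit 622) (nat_lit 489) (nat_lit 449)) (XT.lf (nat_lit 0) (nat_lit 3462960093)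 (nat_lit 304) (nat_lit 3634107146) (nat_lit 76) (nat_lit 5044638331) (nat_lit 85) (nat_lit 5) (nat_lit 89) (nat_lit 5) (nat_lit 86) (nat_lit 5) (nat_lit 623) (nat_lit 489) (nat_lit 448)))) (XT.nd (nat_lit 156) (nat_lit 228) (nat_lit 0) (XT.nd (nat_lit 78) (nat_lit 304) (nat_lit 0) (XT.lf (nat_lit 0) (nat_lit 5896827784) (nat_lit 228) (nat_lit 2348197519) (nat_lit 304) (nat_lit 4029113692) (nat_lit 82) (nat_lit 5) (nat_lit 85) (nat_lit 5) (nat_lit 86) (nat_lit 5) (nat_lit 624) (nat_lit 489) (nat_lit 447)) (XT.lf (nat_lit 0) (nat_lit 714592746) (nat_lit 304) (nat_lit 9218501077) (nat_lit 76) (nat_lit 2475827451) (nat_lit 78) (nat_lit 5) (nat_lit 82) (nat_lit 5) (nat_lit 79) (nat_lit 5) (nat_lit 625) (nat_lit 489) (nat_lit 446))) (XT.nd (nat_lit 78) (nat_lit 0) (nat_lit 0) (XT.lf (nat_lit 0) (nat_lit 363329425) (nat_lit 228) (nat_lit 5145898132) (nat_lit 304) (nat_lit 7036440513) (nat_lit 75) (nat_lit 5) (nat_lit 78) (nat_lit 5) (nat_lit 79) (nat_lit 5) (nat_lit 626)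 (nat_lit 489) (nat_lit 445)) (XT.lf (nat_lit 0) (nat_lit 10173015912) (nat_lit 228) (nat_lit 237989839) (nat_lit 304) (nat_lit 2273920607) (nat_lit 75) (nat_lit 5) (nat_lit 78) (nat_lit 5) (nat_lit 79) (nat_lit 5) (nat_lit 627) (nat_lit 489) (nat_lit 444))))))))
noncomputable def xc23 : XT := (XT.nd (nat_lit 77766) (nat_lit 0) (nat_lit 7372) (XT.nd (nat_lit 1014) (nat_lit 1292) (nat_lit 0) (XT.nd (nat_lit 468) (nat_lit 1064) (nat_lit 0) (XT.nd (nat_lit 234) (nat_lit 532) (nat_lit 0) (XT.nd (nat_lit 78) (nat_lit 380) (nat_lit 0) (XT.lf (nat_lit 0) (nat_lit 2578834301) (nat_lit 304) (nat_lit 5514020261) (nat_lit 76) (nat_lit 4733203792) (nat_lit 71) (nat_lit 5) (nat_lit 75) (nat_lit 5) (nat_lit 72) (nat_lit 5) (nat_lit 628) (nat_lit 489) (nat_lit 443)) (XT.nd (nat_lit 78) (nat_lit 152) (nat_lit 0) (XT.lf (nat_lit 0) (nat_lit 4349297645) (nat_lit 228) (nat_lit 3145931863) (nat_lit 304) (nat_lit 5474543689) (nat_lit 68) (nat_lit 5) (nat_lit 71) (nat_lit 5) (nat_lit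 72) (nat_lit 5) (nat_lit 629) (nat_lit 489) (nat_lit 442)) (XT.lf (nat_lit 0) (nat_lit 1285277952) (nat_lit 152) (nat_lit 11232987705) (nat_lit 228) (nat_lit 597931872) (nat_lit 66) (nat_lit 5) (nat_lit 68) (nat_lit 5) (nat_lit 69) (nat_lit 4) (nat_lit 630) (nat_lit 489) (nat_lit 441)))) (XT.nd (nat_lit 78) (nat_lit 456) (nat_lit 0) (XT.lf (nat_lit 0) (nat_lit 4348345851) (nat_lit 228) (nat_lit 1896106811) (nat_lit 76) (nat_lit 7019940244) (nat_lit 65) (nat_lit 5) (nat_lit 68) (nat_lit 5) (nat_lit 66) (nat_lit 5) (nat_lit 631) (nat_lit 489) (nat_lit 440)) (XT.nd (nat_lit 78) (nat_lit 228) (nat_lit 0) (XT.lf (nat_lit 0) (nat_lit 8255357594) (nat_lit 228) (nat_lit 1135226741) (nat_lit 304) (nat_lit 4024789344) (nat_lit 62) (nat_lit 5) (nat_lit 65) (nat_lit 5) (nat_lit 66) (nat_lit 5) (nat_lit 632) (nat_lit 489) (nat_lit 439)) (XT.lf (nat_lit 0) (nat_lit 975247833) (nat_lit 228) (nat_lit 8556118111) (nat_lit 76) (nat_lit 4037412199) (nat_lit 59) (nat_lit 5) (nat_lit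 62) (nat_lit 5) (nat_lit 60) (nat_lit 5) (nat_lit 633) (nat_lit 489) (nat_lit 438))))) (XT.nd (nat_lit 234) (nat_lit 608) (nat_lit 0) (XT.nd (nat_lit 78) (nat_lit 228) (nat_lit 0) (XT.lf (nat_lit 0) (nat_lit 1634631483) (nat_lit 228) (nat_lit 4391457434) (nat_lit 304) (nat_lit 7698537087) (nat_lit 56) (nat_lit 5) (nat_lit 59) (nat_lit 5) (nat_lit 60) (nat_lit 5) (nat_lit 634) (nat_lit 489) (nat_lit 437)) (XT.nd (nat_lit 78) (nat_lit 228) (nat_lit 0) (XT.lf (nat_lit 0) (nat_lit 11193070125) (nat_lit 304) (nat_lit 1829898981) (nat_lit 76) (nat_lit 860320514) (nat_lit 56) (nat_lit 5) (nat_lit 60) (nat_lit 5) (nat_lit 57) (nat_lit 4) (nat_lit 635) (nat_lit 489) (nat_lit 436)) (XT.lf (nat_lit 0) (nat_lit 2424687021) (nat_lit 228) (nat_lit 5425787781) (nat_lit 76) (nat_lit 6193576129) (nat_lit 53) (nat_lit 5) (nat_lit 56) (nat_lit 5) (nat_lit 54) (nat_lit 5) (nat_lit 636) (nat_lit 489) (nat_lit 435)))) (XT.nd (nat_lit 156) (nat_lit 228) (nat_lit 0) (XT.nd (nat_lit 78)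 (nat_lit 152) (nat_lit 0) (XT.lf (nat_lit 0) (nat_lit 5055726548) (nat_lit 228) (nat_lit 2548174535) (nat_lit 304) (nat_lit 6603811300) (nat_lit 50) (nat_lit 5) (nat_lit 53) (nat_lit 5) (nat_lit 54) (nat_lit 5) (nat_lit 637) (nat_lit 489) (nat_lit 434)) (XT.lf (nat_lit 0) (nat_lit 1360302704) (nat_lit 152) (nat_lit 11543393088) (nat_lit 228) (nat_lit 1470612511) (nat_lit 48) (nat_lit 5) (nat_lit 50) (nat_lit 5) (nat_lit 51) (nat_lit 4) (nat_lit 638) (nat_lit 489) (nat_lit 433))) (XT.nd (nat_lit 78) (nat_lit 152) (nat_lit 0) (XT.lf (nat_lit 0) (nat_lit 3747570917) (nat_lit 228) (nat_lit 2463133684) (nat_lit 76) (nat_lit 8332409678) (nat_lit 47) (nat_lit 5) (nat_lit 50) (nat_lit 5) (nat_lit 48) (nat_lit 5) (nat_lit 639) (nat_lit 489) (nat_lit 432)) (XT.lf (nat_lit 0) (nat_lit 8314442432) (nat_lit 152) (nat_lit 743912724) (nat_lit 228) (nat_lit 5656589332) (nat_lit 45) (nat_lit 5) (nat_lit 47) (nat_lit 5) (nat_lit 48) (nat_lit 5) (nat_lit 640) (nat_lit 489) (nat_lit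 431)))))) (XT.nd (nat_lit 546) (nat_lit 304) (nat_lit 0) (XT.nd (nat_lit 234) (nat_lit 608) (nat_lit 0) (XT.nd (nat_lit 78) (nat_lit 228) (nat_lit 0) (XT.lf (nat_lit 0) (nat_lit 4393473522) (nat_lit 152) (nat_lit 10112468070) (nat_lit 228) (nat_lit 383659058) (nat_lit 43) (nat_lit 5) (nat_lit 45) (nat_lit 5) (nat_lit 46) (nat_lit 4) (nat_lit 641) (nat_lit 489) (nat_lit 430)) (XT.nd (nat_lit 78) (nat_lit 0) (nat_lit 0) (XT.lf (nat_lit 0) (nat_lit 305766210) (nat_lit 152) (nat_lit 4627710562) (nat_lit 228) (nat_lit 10133540540) (nat_lit 40) (nat_lit 5) (nat_lit 42) (nat_lit 5) (nat_lit 43) (nat_lit 5) (nat_lit 642) (nat_lit 489) (nat_lit 429)) (XT.lf (nat_lit 0) (nat_lit 10383221857) (nat_lit 228) (nat_lit 3873799931) (nat_lit 76) (nat_lit 990282742) (nat_lit 40) (nat_lit 5) (nat_lit 43) (nat_lit 5) (nat_lit 41) (nat_lit 4) (nat_lit 643) (nat_lit 489) (nat_lit 428)))) (XT.nd (nat_lit 156) (nat_lit 228) (nat_lit 0) (XT.nd (nat_lit 78) (nat_lit 152) (nat_lit 0) (XT.lf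 (nat_lit 0) (nat_lit 536878515) (nat_lit 228) (nat_lit 8220996660) (nat_lit 76) (nat_lit 6672600711) (nat_lit 37) (nat_lit 5) (nat_lit 40) (nat_lit 5) (nat_lit 38) (nat_lit 5) (nat_lit 644) (nat_lit 489) (nat_lit 427)) (XT.lf (nat_lit 0) (nat_lit 2873112843) (nat_lit 152) (nat_lit 3107670770) (nat_lit 228) (nat_lit 9635883885) (nat_lit 35) (nat_lit 5) (nat_lit 37) (nat_lit 5) (nat_lit 38) (nat_lit 5) (nat_lit 645) (nat_lit 489) (nat_lit 426))) (XT.nd (nat_lit 78) (nat_lit 228) (nat_lit 0) (XT.lf (nat_lit 0) (nat_lit 11561618963) (nat_lit 228) (nat_lit 1604978343) (nat_lit 76) (nat_lit 2639425532) (nat_lit 35) (nat_lit 5) (nat_lit 38) (nat_lit 5) (nat_lit 36) (nat_lit 4) (nat_lit 646) (nat_lit 489) (nat_lit 425)) (XT.lf (nat_lit 0) (nat_lit 1278968224) (nat_lit 228) (nat_lit 6223494830) (nat_lit 76) (nat_lit 8495729764) (nat_lit 32) (nat_lit 5) (nat_lit 35) (nat_lit 5) (nat_lit 33) (nat_lit 5) (nat_lit 647) (nat_lit 489) (nat_lit 424))))) (XT.nd (nat_lit 75894)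 (nat_lit 0) (nat_lit 17936) (XT.nd (nat_lit 78) (nat_lit 152) (nat_lit 0) (XT.lf (nat_lit 0) (nat_lit 5168469356) (nat_lit 152) (nat_lit 1688162074) (nat_lit 228) (nat_lit 9337001416) (nat_lit 30) (nat_lit 5) (nat_lit 32) (nat_lit 5) (nat_lit 33) (nat_lit 5) (nat_lit 648) (nat_lit 489) (nat_lit 423)) (XT.nd (nat_lit 78) (nat_lit 76) (nat_lit 0) (XT.lf (nat_lit 0) (nat_lit 376638377) (nat_lit 76) (nat_lit 12197541143) (nat_lit 152) (nat_lit 3818236389) (nat_lit 29) (nat_lit 5) (nat_lit 30) (nat_lit 5) (nat_lit 31) (nat_lit 4) (nat_lit 649) (nat_lit 489) (nat_lit 422)) (XT.lf (nat_lit 0) (nat_lit 1829156768) (nat_lit 152) (nat_lit 4542212966) (nat_lit 76) (nat_lit 10222730518) (nat_lit 28) (nat_lit 5) (nat_lit 30) (nat_lit 5) (nat_lit 29) (nat_lit 5) (nat_lit 650) (nat_lit 489) (nat_lit 421)))) (XT.nd (nat_lit 156) (nat_lit 684) (nat_lit 0) (XT.nd (nat_lit 78) (nat_lit 684) (nat_lit 0) (XT.lf (nat_lit 0) (nat_lit 1361607352) (nat_lit 608) (nat_lit 1364837185) (nat_lit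 608) (nat_lit 1364837185) (nat_lit 282) (nat_lit 4) (nat_lit 290) (nat_lit 5) (nat_lit 290) (nat_lit 4) (nat_lit 580) (nat_lit 490) (nat_lit 490)) (XT.lf (nat_lit 0) (nat_lit 1274967791) (nat_lit 684) (nat_lit 6832461794) (nat_lit 0) (nat_lit 135017674) (nat_lit 273) (nat_lit 5) (nat_lit 282) (nat_lit 4) (nat_lit 273) (nat_lit 4) (nat_lit 581) (nat_lit 490) (nat_lit 489))) (XT.nd (nat_lit 78) (nat_lit 76) (nat_lit 0) (XT.lf (nat_lit 0) (nat_lit 59522720) (nat_lit 608) (nat_lit 5250728465) (nat_lit 608) (nat_lit 2993180194) (nat_lit 265) (nat_lit 4) (nat_lit 273) (nat_lit 5) (nat_lit 273) (nat_lit 4) (nat_lit 582) (nat_lit 490) (nat_lit 488)) (XT.lf (nat_lit 0) (nat_lit 1024858984) (nat_lit 684) (nat_lit 1283017586) (nat_lit 76) (nat_lit 6058062863) (nat_lit 264) (nat_lit 5) (nat_lit 273) (nat_lit 5) (nat_lit 265) (nat_lit 4) (nat_lit 583) (nat_lit 490) (nat_lit 487))))))) (XT.nd (nat_lit 1092) (nat_lit 4332) (nat_lit 0) (XT.nd (nat_lit 546) (nat_lit 2888) (nat_lit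 0) (XT.nd (nat_lit 234) (nat_lit 1672) (nat_lit 0) (XT.nd (nat_lit 78) (nat_lit 1140) (nat_lit 0) (XT.lf (nat_lit 0) (nat_lit 5058826392) (nat_lit 608) (nat_lit 2652762171) (nat_lit 0) (nat_lit 718205616) (nat_lit 257) (nat_lit 5) (nat_lit 265) (nat_lit 4) (nat_lit 257) (nat_lit 4) (nat_lit 584) (nat_lit 490) (nat_lit 486)) (XT.nd (nat_lit 78) (nat_lit 532) (nat_lit 0) (XT.lf (nat_lit 0) (nat_lit 656314272) (nat_lit 608) (nat_lit 4047353887) (nat_lit 76) (nat_lit 3791441373) (nat_lit 249) (nat_lit 5) (nat_lit 257) (nat_lit 5) (nat_lit 250) (nat_lit 4) (nat_lit 585) (nat_lit 490) (nat_lit 485)) (XT.lf (nat_lit 0) (nat_lit 3090876594) (nat_lit 532) (nat_lit 1600325580) (nat_lit 608) (nat_lit 3870644282) (nat_lit 242) (nat_lit 5) (nat_lit 249) (nat_lit 5) (nat_lit 250) (nat_lit 4) (nat_lit 586) (nat_lit 490) (nat_lit 484)))) (XT.nd (nat_lit 156) (nat_lit 608) (nat_lit 0) (XT.nd (nat_lit 78) (nat_lit 456) (nat_lit 0) (XT.lf (nat_lit 0) (nat_lit 157777456) (nat_lit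 608) (nat_lit 6914374809) (nat_lit 76) (nat_lit 1558083005) (nat_lit 234) (nat_lit 5) (nat_lit 242) (nat_lit 5) (nat_lit 235) (nat_lit 4) (nat_lit 587) (nat_lit 490) (nat_lit 483)) (XT.lf (nat_lit 0) (nat_lit 295859191) (nat_lit 456) (nat_lit 3903548593) (nat_lit 532) (nat_lit 4500387590) (nat_lit 228) (nat_lit 5) (nat_lit 234) (nat_lit 5) (nat_lit 235) (nat_lit 4) (nat_lit 588) (nat_lit 490) (nat_lit 482))) (XT.nd (nat_lit 78) (nat_lit 608) (nat_lit 0) (XT.lf (nat_lit 0) (nat_lit 7651758508) (nat_lit 456) (nat_lit 652132176) (nat_lit 532) (nat_lit 467220082) (nat_lit 228) (nat_lit 5) (nat_lit 234) (nat_lit 5) (nat_lit 235) (nat_lit 4) (nat_lit 589) (nat_lit 490) (nat_lit 481)) (XT.lf (nat_lit 0) (nat_lit 3593553428) (nat_lit 608) (nat_lit 2583100917) (nat_lit 76) (nat_lit 2666833534) (nat_lit 220) (nat_lit 5) (nat_lit 228) (nat_lit 5) (nat_lit 221) (nat_lit 4) (nat_lit 590) (nat_lit 490) (nat_lit 480))))) (XT.nd (nat_lit 234) (nat_lit 1444) (nat_lit 0) (XT.nd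 (nat_lit 78) (nat_lit 988) (nat_lit 0) (XT.lf (nat_lit 0) (nat_lit 4850093291) (nat_lit 456) (nat_lit 2859506041) (nat_lit 532) (nat_lit 1208049404) (nat_lit 214) (nat_lit 5) (nat_lit 220) (nat_lit 5) (nat_lit 221) (nat_lit 4) (nat_lit 591) (nat_lit 490) (nat_lit 479)) (XT.nd (nat_lit 78) (nat_lit 456) (nat_lit 0) (XT.lf (nat_lit 0) (nat_lit 2856784593) (nat_lit 532) (nat_lit 5589331478) (nat_lit 76) (nat_lit 547195567) (nat_lit 207) (nat_lit 5) (nat_lit 214) (nat_lit 5) (nat_lit 208) (nat_lit 4) (nat_lit 592) (nat_lit 490) (nat_lit 478)) (XT.lf (nat_lit 0) (nat_lit 1915673821) (nat_lit 456) (nat_lit 5067545024) (nat_lit 532) (nat_lit 2087183643) (nat_lit 201) (nat_lit 5) (nat_lit 207) (nat_lit 5) (nat_lit 208) (nat_lit 4) (nat_lit 593) (nat_lit 490) (nat_lit 477)))) (XT.nd (nat_lit 156) (nat_lit 912) (nat_lit 0) (XT.nd (nat_lit 78) (nat_lit 0) (nat_lit 0) (XT.lf (nat_lit 0) (nat_lit 397259919) (nat_lit 456) (nat_lit 1597252538) (nat_lit 532) (nat_lit 7154697976)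 (nat_lit 194) (nat_lit 5) (nat_lit 200) (nat_lit 5) (nat_lit 201) (nat_lit 5) (nat_lit 594) (nat_lit 490) (nat_lit 476)) (XT.lf (nat_lit 0) (nat_lit 6129112814) (nat_lit 532) (nat_lit 1151235943) (nat_lit 76) (nat_lit 1948989253) (nat_lit 194) (nat_lit 5) (nat_lit 201) (nat_lit 5) (nat_lit 195) (nat_lit 4) (nat_lit 595) (nat_lit 490) (nat_lit 475))) (XT.nd (nat_lit 78) (nat_lit 456) (nat_lit 0) (XT.lf (nat_lit 0) (nat_lit 1014506348) (nat_lit 456) (nat_lit 2731894831) (nat_lit 76) (nat_lit 5564681167) (nat_lit 188) (nat_lit 5) (nat_lit 194) (nat_lit 5) (nat_lit 189) (nat_lit 5) (nat_lit 596) (nat_lit 490) (nat_lit 474)) (XT.lf (nat_lit 0) (nat_lit 5039528533) (nat_lit 456) (nat_lit 110685750) (nat_lit 532) (nat_lit 4244237096) (nat_lit 182) (nat_lit 5) (nat_lit 188) (nat_lit 5) (nat_lit 189) (nat_lit 5) (nat_lit 597) (nat_lit 490) (nat_lit 473)))))) (XT.nd (nat_lit 546) (nat_lit 1824) (nat_lit 0) (XT.nd (nat_lit 234) (nat_lit 1292) (nat_lit 0) (XT.nd (nat_lit 78)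 (nat_lit 836) (nat_lit 0) (XT.lf (nat_lit 0) (nat_lit 3454217881) (nat_lit 380) (nat_lit 5918707556) (nat_lit 456) (nat_lit 106480041) (nat_lit 177) (nat_lit 5) (nat_lit 182) (nat_lit 5) (nat_lit 183) (nat_lit 4) (nat_lit 598) (nat_lit 490) (nat_lit 472)) (XT.nd (nat_lit 78) (nat_lit 380) (nat_lit 0) (XT.lf (nat_lit 0) (nat_lit 1817206544) (nat_lit 380) (nat_lit 2225053680) (nat_lit 456) (nat_lit 5523623861) (nat_lit 171) (nat_lit 5) (nat_lit 176) (nat_lit 5) (nat_lit 177) (nat_lit 5) (nat_lit 599) (nat_lit 490) (nat_lit 471)) (XT.lf (nat_lit 0) (nat_lit 143269567) (nat_lit 380) (nat_lit 8121529856) (nat_lit 456) (nat_lit 1389437034) (nat_lit 166) (nat_lit 5) (nat_lit 171) (nat_lit 5) (nat_lit 172) (nat_lit 4) (nat_lit 600) (nat_lit 490) (nat_lit 470)))) (XT.nd (nat_lit 156) (nat_lit 836) (nat_lit 0) (XT.nd (nat_lit 78) (nat_lit 380) (nat_lit 0) (XT.lf (nat_lit 0) (nat_lit 2798207925) (nat_lit 456) (nat_lit 1571303895) (nat_lit 76) (nat_lit 5374322910) (nat_lit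 165) (nat_lit 5) (nat_lit 171) (nat_lit 5) (nat_lit 166) (nat_lit 5) (nat_lit 601) (nat_lit 490) (nat_lit 469)) (XT.lf (nat_lit 0) (nat_lit 6512538840) (nat_lit 380) (nat_lit 522703869) (nat_lit 456) (nat_lit 2800116826) (nat_lit 160) (nat_lit 5) (nat_lit 165) (nat_lit 5) (nat_lit 166) (nat_lit 5) (nat_lit 602) (nat_lit 490) (nat_lit 468))) (XT.nd (nat_lit 78) (nat_lit 380) (nat_lit 0) (XT.lf (nat_lit 0) (nat_lit 1415753050) (nat_lit 456) (nat_lit 5137415769) (nat_lit 76) (nat_lit 3375239864) (nat_lit 154) (nat_lit 5) (nat_lit 160) (nat_lit 5) (nat_lit 155) (nat_lit 5) (nat_lit 603) (nat_lit 490) (nat_lit 467)) (XT.lf (nat_lit 0) (nat_lit 3015308594) (nat_lit 380) (nat_lit 2651100448) (nat_lit 456) (nat_lit 4356783250) (nat_lit 149) (nat_lit 5) (nat_lit 154) (nat_lit 5) (nat_lit 155) (nat_lit 5) (nat_lit 604) (nat_lit 490) (nat_lit 466))))) (XT.nd (nat_lit 234) (nat_lit 1064) (nat_lit 0) (XT.nd (nat_lit 78) (nat_lit 456) (nat_lit 0) (XT.lf (nat_lit 0) (nat_lit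 1196722849) (nat_lit 304) (nat_lit 8799220345) (nat_lit 380) (nat_lit 124053924) (nat_lit 145) (nat_lit 5) (nat_lit 149) (nat_lit 5) (nat_lit 150) (nat_lit 4) (nat_lit 605) (nat_lit 490) (nat_lit 465)) (XT.nd (nat_lit 78) (nat_lit 380) (nat_lit 0) (XT.lf (nat_lit 0) (nat_lit 4146144730) (nat_lit 380) (nat_lit 694294524) (nat_lit 76) (nat_lit 5377600781) (nat_lit 144) (nat_lit 5) (nat_lit 149) (nat_lit 5) (nat_lit 145) (nat_lit 5) (nat_lit 606) (nat_lit 490) (nat_lit 464)) (XT.lf (nat_lit 0) (nat_lit 7709537610) (nat_lit 380) (nat_lit 784640984) (nat_lit 456) (nat_lit 1823969651) (nat_lit 139) (nat_lit 5) (nat_lit 144) (nat_lit 5) (nat_lit 145) (nat_lit 5) (nat_lit 607) (nat_lit 490) (nat_lit 463)))) (XT.nd (nat_lit 156) (nat_lit 380) (nat_lit 0) (XT.nd (nat_lit 78) (nat_lit 304) (nat_lit 0) (XT.lf (nat_lit 0) (nat_lit 2484736466) (nat_lit 380) (nat_lit 4601326395) (nat_lit 76) (nat_lit 3333698009) (nat_lit 134) (nat_lit 5) (nat_lit 139) (nat_lit 5) (nat_lit 135)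 (nat_lit 5) (nat_lit 608) (nat_lit 490) (nat_lit 462)) (XT.lf (nat_lit 0) (nat_lit 3869216569) (nat_lit 304) (nat_lit 2978411544) (nat_lit 380) (nat_lit 3675690342) (nat_lit 130) (nat_lit 5) (nat_lit 134) (nat_lit 5) (nat_lit 135) (nat_lit 5) (nat_lit 609) (nat_lit 490) (nat_lit 461))) (XT.nd (nat_lit 78) (nat_lit 0) (nat_lit 0) (XT.lf (nat_lit 0) (nat_lit 655861392) (nat_lit 380) (nat_lit 8764437698) (nat_lit 76) (nat_lit 1208647624) (nat_lit 125) (nat_lit 5) (nat_lit 130) (nat_lit 5) (nat_lit 126) (nat_lit 5) (nat_lit 610) (nat_lit 490) (nat_lit 460)) (XT.lf (nat_lit 0) (nat_lit 5034430203) (nat_lit 380) (nat_lit 227348876) (nat_lit 76) (nat_lit 5474232841) (nat_lit 125) (nat_lit 5) (nat_lit 130) (nat_lit 5) (nat_lit 126) (nat_lit 5) (nat_lit 611) (nat_lit 490) (nat_lit 459))))))))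
noncomputable def xc24 : XT := (XT.nd (nat_lit 2106) (nat_lit 1596) (nat_lit 0) (XT.nd (nat_lit 1014) (nat_lit 2432) (nat_lit 0) (XT.nd (nat_lit 468) (nat_lit 1672) (nat_lit 0) (XT.nd (nat_lit 234) (nat_lit 608) (nat_lit 0) (XT.nd (nat_lit 78) (nat_lit 684) (nat_lit 0) (XT.lf (nat_lit 0) (nat_lit 8502898751) (nat_lit 304) (nat_lit 998843501) (nat_lit 380) (nat_lit 1343455076) (nat_lit 121) (nat_lit 5) (nat_lit 125) (nat_lit 5) (nat_lit 126) (nat_lit 5) (nat_lit 612) (nat_lit 490) (nat_lit 458)) (XT.nd (nat_lit 78) (nat_lit 304) (nat_lit 0) (XT.lf (nat_lit 0) (nat_lit 3072461741) (nat_lit 380) (nat_lit 4549079272) (nat_lit 76) (nat_lit 3334398714) (nat_lit 116) (nat_lit 5) (nat_lit 121) (nat_lit 5) (nat_lit 117) (nat_lit 5) (nat_lit 613) (nat_lit 490) (nat_lit 457)) (XT.lf (nat_lit 0) (nat_lit 4244737579) (nat_lit 304) (nat_lit 3310330024) (nat_lit 380) (nat_lit 3513726774) (nat_lit 112) (nat_lit 5) (nat_lit 116) (nat_lit 5) (nat_lit 117) (nat_lit 5) (nat_lit 614)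 (nat_lit 490) (nat_lit 456)))) (XT.nd (nat_lit 78) (nat_lit 304) (nat_lit 0) (XT.lf (nat_lit 0) (nat_lit 928534128) (nat_lit 304) (nat_lit 9167737463) (nat_lit 76) (nat_lit 1087564380) (nat_lit 108) (nat_lit 5) (nat_lit 112) (nat_lit 5) (nat_lit 109) (nat_lit 5) (nat_lit 615) (nat_lit 490) (nat_lit 455)) (XT.nd (nat_lit 78) (nat_lit 304) (nat_lit 0) (XT.lf (nat_lit 0) (nat_lit 5427359256) (nat_lit 304) (nat_lit 310051943) (nat_lit 76) (nat_lit 5563009399) (nat_lit 108) (nat_lit 5) (nat_lit 112) (nat_lit 5) (nat_lit 109) (nat_lit 5) (nat_lit 616) (nat_lit 490) (nat_lit 454)) (XT.lf (nat_lit 0) (nat_lit 8751473731) (nat_lit 304) (nat_lit 1269257367) (nat_lit 380) (nat_lit 1398516447) (nat_lit 104) (nat_lit 5) (nat_lit 108) (nat_lit 5) (nat_lit 109) (nat_lit 5) (nat_lit 617) (nat_lit 490) (nat_lit 453))))) (XT.nd (nat_lit 234) (nat_lit 760) (nat_lit 0) (XT.nd (nat_lit 78) (nat_lit 608) (nat_lit 0) (XT.lf (nat_lit 0) (nat_lit 3137271970) (nat_lit 304) (nat_lit 5128120298)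 (nat_lit 76) (nat_lit 3274384283) (nat_lit 100) (nat_lit 5) (nat_lit 104) (nat_lit 5) (nat_lit 101) (nat_lit 5) (nat_lit 618) (nat_lit 490) (nat_lit 452)) (XT.nd (nat_lit 78) (nat_lit 304) (nat_lit 0) (XT.lf (nat_lit 0) (nat_lit 3992629342) (nat_lit 304) (nat_lit 3752868642) (nat_lit 380) (nat_lit 3917026224) (nat_lit 96) (nat_lit 5) (nat_lit 100) (nat_lit 5) (nat_lit 101) (nat_lit 5) (nat_lit 619) (nat_lit 490) (nat_lit 451)) (XT.lf (nat_lit 0) (nat_lit 647729661) (nat_lit 304) (nat_lit 10288424774) (nat_lit 76) (nat_lit 851524760) (nat_lit 92) (nat_lit 5) (nat_lit 96) (nat_lit 5) (nat_lit 93) (nat_lit 5) (nat_lit 620) (nat_lit 490) (nat_lit 450)))) (XT.nd (nat_lit 156) (nat_lit 532) (nat_lit 0) (XT.nd (nat_lit 78) (nat_lit 228) (nat_lit 0) (XT.lf (nat_lit 0) (nat_lit 5276437592) (nat_lit 304) (nat_lit 1098434429) (nat_lit 76) (nat_lit 5539447117) (nat_lit 92) (nat_lit 5) (nat_lit 96) (nat_lit 5) (nat_lit 93) (nat_lit 5) (nat_lit 621) (nat_lit 490) (nat_lit 449))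 (XT.lf (nat_lit 0) (nat_lit 8297168893) (nat_lit 228) (nat_lit 1703826964) (nat_lit 304) (nat_lit 2042432266) (nat_lit 89) (nat_lit 5) (nat_lit 92) (nat_lit 5) (nat_lit 93) (nat_lit 5) (nat_lit 622) (nat_lit 490) (nat_lit 448))) (XT.nd (nat_lit 78) (nat_lit 228) (nat_lit 0) (XT.lf (nat_lit 0) (nat_lit 2624150352) (nat_lit 304) (nat_lit 6504029869) (nat_lit 76) (nat_lit 3046319055) (nat_lit 85) (nat_lit 5) (nat_lit 89) (nat_lit 5) (nat_lit 86) (nat_lit 5) (nat_lit 623) (nat_lit 490) (nat_lit 447)) (XT.lf (nat_lit 0) (nat_lit 2944973480) (nat_lit 228) (nat_lit 4417172712) (nat_lit 304) (nat_lit 4945668722) (nat_lit 82) (nat_lit 5) (nat_lit 85) (nat_lit 5) (nat_lit 86) (nat_lit 5) (nat_lit 624) (nat_lit 490) (nat_lit 446)))))) (XT.nd (nat_lit 546) (nat_lit 1140) (nat_lit 0) (XT.nd (nat_lit 234) (nat_lit 760) (nat_lit 0) (XT.nd (nat_lit 78) (nat_lit 304) (nat_lit 0) (XT.lf (nat_lit 0) (nat_lit 139735827) (nat_lit 228) (nat_lit 12052405478) (nat_lit 304) (nat_lit 251712404)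 (nat_lit 79) (nat_lit 5) (nat_lit 82) (nat_lit 5) (nat_lit 83) (nat_lit 4) (nat_lit 625) (nat_lit 490) (nat_lit 445)) (XT.nd (nat_lit 78) (nat_lit 228) (nat_lit 0) (XT.lf (nat_lit 0) (nat_lit 4519095303) (nat_lit 304) (nat_lit 2768772681) (nat_lit 76) (nat_lit 5293308553) (nat_lit 78) (nat_lit 5) (nat_lit 82) (nat_lit 5) (nat_lit 79) (nat_lit 5) (nat_lit 626) (nat_lit 490) (nat_lit 444)) (XT.lf (nat_lit 0) (nat_lit 6961049047) (nat_lit 228) (nat_lit 2417045499) (nat_lit 304) (nat_lit 3343196619) (nat_lit 75) (nat_lit 5) (nat_lit 78) (nat_lit 5) (nat_lit 79) (nat_lit 5) (nat_lit 627) (nat_lit 490) (nat_lit 443)))) (XT.nd (nat_lit 156) (nat_lit 228) (nat_lit 0) (XT.nd (nat_lit 78) (nat_lit 228) (nat_lit 0) (XT.lf (nat_lit 0) (nat_lit 1463279480) (nat_lit 304) (nat_lit 8864564446) (nat_lit 76) (nat_lit 2535924868) (nat_lit 71) (nat_lit 5) (nat_lit 75) (nat_lit 5) (nat_lit 72) (nat_lit 5) (nat_lit 628) (nat_lit 490) (nat_lit 442)) (XT.lf (nat_lit 0) (nat_lit 911029042)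 (nat_lit 228) (nat_lit 5422162761) (nat_lit 304) (nat_lit 6675222211) (nat_lit 68) (nat_lit 5) (nat_lit 71) (nat_lit 5) (nat_lit 72) (nat_lit 5) (nat_lit 629) (nat_lit 490) (nat_lit 441))) (XT.nd (nat_lit 78) (nat_lit 228) (nat_lit 0) (XT.lf (nat_lit 0) (nat_lit 10916748015) (nat_lit 228) (nat_lit 394839804) (nat_lit 304) (nat_lit 1844144033) (nat_lit 68) (nat_lit 5) (nat_lit 71) (nat_lit 5) (nat_lit 72) (nat_lit 5) (nat_lit 630) (nat_lit 490) (nat_lit 440)) (XT.lf (nat_lit 0) (nat_lit 3077044525) (nat_lit 228) (nat_lit 5521950245) (nat_lit 76) (nat_lit 4705923629) (nat_lit 65) (nat_lit 5) (nat_lit 68) (nat_lit 5) (nat_lit 66) (nat_lit 5) (nat_lit 631) (nat_lit 490) (nat_lit 439))))) (XT.nd (nat_lit 234) (nat_lit 684) (nat_lit 0) (XT.nd (nat_lit 78) (nat_lit 228) (nat_lit 0) (XT.lf (nat_lit 0) (nat_lit 4538859710) (nat_lit 228) (nat_lit 3532722554) (nat_lit 304) (nat_lit 5385271588) (nat_lit 62) (nat_lit 5) (nat_lit 65) (nat_lit 5) (nat_lit 66) (nat_lit 5) (nat_lit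 632) (nat_lit 490) (nat_lit 438)) (XT.nd (nat_lit 78) (nat_lit 76) (nat_lit 0) (XT.lf (nat_lit 0) (nat_lit 1184514014) (nat_lit 152) (nat_lit 11989637784) (nat_lit 228) (nat_lit 437514708) (nat_lit 60) (nat_lit 5) (nat_lit 62) (nat_lit 5) (nat_lit 63) (nat_lit 4) (nat_lit 633) (nat_lit 490) (nat_lit 437)) (XT.lf (nat_lit 0) (nat_lit 4584988820) (nat_lit 228) (nat_lit 2297022822) (nat_lit 76) (nat_lit 6886241678) (nat_lit 59) (nat_lit 5) (nat_lit 62) (nat_lit 5) (nat_lit 60) (nat_lit 5) (nat_lit 634) (nat_lit 490) (nat_lit 436)))) (XT.nd (nat_lit 156) (nat_lit 228) (nat_lit 0) (XT.nd (nat_lit 78) (nat_lit 228) (nat_lit 0) (XT.lf (nat_lit 0) (nat_lit 8055237700) (nat_lit 228) (nat_lit 1652686812) (nat_lit 304) (nat_lit 4219873945) (nat_lit 56) (nat_lit 5) (nat_lit 59) (nat_lit 5) (nat_lit 60) (nat_lit 5) (nat_lit 635) (nat_lit 490) (nat_lit 435)) (XT.lf (nat_lit 0) (nat_lit 854230808) (nat_lit 228) (nat_lit 9588503047) (nat_lit 76) (nat_lit 3647242403) (nat_lit 53)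 (nat_lit 5) (nat_lit 56) (nat_lit 5) (nat_lit 54) (nat_lit 5) (nat_lit 636) (nat_lit 490) (nat_lit 434))) (XT.nd (nat_lit 78) (nat_lit 0) (nat_lit 0) (XT.lf (nat_lit 0) (nat_lit 795842250) (nat_lit 228) (nat_lit 5187042152) (nat_lit 304) (nat_lit 8271765094) (nat_lit 50) (nat_lit 5) (nat_lit 53) (nat_lit 5) (nat_lit 54) (nat_lit 5) (nat_lit 637) (nat_lit 490) (nat_lit 433)) (XT.lf (nat_lit 0) (nat_lit 11233875187) (nat_lit 304) (nat_lit 2988590308) (nat_lit 76) (nat_lit 199756566) (nat_lit 50) (nat_lit 5) (nat_lit 54) (nat_lit 5) (nat_lit 51) (nat_lit 4) (nat_lit 638) (nat_lit 490) (nat_lit 432))))))) (XT.nd (nat_lit 76518) (nat_lit 0) (nat_lit 13528) (XT.nd (nat_lit 468) (nat_lit 684) (nat_lit 0) (XT.nd (nat_lit 234) (nat_lit 532) (nat_lit 0) (XT.nd (nat_lit 78) (nat_lit 152) (nat_lit 0) (XT.lf (nat_lit 0) (nat_lit 2009764723) (nat_lit 228) (nat_lit 6930163388) (nat_lit 76) (nat_lit 5652175529) (nat_lit 47) (nat_lit 5) (nat_lit 50) (nat_lit 5) (nat_lit 48) (nat_lit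 5) (nat_lit 639) (nat_lit 490) (nat_lit 431)) (XT.nd (nat_lit 78) (nat_lit 0) (nat_lit 0) (XT.lf (nat_lit 0) (nat_lit 3746924809) (nat_lit 152) (nat_lit 3521607783) (nat_lit 228) (nat_lit 7496442118) (nat_lit 45) (nat_lit 5) (nat_lit 47) (nat_lit 5) (nat_lit 48) (nat_lit 5) (nat_lit 640) (nat_lit 490) (nat_lit 430)) (XT.lf (nat_lit 0) (nat_lit 12647256984) (nat_lit 228) (nat_lit 304304461) (nat_lit 76) (nat_lit 1989447189) (nat_lit 45) (nat_lit 5) (nat_lit 48) (nat_lit 5) (nat_lit 46) (nat_lit 4) (nat_lit 641) (nat_lit 490) (nat_lit 429)))) (XT.nd (nat_lit 78) (nat_lit 304) (nat_lit 0) (XT.lf (nat_lit 0) (nat_lit 3022160933) (nat_lit 228) (nat_lit 4479771880) (nat_lit 76) (nat_lit 7617266509) (nat_lit 42) (nat_lit 5) (nat_lit 45) (nat_lit 5) (nat_lit 43) (nat_lit 5) (nat_lit 642) (nat_lit 490) (nat_lit 428)) (XT.nd (nat_lit 78) (nat_lit 152) (nat_lit 0) (XT.lf (nat_lit 0) (nat_lit 6494672897) (nat_lit 152) (nat_lit 1919146369) (nat_lit 228) (nat_lit 6886829501)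 (nat_lit 40) (nat_lit 5) (nat_lit 42) (nat_lit 5) (nat_lit 43) (nat_lit 5) (nat_lit 643) (nat_lit 490) (nat_lit 427)) (XT.lf (nat_lit 0) (nat_lit 2187525166) (nat_lit 152) (nat_lit 11750759755) (nat_lit 228) (nat_lit 1546943775) (nat_lit 38) (nat_lit 5) (nat_lit 40) (nat_lit 5) (nat_lit 41) (nat_lit 4) (nat_lit 644) (nat_lit 490) (nat_lit 426))))) (XT.nd (nat_lit 234) (nat_lit 304) (nat_lit 0) (XT.nd (nat_lit 78) (nat_lit 304) (nat_lit 0) (XT.lf (nat_lit 0) (nat_lit 3876838833) (nat_lit 228) (nat_lit 2271188684) (nat_lit 76) (nat_lit 9524402350) (nat_lit 37) (nat_lit 5) (nat_lit 40) (nat_lit 5) (nat_lit 38) (nat_lit 5) (nat_lit 645) (nat_lit 490) (nat_lit 425)) (XT.nd (nat_lit 78) (nat_lit 152) (nat_lit 0) (XT.lf (nat_lit 0) (nat_lit 9004577825) (nat_lit 152) (nat_lit 399201785) (nat_lit 228) (nat_lit 6459083944) (nat_lit 35) (nat_lit 5) (nat_lit 37) (nat_lit 5) (nat_lit 38) (nat_lit 5) (nat_lit 646) (nat_lit 490) (nat_lit 424)) (XT.lf (nat_lit 0) (nat_lit 4423040175)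 (nat_lit 152) (nat_lit 10654772638) (nat_lit 228) (nat_lit 978562933) (nat_lit 33) (nat_lit 5) (nat_lit 35) (nat_lit 5) (nat_lit 36) (nat_lit 4) (nat_lit 647) (nat_lit 490) (nat_lit 423)))) (XT.nd (nat_lit 156) (nat_lit 76) (nat_lit 0) (XT.nd (nat_lit 78) (nat_lit 152) (nat_lit 0) (XT.lf (nat_lit 0) (nat_lit 4557121298) (nat_lit 228) (nat_lit 342052507) (nat_lit 76) (nat_lit 11353865727) (nat_lit 32) (nat_lit 5) (nat_lit 35) (nat_lit 5) (nat_lit 33) (nat_lit 5) (nat_lit 648) (nat_lit 490) (nat_lit 422)) (XT.lf (nat_lit 0) (nat_lit 10227902278) (nat_lit 228) (nat_lit 5221254670) (nat_lit 76) (nat_lit 1003601410) (nat_lit 30) (nat_lit 5) (nat_lit 33) (nat_lit 5) (nat_lit 31) (nat_lit 4) (nat_lit 649) (nat_lit 490) (nat_lit 421))) (XT.nd (nat_lit 75582) (nat_lit 0) (nat_lit 20520) (XT.lf (nat_lit 0) (nat_lit 6357842615) (nat_lit 76) (nat_lit 9688289944) (nat_lit 152) (nat_lit 609659161) (nat_lit 29) (nat_lit 5) (nat_lit 30) (nat_lit 5) (nat_lit 31) (nat_lit 4) (nat_lit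 650) (nat_lit 490) (nat_lit 420)) (XT.lf (nat_lit 0) (nat_lit 2680170325) (nat_lit 684) (nat_lit 676614924) (nat_lit 684) (nat_lit 676614924) (nat_lit 299) (nat_lit 4) (nat_lit 308) (nat_lit 5) (nat_lit 308) (nat_lit 4) (nat_lit 578) (nat_lit 491) (nat_lit 491)))))) (XT.nd (nat_lit 546) (nat_lit 3192) (nat_lit 0) (XT.nd (nat_lit 234) (nat_lit 1824) (nat_lit 0) (XT.nd (nat_lit 78) (nat_lit 1292) (nat_lit 0) (XT.lf (nat_lit 0) (nat_lit 2606944295) (nat_lit 684) (nat_lit 4096417318) (nat_lit 0) (nat_lit 1420940193) (nat_lit 290) (nat_lit 5) (nat_lit 299) (nat_lit 4) (nat_lit 290) (nat_lit 4) (nat_lit 579) (nat_lit 491) (nat_lit 490)) (XT.nd (nat_lit 78) (nat_lit 684) (nat_lit 0) (XT.lf (nat_lit 0) (nat_lit 2678044672) (nat_lit 608) (nat_lit 3926976129) (nat_lit 608) (nat_lit 1578222908) (nat_lit 282) (nat_lit 4) (nat_lit 290) (nat_lit 5) (nat_lit 290) (nat_lit 4) (nat_lit 580) (nat_lit 491) (nat_lit 489)) (XT.lf (nat_lit 0) (nat_lit 1311530758) (nat_lit 608) (nat_lit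 1064822754) (nat_lit 684) (nat_lit 5867326482) (nat_lit 273) (nat_lit 5) (nat_lit 281) (nat_lit 5) (nat_lit 282) (nat_lit 4) (nat_lit 581) (nat_lit 491) (nat_lit 488)))) (XT.nd (nat_lit 156) (nat_lit 1140) (nat_lit 0) (XT.nd (nat_lit 78) (nat_lit 684) (nat_lit 0) (XT.lf (nat_lit 0) (nat_lit 6371199202) (nat_lit 684) (nat_lit 79058971) (nat_lit 0) (nat_lit 1855217347) (nat_lit 273) (nat_lit 5) (nat_lit 282) (nat_lit 4) (nat_lit 273) (nat_lit 4) (nat_lit 582) (nat_lit 491) (nat_lit 487)) (XT.lf (nat_lit 0) (nat_lit 2036353560) (nat_lit 684) (nat_lit 1476748117) (nat_lit 76) (nat_lit 4855417378) (nat_lit 264) (nat_lit 5) (nat_lit 273) (nat_lit 5) (nat_lit 265) (nat_lit 4) (nat_lit 583) (nat_lit 491) (nat_lit 486))) (XT.nd (nat_lit 78) (nat_lit 608) (nat_lit 0) (XT.lf (nat_lit 0) (nat_lit 5540671643) (nat_lit 532) (nat_lit 491007393) (nat_lit 608) (nat_lit 2401470105) (nat_lit 257) (nat_lit 5) (nat_lit 264) (nat_lit 5) (nat_lit 265) (nat_lit 4) (nat_lit 584) (nat_lit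 491) (nat_lit 485)) (XT.lf (nat_lit 0) (nat_lit 1575731218) (nat_lit 608) (nat_lit 4342324855) (nat_lit 76) (nat_lit 2581032245) (nat_lit 249) (nat_lit 5) (nat_lit 257) (nat_lit 5) (nat_lit 250) (nat_lit 4) (nat_lit 585) (nat_lit 491) (nat_lit 484))))) (XT.nd (nat_lit 234) (nat_lit 2052) (nat_lit 0) (XT.nd (nat_lit 78) (nat_lit 608) (nat_lit 0) (XT.lf (nat_lit 0) (nat_lit 2746698321) (nat_lit 532) (nat_lit 2829735052) (nat_lit 608) (nat_lit 2990077940) (nat_lit 242) (nat_lit 5) (nat_lit 249) (nat_lit 5) (nat_lit 250) (nat_lit 4) (nat_lit 586) (nat_lit 491) (nat_lit 483)) (XT.nd (nat_lit 78) (nat_lit 0) (nat_lit 0) (XT.lf (nat_lit 0) (nat_lit 984296868) (nat_lit 608) (nat_lit 7316263014) (nat_lit 76) (nat_lit 335078128) (nat_lit 234) (nat_lit 5) (nat_lit 242) (nat_lit 5) (nat_lit 235) (nat_lit 4) (nat_lit 587) (nat_lit 491) (nat_lit 482)) (XT.lf (nat_lit 0) (nat_lit 4992431985) (nat_lit 608) (nat_lit 154986217) (nat_lit 76) (nat_lit 3558452035) (nat_lit 234) (nat_lit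 5) (nat_lit 242) (nat_lit 5) (nat_lit 235) (nat_lit 4) (nat_lit 588) (nat_lit 491) (nat_lit 481)))) (XT.nd (nat_lit 156) (nat_lit 988) (nat_lit 0) (XT.nd (nat_lit 78) (nat_lit 532) (nat_lit 0) (XT.lf (nat_lit 0) (nat_lit 283054536) (nat_lit 532) (nat_lit 1625622305) (nat_lit 76) (nat_lit 6869119034) (nat_lit 227) (nat_lit 5) (nat_lit 234) (nat_lit 5) (nat_lit 228) (nat_lit 5) (nat_lit 589) (nat_lit 491) (nat_lit 480)) (XT.lf (nat_lit 0) (nat_lit 4294970053) (nat_lit 608) (nat_lit 3143142317) (nat_lit 76) (nat_lit 1412856647) (nat_lit 220) (nat_lit 5) (nat_lit 228) (nat_lit 5) (nat_lit 221) (nat_lit 4) (nat_lit 590) (nat_lit 491) (nat_lit 479))) (XT.nd (nat_lit 78) (nat_lit 532) (nat_lit 0) (XT.lf (nat_lit 0) (nat_lit 4237469730) (nat_lit 456) (nat_lit 4138961596) (nat_lit 532) (nat_lit 549392292) (nat_lit 214) (nat_lit 5) (nat_lit 220) (nat_lit 5) (nat_lit 221) (nat_lit 4) (nat_lit 591) (nat_lit 491) (nat_lit 478)) (XT.lf (nat_lit 0) (nat_lit 2729015125) (nat_lit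 456) (nat_lit 739285168) (nat_lit 532) (nat_lit 5533872728) (nat_lit 207) (nat_lit 5) (nat_lit 213) (nat_lit 5) (nat_lit 214) (nat_lit 5) (nat_lit 592) (nat_lit 491) (nat_lit 477))))))))
noncomputable def xc25 : XT := (XT.nd (nat_lit 2106) (nat_lit 4636) (nat_lit 0) (XT.nd (nat_lit 1014) (nat_lit 4028) (nat_lit 0) (XT.nd (nat_lit 468) (nat_lit 2052) (nat_lit 0) (XT.nd (nat_lit 234) (nat_lit 1368) (nat_lit 0) (XT.nd (nat_lit 78) (nat_lit 532) (nat_lit 0) (XT.lf (nat_lit 0) (nat_lit 1182145526) (nat_lit 456) (nat_lit 6372747506) (nat_lit 532) (nat_lit 1525169604) (nat_lit 201) (nat_lit 5) (nat_lit 207) (nat_lit 5) (nat_lit 208) (nat_lit 4) (nat_lit 593) (nat_lit 491) (nat_lit 476)) (XT.nd (nat_lit 78) (nat_lit 456) (nat_lit 0) (XT.lf (nat_lit 0) (nat_lit 2516401120) (nat_lit 532) (nat_lit 399776673) (nat_lit 76) (nat_lit 6243276755) (nat_lit 200) (nat_lit 5) (nat_lit 207) (nat_lit 5) (nat_lit 201) (nat_lit 5) (nat_lit 594) (nat_lit 491) (nat_lit 475)) (XT.lf (nat_lit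 0) (nat_lit 6609820700) (nat_lit 532) (nat_lit 2000497466) (nat_lit 76) (nat_lit 630089397) (nat_lit 194) (nat_lit 5) (nat_lit 201) (nat_lit 5) (nat_lit 195) (nat_lit 4) (nat_lit 595) (nat_lit 491) (nat_lit 474)))) (XT.nd (nat_lit 78) (nat_lit 912) (nat_lit 0) (XT.lf (nat_lit 0) (nat_lit 1442488986) (nat_lit 456) (nat_lit 3651933628) (nat_lit 76) (nat_lit 4228379977) (nat_lit 188) (nat_lit 5) (nat_lit 194) (nat_lit 5) (nat_lit 189) (nat_lit 5) (nat_lit 596) (nat_lit 491) (nat_lit 473)) (XT.nd (nat_lit 78) (nat_lit 456) (nat_lit 0) (XT.lf (nat_lit 0) (nat_lit 4062263377) (nat_lit 456) (nat_lit 1480302160) (nat_lit 532) (nat_lit 3864320430) (nat_lit 182) (nat_lit 5) (nat_lit 188) (nat_lit 5) (nat_lit 189) (nat_lit 5) (nat_lit 597) (nat_lit 491) (nat_lit 472)) (XT.lf (nat_lit 0) (nat_lit 224817283) (nat_lit 456) (nat_lit 7079032730) (nat_lit 76) (nat_lit 2188856860) (nat_lit 176) (nat_lit 5) (nat_lit 182) (nat_lit 5) (nat_lit 177) (nat_lit 5) (nat_lit 598) (nat_lit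 491) (nat_lit 471))))) (XT.nd (nat_lit 234) (nat_lit 1216) (nat_lit 0) (XT.nd (nat_lit 78) (nat_lit 456) (nat_lit 0) (XT.lf (nat_lit 0) (nat_lit 703367527) (nat_lit 380) (nat_lit 3632555452) (nat_lit 456) (nat_lit 5243975053) (nat_lit 171) (nat_lit 5) (nat_lit 176) (nat_lit 5) (nat_lit 177) (nat_lit 5) (nat_lit 599) (nat_lit 491) (nat_lit 470)) (XT.nd (nat_lit 78) (nat_lit 456) (nat_lit 0) (XT.lf (nat_lit 0) (nat_lit 8519565964) (nat_lit 456) (nat_lit 1022198605) (nat_lit 76) (nat_lit 127265344) (nat_lit 171) (nat_lit 5) (nat_lit 177) (nat_lit 5) (nat_lit 172) (nat_lit 4) (nat_lit 600) (nat_lit 491) (nat_lit 469)) (XT.lf (nat_lit 0) (nat_lit 2999521803) (nat_lit 456) (nat_lit 2811760939) (nat_lit 76) (nat_lit 3948026046) (nat_lit 165) (nat_lit 5) (nat_lit 171) (nat_lit 5) (nat_lit 166) (nat_lit 5) (nat_lit 601) (nat_lit 491) (nat_lit 468)))) (XT.nd (nat_lit 156) (nat_lit 380) (nat_lit 0) (XT.nd (nat_lit 78) (nat_lit 456) (nat_lit 0) (XT.lf (nat_lit 0) (nat_lit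 5210929679) (nat_lit 380) (nat_lit 1988997186) (nat_lit 456) (nat_lit 2651640818) (nat_lit 160) (nat_lit 5) (nat_lit 165) (nat_lit 5) (nat_lit 166) (nat_lit 5) (nat_lit 602) (nat_lit 491) (nat_lit 467)) (XT.lf (nat_lit 0) (nat_lit 1515540636) (nat_lit 456) (nat_lit 6525730133) (nat_lit 76) (nat_lit 1904263039) (nat_lit 154) (nat_lit 5) (nat_lit 160) (nat_lit 5) (nat_lit 155) (nat_lit 5) (nat_lit 603) (nat_lit 491) (nat_lit 466))) (XT.nd (nat_lit 78) (nat_lit 0) (nat_lit 0) (XT.lf (nat_lit 0) (nat_lit 1563625763) (nat_lit 380) (nat_lit 4165210562) (nat_lit 456) (nat_lit 4312229707) (nat_lit 149) (nat_lit 5) (nat_lit 154) (nat_lit 5) (nat_lit 155) (nat_lit 5) (nat_lit 604) (nat_lit 491) (nat_lit 465)) (XT.lf (nat_lit 0) (nat_lit 9814270521) (nat_lit 380) (nat_lit 200018641) (nat_lit 456) (nat_lit 124464702) (nat_lit 149) (nat_lit 5) (nat_lit 154) (nat_lit 5) (nat_lit 155) (nat_lit 5) (nat_lit 605) (nat_lit 491) (nat_lit 464)))))) (XT.nd (nat_lit 546) (nat_lit 1900)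 (nat_lit 0) (XT.nd (nat_lit 234) (nat_lit 988) (nat_lit 0) (XT.nd (nat_lit 78) (nat_lit 760) (nat_lit 0) (XT.lf (nat_lit 0) (nat_lit 4114586510) (nat_lit 380) (nat_lit 2281860096) (nat_lit 76) (nat_lit 3840974614) (nat_lit 144) (nat_lit 5) (nat_lit 149) (nat_lit 5) (nat_lit 145) (nat_lit 5) (nat_lit 606) (nat_lit 491) (nat_lit 463)) (XT.nd (nat_lit 78) (nat_lit 380) (nat_lit 0) (XT.lf (nat_lit 0) (nat_lit 6056604125) (nat_lit 380) (nat_lit 2368122269) (nat_lit 456) (nat_lit 1913562216) (nat_lit 139) (nat_lit 5) (nat_lit 144) (nat_lit 5) (nat_lit 145) (nat_lit 5) (nat_lit 607) (nat_lit 491) (nat_lit 462)) (XT.lf (nat_lit 0) (nat_lit 2347469159) (nat_lit 380) (nat_lit 6350842914) (nat_lit 76) (nat_lit 1742579040) (nat_lit 134) (nat_lit 5) (nat_lit 139) (nat_lit 5) (nat_lit 135) (nat_lit 5) (nat_lit 608) (nat_lit 491) (nat_lit 461)))) (XT.nd (nat_lit 156) (nat_lit 608) (nat_lit 0) (XT.nd (nat_lit 78) (nat_lit 76) (nat_lit 0) (XT.lf (nat_lit 0) (nat_lit 2051961031)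 (nat_lit 304) (nat_lit 4619651147) (nat_lit 380) (nat_lit 3873612719) (nat_lit 130) (nat_lit 5) (nat_lit 134) (nat_lit 5) (nat_lit 135) (nat_lit 5) (nat_lit 609) (nat_lit 491) (nat_lit 460)) (XT.lf (nat_lit 0) (nat_lit 413542288) (nat_lit 380) (nat_lit 33791969) (nat_lit 76) (nat_lit 10204485627) (nat_lit 129) (nat_lit 5) (nat_lit 134) (nat_lit 5) (nat_lit 130) (nat_lit 5) (nat_lit 610) (nat_lit 491) (nat_lit 459))) (XT.nd (nat_lit 78) (nat_lit 304) (nat_lit 0) (XT.lf (nat_lit 0) (nat_lit 4762233120) (nat_lit 380) (nat_lit 2190179613) (nat_lit 76) (nat_lit 3807071072) (nat_lit 125) (nat_lit 5) (nat_lit 130) (nat_lit 5) (nat_lit 126) (nat_lit 5) (nat_lit 611) (nat_lit 491) (nat_lit 458)) (XT.lf (nat_lit 0) (nat_lit 6470164297) (nat_lit 304) (nat_lit 2719957717) (nat_lit 380) (nat_lit 1679336795) (nat_lit 121) (nat_lit 5) (nat_lit 125) (nat_lit 5) (nat_lit 126) (nat_lit 5) (nat_lit 612) (nat_lit 491) (nat_lit 457))))) (XT.nd (nat_lit 234) (nat_lit 1140) (nat_lit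 0) (XT.nd (nat_lit 78) (nat_lit 380) (nat_lit 0) (XT.lf (nat_lit 0) (nat_lit 2689626728) (nat_lit 380) (nat_lit 6688799449) (nat_lit 76) (nat_lit 1602846903) (nat_lit 116) (nat_lit 5) (nat_lit 121) (nat_lit 5) (nat_lit 117) (nat_lit 5) (nat_lit 613) (nat_lit 491) (nat_lit 456)) (XT.nd (nat_lit 78) (nat_lit 76) (nat_lit 0) (XT.lf (nat_lit 0) (nat_lit 2032572385) (nat_lit 304) (nat_lit 5099256835) (nat_lit 380) (nat_lit 3963107645) (nat_lit 112) (nat_lit 5) (nat_lit 116) (nat_lit 5) (nat_lit 117) (nat_lit 5) (nat_lit 614) (nat_lit 491) (nat_lit 455)) (XT.lf (nat_lit 0) (nat_lit 438772682) (nat_lit 380) (nat_lit 282023223) (nat_lit 76) (nat_lit 10490167419) (nat_lit 111) (nat_lit 5) (nat_lit 116) (nat_lit 5) (nat_lit 112) (nat_lit 5) (nat_lit 615) (nat_lit 491) (nat_lit 454)))) (XT.nd (nat_lit 156) (nat_lit 608) (nat_lit 0) (XT.nd (nat_lit 78) (nat_lit 304) (nat_lit 0) (XT.lf (nat_lit 0) (nat_lit 4905183806) (nat_lit 304) (nat_lit 2678003166) (nat_lit 76) (nat_lit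 3745010266) (nat_lit 108) (nat_lit 5) (nat_lit 112) (nat_lit 5) (nat_lit 109) (nat_lit 5) (nat_lit 616) (nat_lit 491) (nat_lit 453)) (XT.lf (nat_lit 0) (nat_lit 6308731326) (nat_lit 304) (nat_lit 3148605187) (nat_lit 380) (nat_lit 1990513041) (nat_lit 104) (nat_lit 5) (nat_lit 108) (nat_lit 5) (nat_lit 109) (nat_lit 5) (nat_lit 617) (nat_lit 491) (nat_lit 452))) (XT.nd (nat_lit 78) (nat_lit 304) (nat_lit 0) (XT.lf (nat_lit 0) (nat_lit 2498768679) (nat_lit 304) (nat_lit 7688857709) (nat_lit 76) (nat_lit 1381915407) (nat_lit 100) (nat_lit 5) (nat_lit 104) (nat_lit 5) (nat_lit 101) (nat_lit 5) (nat_lit 618) (nat_lit 491) (nat_lit 451)) (XT.lf (nat_lit 0) (nat_lit 1354372850) (nat_lit 304) (nat_lit 5710294152) (nat_lit 380) (nat_lit 4628469933) (nat_lit 96) (nat_lit 5) (nat_lit 100) (nat_lit 5) (nat_lit 101) (nat_lit 5) (nat_lit 619) (nat_lit 491) (nat_lit 450))))))) (XT.nd (nat_lit 1092) (nat_lit 2052) (nat_lit 0) (XT.nd (nat_lit 546) (nat_lit 1216) (nat_lit 0) (XT.nd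 (nat_lit 234) (nat_lit 836) (nat_lit 0) (XT.nd (nat_lit 78) (nat_lit 532) (nat_lit 0) (XT.lf (nat_lit 0) (nat_lit 10596568767) (nat_lit 304) (nat_lit 1126448960) (nat_lit 380) (nat_lit 96165402) (nat_lit 96) (nat_lit 5) (nat_lit 100) (nat_lit 5) (nat_lit 101) (nat_lit 5) (nat_lit 620) (nat_lit 491) (nat_lit 449)) (XT.nd (nat_lit 78) (nat_lit 228) (nat_lit 0) (XT.lf (nat_lit 0) (nat_lit 4493346511) (nat_lit 304) (nat_lit 3903296752) (nat_lit 76) (nat_lit 3550002316) (nat_lit 92) (nat_lit 5) (nat_lit 96) (nat_lit 5) (nat_lit 93) (nat_lit 5) (nat_lit 621) (nat_lit 491) (nat_lit 448)) (XT.lf (nat_lit 0) (nat_lit 5412242671) (nat_lit 228) (nat_lit 3762375559) (nat_lit 304) (nat_lit 2902002924) (nat_lit 89) (nat_lit 5) (nat_lit 92) (nat_lit 5) (nat_lit 93) (nat_lit 5) (nat_lit 622) (nat_lit 491) (nat_lit 447)))) (XT.nd (nat_lit 156) (nat_lit 532) (nat_lit 0) (XT.nd (nat_lit 78) (nat_lit 0) (nat_lit 0) (XT.lf (nat_lit 0) (nat_lit 1718258388) (nat_lit 304) (nat_lit 9518650359)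 (nat_lit 76) (nat_lit 972047897) (nat_lit 85) (nat_lit 5) (nat_lit 89) (nat_lit 5) (nat_lit 86) (nat_lit 5) (nat_lit 623) (nat_lit 491) (nat_lit 446)) (XT.lf (nat_lit 0) (nat_lit 6412717845) (nat_lit 304) (nat_lit 150640945) (nat_lit 76) (nat_lit 5779785028) (nat_lit 85) (nat_lit 5) (nat_lit 89) (nat_lit 5) (nat_lit 86) (nat_lit 5) (nat_lit 624) (nat_lit 491) (nat_lit 445))) (XT.nd (nat_lit 78) (nat_lit 304) (nat_lit 0) (XT.lf (nat_lit 0) (nat_lit 9444688067) (nat_lit 228) (nat_lit 1769347020) (nat_lit 304) (nat_lit 1265721878) (nat_lit 82) (nat_lit 5) (nat_lit 85) (nat_lit 5) (nat_lit 86) (nat_lit 5) (nat_lit 625) (nat_lit 491) (nat_lit 444)) (XT.lf (nat_lit 0) (nat_lit 3462513471) (nat_lit 304) (nat_lit 6044515215) (nat_lit 76) (nat_lit 3111300965) (nat_lit 78) (nat_lit 5) (nat_lit 82) (nat_lit 5) (nat_lit 79) (nat_lit 5) (nat_lit 626) (nat_lit 491) (nat_lit 443))))) (XT.nd (nat_lit 234) (nat_lit 684) (nat_lit 0) (XT.nd (nat_lit 78) (nat_lit 304) (nat_lit 0)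 (XT.lf (nat_lit 0) (nat_lit 3599548887) (nat_lit 228) (nat_lit 4676331182) (nat_lit 304) (nat_lit 4483477611) (nat_lit 75) (nat_lit 5) (nat_lit 78) (nat_lit 5) (nat_lit 79) (nat_lit 5) (nat_lit 627) (nat_lit 491) (nat_lit 442)) (XT.nd (nat_lit 78) (nat_lit 0) (nat_lit 0) (XT.lf (nat_lit 0) (nat_lit 276611647) (nat_lit 304) (nat_lit 12368233948) (nat_lit 76) (nat_lit 258365338) (nat_lit 71) (nat_lit 5) (nat_lit 75) (nat_lit 5) (nat_lit 72) (nat_lit 5) (nat_lit 628) (nat_lit 491) (nat_lit 441)) (XT.lf (nat_lit 0) (nat_lit 5116923316) (nat_lit 304) (nat_lit 2646383775) (nat_lit 76) (nat_lit 5285141779) (nat_lit 71) (nat_lit 5) (nat_lit 75) (nat_lit 5) (nat_lit 72) (nat_lit 5) (nat_lit 629) (nat_lit 491) (nat_lit 440)))) (XT.nd (nat_lit 156) (nat_lit 228) (nat_lit 0) (XT.nd (nat_lit 78) (nat_lit 228) (nat_lit 0) (XT.lf (nat_lit 0) (nat_lit 7282646110) (nat_lit 228) (nat_lit 2771772000) (nat_lit 304) (nat_lit 3142167312) (nat_lit 68) (nat_lit 5) (nat_lit 71) (nat_lit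 5) (nat_lit 72) (nat_lit 5) (nat_lit 630) (nat_lit 491) (nat_lit 439)) (XT.lf (nat_lit 0) (nat_lit 1732704205) (nat_lit 228) (nat_lit 9304972610) (nat_lit 76) (nat_lit 2309531188) (nat_lit 65) (nat_lit 5) (nat_lit 68) (nat_lit 5) (nat_lit 66) (nat_lit 5) (nat_lit 631) (nat_lit 491) (nat_lit 438))) (XT.nd (nat_lit 78) (nat_lit 0) (nat_lit 0) (XT.lf (nat_lit 0) (nat_lit 663926794) (nat_lit 228) (nat_lit 6015047910) (nat_lit 304) (nat_lit 6821134746) (nat_lit 62) (nat_lit 5) (nat_lit 65) (nat_lit 5) (nat_lit 66) (nat_lit 5) (nat_lit 632) (nat_lit 491) (nat_lit 437)) (XT.lf (nat_lit 0) (nat_lit 10875879584) (nat_lit 228) (nat_lit 864432836) (nat_lit 304) (nat_lit 1915434960) (nat_lit 62) (nat_lit 5) (nat_lit 65) (nat_lit 5) (nat_lit 66) (nat_lit 5) (nat_lit 633) (nat_lit 491) (nat_lit 436)))))) (XT.nd (nat_lit 546) (nat_lit 912) (nat_lit 0) (XT.nd (nat_lit 234) (nat_lit 532) (nat_lit 0) (XT.nd (nat_lit 78) (nat_lit 380) (nat_lit 0) (XT.lf (nat_lit 0) (nat_lit 3079427088)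 (nat_lit 228) (nat_lit 6368663142) (nat_lit 76) (nat_lit 4365376981) (nat_lit 59) (nat_lit 5) (nat_lit 62) (nat_lit 5) (nat_lit 60) (nat_lit 5) (nat_lit 634) (nat_lit 491) (nat_lit 435)) (XT.nd (nat_lit 78) (nat_lit 152) (nat_lit 0) (XT.lf (nat_lit 0) (nat_lit 3888560352) (nat_lit 228) (nat_lit 4264198145) (nat_lit 304) (nat_lit 5821246538) (nat_lit 56) (nat_lit 5) (nat_lit 59) (nat_lit 5) (nat_lit 60) (nat_lit 5) (nat_lit 635) (nat_lit 491) (nat_lit 434)) (XT.lf (nat_lit 0) (nat_lit 214520665) (nat_lit 152) (nat_lit 13118673387) (nat_lit 228) (nat_lit 804448005) (nat_lit 54) (nat_lit 5) (nat_lit 56) (nat_lit 5) (nat_lit 57) (nat_lit 4) (nat_lit 636) (nat_lit 491) (nat_lit 433)))) (XT.nd (nat_lit 156) (nat_lit 228) (nat_lit 0) (XT.nd (nat_lit 78) (nat_lit 228) (nat_lit 0) (XT.lf (nat_lit 0) (nat_lit 4307135527) (nat_lit 228) (nat_lit 3584480781) (nat_lit 76) (nat_lit 6411356425) (nat_lit 53) (nat_lit 5) (nat_lit 56) (nat_lit 5) (nat_lit 54) (nat_lit 5) (nat_lit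 637) (nat_lit 491) (nat_lit 432)) (XT.lf (nat_lit 0) (nat_lit 6966789630) (nat_lit 228) (nat_lit 2544166082) (nat_lit 304) (nat_lit 4960533553) (nat_lit 50) (nat_lit 5) (nat_lit 53) (nat_lit 5) (nat_lit 54) (nat_lit 5) (nat_lit 638) (nat_lit 491) (nat_lit 431))) (XT.nd (nat_lit 78) (nat_lit 0) (nat_lit 0) (XT.lf (nat_lit 0) (nat_lit 192033152) (nat_lit 228) (nat_lit 11568513576) (nat_lit 76) (nat_lit 2882430523) (nat_lit 47) (nat_lit 5) (nat_lit 50) (nat_lit 5) (nat_lit 48) (nat_lit 5) (nat_lit 639) (nat_lit 491) (nat_lit 430)) (XT.lf (nat_lit 0) (nat_lit 5404550935) (nat_lit 228) (nat_lit 980355307) (nat_lit 76) (nat_lit 8431867603) (nat_lit 47) (nat_lit 5) (nat_lit 50) (nat_lit 5) (nat_lit 48) (nat_lit 5) (nat_lit 640) (nat_lit 491) (nat_lit 429))))) (XT.nd (nat_lit 234) (nat_lit 380) (nat_lit 0) (XT.nd (nat_lit 78) (nat_lit 380) (nat_lit 0) (XT.lf (nat_lit 0) (nat_lit 9870219316) (nat_lit 152) (nat_lit 871768492) (nat_lit 228) (nat_lit 4251646225) (nat_lit 45)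 (nat_lit 5) (nat_lit 47) (nat_lit 5) (nat_lit 48) (nat_lit 5) (nat_lit 641) (nat_lit 491) (nat_lit 428)) (XT.nd (nat_lit 78) (nat_lit 152) (nat_lit 0) (XT.lf (nat_lit 0) (nat_lit 1030532549) (nat_lit 228) (nat_lit 9437478253) (nat_lit 76) (nat_lit 4705256889) (nat_lit 42) (nat_lit 5) (nat_lit 45) (nat_lit 5) (nat_lit 43) (nat_lit 5) (nat_lit 642) (nat_lit 491) (nat_lit 427)) (XT.lf (nat_lit 0) (nat_lit 1431468355) (nat_lit 152) (nat_lit 4936439815) (nat_lit 228) (nat_lit 8987895105) (nat_lit 40) (nat_lit 5) (nat_lit 42) (nat_lit 5) (nat_lit 43) (nat_lit 5) (nat_lit 643) (nat_lit 491) (nat_lit 426)))) (XT.nd (nat_lit 156) (nat_lit 152) (nat_lit 0) (XT.nd (nat_lit 78) (nat_lit 228) (nat_lit 0) (XT.lf (nat_lit 0) (nat_lit 11837225056) (nat_lit 228) (nat_lit 2979080603) (nat_lit 76) (nat_lit 725180992) (nat_lit 40) (nat_lit 5) (nat_lit 43) (nat_lit 5) (nat_lit 41) (nat_lit 4) (nat_lit 644) (nat_lit 491) (nat_lit 425)) (XT.lf (nat_lit 0) (nat_lit 1706755434) (nat_lit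 228) (nat_lit 7559071853) (nat_lit 76) (nat_lit 6463962310) (nat_lit 37) (nat_lit 5) (nat_lit 40) (nat_lit 5) (nat_lit 38) (nat_lit 5) (nat_lit 645) (nat_lit 491) (nat_lit 424))) (XT.nd (nat_lit 78) (nat_lit 0) (nat_lit 0) (XT.lf (nat_lit 0) (nat_lit 3607505613) (nat_lit 152) (nat_lit 3570237286) (nat_lit 228) (nat_lit 8743599898) (nat_lit 35) (nat_lit 5) (nat_lit 37) (nat_lit 5) (nat_lit 38) (nat_lit 5) (nat_lit 646) (nat_lit 491) (nat_lit 423)) (XT.lf (nat_lit 0) (nat_lit 12781607718) (nat_lit 228) (nat_lit 1108387020) (nat_lit 76) (nat_lit 2226264056) (nat_lit 35) (nat_lit 5) (nat_lit 38) (nat_lit 5) (nat_lit 36) (nat_lit 4) (nat_lit 647) (nat_lit 491) (nat_lit 422))))))))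
noncomputable def xc26 : XT := (XT.nd (nat_lit 77454) (nat_lit 0) (nat_lit 3724) (XT.nd (nat_lit 76362) (nat_lit 0) (nat_lit 11172) (XT.nd (nat_lit 75816) (nat_lit 0) (nat_lit 16720) (XT.nd (nat_lit 75582) (nat_lit 0) (nat_lit 20520) (XT.nd (nat_lit 78) (nat_lit 228) (nat_lit 0) (XT.lf (nat_lit 0) (nat_lit 2203754271) (nat_lit 228) (nat_lit 5971372498) (nat_lit 76) (nat_lit 8138665766) (nat_lit 32) (nat_lit 5) (nat_lit 35) (nat_lit 5) (nat_lit 33) (nat_lit 5) (nat_lit 648) (nat_lit 491) (nat_lit 421)) (XT.nd (nat_lit 78) (nat_lit 76) (nat_lit 0) (XT.lf (nat_lit 0) (nat_lit 5495881241) (nat_lit 152) (nat_lit 2314337696) (nat_lit 228) (nat_lit 8704579163) (nat_lit 30) (nat_lit 5) (nat_lit 32) (nat_lit 5) (nat_lit 33) (nat_lit 5) (nat_lit 649) (nat_lit 491) (nat_lit 420)) (XT.lf (nat_lit 0) (nat_lit 460085412) (nat_lit 76) (nat_lit 13094660533) (nat_lit 152) (nat_lit 3164559987) (nat_lit 29) (nat_lit 5) (nat_lit 30) (nat_lit 5) (nat_lit 31) (nat_lit 4) (nat_lit 650)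 (nat_lit 491) (nat_lit 419)))) (XT.nd (nat_lit 78) (nat_lit 684) (nat_lit 0) (XT.lf (nat_lit 0) (nat_lit 16893275) (nat_lit 684) (nat_lit 3943918640) (nat_lit 0) (nat_lit 16893275) (nat_lit 308) (nat_lit 5) (nat_lit 317) (nat_lit 4) (nat_lit 308) (nat_lit 4) (nat_lit 576) (nat_lit 492) (nat_lit 492)) (XT.nd (nat_lit 78) (nat_lit 684) (nat_lit 0) (XT.lf (nat_lit 0) (nat_lit 3951087166) (nat_lit 684) (nat_lit 1342304265) (nat_lit 0) (nat_lit 2717168498) (nat_lit 308) (nat_lit 5) (nat_lit 317) (nat_lit 4) (nat_lit 308) (nat_lit 4) (nat_lit 577) (nat_lit 492) (nat_lit 491)) (XT.lf (nat_lit 0) (nat_lit 5316530195) (nat_lit 684) (nat_lit 2597294611) (nat_lit 684) (nat_lit 153651760) (nat_lit 299) (nat_lit 4) (nat_lit 308) (nat_lit 5) (nat_lit 308) (nat_lit 4) (nat_lit 578) (nat_lit 492) (nat_lit 490))))) (XT.nd (nat_lit 234) (nat_lit 1824) (nat_lit 0) (XT.nd (nat_lit 78) (nat_lit 1292) (nat_lit 0) (XT.lf (nat_lit 0) (nat_lit 3748838693) (nat_lit 684) (nat_lit 4186464108)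 (nat_lit 0) (nat_lit 190361288) (nat_lit 290) (nat_lit 5) (nat_lit 299) (nat_lit 4) (nat_lit 290) (nat_lit 4) (nat_lit 579) (nat_lit 492) (nat_lit 489)) (XT.nd (nat_lit 78) (nat_lit 684) (nat_lit 0) (XT.lf (nat_lit 0) (nat_lit 2542516861) (nat_lit 608) (nat_lit 5170597714) (nat_lit 608) (nat_lit 472170192) (nat_lit 282) (nat_lit 4) (nat_lit 290) (nat_lit 5) (nat_lit 290) (nat_lit 4) (nat_lit 580) (nat_lit 492) (nat_lit 488)) (XT.lf (nat_lit 0) (nat_lit 1120419964) (nat_lit 608) (nat_lit 2313464015) (nat_lit 684) (nat_lit 4812376424) (nat_lit 273) (nat_lit 5) (nat_lit 281) (nat_lit 5) (nat_lit 282) (nat_lit 4) (nat_lit 581) (nat_lit 492) (nat_lit 487)))) (XT.nd (nat_lit 156) (nat_lit 1140) (nat_lit 0) (XT.nd (nat_lit 78) (nat_lit 684) (nat_lit 0) (XT.lf (nat_lit 0) (nat_lit 7388134713) (nat_lit 684) (nat_lit 308787417) (nat_lit 0) (nat_lit 611948301) (nat_lit 273) (nat_lit 5) (nat_lit 282) (nat_lit 4) (nat_lit 273) (nat_lit 4) (nat_lit 582) (nat_lit 492) (nat_lit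 486)) (XT.lf (nat_lit 0) (nat_lit 3002729019) (nat_lit 684) (nat_lit 1763811493) (nat_lit 76) (nat_lit 3605921789) (nat_lit 264) (nat_lit 5) (nat_lit 273) (nat_lit 5) (nat_lit 265) (nat_lit 4) (nat_lit 583) (nat_lit 492) (nat_lit 485))) (XT.nd (nat_lit 78) (nat_lit 608) (nat_lit 0) (XT.lf (nat_lit 0) (nat_lit 5205798448) (nat_lit 532) (nat_lit 1758365167) (nat_lit 608) (nat_lit 1473609041) (nat_lit 257) (nat_lit 5) (nat_lit 264) (nat_lit 5) (nat_lit 265) (nat_lit 4) (nat_lit 584) (nat_lit 492) (nat_lit 484)) (XT.lf (nat_lit 0) (nat_lit 2448995253) (nat_lit 608) (nat_lit 4733475801) (nat_lit 76) (nat_lit 1321971209) (nat_lit 249) (nat_lit 5) (nat_lit 257) (nat_lit 5) (nat_lit 250) (nat_lit 4) (nat_lit 585) (nat_lit 492) (nat_lit 483)))))) (XT.nd (nat_lit 546) (nat_lit 2356) (nat_lit 0) (XT.nd (nat_lit 234) (nat_lit 2052) (nat_lit 0) (XT.nd (nat_lit 78) (nat_lit 608) (nat_lit 0) (XT.lf (nat_lit 0) (nat_lit 2305949873) (nat_lit 532) (nat_lit 4109561282) (nat_lit 608)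 (nat_lit 2157040138) (nat_lit 242) (nat_lit 5) (nat_lit 249) (nat_lit 5) (nat_lit 250) (nat_lit 4) (nat_lit 586) (nat_lit 492) (nat_lit 482)) (XT.nd (nat_lit 78) (nat_lit 0) (nat_lit 0) (XT.lf (nat_lit 0) (nat_lit 818887415) (nat_lit 532) (nat_lit 950852739) (nat_lit 608) (nat_lit 6872565266) (nat_lit 234) (nat_lit 5) (nat_lit 241) (nat_lit 5) (nat_lit 242) (nat_lit 5) (nat_lit 587) (nat_lit 492) (nat_lit 481)) (XT.lf (nat_lit 0) (nat_lit 5740746511) (nat_lit 608) (nat_lit 700160737) (nat_lit 76) (nat_lit 2272375151) (nat_lit 234) (nat_lit 5) (nat_lit 242) (nat_lit 5) (nat_lit 235) (nat_lit 4) (nat_lit 588) (nat_lit 492) (nat_lit 480)))) (XT.nd (nat_lit 156) (nat_lit 988) (nat_lit 0) (XT.nd (nat_lit 78) (nat_lit 532) (nat_lit 0) (XT.lf (nat_lit 0) (nat_lit 979791158) (nat_lit 532) (nat_lit 2234626747) (nat_lit 76) (nat_lit 5571384988) (nat_lit 227) (nat_lit 5) (nat_lit 234) (nat_lit 5) (nat_lit 228) (nat_lit 5) (nat_lit 589) (nat_lit 492) (nat_lit 479)) (XT.lf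 (nat_lit 0) (nat_lit 4948588723) (nat_lit 608) (nat_lit 3804370482) (nat_lit 76) (nat_lit 106881242) (nat_lit 220) (nat_lit 5) (nat_lit 228) (nat_lit 5) (nat_lit 221) (nat_lit 4) (nat_lit 590) (nat_lit 492) (nat_lit 478))) (XT.nd (nat_lit 78) (nat_lit 456) (nat_lit 0) (XT.lf (nat_lit 0) (nat_lit 59228483) (nat_lit 532) (nat_lit 5412579835) (nat_lit 76) (nat_lit 3463573835) (nat_lit 213) (nat_lit 5) (nat_lit 220) (nat_lit 5) (nat_lit 214) (nat_lit 5) (nat_lit 591) (nat_lit 492) (nat_lit 477)) (XT.lf (nat_lit 0) (nat_lit 1947182323) (nat_lit 456) (nat_lit 2087558295) (nat_lit 532) (nat_lit 4977621033) (nat_lit 207) (nat_lit 5) (nat_lit 213) (nat_lit 5) (nat_lit 214) (nat_lit 5) (nat_lit 592) (nat_lit 492) (nat_lit 476))))) (XT.nd (nat_lit 234) (nat_lit 1368) (nat_lit 0) (XT.nd (nat_lit 78) (nat_lit 532) (nat_lit 0) (XT.lf (nat_lit 0) (nat_lit 343882586) (nat_lit 456) (nat_lit 7733569004) (nat_lit 532) (nat_lit 1013679207) (nat_lit 201) (nat_lit 5) (nat_lit 207) (nat_lit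 5) (nat_lit 208) (nat_lit 4) (nat_lit 593) (nat_lit 492) (nat_lit 475)) (XT.nd (nat_lit 78) (nat_lit 456) (nat_lit 0) (XT.lf (nat_lit 0) (nat_lit 2991599712) (nat_lit 532) (nat_lit 1296535619) (nat_lit 76) (nat_lit 4882914452) (nat_lit 200) (nat_lit 5) (nat_lit 207) (nat_lit 5) (nat_lit 201) (nat_lit 5) (nat_lit 594) (nat_lit 492) (nat_lit 474)) (XT.lf (nat_lit 0) (nat_lit 6291645196) (nat_lit 456) (nat_lit 754041104) (nat_lit 532) (nat_lit 2207104941) (nat_lit 194) (nat_lit 5) (nat_lit 200) (nat_lit 5) (nat_lit 201) (nat_lit 5) (nat_lit 595) (nat_lit 492) (nat_lit 473)))) (XT.nd (nat_lit 156) (nat_lit 456) (nat_lit 0) (XT.nd (nat_lit 78) (nat_lit 456) (nat_lit 0) (XT.lf (nat_lit 0) (nat_lit 1819872891) (nat_lit 456) (nat_lit 4680080088) (nat_lit 76) (nat_lit 2835990895) (nat_lit 188) (nat_lit 5) (nat_lit 194) (nat_lit 5) (nat_lit 189) (nat_lit 5) (nat_lit 596) (nat_lit 492) (nat_lit 472)) (XT.lf (nat_lit 0) (nat_lit 2976336208) (nat_lit 456) (nat_lit 2907850587)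 (nat_lit 532) (nat_lit 3536557392) (nat_lit 182) (nat_lit 5) (nat_lit 188) (nat_lit 5) (nat_lit 189) (nat_lit 5) (nat_lit 597) (nat_lit 492) (nat_lit 471))) (XT.nd (nat_lit 78) (nat_lit 0) (nat_lit 0) (XT.lf (nat_lit 0) (nat_lit 502723428) (nat_lit 456) (nat_lit 8244942511) (nat_lit 76) (nat_lit 759769375) (nat_lit 176) (nat_lit 5) (nat_lit 182) (nat_lit 5) (nat_lit 177) (nat_lit 5) (nat_lit 598) (nat_lit 492) (nat_lit 470)) (XT.lf (nat_lit 0) (nat_lit 4580824864) (nat_lit 456) (nat_lit 515585031) (nat_lit 76) (nat_lit 4498878249) (nat_lit 176) (nat_lit 5) (nat_lit 182) (nat_lit 5) (nat_lit 177) (nat_lit 5) (nat_lit 599) (nat_lit 492) (nat_lit 469))))))) (XT.nd (nat_lit 1014) (nat_lit 3268) (nat_lit 0) (XT.nd (nat_lit 468) (nat_lit 2128) (nat_lit 0) (XT.nd (nat_lit 234) (nat_lit 836) (nat_lit 0) (XT.nd (nat_lit 78) (nat_lit 836) (nat_lit 0) (XT.lf (nat_lit 0) (nat_lit 7378351203) (nat_lit 380) (nat_lit 1353724809) (nat_lit 456) (nat_lit 952993405) (nat_lit 171)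 (nat_lit 5) (nat_lit 176) (nat_lit 5) (nat_lit 177) (nat_lit 5) (nat_lit 600) (nat_lit 492) (nat_lit 468)) (XT.nd (nat_lit 78) (nat_lit 380) (nat_lit 0) (XT.lf (nat_lit 0) (nat_lit 3147940756) (nat_lit 456) (nat_lit 4166071308) (nat_lit 76) (nat_lit 2462221706) (nat_lit 165) (nat_lit 5) (nat_lit 171) (nat_lit 5) (nat_lit 166) (nat_lit 5) (nat_lit 601) (nat_lit 492) (nat_lit 467)) (XT.lf (nat_lit 0) (nat_lit 3794829966) (nat_lit 380) (nat_lit 3516695305) (nat_lit 456) (nat_lit 2557705268) (nat_lit 160) (nat_lit 5) (nat_lit 165) (nat_lit 5) (nat_lit 166) (nat_lit 5) (nat_lit 602) (nat_lit 492) (nat_lit 466)))) (XT.nd (nat_lit 78) (nat_lit 380) (nat_lit 0) (XT.lf (nat_lit 0) (nat_lit 1560895242) (nat_lit 456) (nat_lit 8031356144) (nat_lit 76) (nat_lit 371881469) (nat_lit 154) (nat_lit 5) (nat_lit 160) (nat_lit 5) (nat_lit 155) (nat_lit 5) (nat_lit 603) (nat_lit 492) (nat_lit 465)) (XT.nd (nat_lit 78) (nat_lit 380) (nat_lit 0) (XT.lf (nat_lit 0) (nat_lit 5736651565)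 (nat_lit 456) (nat_lit 5967663) (nat_lit 76) (nat_lit 4317798019) (nat_lit 154) (nat_lit 5) (nat_lit 160) (nat_lit 5) (nat_lit 155) (nat_lit 5) (nat_lit 604) (nat_lit 492) (nat_lit 464)) (XT.lf (nat_lit 0) (nat_lit 8201423528) (nat_lit 380) (nat_lit 1793511033) (nat_lit 456) (nat_lit 163715269) (nat_lit 149) (nat_lit 5) (nat_lit 154) (nat_lit 5) (nat_lit 155) (nat_lit 5) (nat_lit 605) (nat_lit 492) (nat_lit 463))))) (XT.nd (nat_lit 234) (nat_lit 988) (nat_lit 0) (XT.nd (nat_lit 78) (nat_lit 760) (nat_lit 0) (XT.lf (nat_lit 0) (nat_lit 4027529805) (nat_lit 380) (nat_lit 3989429555) (nat_lit 76) (nat_lit 2241330640) (nat_lit 144) (nat_lit 5) (nat_lit 149) (nat_lit 5) (nat_lit 145) (nat_lit 5) (nat_lit 606) (nat_lit 492) (nat_lit 462)) (XT.nd (nat_lit 78) (nat_lit 380) (nat_lit 0) (XT.lf (nat_lit 0) (nat_lit 4282940003) (nat_lit 380) (nat_lit 4016584432) (nat_lit 456) (nat_lit 2060397136) (nat_lit 139) (nat_lit 5) (nat_lit 144) (nat_lit 5) (nat_lit 145) (nat_lit 5)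 (nat_lit 607) (nat_lit 492) (nat_lit 461)) (XT.lf (nat_lit 0) (nat_lit 2153017911) (nat_lit 380) (nat_lit 8224038642) (nat_lit 76) (nat_lit 86478656) (nat_lit 134) (nat_lit 5) (nat_lit 139) (nat_lit 5) (nat_lit 135) (nat_lit 5) (nat_lit 608) (nat_lit 492) (nat_lit 460)))) (XT.nd (nat_lit 156) (nat_lit 608) (nat_lit 0) (XT.nd (nat_lit 78) (nat_lit 76) (nat_lit 0) (XT.lf (nat_lit 0) (nat_lit 110254983) (nat_lit 304) (nat_lit 6327877732) (nat_lit 380) (nat_lit 4130518044) (nat_lit 130) (nat_lit 5) (nat_lit 134) (nat_lit 5) (nat_lit 135) (nat_lit 5) (nat_lit 609) (nat_lit 492) (nat_lit 459)) (XT.lf (nat_lit 0) (nat_lit 133650835) (nat_lit 380) (nat_lit 2040368594) (nat_lit 76) (nat_lit 8501787943) (nat_lit 129) (nat_lit 5) (nat_lit 134) (nat_lit 5) (nat_lit 130) (nat_lit 5) (nat_lit 610) (nat_lit 492) (nat_lit 458))) (XT.nd (nat_lit 78) (nat_lit 304) (nat_lit 0) (XT.lf (nat_lit 0) (nat_lit 4431617000) (nat_lit 380) (nat_lit 4279619924) (nat_lit 76) (nat_lit 2073249995)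 (nat_lit 125) (nat_lit 5) (nat_lit 130) (nat_lit 5) (nat_lit 126) (nat_lit 5) (nat_lit 611) (nat_lit 492) (nat_lit 457)) (XT.lf (nat_lit 0) (nat_lit 4309996886) (nat_lit 304) (nat_lit 4509772694) (nat_lit 380) (nat_lit 2075488177) (nat_lit 121) (nat_lit 5) (nat_lit 125) (nat_lit 5) (nat_lit 126) (nat_lit 5) (nat_lit 612) (nat_lit 492) (nat_lit 456)))))) (XT.nd (nat_lit 546) (nat_lit 1672) (nat_lit 0) (XT.nd (nat_lit 234) (nat_lit 912) (nat_lit 0) (XT.nd (nat_lit 78) (nat_lit 304) (nat_lit 0) (XT.lf (nat_lit 0) (nat_lit 2047795736) (nat_lit 304) (nat_lit 200036182) (nat_lit 380) (nat_lit 8760309401) (nat_lit 116) (nat_lit 5) (nat_lit 120) (nat_lit 5) (nat_lit 121) (nat_lit 5) (nat_lit 613) (nat_lit 492) (nat_lit 455)) (XT.nd (nat_lit 78) (nat_lit 304) (nat_lit 0) (XT.lf (nat_lit 0) (nat_lit 6650008907) (nat_lit 380) (nat_lit 306912996) (nat_lit 76) (nat_lit 4165684757) (nat_lit 116) (nat_lit 5) (nat_lit 121) (nat_lit 5) (nat_lit 117) (nat_lit 5) (nat_lit 614) (nat_lit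 492) (nat_lit 454)) (XT.lf (nat_lit 0) (nat_lit 8546020075) (nat_lit 304) (nat_lit 2600461262) (nat_lit 380) (nat_lit 92757004) (nat_lit 112) (nat_lit 5) (nat_lit 116) (nat_lit 5) (nat_lit 117) (nat_lit 5) (nat_lit 615) (nat_lit 492) (nat_lit 453)))) (XT.nd (nat_lit 156) (nat_lit 304) (nat_lit 0) (XT.nd (nat_lit 78) (nat_lit 304) (nat_lit 0) (XT.lf (nat_lit 0) (nat_lit 4321339199) (nat_lit 304) (nat_lit 5179676850) (nat_lit 76) (nat_lit 1856539864) (nat_lit 108) (nat_lit 5) (nat_lit 112) (nat_lit 5) (nat_lit 109) (nat_lit 5) (nat_lit 616) (nat_lit 492) (nat_lit 452)) (XT.lf (nat_lit 0) (nat_lit 3731338815) (nat_lit 304) (nat_lit 5100556957) (nat_lit 380) (nat_lit 2646145346) (nat_lit 104) (nat_lit 5) (nat_lit 108) (nat_lit 5) (nat_lit 109) (nat_lit 5) (nat_lit 617) (nat_lit 492) (nat_lit 451))) (XT.nd (nat_lit 78) (nat_lit 0) (nat_lit 0) (XT.lf (nat_lit 0) (nat_lit 1209504847) (nat_lit 228) (nat_lit 590926434) (nat_lit 304) (nat_lit 9800414222) (nat_lit 100) (nat_lit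 5) (nat_lit 103) (nat_lit 5) (nat_lit 104) (nat_lit 5) (nat_lit 618) (nat_lit 492) (nat_lit 450)) (XT.lf (nat_lit 0) (nat_lit 6328995137) (nat_lit 304) (nat_lit 1404112597) (nat_lit 76) (nat_lit 3992080508) (nat_lit 100) (nat_lit 5) (nat_lit 104) (nat_lit 5) (nat_lit 101) (nat_lit 5) (nat_lit 619) (nat_lit 492) (nat_lit 449))))) (XT.nd (nat_lit 234) (nat_lit 836) (nat_lit 0) (XT.nd (nat_lit 78) (nat_lit 532) (nat_lit 0) (XT.lf (nat_lit 0) (nat_lit 7777623874) (nat_lit 304) (nat_lit 3175993118) (nat_lit 380) (nat_lit 898292914) (nat_lit 96) (nat_lit 5) (nat_lit 100) (nat_lit 5) (nat_lit 101) (nat_lit 5) (nat_lit 620) (nat_lit 492) (nat_lit 448)) (XT.nd (nat_lit 78) (nat_lit 228) (nat_lit 0) (XT.lf (nat_lit 0) (nat_lit 3644991111) (nat_lit 304) (nat_lit 6849556019) (nat_lit 76) (nat_lit 1486065202) (nat_lit 92) (nat_lit 5) (nat_lit 96) (nat_lit 5) (nat_lit 93) (nat_lit 5) (nat_lit 621) (nat_lit 492) (nat_lit 447)) (XT.lf (nat_lit 0) (nat_lit 2384879409) (nat_lit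 228) (nat_lit 5897653562) (nat_lit 304) (nat_lit 3828930375) (nat_lit 89) (nat_lit 5) (nat_lit 92) (nat_lit 5) (nat_lit 93) (nat_lit 5) (nat_lit 622) (nat_lit 492) (nat_lit 446)))) (XT.nd (nat_lit 156) (nat_lit 532) (nat_lit 0) (XT.nd (nat_lit 78) (nat_lit 228) (nat_lit 0) (XT.lf (nat_lit 0) (nat_lit 755555023) (nat_lit 304) (nat_lit 436174732) (nat_lit 76) (nat_lit 11053148908) (nat_lit 88) (nat_lit 5) (nat_lit 92) (nat_lit 5) (nat_lit 89) (nat_lit 5) (nat_lit 623) (nat_lit 492) (nat_lit 445)) (XT.lf (nat_lit 0) (nat_lit 5415451483) (nat_lit 304) (nat_lit 3352680697) (nat_lit 76) (nat_lit 3611625710) (nat_lit 85) (nat_lit 5) (nat_lit 89) (nat_lit 5) (nat_lit 86) (nat_lit 5) (nat_lit 624) (nat_lit 492) (nat_lit 444))) (XT.nd (nat_lit 78) (nat_lit 304) (nat_lit 0) (XT.lf (nat_lit 0) (nat_lit 6158828883) (nat_lit 228) (nat_lit 4013138293) (nat_lit 304) (nat_lit 2345300669) (nat_lit 82) (nat_lit 5) (nat_lit 85) (nat_lit 5) (nat_lit 86) (nat_lit 5) (nat_lit 625) (nat_lit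 492) (nat_lit 443)) (XT.lf (nat_lit 0) (nat_lit 2336708739) (nat_lit 304) (nat_lit 9469947912) (nat_lit 76) (nat_lit 850532510) (nat_lit 78) (nat_lit 5) (nat_lit 82) (nat_lit 5) (nat_lit 79) (nat_lit 5) (nat_lit 626) (nat_lit 492) (nat_lit 442))))))))
noncomputable def xc27 : XT := (XT.nd (nat_lit 77298) (nat_lit 0) (nat_lit 9424) (XT.nd (nat_lit 1014) (nat_lit 1520) (nat_lit 0) (XT.nd (nat_lit 468) (nat_lit 1140) (nat_lit 0) (XT.nd (nat_lit 234) (nat_lit 456) (nat_lit 0) (XT.nd (nat_lit 78) (nat_lit 304) (nat_lit 0) (XT.lf (nat_lit 0) (nat_lit 87197195) (nat_lit 228) (nat_lit 7016732884) (nat_lit 304) (nat_lit 5695210749) (nat_lit 75) (nat_lit 5) (nat_lit 78) (nat_lit 5) (nat_lit 79) (nat_lit 5) (nat_lit 627) (nat_lit 492) (nat_lit 441)) (XT.nd (nat_lit 78) (nat_lit 304) (nat_lit 0) (XT.lf (nat_lit 0) (nat_lit 9881870953) (nat_lit 228) (nat_lit 2101417127) (nat_lit 304) (nat_lit 960309055) (nat_lit 75) (nat_lit 5) (nat_lit 78) (nat_lit 5) (nat_lit 79) (nat_lit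 5) (nat_lit 628) (nat_lit 492) (nat_lit 440)) (XT.lf (nat_lit 0) (nat_lit 3835455887) (nat_lit 304) (nat_lit 6345528077) (nat_lit 76) (nat_lit 2909119324) (nat_lit 71) (nat_lit 5) (nat_lit 75) (nat_lit 5) (nat_lit 72) (nat_lit 5) (nat_lit 629) (nat_lit 492) (nat_lit 439)))) (XT.nd (nat_lit 78) (nat_lit 228) (nat_lit 0) (XT.lf (nat_lit 0) (nat_lit 3493636205) (nat_lit 228) (nat_lit 5231947802) (nat_lit 304) (nat_lit 4513603843) (nat_lit 68) (nat_lit 5) (nat_lit 71) (nat_lit 5) (nat_lit 72) (nat_lit 5) (nat_lit 630) (nat_lit 492) (nat_lit 438)) (XT.nd (nat_lit 78) (nat_lit 0) (nat_lit 0) (XT.lf (nat_lit 0) (nat_lit 143478881) (nat_lit 152) (nat_lit 172438400) (nat_lit 228) (nat_lit 13075338627) (nat_lit 65) (nat_lit 5) (nat_lit 67) (nat_lit 5) (nat_lit 68) (nat_lit 5) (nat_lit 631) (nat_lit 492) (nat_lit 437)) (XT.lf (nat_lit 0) (nat_lit 5234102049) (nat_lit 228) (nat_lit 3326749978) (nat_lit 76) (nat_lit 4983867681) (nat_lit 65) (nat_lit 5) (nat_lit 68) (nat_lit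 5) (nat_lit 66) (nat_lit 5) (nat_lit 632) (nat_lit 492) (nat_lit 436))))) (XT.nd (nat_lit 234) (nat_lit 684) (nat_lit 0) (XT.nd (nat_lit 78) (nat_lit 228) (nat_lit 0) (XT.lf (nat_lit 0) (nat_lit 6800972663) (nat_lit 228) (nat_lit 3450109487) (nat_lit 304) (nat_lit 3450163264) (nat_lit 62) (nat_lit 5) (nat_lit 65) (nat_lit 5) (nat_lit 66) (nat_lit 5) (nat_lit 633) (nat_lit 492) (nat_lit 435)) (XT.nd (nat_lit 78) (nat_lit 0) (nat_lit 0) (XT.lf (nat_lit 0) (nat_lit 1498200193) (nat_lit 228) (nat_lit 10603324685) (nat_lit 76) (nat_lit 1758972794) (nat_lit 59) (nat_lit 5) (nat_lit 62) (nat_lit 5) (nat_lit 60) (nat_lit 5) (nat_lit 634) (nat_lit 492) (nat_lit 434)) (XT.lf (nat_lit 0) (nat_lit 6524175227) (nat_lit 228) (nat_lit 436698696) (nat_lit 76) (nat_lit 7061109292) (nat_lit 59) (nat_lit 5) (nat_lit 62) (nat_lit 5) (nat_lit 60) (nat_lit 5) (nat_lit 635) (nat_lit 492) (nat_lit 433)))) (XT.nd (nat_lit 156) (nat_lit 228) (nat_lit 0) (XT.nd (nat_lit 78) (nat_lit 228)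 (nat_lit 0) (XT.lf (nat_lit 0) (nat_lit 9985805204) (nat_lit 228) (nat_lit 1685914014) (nat_lit 304) (nat_lit 2514559427) (nat_lit 56) (nat_lit 5) (nat_lit 59) (nat_lit 5) (nat_lit 60) (nat_lit 5) (nat_lit 636) (nat_lit 492) (nat_lit 432)) (XT.lf (nat_lit 0) (nat_lit 2558675605) (nat_lit 228) (nat_lit 8121950148) (nat_lit 76) (nat_lit 3672421725) (nat_lit 53) (nat_lit 5) (nat_lit 56) (nat_lit 5) (nat_lit 54) (nat_lit 5) (nat_lit 637) (nat_lit 492) (nat_lit 431))) (XT.nd (nat_lit 78) (nat_lit 0) (nat_lit 0) (XT.lf (nat_lit 0) (nat_lit 2329584683) (nat_lit 228) (nat_lit 5381221783) (nat_lit 304) (nat_lit 6811791873) (nat_lit 50) (nat_lit 5) (nat_lit 53) (nat_lit 5) (nat_lit 54) (nat_lit 5) (nat_lit 638) (nat_lit 492) (nat_lit 430)) (XT.lf (nat_lit 0) (nat_lit 12977527198) (nat_lit 304) (nat_lit 1673459170) (nat_lit 76) (nat_lit 44323984) (nat_lit 50) (nat_lit 5) (nat_lit 54) (nat_lit 5) (nat_lit 51) (nat_lit 4) (nat_lit 639) (nat_lit 492) (nat_lit 429)))))) (XT.nd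 (nat_lit 546) (nat_lit 532) (nat_lit 0) (XT.nd (nat_lit 234) (nat_lit 456) (nat_lit 0) (XT.nd (nat_lit 78) (nat_lit 304) (nat_lit 0) (XT.lf (nat_lit 0) (nat_lit 3484688441) (nat_lit 228) (nat_lit 5830853113) (nat_lit 76) (nat_lit 5554440470) (nat_lit 47) (nat_lit 5) (nat_lit 50) (nat_lit 5) (nat_lit 48) (nat_lit 5) (nat_lit 640) (nat_lit 492) (nat_lit 428)) (XT.nd (nat_lit 78) (nat_lit 152) (nat_lit 0) (XT.lf (nat_lit 0) (nat_lit 4916509406) (nat_lit 152) (nat_lit 3852381851) (nat_lit 228) (nat_lit 6279016138) (nat_lit 45) (nat_lit 5) (nat_lit 47) (nat_lit 5) (nat_lit 48) (nat_lit 5) (nat_lit 641) (nat_lit 492) (nat_lit 427)) (XT.lf (nat_lit 0) (nat_lit 648969085) (nat_lit 152) (nat_lit 13522125678) (nat_lit 228) (nat_lit 1058051175) (nat_lit 43) (nat_lit 5) (nat_lit 45) (nat_lit 5) (nat_lit 46) (nat_lit 4) (nat_lit 642) (nat_lit 492) (nat_lit 426)))) (XT.nd (nat_lit 156) (nat_lit 228) (nat_lit 0) (XT.nd (nat_lit 78) (nat_lit 152) (nat_lit 0) (XT.lf (nat_lit 0)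 (nat_lit 4262917687) (nat_lit 228) (nat_lit 3761461437) (nat_lit 76) (nat_lit 7388045928) (nat_lit 42) (nat_lit 5) (nat_lit 45) (nat_lit 5) (nat_lit 43) (nat_lit 5) (nat_lit 643) (nat_lit 492) (nat_lit 425)) (XT.lf (nat_lit 0) (nat_lit 7286280113) (nat_lit 152) (nat_lit 2395612177) (nat_lit 228) (nat_lit 5917223449) (nat_lit 40) (nat_lit 5) (nat_lit 42) (nat_lit 5) (nat_lit 43) (nat_lit 5) (nat_lit 644) (nat_lit 492) (nat_lit 424))) (XT.nd (nat_lit 78) (nat_lit 76) (nat_lit 0) (XT.lf (nat_lit 0) (nat_lit 2755166643) (nat_lit 152) (nat_lit 12477636095) (nat_lit 228) (nat_lit 556267295) (nat_lit 38) (nat_lit 5) (nat_lit 40) (nat_lit 5) (nat_lit 41) (nat_lit 4) (nat_lit 645) (nat_lit 492) (nat_lit 423)) (XT.lf (nat_lit 0) (nat_lit 4878091495) (nat_lit 228) (nat_lit 1948679773) (nat_lit 76) (nat_lit 9154803121) (nat_lit 37) (nat_lit 5) (nat_lit 40) (nat_lit 5) (nat_lit 38) (nat_lit 5) (nat_lit 646) (nat_lit 492) (nat_lit 422))))) (XT.nd (nat_lit 234) (nat_lit 152)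 (nat_lit 0) (XT.nd (nat_lit 78) (nat_lit 228) (nat_lit 0) (XT.lf (nat_lit 0) (nat_lit 9403324154) (nat_lit 152) (nat_lit 1030822663) (nat_lit 228) (nat_lit 5743300187) (nat_lit 35) (nat_lit 5) (nat_lit 37) (nat_lit 5) (nat_lit 38) (nat_lit 5) (nat_lit 647) (nat_lit 492) (nat_lit 421)) (XT.nd (nat_lit 78) (nat_lit 76) (nat_lit 0) (XT.lf (nat_lit 0) (nat_lit 4585506458) (nat_lit 152) (nat_lit 11549937162) (nat_lit 228) (nat_lit 241111894) (nat_lit 33) (nat_lit 5) (nat_lit 35) (nat_lit 5) (nat_lit 36) (nat_lit 4) (nat_lit 648) (nat_lit 492) (nat_lit 420)) (XT.lf (nat_lit 0) (nat_lit 5312802207) (nat_lit 228) (nat_lit 431294724) (nat_lit 76) (nat_lit 10834610116) (nat_lit 32) (nat_lit 5) (nat_lit 35) (nat_lit 5) (nat_lit 33) (nat_lit 5) (nat_lit 649) (nat_lit 492) (nat_lit 419)))) (XT.nd (nat_lit 75348) (nat_lit 0) (nat_lit 21128) (XT.nd (nat_lit 75270) (nat_lit 0) (nat_lit 22496) (XT.lf (nat_lit 0) (nat_lit 11009232305) (nat_lit 228) (nat_lit 5557565443) (nat_lit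 76) (nat_lit 217379467) (nat_lit 30) (nat_lit 5) (nat_lit 33) (nat_lit 5) (nat_lit 31) (nat_lit 4) (nat_lit 650) (nat_lit 492) (nat_lit 418)) (XT.lf (nat_lit 0) (nat_lit 721365922) (nat_lit 760) (nat_lit 2481103165) (nat_lit 0) (nat_lit 721365922) (nat_lit 326) (nat_lit 5) (nat_lit 336) (nat_lit 4) (nat_lit 326) (nat_lit 4) (nat_lit 574) (nat_lit 493) (nat_lit 493))) (XT.nd (nat_lit 78) (nat_lit 684) (nat_lit 0) (XT.lf (nat_lit 0) (nat_lit 1454034465) (nat_lit 684) (nat_lit 3865370058) (nat_lit 684) (nat_lit 2581601076) (nat_lit 317) (nat_lit 4) (nat_lit 326) (nat_lit 5) (nat_lit 326) (nat_lit 4) (nat_lit 575) (nat_lit 493) (nat_lit 492)) (XT.lf (nat_lit 0) (nat_lit 15874455) (nat_lit 608) (nat_lit 1250581226) (nat_lit 684) (nat_lit 6689476247) (nat_lit 308) (nat_lit 5) (nat_lit 316) (nat_lit 5) (nat_lit 317) (nat_lit 4) (nat_lit 576) (nat_lit 493) (nat_lit 491))))))) (XT.nd (nat_lit 1092) (nat_lit 5016) (nat_lit 0) (XT.nd (nat_lit 546) (nat_lit 3344) (nat_lit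 0) (XT.nd (nat_lit 234) (nat_lit 1976) (nat_lit 0) (XT.nd (nat_lit 78) (nat_lit 1368) (nat_lit 0) (XT.lf (nat_lit 0) (nat_lit 5142256779) (nat_lit 684) (nat_lit 1429640729) (nat_lit 0) (nat_lit 1440016887) (nat_lit 308) (nat_lit 5) (nat_lit 317) (nat_lit 4) (nat_lit 308) (nat_lit 4) (nat_lit 577) (nat_lit 493) (nat_lit 490)) (XT.nd (nat_lit 78) (nat_lit 608) (nat_lit 0) (XT.lf (nat_lit 0) (nat_lit 988769849) (nat_lit 760) (nat_lit 2890928898) (nat_lit 76) (nat_lit 4189676633) (nat_lit 298) (nat_lit 5) (nat_lit 308) (nat_lit 5) (nat_lit 299) (nat_lit 4) (nat_lit 578) (nat_lit 493) (nat_lit 489)) (XT.lf (nat_lit 0) (nat_lit 3754513422) (nat_lit 608) (nat_lit 1099697733) (nat_lit 684) (nat_lit 3274035236) (nat_lit 290) (nat_lit 5) (nat_lit 298) (nat_lit 5) (nat_lit 299) (nat_lit 4) (nat_lit 579) (nat_lit 493) (nat_lit 488)))) (XT.nd (nat_lit 156) (nat_lit 684) (nat_lit 0) (XT.nd (nat_lit 78) (nat_lit 608) (nat_lit 0) (XT.lf (nat_lit 0) (nat_lit 581193764) (nat_lit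 684) (nat_lit 5875932938) (nat_lit 76) (nat_lit 1731484243) (nat_lit 281) (nat_lit 5) (nat_lit 290) (nat_lit 5) (nat_lit 282) (nat_lit 4) (nat_lit 580) (nat_lit 493) (nat_lit 487)) (XT.lf (nat_lit 0) (nat_lit 837484178) (nat_lit 608) (nat_lit 3609601458) (nat_lit 684) (nat_lit 3803121629) (nat_lit 273) (nat_lit 5) (nat_lit 281) (nat_lit 5) (nat_lit 282) (nat_lit 4) (nat_lit 581) (nat_lit 493) (nat_lit 486))) (XT.nd (nat_lit 78) (nat_lit 608) (nat_lit 0) (XT.lf (nat_lit 0) (nat_lit 51312559) (nat_lit 684) (nat_lit 635331321) (nat_lit 76) (nat_lit 7626885329) (nat_lit 272) (nat_lit 5) (nat_lit 281) (nat_lit 5) (nat_lit 273) (nat_lit 5) (nat_lit 582) (nat_lit 493) (nat_lit 485)) (XT.lf (nat_lit 0) (nat_lit 3924364332) (nat_lit 684) (nat_lit 2144320288) (nat_lit 76) (nat_lit 2309086098) (nat_lit 264) (nat_lit 5) (nat_lit 273) (nat_lit 5) (nat_lit 265) (nat_lit 4) (nat_lit 583) (nat_lit 493) (nat_lit 484))))) (XT.nd (nat_lit 234) (nat_lit 1672) (nat_lit 0) (XT.nd (nat_lit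 78) (nat_lit 1140) (nat_lit 0) (XT.lf (nat_lit 0) (nat_lit 4777100639) (nat_lit 532) (nat_lit 3074820133) (nat_lit 608) (nat_lit 591840268) (nat_lit 257) (nat_lit 5) (nat_lit 264) (nat_lit 5) (nat_lit 265) (nat_lit 4) (nat_lit 584) (nat_lit 493) (nat_lit 483)) (XT.nd (nat_lit 78) (nat_lit 532) (nat_lit 0) (XT.lf (nat_lit 0) (nat_lit 3276448833) (nat_lit 608) (nat_lit 5220960118) (nat_lit 76) (nat_lit 13764516) (nat_lit 249) (nat_lit 5) (nat_lit 257) (nat_lit 5) (nat_lit 250) (nat_lit 4) (nat_lit 585) (nat_lit 493) (nat_lit 482)) (XT.lf (nat_lit 0) (nat_lit 1768458409) (nat_lit 532) (nat_lit 5440306162) (nat_lit 608) (nat_lit 1371204195) (nat_lit 242) (nat_lit 5) (nat_lit 249) (nat_lit 5) (nat_lit 250) (nat_lit 4) (nat_lit 586) (nat_lit 493) (nat_lit 481)))) (XT.nd (nat_lit 156) (nat_lit 1064) (nat_lit 0) (XT.nd (nat_lit 78) (nat_lit 0) (nat_lit 0) (XT.lf (nat_lit 0) (nat_lit 217910472) (nat_lit 532) (nat_lit 2292868562) (nat_lit 608) (nat_lit 6139533806) (nat_lit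 234) (nat_lit 5) (nat_lit 241) (nat_lit 5) (nat_lit 242) (nat_lit 5) (nat_lit 587) (nat_lit 493) (nat_lit 480)) (XT.lf (nat_lit 0) (nat_lit 6442723905) (nat_lit 608) (nat_lit 1343758408) (nat_lit 76) (nat_lit 935590870) (nat_lit 234) (nat_lit 5) (nat_lit 242) (nat_lit 5) (nat_lit 235) (nat_lit 4) (nat_lit 588) (nat_lit 493) (nat_lit 479))) (XT.nd (nat_lit 78) (nat_lit 532) (nat_lit 0) (XT.lf (nat_lit 0) (nat_lit 1629390688) (nat_lit 532) (nat_lit 2943570908) (nat_lit 76) (nat_lit 4222234036) (nat_lit 227) (nat_lit 5) (nat_lit 234) (nat_lit 5) (nat_lit 228) (nat_lit 5) (nat_lit 589) (nat_lit 493) (nat_lit 478)) (XT.lf (nat_lit 0) (nat_lit 4294662003) (nat_lit 532) (nat_lit 1268237997) (nat_lit 608) (nat_lit 3307040962) (nat_lit 220) (nat_lit 5) (nat_lit 227) (nat_lit 5) (nat_lit 228) (nat_lit 5) (nat_lit 590) (nat_lit 493) (nat_lit 477)))))) (XT.nd (nat_lit 546) (nat_lit 2128) (nat_lit 0) (XT.nd (nat_lit 234) (nat_lit 1900) (nat_lit 0) (XT.nd (nat_lit 78) (nat_lit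 456) (nat_lit 0) (XT.lf (nat_lit 0) (nat_lit 612276421) (nat_lit 532) (nat_lit 6243376296) (nat_lit 76) (nat_lit 2090618195) (nat_lit 213) (nat_lit 5) (nat_lit 220) (nat_lit 5) (nat_lit 214) (nat_lit 5) (nat_lit 591) (nat_lit 493) (nat_lit 476)) (XT.nd (nat_lit 78) (nat_lit 0) (nat_lit 0) (XT.lf (nat_lit 0) (nat_lit 1061847122) (nat_lit 456) (nat_lit 3490880609) (nat_lit 532) (nat_lit 4471225791) (nat_lit 207) (nat_lit 5) (nat_lit 213) (nat_lit 5) (nat_lit 214) (nat_lit 5) (nat_lit 592) (nat_lit 493) (nat_lit 475)) (XT.lf (nat_lit 0) (nat_lit 8511662733) (nat_lit 456) (nat_lit 43611852) (nat_lit 532) (nat_lit 548253222) (nat_lit 207) (nat_lit 5) (nat_lit 213) (nat_lit 5) (nat_lit 214) (nat_lit 5) (nat_lit 593) (nat_lit 493) (nat_lit 474)))) (XT.nd (nat_lit 156) (nat_lit 912) (nat_lit 0) (XT.nd (nat_lit 78) (nat_lit 456) (nat_lit 0) (XT.lf (nat_lit 0) (nat_lit 3417715310) (nat_lit 532) (nat_lit 2298578722) (nat_lit 76) (nat_lit 3467758235) (nat_lit 200) (nat_lit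 5) (nat_lit 207) (nat_lit 5) (nat_lit 201) (nat_lit 5) (nat_lit 594) (nat_lit 493) (nat_lit 473)) (XT.lf (nat_lit 0) (nat_lit 5233327886) (nat_lit 456) (nat_lit 2203167961) (nat_lit 532) (nat_lit 1830005750) (nat_lit 194) (nat_lit 5) (nat_lit 200) (nat_lit 5) (nat_lit 201) (nat_lit 5) (nat_lit 595) (nat_lit 493) (nat_lit 472))) (XT.nd (nat_lit 78) (nat_lit 456) (nat_lit 0) (XT.lf (nat_lit 0) (nat_lit 2146806057) (nat_lit 456) (nat_lit 5816737407) (nat_lit 76) (nat_lit 1386967888) (nat_lit 188) (nat_lit 5) (nat_lit 194) (nat_lit 5) (nat_lit 189) (nat_lit 5) (nat_lit 596) (nat_lit 493) (nat_lit 471)) (XT.lf (nat_lit 0) (nat_lit 1781321170) (nat_lit 456) (nat_lit 4393890854) (nat_lit 532) (nat_lit 3260819449) (nat_lit 182) (nat_lit 5) (nat_lit 188) (nat_lit 5) (nat_lit 189) (nat_lit 5) (nat_lit 597) (nat_lit 493) (nat_lit 470))))) (XT.nd (nat_lit 234) (nat_lit 1292) (nat_lit 0) (XT.nd (nat_lit 78) (nat_lit 760) (nat_lit 0) (XT.lf (nat_lit 0) (nat_lit 733557833) (nat_lit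 532) (nat_lit 3904557) (nat_lit 76) (nat_lit 8786051734) (nat_lit 181) (nat_lit 5) (nat_lit 188) (nat_lit 5) (nat_lit 182) (nat_lit 5) (nat_lit 598) (nat_lit 493) (nat_lit 469)) (XT.nd (nat_lit 78) (nat_lit 380) (nat_lit 0) (XT.lf (nat_lit 0) (nat_lit 4778965382) (nat_lit 456) (nat_lit 1836284152) (nat_lit 76) (nat_lit 2996772852) (nat_lit 176) (nat_lit 5) (nat_lit 182) (nat_lit 5) (nat_lit 177) (nat_lit 5) (nat_lit 599) (nat_lit 493) (nat_lit 468)) (XT.lf (nat_lit 0) (nat_lit 5997424499) (nat_lit 380) (nat_lit 2896492870) (nat_lit 456) (nat_lit 808613797) (nat_lit 171) (nat_lit 5) (nat_lit 176) (nat_lit 5) (nat_lit 177) (nat_lit 5) (nat_lit 600) (nat_lit 493) (nat_lit 467)))) (XT.nd (nat_lit 156) (nat_lit 456) (nat_lit 0) (XT.nd (nat_lit 78) (nat_lit 380) (nat_lit 0) (XT.lf (nat_lit 0) (nat_lit 3243522988) (nat_lit 456) (nat_lit 5634766105) (nat_lit 76) (nat_lit 916327220) (nat_lit 165) (nat_lit 5) (nat_lit 171) (nat_lit 5) (nat_lit 166) (nat_lit 5) (nat_lit 601)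 (nat_lit 493) (nat_lit 466)) (XT.lf (nat_lit 0) (nat_lit 2263684370) (nat_lit 380) (nat_lit 5106397325) (nat_lit 456) (nat_lit 2518273340) (nat_lit 160) (nat_lit 5) (nat_lit 165) (nat_lit 5) (nat_lit 166) (nat_lit 5) (nat_lit 602) (nat_lit 493) (nat_lit 465))) (XT.nd (nat_lit 78) (nat_lit 0) (nat_lit 0) (XT.lf (nat_lit 0) (nat_lit 321125217) (nat_lit 380) (nat_lit 1238752238) (nat_lit 456) (nat_lit 8424174806) (nat_lit 154) (nat_lit 5) (nat_lit 159) (nat_lit 5) (nat_lit 160) (nat_lit 5) (nat_lit 603) (nat_lit 493) (nat_lit 464)) (XT.lf (nat_lit 0) (nat_lit 5700740713) (nat_lit 456) (nat_lit 1672103783) (nat_lit 76) (nat_lit 2708191372) (nat_lit 154) (nat_lit 5) (nat_lit 160) (nat_lit 5) (nat_lit 155) (nat_lit 5) (nat_lit 604) (nat_lit 493) (nat_lit 463))))))))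
noncomputable def xc28 : XT := (XT.nd (nat_lit 2106) (nat_lit 2888) (nat_lit 0) (XT.nd (nat_lit 1014) (nat_lit 2736) (nat_lit 0) (XT.nd (nat_lit 468) (nat_lit 1976) (nat_lit 0) (XT.nd (nat_lit 234) (nat_lit 684) (nat_lit 0) (XT.nd (nat_lit 78) (nat_lit 760) (nat_lit 0) (XT.lf (nat_lit 0) (nat_lit 6470817629) (nat_lit 380) (nat_lit 3450646048) (nat_lit 456) (nat_lit 258557301) (nat_lit 149) (nat_lit 5) (nat_lit 154) (nat_lit 5) (nat_lit 155) (nat_lit 5) (nat_lit 605) (nat_lit 493) (nat_lit 462)) (XT.nd (nat_lit 78) (nat_lit 380) (nat_lit 0) (XT.lf (nat_lit 0) (nat_lit 3884940476) (nat_lit 380) (nat_lit 5817672536) (nat_lit 76) (nat_lit 578041550) (nat_lit 144) (nat_lit 5) (nat_lit 149) (nat_lit 5) (nat_lit 145) (nat_lit 5) (nat_lit 606) (nat_lit 493) (nat_lit 461)) (XT.lf (nat_lit 0) (nat_lit 2387849689) (nat_lit 380) (nat_lit 5730673929) (nat_lit 456) (nat_lit 2264531996) (nat_lit 139) (nat_lit 5) (nat_lit 144) (nat_lit 5) (nat_lit 145) (nat_lit 5) (nat_lit 607)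 (nat_lit 493) (nat_lit 460)))) (XT.nd (nat_lit 78) (nat_lit 304) (nat_lit 0) (XT.lf (nat_lit 0) (nat_lit 255080466) (nat_lit 304) (nat_lit 1656984241) (nat_lit 380) (nat_lit 8575422166) (nat_lit 134) (nat_lit 5) (nat_lit 138) (nat_lit 5) (nat_lit 139) (nat_lit 5) (nat_lit 608) (nat_lit 493) (nat_lit 459)) (XT.nd (nat_lit 78) (nat_lit 304) (nat_lit 0) (XT.lf (nat_lit 0) (nat_lit 6159802117) (nat_lit 380) (nat_lit 1931001041) (nat_lit 76) (nat_lit 2502547992) (nat_lit 134) (nat_lit 5) (nat_lit 139) (nat_lit 5) (nat_lit 135) (nat_lit 5) (nat_lit 609) (nat_lit 493) (nat_lit 458)) (XT.lf (nat_lit 0) (nat_lit 6527494783) (nat_lit 304) (nat_lit 3967055018) (nat_lit 380) (nat_lit 206744132) (nat_lit 130) (nat_lit 5) (nat_lit 134) (nat_lit 5) (nat_lit 135) (nat_lit 5) (nat_lit 610) (nat_lit 493) (nat_lit 457))))) (XT.nd (nat_lit 234) (nat_lit 1216) (nat_lit 0) (XT.nd (nat_lit 78) (nat_lit 380) (nat_lit 0) (XT.lf (nat_lit 0) (nat_lit 4042452189) (nat_lit 380) (nat_lit 6496489195)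 (nat_lit 76) (nat_lit 272089680) (nat_lit 125) (nat_lit 5) (nat_lit 130) (nat_lit 5) (nat_lit 126) (nat_lit 5) (nat_lit 611) (nat_lit 493) (nat_lit 456)) (XT.nd (nat_lit 78) (nat_lit 76) (nat_lit 0) (XT.lf (nat_lit 0) (nat_lit 2021549395) (nat_lit 304) (nat_lit 6368990321) (nat_lit 380) (nat_lit 2532064576) (nat_lit 121) (nat_lit 5) (nat_lit 125) (nat_lit 5) (nat_lit 126) (nat_lit 5) (nat_lit 612) (nat_lit 493) (nat_lit 455)) (XT.lf (nat_lit 0) (nat_lit 1758800692) (nat_lit 380) (nat_lit 333517709) (nat_lit 76) (nat_lit 8943998645) (nat_lit 120) (nat_lit 5) (nat_lit 125) (nat_lit 5) (nat_lit 121) (nat_lit 5) (nat_lit 613) (nat_lit 493) (nat_lit 454)))) (XT.nd (nat_lit 156) (nat_lit 608) (nat_lit 0) (XT.nd (nat_lit 78) (nat_lit 304) (nat_lit 0) (XT.lf (nat_lit 0) (nat_lit 6121453661) (nat_lit 380) (nat_lit 2750323397) (nat_lit 76) (nat_lit 2279796835) (nat_lit 116) (nat_lit 5) (nat_lit 121) (nat_lit 5) (nat_lit 117) (nat_lit 5) (nat_lit 614) (nat_lit 493) (nat_lit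 453)) (XT.lf (nat_lit 0) (nat_lit 6028667126) (nat_lit 304) (nat_lit 4548376071) (nat_lit 380) (nat_lit 691981041) (nat_lit 112) (nat_lit 5) (nat_lit 116) (nat_lit 5) (nat_lit 117) (nat_lit 5) (nat_lit 615) (nat_lit 493) (nat_lit 452))) (XT.nd (nat_lit 78) (nat_lit 304) (nat_lit 0) (XT.lf (nat_lit 0) (nat_lit 3571761956) (nat_lit 228) (nat_lit 104513089) (nat_lit 304) (nat_lit 7712219524) (nat_lit 108) (nat_lit 5) (nat_lit 111) (nat_lit 5) (nat_lit 112) (nat_lit 5) (nat_lit 616) (nat_lit 493) (nat_lit 451)) (XT.lf (nat_lit 0) (nat_lit 1018285457) (nat_lit 304) (nat_lit 7125878149) (nat_lit 380) (nat_lit 3365670475) (nat_lit 104) (nat_lit 5) (nat_lit 108) (nat_lit 5) (nat_lit 109) (nat_lit 5) (nat_lit 617) (nat_lit 493) (nat_lit 450)))))) (XT.nd (nat_lit 546) (nat_lit 1292) (nat_lit 0) (XT.nd (nat_lit 234) (nat_lit 836) (nat_lit 0) (XT.nd (nat_lit 78) (nat_lit 532) (nat_lit 0) (XT.lf (nat_lit 0) (nat_lit 1058167394) (nat_lit 380) (nat_lit 1587680482) (nat_lit 76)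 (nat_lit 8987528442) (nat_lit 103) (nat_lit 5) (nat_lit 108) (nat_lit 5) (nat_lit 104) (nat_lit 5) (nat_lit 618) (nat_lit 493) (nat_lit 449)) (XT.nd (nat_lit 78) (nat_lit 304) (nat_lit 0) (XT.lf (nat_lit 0) (nat_lit 5538655001) (nat_lit 304) (nat_lit 4282977317) (nat_lit 76) (nat_lit 1937049158) (nat_lit 100) (nat_lit 5) (nat_lit 104) (nat_lit 5) (nat_lit 101) (nat_lit 5) (nat_lit 619) (nat_lit 493) (nat_lit 448)) (XT.lf (nat_lit 0) (nat_lit 4819520629) (nat_lit 304) (nat_lit 5300805262) (nat_lit 380) (nat_lit 1765937143) (nat_lit 96) (nat_lit 5) (nat_lit 100) (nat_lit 5) (nat_lit 101) (nat_lit 5) (nat_lit 620) (nat_lit 493) (nat_lit 447)))) (XT.nd (nat_lit 156) (nat_lit 532) (nat_lit 0) (XT.nd (nat_lit 78) (nat_lit 0) (nat_lit 0) (XT.lf (nat_lit 0) (nat_lit 2073481954) (nat_lit 228) (nat_lit 661853943) (nat_lit 304) (nat_lit 9280810878) (nat_lit 92) (nat_lit 5) (nat_lit 95) (nat_lit 5) (nat_lit 96) (nat_lit 5) (nat_lit 621) (nat_lit 493) (nat_lit 446)) (XT.lf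 (nat_lit 0) (nat_lit 7329494179) (nat_lit 304) (nat_lit 775798145) (nat_lit 76) (nat_lit 4042573960) (nat_lit 92) (nat_lit 5) (nat_lit 96) (nat_lit 5) (nat_lit 93) (nat_lit 5) (nat_lit 622) (nat_lit 493) (nat_lit 445))) (XT.nd (nat_lit 78) (nat_lit 304) (nat_lit 0) (XT.lf (nat_lit 0) (nat_lit 8602465800) (nat_lit 228) (nat_lit 3426564337) (nat_lit 304) (nat_lit 252921791) (nat_lit 89) (nat_lit 5) (nat_lit 92) (nat_lit 5) (nat_lit 93) (nat_lit 5) (nat_lit 623) (nat_lit 493) (nat_lit 444)) (XT.lf (nat_lit 0) (nat_lit 4350835300) (nat_lit 304) (nat_lit 6701025335) (nat_lit 76) (nat_lit 1366193270) (nat_lit 85) (nat_lit 5) (nat_lit 89) (nat_lit 5) (nat_lit 86) (nat_lit 5) (nat_lit 624) (nat_lit 493) (nat_lit 443))))) (XT.nd (nat_lit 234) (nat_lit 760) (nat_lit 0) (XT.nd (nat_lit 78) (nat_lit 304) (nat_lit 0) (XT.lf (nat_lit 0) (nat_lit 2725529636) (nat_lit 228) (nat_lit 6336522678) (nat_lit 304) (nat_lit 3494418281) (nat_lit 82) (nat_lit 5) (nat_lit 85) (nat_lit 5)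 (nat_lit 86) (nat_lit 5) (nat_lit 625) (nat_lit 493) (nat_lit 442)) (XT.nd (nat_lit 78) (nat_lit 228) (nat_lit 0) (XT.lf (nat_lit 0) (nat_lit 1153370019) (nat_lit 304) (nat_lit 353938022) (nat_lit 76) (nat_lit 11190219659) (nat_lit 81) (nat_lit 5) (nat_lit 85) (nat_lit 5) (nat_lit 82) (nat_lit 5) (nat_lit 626) (nat_lit 493) (nat_lit 441)) (XT.lf (nat_lit 0) (nat_lit 5885011735) (nat_lit 304) (nat_lit 3530465392) (nat_lit 76) (nat_lit 3424714552) (nat_lit 78) (nat_lit 5) (nat_lit 82) (nat_lit 5) (nat_lit 79) (nat_lit 5) (nat_lit 627) (nat_lit 493) (nat_lit 440)))) (XT.nd (nat_lit 156) (nat_lit 228) (nat_lit 0) (XT.nd (nat_lit 78) (nat_lit 304) (nat_lit 0) (XT.lf (nat_lit 0) (nat_lit 6177501030) (nat_lit 228) (nat_lit 4540949229) (nat_lit 304) (nat_lit 2267116819) (nat_lit 75) (nat_lit 5) (nat_lit 78) (nat_lit 5) (nat_lit 79) (nat_lit 5) (nat_lit 628) (nat_lit 493) (nat_lit 439)) (XT.lf (nat_lit 0) (nat_lit 2482371975) (nat_lit 304) (nat_lit 10199802818) (nat_lit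 76) (nat_lit 451337111) (nat_lit 71) (nat_lit 5) (nat_lit 75) (nat_lit 5) (nat_lit 72) (nat_lit 5) (nat_lit 629) (nat_lit 493) (nat_lit 438))) (XT.nd (nat_lit 78) (nat_lit 228) (nat_lit 0) (XT.lf (nat_lit 0) (nat_lit 7327497575) (nat_lit 304) (nat_lit 445842571) (nat_lit 76) (nat_lit 5510157035) (nat_lit 71) (nat_lit 5) (nat_lit 75) (nat_lit 5) (nat_lit 72) (nat_lit 5) (nat_lit 630) (nat_lit 493) (nat_lit 437)) (XT.lf (nat_lit 0) (nat_lit 9550456339) (nat_lit 228) (nat_lit 2736875847) (nat_lit 304) (nat_lit 1148795160) (nat_lit 68) (nat_lit 5) (nat_lit 71) (nat_lit 5) (nat_lit 72) (nat_lit 5) (nat_lit 631) (nat_lit 493) (nat_lit 436))))))) (XT.nd (nat_lit 1014) (nat_lit 760) (nat_lit 0) (XT.nd (nat_lit 468) (nat_lit 988) (nat_lit 0) (XT.nd (nat_lit 234) (nat_lit 684) (nat_lit 0) (XT.nd (nat_lit 78) (nat_lit 228) (nat_lit 0) (XT.lf (nat_lit 0) (nat_lit 3719862043) (nat_lit 228) (nat_lit 7468137568) (nat_lit 76) (nat_lit 2403033220) (nat_lit 65) (nat_lit 5) (nat_lit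 68) (nat_lit 5) (nat_lit 66) (nat_lit 5) (nat_lit 632) (nat_lit 493) (nat_lit 435)) (XT.nd (nat_lit 78) (nat_lit 0) (nat_lit 0) (XT.lf (nat_lit 0) (nat_lit 2565313514) (nat_lit 228) (nat_lit 6122252167) (nat_lit 304) (nat_lit 5060978999) (nat_lit 62) (nat_lit 5) (nat_lit 65) (nat_lit 5) (nat_lit 66) (nat_lit 5) (nat_lit 633) (nat_lit 493) (nat_lit 434)) (XT.lf (nat_lit 0) (nat_lit 12822966100) (nat_lit 228) (nat_lit 938143413) (nat_lit 304) (nat_lit 147968743) (nat_lit 62) (nat_lit 5) (nat_lit 65) (nat_lit 5) (nat_lit 66) (nat_lit 5) (nat_lit 634) (nat_lit 493) (nat_lit 433)))) (XT.nd (nat_lit 78) (nat_lit 456) (nat_lit 0) (XT.lf (nat_lit 0) (nat_lit 4844987332) (nat_lit 228) (nat_lit 4874864013) (nat_lit 76) (nat_lit 4351431438) (nat_lit 59) (nat_lit 5) (nat_lit 62) (nat_lit 5) (nat_lit 60) (nat_lit 5) (nat_lit 635) (nat_lit 493) (nat_lit 432)) (XT.nd (nat_lit 78) (nat_lit 228) (nat_lit 0) (XT.lf (nat_lit 0) (nat_lit 5450092513) (nat_lit 228) (nat_lit 4491739220)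 (nat_lit 304) (nat_lit 4294761038) (nat_lit 56) (nat_lit 5) (nat_lit 59) (nat_lit 5) (nat_lit 60) (nat_lit 5) (nat_lit 636) (nat_lit 493) (nat_lit 431)) (XT.lf (nat_lit 0) (nat_lit 731651829) (nat_lit 228) (nat_lit 12828782864) (nat_lit 76) (nat_lit 844562017) (nat_lit 53) (nat_lit 5) (nat_lit 56) (nat_lit 5) (nat_lit 54) (nat_lit 5) (nat_lit 637) (nat_lit 493) (nat_lit 430))))) (XT.nd (nat_lit 234) (nat_lit 532) (nat_lit 0) (XT.nd (nat_lit 78) (nat_lit 456) (nat_lit 0) (XT.lf (nat_lit 0) (nat_lit 5847499137) (nat_lit 228) (nat_lit 2445955662) (nat_lit 76) (nat_lit 6281818978) (nat_lit 53) (nat_lit 5) (nat_lit 56) (nat_lit 5) (nat_lit 54) (nat_lit 5) (nat_lit 638) (nat_lit 493) (nat_lit 429)) (XT.nd (nat_lit 78) (nat_lit 228) (nat_lit 0) (XT.lf (nat_lit 0) (nat_lit 8176199120) (nat_lit 228) (nat_lit 2900647757) (nat_lit 304) (nat_lit 3671886895) (nat_lit 50) (nat_lit 5) (nat_lit 53) (nat_lit 5) (nat_lit 54) (nat_lit 5) (nat_lit 639) (nat_lit 493) (nat_lit 428))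 (XT.lf (nat_lit 0) (nat_lit 1483864700) (nat_lit 228) (nat_lit 10855612357) (nat_lit 76) (nat_lit 2585629605) (nat_lit 47) (nat_lit 5) (nat_lit 50) (nat_lit 5) (nat_lit 48) (nat_lit 5) (nat_lit 640) (nat_lit 493) (nat_lit 427)))) (XT.nd (nat_lit 156) (nat_lit 380) (nat_lit 0) (XT.nd (nat_lit 78) (nat_lit 152) (nat_lit 0) (XT.lf (nat_lit 0) (nat_lit 6715488154) (nat_lit 228) (nat_lit 210224180) (nat_lit 76) (nat_lit 8178371779) (nat_lit 47) (nat_lit 5) (nat_lit 50) (nat_lit 5) (nat_lit 48) (nat_lit 5) (nat_lit 641) (nat_lit 493) (nat_lit 426)) (XT.lf (nat_lit 0) (nat_lit 10714340551) (nat_lit 152) (nat_lit 1366056948) (nat_lit 228) (nat_lit 3205671523) (nat_lit 45) (nat_lit 5) (nat_lit 47) (nat_lit 5) (nat_lit 48) (nat_lit 5) (nat_lit 642) (nat_lit 493) (nat_lit 425))) (XT.nd (nat_lit 78) (nat_lit 152) (nat_lit 0) (XT.lf (nat_lit 0) (nat_lit 2083740379) (nat_lit 228) (nat_lit 9115002468) (nat_lit 76) (nat_lit 4272079098) (nat_lit 42) (nat_lit 5) (nat_lit 45) (nat_lit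 5) (nat_lit 43) (nat_lit 5) (nat_lit 643) (nat_lit 493) (nat_lit 424)) (XT.lf (nat_lit 0) (nat_lit 1824265255) (nat_lit 152) (nat_lit 5622812495) (nat_lit 228) (nat_lit 8211548082) (nat_lit 40) (nat_lit 5) (nat_lit 42) (nat_lit 5) (nat_lit 43) (nat_lit 5) (nat_lit 644) (nat_lit 493) (nat_lit 423)))))) (XT.nd (nat_lit 75582) (nat_lit 0) (nat_lit 19760) (XT.nd (nat_lit 234) (nat_lit 380) (nat_lit 0) (XT.nd (nat_lit 78) (nat_lit 380) (nat_lit 0) (XT.lf (nat_lit 0) (nat_lit 12939022814) (nat_lit 228) (nat_lit 2818428972) (nat_lit 76) (nat_lit 92308094) (nat_lit 40) (nat_lit 5) (nat_lit 43) (nat_lit 5) (nat_lit 41) (nat_lit 4) (nat_lit 645) (nat_lit 493) (nat_lit 422)) (XT.nd (nat_lit 78) (nat_lit 152) (nat_lit 0) (XT.lf (nat_lit 0) (nat_lit 2515736022) (nat_lit 228) (nat_lit 7642296082) (nat_lit 76) (nat_lit 5885313595) (nat_lit 37) (nat_lit 5) (nat_lit 40) (nat_lit 5) (nat_lit 38) (nat_lit 5) (nat_lit 646) (nat_lit 493) (nat_lit 421)) (XT.lf (nat_lit 0) (nat_lit 3597371399)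 (nat_lit 152) (nat_lit 4417018062) (nat_lit 228) (nat_lit 8225977312) (nat_lit 35) (nat_lit 5) (nat_lit 37) (nat_lit 5) (nat_lit 38) (nat_lit 5) (nat_lit 647) (nat_lit 493) (nat_lit 420)))) (XT.nd (nat_lit 156) (nat_lit 152) (nat_lit 0) (XT.nd (nat_lit 78) (nat_lit 228) (nat_lit 0) (XT.lf (nat_lit 0) (nat_lit 13644269387) (nat_lit 228) (nat_lit 1357757612) (nat_lit 76) (nat_lit 1438877034) (nat_lit 35) (nat_lit 5) (nat_lit 38) (nat_lit 5) (nat_lit 36) (nat_lit 4) (nat_lit 648) (nat_lit 493) (nat_lit 419)) (XT.lf (nat_lit 0) (nat_lit 2762166682) (nat_lit 228) (nat_lit 6476738737) (nat_lit 76) (nat_lit 7405054967) (nat_lit 32) (nat_lit 5) (nat_lit 35) (nat_lit 5) (nat_lit 33) (nat_lit 5) (nat_lit 649) (nat_lit 493) (nat_lit 418))) (XT.nd (nat_lit 75114) (nat_lit 0) (nat_lit 24016) (XT.lf (nat_lit 0) (nat_lit 5066264083) (nat_lit 152) (nat_lit 3331643934) (nat_lit 228) (nat_lit 8452736699) (nat_lit 30) (nat_lit 5) (nat_lit 32) (nat_lit 5) (nat_lit 33) (nat_lit 5)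 (nat_lit 650) (nat_lit 493) (nat_lit 417)) (XT.lf (nat_lit 0) (nat_lit 1433580214) (nat_lit 760) (nat_lit 1004973675) (nat_lit 0) (nat_lit 1433580214) (nat_lit 346) (nat_lit 5) (nat_lit 356) (nat_lit 4) (nat_lit 346) (nat_lit 4) (nat_lit 572) (nat_lit 494) (nat_lit 494))))) (XT.nd (nat_lit 234) (nat_lit 2052) (nat_lit 0) (XT.nd (nat_lit 78) (nat_lit 1444) (nat_lit 0) (XT.lf (nat_lit 0) (nat_lit 4296755346) (nat_lit 760) (nat_lit 2417251414) (nat_lit 760) (nat_lit 1081618166) (nat_lit 336) (nat_lit 4) (nat_lit 346) (nat_lit 5) (nat_lit 346) (nat_lit 4) (nat_lit 573) (nat_lit 494) (nat_lit 493)) (XT.nd (nat_lit 78) (nat_lit 684) (nat_lit 0) (XT.lf (nat_lit 0) (nat_lit 2718308957) (nat_lit 760) (nat_lit 5004945903) (nat_lit 0) (nat_lit 125095614) (nat_lit 326) (nat_lit 5) (nat_lit 336) (nat_lit 4) (nat_lit 326) (nat_lit 4) (nat_lit 574) (nat_lit 494) (nat_lit 492)) (XT.lf (nat_lit 0) (nat_lit 1368268516) (nat_lit 684) (nat_lit 5192953085) (nat_lit 684) (nat_lit 1341142702)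 (nat_lit 317) (nat_lit 4) (nat_lit 326) (nat_lit 5) (nat_lit 326) (nat_lit 4) (nat_lit 575) (nat_lit 494) (nat_lit 491)))) (XT.nd (nat_lit 156) (nat_lit 1368) (nat_lit 0) (XT.nd (nat_lit 78) (nat_lit 608) (nat_lit 0) (XT.lf (nat_lit 0) (nat_lit 2457499433) (nat_lit 760) (nat_lit 121580195) (nat_lit 76) (nat_lit 5378715770) (nat_lit 316) (nat_lit 5) (nat_lit 326) (nat_lit 5) (nat_lit 317) (nat_lit 4) (nat_lit 576) (nat_lit 494) (nat_lit 490)) (XT.lf (nat_lit 0) (nat_lit 6291144465) (nat_lit 684) (nat_lit 1604347906) (nat_lit 0) (nat_lit 119131489) (nat_lit 308) (nat_lit 5) (nat_lit 317) (nat_lit 4) (nat_lit 308) (nat_lit 4) (nat_lit 577) (nat_lit 494) (nat_lit 489))) (XT.nd (nat_lit 78) (nat_lit 608) (nat_lit 0) (XT.lf (nat_lit 0) (nat_lit 2086184538) (nat_lit 760) (nat_lit 3120669327) (nat_lit 76) (nat_lit 2865759529) (nat_lit 298) (nat_lit 5) (nat_lit 308) (nat_lit 5) (nat_lit 299) (nat_lit 4) (nat_lit 578) (nat_lit 494) (nat_lit 488)) (XT.lf (nat_lit 0) (nat_lit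 3479454868) (nat_lit 608) (nat_lit 2438449626) (nat_lit 684) (nat_lit 2214257045) (nat_lit 290) (nat_lit 5) (nat_lit 298) (nat_lit 5) (nat_lit 299) (nat_lit 4) (nat_lit 579) (nat_lit 494) (nat_lit 487))))))))
noncomputable def xc29 : XT := (XT.nd (nat_lit 2106) (nat_lit 6232) (nat_lit 0) (XT.nd (nat_lit 1014) (nat_lit 4788) (nat_lit 0) (XT.nd (nat_lit 468) (nat_lit 3192) (nat_lit 0) (XT.nd (nat_lit 234) (nat_lit 1748) (nat_lit 0) (XT.nd (nat_lit 78) (nat_lit 684) (nat_lit 0) (XT.lf (nat_lit 0) (nat_lit 1584400504) (nat_lit 684) (nat_lit 6203736830) (nat_lit 76) (nat_lit 405107191) (nat_lit 281) (nat_lit 5) (nat_lit 290) (nat_lit 5) (nat_lit 282) (nat_lit 4) (nat_lit 580) (nat_lit 494) (nat_lit 486)) (XT.nd (nat_lit 78) (nat_lit 76) (nat_lit 0) (XT.lf (nat_lit 0) (nat_lit 462612445) (nat_lit 608) (nat_lit 4953743371) (nat_lit 684) (nat_lit 2839166310) (nat_lit 273) (nat_lit 5) (nat_lit 281) (nat_lit 5) (nat_lit 282) (nat_lit 4) (nat_lit 581) (nat_lit 494) (nat_lit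 485)) (XT.lf (nat_lit 0) (nat_lit 971259808) (nat_lit 684) (nat_lit 1064069857) (nat_lit 76) (nat_lit 6284018997) (nat_lit 272) (nat_lit 5) (nat_lit 281) (nat_lit 5) (nat_lit 273) (nat_lit 5) (nat_lit 582) (nat_lit 494) (nat_lit 484)))) (XT.nd (nat_lit 78) (nat_lit 1140) (nat_lit 0) (XT.lf (nat_lit 0) (nat_lit 4801620924) (nat_lit 684) (nat_lit 2618423721) (nat_lit 76) (nat_lit 964401742) (nat_lit 264) (nat_lit 5) (nat_lit 273) (nat_lit 5) (nat_lit 265) (nat_lit 4) (nat_lit 583) (nat_lit 494) (nat_lit 483)) (XT.nd (nat_lit 78) (nat_lit 532) (nat_lit 0) (XT.lf (nat_lit 0) (nat_lit 240979515) (nat_lit 608) (nat_lit 4198291932) (nat_lit 76) (nat_lit 4011813484) (nat_lit 256) (nat_lit 5) (nat_lit 264) (nat_lit 5) (nat_lit 257) (nat_lit 5) (nat_lit 584) (nat_lit 494) (nat_lit 482)) (XT.lf (nat_lit 0) (nat_lit 2705295972) (nat_lit 532) (nat_lit 1361963248) (nat_lit 608) (nat_lit 4451848498) (nat_lit 249) (nat_lit 5) (nat_lit 256) (nat_lit 5) (nat_lit 257) (nat_lit 5)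 (nat_lit 585) (nat_lit 494) (nat_lit 481))))) (XT.nd (nat_lit 234) (nat_lit 2052) (nat_lit 0) (XT.nd (nat_lit 78) (nat_lit 608) (nat_lit 0) (XT.lf (nat_lit 0) (nat_lit 1134013148) (nat_lit 532) (nat_lit 6822491554) (nat_lit 608) (nat_lit 632261940) (nat_lit 242) (nat_lit 5) (nat_lit 249) (nat_lit 5) (nat_lit 250) (nat_lit 4) (nat_lit 586) (nat_lit 494) (nat_lit 480)) (XT.nd (nat_lit 78) (nat_lit 532) (nat_lit 0) (XT.lf (nat_lit 0) (nat_lit 3208626146) (nat_lit 608) (nat_lit 475227436) (nat_lit 76) (nat_lit 4975791389) (nat_lit 241) (nat_lit 5) (nat_lit 249) (nat_lit 5) (nat_lit 242) (nat_lit 5) (nat_lit 587) (nat_lit 494) (nat_lit 479)) (XT.lf (nat_lit 0) (nat_lit 6643178407) (nat_lit 532) (nat_lit 458437526) (nat_lit 608) (nat_lit 1630570576) (nat_lit 234) (nat_lit 5) (nat_lit 241) (nat_lit 5) (nat_lit 242) (nat_lit 5) (nat_lit 588) (nat_lit 494) (nat_lit 478)))) (XT.nd (nat_lit 156) (nat_lit 988) (nat_lit 0) (XT.nd (nat_lit 78) (nat_lit 532) (nat_lit 0) (XT.lf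 (nat_lit 0) (nat_lit 2232107873) (nat_lit 532) (nat_lit 3752732804) (nat_lit 76) (nat_lit 2821137099) (nat_lit 227) (nat_lit 5) (nat_lit 234) (nat_lit 5) (nat_lit 228) (nat_lit 5) (nat_lit 589) (nat_lit 494) (nat_lit 477)) (XT.lf (nat_lit 0) (nat_lit 3432433500) (nat_lit 532) (nat_lit 2698525955) (nat_lit 608) (nat_lit 2750458776) (nat_lit 220) (nat_lit 5) (nat_lit 227) (nat_lit 5) (nat_lit 228) (nat_lit 5) (nat_lit 590) (nat_lit 494) (nat_lit 476))) (XT.nd (nat_lit 78) (nat_lit 456) (nat_lit 0) (XT.lf (nat_lit 0) (nat_lit 1117173781) (nat_lit 532) (nat_lit 7177502054) (nat_lit 76) (nat_lit 663889671) (nat_lit 213) (nat_lit 5) (nat_lit 220) (nat_lit 5) (nat_lit 214) (nat_lit 5) (nat_lit 591) (nat_lit 494) (nat_lit 475)) (XT.lf (nat_lit 0) (nat_lit 72662332) (nat_lit 456) (nat_lit 4949802431) (nat_lit 532) (nat_lit 4014488417) (nat_lit 207) (nat_lit 5) (nat_lit 213) (nat_lit 5) (nat_lit 214) (nat_lit 5) (nat_lit 592) (nat_lit 494) (nat_lit 474)))))) (XT.nd (nat_lit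 546) (nat_lit 2432) (nat_lit 0) (XT.nd (nat_lit 234) (nat_lit 1368) (nat_lit 0) (XT.nd (nat_lit 78) (nat_lit 988) (nat_lit 0) (XT.lf (nat_lit 0) (nat_lit 7480669127) (nat_lit 456) (nat_lit 1515896644) (nat_lit 532) (nat_lit 120532433) (nat_lit 207) (nat_lit 5) (nat_lit 213) (nat_lit 5) (nat_lit 214) (nat_lit 5) (nat_lit 593) (nat_lit 494) (nat_lit 473)) (XT.nd (nat_lit 78) (nat_lit 456) (nat_lit 0) (XT.lf (nat_lit 0) (nat_lit 3794915019) (nat_lit 532) (nat_lit 3406298941) (nat_lit 76) (nat_lit 1997253142) (nat_lit 200) (nat_lit 5) (nat_lit 207) (nat_lit 5) (nat_lit 201) (nat_lit 5) (nat_lit 594) (nat_lit 494) (nat_lit 472)) (XT.lf (nat_lit 0) (nat_lit 4068771373) (nat_lit 456) (nat_lit 3709485902) (nat_lit 532) (nat_lit 1503369640) (nat_lit 194) (nat_lit 5) (nat_lit 200) (nat_lit 5) (nat_lit 201) (nat_lit 5) (nat_lit 595) (nat_lit 494) (nat_lit 471)))) (XT.nd (nat_lit 156) (nat_lit 456) (nat_lit 0) (XT.nd (nat_lit 78) (nat_lit 456) (nat_lit 0) (XT.lf (nat_lit 0)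 (nat_lit 2303359124) (nat_lit 380) (nat_lit 120842155) (nat_lit 456) (nat_lit 6942293765) (nat_lit 188) (nat_lit 5) (nat_lit 193) (nat_lit 5) (nat_lit 194) (nat_lit 5) (nat_lit 596) (nat_lit 494) (nat_lit 470)) (XT.lf (nat_lit 0) (nat_lit 476749632) (nat_lit 456) (nat_lit 5939005722) (nat_lit 532) (nat_lit 3036998467) (nat_lit 182) (nat_lit 5) (nat_lit 188) (nat_lit 5) (nat_lit 189) (nat_lit 5) (nat_lit 597) (nat_lit 494) (nat_lit 469))) (XT.nd (nat_lit 78) (nat_lit 380) (nat_lit 0) (XT.lf (nat_lit 0) (nat_lit 926934873) (nat_lit 532) (nat_lit 1368591372) (nat_lit 76) (nat_lit 7245232887) (nat_lit 181) (nat_lit 5) (nat_lit 188) (nat_lit 5) (nat_lit 182) (nat_lit 5) (nat_lit 598) (nat_lit 494) (nat_lit 468)) (XT.lf (nat_lit 0) (nat_lit 4925855508) (nat_lit 456) (nat_lit 3268472547) (nat_lit 76) (nat_lit 1435870601) (nat_lit 176) (nat_lit 5) (nat_lit 182) (nat_lit 5) (nat_lit 177) (nat_lit 5) (nat_lit 599) (nat_lit 494) (nat_lit 467))))) (XT.nd (nat_lit 234) (nat_lit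 1216) (nat_lit 0) (XT.nd (nat_lit 78) (nat_lit 836) (nat_lit 0) (XT.lf (nat_lit 0) (nat_lit 4504363675) (nat_lit 380) (nat_lit 4499952557) (nat_lit 456) (nat_lit 717122524) (nat_lit 171) (nat_lit 5) (nat_lit 176) (nat_lit 5) (nat_lit 177) (nat_lit 5) (nat_lit 600) (nat_lit 494) (nat_lit 466)) (XT.nd (nat_lit 78) (nat_lit 380) (nat_lit 0) (XT.lf (nat_lit 0) (nat_lit 2591410306) (nat_lit 380) (nat_lit 699436884) (nat_lit 456) (nat_lit 6523525611) (nat_lit 165) (nat_lit 5) (nat_lit 170) (nat_lit 5) (nat_lit 171) (nat_lit 5) (nat_lit 601) (nat_lit 494) (nat_lit 465)) (XT.lf (nat_lit 0) (nat_lit 616892441) (nat_lit 380) (nat_lit 6758726658) (nat_lit 456) (nat_lit 2533329568) (nat_lit 160) (nat_lit 5) (nat_lit 165) (nat_lit 5) (nat_lit 166) (nat_lit 5) (nat_lit 602) (nat_lit 494) (nat_lit 464)))) (XT.nd (nat_lit 156) (nat_lit 760) (nat_lit 0) (XT.nd (nat_lit 78) (nat_lit 380) (nat_lit 0) (XT.lf (nat_lit 0) (nat_lit 1516457404) (nat_lit 456) (nat_lit 1391992905) (nat_lit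 76) (nat_lit 7096770118) (nat_lit 159) (nat_lit 5) (nat_lit 165) (nat_lit 5) (nat_lit 160) (nat_lit 5) (nat_lit 603) (nat_lit 494) (nat_lit 463)) (XT.lf (nat_lit 0) (nat_lit 5610937588) (nat_lit 456) (nat_lit 3455943219) (nat_lit 76) (nat_lit 1036252216) (nat_lit 154) (nat_lit 5) (nat_lit 160) (nat_lit 5) (nat_lit 155) (nat_lit 5) (nat_lit 604) (nat_lit 494) (nat_lit 462))) (XT.nd (nat_lit 78) (nat_lit 380) (nat_lit 0) (XT.lf (nat_lit 0) (nat_lit 4621774156) (nat_lit 380) (nat_lit 5172073543) (nat_lit 456) (nat_lit 409027991) (nat_lit 149) (nat_lit 5) (nat_lit 154) (nat_lit 5) (nat_lit 155) (nat_lit 5) (nat_lit 605) (nat_lit 494) (nat_lit 461)) (XT.lf (nat_lit 0) (nat_lit 2529503627) (nat_lit 304) (nat_lit 1164821773) (nat_lit 380) (nat_lit 6610047020) (nat_lit 144) (nat_lit 5) (nat_lit 148) (nat_lit 5) (nat_lit 149) (nat_lit 5) (nat_lit 606) (nat_lit 494) (nat_lit 460))))))) (XT.nd (nat_lit 1092) (nat_lit 2584) (nat_lit 0) (XT.nd (nat_lit 546) (nat_lit 1824) (nat_lit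 0) (XT.nd (nat_lit 234) (nat_lit 1064) (nat_lit 0) (XT.nd (nat_lit 78) (nat_lit 380) (nat_lit 0) (XT.lf (nat_lit 0) (nat_lit 370590011) (nat_lit 380) (nat_lit 7511062952) (nat_lit 456) (nat_lit 2526046846) (nat_lit 139) (nat_lit 5) (nat_lit 144) (nat_lit 5) (nat_lit 145) (nat_lit 5) (nat_lit 607) (nat_lit 494) (nat_lit 459)) (XT.nd (nat_lit 78) (nat_lit 304) (nat_lit 0) (XT.lf (nat_lit 0) (nat_lit 1626795326) (nat_lit 456) (nat_lit 1829709979) (nat_lit 76) (nat_lit 7056204588) (nat_lit 138) (nat_lit 5) (nat_lit 144) (nat_lit 5) (nat_lit 139) (nat_lit 5) (nat_lit 608) (nat_lit 494) (nat_lit 458)) (XT.lf (nat_lit 0) (nat_lit 5825336368) (nat_lit 380) (nat_lit 4095180763) (nat_lit 76) (nat_lit 699042120) (nat_lit 134) (nat_lit 5) (nat_lit 139) (nat_lit 5) (nat_lit 135) (nat_lit 5) (nat_lit 609) (nat_lit 494) (nat_lit 457)))) (XT.nd (nat_lit 156) (nat_lit 380) (nat_lit 0) (XT.nd (nat_lit 78) (nat_lit 380) (nat_lit 0) (XT.lf (nat_lit 0) (nat_lit 4293453416) (nat_lit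 304) (nat_lit 5827228309) (nat_lit 380) (nat_lit 607609489) (nat_lit 130) (nat_lit 5) (nat_lit 134) (nat_lit 5) (nat_lit 135) (nat_lit 5) (nat_lit 610) (nat_lit 494) (nat_lit 456)) (XT.lf (nat_lit 0) (nat_lit 1986752373) (nat_lit 304) (nat_lit 1618341044) (nat_lit 380) (nat_lit 7233823086) (nat_lit 125) (nat_lit 5) (nat_lit 129) (nat_lit 5) (nat_lit 130) (nat_lit 5) (nat_lit 611) (nat_lit 494) (nat_lit 455))) (XT.nd (nat_lit 78) (nat_lit 380) (nat_lit 0) (XT.lf (nat_lit 0) (nat_lit 7904835681) (nat_lit 380) (nat_lit 390881005) (nat_lit 76) (nat_lit 2655741019) (nat_lit 125) (nat_lit 5) (nat_lit 130) (nat_lit 5) (nat_lit 126) (nat_lit 5) (nat_lit 612) (nat_lit 494) (nat_lit 454)) (XT.lf (nat_lit 0) (nat_lit 1223748965) (nat_lit 380) (nat_lit 2817500076) (nat_lit 76) (nat_lit 7024534115) (nat_lit 120) (nat_lit 5) (nat_lit 125) (nat_lit 5) (nat_lit 121) (nat_lit 5) (nat_lit 613) (nat_lit 494) (nat_lit 453))))) (XT.nd (nat_lit 234) (nat_lit 912) (nat_lit 0) (XT.nd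 (nat_lit 78) (nat_lit 608) (nat_lit 0) (XT.lf (nat_lit 0) (nat_lit 5532759399) (nat_lit 380) (nat_lit 5325274570) (nat_lit 76) (nat_lit 324079892) (nat_lit 116) (nat_lit 5) (nat_lit 121) (nat_lit 5) (nat_lit 117) (nat_lit 5) (nat_lit 614) (nat_lit 494) (nat_lit 452)) (XT.nd (nat_lit 78) (nat_lit 304) (nat_lit 0) (XT.lf (nat_lit 0) (nat_lit 3378838452) (nat_lit 304) (nat_lit 6568248615) (nat_lit 380) (nat_lit 1353303361) (nat_lit 112) (nat_lit 5) (nat_lit 116) (nat_lit 5) (nat_lit 117) (nat_lit 5) (nat_lit 615) (nat_lit 494) (nat_lit 451)) (XT.lf (nat_lit 0) (nat_lit 818571766) (nat_lit 228) (nat_lit 2163175409) (nat_lit 304) (nat_lit 8439037984) (nat_lit 108) (nat_lit 5) (nat_lit 111) (nat_lit 5) (nat_lit 112) (nat_lit 5) (nat_lit 616) (nat_lit 494) (nat_lit 450)))) (XT.nd (nat_lit 156) (nat_lit 532) (nat_lit 0) (XT.nd (nat_lit 78) (nat_lit 380) (nat_lit 0) (XT.lf (nat_lit 0) (nat_lit 7405761582) (nat_lit 304) (nat_lit 1807472334) (nat_lit 76) (nat_lit 2329769169)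 (nat_lit 108) (nat_lit 5) (nat_lit 112) (nat_lit 5) (nat_lit 109) (nat_lit 5) (nat_lit 617) (nat_lit 494) (nat_lit 449)) (XT.lf (nat_lit 0) (nat_lit 260900005) (nat_lit 380) (nat_lit 4506118108) (nat_lit 76) (nat_lit 6900344606) (nat_lit 103) (nat_lit 5) (nat_lit 108) (nat_lit 5) (nat_lit 104) (nat_lit 5) (nat_lit 618) (nat_lit 494) (nat_lit 448))) (XT.nd (nat_lit 78) (nat_lit 304) (nat_lit 0) (XT.lf (nat_lit 0) (nat_lit 4491405103) (nat_lit 228) (nat_lit 194400241) (nat_lit 304) (nat_lit 7107975053) (nat_lit 100) (nat_lit 5) (nat_lit 103) (nat_lit 5) (nat_lit 104) (nat_lit 5) (nat_lit 619) (nat_lit 494) (nat_lit 447)) (XT.lf (nat_lit 0) (nat_lit 1721098991) (nat_lit 304) (nat_lit 7501718652) (nat_lit 380) (nat_lit 2699438342) (nat_lit 96) (nat_lit 5) (nat_lit 100) (nat_lit 5) (nat_lit 101) (nat_lit 5) (nat_lit 620) (nat_lit 494) (nat_lit 446)))))) (XT.nd (nat_lit 546) (nat_lit 1216) (nat_lit 0) (XT.nd (nat_lit 234) (nat_lit 836) (nat_lit 0) (XT.nd (nat_lit 78)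 (nat_lit 456) (nat_lit 0) (XT.lf (nat_lit 0) (nat_lit 1777382958) (nat_lit 380) (nat_lit 1121764013) (nat_lit 76) (nat_lit 9153848693) (nat_lit 95) (nat_lit 5) (nat_lit 100) (nat_lit 5) (nat_lit 96) (nat_lit 5) (nat_lit 621) (nat_lit 494) (nat_lit 445)) (XT.nd (nat_lit 78) (nat_lit 228) (nat_lit 0) (XT.lf (nat_lit 0) (nat_lit 6326446972) (nat_lit 304) (nat_lit 4048165377) (nat_lit 76) (nat_lit 1811005519) (nat_lit 92) (nat_lit 5) (nat_lit 96) (nat_lit 5) (nat_lit 93) (nat_lit 5) (nat_lit 622) (nat_lit 494) (nat_lit 444)) (XT.lf (nat_lit 0) (nat_lit 5247080334) (nat_lit 228) (nat_lit 5734431544) (nat_lit 304) (nat_lit 1339081847) (nat_lit 89) (nat_lit 5) (nat_lit 92) (nat_lit 5) (nat_lit 93) (nat_lit 5) (nat_lit 623) (nat_lit 494) (nat_lit 443)))) (XT.nd (nat_lit 156) (nat_lit 532) (nat_lit 0) (XT.nd (nat_lit 78) (nat_lit 0) (nat_lit 0) (XT.lf (nat_lit 0) (nat_lit 2254634334) (nat_lit 228) (nat_lit 970116102) (nat_lit 304) (nat_lit 9233170470) (nat_lit 85) (nat_lit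 5) (nat_lit 88) (nat_lit 5) (nat_lit 89) (nat_lit 5) (nat_lit 624) (nat_lit 494) (nat_lit 442)) (XT.lf (nat_lit 0) (nat_lit 7889416570) (nat_lit 304) (nat_lit 845322179) (nat_lit 76) (nat_lit 3862530613) (nat_lit 85) (nat_lit 5) (nat_lit 89) (nat_lit 5) (nat_lit 86) (nat_lit 5) (nat_lit 625) (nat_lit 494) (nat_lit 441))) (XT.nd (nat_lit 78) (nat_lit 304) (nat_lit 0) (XT.lf (nat_lit 0) (nat_lit 8730357815) (nat_lit 228) (nat_lit 3935455781) (nat_lit 304) (nat_lit 73223918) (nat_lit 82) (nat_lit 5) (nat_lit 85) (nat_lit 5) (nat_lit 86) (nat_lit 5) (nat_lit 626) (nat_lit 494) (nat_lit 440)) (XT.lf (nat_lit 0) (nat_lit 4596975016) (nat_lit 304) (nat_lit 7298635030) (nat_lit 76) (nat_lit 987349721) (nat_lit 78) (nat_lit 5) (nat_lit 82) (nat_lit 5) (nat_lit 79) (nat_lit 5) (nat_lit 627) (nat_lit 494) (nat_lit 439))))) (XT.nd (nat_lit 234) (nat_lit 684) (nat_lit 0) (XT.nd (nat_lit 78) (nat_lit 304) (nat_lit 0) (XT.lf (nat_lit 0) (nat_lit 2320245275) (nat_lit 228) (nat_lit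 7063129901) (nat_lit 304) (nat_lit 3645901448) (nat_lit 75) (nat_lit 5) (nat_lit 78) (nat_lit 5) (nat_lit 79) (nat_lit 5) (nat_lit 628) (nat_lit 494) (nat_lit 438)) (XT.nd (nat_lit 78) (nat_lit 228) (nat_lit 0) (XT.lf (nat_lit 0) (nat_lit 1077677123) (nat_lit 304) (nat_lit 1032328060) (nat_lit 76) (nat_lit 11068275836) (nat_lit 74) (nat_lit 5) (nat_lit 78) (nat_lit 5) (nat_lit 75) (nat_lit 5) (nat_lit 629) (nat_lit 494) (nat_lit 437)) (XT.lf (nat_lit 0) (nat_lit 5880384680) (nat_lit 304) (nat_lit 4495371357) (nat_lit 76) (nat_lit 2953359270) (nat_lit 71) (nat_lit 5) (nat_lit 75) (nat_lit 5) (nat_lit 72) (nat_lit 5) (nat_lit 630) (nat_lit 494) (nat_lit 436)))) (XT.nd (nat_lit 156) (nat_lit 228) (nat_lit 0) (XT.nd (nat_lit 78) (nat_lit 228) (nat_lit 0) (XT.lf (nat_lit 0) (nat_lit 5408753348) (nat_lit 228) (nat_lit 5383122437) (nat_lit 304) (nat_lit 2690837195) (nat_lit 68) (nat_lit 5) (nat_lit 71) (nat_lit 5) (nat_lit 72) (nat_lit 5) (nat_lit 631) (nat_lit 494) (nat_lit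 435)) (XT.lf (nat_lit 0) (nat_lit 1866822340) (nat_lit 152) (nat_lit 266256588) (nat_lit 228) (nat_lit 11506039693) (nat_lit 65) (nat_lit 5) (nat_lit 67) (nat_lit 5) (nat_lit 68) (nat_lit 5) (nat_lit 632) (nat_lit 494) (nat_lit 434))) (XT.nd (nat_lit 78) (nat_lit 228) (nat_lit 0) (XT.lf (nat_lit 0) (nat_lit 7061049357) (nat_lit 228) (nat_lit 1808721942) (nat_lit 76) (nat_lit 4927654435) (nat_lit 65) (nat_lit 5) (nat_lit 68) (nat_lit 5) (nat_lit 66) (nat_lit 5) (nat_lit 633) (nat_lit 494) (nat_lit 433)) (XT.lf (nat_lit 0) (nat_lit 8387182514) (nat_lit 228) (nat_lit 3714336168) (nat_lit 304) (nat_lit 1857102710) (nat_lit 62) (nat_lit 5) (nat_lit 65) (nat_lit 5) (nat_lit 66) (nat_lit 5) (nat_lit 634) (nat_lit 494) (nat_lit 432))))))))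
noncomputable def xc30 : XT := (XT.nd (nat_lit 76986) (nat_lit 0) (nat_lit 8512) (XT.nd (nat_lit 1014) (nat_lit 380) (nat_lit 0) (XT.nd (nat_lit 468) (nat_lit 988) (nat_lit 0) (XT.nd (nat_lit 234) (nat_lit 456) (nat_lit 0) (XT.nd (nat_lit 78) (nat_lit 228) (nat_lit 0) (XT.lf (nat_lit 0) (nat_lit 3089289195) (nat_lit 228) (nat_lit 9478675223) (nat_lit 76) (nat_lit 1554463597) (nat_lit 59) (nat_lit 5) (nat_lit 62) (nat_lit 5) (nat_lit 60) (nat_lit 5) (nat_lit 635) (nat_lit 494) (nat_lit 431)) (XT.nd (nat_lit 78) (nat_lit 0) (nat_lit 0) (XT.lf (nat_lit 0) (nat_lit 747288788) (nat_lit 228) (nat_lit 7387477034) (nat_lit 304) (nat_lit 6154000092) (nat_lit 56) (nat_lit 5) (nat_lit 59) (nat_lit 5) (nat_lit 60) (nat_lit 5) (nat_lit 636) (nat_lit 494) (nat_lit 430)) (XT.lf (nat_lit 0) (nat_lit 11231378821) (nat_lit 228) (nat_lit 2071634299) (nat_lit 304) (nat_lit 1154981328) (nat_lit 56) (nat_lit 5) (nat_lit 59) (nat_lit 5) (nat_lit 60) (nat_lit 5) (nat_lit 637) (nat_lit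 494) (nat_lit 429)))) (XT.nd (nat_lit 78) (nat_lit 228) (nat_lit 0) (XT.lf (nat_lit 0) (nat_lit 3920451552) (nat_lit 228) (nat_lit 7361404119) (nat_lit 76) (nat_lit 3347677589) (nat_lit 53) (nat_lit 5) (nat_lit 56) (nat_lit 5) (nat_lit 54) (nat_lit 5) (nat_lit 638) (nat_lit 494) (nat_lit 428)) (XT.nd (nat_lit 78) (nat_lit 0) (nat_lit 0) (XT.lf (nat_lit 0) (nat_lit 3158266458) (nat_lit 228) (nat_lit 5938616346) (nat_lit 304) (nat_lit 5707169295) (nat_lit 50) (nat_lit 5) (nat_lit 53) (nat_lit 5) (nat_lit 54) (nat_lit 5) (nat_lit 639) (nat_lit 494) (nat_lit 427)) (XT.lf (nat_lit 0) (nat_lit 13914523893) (nat_lit 228) (nat_lit 470965151) (nat_lit 304) (nat_lit 596400357) (nat_lit 50) (nat_lit 5) (nat_lit 53) (nat_lit 5) (nat_lit 54) (nat_lit 5) (nat_lit 640) (nat_lit 494) (nat_lit 426))))) (XT.nd (nat_lit 234) (nat_lit 456) (nat_lit 0) (XT.nd (nat_lit 78) (nat_lit 304) (nat_lit 0) (XT.lf (nat_lit 0) (nat_lit 4612665469) (nat_lit 228) (nat_lit 5447973628) (nat_lit 76)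 (nat_lit 5100913275) (nat_lit 47) (nat_lit 5) (nat_lit 50) (nat_lit 5) (nat_lit 48) (nat_lit 5) (nat_lit 641) (nat_lit 494) (nat_lit 425)) (XT.nd (nat_lit 78) (nat_lit 152) (nat_lit 0) (XT.lf (nat_lit 0) (nat_lit 5370467727) (nat_lit 152) (nat_lit 4552555177) (nat_lit 228) (nat_lit 5421605889) (nat_lit 45) (nat_lit 5) (nat_lit 47) (nat_lit 5) (nat_lit 48) (nat_lit 5) (nat_lit 642) (nat_lit 494) (nat_lit 424)) (XT.lf (nat_lit 0) (nat_lit 879968235) (nat_lit 152) (nat_lit 14469049386) (nat_lit 228) (nat_lit 182161456) (nat_lit 43) (nat_lit 5) (nat_lit 45) (nat_lit 5) (nat_lit 46) (nat_lit 4) (nat_lit 643) (nat_lit 494) (nat_lit 423)))) (XT.nd (nat_lit 156) (nat_lit 228) (nat_lit 0) (XT.nd (nat_lit 78) (nat_lit 152) (nat_lit 0) (XT.lf (nat_lit 0) (nat_lit 5151942019) (nat_lit 228) (nat_lit 3770802169) (nat_lit 76) (nat_lit 6796895337) (nat_lit 42) (nat_lit 5) (nat_lit 45) (nat_lit 5) (nat_lit 43) (nat_lit 5) (nat_lit 644) (nat_lit 494) (nat_lit 422)) (XT.lf (nat_lit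 0) (nat_lit 7350892353) (nat_lit 152) (nat_lit 3247955763) (nat_lit 228) (nat_lit 5312826674) (nat_lit 40) (nat_lit 5) (nat_lit 42) (nat_lit 5) (nat_lit 43) (nat_lit 5) (nat_lit 645) (nat_lit 494) (nat_lit 421))) (XT.nd (nat_lit 78) (nat_lit 0) (nat_lit 0) (XT.lf (nat_lit 0) (nat_lit 66327750) (nat_lit 228) (nat_lit 13522889187) (nat_lit 76) (nat_lit 2517932464) (nat_lit 37) (nat_lit 5) (nat_lit 40) (nat_lit 5) (nat_lit 38) (nat_lit 5) (nat_lit 646) (nat_lit 494) (nat_lit 420)) (XT.lf (nat_lit 0) (nat_lit 5522305268) (nat_lit 228) (nat_lit 2365882596) (nat_lit 76) (nat_lit 8416836541) (nat_lit 37) (nat_lit 5) (nat_lit 40) (nat_lit 5) (nat_lit 38) (nat_lit 5) (nat_lit 647) (nat_lit 494) (nat_lit 419)))))) (XT.nd (nat_lit 75426) (nat_lit 0) (nat_lit 18924) (XT.nd (nat_lit 75114) (nat_lit 0) (nat_lit 23028) (XT.nd (nat_lit 78) (nat_lit 228) (nat_lit 0) (XT.lf (nat_lit 0) (nat_lit 9062859422) (nat_lit 152) (nat_lit 2045125021) (nat_lit 228) (nat_lit 5398461641) (nat_lit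 35) (nat_lit 5) (nat_lit 37) (nat_lit 5) (nat_lit 38) (nat_lit 5) (nat_lit 648) (nat_lit 494) (nat_lit 418)) (XT.nd (nat_lit 78) (nat_lit 0) (nat_lit 0) (XT.lf (nat_lit 0) (nat_lit 121629205) (nat_lit 228) (nat_lit 12714901029) (nat_lit 76) (nat_lit 3874767125) (nat_lit 32) (nat_lit 5) (nat_lit 35) (nat_lit 5) (nat_lit 33) (nat_lit 5) (nat_lit 649) (nat_lit 494) (nat_lit 417)) (XT.lf (nat_lit 0) (nat_lit 5705602387) (nat_lit 228) (nat_lit 1273195337) (nat_lit 76) (nat_lit 9940219710) (nat_lit 32) (nat_lit 5) (nat_lit 35) (nat_lit 5) (nat_lit 33) (nat_lit 5) (nat_lit 650) (nat_lit 494) (nat_lit 416)))) (XT.nd (nat_lit 156) (nat_lit 1520) (nat_lit 0) (XT.nd (nat_lit 78) (nat_lit 76) (nat_lit 0) (XT.lf (nat_lit 0) (nat_lit 493441412) (nat_lit 760) (nat_lit 1664544437) (nat_lit 760) (nat_lit 1664544437) (nat_lit 356) (nat_lit 4) (nat_lit 366) (nat_lit 5) (nat_lit 366) (nat_lit 4) (nat_lit 570) (nat_lit 495) (nat_lit 495)) (XT.lf (nat_lit 0) (nat_lit 428337328) (nat_lit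 836) (nat_lit 524351428) (nat_lit 76) (nat_lit 6741831152) (nat_lit 355) (nat_lit 5) (nat_lit 366) (nat_lit 5) (nat_lit 356) (nat_lit 4) (nat_lit 571) (nat_lit 495) (nat_lit 494))) (XT.nd (nat_lit 78) (nat_lit 836) (nat_lit 0) (XT.lf (nat_lit 0) (nat_lit 4195796133) (nat_lit 760) (nat_lit 2051332541) (nat_lit 0) (nat_lit 1497816971) (nat_lit 346) (nat_lit 5) (nat_lit 356) (nat_lit 4) (nat_lit 346) (nat_lit 4) (nat_lit 572) (nat_lit 495) (nat_lit 493)) (XT.lf (nat_lit 0) (nat_lit 209295308) (nat_lit 836) (nat_lit 3584646999) (nat_lit 76) (nat_lit 4003007459) (nat_lit 335) (nat_lit 5) (nat_lit 346) (nat_lit 5) (nat_lit 336) (nat_lit 4) (nat_lit 573) (nat_lit 495) (nat_lit 492))))) (XT.nd (nat_lit 234) (nat_lit 2660) (nat_lit 0) (XT.nd (nat_lit 78) (nat_lit 760) (nat_lit 0) (XT.lf (nat_lit 0) (nat_lit 2708922441) (nat_lit 684) (nat_lit 1251530502) (nat_lit 760) (nat_lit 3889776645) (nat_lit 326) (nat_lit 5) (nat_lit 335) (nat_lit 5) (nat_lit 336) (nat_lit 4) (nat_lit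 574) (nat_lit 495) (nat_lit 491)) (XT.nd (nat_lit 78) (nat_lit 76) (nat_lit 0) (XT.lf (nat_lit 0) (nat_lit 1196702982) (nat_lit 684) (nat_lit 6564870779) (nat_lit 684) (nat_lit 143508480) (nat_lit 317) (nat_lit 4) (nat_lit 326) (nat_lit 5) (nat_lit 326) (nat_lit 4) (nat_lit 575) (nat_lit 495) (nat_lit 490)) (XT.lf (nat_lit 0) (nat_lit 3607031642) (nat_lit 760) (nat_lit 344882565) (nat_lit 76) (nat_lit 4009094382) (nat_lit 316) (nat_lit 5) (nat_lit 326) (nat_lit 5) (nat_lit 317) (nat_lit 4) (nat_lit 576) (nat_lit 495) (nat_lit 489)))) (XT.nd (nat_lit 156) (nat_lit 1292) (nat_lit 0) (XT.nd (nat_lit 78) (nat_lit 760) (nat_lit 0) (XT.lf (nat_lit 0) (nat_lit 6143833722) (nat_lit 608) (nat_lit 1262564449) (nat_lit 684) (nat_lit 612127265) (nat_lit 308) (nat_lit 5) (nat_lit 316) (nat_lit 5) (nat_lit 317) (nat_lit 4) (nat_lit 577) (nat_lit 495) (nat_lit 488)) (XT.lf (nat_lit 0) (nat_lit 3141037836) (nat_lit 760) (nat_lit 3439260143) (nat_lit 76) (nat_lit 1496913850) (nat_lit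 298) (nat_lit 5) (nat_lit 308) (nat_lit 5) (nat_lit 299) (nat_lit 4) (nat_lit 578) (nat_lit 495) (nat_lit 487))) (XT.nd (nat_lit 78) (nat_lit 684) (nat_lit 0) (XT.lf (nat_lit 0) (nat_lit 3115193877) (nat_lit 608) (nat_lit 3823889590) (nat_lit 684) (nat_lit 1198352648) (nat_lit 290) (nat_lit 5) (nat_lit 298) (nat_lit 5) (nat_lit 299) (nat_lit 4) (nat_lit 579) (nat_lit 495) (nat_lit 486)) (XT.lf (nat_lit 0) (nat_lit 1569510154) (nat_lit 608) (nat_lit 980894500) (nat_lit 684) (nat_lit 5648716607) (nat_lit 281) (nat_lit 5) (nat_lit 289) (nat_lit 5) (nat_lit 290) (nat_lit 5) (nat_lit 580) (nat_lit 495) (nat_lit 485))))))) (XT.nd (nat_lit 1014) (nat_lit 4712) (nat_lit 0) (XT.nd (nat_lit 468) (nat_lit 2660) (nat_lit 0) (XT.nd (nat_lit 234) (nat_lit 1748) (nat_lit 0) (XT.nd (nat_lit 78) (nat_lit 1292) (nat_lit 0) (XT.lf (nat_lit 0) (nat_lit 6342102818) (nat_lit 684) (nat_lit 4285295) (nat_lit 76) (nat_lit 1915818394) (nat_lit 281) (nat_lit 5) (nat_lit 290) (nat_lit 5)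 (nat_lit 282) (nat_lit 4) (nat_lit 581) (nat_lit 495) (nat_lit 484)) (XT.nd (nat_lit 78) (nat_lit 608) (nat_lit 0) (XT.lf (nat_lit 0) (nat_lit 1847489767) (nat_lit 684) (nat_lit 1585140492) (nat_lit 76) (nat_lit 4893901423) (nat_lit 272) (nat_lit 5) (nat_lit 281) (nat_lit 5) (nat_lit 273) (nat_lit 5) (nat_lit 582) (nat_lit 495) (nat_lit 483)) (XT.lf (nat_lit 0) (nat_lit 5203307685) (nat_lit 608) (nat_lit 434355254) (nat_lit 684) (nat_lit 2754772583) (nat_lit 264) (nat_lit 5) (nat_lit 272) (nat_lit 5) (nat_lit 273) (nat_lit 5) (nat_lit 583) (nat_lit 495) (nat_lit 482)))) (XT.nd (nat_lit 78) (nat_lit 1140) (nat_lit 0) (XT.lf (nat_lit 0) (nat_lit 1021214235) (nat_lit 608) (nat_lit 4829039002) (nat_lit 76) (nat_lit 2609454731) (nat_lit 256) (nat_lit 5) (nat_lit 264) (nat_lit 5) (nat_lit 257) (nat_lit 5) (nat_lit 584) (nat_lit 495) (nat_lit 481)) (XT.nd (nat_lit 78) (nat_lit 608) (nat_lit 0) (XT.lf (nat_lit 0) (nat_lit 2024578932) (nat_lit 532) (nat_lit 2788732126)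 (nat_lit 608) (nat_lit 3715105574) (nat_lit 249) (nat_lit 5) (nat_lit 256) (nat_lit 5) (nat_lit 257) (nat_lit 5) (nat_lit 585) (nat_lit 495) (nat_lit 480)) (XT.lf (nat_lit 0) (nat_lit 59288495) (nat_lit 608) (nat_lit 8196973137) (nat_lit 76) (nat_lit 342678935) (nat_lit 241) (nat_lit 5) (nat_lit 249) (nat_lit 5) (nat_lit 242) (nat_lit 5) (nat_lit 586) (nat_lit 495) (nat_lit 479))))) (XT.nd (nat_lit 234) (nat_lit 1596) (nat_lit 0) (XT.nd (nat_lit 78) (nat_lit 1064) (nat_lit 0) (XT.lf (nat_lit 0) (nat_lit 3862483408) (nat_lit 608) (nat_lit 1262963059) (nat_lit 76) (nat_lit 3544880439) (nat_lit 241) (nat_lit 5) (nat_lit 249) (nat_lit 5) (nat_lit 242) (nat_lit 5) (nat_lit 587) (nat_lit 495) (nat_lit 478)) (XT.nd (nat_lit 78) (nat_lit 532) (nat_lit 0) (XT.lf (nat_lit 0) (nat_lit 5803835717) (nat_lit 532) (nat_lit 1917363454) (nat_lit 608) (nat_lit 1022356805) (nat_lit 234) (nat_lit 5) (nat_lit 241) (nat_lit 5) (nat_lit 242) (nat_lit 5) (nat_lit 588) (nat_lit 495) (nat_lit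 477)) (XT.lf (nat_lit 0) (nat_lit 2788179070) (nat_lit 532) (nat_lit 4662429754) (nat_lit 76) (nat_lit 1367544726) (nat_lit 227) (nat_lit 5) (nat_lit 234) (nat_lit 5) (nat_lit 228) (nat_lit 5) (nat_lit 589) (nat_lit 495) (nat_lit 476)))) (XT.nd (nat_lit 156) (nat_lit 532) (nat_lit 0) (XT.nd (nat_lit 78) (nat_lit 532) (nat_lit 0) (XT.lf (nat_lit 0) (nat_lit 2469163558) (nat_lit 532) (nat_lit 4183123133) (nat_lit 608) (nat_lit 2242004127) (nat_lit 220) (nat_lit 5) (nat_lit 227) (nat_lit 5) (nat_lit 228) (nat_lit 5) (nat_lit 590) (nat_lit 495) (nat_lit 475)) (XT.lf (nat_lit 0) (nat_lit 751463673) (nat_lit 456) (nat_lit 828031015) (nat_lit 532) (nat_lit 7392668543) (nat_lit 213) (nat_lit 5) (nat_lit 219) (nat_lit 5) (nat_lit 220) (nat_lit 5) (nat_lit 591) (nat_lit 495) (nat_lit 474))) (XT.nd (nat_lit 78) (nat_lit 532) (nat_lit 0) (XT.lf (nat_lit 0) (nat_lit 5450763376) (nat_lit 532) (nat_lit 1007372511) (nat_lit 76) (nat_lit 2593097286) (nat_lit 213) (nat_lit 5) (nat_lit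 220) (nat_lit 5) (nat_lit 214) (nat_lit 5) (nat_lit 592) (nat_lit 495) (nat_lit 473)) (XT.lf (nat_lit 0) (nat_lit 254891184) (nat_lit 532) (nat_lit 2787489412) (nat_lit 76) (nat_lit 6089656158) (nat_lit 206) (nat_lit 5) (nat_lit 213) (nat_lit 5) (nat_lit 207) (nat_lit 5) (nat_lit 593) (nat_lit 495) (nat_lit 472)))))) (XT.nd (nat_lit 546) (nat_lit 2052) (nat_lit 0) (XT.nd (nat_lit 234) (nat_lit 1292) (nat_lit 0) (XT.nd (nat_lit 78) (nat_lit 912) (nat_lit 0) (XT.lf (nat_lit 0) (nat_lit 4123346760) (nat_lit 532) (nat_lit 4620130675) (nat_lit 76) (nat_lit 470822504) (nat_lit 200) (nat_lit 5) (nat_lit 207) (nat_lit 5) (nat_lit 201) (nat_lit 5) (nat_lit 594) (nat_lit 495) (nat_lit 471)) (XT.nd (nat_lit 78) (nat_lit 456) (nat_lit 0) (XT.lf (nat_lit 0) (nat_lit 2797518967) (nat_lit 456) (nat_lit 5273585638) (nat_lit 532) (nat_lit 1227068518) (nat_lit 194) (nat_lit 5) (nat_lit 200) (nat_lit 5) (nat_lit 201) (nat_lit 5) (nat_lit 595) (nat_lit 495) (nat_lit 470)) (XT.lf (nat_lit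 0) (nat_lit 955242296) (nat_lit 380) (nat_lit 1705645155) (nat_lit 456) (nat_lit 6722839365) (nat_lit 188) (nat_lit 5) (nat_lit 193) (nat_lit 5) (nat_lit 194) (nat_lit 5) (nat_lit 596) (nat_lit 495) (nat_lit 469)))) (XT.nd (nat_lit 156) (nat_lit 760) (nat_lit 0) (XT.nd (nat_lit 78) (nat_lit 532) (nat_lit 0) (XT.lf (nat_lit 0) (nat_lit 6612000518) (nat_lit 456) (nat_lit 925589407) (nat_lit 76) (nat_lit 1933206074) (nat_lit 188) (nat_lit 5) (nat_lit 194) (nat_lit 5) (nat_lit 189) (nat_lit 5) (nat_lit 597) (nat_lit 495) (nat_lit 468)) (XT.lf (nat_lit 0) (nat_lit 1069701855) (nat_lit 532) (nat_lit 2843629046) (nat_lit 76) (nat_lit 5646110768) (nat_lit 181) (nat_lit 5) (nat_lit 188) (nat_lit 5) (nat_lit 182) (nat_lit 5) (nat_lit 598) (nat_lit 495) (nat_lit 467))) (XT.nd (nat_lit 78) (nat_lit 380) (nat_lit 0) (XT.lf (nat_lit 0) (nat_lit 4835874530) (nat_lit 380) (nat_lit 186891741) (nat_lit 456) (nat_lit 4627033542) (nat_lit 176) (nat_lit 5) (nat_lit 181) (nat_lit 5)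 (nat_lit 182) (nat_lit 5) (nat_lit 599) (nat_lit 495) (nat_lit 466)) (XT.lf (nat_lit 0) (nat_lit 2898583217) (nat_lit 380) (nat_lit 6164732676) (nat_lit 456) (nat_lit 678483706) (nat_lit 171) (nat_lit 5) (nat_lit 176) (nat_lit 5) (nat_lit 177) (nat_lit 5) (nat_lit 600) (nat_lit 495) (nat_lit 465))))) (XT.nd (nat_lit 234) (nat_lit 1140) (nat_lit 0) (XT.nd (nat_lit 78) (nat_lit 456) (nat_lit 0) (XT.lf (nat_lit 0) (nat_lit 902300958) (nat_lit 380) (nat_lit 2389519905) (nat_lit 456) (nat_lit 6543652340) (nat_lit 165) (nat_lit 5) (nat_lit 170) (nat_lit 5) (nat_lit 171) (nat_lit 5) (nat_lit 601) (nat_lit 495) (nat_lit 464)) (XT.nd (nat_lit 78) (nat_lit 456) (nat_lit 0) (XT.lf (nat_lit 0) (nat_lit 7335581490) (nat_lit 456) (nat_lit 1131159112) (nat_lit 76) (nat_lit 1464130073) (nat_lit 165) (nat_lit 5) (nat_lit 171) (nat_lit 5) (nat_lit 166) (nat_lit 5) (nat_lit 602) (nat_lit 495) (nat_lit 463)) (XT.lf (nat_lit 0) (nat_lit 1421862092) (nat_lit 456) (nat_lit 3217498897)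 (nat_lit 76) (nat_lit 5388459786) (nat_lit 159) (nat_lit 5) (nat_lit 165) (nat_lit 5) (nat_lit 160) (nat_lit 5) (nat_lit 603) (nat_lit 495) (nat_lit 462)))) (XT.nd (nat_lit 156) (nat_lit 380) (nat_lit 0) (XT.nd (nat_lit 78) (nat_lit 380) (nat_lit 0) (XT.lf (nat_lit 0) (nat_lit 4763843386) (nat_lit 380) (nat_lit 707960136) (nat_lit 456) (nat_lit 4654821924) (nat_lit 154) (nat_lit 5) (nat_lit 159) (nat_lit 5) (nat_lit 160) (nat_lit 5) (nat_lit 604) (nat_lit 495) (nat_lit 461)) (XT.lf (nat_lit 0) (nat_lit 2653567993) (nat_lit 380) (nat_lit 6958468589) (nat_lit 456) (nat_lit 615186347) (nat_lit 149) (nat_lit 5) (nat_lit 154) (nat_lit 5) (nat_lit 155) (nat_lit 5) (nat_lit 605) (nat_lit 495) (nat_lit 460))) (XT.nd (nat_lit 78) (nat_lit 0) (nat_lit 0) (XT.lf (nat_lit 0) (nat_lit 471069119) (nat_lit 304) (nat_lit 2981205320) (nat_lit 380) (nat_lit 6877245146) (nat_lit 144) (nat_lit 5) (nat_lit 148) (nat_lit 5) (nat_lit 149) (nat_lit 5) (nat_lit 606) (nat_lit 495) (nat_lit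 459)) (XT.lf (nat_lit 0) (nat_lit 7600309193) (nat_lit 380) (nat_lit 1746421094) (nat_lit 76) (nat_lit 1086903743) (nat_lit 144) (nat_lit 5) (nat_lit 149) (nat_lit 5) (nat_lit 145) (nat_lit 5) (nat_lit 607) (nat_lit 495) (nat_lit 458))))))))
noncomputable def xc31 : XT := (XT.nd (nat_lit 2106) (nat_lit 2280) (nat_lit 0) (XT.nd (nat_lit 1014) (nat_lit 2888) (nat_lit 0) (XT.nd (nat_lit 468) (nat_lit 1520) (nat_lit 0) (XT.nd (nat_lit 234) (nat_lit 760) (nat_lit 0) (XT.nd (nat_lit 78) (nat_lit 608) (nat_lit 0) (XT.lf (nat_lit 0) (nat_lit 1286953996) (nat_lit 456) (nat_lit 4034453439) (nat_lit 76) (nat_lit 5218009602) (nat_lit 138) (nat_lit 5) (nat_lit 144) (nat_lit 5) (nat_lit 139) (nat_lit 5) (nat_lit 608) (nat_lit 495) (nat_lit 457)) (XT.nd (nat_lit 78) (nat_lit 304) (nat_lit 0) (XT.lf (nat_lit 0) (nat_lit 4254861614) (nat_lit 304) (nat_lit 1186731894) (nat_lit 380) (nat_lit 5205552051) (nat_lit 134) (nat_lit 5) (nat_lit 138) (nat_lit 5) (nat_lit 139) (nat_lit 5)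 (nat_lit 609) (nat_lit 495) (nat_lit 456)) (XT.lf (nat_lit 0) (nat_lit 1933335452) (nat_lit 304) (nat_lit 7756165648) (nat_lit 380) (nat_lit 1067326287) (nat_lit 130) (nat_lit 5) (nat_lit 134) (nat_lit 5) (nat_lit 135) (nat_lit 5) (nat_lit 610) (nat_lit 495) (nat_lit 455)))) (XT.nd (nat_lit 78) (nat_lit 684) (nat_lit 0) (XT.lf (nat_lit 0) (nat_lit 3114158178) (nat_lit 380) (nat_lit 464803075) (nat_lit 76) (nat_lit 7289297141) (nat_lit 129) (nat_lit 5) (nat_lit 134) (nat_lit 5) (nat_lit 130) (nat_lit 5) (nat_lit 611) (nat_lit 495) (nat_lit 454)) (XT.nd (nat_lit 78) (nat_lit 380) (nat_lit 0) (XT.lf (nat_lit 0) (nat_lit 7373864510) (nat_lit 380) (nat_lit 2905217400) (nat_lit 76) (nat_lit 702519451) (nat_lit 125) (nat_lit 5) (nat_lit 130) (nat_lit 5) (nat_lit 126) (nat_lit 5) (nat_lit 612) (nat_lit 495) (nat_lit 453)) (XT.lf (nat_lit 0) (nat_lit 629171264) (nat_lit 380) (nat_lit 5431982686) (nat_lit 76) (nat_lit 5035663170) (nat_lit 120) (nat_lit 5) (nat_lit 125) (nat_lit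 5) (nat_lit 121) (nat_lit 5) (nat_lit 613) (nat_lit 495) (nat_lit 452))))) (XT.nd (nat_lit 234) (nat_lit 836) (nat_lit 0) (XT.nd (nat_lit 78) (nat_lit 380) (nat_lit 0) (XT.lf (nat_lit 0) (nat_lit 3170039360) (nat_lit 304) (nat_lit 1724854800) (nat_lit 380) (nat_lit 6319120400) (nat_lit 116) (nat_lit 5) (nat_lit 120) (nat_lit 5) (nat_lit 121) (nat_lit 5) (nat_lit 614) (nat_lit 495) (nat_lit 451)) (XT.nd (nat_lit 78) (nat_lit 76) (nat_lit 0) (XT.lf (nat_lit 0) (nat_lit 595494906) (nat_lit 304) (nat_lit 8660871002) (nat_lit 380) (nat_lit 2076983305) (nat_lit 112) (nat_lit 5) (nat_lit 116) (nat_lit 5) (nat_lit 117) (nat_lit 5) (nat_lit 615) (nat_lit 495) (nat_lit 450)) (XT.lf (nat_lit 0) (nat_lit 2238710995) (nat_lit 380) (nat_lit 2043160301) (nat_lit 76) (nat_lit 7172544499) (nat_lit 111) (nat_lit 5) (nat_lit 116) (nat_lit 5) (nat_lit 112) (nat_lit 5) (nat_lit 616) (nat_lit 495) (nat_lit 449)))) (XT.nd (nat_lit 156) (nat_lit 304) (nat_lit 0) (XT.nd (nat_lit 78) (nat_lit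 304) (nat_lit 0) (XT.lf (nat_lit 0) (nat_lit 6612010549) (nat_lit 304) (nat_lit 4755909651) (nat_lit 76) (nat_lit 209728727) (nat_lit 108) (nat_lit 5) (nat_lit 112) (nat_lit 5) (nat_lit 109) (nat_lit 5) (nat_lit 617) (nat_lit 495) (nat_lit 448)) (XT.lf (nat_lit 0) (nat_lit 4136136496) (nat_lit 304) (nat_lit 6959255735) (nat_lit 380) (nat_lit 607503972) (nat_lit 104) (nat_lit 5) (nat_lit 108) (nat_lit 5) (nat_lit 109) (nat_lit 5) (nat_lit 618) (nat_lit 495) (nat_lit 447))) (XT.nd (nat_lit 78) (nat_lit 0) (nat_lit 0) (XT.lf (nat_lit 0) (nat_lit 1354796169) (nat_lit 228) (nat_lit 2427288091) (nat_lit 304) (nat_lit 8048175058) (nat_lit 100) (nat_lit 5) (nat_lit 103) (nat_lit 5) (nat_lit 104) (nat_lit 5) (nat_lit 619) (nat_lit 495) (nat_lit 446)) (XT.lf (nat_lit 0) (nat_lit 8270601706) (nat_lit 304) (nat_lit 1498936036) (nat_lit 76) (nat_lit 2190167904) (nat_lit 100) (nat_lit 5) (nat_lit 104) (nat_lit 5) (nat_lit 101) (nat_lit 5) (nat_lit 620) (nat_lit 495) (nat_lit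 445)))))) (XT.nd (nat_lit 546) (nat_lit 1216) (nat_lit 0) (XT.nd (nat_lit 234) (nat_lit 836) (nat_lit 0) (XT.nd (nat_lit 78) (nat_lit 456) (nat_lit 0) (XT.lf (nat_lit 0) (nat_lit 767993455) (nat_lit 380) (nat_lit 4431794929) (nat_lit 76) (nat_lit 6891440331) (nat_lit 95) (nat_lit 5) (nat_lit 100) (nat_lit 5) (nat_lit 96) (nat_lit 5) (nat_lit 621) (nat_lit 495) (nat_lit 444)) (XT.nd (nat_lit 78) (nat_lit 228) (nat_lit 0) (XT.lf (nat_lit 0) (nat_lit 4756922056) (nat_lit 228) (nat_lit 503863137) (nat_lit 304) (nat_lit 6964191964) (nat_lit 92) (nat_lit 5) (nat_lit 95) (nat_lit 5) (nat_lit 96) (nat_lit 5) (nat_lit 622) (nat_lit 495) (nat_lit 443)) (XT.lf (nat_lit 0) (nat_lit 1746301869) (nat_lit 228) (nat_lit 8121306594) (nat_lit 304) (nat_lit 2493310162) (nat_lit 89) (nat_lit 5) (nat_lit 92) (nat_lit 5) (nat_lit 93) (nat_lit 5) (nat_lit 623) (nat_lit 495) (nat_lit 442)))) (XT.nd (nat_lit 156) (nat_lit 532) (nat_lit 0) (XT.nd (nat_lit 78) (nat_lit 228) (nat_lit 0) (XT.lf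 (nat_lit 0) (nat_lit 2048823221) (nat_lit 304) (nat_lit 1346835889) (nat_lit 76) (nat_lit 9103474058) (nat_lit 88) (nat_lit 5) (nat_lit 92) (nat_lit 5) (nat_lit 89) (nat_lit 5) (nat_lit 624) (nat_lit 495) (nat_lit 441)) (XT.lf (nat_lit 0) (nat_lit 6666707662) (nat_lit 304) (nat_lit 4528649593) (nat_lit 76) (nat_lit 1444060736) (nat_lit 85) (nat_lit 5) (nat_lit 89) (nat_lit 5) (nat_lit 86) (nat_lit 5) (nat_lit 625) (nat_lit 495) (nat_lit 440))) (XT.nd (nat_lit 78) (nat_lit 304) (nat_lit 0) (XT.lf (nat_lit 0) (nat_lit 4959957505) (nat_lit 228) (nat_lit 6436986835) (nat_lit 304) (nat_lit 1385165729) (nat_lit 82) (nat_lit 5) (nat_lit 85) (nat_lit 5) (nat_lit 86) (nat_lit 5) (nat_lit 626) (nat_lit 495) (nat_lit 439)) (XT.lf (nat_lit 0) (nat_lit 1697264937) (nat_lit 228) (nat_lit 1551557473) (nat_lit 304) (nat_lit 9678449304) (nat_lit 78) (nat_lit 5) (nat_lit 81) (nat_lit 5) (nat_lit 82) (nat_lit 5) (nat_lit 627) (nat_lit 495) (nat_lit 438))))) (XT.nd (nat_lit 234) (nat_lit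 684) (nat_lit 0) (XT.nd (nat_lit 78) (nat_lit 532) (nat_lit 0) (XT.lf (nat_lit 0) (nat_lit 7988521023) (nat_lit 304) (nat_lit 1669225827) (nat_lit 76) (nat_lit 3416776430) (nat_lit 78) (nat_lit 5) (nat_lit 82) (nat_lit 5) (nat_lit 79) (nat_lit 5) (nat_lit 628) (nat_lit 495) (nat_lit 437)) (XT.nd (nat_lit 78) (nat_lit 304) (nat_lit 0) (XT.lf (nat_lit 0) (nat_lit 8104036151) (nat_lit 228) (nat_lit 4739165784) (nat_lit 304) (nat_lit 381115515) (nat_lit 75) (nat_lit 5) (nat_lit 78) (nat_lit 5) (nat_lit 79) (nat_lit 5) (nat_lit 629) (nat_lit 495) (nat_lit 436)) (XT.lf (nat_lit 0) (nat_lit 4360994823) (nat_lit 304) (nat_lit 8702357870) (nat_lit 76) (nat_lit 313161083) (nat_lit 71) (nat_lit 5) (nat_lit 75) (nat_lit 5) (nat_lit 72) (nat_lit 5) (nat_lit 630) (nat_lit 495) (nat_lit 435)))) (XT.nd (nat_lit 156) (nat_lit 380) (nat_lit 0) (XT.nd (nat_lit 78) (nat_lit 76) (nat_lit 0) (XT.lf (nat_lit 0) (nat_lit 1108252218) (nat_lit 228) (nat_lit 8115279824) (nat_lit 304) (nat_lit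 4307559110) (nat_lit 68) (nat_lit 5) (nat_lit 71) (nat_lit 5) (nat_lit 72) (nat_lit 5) (nat_lit 631) (nat_lit 495) (nat_lit 434)) (XT.lf (nat_lit 0) (nat_lit 504442058) (nat_lit 304) (nat_lit 2533192100) (nat_lit 76) (nat_lit 10650735544) (nat_lit 67) (nat_lit 5) (nat_lit 71) (nat_lit 5) (nat_lit 68) (nat_lit 5) (nat_lit 632) (nat_lit 495) (nat_lit 433))) (XT.nd (nat_lit 78) (nat_lit 228) (nat_lit 0) (XT.lf (nat_lit 0) (nat_lit 5376712584) (nat_lit 228) (nat_lit 6311098157) (nat_lit 76) (nat_lit 2159980662) (nat_lit 65) (nat_lit 5) (nat_lit 68) (nat_lit 5) (nat_lit 66) (nat_lit 5) (nat_lit 633) (nat_lit 495) (nat_lit 432)) (XT.lf (nat_lit 0) (nat_lit 3788000357) (nat_lit 228) (nat_lit 6578800831) (nat_lit 304) (nat_lit 3643194064) (nat_lit 62) (nat_lit 5) (nat_lit 65) (nat_lit 5) (nat_lit 66) (nat_lit 5) (nat_lit 634) (nat_lit 495) (nat_lit 431))))))) (XT.nd (nat_lit 1092) (nat_lit 228) (nat_lit 0) (XT.nd (nat_lit 546) (nat_lit 912) (nat_lit 0) (XT.nd (nat_lit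 234) (nat_lit 684) (nat_lit 0) (XT.nd (nat_lit 78) (nat_lit 380) (nat_lit 0) (XT.lf (nat_lit 0) (nat_lit 1265689852) (nat_lit 304) (nat_lit 82335554) (nat_lit 76) (nat_lit 12827227613) (nat_lit 61) (nat_lit 5) (nat_lit 65) (nat_lit 5) (nat_lit 62) (nat_lit 5) (nat_lit 635) (nat_lit 495) (nat_lit 430)) (XT.nd (nat_lit 78) (nat_lit 228) (nat_lit 0) (XT.lf (nat_lit 0) (nat_lit 6276591498) (nat_lit 228) (nat_lit 4070357300) (nat_lit 76) (nat_lit 3995334163) (nat_lit 59) (nat_lit 5) (nat_lit 62) (nat_lit 5) (nat_lit 60) (nat_lit 5) (nat_lit 636) (nat_lit 495) (nat_lit 429)) (XT.lf (nat_lit 0) (nat_lit 6323297758) (nat_lit 228) (nat_lit 5074501373) (nat_lit 304) (nat_lit 3114653691) (nat_lit 56) (nat_lit 5) (nat_lit 59) (nat_lit 5) (nat_lit 60) (nat_lit 5) (nat_lit 637) (nat_lit 495) (nat_lit 428)))) (XT.nd (nat_lit 156) (nat_lit 456) (nat_lit 0) (XT.nd (nat_lit 78) (nat_lit 0) (nat_lit 0) (XT.lf (nat_lit 0) (nat_lit 1913782798) (nat_lit 228) (nat_lit 12449241238) (nat_lit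 76) (nat_lit 322676538) (nat_lit 53) (nat_lit 5) (nat_lit 56) (nat_lit 5) (nat_lit 54) (nat_lit 5) (nat_lit 638) (nat_lit 495) (nat_lit 427)) (XT.lf (nat_lit 0) (nat_lit 7049770508) (nat_lit 228) (nat_lit 2006945926) (nat_lit 76) (nat_lit 5804312352) (nat_lit 53) (nat_lit 5) (nat_lit 56) (nat_lit 5) (nat_lit 54) (nat_lit 5) (nat_lit 639) (nat_lit 495) (nat_lit 426))) (XT.nd (nat_lit 78) (nat_lit 228) (nat_lit 0) (XT.lf (nat_lit 0) (nat_lit 8686922759) (nat_lit 228) (nat_lit 3618471456) (nat_lit 304) (nat_lit 2734132019) (nat_lit 50) (nat_lit 5) (nat_lit 53) (nat_lit 5) (nat_lit 54) (nat_lit 5) (nat_lit 640) (nat_lit 495) (nat_lit 425)) (XT.lf (nat_lit 0) (nat_lit 2427677326) (nat_lit 228) (nat_lit 10863273861) (nat_lit 76) (nat_lit 1930021946) (nat_lit 47) (nat_lit 5) (nat_lit 50) (nat_lit 5) (nat_lit 48) (nat_lit 5) (nat_lit 641) (nat_lit 495) (nat_lit 424))))) (XT.nd (nat_lit 234) (nat_lit 532) (nat_lit 0) (XT.nd (nat_lit 78) (nat_lit 380) (nat_lit 0) (XT.lf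 (nat_lit 0) (nat_lit 7683699512) (nat_lit 228) (nat_lit 150598060) (nat_lit 76) (nat_lit 7570839151) (nat_lit 47) (nat_lit 5) (nat_lit 50) (nat_lit 5) (nat_lit 48) (nat_lit 5) (nat_lit 642) (nat_lit 495) (nat_lit 423)) (XT.nd (nat_lit 78) (nat_lit 228) (nat_lit 0) (XT.lf (nat_lit 0) (nat_lit 10848644128) (nat_lit 152) (nat_lit 2228083085) (nat_lit 228) (nat_lit 2515619591) (nat_lit 45) (nat_lit 5) (nat_lit 47) (nat_lit 5) (nat_lit 48) (nat_lit 5) (nat_lit 643) (nat_lit 495) (nat_lit 422)) (XT.lf (nat_lit 0) (nat_lit 2783815345) (nat_lit 228) (nat_lit 9524891097) (nat_lit 76) (nat_lit 3473709700) (nat_lit 42) (nat_lit 5) (nat_lit 45) (nat_lit 5) (nat_lit 43) (nat_lit 5) (nat_lit 644) (nat_lit 495) (nat_lit 421)))) (XT.nd (nat_lit 156) (nat_lit 380) (nat_lit 0) (XT.nd (nat_lit 78) (nat_lit 0) (nat_lit 0) (XT.lf (nat_lit 0) (nat_lit 1485159524) (nat_lit 152) (nat_lit 6688467082) (nat_lit 228) (nat_lit 7801967126) (nat_lit 40) (nat_lit 5) (nat_lit 42) (nat_lit 5) (nat_lit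 43) (nat_lit 5) (nat_lit 645) (nat_lit 495) (nat_lit 420)) (XT.lf (nat_lit 0) (nat_lit 12774863096) (nat_lit 152) (nat_lit 922187292) (nat_lit 228) (nat_lit 2475069012) (nat_lit 40) (nat_lit 5) (nat_lit 42) (nat_lit 5) (nat_lit 43) (nat_lit 5) (nat_lit 646) (nat_lit 495) (nat_lit 419))) (XT.nd (nat_lit 78) (nat_lit 152) (nat_lit 0) (XT.lf (nat_lit 0) (nat_lit 2965943055) (nat_lit 228) (nat_lit 8470543630) (nat_lit 76) (nat_lit 4934778048) (nat_lit 37) (nat_lit 5) (nat_lit 40) (nat_lit 5) (nat_lit 38) (nat_lit 5) (nat_lit 647) (nat_lit 495) (nat_lit 418)) (XT.lf (nat_lit 0) (nat_lit 2842514487) (nat_lit 152) (nat_lit 5650151934) (nat_lit 228) (nat_lit 8081199504) (nat_lit 35) (nat_lit 5) (nat_lit 37) (nat_lit 5) (nat_lit 38) (nat_lit 5) (nat_lit 648) (nat_lit 495) (nat_lit 417)))))) (XT.nd (nat_lit 75270) (nat_lit 0) (nat_lit 19608) (XT.nd (nat_lit 74958) (nat_lit 0) (nat_lit 23864) (XT.nd (nat_lit 78) (nat_lit 228) (nat_lit 0) (XT.lf (nat_lit 0) (nat_lit 14151356755)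 (nat_lit 228) (nat_lit 2353717335) (nat_lit 76) (nat_lit 275017185) (nat_lit 35) (nat_lit 5) (nat_lit 38) (nat_lit 5) (nat_lit 36) (nat_lit 4) (nat_lit 649) (nat_lit 495) (nat_lit 416)) (XT.nd (nat_lit 74802) (nat_lit 0) (nat_lit 26220) (XT.lf (nat_lit 0) (nat_lit 2955622938) (nat_lit 228) (nat_lit 7740691035) (nat_lit 76) (nat_lit 6292520942) (nat_lit 32) (nat_lit 5) (nat_lit 35) (nat_lit 5) (nat_lit 33) (nat_lit 5) (nat_lit 650) (nat_lit 495) (nat_lit 415)) (XT.lf (nat_lit 0) (nat_lit 2023750711) (nat_lit 836) (nat_lit 875598264) (nat_lit 836) (nat_lit 875598264) (nat_lit 377) (nat_lit 4) (nat_lit 388) (nat_lit 5) (nat_lit 388) (nat_lit 4) (nat_lit 568) (nat_lit 496) (nat_lit 496)))) (XT.nd (nat_lit 156) (nat_lit 760) (nat_lit 0) (XT.nd (nat_lit 78) (nat_lit 760) (nat_lit 0) (XT.lf (nat_lit 0) (nat_lit 1961954168) (nat_lit 836) (nat_lit 5090669303) (nat_lit 0) (nat_lit 544569480) (nat_lit 366) (nat_lit 5) (nat_lit 377) (nat_lit 4) (nat_lit 366) (nat_lit 4) (nat_lit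 569) (nat_lit 496) (nat_lit 495)) (XT.lf (nat_lit 0) (nat_lit 946314256) (nat_lit 760) (nat_lit 4753202003) (nat_lit 760) (nat_lit 1946224483) (nat_lit 356) (nat_lit 4) (nat_lit 366) (nat_lit 5) (nat_lit 366) (nat_lit 4) (nat_lit 570) (nat_lit 496) (nat_lit 494))) (XT.nd (nat_lit 78) (nat_lit 684) (nat_lit 0) (XT.lf (nat_lit 0) (nat_lit 1759665639) (nat_lit 836) (nat_lit 614798840) (nat_lit 76) (nat_lit 5321227253) (nat_lit 355) (nat_lit 5) (nat_lit 366) (nat_lit 5) (nat_lit 356) (nat_lit 4) (nat_lit 571) (nat_lit 496) (nat_lit 493)) (XT.lf (nat_lit 0) (nat_lit 5484245121) (nat_lit 760) (nat_lit 2175504341) (nat_lit 0) (nat_lit 87228766) (nat_lit 346) (nat_lit 5) (nat_lit 356) (nat_lit 4) (nat_lit 346) (nat_lit 4) (nat_lit 572) (nat_lit 496) (nat_lit 492))))) (XT.nd (nat_lit 234) (nat_lit 1976) (nat_lit 0) (XT.nd (nat_lit 78) (nat_lit 1444) (nat_lit 0) (XT.lf (nat_lit 0) (nat_lit 1445135524) (nat_lit 836) (nat_lit 3761611576) (nat_lit 76) (nat_lit 2592745342) (nat_lit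 335) (nat_lit 5) (nat_lit 346) (nat_lit 5) (nat_lit 336) (nat_lit 4) (nat_lit 573) (nat_lit 496) (nat_lit 491)) (XT.nd (nat_lit 78) (nat_lit 760) (nat_lit 0) (XT.lf (nat_lit 0) (nat_lit 2489127349) (nat_lit 684) (nat_lit 2673501228) (nat_lit 760) (nat_lit 2690819968) (nat_lit 326) (nat_lit 5) (nat_lit 335) (nat_lit 5) (nat_lit 336) (nat_lit 4) (nat_lit 574) (nat_lit 496) (nat_lit 490)) (XT.lf (nat_lit 0) (nat_lit 932127678) (nat_lit 684) (nat_lit 66807770) (nat_lit 760) (nat_lit 6910084977) (nat_lit 316) (nat_lit 5) (nat_lit 325) (nat_lit 5) (nat_lit 326) (nat_lit 5) (nat_lit 575) (nat_lit 496) (nat_lit 489)))) (XT.nd (nat_lit 156) (nat_lit 1292) (nat_lit 0) (XT.nd (nat_lit 78) (nat_lit 684) (nat_lit 0) (XT.lf (nat_lit 0) (nat_lit 4715400039) (nat_lit 760) (nat_lit 654328419) (nat_lit 76) (nat_lit 2595846363) (nat_lit 316) (nat_lit 5) (nat_lit 326) (nat_lit 5) (nat_lit 317) (nat_lit 4) (nat_lit 576) (nat_lit 496) (nat_lit 488)) (XT.lf (nat_lit 0) (nat_lit 451568834)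 (nat_lit 684) (nat_lit 2236626810) (nat_lit 76) (nat_lit 5335508037) (nat_lit 307) (nat_lit 5) (nat_lit 316) (nat_lit 5) (nat_lit 308) (nat_lit 5) (nat_lit 577) (nat_lit 496) (nat_lit 487))) (XT.nd (nat_lit 78) (nat_lit 608) (nat_lit 0) (XT.lf (nat_lit 0) (nat_lit 4153743410) (nat_lit 760) (nat_lit 3846826285) (nat_lit 76) (nat_lit 82602793) (nat_lit 298) (nat_lit 5) (nat_lit 308) (nat_lit 5) (nat_lit 299) (nat_lit 4) (nat_lit 578) (nat_lit 496) (nat_lit 486)) (XT.lf (nat_lit 0) (nat_lit 2661587601) (nat_lit 608) (nat_lit 5256560933) (nat_lit 684) (nat_lit 225923652) (nat_lit 290) (nat_lit 5) (nat_lit 298) (nat_lit 5) (nat_lit 299) (nat_lit 4) (nat_lit 579) (nat_lit 496) (nat_lit 485))))))))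
noncomputable def xc32 : XT := (XT.nd (nat_lit 2106) (nat_lit 6308) (nat_lit 0) (XT.nd (nat_lit 1014) (nat_lit 4940) (nat_lit 0) (XT.nd (nat_lit 468) (nat_lit 2736) (nat_lit 0) (XT.nd (nat_lit 234) (nat_lit 1748) (nat_lit 0) (XT.nd (nat_lit 78) (nat_lit 684) (nat_lit 0) (XT.lf (nat_lit 0) (nat_lit 1055983338) (nat_lit 608) (nat_lit 2420206942) (nat_lit 684) (nat_lit 4730121075) (nat_lit 281) (nat_lit 5) (nat_lit 289) (nat_lit 5) (nat_lit 290) (nat_lit 5) (nat_lit 580) (nat_lit 496) (nat_lit 484)) (XT.nd (nat_lit 78) (nat_lit 684) (nat_lit 0) (XT.lf (nat_lit 0) (nat_lit 7228264114) (nat_lit 684) (nat_lit 556171779) (nat_lit 76) (nat_lit 485755645) (nat_lit 281) (nat_lit 5) (nat_lit 290) (nat_lit 5) (nat_lit 282) (nat_lit 4) (nat_lit 581) (nat_lit 496) (nat_lit 483)) (XT.lf (nat_lit 0) (nat_lit 2680346056) (nat_lit 684) (nat_lit 2198747568) (nat_lit 76) (nat_lit 3455987463) (nat_lit 272) (nat_lit 5) (nat_lit 281) (nat_lit 5) (nat_lit 273) (nat_lit 5) (nat_lit 582)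 (nat_lit 496) (nat_lit 482)))) (XT.nd (nat_lit 78) (nat_lit 1140) (nat_lit 0) (XT.lf (nat_lit 0) (nat_lit 4541162531) (nat_lit 608) (nat_lit 1895501084) (nat_lit 684) (nat_lit 1965000734) (nat_lit 264) (nat_lit 5) (nat_lit 272) (nat_lit 5) (nat_lit 273) (nat_lit 5) (nat_lit 583) (nat_lit 496) (nat_lit 481)) (XT.nd (nat_lit 78) (nat_lit 532) (nat_lit 0) (XT.lf (nat_lit 0) (nat_lit 1756931956) (nat_lit 608) (nat_lit 5555306344) (nat_lit 76) (nat_lit 1157472084) (nat_lit 256) (nat_lit 5) (nat_lit 264) (nat_lit 5) (nat_lit 257) (nat_lit 5) (nat_lit 584) (nat_lit 496) (nat_lit 480)) (XT.lf (nat_lit 0) (nat_lit 1247887652) (nat_lit 532) (nat_lit 4266918711) (nat_lit 608) (nat_lit 3024299311) (nat_lit 249) (nat_lit 5) (nat_lit 256) (nat_lit 5) (nat_lit 257) (nat_lit 5) (nat_lit 585) (nat_lit 496) (nat_lit 479))))) (XT.nd (nat_lit 234) (nat_lit 1596) (nat_lit 0) (XT.nd (nat_lit 78) (nat_lit 1064) (nat_lit 0) (XT.lf (nat_lit 0) (nat_lit 707095193) (nat_lit 608) (nat_lit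 433261602) (nat_lit 76) (nat_lit 7469863993) (nat_lit 248) (nat_lit 5) (nat_lit 256) (nat_lit 5) (nat_lit 249) (nat_lit 5) (nat_lit 586) (nat_lit 496) (nat_lit 478)) (XT.nd (nat_lit 78) (nat_lit 532) (nat_lit 0) (XT.lf (nat_lit 0) (nat_lit 4471192416) (nat_lit 608) (nat_lit 2148463247) (nat_lit 76) (nat_lit 2062735468) (nat_lit 241) (nat_lit 5) (nat_lit 249) (nat_lit 5) (nat_lit 242) (nat_lit 5) (nat_lit 587) (nat_lit 496) (nat_lit 477)) (XT.lf (nat_lit 0) (nat_lit 4866235858) (nat_lit 532) (nat_lit 3429325530) (nat_lit 608) (nat_lit 460747760) (nat_lit 234) (nat_lit 5) (nat_lit 241) (nat_lit 5) (nat_lit 242) (nat_lit 5) (nat_lit 588) (nat_lit 496) (nat_lit 476)))) (XT.nd (nat_lit 156) (nat_lit 532) (nat_lit 0) (XT.nd (nat_lit 78) (nat_lit 532) (nat_lit 0) (XT.lf (nat_lit 0) (nat_lit 3157775709) (nat_lit 456) (nat_lit 140961857) (nat_lit 532) (nat_lit 5532971862) (nat_lit 227) (nat_lit 5) (nat_lit 233) (nat_lit 5) (nat_lit 234) (nat_lit 5) (nat_lit 589) (nat_lit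 496) (nat_lit 475)) (XT.lf (nat_lit 0) (nat_lit 1404474423) (nat_lit 532) (nat_lit 5722611728) (nat_lit 608) (nat_lit 1781477621) (nat_lit 220) (nat_lit 5) (nat_lit 227) (nat_lit 5) (nat_lit 228) (nat_lit 5) (nat_lit 590) (nat_lit 496) (nat_lit 474))) (XT.nd (nat_lit 78) (nat_lit 456) (nat_lit 0) (XT.lf (nat_lit 0) (nat_lit 2001275049) (nat_lit 608) (nat_lit 380588410) (nat_lit 76) (nat_lit 6605168872) (nat_lit 219) (nat_lit 5) (nat_lit 227) (nat_lit 5) (nat_lit 220) (nat_lit 5) (nat_lit 591) (nat_lit 496) (nat_lit 473)) (XT.lf (nat_lit 0) (nat_lit 5832312815) (nat_lit 532) (nat_lit 2189747956) (nat_lit 76) (nat_lit 1044847906) (nat_lit 213) (nat_lit 5) (nat_lit 220) (nat_lit 5) (nat_lit 214) (nat_lit 5) (nat_lit 592) (nat_lit 496) (nat_lit 472)))))) (XT.nd (nat_lit 546) (nat_lit 2128) (nat_lit 0) (XT.nd (nat_lit 234) (nat_lit 1368) (nat_lit 0) (XT.nd (nat_lit 78) (nat_lit 912) (nat_lit 0) (XT.lf (nat_lit 0) (nat_lit 580612260) (nat_lit 532) (nat_lit 4044285891)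 (nat_lit 76) (nat_lit 4523475401) (nat_lit 206) (nat_lit 5) (nat_lit 213) (nat_lit 5) (nat_lit 207) (nat_lit 5) (nat_lit 593) (nat_lit 496) (nat_lit 471)) (XT.nd (nat_lit 78) (nat_lit 456) (nat_lit 0) (XT.lf (nat_lit 0) (nat_lit 3283544059) (nat_lit 456) (nat_lit 1126911931) (nat_lit 532) (nat_lit 4820954666) (nat_lit 200) (nat_lit 5) (nat_lit 206) (nat_lit 5) (nat_lit 207) (nat_lit 5) (nat_lit 594) (nat_lit 496) (nat_lit 470)) (XT.lf (nat_lit 0) (nat_lit 1419072139) (nat_lit 456) (nat_lit 6896080542) (nat_lit 532) (nat_lit 1000994031) (nat_lit 194) (nat_lit 5) (nat_lit 200) (nat_lit 5) (nat_lit 201) (nat_lit 5) (nat_lit 595) (nat_lit 496) (nat_lit 469)))) (XT.nd (nat_lit 156) (nat_lit 912) (nat_lit 0) (XT.nd (nat_lit 78) (nat_lit 380) (nat_lit 0) (XT.lf (nat_lit 0) (nat_lit 2851090607) (nat_lit 532) (nat_lit 495216757) (nat_lit 76) (nat_lit 6056023397) (nat_lit 193) (nat_lit 5) (nat_lit 200) (nat_lit 5) (nat_lit 194) (nat_lit 5) (nat_lit 596) (nat_lit 496) (nat_lit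 468)) (XT.lf (nat_lit 0) (nat_lit 6761746294) (nat_lit 456) (nat_lit 2430847809) (nat_lit 76) (nat_lit 297616542) (nat_lit 188) (nat_lit 5) (nat_lit 194) (nat_lit 5) (nat_lit 189) (nat_lit 5) (nat_lit 597) (nat_lit 496) (nat_lit 467))) (XT.nd (nat_lit 78) (nat_lit 380) (nat_lit 0) (XT.lf (nat_lit 0) (nat_lit 1161914768) (nat_lit 532) (nat_lit 4429596026) (nat_lit 76) (nat_lit 3988058272) (nat_lit 181) (nat_lit 5) (nat_lit 188) (nat_lit 5) (nat_lit 182) (nat_lit 5) (nat_lit 598) (nat_lit 496) (nat_lit 466)) (XT.lf (nat_lit 0) (nat_lit 3188784925) (nat_lit 380) (nat_lit 1889578396) (nat_lit 456) (nat_lit 4592297671) (nat_lit 176) (nat_lit 5) (nat_lit 181) (nat_lit 5) (nat_lit 182) (nat_lit 5) (nat_lit 599) (nat_lit 496) (nat_lit 465))))) (XT.nd (nat_lit 234) (nat_lit 1292) (nat_lit 0) (XT.nd (nat_lit 78) (nat_lit 456) (nat_lit 0) (XT.lf (nat_lit 0) (nat_lit 1179453408) (nat_lit 380) (nat_lit 7891486084) (nat_lit 456) (nat_lit 692682191) (nat_lit 171) (nat_lit 5)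 (nat_lit 176) (nat_lit 5) (nat_lit 177) (nat_lit 5) (nat_lit 600) (nat_lit 496) (nat_lit 464)) (XT.nd (nat_lit 78) (nat_lit 380) (nat_lit 0) (XT.lf (nat_lit 0) (nat_lit 3246272247) (nat_lit 456) (nat_lit 890161415) (nat_lit 76) (nat_lit 5721495576) (nat_lit 170) (nat_lit 5) (nat_lit 176) (nat_lit 5) (nat_lit 171) (nat_lit 5) (nat_lit 601) (nat_lit 496) (nat_lit 463)) (XT.lf (nat_lit 0) (nat_lit 6965737306) (nat_lit 380) (nat_lit 283375780) (nat_lit 456) (nat_lit 2705033373) (nat_lit 165) (nat_lit 5) (nat_lit 170) (nat_lit 5) (nat_lit 171) (nat_lit 5) (nat_lit 602) (nat_lit 496) (nat_lit 462)))) (XT.nd (nat_lit 156) (nat_lit 456) (nat_lit 0) (XT.nd (nat_lit 78) (nat_lit 380) (nat_lit 0) (XT.lf (nat_lit 0) (nat_lit 1273969464) (nat_lit 456) (nat_lit 5160320255) (nat_lit 76) (nat_lit 3617614145) (nat_lit 159) (nat_lit 5) (nat_lit 165) (nat_lit 5) (nat_lit 160) (nat_lit 5) (nat_lit 603) (nat_lit 496) (nat_lit 461)) (XT.lf (nat_lit 0) (nat_lit 2755463532) (nat_lit 380)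 (nat_lit 2530458391) (nat_lit 456) (nat_lit 4865547667) (nat_lit 154) (nat_lit 5) (nat_lit 159) (nat_lit 5) (nat_lit 160) (nat_lit 5) (nat_lit 604) (nat_lit 496) (nat_lit 460))) (XT.nd (nat_lit 78) (nat_lit 76) (nat_lit 0) (XT.lf (nat_lit 0) (nat_lit 565427295) (nat_lit 380) (nat_lit 8810531732) (nat_lit 456) (nat_lit 877113217) (nat_lit 149) (nat_lit 5) (nat_lit 154) (nat_lit 5) (nat_lit 155) (nat_lit 5) (nat_lit 605) (nat_lit 496) (nat_lit 459)) (XT.lf (nat_lit 0) (nat_lit 3165987347) (nat_lit 456) (nat_lit 1686832645) (nat_lit 76) (nat_lit 5503140029) (nat_lit 148) (nat_lit 5) (nat_lit 154) (nat_lit 5) (nat_lit 149) (nat_lit 5) (nat_lit 606) (nat_lit 496) (nat_lit 458))))))) (XT.nd (nat_lit 1014) (nat_lit 2888) (nat_lit 0) (XT.nd (nat_lit 468) (nat_lit 1672) (nat_lit 0) (XT.nd (nat_lit 234) (nat_lit 684) (nat_lit 0) (XT.nd (nat_lit 78) (nat_lit 760) (nat_lit 0) (XT.lf (nat_lit 0) (nat_lit 6475012985) (nat_lit 304) (nat_lit 796254591) (nat_lit 380) (nat_lit 3189663160)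 (nat_lit 144) (nat_lit 5) (nat_lit 148) (nat_lit 5) (nat_lit 149) (nat_lit 5) (nat_lit 607) (nat_lit 496) (nat_lit 457)) (XT.nd (nat_lit 78) (nat_lit 304) (nat_lit 0) (XT.lf (nat_lit 0) (nat_lit 890751296) (nat_lit 456) (nat_lit 6363359945) (nat_lit 76) (nat_lit 3313540663) (nat_lit 138) (nat_lit 5) (nat_lit 144) (nat_lit 5) (nat_lit 139) (nat_lit 5) (nat_lit 608) (nat_lit 496) (nat_lit 456)) (XT.lf (nat_lit 0) (nat_lit 1855628230) (nat_lit 304) (nat_lit 3150129376) (nat_lit 380) (nat_lit 5670416593) (nat_lit 134) (nat_lit 5) (nat_lit 138) (nat_lit 5) (nat_lit 139) (nat_lit 5) (nat_lit 609) (nat_lit 496) (nat_lit 455)))) (XT.nd (nat_lit 78) (nat_lit 684) (nat_lit 0) (XT.lf (nat_lit 0) (nat_lit 9204434374) (nat_lit 380) (nat_lit 546521660) (nat_lit 76) (nat_lit 1035885700) (nat_lit 134) (nat_lit 5) (nat_lit 139) (nat_lit 5) (nat_lit 135) (nat_lit 5) (nat_lit 610) (nat_lit 496) (nat_lit 454)) (XT.nd (nat_lit 78) (nat_lit 304) (nat_lit 0) (XT.lf (nat_lit 0) (nat_lit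 2578342161) (nat_lit 380) (nat_lit 3017689883) (nat_lit 76) (nat_lit 5302858433) (nat_lit 129) (nat_lit 5) (nat_lit 134) (nat_lit 5) (nat_lit 130) (nat_lit 5) (nat_lit 611) (nat_lit 496) (nat_lit 453)) (XT.lf (nat_lit 0) (nat_lit 5455493291) (nat_lit 304) (nat_lit 1337483276) (nat_lit 380) (nat_lit 4220159340) (nat_lit 125) (nat_lit 5) (nat_lit 129) (nat_lit 5) (nat_lit 130) (nat_lit 5) (nat_lit 612) (nat_lit 496) (nat_lit 452))))) (XT.nd (nat_lit 234) (nat_lit 988) (nat_lit 0) (XT.nd (nat_lit 78) (nat_lit 380) (nat_lit 0) (XT.lf (nat_lit 0) (nat_lit 2951271408) (nat_lit 304) (nat_lit 8152656372) (nat_lit 380) (nat_lit 25500014) (nat_lit 121) (nat_lit 5) (nat_lit 125) (nat_lit 5) (nat_lit 126) (nat_lit 5) (nat_lit 613) (nat_lit 496) (nat_lit 451)) (XT.nd (nat_lit 78) (nat_lit 0) (nat_lit 0) (XT.lf (nat_lit 0) (nat_lit 348570601) (nat_lit 304) (nat_lit 3850435689) (nat_lit 380) (nat_lit 7048454243) (nat_lit 116) (nat_lit 5) (nat_lit 120) (nat_lit 5) (nat_lit 121)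 (nat_lit 5) (nat_lit 614) (nat_lit 496) (nat_lit 450)) (XT.lf (nat_lit 0) (nat_lit 8519687766) (nat_lit 380) (nat_lit 2291995604) (nat_lit 76) (nat_lit 555928569) (nat_lit 116) (nat_lit 5) (nat_lit 121) (nat_lit 5) (nat_lit 117) (nat_lit 5) (nat_lit 615) (nat_lit 496) (nat_lit 449)))) (XT.nd (nat_lit 156) (nat_lit 380) (nat_lit 0) (XT.nd (nat_lit 78) (nat_lit 228) (nat_lit 0) (XT.lf (nat_lit 0) (nat_lit 1439631083) (nat_lit 380) (nat_lit 5029189438) (nat_lit 76) (nat_lit 5020724020) (nat_lit 111) (nat_lit 5) (nat_lit 116) (nat_lit 5) (nat_lit 112) (nat_lit 5) (nat_lit 616) (nat_lit 496) (nat_lit 448)) (XT.lf (nat_lit 0) (nat_lit 3759068627) (nat_lit 228) (nat_lit 2009969273) (nat_lit 304) (nat_lit 5844618521) (nat_lit 108) (nat_lit 5) (nat_lit 111) (nat_lit 5) (nat_lit 112) (nat_lit 5) (nat_lit 617) (nat_lit 496) (nat_lit 447))) (XT.nd (nat_lit 78) (nat_lit 76) (nat_lit 0) (XT.lf (nat_lit 0) (nat_lit 971033019) (nat_lit 304) (nat_lit 9225268287) (nat_lit 380) (nat_lit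 1543725632) (nat_lit 104) (nat_lit 5) (nat_lit 108) (nat_lit 5) (nat_lit 109) (nat_lit 5) (nat_lit 618) (nat_lit 496) (nat_lit 446)) (XT.lf (nat_lit 0) (nat_lit 2826874803) (nat_lit 380) (nat_lit 1897142045) (nat_lit 76) (nat_lit 7144120950) (nat_lit 103) (nat_lit 5) (nat_lit 108) (nat_lit 5) (nat_lit 104) (nat_lit 5) (nat_lit 619) (nat_lit 496) (nat_lit 445)))))) (XT.nd (nat_lit 546) (nat_lit 1292) (nat_lit 0) (XT.nd (nat_lit 234) (nat_lit 760) (nat_lit 0) (XT.nd (nat_lit 78) (nat_lit 608) (nat_lit 0) (XT.lf (nat_lit 0) (nat_lit 7160552470) (nat_lit 228) (nat_lit 105674706) (nat_lit 304) (nat_lit 4732341074) (nat_lit 100) (nat_lit 5) (nat_lit 103) (nat_lit 5) (nat_lit 104) (nat_lit 5) (nat_lit 620) (nat_lit 496) (nat_lit 444)) (XT.nd (nat_lit 78) (nat_lit 304) (nat_lit 0) (XT.lf (nat_lit 0) (nat_lit 4243969178) (nat_lit 304) (nat_lit 7576354005) (nat_lit 380) (nat_lit 310766633) (nat_lit 96) (nat_lit 5) (nat_lit 100) (nat_lit 5) (nat_lit 101) (nat_lit 5) (nat_lit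 621) (nat_lit 496) (nat_lit 443)) (XT.lf (nat_lit 0) (nat_lit 1219815766) (nat_lit 228) (nat_lit 2921427492) (nat_lit 304) (nat_lit 8124533284) (nat_lit 92) (nat_lit 5) (nat_lit 95) (nat_lit 5) (nat_lit 96) (nat_lit 5) (nat_lit 622) (nat_lit 496) (nat_lit 442)))) (XT.nd (nat_lit 156) (nat_lit 456) (nat_lit 0) (XT.nd (nat_lit 78) (nat_lit 304) (nat_lit 0) (XT.lf (nat_lit 0) (nat_lit 8699227195) (nat_lit 304) (nat_lit 1876307312) (nat_lit 76) (nat_lit 1827161051) (nat_lit 92) (nat_lit 5) (nat_lit 96) (nat_lit 5) (nat_lit 93) (nat_lit 5) (nat_lit 623) (nat_lit 496) (nat_lit 441)) (XT.lf (nat_lit 0) (nat_lit 820347615) (nat_lit 304) (nat_lit 5066005262) (nat_lit 76) (nat_lit 6655398876) (nat_lit 88) (nat_lit 5) (nat_lit 92) (nat_lit 5) (nat_lit 89) (nat_lit 5) (nat_lit 624) (nat_lit 496) (nat_lit 440))) (XT.nd (nat_lit 78) (nat_lit 228) (nat_lit 0) (XT.lf (nat_lit 0) (nat_lit 4314570467) (nat_lit 228) (nat_lit 1068114592) (nat_lit 304) (nat_lit 7300463176) (nat_lit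 85) (nat_lit 5) (nat_lit 88) (nat_lit 5) (nat_lit 89) (nat_lit 5) (nat_lit 625) (nat_lit 496) (nat_lit 439)) (XT.lf (nat_lit 0) (nat_lit 1038649880) (nat_lit 228) (nat_lit 9020621916) (nat_lit 304) (nat_lit 2767642219) (nat_lit 82) (nat_lit 5) (nat_lit 85) (nat_lit 5) (nat_lit 86) (nat_lit 5) (nat_lit 626) (nat_lit 496) (nat_lit 438))))) (XT.nd (nat_lit 234) (nat_lit 760) (nat_lit 0) (XT.nd (nat_lit 78) (nat_lit 456) (nat_lit 0) (XT.lf (nat_lit 0) (nat_lit 1852240876) (nat_lit 304) (nat_lit 2319056284) (nat_lit 76) (nat_lit 8801603426) (nat_lit 81) (nat_lit 5) (nat_lit 85) (nat_lit 5) (nat_lit 82) (nat_lit 5) (nat_lit 627) (nat_lit 496) (nat_lit 437)) (XT.nd (nat_lit 78) (nat_lit 228) (nat_lit 0) (XT.lf (nat_lit 0) (nat_lit 6538431983) (nat_lit 304) (nat_lit 5782192578) (nat_lit 76) (nat_lit 800598404) (nat_lit 78) (nat_lit 5) (nat_lit 82) (nat_lit 5) (nat_lit 79) (nat_lit 5) (nat_lit 628) (nat_lit 496) (nat_lit 436)) (XT.lf (nat_lit 0) (nat_lit 3899651066) (nat_lit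 228) (nat_lit 7445438262) (nat_lit 304) (nat_lit 1926888928) (nat_lit 75) (nat_lit 5) (nat_lit 78) (nat_lit 5) (nat_lit 79) (nat_lit 5) (nat_lit 629) (nat_lit 496) (nat_lit 435)))) (XT.nd (nat_lit 156) (nat_lit 456) (nat_lit 0) (XT.nd (nat_lit 78) (nat_lit 0) (nat_lit 0) (XT.lf (nat_lit 0) (nat_lit 341077017) (nat_lit 228) (nat_lit 2443520102) (nat_lit 304) (nat_lit 10640796761) (nat_lit 71) (nat_lit 5) (nat_lit 74) (nat_lit 5) (nat_lit 75) (nat_lit 5) (nat_lit 630) (nat_lit 496) (nat_lit 434)) (XT.lf (nat_lit 0) (nat_lit 7603454093) (nat_lit 304) (nat_lit 3308761816) (nat_lit 76) (nat_lit 2668629565) (nat_lit 71) (nat_lit 5) (nat_lit 75) (nat_lit 5) (nat_lit 72) (nat_lit 5) (nat_lit 631) (nat_lit 496) (nat_lit 433))) (XT.nd (nat_lit 78) (nat_lit 228) (nat_lit 0) (XT.lf (nat_lit 0) (nat_lit 6661431243) (nat_lit 228) (nat_lit 5875854386) (nat_lit 304) (nat_lit 1201749736) (nat_lit 68) (nat_lit 5) (nat_lit 71) (nat_lit 5) (nat_lit 72) (nat_lit 5) (nat_lit 632) (nat_lit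 496) (nat_lit 432)) (XT.lf (nat_lit 0) (nat_lit 2918108978) (nat_lit 152) (nat_lit 703699023) (nat_lit 228) (nat_lit 10278095172) (nat_lit 65) (nat_lit 5) (nat_lit 67) (nat_lit 5) (nat_lit 68) (nat_lit 5) (nat_lit 633) (nat_lit 496) (nat_lit 431))))))))
noncomputable def xc33 : XT := (XT.nd (nat_lit 76674) (nat_lit 0) (nat_lit 10108) (XT.nd (nat_lit 1014) (nat_lit 608) (nat_lit 0) (XT.nd (nat_lit 468) (nat_lit 988) (nat_lit 0) (XT.nd (nat_lit 234) (nat_lit 456) (nat_lit 0) (XT.nd (nat_lit 78) (nat_lit 456) (nat_lit 0) (XT.lf (nat_lit 0) (nat_lit 8562616084) (nat_lit 228) (nat_lit 963578519) (nat_lit 76) (nat_lit 4536898595) (nat_lit 65) (nat_lit 5) (nat_lit 68) (nat_lit 5) (nat_lit 66) (nat_lit 5) (nat_lit 634) (nat_lit 496) (nat_lit 430)) (XT.nd (nat_lit 78) (nat_lit 228) (nat_lit 0) (XT.lf (nat_lit 0) (nat_lit 9301490507) (nat_lit 228) (nat_lit 4325961123) (nat_lit 304) (nat_lit 601592290) (nat_lit 62) (nat_lit 5) (nat_lit 65) (nat_lit 5) (nat_lit 66) (nat_lit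 5) (nat_lit 635) (nat_lit 496) (nat_lit 429)) (XT.lf (nat_lit 0) (nat_lit 4345752036) (nat_lit 228) (nat_lit 9046807647) (nat_lit 76) (nat_lit 1005021779) (nat_lit 59) (nat_lit 5) (nat_lit 62) (nat_lit 5) (nat_lit 60) (nat_lit 5) (nat_lit 636) (nat_lit 496) (nat_lit 428)))) (XT.nd (nat_lit 78) (nat_lit 228) (nat_lit 0) (XT.lf (nat_lit 0) (nat_lit 1245083527) (nat_lit 228) (nat_lit 8169272612) (nat_lit 304) (nat_lit 5154447776) (nat_lit 56) (nat_lit 5) (nat_lit 59) (nat_lit 5) (nat_lit 60) (nat_lit 5) (nat_lit 637) (nat_lit 496) (nat_lit 427)) (XT.nd (nat_lit 78) (nat_lit 228) (nat_lit 0) (XT.lf (nat_lit 0) (nat_lit 11794884045) (nat_lit 228) (nat_lit 2810819158) (nat_lit 304) (nat_lit 137321234) (nat_lit 56) (nat_lit 5) (nat_lit 59) (nat_lit 5) (nat_lit 60) (nat_lit 5) (nat_lit 638) (nat_lit 496) (nat_lit 426)) (XT.lf (nat_lit 0) (nat_lit 4943146616) (nat_lit 228) (nat_lit 7304415988) (nat_lit 76) (nat_lit 2671954786) (nat_lit 53) (nat_lit 5) (nat_lit 56) (nat_lit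 5) (nat_lit 54) (nat_lit 5) (nat_lit 639) (nat_lit 496) (nat_lit 425))))) (XT.nd (nat_lit 234) (nat_lit 532) (nat_lit 0) (XT.nd (nat_lit 78) (nat_lit 228) (nat_lit 0) (XT.lf (nat_lit 0) (nat_lit 3284034956) (nat_lit 228) (nat_lit 6860492470) (nat_lit 304) (nat_lit 4954572753) (nat_lit 50) (nat_lit 5) (nat_lit 53) (nat_lit 5) (nat_lit 54) (nat_lit 5) (nat_lit 640) (nat_lit 496) (nat_lit 424)) (XT.nd (nat_lit 78) (nat_lit 152) (nat_lit 0) (XT.lf (nat_lit 0) (nat_lit 176146125) (nat_lit 304) (nat_lit 1169301637) (nat_lit 76) (nat_lit 13936592351) (nat_lit 49) (nat_lit 5) (nat_lit 53) (nat_lit 5) (nat_lit 50) (nat_lit 5) (nat_lit 641) (nat_lit 496) (nat_lit 423)) (XT.lf (nat_lit 0) (nat_lit 5396604141) (nat_lit 228) (nat_lit 5780210867) (nat_lit 76) (nat_lit 4290100435) (nat_lit 47) (nat_lit 5) (nat_lit 50) (nat_lit 5) (nat_lit 48) (nat_lit 5) (nat_lit 642) (nat_lit 496) (nat_lit 422)))) (XT.nd (nat_lit 156) (nat_lit 152) (nat_lit 0) (XT.nd (nat_lit 78) (nat_lit 228)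 (nat_lit 0) (XT.lf (nat_lit 0) (nat_lit 5109806470) (nat_lit 152) (nat_lit 5623854332) (nat_lit 228) (nat_lit 4921584588) (nat_lit 45) (nat_lit 5) (nat_lit 47) (nat_lit 5) (nat_lit 48) (nat_lit 5) (nat_lit 643) (nat_lit 496) (nat_lit 421)) (XT.lf (nat_lit 0) (nat_lit 329924711) (nat_lit 228) (nat_lit 15464183599) (nat_lit 76) (nat_lit 53108877) (nat_lit 42) (nat_lit 5) (nat_lit 45) (nat_lit 5) (nat_lit 43) (nat_lit 5) (nat_lit 644) (nat_lit 496) (nat_lit 420))) (XT.nd (nat_lit 78) (nat_lit 152) (nat_lit 0) (XT.lf (nat_lit 0) (nat_lit 5691455482) (nat_lit 228) (nat_lit 4507644209) (nat_lit 76) (nat_lit 5841861116) (nat_lit 42) (nat_lit 5) (nat_lit 45) (nat_lit 5) (nat_lit 43) (nat_lit 5) (nat_lit 645) (nat_lit 496) (nat_lit 419)) (XT.lf (nat_lit 0) (nat_lit 6688345946) (nat_lit 152) (nat_lit 4478385849) (nat_lit 228) (nat_lit 5071718042) (nat_lit 40) (nat_lit 5) (nat_lit 42) (nat_lit 5) (nat_lit 43) (nat_lit 5) (nat_lit 646) (nat_lit 496) (nat_lit 418)))))) (XT.nd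 (nat_lit 75114) (nat_lit 0) (nat_lit 21584) (XT.nd (nat_lit 234) (nat_lit 228) (nat_lit 0) (XT.nd (nat_lit 78) (nat_lit 152) (nat_lit 0) (XT.lf (nat_lit 0) (nat_lit 320943806) (nat_lit 228) (nat_lit 14766185860) (nat_lit 76) (nat_lit 1352451197) (nat_lit 37) (nat_lit 5) (nat_lit 40) (nat_lit 5) (nat_lit 38) (nat_lit 5) (nat_lit 647) (nat_lit 496) (nat_lit 417)) (XT.nd (nat_lit 78) (nat_lit 152) (nat_lit 0) (XT.lf (nat_lit 0) (nat_lit 5811006581) (nat_lit 228) (nat_lit 3523842104) (nat_lit 76) (nat_lit 7308066971) (nat_lit 37) (nat_lit 5) (nat_lit 40) (nat_lit 5) (nat_lit 38) (nat_lit 5) (nat_lit 648) (nat_lit 496) (nat_lit 416)) (XT.lf (nat_lit 0) (nat_lit 7981818542) (nat_lit 152) (nat_lit 3444822089) (nat_lit 228) (nat_lit 5423361882) (nat_lit 35) (nat_lit 5) (nat_lit 37) (nat_lit 5) (nat_lit 38) (nat_lit 5) (nat_lit 649) (nat_lit 496) (nat_lit 415)))) (XT.nd (nat_lit 74724) (nat_lit 0) (nat_lit 26220) (XT.nd (nat_lit 74646) (nat_lit 0) (nat_lit 27968) (XT.lf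 (nat_lit 0) (nat_lit 113997700) (nat_lit 228) (nat_lit 14405204248) (nat_lit 76) (nat_lit 2541580461) (nat_lit 32) (nat_lit 5) (nat_lit 35) (nat_lit 5) (nat_lit 33) (nat_lit 5) (nat_lit 650) (nat_lit 496) (nat_lit 414)) (XT.lf (nat_lit 0) (nat_lit 3575102198) (nat_lit 836) (nat_lit 77205625) (nat_lit 836) (nat_lit 77205625) (nat_lit 400) (nat_lit 4) (nat_lit 411) (nat_lit 5) (nat_lit 411) (nat_lit 4) (nat_lit 566) (nat_lit 497) (nat_lit 497))) (XT.nd (nat_lit 78) (nat_lit 836) (nat_lit 0) (XT.lf (nat_lit 0) (nat_lit 3526069269) (nat_lit 912) (nat_lit 1926480680) (nat_lit 0) (nat_lit 2051422239) (nat_lit 388) (nat_lit 5) (nat_lit 400) (nat_lit 4) (nat_lit 388) (nat_lit 4) (nat_lit 567) (nat_lit 497) (nat_lit 496)) (XT.lf (nat_lit 0) (nat_lit 4008294659) (nat_lit 836) (nat_lit 3231328585) (nat_lit 836) (nat_lit 310949173) (nat_lit 377) (nat_lit 4) (nat_lit 388) (nat_lit 5) (nat_lit 388) (nat_lit 4) (nat_lit 568) (nat_lit 497) (nat_lit 495))))) (XT.nd (nat_lit 234)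 (nat_lit 2964) (nat_lit 0) (XT.nd (nat_lit 78) (nat_lit 836) (nat_lit 0) (XT.lf (nat_lit 0) (nat_lit 2420887516) (nat_lit 760) (nat_lit 924979620) (nat_lit 836) (nat_lit 4252569002) (nat_lit 366) (nat_lit 5) (nat_lit 376) (nat_lit 5) (nat_lit 377) (nat_lit 4) (nat_lit 569) (nat_lit 497) (nat_lit 494)) (XT.nd (nat_lit 78) (nat_lit 76) (nat_lit 0) (XT.lf (nat_lit 0) (nat_lit 824592643) (nat_lit 760) (nat_lit 6219122343) (nat_lit 760) (nat_lit 604066527) (nat_lit 356) (nat_lit 4) (nat_lit 366) (nat_lit 5) (nat_lit 366) (nat_lit 4) (nat_lit 570) (nat_lit 497) (nat_lit 493)) (XT.lf (nat_lit 0) (nat_lit 3051476280) (nat_lit 836) (nat_lit 786706976) (nat_lit 76) (nat_lit 3860033027) (nat_lit 355) (nat_lit 5) (nat_lit 366) (nat_lit 5) (nat_lit 356) (nat_lit 4) (nat_lit 571) (nat_lit 497) (nat_lit 492)))) (XT.nd (nat_lit 156) (nat_lit 1444) (nat_lit 0) (XT.nd (nat_lit 78) (nat_lit 836) (nat_lit 0) (XT.lf (nat_lit 0) (nat_lit 5358694380) (nat_lit 684) (nat_lit 1383299583)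 (nat_lit 760) (nat_lit 1008193162) (nat_lit 346) (nat_lit 5) (nat_lit 355) (nat_lit 5) (nat_lit 356) (nat_lit 4) (nat_lit 572) (nat_lit 497) (nat_lit 491)) (XT.lf (nat_lit 0) (nat_lit 2640572741) (nat_lit 836) (nat_lit 4022810127) (nat_lit 76) (nat_lit 1140011537) (nat_lit 335) (nat_lit 5) (nat_lit 346) (nat_lit 5) (nat_lit 336) (nat_lit 4) (nat_lit 573) (nat_lit 497) (nat_lit 490))) (XT.nd (nat_lit 78) (nat_lit 760) (nat_lit 0) (XT.lf (nat_lit 0) (nat_lit 2184772559) (nat_lit 684) (nat_lit 4139711743) (nat_lit 760) (nat_lit 1533540764) (nat_lit 326) (nat_lit 5) (nat_lit 335) (nat_lit 5) (nat_lit 336) (nat_lit 4) (nat_lit 574) (nat_lit 497) (nat_lit 489)) (XT.lf (nat_lit 0) (nat_lit 571626855) (nat_lit 684) (nat_lit 1535621236) (nat_lit 760) (nat_lit 5806877167) (nat_lit 316) (nat_lit 5) (nat_lit 325) (nat_lit 5) (nat_lit 326) (nat_lit 5) (nat_lit 575) (nat_lit 497) (nat_lit 488))))))) (XT.nd (nat_lit 1014) (nat_lit 5168) (nat_lit 0) (XT.nd (nat_lit 468) (nat_lit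 3648) (nat_lit 0) (XT.nd (nat_lit 234) (nat_lit 1292) (nat_lit 0) (XT.nd (nat_lit 78) (nat_lit 1368) (nat_lit 0) (XT.lf (nat_lit 0) (nat_lit 5783039277) (nat_lit 760) (nat_lit 1050039109) (nat_lit 76) (nat_lit 1138417498) (nat_lit 316) (nat_lit 5) (nat_lit 326) (nat_lit 5) (nat_lit 317) (nat_lit 4) (nat_lit 576) (nat_lit 497) (nat_lit 487)) (XT.nd (nat_lit 78) (nat_lit 684) (nat_lit 0) (XT.lf (nat_lit 0) (nat_lit 1465753205) (nat_lit 684) (nat_lit 2690240776) (nat_lit 76) (nat_lit 3874167734) (nat_lit 307) (nat_lit 5) (nat_lit 316) (nat_lit 5) (nat_lit 308) (nat_lit 5) (nat_lit 577) (nat_lit 497) (nat_lit 486)) (XT.lf (nat_lit 0) (nat_lit 3737724848) (nat_lit 684) (nat_lit 1396037555) (nat_lit 760) (nat_lit 2956554029) (nat_lit 298) (nat_lit 5) (nat_lit 307) (nat_lit 5) (nat_lit 308) (nat_lit 5) (nat_lit 578) (nat_lit 497) (nat_lit 485)))) (XT.nd (nat_lit 78) (nat_lit 608) (nat_lit 0) (XT.lf (nat_lit 0) (nat_lit 694185923) (nat_lit 684) (nat_lit 6038181214) (nat_lit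 76) (nat_lit 1419613880) (nat_lit 289) (nat_lit 5) (nat_lit 298) (nat_lit 5) (nat_lit 290) (nat_lit 5) (nat_lit 579) (nat_lit 497) (nat_lit 484)) (XT.nd (nat_lit 78) (nat_lit 0) (nat_lit 0) (XT.lf (nat_lit 0) (nat_lit 451444346) (nat_lit 608) (nat_lit 3908010910) (nat_lit 684) (nat_lit 3855415676) (nat_lit 281) (nat_lit 5) (nat_lit 289) (nat_lit 5) (nat_lit 290) (nat_lit 5) (nat_lit 580) (nat_lit 497) (nat_lit 483)) (XT.lf (nat_lit 0) (nat_lit 7073553082) (nat_lit 608) (nat_lit 1005156695) (nat_lit 684) (nat_lit 200700126) (nat_lit 281) (nat_lit 5) (nat_lit 289) (nat_lit 5) (nat_lit 290) (nat_lit 5) (nat_lit 581) (nat_lit 497) (nat_lit 482))))) (XT.nd (nat_lit 234) (nat_lit 1748) (nat_lit 0) (XT.nd (nat_lit 78) (nat_lit 1216) (nat_lit 0) (XT.lf (nat_lit 0) (nat_lit 3470155286) (nat_lit 684) (nat_lit 2905131715) (nat_lit 76) (nat_lit 1969713230) (nat_lit 272) (nat_lit 5) (nat_lit 281) (nat_lit 5) (nat_lit 273) (nat_lit 5) (nat_lit 582) (nat_lit 497) (nat_lit 481))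 (XT.nd (nat_lit 78) (nat_lit 608) (nat_lit 0) (XT.lf (nat_lit 0) (nat_lit 3785799183) (nat_lit 608) (nat_lit 3406792356) (nat_lit 684) (nat_lit 1219671846) (nat_lit 264) (nat_lit 5) (nat_lit 272) (nat_lit 5) (nat_lit 273) (nat_lit 5) (nat_lit 583) (nat_lit 497) (nat_lit 480)) (XT.lf (nat_lit 0) (nat_lit 2101404190) (nat_lit 532) (nat_lit 349284793) (nat_lit 608) (nat_lit 6030361763) (nat_lit 256) (nat_lit 5) (nat_lit 263) (nat_lit 5) (nat_lit 264) (nat_lit 5) (nat_lit 584) (nat_lit 497) (nat_lit 479)))) (XT.nd (nat_lit 156) (nat_lit 1140) (nat_lit 0) (XT.nd (nat_lit 78) (nat_lit 76) (nat_lit 0) (XT.lf (nat_lit 0) (nat_lit 374917545) (nat_lit 532) (nat_lit 5797102684) (nat_lit 608) (nat_lit 2379158805) (nat_lit 249) (nat_lit 5) (nat_lit 256) (nat_lit 5) (nat_lit 257) (nat_lit 5) (nat_lit 585) (nat_lit 497) (nat_lit 478)) (XT.lf (nat_lit 0) (nat_lit 1315284094) (nat_lit 608) (nat_lit 1362063416) (nat_lit 76) (nat_lit 5945434724) (nat_lit 248) (nat_lit 5) (nat_lit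 256) (nat_lit 5) (nat_lit 249) (nat_lit 5) (nat_lit 586) (nat_lit 497) (nat_lit 477))) (XT.nd (nat_lit 78) (nat_lit 608) (nat_lit 0) (XT.lf (nat_lit 0) (nat_lit 5034991879) (nat_lit 608) (nat_lit 3132075256) (nat_lit 76) (nat_lit 528775244) (nat_lit 241) (nat_lit 5) (nat_lit 249) (nat_lit 5) (nat_lit 242) (nat_lit 5) (nat_lit 587) (nat_lit 497) (nat_lit 476)) (XT.lf (nat_lit 0) (nat_lit 53762325) (nat_lit 608) (nat_lit 4940793583) (nat_lit 76) (nat_lit 3775888046) (nat_lit 233) (nat_lit 5) (nat_lit 241) (nat_lit 5) (nat_lit 234) (nat_lit 5) (nat_lit 588) (nat_lit 497) (nat_lit 475)))))) (XT.nd (nat_lit 546) (nat_lit 2660) (nat_lit 0) (XT.nd (nat_lit 234) (nat_lit 1444) (nat_lit 0) (XT.nd (nat_lit 78) (nat_lit 608) (nat_lit 0) (XT.lf (nat_lit 0) (nat_lit 2050406238) (nat_lit 456) (nat_lit 1722011772) (nat_lit 532) (nat_lit 5074064026) (nat_lit 227) (nat_lit 5) (nat_lit 233) (nat_lit 5) (nat_lit 234) (nat_lit 5) (nat_lit 589) (nat_lit 497) (nat_lit 474)) (XT.nd (nat_lit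 78) (nat_lit 76) (nat_lit 0) (XT.lf (nat_lit 0) (nat_lit 237948570) (nat_lit 532) (nat_lit 7317595458) (nat_lit 608) (nat_lit 1368698660) (nat_lit 220) (nat_lit 5) (nat_lit 227) (nat_lit 5) (nat_lit 228) (nat_lit 5) (nat_lit 590) (nat_lit 497) (nat_lit 473)) (XT.lf (nat_lit 0) (nat_lit 2381358715) (nat_lit 608) (nat_lit 1604928481) (nat_lit 76) (nat_lit 5016917869) (nat_lit 219) (nat_lit 5) (nat_lit 227) (nat_lit 5) (nat_lit 220) (nat_lit 5) (nat_lit 591) (nat_lit 497) (nat_lit 472)))) (XT.nd (nat_lit 156) (nat_lit 456) (nat_lit 0) (XT.nd (nat_lit 78) (nat_lit 532) (nat_lit 0) (XT.lf (nat_lit 0) (nat_lit 5604365603) (nat_lit 456) (nat_lit 566100834) (nat_lit 532) (nat_lit 2913455326) (nat_lit 213) (nat_lit 5) (nat_lit 219) (nat_lit 5) (nat_lit 220) (nat_lit 5) (nat_lit 592) (nat_lit 497) (nat_lit 471)) (XT.lf (nat_lit 0) (nat_lit 858339334) (nat_lit 532) (nat_lit 5406528796) (nat_lit 76) (nat_lit 2901262522) (nat_lit 206) (nat_lit 5) (nat_lit 213) (nat_lit 5) (nat_lit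 207) (nat_lit 5) (nat_lit 593) (nat_lit 497) (nat_lit 470))) (XT.nd (nat_lit 78) (nat_lit 0) (nat_lit 0) (XT.lf (nat_lit 0) (nat_lit 1863701554) (nat_lit 456) (nat_lit 2788807688) (nat_lit 532) (nat_lit 4597373641) (nat_lit 200) (nat_lit 5) (nat_lit 206) (nat_lit 5) (nat_lit 207) (nat_lit 5) (nat_lit 594) (nat_lit 497) (nat_lit 469)) (XT.lf (nat_lit 0) (nat_lit 8510932930) (nat_lit 532) (nat_lit 66229522) (nat_lit 76) (nat_lit 758383565) (nat_lit 200) (nat_lit 5) (nat_lit 207) (nat_lit 5) (nat_lit 201) (nat_lit 5) (nat_lit 595) (nat_lit 497) (nat_lit 468))))) (XT.nd (nat_lit 234) (nat_lit 1216) (nat_lit 0) (XT.nd (nat_lit 78) (nat_lit 912) (nat_lit 0) (XT.lf (nat_lit 0) (nat_lit 2998539033) (nat_lit 532) (nat_lit 2041206376) (nat_lit 76) (nat_lit 4382495692) (nat_lit 193) (nat_lit 5) (nat_lit 200) (nat_lit 5) (nat_lit 194) (nat_lit 5) (nat_lit 596) (nat_lit 497) (nat_lit 467)) (XT.nd (nat_lit 78) (nat_lit 532) (nat_lit 0) (XT.lf (nat_lit 0) (nat_lit 5455825778)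 (nat_lit 380) (nat_lit 1415319446) (nat_lit 456) (nat_lit 2639738275) (nat_lit 188) (nat_lit 5) (nat_lit 193) (nat_lit 5) (nat_lit 194) (nat_lit 5) (nat_lit 597) (nat_lit 497) (nat_lit 466)) (XT.lf (nat_lit 0) (nat_lit 1203609772) (nat_lit 532) (nat_lit 6127114259) (nat_lit 76) (nat_lit 2270425181) (nat_lit 181) (nat_lit 5) (nat_lit 188) (nat_lit 5) (nat_lit 182) (nat_lit 5) (nat_lit 598) (nat_lit 497) (nat_lit 465)))) (XT.nd (nat_lit 156) (nat_lit 836) (nat_lit 0) (XT.nd (nat_lit 78) (nat_lit 0) (nat_lit 0) (XT.lf (nat_lit 0) (nat_lit 1429446823) (nat_lit 380) (nat_lit 3653775118) (nat_lit 456) (nat_lit 4609757359) (nat_lit 176) (nat_lit 5) (nat_lit 181) (nat_lit 5) (nat_lit 182) (nat_lit 5) (nat_lit 599) (nat_lit 497) (nat_lit 464)) (XT.lf (nat_lit 0) (nat_lit 9031434269) (nat_lit 456) (nat_lit 645126529) (nat_lit 76) (nat_lit 110267879) (nat_lit 176) (nat_lit 5) (nat_lit 182) (nat_lit 5) (nat_lit 177) (nat_lit 5) (nat_lit 600) (nat_lit 497) (nat_lit 463))) (XT.nd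 (nat_lit 78) (nat_lit 380) (nat_lit 0) (XT.lf (nat_lit 0) (nat_lit 3154935630) (nat_lit 456) (nat_lit 2785160394) (nat_lit 76) (nat_lit 3941638643) (nat_lit 170) (nat_lit 5) (nat_lit 176) (nat_lit 5) (nat_lit 171) (nat_lit 5) (nat_lit 601) (nat_lit 497) (nat_lit 462)) (XT.lf (nat_lit 0) (nat_lit 5006822247) (nat_lit 380) (nat_lit 2113554743) (nat_lit 456) (nat_lit 2858324214) (nat_lit 165) (nat_lit 5) (nat_lit 170) (nat_lit 5) (nat_lit 171) (nat_lit 5) (nat_lit 602) (nat_lit 497) (nat_lit 461))))))))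
noncomputable def xc34 : XT := (XT.nd (nat_lit 2106) (nat_lit 3268) (nat_lit 0) (XT.nd (nat_lit 1014) (nat_lit 2888) (nat_lit 0) (XT.nd (nat_lit 468) (nat_lit 1672) (nat_lit 0) (XT.nd (nat_lit 234) (nat_lit 1216) (nat_lit 0) (XT.nd (nat_lit 78) (nat_lit 380) (nat_lit 0) (XT.lf (nat_lit 0) (nat_lit 1072721525) (nat_lit 456) (nat_lit 7221218871) (nat_lit 76) (nat_lit 1783538745) (nat_lit 159) (nat_lit 5) (nat_lit 165) (nat_lit 5) (nat_lit 160) (nat_lit 5) (nat_lit 603) (nat_lit 497) (nat_lit 460)) (XT.nd (nat_lit 78) (nat_lit 0) (nat_lit 0) (XT.lf (nat_lit 0) (nat_lit 628216440) (nat_lit 380) (nat_lit 4418186009) (nat_lit 456) (nat_lit 5131409100) (nat_lit 154) (nat_lit 5) (nat_lit 159) (nat_lit 5) (nat_lit 160) (nat_lit 5) (nat_lit 604) (nat_lit 497) (nat_lit 459)) (XT.lf (nat_lit 0) (nat_lit 8655369468) (nat_lit 380) (nat_lit 443704285) (nat_lit 456) (nat_lit 1181088990) (nat_lit 154) (nat_lit 5) (nat_lit 159) (nat_lit 5) (nat_lit 160) (nat_lit 5) (nat_lit 605)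 (nat_lit 497) (nat_lit 458)))) (XT.nd (nat_lit 78) (nat_lit 760) (nat_lit 0) (XT.lf (nat_lit 0) (nat_lit 2828105318) (nat_lit 456) (nat_lit 3959685907) (nat_lit 76) (nat_lit 3596057805) (nat_lit 148) (nat_lit 5) (nat_lit 154) (nat_lit 5) (nat_lit 149) (nat_lit 5) (nat_lit 606) (nat_lit 497) (nat_lit 457)) (XT.nd (nat_lit 78) (nat_lit 456) (nat_lit 0) (XT.lf (nat_lit 0) (nat_lit 4133548068) (nat_lit 304) (nat_lit 2760858755) (nat_lit 380) (nat_lit 3595193653) (nat_lit 144) (nat_lit 5) (nat_lit 148) (nat_lit 5) (nat_lit 149) (nat_lit 5) (nat_lit 607) (nat_lit 497) (nat_lit 456)) (XT.lf (nat_lit 0) (nat_lit 438031851) (nat_lit 456) (nat_lit 8817342792) (nat_lit 76) (nat_lit 1342050920) (nat_lit 138) (nat_lit 5) (nat_lit 144) (nat_lit 5) (nat_lit 139) (nat_lit 5) (nat_lit 608) (nat_lit 497) (nat_lit 455))))) (XT.nd (nat_lit 234) (nat_lit 988) (nat_lit 0) (XT.nd (nat_lit 78) (nat_lit 684) (nat_lit 0) (XT.lf (nat_lit 0) (nat_lit 4517406088) (nat_lit 456) (nat_lit 660790044)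 (nat_lit 76) (nat_lit 5528465457) (nat_lit 138) (nat_lit 5) (nat_lit 144) (nat_lit 5) (nat_lit 139) (nat_lit 5) (nat_lit 609) (nat_lit 497) (nat_lit 454)) (XT.nd (nat_lit 78) (nat_lit 380) (nat_lit 0) (XT.lf (nat_lit 0) (nat_lit 7684223703) (nat_lit 304) (nat_lit 997329406) (nat_lit 380) (nat_lit 2136467676) (nat_lit 134) (nat_lit 5) (nat_lit 138) (nat_lit 5) (nat_lit 139) (nat_lit 5) (nat_lit 610) (nat_lit 497) (nat_lit 453)) (XT.lf (nat_lit 0) (nat_lit 1984535929) (nat_lit 380) (nat_lit 5698965796) (nat_lit 76) (nat_lit 3247581025) (nat_lit 129) (nat_lit 5) (nat_lit 134) (nat_lit 5) (nat_lit 130) (nat_lit 5) (nat_lit 611) (nat_lit 497) (nat_lit 452)))) (XT.nd (nat_lit 156) (nat_lit 380) (nat_lit 0) (XT.nd (nat_lit 78) (nat_lit 304) (nat_lit 0) (XT.lf (nat_lit 0) (nat_lit 2700553636) (nat_lit 304) (nat_lit 3457785765) (nat_lit 380) (nat_lit 4887806404) (nat_lit 125) (nat_lit 5) (nat_lit 129) (nat_lit 5) (nat_lit 130) (nat_lit 5) (nat_lit 612) (nat_lit 497) (nat_lit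 451)) (XT.lf (nat_lit 0) (nat_lit 102073990) (nat_lit 304) (nat_lit 10312120638) (nat_lit 380) (nat_lit 749345971) (nat_lit 121) (nat_lit 5) (nat_lit 125) (nat_lit 5) (nat_lit 126) (nat_lit 5) (nat_lit 613) (nat_lit 497) (nat_lit 450))) (XT.nd (nat_lit 78) (nat_lit 304) (nat_lit 0) (XT.lf (nat_lit 0) (nat_lit 3459613903) (nat_lit 380) (nat_lit 2572313998) (nat_lit 76) (nat_lit 5250241172) (nat_lit 120) (nat_lit 5) (nat_lit 125) (nat_lit 5) (nat_lit 121) (nat_lit 5) (nat_lit 614) (nat_lit 497) (nat_lit 449)) (XT.lf (nat_lit 0) (nat_lit 6086823151) (nat_lit 304) (nat_lit 1650318458) (nat_lit 380) (nat_lit 3666042875) (nat_lit 116) (nat_lit 5) (nat_lit 120) (nat_lit 5) (nat_lit 121) (nat_lit 5) (nat_lit 615) (nat_lit 497) (nat_lit 448)))))) (XT.nd (nat_lit 546) (nat_lit 1292) (nat_lit 0) (XT.nd (nat_lit 234) (nat_lit 988) (nat_lit 0) (XT.nd (nat_lit 78) (nat_lit 228) (nat_lit 0) (XT.lf (nat_lit 0) (nat_lit 578879366) (nat_lit 380) (nat_lit 8151422352) (nat_lit 76)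 (nat_lit 2795989754) (nat_lit 111) (nat_lit 5) (nat_lit 116) (nat_lit 5) (nat_lit 112) (nat_lit 5) (nat_lit 616) (nat_lit 497) (nat_lit 447)) (XT.nd (nat_lit 78) (nat_lit 0) (nat_lit 0) (XT.lf (nat_lit 0) (nat_lit 557729012) (nat_lit 228) (nat_lit 4307596544) (nat_lit 304) (nat_lit 6785937883) (nat_lit 108) (nat_lit 5) (nat_lit 111) (nat_lit 5) (nat_lit 112) (nat_lit 5) (nat_lit 617) (nat_lit 497) (nat_lit 446)) (XT.lf (nat_lit 0) (nat_lit 9249289915) (nat_lit 304) (nat_lit 2302951249) (nat_lit 76) (nat_lit 226259631) (nat_lit 108) (nat_lit 5) (nat_lit 112) (nat_lit 5) (nat_lit 109) (nat_lit 5) (nat_lit 618) (nat_lit 497) (nat_lit 445)))) (XT.nd (nat_lit 156) (nat_lit 380) (nat_lit 0) (XT.nd (nat_lit 78) (nat_lit 228) (nat_lit 0) (XT.lf (nat_lit 0) (nat_lit 1817033353) (nat_lit 380) (nat_lit 5271278242) (nat_lit 76) (nat_lit 4819174473) (nat_lit 103) (nat_lit 5) (nat_lit 108) (nat_lit 5) (nat_lit 104) (nat_lit 5) (nat_lit 619) (nat_lit 497) (nat_lit 444)) (XT.lf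 (nat_lit 0) (nat_lit 3704552165) (nat_lit 228) (nat_lit 2507797185) (nat_lit 304) (nat_lit 5826448708) (nat_lit 100) (nat_lit 5) (nat_lit 103) (nat_lit 5) (nat_lit 104) (nat_lit 5) (nat_lit 620) (nat_lit 497) (nat_lit 443))) (XT.nd (nat_lit 78) (nat_lit 76) (nat_lit 0) (XT.lf (nat_lit 0) (nat_lit 679962661) (nat_lit 304) (nat_lit 10026240054) (nat_lit 380) (nat_lit 1466322553) (nat_lit 96) (nat_lit 5) (nat_lit 100) (nat_lit 5) (nat_lit 101) (nat_lit 5) (nat_lit 621) (nat_lit 497) (nat_lit 442)) (XT.lf (nat_lit 0) (nat_lit 2971459703) (nat_lit 380) (nat_lit 2430796669) (nat_lit 76) (nat_lit 6905694097) (nat_lit 95) (nat_lit 5) (nat_lit 100) (nat_lit 5) (nat_lit 96) (nat_lit 5) (nat_lit 622) (nat_lit 497) (nat_lit 441))))) (XT.nd (nat_lit 234) (nat_lit 532) (nat_lit 0) (XT.nd (nat_lit 78) (nat_lit 532) (nat_lit 0) (XT.lf (nat_lit 0) (nat_lit 6819299299) (nat_lit 228) (nat_lit 660852648) (nat_lit 304) (nat_lit 4965704118) (nat_lit 92) (nat_lit 5) (nat_lit 95) (nat_lit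 5) (nat_lit 96) (nat_lit 5) (nat_lit 623) (nat_lit 497) (nat_lit 440)) (XT.nd (nat_lit 78) (nat_lit 304) (nat_lit 0) (XT.lf (nat_lit 0) (nat_lit 3648991084) (nat_lit 228) (nat_lit 8454912651) (nat_lit 304) (nat_lit 482119806) (nat_lit 89) (nat_lit 5) (nat_lit 92) (nat_lit 5) (nat_lit 93) (nat_lit 5) (nat_lit 624) (nat_lit 497) (nat_lit 439)) (XT.lf (nat_lit 0) (nat_lit 358709274) (nat_lit 228) (nat_lit 3681229488) (nat_lit 304) (nat_lit 8688476608) (nat_lit 85) (nat_lit 5) (nat_lit 88) (nat_lit 5) (nat_lit 89) (nat_lit 5) (nat_lit 625) (nat_lit 497) (nat_lit 438)))) (XT.nd (nat_lit 156) (nat_lit 228) (nat_lit 0) (XT.nd (nat_lit 78) (nat_lit 304) (nat_lit 0) (XT.lf (nat_lit 0) (nat_lit 8671977289) (nat_lit 304) (nat_lit 2995296907) (nat_lit 76) (nat_lit 1205798609) (nat_lit 85) (nat_lit 5) (nat_lit 89) (nat_lit 5) (nat_lit 86) (nat_lit 5) (nat_lit 626) (nat_lit 497) (nat_lit 437)) (XT.lf (nat_lit 0) (nat_lit 396950484) (nat_lit 304) (nat_lit 6466126104) (nat_lit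 76) (nat_lit 6156982332) (nat_lit 81) (nat_lit 5) (nat_lit 85) (nat_lit 5) (nat_lit 82) (nat_lit 5) (nat_lit 627) (nat_lit 497) (nat_lit 436))) (XT.nd (nat_lit 78) (nat_lit 0) (nat_lit 0) (XT.lf (nat_lit 0) (nat_lit 3106257160) (nat_lit 228) (nat_lit 1923707650) (nat_lit 304) (nat_lit 8139480674) (nat_lit 78) (nat_lit 5) (nat_lit 81) (nat_lit 5) (nat_lit 82) (nat_lit 5) (nat_lit 628) (nat_lit 497) (nat_lit 435)) (XT.lf (nat_lit 0) (nat_lit 9778493529) (nat_lit 304) (nat_lit 455565071) (nat_lit 76) (nat_lit 3087305387) (nat_lit 78) (nat_lit 5) (nat_lit 82) (nat_lit 5) (nat_lit 79) (nat_lit 5) (nat_lit 629) (nat_lit 497) (nat_lit 434))))))) (XT.nd (nat_lit 1014) (nat_lit 912) (nat_lit 0) (XT.nd (nat_lit 468) (nat_lit 1140) (nat_lit 0) (XT.nd (nat_lit 234) (nat_lit 456) (nat_lit 0) (XT.nd (nat_lit 78) (nat_lit 456) (nat_lit 0) (XT.lf (nat_lit 0) (nat_lit 1164293434) (nat_lit 304) (nat_lit 4099202377) (nat_lit 76) (nat_lit 8212004573) (nat_lit 74) (nat_lit 5) (nat_lit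 78) (nat_lit 5) (nat_lit 75) (nat_lit 5) (nat_lit 630) (nat_lit 497) (nat_lit 433)) (XT.nd (nat_lit 78) (nat_lit 228) (nat_lit 0) (XT.lf (nat_lit 0) (nat_lit 5759868203) (nat_lit 228) (nat_lit 158640541) (nat_lit 304) (nat_lit 7713736669) (nat_lit 71) (nat_lit 5) (nat_lit 74) (nat_lit 5) (nat_lit 75) (nat_lit 5) (nat_lit 631) (nat_lit 497) (nat_lit 432)) (XT.lf (nat_lit 0) (nat_lit 2002774536) (nat_lit 228) (nat_lit 8798469563) (nat_lit 304) (nat_lit 2990213718) (nat_lit 68) (nat_lit 5) (nat_lit 71) (nat_lit 5) (nat_lit 72) (nat_lit 5) (nat_lit 632) (nat_lit 497) (nat_lit 431)))) (XT.nd (nat_lit 78) (nat_lit 380) (nat_lit 0) (XT.lf (nat_lit 0) (nat_lit 1818066953) (nat_lit 304) (nat_lit 1854635443) (nat_lit 76) (nat_lit 10280630694) (nat_lit 67) (nat_lit 5) (nat_lit 71) (nat_lit 5) (nat_lit 68) (nat_lit 5) (nat_lit 633) (nat_lit 497) (nat_lit 430)) (XT.nd (nat_lit 78) (nat_lit 228) (nat_lit 0) (XT.lf (nat_lit 0) (nat_lit 6707592971) (nat_lit 228) (nat_lit 5830356487)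 (nat_lit 76) (nat_lit 1579599854) (nat_lit 65) (nat_lit 5) (nat_lit 68) (nat_lit 5) (nat_lit 66) (nat_lit 5) (nat_lit 634) (nat_lit 497) (nat_lit 429)) (XT.lf (nat_lit 0) (nat_lit 4335196332) (nat_lit 228) (nat_lit 7385651462) (nat_lit 304) (nat_lit 2563684398) (nat_lit 62) (nat_lit 5) (nat_lit 65) (nat_lit 5) (nat_lit 66) (nat_lit 5) (nat_lit 635) (nat_lit 497) (nat_lit 428))))) (XT.nd (nat_lit 234) (nat_lit 684) (nat_lit 0) (XT.nd (nat_lit 78) (nat_lit 228) (nat_lit 0) (XT.lf (nat_lit 0) (nat_lit 247036653) (nat_lit 152) (nat_lit 2103257437) (nat_lit 228) (nat_lit 12104212931) (nat_lit 59) (nat_lit 5) (nat_lit 61) (nat_lit 5) (nat_lit 62) (nat_lit 5) (nat_lit 636) (nat_lit 497) (nat_lit 427)) (XT.nd (nat_lit 78) (nat_lit 228) (nat_lit 0) (XT.lf (nat_lit 0) (nat_lit 7377911100) (nat_lit 228) (nat_lit 3952725682) (nat_lit 76) (nat_lit 3295912949) (nat_lit 59) (nat_lit 5) (nat_lit 62) (nat_lit 5) (nat_lit 60) (nat_lit 5) (nat_lit 637) (nat_lit 497) (nat_lit 426))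 (XT.lf (nat_lit 0) (nat_lit 6510299249) (nat_lit 228) (nat_lit 6013861748) (nat_lit 304) (nat_lit 2277511701) (nat_lit 56) (nat_lit 5) (nat_lit 59) (nat_lit 5) (nat_lit 60) (nat_lit 5) (nat_lit 638) (nat_lit 497) (nat_lit 425)))) (XT.nd (nat_lit 156) (nat_lit 456) (nat_lit 0) (XT.nd (nat_lit 78) (nat_lit 0) (nat_lit 0) (XT.lf (nat_lit 0) (nat_lit 2198595150) (nat_lit 152) (nat_lit 560724888) (nat_lit 228) (nat_lit 12220558109) (nat_lit 53) (nat_lit 5) (nat_lit 55) (nat_lit 5) (nat_lit 56) (nat_lit 5) (nat_lit 639) (nat_lit 497) (nat_lit 424)) (XT.lf (nat_lit 0) (nat_lit 7916950112) (nat_lit 228) (nat_lit 2266142453) (nat_lit 76) (nat_lit 4977243859) (nat_lit 53) (nat_lit 5) (nat_lit 56) (nat_lit 5) (nat_lit 54) (nat_lit 5) (nat_lit 640) (nat_lit 497) (nat_lit 423))) (XT.nd (nat_lit 78) (nat_lit 228) (nat_lit 0) (XT.lf (nat_lit 0) (nat_lit 8499969867) (nat_lit 228) (nat_lit 4699456154) (nat_lit 304) (nat_lit 2144544919) (nat_lit 50) (nat_lit 5) (nat_lit 53) (nat_lit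 5) (nat_lit 54) (nat_lit 5) (nat_lit 641) (nat_lit 497) (nat_lit 422)) (XT.lf (nat_lit 0) (nat_lit 3025971251) (nat_lit 228) (nat_lit 11591013035) (nat_lit 76) (nat_lit 913702264) (nat_lit 47) (nat_lit 5) (nat_lit 50) (nat_lit 5) (nat_lit 48) (nat_lit 5) (nat_lit 642) (nat_lit 497) (nat_lit 421)))))) (XT.nd (nat_lit 546) (nat_lit 0) (nat_lit 0) (XT.nd (nat_lit 234) (nat_lit 532) (nat_lit 0) (XT.nd (nat_lit 78) (nat_lit 380) (nat_lit 0) (XT.lf (nat_lit 0) (nat_lit 8311507839) (nat_lit 228) (nat_lit 801304828) (nat_lit 76) (nat_lit 6607234671) (nat_lit 47) (nat_lit 5) (nat_lit 50) (nat_lit 5) (nat_lit 48) (nat_lit 5) (nat_lit 643) (nat_lit 497) (nat_lit 420)) (XT.nd (nat_lit 78) (nat_lit 228) (nat_lit 0) (XT.lf (nat_lit 0) (nat_lit 10272996342) (nat_lit 152) (nat_lit 3460129961) (nat_lit 228) (nat_lit 2179462482) (nat_lit 45) (nat_lit 5) (nat_lit 47) (nat_lit 5) (nat_lit 48) (nat_lit 5) (nat_lit 644) (nat_lit 497) (nat_lit 419)) (XT.lf (nat_lit 0) (nat_lit 3132566176)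 (nat_lit 228) (nat_lit 10667835203) (nat_lit 76) (nat_lit 2307776173) (nat_lit 42) (nat_lit 5) (nat_lit 45) (nat_lit 5) (nat_lit 43) (nat_lit 5) (nat_lit 645) (nat_lit 497) (nat_lit 418)))) (XT.nd (nat_lit 156) (nat_lit 380) (nat_lit 0) (XT.nd (nat_lit 78) (nat_lit 0) (nat_lit 0) (XT.lf (nat_lit 0) (nat_lit 413142985) (nat_lit 152) (nat_lit 8136042603) (nat_lit 228) (nat_lit 7757654534) (nat_lit 40) (nat_lit 5) (nat_lit 42) (nat_lit 5) (nat_lit 43) (nat_lit 5) (nat_lit 646) (nat_lit 497) (nat_lit 417)) (XT.lf (nat_lit 0) (nat_lit 11794703436) (nat_lit 152) (nat_lit 2315117565) (nat_lit 228) (nat_lit 2398942073) (nat_lit 40) (nat_lit 5) (nat_lit 42) (nat_lit 5) (nat_lit 43) (nat_lit 5) (nat_lit 647) (nat_lit 497) (nat_lit 416))) (XT.nd (nat_lit 78) (nat_lit 152) (nat_lit 0) (XT.lf (nat_lit 0) (nat_lit 3058484903) (nat_lit 228) (nat_lit 10045713108) (nat_lit 76) (nat_lit 3609493714) (nat_lit 37) (nat_lit 5) (nat_lit 40) (nat_lit 5) (nat_lit 38) (nat_lit 5) (nat_lit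 648) (nat_lit 497) (nat_lit 415)) (XT.lf (nat_lit 0) (nat_lit 1340712255) (nat_lit 152) (nat_lit 7272790055) (nat_lit 228) (nat_lit 8308488979) (nat_lit 35) (nat_lit 5) (nat_lit 37) (nat_lit 5) (nat_lit 38) (nat_lit 5) (nat_lit 649) (nat_lit 497) (nat_lit 414))))) (XT.nd (nat_lit 74646) (nat_lit 0) (nat_lit 25156) (XT.nd (nat_lit 74490) (nat_lit 0) (nat_lit 27740) (XT.lf (nat_lit 0) (nat_lit 13026550804) (nat_lit 152) (nat_lit 1285409339) (nat_lit 228) (nat_lit 2821850640) (nat_lit 35) (nat_lit 5) (nat_lit 37) (nat_lit 5) (nat_lit 38) (nat_lit 5) (nat_lit 650) (nat_lit 497) (nat_lit 413)) (XT.nd (nat_lit 78) (nat_lit 836) (nat_lit 0) (XT.lf (nat_lit 0) (nat_lit 736731201) (nat_lit 912) (nat_lit 2212381132) (nat_lit 0) (nat_lit 736731201) (nat_lit 411) (nat_lit 5) (nat_lit 423) (nat_lit 4) (nat_lit 411) (nat_lit 4) (nat_lit 564) (nat_lit 498) (nat_lit 498)) (XT.lf (nat_lit 0) (nat_lit 1294838527) (nat_lit 836) (nat_lit 3827130695) (nat_lit 836) (nat_lit 2292907925)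 (nat_lit 400) (nat_lit 4) (nat_lit 411) (nat_lit 5) (nat_lit 411) (nat_lit 4) (nat_lit 565) (nat_lit 498) (nat_lit 497)))) (XT.nd (nat_lit 156) (nat_lit 1672) (nat_lit 0) (XT.nd (nat_lit 78) (nat_lit 836) (nat_lit 0) (XT.lf (nat_lit 0) (nat_lit 1327861056) (nat_lit 912) (nat_lit 356083406) (nat_lit 76) (nat_lit 5775583913) (nat_lit 399) (nat_lit 5) (nat_lit 411) (nat_lit 5) (nat_lit 400) (nat_lit 4) (nat_lit 566) (nat_lit 498) (nat_lit 496)) (XT.lf (nat_lit 0) (nat_lit 4962605534) (nat_lit 912) (nat_lit 2004639650) (nat_lit 0) (nat_lit 538086151) (nat_lit 388) (nat_lit 5) (nat_lit 400) (nat_lit 4) (nat_lit 388) (nat_lit 4) (nat_lit 567) (nat_lit 498) (nat_lit 495))) (XT.nd (nat_lit 78) (nat_lit 760) (nat_lit 0) (XT.lf (nat_lit 0) (nat_lit 1075683025) (nat_lit 912) (nat_lit 3669024359) (nat_lit 76) (nat_lit 2807757570) (nat_lit 376) (nat_lit 5) (nat_lit 388) (nat_lit 5) (nat_lit 377) (nat_lit 4) (nat_lit 568) (nat_lit 498) (nat_lit 494)) (XT.lf (nat_lit 0) (nat_lit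 2251782935) (nat_lit 760) (nat_lit 2442910053) (nat_lit 836) (nat_lit 2906273172) (nat_lit 366) (nat_lit 5) (nat_lit 376) (nat_lit 5) (nat_lit 377) (nat_lit 4) (nat_lit 569) (nat_lit 498) (nat_lit 493))))))))
noncomputable def xc35 : XT := (XT.nd (nat_lit 2106) (nat_lit 7676) (nat_lit 0) (XT.nd (nat_lit 1014) (nat_lit 6004) (nat_lit 0) (XT.nd (nat_lit 468) (nat_lit 3344) (nat_lit 0) (XT.nd (nat_lit 234) (nat_lit 2204) (nat_lit 0) (XT.nd (nat_lit 78) (nat_lit 760) (nat_lit 0) (XT.lf (nat_lit 0) (nat_lit 616567109) (nat_lit 760) (nat_lit 72662760) (nat_lit 836) (nat_lit 6961853755) (nat_lit 355) (nat_lit 5) (nat_lit 365) (nat_lit 5) (nat_lit 366) (nat_lit 5) (nat_lit 570) (nat_lit 498) (nat_lit 492)) (XT.nd (nat_lit 78) (nat_lit 760) (nat_lit 0) (XT.lf (nat_lit 0) (nat_lit 4304275843) (nat_lit 836) (nat_lit 1040143251) (nat_lit 76) (nat_lit 2357675459) (nat_lit 355) (nat_lit 5) (nat_lit 366) (nat_lit 5) (nat_lit 356) (nat_lit 4) (nat_lit 571) (nat_lit 498) (nat_lit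 491)) (XT.lf (nat_lit 0) (nat_lit 203956961) (nat_lit 760) (nat_lit 2692592062) (nat_lit 76) (nat_lit 4858160378) (nat_lit 345) (nat_lit 5) (nat_lit 355) (nat_lit 5) (nat_lit 346) (nat_lit 5) (nat_lit 572) (nat_lit 498) (nat_lit 490)))) (XT.nd (nat_lit 78) (nat_lit 1444) (nat_lit 0) (XT.lf (nat_lit 0) (nat_lit 3437924741) (nat_lit 760) (nat_lit 360491567) (nat_lit 836) (nat_lit 4010194066) (nat_lit 335) (nat_lit 5) (nat_lit 345) (nat_lit 5) (nat_lit 346) (nat_lit 5) (nat_lit 573) (nat_lit 498) (nat_lit 489)) (XT.nd (nat_lit 78) (nat_lit 760) (nat_lit 0) (XT.lf (nat_lit 0) (nat_lit 1795738716) (nat_lit 684) (nat_lit 5650737033) (nat_lit 760) (nat_lit 417485200) (nat_lit 326) (nat_lit 5) (nat_lit 335) (nat_lit 5) (nat_lit 336) (nat_lit 4) (nat_lit 574) (nat_lit 498) (nat_lit 488)) (XT.lf (nat_lit 0) (nat_lit 124996800) (nat_lit 684) (nat_lit 3049938371) (nat_lit 760) (nat_lit 4745658432) (nat_lit 316) (nat_lit 5) (nat_lit 325) (nat_lit 5) (nat_lit 326) (nat_lit 5)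 (nat_lit 575) (nat_lit 498) (nat_lit 487))))) (XT.nd (nat_lit 234) (nat_lit 1976) (nat_lit 0) (XT.nd (nat_lit 78) (nat_lit 1368) (nat_lit 0) (XT.lf (nat_lit 0) (nat_lit 6444163239) (nat_lit 684) (nat_lit 368597981) (nat_lit 760) (nat_lit 1165965017) (nat_lit 316) (nat_lit 5) (nat_lit 325) (nat_lit 5) (nat_lit 326) (nat_lit 5) (nat_lit 576) (nat_lit 498) (nat_lit 486)) (XT.nd (nat_lit 78) (nat_lit 684) (nat_lit 0) (XT.lf (nat_lit 0) (nat_lit 2438851725) (nat_lit 684) (nat_lit 3231737161) (nat_lit 76) (nat_lit 2367392668) (nat_lit 307) (nat_lit 5) (nat_lit 316) (nat_lit 5) (nat_lit 308) (nat_lit 5) (nat_lit 577) (nat_lit 498) (nat_lit 485)) (XT.lf (nat_lit 0) (nat_lit 3150274016) (nat_lit 684) (nat_lit 2922987532) (nat_lit 760) (nat_lit 2025549260) (nat_lit 298) (nat_lit 5) (nat_lit 307) (nat_lit 5) (nat_lit 308) (nat_lit 5) (nat_lit 578) (nat_lit 498) (nat_lit 484)))) (XT.nd (nat_lit 156) (nat_lit 1292) (nat_lit 0) (XT.nd (nat_lit 78) (nat_lit 0) (nat_lit 0) (XT.lf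 (nat_lit 0) (nat_lit 1474431173) (nat_lit 608) (nat_lit 95351174) (nat_lit 684) (nat_lit 6591438565) (nat_lit 289) (nat_lit 5) (nat_lit 297) (nat_lit 5) (nat_lit 298) (nat_lit 5) (nat_lit 579) (nat_lit 498) (nat_lit 483)) (XT.lf (nat_lit 0) (nat_lit 5202132401) (nat_lit 684) (nat_lit 241139282) (nat_lit 76) (nat_lit 2781499933) (nat_lit 289) (nat_lit 5) (nat_lit 298) (nat_lit 5) (nat_lit 290) (nat_lit 5) (nat_lit 580) (nat_lit 498) (nat_lit 482))) (XT.nd (nat_lit 78) (nat_lit 608) (nat_lit 0) (XT.lf (nat_lit 0) (nat_lit 592952232) (nat_lit 684) (nat_lit 1954480672) (nat_lit 76) (nat_lit 5742414603) (nat_lit 280) (nat_lit 5) (nat_lit 289) (nat_lit 5) (nat_lit 281) (nat_lit 5) (nat_lit 581) (nat_lit 498) (nat_lit 481)) (XT.lf (nat_lit 0) (nat_lit 4217227185) (nat_lit 684) (nat_lit 3704569946) (nat_lit 76) (nat_lit 434495871) (nat_lit 272) (nat_lit 5) (nat_lit 281) (nat_lit 5) (nat_lit 273) (nat_lit 5) (nat_lit 582) (nat_lit 498) (nat_lit 480)))))) (XT.nd (nat_lit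 546) (nat_lit 2584) (nat_lit 0) (XT.nd (nat_lit 234) (nat_lit 2204) (nat_lit 0) (XT.nd (nat_lit 78) (nat_lit 608) (nat_lit 0) (XT.lf (nat_lit 0) (nat_lit 2936921418) (nat_lit 608) (nat_lit 4968821731) (nat_lit 684) (nat_lit 518493634) (nat_lit 264) (nat_lit 5) (nat_lit 272) (nat_lit 5) (nat_lit 273) (nat_lit 5) (nat_lit 583) (nat_lit 498) (nat_lit 479)) (XT.nd (nat_lit 78) (nat_lit 0) (nat_lit 0) (XT.lf (nat_lit 0) (nat_lit 1185556620) (nat_lit 532) (nat_lit 1922881124) (nat_lit 608) (nat_lit 5385182151) (nat_lit 256) (nat_lit 5) (nat_lit 263) (nat_lit 5) (nat_lit 264) (nat_lit 5) (nat_lit 584) (nat_lit 498) (nat_lit 478)) (XT.lf (nat_lit 0) (nat_lit 6789071405) (nat_lit 608) (nat_lit 586874475) (nat_lit 76) (nat_lit 1188618347) (nat_lit 256) (nat_lit 5) (nat_lit 264) (nat_lit 5) (nat_lit 257) (nat_lit 5) (nat_lit 585) (nat_lit 498) (nat_lit 477)))) (XT.nd (nat_lit 156) (nat_lit 1064) (nat_lit 0) (XT.nd (nat_lit 78) (nat_lit 532) (nat_lit 0) (XT.lf (nat_lit 0)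 (nat_lit 1879214468) (nat_lit 608) (nat_lit 2387804726) (nat_lit 76) (nat_lit 4369708226) (nat_lit 248) (nat_lit 5) (nat_lit 256) (nat_lit 5) (nat_lit 249) (nat_lit 5) (nat_lit 586) (nat_lit 498) (nat_lit 476)) (XT.lf (nat_lit 0) (nat_lit 4489404043) (nat_lit 532) (nat_lit 1071656758) (nat_lit 608) (nat_lit 3149485963) (nat_lit 241) (nat_lit 5) (nat_lit 248) (nat_lit 5) (nat_lit 249) (nat_lit 5) (nat_lit 587) (nat_lit 498) (nat_lit 475))) (XT.nd (nat_lit 78) (nat_lit 456) (nat_lit 0) (XT.lf (nat_lit 0) (nat_lit 516652874) (nat_lit 608) (nat_lit 6094630977) (nat_lit 76) (nat_lit 2174635327) (nat_lit 233) (nat_lit 5) (nat_lit 241) (nat_lit 5) (nat_lit 234) (nat_lit 5) (nat_lit 588) (nat_lit 498) (nat_lit 474)) (XT.lf (nat_lit 0) (nat_lit 842358065) (nat_lit 456) (nat_lit 3358051088) (nat_lit 532) (nat_lit 4662247954) (nat_lit 227) (nat_lit 5) (nat_lit 233) (nat_lit 5) (nat_lit 234) (nat_lit 5) (nat_lit 589) (nat_lit 498) (nat_lit 473))))) (XT.nd (nat_lit 234) (nat_lit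 1520) (nat_lit 0) (XT.nd (nat_lit 78) (nat_lit 1064) (nat_lit 0) (XT.lf (nat_lit 0) (nat_lit 7923709732) (nat_lit 456) (nat_lit 20947723) (nat_lit 532) (nat_lit 996539680) (nat_lit 227) (nat_lit 5) (nat_lit 233) (nat_lit 5) (nat_lit 234) (nat_lit 5) (nat_lit 590) (nat_lit 498) (nat_lit 472)) (XT.nd (nat_lit 78) (nat_lit 456) (nat_lit 0) (XT.lf (nat_lit 0) (nat_lit 2715015739) (nat_lit 608) (nat_lit 2931892252) (nat_lit 76) (nat_lit 3373877366) (nat_lit 219) (nat_lit 5) (nat_lit 227) (nat_lit 5) (nat_lit 220) (nat_lit 5) (nat_lit 591) (nat_lit 498) (nat_lit 471)) (XT.lf (nat_lit 0) (nat_lit 4221340033) (nat_lit 456) (nat_lit 2247581663) (nat_lit 532) (nat_lit 2633286111) (nat_lit 213) (nat_lit 5) (nat_lit 219) (nat_lit 5) (nat_lit 220) (nat_lit 5) (nat_lit 592) (nat_lit 498) (nat_lit 470)))) (XT.nd (nat_lit 156) (nat_lit 532) (nat_lit 0) (XT.nd (nat_lit 78) (nat_lit 456) (nat_lit 0) (XT.lf (nat_lit 0) (nat_lit 1088181318) (nat_lit 532) (nat_lit 6874752342) (nat_lit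 76) (nat_lit 1222381360) (nat_lit 206) (nat_lit 5) (nat_lit 213) (nat_lit 5) (nat_lit 207) (nat_lit 5) (nat_lit 593) (nat_lit 498) (nat_lit 469)) (XT.lf (nat_lit 0) (nat_lit 337244415) (nat_lit 456) (nat_lit 4509259506) (nat_lit 532) (nat_lit 4423281893) (nat_lit 200) (nat_lit 5) (nat_lit 206) (nat_lit 5) (nat_lit 207) (nat_lit 5) (nat_lit 594) (nat_lit 498) (nat_lit 468))) (XT.nd (nat_lit 78) (nat_lit 532) (nat_lit 0) (XT.lf (nat_lit 0) (nat_lit 7709986083) (nat_lit 456) (nat_lit 964277710) (nat_lit 532) (nat_lit 681800017) (nat_lit 200) (nat_lit 5) (nat_lit 206) (nat_lit 5) (nat_lit 207) (nat_lit 5) (nat_lit 595) (nat_lit 498) (nat_lit 467)) (XT.lf (nat_lit 0) (nat_lit 3097088485) (nat_lit 532) (nat_lit 3695861007) (nat_lit 76) (nat_lit 2650640194) (nat_lit 193) (nat_lit 5) (nat_lit 200) (nat_lit 5) (nat_lit 194) (nat_lit 5) (nat_lit 596) (nat_lit 498) (nat_lit 466))))))) (XT.nd (nat_lit 1092) (nat_lit 3192) (nat_lit 0) (XT.nd (nat_lit 546) (nat_lit 1900) (nat_lit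 0) (XT.nd (nat_lit 234) (nat_lit 1672) (nat_lit 0) (XT.nd (nat_lit 78) (nat_lit 532) (nat_lit 0) (XT.lf (nat_lit 0) (nat_lit 3740947136) (nat_lit 380) (nat_lit 3192449394) (nat_lit 456) (nat_lit 2599563012) (nat_lit 188) (nat_lit 5) (nat_lit 193) (nat_lit 5) (nat_lit 194) (nat_lit 5) (nat_lit 597) (nat_lit 498) (nat_lit 465)) (XT.nd (nat_lit 78) (nat_lit 0) (nat_lit 0) (XT.lf (nat_lit 0) (nat_lit 1194803218) (nat_lit 532) (nat_lit 7936849439) (nat_lit 76) (nat_lit 492537914) (nat_lit 181) (nat_lit 5) (nat_lit 188) (nat_lit 5) (nat_lit 182) (nat_lit 5) (nat_lit 598) (nat_lit 498) (nat_lit 464)) (XT.lf (nat_lit 0) (nat_lit 5040219185) (nat_lit 532) (nat_lit 437021918) (nat_lit 76) (nat_lit 4239464889) (nat_lit 181) (nat_lit 5) (nat_lit 188) (nat_lit 5) (nat_lit 182) (nat_lit 5) (nat_lit 599) (nat_lit 498) (nat_lit 463)))) (XT.nd (nat_lit 156) (nat_lit 836) (nat_lit 0) (XT.nd (nat_lit 78) (nat_lit 456) (nat_lit 0) (XT.lf (nat_lit 0) (nat_lit 7232429369) (nat_lit 380)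 (nat_lit 1727729791) (nat_lit 456) (nat_lit 850963036) (nat_lit 176) (nat_lit 5) (nat_lit 181) (nat_lit 5) (nat_lit 182) (nat_lit 5) (nat_lit 600) (nat_lit 498) (nat_lit 462)) (XT.lf (nat_lit 0) (nat_lit 3011916857) (nat_lit 456) (nat_lit 4795272956) (nat_lit 76) (nat_lit 2099826180) (nat_lit 170) (nat_lit 5) (nat_lit 176) (nat_lit 5) (nat_lit 171) (nat_lit 5) (nat_lit 601) (nat_lit 498) (nat_lit 461))) (XT.nd (nat_lit 78) (nat_lit 456) (nat_lit 0) (XT.lf (nat_lit 0) (nat_lit 2932023269) (nat_lit 380) (nat_lit 4007667014) (nat_lit 456) (nat_lit 3065046907) (nat_lit 165) (nat_lit 5) (nat_lit 170) (nat_lit 5) (nat_lit 171) (nat_lit 5) (nat_lit 602) (nat_lit 498) (nat_lit 460)) (XT.lf (nat_lit 0) (nat_lit 702785437) (nat_lit 380) (nat_lit 116007112) (nat_lit 456) (nat_lit 9285749023) (nat_lit 159) (nat_lit 5) (nat_lit 164) (nat_lit 5) (nat_lit 165) (nat_lit 5) (nat_lit 603) (nat_lit 498) (nat_lit 459))))) (XT.nd (nat_lit 234) (nat_lit 1064) (nat_lit 0) (XT.nd (nat_lit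 78) (nat_lit 836) (nat_lit 0) (XT.lf (nat_lit 0) (nat_lit 4763661051) (nat_lit 456) (nat_lit 1597502141) (nat_lit 76) (nat_lit 3844288259) (nat_lit 159) (nat_lit 5) (nat_lit 165) (nat_lit 5) (nat_lit 160) (nat_lit 5) (nat_lit 604) (nat_lit 498) (nat_lit 458)) (XT.nd (nat_lit 78) (nat_lit 456) (nat_lit 0) (XT.lf (nat_lit 0) (nat_lit 6370973578) (nat_lit 380) (nat_lit 2411095539) (nat_lit 456) (nat_lit 1526419997) (nat_lit 154) (nat_lit 5) (nat_lit 159) (nat_lit 5) (nat_lit 160) (nat_lit 5) (nat_lit 605) (nat_lit 498) (nat_lit 457)) (XT.lf (nat_lit 0) (nat_lit 2435437357) (nat_lit 456) (nat_lit 6354560137) (nat_lit 76) (nat_lit 1623261225) (nat_lit 148) (nat_lit 5) (nat_lit 154) (nat_lit 5) (nat_lit 149) (nat_lit 5) (nat_lit 606) (nat_lit 498) (nat_lit 456)))) (XT.nd (nat_lit 156) (nat_lit 760) (nat_lit 0) (XT.nd (nat_lit 78) (nat_lit 0) (nat_lit 0) (XT.lf (nat_lit 0) (nat_lit 1669193659) (nat_lit 304) (nat_lit 4793234800) (nat_lit 380) (nat_lit 4057369046) (nat_lit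 144) (nat_lit 5) (nat_lit 148) (nat_lit 5) (nat_lit 149) (nat_lit 5) (nat_lit 607) (nat_lit 498) (nat_lit 455)) (XT.lf (nat_lit 0) (nat_lit 9864991451) (nat_lit 304) (nat_lit 700962931) (nat_lit 380) (nat_lit 62595027) (nat_lit 144) (nat_lit 5) (nat_lit 148) (nat_lit 5) (nat_lit 149) (nat_lit 5) (nat_lit 608) (nat_lit 498) (nat_lit 454))) (XT.nd (nat_lit 78) (nat_lit 304) (nat_lit 0) (XT.lf (nat_lit 0) (nat_lit 3984870690) (nat_lit 456) (nat_lit 3278163080) (nat_lit 76) (nat_lit 3475415448) (nat_lit 138) (nat_lit 5) (nat_lit 144) (nat_lit 5) (nat_lit 139) (nat_lit 5) (nat_lit 609) (nat_lit 498) (nat_lit 453)) (XT.lf (nat_lit 0) (nat_lit 4994961390) (nat_lit 304) (nat_lit 3113927541) (nat_lit 380) (nat_lit 2741723105) (nat_lit 134) (nat_lit 5) (nat_lit 138) (nat_lit 5) (nat_lit 139) (nat_lit 5) (nat_lit 610) (nat_lit 498) (nat_lit 452)))))) (XT.nd (nat_lit 546) (nat_lit 1444) (nat_lit 0) (XT.nd (nat_lit 234) (nat_lit 1064) (nat_lit 0) (XT.nd (nat_lit 78) (nat_lit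 304) (nat_lit 0) (XT.lf (nat_lit 0) (nat_lit 1332506617) (nat_lit 380) (nat_lit 8509682296) (nat_lit 76) (nat_lit 1122658928) (nat_lit 129) (nat_lit 5) (nat_lit 134) (nat_lit 5) (nat_lit 130) (nat_lit 5) (nat_lit 611) (nat_lit 498) (nat_lit 451)) (XT.nd (nat_lit 78) (nat_lit 304) (nat_lit 0) (XT.lf (nat_lit 0) (nat_lit 5466282150) (nat_lit 380) (nat_lit 182377396) (nat_lit 76) (nat_lit 5432052895) (nat_lit 129) (nat_lit 5) (nat_lit 134) (nat_lit 5) (nat_lit 130) (nat_lit 5) (nat_lit 612) (nat_lit 498) (nat_lit 450)) (XT.lf (nat_lit 0) (nat_lit 8348089217) (nat_lit 304) (nat_lit 1344298062) (nat_lit 380) (nat_lit 1506315923) (nat_lit 125) (nat_lit 5) (nat_lit 129) (nat_lit 5) (nat_lit 130) (nat_lit 5) (nat_lit 613) (nat_lit 498) (nat_lit 449)))) (XT.nd (nat_lit 156) (nat_lit 380) (nat_lit 0) (XT.nd (nat_lit 78) (nat_lit 304) (nat_lit 0) (XT.lf (nat_lit 0) (nat_lit 2662635387) (nat_lit 380) (nat_lit 5621619029) (nat_lit 76) (nat_lit 3034175211) (nat_lit 120) (nat_lit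 5) (nat_lit 125) (nat_lit 5) (nat_lit 121) (nat_lit 5) (nat_lit 614) (nat_lit 498) (nat_lit 448)) (XT.lf (nat_lit 0) (nat_lit 2960274404) (nat_lit 304) (nat_lit 3937696856) (nat_lit 380) (nat_lit 4542318525) (nat_lit 116) (nat_lit 5) (nat_lit 120) (nat_lit 5) (nat_lit 121) (nat_lit 5) (nat_lit 615) (nat_lit 498) (nat_lit 447))) (XT.nd (nat_lit 78) (nat_lit 76) (nat_lit 0) (XT.lf (nat_lit 0) (nat_lit 151279920) (nat_lit 304) (nat_lit 11064894114) (nat_lit 380) (nat_lit 348451713) (nat_lit 112) (nat_lit 5) (nat_lit 116) (nat_lit 5) (nat_lit 117) (nat_lit 5) (nat_lit 616) (nat_lit 498) (nat_lit 446)) (XT.lf (nat_lit 0) (nat_lit 3917202743) (nat_lit 380) (nat_lit 2745639501) (nat_lit 76) (nat_lit 5027308811) (nat_lit 111) (nat_lit 5) (nat_lit 116) (nat_lit 5) (nat_lit 112) (nat_lit 5) (nat_lit 617) (nat_lit 498) (nat_lit 445))))) (XT.nd (nat_lit 234) (nat_lit 608) (nat_lit 0) (XT.nd (nat_lit 78) (nat_lit 608) (nat_lit 0) (XT.lf (nat_lit 0) (nat_lit 6101057973) (nat_lit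 228) (nat_lit 2159008120) (nat_lit 304) (nat_lit 3558145180) (nat_lit 108) (nat_lit 5) (nat_lit 111) (nat_lit 5) (nat_lit 112) (nat_lit 5) (nat_lit 618) (nat_lit 498) (nat_lit 444)) (XT.nd (nat_lit 78) (nat_lit 228) (nat_lit 0) (XT.lf (nat_lit 0) (nat_lit 743367659) (nat_lit 380) (nat_lit 8786704009) (nat_lit 76) (nat_lit 2418423818) (nat_lit 103) (nat_lit 5) (nat_lit 108) (nat_lit 5) (nat_lit 104) (nat_lit 5) (nat_lit 619) (nat_lit 498) (nat_lit 443)) (XT.lf (nat_lit 0) (nat_lit 106110580) (nat_lit 228) (nat_lit 4988035362) (nat_lit 304) (nat_lit 6986553081) (nat_lit 100) (nat_lit 5) (nat_lit 103) (nat_lit 5) (nat_lit 104) (nat_lit 5) (nat_lit 620) (nat_lit 498) (nat_lit 442)))) (XT.nd (nat_lit 156) (nat_lit 228) (nat_lit 0) (XT.nd (nat_lit 78) (nat_lit 380) (nat_lit 0) (XT.lf (nat_lit 0) (nat_lit 9224003945) (nat_lit 228) (nat_lit 324499228) (nat_lit 304) (nat_lit 2666713760) (nat_lit 100) (nat_lit 5) (nat_lit 103) (nat_lit 5) (nat_lit 104) (nat_lit 5) (nat_lit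 621) (nat_lit 498) (nat_lit 441)) (XT.lf (nat_lit 0) (nat_lit 1743853361) (nat_lit 380) (nat_lit 6210734168) (nat_lit 76) (nat_lit 4397070396) (nat_lit 95) (nat_lit 5) (nat_lit 100) (nat_lit 5) (nat_lit 96) (nat_lit 5) (nat_lit 622) (nat_lit 498) (nat_lit 440))) (XT.nd (nat_lit 78) (nat_lit 0) (nat_lit 0) (XT.lf (nat_lit 0) (nat_lit 2953409090) (nat_lit 228) (nat_lit 3253406925) (nat_lit 304) (nat_lit 6283662832) (nat_lit 92) (nat_lit 5) (nat_lit 95) (nat_lit 5) (nat_lit 96) (nat_lit 5) (nat_lit 623) (nat_lit 498) (nat_lit 439)) (XT.lf (nat_lit 0) (nat_lit 10769496446) (nat_lit 304) (nat_lit 327880642) (nat_lit 76) (nat_lit 1534491380) (nat_lit 92) (nat_lit 5) (nat_lit 96) (nat_lit 5) (nat_lit 93) (nat_lit 5) (nat_lit 624) (nat_lit 498) (nat_lit 438))))))))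
noncomputable def xc36 : XT := (XT.nd (nat_lit 76362) (nat_lit 0) (nat_lit 15048) (XT.nd (nat_lit 1014) (nat_lit 1824) (nat_lit 0) (XT.nd (nat_lit 468) (nat_lit 1216) (nat_lit 0) (XT.nd (nat_lit 234) (nat_lit 532) (nat_lit 0) (XT.nd (nat_lit 78) (nat_lit 456) (nat_lit 0) (XT.lf (nat_lit 0) (nat_lit 2652780695) (nat_lit 304) (nat_lit 3699511530) (nat_lit 76) (nat_lit 6422648154) (nat_lit 88) (nat_lit 5) (nat_lit 92) (nat_lit 5) (nat_lit 89) (nat_lit 5) (nat_lit 625) (nat_lit 498) (nat_lit 437)) (XT.nd (nat_lit 78) (nat_lit 228) (nat_lit 0) (XT.lf (nat_lit 0) (nat_lit 5743339896) (nat_lit 228) (nat_lit 1488873761) (nat_lit 304) (nat_lit 5688436945) (nat_lit 85) (nat_lit 5) (nat_lit 88) (nat_lit 5) (nat_lit 89) (nat_lit 5) (nat_lit 626) (nat_lit 498) (nat_lit 436)) (XT.lf (nat_lit 0) (nat_lit 2293581082) (nat_lit 228) (nat_lit 9631617758) (nat_lit 304) (nat_lit 1143638259) (nat_lit 82) (nat_lit 5) (nat_lit 85) (nat_lit 5) (nat_lit 86) (nat_lit 5) (nat_lit 627) (nat_lit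 498) (nat_lit 435)))) (XT.nd (nat_lit 78) (nat_lit 456) (nat_lit 0) (XT.lf (nat_lit 0) (nat_lit 3464214234) (nat_lit 304) (nat_lit 1270982499) (nat_lit 76) (nat_lit 8483979291) (nat_lit 81) (nat_lit 5) (nat_lit 85) (nat_lit 5) (nat_lit 82) (nat_lit 5) (nat_lit 628) (nat_lit 498) (nat_lit 434)) (XT.nd (nat_lit 78) (nat_lit 228) (nat_lit 0) (XT.lf (nat_lit 0) (nat_lit 8166150699) (nat_lit 304) (nat_lit 4916152150) (nat_lit 76) (nat_lit 289724146) (nat_lit 78) (nat_lit 5) (nat_lit 82) (nat_lit 5) (nat_lit 79) (nat_lit 5) (nat_lit 629) (nat_lit 498) (nat_lit 433)) (XT.lf (nat_lit 0) (nat_lit 4829606108) (nat_lit 228) (nat_lit 8164369570) (nat_lit 304) (nat_lit 533323552) (nat_lit 75) (nat_lit 5) (nat_lit 78) (nat_lit 5) (nat_lit 79) (nat_lit 5) (nat_lit 630) (nat_lit 498) (nat_lit 432))))) (XT.nd (nat_lit 234) (nat_lit 684) (nat_lit 0) (XT.nd (nat_lit 78) (nat_lit 228) (nat_lit 0) (XT.lf (nat_lit 0) (nat_lit 1069100400) (nat_lit 228) (nat_lit 3108833530) (nat_lit 304)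 (nat_lit 9507179220) (nat_lit 71) (nat_lit 5) (nat_lit 74) (nat_lit 5) (nat_lit 75) (nat_lit 5) (nat_lit 631) (nat_lit 498) (nat_lit 431)) (XT.nd (nat_lit 78) (nat_lit 228) (nat_lit 0) (XT.lf (nat_lit 0) (nat_lit 9009080852) (nat_lit 304) (nat_lit 2782259605) (nat_lit 76) (nat_lit 2054017444) (nat_lit 71) (nat_lit 5) (nat_lit 75) (nat_lit 5) (nat_lit 72) (nat_lit 5) (nat_lit 632) (nat_lit 498) (nat_lit 430)) (XT.lf (nat_lit 0) (nat_lit 7254828033) (nat_lit 228) (nat_lit 6711234159) (nat_lit 304) (nat_lit 42162269) (nat_lit 68) (nat_lit 5) (nat_lit 71) (nat_lit 5) (nat_lit 72) (nat_lit 5) (nat_lit 633) (nat_lit 498) (nat_lit 429)))) (XT.nd (nat_lit 156) (nat_lit 456) (nat_lit 0) (XT.nd (nat_lit 78) (nat_lit 0) (nat_lit 0) (XT.lf (nat_lit 0) (nat_lit 3300113750) (nat_lit 152) (nat_lit 1485944162) (nat_lit 228) (nat_lit 9387625965) (nat_lit 65) (nat_lit 5) (nat_lit 67) (nat_lit 5) (nat_lit 68) (nat_lit 5) (nat_lit 634) (nat_lit 498) (nat_lit 428)) (XT.lf (nat_lit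 0) (nat_lit 9742560927) (nat_lit 228) (nat_lit 788934653) (nat_lit 76) (nat_lit 3810306747) (nat_lit 65) (nat_lit 5) (nat_lit 68) (nat_lit 5) (nat_lit 66) (nat_lit 5) (nat_lit 635) (nat_lit 498) (nat_lit 427))) (XT.nd (nat_lit 78) (nat_lit 152) (nat_lit 0) (XT.lf (nat_lit 0) (nat_lit 315677275) (nat_lit 304) (nat_lit 4968680662) (nat_lit 76) (nat_lit 9228199185) (nat_lit 61) (nat_lit 5) (nat_lit 65) (nat_lit 5) (nat_lit 62) (nat_lit 5) (nat_lit 636) (nat_lit 498) (nat_lit 426)) (XT.lf (nat_lit 0) (nat_lit 5270865256) (nat_lit 228) (nat_lit 9306104528) (nat_lit 76) (nat_lit 109079131) (nat_lit 59) (nat_lit 5) (nat_lit 62) (nat_lit 5) (nat_lit 60) (nat_lit 5) (nat_lit 637) (nat_lit 498) (nat_lit 425)))))) (XT.nd (nat_lit 546) (nat_lit 760) (nat_lit 0) (XT.nd (nat_lit 234) (nat_lit 608) (nat_lit 0) (XT.nd (nat_lit 78) (nat_lit 228) (nat_lit 0) (XT.lf (nat_lit 0) (nat_lit 1052202362) (nat_lit 228) (nat_lit 9310975163) (nat_lit 304) (nat_lit 4499073603) (nat_lit 56)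 (nat_lit 5) (nat_lit 59) (nat_lit 5) (nat_lit 60) (nat_lit 5) (nat_lit 638) (nat_lit 498) (nat_lit 424)) (XT.nd (nat_lit 78) (nat_lit 152) (nat_lit 0) (XT.lf (nat_lit 0) (nat_lit 534146564) (nat_lit 304) (nat_lit 3367653384) (nat_lit 76) (nat_lit 11139600535) (nat_lit 55) (nat_lit 5) (nat_lit 59) (nat_lit 5) (nat_lit 56) (nat_lit 5) (nat_lit 639) (nat_lit 498) (nat_lit 423)) (XT.lf (nat_lit 0) (nat_lit 5629362209) (nat_lit 228) (nat_lit 7950487546) (nat_lit 76) (nat_lit 1643257758) (nat_lit 53) (nat_lit 5) (nat_lit 56) (nat_lit 5) (nat_lit 54) (nat_lit 5) (nat_lit 640) (nat_lit 498) (nat_lit 422)))) (XT.nd (nat_lit 156) (nat_lit 304) (nat_lit 0) (XT.nd (nat_lit 78) (nat_lit 76) (nat_lit 0) (XT.lf (nat_lit 0) (nat_lit 2707085375) (nat_lit 228) (nat_lit 8149083050) (nat_lit 304) (nat_lit 4551687453) (nat_lit 50) (nat_lit 5) (nat_lit 53) (nat_lit 5) (nat_lit 54) (nat_lit 5) (nat_lit 641) (nat_lit 498) (nat_lit 421)) (XT.lf (nat_lit 0) (nat_lit 600735366) (nat_lit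 304) (nat_lit 1979676194) (nat_lit 76) (nat_lit 13015466211) (nat_lit 49) (nat_lit 5) (nat_lit 53) (nat_lit 5) (nat_lit 50) (nat_lit 5) (nat_lit 642) (nat_lit 498) (nat_lit 420))) (XT.nd (nat_lit 78) (nat_lit 152) (nat_lit 0) (XT.lf (nat_lit 0) (nat_lit 5838423632) (nat_lit 228) (nat_lit 6828215397) (nat_lit 76) (nat_lit 3119556925) (nat_lit 47) (nat_lit 5) (nat_lit 50) (nat_lit 5) (nat_lit 48) (nat_lit 5) (nat_lit 643) (nat_lit 498) (nat_lit 419)) (XT.lf (nat_lit 0) (nat_lit 4133565747) (nat_lit 152) (nat_lit 7068983585) (nat_lit 228) (nat_lit 4777338345) (nat_lit 45) (nat_lit 5) (nat_lit 47) (nat_lit 5) (nat_lit 48) (nat_lit 5) (nat_lit 644) (nat_lit 498) (nat_lit 418))))) (XT.nd (nat_lit 234) (nat_lit 380) (nat_lit 0) (XT.nd (nat_lit 78) (nat_lit 304) (nat_lit 0) (XT.lf (nat_lit 0) (nat_lit 500547882) (nat_lit 228) (nat_lit 837611957) (nat_lit 76) (nat_lit 14839018633) (nat_lit 44) (nat_lit 5) (nat_lit 47) (nat_lit 5) (nat_lit 45) (nat_lit 5) (nat_lit 645) (nat_lit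 498) (nat_lit 417)) (XT.nd (nat_lit 78) (nat_lit 152) (nat_lit 0) (XT.lf (nat_lit 0) (nat_lit 5882686714) (nat_lit 228) (nat_lit 5973817754) (nat_lit 76) (nat_lit 4520026583) (nat_lit 42) (nat_lit 5) (nat_lit 45) (nat_lit 5) (nat_lit 43) (nat_lit 5) (nat_lit 646) (nat_lit 498) (nat_lit 416)) (XT.lf (nat_lit 0) (nat_lit 5296494641) (nat_lit 152) (nat_lit 6090100709) (nat_lit 228) (nat_lit 5192993576) (nat_lit 40) (nat_lit 5) (nat_lit 42) (nat_lit 5) (nat_lit 43) (nat_lit 5) (nat_lit 647) (nat_lit 498) (nat_lit 415)))) (XT.nd (nat_lit 156) (nat_lit 152) (nat_lit 0) (XT.nd (nat_lit 78) (nat_lit 0) (nat_lit 0) (XT.lf (nat_lit 0) (nat_lit 22366958) (nat_lit 152) (nat_lit 194462094) (nat_lit 228) (nat_lit 16569736692) (nat_lit 37) (nat_lit 5) (nat_lit 39) (nat_lit 5) (nat_lit 40) (nat_lit 5) (nat_lit 648) (nat_lit 498) (nat_lit 414)) (XT.lf (nat_lit 0) (nat_lit 5744724017) (nat_lit 228) (nat_lit 5425600390) (nat_lit 76) (nat_lit 5825083716) (nat_lit 37) (nat_lit 5) (nat_lit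 40) (nat_lit 5) (nat_lit 38) (nat_lit 5) (nat_lit 649) (nat_lit 498) (nat_lit 413))) (XT.nd (nat_lit 74334) (nat_lit 0) (nat_lit 30400) (XT.lf (nat_lit 0) (nat_lit 6156836198) (nat_lit 152) (nat_lit 5233629002) (nat_lit 228) (nat_lit 5817817111) (nat_lit 35) (nat_lit 5) (nat_lit 37) (nat_lit 5) (nat_lit 38) (nat_lit 5) (nat_lit 650) (nat_lit 498) (nat_lit 412)) (XT.lf (nat_lit 0) (nat_lit 1563207320) (nat_lit 988) (nat_lit 517860926) (nat_lit 0) (nat_lit 1563207320) (nat_lit 435) (nat_lit 5) (nat_lit 448) (nat_lit 4) (nat_lit 435) (nat_lit 4) (nat_lit 562) (nat_lit 499) (nat_lit 499))))))) (XT.nd (nat_lit 1014) (nat_lit 6992) (nat_lit 0) (XT.nd (nat_lit 468) (nat_lit 3876) (nat_lit 0) (XT.nd (nat_lit 234) (nat_lit 1824) (nat_lit 0) (XT.nd (nat_lit 78) (nat_lit 1748) (nat_lit 0) (XT.lf (nat_lit 0) (nat_lit 4587494967) (nat_lit 912) (nat_lit 2169263042) (nat_lit 912) (nat_lit 573057672) (nat_lit 423) (nat_lit 4) (nat_lit 435) (nat_lit 5) (nat_lit 435) (nat_lit 4)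 (nat_lit 563) (nat_lit 499) (nat_lit 498)) (XT.nd (nat_lit 78) (nat_lit 836) (nat_lit 0) (XT.lf (nat_lit 0) (nat_lit 2908873854) (nat_lit 836) (nat_lit 96069932) (nat_lit 912) (nat_lit 4367415515) (nat_lit 411) (nat_lit 5) (nat_lit 422) (nat_lit 5) (nat_lit 423) (nat_lit 4) (nat_lit 564) (nat_lit 499) (nat_lit 497)) (XT.lf (nat_lit 0) (nat_lit 1218383992) (nat_lit 836) (nat_lit 5400564519) (nat_lit 836) (nat_lit 797294553) (nat_lit 400) (nat_lit 4) (nat_lit 411) (nat_lit 5) (nat_lit 411) (nat_lit 4) (nat_lit 565) (nat_lit 499) (nat_lit 496)))) (XT.nd (nat_lit 78) (nat_lit 1748) (nat_lit 0) (XT.lf (nat_lit 0) (nat_lit 2770669006) (nat_lit 912) (nat_lit 481165601) (nat_lit 76) (nat_lit 4209532780) (nat_lit 399) (nat_lit 5) (nat_lit 411) (nat_lit 5) (nat_lit 400) (nat_lit 4) (nat_lit 566) (nat_lit 499) (nat_lit 495)) (XT.nd (nat_lit 78) (nat_lit 912) (nat_lit 0) (XT.lf (nat_lit 0) (nat_lit 5340253874) (nat_lit 836) (nat_lit 1028015061) (nat_lit 912) (nat_lit 1139647735)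 (nat_lit 388) (nat_lit 5) (nat_lit 399) (nat_lit 5) (nat_lit 400) (nat_lit 4) (nat_lit 567) (nat_lit 499) (nat_lit 494)) (XT.lf (nat_lit 0) (nat_lit 2419975038) (nat_lit 912) (nat_lit 3877370093) (nat_lit 76) (nat_lit 1258333951) (nat_lit 376) (nat_lit 5) (nat_lit 388) (nat_lit 5) (nat_lit 377) (nat_lit 4) (nat_lit 568) (nat_lit 499) (nat_lit 493))))) (XT.nd (nat_lit 234) (nat_lit 2280) (nat_lit 0) (XT.nd (nat_lit 78) (nat_lit 836) (nat_lit 0) (XT.lf (nat_lit 0) (nat_lit 2002797938) (nat_lit 760) (nat_lit 4002580043) (nat_lit 836) (nat_lit 1599477682) (nat_lit 366) (nat_lit 5) (nat_lit 376) (nat_lit 5) (nat_lit 377) (nat_lit 4) (nat_lit 569) (nat_lit 499) (nat_lit 492)) (XT.nd (nat_lit 78) (nat_lit 0) (nat_lit 0) (XT.lf (nat_lit 0) (nat_lit 313681795) (nat_lit 760) (nat_lit 1631421504) (nat_lit 836) (nat_lit 5710378911) (nat_lit 355) (nat_lit 5) (nat_lit 365) (nat_lit 5) (nat_lit 366) (nat_lit 5) (nat_lit 570) (nat_lit 499) (nat_lit 491)) (XT.lf (nat_lit 0) (nat_lit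 5518555622) (nat_lit 836) (nat_lit 1375207050) (nat_lit 76) (nat_lit 813565387) (nat_lit 355) (nat_lit 5) (nat_lit 366) (nat_lit 5) (nat_lit 356) (nat_lit 4) (nat_lit 571) (nat_lit 499) (nat_lit 490)))) (XT.nd (nat_lit 156) (nat_lit 760) (nat_lit 0) (XT.nd (nat_lit 78) (nat_lit 760) (nat_lit 0) (XT.lf (nat_lit 0) (nat_lit 1363618004) (nat_lit 760) (nat_lit 3083291675) (nat_lit 76) (nat_lit 3313549727) (nat_lit 345) (nat_lit 5) (nat_lit 355) (nat_lit 5) (nat_lit 346) (nat_lit 5) (nat_lit 572) (nat_lit 499) (nat_lit 489)) (XT.lf (nat_lit 0) (nat_lit 3004213330) (nat_lit 760) (nat_lit 1920352585) (nat_lit 836) (nat_lit 2890467564) (nat_lit 335) (nat_lit 5) (nat_lit 345) (nat_lit 5) (nat_lit 346) (nat_lit 5) (nat_lit 573) (nat_lit 499) (nat_lit 488))) (XT.nd (nat_lit 78) (nat_lit 0) (nat_lit 0) (XT.lf (nat_lit 0) (nat_lit 649157432) (nat_lit 760) (nat_lit 6553656036) (nat_lit 76) (nat_lit 668359636) (nat_lit 325) (nat_lit 5) (nat_lit 335) (nat_lit 5) (nat_lit 326)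 (nat_lit 5) (nat_lit 574) (nat_lit 499) (nat_lit 487)) (XT.lf (nat_lit 0) (nat_lit 4205063990) (nat_lit 760) (nat_lit 402587460) (nat_lit 76) (nat_lit 3320723571) (nat_lit 325) (nat_lit 5) (nat_lit 335) (nat_lit 5) (nat_lit 326) (nat_lit 5) (nat_lit 575) (nat_lit 499) (nat_lit 486)))))) (XT.nd (nat_lit 546) (nat_lit 2964) (nat_lit 0) (XT.nd (nat_lit 234) (nat_lit 1976) (nat_lit 0) (XT.nd (nat_lit 78) (nat_lit 1368) (nat_lit 0) (XT.lf (nat_lit 0) (nat_lit 5873676978) (nat_lit 684) (nat_lit 1936686472) (nat_lit 760) (nat_lit 176797390) (nat_lit 316) (nat_lit 5) (nat_lit 325) (nat_lit 5) (nat_lit 326) (nat_lit 5) (nat_lit 576) (nat_lit 499) (nat_lit 485)) (XT.nd (nat_lit 78) (nat_lit 684) (nat_lit 0) (XT.lf (nat_lit 0) (nat_lit 3371246002) (nat_lit 684) (nat_lit 3861328318) (nat_lit 76) (nat_lit 814591946) (nat_lit 307) (nat_lit 5) (nat_lit 316) (nat_lit 5) (nat_lit 308) (nat_lit 5) (nat_lit 577) (nat_lit 499) (nat_lit 484)) (XT.lf (nat_lit 0) (nat_lit 2474317645)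 (nat_lit 684) (nat_lit 4497748193) (nat_lit 760) (nat_lit 1136603983) (nat_lit 298) (nat_lit 5) (nat_lit 307) (nat_lit 5) (nat_lit 308) (nat_lit 5) (nat_lit 578) (nat_lit 499) (nat_lit 483)))) (XT.nd (nat_lit 156) (nat_lit 1292) (nat_lit 0) (XT.nd (nat_lit 78) (nat_lit 0) (nat_lit 0) (XT.lf (nat_lit 0) (nat_lit 735511234) (nat_lit 608) (nat_lit 1677696011) (nat_lit 684) (nat_lit 5758436885) (nat_lit 289) (nat_lit 5) (nat_lit 297) (nat_lit 5) (nat_lit 298) (nat_lit 5) (nat_lit 579) (nat_lit 499) (nat_lit 482)) (XT.lf (nat_lit 0) (nat_lit 6006490412) (nat_lit 684) (nat_lit 1018123916) (nat_lit 76) (nat_lit 1211364199) (nat_lit 289) (nat_lit 5) (nat_lit 298) (nat_lit 5) (nat_lit 290) (nat_lit 5) (nat_lit 580) (nat_lit 499) (nat_lit 481))) (XT.nd (nat_lit 78) (nat_lit 608) (nat_lit 0) (XT.lf (nat_lit 0) (nat_lit 1341891342) (nat_lit 684) (nat_lit 2796264844) (nat_lit 76) (nat_lit 4163473698) (nat_lit 280) (nat_lit 5) (nat_lit 289) (nat_lit 5) (nat_lit 281) (nat_lit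 5) (nat_lit 581) (nat_lit 499) (nat_lit 480)) (XT.lf (nat_lit 0) (nat_lit 3763869170) (nat_lit 608) (nat_lit 1165553097) (nat_lit 684) (nat_lit 3439390213) (nat_lit 272) (nat_lit 5) (nat_lit 280) (nat_lit 5) (nat_lit 281) (nat_lit 5) (nat_lit 582) (nat_lit 499) (nat_lit 479))))) (XT.nd (nat_lit 234) (nat_lit 1748) (nat_lit 0) (XT.nd (nat_lit 78) (nat_lit 532) (nat_lit 0) (XT.lf (nat_lit 0) (nat_lit 136988372) (nat_lit 684) (nat_lit 6444294134) (nat_lit 76) (nat_lit 1856288708) (nat_lit 263) (nat_lit 5) (nat_lit 272) (nat_lit 5) (nat_lit 264) (nat_lit 5) (nat_lit 583) (nat_lit 499) (nat_lit 478)) (XT.nd (nat_lit 78) (nat_lit 0) (nat_lit 0) (XT.lf (nat_lit 0) (nat_lit 174269421) (nat_lit 532) (nat_lit 3548551811) (nat_lit 608) (nat_lit 4784753827) (nat_lit 256) (nat_lit 5) (nat_lit 263) (nat_lit 5) (nat_lit 264) (nat_lit 5) (nat_lit 584) (nat_lit 499) (nat_lit 477)) (XT.lf (nat_lit 0) (nat_lit 6936947883) (nat_lit 532) (nat_lit 431255463) (nat_lit 608) (nat_lit 1211023126)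 (nat_lit 256) (nat_lit 5) (nat_lit 263) (nat_lit 5) (nat_lit 264) (nat_lit 5) (nat_lit 585) (nat_lit 499) (nat_lit 476)))) (XT.nd (nat_lit 156) (nat_lit 608) (nat_lit 0) (XT.nd (nat_lit 78) (nat_lit 532) (nat_lit 0) (XT.lf (nat_lit 0) (nat_lit 2399107464) (nat_lit 608) (nat_lit 3510887782) (nat_lit 76) (nat_lit 2742066565) (nat_lit 248) (nat_lit 5) (nat_lit 256) (nat_lit 5) (nat_lit 249) (nat_lit 5) (nat_lit 586) (nat_lit 499) (nat_lit 475)) (XT.lf (nat_lit 0) (nat_lit 3313612893) (nat_lit 532) (nat_lit 2732859680) (nat_lit 608) (nat_lit 2680100139) (nat_lit 241) (nat_lit 5) (nat_lit 248) (nat_lit 5) (nat_lit 249) (nat_lit 5) (nat_lit 587) (nat_lit 499) (nat_lit 474))) (XT.nd (nat_lit 78) (nat_lit 0) (nat_lit 0) (XT.lf (nat_lit 0) (nat_lit 934148203) (nat_lit 608) (nat_lit 7349046479) (nat_lit 76) (nat_lit 519606039) (nat_lit 233) (nat_lit 5) (nat_lit 241) (nat_lit 5) (nat_lit 234) (nat_lit 5) (nat_lit 588) (nat_lit 499) (nat_lit 473)) (XT.lf (nat_lit 0) (nat_lit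 4585909888) (nat_lit 608) (nat_lit 460719829) (nat_lit 76) (nat_lit 3833550646) (nat_lit 233) (nat_lit 5) (nat_lit 241) (nat_lit 5) (nat_lit 234) (nat_lit 5) (nat_lit 589) (nat_lit 499) (nat_lit 472))))))))
noncomputable def xc37 : XT := (XT.nd (nat_lit 2106) (nat_lit 5244) (nat_lit 0) (XT.nd (nat_lit 1014) (nat_lit 3724) (nat_lit 0) (XT.nd (nat_lit 468) (nat_lit 2660) (nat_lit 0) (XT.nd (nat_lit 234) (nat_lit 988) (nat_lit 0) (XT.nd (nat_lit 78) (nat_lit 1064) (nat_lit 0) (XT.lf (nat_lit 0) (nat_lit 6577141863) (nat_lit 456) (nat_lit 1723737322) (nat_lit 532) (nat_lit 658428572) (nat_lit 227) (nat_lit 5) (nat_lit 233) (nat_lit 5) (nat_lit 234) (nat_lit 5) (nat_lit 590) (nat_lit 499) (nat_lit 471)) (XT.nd (nat_lit 78) (nat_lit 456) (nat_lit 0) (XT.lf (nat_lit 0) (nat_lit 3002376966) (nat_lit 608) (nat_lit 4362000102) (nat_lit 76) (nat_lit 1675403033) (nat_lit 219) (nat_lit 5) (nat_lit 227) (nat_lit 5) (nat_lit 220) (nat_lit 5) (nat_lit 591) (nat_lit 499) (nat_lit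 470)) (XT.lf (nat_lit 0) (nat_lit 2734553127) (nat_lit 456) (nat_lit 3986368505) (nat_lit 532) (nat_lit 2400989826) (nat_lit 213) (nat_lit 5) (nat_lit 219) (nat_lit 5) (nat_lit 220) (nat_lit 5) (nat_lit 592) (nat_lit 499) (nat_lit 469)))) (XT.nd (nat_lit 78) (nat_lit 456) (nat_lit 0) (XT.lf (nat_lit 0) (nat_lit 752953831) (nat_lit 456) (nat_lit 520654953) (nat_lit 532) (nat_lit 7932257785) (nat_lit 206) (nat_lit 5) (nat_lit 212) (nat_lit 5) (nat_lit 213) (nat_lit 5) (nat_lit 593) (nat_lit 499) (nat_lit 468)) (XT.nd (nat_lit 78) (nat_lit 456) (nat_lit 0) (XT.lf (nat_lit 0) (nat_lit 5000933363) (nat_lit 532) (nat_lit 1279423107) (nat_lit 76) (nat_lit 3010602439) (nat_lit 206) (nat_lit 5) (nat_lit 213) (nat_lit 5) (nat_lit 207) (nat_lit 5) (nat_lit 594) (nat_lit 499) (nat_lit 467)) (XT.lf (nat_lit 0) (nat_lit 6039097635) (nat_lit 456) (nat_lit 2756007313) (nat_lit 532) (nat_lit 582805278) (nat_lit 200) (nat_lit 5) (nat_lit 206) (nat_lit 5) (nat_lit 207) (nat_lit 5)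 (nat_lit 595) (nat_lit 499) (nat_lit 466))))) (XT.nd (nat_lit 234) (nat_lit 1672) (nat_lit 0) (XT.nd (nat_lit 78) (nat_lit 456) (nat_lit 0) (XT.lf (nat_lit 0) (nat_lit 3146777610) (nat_lit 532) (nat_lit 5459829533) (nat_lit 76) (nat_lit 859777744) (nat_lit 193) (nat_lit 5) (nat_lit 200) (nat_lit 5) (nat_lit 194) (nat_lit 5) (nat_lit 596) (nat_lit 499) (nat_lit 465)) (XT.nd (nat_lit 78) (nat_lit 76) (nat_lit 0) (XT.lf (nat_lit 0) (nat_lit 1916051570) (nat_lit 380) (nat_lit 5030515046) (nat_lit 456) (nat_lit 2609919972) (nat_lit 188) (nat_lit 5) (nat_lit 193) (nat_lit 5) (nat_lit 194) (nat_lit 5) (nat_lit 597) (nat_lit 499) (nat_lit 464)) (XT.lf (nat_lit 0) (nat_lit 1145776266) (nat_lit 456) (nat_lit 216960184) (nat_lit 76) (nat_lit 8285760037) (nat_lit 187) (nat_lit 5) (nat_lit 193) (nat_lit 5) (nat_lit 188) (nat_lit 5) (nat_lit 598) (nat_lit 499) (nat_lit 463)))) (XT.nd (nat_lit 156) (nat_lit 836) (nat_lit 0) (XT.nd (nat_lit 78) (nat_lit 380) (nat_lit 0) (XT.lf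 (nat_lit 0) (nat_lit 4956480869) (nat_lit 532) (nat_lit 2396925029) (nat_lit 76) (nat_lit 2388301618) (nat_lit 181) (nat_lit 5) (nat_lit 188) (nat_lit 5) (nat_lit 182) (nat_lit 5) (nat_lit 599) (nat_lit 499) (nat_lit 462)) (XT.lf (nat_lit 0) (nat_lit 5209483900) (nat_lit 380) (nat_lit 3629854844) (nat_lit 456) (nat_lit 997527971) (nat_lit 176) (nat_lit 5) (nat_lit 181) (nat_lit 5) (nat_lit 182) (nat_lit 5) (nat_lit 600) (nat_lit 499) (nat_lit 461))) (XT.nd (nat_lit 78) (nat_lit 380) (nat_lit 0) (XT.lf (nat_lit 0) (nat_lit 2817159844) (nat_lit 456) (nat_lit 6921287380) (nat_lit 76) (nat_lit 195335908) (nat_lit 170) (nat_lit 5) (nat_lit 176) (nat_lit 5) (nat_lit 171) (nat_lit 5) (nat_lit 601) (nat_lit 499) (nat_lit 460)) (XT.lf (nat_lit 0) (nat_lit 740526724) (nat_lit 380) (nat_lit 5966455383) (nat_lit 456) (nat_lit 3325282519) (nat_lit 165) (nat_lit 5) (nat_lit 170) (nat_lit 5) (nat_lit 171) (nat_lit 5) (nat_lit 602) (nat_lit 499) (nat_lit 459)))))) (XT.nd (nat_lit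 546) (nat_lit 1672) (nat_lit 0) (XT.nd (nat_lit 234) (nat_lit 1216) (nat_lit 0) (XT.nd (nat_lit 78) (nat_lit 760) (nat_lit 0) (XT.lf (nat_lit 0) (nat_lit 533755860) (nat_lit 456) (nat_lit 1560580153) (nat_lit 76) (nat_lit 8038332294) (nat_lit 164) (nat_lit 5) (nat_lit 170) (nat_lit 5) (nat_lit 165) (nat_lit 5) (nat_lit 603) (nat_lit 499) (nat_lit 458)) (XT.nd (nat_lit 78) (nat_lit 380) (nat_lit 0) (XT.lf (nat_lit 0) (nat_lit 4431934548) (nat_lit 456) (nat_lit 3933982698) (nat_lit 76) (nat_lit 1868595941) (nat_lit 159) (nat_lit 5) (nat_lit 165) (nat_lit 5) (nat_lit 160) (nat_lit 5) (nat_lit 604) (nat_lit 499) (nat_lit 457)) (XT.lf (nat_lit 0) (nat_lit 3966729341) (nat_lit 380) (nat_lit 4444954086) (nat_lit 456) (nat_lit 1926641784) (nat_lit 154) (nat_lit 5) (nat_lit 159) (nat_lit 5) (nat_lit 160) (nat_lit 5) (nat_lit 605) (nat_lit 499) (nat_lit 456)))) (XT.nd (nat_lit 156) (nat_lit 760) (nat_lit 0) (XT.nd (nat_lit 78) (nat_lit 0) (nat_lit 0) (XT.lf (nat_lit 0) (nat_lit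 1569014383) (nat_lit 380) (nat_lit 421552087) (nat_lit 456) (nat_lit 8453579410) (nat_lit 148) (nat_lit 5) (nat_lit 153) (nat_lit 5) (nat_lit 154) (nat_lit 5) (nat_lit 606) (nat_lit 499) (nat_lit 455)) (XT.lf (nat_lit 0) (nat_lit 5981129949) (nat_lit 456) (nat_lit 906963585) (nat_lit 76) (nat_lit 3663320794) (nat_lit 148) (nat_lit 5) (nat_lit 154) (nat_lit 5) (nat_lit 149) (nat_lit 5) (nat_lit 607) (nat_lit 499) (nat_lit 454))) (XT.nd (nat_lit 78) (nat_lit 456) (nat_lit 0) (XT.lf (nat_lit 0) (nat_lit 7240589710) (nat_lit 304) (nat_lit 2815459301) (nat_lit 380) (nat_lit 604690446) (nat_lit 144) (nat_lit 5) (nat_lit 148) (nat_lit 5) (nat_lit 149) (nat_lit 5) (nat_lit 608) (nat_lit 499) (nat_lit 453)) (XT.lf (nat_lit 0) (nat_lit 3395894608) (nat_lit 456) (nat_lit 6021854194) (nat_lit 76) (nat_lit 1354041712) (nat_lit 138) (nat_lit 5) (nat_lit 144) (nat_lit 5) (nat_lit 139) (nat_lit 5) (nat_lit 609) (nat_lit 499) (nat_lit 452))))) (XT.nd (nat_lit 234) (nat_lit 988)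 (nat_lit 0) (XT.nd (nat_lit 78) (nat_lit 380) (nat_lit 0) (XT.lf (nat_lit 0) (nat_lit 2178429863) (nat_lit 304) (nat_lit 5300972366) (nat_lit 380) (nat_lit 3405362341) (nat_lit 134) (nat_lit 5) (nat_lit 138) (nat_lit 5) (nat_lit 139) (nat_lit 5) (nat_lit 610) (nat_lit 499) (nat_lit 451)) (XT.nd (nat_lit 78) (nat_lit 304) (nat_lit 0) (XT.lf (nat_lit 0) (nat_lit 632029293) (nat_lit 380) (nat_lit 451935310) (nat_lit 76) (nat_lit 9916033770) (nat_lit 133) (nat_lit 5) (nat_lit 138) (nat_lit 5) (nat_lit 134) (nat_lit 5) (nat_lit 611) (nat_lit 499) (nat_lit 450)) (XT.lf (nat_lit 0) (nat_lit 4733720967) (nat_lit 380) (nat_lit 3159711514) (nat_lit 76) (nat_lit 3223073134) (nat_lit 129) (nat_lit 5) (nat_lit 134) (nat_lit 5) (nat_lit 130) (nat_lit 5) (nat_lit 612) (nat_lit 499) (nat_lit 449)))) (XT.nd (nat_lit 156) (nat_lit 304) (nat_lit 0) (XT.nd (nat_lit 78) (nat_lit 380) (nat_lit 0) (XT.lf (nat_lit 0) (nat_lit 5295350439) (nat_lit 304) (nat_lit 3623034573) (nat_lit 380)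 (nat_lit 2316941135) (nat_lit 125) (nat_lit 5) (nat_lit 129) (nat_lit 5) (nat_lit 130) (nat_lit 5) (nat_lit 613) (nat_lit 499) (nat_lit 448)) (XT.lf (nat_lit 0) (nat_lit 1805495049) (nat_lit 380) (nat_lit 8805111864) (nat_lit 76) (nat_lit 745694766) (nat_lit 120) (nat_lit 5) (nat_lit 125) (nat_lit 5) (nat_lit 121) (nat_lit 5) (nat_lit 614) (nat_lit 499) (nat_lit 447))) (XT.nd (nat_lit 78) (nat_lit 304) (nat_lit 0) (XT.lf (nat_lit 0) (nat_lit 6000147913) (nat_lit 380) (nat_lit 297570869) (nat_lit 76) (nat_lit 5181257608) (nat_lit 120) (nat_lit 5) (nat_lit 125) (nat_lit 5) (nat_lit 121) (nat_lit 5) (nat_lit 615) (nat_lit 499) (nat_lit 446)) (XT.lf (nat_lit 0) (nat_lit 8420194114) (nat_lit 304) (nat_lit 1870664157) (nat_lit 380) (nat_lit 1313004803) (nat_lit 116) (nat_lit 5) (nat_lit 120) (nat_lit 5) (nat_lit 121) (nat_lit 5) (nat_lit 616) (nat_lit 499) (nat_lit 445))))))) (XT.nd (nat_lit 1092) (nat_lit 2128) (nat_lit 0) (XT.nd (nat_lit 546) (nat_lit 1520) (nat_lit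 0) (XT.nd (nat_lit 234) (nat_lit 988) (nat_lit 0) (XT.nd (nat_lit 78) (nat_lit 228) (nat_lit 0) (XT.lf (nat_lit 0) (nat_lit 2910756139) (nat_lit 380) (nat_lit 6179686198) (nat_lit 76) (nat_lit 2640163014) (nat_lit 111) (nat_lit 5) (nat_lit 116) (nat_lit 5) (nat_lit 112) (nat_lit 5) (nat_lit 617) (nat_lit 499) (nat_lit 444)) (XT.nd (nat_lit 78) (nat_lit 0) (nat_lit 0) (XT.lf (nat_lit 0) (nat_lit 2585930215) (nat_lit 228) (nat_lit 4623970352) (nat_lit 304) (nat_lit 4649640205) (nat_lit 108) (nat_lit 5) (nat_lit 111) (nat_lit 5) (nat_lit 112) (nat_lit 5) (nat_lit 618) (nat_lit 499) (nat_lit 443)) (XT.lf (nat_lit 0) (nat_lit 11540432440) (nat_lit 228) (nat_lit 54225618) (nat_lit 304) (nat_lit 396405873) (nat_lit 108) (nat_lit 5) (nat_lit 111) (nat_lit 5) (nat_lit 112) (nat_lit 5) (nat_lit 619) (nat_lit 499) (nat_lit 442)))) (XT.nd (nat_lit 156) (nat_lit 380) (nat_lit 0) (XT.nd (nat_lit 78) (nat_lit 228) (nat_lit 0) (XT.lf (nat_lit 0) (nat_lit 3934786956) (nat_lit 380)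 (nat_lit 3588494237) (nat_lit 76) (nat_lit 4600534216) (nat_lit 103) (nat_lit 5) (nat_lit 108) (nat_lit 5) (nat_lit 104) (nat_lit 5) (nat_lit 620) (nat_lit 499) (nat_lit 441)) (XT.lf (nat_lit 0) (nat_lit 5446821750) (nat_lit 228) (nat_lit 2898135382) (nat_lit 304) (nat_lit 3914260690) (nat_lit 100) (nat_lit 5) (nat_lit 103) (nat_lit 5) (nat_lit 104) (nat_lit 5) (nat_lit 621) (nat_lit 499) (nat_lit 440))) (XT.nd (nat_lit 78) (nat_lit 0) (nat_lit 0) (XT.lf (nat_lit 0) (nat_lit 450022965) (nat_lit 380) (nat_lit 10137477162) (nat_lit 76) (nat_lit 1809574322) (nat_lit 95) (nat_lit 5) (nat_lit 100) (nat_lit 5) (nat_lit 96) (nat_lit 5) (nat_lit 622) (nat_lit 499) (nat_lit 439)) (XT.lf (nat_lit 0) (nat_lit 4873584965) (nat_lit 380) (nat_lit 1046628065) (nat_lit 76) (nat_lit 6616471072) (nat_lit 95) (nat_lit 5) (nat_lit 100) (nat_lit 5) (nat_lit 96) (nat_lit 5) (nat_lit 623) (nat_lit 499) (nat_lit 438))))) (XT.nd (nat_lit 234) (nat_lit 760) (nat_lit 0) (XT.nd (nat_lit 78)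 (nat_lit 532) (nat_lit 0) (XT.lf (nat_lit 0) (nat_lit 8266006474) (nat_lit 228) (nat_lit 1133226372) (nat_lit 304) (nat_lit 3279582231) (nat_lit 92) (nat_lit 5) (nat_lit 95) (nat_lit 5) (nat_lit 96) (nat_lit 5) (nat_lit 624) (nat_lit 499) (nat_lit 437)) (XT.nd (nat_lit 78) (nat_lit 228) (nat_lit 0) (XT.lf (nat_lit 0) (nat_lit 1199641671) (nat_lit 304) (nat_lit 7904154317) (nat_lit 76) (nat_lit 3719366022) (nat_lit 88) (nat_lit 5) (nat_lit 92) (nat_lit 5) (nat_lit 89) (nat_lit 5) (nat_lit 625) (nat_lit 499) (nat_lit 436)) (XT.lf (nat_lit 0) (nat_lit 1448366501) (nat_lit 228) (nat_lit 4283110923) (nat_lit 304) (nat_lit 7238347418) (nat_lit 85) (nat_lit 5) (nat_lit 88) (nat_lit 5) (nat_lit 89) (nat_lit 5) (nat_lit 626) (nat_lit 499) (nat_lit 435)))) (XT.nd (nat_lit 156) (nat_lit 456) (nat_lit 0) (XT.nd (nat_lit 78) (nat_lit 304) (nat_lit 0) (XT.lf (nat_lit 0) (nat_lit 10371792503) (nat_lit 304) (nat_lit 2096581928) (nat_lit 76) (nat_lit 650690961) (nat_lit 85) (nat_lit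 5) (nat_lit 89) (nat_lit 5) (nat_lit 86) (nat_lit 5) (nat_lit 627) (nat_lit 499) (nat_lit 434)) (XT.lf (nat_lit 0) (nat_lit 1848125958) (nat_lit 304) (nat_lit 5763122545) (nat_lit 76) (nat_lit 5659034388) (nat_lit 81) (nat_lit 5) (nat_lit 85) (nat_lit 5) (nat_lit 82) (nat_lit 5) (nat_lit 628) (nat_lit 499) (nat_lit 433))) (XT.nd (nat_lit 78) (nat_lit 228) (nat_lit 0) (XT.lf (nat_lit 0) (nat_lit 3872091646) (nat_lit 228) (nat_lit 2627074492) (nat_lit 304) (nat_lit 6924986264) (nat_lit 78) (nat_lit 5) (nat_lit 81) (nat_lit 5) (nat_lit 82) (nat_lit 5) (nat_lit 629) (nat_lit 499) (nat_lit 432)) (XT.lf (nat_lit 0) (nat_lit 115412310) (nat_lit 228) (nat_lit 11144766886) (nat_lit 304) (nat_lit 2320582279) (nat_lit 75) (nat_lit 5) (nat_lit 78) (nat_lit 5) (nat_lit 79) (nat_lit 5) (nat_lit 630) (nat_lit 499) (nat_lit 431)))))) (XT.nd (nat_lit 546) (nat_lit 1064) (nat_lit 0) (XT.nd (nat_lit 234) (nat_lit 532) (nat_lit 0) (XT.nd (nat_lit 78) (nat_lit 456) (nat_lit 0) (XT.lf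 (nat_lit 0) (nat_lit 2388059522) (nat_lit 304) (nat_lit 3734521529) (nat_lit 76) (nat_lit 7616748121) (nat_lit 74) (nat_lit 5) (nat_lit 78) (nat_lit 5) (nat_lit 75) (nat_lit 5) (nat_lit 631) (nat_lit 499) (nat_lit 430)) (XT.nd (nat_lit 78) (nat_lit 228) (nat_lit 0) (XT.lf (nat_lit 0) (nat_lit 6190302279) (nat_lit 228) (nat_lit 971865487) (nat_lit 304) (nat_lit 6738547497) (nat_lit 71) (nat_lit 5) (nat_lit 74) (nat_lit 5) (nat_lit 75) (nat_lit 5) (nat_lit 632) (nat_lit 499) (nat_lit 429)) (XT.lf (nat_lit 0) (nat_lit 2234182908) (nat_lit 228) (nat_lit 9827382872) (nat_lit 304) (nat_lit 2003168265) (nat_lit 68) (nat_lit 5) (nat_lit 71) (nat_lit 5) (nat_lit 72) (nat_lit 5) (nat_lit 633) (nat_lit 499) (nat_lit 428)))) (XT.nd (nat_lit 156) (nat_lit 304) (nat_lit 0) (XT.nd (nat_lit 78) (nat_lit 152) (nat_lit 0) (XT.lf (nat_lit 0) (nat_lit 2810698797) (nat_lit 304) (nat_lit 1840576982) (nat_lit 76) (nat_lit 9579974299) (nat_lit 67) (nat_lit 5) (nat_lit 71) (nat_lit 5)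 (nat_lit 68) (nat_lit 5) (nat_lit 634) (nat_lit 499) (nat_lit 427)) (XT.lf (nat_lit 0) (nat_lit 7715875731) (nat_lit 228) (nat_lit 6024309699) (nat_lit 76) (nat_lit 660210142) (nat_lit 65) (nat_lit 5) (nat_lit 68) (nat_lit 5) (nat_lit 66) (nat_lit 5) (nat_lit 635) (nat_lit 499) (nat_lit 426))) (XT.nd (nat_lit 78) (nat_lit 76) (nat_lit 0) (XT.lf (nat_lit 0) (nat_lit 4208214557) (nat_lit 228) (nat_lit 8544693981) (nat_lit 304) (nat_lit 1819341428) (nat_lit 62) (nat_lit 5) (nat_lit 65) (nat_lit 5) (nat_lit 66) (nat_lit 5) (nat_lit 636) (nat_lit 499) (nat_lit 425)) (XT.lf (nat_lit 0) (nat_lit 3105862136) (nat_lit 304) (nat_lit 105862932) (nat_lit 76) (nat_lit 11535330338) (nat_lit 61) (nat_lit 5) (nat_lit 65) (nat_lit 5) (nat_lit 62) (nat_lit 5) (nat_lit 637) (nat_lit 499) (nat_lit 424))))) (XT.nd (nat_lit 234) (nat_lit 456) (nat_lit 0) (XT.nd (nat_lit 78) (nat_lit 456) (nat_lit 0) (XT.lf (nat_lit 0) (nat_lit 8151651785) (nat_lit 228) (nat_lit 4521459231) (nat_lit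 76) (nat_lit 2251077540) (nat_lit 59) (nat_lit 5) (nat_lit 62) (nat_lit 5) (nat_lit 60) (nat_lit 5) (nat_lit 638) (nat_lit 499) (nat_lit 423)) (XT.nd (nat_lit 78) (nat_lit 228) (nat_lit 0) (XT.lf (nat_lit 0) (nat_lit 6011311380) (nat_lit 228) (nat_lit 7312141108) (nat_lit 304) (nat_lit 1780910932) (nat_lit 56) (nat_lit 5) (nat_lit 59) (nat_lit 5) (nat_lit 60) (nat_lit 5) (nat_lit 639) (nat_lit 499) (nat_lit 422)) (XT.lf (nat_lit 0) (nat_lit 1461579451) (nat_lit 152) (nat_lit 1809714909) (nat_lit 228) (nat_lit 12016335148) (nat_lit 53) (nat_lit 5) (nat_lit 55) (nat_lit 5) (nat_lit 56) (nat_lit 5) (nat_lit 640) (nat_lit 499) (nat_lit 421)))) (XT.nd (nat_lit 156) (nat_lit 228) (nat_lit 0) (XT.nd (nat_lit 78) (nat_lit 228) (nat_lit 0) (XT.lf (nat_lit 0) (nat_lit 8451070157) (nat_lit 228) (nat_lit 3224157330) (nat_lit 76) (nat_lit 3798091441) (nat_lit 53) (nat_lit 5) (nat_lit 56) (nat_lit 5) (nat_lit 54) (nat_lit 5) (nat_lit 641) (nat_lit 499) (nat_lit 420)) (XT.lf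 (nat_lit 0) (nat_lit 7614426655) (nat_lit 228) (nat_lit 6146376019) (nat_lit 304) (nat_lit 1901393123) (nat_lit 50) (nat_lit 5) (nat_lit 53) (nat_lit 5) (nat_lit 54) (nat_lit 5) (nat_lit 642) (nat_lit 499) (nat_lit 419))) (XT.nd (nat_lit 78) (nat_lit 0) (nat_lit 0) (XT.lf (nat_lit 0) (nat_lit 2810947591) (nat_lit 152) (nat_lit 472381517) (nat_lit 228) (nat_lit 12570990258) (nat_lit 47) (nat_lit 5) (nat_lit 49) (nat_lit 5) (nat_lit 50) (nat_lit 5) (nat_lit 643) (nat_lit 499) (nat_lit 418)) (XT.lf (nat_lit 0) (nat_lit 8600264150) (nat_lit 228) (nat_lit 2164108906) (nat_lit 76) (nat_lit 5284582257) (nat_lit 47) (nat_lit 5) (nat_lit 50) (nat_lit 5) (nat_lit 48) (nat_lit 5) (nat_lit 644) (nat_lit 499) (nat_lit 417))))))))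
noncomputable def xc38 : XT := (XT.nd (nat_lit 76206) (nat_lit 0) (nat_lit 8436) (XT.nd (nat_lit 75114) (nat_lit 0) (nat_lit 19152) (XT.nd (nat_lit 74568) (nat_lit 0) (nat_lit 27512) (XT.nd (nat_lit 234) (nat_lit 380) (nat_lit 0) (XT.nd (nat_lit 78) (nat_lit 228) (nat_lit 0) (XT.lf (nat_lit 0) (nat_lit 8985324500) (nat_lit 152) (nat_lit 5065447785) (nat_lit 228) (nat_lit 2196167825) (nat_lit 45) (nat_lit 5) (nat_lit 47) (nat_lit 5) (nat_lit 48) (nat_lit 5) (nat_lit 645) (nat_lit 499) (nat_lit 416)) (XT.nd (nat_lit 78) (nat_lit 0) (nat_lit 0) (XT.lf (nat_lit 0) (nat_lit 3130812553) (nat_lit 228) (nat_lit 12546502367) (nat_lit 76) (nat_lit 770942570) (nat_lit 42) (nat_lit 5) (nat_lit 45) (nat_lit 5) (nat_lit 43) (nat_lit 5) (nat_lit 646) (nat_lit 499) (nat_lit 415)) (XT.lf (nat_lit 0) (nat_lit 8583451958) (nat_lit 228) (nat_lit 1376479276) (nat_lit 76) (nat_lit 6692409896) (nat_lit 42) (nat_lit 5) (nat_lit 45) (nat_lit 5) (nat_lit 43) (nat_lit 5) (nat_lit 647) (nat_lit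 499) (nat_lit 414)))) (XT.nd (nat_lit 78) (nat_lit 228) (nat_lit 0) (XT.lf (nat_lit 0) (nat_lit 10088207690) (nat_lit 152) (nat_lit 4089005044) (nat_lit 228) (nat_lit 2682653093) (nat_lit 40) (nat_lit 5) (nat_lit 42) (nat_lit 5) (nat_lit 43) (nat_lit 5) (nat_lit 648) (nat_lit 499) (nat_lit 413)) (XT.nd (nat_lit 78) (nat_lit 0) (nat_lit 0) (XT.lf (nat_lit 0) (nat_lit 2793475273) (nat_lit 228) (nat_lit 12371697895) (nat_lit 76) (nat_lit 1905622750) (nat_lit 37) (nat_lit 5) (nat_lit 40) (nat_lit 5) (nat_lit 38) (nat_lit 5) (nat_lit 649) (nat_lit 499) (nat_lit 412)) (XT.lf (nat_lit 0) (nat_lit 8382753270) (nat_lit 228) (nat_lit 900291771) (nat_lit 76) (nat_lit 8001754679) (nat_lit 37) (nat_lit 5) (nat_lit 40) (nat_lit 5) (nat_lit 38) (nat_lit 5) (nat_lit 650) (nat_lit 499) (nat_lit 411))))) (XT.nd (nat_lit 234) (nat_lit 2736) (nat_lit 0) (XT.nd (nat_lit 78) (nat_lit 988) (nat_lit 0) (XT.lf (nat_lit 0) (nat_lit 1217060638) (nat_lit 1064) (nat_lit 1193816956) (nat_lit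 1064) (nat_lit 1193816956) (nat_lit 448) (nat_lit 4) (nat_lit 462) (nat_lit 5) (nat_lit 462) (nat_lit 4) (nat_lit 560) (nat_lit 500) (nat_lit 500)) (XT.nd (nat_lit 78) (nat_lit 0) (nat_lit 0) (XT.lf (nat_lit 0) (nat_lit 683262120) (nat_lit 912) (nat_lit 477111239) (nat_lit 988) (nat_lit 6088430203) (nat_lit 435) (nat_lit 5) (nat_lit 447) (nat_lit 5) (nat_lit 448) (nat_lit 4) (nat_lit 561) (nat_lit 500) (nat_lit 499)) (XT.lf (nat_lit 0) (nat_lit 4720556226) (nat_lit 988) (nat_lit 1072457152) (nat_lit 0) (nat_lit 1496221379) (nat_lit 435) (nat_lit 5) (nat_lit 448) (nat_lit 4) (nat_lit 435) (nat_lit 4) (nat_lit 562) (nat_lit 500) (nat_lit 498)))) (XT.nd (nat_lit 156) (nat_lit 912) (nat_lit 0) (XT.nd (nat_lit 78) (nat_lit 836) (nat_lit 0) (XT.lf (nat_lit 0) (nat_lit 972989891) (nat_lit 988) (nat_lit 2823802490) (nat_lit 76) (nat_lit 3534258690) (nat_lit 422) (nat_lit 5) (nat_lit 435) (nat_lit 5) (nat_lit 423) (nat_lit 4) (nat_lit 563) (nat_lit 500) (nat_lit 497)) (XT.lf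 (nat_lit 0) (nat_lit 2785835869) (nat_lit 836) (nat_lit 1723718938) (nat_lit 912) (nat_lit 2864647530) (nat_lit 411) (nat_lit 5) (nat_lit 422) (nat_lit 5) (nat_lit 423) (nat_lit 4) (nat_lit 564) (nat_lit 500) (nat_lit 496))) (XT.nd (nat_lit 78) (nat_lit 0) (nat_lit 0) (XT.lf (nat_lit 0) (nat_lit 651636034) (nat_lit 912) (nat_lit 6357817575) (nat_lit 76) (nat_lit 409436083) (nat_lit 399) (nat_lit 5) (nat_lit 411) (nat_lit 5) (nat_lit 400) (nat_lit 4) (nat_lit 565) (nat_lit 500) (nat_lit 495)) (XT.lf (nat_lit 0) (nat_lit 4176603538) (nat_lit 912) (nat_lit 683115598) (nat_lit 76) (nat_lit 2604845568) (nat_lit 399) (nat_lit 5) (nat_lit 411) (nat_lit 5) (nat_lit 400) (nat_lit 4) (nat_lit 566) (nat_lit 500) (nat_lit 494)))))) (XT.nd (nat_lit 546) (nat_lit 3496) (nat_lit 0) (XT.nd (nat_lit 234) (nat_lit 2356) (nat_lit 0) (XT.nd (nat_lit 78) (nat_lit 1596) (nat_lit 0) (XT.lf (nat_lit 0) (nat_lit 225946613) (nat_lit 912) (nat_lit 2414225852) (nat_lit 76) (nat_lit 4871584507)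 (nat_lit 387) (nat_lit 5) (nat_lit 399) (nat_lit 5) (nat_lit 388) (nat_lit 5) (nat_lit 567) (nat_lit 500) (nat_lit 493)) (XT.nd (nat_lit 78) (nat_lit 760) (nat_lit 0) (XT.lf (nat_lit 0) (nat_lit 3392653097) (nat_lit 836) (nat_lit 336061029) (nat_lit 912) (nat_lit 3831498678) (nat_lit 376) (nat_lit 5) (nat_lit 387) (nat_lit 5) (nat_lit 388) (nat_lit 5) (nat_lit 568) (nat_lit 500) (nat_lit 492)) (XT.lf (nat_lit 0) (nat_lit 1673834885) (nat_lit 760) (nat_lit 5604601225) (nat_lit 836) (nat_lit 331670064) (nat_lit 366) (nat_lit 5) (nat_lit 376) (nat_lit 5) (nat_lit 377) (nat_lit 4) (nat_lit 569) (nat_lit 500) (nat_lit 491)))) (XT.nd (nat_lit 156) (nat_lit 1520) (nat_lit 0) (XT.nd (nat_lit 78) (nat_lit 760) (nat_lit 0) (XT.lf (nat_lit 0) (nat_lit 3163053950) (nat_lit 836) (nat_lit 69694694) (nat_lit 76) (nat_lit 4428487085) (nat_lit 365) (nat_lit 5) (nat_lit 376) (nat_lit 5) (nat_lit 366) (nat_lit 5) (nat_lit 570) (nat_lit 500) (nat_lit 490)) (XT.lf (nat_lit 0) (nat_lit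 5916702500) (nat_lit 760) (nat_lit 783174190) (nat_lit 836) (nat_lit 1013940469) (nat_lit 355) (nat_lit 5) (nat_lit 365) (nat_lit 5) (nat_lit 366) (nat_lit 5) (nat_lit 571) (nat_lit 500) (nat_lit 489))) (XT.nd (nat_lit 78) (nat_lit 760) (nat_lit 0) (XT.lf (nat_lit 0) (nat_lit 2484467371) (nat_lit 760) (nat_lit 3557198942) (nat_lit 76) (nat_lit 1725903998) (nat_lit 345) (nat_lit 5) (nat_lit 355) (nat_lit 5) (nat_lit 346) (nat_lit 5) (nat_lit 572) (nat_lit 500) (nat_lit 488)) (XT.lf (nat_lit 0) (nat_lit 2486930040) (nat_lit 760) (nat_lit 3525033074) (nat_lit 836) (nat_lit 1810853130) (nat_lit 335) (nat_lit 5) (nat_lit 345) (nat_lit 5) (nat_lit 346) (nat_lit 5) (nat_lit 573) (nat_lit 500) (nat_lit 487))))) (XT.nd (nat_lit 234) (nat_lit 1976) (nat_lit 0) (XT.nd (nat_lit 78) (nat_lit 760) (nat_lit 0) (XT.lf (nat_lit 0) (nat_lit 745615466) (nat_lit 684) (nat_lit 930918436) (nat_lit 760) (nat_lit 6203046055) (nat_lit 325) (nat_lit 5) (nat_lit 334) (nat_lit 5) (nat_lit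 335) (nat_lit 5) (nat_lit 574) (nat_lit 500) (nat_lit 486)) (XT.nd (nat_lit 78) (nat_lit 760) (nat_lit 0) (XT.lf (nat_lit 0) (nat_lit 5196762144) (nat_lit 760) (nat_lit 1013911101) (nat_lit 76) (nat_lit 1726824848) (nat_lit 325) (nat_lit 5) (nat_lit 335) (nat_lit 5) (nat_lit 326) (nat_lit 5) (nat_lit 575) (nat_lit 500) (nat_lit 485)) (XT.lf (nat_lit 0) (nat_lit 761672571) (nat_lit 760) (nat_lit 2784550146) (nat_lit 76) (nat_lit 4450629858) (nat_lit 315) (nat_lit 5) (nat_lit 325) (nat_lit 5) (nat_lit 316) (nat_lit 5) (nat_lit 576) (nat_lit 500) (nat_lit 484)))) (XT.nd (nat_lit 156) (nat_lit 684) (nat_lit 0) (XT.nd (nat_lit 78) (nat_lit 684) (nat_lit 0) (XT.lf (nat_lit 0) (nat_lit 3473191596) (nat_lit 608) (nat_lit 795273527) (nat_lit 684) (nat_lit 3789151061) (nat_lit 307) (nat_lit 5) (nat_lit 315) (nat_lit 5) (nat_lit 316) (nat_lit 5) (nat_lit 577) (nat_lit 500) (nat_lit 483)) (XT.lf (nat_lit 0) (nat_lit 1709590653) (nat_lit 684) (nat_lit 6120937092) (nat_lit 760)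 (nat_lit 289369590) (nat_lit 298) (nat_lit 5) (nat_lit 307) (nat_lit 5) (nat_lit 308) (nat_lit 5) (nat_lit 578) (nat_lit 500) (nat_lit 482))) (XT.nd (nat_lit 78) (nat_lit 608) (nat_lit 0) (XT.lf (nat_lit 0) (nat_lit 3216060321) (nat_lit 760) (nat_lit 92494229) (nat_lit 76) (nat_lit 4874874827) (nat_lit 297) (nat_lit 5) (nat_lit 307) (nat_lit 5) (nat_lit 298) (nat_lit 5) (nat_lit 579) (nat_lit 500) (nat_lit 481)) (XT.lf (nat_lit 0) (nat_lit 6360087838) (nat_lit 608) (nat_lit 412504058) (nat_lit 684) (nat_lit 1475909221) (nat_lit 289) (nat_lit 5) (nat_lit 297) (nat_lit 5) (nat_lit 298) (nat_lit 5) (nat_lit 580) (nat_lit 500) (nat_lit 480))))))) (XT.nd (nat_lit 1014) (nat_lit 4864) (nat_lit 0) (XT.nd (nat_lit 468) (nat_lit 2736) (nat_lit 0) (XT.nd (nat_lit 234) (nat_lit 1140) (nat_lit 0) (XT.nd (nat_lit 78) (nat_lit 1292) (nat_lit 0) (XT.lf (nat_lit 0) (nat_lit 2049043123) (nat_lit 684) (nat_lit 3730236371) (nat_lit 76) (nat_lit 2535508221) (nat_lit 280) (nat_lit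 5) (nat_lit 289) (nat_lit 5) (nat_lit 281) (nat_lit 5) (nat_lit 581) (nat_lit 500) (nat_lit 479)) (XT.nd (nat_lit 78) (nat_lit 684) (nat_lit 0) (XT.lf (nat_lit 0) (nat_lit 2780428259) (nat_lit 608) (nat_lit 2822209623) (nat_lit 684) (nat_lit 2780013329) (nat_lit 272) (nat_lit 5) (nat_lit 280) (nat_lit 5) (nat_lit 281) (nat_lit 5) (nat_lit 582) (nat_lit 500) (nat_lit 478)) (XT.lf (nat_lit 0) (nat_lit 742624361) (nat_lit 684) (nat_lit 7499957411) (nat_lit 76) (nat_lit 209646505) (nat_lit 263) (nat_lit 5) (nat_lit 272) (nat_lit 5) (nat_lit 264) (nat_lit 5) (nat_lit 583) (nat_lit 500) (nat_lit 477)))) (XT.nd (nat_lit 78) (nat_lit 1140) (nat_lit 0) (XT.lf (nat_lit 0) (nat_lit 4300137088) (nat_lit 684) (nat_lit 920619441) (nat_lit 76) (nat_lit 3302044047) (nat_lit 263) (nat_lit 5) (nat_lit 272) (nat_lit 5) (nat_lit 264) (nat_lit 5) (nat_lit 584) (nat_lit 500) (nat_lit 476)) (XT.nd (nat_lit 78) (nat_lit 608) (nat_lit 0) (XT.lf (nat_lit 0) (nat_lit 5793127486) (nat_lit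 532) (nat_lit 2119441197) (nat_lit 608) (nat_lit 682544327) (nat_lit 256) (nat_lit 5) (nat_lit 263) (nat_lit 5) (nat_lit 264) (nat_lit 5) (nat_lit 585) (nat_lit 500) (nat_lit 475)) (XT.lf (nat_lit 0) (nat_lit 2875166961) (nat_lit 608) (nat_lit 4731753009) (nat_lit 76) (nat_lit 1061871450) (nat_lit 248) (nat_lit 5) (nat_lit 256) (nat_lit 5) (nat_lit 249) (nat_lit 5) (nat_lit 586) (nat_lit 500) (nat_lit 474))))) (XT.nd (nat_lit 234) (nat_lit 1596) (nat_lit 0) (XT.nd (nat_lit 78) (nat_lit 608) (nat_lit 0) (XT.lf (nat_lit 0) (nat_lit 2039480940) (nat_lit 532) (nat_lit 4448457829) (nat_lit 608) (nat_lit 2256057314) (nat_lit 241) (nat_lit 5) (nat_lit 248) (nat_lit 5) (nat_lit 249) (nat_lit 5) (nat_lit 587) (nat_lit 500) (nat_lit 473)) (XT.nd (nat_lit 78) (nat_lit 0) (nat_lit 0) (XT.lf (nat_lit 0) (nat_lit 108578675) (nat_lit 532) (nat_lit 1205661313) (nat_lit 608) (nat_lit 7506698656) (nat_lit 233) (nat_lit 5) (nat_lit 240) (nat_lit 5) (nat_lit 241) (nat_lit 5) (nat_lit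 588) (nat_lit 500) (nat_lit 472)) (XT.lf (nat_lit 0) (nat_lit 4932168379) (nat_lit 608) (nat_lit 1853082539) (nat_lit 76) (nat_lit 2113745819) (nat_lit 233) (nat_lit 5) (nat_lit 241) (nat_lit 5) (nat_lit 234) (nat_lit 5) (nat_lit 589) (nat_lit 500) (nat_lit 471)))) (XT.nd (nat_lit 156) (nat_lit 532) (nat_lit 0) (XT.nd (nat_lit 78) (nat_lit 608) (nat_lit 0) (XT.lf (nat_lit 0) (nat_lit 5129640827) (nat_lit 456) (nat_lit 3482603280) (nat_lit 532) (nat_lit 366579646) (nat_lit 227) (nat_lit 5) (nat_lit 233) (nat_lit 5) (nat_lit 234) (nat_lit 5) (nat_lit 590) (nat_lit 500) (nat_lit 470)) (XT.lf (nat_lit 0) (nat_lit 3163852608) (nat_lit 532) (nat_lit 80223343) (nat_lit 608) (nat_lit 5816110376) (nat_lit 219) (nat_lit 5) (nat_lit 226) (nat_lit 5) (nat_lit 227) (nat_lit 5) (nat_lit 591) (nat_lit 500) (nat_lit 469))) (XT.nd (nat_lit 78) (nat_lit 76) (nat_lit 0) (XT.lf (nat_lit 0) (nat_lit 1143421832) (nat_lit 456) (nat_lit 5783143238) (nat_lit 532) (nat_lit 2216475375) (nat_lit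 213) (nat_lit 5) (nat_lit 219) (nat_lit 5) (nat_lit 220) (nat_lit 5) (nat_lit 592) (nat_lit 500) (nat_lit 468)) (XT.lf (nat_lit 0) (nat_lit 1425702912) (nat_lit 532) (nat_lit 906925633) (nat_lit 76) (nat_lit 6894944645) (nat_lit 212) (nat_lit 5) (nat_lit 219) (nat_lit 5) (nat_lit 213) (nat_lit 5) (nat_lit 593) (nat_lit 500) (nat_lit 467)))))) (XT.nd (nat_lit 546) (nat_lit 2128) (nat_lit 0) (XT.nd (nat_lit 234) (nat_lit 1292) (nat_lit 0) (XT.nd (nat_lit 78) (nat_lit 988) (nat_lit 0) (XT.lf (nat_lit 0) (nat_lit 5110327441) (nat_lit 532) (nat_lit 2998106986) (nat_lit 76) (nat_lit 1205086659) (nat_lit 206) (nat_lit 5) (nat_lit 213) (nat_lit 5) (nat_lit 207) (nat_lit 5) (nat_lit 594) (nat_lit 500) (nat_lit 466)) (XT.nd (nat_lit 78) (nat_lit 532) (nat_lit 0) (XT.lf (nat_lit 0) (nat_lit 4261085053) (nat_lit 456) (nat_lit 4607429362) (nat_lit 532) (nat_lit 532679204) (nat_lit 200) (nat_lit 5) (nat_lit 206) (nat_lit 5) (nat_lit 207) (nat_lit 5) (nat_lit 595) (nat_lit 500)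 (nat_lit 465)) (XT.lf (nat_lit 0) (nat_lit 2150183189) (nat_lit 456) (nat_lit 1003961086) (nat_lit 532) (nat_lit 6336361001) (nat_lit 193) (nat_lit 5) (nat_lit 199) (nat_lit 5) (nat_lit 200) (nat_lit 5) (nat_lit 596) (nat_lit 500) (nat_lit 464)))) (XT.nd (nat_lit 156) (nat_lit 836) (nat_lit 0) (XT.nd (nat_lit 78) (nat_lit 456) (nat_lit 0) (XT.lf (nat_lit 0) (nat_lit 6910787754) (nat_lit 532) (nat_lit 19319812) (nat_lit 76) (nat_lit 2651363757) (nat_lit 193) (nat_lit 5) (nat_lit 200) (nat_lit 5) (nat_lit 194) (nat_lit 5) (nat_lit 597) (nat_lit 500) (nat_lit 463)) (XT.lf (nat_lit 0) (nat_lit 1061575130) (nat_lit 456) (nat_lit 2213531224) (nat_lit 76) (nat_lit 6398868829) (nat_lit 187) (nat_lit 5) (nat_lit 193) (nat_lit 5) (nat_lit 188) (nat_lit 5) (nat_lit 598) (nat_lit 500) (nat_lit 462))) (XT.nd (nat_lit 78) (nat_lit 380) (nat_lit 0) (XT.lf (nat_lit 0) (nat_lit 4822693239) (nat_lit 532) (nat_lit 4469778551) (nat_lit 76) (nat_lit 475707505) (nat_lit 181) (nat_lit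 5) (nat_lit 188) (nat_lit 5) (nat_lit 182) (nat_lit 5) (nat_lit 599) (nat_lit 500) (nat_lit 461)) (XT.lf (nat_lit 0) (nat_lit 3072812387) (nat_lit 380) (nat_lit 5595387806) (nat_lit 456) (nat_lit 1195886646) (nat_lit 176) (nat_lit 5) (nat_lit 181) (nat_lit 5) (nat_lit 182) (nat_lit 5) (nat_lit 600) (nat_lit 500) (nat_lit 460))))) (XT.nd (nat_lit 234) (nat_lit 1216) (nat_lit 0) (XT.nd (nat_lit 78) (nat_lit 456) (nat_lit 0) (XT.lf (nat_lit 0) (nat_lit 786114244) (nat_lit 380) (nat_lit 1796135673) (nat_lit 456) (nat_lit 7379563426) (nat_lit 170) (nat_lit 5) (nat_lit 175) (nat_lit 5) (nat_lit 176) (nat_lit 5) (nat_lit 601) (nat_lit 500) (nat_lit 459)) (XT.nd (nat_lit 78) (nat_lit 456) (nat_lit 0) (XT.lf (nat_lit 0) (nat_lit 6432345122) (nat_lit 456) (nat_lit 1547955285) (nat_lit 76) (nat_lit 2080790224) (nat_lit 170) (nat_lit 5) (nat_lit 176) (nat_lit 5) (nat_lit 171) (nat_lit 5) (nat_lit 602) (nat_lit 500) (nat_lit 458)) (XT.lf (nat_lit 0) (nat_lit 200834067) (nat_lit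 456) (nat_lit 3932717861) (nat_lit 76) (nat_lit 6028651767) (nat_lit 164) (nat_lit 5) (nat_lit 170) (nat_lit 5) (nat_lit 165) (nat_lit 5) (nat_lit 603) (nat_lit 500) (nat_lit 457)))) (XT.nd (nat_lit 156) (nat_lit 456) (nat_lit 0) (XT.nd (nat_lit 78) (nat_lit 380) (nat_lit 0) (XT.lf (nat_lit 0) (nat_lit 3873552801) (nat_lit 380) (nat_lit 174594836) (nat_lit 456) (nat_lit 6216919417) (nat_lit 159) (nat_lit 5) (nat_lit 164) (nat_lit 5) (nat_lit 165) (nat_lit 5) (nat_lit 604) (nat_lit 500) (nat_lit 456)) (XT.lf (nat_lit 0) (nat_lit 1441693916) (nat_lit 380) (nat_lit 6546077517) (nat_lit 456) (nat_lit 2381911302) (nat_lit 154) (nat_lit 5) (nat_lit 159) (nat_lit 5) (nat_lit 160) (nat_lit 5) (nat_lit 605) (nat_lit 500) (nat_lit 455))) (XT.nd (nat_lit 78) (nat_lit 380) (nat_lit 0) (XT.lf (nat_lit 0) (nat_lit 1508548144) (nat_lit 456) (nat_lit 1040588587) (nat_lit 76) (nat_lit 7927081298) (nat_lit 153) (nat_lit 5) (nat_lit 159) (nat_lit 5) (nat_lit 154) (nat_lit 5) (nat_lit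 606) (nat_lit 500) (nat_lit 454)) (XT.lf (nat_lit 0) (nat_lit 5456001600) (nat_lit 456) (nat_lit 3584462240) (nat_lit 76) (nat_lit 1543885925) (nat_lit 148) (nat_lit 5) (nat_lit 154) (nat_lit 5) (nat_lit 149) (nat_lit 5) (nat_lit 607) (nat_lit 500) (nat_lit 453))))))))
noncomputable def xc39 : XT := (XT.nd (nat_lit 2106) (nat_lit 2280) (nat_lit 0) (XT.nd (nat_lit 1014) (nat_lit 2736) (nat_lit 0) (XT.nd (nat_lit 468) (nat_lit 1672) (nat_lit 0) (XT.nd (nat_lit 234) (nat_lit 988) (nat_lit 0) (XT.nd (nat_lit 78) (nat_lit 456) (nat_lit 0) (XT.lf (nat_lit 0) (nat_lit 4492026716) (nat_lit 304) (nat_lit 4999082749) (nat_lit 380) (nat_lit 1203362720) (nat_lit 144) (nat_lit 5) (nat_lit 148) (nat_lit 5) (nat_lit 149) (nat_lit 5) (nat_lit 608) (nat_lit 500) (nat_lit 452)) (XT.nd (nat_lit 78) (nat_lit 0) (nat_lit 0) (XT.lf (nat_lit 0) (nat_lit 1908145934) (nat_lit 380) (nat_lit 847604143) (nat_lit 456) (nat_lit 8050838409) (nat_lit 138) (nat_lit 5) (nat_lit 143) (nat_lit 5)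 (nat_lit 144) (nat_lit 5) (nat_lit 609) (nat_lit 500) (nat_lit 451)) (XT.lf (nat_lit 0) (nat_lit 6797822611) (nat_lit 456) (nat_lit 756422939) (nat_lit 76) (nat_lit 3366146699) (nat_lit 138) (nat_lit 5) (nat_lit 144) (nat_lit 5) (nat_lit 139) (nat_lit 5) (nat_lit 610) (nat_lit 500) (nat_lit 450)))) (XT.nd (nat_lit 78) (nat_lit 684) (nat_lit 0) (XT.lf (nat_lit 0) (nat_lit 7572433454) (nat_lit 304) (nat_lit 3359932755) (nat_lit 380) (nat_lit 103875277) (nat_lit 134) (nat_lit 5) (nat_lit 138) (nat_lit 5) (nat_lit 139) (nat_lit 5) (nat_lit 611) (nat_lit 500) (nat_lit 449)) (XT.nd (nat_lit 78) (nat_lit 304) (nat_lit 0) (XT.lf (nat_lit 0) (nat_lit 3942834789) (nat_lit 380) (nat_lit 6268034547) (nat_lit 76) (nat_lit 943020708) (nat_lit 129) (nat_lit 5) (nat_lit 134) (nat_lit 5) (nat_lit 130) (nat_lit 5) (nat_lit 612) (nat_lit 500) (nat_lit 448)) (XT.lf (nat_lit 0) (nat_lit 2110584668) (nat_lit 304) (nat_lit 5975039810) (nat_lit 380) (nat_lit 3187924513) (nat_lit 125)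 (nat_lit 5) (nat_lit 129) (nat_lit 5) (nat_lit 130) (nat_lit 5) (nat_lit 613) (nat_lit 500) (nat_lit 447))))) (XT.nd (nat_lit 234) (nat_lit 988) (nat_lit 0) (XT.nd (nat_lit 78) (nat_lit 608) (nat_lit 0) (XT.lf (nat_lit 0) (nat_lit 903287612) (nat_lit 380) (nat_lit 729392475) (nat_lit 76) (nat_lit 9762811373) (nat_lit 124) (nat_lit 5) (nat_lit 129) (nat_lit 5) (nat_lit 125) (nat_lit 5) (nat_lit 614) (nat_lit 500) (nat_lit 446)) (XT.nd (nat_lit 78) (nat_lit 304) (nat_lit 0) (XT.lf (nat_lit 0) (nat_lit 5061467517) (nat_lit 380) (nat_lit 3651331217) (nat_lit 76) (nat_lit 2806097771) (nat_lit 120) (nat_lit 5) (nat_lit 125) (nat_lit 5) (nat_lit 121) (nat_lit 5) (nat_lit 615) (nat_lit 500) (nat_lit 445)) (XT.lf (nat_lit 0) (nat_lit 4987261926) (nat_lit 304) (nat_lit 4321997564) (nat_lit 380) (nat_lit 2335382925) (nat_lit 116) (nat_lit 5) (nat_lit 120) (nat_lit 5) (nat_lit 121) (nat_lit 5) (nat_lit 616) (nat_lit 500) (nat_lit 444)))) (XT.nd (nat_lit 156) (nat_lit 608)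 (nat_lit 0) (XT.nd (nat_lit 78) (nat_lit 0) (nat_lit 0) (XT.lf (nat_lit 0) (nat_lit 1841969914) (nat_lit 380) (nat_lit 9753072477) (nat_lit 76) (nat_lit 177672221) (nat_lit 111) (nat_lit 5) (nat_lit 116) (nat_lit 5) (nat_lit 112) (nat_lit 5) (nat_lit 617) (nat_lit 500) (nat_lit 443)) (XT.lf (nat_lit 0) (nat_lit 6103838120) (nat_lit 380) (nat_lit 1055664659) (nat_lit 76) (nat_lit 4742893586) (nat_lit 111) (nat_lit 5) (nat_lit 116) (nat_lit 5) (nat_lit 112) (nat_lit 5) (nat_lit 618) (nat_lit 500) (nat_lit 442))) (XT.nd (nat_lit 78) (nat_lit 380) (nat_lit 0) (XT.lf (nat_lit 0) (nat_lit 7850740297) (nat_lit 228) (nat_lit 2610604010) (nat_lit 304) (nat_lit 1573121037) (nat_lit 108) (nat_lit 5) (nat_lit 111) (nat_lit 5) (nat_lit 112) (nat_lit 5) (nat_lit 619) (nat_lit 500) (nat_lit 441)) (XT.lf (nat_lit 0) (nat_lit 2711832421) (nat_lit 380) (nat_lit 7425121497) (nat_lit 76) (nat_lit 2031649910) (nat_lit 103) (nat_lit 5) (nat_lit 108) (nat_lit 5) (nat_lit 104) (nat_lit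 5) (nat_lit 620) (nat_lit 500) (nat_lit 440)))))) (XT.nd (nat_lit 546) (nat_lit 1368) (nat_lit 0) (XT.nd (nat_lit 234) (nat_lit 760) (nat_lit 0) (XT.nd (nat_lit 78) (nat_lit 380) (nat_lit 0) (XT.lf (nat_lit 0) (nat_lit 1525003637) (nat_lit 228) (nat_lit 5551582952) (nat_lit 304) (nat_lit 5228328719) (nat_lit 100) (nat_lit 5) (nat_lit 103) (nat_lit 5) (nat_lit 104) (nat_lit 5) (nat_lit 621) (nat_lit 500) (nat_lit 439)) (XT.nd (nat_lit 78) (nat_lit 380) (nat_lit 0) (XT.lf (nat_lit 0) (nat_lit 10687043227) (nat_lit 228) (nat_lit 851464596) (nat_lit 304) (nat_lit 905249235) (nat_lit 100) (nat_lit 5) (nat_lit 103) (nat_lit 5) (nat_lit 104) (nat_lit 5) (nat_lit 622) (nat_lit 500) (nat_lit 438)) (XT.lf (nat_lit 0) (nat_lit 3493194539) (nat_lit 380) (nat_lit 5155598484) (nat_lit 76) (nat_lit 3935431757) (nat_lit 95) (nat_lit 5) (nat_lit 100) (nat_lit 5) (nat_lit 96) (nat_lit 5) (nat_lit 623) (nat_lit 500) (nat_lit 437)))) (XT.nd (nat_lit 156) (nat_lit 304) (nat_lit 0)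 (XT.nd (nat_lit 78) (nat_lit 228) (nat_lit 0) (XT.lf (nat_lit 0) (nat_lit 4068770880) (nat_lit 228) (nat_lit 3903380507) (nat_lit 304) (nat_lit 4755138880) (nat_lit 92) (nat_lit 5) (nat_lit 95) (nat_lit 5) (nat_lit 96) (nat_lit 5) (nat_lit 624) (nat_lit 500) (nat_lit 436)) (XT.lf (nat_lit 0) (nat_lit 609409932) (nat_lit 228) (nat_lit 11937032037) (nat_lit 304) (nat_lit 326661369) (nat_lit 89) (nat_lit 5) (nat_lit 92) (nat_lit 5) (nat_lit 93) (nat_lit 5) (nat_lit 625) (nat_lit 500) (nat_lit 435))) (XT.nd (nat_lit 78) (nat_lit 228) (nat_lit 0) (XT.lf (nat_lit 0) (nat_lit 4180729955) (nat_lit 304) (nat_lit 2961381840) (nat_lit 76) (nat_lit 5878272016) (nat_lit 88) (nat_lit 5) (nat_lit 92) (nat_lit 5) (nat_lit 89) (nat_lit 5) (nat_lit 626) (nat_lit 500) (nat_lit 434)) (XT.lf (nat_lit 0) (nat_lit 6544631134) (nat_lit 228) (nat_lit 2233489280) (nat_lit 304) (nat_lit 4392363076) (nat_lit 85) (nat_lit 5) (nat_lit 88) (nat_lit 5) (nat_lit 89) (nat_lit 5) (nat_lit 627) (nat_lit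 500) (nat_lit 433))))) (XT.nd (nat_lit 234) (nat_lit 836) (nat_lit 0) (XT.nd (nat_lit 78) (nat_lit 228) (nat_lit 0) (XT.lf (nat_lit 0) (nat_lit 160898340) (nat_lit 304) (nat_lit 10412663719) (nat_lit 76) (nat_lit 2749627425) (nat_lit 81) (nat_lit 5) (nat_lit 85) (nat_lit 5) (nat_lit 82) (nat_lit 5) (nat_lit 628) (nat_lit 500) (nat_lit 432)) (XT.nd (nat_lit 78) (nat_lit 228) (nat_lit 0) (XT.lf (nat_lit 0) (nat_lit 4767958508) (nat_lit 304) (nat_lit 861021645) (nat_lit 76) (nat_lit 7848959043) (nat_lit 81) (nat_lit 5) (nat_lit 85) (nat_lit 5) (nat_lit 82) (nat_lit 5) (nat_lit 629) (nat_lit 500) (nat_lit 431)) (XT.lf (nat_lit 0) (nat_lit 8933887860) (nat_lit 228) (nat_lit 553966503) (nat_lit 304) (nat_lit 4147516840) (nat_lit 78) (nat_lit 5) (nat_lit 81) (nat_lit 5) (nat_lit 82) (nat_lit 5) (nat_lit 630) (nat_lit 500) (nat_lit 430)))) (XT.nd (nat_lit 156) (nat_lit 304) (nat_lit 0) (XT.nd (nat_lit 78) (nat_lit 228) (nat_lit 0) (XT.lf (nat_lit 0) (nat_lit 531613370)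 (nat_lit 304) (nat_lit 8686353238) (nat_lit 76) (nat_lit 4577279536) (nat_lit 74) (nat_lit 5) (nat_lit 78) (nat_lit 5) (nat_lit 75) (nat_lit 5) (nat_lit 631) (nat_lit 500) (nat_lit 429)) (XT.lf (nat_lit 0) (nat_lit 1139989019) (nat_lit 228) (nat_lit 4114570261) (nat_lit 304) (nat_lit 8703096755) (nat_lit 71) (nat_lit 5) (nat_lit 74) (nat_lit 5) (nat_lit 75) (nat_lit 5) (nat_lit 632) (nat_lit 500) (nat_lit 428))) (XT.nd (nat_lit 78) (nat_lit 304) (nat_lit 0) (XT.lf (nat_lit 0) (nat_lit 10100737194) (nat_lit 304) (nat_lit 2914277210) (nat_lit 76) (nat_lit 1107725359) (nat_lit 71) (nat_lit 5) (nat_lit 75) (nat_lit 5) (nat_lit 72) (nat_lit 5) (nat_lit 633) (nat_lit 500) (nat_lit 427)) (XT.lf (nat_lit 0) (nat_lit 780762079) (nat_lit 304) (nat_lit 7105260699) (nat_lit 76) (nat_lit 6404247291) (nat_lit 67) (nat_lit 5) (nat_lit 71) (nat_lit 5) (nat_lit 68) (nat_lit 5) (nat_lit 634) (nat_lit 500) (nat_lit 426))))))) (XT.nd (nat_lit 1092) (nat_lit 228) (nat_lit 0) (XT.nd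 (nat_lit 546) (nat_lit 988) (nat_lit 0) (XT.nd (nat_lit 234) (nat_lit 608) (nat_lit 0) (XT.nd (nat_lit 78) (nat_lit 304) (nat_lit 0) (XT.lf (nat_lit 0) (nat_lit 3013740605) (nat_lit 152) (nat_lit 2615088743) (nat_lit 228) (nat_lit 8831728921) (nat_lit 65) (nat_lit 5) (nat_lit 67) (nat_lit 5) (nat_lit 68) (nat_lit 5) (nat_lit 635) (nat_lit 500) (nat_lit 425)) (XT.nd (nat_lit 78) (nat_lit 304) (nat_lit 0) (XT.lf (nat_lit 0) (nat_lit 10603697042) (nat_lit 228) (nat_lit 1284269998) (nat_lit 76) (nat_lit 2745689427) (nat_lit 65) (nat_lit 5) (nat_lit 68) (nat_lit 5) (nat_lit 66) (nat_lit 5) (nat_lit 636) (nat_lit 500) (nat_lit 424)) (XT.lf (nat_lit 0) (nat_lit 897895556) (nat_lit 304) (nat_lit 5694374025) (nat_lit 76) (nat_lit 8217006691) (nat_lit 61) (nat_lit 5) (nat_lit 65) (nat_lit 5) (nat_lit 62) (nat_lit 5) (nat_lit 637) (nat_lit 500) (nat_lit 423)))) (XT.nd (nat_lit 156) (nat_lit 228) (nat_lit 0) (XT.nd (nat_lit 78) (nat_lit 228) (nat_lit 0) (XT.lf (nat_lit 0)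 (nat_lit 4723472404) (nat_lit 152) (nat_lit 1150945090) (nat_lit 228) (nat_lit 9113377755) (nat_lit 59) (nat_lit 5) (nat_lit 61) (nat_lit 5) (nat_lit 62) (nat_lit 5) (nat_lit 638) (nat_lit 500) (nat_lit 422)) (XT.lf (nat_lit 0) (nat_lit 168062181) (nat_lit 228) (nat_lit 10815312065) (nat_lit 304) (nat_lit 4185853212) (nat_lit 56) (nat_lit 5) (nat_lit 59) (nat_lit 5) (nat_lit 60) (nat_lit 5) (nat_lit 639) (nat_lit 500) (nat_lit 421))) (XT.nd (nat_lit 78) (nat_lit 152) (nat_lit 0) (XT.lf (nat_lit 0) (nat_lit 870996251) (nat_lit 304) (nat_lit 4481337570) (nat_lit 76) (nat_lit 10001010403) (nat_lit 55) (nat_lit 5) (nat_lit 59) (nat_lit 5) (nat_lit 56) (nat_lit 5) (nat_lit 640) (nat_lit 500) (nat_lit 420)) (XT.lf (nat_lit 0) (nat_lit 5980736071) (nat_lit 228) (nat_lit 9301037205) (nat_lit 76) (nat_lit 258661525) (nat_lit 53) (nat_lit 5) (nat_lit 56) (nat_lit 5) (nat_lit 54) (nat_lit 5) (nat_lit 641) (nat_lit 500) (nat_lit 419))))) (XT.nd (nat_lit 234) (nat_lit 532)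 (nat_lit 0) (XT.nd (nat_lit 78) (nat_lit 228) (nat_lit 0) (XT.lf (nat_lit 0) (nat_lit 1425694017) (nat_lit 228) (nat_lit 9807576338) (nat_lit 304) (nat_lit 4497185707) (nat_lit 50) (nat_lit 5) (nat_lit 53) (nat_lit 5) (nat_lit 54) (nat_lit 5) (nat_lit 642) (nat_lit 500) (nat_lit 418)) (XT.nd (nat_lit 78) (nat_lit 152) (nat_lit 0) (XT.lf (nat_lit 0) (nat_lit 686336926) (nat_lit 304) (nat_lit 3496768570) (nat_lit 76) (nat_lit 11740516497) (nat_lit 49) (nat_lit 5) (nat_lit 53) (nat_lit 5) (nat_lit 50) (nat_lit 5) (nat_lit 643) (nat_lit 500) (nat_lit 417)) (XT.lf (nat_lit 0) (nat_lit 5939075224) (nat_lit 228) (nat_lit 8594570858) (nat_lit 76) (nat_lit 1585896200) (nat_lit 47) (nat_lit 5) (nat_lit 50) (nat_lit 5) (nat_lit 48) (nat_lit 5) (nat_lit 644) (nat_lit 500) (nat_lit 416)))) (XT.nd (nat_lit 156) (nat_lit 304) (nat_lit 0) (XT.nd (nat_lit 78) (nat_lit 76) (nat_lit 0) (XT.lf (nat_lit 0) (nat_lit 2438849768) (nat_lit 152) (nat_lit 8891614969) (nat_lit 228) (nat_lit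 4988245109) (nat_lit 45) (nat_lit 5) (nat_lit 47) (nat_lit 5) (nat_lit 48) (nat_lit 5) (nat_lit 645) (nat_lit 500) (nat_lit 415)) (XT.lf (nat_lit 0) (nat_lit 328322674) (nat_lit 228) (nat_lit 2774605059) (nat_lit 76) (nat_lit 13418403058) (nat_lit 44) (nat_lit 5) (nat_lit 47) (nat_lit 5) (nat_lit 45) (nat_lit 5) (nat_lit 646) (nat_lit 500) (nat_lit 414))) (XT.nd (nat_lit 78) (nat_lit 152) (nat_lit 0) (XT.lf (nat_lit 0) (nat_lit 5725891068) (nat_lit 228) (nat_lit 8173104147) (nat_lit 76) (nat_lit 2827521011) (nat_lit 42) (nat_lit 5) (nat_lit 45) (nat_lit 5) (nat_lit 43) (nat_lit 5) (nat_lit 647) (nat_lit 500) (nat_lit 413)) (XT.lf (nat_lit 0) (nat_lit 3171237654) (nat_lit 152) (nat_lit 8087279263) (nat_lit 228) (nat_lit 5676747071) (nat_lit 40) (nat_lit 5) (nat_lit 42) (nat_lit 5) (nat_lit 43) (nat_lit 5) (nat_lit 648) (nat_lit 500) (nat_lit 412)))))) (XT.nd (nat_lit 74490) (nat_lit 0) (nat_lit 24928) (XT.nd (nat_lit 74178) (nat_lit 0) (nat_lit 30248) (XT.nd (nat_lit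 78) (nat_lit 228) (nat_lit 0) (XT.lf (nat_lit 0) (nat_lit 14793800330) (nat_lit 152) (nat_lit 2130322169) (nat_lit 228) (nat_lit 223618387) (nat_lit 40) (nat_lit 5) (nat_lit 42) (nat_lit 5) (nat_lit 43) (nat_lit 5) (nat_lit 649) (nat_lit 500) (nat_lit 411)) (XT.nd (nat_lit 74022) (nat_lit 0) (nat_lit 34200) (XT.lf (nat_lit 0) (nat_lit 5323006320) (nat_lit 228) (nat_lit 8076170454) (nat_lit 76) (nat_lit 3963509018) (nat_lit 37) (nat_lit 5) (nat_lit 40) (nat_lit 5) (nat_lit 38) (nat_lit 5) (nat_lit 650) (nat_lit 500) (nat_lit 410)) (XT.lf (nat_lit 0) (nat_lit 2986201194) (nat_lit 1748) (nat_lit 290495248) (nat_lit 1748) (nat_lit 290495248) (nat_lit 487) (nat_lit 4) (nat_lit 510) (nat_lit 5) (nat_lit 510) (nat_lit 4) (nat_lit 558) (nat_lit 501) (nat_lit 501)))) (XT.nd (nat_lit 156) (nat_lit 988) (nat_lit 0) (XT.nd (nat_lit 78) (nat_lit 1064) (nat_lit 0) (XT.lf (nat_lit 0) (nat_lit 2939580796) (nat_lit 1900) (nat_lit 2986224712) (nat_lit 0) (nat_lit 1245674888) (nat_lit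 462) (nat_lit 5) (nat_lit 487) (nat_lit 4) (nat_lit 462) (nat_lit 4) (nat_lit 559) (nat_lit 501) (nat_lit 500)) (XT.lf (nat_lit 0) (nat_lit 2398278208) (nat_lit 1064) (nat_lit 4083198291) (nat_lit 1064) (nat_lit 728600317) (nat_lit 448) (nat_lit 4) (nat_lit 462) (nat_lit 5) (nat_lit 462) (nat_lit 4) (nat_lit 560) (nat_lit 501) (nat_lit 499))) (XT.nd (nat_lit 78) (nat_lit 0) (nat_lit 0) (XT.lf (nat_lit 0) (nat_lit 599265643) (nat_lit 912) (nat_lit 2164097274) (nat_lit 988) (nat_lit 4486602504) (nat_lit 435) (nat_lit 5) (nat_lit 447) (nat_lit 5) (nat_lit 448) (nat_lit 4) (nat_lit 561) (nat_lit 501) (nat_lit 498)) (XT.lf (nat_lit 0) (nat_lit 6107463204) (nat_lit 912) (nat_lit 172930867) (nat_lit 988) (nat_lit 1010869369) (nat_lit 435) (nat_lit 5) (nat_lit 447) (nat_lit 5) (nat_lit 448) (nat_lit 4) (nat_lit 562) (nat_lit 501) (nat_lit 497))))) (XT.nd (nat_lit 234) (nat_lit 2584) (nat_lit 0) (XT.nd (nat_lit 78) (nat_lit 1748) (nat_lit 0) (XT.lf (nat_lit 0) (nat_lit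 2475386008) (nat_lit 988) (nat_lit 2983877170) (nat_lit 76) (nat_lit 1874317574) (nat_lit 422) (nat_lit 5) (nat_lit 435) (nat_lit 5) (nat_lit 423) (nat_lit 4) (nat_lit 563) (nat_lit 501) (nat_lit 496)) (XT.nd (nat_lit 78) (nat_lit 912) (nat_lit 0) (XT.lf (nat_lit 0) (nat_lit 2587650308) (nat_lit 836) (nat_lit 3390541368) (nat_lit 912) (nat_lit 1399219098) (nat_lit 411) (nat_lit 5) (nat_lit 422) (nat_lit 5) (nat_lit 423) (nat_lit 4) (nat_lit 564) (nat_lit 501) (nat_lit 495)) (XT.lf (nat_lit 0) (nat_lit 813923244) (nat_lit 836) (nat_lit 1247325079) (nat_lit 912) (nat_lit 5361394884) (nat_lit 399) (nat_lit 5) (nat_lit 410) (nat_lit 5) (nat_lit 411) (nat_lit 5) (nat_lit 565) (nat_lit 501) (nat_lit 494)))) (XT.nd (nat_lit 156) (nat_lit 1672) (nat_lit 0) (XT.nd (nat_lit 78) (nat_lit 912) (nat_lit 0) (XT.lf (nat_lit 0) (nat_lit 5546215999) (nat_lit 912) (nat_lit 962012594) (nat_lit 76) (nat_lit 960892989) (nat_lit 399) (nat_lit 5) (nat_lit 411) (nat_lit 5) (nat_lit 400)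 (nat_lit 4) (nat_lit 566) (nat_lit 501) (nat_lit 493)) (XT.lf (nat_lit 0) (nat_lit 1539531675) (nat_lit 912) (nat_lit 2746553909) (nat_lit 76) (nat_lit 3230725594) (nat_lit 387) (nat_lit 5) (nat_lit 399) (nat_lit 5) (nat_lit 388) (nat_lit 5) (nat_lit 567) (nat_lit 501) (nat_lit 492))) (XT.nd (nat_lit 78) (nat_lit 836) (nat_lit 0) (XT.lf (nat_lit 0) (nat_lit 3019866863) (nat_lit 836) (nat_lit 1988913350) (nat_lit 912) (nat_lit 2557160347) (nat_lit 376) (nat_lit 5) (nat_lit 387) (nat_lit 5) (nat_lit 388) (nat_lit 5) (nat_lit 568) (nat_lit 501) (nat_lit 491)) (XT.lf (nat_lit 0) (nat_lit 885874060) (nat_lit 836) (nat_lit 6357783101) (nat_lit 76) (nat_lit 372946028) (nat_lit 365) (nat_lit 5) (nat_lit 376) (nat_lit 5) (nat_lit 366) (nat_lit 5) (nat_lit 569) (nat_lit 501) (nat_lit 490))))))))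
noncomputable def xc40 : XT := (XT.nd (nat_lit 2106) (nat_lit 7448) (nat_lit 0) (XT.nd (nat_lit 1014) (nat_lit 6004) (nat_lit 0) (XT.nd (nat_lit 468) (nat_lit 4028) (nat_lit 0) (XT.nd (nat_lit 234) (nat_lit 1520) (nat_lit 0) (XT.nd (nat_lit 78) (nat_lit 1520) (nat_lit 0) (XT.lf (nat_lit 0) (nat_lit 4345666974) (nat_lit 836) (nat_lit 529455501) (nat_lit 76) (nat_lit 2793181812) (nat_lit 365) (nat_lit 5) (nat_lit 376) (nat_lit 5) (nat_lit 366) (nat_lit 5) (nat_lit 570) (nat_lit 501) (nat_lit 489)) (XT.nd (nat_lit 78) (nat_lit 684) (nat_lit 0) (XT.lf (nat_lit 0) (nat_lit 126022398) (nat_lit 836) (nat_lit 2307408914) (nat_lit 76) (nat_lit 5288105535) (nat_lit 354) (nat_lit 5) (nat_lit 365) (nat_lit 5) (nat_lit 355) (nat_lit 5) (nat_lit 571) (nat_lit 501) (nat_lit 488)) (XT.lf (nat_lit 0) (nat_lit 3566944610) (nat_lit 760) (nat_lit 4114499707) (nat_lit 76) (nat_lit 94600588) (nat_lit 345) (nat_lit 5) (nat_lit 355) (nat_lit 5) (nat_lit 346) (nat_lit 5) (nat_lit 572)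 (nat_lit 501) (nat_lit 487)))) (XT.nd (nat_lit 78) (nat_lit 760) (nat_lit 0) (XT.lf (nat_lit 0) (nat_lit 1885872017) (nat_lit 760) (nat_lit 5175162318) (nat_lit 836) (nat_lit 770927383) (nat_lit 335) (nat_lit 5) (nat_lit 345) (nat_lit 5) (nat_lit 346) (nat_lit 5) (nat_lit 573) (nat_lit 501) (nat_lit 486)) (XT.nd (nat_lit 78) (nat_lit 0) (nat_lit 0) (XT.lf (nat_lit 0) (nat_lit 83951247) (nat_lit 684) (nat_lit 2585221428) (nat_lit 760) (nat_lit 5220093336) (nat_lit 325) (nat_lit 5) (nat_lit 334) (nat_lit 5) (nat_lit 335) (nat_lit 5) (nat_lit 574) (nat_lit 501) (nat_lit 485)) (XT.lf (nat_lit 0) (nat_lit 6149606971) (nat_lit 760) (nat_lit 1710853214) (nat_lit 76) (nat_lit 87522442) (nat_lit 325) (nat_lit 5) (nat_lit 335) (nat_lit 5) (nat_lit 326) (nat_lit 5) (nat_lit 575) (nat_lit 501) (nat_lit 484))))) (XT.nd (nat_lit 234) (nat_lit 1900) (nat_lit 0) (XT.nd (nat_lit 78) (nat_lit 1368) (nat_lit 0) (XT.lf (nat_lit 0) (nat_lit 1658147639) (nat_lit 760) (nat_lit 3543898900)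 (nat_lit 76) (nat_lit 2805841221) (nat_lit 315) (nat_lit 5) (nat_lit 325) (nat_lit 5) (nat_lit 316) (nat_lit 5) (nat_lit 576) (nat_lit 501) (nat_lit 483)) (XT.nd (nat_lit 78) (nat_lit 760) (nat_lit 0) (XT.lf (nat_lit 0) (nat_lit 2667511152) (nat_lit 608) (nat_lit 2463854412) (nat_lit 684) (nat_lit 2937959752) (nat_lit 307) (nat_lit 5) (nat_lit 315) (nat_lit 5) (nat_lit 316) (nat_lit 5) (nat_lit 577) (nat_lit 501) (nat_lit 482)) (XT.lf (nat_lit 0) (nat_lit 509712357) (nat_lit 760) (nat_lit 7280057977) (nat_lit 76) (nat_lit 342660352) (nat_lit 297) (nat_lit 5) (nat_lit 307) (nat_lit 5) (nat_lit 298) (nat_lit 5) (nat_lit 578) (nat_lit 501) (nat_lit 481)))) (XT.nd (nat_lit 156) (nat_lit 1292) (nat_lit 0) (XT.nd (nat_lit 78) (nat_lit 608) (nat_lit 0) (XT.lf (nat_lit 0) (nat_lit 3983411587) (nat_lit 760) (nat_lit 1000304488) (nat_lit 76) (nat_lit 3212770098) (nat_lit 297) (nat_lit 5) (nat_lit 307) (nat_lit 5) (nat_lit 298) (nat_lit 5) (nat_lit 579) (nat_lit 501) (nat_lit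 480)) (XT.lf (nat_lit 0) (nat_lit 5404271101) (nat_lit 608) (nat_lit 2102078474) (nat_lit 684) (nat_lit 755882477) (nat_lit 289) (nat_lit 5) (nat_lit 297) (nat_lit 5) (nat_lit 298) (nat_lit 5) (nat_lit 580) (nat_lit 501) (nat_lit 479))) (XT.nd (nat_lit 78) (nat_lit 608) (nat_lit 0) (XT.lf (nat_lit 0) (nat_lit 2714684889) (nat_lit 684) (nat_lit 4756761516) (nat_lit 76) (nat_lit 857879756) (nat_lit 280) (nat_lit 5) (nat_lit 289) (nat_lit 5) (nat_lit 281) (nat_lit 5) (nat_lit 581) (nat_lit 501) (nat_lit 478)) (XT.lf (nat_lit 0) (nat_lit 1703930356) (nat_lit 608) (nat_lit 4530349155) (nat_lit 684) (nat_lit 2163592284) (nat_lit 272) (nat_lit 5) (nat_lit 280) (nat_lit 5) (nat_lit 281) (nat_lit 5) (nat_lit 582) (nat_lit 501) (nat_lit 477)))))) (XT.nd (nat_lit 546) (nat_lit 3040) (nat_lit 0) (XT.nd (nat_lit 234) (nat_lit 1748) (nat_lit 0) (XT.nd (nat_lit 78) (nat_lit 1140) (nat_lit 0) (XT.lf (nat_lit 0) (nat_lit 1316498369) (nat_lit 684) (nat_lit 190528484) (nat_lit 76)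 (nat_lit 6961033264) (nat_lit 271) (nat_lit 5) (nat_lit 280) (nat_lit 5) (nat_lit 272) (nat_lit 5) (nat_lit 583) (nat_lit 501) (nat_lit 476)) (XT.nd (nat_lit 78) (nat_lit 532) (nat_lit 0) (XT.lf (nat_lit 0) (nat_lit 4836309150) (nat_lit 684) (nat_lit 2108230505) (nat_lit 76) (nat_lit 1594848811) (nat_lit 263) (nat_lit 5) (nat_lit 272) (nat_lit 5) (nat_lit 264) (nat_lit 5) (nat_lit 584) (nat_lit 501) (nat_lit 475)) (XT.lf (nat_lit 0) (nat_lit 4553756260) (nat_lit 532) (nat_lit 3860804773) (nat_lit 608) (nat_lit 197825434) (nat_lit 256) (nat_lit 5) (nat_lit 263) (nat_lit 5) (nat_lit 264) (nat_lit 5) (nat_lit 585) (nat_lit 501) (nat_lit 474)))) (XT.nd (nat_lit 156) (nat_lit 608) (nat_lit 0) (XT.nd (nat_lit 78) (nat_lit 532) (nat_lit 0) (XT.lf (nat_lit 0) (nat_lit 2631537273) (nat_lit 532) (nat_lit 680460376) (nat_lit 608) (nat_lit 5374836802) (nat_lit 248) (nat_lit 5) (nat_lit 255) (nat_lit 5) (nat_lit 256) (nat_lit 5) (nat_lit 586) (nat_lit 501) (nat_lit 473)) (XT.lf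 (nat_lit 0) (nat_lit 666508524) (nat_lit 532) (nat_lit 6219123989) (nat_lit 608) (nat_lit 1877191198) (nat_lit 241) (nat_lit 5) (nat_lit 248) (nat_lit 5) (nat_lit 249) (nat_lit 5) (nat_lit 587) (nat_lit 501) (nat_lit 472))) (XT.nd (nat_lit 78) (nat_lit 532) (nat_lit 0) (XT.lf (nat_lit 0) (nat_lit 1661731487) (nat_lit 608) (nat_lit 1323052263) (nat_lit 76) (nat_lit 5855463224) (nat_lit 240) (nat_lit 5) (nat_lit 248) (nat_lit 5) (nat_lit 241) (nat_lit 5) (nat_lit 588) (nat_lit 501) (nat_lit 471)) (XT.lf (nat_lit 0) (nat_lit 5233851267) (nat_lit 608) (nat_lit 3346323765) (nat_lit 76) (nat_lit 339047958) (nat_lit 233) (nat_lit 5) (nat_lit 241) (nat_lit 5) (nat_lit 234) (nat_lit 5) (nat_lit 589) (nat_lit 501) (nat_lit 470))))) (XT.nd (nat_lit 234) (nat_lit 1976) (nat_lit 0) (XT.nd (nat_lit 78) (nat_lit 608) (nat_lit 0) (XT.lf (nat_lit 0) (nat_lit 3580638976) (nat_lit 456) (nat_lit 5298235350) (nat_lit 532) (nat_lit 120878449) (nat_lit 227) (nat_lit 5) (nat_lit 233)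 (nat_lit 5) (nat_lit 234) (nat_lit 5) (nat_lit 590) (nat_lit 501) (nat_lit 469)) (XT.nd (nat_lit 78) (nat_lit 0) (nat_lit 0) (XT.lf (nat_lit 0) (nat_lit 1535424811) (nat_lit 532) (nat_lit 1915657593) (nat_lit 608) (nat_lit 5630712138) (nat_lit 219) (nat_lit 5) (nat_lit 226) (nat_lit 5) (nat_lit 227) (nat_lit 5) (nat_lit 591) (nat_lit 501) (nat_lit 468)) (XT.lf (nat_lit 0) (nat_lit 7089521006) (nat_lit 608) (nat_lit 545429355) (nat_lit 76) (nat_lit 1530580927) (nat_lit 219) (nat_lit 5) (nat_lit 227) (nat_lit 5) (nat_lit 220) (nat_lit 5) (nat_lit 592) (nat_lit 501) (nat_lit 467)))) (XT.nd (nat_lit 156) (nat_lit 988) (nat_lit 0) (XT.nd (nat_lit 78) (nat_lit 456) (nat_lit 0) (XT.lf (nat_lit 0) (nat_lit 1536094346) (nat_lit 532) (nat_lit 2662305606) (nat_lit 76) (nat_lit 5052212024) (nat_lit 212) (nat_lit 5) (nat_lit 219) (nat_lit 5) (nat_lit 213) (nat_lit 5) (nat_lit 593) (nat_lit 501) (nat_lit 466)) (XT.lf (nat_lit 0) (nat_lit 4509199060) (nat_lit 456) (nat_lit 667675373)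 (nat_lit 532) (nat_lit 4160563851) (nat_lit 206) (nat_lit 5) (nat_lit 212) (nat_lit 5) (nat_lit 213) (nat_lit 5) (nat_lit 594) (nat_lit 501) (nat_lit 465))) (XT.nd (nat_lit 78) (nat_lit 532) (nat_lit 0) (XT.lf (nat_lit 0) (nat_lit 2375251079) (nat_lit 456) (nat_lit 6519269906) (nat_lit 532) (nat_lit 531402136) (nat_lit 200) (nat_lit 5) (nat_lit 206) (nat_lit 5) (nat_lit 207) (nat_lit 5) (nat_lit 595) (nat_lit 501) (nat_lit 464)) (XT.lf (nat_lit 0) (nat_lit 178360439) (nat_lit 456) (nat_lit 2940364024) (nat_lit 532) (nat_lit 6397245187) (nat_lit 193) (nat_lit 5) (nat_lit 199) (nat_lit 5) (nat_lit 200) (nat_lit 5) (nat_lit 596) (nat_lit 501) (nat_lit 463))))))) (XT.nd (nat_lit 1014) (nat_lit 3648) (nat_lit 0) (XT.nd (nat_lit 468) (nat_lit 2052) (nat_lit 0) (XT.nd (nat_lit 234) (nat_lit 836) (nat_lit 0) (XT.nd (nat_lit 78) (nat_lit 912) (nat_lit 0) (XT.lf (nat_lit 0) (nat_lit 6839082914) (nat_lit 532) (nat_lit 2039591239) (nat_lit 76) (nat_lit 728988653) (nat_lit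 193) (nat_lit 5) (nat_lit 200) (nat_lit 5) (nat_lit 194) (nat_lit 5) (nat_lit 597) (nat_lit 501) (nat_lit 462)) (XT.nd (nat_lit 78) (nat_lit 456) (nat_lit 0) (XT.lf (nat_lit 0) (nat_lit 927949613) (nat_lit 456) (nat_lit 4322022898) (nat_lit 76) (nat_lit 4450948483) (nat_lit 187) (nat_lit 5) (nat_lit 193) (nat_lit 5) (nat_lit 188) (nat_lit 5) (nat_lit 598) (nat_lit 501) (nat_lit 461)) (XT.lf (nat_lit 0) (nat_lit 3129676812) (nat_lit 456) (nat_lit 1518989302) (nat_lit 532) (nat_lit 5147268351) (nat_lit 181) (nat_lit 5) (nat_lit 187) (nat_lit 5) (nat_lit 188) (nat_lit 5) (nat_lit 599) (nat_lit 501) (nat_lit 460)))) (XT.nd (nat_lit 78) (nat_lit 456) (nat_lit 0) (XT.lf (nat_lit 0) (nat_lit 821576919) (nat_lit 380) (nat_lit 7625099477) (nat_lit 456) (nat_lit 1446116848) (nat_lit 176) (nat_lit 5) (nat_lit 181) (nat_lit 5) (nat_lit 182) (nat_lit 5) (nat_lit 600) (nat_lit 501) (nat_lit 459)) (XT.nd (nat_lit 78) (nat_lit 380) (nat_lit 0) (XT.lf (nat_lit 0) (nat_lit 2307252457)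 (nat_lit 456) (nat_lit 1537681593) (nat_lit 76) (nat_lit 6146180423) (nat_lit 175) (nat_lit 5) (nat_lit 181) (nat_lit 5) (nat_lit 176) (nat_lit 5) (nat_lit 601) (nat_lit 501) (nat_lit 458)) (XT.lf (nat_lit 0) (nat_lit 6111060842) (nat_lit 456) (nat_lit 3943633984) (nat_lit 76) (nat_lit 36623895) (nat_lit 170) (nat_lit 5) (nat_lit 176) (nat_lit 5) (nat_lit 171) (nat_lit 5) (nat_lit 602) (nat_lit 501) (nat_lit 457))))) (XT.nd (nat_lit 234) (nat_lit 1216) (nat_lit 0) (XT.nd (nat_lit 78) (nat_lit 456) (nat_lit 0) (XT.lf (nat_lit 0) (nat_lit 3768236273) (nat_lit 380) (nat_lit 6237869546) (nat_lit 456) (nat_lit 187120456) (nat_lit 165) (nat_lit 5) (nat_lit 170) (nat_lit 5) (nat_lit 171) (nat_lit 5) (nat_lit 603) (nat_lit 501) (nat_lit 456)) (XT.nd (nat_lit 78) (nat_lit 0) (nat_lit 0) (XT.lf (nat_lit 0) (nat_lit 1314238985) (nat_lit 380) (nat_lit 2309504465) (nat_lit 456) (nat_lit 6673149713) (nat_lit 159) (nat_lit 5) (nat_lit 164) (nat_lit 5) (nat_lit 165) (nat_lit 5)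 (nat_lit 604) (nat_lit 501) (nat_lit 455)) (XT.lf (nat_lit 0) (nat_lit 7517991354) (nat_lit 456) (nat_lit 1189317503) (nat_lit 76) (nat_lit 1695108636) (nat_lit 159) (nat_lit 5) (nat_lit 165) (nat_lit 5) (nat_lit 160) (nat_lit 5) (nat_lit 605) (nat_lit 501) (nat_lit 454)))) (XT.nd (nat_lit 156) (nat_lit 380) (nat_lit 0) (XT.nd (nat_lit 78) (nat_lit 380) (nat_lit 0) (XT.lf (nat_lit 0) (nat_lit 982656750) (nat_lit 456) (nat_lit 3751872404) (nat_lit 76) (nat_lit 5775089317) (nat_lit 153) (nat_lit 5) (nat_lit 159) (nat_lit 5) (nat_lit 154) (nat_lit 5) (nat_lit 606) (nat_lit 501) (nat_lit 453)) (XT.lf (nat_lit 0) (nat_lit 4228271778) (nat_lit 380) (nat_lit 651961151) (nat_lit 456) (nat_lit 5738515891) (nat_lit 148) (nat_lit 5) (nat_lit 153) (nat_lit 5) (nat_lit 154) (nat_lit 5) (nat_lit 607) (nat_lit 501) (nat_lit 452))) (XT.nd (nat_lit 78) (nat_lit 76) (nat_lit 0) (XT.lf (nat_lit 0) (nat_lit 1618224601) (nat_lit 304) (nat_lit 7252689599) (nat_lit 380) (nat_lit 1858846619)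 (nat_lit 144) (nat_lit 5) (nat_lit 148) (nat_lit 5) (nat_lit 149) (nat_lit 5) (nat_lit 608) (nat_lit 501) (nat_lit 451)) (XT.lf (nat_lit 0) (nat_lit 2074997547) (nat_lit 380) (nat_lit 1056105062) (nat_lit 76) (nat_lit 7711537942) (nat_lit 143) (nat_lit 5) (nat_lit 148) (nat_lit 5) (nat_lit 144) (nat_lit 5) (nat_lit 609) (nat_lit 501) (nat_lit 450)))))) (XT.nd (nat_lit 546) (nat_lit 1596) (nat_lit 0) (XT.nd (nat_lit 234) (nat_lit 988) (nat_lit 0) (XT.nd (nat_lit 78) (nat_lit 684) (nat_lit 0) (XT.lf (nat_lit 0) (nat_lit 6073889170) (nat_lit 456) (nat_lit 3790535054) (nat_lit 76) (nat_lit 1092884693) (nat_lit 138) (nat_lit 5) (nat_lit 144) (nat_lit 5) (nat_lit 139) (nat_lit 5) (nat_lit 610) (nat_lit 501) (nat_lit 449)) (XT.nd (nat_lit 78) (nat_lit 380) (nat_lit 0) (XT.lf (nat_lit 0) (nat_lit 4463719593) (nat_lit 304) (nat_lit 5703587333) (nat_lit 380) (nat_lit 906674712) (nat_lit 134) (nat_lit 5) (nat_lit 138) (nat_lit 5) (nat_lit 139) (nat_lit 5) (nat_lit 611) (nat_lit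 501) (nat_lit 448)) (XT.lf (nat_lit 0) (nat_lit 1674859821) (nat_lit 304) (nat_lit 1427723370) (nat_lit 380) (nat_lit 8090111801) (nat_lit 129) (nat_lit 5) (nat_lit 133) (nat_lit 5) (nat_lit 134) (nat_lit 5) (nat_lit 612) (nat_lit 501) (nat_lit 447)))) (XT.nd (nat_lit 156) (nat_lit 684) (nat_lit 0) (XT.nd (nat_lit 78) (nat_lit 304) (nat_lit 0) (XT.lf (nat_lit 0) (nat_lit 7201618716) (nat_lit 380) (nat_lit 1191621007) (nat_lit 76) (nat_lit 2919990209) (nat_lit 129) (nat_lit 5) (nat_lit 134) (nat_lit 5) (nat_lit 130) (nat_lit 5) (nat_lit 613) (nat_lit 501) (nat_lit 446)) (XT.lf (nat_lit 0) (nat_lit 7320348393) (nat_lit 304) (nat_lit 4078115467) (nat_lit 380) (nat_lit 37396938) (nat_lit 125) (nat_lit 5) (nat_lit 129) (nat_lit 5) (nat_lit 130) (nat_lit 5) (nat_lit 614) (nat_lit 501) (nat_lit 445))) (XT.nd (nat_lit 78) (nat_lit 304) (nat_lit 0) (XT.lf (nat_lit 0) (nat_lit 4062341898) (nat_lit 380) (nat_lit 7141146372) (nat_lit 76) (nat_lit 356961919) (nat_lit 120) (nat_lit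 5) (nat_lit 125) (nat_lit 5) (nat_lit 121) (nat_lit 5) (nat_lit 615) (nat_lit 501) (nat_lit 444)) (XT.lf (nat_lit 0) (nat_lit 1417145308) (nat_lit 304) (nat_lit 6849583985) (nat_lit 380) (nat_lit 3420335739) (nat_lit 116) (nat_lit 5) (nat_lit 120) (nat_lit 5) (nat_lit 121) (nat_lit 5) (nat_lit 616) (nat_lit 501) (nat_lit 443))))) (XT.nd (nat_lit 234) (nat_lit 988) (nat_lit 0) (XT.nd (nat_lit 78) (nat_lit 532) (nat_lit 0) (XT.lf (nat_lit 0) (nat_lit 736779020) (nat_lit 380) (nat_lit 1644691647) (nat_lit 76) (nat_lit 9434497603) (nat_lit 115) (nat_lit 5) (nat_lit 120) (nat_lit 5) (nat_lit 116) (nat_lit 5) (nat_lit 617) (nat_lit 501) (nat_lit 442)) (XT.nd (nat_lit 78) (nat_lit 228) (nat_lit 0) (XT.lf (nat_lit 0) (nat_lit 4952208193) (nat_lit 380) (nat_lit 4803413081) (nat_lit 76) (nat_lit 2190958324) (nat_lit 111) (nat_lit 5) (nat_lit 116) (nat_lit 5) (nat_lit 112) (nat_lit 5) (nat_lit 618) (nat_lit 501) (nat_lit 441)) (XT.lf (nat_lit 0) (nat_lit 4019786232) (nat_lit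 228) (nat_lit 5245363927) (nat_lit 304) (nat_lit 2814390480) (nat_lit 108) (nat_lit 5) (nat_lit 111) (nat_lit 5) (nat_lit 112) (nat_lit 5) (nat_lit 619) (nat_lit 501) (nat_lit 440)))) (XT.nd (nat_lit 156) (nat_lit 608) (nat_lit 0) (XT.nd (nat_lit 78) (nat_lit 0) (nat_lit 0) (XT.lf (nat_lit 0) (nat_lit 804296633) (nat_lit 304) (nat_lit 623867739) (nat_lit 380) (nat_lit 10786850242) (nat_lit 103) (nat_lit 5) (nat_lit 107) (nat_lit 5) (nat_lit 108) (nat_lit 5) (nat_lit 620) (nat_lit 501) (nat_lit 439)) (XT.lf (nat_lit 0) (nat_lit 5759404912) (nat_lit 380) (nat_lit 2509636611) (nat_lit 76) (nat_lit 4082955576) (nat_lit 103) (nat_lit 5) (nat_lit 108) (nat_lit 5) (nat_lit 104) (nat_lit 5) (nat_lit 621) (nat_lit 501) (nat_lit 438))) (XT.nd (nat_lit 78) (nat_lit 380) (nat_lit 0) (XT.lf (nat_lit 0) (nat_lit 6586175320) (nat_lit 228) (nat_lit 3599248441) (nat_lit 304) (nat_lit 2306133855) (nat_lit 100) (nat_lit 5) (nat_lit 103) (nat_lit 5) (nat_lit 104) (nat_lit 5) (nat_lit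 622) (nat_lit 501) (nat_lit 437)) (XT.lf (nat_lit 0) (nat_lit 2045927917) (nat_lit 380) (nat_lit 9413848017) (nat_lit 76) (nat_lit 1173727100) (nat_lit 95) (nat_lit 5) (nat_lit 100) (nat_lit 5) (nat_lit 96) (nat_lit 5) (nat_lit 623) (nat_lit 501) (nat_lit 436))))))))
noncomputable def xc41 : XT := (XT.nd (nat_lit 75972) (nat_lit 0) (nat_lit 17556) (XT.nd (nat_lit 1014) (nat_lit 1900) (nat_lit 0) (XT.nd (nat_lit 468) (nat_lit 1216) (nat_lit 0) (XT.nd (nat_lit 234) (nat_lit 532) (nat_lit 0) (XT.nd (nat_lit 78) (nat_lit 532) (nat_lit 0) (XT.lf (nat_lit 0) (nat_lit 6479408982) (nat_lit 380) (nat_lit 275407664) (nat_lit 76) (nat_lit 6022662066) (nat_lit 95) (nat_lit 5) (nat_lit 100) (nat_lit 5) (nat_lit 96) (nat_lit 5) (nat_lit 624) (nat_lit 501) (nat_lit 435)) (XT.nd (nat_lit 78) (nat_lit 304) (nat_lit 0) (XT.lf (nat_lit 0) (nat_lit 9100664200) (nat_lit 228) (nat_lit 1922239469) (nat_lit 304) (nat_lit 1901004696) (nat_lit 92) (nat_lit 5) (nat_lit 95) (nat_lit 5) (nat_lit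 96) (nat_lit 5) (nat_lit 625) (nat_lit 501) (nat_lit 434)) (XT.lf (nat_lit 0) (nat_lit 2570288496) (nat_lit 304) (nat_lit 7505965166) (nat_lit 76) (nat_lit 2996275165) (nat_lit 88) (nat_lit 5) (nat_lit 92) (nat_lit 5) (nat_lit 89) (nat_lit 5) (nat_lit 626) (nat_lit 501) (nat_lit 433)))) (XT.nd (nat_lit 78) (nat_lit 304) (nat_lit 0) (XT.lf (nat_lit 0) (nat_lit 1907186745) (nat_lit 228) (nat_lit 5211808360) (nat_lit 304) (nat_lit 6104607705) (nat_lit 85) (nat_lit 5) (nat_lit 88) (nat_lit 5) (nat_lit 89) (nat_lit 5) (nat_lit 627) (nat_lit 501) (nat_lit 432)) (XT.nd (nat_lit 78) (nat_lit 304) (nat_lit 0) (XT.lf (nat_lit 0) (nat_lit 11546051730) (nat_lit 228) (nat_lit 225790879) (nat_lit 304) (nat_lit 1605593565) (nat_lit 85) (nat_lit 5) (nat_lit 88) (nat_lit 5) (nat_lit 89) (nat_lit 5) (nat_lit 628) (nat_lit 501) (nat_lit 431)) (XT.lf (nat_lit 0) (nat_lit 2990459475) (nat_lit 304) (nat_lit 5701933317) (nat_lit 76) (nat_lit 4840643470) (nat_lit 81) (nat_lit 5) (nat_lit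 85) (nat_lit 5) (nat_lit 82) (nat_lit 5) (nat_lit 629) (nat_lit 501) (nat_lit 430))))) (XT.nd (nat_lit 234) (nat_lit 684) (nat_lit 0) (XT.nd (nat_lit 78) (nat_lit 304) (nat_lit 0) (XT.lf (nat_lit 0) (nat_lit 3996708489) (nat_lit 228) (nat_lit 3663483146) (nat_lit 304) (nat_lit 6031280485) (nat_lit 78) (nat_lit 5) (nat_lit 81) (nat_lit 5) (nat_lit 82) (nat_lit 5) (nat_lit 630) (nat_lit 501) (nat_lit 429)) (XT.nd (nat_lit 78) (nat_lit 76) (nat_lit 0) (XT.lf (nat_lit 0) (nat_lit 41278232) (nat_lit 228) (nat_lit 12393895690) (nat_lit 304) (nat_lit 1417666807) (nat_lit 75) (nat_lit 5) (nat_lit 78) (nat_lit 5) (nat_lit 79) (nat_lit 5) (nat_lit 631) (nat_lit 501) (nat_lit 428)) (XT.lf (nat_lit 0) (nat_lit 3298458386) (nat_lit 304) (nat_lit 4022580480) (nat_lit 76) (nat_lit 6694904662) (nat_lit 74) (nat_lit 5) (nat_lit 78) (nat_lit 5) (nat_lit 75) (nat_lit 5) (nat_lit 632) (nat_lit 501) (nat_lit 427)))) (XT.nd (nat_lit 156) (nat_lit 228) (nat_lit 0) (XT.nd (nat_lit 78)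 (nat_lit 228) (nat_lit 0) (XT.lf (nat_lit 0) (nat_lit 5968462966) (nat_lit 228) (nat_lit 2124558486) (nat_lit 304) (nat_lit 6089038635) (nat_lit 71) (nat_lit 5) (nat_lit 74) (nat_lit 5) (nat_lit 75) (nat_lit 5) (nat_lit 633) (nat_lit 501) (nat_lit 426)) (XT.lf (nat_lit 0) (nat_lit 1803013969) (nat_lit 228) (nat_lit 11204410756) (nat_lit 304) (nat_lit 1343596329) (nat_lit 68) (nat_lit 5) (nat_lit 71) (nat_lit 5) (nat_lit 72) (nat_lit 5) (nat_lit 634) (nat_lit 501) (nat_lit 425))) (XT.nd (nat_lit 78) (nat_lit 152) (nat_lit 0) (XT.lf (nat_lit 0) (nat_lit 3484955137) (nat_lit 304) (nat_lit 2490892013) (nat_lit 76) (nat_lit 8546379823) (nat_lit 67) (nat_lit 5) (nat_lit 71) (nat_lit 5) (nat_lit 68) (nat_lit 5) (nat_lit 635) (nat_lit 501) (nat_lit 424)) (XT.lf (nat_lit 0) (nat_lit 7799196726) (nat_lit 152) (nat_lit 608748824) (nat_lit 228) (nat_lit 6288417659) (nat_lit 65) (nat_lit 5) (nat_lit 67) (nat_lit 5) (nat_lit 68) (nat_lit 5) (nat_lit 636) (nat_lit 501) (nat_lit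 423)))))) (XT.nd (nat_lit 546) (nat_lit 760) (nat_lit 0) (XT.nd (nat_lit 234) (nat_lit 684) (nat_lit 0) (XT.nd (nat_lit 78) (nat_lit 228) (nat_lit 0) (XT.lf (nat_lit 0) (nat_lit 3406507308) (nat_lit 228) (nat_lit 10058739492) (nat_lit 304) (nat_lit 1408019327) (nat_lit 62) (nat_lit 5) (nat_lit 65) (nat_lit 5) (nat_lit 66) (nat_lit 5) (nat_lit 637) (nat_lit 501) (nat_lit 422)) (XT.nd (nat_lit 78) (nat_lit 152) (nat_lit 0) (XT.lf (nat_lit 0) (nat_lit 3539157584) (nat_lit 304) (nat_lit 1132277775) (nat_lit 76) (nat_lit 10381489275) (nat_lit 61) (nat_lit 5) (nat_lit 65) (nat_lit 5) (nat_lit 62) (nat_lit 5) (nat_lit 638) (nat_lit 501) (nat_lit 421)) (XT.lf (nat_lit 0) (nat_lit 8599576098) (nat_lit 228) (nat_lit 5777922021) (nat_lit 76) (nat_lit 857829943) (nat_lit 59) (nat_lit 5) (nat_lit 62) (nat_lit 5) (nat_lit 60) (nat_lit 5) (nat_lit 639) (nat_lit 501) (nat_lit 420)))) (XT.nd (nat_lit 156) (nat_lit 228) (nat_lit 0) (XT.nd (nat_lit 78) (nat_lit 228) (nat_lit 0) (XT.lf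 (nat_lit 0) (nat_lit 4824672336) (nat_lit 228) (nat_lit 8972593536) (nat_lit 304) (nat_lit 1623393330) (nat_lit 56) (nat_lit 5) (nat_lit 59) (nat_lit 5) (nat_lit 60) (nat_lit 5) (nat_lit 640) (nat_lit 501) (nat_lit 419)) (XT.lf (nat_lit 0) (nat_lit 25468704) (nat_lit 152) (nat_lit 3423379360) (nat_lit 228) (nat_lit 12160288738) (nat_lit 53) (nat_lit 5) (nat_lit 55) (nat_lit 5) (nat_lit 56) (nat_lit 5) (nat_lit 641) (nat_lit 501) (nat_lit 418))) (XT.nd (nat_lit 78) (nat_lit 228) (nat_lit 0) (XT.lf (nat_lit 0) (nat_lit 8653215738) (nat_lit 228) (nat_lit 4883492986) (nat_lit 76) (nat_lit 2263413093) (nat_lit 53) (nat_lit 5) (nat_lit 56) (nat_lit 5) (nat_lit 54) (nat_lit 5) (nat_lit 642) (nat_lit 501) (nat_lit 417)) (XT.lf (nat_lit 0) (nat_lit 6027486248) (nat_lit 228) (nat_lit 7962951041) (nat_lit 304) (nat_lit 2003914746) (nat_lit 50) (nat_lit 5) (nat_lit 53) (nat_lit 5) (nat_lit 54) (nat_lit 5) (nat_lit 643) (nat_lit 501) (nat_lit 416))))) (XT.nd (nat_lit 234) (nat_lit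 380) (nat_lit 0) (XT.nd (nat_lit 78) (nat_lit 152) (nat_lit 0) (XT.lf (nat_lit 0) (nat_lit 962805341) (nat_lit 152) (nat_lit 2242857877) (nat_lit 228) (nat_lit 12986258557) (nat_lit 47) (nat_lit 5) (nat_lit 49) (nat_lit 5) (nat_lit 50) (nat_lit 5) (nat_lit 644) (nat_lit 501) (nat_lit 415)) (XT.nd (nat_lit 78) (nat_lit 152) (nat_lit 0) (XT.lf (nat_lit 0) (nat_lit 8550367193) (nat_lit 228) (nat_lit 4242682961) (nat_lit 76) (nat_lit 3598973286) (nat_lit 47) (nat_lit 5) (nat_lit 50) (nat_lit 5) (nat_lit 48) (nat_lit 5) (nat_lit 645) (nat_lit 501) (nat_lit 414)) (XT.lf (nat_lit 0) (nat_lit 6981644372) (nat_lit 152) (nat_lit 7048245514) (nat_lit 228) (nat_lit 2565679529) (nat_lit 45) (nat_lit 5) (nat_lit 47) (nat_lit 5) (nat_lit 48) (nat_lit 5) (nat_lit 646) (nat_lit 501) (nat_lit 413)))) (XT.nd (nat_lit 156) (nat_lit 152) (nat_lit 0) (XT.nd (nat_lit 78) (nat_lit 0) (nat_lit 0) (XT.lf (nat_lit 0) (nat_lit 1629664013) (nat_lit 152) (nat_lit 1156246821) (nat_lit 228) (nat_lit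 14016770092) (nat_lit 42) (nat_lit 5) (nat_lit 44) (nat_lit 5) (nat_lit 45) (nat_lit 5) (nat_lit 647) (nat_lit 501) (nat_lit 412)) (XT.lf (nat_lit 0) (nat_lit 8274532558) (nat_lit 228) (nat_lit 3891806265) (nat_lit 76) (nat_lit 4845970306) (nat_lit 42) (nat_lit 5) (nat_lit 45) (nat_lit 5) (nat_lit 43) (nat_lit 5) (nat_lit 648) (nat_lit 501) (nat_lit 411))) (XT.nd (nat_lit 73944) (nat_lit 0) (nat_lit 35720) (XT.lf (nat_lit 0) (nat_lit 7650180530) (nat_lit 152) (nat_lit 6248570951) (nat_lit 228) (nat_lit 3326862631) (nat_lit 40) (nat_lit 5) (nat_lit 42) (nat_lit 5) (nat_lit 43) (nat_lit 5) (nat_lit 649) (nat_lit 501) (nat_lit 410)) (XT.lf (nat_lit 0) (nat_lit 630865112) (nat_lit 1748) (nat_lit 2269782960) (nat_lit 0) (nat_lit 630865112) (nat_lit 510) (nat_lit 5) (nat_lit 533) (nat_lit 4) (nat_lit 510) (nat_lit 4) (nat_lit 556) (nat_lit 502) (nat_lit 502))))))) (XT.nd (nat_lit 1014) (nat_lit 7144) (nat_lit 0) (XT.nd (nat_lit 468) (nat_lit 5244) (nat_lit 0) (XT.nd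 (nat_lit 234) (nat_lit 2128) (nat_lit 0) (XT.nd (nat_lit 78) (nat_lit 1900) (nat_lit 0) (XT.lf (nat_lit 0) (nat_lit 651318237) (nat_lit 1748) (nat_lit 4104663776) (nat_lit 1748) (nat_lit 2342324069) (nat_lit 487) (nat_lit 4) (nat_lit 510) (nat_lit 5) (nat_lit 510) (nat_lit 4) (nat_lit 557) (nat_lit 502) (nat_lit 501)) (XT.nd (nat_lit 78) (nat_lit 1824) (nat_lit 0) (XT.lf (nat_lit 0) (nat_lit 1131459402) (nat_lit 1824) (nat_lit 1204575740) (nat_lit 76) (nat_lit 4798886866) (nat_lit 486) (nat_lit 5) (nat_lit 510) (nat_lit 5) (nat_lit 487) (nat_lit 4) (nat_lit 558) (nat_lit 502) (nat_lit 500)) (XT.lf (nat_lit 0) (nat_lit 4111936832) (nat_lit 1824) (nat_lit 490026767) (nat_lit 1900) (nat_lit 2570832944) (nat_lit 462) (nat_lit 5) (nat_lit 486) (nat_lit 5) (nat_lit 487) (nat_lit 4) (nat_lit 559) (nat_lit 502) (nat_lit 499)))) (XT.nd (nat_lit 78) (nat_lit 988) (nat_lit 0) (XT.lf (nat_lit 0) (nat_lit 882820871) (nat_lit 1140) (nat_lit 4927213316) (nat_lit 76) (nat_lit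 1401989879) (nat_lit 447) (nat_lit 5) (nat_lit 462) (nat_lit 5) (nat_lit 448) (nat_lit 4) (nat_lit 560) (nat_lit 502) (nat_lit 498)) (XT.nd (nat_lit 78) (nat_lit 76) (nat_lit 0) (XT.lf (nat_lit 0) (nat_lit 442165354) (nat_lit 912) (nat_lit 3888964448) (nat_lit 988) (nat_lit 2921374020) (nat_lit 435) (nat_lit 5) (nat_lit 447) (nat_lit 5) (nat_lit 448) (nat_lit 4) (nat_lit 561) (nat_lit 502) (nat_lit 497)) (XT.lf (nat_lit 0) (nat_lit 514213619) (nat_lit 988) (nat_lit 1382143783) (nat_lit 76) (nat_lit 5398033595) (nat_lit 434) (nat_lit 5) (nat_lit 447) (nat_lit 5) (nat_lit 435) (nat_lit 5) (nat_lit 562) (nat_lit 502) (nat_lit 496))))) (XT.nd (nat_lit 234) (nat_lit 2584) (nat_lit 0) (XT.nd (nat_lit 78) (nat_lit 1748) (nat_lit 0) (XT.lf (nat_lit 0) (nat_lit 3942235607) (nat_lit 988) (nat_lit 3218886860) (nat_lit 76) (nat_lit 176357664) (nat_lit 422) (nat_lit 5) (nat_lit 435) (nat_lit 5) (nat_lit 423) (nat_lit 4) (nat_lit 563) (nat_lit 502) (nat_lit 495)) (XT.nd (nat_lit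 78) (nat_lit 836) (nat_lit 0) (XT.lf (nat_lit 0) (nat_lit 29058288) (nat_lit 912) (nat_lit 5067937594) (nat_lit 76) (nat_lit 2284986166) (nat_lit 410) (nat_lit 5) (nat_lit 422) (nat_lit 5) (nat_lit 411) (nat_lit 5) (nat_lit 564) (nat_lit 502) (nat_lit 494)) (XT.lf (nat_lit 0) (nat_lit 487368400) (nat_lit 836) (nat_lit 2950038410) (nat_lit 912) (nat_lit 3990304702) (nat_lit 399) (nat_lit 5) (nat_lit 410) (nat_lit 5) (nat_lit 411) (nat_lit 5) (nat_lit 565) (nat_lit 502) (nat_lit 493)))) (XT.nd (nat_lit 156) (nat_lit 1672) (nat_lit 0) (XT.nd (nat_lit 78) (nat_lit 912) (nat_lit 0) (XT.lf (nat_lit 0) (nat_lit 6152222339) (nat_lit 836) (nat_lit 732577530) (nat_lit 912) (nat_lit 590144808) (nat_lit 399) (nat_lit 5) (nat_lit 410) (nat_lit 5) (nat_lit 411) (nat_lit 5) (nat_lit 566) (nat_lit 502) (nat_lit 492)) (XT.lf (nat_lit 0) (nat_lit 2816569268) (nat_lit 912) (nat_lit 3157377943) (nat_lit 76) (nat_lit 1549282046) (nat_lit 387) (nat_lit 5) (nat_lit 399) (nat_lit 5) (nat_lit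 388) (nat_lit 5) (nat_lit 567) (nat_lit 502) (nat_lit 491))) (XT.nd (nat_lit 78) (nat_lit 836) (nat_lit 0) (XT.lf (nat_lit 0) (nat_lit 2568248182) (nat_lit 836) (nat_lit 3684148592) (nat_lit 912) (nat_lit 1320633394) (nat_lit 376) (nat_lit 5) (nat_lit 387) (nat_lit 5) (nat_lit 388) (nat_lit 5) (nat_lit 568) (nat_lit 502) (nat_lit 490)) (XT.lf (nat_lit 0) (nat_lit 752869584) (nat_lit 760) (nat_lit 1317240974) (nat_lit 836) (nat_lit 5554146126) (nat_lit 365) (nat_lit 5) (nat_lit 375) (nat_lit 5) (nat_lit 376) (nat_lit 5) (nat_lit 569) (nat_lit 502) (nat_lit 489)))))) (XT.nd (nat_lit 546) (nat_lit 3344) (nat_lit 0) (XT.nd (nat_lit 234) (nat_lit 2280) (nat_lit 0) (XT.nd (nat_lit 78) (nat_lit 1520) (nat_lit 0) (XT.lf (nat_lit 0) (nat_lit 5491369512) (nat_lit 836) (nat_lit 1069894916) (nat_lit 76) (nat_lit 1115466963) (nat_lit 365) (nat_lit 5) (nat_lit 376) (nat_lit 5) (nat_lit 366) (nat_lit 5) (nat_lit 570) (nat_lit 502) (nat_lit 488)) (XT.nd (nat_lit 78) (nat_lit 684)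 (nat_lit 0) (XT.lf (nat_lit 0) (nat_lit 1214982252) (nat_lit 836) (nat_lit 2906443220) (nat_lit 76) (nat_lit 3609061614) (nat_lit 354) (nat_lit 5) (nat_lit 365) (nat_lit 5) (nat_lit 355) (nat_lit 5) (nat_lit 571) (nat_lit 502) (nat_lit 487)) (XT.lf (nat_lit 0) (nat_lit 3019864645) (nat_lit 684) (nat_lit 1602010893) (nat_lit 760) (nat_lit 3163802946) (nat_lit 345) (nat_lit 5) (nat_lit 354) (nat_lit 5) (nat_lit 355) (nat_lit 5) (nat_lit 572) (nat_lit 502) (nat_lit 486)))) (XT.nd (nat_lit 156) (nat_lit 1444) (nat_lit 0) (XT.nd (nat_lit 78) (nat_lit 0) (nat_lit 0) (XT.lf (nat_lit 0) (nat_lit 226704701) (nat_lit 836) (nat_lit 6643161419) (nat_lit 76) (nat_lit 972577540) (nat_lit 334) (nat_lit 5) (nat_lit 345) (nat_lit 5) (nat_lit 335) (nat_lit 5) (nat_lit 573) (nat_lit 502) (nat_lit 485)) (XT.lf (nat_lit 0) (nat_lit 3627372179) (nat_lit 836) (nat_lit 654551375) (nat_lit 76) (nat_lit 3618313327) (nat_lit 334) (nat_lit 5) (nat_lit 345) (nat_lit 5) (nat_lit 335) (nat_lit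 5) (nat_lit 574) (nat_lit 502) (nat_lit 484))) (XT.nd (nat_lit 78) (nat_lit 760) (nat_lit 0) (XT.lf (nat_lit 0) (nat_lit 5455423370) (nat_lit 684) (nat_lit 1619060784) (nat_lit 760) (nat_lit 885138341) (nat_lit 325) (nat_lit 5) (nat_lit 334) (nat_lit 5) (nat_lit 335) (nat_lit 5) (nat_lit 575) (nat_lit 502) (nat_lit 483)) (XT.lf (nat_lit 0) (nat_lit 2515298103) (nat_lit 760) (nat_lit 4390680023) (nat_lit 76) (nat_lit 1114315558) (nat_lit 315) (nat_lit 5) (nat_lit 325) (nat_lit 5) (nat_lit 316) (nat_lit 5) (nat_lit 576) (nat_lit 502) (nat_lit 482))))) (XT.nd (nat_lit 234) (nat_lit 1976) (nat_lit 0) (XT.nd (nat_lit 78) (nat_lit 760) (nat_lit 0) (XT.lf (nat_lit 0) (nat_lit 1773947003) (nat_lit 608) (nat_lit 4180979552) (nat_lit 684) (nat_lit 2127478876) (nat_lit 307) (nat_lit 5) (nat_lit 315) (nat_lit 5) (nat_lit 316) (nat_lit 5) (nat_lit 577) (nat_lit 502) (nat_lit 481)) (XT.nd (nat_lit 78) (nat_lit 684) (nat_lit 0) (XT.lf (nat_lit 0) (nat_lit 1274106788) (nat_lit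 684) (nat_lit 103646379) (nat_lit 76) (nat_lit 6768363839) (nat_lit 306) (nat_lit 5) (nat_lit 315) (nat_lit 5) (nat_lit 307) (nat_lit 5) (nat_lit 578) (nat_lit 502) (nat_lit 480)) (XT.lf (nat_lit 0) (nat_lit 4710786539) (nat_lit 760) (nat_lit 1997921908) (nat_lit 76) (nat_lit 1502206701) (nat_lit 297) (nat_lit 5) (nat_lit 307) (nat_lit 5) (nat_lit 298) (nat_lit 5) (nat_lit 579) (nat_lit 502) (nat_lit 479)))) (XT.nd (nat_lit 156) (nat_lit 684) (nat_lit 0) (XT.nd (nat_lit 78) (nat_lit 684) (nat_lit 0) (XT.lf (nat_lit 0) (nat_lit 4358158461) (nat_lit 608) (nat_lit 3841923231) (nat_lit 684) (nat_lit 77254410) (nat_lit 289) (nat_lit 5) (nat_lit 297) (nat_lit 5) (nat_lit 298) (nat_lit 5) (nat_lit 580) (nat_lit 502) (nat_lit 478)) (XT.lf (nat_lit 0) (nat_lit 2463169461) (nat_lit 608) (nat_lit 881632357) (nat_lit 684) (nat_lit 5000334623) (nat_lit 280) (nat_lit 5) (nat_lit 288) (nat_lit 5) (nat_lit 289) (nat_lit 5) (nat_lit 581) (nat_lit 502) (nat_lit 477))) (XT.nd (nat_lit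 78) (nat_lit 76) (nat_lit 0) (XT.lf (nat_lit 0) (nat_lit 533953305) (nat_lit 608) (nat_lit 6290641550) (nat_lit 684) (nat_lit 1589885342) (nat_lit 272) (nat_lit 5) (nat_lit 280) (nat_lit 5) (nat_lit 281) (nat_lit 5) (nat_lit 582) (nat_lit 502) (nat_lit 476)) (XT.lf (nat_lit 0) (nat_lit 1856316921) (nat_lit 684) (nat_lit 1416111211) (nat_lit 76) (nat_lit 5212695185) (nat_lit 271) (nat_lit 5) (nat_lit 280) (nat_lit 5) (nat_lit 272) (nat_lit 5) (nat_lit 583) (nat_lit 502) (nat_lit 475))))))))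
noncomputable def xc42 : XT := (XT.nd (nat_lit 2106) (nat_lit 5548) (nat_lit 0) (XT.nd (nat_lit 1014) (nat_lit 4636) (nat_lit 0) (XT.nd (nat_lit 468) (nat_lit 2584) (nat_lit 0) (XT.nd (nat_lit 234) (nat_lit 1140) (nat_lit 0) (XT.nd (nat_lit 78) (nat_lit 1140) (nat_lit 0) (XT.lf (nat_lit 0) (nat_lit 5164949829) (nat_lit 608) (nat_lit 166547720) (nat_lit 684) (nat_lit 3225848692) (nat_lit 263) (nat_lit 5) (nat_lit 271) (nat_lit 5) (nat_lit 272) (nat_lit 5) (nat_lit 584) (nat_lit 502) (nat_lit 474)) (XT.nd (nat_lit 78) (nat_lit 532) (nat_lit 0) (XT.lf (nat_lit 0) (nat_lit 240132404) (nat_lit 608) (nat_lit 5414285260) (nat_lit 76) (nat_lit 2976604357) (nat_lit 255) (nat_lit 5) (nat_lit 263) (nat_lit 5) (nat_lit 256) (nat_lit 5) (nat_lit 585) (nat_lit 502) (nat_lit 473)) (XT.lf (nat_lit 0) (nat_lit 1221179418) (nat_lit 532) (nat_lit 2491512235) (nat_lit 608) (nat_lit 4993447908) (nat_lit 248) (nat_lit 5) (nat_lit 255) (nat_lit 5) (nat_lit 256) (nat_lit 5) (nat_lit 586)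 (nat_lit 502) (nat_lit 472)))) (XT.nd (nat_lit 78) (nat_lit 1140) (nat_lit 0) (XT.lf (nat_lit 0) (nat_lit 7244941828) (nat_lit 608) (nat_lit 795274002) (nat_lit 76) (nat_lit 742742505) (nat_lit 248) (nat_lit 5) (nat_lit 256) (nat_lit 5) (nat_lit 249) (nat_lit 5) (nat_lit 587) (nat_lit 502) (nat_lit 471)) (XT.nd (nat_lit 78) (nat_lit 532) (nat_lit 0) (XT.lf (nat_lit 0) (nat_lit 1965994306) (nat_lit 608) (nat_lit 2853052499) (nat_lit 76) (nat_lit 4041901772) (nat_lit 240) (nat_lit 5) (nat_lit 248) (nat_lit 5) (nat_lit 241) (nat_lit 5) (nat_lit 588) (nat_lit 502) (nat_lit 470)) (XT.lf (nat_lit 0) (nat_lit 3989830965) (nat_lit 532) (nat_lit 1511056677) (nat_lit 608) (nat_lit 3439783197) (nat_lit 233) (nat_lit 5) (nat_lit 240) (nat_lit 5) (nat_lit 241) (nat_lit 5) (nat_lit 589) (nat_lit 502) (nat_lit 469))))) (XT.nd (nat_lit 234) (nat_lit 1520) (nat_lit 0) (XT.nd (nat_lit 78) (nat_lit 532) (nat_lit 0) (XT.lf (nat_lit 0) (nat_lit 77738269) (nat_lit 532) (nat_lit 7093085610)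 (nat_lit 76) (nat_lit 1851268926) (nat_lit 226) (nat_lit 5) (nat_lit 233) (nat_lit 5) (nat_lit 227) (nat_lit 5) (nat_lit 590) (nat_lit 502) (nat_lit 468)) (XT.nd (nat_lit 78) (nat_lit 532) (nat_lit 0) (XT.lf (nat_lit 0) (nat_lit 3613733515) (nat_lit 532) (nat_lit 194316787) (nat_lit 76) (nat_lit 5296757795) (nat_lit 226) (nat_lit 5) (nat_lit 233) (nat_lit 5) (nat_lit 227) (nat_lit 5) (nat_lit 591) (nat_lit 502) (nat_lit 467)) (XT.lf (nat_lit 0) (nat_lit 6863430638) (nat_lit 532) (nat_lit 353236085) (nat_lit 608) (nat_lit 1972589814) (nat_lit 219) (nat_lit 5) (nat_lit 226) (nat_lit 5) (nat_lit 227) (nat_lit 5) (nat_lit 592) (nat_lit 502) (nat_lit 466)))) (XT.nd (nat_lit 156) (nat_lit 532) (nat_lit 0) (XT.nd (nat_lit 78) (nat_lit 456) (nat_lit 0) (XT.lf (nat_lit 0) (nat_lit 1599937699) (nat_lit 532) (nat_lit 4523749596) (nat_lit 76) (nat_lit 3151402439) (nat_lit 212) (nat_lit 5) (nat_lit 219) (nat_lit 5) (nat_lit 213) (nat_lit 5) (nat_lit 593) (nat_lit 502) (nat_lit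 465)) (XT.lf (nat_lit 0) (nat_lit 2588121619) (nat_lit 456) (nat_lit 2616459937) (nat_lit 532) (nat_lit 4158058706) (nat_lit 206) (nat_lit 5) (nat_lit 212) (nat_lit 5) (nat_lit 213) (nat_lit 5) (nat_lit 594) (nat_lit 502) (nat_lit 464))) (XT.nd (nat_lit 78) (nat_lit 76) (nat_lit 0) (XT.lf (nat_lit 0) (nat_lit 380856168) (nat_lit 456) (nat_lit 8492278686) (nat_lit 532) (nat_lit 578973573) (nat_lit 200) (nat_lit 5) (nat_lit 206) (nat_lit 5) (nat_lit 207) (nat_lit 5) (nat_lit 595) (nat_lit 502) (nat_lit 463)) (XT.lf (nat_lit 0) (nat_lit 3047209341) (nat_lit 532) (nat_lit 1878946389) (nat_lit 76) (nat_lit 4616498164) (nat_lit 199) (nat_lit 5) (nat_lit 206) (nat_lit 5) (nat_lit 200) (nat_lit 5) (nat_lit 596) (nat_lit 502) (nat_lit 462)))))) (XT.nd (nat_lit 546) (nat_lit 2052) (nat_lit 0) (XT.nd (nat_lit 234) (nat_lit 1216) (nat_lit 0) (XT.nd (nat_lit 78) (nat_lit 912) (nat_lit 0) (XT.lf (nat_lit 0) (nat_lit 5456218444) (nat_lit 456) (nat_lit 1271017543) (nat_lit 532)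 (nat_lit 2907919081) (nat_lit 193) (nat_lit 5) (nat_lit 199) (nat_lit 5) (nat_lit 200) (nat_lit 5) (nat_lit 597) (nat_lit 502) (nat_lit 461)) (XT.nd (nat_lit 78) (nat_lit 456) (nat_lit 0) (XT.lf (nat_lit 0) (nat_lit 744847312) (nat_lit 456) (nat_lit 6543262064) (nat_lit 76) (nat_lit 2441235109) (nat_lit 187) (nat_lit 5) (nat_lit 193) (nat_lit 5) (nat_lit 188) (nat_lit 5) (nat_lit 598) (nat_lit 502) (nat_lit 460)) (XT.lf (nat_lit 0) (nat_lit 844208976) (nat_lit 456) (nat_lit 3583799954) (nat_lit 532) (nat_lit 5397101426) (nat_lit 181) (nat_lit 5) (nat_lit 187) (nat_lit 5) (nat_lit 188) (nat_lit 5) (nat_lit 599) (nat_lit 502) (nat_lit 459)))) (XT.nd (nat_lit 156) (nat_lit 760) (nat_lit 0) (XT.nd (nat_lit 78) (nat_lit 456) (nat_lit 0) (XT.lf (nat_lit 0) (nat_lit 8184712326) (nat_lit 532) (nat_lit 1524841007) (nat_lit 76) (nat_lit 213243214) (nat_lit 181) (nat_lit 5) (nat_lit 188) (nat_lit 5) (nat_lit 182) (nat_lit 5) (nat_lit 600) (nat_lit 502) (nat_lit 458)) (XT.lf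 (nat_lit 0) (nat_lit 1986520809) (nat_lit 456) (nat_lit 3967084729) (nat_lit 76) (nat_lit 4068203247) (nat_lit 175) (nat_lit 5) (nat_lit 181) (nat_lit 5) (nat_lit 176) (nat_lit 5) (nat_lit 601) (nat_lit 502) (nat_lit 457))) (XT.nd (nat_lit 78) (nat_lit 380) (nat_lit 0) (XT.lf (nat_lit 0) (nat_lit 3651989698) (nat_lit 380) (nat_lit 2099839134) (nat_lit 456) (nat_lit 4370955411) (nat_lit 170) (nat_lit 5) (nat_lit 175) (nat_lit 5) (nat_lit 176) (nat_lit 5) (nat_lit 602) (nat_lit 502) (nat_lit 456)) (XT.lf (nat_lit 0) (nat_lit 1186912423) (nat_lit 380) (nat_lit 8407652237) (nat_lit 456) (nat_lit 631174498) (nat_lit 165) (nat_lit 5) (nat_lit 170) (nat_lit 5) (nat_lit 171) (nat_lit 5) (nat_lit 603) (nat_lit 502) (nat_lit 455))))) (XT.nd (nat_lit 234) (nat_lit 1140) (nat_lit 0) (XT.nd (nat_lit 78) (nat_lit 836) (nat_lit 0) (XT.lf (nat_lit 0) (nat_lit 3155130326) (nat_lit 456) (nat_lit 1347961649) (nat_lit 76) (nat_lit 5826980523) (nat_lit 164) (nat_lit 5) (nat_lit 170)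 (nat_lit 5) (nat_lit 165) (nat_lit 5) (nat_lit 604) (nat_lit 502) (nat_lit 454)) (XT.nd (nat_lit 78) (nat_lit 456) (nat_lit 0) (XT.lf (nat_lit 0) (nat_lit 6510573965) (nat_lit 380) (nat_lit 497143111) (nat_lit 456) (nat_lit 3428714086) (nat_lit 159) (nat_lit 5) (nat_lit 164) (nat_lit 5) (nat_lit 165) (nat_lit 5) (nat_lit 605) (nat_lit 502) (nat_lit 453)) (XT.lf (nat_lit 0) (nat_lit 402498977) (nat_lit 456) (nat_lit 6586478222) (nat_lit 76) (nat_lit 3555586851) (nat_lit 153) (nat_lit 5) (nat_lit 159) (nat_lit 5) (nat_lit 154) (nat_lit 5) (nat_lit 606) (nat_lit 502) (nat_lit 452)))) (XT.nd (nat_lit 156) (nat_lit 760) (nat_lit 0) (XT.nd (nat_lit 78) (nat_lit 0) (nat_lit 0) (XT.lf (nat_lit 0) (nat_lit 1322014480) (nat_lit 380) (nat_lit 2937958288) (nat_lit 456) (nat_lit 6394524725) (nat_lit 148) (nat_lit 5) (nat_lit 153) (nat_lit 5) (nat_lit 154) (nat_lit 5) (nat_lit 607) (nat_lit 502) (nat_lit 451)) (XT.lf (nat_lit 0) (nat_lit 8204192495) (nat_lit 456) (nat_lit 1363819176)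 (nat_lit 76) (nat_lit 1198428077) (nat_lit 148) (nat_lit 5) (nat_lit 154) (nat_lit 5) (nat_lit 149) (nat_lit 5) (nat_lit 608) (nat_lit 502) (nat_lit 450))) (XT.nd (nat_lit 78) (nat_lit 380) (nat_lit 0) (XT.lf (nat_lit 0) (nat_lit 1350734860) (nat_lit 380) (nat_lit 4122221379) (nat_lit 76) (nat_lit 5407057311) (nat_lit 143) (nat_lit 5) (nat_lit 148) (nat_lit 5) (nat_lit 144) (nat_lit 5) (nat_lit 609) (nat_lit 502) (nat_lit 449)) (XT.lf (nat_lit 0) (nat_lit 4033750038) (nat_lit 380) (nat_lit 1267654616) (nat_lit 456) (nat_lit 5694242667) (nat_lit 138) (nat_lit 5) (nat_lit 143) (nat_lit 5) (nat_lit 144) (nat_lit 5) (nat_lit 610) (nat_lit 502) (nat_lit 448))))))) (XT.nd (nat_lit 1014) (nat_lit 2584) (nat_lit 0) (XT.nd (nat_lit 468) (nat_lit 1596) (nat_lit 0) (XT.nd (nat_lit 234) (nat_lit 684) (nat_lit 0) (XT.nd (nat_lit 78) (nat_lit 380) (nat_lit 0) (XT.lf (nat_lit 0) (nat_lit 1224943626) (nat_lit 304) (nat_lit 8120088665) (nat_lit 380) (nat_lit 1768284500) (nat_lit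 134) (nat_lit 5) (nat_lit 138) (nat_lit 5) (nat_lit 139) (nat_lit 5) (nat_lit 611) (nat_lit 502) (nat_lit 447)) (XT.nd (nat_lit 78) (nat_lit 304) (nat_lit 0) (XT.lf (nat_lit 0) (nat_lit 2220920900) (nat_lit 380) (nat_lit 1652845160) (nat_lit 76) (nat_lit 7359003931) (nat_lit 133) (nat_lit 5) (nat_lit 138) (nat_lit 5) (nat_lit 134) (nat_lit 5) (nat_lit 612) (nat_lit 502) (nat_lit 446)) (XT.lf (nat_lit 0) (nat_lit 6272755451) (nat_lit 380) (nat_lit 4598958096) (nat_lit 76) (nat_lit 482536298) (nat_lit 129) (nat_lit 5) (nat_lit 134) (nat_lit 5) (nat_lit 130) (nat_lit 5) (nat_lit 613) (nat_lit 502) (nat_lit 445)))) (XT.nd (nat_lit 78) (nat_lit 380) (nat_lit 0) (XT.lf (nat_lit 0) (nat_lit 3834621318) (nat_lit 304) (nat_lit 6592373459) (nat_lit 380) (nat_lit 1050738925) (nat_lit 125) (nat_lit 5) (nat_lit 129) (nat_lit 5) (nat_lit 130) (nat_lit 5) (nat_lit 614) (nat_lit 502) (nat_lit 444)) (XT.nd (nat_lit 78) (nat_lit 0) (nat_lit 0) (XT.lf (nat_lit 0) (nat_lit 820726398)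 (nat_lit 304) (nat_lit 2195910148) (nat_lit 380) (nat_lit 8586732044) (nat_lit 120) (nat_lit 5) (nat_lit 124) (nat_lit 5) (nat_lit 125) (nat_lit 5) (nat_lit 615) (nat_lit 502) (nat_lit 443)) (XT.lf (nat_lit 0) (nat_lit 7177737147) (nat_lit 380) (nat_lit 2261501618) (nat_lit 76) (nat_lit 2291611231) (nat_lit 120) (nat_lit 5) (nat_lit 125) (nat_lit 5) (nat_lit 121) (nat_lit 5) (nat_lit 616) (nat_lit 502) (nat_lit 442))))) (XT.nd (nat_lit 234) (nat_lit 684) (nat_lit 0) (XT.nd (nat_lit 78) (nat_lit 608) (nat_lit 0) (XT.lf (nat_lit 0) (nat_lit 6434913346) (nat_lit 304) (nat_lit 5004200496) (nat_lit 380) (nat_lit 421427738) (nat_lit 116) (nat_lit 5) (nat_lit 120) (nat_lit 5) (nat_lit 121) (nat_lit 5) (nat_lit 617) (nat_lit 502) (nat_lit 441)) (XT.nd (nat_lit 78) (nat_lit 228) (nat_lit 0) (XT.lf (nat_lit 0) (nat_lit 3296804510) (nat_lit 304) (nat_lit 443846829) (nat_lit 380) (nat_lit 8251734613) (nat_lit 111) (nat_lit 5) (nat_lit 115) (nat_lit 5) (nat_lit 116) (nat_lit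 5) (nat_lit 618) (nat_lit 502) (nat_lit 440)) (XT.lf (nat_lit 0) (nat_lit 46067910) (nat_lit 228) (nat_lit 7959538607) (nat_lit 304) (nat_lit 4120700974) (nat_lit 108) (nat_lit 5) (nat_lit 111) (nat_lit 5) (nat_lit 112) (nat_lit 5) (nat_lit 619) (nat_lit 502) (nat_lit 439)))) (XT.nd (nat_lit 156) (nat_lit 304) (nat_lit 0) (XT.nd (nat_lit 78) (nat_lit 304) (nat_lit 0) (XT.lf (nat_lit 0) (nat_lit 114501959) (nat_lit 304) (nat_lit 3250615395) (nat_lit 76) (nat_lit 8897324160) (nat_lit 107) (nat_lit 5) (nat_lit 111) (nat_lit 5) (nat_lit 108) (nat_lit 5) (nat_lit 620) (nat_lit 502) (nat_lit 438)) (XT.lf (nat_lit 0) (nat_lit 4387239068) (nat_lit 380) (nat_lit 6670107319) (nat_lit 76) (nat_lit 1343248400) (nat_lit 103) (nat_lit 5) (nat_lit 108) (nat_lit 5) (nat_lit 104) (nat_lit 5) (nat_lit 621) (nat_lit 502) (nat_lit 437))) (XT.nd (nat_lit 78) (nat_lit 76) (nat_lit 0) (XT.lf (nat_lit 0) (nat_lit 2338182862) (nat_lit 228) (nat_lit 6428692146) (nat_lit 304) (nat_lit 3774208658)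 (nat_lit 100) (nat_lit 5) (nat_lit 103) (nat_lit 5) (nat_lit 104) (nat_lit 5) (nat_lit 622) (nat_lit 502) (nat_lit 436)) (XT.lf (nat_lit 0) (nat_lit 549667282) (nat_lit 304) (nat_lit 1134634423) (nat_lit 76) (nat_lit 10999867487) (nat_lit 99) (nat_lit 5) (nat_lit 103) (nat_lit 5) (nat_lit 100) (nat_lit 5) (nat_lit 623) (nat_lit 502) (nat_lit 435)))))) (XT.nd (nat_lit 546) (nat_lit 1216) (nat_lit 0) (XT.nd (nat_lit 234) (nat_lit 532) (nat_lit 0) (XT.nd (nat_lit 78) (nat_lit 532) (nat_lit 0) (XT.lf (nat_lit 0) (nat_lit 4946013684) (nat_lit 380) (nat_lit 4716534008) (nat_lit 76) (nat_lit 3166340537) (nat_lit 95) (nat_lit 5) (nat_lit 100) (nat_lit 5) (nat_lit 96) (nat_lit 5) (nat_lit 624) (nat_lit 502) (nat_lit 434)) (XT.nd (nat_lit 78) (nat_lit 304) (nat_lit 0) (XT.lf (nat_lit 0) (nat_lit 4568799882) (nat_lit 228) (nat_lit 4872966065) (nat_lit 304) (nat_lit 3534507433) (nat_lit 92) (nat_lit 5) (nat_lit 95) (nat_lit 5) (nat_lit 96) (nat_lit 5) (nat_lit 625) (nat_lit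 502) (nat_lit 433)) (XT.lf (nat_lit 0) (nat_lit 890117747) (nat_lit 304) (nat_lit 12206161253) (nat_lit 76) (nat_lit 30189417) (nat_lit 88) (nat_lit 5) (nat_lit 92) (nat_lit 5) (nat_lit 89) (nat_lit 5) (nat_lit 626) (nat_lit 502) (nat_lit 432)))) (XT.nd (nat_lit 156) (nat_lit 304) (nat_lit 0) (XT.nd (nat_lit 78) (nat_lit 228) (nat_lit 0) (XT.lf (nat_lit 0) (nat_lit 5408231354) (nat_lit 304) (nat_lit 2849434347) (nat_lit 76) (nat_lit 5020489171) (nat_lit 88) (nat_lit 5) (nat_lit 92) (nat_lit 5) (nat_lit 89) (nat_lit 5) (nat_lit 627) (nat_lit 502) (nat_lit 431)) (XT.lf (nat_lit 0) (nat_lit 6720357904) (nat_lit 228) (nat_lit 3303918854) (nat_lit 304) (nat_lit 3408448121) (nat_lit 85) (nat_lit 5) (nat_lit 88) (nat_lit 5) (nat_lit 89) (nat_lit 5) (nat_lit 628) (nat_lit 502) (nat_lit 430))) (XT.nd (nat_lit 78) (nat_lit 0) (nat_lit 0) (XT.lf (nat_lit 0) (nat_lit 1140831793) (nat_lit 304) (nat_lit 10703324944) (nat_lit 76) (nat_lit 1745811273) (nat_lit 81) (nat_lit 5)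 (nat_lit 85) (nat_lit 5) (nat_lit 82) (nat_lit 5) (nat_lit 629) (nat_lit 502) (nat_lit 429)) (XT.lf (nat_lit 0) (nat_lit 5766861483) (nat_lit 304) (nat_lit 1087998437) (nat_lit 76) (nat_lit 6894418563) (nat_lit 81) (nat_lit 5) (nat_lit 85) (nat_lit 5) (nat_lit 82) (nat_lit 5) (nat_lit 630) (nat_lit 502) (nat_lit 428))))) (XT.nd (nat_lit 234) (nat_lit 456) (nat_lit 0) (XT.nd (nat_lit 78) (nat_lit 532) (nat_lit 0) (XT.lf (nat_lit 0) (nat_lit 8773511115) (nat_lit 228) (nat_lit 1733705830) (nat_lit 304) (nat_lit 3404123239) (nat_lit 78) (nat_lit 5) (nat_lit 81) (nat_lit 5) (nat_lit 82) (nat_lit 5) (nat_lit 631) (nat_lit 502) (nat_lit 427)) (XT.nd (nat_lit 78) (nat_lit 228) (nat_lit 0) (XT.lf (nat_lit 0) (nat_lit 1275114032) (nat_lit 304) (nat_lit 9335758341) (nat_lit 76) (nat_lit 3465087905) (nat_lit 74) (nat_lit 5) (nat_lit 78) (nat_lit 5) (nat_lit 75) (nat_lit 5) (nat_lit 632) (nat_lit 502) (nat_lit 426)) (XT.lf (nat_lit 0) (nat_lit 553886033) (nat_lit 228) (nat_lit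 5463323364) (nat_lit 304) (nat_lit 8225917315) (nat_lit 71) (nat_lit 5) (nat_lit 74) (nat_lit 5) (nat_lit 75) (nat_lit 5) (nat_lit 633) (nat_lit 502) (nat_lit 425)))) (XT.nd (nat_lit 156) (nat_lit 152) (nat_lit 0) (XT.nd (nat_lit 78) (nat_lit 304) (nat_lit 0) (XT.lf (nat_lit 0) (nat_lit 10706896206) (nat_lit 228) (nat_lit 175216534) (nat_lit 304) (nat_lit 3530965451) (nat_lit 71) (nat_lit 5) (nat_lit 74) (nat_lit 5) (nat_lit 75) (nat_lit 5) (nat_lit 634) (nat_lit 502) (nat_lit 424)) (XT.lf (nat_lit 0) (nat_lit 1283366285) (nat_lit 304) (nat_lit 8126859532) (nat_lit 76) (nat_lit 5175200973) (nat_lit 67) (nat_lit 5) (nat_lit 71) (nat_lit 5) (nat_lit 68) (nat_lit 5) (nat_lit 635) (nat_lit 502) (nat_lit 423))) (XT.nd (nat_lit 78) (nat_lit 0) (nat_lit 0) (XT.lf (nat_lit 0) (nat_lit 2058056144) (nat_lit 152) (nat_lit 4094137424) (nat_lit 228) (nat_lit 8608453205) (nat_lit 65) (nat_lit 5) (nat_lit 67) (nat_lit 5) (nat_lit 68) (nat_lit 5) (nat_lit 636) (nat_lit 502) (nat_lit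 422)) (XT.lf (nat_lit 0) (nat_lit 11147914692) (nat_lit 228) (nat_lit 2450896256) (nat_lit 76) (nat_lit 1339970819) (nat_lit 65) (nat_lit 5) (nat_lit 68) (nat_lit 5) (nat_lit 66) (nat_lit 5) (nat_lit 637) (nat_lit 502) (nat_lit 421))))))))
noncomputable def xc43 : XT := (XT.nd (nat_lit 75816) (nat_lit 0) (nat_lit 12084) (XT.nd (nat_lit 74724) (nat_lit 0) (nat_lit 25536) (XT.nd (nat_lit 468) (nat_lit 988) (nat_lit 0) (XT.nd (nat_lit 234) (nat_lit 456) (nat_lit 0) (XT.nd (nat_lit 78) (nat_lit 152) (nat_lit 0) (XT.lf (nat_lit 0) (nat_lit 1154522822) (nat_lit 304) (nat_lit 7102471590) (nat_lit 76) (nat_lit 6862416508) (nat_lit 61) (nat_lit 5) (nat_lit 65) (nat_lit 5) (nat_lit 62) (nat_lit 5) (nat_lit 638) (nat_lit 502) (nat_lit 420)) (XT.nd (nat_lit 78) (nat_lit 0) (nat_lit 0) (XT.lf (nat_lit 0) (nat_lit 3383866267) (nat_lit 152) (nat_lit 2769482794) (nat_lit 228) (nat_lit 9149697578) (nat_lit 59) (nat_lit 5) (nat_lit 61) (nat_lit 5) (nat_lit 62) (nat_lit 5) (nat_lit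 639) (nat_lit 502) (nat_lit 419)) (XT.lf (nat_lit 0) (nat_lit 11285305034) (nat_lit 228) (nat_lit 1391303290) (nat_lit 76) (nat_lit 2813084569) (nat_lit 59) (nat_lit 5) (nat_lit 62) (nat_lit 5) (nat_lit 60) (nat_lit 5) (nat_lit 640) (nat_lit 502) (nat_lit 418)))) (XT.nd (nat_lit 78) (nat_lit 152) (nat_lit 0) (XT.lf (nat_lit 0) (nat_lit 875920943) (nat_lit 304) (nat_lit 6291176244) (nat_lit 76) (nat_lit 8511924533) (nat_lit 55) (nat_lit 5) (nat_lit 59) (nat_lit 5) (nat_lit 56) (nat_lit 5) (nat_lit 641) (nat_lit 502) (nat_lit 417)) (XT.nd (nat_lit 78) (nat_lit 0) (nat_lit 0) (XT.lf (nat_lit 0) (nat_lit 4502312888) (nat_lit 152) (nat_lit 1505423730) (nat_lit 228) (nat_lit 9863721569) (nat_lit 53) (nat_lit 5) (nat_lit 55) (nat_lit 5) (nat_lit 56) (nat_lit 5) (nat_lit 642) (nat_lit 502) (nat_lit 416)) (XT.lf (nat_lit 0) (nat_lit 11280014141) (nat_lit 228) (nat_lit 556359922) (nat_lit 76) (nat_lit 4230613628) (nat_lit 53) (nat_lit 5) (nat_lit 56) (nat_lit 5) (nat_lit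 54) (nat_lit 5) (nat_lit 643) (nat_lit 502) (nat_lit 415))))) (XT.nd (nat_lit 234) (nat_lit 380) (nat_lit 0) (XT.nd (nat_lit 78) (nat_lit 304) (nat_lit 0) (XT.lf (nat_lit 0) (nat_lit 433155846) (nat_lit 304) (nat_lit 5724616538) (nat_lit 76) (nat_lit 10107665802) (nat_lit 49) (nat_lit 5) (nat_lit 53) (nat_lit 5) (nat_lit 50) (nat_lit 5) (nat_lit 644) (nat_lit 502) (nat_lit 414)) (XT.nd (nat_lit 78) (nat_lit 152) (nat_lit 0) (XT.lf (nat_lit 0) (nat_lit 5381243399) (nat_lit 152) (nat_lit 319391130) (nat_lit 228) (nat_lit 10766450209) (nat_lit 47) (nat_lit 5) (nat_lit 49) (nat_lit 5) (nat_lit 50) (nat_lit 5) (nat_lit 645) (nat_lit 502) (nat_lit 413)) (XT.lf (nat_lit 0) (nat_lit 20852311) (nat_lit 152) (nat_lit 11096380858) (nat_lit 228) (nat_lit 5554656399) (nat_lit 45) (nat_lit 5) (nat_lit 47) (nat_lit 5) (nat_lit 48) (nat_lit 5) (nat_lit 646) (nat_lit 502) (nat_lit 412)))) (XT.nd (nat_lit 156) (nat_lit 152) (nat_lit 0) (XT.nd (nat_lit 78) (nat_lit 228) (nat_lit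 0) (XT.lf (nat_lit 0) (nat_lit 11440786686) (nat_lit 152) (nat_lit 5246494398) (nat_lit 228) (nat_lit 192607804) (nat_lit 45) (nat_lit 5) (nat_lit 47) (nat_lit 5) (nat_lit 48) (nat_lit 5) (nat_lit 647) (nat_lit 502) (nat_lit 411)) (XT.lf (nat_lit 0) (nat_lit 5220367541) (nat_lit 228) (nat_lit 11111212179) (nat_lit 76) (nat_lit 759526184) (nat_lit 42) (nat_lit 5) (nat_lit 45) (nat_lit 5) (nat_lit 43) (nat_lit 5) (nat_lit 648) (nat_lit 502) (nat_lit 410))) (XT.nd (nat_lit 73788) (nat_lit 0) (nat_lit 39064) (XT.lf (nat_lit 0) (nat_lit 306542487) (nat_lit 152) (nat_lit 10475074678) (nat_lit 228) (nat_lit 6524053453) (nat_lit 40) (nat_lit 5) (nat_lit 42) (nat_lit 5) (nat_lit 43) (nat_lit 5) (nat_lit 649) (nat_lit 502) (nat_lit 409)) (XT.lf (nat_lit 0) (nat_lit 1569443130) (nat_lit 1596) (nat_lit 358950347) (nat_lit 0) (nat_lit 1569443130) (nat_lit 554) (nat_lit 5) (nat_lit 575) (nat_lit 4) (nat_lit 554) (nat_lit 4) (nat_lit 554) (nat_lit 503) (nat_lit 503)))))) (XT.nd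 (nat_lit 546) (nat_lit 4484) (nat_lit 0) (XT.nd (nat_lit 234) (nat_lit 3952) (nat_lit 0) (XT.nd (nat_lit 78) (nat_lit 3496) (nat_lit 0) (XT.lf (nat_lit 0) (nat_lit 4387276136) (nat_lit 1596) (nat_lit 2237652179) (nat_lit 1596) (nat_lit 404113948) (nat_lit 533) (nat_lit 4) (nat_lit 554) (nat_lit 5) (nat_lit 554) (nat_lit 4) (nat_lit 555) (nat_lit 503) (nat_lit 502)) (XT.nd (nat_lit 78) (nat_lit 1748) (nat_lit 0) (XT.lf (nat_lit 0) (nat_lit 2485873791) (nat_lit 1672) (nat_lit 542343299) (nat_lit 1748) (nat_lit 4035435540) (nat_lit 510) (nat_lit 5) (nat_lit 532) (nat_lit 5) (nat_lit 533) (nat_lit 4) (nat_lit 556) (nat_lit 503) (nat_lit 501)) (XT.lf (nat_lit 0) (nat_lit 581702104) (nat_lit 1748) (nat_lit 5902851481) (nat_lit 1748) (nat_lit 615141248) (nat_lit 487) (nat_lit 4) (nat_lit 510) (nat_lit 5) (nat_lit 510) (nat_lit 4) (nat_lit 557) (nat_lit 503) (nat_lit 500)))) (XT.nd (nat_lit 156) (nat_lit 2052) (nat_lit 0) (XT.nd (nat_lit 78) (nat_lit 1824) (nat_lit 0)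 (XT.lf (nat_lit 0) (nat_lit 2802268146) (nat_lit 1824) (nat_lit 1321034484) (nat_lit 76) (nat_lit 3013462304) (nat_lit 486) (nat_lit 5) (nat_lit 510) (nat_lit 5) (nat_lit 487) (nat_lit 4) (nat_lit 558) (nat_lit 503) (nat_lit 499)) (XT.lf (nat_lit 0) (nat_lit 3959915830) (nat_lit 1824) (nat_lit 2278808941) (nat_lit 1900) (nat_lit 936599596) (nat_lit 462) (nat_lit 5) (nat_lit 486) (nat_lit 5) (nat_lit 487) (nat_lit 4) (nat_lit 559) (nat_lit 503) (nat_lit 498))) (XT.nd (nat_lit 78) (nat_lit 912) (nat_lit 0) (XT.lf (nat_lit 0) (nat_lit 2092627622) (nat_lit 1064) (nat_lit 359612130) (nat_lit 1140) (nat_lit 4762971340) (nat_lit 447) (nat_lit 5) (nat_lit 461) (nat_lit 5) (nat_lit 462) (nat_lit 5) (nat_lit 560) (nat_lit 503) (nat_lit 497)) (XT.lf (nat_lit 0) (nat_lit 211899646) (nat_lit 912) (nat_lit 5652389177) (nat_lit 988) (nat_lit 1392130936) (nat_lit 435) (nat_lit 5) (nat_lit 447) (nat_lit 5) (nat_lit 448) (nat_lit 4) (nat_lit 561) (nat_lit 503) (nat_lit 496)))))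 (XT.nd (nat_lit 234) (nat_lit 2584) (nat_lit 0) (XT.nd (nat_lit 78) (nat_lit 1824) (nat_lit 0) (XT.lf (nat_lit 0) (nat_lit 1991170036) (nat_lit 988) (nat_lit 1660671535) (nat_lit 76) (nat_lit 3646914966) (nat_lit 434) (nat_lit 5) (nat_lit 447) (nat_lit 5) (nat_lit 435) (nat_lit 5) (nat_lit 562) (nat_lit 503) (nat_lit 495)) (XT.nd (nat_lit 78) (nat_lit 912) (nat_lit 0) (XT.lf (nat_lit 0) (nat_lit 3803356668) (nat_lit 912) (nat_lit 1581022298) (nat_lit 988) (nat_lit 1958166465) (nat_lit 422) (nat_lit 5) (nat_lit 434) (nat_lit 5) (nat_lit 435) (nat_lit 5) (nat_lit 563) (nat_lit 503) (nat_lit 494)) (XT.lf (nat_lit 0) (nat_lit 1403254880) (nat_lit 912) (nat_lit 5431665285) (nat_lit 76) (nat_lit 552824620) (nat_lit 410) (nat_lit 5) (nat_lit 422) (nat_lit 5) (nat_lit 411) (nat_lit 5) (nat_lit 564) (nat_lit 503) (nat_lit 493)))) (XT.nd (nat_lit 156) (nat_lit 1672) (nat_lit 0) (XT.nd (nat_lit 78) (nat_lit 76) (nat_lit 0) (XT.lf (nat_lit 0) (nat_lit 84027057) (nat_lit 836)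 (nat_lit 4693930448) (nat_lit 912) (nat_lit 2656192961) (nat_lit 399) (nat_lit 5) (nat_lit 410) (nat_lit 5) (nat_lit 411) (nat_lit 5) (nat_lit 565) (nat_lit 503) (nat_lit 492)) (XT.lf (nat_lit 0) (nat_lit 703363417) (nat_lit 912) (nat_lit 1771844007) (nat_lit 76) (nat_lit 5006699697) (nat_lit 398) (nat_lit 5) (nat_lit 410) (nat_lit 5) (nat_lit 399) (nat_lit 5) (nat_lit 566) (nat_lit 503) (nat_lit 491))) (XT.nd (nat_lit 78) (nat_lit 836) (nat_lit 0) (XT.lf (nat_lit 0) (nat_lit 3882991023) (nat_lit 836) (nat_lit 175709993) (nat_lit 912) (nat_lit 3472289895) (nat_lit 387) (nat_lit 5) (nat_lit 398) (nat_lit 5) (nat_lit 399) (nat_lit 5) (nat_lit 567) (nat_lit 503) (nat_lit 490)) (XT.lf (nat_lit 0) (nat_lit 2037619949) (nat_lit 836) (nat_lit 5422431555) (nat_lit 912) (nat_lit 121432907) (nat_lit 376) (nat_lit 5) (nat_lit 387) (nat_lit 5) (nat_lit 388) (nat_lit 5) (nat_lit 568) (nat_lit 503) (nat_lit 489))))))) (XT.nd (nat_lit 1092) (nat_lit 6156) (nat_lit 0) (XT.nd (nat_lit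 546) (nat_lit 3420) (nat_lit 0) (XT.nd (nat_lit 234) (nat_lit 2204) (nat_lit 0) (XT.nd (nat_lit 78) (nat_lit 836) (nat_lit 0) (XT.lf (nat_lit 0) (nat_lit 163916018) (nat_lit 760) (nat_lit 3056119524) (nat_lit 836) (nat_lit 4413193549) (nat_lit 365) (nat_lit 5) (nat_lit 375) (nat_lit 5) (nat_lit 376) (nat_lit 5) (nat_lit 569) (nat_lit 503) (nat_lit 488)) (XT.nd (nat_lit 78) (nat_lit 836) (nat_lit 0) (XT.lf (nat_lit 0) (nat_lit 5991233483) (nat_lit 760) (nat_lit 613359714) (nat_lit 836) (nat_lit 1081847499) (nat_lit 365) (nat_lit 5) (nat_lit 375) (nat_lit 5) (nat_lit 376) (nat_lit 5) (nat_lit 570) (nat_lit 503) (nat_lit 487)) (XT.lf (nat_lit 0) (nat_lit 2266664148) (nat_lit 836) (nat_lit 3587869320) (nat_lit 76) (nat_lit 1886269583) (nat_lit 354) (nat_lit 5) (nat_lit 365) (nat_lit 5) (nat_lit 355) (nat_lit 5) (nat_lit 571) (nat_lit 503) (nat_lit 486)))) (XT.nd (nat_lit 156) (nat_lit 684) (nat_lit 0) (XT.nd (nat_lit 78) (nat_lit 836) (nat_lit 0) (XT.lf (nat_lit 0)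 (nat_lit 2294755089) (nat_lit 684) (nat_lit 3345431496) (nat_lit 760) (nat_lit 2156477987) (nat_lit 345) (nat_lit 5) (nat_lit 354) (nat_lit 5) (nat_lit 355) (nat_lit 5) (nat_lit 572) (nat_lit 503) (nat_lit 485)) (XT.lf (nat_lit 0) (nat_lit 418517220) (nat_lit 760) (nat_lit 762279503) (nat_lit 836) (nat_lit 6673305256) (nat_lit 334) (nat_lit 5) (nat_lit 344) (nat_lit 5) (nat_lit 345) (nat_lit 5) (nat_lit 573) (nat_lit 503) (nat_lit 484))) (XT.nd (nat_lit 78) (nat_lit 684) (nat_lit 0) (XT.lf (nat_lit 0) (nat_lit 4548302562) (nat_lit 836) (nat_lit 1476657351) (nat_lit 76) (nat_lit 1887601069) (nat_lit 334) (nat_lit 5) (nat_lit 345) (nat_lit 5) (nat_lit 335) (nat_lit 5) (nat_lit 574) (nat_lit 503) (nat_lit 483)) (XT.lf (nat_lit 0) (nat_lit 4587988018) (nat_lit 684) (nat_lit 3374135323) (nat_lit 760) (nat_lit 10491580) (nat_lit 325) (nat_lit 5) (nat_lit 334) (nat_lit 5) (nat_lit 335) (nat_lit 5) (nat_lit 575) (nat_lit 503) (nat_lit 482))))) (XT.nd (nat_lit 234) (nat_lit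 1976) (nat_lit 0) (XT.nd (nat_lit 78) (nat_lit 684) (nat_lit 0) (XT.lf (nat_lit 0) (nat_lit 2704658160) (nat_lit 684) (nat_lit 632911217) (nat_lit 760) (nat_lit 4696423647) (nat_lit 315) (nat_lit 5) (nat_lit 324) (nat_lit 5) (nat_lit 325) (nat_lit 5) (nat_lit 576) (nat_lit 503) (nat_lit 481)) (XT.nd (nat_lit 78) (nat_lit 76) (nat_lit 0) (XT.lf (nat_lit 0) (nat_lit 792148733) (nat_lit 608) (nat_lit 5947322333) (nat_lit 684) (nat_lit 1357390598) (nat_lit 307) (nat_lit 5) (nat_lit 315) (nat_lit 5) (nat_lit 316) (nat_lit 5) (nat_lit 577) (nat_lit 503) (nat_lit 480)) (XT.lf (nat_lit 0) (nat_lit 2006984043) (nat_lit 684) (nat_lit 1139413450) (nat_lit 76) (nat_lit 5014620236) (nat_lit 306) (nat_lit 5) (nat_lit 315) (nat_lit 5) (nat_lit 307) (nat_lit 5) (nat_lit 578) (nat_lit 503) (nat_lit 479)))) (XT.nd (nat_lit 156) (nat_lit 608) (nat_lit 0) (XT.nd (nat_lit 78) (nat_lit 684) (nat_lit 0) (XT.lf (nat_lit 0) (nat_lit 5139256380) (nat_lit 684) (nat_lit 260908028) (nat_lit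 760) (nat_lit 2826523670) (nat_lit 297) (nat_lit 5) (nat_lit 306) (nat_lit 5) (nat_lit 307) (nat_lit 5) (nat_lit 579) (nat_lit 503) (nat_lit 478)) (XT.lf (nat_lit 0) (nat_lit 552893444) (nat_lit 684) (nat_lit 5076116973) (nat_lit 76) (nat_lit 2664736028) (nat_lit 288) (nat_lit 5) (nat_lit 297) (nat_lit 5) (nat_lit 289) (nat_lit 5) (nat_lit 580) (nat_lit 503) (nat_lit 477))) (XT.nd (nat_lit 78) (nat_lit 0) (nat_lit 0) (XT.lf (nat_lit 0) (nat_lit 1255672596) (nat_lit 608) (nat_lit 2684221495) (nat_lit 684) (nat_lit 4422325602) (nat_lit 280) (nat_lit 5) (nat_lit 288) (nat_lit 5) (nat_lit 289) (nat_lit 5) (nat_lit 581) (nat_lit 503) (nat_lit 476)) (XT.lf (nat_lit 0) (nat_lit 7378554808) (nat_lit 684) (nat_lit 720388128) (nat_lit 76) (nat_lit 333445211) (nat_lit 280) (nat_lit 5) (nat_lit 289) (nat_lit 5) (nat_lit 281) (nat_lit 5) (nat_lit 582) (nat_lit 503) (nat_lit 475)))))) (XT.nd (nat_lit 546) (nat_lit 2584) (nat_lit 0) (XT.nd (nat_lit 234) (nat_lit 1672) (nat_lit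 0) (XT.nd (nat_lit 78) (nat_lit 1216) (nat_lit 0) (XT.lf (nat_lit 0) (nat_lit 2354720547) (nat_lit 684) (nat_lit 2736058751) (nat_lit 76) (nat_lit 3412796690) (nat_lit 271) (nat_lit 5) (nat_lit 280) (nat_lit 5) (nat_lit 272) (nat_lit 5) (nat_lit 583) (nat_lit 503) (nat_lit 474)) (XT.nd (nat_lit 78) (nat_lit 608) (nat_lit 0) (XT.lf (nat_lit 0) (nat_lit 3793107615) (nat_lit 608) (nat_lit 2002546282) (nat_lit 684) (nat_lit 2780831894) (nat_lit 263) (nat_lit 5) (nat_lit 271) (nat_lit 5) (nat_lit 272) (nat_lit 5) (nat_lit 584) (nat_lit 503) (nat_lit 473)) (XT.lf (nat_lit 0) (nat_lit 632668065) (nat_lit 608) (nat_lit 6868904527) (nat_lit 76) (nat_lit 1149465945) (nat_lit 255) (nat_lit 5) (nat_lit 263) (nat_lit 5) (nat_lit 256) (nat_lit 5) (nat_lit 585) (nat_lit 503) (nat_lit 472)))) (XT.nd (nat_lit 156) (nat_lit 1140) (nat_lit 0) (XT.nd (nat_lit 78) (nat_lit 532) (nat_lit 0) (XT.lf (nat_lit 0) (nat_lit 4072286508) (nat_lit 608) (nat_lit 283692396) (nat_lit 76) (nat_lit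 4370837809) (nat_lit 255) (nat_lit 5) (nat_lit 263) (nat_lit 5) (nat_lit 256) (nat_lit 5) (nat_lit 586) (nat_lit 503) (nat_lit 471)) (XT.lf (nat_lit 0) (nat_lit 6450015269) (nat_lit 532) (nat_lit 1123026062) (nat_lit 608) (nat_lit 1231225850) (nat_lit 248) (nat_lit 5) (nat_lit 255) (nat_lit 5) (nat_lit 256) (nat_lit 5) (nat_lit 587) (nat_lit 503) (nat_lit 470))) (XT.nd (nat_lit 78) (nat_lit 532) (nat_lit 0) (XT.lf (nat_lit 0) (nat_lit 2226442799) (nat_lit 608) (nat_lit 4483446063) (nat_lit 76) (nat_lit 2173176810) (nat_lit 240) (nat_lit 5) (nat_lit 248) (nat_lit 5) (nat_lit 241) (nat_lit 5) (nat_lit 588) (nat_lit 503) (nat_lit 469)) (XT.lf (nat_lit 0) (nat_lit 2303446490) (nat_lit 532) (nat_lit 3422722123) (nat_lit 608) (nat_lit 3237324354) (nat_lit 233) (nat_lit 5) (nat_lit 240) (nat_lit 5) (nat_lit 241) (nat_lit 5) (nat_lit 589) (nat_lit 503) (nat_lit 468))))) (XT.nd (nat_lit 234) (nat_lit 1520) (nat_lit 0) (XT.nd (nat_lit 78) (nat_lit 532) (nat_lit 0) (XT.lf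 (nat_lit 0) (nat_lit 173752662) (nat_lit 456) (nat_lit 56010504) (nat_lit 532) (nat_lit 8816082667) (nat_lit 226) (nat_lit 5) (nat_lit 232) (nat_lit 5) (nat_lit 233) (nat_lit 5) (nat_lit 590) (nat_lit 503) (nat_lit 467)) (XT.nd (nat_lit 78) (nat_lit 532) (nat_lit 0) (XT.lf (nat_lit 0) (nat_lit 3741462138) (nat_lit 532) (nat_lit 2007124999) (nat_lit 76) (nat_lit 3380461500) (nat_lit 226) (nat_lit 5) (nat_lit 233) (nat_lit 5) (nat_lit 227) (nat_lit 5) (nat_lit 591) (nat_lit 503) (nat_lit 466)) (XT.lf (nat_lit 0) (nat_lit 4992591616) (nat_lit 532) (nat_lit 2316193651) (nat_lit 608) (nat_lit 1905425565) (nat_lit 219) (nat_lit 5) (nat_lit 226) (nat_lit 5) (nat_lit 227) (nat_lit 5) (nat_lit 592) (nat_lit 503) (nat_lit 465)))) (XT.nd (nat_lit 156) (nat_lit 532) (nat_lit 0) (XT.nd (nat_lit 78) (nat_lit 456) (nat_lit 0) (XT.lf (nat_lit 0) (nat_lit 1617258009) (nat_lit 532) (nat_lit 6491987580) (nat_lit 76) (nat_lit 1191770474) (nat_lit 212) (nat_lit 5) (nat_lit 219) (nat_lit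 5) (nat_lit 213) (nat_lit 5) (nat_lit 593) (nat_lit 503) (nat_lit 464)) (XT.lf (nat_lit 0) (nat_lit 559515178) (nat_lit 456) (nat_lit 4626016294) (nat_lit 532) (nat_lit 4203763992) (nat_lit 206) (nat_lit 5) (nat_lit 212) (nat_lit 5) (nat_lit 213) (nat_lit 5) (nat_lit 594) (nat_lit 503) (nat_lit 463))) (XT.nd (nat_lit 78) (nat_lit 532) (nat_lit 0) (XT.lf (nat_lit 0) (nat_lit 7772296191) (nat_lit 456) (nat_lit 1050055192) (nat_lit 532) (nat_lit 657048351) (nat_lit 206) (nat_lit 5) (nat_lit 212) (nat_lit 5) (nat_lit 213) (nat_lit 5) (nat_lit 595) (nat_lit 503) (nat_lit 462)) (XT.lf (nat_lit 0) (nat_lit 2929085004) (nat_lit 532) (nat_lit 4043725519) (nat_lit 76) (nat_lit 2597967667) (nat_lit 199) (nat_lit 5) (nat_lit 206) (nat_lit 5) (nat_lit 200) (nat_lit 5) (nat_lit 596) (nat_lit 503) (nat_lit 461))))))))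
noncomputable def xc44 : XT := (XT.nd (nat_lit 2106) (nat_lit 4408) (nat_lit 0) (XT.nd (nat_lit 1014) (nat_lit 3268) (nat_lit 0) (XT.nd (nat_lit 468) (nat_lit 2052) (nat_lit 0) (XT.nd (nat_lit 234) (nat_lit 1292) (nat_lit 0) (XT.nd (nat_lit 78) (nat_lit 456) (nat_lit 0) (XT.lf (nat_lit 0) (nat_lit 3228878399) (nat_lit 456) (nat_lit 3343271345) (nat_lit 532) (nat_lit 3091870211) (nat_lit 193) (nat_lit 5) (nat_lit 199) (nat_lit 5) (nat_lit 200) (nat_lit 5) (nat_lit 597) (nat_lit 503) (nat_lit 460)) (XT.nd (nat_lit 78) (nat_lit 0) (nat_lit 0) (XT.lf (nat_lit 0) (nat_lit 512196424) (nat_lit 456) (nat_lit 8878119798) (nat_lit 76) (nat_lit 368940586) (nat_lit 187) (nat_lit 5) (nat_lit 193) (nat_lit 5) (nat_lit 188) (nat_lit 5) (nat_lit 598) (nat_lit 503) (nat_lit 459)) (XT.lf (nat_lit 0) (nat_lit 4167606181) (nat_lit 456) (nat_lit 1535303404) (nat_lit 76) (nat_lit 4152669405) (nat_lit 187) (nat_lit 5) (nat_lit 193) (nat_lit 5) (nat_lit 188) (nat_lit 5) (nat_lit 599)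 (nat_lit 503) (nat_lit 458)))) (XT.nd (nat_lit 78) (nat_lit 836) (nat_lit 0) (XT.lf (nat_lit 0) (nat_lit 5966109005) (nat_lit 456) (nat_lit 1924646352) (nat_lit 532) (nat_lit 2063182158) (nat_lit 181) (nat_lit 5) (nat_lit 187) (nat_lit 5) (nat_lit 188) (nat_lit 5) (nat_lit 600) (nat_lit 503) (nat_lit 457)) (XT.nd (nat_lit 78) (nat_lit 380) (nat_lit 0) (XT.lf (nat_lit 0) (nat_lit 1614825222) (nat_lit 456) (nat_lit 6513357900) (nat_lit 76) (nat_lit 1925827275) (nat_lit 175) (nat_lit 5) (nat_lit 181) (nat_lit 5) (nat_lit 176) (nat_lit 5) (nat_lit 601) (nat_lit 503) (nat_lit 456)) (XT.lf (nat_lit 0) (nat_lit 1038297328) (nat_lit 380) (nat_lit 4303244415) (nat_lit 456) (nat_lit 4814217121) (nat_lit 170) (nat_lit 5) (nat_lit 175) (nat_lit 5) (nat_lit 176) (nat_lit 5) (nat_lit 602) (nat_lit 503) (nat_lit 455))))) (XT.nd (nat_lit 234) (nat_lit 1216) (nat_lit 0) (XT.nd (nat_lit 78) (nat_lit 836) (nat_lit 0) (XT.lf (nat_lit 0) (nat_lit 8762773247) (nat_lit 380) (nat_lit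 380476225) (nat_lit 456) (nat_lit 1116286023) (nat_lit 170) (nat_lit 5) (nat_lit 175) (nat_lit 5) (nat_lit 176) (nat_lit 5) (nat_lit 603) (nat_lit 503) (nat_lit 454)) (XT.nd (nat_lit 78) (nat_lit 380) (nat_lit 0) (XT.lf (nat_lit 0) (nat_lit 2642576901) (nat_lit 456) (nat_lit 4113179243) (nat_lit 76) (nat_lit 3608852880) (nat_lit 164) (nat_lit 5) (nat_lit 170) (nat_lit 5) (nat_lit 165) (nat_lit 5) (nat_lit 604) (nat_lit 503) (nat_lit 453)) (XT.lf (nat_lit 0) (nat_lit 3675483809) (nat_lit 380) (nat_lit 2780271000) (nat_lit 456) (nat_lit 4016002144) (nat_lit 159) (nat_lit 5) (nat_lit 164) (nat_lit 5) (nat_lit 165) (nat_lit 5) (nat_lit 605) (nat_lit 503) (nat_lit 452)))) (XT.nd (nat_lit 156) (nat_lit 760) (nat_lit 0) (XT.nd (nat_lit 78) (nat_lit 76) (nat_lit 0) (XT.lf (nat_lit 0) (nat_lit 1033992951) (nat_lit 380) (nat_lit 9311807096) (nat_lit 456) (nat_lit 235237874) (nat_lit 154) (nat_lit 5) (nat_lit 159) (nat_lit 5) (nat_lit 160) (nat_lit 5) (nat_lit 606) (nat_lit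 503) (nat_lit 451)) (XT.lf (nat_lit 0) (nat_lit 3595921004) (nat_lit 456) (nat_lit 1687241242) (nat_lit 76) (nat_lit 5408428693) (nat_lit 153) (nat_lit 5) (nat_lit 159) (nat_lit 5) (nat_lit 154) (nat_lit 5) (nat_lit 607) (nat_lit 503) (nat_lit 450))) (XT.nd (nat_lit 78) (nat_lit 380) (nat_lit 0) (XT.lf (nat_lit 0) (nat_lit 6346322850) (nat_lit 380) (nat_lit 1154212620) (nat_lit 456) (nat_lit 3303790835) (nat_lit 148) (nat_lit 5) (nat_lit 153) (nat_lit 5) (nat_lit 154) (nat_lit 5) (nat_lit 608) (nat_lit 503) (nat_lit 449)) (XT.lf (nat_lit 0) (nat_lit 570289042) (nat_lit 380) (nat_lit 7316431093) (nat_lit 76) (nat_lit 3032249784) (nat_lit 143) (nat_lit 5) (nat_lit 148) (nat_lit 5) (nat_lit 144) (nat_lit 5) (nat_lit 609) (nat_lit 503) (nat_lit 448)))))) (XT.nd (nat_lit 546) (nat_lit 1520) (nat_lit 0) (XT.nd (nat_lit 234) (nat_lit 988) (nat_lit 0) (XT.nd (nat_lit 78) (nat_lit 380) (nat_lit 0) (XT.lf (nat_lit 0) (nat_lit 764253440) (nat_lit 380) (nat_lit 3715239898)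 (nat_lit 456) (nat_lit 6555940610) (nat_lit 138) (nat_lit 5) (nat_lit 143) (nat_lit 5) (nat_lit 144) (nat_lit 5) (nat_lit 610) (nat_lit 503) (nat_lit 447)) (XT.nd (nat_lit 78) (nat_lit 380) (nat_lit 0) (XT.lf (nat_lit 0) (nat_lit 8479147675) (nat_lit 456) (nat_lit 2117030335) (nat_lit 76) (nat_lit 557805803) (nat_lit 138) (nat_lit 5) (nat_lit 144) (nat_lit 5) (nat_lit 139) (nat_lit 5) (nat_lit 611) (nat_lit 503) (nat_lit 446)) (XT.lf (nat_lit 0) (nat_lit 1292161949) (nat_lit 380) (nat_lit 5090491255) (nat_lit 76) (nat_lit 4891584360) (nat_lit 133) (nat_lit 5) (nat_lit 138) (nat_lit 5) (nat_lit 134) (nat_lit 5) (nat_lit 612) (nat_lit 503) (nat_lit 445)))) (XT.nd (nat_lit 156) (nat_lit 380) (nat_lit 0) (XT.nd (nat_lit 78) (nat_lit 304) (nat_lit 0) (XT.lf (nat_lit 0) (nat_lit 3242842994) (nat_lit 304) (nat_lit 2055469584) (nat_lit 380) (nat_lit 6098319393) (nat_lit 129) (nat_lit 5) (nat_lit 133) (nat_lit 5) (nat_lit 134) (nat_lit 5) (nat_lit 613) (nat_lit 503) (nat_lit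 444)) (XT.lf (nat_lit 0) (nat_lit 213612343) (nat_lit 304) (nat_lit 9182501582) (nat_lit 380) (nat_lit 2125131520) (nat_lit 125) (nat_lit 5) (nat_lit 129) (nat_lit 5) (nat_lit 130) (nat_lit 5) (nat_lit 614) (nat_lit 503) (nat_lit 443))) (XT.nd (nat_lit 78) (nat_lit 304) (nat_lit 0) (XT.lf (nat_lit 0) (nat_lit 1931471604) (nat_lit 380) (nat_lit 2879665688) (nat_lit 76) (nat_lit 6836380644) (nat_lit 124) (nat_lit 5) (nat_lit 129) (nat_lit 5) (nat_lit 125) (nat_lit 5) (nat_lit 615) (nat_lit 503) (nat_lit 442)) (XT.lf (nat_lit 0) (nat_lit 5714192976) (nat_lit 304) (nat_lit 324999265) (nat_lit 380) (nat_lit 5736875507) (nat_lit 120) (nat_lit 5) (nat_lit 124) (nat_lit 5) (nat_lit 125) (nat_lit 5) (nat_lit 616) (nat_lit 503) (nat_lit 441))))) (XT.nd (nat_lit 234) (nat_lit 836) (nat_lit 0) (XT.nd (nat_lit 78) (nat_lit 380) (nat_lit 0) (XT.lf (nat_lit 0) (nat_lit 2554206365) (nat_lit 304) (nat_lit 7699997856) (nat_lit 380) (nat_lit 1652483199) (nat_lit 116) (nat_lit 5)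 (nat_lit 120) (nat_lit 5) (nat_lit 121) (nat_lit 5) (nat_lit 617) (nat_lit 503) (nat_lit 440)) (XT.nd (nat_lit 78) (nat_lit 304) (nat_lit 0) (XT.lf (nat_lit 0) (nat_lit 2485322229) (nat_lit 380) (nat_lit 696887330) (nat_lit 76) (nat_lit 8857291235) (nat_lit 115) (nat_lit 5) (nat_lit 120) (nat_lit 5) (nat_lit 116) (nat_lit 5) (nat_lit 618) (nat_lit 503) (nat_lit 439)) (XT.lf (nat_lit 0) (nat_lit 6708657392) (nat_lit 380) (nat_lit 4018568331) (nat_lit 76) (nat_lit 1447029758) (nat_lit 111) (nat_lit 5) (nat_lit 116) (nat_lit 5) (nat_lit 112) (nat_lit 5) (nat_lit 619) (nat_lit 503) (nat_lit 438)))) (XT.nd (nat_lit 156) (nat_lit 228) (nat_lit 0) (XT.nd (nat_lit 78) (nat_lit 380) (nat_lit 0) (XT.lf (nat_lit 0) (nat_lit 4863079985) (nat_lit 228) (nat_lit 6173253416) (nat_lit 304) (nat_lit 1274975856) (nat_lit 108) (nat_lit 5) (nat_lit 111) (nat_lit 5) (nat_lit 112) (nat_lit 5) (nat_lit 620) (nat_lit 503) (nat_lit 437)) (XT.lf (nat_lit 0) (nat_lit 1462974845) (nat_lit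 304) (nat_lit 1496390330) (nat_lit 380) (nat_lit 9491365971) (nat_lit 103) (nat_lit 5) (nat_lit 107) (nat_lit 5) (nat_lit 108) (nat_lit 5) (nat_lit 621) (nat_lit 503) (nat_lit 436))) (XT.nd (nat_lit 78) (nat_lit 228) (nat_lit 0) (XT.lf (nat_lit 0) (nat_lit 7295671069) (nat_lit 380) (nat_lit 2031601116) (nat_lit 76) (nat_lit 3264815131) (nat_lit 103) (nat_lit 5) (nat_lit 108) (nat_lit 5) (nat_lit 104) (nat_lit 5) (nat_lit 622) (nat_lit 503) (nat_lit 435)) (XT.lf (nat_lit 0) (nat_lit 7125460735) (nat_lit 228) (nat_lit 4612909963) (nat_lit 304) (nat_lit 997507925) (nat_lit 100) (nat_lit 5) (nat_lit 103) (nat_lit 5) (nat_lit 104) (nat_lit 5) (nat_lit 623) (nat_lit 503) (nat_lit 434))))))) (XT.nd (nat_lit 1014) (nat_lit 1900) (nat_lit 0) (XT.nd (nat_lit 468) (nat_lit 1368) (nat_lit 0) (XT.nd (nat_lit 234) (nat_lit 532) (nat_lit 0) (XT.nd (nat_lit 78) (nat_lit 228) (nat_lit 0) (XT.lf (nat_lit 0) (nat_lit 3344947000) (nat_lit 380) (nat_lit 9309712430) (nat_lit 76) (nat_lit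 227407888) (nat_lit 95) (nat_lit 5) (nat_lit 100) (nat_lit 5) (nat_lit 96) (nat_lit 5) (nat_lit 624) (nat_lit 503) (nat_lit 433)) (XT.nd (nat_lit 78) (nat_lit 228) (nat_lit 0) (XT.lf (nat_lit 0) (nat_lit 7793076218) (nat_lit 380) (nat_lit 114987170) (nat_lit 76) (nat_lit 5122342180) (nat_lit 95) (nat_lit 5) (nat_lit 100) (nat_lit 5) (nat_lit 96) (nat_lit 5) (nat_lit 625) (nat_lit 503) (nat_lit 432)) (XT.lf (nat_lit 0) (nat_lit 9325159467) (nat_lit 228) (nat_lit 3029987085) (nat_lit 304) (nat_lit 826065723) (nat_lit 92) (nat_lit 5) (nat_lit 95) (nat_lit 5) (nat_lit 96) (nat_lit 5) (nat_lit 626) (nat_lit 503) (nat_lit 431)))) (XT.nd (nat_lit 78) (nat_lit 228) (nat_lit 0) (XT.lf (nat_lit 0) (nat_lit 3639819208) (nat_lit 304) (nat_lit 7737882397) (nat_lit 76) (nat_lit 1956566247) (nat_lit 88) (nat_lit 5) (nat_lit 92) (nat_lit 5) (nat_lit 89) (nat_lit 5) (nat_lit 627) (nat_lit 503) (nat_lit 430)) (XT.nd (nat_lit 78) (nat_lit 0) (nat_lit 0) (XT.lf (nat_lit 0) (nat_lit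 1736351569) (nat_lit 228) (nat_lit 6469650415) (nat_lit 304) (nat_lit 5283833717) (nat_lit 85) (nat_lit 5) (nat_lit 88) (nat_lit 5) (nat_lit 89) (nat_lit 5) (nat_lit 628) (nat_lit 503) (nat_lit 429)) (XT.lf (nat_lit 0) (nat_lit 11444372352) (nat_lit 228) (nat_lit 1436004850) (nat_lit 304) (nat_lit 767801496) (nat_lit 85) (nat_lit 5) (nat_lit 88) (nat_lit 5) (nat_lit 89) (nat_lit 5) (nat_lit 629) (nat_lit 503) (nat_lit 428))))) (XT.nd (nat_lit 234) (nat_lit 836) (nat_lit 0) (XT.nd (nat_lit 78) (nat_lit 228) (nat_lit 0) (XT.lf (nat_lit 0) (nat_lit 3826974722) (nat_lit 304) (nat_lit 6282123260) (nat_lit 76) (nat_lit 3699317913) (nat_lit 81) (nat_lit 5) (nat_lit 85) (nat_lit 5) (nat_lit 82) (nat_lit 5) (nat_lit 630) (nat_lit 503) (nat_lit 427)) (XT.nd (nat_lit 78) (nat_lit 0) (nat_lit 0) (XT.lf (nat_lit 0) (nat_lit 3480266485) (nat_lit 228) (nat_lit 5035632634) (nat_lit 304) (nat_lit 5455607643) (nat_lit 78) (nat_lit 5) (nat_lit 81) (nat_lit 5) (nat_lit 82) (nat_lit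 5) (nat_lit 631) (nat_lit 503) (nat_lit 426)) (XT.lf (nat_lit 0) (nat_lit 13307597002) (nat_lit 304) (nat_lit 675254938) (nat_lit 76) (nat_lit 154828684) (nat_lit 78) (nat_lit 5) (nat_lit 82) (nat_lit 5) (nat_lit 79) (nat_lit 5) (nat_lit 632) (nat_lit 503) (nat_lit 425)))) (XT.nd (nat_lit 156) (nat_lit 304) (nat_lit 0) (XT.nd (nat_lit 78) (nat_lit 228) (nat_lit 0) (XT.lf (nat_lit 0) (nat_lit 3897857145) (nat_lit 304) (nat_lit 4963989381) (nat_lit 76) (nat_lit 5443609661) (nat_lit 74) (nat_lit 5) (nat_lit 78) (nat_lit 5) (nat_lit 75) (nat_lit 5) (nat_lit 633) (nat_lit 503) (nat_lit 424)) (XT.lf (nat_lit 0) (nat_lit 5093457853) (nat_lit 228) (nat_lit 3619812261) (nat_lit 304) (nat_lit 5763127862) (nat_lit 71) (nat_lit 5) (nat_lit 74) (nat_lit 5) (nat_lit 75) (nat_lit 5) (nat_lit 634) (nat_lit 503) (nat_lit 423))) (XT.nd (nat_lit 78) (nat_lit 76) (nat_lit 0) (XT.lf (nat_lit 0) (nat_lit 707989812) (nat_lit 228) (nat_lit 12932843956) (nat_lit 304) (nat_lit 1009608980)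 (nat_lit 68) (nat_lit 5) (nat_lit 71) (nat_lit 5) (nat_lit 72) (nat_lit 5) (nat_lit 635) (nat_lit 503) (nat_lit 422)) (XT.lf (nat_lit 0) (nat_lit 3842540535) (nat_lit 304) (nat_lit 3807265133) (nat_lit 76) (nat_lit 7176587016) (nat_lit 67) (nat_lit 5) (nat_lit 71) (nat_lit 5) (nat_lit 68) (nat_lit 5) (nat_lit 636) (nat_lit 503) (nat_lit 421)))))) (XT.nd (nat_lit 546) (nat_lit 836) (nat_lit 0) (XT.nd (nat_lit 234) (nat_lit 608) (nat_lit 0) (XT.nd (nat_lit 78) (nat_lit 304) (nat_lit 0) (XT.lf (nat_lit 0) (nat_lit 6551861149) (nat_lit 152) (nat_lit 2236116126) (nat_lit 228) (nat_lit 6217556556) (nat_lit 65) (nat_lit 5) (nat_lit 67) (nat_lit 5) (nat_lit 68) (nat_lit 5) (nat_lit 637) (nat_lit 503) (nat_lit 420)) (XT.nd (nat_lit 78) (nat_lit 76) (nat_lit 0) (XT.lf (nat_lit 0) (nat_lit 1927695952) (nat_lit 228) (nat_lit 11931511521) (nat_lit 304) (nat_lit 1328513551) (nat_lit 62) (nat_lit 5) (nat_lit 65) (nat_lit 5) (nat_lit 66) (nat_lit 5) (nat_lit 638) (nat_lit 503)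 (nat_lit 419)) (XT.lf (nat_lit 0) (nat_lit 3649611338) (nat_lit 304) (nat_lit 2838237116) (nat_lit 76) (nat_lit 8884443741) (nat_lit 61) (nat_lit 5) (nat_lit 65) (nat_lit 5) (nat_lit 62) (nat_lit 5) (nat_lit 639) (nat_lit 503) (nat_lit 418)))) (XT.nd (nat_lit 156) (nat_lit 228) (nat_lit 0) (XT.nd (nat_lit 78) (nat_lit 228) (nat_lit 0) (XT.lf (nat_lit 0) (nat_lit 7828838787) (nat_lit 152) (nat_lit 899525067) (nat_lit 228) (nat_lit 6831639092) (nat_lit 59) (nat_lit 5) (nat_lit 61) (nat_lit 5) (nat_lit 62) (nat_lit 5) (nat_lit 640) (nat_lit 503) (nat_lit 417)) (XT.lf (nat_lit 0) (nat_lit 2946871539) (nat_lit 228) (nat_lit 10999398568) (nat_lit 304) (nat_lit 1804447085) (nat_lit 56) (nat_lit 5) (nat_lit 59) (nat_lit 5) (nat_lit 60) (nat_lit 5) (nat_lit 641) (nat_lit 503) (nat_lit 416))) (XT.nd (nat_lit 78) (nat_lit 152) (nat_lit 0) (XT.lf (nat_lit 0) (nat_lit 3306035694) (nat_lit 304) (nat_lit 2085993030) (nat_lit 76) (nat_lit 10552259623) (nat_lit 55) (nat_lit 5)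 (nat_lit 59) (nat_lit 5) (nat_lit 56) (nat_lit 5) (nat_lit 642) (nat_lit 503) (nat_lit 415)) (XT.lf (nat_lit 0) (nat_lit 8523543313) (nat_lit 228) (nat_lit 7248516430) (nat_lit 76) (nat_lit 368853902) (nat_lit 53) (nat_lit 5) (nat_lit 56) (nat_lit 5) (nat_lit 54) (nat_lit 5) (nat_lit 643) (nat_lit 503) (nat_lit 414))))) (XT.nd (nat_lit 234) (nat_lit 380) (nat_lit 0) (XT.nd (nat_lit 78) (nat_lit 228) (nat_lit 0) (XT.lf (nat_lit 0) (nat_lit 3734473606) (nat_lit 228) (nat_lit 10153840101) (nat_lit 304) (nat_lit 2452300275) (nat_lit 50) (nat_lit 5) (nat_lit 53) (nat_lit 5) (nat_lit 54) (nat_lit 5) (nat_lit 644) (nat_lit 503) (nat_lit 413)) (XT.nd (nat_lit 78) (nat_lit 152) (nat_lit 0) (XT.lf (nat_lit 0) (nat_lit 2797010766) (nat_lit 304) (nat_lit 1582750155) (nat_lit 76) (nat_lit 12163825025) (nat_lit 49) (nat_lit 5) (nat_lit 53) (nat_lit 5) (nat_lit 50) (nat_lit 5) (nat_lit 645) (nat_lit 503) (nat_lit 412)) (XT.lf (nat_lit 0) (nat_lit 8161280327) (nat_lit 228) (nat_lit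 7042584710) (nat_lit 76) (nat_lit 1545572687) (nat_lit 47) (nat_lit 5) (nat_lit 50) (nat_lit 5) (nat_lit 48) (nat_lit 5) (nat_lit 646) (nat_lit 503) (nat_lit 411)))) (XT.nd (nat_lit 156) (nat_lit 152) (nat_lit 0) (XT.nd (nat_lit 78) (nat_lit 76) (nat_lit 0) (XT.lf (nat_lit 0) (nat_lit 4256082521) (nat_lit 152) (nat_lit 9413684920) (nat_lit 228) (nat_lit 3288901178) (nat_lit 45) (nat_lit 5) (nat_lit 47) (nat_lit 5) (nat_lit 48) (nat_lit 5) (nat_lit 647) (nat_lit 503) (nat_lit 410)) (XT.lf (nat_lit 0) (nat_lit 2105798563) (nat_lit 228) (nat_lit 1364216709) (nat_lit 76) (nat_lit 13701450452) (nat_lit 44) (nat_lit 5) (nat_lit 47) (nat_lit 5) (nat_lit 45) (nat_lit 5) (nat_lit 648) (nat_lit 503) (nat_lit 409))) (XT.nd (nat_lit 73632) (nat_lit 0) (nat_lit 40508) (XT.lf (nat_lit 0) (nat_lit 7618503989) (nat_lit 228) (nat_lit 7145039836) (nat_lit 76) (nat_lit 2623457836) (nat_lit 42) (nat_lit 5) (nat_lit 45) (nat_lit 5) (nat_lit 43) (nat_lit 5) (nat_lit 649) (nat_lit 503)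 (nat_lit 408)) (XT.lf (nat_lit 0) (nat_lit 1603999529) (nat_lit 1444) (nat_lit 931058680) (nat_lit 1444) (nat_lit 931058680) (nat_lit 575) (nat_lit 4) (nat_lit 594) (nat_lit 5) (nat_lit 594) (nat_lit 4) (nat_lit 552) (nat_lit 504) (nat_lit 504))))))))
noncomputable def xc45 : XT := (XT.nd (nat_lit 2106) (nat_lit 10944) (nat_lit 0) (XT.nd (nat_lit 1014) (nat_lit 8588) (nat_lit 0) (XT.nd (nat_lit 468) (nat_lit 5776) (nat_lit 0) (XT.nd (nat_lit 234) (nat_lit 3496) (nat_lit 0) (XT.nd (nat_lit 78) (nat_lit 1672) (nat_lit 0) (XT.lf (nat_lit 0) (nat_lit 1229120294) (nat_lit 1520) (nat_lit 323718056) (nat_lit 1596) (nat_lit 5410900277) (nat_lit 554) (nat_lit 5) (nat_lit 574) (nat_lit 5) (nat_lit 575) (nat_lit 4) (nat_lit 553) (nat_lit 504) (nat_lit 503)) (XT.nd (nat_lit 78) (nat_lit 1672) (nat_lit 0) (XT.lf (nat_lit 0) (nat_lit 4974457175) (nat_lit 1596) (nat_lit 751203293) (nat_lit 0) (nat_lit 1270709949) (nat_lit 554) (nat_lit 5) (nat_lit 575) (nat_lit 4) (nat_lit 554)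 (nat_lit 4) (nat_lit 554) (nat_lit 504) (nat_lit 502)) (XT.lf (nat_lit 0) (nat_lit 1377370230) (nat_lit 1672) (nat_lit 2719045860) (nat_lit 76) (nat_lit 2933834351) (nat_lit 532) (nat_lit 5) (nat_lit 554) (nat_lit 5) (nat_lit 533) (nat_lit 4) (nat_lit 555) (nat_lit 504) (nat_lit 501)))) (XT.nd (nat_lit 78) (nat_lit 1824) (nat_lit 0) (XT.lf (nat_lit 0) (nat_lit 2371584113) (nat_lit 1672) (nat_lit 2398345365) (nat_lit 1748) (nat_lit 2295572474) (nat_lit 510) (nat_lit 5) (nat_lit 532) (nat_lit 5) (nat_lit 533) (nat_lit 4) (nat_lit 556) (nat_lit 504) (nat_lit 500)) (XT.nd (nat_lit 78) (nat_lit 0) (nat_lit 0) (XT.lf (nat_lit 0) (nat_lit 431091329) (nat_lit 1748) (nat_lit 636470655) (nat_lit 1824) (nat_lit 6034688322) (nat_lit 486) (nat_lit 5) (nat_lit 509) (nat_lit 5) (nat_lit 510) (nat_lit 5) (nat_lit 557) (nat_lit 504) (nat_lit 499)) (XT.lf (nat_lit 0) (nat_lit 4439710749) (nat_lit 1824) (nat_lit 1507630724) (nat_lit 76) (nat_lit 1192646859) (nat_lit 486) (nat_lit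 5) (nat_lit 510) (nat_lit 5) (nat_lit 487) (nat_lit 4) (nat_lit 558) (nat_lit 504) (nat_lit 498))))) (XT.nd (nat_lit 234) (nat_lit 2736) (nat_lit 0) (XT.nd (nat_lit 78) (nat_lit 1140) (nat_lit 0) (XT.lf (nat_lit 0) (nat_lit 654385744) (nat_lit 1900) (nat_lit 3446041733) (nat_lit 76) (nat_lit 3078715177) (nat_lit 461) (nat_lit 5) (nat_lit 486) (nat_lit 5) (nat_lit 462) (nat_lit 5) (nat_lit 559) (nat_lit 504) (nat_lit 497)) (XT.nd (nat_lit 78) (nat_lit 76) (nat_lit 0) (XT.lf (nat_lit 0) (nat_lit 1819201920) (nat_lit 1064) (nat_lit 2177759611) (nat_lit 1140) (nat_lit 3222629543) (nat_lit 447) (nat_lit 5) (nat_lit 461) (nat_lit 5) (nat_lit 462) (nat_lit 5) (nat_lit 560) (nat_lit 504) (nat_lit 496)) (XT.lf (nat_lit 0) (nat_lit 102267609) (nat_lit 1140) (nat_lit 92361072) (nat_lit 76) (nat_lit 7067035375) (nat_lit 446) (nat_lit 5) (nat_lit 461) (nat_lit 5) (nat_lit 447) (nat_lit 5) (nat_lit 561) (nat_lit 504) (nat_lit 495)))) (XT.nd (nat_lit 156) (nat_lit 912) (nat_lit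 0) (XT.nd (nat_lit 78) (nat_lit 912) (nat_lit 0) (XT.lf (nat_lit 0) (nat_lit 3433836814) (nat_lit 988) (nat_lit 2012929485) (nat_lit 76) (nat_lit 1857726737) (nat_lit 434) (nat_lit 5) (nat_lit 447) (nat_lit 5) (nat_lit 435) (nat_lit 5) (nat_lit 562) (nat_lit 504) (nat_lit 494)) (XT.lf (nat_lit 0) (nat_lit 3412896988) (nat_lit 912) (nat_lit 3380634809) (nat_lit 988) (nat_lit 555423844) (nat_lit 422) (nat_lit 5) (nat_lit 434) (nat_lit 5) (nat_lit 435) (nat_lit 5) (nat_lit 563) (nat_lit 504) (nat_lit 493))) (XT.nd (nat_lit 78) (nat_lit 0) (nat_lit 0) (XT.lf (nat_lit 0) (nat_lit 1514698741) (nat_lit 836) (nat_lit 1235584076) (nat_lit 912) (nat_lit 4644439675) (nat_lit 410) (nat_lit 5) (nat_lit 421) (nat_lit 5) (nat_lit 422) (nat_lit 5) (nat_lit 564) (nat_lit 504) (nat_lit 492)) (XT.lf (nat_lit 0) (nat_lit 6085998891) (nat_lit 912) (nat_lit 391061951) (nat_lit 76) (nat_lit 964850298) (nat_lit 410) (nat_lit 5) (nat_lit 422) (nat_lit 5) (nat_lit 411) (nat_lit 5) (nat_lit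 565) (nat_lit 504) (nat_lit 491)))))) (XT.nd (nat_lit 546) (nat_lit 3648) (nat_lit 0) (XT.nd (nat_lit 234) (nat_lit 2280) (nat_lit 0) (XT.nd (nat_lit 78) (nat_lit 1748) (nat_lit 0) (XT.lf (nat_lit 0) (nat_lit 1953759472) (nat_lit 912) (nat_lit 2302201756) (nat_lit 76) (nat_lit 3234197454) (nat_lit 398) (nat_lit 5) (nat_lit 410) (nat_lit 5) (nat_lit 399) (nat_lit 5) (nat_lit 566) (nat_lit 504) (nat_lit 490)) (XT.nd (nat_lit 78) (nat_lit 912) (nat_lit 0) (XT.lf (nat_lit 0) (nat_lit 3311973335) (nat_lit 836) (nat_lit 1963767854) (nat_lit 912) (nat_lit 2264171449) (nat_lit 387) (nat_lit 5) (nat_lit 398) (nat_lit 5) (nat_lit 399) (nat_lit 5) (nat_lit 567) (nat_lit 504) (nat_lit 489)) (XT.lf (nat_lit 0) (nat_lit 1027259649) (nat_lit 912) (nat_lit 6170290815) (nat_lit 76) (nat_lit 393620970) (nat_lit 375) (nat_lit 5) (nat_lit 387) (nat_lit 5) (nat_lit 376) (nat_lit 5) (nat_lit 568) (nat_lit 504) (nat_lit 488)))) (XT.nd (nat_lit 156) (nat_lit 1520) (nat_lit 0) (XT.nd (nat_lit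 78) (nat_lit 760) (nat_lit 0) (XT.lf (nat_lit 0) (nat_lit 4336930158) (nat_lit 912) (nat_lit 499135658) (nat_lit 76) (nat_lit 2807441509) (nat_lit 375) (nat_lit 5) (nat_lit 387) (nat_lit 5) (nat_lit 376) (nat_lit 5) (nat_lit 569) (nat_lit 504) (nat_lit 487)) (XT.lf (nat_lit 0) (nat_lit 5288083070) (nat_lit 760) (nat_lit 2401333994) (nat_lit 836) (nat_lit 7946097) (nat_lit 365) (nat_lit 5) (nat_lit 375) (nat_lit 5) (nat_lit 376) (nat_lit 5) (nat_lit 570) (nat_lit 504) (nat_lit 486))) (XT.nd (nat_lit 78) (nat_lit 684) (nat_lit 0) (XT.lf (nat_lit 0) (nat_lit 3281480509) (nat_lit 836) (nat_lit 4351954440) (nat_lit 76) (nat_lit 119053837) (nat_lit 354) (nat_lit 5) (nat_lit 365) (nat_lit 5) (nat_lit 355) (nat_lit 5) (nat_lit 571) (nat_lit 504) (nat_lit 485)) (XT.lf (nat_lit 0) (nat_lit 1486566993) (nat_lit 684) (nat_lit 5135087723) (nat_lit 760) (nat_lit 1187365209) (nat_lit 345) (nat_lit 5) (nat_lit 354) (nat_lit 5) (nat_lit 355) (nat_lit 5) (nat_lit 572) (nat_lit 504)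 (nat_lit 484))))) (XT.nd (nat_lit 234) (nat_lit 2052) (nat_lit 0) (XT.nd (nat_lit 78) (nat_lit 1520) (nat_lit 0) (XT.lf (nat_lit 0) (nat_lit 2106529639) (nat_lit 760) (nat_lit 447464331) (nat_lit 76) (nat_lit 5312953466) (nat_lit 344) (nat_lit 5) (nat_lit 354) (nat_lit 5) (nat_lit 345) (nat_lit 5) (nat_lit 573) (nat_lit 504) (nat_lit 483)) (XT.nd (nat_lit 78) (nat_lit 760) (nat_lit 0) (XT.lf (nat_lit 0) (nat_lit 5431779908) (nat_lit 836) (nat_lit 2383790112) (nat_lit 76) (nat_lit 110684031) (nat_lit 334) (nat_lit 5) (nat_lit 345) (nat_lit 5) (nat_lit 335) (nat_lit 5) (nat_lit 574) (nat_lit 504) (nat_lit 482)) (XT.lf (nat_lit 0) (nat_lit 814496078) (nat_lit 760) (nat_lit 4357264536) (nat_lit 76) (nat_lit 2815108733) (nat_lit 324) (nat_lit 5) (nat_lit 334) (nat_lit 5) (nat_lit 325) (nat_lit 5) (nat_lit 575) (nat_lit 504) (nat_lit 481)))) (XT.nd (nat_lit 156) (nat_lit 1368) (nat_lit 0) (XT.nd (nat_lit 78) (nat_lit 0) (nat_lit 0) (XT.lf (nat_lit 0) (nat_lit 1685152437)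 (nat_lit 684) (nat_lit 2443667951) (nat_lit 760) (nat_lit 3920100039) (nat_lit 315) (nat_lit 5) (nat_lit 324) (nat_lit 5) (nat_lit 325) (nat_lit 5) (nat_lit 576) (nat_lit 504) (nat_lit 480)) (XT.lf (nat_lit 0) (nat_lit 7487113464) (nat_lit 760) (nat_lit 274619132) (nat_lit 76) (nat_lit 350930951) (nat_lit 315) (nat_lit 5) (nat_lit 325) (nat_lit 5) (nat_lit 316) (nat_lit 5) (nat_lit 577) (nat_lit 504) (nat_lit 479))) (XT.nd (nat_lit 78) (nat_lit 684) (nat_lit 0) (XT.lf (nat_lit 0) (nat_lit 2700828083) (nat_lit 684) (nat_lit 2264244433) (nat_lit 76) (nat_lit 3212222250) (nat_lit 306) (nat_lit 5) (nat_lit 315) (nat_lit 5) (nat_lit 307) (nat_lit 5) (nat_lit 578) (nat_lit 504) (nat_lit 478)) (XT.lf (nat_lit 0) (nat_lit 3965863664) (nat_lit 684) (nat_lit 2094467924) (nat_lit 760) (nat_lit 2183309242) (nat_lit 297) (nat_lit 5) (nat_lit 306) (nat_lit 5) (nat_lit 307) (nat_lit 5) (nat_lit 579) (nat_lit 504) (nat_lit 477))))))) (XT.nd (nat_lit 1092) (nat_lit 4484) (nat_lit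 0) (XT.nd (nat_lit 546) (nat_lit 3268) (nat_lit 0) (XT.nd (nat_lit 234) (nat_lit 1900) (nat_lit 0) (XT.nd (nat_lit 78) (nat_lit 608) (nat_lit 0) (XT.lf (nat_lit 0) (nat_lit 1141681724) (nat_lit 684) (nat_lit 6325829914) (nat_lit 76) (nat_lit 844025933) (nat_lit 288) (nat_lit 5) (nat_lit 297) (nat_lit 5) (nat_lit 289) (nat_lit 5) (nat_lit 580) (nat_lit 504) (nat_lit 476)) (XT.nd (nat_lit 78) (nat_lit 608) (nat_lit 0) (XT.lf (nat_lit 0) (nat_lit 4494840981) (nat_lit 684) (nat_lit 44057155) (nat_lit 76) (nat_lit 3841791561) (nat_lit 288) (nat_lit 5) (nat_lit 297) (nat_lit 5) (nat_lit 289) (nat_lit 5) (nat_lit 581) (nat_lit 504) (nat_lit 475)) (XT.lf (nat_lit 0) (nat_lit 6380594638) (nat_lit 608) (nat_lit 1525022074) (nat_lit 684) (nat_lit 545801150) (nat_lit 280) (nat_lit 5) (nat_lit 288) (nat_lit 5) (nat_lit 289) (nat_lit 5) (nat_lit 582) (nat_lit 504) (nat_lit 474)))) (XT.nd (nat_lit 156) (nat_lit 608) (nat_lit 0) (XT.nd (nat_lit 78) (nat_lit 608) (nat_lit 0) (XT.lf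 (nat_lit 0) (nat_lit 2811904700) (nat_lit 684) (nat_lit 4150888730) (nat_lit 76) (nat_lit 1560631939) (nat_lit 271) (nat_lit 5) (nat_lit 280) (nat_lit 5) (nat_lit 272) (nat_lit 5) (nat_lit 583) (nat_lit 504) (nat_lit 473)) (XT.lf (nat_lit 0) (nat_lit 2325795617) (nat_lit 608) (nat_lit 3892672171) (nat_lit 684) (nat_lit 2378556684) (nat_lit 263) (nat_lit 5) (nat_lit 271) (nat_lit 5) (nat_lit 272) (nat_lit 5) (nat_lit 584) (nat_lit 504) (nat_lit 472))) (XT.nd (nat_lit 78) (nat_lit 0) (nat_lit 0) (XT.lf (nat_lit 0) (nat_lit 245784523) (nat_lit 532) (nat_lit 741560174) (nat_lit 608) (nat_lit 7685028557) (nat_lit 255) (nat_lit 5) (nat_lit 262) (nat_lit 5) (nat_lit 263) (nat_lit 5) (nat_lit 585) (nat_lit 504) (nat_lit 471)) (XT.lf (nat_lit 0) (nat_lit 4397626774) (nat_lit 608) (nat_lit 1870127157) (nat_lit 76) (nat_lit 2480986014) (nat_lit 255) (nat_lit 5) (nat_lit 263) (nat_lit 5) (nat_lit 256) (nat_lit 5) (nat_lit 586) (nat_lit 504) (nat_lit 470))))) (XT.nd (nat_lit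 234) (nat_lit 1596) (nat_lit 0) (XT.nd (nat_lit 78) (nat_lit 1140) (nat_lit 0) (XT.lf (nat_lit 0) (nat_lit 4809153193) (nat_lit 532) (nat_lit 3054533990) (nat_lit 608) (nat_lit 963198868) (nat_lit 248) (nat_lit 5) (nat_lit 255) (nat_lit 5) (nat_lit 256) (nat_lit 5) (nat_lit 587) (nat_lit 504) (nat_lit 469)) (XT.nd (nat_lit 78) (nat_lit 532) (nat_lit 0) (XT.lf (nat_lit 0) (nat_lit 2443179102) (nat_lit 608) (nat_lit 6214872324) (nat_lit 76) (nat_lit 248555505) (nat_lit 240) (nat_lit 5) (nat_lit 248) (nat_lit 5) (nat_lit 241) (nat_lit 5) (nat_lit 588) (nat_lit 504) (nat_lit 468)) (XT.lf (nat_lit 0) (nat_lit 515359662) (nat_lit 532) (nat_lit 5392192283) (nat_lit 608) (nat_lit 3080190990) (nat_lit 233) (nat_lit 5) (nat_lit 240) (nat_lit 5) (nat_lit 241) (nat_lit 5) (nat_lit 589) (nat_lit 504) (nat_lit 467)))) (XT.nd (nat_lit 156) (nat_lit 1064) (nat_lit 0) (XT.nd (nat_lit 78) (nat_lit 456) (nat_lit 0) (XT.lf (nat_lit 0) (nat_lit 360058242) (nat_lit 608) (nat_lit 1675190020)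 (nat_lit 76) (nat_lit 7035324270) (nat_lit 232) (nat_lit 5) (nat_lit 240) (nat_lit 5) (nat_lit 233) (nat_lit 5) (nat_lit 590) (nat_lit 504) (nat_lit 466)) (XT.lf (nat_lit 0) (nat_lit 3824349365) (nat_lit 532) (nat_lit 3923848102) (nat_lit 76) (nat_lit 1406527580) (nat_lit 226) (nat_lit 5) (nat_lit 233) (nat_lit 5) (nat_lit 227) (nat_lit 5) (nat_lit 591) (nat_lit 504) (nat_lit 465))) (XT.nd (nat_lit 78) (nat_lit 532) (nat_lit 0) (XT.lf (nat_lit 0) (nat_lit 3017122211) (nat_lit 532) (nat_lit 4338720941) (nat_lit 608) (nat_lit 1884762201) (nat_lit 219) (nat_lit 5) (nat_lit 226) (nat_lit 5) (nat_lit 227) (nat_lit 5) (nat_lit 592) (nat_lit 504) (nat_lit 464)) (XT.lf (nat_lit 0) (nat_lit 755057074) (nat_lit 456) (nat_lit 838448759) (nat_lit 532) (nat_lit 7734786423) (nat_lit 212) (nat_lit 5) (nat_lit 218) (nat_lit 5) (nat_lit 219) (nat_lit 5) (nat_lit 593) (nat_lit 504) (nat_lit 463)))))) (XT.nd (nat_lit 546) (nat_lit 2128) (nat_lit 0) (XT.nd (nat_lit 234) (nat_lit 1368)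 (nat_lit 0) (XT.nd (nat_lit 78) (nat_lit 988) (nat_lit 0) (XT.lf (nat_lit 0) (nat_lit 5129958342) (nat_lit 532) (nat_lit 1556727700) (nat_lit 76) (nat_lit 2730523471) (nat_lit 212) (nat_lit 5) (nat_lit 219) (nat_lit 5) (nat_lit 213) (nat_lit 5) (nat_lit 594) (nat_lit 504) (nat_lit 462)) (XT.nd (nat_lit 78) (nat_lit 532) (nat_lit 0) (XT.lf (nat_lit 0) (nat_lit 5602482090) (nat_lit 456) (nat_lit 3131542557) (nat_lit 532) (nat_lit 773945616) (nat_lit 206) (nat_lit 5) (nat_lit 212) (nat_lit 5) (nat_lit 213) (nat_lit 5) (nat_lit 595) (nat_lit 504) (nat_lit 461)) (XT.lf (nat_lit 0) (nat_lit 2763147095) (nat_lit 532) (nat_lit 6319165111) (nat_lit 76) (nat_lit 518064520) (nat_lit 199) (nat_lit 5) (nat_lit 206) (nat_lit 5) (nat_lit 200) (nat_lit 5) (nat_lit 596) (nat_lit 504) (nat_lit 460)))) (XT.nd (nat_lit 156) (nat_lit 836) (nat_lit 0) (XT.nd (nat_lit 78) (nat_lit 76) (nat_lit 0) (XT.lf (nat_lit 0) (nat_lit 890069862) (nat_lit 456) (nat_lit 5478897526) (nat_lit 532)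 (nat_lit 3325397319) (nat_lit 193) (nat_lit 5) (nat_lit 199) (nat_lit 5) (nat_lit 200) (nat_lit 5) (nat_lit 597) (nat_lit 504) (nat_lit 459)) (XT.lf (nat_lit 0) (nat_lit 251584225) (nat_lit 532) (nat_lit 1528386397) (nat_lit 76) (nat_lit 8010265495) (nat_lit 192) (nat_lit 5) (nat_lit 199) (nat_lit 5) (nat_lit 193) (nat_lit 5) (nat_lit 598) (nat_lit 504) (nat_lit 458))) (XT.nd (nat_lit 78) (nat_lit 456) (nat_lit 0) (XT.lf (nat_lit 0) (nat_lit 3863481452) (nat_lit 456) (nat_lit 4017619545) (nat_lit 76) (nat_lit 2006328803) (nat_lit 187) (nat_lit 5) (nat_lit 193) (nat_lit 5) (nat_lit 188) (nat_lit 5) (nat_lit 599) (nat_lit 504) (nat_lit 457)) (XT.lf (nat_lit 0) (nat_lit 3418096586) (nat_lit 456) (nat_lit 4130584759) (nat_lit 532) (nat_lit 2437867193) (nat_lit 181) (nat_lit 5) (nat_lit 187) (nat_lit 5) (nat_lit 188) (nat_lit 5) (nat_lit 600) (nat_lit 504) (nat_lit 456))))) (XT.nd (nat_lit 234) (nat_lit 1292) (nat_lit 0) (XT.nd (nat_lit 78) (nat_lit 380) (nat_lit 0)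 (XT.lf (nat_lit 0) (nat_lit 908341350) (nat_lit 380) (nat_lit 285532450) (nat_lit 456) (nat_lit 8893821061) (nat_lit 175) (nat_lit 5) (nat_lit 180) (nat_lit 5) (nat_lit 181) (nat_lit 5) (nat_lit 601) (nat_lit 504) (nat_lit 455)) (XT.nd (nat_lit 78) (nat_lit 380) (nat_lit 0) (XT.lf (nat_lit 0) (nat_lit 4890797416) (nat_lit 456) (nat_lit 1671952219) (nat_lit 76) (nat_lit 3627290704) (nat_lit 175) (nat_lit 5) (nat_lit 181) (nat_lit 5) (nat_lit 176) (nat_lit 5) (nat_lit 602) (nat_lit 504) (nat_lit 454)) (XT.lf (nat_lit 0) (nat_lit 5998027740) (nat_lit 380) (nat_lit 2662486077) (nat_lit 456) (nat_lit 1633944114) (nat_lit 170) (nat_lit 5) (nat_lit 175) (nat_lit 5) (nat_lit 176) (nat_lit 5) (nat_lit 603) (nat_lit 504) (nat_lit 453)))) (XT.nd (nat_lit 156) (nat_lit 456) (nat_lit 0) (XT.nd (nat_lit 78) (nat_lit 380) (nat_lit 0) (XT.lf (nat_lit 0) (nat_lit 2077349263) (nat_lit 456) (nat_lit 6999734676) (nat_lit 76) (nat_lit 1323603002) (nat_lit 164) (nat_lit 5) (nat_lit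 170) (nat_lit 5) (nat_lit 165) (nat_lit 5) (nat_lit 604) (nat_lit 504) (nat_lit 452)) (XT.lf (nat_lit 0) (nat_lit 718092794) (nat_lit 380) (nat_lit 5132643272) (nat_lit 456) (nat_lit 4657895694) (nat_lit 159) (nat_lit 5) (nat_lit 164) (nat_lit 5) (nat_lit 165) (nat_lit 5) (nat_lit 605) (nat_lit 504) (nat_lit 451))) (XT.nd (nat_lit 78) (nat_lit 456) (nat_lit 0) (XT.lf (nat_lit 0) (nat_lit 8620847260) (nat_lit 380) (nat_lit 1084521886) (nat_lit 456) (nat_lit 913252872) (nat_lit 159) (nat_lit 5) (nat_lit 164) (nat_lit 5) (nat_lit 165) (nat_lit 5) (nat_lit 606) (nat_lit 504) (nat_lit 450)) (XT.lf (nat_lit 0) (nat_lit 2886118030) (nat_lit 456) (nat_lit 4804107862) (nat_lit 76) (nat_lit 3039851797) (nat_lit 153) (nat_lit 5) (nat_lit 159) (nat_lit 5) (nat_lit 154) (nat_lit 5) (nat_lit 607) (nat_lit 504) (nat_lit 449))))))))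
noncomputable def xc46 : XT := (XT.nd (nat_lit 2106) (nat_lit 2432) (nat_lit 0) (XT.nd (nat_lit 1014) (nat_lit 2584) (nat_lit 0) (XT.nd (nat_lit 468) (nat_lit 1900) (nat_lit 0) (XT.nd (nat_lit 234) (nat_lit 760) (nat_lit 0) (XT.nd (nat_lit 78) (nat_lit 380) (nat_lit 0) (XT.lf (nat_lit 0) (nat_lit 3156013601) (nat_lit 380) (nat_lit 3593996926) (nat_lit 456) (nat_lit 4093617954) (nat_lit 148) (nat_lit 5) (nat_lit 153) (nat_lit 5) (nat_lit 154) (nat_lit 5) (nat_lit 608) (nat_lit 504) (nat_lit 448)) (XT.nd (nat_lit 78) (nat_lit 76) (nat_lit 0) (XT.lf (nat_lit 0) (nat_lit 317748767) (nat_lit 304) (nat_lit 10371551537) (nat_lit 380) (nat_lit 270189546) (nat_lit 144) (nat_lit 5) (nat_lit 148) (nat_lit 5) (nat_lit 149) (nat_lit 5) (nat_lit 609) (nat_lit 504) (nat_lit 447)) (XT.lf (nat_lit 0) (nat_lit 3617755353) (nat_lit 380) (nat_lit 2601097042) (nat_lit 76) (nat_lit 4857633557) (nat_lit 143) (nat_lit 5) (nat_lit 148) (nat_lit 5) (nat_lit 144) (nat_lit 5) (nat_lit 610)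 (nat_lit 504) (nat_lit 446)))) (XT.nd (nat_lit 78) (nat_lit 380) (nat_lit 0) (XT.lf (nat_lit 0) (nat_lit 5609216558) (nat_lit 380) (nat_lit 1967754051) (nat_lit 456) (nat_lit 3618874902) (nat_lit 138) (nat_lit 5) (nat_lit 143) (nat_lit 5) (nat_lit 144) (nat_lit 5) (nat_lit 611) (nat_lit 504) (nat_lit 445)) (XT.nd (nat_lit 78) (nat_lit 0) (nat_lit 0) (XT.lf (nat_lit 0) (nat_lit 305067816) (nat_lit 380) (nat_lit 8661392646) (nat_lit 76) (nat_lit 2350870992) (nat_lit 133) (nat_lit 5) (nat_lit 138) (nat_lit 5) (nat_lit 134) (nat_lit 5) (nat_lit 612) (nat_lit 504) (nat_lit 444)) (XT.lf (nat_lit 0) (nat_lit 4270866533) (nat_lit 380) (nat_lit 401894620) (nat_lit 76) (nat_lit 6767772605) (nat_lit 133) (nat_lit 5) (nat_lit 138) (nat_lit 5) (nat_lit 134) (nat_lit 5) (nat_lit 613) (nat_lit 504) (nat_lit 443))))) (XT.nd (nat_lit 234) (nat_lit 912) (nat_lit 0) (XT.nd (nat_lit 78) (nat_lit 684) (nat_lit 0) (XT.lf (nat_lit 0) (nat_lit 8066590481) (nat_lit 304) (nat_lit 263548325)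 (nat_lit 380) (nat_lit 3235779849) (nat_lit 129) (nat_lit 5) (nat_lit 133) (nat_lit 5) (nat_lit 134) (nat_lit 5) (nat_lit 614) (nat_lit 504) (nat_lit 442)) (XT.nd (nat_lit 78) (nat_lit 304) (nat_lit 0) (XT.lf (nat_lit 0) (nat_lit 791352668) (nat_lit 380) (nat_lit 6706623411) (nat_lit 76) (nat_lit 4195240837) (nat_lit 124) (nat_lit 5) (nat_lit 129) (nat_lit 5) (nat_lit 125) (nat_lit 5) (nat_lit 615) (nat_lit 504) (nat_lit 441)) (XT.lf (nat_lit 0) (nat_lit 1805129949) (nat_lit 304) (nat_lit 3049787175) (nat_lit 380) (nat_lit 6967733521) (nat_lit 120) (nat_lit 5) (nat_lit 124) (nat_lit 5) (nat_lit 125) (nat_lit 5) (nat_lit 616) (nat_lit 504) (nat_lit 440)))) (XT.nd (nat_lit 156) (nat_lit 532) (nat_lit 0) (XT.nd (nat_lit 78) (nat_lit 380) (nat_lit 0) (XT.lf (nat_lit 0) (nat_lit 9016969587) (nat_lit 380) (nat_lit 1448176484) (nat_lit 76) (nat_lit 1489184213) (nat_lit 120) (nat_lit 5) (nat_lit 125) (nat_lit 5) (nat_lit 121) (nat_lit 5) (nat_lit 617) (nat_lit 504) (nat_lit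 439)) (XT.lf (nat_lit 0) (nat_lit 1189064262) (nat_lit 380) (nat_lit 4788917906) (nat_lit 76) (nat_lit 6109893721) (nat_lit 115) (nat_lit 5) (nat_lit 120) (nat_lit 5) (nat_lit 116) (nat_lit 5) (nat_lit 618) (nat_lit 504) (nat_lit 438))) (XT.nd (nat_lit 78) (nat_lit 228) (nat_lit 0) (XT.lf (nat_lit 0) (nat_lit 3988215570) (nat_lit 304) (nat_lit 1369267106) (nat_lit 380) (nat_lit 6866246967) (nat_lit 111) (nat_lit 5) (nat_lit 115) (nat_lit 5) (nat_lit 116) (nat_lit 5) (nat_lit 619) (nat_lit 504) (nat_lit 437)) (XT.lf (nat_lit 0) (nat_lit 568245116) (nat_lit 228) (nat_lit 9061946905) (nat_lit 304) (nat_lit 2731691449) (nat_lit 108) (nat_lit 5) (nat_lit 111) (nat_lit 5) (nat_lit 112) (nat_lit 5) (nat_lit 620) (nat_lit 504) (nat_lit 436)))))) (XT.nd (nat_lit 546) (nat_lit 1064) (nat_lit 0) (XT.nd (nat_lit 234) (nat_lit 912) (nat_lit 0) (XT.nd (nat_lit 78) (nat_lit 532) (nat_lit 0) (XT.lf (nat_lit 0) (nat_lit 1494104687) (nat_lit 304) (nat_lit 2922656807) (nat_lit 76)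 (nat_lit 8085286714) (nat_lit 107) (nat_lit 5) (nat_lit 111) (nat_lit 5) (nat_lit 108) (nat_lit 5) (nat_lit 621) (nat_lit 504) (nat_lit 435)) (XT.nd (nat_lit 78) (nat_lit 228) (nat_lit 0) (XT.lf (nat_lit 0) (nat_lit 5774022236) (nat_lit 380) (nat_lit 6519260037) (nat_lit 76) (nat_lit 351250548) (nat_lit 103) (nat_lit 5) (nat_lit 108) (nat_lit 5) (nat_lit 104) (nat_lit 5) (nat_lit 622) (nat_lit 504) (nat_lit 434)) (XT.lf (nat_lit 0) (nat_lit 2547790930) (nat_lit 228) (nat_lit 7621492005) (nat_lit 304) (nat_lit 2619990636) (nat_lit 100) (nat_lit 5) (nat_lit 103) (nat_lit 5) (nat_lit 104) (nat_lit 5) (nat_lit 623) (nat_lit 504) (nat_lit 433)))) (XT.nd (nat_lit 156) (nat_lit 532) (nat_lit 0) (XT.nd (nat_lit 78) (nat_lit 304) (nat_lit 0) (XT.lf (nat_lit 0) (nat_lit 1701362789) (nat_lit 304) (nat_lit 1123534020) (nat_lit 76) (nat_lit 10111624392) (nat_lit 99) (nat_lit 5) (nat_lit 103) (nat_lit 5) (nat_lit 100) (nat_lit 5) (nat_lit 624) (nat_lit 504) (nat_lit 432)) (XT.lf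 (nat_lit 0) (nat_lit 6106103059) (nat_lit 380) (nat_lit 4892105190) (nat_lit 76) (nat_lit 2087519607) (nat_lit 95) (nat_lit 5) (nat_lit 100) (nat_lit 5) (nat_lit 96) (nat_lit 5) (nat_lit 625) (nat_lit 504) (nat_lit 431))) (XT.nd (nat_lit 78) (nat_lit 304) (nat_lit 0) (XT.lf (nat_lit 0) (nat_lit 4454667725) (nat_lit 228) (nat_lit 6164621222) (nat_lit 304) (nat_lit 2618223918) (nat_lit 92) (nat_lit 5) (nat_lit 95) (nat_lit 5) (nat_lit 96) (nat_lit 5) (nat_lit 626) (nat_lit 504) (nat_lit 430)) (XT.lf (nat_lit 0) (nat_lit 599114461) (nat_lit 228) (nat_lit 1209420347) (nat_lit 304) (nat_lit 11583519553) (nat_lit 88) (nat_lit 5) (nat_lit 91) (nat_lit 5) (nat_lit 92) (nat_lit 5) (nat_lit 627) (nat_lit 504) (nat_lit 429))))) (XT.nd (nat_lit 234) (nat_lit 532) (nat_lit 0) (XT.nd (nat_lit 78) (nat_lit 532) (nat_lit 0) (XT.lf (nat_lit 0) (nat_lit 6338431726) (nat_lit 304) (nat_lit 3363226280) (nat_lit 76) (nat_lit 3846690499) (nat_lit 88) (nat_lit 5) (nat_lit 92) (nat_lit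 5) (nat_lit 89) (nat_lit 5) (nat_lit 628) (nat_lit 504) (nat_lit 428)) (XT.nd (nat_lit 78) (nat_lit 304) (nat_lit 0) (XT.lf (nat_lit 0) (nat_lit 6270693590) (nat_lit 228) (nat_lit 4702972462) (nat_lit 304) (nat_lit 2733808835) (nat_lit 85) (nat_lit 5) (nat_lit 88) (nat_lit 5) (nat_lit 89) (nat_lit 5) (nat_lit 629) (nat_lit 504) (nat_lit 427)) (XT.lf (nat_lit 0) (nat_lit 1813821329) (nat_lit 304) (nat_lit 11640120443) (nat_lit 76) (nat_lit 415484761) (nat_lit 81) (nat_lit 5) (nat_lit 85) (nat_lit 5) (nat_lit 82) (nat_lit 5) (nat_lit 630) (nat_lit 504) (nat_lit 426)))) (XT.nd (nat_lit 156) (nat_lit 304) (nat_lit 0) (XT.nd (nat_lit 78) (nat_lit 228) (nat_lit 0) (XT.lf (nat_lit 0) (nat_lit 6463420303) (nat_lit 304) (nat_lit 1952490656) (nat_lit 76) (nat_lit 5617393482) (nat_lit 81) (nat_lit 5) (nat_lit 85) (nat_lit 5) (nat_lit 82) (nat_lit 5) (nat_lit 631) (nat_lit 504) (nat_lit 425)) (XT.lf (nat_lit 0) (nat_lit 7975835864) (nat_lit 228) (nat_lit 3248829381) (nat_lit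 304) (nat_lit 2975422639) (nat_lit 78) (nat_lit 5) (nat_lit 81) (nat_lit 5) (nat_lit 82) (nat_lit 5) (nat_lit 632) (nat_lit 504) (nat_lit 424))) (XT.nd (nat_lit 78) (nat_lit 0) (nat_lit 0) (XT.lf (nat_lit 0) (nat_lit 1706172351) (nat_lit 304) (nat_lit 10643808823) (nat_lit 76) (nat_lit 2019651002) (nat_lit 74) (nat_lit 5) (nat_lit 78) (nat_lit 5) (nat_lit 75) (nat_lit 5) (nat_lit 633) (nat_lit 504) (nat_lit 423)) (XT.lf (nat_lit 0) (nat_lit 6472201093) (nat_lit 304) (nat_lit 681796537) (nat_lit 76) (nat_lit 7387564513) (nat_lit 74) (nat_lit 5) (nat_lit 78) (nat_lit 5) (nat_lit 75) (nat_lit 5) (nat_lit 634) (nat_lit 504) (nat_lit 422))))))) (XT.nd (nat_lit 1014) (nat_lit 380) (nat_lit 0) (XT.nd (nat_lit 468) (nat_lit 912) (nat_lit 0) (XT.nd (nat_lit 234) (nat_lit 456) (nat_lit 0) (XT.nd (nat_lit 78) (nat_lit 456) (nat_lit 0) (XT.lf (nat_lit 0) (nat_lit 9547974164) (nat_lit 228) (nat_lit 1815259669) (nat_lit 304) (nat_lit 3353104183) (nat_lit 71) (nat_lit 5) (nat_lit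 74) (nat_lit 5) (nat_lit 75) (nat_lit 5) (nat_lit 635) (nat_lit 504) (nat_lit 421)) (XT.nd (nat_lit 78) (nat_lit 152) (nat_lit 0) (XT.lf (nat_lit 0) (nat_lit 1467535185) (nat_lit 304) (nat_lit 9820369186) (nat_lit 76) (nat_lit 3605933267) (nat_lit 67) (nat_lit 5) (nat_lit 71) (nat_lit 5) (nat_lit 68) (nat_lit 5) (nat_lit 636) (nat_lit 504) (nat_lit 420)) (XT.lf (nat_lit 0) (nat_lit 430318222) (nat_lit 152) (nat_lit 5926994798) (nat_lit 228) (nat_lit 8716779398) (nat_lit 65) (nat_lit 5) (nat_lit 67) (nat_lit 5) (nat_lit 68) (nat_lit 5) (nat_lit 637) (nat_lit 504) (nat_lit 419)))) (XT.nd (nat_lit 78) (nat_lit 456) (nat_lit 0) (XT.lf (nat_lit 0) (nat_lit 10962640665) (nat_lit 152) (nat_lit 416263240) (nat_lit 228) (nat_lit 3878368939) (nat_lit 65) (nat_lit 5) (nat_lit 67) (nat_lit 5) (nat_lit 68) (nat_lit 5) (nat_lit 638) (nat_lit 504) (nat_lit 418)) (XT.nd (nat_lit 78) (nat_lit 152) (nat_lit 0) (XT.lf (nat_lit 0) (nat_lit 1086215854) (nat_lit 304) (nat_lit 9196541289)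 (nat_lit 76) (nat_lit 5160358045) (nat_lit 61) (nat_lit 5) (nat_lit 65) (nat_lit 5) (nat_lit 62) (nat_lit 5) (nat_lit 639) (nat_lit 504) (nat_lit 417)) (XT.lf (nat_lit 0) (nat_lit 1357990968) (nat_lit 152) (nat_lit 4749436937) (nat_lit 228) (nat_lit 9524549266) (nat_lit 59) (nat_lit 5) (nat_lit 61) (nat_lit 5) (nat_lit 62) (nat_lit 5) (nat_lit 640) (nat_lit 504) (nat_lit 416))))) (XT.nd (nat_lit 234) (nat_lit 456) (nat_lit 0) (XT.nd (nat_lit 78) (nat_lit 456) (nat_lit 0) (XT.lf (nat_lit 0) (nat_lit 11265724922) (nat_lit 228) (nat_lit 3637328221) (nat_lit 76) (nat_lit 920830869) (nat_lit 59) (nat_lit 5) (nat_lit 62) (nat_lit 5) (nat_lit 60) (nat_lit 5) (nat_lit 641) (nat_lit 504) (nat_lit 415)) (XT.nd (nat_lit 78) (nat_lit 152) (nat_lit 0) (XT.lf (nat_lit 0) (nat_lit 548893455) (nat_lit 304) (nat_lit 8801887547) (nat_lit 76) (nat_lit 6667823054) (nat_lit 55) (nat_lit 5) (nat_lit 59) (nat_lit 5) (nat_lit 56) (nat_lit 5) (nat_lit 642) (nat_lit 504) (nat_lit 414))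 (XT.lf (nat_lit 0) (nat_lit 2062161193) (nat_lit 152) (nat_lit 3642296409) (nat_lit 228) (nat_lit 10512011011) (nat_lit 53) (nat_lit 5) (nat_lit 55) (nat_lit 5) (nat_lit 56) (nat_lit 5) (nat_lit 643) (nat_lit 504) (nat_lit 413)))) (XT.nd (nat_lit 156) (nat_lit 228) (nat_lit 0) (XT.nd (nat_lit 78) (nat_lit 228) (nat_lit 0) (XT.lf (nat_lit 0) (nat_lit 11006222614) (nat_lit 228) (nat_lit 3223896137) (nat_lit 76) (nat_lit 2187310687) (nat_lit 53) (nat_lit 5) (nat_lit 56) (nat_lit 5) (nat_lit 54) (nat_lit 5) (nat_lit 644) (nat_lit 504) (nat_lit 412)) (XT.lf (nat_lit 0) (nat_lit 7951322182) (nat_lit 228) (nat_lit 8508522457) (nat_lit 304) (nat_lit 161649160) (nat_lit 50) (nat_lit 5) (nat_lit 53) (nat_lit 5) (nat_lit 54) (nat_lit 5) (nat_lit 645) (nat_lit 504) (nat_lit 411))) (XT.nd (nat_lit 78) (nat_lit 0) (nat_lit 0) (XT.lf (nat_lit 0) (nat_lit 2509587652) (nat_lit 152) (nat_lit 2623394072) (nat_lit 228) (nat_lit 11695820378) (nat_lit 47) (nat_lit 5) (nat_lit 49) (nat_lit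 5) (nat_lit 50) (nat_lit 5) (nat_lit 646) (nat_lit 504) (nat_lit 410)) (XT.lf (nat_lit 0) (nat_lit 10582049456) (nat_lit 228) (nat_lit 3086110102) (nat_lit 76) (nat_lit 3371062179) (nat_lit 47) (nat_lit 5) (nat_lit 50) (nat_lit 5) (nat_lit 48) (nat_lit 5) (nat_lit 647) (nat_lit 504) (nat_lit 409)))))) (XT.nd (nat_lit 73944) (nat_lit 0) (nat_lit 30704) (XT.nd (nat_lit 73632) (nat_lit 0) (nat_lit 38912) (XT.nd (nat_lit 78) (nat_lit 228) (nat_lit 0) (XT.lf (nat_lit 0) (nat_lit 8411574379) (nat_lit 152) (nat_lit 7771293916) (nat_lit 228) (nat_lit 1070126771) (nat_lit 45) (nat_lit 5) (nat_lit 47) (nat_lit 5) (nat_lit 48) (nat_lit 5) (nat_lit 648) (nat_lit 504) (nat_lit 408)) (XT.nd (nat_lit 73476) (nat_lit 0) (nat_lit 41952) (XT.lf (nat_lit 0) (nat_lit 2663414729) (nat_lit 152) (nat_lit 1712174925) (nat_lit 228) (nat_lit 13094701118) (nat_lit 42) (nat_lit 5) (nat_lit 44) (nat_lit 5) (nat_lit 45) (nat_lit 5) (nat_lit 649) (nat_lit 504) (nat_lit 407)) (XT.lf (nat_lit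 0) (nat_lit 85264329) (nat_lit 1444) (nat_lit 3265950721) (nat_lit 0) (nat_lit 85264329) (nat_lit 594) (nat_lit 5) (nat_lit 613) (nat_lit 4) (nat_lit 594) (nat_lit 4) (nat_lit 550) (nat_lit 505) (nat_lit 505)))) (XT.nd (nat_lit 156) (nat_lit 1520) (nat_lit 0) (XT.nd (nat_lit 78) (nat_lit 1520) (nat_lit 0) (XT.lf (nat_lit 0) (nat_lit 3566519479) (nat_lit 1444) (nat_lit 1714882933) (nat_lit 0) (nat_lit 1620754040) (nat_lit 594) (nat_lit 5) (nat_lit 613) (nat_lit 4) (nat_lit 594) (nat_lit 4) (nat_lit 551) (nat_lit 505) (nat_lit 504)) (XT.lf (nat_lit 0) (nat_lit 47422375) (nat_lit 1520) (nat_lit 3757585414) (nat_lit 76) (nat_lit 3127922228) (nat_lit 574) (nat_lit 5) (nat_lit 594) (nat_lit 5) (nat_lit 575) (nat_lit 4) (nat_lit 552) (nat_lit 505) (nat_lit 503))) (XT.nd (nat_lit 78) (nat_lit 0) (nat_lit 0) (XT.lf (nat_lit 0) (nat_lit 1150483859) (nat_lit 1520) (nat_lit 2252521818) (nat_lit 1596) (nat_lit 3561890837) (nat_lit 554) (nat_lit 5) (nat_lit 574) (nat_lit 5)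 (nat_lit 575) (nat_lit 4) (nat_lit 553) (nat_lit 505) (nat_lit 502)) (XT.lf (nat_lit 0) (nat_lit 6143105120) (nat_lit 1520) (nat_lit 639187434) (nat_lit 1596) (nat_lit 216086742) (nat_lit 554) (nat_lit 5) (nat_lit 574) (nat_lit 5) (nat_lit 575) (nat_lit 4) (nat_lit 554) (nat_lit 505) (nat_lit 501))))) (XT.nd (nat_lit 234) (nat_lit 3040) (nat_lit 0) (XT.nd (nat_lit 78) (nat_lit 3496) (nat_lit 0) (XT.lf (nat_lit 0) (nat_lit 3120944031) (nat_lit 1672) (nat_lit 2866979664) (nat_lit 76) (nat_lit 1044876696) (nat_lit 532) (nat_lit 5) (nat_lit 554) (nat_lit 5) (nat_lit 533) (nat_lit 4) (nat_lit 555) (nat_lit 505) (nat_lit 500)) (XT.nd (nat_lit 78) (nat_lit 1824) (nat_lit 0) (XT.lf (nat_lit 0) (nat_lit 2189013469) (nat_lit 1672) (nat_lit 4290236087) (nat_lit 1748) (nat_lit 589491523) (nat_lit 510) (nat_lit 5) (nat_lit 532) (nat_lit 5) (nat_lit 533) (nat_lit 4) (nat_lit 556) (nat_lit 505) (nat_lit 499)) (XT.lf (nat_lit 0) (nat_lit 198685762) (nat_lit 1748) (nat_lit 2518224720)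 (nat_lit 1824) (nat_lit 4389048492) (nat_lit 486) (nat_lit 5) (nat_lit 509) (nat_lit 5) (nat_lit 510) (nat_lit 5) (nat_lit 557) (nat_lit 505) (nat_lit 498)))) (XT.nd (nat_lit 156) (nat_lit 1140) (nat_lit 0) (XT.nd (nat_lit 78) (nat_lit 1900) (nat_lit 0) (XT.lf (nat_lit 0) (nat_lit 5375698206) (nat_lit 1748) (nat_lit 673101359) (nat_lit 1824) (nat_lit 1095706494) (nat_lit 486) (nat_lit 5) (nat_lit 509) (nat_lit 5) (nat_lit 510) (nat_lit 5) (nat_lit 558) (nat_lit 505) (nat_lit 497)) (XT.lf (nat_lit 0) (nat_lit 2199608096) (nat_lit 1900) (nat_lit 3754403655) (nat_lit 76) (nat_lit 1230210077) (nat_lit 461) (nat_lit 5) (nat_lit 486) (nat_lit 5) (nat_lit 462) (nat_lit 5) (nat_lit 559) (nat_lit 505) (nat_lit 496))) (XT.nd (nat_lit 78) (nat_lit 76) (nat_lit 0) (XT.lf (nat_lit 0) (nat_lit 1473834508) (nat_lit 1064) (nat_lit 4034533854) (nat_lit 1140) (nat_lit 1716981838) (nat_lit 447) (nat_lit 5) (nat_lit 461) (nat_lit 5) (nat_lit 462) (nat_lit 5) (nat_lit 560) (nat_lit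 505) (nat_lit 495)) (XT.lf (nat_lit 0) (nat_lit 1556795016) (nat_lit 1140) (nat_lit 485945989) (nat_lit 76) (nat_lit 5225117635) (nat_lit 446) (nat_lit 5) (nat_lit 461) (nat_lit 5) (nat_lit 447) (nat_lit 5) (nat_lit 561) (nat_lit 505) (nat_lit 494))))))))
noncomputable def xc47 : XT := (XT.nd (nat_lit 2106) (nat_lit 8816) (nat_lit 0) (XT.nd (nat_lit 1014) (nat_lit 7144) (nat_lit 0) (XT.nd (nat_lit 468) (nat_lit 4028) (nat_lit 0) (XT.nd (nat_lit 234) (nat_lit 1748) (nat_lit 0) (XT.nd (nat_lit 78) (nat_lit 1824) (nat_lit 0) (XT.lf (nat_lit 0) (nat_lit 4842779704) (nat_lit 988) (nat_lit 2439055772) (nat_lit 76) (nat_lit 29767267) (nat_lit 434) (nat_lit 5) (nat_lit 447) (nat_lit 5) (nat_lit 435) (nat_lit 5) (nat_lit 562) (nat_lit 505) (nat_lit 493)) (XT.nd (nat_lit 78) (nat_lit 836) (nat_lit 0) (XT.lf (nat_lit 0) (nat_lit 801695864) (nat_lit 988) (nat_lit 4413766232) (nat_lit 76) (nat_lit 2141168896) (nat_lit 421) (nat_lit 5) (nat_lit 434) (nat_lit 5) (nat_lit 422)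 (nat_lit 5) (nat_lit 563) (nat_lit 505) (nat_lit 492)) (XT.lf (nat_lit 0) (nat_lit 993931860) (nat_lit 836) (nat_lit 3072618123) (nat_lit 912) (nat_lit 3336450332) (nat_lit 410) (nat_lit 5) (nat_lit 421) (nat_lit 5) (nat_lit 422) (nat_lit 5) (nat_lit 564) (nat_lit 505) (nat_lit 491)))) (XT.nd (nat_lit 78) (nat_lit 1748) (nat_lit 0) (XT.lf (nat_lit 0) (nat_lit 6504148415) (nat_lit 836) (nat_lit 861964527) (nat_lit 912) (nat_lit 84802253) (nat_lit 410) (nat_lit 5) (nat_lit 421) (nat_lit 5) (nat_lit 422) (nat_lit 5) (nat_lit 565) (nat_lit 505) (nat_lit 490)) (XT.nd (nat_lit 78) (nat_lit 836) (nat_lit 0) (XT.lf (nat_lit 0) (nat_lit 3169273565) (nat_lit 912) (nat_lit 2910171957) (nat_lit 76) (nat_lit 1420333708) (nat_lit 398) (nat_lit 5) (nat_lit 410) (nat_lit 5) (nat_lit 399) (nat_lit 5) (nat_lit 566) (nat_lit 505) (nat_lit 489)) (XT.lf (nat_lit 0) (nat_lit 2662970821) (nat_lit 836) (nat_lit 3795003590) (nat_lit 912) (nat_lit 1092227381) (nat_lit 387) (nat_lit 5) (nat_lit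 398) (nat_lit 5) (nat_lit 399) (nat_lit 5) (nat_lit 567) (nat_lit 505) (nat_lit 488))))) (XT.nd (nat_lit 234) (nat_lit 2280) (nat_lit 0) (XT.nd (nat_lit 78) (nat_lit 836) (nat_lit 0) (XT.lf (nat_lit 0) (nat_lit 714630564) (nat_lit 836) (nat_lit 1433110760) (nat_lit 912) (nat_lit 5454291798) (nat_lit 375) (nat_lit 5) (nat_lit 386) (nat_lit 5) (nat_lit 387) (nat_lit 5) (nat_lit 568) (nat_lit 505) (nat_lit 487)) (XT.nd (nat_lit 78) (nat_lit 836) (nat_lit 0) (XT.lf (nat_lit 0) (nat_lit 5419537447) (nat_lit 912) (nat_lit 1239969276) (nat_lit 76) (nat_lit 995622593) (nat_lit 375) (nat_lit 5) (nat_lit 387) (nat_lit 5) (nat_lit 376) (nat_lit 5) (nat_lit 569) (nat_lit 505) (nat_lit 486)) (XT.lf (nat_lit 0) (nat_lit 1015778927) (nat_lit 836) (nat_lit 3211737735) (nat_lit 76) (nat_lit 3481999524) (nat_lit 364) (nat_lit 5) (nat_lit 375) (nat_lit 5) (nat_lit 365) (nat_lit 5) (nat_lit 570) (nat_lit 505) (nat_lit 485)))) (XT.nd (nat_lit 156) (nat_lit 836) (nat_lit 0) (XT.nd (nat_lit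 78) (nat_lit 684) (nat_lit 0) (XT.lf (nat_lit 0) (nat_lit 2555187863) (nat_lit 760) (nat_lit 1715781431) (nat_lit 836) (nat_lit 3494356779) (nat_lit 354) (nat_lit 5) (nat_lit 364) (nat_lit 5) (nat_lit 365) (nat_lit 5) (nat_lit 571) (nat_lit 505) (nat_lit 484)) (XT.lf (nat_lit 0) (nat_lit 594983419) (nat_lit 684) (nat_lit 6971681399) (nat_lit 760) (nat_lit 256084569) (nat_lit 345) (nat_lit 5) (nat_lit 354) (nat_lit 5) (nat_lit 355) (nat_lit 5) (nat_lit 572) (nat_lit 505) (nat_lit 483))) (XT.nd (nat_lit 78) (nat_lit 760) (nat_lit 0) (XT.lf (nat_lit 0) (nat_lit 2998191971) (nat_lit 760) (nat_lit 1391820968) (nat_lit 76) (nat_lit 3491093617) (nat_lit 344) (nat_lit 5) (nat_lit 354) (nat_lit 5) (nat_lit 345) (nat_lit 5) (nat_lit 573) (nat_lit 505) (nat_lit 482)) (XT.lf (nat_lit 0) (nat_lit 4553520024) (nat_lit 760) (nat_lit 1735901275) (nat_lit 836) (nat_lit 1651674743) (nat_lit 334) (nat_lit 5) (nat_lit 344) (nat_lit 5) (nat_lit 345) (nat_lit 5) (nat_lit 574) (nat_lit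 505) (nat_lit 481)))))) (XT.nd (nat_lit 546) (nat_lit 3648) (nat_lit 0) (XT.nd (nat_lit 234) (nat_lit 1976) (nat_lit 0) (XT.nd (nat_lit 78) (nat_lit 760) (nat_lit 0) (XT.lf (nat_lit 0) (nat_lit 1601344058) (nat_lit 760) (nat_lit 5416950926) (nat_lit 76) (nat_lit 984207230) (nat_lit 324) (nat_lit 5) (nat_lit 334) (nat_lit 5) (nat_lit 325) (nat_lit 5) (nat_lit 575) (nat_lit 505) (nat_lit 480)) (XT.nd (nat_lit 78) (nat_lit 76) (nat_lit 0) (XT.lf (nat_lit 0) (nat_lit 578174328) (nat_lit 684) (nat_lit 4303856075) (nat_lit 760) (nat_lit 3183197960) (nat_lit 315) (nat_lit 5) (nat_lit 324) (nat_lit 5) (nat_lit 325) (nat_lit 5) (nat_lit 576) (nat_lit 505) (nat_lit 479)) (XT.lf (nat_lit 0) (nat_lit 81248701) (nat_lit 760) (nat_lit 1429213973) (nat_lit 76) (nat_lit 6619069428) (nat_lit 314) (nat_lit 5) (nat_lit 324) (nat_lit 5) (nat_lit 315) (nat_lit 5) (nat_lit 577) (nat_lit 505) (nat_lit 478)))) (XT.nd (nat_lit 156) (nat_lit 684) (nat_lit 0) (XT.nd (nat_lit 78) (nat_lit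 684) (nat_lit 0) (XT.lf (nat_lit 0) (nat_lit 3355911003) (nat_lit 684) (nat_lit 3478580438) (nat_lit 76) (nat_lit 1360463060) (nat_lit 306) (nat_lit 5) (nat_lit 315) (nat_lit 5) (nat_lit 307) (nat_lit 5) (nat_lit 578) (nat_lit 505) (nat_lit 477)) (XT.lf (nat_lit 0) (nat_lit 2702435535) (nat_lit 684) (nat_lit 3979228492) (nat_lit 760) (nat_lit 1580313681) (nat_lit 297) (nat_lit 5) (nat_lit 306) (nat_lit 5) (nat_lit 307) (nat_lit 5) (nat_lit 579) (nat_lit 505) (nat_lit 476))) (XT.nd (nat_lit 78) (nat_lit 0) (nat_lit 0) (XT.lf (nat_lit 0) (nat_lit 655523555) (nat_lit 608) (nat_lit 1041593694) (nat_lit 684) (nat_lit 6633473984) (nat_lit 288) (nat_lit 5) (nat_lit 296) (nat_lit 5) (nat_lit 297) (nat_lit 5) (nat_lit 580) (nat_lit 505) (nat_lit 475)) (XT.lf (nat_lit 0) (nat_lit 5018328758) (nat_lit 684) (nat_lit 1419422829) (nat_lit 76) (nat_lit 1962632738) (nat_lit 288) (nat_lit 5) (nat_lit 297) (nat_lit 5) (nat_lit 289) (nat_lit 5) (nat_lit 581) (nat_lit 505) (nat_lit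 474))))) (XT.nd (nat_lit 234) (nat_lit 1748) (nat_lit 0) (XT.nd (nat_lit 78) (nat_lit 1292) (nat_lit 0) (XT.lf (nat_lit 0) (nat_lit 4954276838) (nat_lit 608) (nat_lit 3440875844) (nat_lit 684) (nat_lit 76640815) (nat_lit 280) (nat_lit 5) (nat_lit 288) (nat_lit 5) (nat_lit 289) (nat_lit 5) (nat_lit 582) (nat_lit 505) (nat_lit 473)) (XT.nd (nat_lit 78) (nat_lit 608) (nat_lit 0) (XT.lf (nat_lit 0) (nat_lit 2881211313) (nat_lit 608) (nat_lit 349103970) (nat_lit 684) (nat_lit 5314318628) (nat_lit 271) (nat_lit 5) (nat_lit 279) (nat_lit 5) (nat_lit 280) (nat_lit 5) (nat_lit 583) (nat_lit 505) (nat_lit 472)) (XT.lf (nat_lit 0) (nat_lit 762438419) (nat_lit 608) (nat_lit 5837666613) (nat_lit 684) (nat_lit 2018865305) (nat_lit 263) (nat_lit 5) (nat_lit 271) (nat_lit 5) (nat_lit 272) (nat_lit 5) (nat_lit 584) (nat_lit 505) (nat_lit 471)))) (XT.nd (nat_lit 156) (nat_lit 1140) (nat_lit 0) (XT.nd (nat_lit 78) (nat_lit 532) (nat_lit 0) (XT.lf (nat_lit 0) (nat_lit 1316472561)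 (nat_lit 684) (nat_lit 1377773312) (nat_lit 76) (nat_lit 6000545248) (nat_lit 262) (nat_lit 5) (nat_lit 271) (nat_lit 5) (nat_lit 263) (nat_lit 5) (nat_lit 585) (nat_lit 505) (nat_lit 470)) (XT.lf (nat_lit 0) (nat_lit 4680911331) (nat_lit 608) (nat_lit 3554762983) (nat_lit 76) (nat_lit 536402115) (nat_lit 255) (nat_lit 5) (nat_lit 263) (nat_lit 5) (nat_lit 256) (nat_lit 5) (nat_lit 586) (nat_lit 505) (nat_lit 469))) (XT.nd (nat_lit 78) (nat_lit 608) (nat_lit 0) (XT.lf (nat_lit 0) (nat_lit 3069438825) (nat_lit 532) (nat_lit 5042668075) (nat_lit 608) (nat_lit 738814648) (nat_lit 248) (nat_lit 5) (nat_lit 255) (nat_lit 5) (nat_lit 256) (nat_lit 5) (nat_lit 587) (nat_lit 505) (nat_lit 468)) (XT.lf (nat_lit 0) (nat_lit 871943871) (nat_lit 532) (nat_lit 1755743791) (nat_lit 608) (nat_lit 6303665934) (nat_lit 240) (nat_lit 5) (nat_lit 247) (nat_lit 5) (nat_lit 248) (nat_lit 5) (nat_lit 588) (nat_lit 505) (nat_lit 467))))))) (XT.nd (nat_lit 1092) (nat_lit 3876) (nat_lit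 0) (XT.nd (nat_lit 546) (nat_lit 2356) (nat_lit 0) (XT.nd (nat_lit 234) (nat_lit 1520) (nat_lit 0) (XT.nd (nat_lit 78) (nat_lit 1064) (nat_lit 0) (XT.lf (nat_lit 0) (nat_lit 6054037030) (nat_lit 608) (nat_lit 1357095640) (nat_lit 76) (nat_lit 1602119016) (nat_lit 240) (nat_lit 5) (nat_lit 248) (nat_lit 5) (nat_lit 241) (nat_lit 5) (nat_lit 589) (nat_lit 505) (nat_lit 466)) (XT.nd (nat_lit 78) (nat_lit 456) (nat_lit 0) (XT.lf (nat_lit 0) (nat_lit 447274933) (nat_lit 608) (nat_lit 3624747859) (nat_lit 76) (nat_lit 5024687798) (nat_lit 232) (nat_lit 5) (nat_lit 240) (nat_lit 5) (nat_lit 233) (nat_lit 5) (nat_lit 590) (nat_lit 505) (nat_lit 465)) (XT.lf (nat_lit 0) (nat_lit 3232410077) (nat_lit 456) (nat_lit 634134848) (nat_lit 532) (nat_lit 5315220126) (nat_lit 226) (nat_lit 5) (nat_lit 232) (nat_lit 5) (nat_lit 233) (nat_lit 5) (nat_lit 591) (nat_lit 505) (nat_lit 464)))) (XT.nd (nat_lit 156) (nat_lit 912) (nat_lit 0) (XT.nd (nat_lit 78) (nat_lit 76) (nat_lit 0)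 (XT.lf (nat_lit 0) (nat_lit 936247729) (nat_lit 532) (nat_lit 6421611103) (nat_lit 608) (nat_lit 1910591619) (nat_lit 219) (nat_lit 5) (nat_lit 226) (nat_lit 5) (nat_lit 227) (nat_lit 5) (nat_lit 592) (nat_lit 505) (nat_lit 463)) (XT.lf (nat_lit 0) (nat_lit 1540645910) (nat_lit 608) (nat_lit 1395679510) (nat_lit 76) (nat_lit 6420364109) (nat_lit 218) (nat_lit 5) (nat_lit 226) (nat_lit 5) (nat_lit 219) (nat_lit 5) (nat_lit 593) (nat_lit 505) (nat_lit 462))) (XT.nd (nat_lit 78) (nat_lit 456) (nat_lit 0) (XT.lf (nat_lit 0) (nat_lit 5031936224) (nat_lit 532) (nat_lit 3773363293) (nat_lit 76) (nat_lit 641211920) (nat_lit 212) (nat_lit 5) (nat_lit 219) (nat_lit 5) (nat_lit 213) (nat_lit 5) (nat_lit 594) (nat_lit 505) (nat_lit 461)) (XT.lf (nat_lit 0) (nat_lit 3324150214) (nat_lit 456) (nat_lit 5275198622) (nat_lit 532) (nat_lit 938657806) (nat_lit 206) (nat_lit 5) (nat_lit 212) (nat_lit 5) (nat_lit 213) (nat_lit 5) (nat_lit 595) (nat_lit 505) (nat_lit 460))))) (XT.nd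 (nat_lit 234) (nat_lit 1368) (nat_lit 0) (XT.nd (nat_lit 78) (nat_lit 456) (nat_lit 0) (XT.lf (nat_lit 0) (nat_lit 914405543) (nat_lit 456) (nat_lit 1645609385) (nat_lit 532) (nat_lit 7071232497) (nat_lit 199) (nat_lit 5) (nat_lit 205) (nat_lit 5) (nat_lit 206) (nat_lit 5) (nat_lit 596) (nat_lit 505) (nat_lit 459)) (XT.nd (nat_lit 78) (nat_lit 456) (nat_lit 0) (XT.lf (nat_lit 0) (nat_lit 6127745097) (nat_lit 532) (nat_lit 1540649917) (nat_lit 76) (nat_lit 2057603495) (nat_lit 199) (nat_lit 5) (nat_lit 206) (nat_lit 5) (nat_lit 200) (nat_lit 5) (nat_lit 597) (nat_lit 505) (nat_lit 458)) (XT.lf (nat_lit 0) (nat_lit 5780500687) (nat_lit 456) (nat_lit 3991928528) (nat_lit 532) (nat_lit 50105988) (nat_lit 193) (nat_lit 5) (nat_lit 199) (nat_lit 5) (nat_lit 200) (nat_lit 5) (nat_lit 598) (nat_lit 505) (nat_lit 457)))) (XT.nd (nat_lit 156) (nat_lit 456) (nat_lit 0) (XT.nd (nat_lit 78) (nat_lit 456) (nat_lit 0) (XT.lf (nat_lit 0) (nat_lit 3304630867) (nat_lit 380) (nat_lit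 206745778) (nat_lit 456) (nat_lit 6409381408) (nat_lit 187) (nat_lit 5) (nat_lit 192) (nat_lit 5) (nat_lit 193) (nat_lit 5) (nat_lit 599) (nat_lit 505) (nat_lit 456)) (XT.lf (nat_lit 0) (nat_lit 754350036) (nat_lit 456) (nat_lit 6402603188) (nat_lit 532) (nat_lit 2863717236) (nat_lit 181) (nat_lit 5) (nat_lit 187) (nat_lit 5) (nat_lit 188) (nat_lit 5) (nat_lit 600) (nat_lit 505) (nat_lit 455))) (XT.nd (nat_lit 78) (nat_lit 380) (nat_lit 0) (XT.lf (nat_lit 0) (nat_lit 746793738) (nat_lit 532) (nat_lit 1830391946) (nat_lit 76) (nat_lit 7545223854) (nat_lit 180) (nat_lit 5) (nat_lit 187) (nat_lit 5) (nat_lit 181) (nat_lit 5) (nat_lit 601) (nat_lit 505) (nat_lit 454)) (XT.lf (nat_lit 0) (nat_lit 4395934538) (nat_lit 456) (nat_lit 4486860580) (nat_lit 76) (nat_lit 1342916688) (nat_lit 175) (nat_lit 5) (nat_lit 181) (nat_lit 5) (nat_lit 176) (nat_lit 5) (nat_lit 602) (nat_lit 505) (nat_lit 453)))))) (XT.nd (nat_lit 546) (nat_lit 1824) (nat_lit 0) (XT.nd (nat_lit 234)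 (nat_lit 1216) (nat_lit 0) (XT.nd (nat_lit 78) (nat_lit 456) (nat_lit 0) (XT.lf (nat_lit 0) (nat_lit 3114067008) (nat_lit 380) (nat_lit 5012484753) (nat_lit 456) (nat_lit 2204360728) (nat_lit 170) (nat_lit 5) (nat_lit 175) (nat_lit 5) (nat_lit 176) (nat_lit 5) (nat_lit 603) (nat_lit 505) (nat_lit 452)) (XT.nd (nat_lit 78) (nat_lit 0) (nat_lit 0) (XT.lf (nat_lit 0) (nat_lit 422650875) (nat_lit 380) (nat_lit 1043348993) (nat_lit 456) (nat_lit 8972185049) (nat_lit 164) (nat_lit 5) (nat_lit 169) (nat_lit 5) (nat_lit 170) (nat_lit 5) (nat_lit 604) (nat_lit 505) (nat_lit 451)) (XT.lf (nat_lit 0) (nat_lit 5207764183) (nat_lit 456) (nat_lit 2331770833) (nat_lit 76) (nat_lit 3007228216) (nat_lit 164) (nat_lit 5) (nat_lit 170) (nat_lit 5) (nat_lit 165) (nat_lit 5) (nat_lit 605) (nat_lit 505) (nat_lit 450)))) (XT.nd (nat_lit 156) (nat_lit 380) (nat_lit 0) (XT.nd (nat_lit 78) (nat_lit 456) (nat_lit 0) (XT.lf (nat_lit 0) (nat_lit 5508781881) (nat_lit 380) (nat_lit 3518281888)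 (nat_lit 456) (nat_lit 1630397416) (nat_lit 159) (nat_lit 5) (nat_lit 164) (nat_lit 5) (nat_lit 165) (nat_lit 5) (nat_lit 606) (nat_lit 505) (nat_lit 449)) (XT.lf (nat_lit 0) (nat_lit 2121702097) (nat_lit 456) (nat_lit 8047146137) (nat_lit 76) (nat_lit 601296268) (nat_lit 153) (nat_lit 5) (nat_lit 159) (nat_lit 5) (nat_lit 154) (nat_lit 5) (nat_lit 607) (nat_lit 505) (nat_lit 448))) (XT.nd (nat_lit 78) (nat_lit 380) (nat_lit 0) (XT.lf (nat_lit 0) (nat_lit 5945487615) (nat_lit 456) (nat_lit 159397880) (nat_lit 76) (nat_lit 4779612905) (nat_lit 153) (nat_lit 5) (nat_lit 159) (nat_lit 5) (nat_lit 154) (nat_lit 5) (nat_lit 608) (nat_lit 505) (nat_lit 447)) (XT.lf (nat_lit 0) (nat_lit 7928736590) (nat_lit 380) (nat_lit 1929643408) (nat_lit 456) (nat_lit 1142508668) (nat_lit 148) (nat_lit 5) (nat_lit 153) (nat_lit 5) (nat_lit 154) (nat_lit 5) (nat_lit 609) (nat_lit 505) (nat_lit 446))))) (XT.nd (nat_lit 234) (nat_lit 1064) (nat_lit 0) (XT.nd (nat_lit 78) (nat_lit 380)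 (nat_lit 0) (XT.lf (nat_lit 0) (nat_lit 2704551049) (nat_lit 380) (nat_lit 6086450618) (nat_lit 76) (nat_lit 2328043801) (nat_lit 143) (nat_lit 5) (nat_lit 148) (nat_lit 5) (nat_lit 144) (nat_lit 5) (nat_lit 610) (nat_lit 505) (nat_lit 445)) (XT.nd (nat_lit 78) (nat_lit 0) (nat_lit 0) (XT.lf (nat_lit 0) (nat_lit 2046600941) (nat_lit 380) (nat_lit 4574964009) (nat_lit 456) (nat_lit 4617684997) (nat_lit 138) (nat_lit 5) (nat_lit 143) (nat_lit 5) (nat_lit 144) (nat_lit 5) (nat_lit 611) (nat_lit 505) (nat_lit 444)) (XT.lf (nat_lit 0) (nat_lit 10363536654) (nat_lit 380) (nat_lit 256060838) (nat_lit 456) (nat_lit 742209224) (nat_lit 138) (nat_lit 5) (nat_lit 143) (nat_lit 5) (nat_lit 144) (nat_lit 5) (nat_lit 612) (nat_lit 505) (nat_lit 443)))) (XT.nd (nat_lit 156) (nat_lit 380) (nat_lit 0) (XT.nd (nat_lit 78) (nat_lit 304) (nat_lit 0) (XT.lf (nat_lit 0) (nat_lit 3206131275) (nat_lit 380) (nat_lit 4138143578) (nat_lit 76) (nat_lit 4141375234) (nat_lit 133) (nat_lit 5)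 (nat_lit 138) (nat_lit 5) (nat_lit 134) (nat_lit 5) (nat_lit 613) (nat_lit 505) (nat_lit 442)) (XT.lf (nat_lit 0) (nat_lit 4250198746) (nat_lit 304) (nat_lit 2971878366) (nat_lit 380) (nat_lit 4389825227) (nat_lit 129) (nat_lit 5) (nat_lit 133) (nat_lit 5) (nat_lit 134) (nat_lit 5) (nat_lit 614) (nat_lit 505) (nat_lit 441))) (XT.nd (nat_lit 78) (nat_lit 76) (nat_lit 0) (XT.lf (nat_lit 0) (nat_lit 1065430581) (nat_lit 304) (nat_lit 10260167510) (nat_lit 380) (nat_lit 414938054) (nat_lit 125) (nat_lit 5) (nat_lit 129) (nat_lit 5) (nat_lit 130) (nat_lit 5) (nat_lit 615) (nat_lit 505) (nat_lit 440)) (XT.lf (nat_lit 0) (nat_lit 3623940494) (nat_lit 380) (nat_lit 2214565341) (nat_lit 76) (nat_lit 6032121255) (nat_lit 124) (nat_lit 5) (nat_lit 129) (nat_lit 5) (nat_lit 125) (nat_lit 5) (nat_lit 616) (nat_lit 505) (nat_lit 439))))))))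
noncomputable def xc48 : XT := (XT.nd (nat_lit 2106) (nat_lit 836) (nat_lit 0) (XT.nd (nat_lit 1014) (nat_lit 2280) (nat_lit 0) (XT.nd (nat_lit 468) (nat_lit 1368) (nat_lit 0) (XT.nd (nat_lit 234) (nat_lit 912) (nat_lit 0) (XT.nd (nat_lit 78) (nat_lit 380) (nat_lit 0) (XT.lf (nat_lit 0) (nat_lit 6436987622) (nat_lit 304) (nat_lit 1306396704) (nat_lit 380) (nat_lit 4259775338) (nat_lit 120) (nat_lit 5) (nat_lit 124) (nat_lit 5) (nat_lit 125) (nat_lit 5) (nat_lit 617) (nat_lit 505) (nat_lit 438)) (XT.nd (nat_lit 78) (nat_lit 76) (nat_lit 0) (XT.lf (nat_lit 0) (nat_lit 3112687158) (nat_lit 304) (nat_lit 8852953148) (nat_lit 380) (nat_lit 172295628) (nat_lit 116) (nat_lit 5) (nat_lit 120) (nat_lit 5) (nat_lit 121) (nat_lit 5) (nat_lit 618) (nat_lit 505) (nat_lit 437)) (XT.lf (nat_lit 0) (nat_lit 3954570902) (nat_lit 380) (nat_lit 329074222) (nat_lit 76) (nat_lit 7991043886) (nat_lit 115) (nat_lit 5) (nat_lit 120) (nat_lit 5) (nat_lit 116) (nat_lit 5) (nat_lit 619)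 (nat_lit 505) (nat_lit 436)))) (XT.nd (nat_lit 78) (nat_lit 608) (nat_lit 0) (XT.lf (nat_lit 0) (nat_lit 8184654588) (nat_lit 380) (nat_lit 3822791481) (nat_lit 76) (nat_lit 406249985) (nat_lit 111) (nat_lit 5) (nat_lit 116) (nat_lit 5) (nat_lit 112) (nat_lit 5) (nat_lit 620) (nat_lit 505) (nat_lit 435)) (XT.nd (nat_lit 78) (nat_lit 380) (nat_lit 0) (XT.lf (nat_lit 0) (nat_lit 5117919866) (nat_lit 228) (nat_lit 7409920392) (nat_lit 304) (nat_lit 27074370) (nat_lit 108) (nat_lit 5) (nat_lit 111) (nat_lit 5) (nat_lit 112) (nat_lit 5) (nat_lit 621) (nat_lit 505) (nat_lit 434)) (XT.lf (nat_lit 0) (nat_lit 1523778083) (nat_lit 304) (nat_lit 2679771522) (nat_lit 380) (nat_lit 8494846789) (nat_lit 103) (nat_lit 5) (nat_lit 107) (nat_lit 5) (nat_lit 108) (nat_lit 5) (nat_lit 622) (nat_lit 505) (nat_lit 433))))) (XT.nd (nat_lit 234) (nat_lit 760) (nat_lit 0) (XT.nd (nat_lit 78) (nat_lit 608) (nat_lit 0) (XT.lf (nat_lit 0) (nat_lit 8547499247) (nat_lit 380) (nat_lit 2152969422)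 (nat_lit 76) (nat_lit 2143695347) (nat_lit 103) (nat_lit 5) (nat_lit 108) (nat_lit 5) (nat_lit 104) (nat_lit 5) (nat_lit 623) (nat_lit 505) (nat_lit 432)) (XT.nd (nat_lit 78) (nat_lit 304) (nat_lit 0) (XT.lf (nat_lit 0) (nat_lit 15086597) (nat_lit 304) (nat_lit 5926523899) (nat_lit 76) (nat_lit 7050651336) (nat_lit 99) (nat_lit 5) (nat_lit 103) (nat_lit 5) (nat_lit 100) (nat_lit 5) (nat_lit 624) (nat_lit 505) (nat_lit 431)) (XT.lf (nat_lit 0) (nat_lit 3311581663) (nat_lit 304) (nat_lit 1045729135) (nat_lit 380) (nat_lit 8785408622) (nat_lit 95) (nat_lit 5) (nat_lit 99) (nat_lit 5) (nat_lit 100) (nat_lit 5) (nat_lit 625) (nat_lit 505) (nat_lit 430)))) (XT.nd (nat_lit 156) (nat_lit 532) (nat_lit 0) (XT.nd (nat_lit 78) (nat_lit 228) (nat_lit 0) (XT.lf (nat_lit 0) (nat_lit 8817860951) (nat_lit 380) (nat_lit 564917028) (nat_lit 76) (nat_lit 3912779766) (nat_lit 95) (nat_lit 5) (nat_lit 100) (nat_lit 5) (nat_lit 96) (nat_lit 5) (nat_lit 626) (nat_lit 505) (nat_lit 429))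 (XT.lf (nat_lit 0) (nat_lit 8939679304) (nat_lit 228) (nat_lit 4459395297) (nat_lit 304) (nat_lit 51750375) (nat_lit 92) (nat_lit 5) (nat_lit 95) (nat_lit 5) (nat_lit 96) (nat_lit 5) (nat_lit 627) (nat_lit 505) (nat_lit 428))) (XT.nd (nat_lit 78) (nat_lit 228) (nat_lit 0) (XT.lf (nat_lit 0) (nat_lit 4411025642) (nat_lit 304) (nat_lit 8600187563) (nat_lit 76) (nat_lit 597269194) (nat_lit 88) (nat_lit 5) (nat_lit 92) (nat_lit 5) (nat_lit 89) (nat_lit 5) (nat_lit 628) (nat_lit 505) (nat_lit 427)) (XT.lf (nat_lit 0) (nat_lit 935307021) (nat_lit 228) (nat_lit 8059818467) (nat_lit 304) (nat_lit 4773506537) (nat_lit 85) (nat_lit 5) (nat_lit 88) (nat_lit 5) (nat_lit 89) (nat_lit 5) (nat_lit 629) (nat_lit 505) (nat_lit 426)))))) (XT.nd (nat_lit 546) (nat_lit 1216) (nat_lit 0) (XT.nd (nat_lit 234) (nat_lit 532) (nat_lit 0) (XT.nd (nat_lit 78) (nat_lit 532) (nat_lit 0) (XT.lf (nat_lit 0) (nat_lit 10720996918) (nat_lit 228) (nat_lit 2974587695) (nat_lit 304) (nat_lit 235907583)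 (nat_lit 85) (nat_lit 5) (nat_lit 88) (nat_lit 5) (nat_lit 89) (nat_lit 5) (nat_lit 630) (nat_lit 505) (nat_lit 425)) (XT.nd (nat_lit 78) (nat_lit 228) (nat_lit 0) (XT.lf (nat_lit 0) (nat_lit 4359809605) (nat_lit 304) (nat_lit 7505006117) (nat_lit 76) (nat_lit 2231725055) (nat_lit 81) (nat_lit 5) (nat_lit 85) (nat_lit 5) (nat_lit 82) (nat_lit 5) (nat_lit 631) (nat_lit 505) (nat_lit 424)) (XT.lf (nat_lit 0) (nat_lit 2321173446) (nat_lit 228) (nat_lit 6747087674) (nat_lit 304) (nat_lit 5196119483) (nat_lit 78) (nat_lit 5) (nat_lit 81) (nat_lit 5) (nat_lit 82) (nat_lit 5) (nat_lit 632) (nat_lit 505) (nat_lit 423)))) (XT.nd (nat_lit 156) (nat_lit 228) (nat_lit 0) (XT.nd (nat_lit 78) (nat_lit 304) (nat_lit 0) (XT.lf (nat_lit 0) (nat_lit 12389451052) (nat_lit 228) (nat_lit 1499584607) (nat_lit 304) (nat_lit 546179500) (nat_lit 78) (nat_lit 5) (nat_lit 81) (nat_lit 5) (nat_lit 82) (nat_lit 5) (nat_lit 633) (nat_lit 505) (nat_lit 422)) (XT.lf (nat_lit 0) (nat_lit 4187733842)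 (nat_lit 304) (nat_lit 6561123596) (nat_lit 76) (nat_lit 3859144668) (nat_lit 74) (nat_lit 5) (nat_lit 78) (nat_lit 5) (nat_lit 75) (nat_lit 5) (nat_lit 634) (nat_lit 505) (nat_lit 421))) (XT.nd (nat_lit 78) (nat_lit 0) (nat_lit 0) (XT.lf (nat_lit 0) (nat_lit 3562626731) (nat_lit 228) (nat_lit 5461598381) (nat_lit 304) (nat_lit 5759644169) (nat_lit 71) (nat_lit 5) (nat_lit 74) (nat_lit 5) (nat_lit 75) (nat_lit 5) (nat_lit 635) (nat_lit 505) (nat_lit 420)) (XT.lf (nat_lit 0) (nat_lit 13922562207) (nat_lit 228) (nat_lit 47500236) (nat_lit 304) (nat_lit 992939973) (nat_lit 71) (nat_lit 5) (nat_lit 74) (nat_lit 5) (nat_lit 75) (nat_lit 5) (nat_lit 636) (nat_lit 505) (nat_lit 419))))) (XT.nd (nat_lit 234) (nat_lit 760) (nat_lit 0) (XT.nd (nat_lit 78) (nat_lit 152) (nat_lit 0) (XT.lf (nat_lit 0) (nat_lit 3884266048) (nat_lit 304) (nat_lit 5793163866) (nat_lit 76) (nat_lit 5466468552) (nat_lit 67) (nat_lit 5) (nat_lit 71) (nat_lit 5) (nat_lit 68) (nat_lit 5) (nat_lit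 637) (nat_lit 505) (nat_lit 418)) (XT.nd (nat_lit 78) (nat_lit 0) (nat_lit 0) (XT.lf (nat_lit 0) (nat_lit 4634750364) (nat_lit 152) (nat_lit 4217519784) (nat_lit 228) (nat_lit 6475880919) (nat_lit 65) (nat_lit 5) (nat_lit 67) (nat_lit 5) (nat_lit 68) (nat_lit 5) (nat_lit 638) (nat_lit 505) (nat_lit 417)) (XT.lf (nat_lit 0) (nat_lit 13936744443) (nat_lit 228) (nat_lit 229356062) (nat_lit 76) (nat_lit 1349646878) (nat_lit 65) (nat_lit 5) (nat_lit 68) (nat_lit 5) (nat_lit 66) (nat_lit 5) (nat_lit 639) (nat_lit 505) (nat_lit 416)))) (XT.nd (nat_lit 156) (nat_lit 304) (nat_lit 0) (XT.nd (nat_lit 78) (nat_lit 152) (nat_lit 0) (XT.lf (nat_lit 0) (nat_lit 3437359154) (nat_lit 304) (nat_lit 5228332379) (nat_lit 76) (nat_lit 7039634462) (nat_lit 61) (nat_lit 5) (nat_lit 65) (nat_lit 5) (nat_lit 62) (nat_lit 5) (nat_lit 640) (nat_lit 505) (nat_lit 415)) (XT.lf (nat_lit 0) (nat_lit 5509973815) (nat_lit 152) (nat_lit 3030127836) (nat_lit 228) (nat_lit 7358242679) (nat_lit 59)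 (nat_lit 5) (nat_lit 61) (nat_lit 5) (nat_lit 62) (nat_lit 5) (nat_lit 641) (nat_lit 505) (nat_lit 414))) (XT.nd (nat_lit 78) (nat_lit 76) (nat_lit 0) (XT.lf (nat_lit 0) (nat_lit 372572140) (nat_lit 228) (nat_lit 13397655689) (nat_lit 304) (nat_lit 2324489427) (nat_lit 56) (nat_lit 5) (nat_lit 59) (nat_lit 5) (nat_lit 60) (nat_lit 5) (nat_lit 642) (nat_lit 505) (nat_lit 413)) (XT.lf (nat_lit 0) (nat_lit 2833314732) (nat_lit 304) (nat_lit 4896720917) (nat_lit 76) (nat_lit 8563413309) (nat_lit 55) (nat_lit 5) (nat_lit 59) (nat_lit 5) (nat_lit 56) (nat_lit 5) (nat_lit 643) (nat_lit 505) (nat_lit 412))))))) (XT.nd (nat_lit 74256) (nat_lit 0) (nat_lit 25992) (XT.nd (nat_lit 73710) (nat_lit 0) (nat_lit 38684) (XT.nd (nat_lit 234) (nat_lit 380) (nat_lit 0) (XT.nd (nat_lit 78) (nat_lit 304) (nat_lit 0) (XT.lf (nat_lit 0) (nat_lit 6157758769) (nat_lit 152) (nat_lit 1915977629) (nat_lit 228) (nat_lit 8421900626) (nat_lit 53) (nat_lit 5) (nat_lit 55) (nat_lit 5) (nat_lit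 56) (nat_lit 5) (nat_lit 644) (nat_lit 505) (nat_lit 411)) (XT.nd (nat_lit 78) (nat_lit 76) (nat_lit 0) (XT.lf (nat_lit 0) (nat_lit 728865477) (nat_lit 228) (nat_lit 12724636430) (nat_lit 304) (nat_lit 3247676975) (nat_lit 50) (nat_lit 5) (nat_lit 53) (nat_lit 5) (nat_lit 54) (nat_lit 5) (nat_lit 645) (nat_lit 505) (nat_lit 410)) (XT.lf (nat_lit 0) (nat_lit 2056630153) (nat_lit 304) (nat_lit 4831642646) (nat_lit 76) (nat_lit 10021231420) (nat_lit 49) (nat_lit 5) (nat_lit 53) (nat_lit 5) (nat_lit 50) (nat_lit 5) (nat_lit 646) (nat_lit 505) (nat_lit 409)))) (XT.nd (nat_lit 78) (nat_lit 228) (nat_lit 0) (XT.lf (nat_lit 0) (nat_lit 6544254036) (nat_lit 152) (nat_lit 893090349) (nat_lit 228) (nat_lit 9683946884) (nat_lit 47) (nat_lit 5) (nat_lit 49) (nat_lit 5) (nat_lit 50) (nat_lit 5) (nat_lit 647) (nat_lit 505) (nat_lit 408)) (XT.nd (nat_lit 78) (nat_lit 76) (nat_lit 0) (XT.lf (nat_lit 0) (nat_lit 800893687) (nat_lit 152) (nat_lit 12167877045) (nat_lit 228) (nat_lit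 4367682054) (nat_lit 45) (nat_lit 5) (nat_lit 47) (nat_lit 5) (nat_lit 48) (nat_lit 5) (nat_lit 648) (nat_lit 505) (nat_lit 407)) (XT.lf (nat_lit 0) (nat_lit 1089827928) (nat_lit 228) (nat_lit 5070000787) (nat_lit 76) (nat_lit 11394977391) (nat_lit 44) (nat_lit 5) (nat_lit 47) (nat_lit 5) (nat_lit 45) (nat_lit 5) (nat_lit 649) (nat_lit 505) (nat_lit 406))))) (XT.nd (nat_lit 234) (nat_lit 3116) (nat_lit 0) (XT.nd (nat_lit 78) (nat_lit 2736) (nat_lit 0) (XT.lf (nat_lit 0) (nat_lit 1125258637) (nat_lit 1292) (nat_lit 1158016107) (nat_lit 0) (nat_lit 1125258637) (nat_lit 630) (nat_lit 5) (nat_lit 647) (nat_lit 4) (nat_lit 630) (nat_lit 4) (nat_lit 548) (nat_lit 506) (nat_lit 506)) (XT.nd (nat_lit 78) (nat_lit 1444) (nat_lit 0) (XT.lf (nat_lit 0) (nat_lit 2400820334) (nat_lit 1292) (nat_lit 3234066256) (nat_lit 1292) (nat_lit 1209691893) (nat_lit 613) (nat_lit 4) (nat_lit 630) (nat_lit 5) (nat_lit 630) (nat_lit 4) (nat_lit 549) (nat_lit 506) (nat_lit 505)) (XT.lf (nat_lit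 0) (nat_lit 297069022) (nat_lit 1368) (nat_lit 1834675597) (nat_lit 1444) (nat_lit 4741688148) (nat_lit 594) (nat_lit 5) (nat_lit 612) (nat_lit 5) (nat_lit 613) (nat_lit 4) (nat_lit 550) (nat_lit 506) (nat_lit 504)))) (XT.nd (nat_lit 156) (nat_lit 1596) (nat_lit 0) (XT.nd (nat_lit 78) (nat_lit 1520) (nat_lit 0) (XT.lf (nat_lit 0) (nat_lit 5121826432) (nat_lit 1368) (nat_lit 361662171) (nat_lit 1444) (nat_lit 1420031413) (nat_lit 594) (nat_lit 5) (nat_lit 612) (nat_lit 5) (nat_lit 613) (nat_lit 4) (nat_lit 551) (nat_lit 506) (nat_lit 503)) (XT.lf (nat_lit 0) (nat_lit 1900673973) (nat_lit 1520) (nat_lit 3868906930) (nat_lit 76) (nat_lit 1165212981) (nat_lit 574) (nat_lit 5) (nat_lit 594) (nat_lit 5) (nat_lit 575) (nat_lit 4) (nat_lit 552) (nat_lit 506) (nat_lit 502))) (XT.nd (nat_lit 78) (nat_lit 76) (nat_lit 0) (XT.lf (nat_lit 0) (nat_lit 1005730237) (nat_lit 1520) (nat_lit 4215822646) (nat_lit 1596) (nat_lit 1745905938) (nat_lit 554) (nat_lit 5) (nat_lit 574) (nat_lit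 5) (nat_lit 575) (nat_lit 4) (nat_lit 553) (nat_lit 506) (nat_lit 501)) (XT.lf (nat_lit 0) (nat_lit 1545384528) (nat_lit 1596) (nat_lit 1044753673) (nat_lit 76) (nat_lit 4411270449) (nat_lit 553) (nat_lit 5) (nat_lit 574) (nat_lit 5) (nat_lit 554) (nat_lit 5) (nat_lit 554) (nat_lit 506) (nat_lit 500)))))) (XT.nd (nat_lit 546) (nat_lit 4560) (nat_lit 0) (XT.nd (nat_lit 234) (nat_lit 4788) (nat_lit 0) (XT.nd (nat_lit 78) (nat_lit 1748) (nat_lit 0) (XT.lf (nat_lit 0) (nat_lit 3947846283) (nat_lit 1596) (nat_lit 890526843) (nat_lit 1672) (nat_lit 2198256826) (nat_lit 532) (nat_lit 5) (nat_lit 553) (nat_lit 5) (nat_lit 554) (nat_lit 5) (nat_lit 555) (nat_lit 506) (nat_lit 499)) (XT.nd (nat_lit 78) (nat_lit 0) (nat_lit 0) (XT.lf (nat_lit 0) (nat_lit 1069266377) (nat_lit 1748) (nat_lit 5142315664) (nat_lit 76) (nat_lit 861648546) (nat_lit 509) (nat_lit 5) (nat_lit 532) (nat_lit 5) (nat_lit 510) (nat_lit 5) (nat_lit 556) (nat_lit 506) (nat_lit 498)) (XT.lf (nat_lit 0)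 (nat_lit 4334443210) (nat_lit 1748) (nat_lit 102169526) (nat_lit 76) (nat_lit 2674432942) (nat_lit 509) (nat_lit 5) (nat_lit 532) (nat_lit 5) (nat_lit 510) (nat_lit 5) (nat_lit 557) (nat_lit 506) (nat_lit 497)))) (XT.nd (nat_lit 156) (nat_lit 1140) (nat_lit 0) (XT.nd (nat_lit 78) (nat_lit 1824) (nat_lit 0) (XT.lf (nat_lit 0) (nat_lit 477293822) (nat_lit 1824) (nat_lit 2111525137) (nat_lit 76) (nat_lit 4561363791) (nat_lit 485) (nat_lit 5) (nat_lit 509) (nat_lit 5) (nat_lit 486) (nat_lit 5) (nat_lit 558) (nat_lit 506) (nat_lit 496)) (XT.lf (nat_lit 0) (nat_lit 3051750495) (nat_lit 1824) (nat_lit 664521116) (nat_lit 1900) (nat_lit 3474327598) (nat_lit 461) (nat_lit 5) (nat_lit 485) (nat_lit 5) (nat_lit 486) (nat_lit 5) (nat_lit 559) (nat_lit 506) (nat_lit 495))) (XT.nd (nat_lit 78) (nat_lit 76) (nat_lit 0) (XT.lf (nat_lit 0) (nat_lit 1056389949) (nat_lit 1064) (nat_lit 5930663007) (nat_lit 1140) (nat_lit 245437775) (nat_lit 447) (nat_lit 5) (nat_lit 461) (nat_lit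 5) (nat_lit 462) (nat_lit 5) (nat_lit 560) (nat_lit 506) (nat_lit 494)) (XT.lf (nat_lit 0) (nat_lit 2978281222) (nat_lit 1140) (nat_lit 952127196) (nat_lit 76) (nat_lit 3345018266) (nat_lit 446) (nat_lit 5) (nat_lit 461) (nat_lit 5) (nat_lit 447) (nat_lit 5) (nat_lit 561) (nat_lit 506) (nat_lit 493))))) (XT.nd (nat_lit 234) (nat_lit 1824) (nat_lit 0) (XT.nd (nat_lit 78) (nat_lit 1824) (nat_lit 0) (XT.lf (nat_lit 0) (nat_lit 4368539140) (nat_lit 912) (nat_lit 1862102094) (nat_lit 988) (nat_lit 1089205413) (nat_lit 434) (nat_lit 5) (nat_lit 446) (nat_lit 5) (nat_lit 447) (nat_lit 5) (nat_lit 562) (nat_lit 506) (nat_lit 492)) (XT.nd (nat_lit 78) (nat_lit 836) (nat_lit 0) (XT.lf (nat_lit 0) (nat_lit 2117550264) (nat_lit 988) (nat_lit 4970605073) (nat_lit 76) (nat_lit 277457032) (nat_lit 421) (nat_lit 5) (nat_lit 434) (nat_lit 5) (nat_lit 422) (nat_lit 5) (nat_lit 563) (nat_lit 506) (nat_lit 491)) (XT.lf (nat_lit 0) (nat_lit 397284378) (nat_lit 836) (nat_lit 4951651177)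 (nat_lit 912) (nat_lit 2063718683) (nat_lit 410) (nat_lit 5) (nat_lit 421) (nat_lit 5) (nat_lit 422) (nat_lit 5) (nat_lit 564) (nat_lit 506) (nat_lit 490)))) (XT.nd (nat_lit 156) (nat_lit 912) (nat_lit 0) (XT.nd (nat_lit 78) (nat_lit 836) (nat_lit 0) (XT.lf (nat_lit 0) (nat_lit 1142931909) (nat_lit 912) (nat_lit 1592948088) (nat_lit 76) (nat_lit 4725126265) (nat_lit 409) (nat_lit 5) (nat_lit 421) (nat_lit 5) (nat_lit 410) (nat_lit 5) (nat_lit 565) (nat_lit 506) (nat_lit 489)) (XT.lf (nat_lit 0) (nat_lit 3911856383) (nat_lit 836) (nat_lit 441391791) (nat_lit 912) (nat_lit 3157467046) (nat_lit 398) (nat_lit 5) (nat_lit 409) (nat_lit 5) (nat_lit 410) (nat_lit 5) (nat_lit 566) (nat_lit 506) (nat_lit 488))) (XT.nd (nat_lit 78) (nat_lit 0) (nat_lit 0) (XT.lf (nat_lit 0) (nat_lit 43424804) (nat_lit 912) (nat_lit 5626419127) (nat_lit 76) (nat_lit 1892012761) (nat_lit 386) (nat_lit 5) (nat_lit 398) (nat_lit 5) (nat_lit 387) (nat_lit 5) (nat_lit 567) (nat_lit 506) (nat_lit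 487)) (XT.lf (nat_lit 0) (nat_lit 3236095631) (nat_lit 912) (nat_lit 73074029) (nat_lit 76) (nat_lit 4305038812) (nat_lit 386) (nat_lit 5) (nat_lit 398) (nat_lit 5) (nat_lit 387) (nat_lit 5) (nat_lit 568) (nat_lit 506) (nat_lit 486))))))))
noncomputable def xc49 : XT := (XT.nd (nat_lit 2106) (nat_lit 7524) (nat_lit 0) (XT.nd (nat_lit 1014) (nat_lit 6232) (nat_lit 0) (XT.nd (nat_lit 468) (nat_lit 3496) (nat_lit 0) (XT.nd (nat_lit 234) (nat_lit 1520) (nat_lit 0) (XT.nd (nat_lit 78) (nat_lit 1596) (nat_lit 0) (XT.lf (nat_lit 0) (nat_lit 5601323889) (nat_lit 836) (nat_lit 871552517) (nat_lit 912) (nat_lit 1195131328) (nat_lit 375) (nat_lit 5) (nat_lit 386) (nat_lit 5) (nat_lit 387) (nat_lit 5) (nat_lit 569) (nat_lit 506) (nat_lit 485)) (XT.nd (nat_lit 78) (nat_lit 760) (nat_lit 0) (XT.lf (nat_lit 0) (nat_lit 2003604975) (nat_lit 836) (nat_lit 4096025558) (nat_lit 76) (nat_lit 1623411390) (nat_lit 364) (nat_lit 5) (nat_lit 375) (nat_lit 5) (nat_lit 365) (nat_lit 5)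 (nat_lit 570) (nat_lit 506) (nat_lit 484)) (XT.lf (nat_lit 0) (nat_lit 1626823578) (nat_lit 760) (nat_lit 3598635346) (nat_lit 836) (nat_lit 2554062217) (nat_lit 354) (nat_lit 5) (nat_lit 364) (nat_lit 5) (nat_lit 365) (nat_lit 5) (nat_lit 571) (nat_lit 506) (nat_lit 483)))) (XT.nd (nat_lit 78) (nat_lit 1444) (nat_lit 0) (XT.lf (nat_lit 0) (nat_lit 638576878) (nat_lit 836) (nat_lit 386239750) (nat_lit 76) (nat_lit 6812774672) (nat_lit 353) (nat_lit 5) (nat_lit 364) (nat_lit 5) (nat_lit 354) (nat_lit 5) (nat_lit 572) (nat_lit 506) (nat_lit 482)) (XT.nd (nat_lit 78) (nat_lit 760) (nat_lit 0) (XT.lf (nat_lit 0) (nat_lit 3853416101) (nat_lit 760) (nat_lit 2420411955) (nat_lit 76) (nat_lit 1622811185) (nat_lit 344) (nat_lit 5) (nat_lit 354) (nat_lit 5) (nat_lit 345) (nat_lit 5) (nat_lit 573) (nat_lit 506) (nat_lit 481)) (XT.lf (nat_lit 0) (nat_lit 3479122327) (nat_lit 760) (nat_lit 3632207151) (nat_lit 836) (nat_lit 845967972) (nat_lit 334) (nat_lit 5) (nat_lit 344)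 (nat_lit 5) (nat_lit 345) (nat_lit 5) (nat_lit 574) (nat_lit 506) (nat_lit 480))))) (XT.nd (nat_lit 234) (nat_lit 1976) (nat_lit 0) (XT.nd (nat_lit 78) (nat_lit 760) (nat_lit 0) (XT.lf (nat_lit 0) (nat_lit 1449481502) (nat_lit 684) (nat_lit 906905254) (nat_lit 760) (nat_lit 5663016494) (nat_lit 324) (nat_lit 5) (nat_lit 333) (nat_lit 5) (nat_lit 334) (nat_lit 5) (nat_lit 575) (nat_lit 506) (nat_lit 479)) (XT.nd (nat_lit 78) (nat_lit 760) (nat_lit 0) (XT.lf (nat_lit 0) (nat_lit 5601498892) (nat_lit 760) (nat_lit 608622008) (nat_lit 76) (nat_lit 1872722246) (nat_lit 324) (nat_lit 5) (nat_lit 334) (nat_lit 5) (nat_lit 325) (nat_lit 5) (nat_lit 576) (nat_lit 506) (nat_lit 478)) (XT.lf (nat_lit 0) (nat_lit 744064071) (nat_lit 760) (nat_lit 2678588403) (nat_lit 76) (nat_lit 4725002119) (nat_lit 314) (nat_lit 5) (nat_lit 324) (nat_lit 5) (nat_lit 315) (nat_lit 5) (nat_lit 577) (nat_lit 506) (nat_lit 477)))) (XT.nd (nat_lit 156) (nat_lit 684) (nat_lit 0) (XT.nd (nat_lit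 78) (nat_lit 684) (nat_lit 0) (XT.lf (nat_lit 0) (nat_lit 3427473215) (nat_lit 608) (nat_lit 548578216) (nat_lit 684) (nat_lit 4237881193) (nat_lit 306) (nat_lit 5) (nat_lit 314) (nat_lit 5) (nat_lit 315) (nat_lit 5) (nat_lit 578) (nat_lit 506) (nat_lit 476)) (XT.lf (nat_lit 0) (nat_lit 1348476532) (nat_lit 684) (nat_lit 5915928854) (nat_lit 760) (nat_lit 1017300519) (nat_lit 297) (nat_lit 5) (nat_lit 306) (nat_lit 5) (nat_lit 307) (nat_lit 5) (nat_lit 579) (nat_lit 506) (nat_lit 475))) (XT.nd (nat_lit 78) (nat_lit 608) (nat_lit 0) (XT.lf (nat_lit 0) (nat_lit 2223563213) (nat_lit 760) (nat_lit 762424271) (nat_lit 76) (nat_lit 5364844511) (nat_lit 296) (nat_lit 5) (nat_lit 306) (nat_lit 5) (nat_lit 297) (nat_lit 5) (nat_lit 580) (nat_lit 506) (nat_lit 474)) (XT.lf (nat_lit 0) (nat_lit 5502410054) (nat_lit 684) (nat_lit 2887432155) (nat_lit 76) (nat_lit 31632144) (nat_lit 288) (nat_lit 5) (nat_lit 297) (nat_lit 5) (nat_lit 289) (nat_lit 5) (nat_lit 581) (nat_lit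 506) (nat_lit 473)))))) (XT.nd (nat_lit 546) (nat_lit 3116) (nat_lit 0) (XT.nd (nat_lit 234) (nat_lit 1824) (nat_lit 0) (XT.nd (nat_lit 78) (nat_lit 608) (nat_lit 0) (XT.lf (nat_lit 0) (nat_lit 346982835) (nat_lit 684) (nat_lit 5061124830) (nat_lit 76) (nat_lit 3085413599) (nat_lit 279) (nat_lit 5) (nat_lit 288) (nat_lit 5) (nat_lit 280) (nat_lit 5) (nat_lit 582) (nat_lit 506) (nat_lit 472)) (XT.nd (nat_lit 78) (nat_lit 0) (nat_lit 0) (XT.lf (nat_lit 0) (nat_lit 1284435994) (nat_lit 608) (nat_lit 2334033746) (nat_lit 684) (nat_lit 4948573122) (nat_lit 271) (nat_lit 5) (nat_lit 279) (nat_lit 5) (nat_lit 280) (nat_lit 5) (nat_lit 583) (nat_lit 506) (nat_lit 471)) (XT.lf (nat_lit 0) (nat_lit 6946542959) (nat_lit 684) (nat_lit 885805174) (nat_lit 76) (nat_lit 809867309) (nat_lit 271) (nat_lit 5) (nat_lit 280) (nat_lit 5) (nat_lit 272) (nat_lit 5) (nat_lit 584) (nat_lit 506) (nat_lit 470)))) (XT.nd (nat_lit 156) (nat_lit 608) (nat_lit 0) (XT.nd (nat_lit 78) (nat_lit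 532) (nat_lit 0) (XT.lf (nat_lit 0) (nat_lit 1605785585) (nat_lit 684) (nat_lit 3095265050) (nat_lit 76) (nat_lit 4017538195) (nat_lit 262) (nat_lit 5) (nat_lit 271) (nat_lit 5) (nat_lit 263) (nat_lit 5) (nat_lit 585) (nat_lit 506) (nat_lit 469)) (XT.lf (nat_lit 0) (nat_lit 3448752761) (nat_lit 532) (nat_lit 1483127958) (nat_lit 608) (nat_lit 3864762006) (nat_lit 255) (nat_lit 5) (nat_lit 262) (nat_lit 5) (nat_lit 263) (nat_lit 5) (nat_lit 586) (nat_lit 506) (nat_lit 468))) (XT.nd (nat_lit 78) (nat_lit 76) (nat_lit 0) (XT.lf (nat_lit 0) (nat_lit 1230189923) (nat_lit 532) (nat_lit 7088207979) (nat_lit 608) (nat_lit 557985194) (nat_lit 248) (nat_lit 5) (nat_lit 255) (nat_lit 5) (nat_lit 256) (nat_lit 5) (nat_lit 587) (nat_lit 506) (nat_lit 467)) (XT.lf (nat_lit 0) (nat_lit 2777473024) (nat_lit 608) (nat_lit 1037104971) (nat_lit 76) (nat_lit 5142788735) (nat_lit 247) (nat_lit 5) (nat_lit 255) (nat_lit 5) (nat_lit 248) (nat_lit 5) (nat_lit 588) (nat_lit 506) (nat_lit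 466))))) (XT.nd (nat_lit 234) (nat_lit 1520) (nat_lit 0) (XT.nd (nat_lit 78) (nat_lit 1064) (nat_lit 0) (XT.lf (nat_lit 0) (nat_lit 5712555800) (nat_lit 532) (nat_lit 451138584) (nat_lit 608) (nat_lit 2876374582) (nat_lit 240) (nat_lit 5) (nat_lit 247) (nat_lit 5) (nat_lit 248) (nat_lit 5) (nat_lit 589) (nat_lit 506) (nat_lit 465)) (XT.nd (nat_lit 78) (nat_lit 456) (nat_lit 0) (XT.lf (nat_lit 0) (nat_lit 490319326) (nat_lit 608) (nat_lit 5677964184) (nat_lit 76) (nat_lit 2956009311) (nat_lit 232) (nat_lit 5) (nat_lit 240) (nat_lit 5) (nat_lit 233) (nat_lit 5) (nat_lit 590) (nat_lit 506) (nat_lit 464)) (XT.lf (nat_lit 0) (nat_lit 1120104673) (nat_lit 456) (nat_lit 2753484857) (nat_lit 532) (nat_lit 5336479242) (nat_lit 226) (nat_lit 5) (nat_lit 232) (nat_lit 5) (nat_lit 233) (nat_lit 5) (nat_lit 591) (nat_lit 506) (nat_lit 463)))) (XT.nd (nat_lit 156) (nat_lit 912) (nat_lit 0) (XT.nd (nat_lit 78) (nat_lit 608) (nat_lit 0) (XT.lf (nat_lit 0) (nat_lit 7322954431)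 (nat_lit 532) (nat_lit 1234442765) (nat_lit 76) (nat_lit 740197420) (nat_lit 226) (nat_lit 5) (nat_lit 233) (nat_lit 5) (nat_lit 227) (nat_lit 5) (nat_lit 592) (nat_lit 506) (nat_lit 462)) (XT.lf (nat_lit 0) (nat_lit 1447235830) (nat_lit 608) (nat_lit 3643261081) (nat_lit 76) (nat_lit 4295950540) (nat_lit 218) (nat_lit 5) (nat_lit 226) (nat_lit 5) (nat_lit 219) (nat_lit 5) (nat_lit 593) (nat_lit 506) (nat_lit 461))) (XT.nd (nat_lit 78) (nat_lit 456) (nat_lit 0) (XT.lf (nat_lit 0) (nat_lit 3368559466) (nat_lit 456) (nat_lit 1529162808) (nat_lit 532) (nat_lit 4579364542) (nat_lit 212) (nat_lit 5) (nat_lit 218) (nat_lit 5) (nat_lit 219) (nat_lit 5) (nat_lit 594) (nat_lit 506) (nat_lit 460)) (XT.lf (nat_lit 0) (nat_lit 936407098) (nat_lit 456) (nat_lit 7481864037) (nat_lit 532) (nat_lit 1151249514) (nat_lit 206) (nat_lit 5) (nat_lit 212) (nat_lit 5) (nat_lit 213) (nat_lit 5) (nat_lit 595) (nat_lit 506) (nat_lit 459))))))) (XT.nd (nat_lit 1014) (nat_lit 3496) (nat_lit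 0) (XT.nd (nat_lit 468) (nat_lit 2052) (nat_lit 0) (XT.nd (nat_lit 234) (nat_lit 988) (nat_lit 0) (XT.nd (nat_lit 78) (nat_lit 912) (nat_lit 0) (XT.lf (nat_lit 0) (nat_lit 2322919138) (nat_lit 532) (nat_lit 1546735496) (nat_lit 76) (nat_lit 5793681550) (nat_lit 205) (nat_lit 5) (nat_lit 212) (nat_lit 5) (nat_lit 206) (nat_lit 5) (nat_lit 596) (nat_lit 506) (nat_lit 458)) (XT.nd (nat_lit 78) (nat_lit 456) (nat_lit 0) (XT.lf (nat_lit 0) (nat_lit 5686393978) (nat_lit 456) (nat_lit 159404268) (nat_lit 532) (nat_lit 3913187318) (nat_lit 199) (nat_lit 5) (nat_lit 205) (nat_lit 5) (nat_lit 206) (nat_lit 5) (nat_lit 597) (nat_lit 506) (nat_lit 457)) (XT.lf (nat_lit 0) (nat_lit 3184740843) (nat_lit 456) (nat_lit 6267066152) (nat_lit 532) (nat_lit 404490023) (nat_lit 193) (nat_lit 5) (nat_lit 199) (nat_lit 5) (nat_lit 200) (nat_lit 5) (nat_lit 598) (nat_lit 506) (nat_lit 456)))) (XT.nd (nat_lit 78) (nat_lit 532) (nat_lit 0) (XT.lf (nat_lit 0) (nat_lit 611202220) (nat_lit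 380) (nat_lit 2512235039) (nat_lit 456) (nat_lit 6831893891) (nat_lit 187) (nat_lit 5) (nat_lit 192) (nat_lit 5) (nat_lit 193) (nat_lit 5) (nat_lit 599) (nat_lit 506) (nat_lit 455)) (XT.nd (nat_lit 78) (nat_lit 532) (nat_lit 0) (XT.lf (nat_lit 0) (nat_lit 6728572651) (nat_lit 456) (nat_lit 1999601596) (nat_lit 76) (nat_lit 1327879311) (nat_lit 187) (nat_lit 5) (nat_lit 193) (nat_lit 5) (nat_lit 188) (nat_lit 5) (nat_lit 600) (nat_lit 506) (nat_lit 454)) (XT.lf (nat_lit 0) (nat_lit 255362599) (nat_lit 532) (nat_lit 4674560024) (nat_lit 76) (nat_lit 5228606363) (nat_lit 180) (nat_lit 5) (nat_lit 187) (nat_lit 5) (nat_lit 181) (nat_lit 5) (nat_lit 601) (nat_lit 506) (nat_lit 453))))) (XT.nd (nat_lit 234) (nat_lit 1216) (nat_lit 0) (XT.nd (nat_lit 78) (nat_lit 456) (nat_lit 0) (XT.lf (nat_lit 0) (nat_lit 2835007130) (nat_lit 380) (nat_lit 1021643789) (nat_lit 456) (nat_lit 6406138496) (nat_lit 175) (nat_lit 5) (nat_lit 180) (nat_lit 5) (nat_lit 181) (nat_lit 5) (nat_lit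 602) (nat_lit 506) (nat_lit 452)) (XT.nd (nat_lit 78) (nat_lit 76) (nat_lit 0) (XT.lf (nat_lit 0) (nat_lit 109760088) (nat_lit 380) (nat_lit 7431393824) (nat_lit 456) (nat_lit 2827759559) (nat_lit 170) (nat_lit 5) (nat_lit 175) (nat_lit 5) (nat_lit 176) (nat_lit 5) (nat_lit 603) (nat_lit 506) (nat_lit 451)) (XT.lf (nat_lit 0) (nat_lit 828119949) (nat_lit 456) (nat_lit 2651833284) (nat_lit 76) (nat_lit 6996767804) (nat_lit 169) (nat_lit 5) (nat_lit 175) (nat_lit 5) (nat_lit 170) (nat_lit 5) (nat_lit 604) (nat_lit 506) (nat_lit 450)))) (XT.nd (nat_lit 156) (nat_lit 456) (nat_lit 0) (XT.nd (nat_lit 78) (nat_lit 380) (nat_lit 0) (XT.lf (nat_lit 0) (nat_lit 4516712167) (nat_lit 456) (nat_lit 5495250288) (nat_lit 76) (nat_lit 574401364) (nat_lit 164) (nat_lit 5) (nat_lit 170) (nat_lit 5) (nat_lit 165) (nat_lit 5) (nat_lit 605) (nat_lit 506) (nat_lit 449)) (XT.lf (nat_lit 0) (nat_lit 2272659738) (nat_lit 380) (nat_lit 6022938771) (nat_lit 456) (nat_lit 2402272534) (nat_lit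 159) (nat_lit 5) (nat_lit 164) (nat_lit 5) (nat_lit 165) (nat_lit 5) (nat_lit 606) (nat_lit 506) (nat_lit 448))) (XT.nd (nat_lit 78) (nat_lit 380) (nat_lit 0) (XT.lf (nat_lit 0) (nat_lit 1318943873) (nat_lit 456) (nat_lit 610512352) (nat_lit 76) (nat_lit 8882019460) (nat_lit 158) (nat_lit 5) (nat_lit 164) (nat_lit 5) (nat_lit 159) (nat_lit 5) (nat_lit 607) (nat_lit 506) (nat_lit 447)) (XT.lf (nat_lit 0) (nat_lit 5106927536) (nat_lit 456) (nat_lit 3560253629) (nat_lit 76) (nat_lit 2259365402) (nat_lit 153) (nat_lit 5) (nat_lit 159) (nat_lit 5) (nat_lit 154) (nat_lit 5) (nat_lit 608) (nat_lit 506) (nat_lit 446)))))) (XT.nd (nat_lit 546) (nat_lit 1672) (nat_lit 0) (XT.nd (nat_lit 234) (nat_lit 1064) (nat_lit 0) (XT.nd (nat_lit 78) (nat_lit 380) (nat_lit 0) (XT.lf (nat_lit 0) (nat_lit 4452511048) (nat_lit 380) (nat_lit 4525884579) (nat_lit 456) (nat_lit 2065370622) (nat_lit 148) (nat_lit 5) (nat_lit 153) (nat_lit 5) (nat_lit 154) (nat_lit 5) (nat_lit 609) (nat_lit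 506) (nat_lit 445)) (XT.nd (nat_lit 78) (nat_lit 0) (nat_lit 0) (XT.lf (nat_lit 0) (nat_lit 1458188778) (nat_lit 304) (nat_lit 278177601) (nat_lit 380) (nat_lit 9426825924) (nat_lit 143) (nat_lit 5) (nat_lit 147) (nat_lit 5) (nat_lit 148) (nat_lit 5) (nat_lit 610) (nat_lit 506) (nat_lit 444)) (XT.lf (nat_lit 0) (nat_lit 5619589716) (nat_lit 380) (nat_lit 1626926311) (nat_lit 76) (nat_lit 4037557441) (nat_lit 143) (nat_lit 5) (nat_lit 148) (nat_lit 5) (nat_lit 144) (nat_lit 5) (nat_lit 611) (nat_lit 506) (nat_lit 443)))) (XT.nd (nat_lit 156) (nat_lit 304) (nat_lit 0) (XT.nd (nat_lit 78) (nat_lit 380) (nat_lit 0) (XT.lf (nat_lit 0) (nat_lit 6638646454) (nat_lit 380) (nat_lit 2949749275) (nat_lit 456) (nat_lit 1818819897) (nat_lit 138) (nat_lit 5) (nat_lit 143) (nat_lit 5) (nat_lit 144) (nat_lit 5) (nat_lit 612) (nat_lit 506) (nat_lit 442)) (XT.lf (nat_lit 0) (nat_lit 2082634574) (nat_lit 380) (nat_lit 8009899544) (nat_lit 76) (nat_lit 1439885626) (nat_lit 133) (nat_lit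 5) (nat_lit 138) (nat_lit 5) (nat_lit 134) (nat_lit 5) (nat_lit 613) (nat_lit 506) (nat_lit 441))) (XT.nd (nat_lit 78) (nat_lit 0) (nat_lit 0) (XT.lf (nat_lit 0) (nat_lit 297097029) (nat_lit 304) (nat_lit 5757633018) (nat_lit 380) (nat_lit 5604819765) (nat_lit 129) (nat_lit 5) (nat_lit 133) (nat_lit 5) (nat_lit 134) (nat_lit 5) (nat_lit 614) (nat_lit 506) (nat_lit 440)) (XT.lf (nat_lit 0) (nat_lit 8819611647) (nat_lit 304) (nat_lit 1304010212) (nat_lit 380) (nat_lit 1665255135) (nat_lit 129) (nat_lit 5) (nat_lit 133) (nat_lit 5) (nat_lit 134) (nat_lit 5) (nat_lit 615) (nat_lit 506) (nat_lit 439))))) (XT.nd (nat_lit 234) (nat_lit 988) (nat_lit 0) (XT.nd (nat_lit 78) (nat_lit 304) (nat_lit 0) (XT.lf (nat_lit 0) (nat_lit 2343844180) (nat_lit 380) (nat_lit 6350378822) (nat_lit 76) (nat_lit 3225831604) (nat_lit 124) (nat_lit 5) (nat_lit 129) (nat_lit 5) (nat_lit 125) (nat_lit 5) (nat_lit 616) (nat_lit 506) (nat_lit 438)) (XT.nd (nat_lit 78) (nat_lit 0) (nat_lit 0) (XT.lf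 (nat_lit 0) (nat_lit 2216766564) (nat_lit 304) (nat_lit 4201427977) (nat_lit 380) (nat_lit 5635295256) (nat_lit 120) (nat_lit 5) (nat_lit 124) (nat_lit 5) (nat_lit 125) (nat_lit 5) (nat_lit 617) (nat_lit 506) (nat_lit 437)) (XT.lf (nat_lit 0) (nat_lit 10583837337) (nat_lit 380) (nat_lit 1209036280) (nat_lit 76) (nat_lit 396525445) (nat_lit 120) (nat_lit 5) (nat_lit 125) (nat_lit 5) (nat_lit 121) (nat_lit 5) (nat_lit 618) (nat_lit 506) (nat_lit 436)))) (XT.nd (nat_lit 156) (nat_lit 304) (nat_lit 0) (XT.nd (nat_lit 78) (nat_lit 304) (nat_lit 0) (XT.lf (nat_lit 0) (nat_lit 2514529375) (nat_lit 380) (nat_lit 4738316601) (nat_lit 76) (nat_lit 5074004440) (nat_lit 115) (nat_lit 5) (nat_lit 120) (nat_lit 5) (nat_lit 116) (nat_lit 5) (nat_lit 619) (nat_lit 506) (nat_lit 435)) (XT.lf (nat_lit 0) (nat_lit 4096796197) (nat_lit 304) (nat_lit 2598726058) (nat_lit 380) (nat_lit 5771317712) (nat_lit 111) (nat_lit 5) (nat_lit 115) (nat_lit 5) (nat_lit 116) (nat_lit 5) (nat_lit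 620) (nat_lit 506) (nat_lit 434))) (XT.nd (nat_lit 78) (nat_lit 76) (nat_lit 0) (XT.lf (nat_lit 0) (nat_lit 498257125) (nat_lit 228) (nat_lit 10476441923) (nat_lit 304) (nat_lit 1634640349) (nat_lit 108) (nat_lit 5) (nat_lit 111) (nat_lit 5) (nat_lit 112) (nat_lit 5) (nat_lit 621) (nat_lit 506) (nat_lit 433)) (XT.lf (nat_lit 0) (nat_lit 2590069316) (nat_lit 304) (nat_lit 3188591236) (nat_lit 76) (nat_lit 6974909965) (nat_lit 107) (nat_lit 5) (nat_lit 111) (nat_lit 5) (nat_lit 108) (nat_lit 5) (nat_lit 622) (nat_lit 506) (nat_lit 432))))))))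
noncomputable def xc50 : XT := (XT.nd (nat_lit 75270) (nat_lit 0) (nat_lit 22724) (XT.nd (nat_lit 1014) (nat_lit 2204) (nat_lit 0) (XT.nd (nat_lit 468) (nat_lit 1292) (nat_lit 0) (XT.nd (nat_lit 234) (nat_lit 608) (nat_lit 0) (XT.nd (nat_lit 78) (nat_lit 304) (nat_lit 0) (XT.lf (nat_lit 0) (nat_lit 5922290371) (nat_lit 304) (nat_lit 959693347) (nat_lit 380) (nat_lit 6018395762) (nat_lit 103) (nat_lit 5) (nat_lit 107) (nat_lit 5) (nat_lit 108) (nat_lit 5) (nat_lit 623) (nat_lit 506) (nat_lit 431)) (XT.nd (nat_lit 78) (nat_lit 76) (nat_lit 0) (XT.lf (nat_lit 0) (nat_lit 2154289497) (nat_lit 228) (nat_lit 9132930130) (nat_lit 304) (nat_lit 1762356594) (nat_lit 100) (nat_lit 5) (nat_lit 103) (nat_lit 5) (nat_lit 104) (nat_lit 5) (nat_lit 624) (nat_lit 506) (nat_lit 430)) (XT.lf (nat_lit 0) (nat_lit 2564819475) (nat_lit 304) (nat_lit 1717452048) (nat_lit 76) (nat_lit 8918754971) (nat_lit 99) (nat_lit 5) (nat_lit 103) (nat_lit 5) (nat_lit 100) (nat_lit 5) (nat_lit 625)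 (nat_lit 506) (nat_lit 429)))) (XT.nd (nat_lit 78) (nat_lit 304) (nat_lit 0) (XT.lf (nat_lit 0) (nat_lit 6976390314) (nat_lit 380) (nat_lit 5682570188) (nat_lit 76) (nat_lit 695884493) (nat_lit 95) (nat_lit 5) (nat_lit 100) (nat_lit 5) (nat_lit 96) (nat_lit 5) (nat_lit 626) (nat_lit 506) (nat_lit 428)) (XT.nd (nat_lit 78) (nat_lit 76) (nat_lit 0) (XT.lf (nat_lit 0) (nat_lit 3725850780) (nat_lit 228) (nat_lit 7781635199) (nat_lit 304) (nat_lit 2003629183) (nat_lit 92) (nat_lit 5) (nat_lit 95) (nat_lit 5) (nat_lit 96) (nat_lit 5) (nat_lit 627) (nat_lit 506) (nat_lit 427)) (XT.lf (nat_lit 0) (nat_lit 2432039441) (nat_lit 304) (nat_lit 342708744) (nat_lit 76) (nat_lit 10895332547) (nat_lit 91) (nat_lit 5) (nat_lit 95) (nat_lit 5) (nat_lit 92) (nat_lit 5) (nat_lit 628) (nat_lit 506) (nat_lit 426))))) (XT.nd (nat_lit 234) (nat_lit 532) (nat_lit 0) (XT.nd (nat_lit 78) (nat_lit 532) (nat_lit 0) (XT.lf (nat_lit 0) (nat_lit 6973611345) (nat_lit 304) (nat_lit 4504023561)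 (nat_lit 76) (nat_lit 2353446554) (nat_lit 88) (nat_lit 5) (nat_lit 92) (nat_lit 5) (nat_lit 89) (nat_lit 5) (nat_lit 629) (nat_lit 506) (nat_lit 425)) (XT.nd (nat_lit 78) (nat_lit 304) (nat_lit 0) (XT.lf (nat_lit 0) (nat_lit 5194100864) (nat_lit 228) (nat_lit 6434304821) (nat_lit 304) (nat_lit 2366449777) (nat_lit 85) (nat_lit 5) (nat_lit 88) (nat_lit 5) (nat_lit 89) (nat_lit 5) (nat_lit 630) (nat_lit 506) (nat_lit 424)) (XT.lf (nat_lit 0) (nat_lit 928235844) (nat_lit 228) (nat_lit 1261601190) (nat_lit 304) (nat_lit 11971691635) (nat_lit 81) (nat_lit 5) (nat_lit 84) (nat_lit 5) (nat_lit 85) (nat_lit 5) (nat_lit 631) (nat_lit 506) (nat_lit 423)))) (XT.nd (nat_lit 156) (nat_lit 304) (nat_lit 0) (XT.nd (nat_lit 78) (nat_lit 228) (nat_lit 0) (XT.lf (nat_lit 0) (nat_lit 6859262477) (nat_lit 304) (nat_lit 3456801034) (nat_lit 76) (nat_lit 4014086007) (nat_lit 81) (nat_lit 5) (nat_lit 85) (nat_lit 5) (nat_lit 82) (nat_lit 5) (nat_lit 632) (nat_lit 506) (nat_lit 422))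 (XT.lf (nat_lit 0) (nat_lit 6538281690) (nat_lit 228) (nat_lit 5103381033) (nat_lit 304) (nat_lit 2860089332) (nat_lit 78) (nat_lit 5) (nat_lit 81) (nat_lit 5) (nat_lit 82) (nat_lit 5) (nat_lit 633) (nat_lit 506) (nat_lit 421))) (XT.nd (nat_lit 78) (nat_lit 0) (nat_lit 0) (XT.lf (nat_lit 0) (nat_lit 1825902386) (nat_lit 304) (nat_lit 12613630557) (nat_lit 76) (nat_lit 236872379) (nat_lit 74) (nat_lit 5) (nat_lit 78) (nat_lit 5) (nat_lit 75) (nat_lit 5) (nat_lit 634) (nat_lit 506) (nat_lit 420)) (XT.lf (nat_lit 0) (nat_lit 6623889561) (nat_lit 304) (nat_lit 2563586548) (nat_lit 76) (nat_lit 5665566936) (nat_lit 74) (nat_lit 5) (nat_lit 78) (nat_lit 5) (nat_lit 75) (nat_lit 5) (nat_lit 635) (nat_lit 506) (nat_lit 419)))))) (XT.nd (nat_lit 546) (nat_lit 1064) (nat_lit 0) (XT.nd (nat_lit 234) (nat_lit 608) (nat_lit 0) (XT.nd (nat_lit 78) (nat_lit 304) (nat_lit 0) (XT.lf (nat_lit 0) (nat_lit 7735475894) (nat_lit 228) (nat_lit 3802139539) (nat_lit 304) (nat_lit 3495203431)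 (nat_lit 71) (nat_lit 5) (nat_lit 74) (nat_lit 5) (nat_lit 75) (nat_lit 5) (nat_lit 636) (nat_lit 506) (nat_lit 418)) (XT.nd (nat_lit 78) (nat_lit 0) (nat_lit 0) (XT.lf (nat_lit 0) (nat_lit 1333710338) (nat_lit 304) (nat_lit 12190021219) (nat_lit 76) (nat_lit 1691930919) (nat_lit 67) (nat_lit 5) (nat_lit 71) (nat_lit 5) (nat_lit 68) (nat_lit 5) (nat_lit 637) (nat_lit 506) (nat_lit 417)) (XT.lf (nat_lit 0) (nat_lit 6256626647) (nat_lit 304) (nat_lit 1849422469) (nat_lit 76) (nat_lit 7294768145) (nat_lit 67) (nat_lit 5) (nat_lit 71) (nat_lit 5) (nat_lit 68) (nat_lit 5) (nat_lit 638) (nat_lit 506) (nat_lit 416)))) (XT.nd (nat_lit 156) (nat_lit 152) (nat_lit 0) (XT.nd (nat_lit 78) (nat_lit 304) (nat_lit 0) (XT.lf (nat_lit 0) (nat_lit 8760342120) (nat_lit 152) (nat_lit 2544839317) (nat_lit 228) (nat_lit 4283950953) (nat_lit 65) (nat_lit 5) (nat_lit 67) (nat_lit 5) (nat_lit 68) (nat_lit 5) (nat_lit 639) (nat_lit 506) (nat_lit 415)) (XT.lf (nat_lit 0) (nat_lit 692734893)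 (nat_lit 304) (nat_lit 11981952882) (nat_lit 76) (nat_lit 3105877918) (nat_lit 61) (nat_lit 5) (nat_lit 65) (nat_lit 5) (nat_lit 62) (nat_lit 5) (nat_lit 640) (nat_lit 506) (nat_lit 414))) (XT.nd (nat_lit 78) (nat_lit 152) (nat_lit 0) (XT.lf (nat_lit 0) (nat_lit 5745071142) (nat_lit 304) (nat_lit 1341991936) (nat_lit 76) (nat_lit 8887529473) (nat_lit 61) (nat_lit 5) (nat_lit 65) (nat_lit 5) (nat_lit 62) (nat_lit 5) (nat_lit 641) (nat_lit 506) (nat_lit 413)) (XT.lf (nat_lit 0) (nat_lit 9584824413) (nat_lit 152) (nat_lit 1346883949) (nat_lit 228) (nat_lit 5240127283) (nat_lit 59) (nat_lit 5) (nat_lit 61) (nat_lit 5) (nat_lit 62) (nat_lit 5) (nat_lit 642) (nat_lit 506) (nat_lit 412))))) (XT.nd (nat_lit 234) (nat_lit 608) (nat_lit 0) (XT.nd (nat_lit 78) (nat_lit 228) (nat_lit 0) (XT.lf (nat_lit 0) (nat_lit 4351526723) (nat_lit 228) (nat_lit 11908250988) (nat_lit 304) (nat_lit 112492672) (nat_lit 56) (nat_lit 5) (nat_lit 59) (nat_lit 5) (nat_lit 60) (nat_lit 5) (nat_lit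 643) (nat_lit 506) (nat_lit 411)) (XT.nd (nat_lit 78) (nat_lit 152) (nat_lit 0) (XT.lf (nat_lit 0) (nat_lit 5075143856) (nat_lit 304) (nat_lit 1071929094) (nat_lit 76) (nat_lit 10428485683) (nat_lit 55) (nat_lit 5) (nat_lit 59) (nat_lit 5) (nat_lit 56) (nat_lit 5) (nat_lit 644) (nat_lit 506) (nat_lit 410)) (XT.lf (nat_lit 0) (nat_lit 10177832776) (nat_lit 152) (nat_lit 224996231) (nat_lit 228) (nat_lit 6379313451) (nat_lit 53) (nat_lit 5) (nat_lit 55) (nat_lit 5) (nat_lit 56) (nat_lit 5) (nat_lit 645) (nat_lit 506) (nat_lit 409)))) (XT.nd (nat_lit 234) (nat_lit 304) (nat_lit 0) (XT.nd (nat_lit 78) (nat_lit 76) (nat_lit 0) (XT.lf (nat_lit 0) (nat_lit 4646691824) (nat_lit 228) (nat_lit 11237345789) (nat_lit 304) (nat_lit 1107881662) (nat_lit 50) (nat_lit 5) (nat_lit 53) (nat_lit 5) (nat_lit 54) (nat_lit 5) (nat_lit 646) (nat_lit 506) (nat_lit 408)) (XT.lf (nat_lit 0) (nat_lit 4230932535) (nat_lit 304) (nat_lit 1073160274) (nat_lit 76) (nat_lit 11900886320) (nat_lit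 49) (nat_lit 5) (nat_lit 53) (nat_lit 5) (nat_lit 50) (nat_lit 5) (nat_lit 647) (nat_lit 506) (nat_lit 407))) (XT.nd (nat_lit 73164) (nat_lit 0) (nat_lit 45752) (XT.lf (nat_lit 0) (nat_lit 4652512318) (nat_lit 152) (nat_lit 10686158351) (nat_lit 228) (nat_lit 2302250916) (nat_lit 45) (nat_lit 5) (nat_lit 47) (nat_lit 5) (nat_lit 48) (nat_lit 5) (nat_lit 649) (nat_lit 506) (nat_lit 405)) (XT.lf (nat_lit 0) (nat_lit 998636313) (nat_lit 1140) (nat_lit 1192009109) (nat_lit 1140) (nat_lit 1192009109) (nat_lit 647) (nat_lit 4) (nat_lit 662) (nat_lit 5) (nat_lit 662) (nat_lit 4) (nat_lit 546) (nat_lit 507) (nat_lit 507))))))) (XT.nd (nat_lit 1014) (nat_lit 8892) (nat_lit 0) (XT.nd (nat_lit 468) (nat_lit 8588) (nat_lit 0) (XT.nd (nat_lit 234) (nat_lit 2888) (nat_lit 0) (XT.nd (nat_lit 78) (nat_lit 2584) (nat_lit 0) (XT.lf (nat_lit 0) (nat_lit 951045866) (nat_lit 1216) (nat_lit 185046435) (nat_lit 76) (nat_lit 5654938378) (nat_lit 646) (nat_lit 5) (nat_lit 662) (nat_lit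 5) (nat_lit 647) (nat_lit 4) (nat_lit 547) (nat_lit 507) (nat_lit 506)) (XT.nd (nat_lit 78) (nat_lit 1368) (nat_lit 0) (XT.lf (nat_lit 0) (nat_lit 4279927590) (nat_lit 1292) (nat_lit 2347161727) (nat_lit 0) (nat_lit 190691378) (nat_lit 630) (nat_lit 5) (nat_lit 647) (nat_lit 4) (nat_lit 630) (nat_lit 4) (nat_lit 548) (nat_lit 507) (nat_lit 505)) (XT.lf (nat_lit 0) (nat_lit 772863504) (nat_lit 1368) (nat_lit 4512732679) (nat_lit 76) (nat_lit 1560302586) (nat_lit 612) (nat_lit 5) (nat_lit 630) (nat_lit 5) (nat_lit 613) (nat_lit 4) (nat_lit 549) (nat_lit 507) (nat_lit 504)))) (XT.nd (nat_lit 78) (nat_lit 1520) (nat_lit 0) (XT.lf (nat_lit 0) (nat_lit 188028790) (nat_lit 1368) (nat_lit 3875194570) (nat_lit 1444) (nat_lit 2812081458) (nat_lit 594) (nat_lit 5) (nat_lit 612) (nat_lit 5) (nat_lit 613) (nat_lit 4) (nat_lit 550) (nat_lit 507) (nat_lit 503)) (XT.nd (nat_lit 78) (nat_lit 1444) (nat_lit 0) (XT.lf (nat_lit 0) (nat_lit 468636928) (nat_lit 1444) (nat_lit 1926953032)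 (nat_lit 76) (nat_lit 4510425482) (nat_lit 593) (nat_lit 5) (nat_lit 612) (nat_lit 5) (nat_lit 594) (nat_lit 5) (nat_lit 551) (nat_lit 507) (nat_lit 502)) (XT.lf (nat_lit 0) (nat_lit 2886339507) (nat_lit 1444) (nat_lit 841912952) (nat_lit 1520) (nat_lit 3209706126) (nat_lit 574) (nat_lit 5) (nat_lit 593) (nat_lit 5) (nat_lit 594) (nat_lit 5) (nat_lit 552) (nat_lit 507) (nat_lit 501))))) (XT.nd (nat_lit 234) (nat_lit 5396) (nat_lit 0) (XT.nd (nat_lit 78) (nat_lit 1596) (nat_lit 0) (XT.lf (nat_lit 0) (nat_lit 37271254) (nat_lit 1596) (nat_lit 6176869097) (nat_lit 76) (nat_lit 757281299) (nat_lit 553) (nat_lit 5) (nat_lit 574) (nat_lit 5) (nat_lit 554) (nat_lit 5) (nat_lit 553) (nat_lit 507) (nat_lit 500)) (XT.nd (nat_lit 78) (nat_lit 1596) (nat_lit 0) (XT.lf (nat_lit 0) (nat_lit 3272790640) (nat_lit 1596) (nat_lit 1302382674) (nat_lit 76) (nat_lit 2430633020) (nat_lit 553) (nat_lit 5) (nat_lit 574) (nat_lit 5) (nat_lit 554) (nat_lit 5) (nat_lit 554) (nat_lit 507)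 (nat_lit 499)) (XT.lf (nat_lit 0) (nat_lit 3655845572) (nat_lit 1596) (nat_lit 2875809164) (nat_lit 1672) (nat_lit 510059412) (nat_lit 532) (nat_lit 5) (nat_lit 553) (nat_lit 5) (nat_lit 554) (nat_lit 5) (nat_lit 555) (nat_lit 507) (nat_lit 498)))) (XT.nd (nat_lit 156) (nat_lit 3648) (nat_lit 0) (XT.nd (nat_lit 78) (nat_lit 0) (nat_lit 0) (XT.lf (nat_lit 0) (nat_lit 1593378175) (nat_lit 1672) (nat_lit 1102038663) (nat_lit 1748) (nat_lit 4383480711) (nat_lit 509) (nat_lit 5) (nat_lit 531) (nat_lit 5) (nat_lit 532) (nat_lit 5) (nat_lit 556) (nat_lit 507) (nat_lit 497)) (XT.lf (nat_lit 0) (nat_lit 5921866069) (nat_lit 1748) (nat_lit 469427940) (nat_lit 76) (nat_lit 726196974) (nat_lit 509) (nat_lit 5) (nat_lit 532) (nat_lit 5) (nat_lit 510) (nat_lit 5) (nat_lit 557) (nat_lit 507) (nat_lit 496))) (XT.nd (nat_lit 78) (nat_lit 1824) (nat_lit 0) (XT.lf (nat_lit 0) (nat_lit 2003739735) (nat_lit 1824) (nat_lit 2531831606) (nat_lit 76) (nat_lit 2621530998) (nat_lit 485)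 (nat_lit 5) (nat_lit 509) (nat_lit 5) (nat_lit 486) (nat_lit 5) (nat_lit 558) (nat_lit 507) (nat_lit 495)) (XT.lf (nat_lit 0) (nat_lit 2594640115) (nat_lit 1824) (nat_lit 2614359877) (nat_lit 1900) (nat_lit 1989196727) (nat_lit 461) (nat_lit 5) (nat_lit 485) (nat_lit 5) (nat_lit 486) (nat_lit 5) (nat_lit 559) (nat_lit 507) (nat_lit 494)))))) (XT.nd (nat_lit 546) (nat_lit 4104) (nat_lit 0) (XT.nd (nat_lit 234) (nat_lit 2660) (nat_lit 0) (XT.nd (nat_lit 78) (nat_lit 988) (nat_lit 0) (XT.lf (nat_lit 0) (nat_lit 554658667) (nat_lit 1064) (nat_lit 626346814) (nat_lit 1140) (nat_lit 6059773792) (nat_lit 446) (nat_lit 5) (nat_lit 460) (nat_lit 5) (nat_lit 461) (nat_lit 5) (nat_lit 560) (nat_lit 507) (nat_lit 493)) (XT.nd (nat_lit 78) (nat_lit 988) (nat_lit 0) (XT.lf (nat_lit 0) (nat_lit 4367283672) (nat_lit 1140) (nat_lit 1491087510) (nat_lit 76) (nat_lit 1425999975) (nat_lit 446) (nat_lit 5) (nat_lit 461) (nat_lit 5) (nat_lit 447) (nat_lit 5) (nat_lit 561) (nat_lit 507)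 (nat_lit 492)) (XT.lf (nat_lit 0) (nat_lit 253501795) (nat_lit 988) (nat_lit 3539919051) (nat_lit 76) (nat_lit 3536006464) (nat_lit 433) (nat_lit 5) (nat_lit 446) (nat_lit 5) (nat_lit 434) (nat_lit 5) (nat_lit 562) (nat_lit 507) (nat_lit 491)))) (XT.nd (nat_lit 156) (nat_lit 1748) (nat_lit 0) (XT.nd (nat_lit 78) (nat_lit 0) (nat_lit 0) (XT.lf (nat_lit 0) (nat_lit 1761869007) (nat_lit 912) (nat_lit 1648775798) (nat_lit 988) (nat_lit 3965116511) (nat_lit 421) (nat_lit 5) (nat_lit 433) (nat_lit 5) (nat_lit 434) (nat_lit 5) (nat_lit 563) (nat_lit 507) (nat_lit 490)) (XT.lf (nat_lit 0) (nat_lit 6599731015) (nat_lit 988) (nat_lit 271864743) (nat_lit 76) (nat_lit 552056520) (nat_lit 421) (nat_lit 5) (nat_lit 434) (nat_lit 5) (nat_lit 422) (nat_lit 5) (nat_lit 564) (nat_lit 507) (nat_lit 489))) (XT.nd (nat_lit 78) (nat_lit 836) (nat_lit 0) (XT.lf (nat_lit 0) (nat_lit 2335827971) (nat_lit 912) (nat_lit 2316318051) (nat_lit 76) (nat_lit 2820313099) (nat_lit 409) (nat_lit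 5) (nat_lit 421) (nat_lit 5) (nat_lit 410) (nat_lit 5) (nat_lit 565) (nat_lit 507) (nat_lit 488)) (XT.lf (nat_lit 0) (nat_lit 3147544340) (nat_lit 836) (nat_lit 2365362217) (nat_lit 912) (nat_lit 2009929206) (nat_lit 398) (nat_lit 5) (nat_lit 409) (nat_lit 5) (nat_lit 410) (nat_lit 5) (nat_lit 566) (nat_lit 507) (nat_lit 487))))) (XT.nd (nat_lit 234) (nat_lit 2356) (nat_lit 0) (XT.nd (nat_lit 78) (nat_lit 836) (nat_lit 0) (XT.lf (nat_lit 0) (nat_lit 1122329290) (nat_lit 836) (nat_lit 7666067) (nat_lit 912) (nat_lit 6444754025) (nat_lit 386) (nat_lit 5) (nat_lit 397) (nat_lit 5) (nat_lit 398) (nat_lit 5) (nat_lit 567) (nat_lit 507) (nat_lit 486)) (XT.nd (nat_lit 78) (nat_lit 836) (nat_lit 0) (XT.lf (nat_lit 0) (nat_lit 4294838699) (nat_lit 912) (nat_lit 930449207) (nat_lit 76) (nat_lit 2402372566) (nat_lit 386) (nat_lit 5) (nat_lit 398) (nat_lit 5) (nat_lit 387) (nat_lit 5) (nat_lit 568) (nat_lit 507) (nat_lit 485)) (XT.lf (nat_lit 0) (nat_lit 4701337396) (nat_lit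 836) (nat_lit 2797205718) (nat_lit 912) (nat_lit 183580853) (nat_lit 375) (nat_lit 5) (nat_lit 386) (nat_lit 5) (nat_lit 387) (nat_lit 5) (nat_lit 569) (nat_lit 507) (nat_lit 484)))) (XT.nd (nat_lit 156) (nat_lit 760) (nat_lit 0) (XT.nd (nat_lit 78) (nat_lit 760) (nat_lit 0) (XT.lf (nat_lit 0) (nat_lit 2673625553) (nat_lit 760) (nat_lit 284243588) (nat_lit 836) (nat_lit 4780040657) (nat_lit 364) (nat_lit 5) (nat_lit 374) (nat_lit 5) (nat_lit 375) (nat_lit 5) (nat_lit 570) (nat_lit 507) (nat_lit 483)) (XT.lf (nat_lit 0) (nat_lit 615876342) (nat_lit 760) (nat_lit 5528664116) (nat_lit 836) (nat_lit 1650554760) (nat_lit 354) (nat_lit 5) (nat_lit 364) (nat_lit 5) (nat_lit 365) (nat_lit 5) (nat_lit 571) (nat_lit 507) (nat_lit 482))) (XT.nd (nat_lit 78) (nat_lit 684) (nat_lit 0) (XT.lf (nat_lit 0) (nat_lit 1503606888) (nat_lit 836) (nat_lit 1450053087) (nat_lit 76) (nat_lit 4899923086) (nat_lit 353) (nat_lit 5) (nat_lit 364) (nat_lit 5) (nat_lit 354) (nat_lit 5) (nat_lit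 572) (nat_lit 507) (nat_lit 481)) (XT.lf (nat_lit 0) (nat_lit 4377947243) (nat_lit 684) (nat_lit 296515342) (nat_lit 760) (nat_lit 3239050492) (nat_lit 344) (nat_lit 5) (nat_lit 353) (nat_lit 5) (nat_lit 354) (nat_lit 5) (nat_lit 573) (nat_lit 507) (nat_lit 480))))))))
noncomputable def xc51 : XT := (XT.nd (nat_lit 2106) (nat_lit 7296) (nat_lit 0) (XT.nd (nat_lit 1014) (nat_lit 5168) (nat_lit 0) (XT.nd (nat_lit 468) (nat_lit 3876) (nat_lit 0) (XT.nd (nat_lit 234) (nat_lit 1368) (nat_lit 0) (XT.nd (nat_lit 78) (nat_lit 760) (nat_lit 0) (XT.lf (nat_lit 0) (nat_lit 2319592264) (nat_lit 760) (nat_lit 5577506312) (nat_lit 836) (nat_lit 77780613) (nat_lit 334) (nat_lit 5) (nat_lit 344) (nat_lit 5) (nat_lit 345) (nat_lit 5) (nat_lit 574) (nat_lit 507) (nat_lit 479)) (XT.nd (nat_lit 78) (nat_lit 0) (nat_lit 0) (XT.lf (nat_lit 0) (nat_lit 220024559) (nat_lit 684) (nat_lit 2860802938) (nat_lit 760) (nat_lit 4956733439) (nat_lit 324) (nat_lit 5) (nat_lit 333) (nat_lit 5)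 (nat_lit 334) (nat_lit 5) (nat_lit 575) (nat_lit 507) (nat_lit 478)) (XT.lf (nat_lit 0) (nat_lit 6226303619) (nat_lit 684) (nat_lit 61928480) (nat_lit 760) (nat_lit 1813525105) (nat_lit 324) (nat_lit 5) (nat_lit 333) (nat_lit 5) (nat_lit 334) (nat_lit 5) (nat_lit 576) (nat_lit 507) (nat_lit 477)))) (XT.nd (nat_lit 78) (nat_lit 608) (nat_lit 0) (XT.lf (nat_lit 0) (nat_lit 1369036106) (nat_lit 760) (nat_lit 4016846842) (nat_lit 76) (nat_lit 2781282889) (nat_lit 314) (nat_lit 5) (nat_lit 324) (nat_lit 5) (nat_lit 315) (nat_lit 5) (nat_lit 577) (nat_lit 507) (nat_lit 476)) (XT.nd (nat_lit 78) (nat_lit 0) (nat_lit 0) (XT.lf (nat_lit 0) (nat_lit 2040006190) (nat_lit 608) (nat_lit 2527208084) (nat_lit 684) (nat_lit 3666907870) (nat_lit 306) (nat_lit 5) (nat_lit 314) (nat_lit 5) (nat_lit 315) (nat_lit 5) (nat_lit 578) (nat_lit 507) (nat_lit 475)) (XT.lf (nat_lit 0) (nat_lit 7809411021) (nat_lit 684) (nat_lit 95278112) (nat_lit 76) (nat_lit 398131488) (nat_lit 306) (nat_lit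 5) (nat_lit 315) (nat_lit 5) (nat_lit 307) (nat_lit 5) (nat_lit 579) (nat_lit 507) (nat_lit 474))))) (XT.nd (nat_lit 234) (nat_lit 1824) (nat_lit 0) (XT.nd (nat_lit 78) (nat_lit 1292) (nat_lit 0) (XT.lf (nat_lit 0) (nat_lit 2715513908) (nat_lit 760) (nat_lit 2263349918) (nat_lit 76) (nat_lit 3393518213) (nat_lit 296) (nat_lit 5) (nat_lit 306) (nat_lit 5) (nat_lit 297) (nat_lit 5) (nat_lit 580) (nat_lit 507) (nat_lit 473)) (XT.nd (nat_lit 78) (nat_lit 684) (nat_lit 0) (XT.lf (nat_lit 0) (nat_lit 3982208499) (nat_lit 608) (nat_lit 1977908095) (nat_lit 684) (nat_lit 2483594618) (nat_lit 288) (nat_lit 5) (nat_lit 296) (nat_lit 5) (nat_lit 297) (nat_lit 5) (nat_lit 581) (nat_lit 507) (nat_lit 472)) (XT.lf (nat_lit 0) (nat_lit 729378342) (nat_lit 684) (nat_lit 6700202370) (nat_lit 76) (nat_lit 1087069981) (nat_lit 279) (nat_lit 5) (nat_lit 288) (nat_lit 5) (nat_lit 280) (nat_lit 5) (nat_lit 582) (nat_lit 507) (nat_lit 471)))) (XT.nd (nat_lit 156) (nat_lit 1216) (nat_lit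 0) (XT.nd (nat_lit 78) (nat_lit 608) (nat_lit 0) (XT.lf (nat_lit 0) (nat_lit 3968901611) (nat_lit 684) (nat_lit 402592597) (nat_lit 76) (nat_lit 4219319178) (nat_lit 279) (nat_lit 5) (nat_lit 288) (nat_lit 5) (nat_lit 280) (nat_lit 5) (nat_lit 583) (nat_lit 507) (nat_lit 470)) (XT.lf (nat_lit 0) (nat_lit 6038565268) (nat_lit 608) (nat_lit 1227071216) (nat_lit 684) (nat_lit 1400978034) (nat_lit 271) (nat_lit 5) (nat_lit 279) (nat_lit 5) (nat_lit 280) (nat_lit 5) (nat_lit 584) (nat_lit 507) (nat_lit 469))) (XT.nd (nat_lit 78) (nat_lit 532) (nat_lit 0) (XT.lf (nat_lit 0) (nat_lit 1853801429) (nat_lit 684) (nat_lit 4910587723) (nat_lit 76) (nat_lit 1979418476) (nat_lit 262) (nat_lit 5) (nat_lit 271) (nat_lit 5) (nat_lit 263) (nat_lit 5) (nat_lit 585) (nat_lit 507) (nat_lit 468)) (XT.lf (nat_lit 0) (nat_lit 1578085869) (nat_lit 532) (nat_lit 3566813483) (nat_lit 608) (nat_lit 3677663799) (nat_lit 255) (nat_lit 5) (nat_lit 262) (nat_lit 5) (nat_lit 263) (nat_lit 5) (nat_lit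 586) (nat_lit 507) (nat_lit 467)))))) (XT.nd (nat_lit 546) (nat_lit 2356) (nat_lit 0) (XT.nd (nat_lit 234) (nat_lit 1672) (nat_lit 0) (XT.nd (nat_lit 78) (nat_lit 1140) (nat_lit 0) (XT.lf (nat_lit 0) (nat_lit 8201270320) (nat_lit 532) (nat_lit 287844988) (nat_lit 608) (nat_lit 414035887) (nat_lit 255) (nat_lit 5) (nat_lit 262) (nat_lit 5) (nat_lit 263) (nat_lit 5) (nat_lit 587) (nat_lit 507) (nat_lit 466)) (XT.nd (nat_lit 78) (nat_lit 532) (nat_lit 0) (XT.lf (nat_lit 0) (nat_lit 2890457269) (nat_lit 608) (nat_lit 3035505502) (nat_lit 76) (nat_lit 3058736496) (nat_lit 247) (nat_lit 5) (nat_lit 255) (nat_lit 5) (nat_lit 248) (nat_lit 5) (nat_lit 588) (nat_lit 507) (nat_lit 465)) (XT.lf (nat_lit 0) (nat_lit 3656695729) (nat_lit 532) (nat_lit 2584517205) (nat_lit 608) (nat_lit 2826899438) (nat_lit 240) (nat_lit 5) (nat_lit 247) (nat_lit 5) (nat_lit 248) (nat_lit 5) (nat_lit 589) (nat_lit 507) (nat_lit 464)))) (XT.nd (nat_lit 156) (nat_lit 1064) (nat_lit 0) (XT.nd (nat_lit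 78) (nat_lit 0) (nat_lit 0) (XT.lf (nat_lit 0) (nat_lit 489208301) (nat_lit 608) (nat_lit 7835644178) (nat_lit 76) (nat_lit 828477562) (nat_lit 232) (nat_lit 5) (nat_lit 240) (nat_lit 5) (nat_lit 233) (nat_lit 5) (nat_lit 590) (nat_lit 507) (nat_lit 463)) (XT.lf (nat_lit 0) (nat_lit 3843357709) (nat_lit 608) (nat_lit 1083036099) (nat_lit 76) (nat_lit 4313296065) (nat_lit 232) (nat_lit 5) (nat_lit 240) (nat_lit 5) (nat_lit 233) (nat_lit 5) (nat_lit 591) (nat_lit 507) (nat_lit 462))) (XT.nd (nat_lit 78) (nat_lit 608) (nat_lit 0) (XT.lf (nat_lit 0) (nat_lit 5820017245) (nat_lit 456) (nat_lit 1439092004) (nat_lit 532) (nat_lit 2068780172) (nat_lit 226) (nat_lit 5) (nat_lit 232) (nat_lit 5) (nat_lit 233) (nat_lit 5) (nat_lit 592) (nat_lit 507) (nat_lit 461)) (XT.lf (nat_lit 0) (nat_lit 1308336629) (nat_lit 608) (nat_lit 5998471751) (nat_lit 76) (nat_lit 2110867357) (nat_lit 218) (nat_lit 5) (nat_lit 226) (nat_lit 5) (nat_lit 219) (nat_lit 5) (nat_lit 593) (nat_lit 507)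 (nat_lit 460))))) (XT.nd (nat_lit 234) (nat_lit 1368) (nat_lit 0) (XT.nd (nat_lit 78) (nat_lit 532) (nat_lit 0) (XT.lf (nat_lit 0) (nat_lit 951224972) (nat_lit 456) (nat_lit 3770732071) (nat_lit 532) (nat_lit 4787096734) (nat_lit 212) (nat_lit 5) (nat_lit 218) (nat_lit 5) (nat_lit 219) (nat_lit 5) (nat_lit 594) (nat_lit 507) (nat_lit 459)) (XT.nd (nat_lit 78) (nat_lit 532) (nat_lit 0) (XT.lf (nat_lit 0) (nat_lit 8060182262) (nat_lit 456) (nat_lit 141597101) (nat_lit 532) (nat_lit 1400524104) (nat_lit 212) (nat_lit 5) (nat_lit 218) (nat_lit 5) (nat_lit 219) (nat_lit 5) (nat_lit 595) (nat_lit 507) (nat_lit 458)) (XT.lf (nat_lit 0) (nat_lit 2044845161) (nat_lit 532) (nat_lit 4106796964) (nat_lit 76) (nat_lit 3545151896) (nat_lit 205) (nat_lit 5) (nat_lit 212) (nat_lit 5) (nat_lit 206) (nat_lit 5) (nat_lit 596) (nat_lit 507) (nat_lit 457)))) (XT.nd (nat_lit 156) (nat_lit 456) (nat_lit 0) (XT.nd (nat_lit 78) (nat_lit 456) (nat_lit 0) (XT.lf (nat_lit 0) (nat_lit 3061853900)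 (nat_lit 456) (nat_lit 2468304034) (nat_lit 532) (nat_lit 4263038044) (nat_lit 199) (nat_lit 5) (nat_lit 205) (nat_lit 5) (nat_lit 206) (nat_lit 5) (nat_lit 597) (nat_lit 507) (nat_lit 456)) (XT.lf (nat_lit 0) (nat_lit 475240505) (nat_lit 456) (nat_lit 8607963966) (nat_lit 532) (nat_lit 808363430) (nat_lit 193) (nat_lit 5) (nat_lit 199) (nat_lit 5) (nat_lit 200) (nat_lit 5) (nat_lit 598) (nat_lit 507) (nat_lit 455))) (XT.nd (nat_lit 78) (nat_lit 380) (nat_lit 0) (XT.lf (nat_lit 0) (nat_lit 2700582946) (nat_lit 532) (nat_lit 2169240347) (nat_lit 76) (nat_lit 5121317918) (nat_lit 192) (nat_lit 5) (nat_lit 199) (nat_lit 5) (nat_lit 193) (nat_lit 5) (nat_lit 599) (nat_lit 507) (nat_lit 454)) (XT.lf (nat_lit 0) (nat_lit 5226013762) (nat_lit 380) (nat_lit 1036590698) (nat_lit 456) (nat_lit 3830122593) (nat_lit 187) (nat_lit 5) (nat_lit 192) (nat_lit 5) (nat_lit 193) (nat_lit 5) (nat_lit 600) (nat_lit 507) (nat_lit 453))))))) (XT.nd (nat_lit 1092) (nat_lit 3192) (nat_lit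 0) (XT.nd (nat_lit 546) (nat_lit 1900) (nat_lit 0) (XT.nd (nat_lit 234) (nat_lit 1292) (nat_lit 0) (XT.nd (nat_lit 78) (nat_lit 456) (nat_lit 0) (XT.lf (nat_lit 0) (nat_lit 2557071385) (nat_lit 456) (nat_lit 7348758783) (nat_lit 532) (nat_lit 290317454) (nat_lit 181) (nat_lit 5) (nat_lit 187) (nat_lit 5) (nat_lit 188) (nat_lit 5) (nat_lit 601) (nat_lit 507) (nat_lit 452)) (XT.nd (nat_lit 78) (nat_lit 380) (nat_lit 0) (XT.lf (nat_lit 0) (nat_lit 3276660596) (nat_lit 532) (nat_lit 194693100) (nat_lit 76) (nat_lit 6829855498) (nat_lit 180) (nat_lit 5) (nat_lit 187) (nat_lit 5) (nat_lit 181) (nat_lit 5) (nat_lit 602) (nat_lit 507) (nat_lit 451)) (XT.lf (nat_lit 0) (nat_lit 6923673034) (nat_lit 456) (nat_lit 2976514865) (nat_lit 76) (nat_lit 507896230) (nat_lit 175) (nat_lit 5) (nat_lit 181) (nat_lit 5) (nat_lit 176) (nat_lit 5) (nat_lit 603) (nat_lit 507) (nat_lit 450)))) (XT.nd (nat_lit 156) (nat_lit 456) (nat_lit 0) (XT.nd (nat_lit 78) (nat_lit 380) (nat_lit 0) (XT.lf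 (nat_lit 0) (nat_lit 140846000) (nat_lit 456) (nat_lit 5842912810) (nat_lit 76) (nat_lit 4533003869) (nat_lit 169) (nat_lit 5) (nat_lit 175) (nat_lit 5) (nat_lit 170) (nat_lit 5) (nat_lit 604) (nat_lit 507) (nat_lit 449)) (XT.lf (nat_lit 0) (nat_lit 1831599609) (nat_lit 380) (nat_lit 1953731997) (nat_lit 456) (nat_lit 6841956994) (nat_lit 164) (nat_lit 5) (nat_lit 169) (nat_lit 5) (nat_lit 170) (nat_lit 5) (nat_lit 605) (nat_lit 507) (nat_lit 448))) (XT.nd (nat_lit 78) (nat_lit 456) (nat_lit 0) (XT.lf (nat_lit 0) (nat_lit 7517755653) (nat_lit 456) (nat_lit 1074508581) (nat_lit 76) (nat_lit 2147461820) (nat_lit 164) (nat_lit 5) (nat_lit 170) (nat_lit 5) (nat_lit 165) (nat_lit 5) (nat_lit 606) (nat_lit 507) (nat_lit 447)) (XT.lf (nat_lit 0) (nat_lit 483915066) (nat_lit 456) (nat_lit 4038254280) (nat_lit 76) (nat_lit 6331790368) (nat_lit 158) (nat_lit 5) (nat_lit 164) (nat_lit 5) (nat_lit 159) (nat_lit 5) (nat_lit 607) (nat_lit 507) (nat_lit 446))))) (XT.nd (nat_lit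 234) (nat_lit 1064) (nat_lit 0) (XT.nd (nat_lit 78) (nat_lit 456) (nat_lit 0) (XT.lf (nat_lit 0) (nat_lit 3878688431) (nat_lit 380) (nat_lit 337010169) (nat_lit 456) (nat_lit 6754456926) (nat_lit 153) (nat_lit 5) (nat_lit 158) (nat_lit 5) (nat_lit 159) (nat_lit 5) (nat_lit 608) (nat_lit 507) (nat_lit 445)) (XT.nd (nat_lit 78) (nat_lit 76) (nat_lit 0) (XT.lf (nat_lit 0) (nat_lit 847004226) (nat_lit 380) (nat_lit 7196080393) (nat_lit 456) (nat_lit 3045173141) (nat_lit 148) (nat_lit 5) (nat_lit 153) (nat_lit 5) (nat_lit 154) (nat_lit 5) (nat_lit 609) (nat_lit 507) (nat_lit 444)) (XT.lf (nat_lit 0) (nat_lit 741513978) (nat_lit 456) (nat_lit 2233820779) (nat_lit 76) (nat_lit 8233035168) (nat_lit 147) (nat_lit 5) (nat_lit 153) (nat_lit 5) (nat_lit 148) (nat_lit 5) (nat_lit 610) (nat_lit 507) (nat_lit 443)))) (XT.nd (nat_lit 156) (nat_lit 380) (nat_lit 0) (XT.nd (nat_lit 78) (nat_lit 380) (nat_lit 0) (XT.lf (nat_lit 0) (nat_lit 4574102105) (nat_lit 380) (nat_lit 5405836538)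 (nat_lit 76) (nat_lit 1350326009) (nat_lit 143) (nat_lit 5) (nat_lit 148) (nat_lit 5) (nat_lit 144) (nat_lit 5) (nat_lit 611) (nat_lit 507) (nat_lit 442)) (XT.lf (nat_lit 0) (nat_lit 2780357723) (nat_lit 380) (nat_lit 5719529276) (nat_lit 456) (nat_lit 2954381075) (nat_lit 138) (nat_lit 5) (nat_lit 143) (nat_lit 5) (nat_lit 144) (nat_lit 5) (nat_lit 612) (nat_lit 507) (nat_lit 441))) (XT.nd (nat_lit 78) (nat_lit 304) (nat_lit 0) (XT.lf (nat_lit 0) (nat_lit 911637769) (nat_lit 456) (nat_lit 440937006) (nat_lit 76) (nat_lit 10228052256) (nat_lit 137) (nat_lit 5) (nat_lit 143) (nat_lit 5) (nat_lit 138) (nat_lit 5) (nat_lit 613) (nat_lit 507) (nat_lit 440)) (XT.lf (nat_lit 0) (nat_lit 4852274713) (nat_lit 380) (nat_lit 3744502439) (nat_lit 76) (nat_lit 3111609911) (nat_lit 133) (nat_lit 5) (nat_lit 138) (nat_lit 5) (nat_lit 134) (nat_lit 5) (nat_lit 614) (nat_lit 507) (nat_lit 439)))))) (XT.nd (nat_lit 546) (nat_lit 1520) (nat_lit 0) (XT.nd (nat_lit 234) (nat_lit 988)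 (nat_lit 0) (XT.nd (nat_lit 78) (nat_lit 380) (nat_lit 0) (XT.lf (nat_lit 0) (nat_lit 4699518309) (nat_lit 304) (nat_lit 4179348697) (nat_lit 380) (nat_lit 2959694006) (nat_lit 129) (nat_lit 5) (nat_lit 133) (nat_lit 5) (nat_lit 134) (nat_lit 5) (nat_lit 615) (nat_lit 507) (nat_lit 438)) (XT.nd (nat_lit 78) (nat_lit 0) (nat_lit 0) (XT.lf (nat_lit 0) (nat_lit 1002406085) (nat_lit 380) (nat_lit 10627606983) (nat_lit 76) (nat_lit 341173911) (nat_lit 124) (nat_lit 5) (nat_lit 129) (nat_lit 5) (nat_lit 125) (nat_lit 5) (nat_lit 616) (nat_lit 507) (nat_lit 437)) (XT.lf (nat_lit 0) (nat_lit 5045017651) (nat_lit 380) (nat_lit 2118023731) (nat_lit 76) (nat_lit 4942216297) (nat_lit 124) (nat_lit 5) (nat_lit 129) (nat_lit 5) (nat_lit 125) (nat_lit 5) (nat_lit 617) (nat_lit 507) (nat_lit 436)))) (XT.nd (nat_lit 156) (nat_lit 304) (nat_lit 0) (XT.nd (nat_lit 78) (nat_lit 380) (nat_lit 0) (XT.lf (nat_lit 0) (nat_lit 6591784545) (nat_lit 304) (nat_lit 2585143106) (nat_lit 380)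 (nat_lit 3064914667) (nat_lit 120) (nat_lit 5) (nat_lit 124) (nat_lit 5) (nat_lit 125) (nat_lit 5) (nat_lit 618) (nat_lit 507) (nat_lit 435)) (XT.lf (nat_lit 0) (nat_lit 1010899232) (nat_lit 380) (nat_lit 9293546846) (nat_lit 76) (nat_lit 2076306123) (nat_lit 115) (nat_lit 5) (nat_lit 120) (nat_lit 5) (nat_lit 116) (nat_lit 5) (nat_lit 619) (nat_lit 507) (nat_lit 434))) (XT.nd (nat_lit 78) (nat_lit 304) (nat_lit 0) (XT.lf (nat_lit 0) (nat_lit 5148408999) (nat_lit 380) (nat_lit 540218535) (nat_lit 76) (nat_lit 6832984557) (nat_lit 115) (nat_lit 5) (nat_lit 120) (nat_lit 5) (nat_lit 116) (nat_lit 5) (nat_lit 620) (nat_lit 507) (nat_lit 433)) (XT.lf (nat_lit 0) (nat_lit 8443353990) (nat_lit 304) (nat_lit 946697892) (nat_lit 380) (nat_lit 3274810979) (nat_lit 111) (nat_lit 5) (nat_lit 115) (nat_lit 5) (nat_lit 116) (nat_lit 5) (nat_lit 621) (nat_lit 507) (nat_lit 432))))) (XT.nd (nat_lit 234) (nat_lit 912) (nat_lit 0) (XT.nd (nat_lit 78) (nat_lit 304) (nat_lit 0) (XT.lf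 (nat_lit 0) (nat_lit 920537146) (nat_lit 304) (nat_lit 8031729346) (nat_lit 76) (nat_lit 3858058562) (nat_lit 107) (nat_lit 5) (nat_lit 111) (nat_lit 5) (nat_lit 108) (nat_lit 5) (nat_lit 622) (nat_lit 507) (nat_lit 431)) (XT.nd (nat_lit 78) (nat_lit 0) (nat_lit 0) (XT.lf (nat_lit 0) (nat_lit 986803692) (nat_lit 304) (nat_lit 4177163139) (nat_lit 380) (nat_lit 7794137506) (nat_lit 103) (nat_lit 5) (nat_lit 107) (nat_lit 5) (nat_lit 108) (nat_lit 5) (nat_lit 623) (nat_lit 507) (nat_lit 430)) (XT.lf (nat_lit 0) (nat_lit 9517957337) (nat_lit 380) (nat_lit 2873977254) (nat_lit 76) (nat_lit 716392010) (nat_lit 103) (nat_lit 5) (nat_lit 108) (nat_lit 5) (nat_lit 104) (nat_lit 5) (nat_lit 624) (nat_lit 507) (nat_lit 429)))) (XT.nd (nat_lit 156) (nat_lit 304) (nat_lit 0) (XT.nd (nat_lit 78) (nat_lit 304) (nat_lit 0) (XT.lf (nat_lit 0) (nat_lit 725414469) (nat_lit 304) (nat_lit 6858773841) (nat_lit 76) (nat_lit 5676533866) (nat_lit 99) (nat_lit 5) (nat_lit 103) (nat_lit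 5) (nat_lit 100) (nat_lit 5) (nat_lit 625) (nat_lit 507) (nat_lit 428)) (XT.lf (nat_lit 0) (nat_lit 2439752966) (nat_lit 304) (nat_lit 2642637020) (nat_lit 380) (nat_lit 8333243175) (nat_lit 95) (nat_lit 5) (nat_lit 99) (nat_lit 5) (nat_lit 100) (nat_lit 5) (nat_lit 626) (nat_lit 507) (nat_lit 427))) (XT.nd (nat_lit 78) (nat_lit 304) (nat_lit 0) (XT.lf (nat_lit 0) (nat_lit 9556189802) (nat_lit 380) (nat_lit 1626416741) (nat_lit 76) (nat_lit 2390443269) (nat_lit 95) (nat_lit 5) (nat_lit 100) (nat_lit 5) (nat_lit 96) (nat_lit 5) (nat_lit 627) (nat_lit 507) (nat_lit 426)) (XT.lf (nat_lit 0) (nat_lit 418525802) (nat_lit 304) (nat_lit 5792879892) (nat_lit 76) (nat_lit 7521405389) (nat_lit 91) (nat_lit 5) (nat_lit 95) (nat_lit 5) (nat_lit 92) (nat_lit 5) (nat_lit 628) (nat_lit 507) (nat_lit 425))))))))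
noncomputable def xc52 : XT := (XT.nd (nat_lit 75114) (nat_lit 0) (nat_lit 20292) (XT.nd (nat_lit 1014) (nat_lit 1064) (nat_lit 0) (XT.nd (nat_lit 468) (nat_lit 1292) (nat_lit 0) (XT.nd (nat_lit 234) (nat_lit 532) (nat_lit 0) (XT.nd (nat_lit 78) (nat_lit 228) (nat_lit 0) (XT.lf (nat_lit 0) (nat_lit 3793146358) (nat_lit 228) (nat_lit 1099832133) (nat_lit 304) (nat_lit 9002176238) (nat_lit 88) (nat_lit 5) (nat_lit 91) (nat_lit 5) (nat_lit 92) (nat_lit 5) (nat_lit 629) (nat_lit 507) (nat_lit 424)) (XT.nd (nat_lit 78) (nat_lit 228) (nat_lit 0) (XT.lf (nat_lit 0) (nat_lit 9491366145) (nat_lit 304) (nat_lit 491674435) (nat_lit 76) (nat_lit 4077016808) (nat_lit 88) (nat_lit 5) (nat_lit 92) (nat_lit 5) (nat_lit 89) (nat_lit 5) (nat_lit 630) (nat_lit 507) (nat_lit 423)) (XT.lf (nat_lit 0) (nat_lit 9373422810) (nat_lit 228) (nat_lit 4845661029) (nat_lit 304) (nat_lit 8428051) (nat_lit 85) (nat_lit 5) (nat_lit 88) (nat_lit 5) (nat_lit 89) (nat_lit 5) (nat_lit 631) (nat_lit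 507) (nat_lit 422)))) (XT.nd (nat_lit 78) (nat_lit 228) (nat_lit 0) (XT.lf (nat_lit 0) (nat_lit 4590236329) (nat_lit 304) (nat_lit 9373618213) (nat_lit 76) (nat_lit 433697217) (nat_lit 81) (nat_lit 5) (nat_lit 85) (nat_lit 5) (nat_lit 82) (nat_lit 5) (nat_lit 632) (nat_lit 507) (nat_lit 421)) (XT.nd (nat_lit 78) (nat_lit 0) (nat_lit 0) (XT.lf (nat_lit 0) (nat_lit 516111739) (nat_lit 228) (nat_lit 8802272740) (nat_lit 304) (nat_lit 5251855342) (nat_lit 78) (nat_lit 5) (nat_lit 81) (nat_lit 5) (nat_lit 82) (nat_lit 5) (nat_lit 633) (nat_lit 507) (nat_lit 420)) (XT.lf (nat_lit 0) (nat_lit 10677779327) (nat_lit 228) (nat_lit 3495867344) (nat_lit 304) (nat_lit 572084908) (nat_lit 78) (nat_lit 5) (nat_lit 81) (nat_lit 5) (nat_lit 82) (nat_lit 5) (nat_lit 634) (nat_lit 507) (nat_lit 419))))) (XT.nd (nat_lit 234) (nat_lit 760) (nat_lit 0) (XT.nd (nat_lit 78) (nat_lit 228) (nat_lit 0) (XT.lf (nat_lit 0) (nat_lit 4168695965) (nat_lit 304) (nat_lit 8818099717) (nat_lit 76)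 (nat_lit 1936942547) (nat_lit 74) (nat_lit 5) (nat_lit 78) (nat_lit 5) (nat_lit 75) (nat_lit 5) (nat_lit 635) (nat_lit 507) (nat_lit 418)) (XT.nd (nat_lit 78) (nat_lit 0) (nat_lit 0) (XT.lf (nat_lit 0) (nat_lit 1371564794) (nat_lit 228) (nat_lit 7654762109) (nat_lit 304) (nat_lit 6078309491) (nat_lit 71) (nat_lit 5) (nat_lit 74) (nat_lit 5) (nat_lit 75) (nat_lit 5) (nat_lit 636) (nat_lit 507) (nat_lit 417)) (XT.lf (nat_lit 0) (nat_lit 11832512043) (nat_lit 228) (nat_lit 2178171939) (nat_lit 304) (nat_lit 1277877952) (nat_lit 71) (nat_lit 5) (nat_lit 74) (nat_lit 5) (nat_lit 75) (nat_lit 5) (nat_lit 637) (nat_lit 507) (nat_lit 416)))) (XT.nd (nat_lit 156) (nat_lit 304) (nat_lit 0) (XT.nd (nat_lit 78) (nat_lit 152) (nat_lit 0) (XT.lf (nat_lit 0) (nat_lit 3610066191) (nat_lit 304) (nat_lit 8453817061) (nat_lit 76) (nat_lit 3411034461) (nat_lit 67) (nat_lit 5) (nat_lit 71) (nat_lit 5) (nat_lit 68) (nat_lit 5) (nat_lit 638) (nat_lit 507) (nat_lit 415)) (XT.lf (nat_lit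 0) (nat_lit 2042340015) (nat_lit 152) (nat_lit 6558249632) (nat_lit 228) (nat_lit 7063804233) (nat_lit 65) (nat_lit 5) (nat_lit 67) (nat_lit 5) (nat_lit 68) (nat_lit 5) (nat_lit 639) (nat_lit 507) (nat_lit 414))) (XT.nd (nat_lit 78) (nat_lit 304) (nat_lit 0) (XT.lf (nat_lit 0) (nat_lit 12811843416) (nat_lit 152) (nat_lit 906932890) (nat_lit 228) (nat_lit 2138327026) (nat_lit 65) (nat_lit 5) (nat_lit 67) (nat_lit 5) (nat_lit 68) (nat_lit 5) (nat_lit 640) (nat_lit 507) (nat_lit 413)) (XT.lf (nat_lit 0) (nat_lit 2901653125) (nat_lit 304) (nat_lit 8308937930) (nat_lit 76) (nat_lit 4841625204) (nat_lit 61) (nat_lit 5) (nat_lit 65) (nat_lit 5) (nat_lit 62) (nat_lit 5) (nat_lit 641) (nat_lit 507) (nat_lit 412)))))) (XT.nd (nat_lit 73554) (nat_lit 0) (nat_lit 41572) (XT.nd (nat_lit 234) (nat_lit 608) (nat_lit 0) (XT.nd (nat_lit 78) (nat_lit 304) (nat_lit 0) (XT.lf (nat_lit 0) (nat_lit 2499890035) (nat_lit 152) (nat_lit 5528336546) (nat_lit 228) (nat_lit 8222434429) (nat_lit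 59) (nat_lit 5) (nat_lit 61) (nat_lit 5) (nat_lit 62) (nat_lit 5) (nat_lit 642) (nat_lit 507) (nat_lit 411)) (XT.nd (nat_lit 78) (nat_lit 304) (nat_lit 0) (XT.lf (nat_lit 0) (nat_lit 13286873448) (nat_lit 228) (nat_lit 2867266831) (nat_lit 76) (nat_lit 298344293) (nat_lit 59) (nat_lit 5) (nat_lit 62) (nat_lit 5) (nat_lit 60) (nat_lit 5) (nat_lit 643) (nat_lit 507) (nat_lit 410)) (XT.lf (nat_lit 0) (nat_lit 2029078842) (nat_lit 304) (nat_lit 8414603509) (nat_lit 76) (nat_lit 6213147062) (nat_lit 55) (nat_lit 5) (nat_lit 59) (nat_lit 5) (nat_lit 56) (nat_lit 5) (nat_lit 644) (nat_lit 507) (nat_lit 409)))) (XT.nd (nat_lit 156) (nat_lit 456) (nat_lit 0) (XT.nd (nat_lit 78) (nat_lit 0) (nat_lit 0) (XT.lf (nat_lit 0) (nat_lit 2712610701) (nat_lit 152) (nat_lit 4581958394) (nat_lit 228) (nat_lit 9570088393) (nat_lit 53) (nat_lit 5) (nat_lit 55) (nat_lit 5) (nat_lit 56) (nat_lit 5) (nat_lit 645) (nat_lit 507) (nat_lit 408)) (XT.lf (nat_lit 0) (nat_lit 12703633965) (nat_lit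 228) (nat_lit 2958379145) (nat_lit 76) (nat_lit 1413864416) (nat_lit 53) (nat_lit 5) (nat_lit 56) (nat_lit 5) (nat_lit 54) (nat_lit 5) (nat_lit 646) (nat_lit 507) (nat_lit 407))) (XT.nd (nat_lit 156) (nat_lit 152) (nat_lit 0) (XT.lf (nat_lit 0) (nat_lit 976124293) (nat_lit 304) (nat_lit 8805270306) (nat_lit 76) (nat_lit 7508632180) (nat_lit 49) (nat_lit 5) (nat_lit 53) (nat_lit 5) (nat_lit 50) (nat_lit 5) (nat_lit 647) (nat_lit 507) (nat_lit 406)) (XT.lf (nat_lit 0) (nat_lit 11946387381) (nat_lit 228) (nat_lit 3349019945) (nat_lit 76) (nat_lit 2433312053) (nat_lit 47) (nat_lit 5) (nat_lit 50) (nat_lit 5) (nat_lit 48) (nat_lit 5) (nat_lit 649) (nat_lit 507) (nat_lit 404))))) (XT.nd (nat_lit 234) (nat_lit 4028) (nat_lit 0) (XT.nd (nat_lit 78) (nat_lit 2280) (nat_lit 0) (XT.lf (nat_lit 0) (nat_lit 3209648264) (nat_lit 988) (nat_lit 74593056) (nat_lit 988) (nat_lit 74593056) (nat_lit 677) (nat_lit 4) (nat_lit 690) (nat_lit 5) (nat_lit 690) (nat_lit 4) (nat_lit 544)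 (nat_lit 508) (nat_lit 508)) (XT.nd (nat_lit 78) (nat_lit 1140) (nat_lit 0) (XT.lf (nat_lit 0) (nat_lit 3168165821) (nat_lit 1140) (nat_lit 2553009949) (nat_lit 0) (nat_lit 1019883553) (nat_lit 662) (nat_lit 5) (nat_lit 677) (nat_lit 4) (nat_lit 662) (nat_lit 4) (nat_lit 545) (nat_lit 508) (nat_lit 507)) (XT.lf (nat_lit 0) (nat_lit 1967172967) (nat_lit 1140) (nat_lit 4526648790) (nat_lit 1140) (nat_lit 272207435) (nat_lit 647) (nat_lit 4) (nat_lit 662) (nat_lit 5) (nat_lit 662) (nat_lit 4) (nat_lit 546) (nat_lit 508) (nat_lit 506)))) (XT.nd (nat_lit 156) (nat_lit 2736) (nat_lit 0) (XT.nd (nat_lit 78) (nat_lit 1216) (nat_lit 0) (XT.lf (nat_lit 0) (nat_lit 2999872466) (nat_lit 1216) (nat_lit 259560822) (nat_lit 76) (nat_lit 3532753944) (nat_lit 646) (nat_lit 5) (nat_lit 662) (nat_lit 5) (nat_lit 647) (nat_lit 4) (nat_lit 547) (nat_lit 508) (nat_lit 505)) (XT.lf (nat_lit 0) (nat_lit 4366607900) (nat_lit 1216) (nat_lit 1925612628) (nat_lit 1292) (nat_lit 527452201)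 (nat_lit 630) (nat_lit 5) (nat_lit 646) (nat_lit 5) (nat_lit 647) (nat_lit 4) (nat_lit 548) (nat_lit 508) (nat_lit 504))) (XT.nd (nat_lit 78) (nat_lit 1368) (nat_lit 0) (XT.lf (nat_lit 0) (nat_lit 2191762910) (nat_lit 1292) (nat_lit 520809099) (nat_lit 1368) (nat_lit 4135848869) (nat_lit 612) (nat_lit 5) (nat_lit 629) (nat_lit 5) (nat_lit 630) (nat_lit 5) (nat_lit 549) (nat_lit 508) (nat_lit 503)) (XT.lf (nat_lit 0) (nat_lit 15038196) (nat_lit 1368) (nat_lit 5949562227) (nat_lit 1444) (nat_lit 913997661) (nat_lit 594) (nat_lit 5) (nat_lit 612) (nat_lit 5) (nat_lit 613) (nat_lit 4) (nat_lit 550) (nat_lit 508) (nat_lit 502))))))) (XT.nd (nat_lit 1014) (nat_lit 8132) (nat_lit 0) (XT.nd (nat_lit 468) (nat_lit 6688) (nat_lit 0) (XT.nd (nat_lit 234) (nat_lit 3344) (nat_lit 0) (XT.nd (nat_lit 78) (nat_lit 3040) (nat_lit 0) (XT.lf (nat_lit 0) (nat_lit 2308243510) (nat_lit 1444) (nat_lit 2145990571) (nat_lit 76) (nat_lit 2455504179) (nat_lit 593) (nat_lit 5) (nat_lit 612)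 (nat_lit 5) (nat_lit 594) (nat_lit 5) (nat_lit 551) (nat_lit 508) (nat_lit 501)) (XT.nd (nat_lit 78) (nat_lit 1596) (nat_lit 0) (XT.lf (nat_lit 0) (nat_lit 2634161211) (nat_lit 1444) (nat_lit 2899135515) (nat_lit 1520) (nat_lit 1409080190) (nat_lit 574) (nat_lit 5) (nat_lit 593) (nat_lit 5) (nat_lit 594) (nat_lit 5) (nat_lit 552) (nat_lit 508) (nat_lit 500)) (XT.lf (nat_lit 0) (nat_lit 497306065) (nat_lit 1520) (nat_lit 1277339546) (nat_lit 1596) (nat_lit 5201757377) (nat_lit 553) (nat_lit 5) (nat_lit 573) (nat_lit 5) (nat_lit 574) (nat_lit 5) (nat_lit 553) (nat_lit 508) (nat_lit 499)))) (XT.nd (nat_lit 78) (nat_lit 3344) (nat_lit 0) (XT.lf (nat_lit 0) (nat_lit 4969643022) (nat_lit 1596) (nat_lit 1626859233) (nat_lit 76) (nat_lit 415099877) (nat_lit 553) (nat_lit 5) (nat_lit 574) (nat_lit 5) (nat_lit 554) (nat_lit 5) (nat_lit 554) (nat_lit 508) (nat_lit 498)) (XT.nd (nat_lit 78) (nat_lit 1672) (nat_lit 0) (XT.lf (nat_lit 0) (nat_lit 1131351184) (nat_lit 1672) (nat_lit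 3758919801) (nat_lit 76) (nat_lit 2157772610) (nat_lit 531) (nat_lit 5) (nat_lit 553) (nat_lit 5) (nat_lit 532) (nat_lit 5) (nat_lit 555) (nat_lit 508) (nat_lit 497)) (XT.lf (nat_lit 0) (nat_lit 1181445708) (nat_lit 1672) (nat_lit 3114637133) (nat_lit 1748) (nat_lit 2789762816) (nat_lit 509) (nat_lit 5) (nat_lit 531) (nat_lit 5) (nat_lit 532) (nat_lit 5) (nat_lit 556) (nat_lit 508) (nat_lit 496))))) (XT.nd (nat_lit 234) (nat_lit 3040) (nat_lit 0) (XT.nd (nat_lit 78) (nat_lit 3572) (nat_lit 0) (XT.lf (nat_lit 0) (nat_lit 356894163) (nat_lit 1748) (nat_lit 916470364) (nat_lit 76) (nat_lit 5851746067) (nat_lit 508) (nat_lit 5) (nat_lit 531) (nat_lit 5) (nat_lit 509) (nat_lit 5) (nat_lit 557) (nat_lit 508) (nat_lit 495)) (XT.nd (nat_lit 78) (nat_lit 1824) (nat_lit 0) (XT.lf (nat_lit 0) (nat_lit 3498600238) (nat_lit 1824) (nat_lit 3022778033) (nat_lit 76) (nat_lit 644031550) (nat_lit 485) (nat_lit 5) (nat_lit 509) (nat_lit 5) (nat_lit 486) (nat_lit 5) (nat_lit 558)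 (nat_lit 508) (nat_lit 494)) (XT.lf (nat_lit 0) (nat_lit 2066563132) (nat_lit 1824) (nat_lit 4603722004) (nat_lit 1900) (nat_lit 536894074) (nat_lit 461) (nat_lit 5) (nat_lit 485) (nat_lit 5) (nat_lit 486) (nat_lit 5) (nat_lit 559) (nat_lit 508) (nat_lit 493)))) (XT.nd (nat_lit 156) (nat_lit 1900) (nat_lit 0) (XT.nd (nat_lit 78) (nat_lit 1064) (nat_lit 0) (XT.lf (nat_lit 0) (nat_lit 2580708862) (nat_lit 1900) (nat_lit 29511978) (nat_lit 76) (nat_lit 4640026743) (nat_lit 460) (nat_lit 5) (nat_lit 485) (nat_lit 5) (nat_lit 461) (nat_lit 5) (nat_lit 560) (nat_lit 508) (nat_lit 492)) (XT.lf (nat_lit 0) (nat_lit 5188082649) (nat_lit 1064) (nat_lit 539768962) (nat_lit 1140) (nat_lit 1566773864) (nat_lit 446) (nat_lit 5) (nat_lit 460) (nat_lit 5) (nat_lit 461) (nat_lit 5) (nat_lit 561) (nat_lit 508) (nat_lit 491))) (XT.nd (nat_lit 78) (nat_lit 912) (nat_lit 0) (XT.lf (nat_lit 0) (nat_lit 1549146085) (nat_lit 988) (nat_lit 4210113165) (nat_lit 76) (nat_lit 1580989401)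 (nat_lit 433) (nat_lit 5) (nat_lit 446) (nat_lit 5) (nat_lit 434) (nat_lit 5) (nat_lit 562) (nat_lit 508) (nat_lit 490)) (XT.lf (nat_lit 0) (nat_lit 1051983596) (nat_lit 912) (nat_lit 3620893193) (nat_lit 988) (nat_lit 2714377225) (nat_lit 421) (nat_lit 5) (nat_lit 433) (nat_lit 5) (nat_lit 434) (nat_lit 5) (nat_lit 563) (nat_lit 508) (nat_lit 489)))))) (XT.nd (nat_lit 546) (nat_lit 3800) (nat_lit 0) (XT.nd (nat_lit 234) (nat_lit 2584) (nat_lit 0) (XT.nd (nat_lit 78) (nat_lit 1672) (nat_lit 0) (XT.lf (nat_lit 0) (nat_lit 388938463) (nat_lit 988) (nat_lit 1022922590) (nat_lit 76) (nat_lit 6023877122) (nat_lit 420) (nat_lit 5) (nat_lit 433) (nat_lit 5) (nat_lit 421) (nat_lit 5) (nat_lit 564) (nat_lit 508) (nat_lit 488)) (XT.nd (nat_lit 78) (nat_lit 836) (nat_lit 0) (XT.lf (nat_lit 0) (nat_lit 3495465931) (nat_lit 912) (nat_lit 3116609753) (nat_lit 76) (nat_lit 873213591) (nat_lit 409) (nat_lit 5) (nat_lit 421) (nat_lit 5) (nat_lit 410) (nat_lit 5) (nat_lit 565) (nat_lit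 508) (nat_lit 487)) (XT.lf (nat_lit 0) (nat_lit 2305902600) (nat_lit 836) (nat_lit 4333456579) (nat_lit 912) (nat_lit 896973318) (nat_lit 398) (nat_lit 5) (nat_lit 409) (nat_lit 5) (nat_lit 410) (nat_lit 5) (nat_lit 566) (nat_lit 508) (nat_lit 486)))) (XT.nd (nat_lit 156) (nat_lit 1672) (nat_lit 0) (XT.nd (nat_lit 78) (nat_lit 0) (nat_lit 0) (XT.lf (nat_lit 0) (nat_lit 217618005) (nat_lit 836) (nat_lit 1977305777) (nat_lit 912) (nat_lit 5393849190) (nat_lit 386) (nat_lit 5) (nat_lit 397) (nat_lit 5) (nat_lit 398) (nat_lit 5) (nat_lit 567) (nat_lit 508) (nat_lit 485)) (XT.lf (nat_lit 0) (nat_lit 5319745866) (nat_lit 912) (nat_lit 1867203704) (nat_lit 76) (nat_lit 455537624) (nat_lit 386) (nat_lit 5) (nat_lit 398) (nat_lit 5) (nat_lit 387) (nat_lit 5) (nat_lit 568) (nat_lit 508) (nat_lit 484))) (XT.nd (nat_lit 78) (nat_lit 760) (nat_lit 0) (XT.lf (nat_lit 0) (nat_lit 782377701) (nat_lit 912) (nat_lit 3981232999) (nat_lit 76) (nat_lit 2933900912) (nat_lit 374) (nat_lit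 5) (nat_lit 386) (nat_lit 5) (nat_lit 375) (nat_lit 5) (nat_lit 569) (nat_lit 508) (nat_lit 483)) (XT.lf (nat_lit 0) (nat_lit 1627912077) (nat_lit 760) (nat_lit 2260170881) (nat_lit 836) (nat_lit 3865859937) (nat_lit 364) (nat_lit 5) (nat_lit 374) (nat_lit 5) (nat_lit 375) (nat_lit 5) (nat_lit 570) (nat_lit 508) (nat_lit 482))))) (XT.nd (nat_lit 234) (nat_lit 2280) (nat_lit 0) (XT.nd (nat_lit 78) (nat_lit 1520) (nat_lit 0) (XT.lf (nat_lit 0) (nat_lit 7031678143) (nat_lit 836) (nat_lit 471780578) (nat_lit 76) (nat_lit 308533618) (nat_lit 364) (nat_lit 5) (nat_lit 375) (nat_lit 5) (nat_lit 365) (nat_lit 5) (nat_lit 571) (nat_lit 508) (nat_lit 481)) (XT.nd (nat_lit 78) (nat_lit 684) (nat_lit 0) (XT.lf (nat_lit 0) (nat_lit 2333204046) (nat_lit 836) (nat_lit 2597378204) (nat_lit 76) (nat_lit 2940371932) (nat_lit 353) (nat_lit 5) (nat_lit 364) (nat_lit 5) (nat_lit 354) (nat_lit 5) (nat_lit 572) (nat_lit 508) (nat_lit 480)) (XT.lf (nat_lit 0) (nat_lit 3184767813) (nat_lit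 684) (nat_lit 2285951222) (nat_lit 760) (nat_lit 2460834332) (nat_lit 344) (nat_lit 5) (nat_lit 353) (nat_lit 5) (nat_lit 354) (nat_lit 5) (nat_lit 573) (nat_lit 508) (nat_lit 479)))) (XT.nd (nat_lit 156) (nat_lit 1444) (nat_lit 0) (XT.nd (nat_lit 78) (nat_lit 0) (nat_lit 0) (XT.lf (nat_lit 0) (nat_lit 644621895) (nat_lit 836) (nat_lit 6923613974) (nat_lit 76) (nat_lit 425527468) (nat_lit 333) (nat_lit 5) (nat_lit 344) (nat_lit 5) (nat_lit 334) (nat_lit 5) (nat_lit 574) (nat_lit 508) (nat_lit 478)) (XT.lf (nat_lit 0) (nat_lit 3775595813) (nat_lit 836) (nat_lit 1082313751) (nat_lit 76) (nat_lit 3199059923) (nat_lit 333) (nat_lit 5) (nat_lit 344) (nat_lit 5) (nat_lit 334) (nat_lit 5) (nat_lit 575) (nat_lit 508) (nat_lit 477))) (XT.nd (nat_lit 78) (nat_lit 760) (nat_lit 0) (XT.lf (nat_lit 0) (nat_lit 4879162782) (nat_lit 684) (nat_lit 2071827939) (nat_lit 760) (nat_lit 1170817404) (nat_lit 324) (nat_lit 5) (nat_lit 333) (nat_lit 5) (nat_lit 334) (nat_lit 5) (nat_lit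 576) (nat_lit 508) (nat_lit 476)) (XT.lf (nat_lit 0) (nat_lit 1956409894) (nat_lit 760) (nat_lit 5444514097) (nat_lit 76) (nat_lit 787149496) (nat_lit 314) (nat_lit 5) (nat_lit 324) (nat_lit 5) (nat_lit 315) (nat_lit 5) (nat_lit 577) (nat_lit 508) (nat_lit 475))))))))
noncomputable def xc53 : XT := (XT.nd (nat_lit 2106) (nat_lit 6536) (nat_lit 0) (XT.nd (nat_lit 1014) (nat_lit 5244) (nat_lit 0) (XT.nd (nat_lit 468) (nat_lit 3040) (nat_lit 0) (XT.nd (nat_lit 234) (nat_lit 1292) (nat_lit 0) (XT.nd (nat_lit 78) (nat_lit 760) (nat_lit 0) (XT.lf (nat_lit 0) (nat_lit 562558307) (nat_lit 608) (nat_lit 4558122639) (nat_lit 684) (nat_lit 3135029042) (nat_lit 306) (nat_lit 5) (nat_lit 314) (nat_lit 5) (nat_lit 315) (nat_lit 5) (nat_lit 578) (nat_lit 508) (nat_lit 474)) (XT.nd (nat_lit 78) (nat_lit 684) (nat_lit 0) (XT.lf (nat_lit 0) (nat_lit 11133023) (nat_lit 684) (nat_lit 1622454094) (nat_lit 76) (nat_lit 6691354956) (nat_lit 305) (nat_lit 5) (nat_lit 314) (nat_lit 5)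 (nat_lit 306) (nat_lit 5) (nat_lit 579) (nat_lit 508) (nat_lit 473)) (XT.lf (nat_lit 0) (nat_lit 3168906163) (nat_lit 760) (nat_lit 3856439294) (nat_lit 76) (nat_lit 1369989482) (nat_lit 296) (nat_lit 5) (nat_lit 306) (nat_lit 5) (nat_lit 297) (nat_lit 5) (nat_lit 580) (nat_lit 508) (nat_lit 472)))) (XT.nd (nat_lit 78) (nat_lit 684) (nat_lit 0) (XT.lf (nat_lit 0) (nat_lit 2337385248) (nat_lit 608) (nat_lit 4041954969) (nat_lit 684) (nat_lit 2088009163) (nat_lit 288) (nat_lit 5) (nat_lit 296) (nat_lit 5) (nat_lit 297) (nat_lit 5) (nat_lit 581) (nat_lit 508) (nat_lit 471)) (XT.nd (nat_lit 78) (nat_lit 0) (nat_lit 0) (XT.lf (nat_lit 0) (nat_lit 99828050) (nat_lit 608) (nat_lit 978224050) (nat_lit 684) (nat_lit 7463021683) (nat_lit 279) (nat_lit 5) (nat_lit 287) (nat_lit 5) (nat_lit 288) (nat_lit 5) (nat_lit 582) (nat_lit 508) (nat_lit 470)) (XT.lf (nat_lit 0) (nat_lit 4288063085) (nat_lit 684) (nat_lit 2167780212) (nat_lit 76) (nat_lit 2159985211) (nat_lit 279) (nat_lit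 5) (nat_lit 288) (nat_lit 5) (nat_lit 280) (nat_lit 5) (nat_lit 583) (nat_lit 508) (nat_lit 469))))) (XT.nd (nat_lit 234) (nat_lit 1748) (nat_lit 0) (XT.nd (nat_lit 78) (nat_lit 684) (nat_lit 0) (XT.lf (nat_lit 0) (nat_lit 4219624335) (nat_lit 608) (nat_lit 3330656982) (nat_lit 684) (nat_lit 1142040406) (nat_lit 271) (nat_lit 5) (nat_lit 279) (nat_lit 5) (nat_lit 280) (nat_lit 5) (nat_lit 584) (nat_lit 508) (nat_lit 468)) (XT.nd (nat_lit 78) (nat_lit 0) (nat_lit 0) (XT.lf (nat_lit 0) (nat_lit 1945235069) (nat_lit 608) (nat_lit 116136320) (nat_lit 684) (nat_lit 6709070937) (nat_lit 262) (nat_lit 5) (nat_lit 270) (nat_lit 5) (nat_lit 271) (nat_lit 5) (nat_lit 585) (nat_lit 508) (nat_lit 467)) (XT.lf (nat_lit 0) (nat_lit 5319065767) (nat_lit 684) (nat_lit 386682477) (nat_lit 76) (nat_lit 3144119325) (nat_lit 262) (nat_lit 5) (nat_lit 271) (nat_lit 5) (nat_lit 263) (nat_lit 5) (nat_lit 586) (nat_lit 508) (nat_lit 466)))) (XT.nd (nat_lit 156) (nat_lit 608) (nat_lit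 0) (XT.nd (nat_lit 78) (nat_lit 608) (nat_lit 0) (XT.lf (nat_lit 0) (nat_lit 6201355923) (nat_lit 532) (nat_lit 2437222763) (nat_lit 608) (nat_lit 292372605) (nat_lit 255) (nat_lit 5) (nat_lit 262) (nat_lit 5) (nat_lit 263) (nat_lit 5) (nat_lit 587) (nat_lit 508) (nat_lit 465)) (XT.lf (nat_lit 0) (nat_lit 2961023467) (nat_lit 608) (nat_lit 5135477107) (nat_lit 76) (nat_lit 916974574) (nat_lit 247) (nat_lit 5) (nat_lit 255) (nat_lit 5) (nat_lit 248) (nat_lit 5) (nat_lit 588) (nat_lit 508) (nat_lit 464))) (XT.nd (nat_lit 78) (nat_lit 76) (nat_lit 0) (XT.lf (nat_lit 0) (nat_lit 1498520675) (nat_lit 532) (nat_lit 4777562144) (nat_lit 608) (nat_lit 2821520884) (nat_lit 240) (nat_lit 5) (nat_lit 247) (nat_lit 5) (nat_lit 248) (nat_lit 5) (nat_lit 589) (nat_lit 508) (nat_lit 463)) (XT.lf (nat_lit 0) (nat_lit 458879202) (nat_lit 608) (nat_lit 911800870) (nat_lit 76) (nat_lit 7812854810) (nat_lit 239) (nat_lit 5) (nat_lit 247) (nat_lit 5) (nat_lit 240) (nat_lit 5) (nat_lit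 590) (nat_lit 508) (nat_lit 462)))))) (XT.nd (nat_lit 546) (nat_lit 2204) (nat_lit 0) (XT.nd (nat_lit 234) (nat_lit 1444) (nat_lit 0) (XT.nd (nat_lit 78) (nat_lit 1064) (nat_lit 0) (XT.lf (nat_lit 0) (nat_lit 3776670894) (nat_lit 608) (nat_lit 3376192974) (nat_lit 76) (nat_lit 2117759436) (nat_lit 232) (nat_lit 5) (nat_lit 240) (nat_lit 5) (nat_lit 233) (nat_lit 5) (nat_lit 591) (nat_lit 508) (nat_lit 461)) (XT.nd (nat_lit 78) (nat_lit 608) (nat_lit 0) (XT.lf (nat_lit 0) (nat_lit 3466416925) (nat_lit 456) (nat_lit 3689724438) (nat_lit 532) (nat_lit 2203408517) (nat_lit 226) (nat_lit 5) (nat_lit 232) (nat_lit 5) (nat_lit 233) (nat_lit 5) (nat_lit 592) (nat_lit 508) (nat_lit 460)) (XT.lf (nat_lit 0) (nat_lit 987240602) (nat_lit 532) (nat_lit 137546278) (nat_lit 608) (nat_lit 8325581895) (nat_lit 218) (nat_lit 5) (nat_lit 225) (nat_lit 5) (nat_lit 226) (nat_lit 5) (nat_lit 593) (nat_lit 508) (nat_lit 459)))) (XT.nd (nat_lit 156) (nat_lit 988) (nat_lit 0) (XT.nd (nat_lit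 78) (nat_lit 456) (nat_lit 0) (XT.lf (nat_lit 0) (nat_lit 4510582297) (nat_lit 608) (nat_lit 1554837471) (nat_lit 76) (nat_lit 3476884873) (nat_lit 218) (nat_lit 5) (nat_lit 226) (nat_lit 5) (nat_lit 219) (nat_lit 5) (nat_lit 594) (nat_lit 508) (nat_lit 458)) (XT.lf (nat_lit 0) (nat_lit 5503829477) (nat_lit 456) (nat_lit 2455804592) (nat_lit 532) (nat_lit 1676536974) (nat_lit 212) (nat_lit 5) (nat_lit 218) (nat_lit 5) (nat_lit 219) (nat_lit 5) (nat_lit 595) (nat_lit 508) (nat_lit 457))) (XT.nd (nat_lit 78) (nat_lit 456) (nat_lit 0) (XT.lf (nat_lit 0) (nat_lit 1719747022) (nat_lit 532) (nat_lit 6778775397) (nat_lit 76) (nat_lit 1233230374) (nat_lit 205) (nat_lit 5) (nat_lit 212) (nat_lit 5) (nat_lit 206) (nat_lit 5) (nat_lit 596) (nat_lit 508) (nat_lit 456)) (XT.lf (nat_lit 0) (nat_lit 324506730) (nat_lit 456) (nat_lit 4842656784) (nat_lit 532) (nat_lit 4661750388) (nat_lit 199) (nat_lit 5) (nat_lit 205) (nat_lit 5) (nat_lit 206) (nat_lit 5) (nat_lit 597) (nat_lit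 508) (nat_lit 455))))) (XT.nd (nat_lit 234) (nat_lit 1292) (nat_lit 0) (XT.nd (nat_lit 78) (nat_lit 912) (nat_lit 0) (XT.lf (nat_lit 0) (nat_lit 7602608966) (nat_lit 456) (nat_lit 1086171949) (nat_lit 532) (nat_lit 1239134693) (nat_lit 199) (nat_lit 5) (nat_lit 205) (nat_lit 5) (nat_lit 206) (nat_lit 5) (nat_lit 598) (nat_lit 508) (nat_lit 454)) (XT.nd (nat_lit 78) (nat_lit 380) (nat_lit 0) (XT.lf (nat_lit 0) (nat_lit 2233098573) (nat_lit 532) (nat_lit 5057076810) (nat_lit 76) (nat_lit 2738217884) (nat_lit 192) (nat_lit 5) (nat_lit 199) (nat_lit 5) (nat_lit 193) (nat_lit 5) (nat_lit 599) (nat_lit 508) (nat_lit 453)) (XT.lf (nat_lit 0) (nat_lit 2270310905) (nat_lit 380) (nat_lit 3486097990) (nat_lit 456) (nat_lit 4374345569) (nat_lit 187) (nat_lit 5) (nat_lit 192) (nat_lit 5) (nat_lit 193) (nat_lit 5) (nat_lit 600) (nat_lit 508) (nat_lit 452)))) (XT.nd (nat_lit 156) (nat_lit 760) (nat_lit 0) (XT.nd (nat_lit 78) (nat_lit 532) (nat_lit 0) (XT.lf (nat_lit 0) (nat_lit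 9347740593) (nat_lit 456) (nat_lit 483527264) (nat_lit 76) (nat_lit 403946167) (nat_lit 187) (nat_lit 5) (nat_lit 193) (nat_lit 5) (nat_lit 188) (nat_lit 5) (nat_lit 601) (nat_lit 508) (nat_lit 451)) (XT.lf (nat_lit 0) (nat_lit 2664809663) (nat_lit 532) (nat_lit 3306250693) (nat_lit 76) (nat_lit 4369744384) (nat_lit 180) (nat_lit 5) (nat_lit 187) (nat_lit 5) (nat_lit 181) (nat_lit 5) (nat_lit 602) (nat_lit 508) (nat_lit 450))) (XT.nd (nat_lit 78) (nat_lit 380) (nat_lit 0) (XT.lf (nat_lit 0) (nat_lit 4252960434) (nat_lit 380) (nat_lit 2015914796) (nat_lit 456) (nat_lit 4179664430) (nat_lit 175) (nat_lit 5) (nat_lit 180) (nat_lit 5) (nat_lit 181) (nat_lit 5) (nat_lit 603) (nat_lit 508) (nat_lit 449)) (XT.lf (nat_lit 0) (nat_lit 1396979679) (nat_lit 380) (nat_lit 8554528119) (nat_lit 456) (nat_lit 606793837) (nat_lit 170) (nat_lit 5) (nat_lit 175) (nat_lit 5) (nat_lit 176) (nat_lit 5) (nat_lit 604) (nat_lit 508) (nat_lit 448))))))) (XT.nd (nat_lit 1092) (nat_lit 2736)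 (nat_lit 0) (XT.nd (nat_lit 546) (nat_lit 1748) (nat_lit 0) (XT.nd (nat_lit 234) (nat_lit 1216) (nat_lit 0) (XT.nd (nat_lit 78) (nat_lit 760) (nat_lit 0) (XT.lf (nat_lit 0) (nat_lit 3014993605) (nat_lit 456) (nat_lit 1535802634) (nat_lit 76) (nat_lit 6118724224) (nat_lit 169) (nat_lit 5) (nat_lit 175) (nat_lit 5) (nat_lit 170) (nat_lit 5) (nat_lit 605) (nat_lit 508) (nat_lit 447)) (XT.nd (nat_lit 78) (nat_lit 380) (nat_lit 0) (XT.lf (nat_lit 0) (nat_lit 6263094978) (nat_lit 380) (nat_lit 441507711) (nat_lit 456) (nat_lit 4078212495) (nat_lit 164) (nat_lit 5) (nat_lit 169) (nat_lit 5) (nat_lit 170) (nat_lit 5) (nat_lit 606) (nat_lit 508) (nat_lit 446)) (XT.lf (nat_lit 0) (nat_lit 3302024065) (nat_lit 380) (nat_lit 7185208488) (nat_lit 456) (nat_lit 410760590) (nat_lit 159) (nat_lit 5) (nat_lit 164) (nat_lit 5) (nat_lit 165) (nat_lit 5) (nat_lit 607) (nat_lit 508) (nat_lit 445)))) (XT.nd (nat_lit 156) (nat_lit 760) (nat_lit 0) (XT.nd (nat_lit 78) (nat_lit 0) (nat_lit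 0) (XT.lf (nat_lit 0) (nat_lit 247502492) (nat_lit 380) (nat_lit 3037102563) (nat_lit 456) (nat_lit 7730474251) (nat_lit 153) (nat_lit 5) (nat_lit 158) (nat_lit 5) (nat_lit 159) (nat_lit 5) (nat_lit 608) (nat_lit 508) (nat_lit 444)) (XT.lf (nat_lit 0) (nat_lit 7070838777) (nat_lit 456) (nat_lit 2851305449) (nat_lit 76) (nat_lit 1211861253) (nat_lit 153) (nat_lit 5) (nat_lit 159) (nat_lit 5) (nat_lit 154) (nat_lit 5) (nat_lit 609) (nat_lit 508) (nat_lit 443))) (XT.nd (nat_lit 78) (nat_lit 380) (nat_lit 0) (XT.lf (nat_lit 0) (nat_lit 5214889240) (nat_lit 380) (nat_lit 5735990664) (nat_lit 456) (nat_lit 304070384) (nat_lit 148) (nat_lit 5) (nat_lit 153) (nat_lit 5) (nat_lit 154) (nat_lit 5) (nat_lit 610) (nat_lit 508) (nat_lit 442)) (XT.lf (nat_lit 0) (nat_lit 2050180580) (nat_lit 304) (nat_lit 1430511480) (nat_lit 380) (nat_lit 7897229553) (nat_lit 143) (nat_lit 5) (nat_lit 147) (nat_lit 5) (nat_lit 148) (nat_lit 5) (nat_lit 611) (nat_lit 508) (nat_lit 441))))) (XT.nd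 (nat_lit 234) (nat_lit 988) (nat_lit 0) (XT.nd (nat_lit 78) (nat_lit 760) (nat_lit 0) (XT.lf (nat_lit 0) (nat_lit 7361519013) (nat_lit 380) (nat_lit 1196935946) (nat_lit 76) (nat_lit 2944370060) (nat_lit 143) (nat_lit 5) (nat_lit 148) (nat_lit 5) (nat_lit 144) (nat_lit 5) (nat_lit 612) (nat_lit 508) (nat_lit 440)) (XT.nd (nat_lit 78) (nat_lit 380) (nat_lit 0) (XT.lf (nat_lit 0) (nat_lit 7124580770) (nat_lit 380) (nat_lit 4216221905) (nat_lit 456) (nat_lit 289008647) (nat_lit 138) (nat_lit 5) (nat_lit 143) (nat_lit 5) (nat_lit 144) (nat_lit 5) (nat_lit 613) (nat_lit 508) (nat_lit 439)) (XT.lf (nat_lit 0) (nat_lit 3592432058) (nat_lit 380) (nat_lit 7920235749) (nat_lit 76) (nat_lit 246201586) (nat_lit 133) (nat_lit 5) (nat_lit 138) (nat_lit 5) (nat_lit 134) (nat_lit 5) (nat_lit 614) (nat_lit 508) (nat_lit 438)))) (XT.nd (nat_lit 156) (nat_lit 684) (nat_lit 0) (XT.nd (nat_lit 78) (nat_lit 0) (nat_lit 0) (XT.lf (nat_lit 0) (nat_lit 440123658) (nat_lit 304) (nat_lit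 7134110494) (nat_lit 380) (nat_lit 4315705757) (nat_lit 129) (nat_lit 5) (nat_lit 133) (nat_lit 5) (nat_lit 134) (nat_lit 5) (nat_lit 615) (nat_lit 508) (nat_lit 437)) (XT.lf (nat_lit 0) (nat_lit 9019267363) (nat_lit 304) (nat_lit 2635256911) (nat_lit 380) (nat_lit 368732030) (nat_lit 129) (nat_lit 5) (nat_lit 133) (nat_lit 5) (nat_lit 134) (nat_lit 5) (nat_lit 616) (nat_lit 508) (nat_lit 436))) (XT.nd (nat_lit 78) (nat_lit 304) (nat_lit 0) (XT.lf (nat_lit 0) (nat_lit 3624705762) (nat_lit 380) (nat_lit 6566274155) (nat_lit 76) (nat_lit 1967475880) (nat_lit 124) (nat_lit 5) (nat_lit 129) (nat_lit 5) (nat_lit 125) (nat_lit 5) (nat_lit 617) (nat_lit 508) (nat_lit 435)) (XT.lf (nat_lit 0) (nat_lit 2056672728) (nat_lit 304) (nat_lit 5653825574) (nat_lit 380) (nat_lit 4585465188) (nat_lit 120) (nat_lit 5) (nat_lit 124) (nat_lit 5) (nat_lit 125) (nat_lit 5) (nat_lit 618) (nat_lit 508) (nat_lit 434)))))) (XT.nd (nat_lit 546) (nat_lit 1216) (nat_lit 0) (XT.nd (nat_lit 234)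 (nat_lit 836) (nat_lit 0) (XT.nd (nat_lit 78) (nat_lit 684) (nat_lit 0) (XT.lf (nat_lit 0) (nat_lit 10886137200) (nat_lit 304) (nat_lit 1002557781) (nat_lit 380) (nat_lit 547313984) (nat_lit 120) (nat_lit 5) (nat_lit 124) (nat_lit 5) (nat_lit 125) (nat_lit 5) (nat_lit 619) (nat_lit 508) (nat_lit 433)) (XT.nd (nat_lit 78) (nat_lit 304) (nat_lit 0) (XT.lf (nat_lit 0) (nat_lit 3564047645) (nat_lit 380) (nat_lit 5270727197) (nat_lit 76) (nat_lit 3742832274) (nat_lit 115) (nat_lit 5) (nat_lit 120) (nat_lit 5) (nat_lit 116) (nat_lit 5) (nat_lit 620) (nat_lit 508) (nat_lit 432)) (XT.lf (nat_lit 0) (nat_lit 3622656121) (nat_lit 304) (nat_lit 4135506870) (nat_lit 380) (nat_lit 4963646095) (nat_lit 111) (nat_lit 5) (nat_lit 115) (nat_lit 5) (nat_lit 116) (nat_lit 5) (nat_lit 621) (nat_lit 508) (nat_lit 431)))) (XT.nd (nat_lit 156) (nat_lit 532) (nat_lit 0) (XT.nd (nat_lit 78) (nat_lit 304) (nat_lit 0) (XT.lf (nat_lit 0) (nat_lit 12043404523) (nat_lit 380) (nat_lit 161960704)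 (nat_lit 76) (nat_lit 663386280) (nat_lit 111) (nat_lit 5) (nat_lit 116) (nat_lit 5) (nat_lit 112) (nat_lit 5) (nat_lit 622) (nat_lit 508) (nat_lit 430)) (XT.lf (nat_lit 0) (nat_lit 3405309797) (nat_lit 304) (nat_lit 4049006437) (nat_lit 76) (nat_lit 5562794293) (nat_lit 107) (nat_lit 5) (nat_lit 111) (nat_lit 5) (nat_lit 108) (nat_lit 5) (nat_lit 623) (nat_lit 508) (nat_lit 429))) (XT.nd (nat_lit 78) (nat_lit 228) (nat_lit 0) (XT.lf (nat_lit 0) (nat_lit 5122638331) (nat_lit 304) (nat_lit 2589334149) (nat_lit 380) (nat_lit 5456307466) (nat_lit 103) (nat_lit 5) (nat_lit 107) (nat_lit 5) (nat_lit 108) (nat_lit 5) (nat_lit 624) (nat_lit 508) (nat_lit 428)) (XT.lf (nat_lit 0) (nat_lit 1156488585) (nat_lit 228) (nat_lit 10966765971) (nat_lit 304) (nat_lit 1198849667) (nat_lit 100) (nat_lit 5) (nat_lit 103) (nat_lit 5) (nat_lit 104) (nat_lit 5) (nat_lit 625) (nat_lit 508) (nat_lit 427))))) (XT.nd (nat_lit 234) (nat_lit 608) (nat_lit 0) (XT.nd (nat_lit 78) (nat_lit 532)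 (nat_lit 0) (XT.lf (nat_lit 0) (nat_lit 3142308668) (nat_lit 304) (nat_lit 2917952988) (nat_lit 76) (nat_lit 7417540598) (nat_lit 99) (nat_lit 5) (nat_lit 103) (nat_lit 5) (nat_lit 100) (nat_lit 5) (nat_lit 626) (nat_lit 508) (nat_lit 426)) (XT.nd (nat_lit 78) (nat_lit 228) (nat_lit 0) (XT.lf (nat_lit 0) (nat_lit 6539715432) (nat_lit 304) (nat_lit 1025905523) (nat_lit 380) (nat_lit 6070608257) (nat_lit 95) (nat_lit 5) (nat_lit 99) (nat_lit 5) (nat_lit 100) (nat_lit 5) (nat_lit 627) (nat_lit 508) (nat_lit 425)) (XT.lf (nat_lit 0) (nat_lit 2380157361) (nat_lit 228) (nat_lit 9728122755) (nat_lit 304) (nat_lit 1688928079) (nat_lit 92) (nat_lit 5) (nat_lit 95) (nat_lit 5) (nat_lit 96) (nat_lit 5) (nat_lit 628) (nat_lit 508) (nat_lit 424)))) (XT.nd (nat_lit 156) (nat_lit 304) (nat_lit 0) (XT.nd (nat_lit 78) (nat_lit 228) (nat_lit 0) (XT.lf (nat_lit 0) (nat_lit 2767749887) (nat_lit 304) (nat_lit 1896030156) (nat_lit 76) (nat_lit 9296790141) (nat_lit 91) (nat_lit 5) (nat_lit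 95) (nat_lit 5) (nat_lit 92) (nat_lit 5) (nat_lit 629) (nat_lit 508) (nat_lit 423)) (XT.lf (nat_lit 0) (nat_lit 7315203988) (nat_lit 304) (nat_lit 6274775082) (nat_lit 76) (nat_lit 536512957) (nat_lit 88) (nat_lit 5) (nat_lit 92) (nat_lit 5) (nat_lit 89) (nat_lit 5) (nat_lit 630) (nat_lit 508) (nat_lit 422))) (XT.nd (nat_lit 78) (nat_lit 76) (nat_lit 0) (XT.lf (nat_lit 0) (nat_lit 3487356642) (nat_lit 228) (nat_lit 8502410022) (nat_lit 304) (nat_lit 2305243468) (nat_lit 85) (nat_lit 5) (nat_lit 88) (nat_lit 5) (nat_lit 89) (nat_lit 5) (nat_lit 631) (nat_lit 508) (nat_lit 421)) (XT.lf (nat_lit 0) (nat_lit 2273142541) (nat_lit 304) (nat_lit 1003533850) (nat_lit 76) (nat_lit 11189680371) (nat_lit 84) (nat_lit 5) (nat_lit 88) (nat_lit 5) (nat_lit 85) (nat_lit 5) (nat_lit 632) (nat_lit 508) (nat_lit 420))))))))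
noncomputable def xc54 : XT := (XT.nd (nat_lit 74958) (nat_lit 0) (nat_lit 19608) (XT.nd (nat_lit 1014) (nat_lit 608) (nat_lit 0) (XT.nd (nat_lit 468) (nat_lit 912) (nat_lit 0) (XT.nd (nat_lit 234) (nat_lit 760) (nat_lit 0) (XT.nd (nat_lit 78) (nat_lit 304) (nat_lit 0) (XT.lf (nat_lit 0) (nat_lit 6955164402) (nat_lit 304) (nat_lit 5604933815) (nat_lit 76) (nat_lit 2079869607) (nat_lit 81) (nat_lit 5) (nat_lit 85) (nat_lit 5) (nat_lit 82) (nat_lit 5) (nat_lit 633) (nat_lit 508) (nat_lit 419)) (XT.nd (nat_lit 78) (nat_lit 76) (nat_lit 0) (XT.lf (nat_lit 0) (nat_lit 4456563388) (nat_lit 228) (nat_lit 7302258087) (nat_lit 304) (nat_lit 3057670674) (nat_lit 78) (nat_lit 5) (nat_lit 81) (nat_lit 5) (nat_lit 82) (nat_lit 5) (nat_lit 634) (nat_lit 508) (nat_lit 418)) (XT.lf (nat_lit 0) (nat_lit 1648702005) (nat_lit 304) (nat_lit 262822843) (nat_lit 76) (nat_lit 13084637302) (nat_lit 77) (nat_lit 5) (nat_lit 81) (nat_lit 5) (nat_lit 78) (nat_lit 5) (nat_lit 635) (nat_lit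 508) (nat_lit 417)))) (XT.nd (nat_lit 78) (nat_lit 532) (nat_lit 0) (XT.lf (nat_lit 0) (nat_lit 6468789926) (nat_lit 304) (nat_lit 5103839403) (nat_lit 76) (nat_lit 3605182283) (nat_lit 74) (nat_lit 5) (nat_lit 78) (nat_lit 5) (nat_lit 75) (nat_lit 5) (nat_lit 636) (nat_lit 508) (nat_lit 416)) (XT.nd (nat_lit 78) (nat_lit 304) (nat_lit 0) (XT.lf (nat_lit 0) (nat_lit 5264022199) (nat_lit 228) (nat_lit 6141180497) (nat_lit 304) (nat_lit 3957493772) (nat_lit 71) (nat_lit 5) (nat_lit 74) (nat_lit 5) (nat_lit 75) (nat_lit 5) (nat_lit 637) (nat_lit 508) (nat_lit 415)) (XT.lf (nat_lit 0) (nat_lit 305434701) (nat_lit 228) (nat_lit 579788708) (nat_lit 304) (nat_lit 14665784618) (nat_lit 67) (nat_lit 5) (nat_lit 70) (nat_lit 5) (nat_lit 71) (nat_lit 5) (nat_lit 638) (nat_lit 508) (nat_lit 414))))) (XT.nd (nat_lit 234) (nat_lit 532) (nat_lit 0) (XT.nd (nat_lit 78) (nat_lit 380) (nat_lit 0) (XT.lf (nat_lit 0) (nat_lit 5844591280) (nat_lit 304) (nat_lit 4797437248) (nat_lit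 76) (nat_lit 5099079183) (nat_lit 67) (nat_lit 5) (nat_lit 71) (nat_lit 5) (nat_lit 68) (nat_lit 5) (nat_lit 639) (nat_lit 508) (nat_lit 413)) (XT.nd (nat_lit 78) (nat_lit 228) (nat_lit 0) (XT.lf (nat_lit 0) (nat_lit 5883475495) (nat_lit 152) (nat_lit 5033725200) (nat_lit 228) (nat_lit 5017528410) (nat_lit 65) (nat_lit 5) (nat_lit 67) (nat_lit 5) (nat_lit 68) (nat_lit 5) (nat_lit 640) (nat_lit 508) (nat_lit 412)) (XT.lf (nat_lit 0) (nat_lit 665919320) (nat_lit 228) (nat_lit 15438637266) (nat_lit 304) (nat_lit 27401240) (nat_lit 62) (nat_lit 5) (nat_lit 65) (nat_lit 5) (nat_lit 66) (nat_lit 5) (nat_lit 641) (nat_lit 508) (nat_lit 411)))) (XT.nd (nat_lit 156) (nat_lit 304) (nat_lit 0) (XT.nd (nat_lit 78) (nat_lit 152) (nat_lit 0) (XT.lf (nat_lit 0) (nat_lit 5069512729) (nat_lit 304) (nat_lit 4714395803) (nat_lit 76) (nat_lit 6547098353) (nat_lit 61) (nat_lit 5) (nat_lit 65) (nat_lit 5) (nat_lit 62) (nat_lit 5) (nat_lit 642) (nat_lit 508) (nat_lit 410)) (XT.lf (nat_lit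 0) (nat_lit 6285867137) (nat_lit 152) (nat_lit 3995637825) (nat_lit 228) (nat_lit 6252258944) (nat_lit 59) (nat_lit 5) (nat_lit 61) (nat_lit 5) (nat_lit 62) (nat_lit 5) (nat_lit 643) (nat_lit 508) (nat_lit 409))) (XT.nd (nat_lit 78) (nat_lit 76) (nat_lit 0) (XT.lf (nat_lit 0) (nat_lit 778957386) (nat_lit 228) (nat_lit 14840851253) (nat_lit 304) (nat_lit 1120326722) (nat_lit 56) (nat_lit 5) (nat_lit 59) (nat_lit 5) (nat_lit 60) (nat_lit 5) (nat_lit 644) (nat_lit 508) (nat_lit 408)) (XT.lf (nat_lit 0) (nat_lit 4128788157) (nat_lit 304) (nat_lit 4886423030) (nat_lit 76) (nat_lit 7933519444) (nat_lit 55) (nat_lit 5) (nat_lit 59) (nat_lit 5) (nat_lit 56) (nat_lit 5) (nat_lit 645) (nat_lit 508) (nat_lit 407)))))) (XT.nd (nat_lit 73398) (nat_lit 0) (nat_lit 39976) (XT.nd (nat_lit 73086) (nat_lit 0) (nat_lit 46740) (XT.nd (nat_lit 78) (nat_lit 456) (nat_lit 0) (XT.lf (nat_lit 0) (nat_lit 6439016566) (nat_lit 152) (nat_lit 3044038653) (nat_lit 228) (nat_lit 7677991745)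 (nat_lit 53) (nat_lit 5) (nat_lit 55) (nat_lit 5) (nat_lit 56) (nat_lit 5) (nat_lit 646) (nat_lit 508) (nat_lit 406)) (XT.nd (nat_lit 156) (nat_lit 228) (nat_lit 0) (XT.lf (nat_lit 0) (nat_lit 620470409) (nat_lit 228) (nat_lit 14354181328) (nat_lit 304) (nat_lit 2402353674) (nat_lit 50) (nat_lit 5) (nat_lit 53) (nat_lit 5) (nat_lit 54) (nat_lit 5) (nat_lit 647) (nat_lit 508) (nat_lit 405)) (XT.lf (nat_lit 0) (nat_lit 6307260200) (nat_lit 152) (nat_lit 2197614990) (nat_lit 228) (nat_lit 9313026236) (nat_lit 47) (nat_lit 5) (nat_lit 49) (nat_lit 5) (nat_lit 50) (nat_lit 5) (nat_lit 649) (nat_lit 508) (nat_lit 403)))) (XT.nd (nat_lit 156) (nat_lit 1140) (nat_lit 0) (XT.nd (nat_lit 78) (nat_lit 988) (nat_lit 0) (XT.lf (nat_lit 0) (nat_lit 1069695082) (nat_lit 988) (nat_lit 1197299032) (nat_lit 0) (nat_lit 1069695082) (nat_lit 690) (nat_lit 5) (nat_lit 703) (nat_lit 4) (nat_lit 690) (nat_lit 4) (nat_lit 542) (nat_lit 509) (nat_lit 509)) (XT.lf (nat_lit 0) (nat_lit 1967114456)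 (nat_lit 988) (nat_lit 3481528416) (nat_lit 988) (nat_lit 1246455544) (nat_lit 677) (nat_lit 4) (nat_lit 690) (nat_lit 5) (nat_lit 690) (nat_lit 4) (nat_lit 543) (nat_lit 509) (nat_lit 508))) (XT.nd (nat_lit 78) (nat_lit 1064) (nat_lit 0) (XT.lf (nat_lit 0) (nat_lit 2022410546) (nat_lit 1064) (nat_lit 341051481) (nat_lit 76) (nat_lit 4354663460) (nat_lit 676) (nat_lit 5) (nat_lit 690) (nat_lit 5) (nat_lit 677) (nat_lit 4) (nat_lit 544) (nat_lit 509) (nat_lit 507)) (XT.lf (nat_lit 0) (nat_lit 4121720796) (nat_lit 1064) (nat_lit 1173489030) (nat_lit 1140) (nat_lit 1447143878) (nat_lit 662) (nat_lit 5) (nat_lit 676) (nat_lit 5) (nat_lit 677) (nat_lit 4) (nat_lit 545) (nat_lit 509) (nat_lit 506))))) (XT.nd (nat_lit 234) (nat_lit 4256) (nat_lit 0) (XT.nd (nat_lit 78) (nat_lit 1292) (nat_lit 0) (XT.lf (nat_lit 0) (nat_lit 1785878339) (nat_lit 1216) (nat_lit 4903076872) (nat_lit 76) (nat_lit 78999662) (nat_lit 646) (nat_lit 5) (nat_lit 662) (nat_lit 5) (nat_lit 647) (nat_lit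 4) (nat_lit 546) (nat_lit 509) (nat_lit 505)) (XT.nd (nat_lit 78) (nat_lit 1292) (nat_lit 0) (XT.lf (nat_lit 0) (nat_lit 5019792696) (nat_lit 1216) (nat_lit 394944235) (nat_lit 76) (nat_lit 1380037353) (nat_lit 646) (nat_lit 5) (nat_lit 662) (nat_lit 5) (nat_lit 647) (nat_lit 4) (nat_lit 547) (nat_lit 509) (nat_lit 504)) (XT.lf (nat_lit 0) (nat_lit 1435107066) (nat_lit 1292) (nat_lit 2632182646) (nat_lit 76) (nat_lit 2755485899) (nat_lit 629) (nat_lit 5) (nat_lit 646) (nat_lit 5) (nat_lit 630) (nat_lit 5) (nat_lit 548) (nat_lit 509) (nat_lit 503)))) (XT.nd (nat_lit 156) (nat_lit 2888) (nat_lit 0) (XT.nd (nat_lit 78) (nat_lit 76) (nat_lit 0) (XT.lf (nat_lit 0) (nat_lit 1977326813) (nat_lit 1292) (nat_lit 2655830576) (nat_lit 1368) (nat_lit 2219003534) (nat_lit 612) (nat_lit 5) (nat_lit 629) (nat_lit 5) (nat_lit 630) (nat_lit 5) (nat_lit 549) (nat_lit 509) (nat_lit 502)) (XT.lf (nat_lit 0) (nat_lit 950029269) (nat_lit 1368) (nat_lit 233032217) (nat_lit 76) (nat_lit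 5699944091) (nat_lit 611) (nat_lit 5) (nat_lit 629) (nat_lit 5) (nat_lit 612) (nat_lit 5) (nat_lit 550) (nat_lit 509) (nat_lit 501))) (XT.nd (nat_lit 78) (nat_lit 1520) (nat_lit 0) (XT.lf (nat_lit 0) (nat_lit 4118133712) (nat_lit 1444) (nat_lit 2429672316) (nat_lit 76) (nat_lit 367068297) (nat_lit 593) (nat_lit 5) (nat_lit 612) (nat_lit 5) (nat_lit 594) (nat_lit 5) (nat_lit 551) (nat_lit 509) (nat_lit 500)) (XT.lf (nat_lit 0) (nat_lit 355914908) (nat_lit 1520) (nat_lit 4633473111) (nat_lit 76) (nat_lit 1958769080) (nat_lit 573) (nat_lit 5) (nat_lit 593) (nat_lit 5) (nat_lit 574) (nat_lit 5) (nat_lit 552) (nat_lit 509) (nat_lit 499))))))) (XT.nd (nat_lit 1014) (nat_lit 7904) (nat_lit 0) (XT.nd (nat_lit 468) (nat_lit 5776) (nat_lit 0) (XT.nd (nat_lit 234) (nat_lit 3496) (nat_lit 0) (XT.nd (nat_lit 78) (nat_lit 1672) (nat_lit 0) (XT.lf (nat_lit 0) (nat_lit 128578093) (nat_lit 1520) (nat_lit 3358138235) (nat_lit 1596) (nat_lit 3495976771) (nat_lit 553) (nat_lit 5)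 (nat_lit 573) (nat_lit 5) (nat_lit 574) (nat_lit 5) (nat_lit 553) (nat_lit 509) (nat_lit 498)) (XT.nd (nat_lit 78) (nat_lit 1672) (nat_lit 0) (XT.lf (nat_lit 0) (nat_lit 4989508503) (nat_lit 1520) (nat_lit 1657862549) (nat_lit 1596) (nat_lit 371211988) (nat_lit 553) (nat_lit 5) (nat_lit 573) (nat_lit 5) (nat_lit 574) (nat_lit 5) (nat_lit 554) (nat_lit 509) (nat_lit 497)) (XT.lf (nat_lit 0) (nat_lit 2735378002) (nat_lit 1672) (nat_lit 4203747328) (nat_lit 76) (nat_lit 116582175) (nat_lit 531) (nat_lit 5) (nat_lit 553) (nat_lit 5) (nat_lit 532) (nat_lit 5) (nat_lit 555) (nat_lit 509) (nat_lit 496)))) (XT.nd (nat_lit 78) (nat_lit 1824) (nat_lit 0) (XT.lf (nat_lit 0) (nat_lit 700738095) (nat_lit 1672) (nat_lit 5165485261) (nat_lit 1748) (nat_lit 1227967651) (nat_lit 509) (nat_lit 5) (nat_lit 531) (nat_lit 5) (nat_lit 532) (nat_lit 5) (nat_lit 556) (nat_lit 509) (nat_lit 495)) (XT.nd (nat_lit 78) (nat_lit 1748) (nat_lit 0) (XT.lf (nat_lit 0) (nat_lit 1867648746) (nat_lit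 1748) (nat_lit 1445454144) (nat_lit 76) (nat_lit 3820764969) (nat_lit 508) (nat_lit 5) (nat_lit 531) (nat_lit 5) (nat_lit 509) (nat_lit 5) (nat_lit 557) (nat_lit 509) (nat_lit 494)) (XT.lf (nat_lit 0) (nat_lit 3581345268) (nat_lit 1748) (nat_lit 1390142005) (nat_lit 1824) (nat_lit 2203440665) (nat_lit 485) (nat_lit 5) (nat_lit 508) (nat_lit 5) (nat_lit 509) (nat_lit 5) (nat_lit 558) (nat_lit 509) (nat_lit 493))))) (XT.nd (nat_lit 234) (nat_lit 2812) (nat_lit 0) (XT.nd (nat_lit 78) (nat_lit 1064) (nat_lit 0) (XT.lf (nat_lit 0) (nat_lit 871567222) (nat_lit 1900) (nat_lit 5755971740) (nat_lit 76) (nat_lit 589896559) (nat_lit 460) (nat_lit 5) (nat_lit 485) (nat_lit 5) (nat_lit 461) (nat_lit 5) (nat_lit 559) (nat_lit 509) (nat_lit 492)) (XT.nd (nat_lit 78) (nat_lit 1064) (nat_lit 0) (XT.lf (nat_lit 0) (nat_lit 3952765118) (nat_lit 1900) (nat_lit 678164701) (nat_lit 76) (nat_lit 2630094928) (nat_lit 460) (nat_lit 5) (nat_lit 485) (nat_lit 5) (nat_lit 461) (nat_lit 5)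 (nat_lit 560) (nat_lit 509) (nat_lit 491)) (XT.lf (nat_lit 0) (nat_lit 4501194610) (nat_lit 1064) (nat_lit 2565465702) (nat_lit 1140) (nat_lit 239410513) (nat_lit 446) (nat_lit 5) (nat_lit 460) (nat_lit 5) (nat_lit 461) (nat_lit 5) (nat_lit 561) (nat_lit 509) (nat_lit 490)))) (XT.nd (nat_lit 156) (nat_lit 912) (nat_lit 0) (XT.nd (nat_lit 78) (nat_lit 912) (nat_lit 0) (XT.lf (nat_lit 0) (nat_lit 2394589682) (nat_lit 912) (nat_lit 420662211) (nat_lit 988) (nat_lit 4537149833) (nat_lit 433) (nat_lit 5) (nat_lit 445) (nat_lit 5) (nat_lit 446) (nat_lit 5) (nat_lit 562) (nat_lit 509) (nat_lit 489)) (XT.lf (nat_lit 0) (nat_lit 266934558) (nat_lit 912) (nat_lit 5635981272) (nat_lit 988) (nat_lit 1497215642) (nat_lit 421) (nat_lit 5) (nat_lit 433) (nat_lit 5) (nat_lit 434) (nat_lit 5) (nat_lit 563) (nat_lit 509) (nat_lit 488))) (XT.nd (nat_lit 78) (nat_lit 836) (nat_lit 0) (XT.lf (nat_lit 0) (nat_lit 1562072280) (nat_lit 988) (nat_lit 1858716959) (nat_lit 76) (nat_lit 4028232561)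 (nat_lit 420) (nat_lit 5) (nat_lit 433) (nat_lit 5) (nat_lit 421) (nat_lit 5) (nat_lit 564) (nat_lit 509) (nat_lit 487)) (XT.lf (nat_lit 0) (nat_lit 3497869497) (nat_lit 836) (nat_lit 1131779315) (nat_lit 912) (nat_lit 2869705980) (nat_lit 409) (nat_lit 5) (nat_lit 420) (nat_lit 5) (nat_lit 421) (nat_lit 5) (nat_lit 565) (nat_lit 509) (nat_lit 486)))))) (XT.nd (nat_lit 546) (nat_lit 3648) (nat_lit 0) (XT.nd (nat_lit 234) (nat_lit 2508) (nat_lit 0) (XT.nd (nat_lit 78) (nat_lit 836) (nat_lit 0) (XT.lf (nat_lit 0) (nat_lit 179452246) (nat_lit 912) (nat_lit 6165790214) (nat_lit 76) (nat_lit 1205944643) (nat_lit 397) (nat_lit 5) (nat_lit 409) (nat_lit 5) (nat_lit 398) (nat_lit 5) (nat_lit 566) (nat_lit 509) (nat_lit 485)) (XT.nd (nat_lit 78) (nat_lit 836) (nat_lit 0) (XT.lf (nat_lit 0) (nat_lit 3231155930) (nat_lit 912) (nat_lit 756303795) (nat_lit 76) (nat_lit 3616622674) (nat_lit 397) (nat_lit 5) (nat_lit 409) (nat_lit 5) (nat_lit 398) (nat_lit 5) (nat_lit 567) (nat_lit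 509) (nat_lit 484)) (XT.lf (nat_lit 0) (nat_lit 4764680671) (nat_lit 836) (nat_lit 1556645159) (nat_lit 912) (nat_lit 1337166488) (nat_lit 386) (nat_lit 5) (nat_lit 397) (nat_lit 5) (nat_lit 398) (nat_lit 5) (nat_lit 568) (nat_lit 509) (nat_lit 483)))) (XT.nd (nat_lit 156) (nat_lit 836) (nat_lit 0) (XT.nd (nat_lit 78) (nat_lit 760) (nat_lit 0) (XT.lf (nat_lit 0) (nat_lit 1711573473) (nat_lit 912) (nat_lit 5064232128) (nat_lit 76) (nat_lit 938454766) (nat_lit 374) (nat_lit 5) (nat_lit 386) (nat_lit 5) (nat_lit 375) (nat_lit 5) (nat_lit 569) (nat_lit 509) (nat_lit 482)) (XT.lf (nat_lit 0) (nat_lit 500359800) (nat_lit 760) (nat_lit 4283571078) (nat_lit 836) (nat_lit 2987430230) (nat_lit 364) (nat_lit 5) (nat_lit 374) (nat_lit 5) (nat_lit 375) (nat_lit 5) (nat_lit 570) (nat_lit 509) (nat_lit 481))) (XT.nd (nat_lit 78) (nat_lit 760) (nat_lit 0) (XT.lf (nat_lit 0) (nat_lit 68904077) (nat_lit 836) (nat_lit 1645260458) (nat_lit 76) (nat_lit 6115794173) (nat_lit 363) (nat_lit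 5) (nat_lit 374) (nat_lit 5) (nat_lit 364) (nat_lit 5) (nat_lit 571) (nat_lit 509) (nat_lit 480)) (XT.lf (nat_lit 0) (nat_lit 3127693682) (nat_lit 836) (nat_lit 3828665034) (nat_lit 76) (nat_lit 933352758) (nat_lit 353) (nat_lit 5) (nat_lit 364) (nat_lit 5) (nat_lit 354) (nat_lit 5) (nat_lit 572) (nat_lit 509) (nat_lit 479))))) (XT.nd (nat_lit 234) (nat_lit 2128) (nat_lit 0) (XT.nd (nat_lit 78) (nat_lit 836) (nat_lit 0) (XT.lf (nat_lit 0) (nat_lit 1907111001) (nat_lit 684) (nat_lit 4324710320) (nat_lit 760) (nat_lit 1719159396) (nat_lit 344) (nat_lit 5) (nat_lit 353) (nat_lit 5) (nat_lit 354) (nat_lit 5) (nat_lit 573) (nat_lit 509) (nat_lit 478)) (XT.nd (nat_lit 78) (nat_lit 760) (nat_lit 0) (XT.lf (nat_lit 0) (nat_lit 1341846075) (nat_lit 760) (nat_lit 272719731) (nat_lit 76) (nat_lit 6399225263) (nat_lit 343) (nat_lit 5) (nat_lit 353) (nat_lit 5) (nat_lit 344) (nat_lit 5) (nat_lit 574) (nat_lit 509) (nat_lit 477)) (XT.lf (nat_lit 0) (nat_lit 4435839363) (nat_lit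 836) (nat_lit 2468396243) (nat_lit 76) (nat_lit 1173503401) (nat_lit 333) (nat_lit 5) (nat_lit 344) (nat_lit 5) (nat_lit 334) (nat_lit 5) (nat_lit 575) (nat_lit 509) (nat_lit 476)))) (XT.nd (nat_lit 156) (nat_lit 684) (nat_lit 0) (XT.nd (nat_lit 78) (nat_lit 760) (nat_lit 0) (XT.lf (nat_lit 0) (nat_lit 3444837291) (nat_lit 684) (nat_lit 4132876832) (nat_lit 760) (nat_lit 565536061) (nat_lit 324) (nat_lit 5) (nat_lit 333) (nat_lit 5) (nat_lit 334) (nat_lit 5) (nat_lit 576) (nat_lit 509) (nat_lit 475)) (XT.lf (nat_lit 0) (nat_lit 1239792654) (nat_lit 684) (nat_lit 1274900624) (nat_lit 760) (nat_lit 5695526912) (nat_lit 314) (nat_lit 5) (nat_lit 323) (nat_lit 5) (nat_lit 324) (nat_lit 5) (nat_lit 577) (nat_lit 509) (nat_lit 474))) (XT.nd (nat_lit 78) (nat_lit 684) (nat_lit 0) (XT.lf (nat_lit 0) (nat_lit 5643196540) (nat_lit 760) (nat_lit 992263169) (nat_lit 76) (nat_lit 1643114349) (nat_lit 314) (nat_lit 5) (nat_lit 324) (nat_lit 5) (nat_lit 315) (nat_lit 5) (nat_lit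 578) (nat_lit 509) (nat_lit 473)) (XT.lf (nat_lit 0) (nat_lit 473939620) (nat_lit 684) (nat_lit 3246586245) (nat_lit 76) (nat_lit 4627823170) (nat_lit 305) (nat_lit 5) (nat_lit 314) (nat_lit 5) (nat_lit 306) (nat_lit 5) (nat_lit 579) (nat_lit 509) (nat_lit 472))))))))
noncomputable def xc55 : XT := (XT.nd (nat_lit 2106) (nat_lit 6308) (nat_lit 0) (XT.nd (nat_lit 1014) (nat_lit 4712) (nat_lit 0) (XT.nd (nat_lit 468) (nat_lit 3344) (nat_lit 0) (XT.nd (nat_lit 234) (nat_lit 1292) (nat_lit 0) (XT.nd (nat_lit 78) (nat_lit 684) (nat_lit 0) (XT.lf (nat_lit 0) (nat_lit 2872641333) (nat_lit 684) (nat_lit 715924703) (nat_lit 760) (nat_lit 4831040693) (nat_lit 296) (nat_lit 5) (nat_lit 305) (nat_lit 5) (nat_lit 306) (nat_lit 5) (nat_lit 580) (nat_lit 509) (nat_lit 471)) (XT.nd (nat_lit 78) (nat_lit 76) (nat_lit 0) (XT.lf (nat_lit 0) (nat_lit 599139683) (nat_lit 608) (nat_lit 6160897532) (nat_lit 684) (nat_lit 1732365070) (nat_lit 288) (nat_lit 5) (nat_lit 296) (nat_lit 5)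 (nat_lit 297) (nat_lit 5) (nat_lit 581) (nat_lit 509) (nat_lit 470)) (XT.lf (nat_lit 0) (nat_lit 1405463173) (nat_lit 684) (nat_lit 1696770922) (nat_lit 76) (nat_lit 5464319570) (nat_lit 287) (nat_lit 5) (nat_lit 296) (nat_lit 5) (nat_lit 288) (nat_lit 5) (nat_lit 582) (nat_lit 509) (nat_lit 469)))) (XT.nd (nat_lit 78) (nat_lit 684) (nat_lit 0) (XT.lf (nat_lit 0) (nat_lit 4567739912) (nat_lit 684) (nat_lit 4028664691) (nat_lit 76) (nat_lit 45860223) (nat_lit 279) (nat_lit 5) (nat_lit 288) (nat_lit 5) (nat_lit 280) (nat_lit 5) (nat_lit 583) (nat_lit 509) (nat_lit 468)) (XT.nd (nat_lit 78) (nat_lit 76) (nat_lit 0) (XT.lf (nat_lit 0) (nat_lit 2304308796) (nat_lit 608) (nat_lit 5490952214) (nat_lit 684) (nat_lit 924192691) (nat_lit 271) (nat_lit 5) (nat_lit 279) (nat_lit 5) (nat_lit 280) (nat_lit 5) (nat_lit 584) (nat_lit 509) (nat_lit 467)) (XT.lf (nat_lit 0) (nat_lit 2241570596) (nat_lit 684) (nat_lit 53553648) (nat_lit 76) (nat_lit 6503119248) (nat_lit 270) (nat_lit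 5) (nat_lit 279) (nat_lit 5) (nat_lit 271) (nat_lit 5) (nat_lit 585) (nat_lit 509) (nat_lit 466))))) (XT.nd (nat_lit 234) (nat_lit 1596) (nat_lit 0) (XT.nd (nat_lit 78) (nat_lit 1140) (nat_lit 0) (XT.lf (nat_lit 0) (nat_lit 5462798633) (nat_lit 684) (nat_lit 2429455032) (nat_lit 76) (nat_lit 986146015) (nat_lit 262) (nat_lit 5) (nat_lit 271) (nat_lit 5) (nat_lit 263) (nat_lit 5) (nat_lit 586) (nat_lit 509) (nat_lit 465)) (XT.nd (nat_lit 78) (nat_lit 608) (nat_lit 0) (XT.lf (nat_lit 0) (nat_lit 4102017130) (nat_lit 532) (nat_lit 4645130548) (nat_lit 608) (nat_lit 213040588) (nat_lit 255) (nat_lit 5) (nat_lit 262) (nat_lit 5) (nat_lit 263) (nat_lit 5) (nat_lit 587) (nat_lit 509) (nat_lit 464)) (XT.lf (nat_lit 0) (nat_lit 1697250489) (nat_lit 532) (nat_lit 1300391808) (nat_lit 608) (nat_lit 6045894502) (nat_lit 247) (nat_lit 5) (nat_lit 254) (nat_lit 5) (nat_lit 255) (nat_lit 5) (nat_lit 588) (nat_lit 509) (nat_lit 463)))) (XT.nd (nat_lit 156) (nat_lit 988) (nat_lit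 0) (XT.nd (nat_lit 78) (nat_lit 608) (nat_lit 0) (XT.lf (nat_lit 0) (nat_lit 6273270422) (nat_lit 608) (nat_lit 752811237) (nat_lit 76) (nat_lit 2102373814) (nat_lit 247) (nat_lit 5) (nat_lit 255) (nat_lit 5) (nat_lit 248) (nat_lit 5) (nat_lit 589) (nat_lit 509) (nat_lit 462)) (XT.lf (nat_lit 0) (nat_lit 399499260) (nat_lit 608) (nat_lit 3233239005) (nat_lit 76) (nat_lit 5582177340) (nat_lit 239) (nat_lit 5) (nat_lit 247) (nat_lit 5) (nat_lit 240) (nat_lit 5) (nat_lit 590) (nat_lit 509) (nat_lit 461))) (XT.nd (nat_lit 78) (nat_lit 456) (nat_lit 0) (XT.lf (nat_lit 0) (nat_lit 3527143920) (nat_lit 532) (nat_lit 139995496) (nat_lit 608) (nat_lit 5635869051) (nat_lit 232) (nat_lit 5) (nat_lit 239) (nat_lit 5) (nat_lit 240) (nat_lit 5) (nat_lit 591) (nat_lit 509) (nat_lit 460)) (XT.lf (nat_lit 0) (nat_lit 1006395027) (nat_lit 456) (nat_lit 6002745649) (nat_lit 532) (nat_lit 2383545133) (nat_lit 226) (nat_lit 5) (nat_lit 232) (nat_lit 5) (nat_lit 233) (nat_lit 5) (nat_lit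 592) (nat_lit 509) (nat_lit 459)))))) (XT.nd (nat_lit 546) (nat_lit 2128) (nat_lit 0) (XT.nd (nat_lit 234) (nat_lit 1520) (nat_lit 0) (XT.nd (nat_lit 78) (nat_lit 988) (nat_lit 0) (XT.lf (nat_lit 0) (nat_lit 920095219) (nat_lit 532) (nat_lit 1546774238) (nat_lit 76) (nat_lit 7017198315) (nat_lit 225) (nat_lit 5) (nat_lit 232) (nat_lit 5) (nat_lit 226) (nat_lit 5) (nat_lit 593) (nat_lit 509) (nat_lit 458)) (XT.nd (nat_lit 78) (nat_lit 456) (nat_lit 0) (XT.lf (nat_lit 0) (nat_lit 4260174593) (nat_lit 608) (nat_lit 4157358545) (nat_lit 76) (nat_lit 1159386121) (nat_lit 218) (nat_lit 5) (nat_lit 226) (nat_lit 5) (nat_lit 219) (nat_lit 5) (nat_lit 594) (nat_lit 509) (nat_lit 457)) (XT.lf (nat_lit 0) (nat_lit 2837675827) (nat_lit 456) (nat_lit 4834290107) (nat_lit 532) (nat_lit 1999566211) (nat_lit 212) (nat_lit 5) (nat_lit 218) (nat_lit 5) (nat_lit 219) (nat_lit 5) (nat_lit 595) (nat_lit 509) (nat_lit 456)))) (XT.nd (nat_lit 156) (nat_lit 988) (nat_lit 0) (XT.nd (nat_lit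 78) (nat_lit 0) (nat_lit 0) (XT.lf (nat_lit 0) (nat_lit 196837517) (nat_lit 456) (nat_lit 1158179383) (nat_lit 532) (nat_lit 8413058917) (nat_lit 205) (nat_lit 5) (nat_lit 211) (nat_lit 5) (nat_lit 212) (nat_lit 5) (nat_lit 596) (nat_lit 509) (nat_lit 455)) (XT.lf (nat_lit 0) (nat_lit 4773077783) (nat_lit 532) (nat_lit 2493582602) (nat_lit 76) (nat_lit 2599164855) (nat_lit 205) (nat_lit 5) (nat_lit 212) (nat_lit 5) (nat_lit 206) (nat_lit 5) (nat_lit 597) (nat_lit 509) (nat_lit 454))) (XT.nd (nat_lit 78) (nat_lit 532) (nat_lit 0) (XT.lf (nat_lit 0) (nat_lit 4722681166) (nat_lit 456) (nat_lit 3536080346) (nat_lit 532) (nat_lit 1706785286) (nat_lit 199) (nat_lit 5) (nat_lit 205) (nat_lit 5) (nat_lit 206) (nat_lit 5) (nat_lit 598) (nat_lit 509) (nat_lit 453)) (XT.lf (nat_lit 0) (nat_lit 1716832481) (nat_lit 532) (nat_lit 8061455678) (nat_lit 76) (nat_lit 288893132) (nat_lit 192) (nat_lit 5) (nat_lit 199) (nat_lit 5) (nat_lit 193) (nat_lit 5) (nat_lit 599) (nat_lit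 509) (nat_lit 452))))) (XT.nd (nat_lit 234) (nat_lit 1216) (nat_lit 0) (XT.nd (nat_lit 78) (nat_lit 912) (nat_lit 0) (XT.lf (nat_lit 0) (nat_lit 5206264392) (nat_lit 532) (nat_lit 792374695) (nat_lit 76) (nat_lit 4171582079) (nat_lit 192) (nat_lit 5) (nat_lit 199) (nat_lit 5) (nat_lit 193) (nat_lit 5) (nat_lit 600) (nat_lit 509) (nat_lit 451)) (XT.nd (nat_lit 78) (nat_lit 532) (nat_lit 0) (XT.lf (nat_lit 0) (nat_lit 6652838118) (nat_lit 380) (nat_lit 2117940625) (nat_lit 456) (nat_lit 1504439419) (nat_lit 187) (nat_lit 5) (nat_lit 192) (nat_lit 5) (nat_lit 193) (nat_lit 5) (nat_lit 601) (nat_lit 509) (nat_lit 450)) (XT.lf (nat_lit 0) (nat_lit 2002451432) (nat_lit 532) (nat_lit 6538067497) (nat_lit 76) (nat_lit 1841440788) (nat_lit 180) (nat_lit 5) (nat_lit 187) (nat_lit 5) (nat_lit 181) (nat_lit 5) (nat_lit 602) (nat_lit 509) (nat_lit 449)))) (XT.nd (nat_lit 156) (nat_lit 836) (nat_lit 0) (XT.nd (nat_lit 78) (nat_lit 0) (nat_lit 0) (XT.lf (nat_lit 0) (nat_lit 949656716)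 (nat_lit 380) (nat_lit 4616838845) (nat_lit 456) (nat_lit 4924000530) (nat_lit 175) (nat_lit 5) (nat_lit 180) (nat_lit 5) (nat_lit 181) (nat_lit 5) (nat_lit 603) (nat_lit 509) (nat_lit 448)) (XT.lf (nat_lit 0) (nat_lit 8619244664) (nat_lit 380) (nat_lit 589298646) (nat_lit 456) (nat_lit 1392527458) (nat_lit 175) (nat_lit 5) (nat_lit 180) (nat_lit 5) (nat_lit 181) (nat_lit 5) (nat_lit 604) (nat_lit 509) (nat_lit 447))) (XT.nd (nat_lit 78) (nat_lit 380) (nat_lit 0) (XT.lf (nat_lit 0) (nat_lit 2204217743) (nat_lit 456) (nat_lit 5003305940) (nat_lit 76) (nat_lit 3505575855) (nat_lit 169) (nat_lit 5) (nat_lit 175) (nat_lit 5) (nat_lit 170) (nat_lit 5) (nat_lit 605) (nat_lit 509) (nat_lit 446)) (XT.lf (nat_lit 0) (nat_lit 2721352689) (nat_lit 380) (nat_lit 3131443029) (nat_lit 456) (nat_lit 4974420111) (nat_lit 164) (nat_lit 5) (nat_lit 169) (nat_lit 5) (nat_lit 170) (nat_lit 5) (nat_lit 606) (nat_lit 509) (nat_lit 445))))))) (XT.nd (nat_lit 1092) (nat_lit 2584) (nat_lit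 0) (XT.nd (nat_lit 546) (nat_lit 1748) (nat_lit 0) (XT.nd (nat_lit 234) (nat_lit 1140) (nat_lit 0) (XT.nd (nat_lit 78) (nat_lit 836) (nat_lit 0) (XT.lf (nat_lit 0) (nat_lit 9578597181) (nat_lit 456) (nat_lit 337861131) (nat_lit 76) (nat_lit 1027072972) (nat_lit 164) (nat_lit 5) (nat_lit 170) (nat_lit 5) (nat_lit 165) (nat_lit 5) (nat_lit 607) (nat_lit 509) (nat_lit 444)) (XT.nd (nat_lit 78) (nat_lit 380) (nat_lit 0) (XT.lf (nat_lit 0) (nat_lit 2321229669) (nat_lit 456) (nat_lit 3467446799) (nat_lit 76) (nat_lit 5272500097) (nat_lit 158) (nat_lit 5) (nat_lit 164) (nat_lit 5) (nat_lit 159) (nat_lit 5) (nat_lit 608) (nat_lit 509) (nat_lit 443)) (XT.lf (nat_lit 0) (nat_lit 4502031029) (nat_lit 380) (nat_lit 1556945962) (nat_lit 456) (nat_lit 5122096348) (nat_lit 153) (nat_lit 5) (nat_lit 158) (nat_lit 5) (nat_lit 159) (nat_lit 5) (nat_lit 609) (nat_lit 509) (nat_lit 442)))) (XT.nd (nat_lit 156) (nat_lit 684) (nat_lit 0) (XT.nd (nat_lit 78) (nat_lit 76) (nat_lit 0)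 (XT.lf (nat_lit 0) (nat_lit 1318650529) (nat_lit 380) (nat_lit 8567543411) (nat_lit 456) (nat_lit 1416881551) (nat_lit 148) (nat_lit 5) (nat_lit 153) (nat_lit 5) (nat_lit 154) (nat_lit 5) (nat_lit 610) (nat_lit 509) (nat_lit 441)) (XT.lf (nat_lit 0) (nat_lit 2351794992) (nat_lit 456) (nat_lit 1941408080) (nat_lit 76) (nat_lit 7133602684) (nat_lit 147) (nat_lit 5) (nat_lit 153) (nat_lit 5) (nat_lit 148) (nat_lit 5) (nat_lit 611) (nat_lit 509) (nat_lit 440))) (XT.nd (nat_lit 78) (nat_lit 380) (nat_lit 0) (XT.lf (nat_lit 0) (nat_lit 6183905713) (nat_lit 380) (nat_lit 5272452344) (nat_lit 76) (nat_lit 96326238) (nat_lit 143) (nat_lit 5) (nat_lit 148) (nat_lit 5) (nat_lit 144) (nat_lit 5) (nat_lit 612) (nat_lit 509) (nat_lit 439)) (XT.lf (nat_lit 0) (nat_lit 2967425938) (nat_lit 380) (nat_lit 7151838381) (nat_lit 456) (nat_lit 1561285574) (nat_lit 138) (nat_lit 5) (nat_lit 143) (nat_lit 5) (nat_lit 144) (nat_lit 5) (nat_lit 613) (nat_lit 509) (nat_lit 438))))) (XT.nd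 (nat_lit 234) (nat_lit 1064) (nat_lit 0) (XT.nd (nat_lit 78) (nat_lit 608) (nat_lit 0) (XT.lf (nat_lit 0) (nat_lit 2293399058) (nat_lit 456) (nat_lit 436876596) (nat_lit 76) (nat_lit 9080367124) (nat_lit 137) (nat_lit 5) (nat_lit 143) (nat_lit 5) (nat_lit 138) (nat_lit 5) (nat_lit 614) (nat_lit 509) (nat_lit 437)) (XT.nd (nat_lit 78) (nat_lit 304) (nat_lit 0) (XT.lf (nat_lit 0) (nat_lit 6234924199) (nat_lit 380) (nat_lit 3908303361) (nat_lit 76) (nat_lit 1799292021) (nat_lit 133) (nat_lit 5) (nat_lit 138) (nat_lit 5) (nat_lit 134) (nat_lit 5) (nat_lit 615) (nat_lit 509) (nat_lit 436)) (XT.lf (nat_lit 0) (nat_lit 4591826806) (nat_lit 304) (nat_lit 5681029213) (nat_lit 380) (nat_lit 1803827855) (nat_lit 129) (nat_lit 5) (nat_lit 133) (nat_lit 5) (nat_lit 134) (nat_lit 5) (nat_lit 616) (nat_lit 509) (nat_lit 435)))) (XT.nd (nat_lit 156) (nat_lit 684) (nat_lit 0) (XT.nd (nat_lit 78) (nat_lit 0) (nat_lit 0) (XT.lf (nat_lit 0) (nat_lit 1047291294) (nat_lit 304) (nat_lit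 1102173922) (nat_lit 380) (nat_lit 10063784533) (nat_lit 124) (nat_lit 5) (nat_lit 128) (nat_lit 5) (nat_lit 129) (nat_lit 5) (nat_lit 617) (nat_lit 509) (nat_lit 434)) (XT.lf (nat_lit 0) (nat_lit 6198402834) (nat_lit 380) (nat_lit 2589674832) (nat_lit 76) (nat_lit 3563417565) (nat_lit 124) (nat_lit 5) (nat_lit 129) (nat_lit 5) (nat_lit 125) (nat_lit 5) (nat_lit 618) (nat_lit 509) (nat_lit 433))) (XT.nd (nat_lit 78) (nat_lit 380) (nat_lit 0) (XT.lf (nat_lit 0) (nat_lit 6178705167) (nat_lit 304) (nat_lit 4164658765) (nat_lit 380) (nat_lit 2148842162) (nat_lit 120) (nat_lit 5) (nat_lit 124) (nat_lit 5) (nat_lit 125) (nat_lit 5) (nat_lit 619) (nat_lit 509) (nat_lit 432)) (XT.lf (nat_lit 0) (nat_lit 1915217757) (nat_lit 380) (nat_lit 10150315106) (nat_lit 76) (nat_lit 569846116) (nat_lit 115) (nat_lit 5) (nat_lit 120) (nat_lit 5) (nat_lit 116) (nat_lit 5) (nat_lit 620) (nat_lit 509) (nat_lit 431)))))) (XT.nd (nat_lit 546) (nat_lit 1064) (nat_lit 0) (XT.nd (nat_lit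 234) (nat_lit 912) (nat_lit 0) (XT.nd (nat_lit 78) (nat_lit 608) (nat_lit 0) (XT.lf (nat_lit 0) (nat_lit 6069902251) (nat_lit 380) (nat_lit 1330879739) (nat_lit 76) (nat_lit 5379588215) (nat_lit 115) (nat_lit 5) (nat_lit 120) (nat_lit 5) (nat_lit 116) (nat_lit 5) (nat_lit 621) (nat_lit 509) (nat_lit 430)) (XT.nd (nat_lit 78) (nat_lit 304) (nat_lit 0) (XT.lf (nat_lit 0) (nat_lit 7713757679) (nat_lit 304) (nat_lit 2612497217) (nat_lit 380) (nat_lit 2601636132) (nat_lit 111) (nat_lit 5) (nat_lit 115) (nat_lit 5) (nat_lit 116) (nat_lit 5) (nat_lit 622) (nat_lit 509) (nat_lit 429)) (XT.lf (nat_lit 0) (nat_lit 1586094971) (nat_lit 304) (nat_lit 9225955350) (nat_lit 76) (nat_lit 2265755426) (nat_lit 107) (nat_lit 5) (nat_lit 111) (nat_lit 5) (nat_lit 108) (nat_lit 5) (nat_lit 623) (nat_lit 509) (nat_lit 428)))) (XT.nd (nat_lit 156) (nat_lit 608) (nat_lit 0) (XT.nd (nat_lit 78) (nat_lit 304) (nat_lit 0) (XT.lf (nat_lit 0) (nat_lit 5844006062) (nat_lit 304) (nat_lit 147520691)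 (nat_lit 76) (nat_lit 7238424035) (nat_lit 107) (nat_lit 5) (nat_lit 111) (nat_lit 5) (nat_lit 108) (nat_lit 5) (nat_lit 624) (nat_lit 509) (nat_lit 427)) (XT.lf (nat_lit 0) (nat_lit 9181356539) (nat_lit 304) (nat_lit 1034650001) (nat_lit 380) (nat_lit 3168554733) (nat_lit 103) (nat_lit 5) (nat_lit 107) (nat_lit 5) (nat_lit 108) (nat_lit 5) (nat_lit 625) (nat_lit 509) (nat_lit 426))) (XT.nd (nat_lit 78) (nat_lit 304) (nat_lit 0) (XT.lf (nat_lit 0) (nat_lit 1148491234) (nat_lit 304) (nat_lit 8402952931) (nat_lit 76) (nat_lit 3990070375) (nat_lit 99) (nat_lit 5) (nat_lit 103) (nat_lit 5) (nat_lit 100) (nat_lit 5) (nat_lit 626) (nat_lit 509) (nat_lit 425)) (XT.lf (nat_lit 0) (nat_lit 955867082) (nat_lit 304) (nat_lit 4564592218) (nat_lit 380) (nat_lit 8180509626) (nat_lit 95) (nat_lit 5) (nat_lit 99) (nat_lit 5) (nat_lit 100) (nat_lit 5) (nat_lit 627) (nat_lit 509) (nat_lit 424))))) (XT.nd (nat_lit 234) (nat_lit 532) (nat_lit 0) (XT.nd (nat_lit 78) (nat_lit 532) (nat_lit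 0) (XT.lf (nat_lit 0) (nat_lit 10009661806) (nat_lit 380) (nat_lit 3302349738) (nat_lit 76) (nat_lit 551006033) (nat_lit 95) (nat_lit 5) (nat_lit 100) (nat_lit 5) (nat_lit 96) (nat_lit 5) (nat_lit 628) (nat_lit 509) (nat_lit 423)) (XT.nd (nat_lit 78) (nat_lit 228) (nat_lit 0) (XT.lf (nat_lit 0) (nat_lit 594841446) (nat_lit 304) (nat_lit 7700180099) (nat_lit 76) (nat_lit 5732376944) (nat_lit 91) (nat_lit 5) (nat_lit 95) (nat_lit 5) (nat_lit 92) (nat_lit 5) (nat_lit 629) (nat_lit 509) (nat_lit 422)) (XT.lf (nat_lit 0) (nat_lit 1948493096) (nat_lit 228) (nat_lit 3137218071) (nat_lit 304) (nat_lit 9108741355) (nat_lit 88) (nat_lit 5) (nat_lit 91) (nat_lit 5) (nat_lit 92) (nat_lit 5) (nat_lit 630) (nat_lit 509) (nat_lit 421)))) (XT.nd (nat_lit 156) (nat_lit 304) (nat_lit 0) (XT.nd (nat_lit 78) (nat_lit 228) (nat_lit 0) (XT.lf (nat_lit 0) (nat_lit 9702616854) (nat_lit 304) (nat_lit 2534459548) (nat_lit 76) (nat_lit 2127047857) (nat_lit 88) (nat_lit 5) (nat_lit 92) (nat_lit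 5) (nat_lit 89) (nat_lit 5) (nat_lit 631) (nat_lit 509) (nat_lit 420)) (XT.lf (nat_lit 0) (nat_lit 7397481843) (nat_lit 228) (nat_lit 7054179913) (nat_lit 304) (nat_lit 84732630) (nat_lit 85) (nat_lit 5) (nat_lit 88) (nat_lit 5) (nat_lit 89) (nat_lit 5) (nat_lit 632) (nat_lit 509) (nat_lit 419))) (XT.nd (nat_lit 78) (nat_lit 0) (nat_lit 0) (XT.lf (nat_lit 0) (nat_lit 2807508255) (nat_lit 228) (nat_lit 1722353415) (nat_lit 304) (nat_lit 10181526020) (nat_lit 81) (nat_lit 5) (nat_lit 84) (nat_lit 5) (nat_lit 85) (nat_lit 5) (nat_lit 633) (nat_lit 509) (nat_lit 418)) (XT.lf (nat_lit 0) (nat_lit 9279122886) (nat_lit 304) (nat_lit 1914498119) (nat_lit 76) (nat_lit 3695379384) (nat_lit 81) (nat_lit 5) (nat_lit 85) (nat_lit 5) (nat_lit 82) (nat_lit 5) (nat_lit 634) (nat_lit 509) (nat_lit 417))))))))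
noncomputable def xc56 : XT := (XT.nd (nat_lit 74802) (nat_lit 0) (nat_lit 19456) (XT.nd (nat_lit 1092) (nat_lit 304) (nat_lit 0) (XT.nd (nat_lit 468) (nat_lit 1064) (nat_lit 0) (XT.nd (nat_lit 234) (nat_lit 532) (nat_lit 0) (XT.nd (nat_lit 78) (nat_lit 304) (nat_lit 0) (XT.lf (nat_lit 0) (nat_lit 8323212355) (nat_lit 228) (nat_lit 5837326598) (nat_lit 304) (nat_lit 908883897) (nat_lit 78) (nat_lit 5) (nat_lit 81) (nat_lit 5) (nat_lit 82) (nat_lit 5) (nat_lit 635) (nat_lit 509) (nat_lit 416)) (XT.nd (nat_lit 78) (nat_lit 0) (nat_lit 0) (XT.lf (nat_lit 0) (nat_lit 3509883297) (nat_lit 228) (nat_lit 332773815) (nat_lit 304) (nat_lit 11410142992) (nat_lit 74) (nat_lit 5) (nat_lit 77) (nat_lit 5) (nat_lit 78) (nat_lit 5) (nat_lit 636) (nat_lit 509) (nat_lit 415)) (XT.lf (nat_lit 0) (nat_lit 8728807826) (nat_lit 304) (nat_lit 1466371488) (nat_lit 76) (nat_lit 5243511308) (nat_lit 74) (nat_lit 5) (nat_lit 78) (nat_lit 5) (nat_lit 75) (nat_lit 5) (nat_lit 637) (nat_lit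 509) (nat_lit 414)))) (XT.nd (nat_lit 78) (nat_lit 304) (nat_lit 0) (XT.lf (nat_lit 0) (nat_lit 9084245079) (nat_lit 228) (nat_lit 4662046347) (nat_lit 304) (nat_lit 1881336160) (nat_lit 71) (nat_lit 5) (nat_lit 74) (nat_lit 5) (nat_lit 75) (nat_lit 5) (nat_lit 638) (nat_lit 509) (nat_lit 413)) (XT.nd (nat_lit 78) (nat_lit 0) (nat_lit 0) (XT.lf (nat_lit 0) (nat_lit 3019013478) (nat_lit 304) (nat_lit 11796197923) (nat_lit 76) (nat_lit 1004434408) (nat_lit 67) (nat_lit 5) (nat_lit 71) (nat_lit 5) (nat_lit 68) (nat_lit 5) (nat_lit 639) (nat_lit 509) (nat_lit 412)) (XT.lf (nat_lit 0) (nat_lit 8039841203) (nat_lit 304) (nat_lit 1216476963) (nat_lit 76) (nat_lit 6757985059) (nat_lit 67) (nat_lit 5) (nat_lit 71) (nat_lit 5) (nat_lit 68) (nat_lit 5) (nat_lit 640) (nat_lit 509) (nat_lit 411))))) (XT.nd (nat_lit 234) (nat_lit 608) (nat_lit 0) (XT.nd (nat_lit 78) (nat_lit 304) (nat_lit 0) (XT.lf (nat_lit 0) (nat_lit 9653863843) (nat_lit 152) (nat_lit 3543002717) (nat_lit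 228) (nat_lit 3015272378) (nat_lit 65) (nat_lit 5) (nat_lit 67) (nat_lit 5) (nat_lit 68) (nat_lit 5) (nat_lit 641) (nat_lit 509) (nat_lit 410)) (XT.nd (nat_lit 78) (nat_lit 0) (nat_lit 0) (XT.lf (nat_lit 0) (nat_lit 2040874688) (nat_lit 304) (nat_lit 12088196550) (nat_lit 76) (nat_lit 2284104178) (nat_lit 61) (nat_lit 5) (nat_lit 65) (nat_lit 5) (nat_lit 62) (nat_lit 5) (nat_lit 642) (nat_lit 509) (nat_lit 409)) (XT.lf (nat_lit 0) (nat_lit 7198802390) (nat_lit 304) (nat_lit 1193996208) (nat_lit 76) (nat_lit 8224215489) (nat_lit 61) (nat_lit 5) (nat_lit 65) (nat_lit 5) (nat_lit 62) (nat_lit 5) (nat_lit 643) (nat_lit 509) (nat_lit 408)))) (XT.nd (nat_lit 156) (nat_lit 152) (nat_lit 0) (XT.nd (nat_lit 78) (nat_lit 304) (nat_lit 0) (XT.lf (nat_lit 0) (nat_lit 10002491152) (nat_lit 152) (nat_lit 2496095130) (nat_lit 228) (nat_lit 4325570008) (nat_lit 59) (nat_lit 5) (nat_lit 61) (nat_lit 5) (nat_lit 62) (nat_lit 5) (nat_lit 644) (nat_lit 509) (nat_lit 407)) (XT.lf (nat_lit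 0) (nat_lit 891006580) (nat_lit 304) (nat_lit 12648989457) (nat_lit 76) (nat_lit 3494663586) (nat_lit 55) (nat_lit 5) (nat_lit 59) (nat_lit 5) (nat_lit 56) (nat_lit 5) (nat_lit 645) (nat_lit 509) (nat_lit 406))) (XT.nd (nat_lit 78) (nat_lit 152) (nat_lit 0) (XT.lf (nat_lit 0) (nat_lit 6190533220) (nat_lit 304) (nat_lit 1431217476) (nat_lit 76) (nat_lit 9626320399) (nat_lit 55) (nat_lit 5) (nat_lit 59) (nat_lit 5) (nat_lit 56) (nat_lit 5) (nat_lit 646) (nat_lit 509) (nat_lit 405)) (XT.lf (nat_lit 0) (nat_lit 10097356346) (nat_lit 152) (nat_lit 1538638276) (nat_lit 228) (nat_lit 5828957946) (nat_lit 53) (nat_lit 5) (nat_lit 55) (nat_lit 5) (nat_lit 56) (nat_lit 5) (nat_lit 647) (nat_lit 509) (nat_lit 404)))))) (XT.nd (nat_lit 73164) (nat_lit 0) (nat_lit 39824) (XT.nd (nat_lit 72852) (nat_lit 0) (nat_lit 46512) (XT.nd (nat_lit 72696) (nat_lit 0) (nat_lit 49628) (XT.lf (nat_lit 0) (nat_lit 4997973503) (nat_lit 304) (nat_lit 1963890189) (nat_lit 76) (nat_lit 10946935227)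 (nat_lit 49) (nat_lit 5) (nat_lit 53) (nat_lit 5) (nat_lit 50) (nat_lit 5) (nat_lit 649) (nat_lit 509) (nat_lit 402)) (XT.nd (nat_lit 78) (nat_lit 76) (nat_lit 0) (XT.lf (nat_lit 0) (nat_lit 1170476018) (nat_lit 836) (nat_lit 1073061011) (nat_lit 836) (nat_lit 1073061011) (nat_lit 703) (nat_lit 4) (nat_lit 714) (nat_lit 5) (nat_lit 714) (nat_lit 4) (nat_lit 540) (nat_lit 510) (nat_lit 510)) (XT.lf (nat_lit 0) (nat_lit 1123257991) (nat_lit 912) (nat_lit 56388673) (nat_lit 76) (nat_lit 5473479129) (nat_lit 702) (nat_lit 5) (nat_lit 714) (nat_lit 5) (nat_lit 703) (nat_lit 4) (nat_lit 541) (nat_lit 510) (nat_lit 509)))) (XT.nd (nat_lit 156) (nat_lit 1140) (nat_lit 0) (XT.nd (nat_lit 78) (nat_lit 1064) (nat_lit 0) (XT.lf (nat_lit 0) (nat_lit 4249786631) (nat_lit 912) (nat_lit 133842466) (nat_lit 988) (nat_lit 2290465417) (nat_lit 690) (nat_lit 5) (nat_lit 702) (nat_lit 5) (nat_lit 703) (nat_lit 4) (nat_lit 542) (nat_lit 510) (nat_lit 508)) (XT.lf (nat_lit 0) (nat_lit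 946805371) (nat_lit 1064) (nat_lit 4793548266) (nat_lit 76) (nat_lit 956080335) (nat_lit 676) (nat_lit 5) (nat_lit 690) (nat_lit 5) (nat_lit 677) (nat_lit 4) (nat_lit 543) (nat_lit 510) (nat_lit 507))) (XT.nd (nat_lit 78) (nat_lit 1140) (nat_lit 0) (XT.lf (nat_lit 0) (nat_lit 4163912766) (nat_lit 1064) (nat_lit 443273596) (nat_lit 76) (nat_lit 2112826149) (nat_lit 676) (nat_lit 5) (nat_lit 690) (nat_lit 5) (nat_lit 677) (nat_lit 4) (nat_lit 544) (nat_lit 510) (nat_lit 506)) (XT.lf (nat_lit 0) (nat_lit 647575282) (nat_lit 1140) (nat_lit 2759454428) (nat_lit 76) (nat_lit 3337842283) (nat_lit 661) (nat_lit 5) (nat_lit 676) (nat_lit 5) (nat_lit 662) (nat_lit 5) (nat_lit 545) (nat_lit 510) (nat_lit 505))))) (XT.nd (nat_lit 234) (nat_lit 4256) (nat_lit 0) (XT.nd (nat_lit 78) (nat_lit 1292) (nat_lit 0) (XT.lf (nat_lit 0) (nat_lit 1686561936) (nat_lit 1140) (nat_lit 2138926873) (nat_lit 1216) (nat_lit 2945523827) (nat_lit 646) (nat_lit 5) (nat_lit 661) (nat_lit 5) (nat_lit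 662) (nat_lit 5) (nat_lit 546) (nat_lit 510) (nat_lit 504)) (XT.nd (nat_lit 78) (nat_lit 1216) (nat_lit 0) (XT.lf (nat_lit 0) (nat_lit 215339716) (nat_lit 1216) (nat_lit 597956313) (nat_lit 76) (nat_lit 5985362687) (nat_lit 645) (nat_lit 5) (nat_lit 661) (nat_lit 5) (nat_lit 646) (nat_lit 5) (nat_lit 547) (nat_lit 510) (nat_lit 503)) (XT.lf (nat_lit 0) (nat_lit 3361860265) (nat_lit 1292) (nat_lit 2877120191) (nat_lit 76) (nat_lit 588259408) (nat_lit 629) (nat_lit 5) (nat_lit 646) (nat_lit 5) (nat_lit 630) (nat_lit 5) (nat_lit 548) (nat_lit 510) (nat_lit 502)))) (XT.nd (nat_lit 156) (nat_lit 2888) (nat_lit 0) (XT.nd (nat_lit 78) (nat_lit 76) (nat_lit 0) (XT.lf (nat_lit 0) (nat_lit 1700244161) (nat_lit 1292) (nat_lit 4824863507) (nat_lit 1368) (nat_lit 332218008) (nat_lit 612) (nat_lit 5) (nat_lit 629) (nat_lit 5) (nat_lit 630) (nat_lit 5) (nat_lit 549) (nat_lit 510) (nat_lit 501)) (XT.lf (nat_lit 0) (nat_lit 2779308790) (nat_lit 1368) (nat_lit 556293069) (nat_lit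 76) (nat_lit 3552982943) (nat_lit 611) (nat_lit 5) (nat_lit 629) (nat_lit 5) (nat_lit 612) (nat_lit 5) (nat_lit 550) (nat_lit 510) (nat_lit 500))) (XT.nd (nat_lit 78) (nat_lit 1520) (nat_lit 0) (XT.lf (nat_lit 0) (nat_lit 4131534461) (nat_lit 1368) (nat_lit 1779033499) (nat_lit 1444) (nat_lit 1010626679) (nat_lit 593) (nat_lit 5) (nat_lit 611) (nat_lit 5) (nat_lit 612) (nat_lit 5) (nat_lit 551) (nat_lit 510) (nat_lit 499)) (XT.lf (nat_lit 0) (nat_lit 1920023083) (nat_lit 1444) (nat_lit 153593075) (nat_lit 1520) (nat_lit 4881533093) (nat_lit 573) (nat_lit 5) (nat_lit 592) (nat_lit 5) (nat_lit 593) (nat_lit 5) (nat_lit 552) (nat_lit 510) (nat_lit 498))))))) (XT.nd (nat_lit 1014) (nat_lit 7904) (nat_lit 0) (XT.nd (nat_lit 468) (nat_lit 5776) (nat_lit 0) (XT.nd (nat_lit 234) (nat_lit 3496) (nat_lit 0) (XT.nd (nat_lit 78) (nat_lit 3192) (nat_lit 0) (XT.lf (nat_lit 0) (nat_lit 5171163953) (nat_lit 1520) (nat_lit 302671855) (nat_lit 76) (nat_lit 1516518460) (nat_lit 573)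 (nat_lit 5) (nat_lit 593) (nat_lit 5) (nat_lit 574) (nat_lit 5) (nat_lit 553) (nat_lit 510) (nat_lit 497)) (XT.nd (nat_lit 78) (nat_lit 1596) (nat_lit 0) (XT.lf (nat_lit 0) (nat_lit 1255246186) (nat_lit 1596) (nat_lit 2509647345) (nat_lit 76) (nat_lit 3261849043) (nat_lit 552) (nat_lit 5) (nat_lit 573) (nat_lit 5) (nat_lit 553) (nat_lit 5) (nat_lit 554) (nat_lit 510) (nat_lit 496)) (XT.lf (nat_lit 0) (nat_lit 2334396593) (nat_lit 1596) (nat_lit 1987849435) (nat_lit 1672) (nat_lit 2742270955) (nat_lit 531) (nat_lit 5) (nat_lit 552) (nat_lit 5) (nat_lit 553) (nat_lit 5) (nat_lit 555) (nat_lit 510) (nat_lit 495)))) (XT.nd (nat_lit 78) (nat_lit 1748) (nat_lit 0) (XT.lf (nat_lit 0) (nat_lit 148060266) (nat_lit 1672) (nat_lit 151472877) (nat_lit 1748) (nat_lit 6804344778) (nat_lit 508) (nat_lit 5) (nat_lit 530) (nat_lit 5) (nat_lit 531) (nat_lit 5) (nat_lit 556) (nat_lit 510) (nat_lit 494)) (XT.nd (nat_lit 78) (nat_lit 1748) (nat_lit 0) (XT.lf (nat_lit 0) (nat_lit 3348102870)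 (nat_lit 1748) (nat_lit 2044014682) (nat_lit 76) (nat_lit 1751900101) (nat_lit 508) (nat_lit 5) (nat_lit 531) (nat_lit 5) (nat_lit 509) (nat_lit 5) (nat_lit 557) (nat_lit 510) (nat_lit 493)) (XT.lf (nat_lit 0) (nat_lit 2945815846) (nat_lit 1748) (nat_lit 3472628494) (nat_lit 1824) (nat_lit 767306765) (nat_lit 485) (nat_lit 5) (nat_lit 508) (nat_lit 5) (nat_lit 509) (nat_lit 5) (nat_lit 558) (nat_lit 510) (nat_lit 492))))) (XT.nd (nat_lit 234) (nat_lit 2736) (nat_lit 0) (XT.nd (nat_lit 78) (nat_lit 1140) (nat_lit 0) (XT.lf (nat_lit 0) (nat_lit 771812115) (nat_lit 1824) (nat_lit 1479494770) (nat_lit 1900) (nat_lit 4977519797) (nat_lit 460) (nat_lit 5) (nat_lit 484) (nat_lit 5) (nat_lit 485) (nat_lit 5) (nat_lit 559) (nat_lit 510) (nat_lit 491)) (XT.nd (nat_lit 78) (nat_lit 1140) (nat_lit 0) (XT.lf (nat_lit 0) (nat_lit 5294111099) (nat_lit 1900) (nat_lit 1398828323) (nat_lit 76) (nat_lit 580247596) (nat_lit 460) (nat_lit 5) (nat_lit 485) (nat_lit 5) (nat_lit 461)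 (nat_lit 5) (nat_lit 560) (nat_lit 510) (nat_lit 490)) (XT.lf (nat_lit 0) (nat_lit 1042104865) (nat_lit 1140) (nat_lit 3583835909) (nat_lit 76) (nat_lit 2692821435) (nat_lit 445) (nat_lit 5) (nat_lit 460) (nat_lit 5) (nat_lit 446) (nat_lit 5) (nat_lit 561) (nat_lit 510) (nat_lit 489)))) (XT.nd (nat_lit 156) (nat_lit 1824) (nat_lit 0) (XT.nd (nat_lit 78) (nat_lit 0) (nat_lit 0) (XT.lf (nat_lit 0) (nat_lit 1574478887) (nat_lit 912) (nat_lit 2485781463) (nat_lit 988) (nat_lit 3305472059) (nat_lit 433) (nat_lit 5) (nat_lit 445) (nat_lit 5) (nat_lit 446) (nat_lit 5) (nat_lit 562) (nat_lit 510) (nat_lit 488)) (XT.lf (nat_lit 0) (nat_lit 6826664704) (nat_lit 912) (nat_lit 280253139) (nat_lit 988) (nat_lit 307367430) (nat_lit 433) (nat_lit 5) (nat_lit 445) (nat_lit 5) (nat_lit 446) (nat_lit 5) (nat_lit 563) (nat_lit 510) (nat_lit 487))) (XT.nd (nat_lit 78) (nat_lit 836) (nat_lit 0) (XT.lf (nat_lit 0) (nat_lit 2703090114) (nat_lit 988) (nat_lit 2770570165) (nat_lit 76)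 (nat_lit 1990028194) (nat_lit 420) (nat_lit 5) (nat_lit 433) (nat_lit 5) (nat_lit 421) (nat_lit 5) (nat_lit 564) (nat_lit 510) (nat_lit 486)) (XT.lf (nat_lit 0) (nat_lit 2544713818) (nat_lit 836) (nat_lit 3192789615) (nat_lit 912) (nat_lit 1777184113) (nat_lit 409) (nat_lit 5) (nat_lit 420) (nat_lit 5) (nat_lit 421) (nat_lit 5) (nat_lit 565) (nat_lit 510) (nat_lit 485)))))) (XT.nd (nat_lit 546) (nat_lit 3648) (nat_lit 0) (XT.nd (nat_lit 234) (nat_lit 2508) (nat_lit 0) (XT.nd (nat_lit 78) (nat_lit 836) (nat_lit 0) (XT.lf (nat_lit 0) (nat_lit 375586437) (nat_lit 836) (nat_lit 840705667) (nat_lit 912) (nat_lit 6350915660) (nat_lit 397) (nat_lit 5) (nat_lit 408) (nat_lit 5) (nat_lit 409) (nat_lit 5) (nat_lit 566) (nat_lit 510) (nat_lit 484)) (XT.nd (nat_lit 78) (nat_lit 836) (nat_lit 0) (XT.lf (nat_lit 0) (nat_lit 4236050575) (nat_lit 912) (nat_lit 1805974175) (nat_lit 76) (nat_lit 1578719868) (nat_lit 397) (nat_lit 5) (nat_lit 409) (nat_lit 5) (nat_lit 398) (nat_lit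 5) (nat_lit 567) (nat_lit 510) (nat_lit 483)) (XT.lf (nat_lit 0) (nat_lit 3671955787) (nat_lit 836) (nat_lit 3621202548) (nat_lit 912) (nat_lit 382660046) (nat_lit 386) (nat_lit 5) (nat_lit 397) (nat_lit 5) (nat_lit 398) (nat_lit 5) (nat_lit 568) (nat_lit 510) (nat_lit 482)))) (XT.nd (nat_lit 156) (nat_lit 1596) (nat_lit 0) (XT.nd (nat_lit 78) (nat_lit 0) (nat_lit 0) (XT.lf (nat_lit 0) (nat_lit 1495979547) (nat_lit 836) (nat_lit 1118058177) (nat_lit 912) (nat_lit 5118217733) (nat_lit 374) (nat_lit 5) (nat_lit 385) (nat_lit 5) (nat_lit 386) (nat_lit 5) (nat_lit 569) (nat_lit 510) (nat_lit 481)) (XT.lf (nat_lit 0) (nat_lit 5650370585) (nat_lit 912) (nat_lit 700168584) (nat_lit 76) (nat_lit 1439539972) (nat_lit 374) (nat_lit 5) (nat_lit 386) (nat_lit 5) (nat_lit 375) (nat_lit 5) (nat_lit 570) (nat_lit 510) (nat_lit 480))) (XT.nd (nat_lit 78) (nat_lit 760) (nat_lit 0) (XT.lf (nat_lit 0) (nat_lit 875496968) (nat_lit 836) (nat_lit 2908706386) (nat_lit 76) (nat_lit 4064965878)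 (nat_lit 363) (nat_lit 5) (nat_lit 374) (nat_lit 5) (nat_lit 364) (nat_lit 5) (nat_lit 571) (nat_lit 510) (nat_lit 479)) (XT.lf (nat_lit 0) (nat_lit 2757937177) (nat_lit 760) (nat_lit 1136831247) (nat_lit 836) (nat_lit 4014946249) (nat_lit 353) (nat_lit 5) (nat_lit 363) (nat_lit 5) (nat_lit 364) (nat_lit 5) (nat_lit 572) (nat_lit 510) (nat_lit 478))))) (XT.nd (nat_lit 234) (nat_lit 2128) (nat_lit 0) (XT.nd (nat_lit 78) (nat_lit 836) (nat_lit 0) (XT.lf (nat_lit 0) (nat_lit 544475765) (nat_lit 684) (nat_lit 6413592148) (nat_lit 760) (nat_lit 1013734830) (nat_lit 344) (nat_lit 5) (nat_lit 353) (nat_lit 5) (nat_lit 354) (nat_lit 5) (nat_lit 573) (nat_lit 510) (nat_lit 477)) (XT.nd (nat_lit 78) (nat_lit 760) (nat_lit 0) (XT.lf (nat_lit 0) (nat_lit 2013550858) (nat_lit 760) (nat_lit 1689926048) (nat_lit 76) (nat_lit 4331536124) (nat_lit 343) (nat_lit 5) (nat_lit 353) (nat_lit 5) (nat_lit 344) (nat_lit 5) (nat_lit 574) (nat_lit 510) (nat_lit 476)) (XT.lf (nat_lit 0) (nat_lit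 4152200277) (nat_lit 760) (nat_lit 914123338) (nat_lit 836) (nat_lit 3033463898) (nat_lit 333) (nat_lit 5) (nat_lit 343) (nat_lit 5) (nat_lit 344) (nat_lit 5) (nat_lit 575) (nat_lit 510) (nat_lit 475)))) (XT.nd (nat_lit 156) (nat_lit 1368) (nat_lit 0) (XT.nd (nat_lit 78) (nat_lit 0) (nat_lit 0) (XT.lf (nat_lit 0) (nat_lit 2522763) (nat_lit 760) (nat_lit 6243343722) (nat_lit 76) (nat_lit 1920224971) (nat_lit 323) (nat_lit 5) (nat_lit 333) (nat_lit 5) (nat_lit 324) (nat_lit 5) (nat_lit 576) (nat_lit 510) (nat_lit 474)) (XT.lf (nat_lit 0) (nat_lit 3043674436) (nat_lit 760) (nat_lit 354050542) (nat_lit 76) (nat_lit 4835898270) (nat_lit 323) (nat_lit 5) (nat_lit 333) (nat_lit 5) (nat_lit 324) (nat_lit 5) (nat_lit 577) (nat_lit 510) (nat_lit 473))) (XT.nd (nat_lit 78) (nat_lit 684) (nat_lit 0) (XT.lf (nat_lit 0) (nat_lit 5669998940) (nat_lit 684) (nat_lit 465704549) (nat_lit 760) (nat_lit 2167005083) (nat_lit 314) (nat_lit 5) (nat_lit 323) (nat_lit 5) (nat_lit 324) (nat_lit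 5) (nat_lit 578) (nat_lit 510) (nat_lit 472)) (XT.lf (nat_lit 0) (nat_lit 899026203) (nat_lit 684) (nat_lit 4962471304) (nat_lit 76) (nat_lit 2511669978) (nat_lit 305) (nat_lit 5) (nat_lit 314) (nat_lit 5) (nat_lit 306) (nat_lit 5) (nat_lit 579) (nat_lit 510) (nat_lit 471))))))))
noncomputable def xc57 : XT := (XT.nd (nat_lit 2106) (nat_lit 6688) (nat_lit 0) (XT.nd (nat_lit 1014) (nat_lit 4788) (nat_lit 0) (XT.nd (nat_lit 468) (nat_lit 2888) (nat_lit 0) (XT.nd (nat_lit 234) (nat_lit 1292) (nat_lit 0) (XT.nd (nat_lit 78) (nat_lit 684) (nat_lit 0) (XT.lf (nat_lit 0) (nat_lit 1104804387) (nat_lit 684) (nat_lit 2874570735) (nat_lit 760) (nat_lit 4465737465) (nat_lit 296) (nat_lit 5) (nat_lit 305) (nat_lit 5) (nat_lit 306) (nat_lit 5) (nat_lit 580) (nat_lit 510) (nat_lit 470)) (XT.nd (nat_lit 78) (nat_lit 684) (nat_lit 0) (XT.lf (nat_lit 0) (nat_lit 7110363699) (nat_lit 760) (nat_lit 1217036090) (nat_lit 76) (nat_lit 191319827) (nat_lit 296) (nat_lit 5) (nat_lit 306)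 (nat_lit 5) (nat_lit 297) (nat_lit 5) (nat_lit 581) (nat_lit 510) (nat_lit 469)) (XT.lf (nat_lit 0) (nat_lit 1694691933) (nat_lit 684) (nat_lit 3586748750) (nat_lit 76) (nat_lit 3312000610) (nat_lit 287) (nat_lit 5) (nat_lit 296) (nat_lit 5) (nat_lit 288) (nat_lit 5) (nat_lit 582) (nat_lit 510) (nat_lit 468)))) (XT.nd (nat_lit 78) (nat_lit 684) (nat_lit 0) (XT.lf (nat_lit 0) (nat_lit 2669904532) (nat_lit 608) (nat_lit 2152110166) (nat_lit 684) (nat_lit 3847838552) (nat_lit 279) (nat_lit 5) (nat_lit 287) (nat_lit 5) (nat_lit 288) (nat_lit 5) (nat_lit 583) (nat_lit 510) (nat_lit 467)) (XT.nd (nat_lit 78) (nat_lit 76) (nat_lit 0) (XT.lf (nat_lit 0) (nat_lit 291867546) (nat_lit 608) (nat_lit 7708804087) (nat_lit 684) (nat_lit 747349458) (nat_lit 271) (nat_lit 5) (nat_lit 279) (nat_lit 5) (nat_lit 280) (nat_lit 5) (nat_lit 584) (nat_lit 510) (nat_lit 466)) (XT.lf (nat_lit 0) (nat_lit 2394367400) (nat_lit 684) (nat_lit 2124548394) (nat_lit 76) (nat_lit 4308308284) (nat_lit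 270) (nat_lit 5) (nat_lit 279) (nat_lit 5) (nat_lit 271) (nat_lit 5) (nat_lit 585) (nat_lit 510) (nat_lit 465))))) (XT.nd (nat_lit 234) (nat_lit 1672) (nat_lit 0) (XT.nd (nat_lit 78) (nat_lit 608) (nat_lit 0) (XT.lf (nat_lit 0) (nat_lit 4328396832) (nat_lit 608) (nat_lit 1245598757) (nat_lit 684) (nat_lit 3334218259) (nat_lit 262) (nat_lit 5) (nat_lit 270) (nat_lit 5) (nat_lit 271) (nat_lit 5) (nat_lit 586) (nat_lit 510) (nat_lit 464)) (XT.nd (nat_lit 78) (nat_lit 76) (nat_lit 0) (XT.lf (nat_lit 0) (nat_lit 1902430670) (nat_lit 532) (nat_lit 6912434189) (nat_lit 608) (nat_lit 176008726) (nat_lit 255) (nat_lit 5) (nat_lit 262) (nat_lit 5) (nat_lit 263) (nat_lit 5) (nat_lit 587) (nat_lit 510) (nat_lit 463)) (XT.lf (nat_lit 0) (nat_lit 3002148027) (nat_lit 608) (nat_lit 584078814) (nat_lit 76) (nat_lit 5488632771) (nat_lit 254) (nat_lit 5) (nat_lit 262) (nat_lit 5) (nat_lit 255) (nat_lit 5) (nat_lit 588) (nat_lit 510) (nat_lit 462)))) (XT.nd (nat_lit 156) (nat_lit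 532) (nat_lit 0) (XT.nd (nat_lit 78) (nat_lit 608) (nat_lit 0) (XT.lf (nat_lit 0) (nat_lit 6072291400) (nat_lit 532) (nat_lit 167017920) (nat_lit 608) (nat_lit 2921239767) (nat_lit 247) (nat_lit 5) (nat_lit 254) (nat_lit 5) (nat_lit 255) (nat_lit 5) (nat_lit 589) (nat_lit 510) (nat_lit 461)) (XT.lf (nat_lit 0) (nat_lit 297003294) (nat_lit 608) (nat_lit 5659333989) (nat_lit 76) (nat_lit 3291428073) (nat_lit 239) (nat_lit 5) (nat_lit 247) (nat_lit 5) (nat_lit 240) (nat_lit 5) (nat_lit 590) (nat_lit 510) (nat_lit 460))) (XT.nd (nat_lit 78) (nat_lit 0) (nat_lit 0) (XT.lf (nat_lit 0) (nat_lit 1040171268) (nat_lit 532) (nat_lit 2487975451) (nat_lit 608) (nat_lit 5808442813) (nat_lit 232) (nat_lit 5) (nat_lit 239) (nat_lit 5) (nat_lit 240) (nat_lit 5) (nat_lit 591) (nat_lit 510) (nat_lit 459)) (XT.lf (nat_lit 0) (nat_lit 6828184670) (nat_lit 608) (nat_lit 1540540197) (nat_lit 76) (nat_lit 1058382628) (nat_lit 232) (nat_lit 5) (nat_lit 240) (nat_lit 5) (nat_lit 233) (nat_lit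 5) (nat_lit 592) (nat_lit 510) (nat_lit 458)))))) (XT.nd (nat_lit 546) (nat_lit 2204) (nat_lit 0) (XT.nd (nat_lit 234) (nat_lit 1064) (nat_lit 0) (XT.nd (nat_lit 78) (nat_lit 988) (nat_lit 0) (XT.lf (nat_lit 0) (nat_lit 677234354) (nat_lit 532) (nat_lit 4175849895) (nat_lit 76) (nat_lit 4666040634) (nat_lit 225) (nat_lit 5) (nat_lit 232) (nat_lit 5) (nat_lit 226) (nat_lit 5) (nat_lit 593) (nat_lit 510) (nat_lit 457)) (XT.nd (nat_lit 78) (nat_lit 456) (nat_lit 0) (XT.lf (nat_lit 0) (nat_lit 2735005101) (nat_lit 532) (nat_lit 1237489249) (nat_lit 608) (nat_lit 5640379684) (nat_lit 218) (nat_lit 5) (nat_lit 225) (nat_lit 5) (nat_lit 226) (nat_lit 5) (nat_lit 594) (nat_lit 510) (nat_lit 456)) (XT.lf (nat_lit 0) (nat_lit 60675763) (nat_lit 456) (nat_lit 7277986385) (nat_lit 532) (nat_lit 2369738494) (nat_lit 212) (nat_lit 5) (nat_lit 218) (nat_lit 5) (nat_lit 219) (nat_lit 5) (nat_lit 595) (nat_lit 510) (nat_lit 455)))) (XT.nd (nat_lit 156) (nat_lit 532) (nat_lit 0)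 (XT.nd (nat_lit 78) (nat_lit 456) (nat_lit 0) (XT.lf (nat_lit 0) (nat_lit 968935519) (nat_lit 532) (nat_lit 2645387890) (nat_lit 76) (nat_lit 6191085453) (nat_lit 211) (nat_lit 5) (nat_lit 218) (nat_lit 5) (nat_lit 212) (nat_lit 5) (nat_lit 596) (nat_lit 510) (nat_lit 454)) (XT.lf (nat_lit 0) (nat_lit 4334188176) (nat_lit 532) (nat_lit 5420906432) (nat_lit 76) (nat_lit 149121019) (nat_lit 205) (nat_lit 5) (nat_lit 212) (nat_lit 5) (nat_lit 206) (nat_lit 5) (nat_lit 597) (nat_lit 510) (nat_lit 453))) (XT.nd (nat_lit 78) (nat_lit 76) (nat_lit 0) (XT.lf (nat_lit 0) (nat_lit 1728317422) (nat_lit 456) (nat_lit 6053150162) (nat_lit 532) (nat_lit 2223238843) (nat_lit 199) (nat_lit 5) (nat_lit 205) (nat_lit 5) (nat_lit 206) (nat_lit 5) (nat_lit 598) (nat_lit 510) (nat_lit 452)) (XT.lf (nat_lit 0) (nat_lit 1173320973) (nat_lit 532) (nat_lit 1076674685) (nat_lit 76) (nat_lit 7857090062) (nat_lit 198) (nat_lit 5) (nat_lit 205) (nat_lit 5) (nat_lit 199) (nat_lit 5) (nat_lit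 599) (nat_lit 510) (nat_lit 451))))) (XT.nd (nat_lit 234) (nat_lit 836) (nat_lit 0) (XT.nd (nat_lit 78) (nat_lit 912) (nat_lit 0) (XT.lf (nat_lit 0) (nat_lit 4622251334) (nat_lit 532) (nat_lit 3942445918) (nat_lit 76) (nat_lit 1646239463) (nat_lit 192) (nat_lit 5) (nat_lit 199) (nat_lit 5) (nat_lit 193) (nat_lit 5) (nat_lit 600) (nat_lit 510) (nat_lit 450)) (XT.nd (nat_lit 78) (nat_lit 532) (nat_lit 0) (XT.lf (nat_lit 0) (nat_lit 3433116370) (nat_lit 380) (nat_lit 4714349853) (nat_lit 456) (nat_lit 2169254544) (nat_lit 187) (nat_lit 5) (nat_lit 192) (nat_lit 5) (nat_lit 193) (nat_lit 5) (nat_lit 601) (nat_lit 510) (nat_lit 449)) (XT.lf (nat_lit 0) (nat_lit 528205901) (nat_lit 456) (nat_lit 766094245) (nat_lit 532) (nat_lit 9130290637) (nat_lit 180) (nat_lit 5) (nat_lit 186) (nat_lit 5) (nat_lit 187) (nat_lit 5) (nat_lit 602) (nat_lit 510) (nat_lit 448)))) (XT.nd (nat_lit 156) (nat_lit 456) (nat_lit 0) (XT.nd (nat_lit 78) (nat_lit 380) (nat_lit 0) (XT.lf (nat_lit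 0) (nat_lit 4828994484) (nat_lit 532) (nat_lit 2443752862) (nat_lit 76) (nat_lit 3260967812) (nat_lit 180) (nat_lit 5) (nat_lit 187) (nat_lit 5) (nat_lit 181) (nat_lit 5) (nat_lit 603) (nat_lit 510) (nat_lit 447)) (XT.lf (nat_lit 0) (nat_lit 5165929283) (nat_lit 380) (nat_lit 3271004597) (nat_lit 456) (nat_lit 2208039108) (nat_lit 175) (nat_lit 5) (nat_lit 180) (nat_lit 5) (nat_lit 181) (nat_lit 5) (nat_lit 604) (nat_lit 510) (nat_lit 446))) (XT.nd (nat_lit 78) (nat_lit 0) (nat_lit 0) (XT.lf (nat_lit 0) (nat_lit 1340794110) (nat_lit 456) (nat_lit 8596291872) (nat_lit 76) (nat_lit 821194772) (nat_lit 169) (nat_lit 5) (nat_lit 175) (nat_lit 5) (nat_lit 170) (nat_lit 5) (nat_lit 605) (nat_lit 510) (nat_lit 445)) (XT.lf (nat_lit 0) (nat_lit 4954021132) (nat_lit 456) (nat_lit 934567797) (nat_lit 76) (nat_lit 4984516064) (nat_lit 169) (nat_lit 5) (nat_lit 175) (nat_lit 5) (nat_lit 170) (nat_lit 5) (nat_lit 606) (nat_lit 510) (nat_lit 444))))))) (XT.nd (nat_lit 1092)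 (nat_lit 2888) (nat_lit 0) (XT.nd (nat_lit 546) (nat_lit 1824) (nat_lit 0) (XT.nd (nat_lit 234) (nat_lit 760) (nat_lit 0) (XT.nd (nat_lit 78) (nat_lit 836) (nat_lit 0) (XT.lf (nat_lit 0) (nat_lit 6917157660) (nat_lit 380) (nat_lit 1732248265) (nat_lit 456) (nat_lit 2340623768) (nat_lit 164) (nat_lit 5) (nat_lit 169) (nat_lit 5) (nat_lit 170) (nat_lit 5) (nat_lit 607) (nat_lit 510) (nat_lit 443)) (XT.nd (nat_lit 78) (nat_lit 380) (nat_lit 0) (XT.lf (nat_lit 0) (nat_lit 1304833109) (nat_lit 456) (nat_lit 7308746592) (nat_lit 76) (nat_lit 2495292909) (nat_lit 158) (nat_lit 5) (nat_lit 164) (nat_lit 5) (nat_lit 159) (nat_lit 5) (nat_lit 608) (nat_lit 510) (nat_lit 442)) (XT.lf (nat_lit 0) (nat_lit 582455529) (nat_lit 380) (nat_lit 4417498806) (nat_lit 456) (nat_lit 6229668431) (nat_lit 153) (nat_lit 5) (nat_lit 158) (nat_lit 5) (nat_lit 159) (nat_lit 5) (nat_lit 609) (nat_lit 510) (nat_lit 441)))) (XT.nd (nat_lit 156) (nat_lit 304) (nat_lit 0) (XT.nd (nat_lit 78) (nat_lit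 456) (nat_lit 0) (XT.lf (nat_lit 0) (nat_lit 8676633825) (nat_lit 380) (nat_lit 107021202) (nat_lit 456) (nat_lit 2568841055) (nat_lit 153) (nat_lit 5) (nat_lit 158) (nat_lit 5) (nat_lit 159) (nat_lit 5) (nat_lit 610) (nat_lit 510) (nat_lit 440)) (XT.lf (nat_lit 0) (nat_lit 1179498939) (nat_lit 456) (nat_lit 6039984573) (nat_lit 76) (nat_lit 4257602124) (nat_lit 147) (nat_lit 5) (nat_lit 153) (nat_lit 5) (nat_lit 148) (nat_lit 5) (nat_lit 611) (nat_lit 510) (nat_lit 439))) (XT.nd (nat_lit 78) (nat_lit 0) (nat_lit 0) (XT.lf (nat_lit 0) (nat_lit 2100990754) (nat_lit 304) (nat_lit 2866151568) (nat_lit 380) (nat_lit 6636711993) (nat_lit 143) (nat_lit 5) (nat_lit 147) (nat_lit 5) (nat_lit 148) (nat_lit 5) (nat_lit 612) (nat_lit 510) (nat_lit 438)) (XT.lf (nat_lit 0) (nat_lit 8848023463) (nat_lit 380) (nat_lit 1309879549) (nat_lit 76) (nat_lit 1574907227) (nat_lit 143) (nat_lit 5) (nat_lit 148) (nat_lit 5) (nat_lit 144) (nat_lit 5) (nat_lit 613) (nat_lit 510) (nat_lit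 437))))) (XT.nd (nat_lit 234) (nat_lit 760) (nat_lit 0) (XT.nd (nat_lit 78) (nat_lit 608) (nat_lit 0) (XT.lf (nat_lit 0) (nat_lit 962023481) (nat_lit 456) (nat_lit 4802003067) (nat_lit 76) (nat_lit 6099553831) (nat_lit 137) (nat_lit 5) (nat_lit 143) (nat_lit 5) (nat_lit 138) (nat_lit 5) (nat_lit 614) (nat_lit 510) (nat_lit 436)) (XT.nd (nat_lit 78) (nat_lit 304) (nat_lit 0) (XT.lf (nat_lit 0) (nat_lit 3596698123) (nat_lit 304) (nat_lit 1249890375) (nat_lit 380) (nat_lit 7150008618) (nat_lit 133) (nat_lit 5) (nat_lit 137) (nat_lit 5) (nat_lit 138) (nat_lit 5) (nat_lit 615) (nat_lit 510) (nat_lit 435)) (XT.lf (nat_lit 0) (nat_lit 22219818) (nat_lit 304) (nat_lit 8808369409) (nat_lit 380) (nat_lit 3301251523) (nat_lit 129) (nat_lit 5) (nat_lit 133) (nat_lit 5) (nat_lit 134) (nat_lit 5) (nat_lit 616) (nat_lit 510) (nat_lit 434)))) (XT.nd (nat_lit 156) (nat_lit 380) (nat_lit 0) (XT.nd (nat_lit 78) (nat_lit 304) (nat_lit 0) (XT.lf (nat_lit 0) (nat_lit 648774765) (nat_lit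 380) (nat_lit 3607723362) (nat_lit 76) (nat_lit 8012561748) (nat_lit 128) (nat_lit 5) (nat_lit 133) (nat_lit 5) (nat_lit 129) (nat_lit 5) (nat_lit 617) (nat_lit 510) (nat_lit 433)) (XT.lf (nat_lit 0) (nat_lit 4637315117) (nat_lit 380) (nat_lit 7354601198) (nat_lit 76) (nat_lit 416597665) (nat_lit 124) (nat_lit 5) (nat_lit 129) (nat_lit 5) (nat_lit 125) (nat_lit 5) (nat_lit 618) (nat_lit 510) (nat_lit 432))) (XT.nd (nat_lit 78) (nat_lit 76) (nat_lit 0) (XT.lf (nat_lit 0) (nat_lit 1324309304) (nat_lit 304) (nat_lit 7410738077) (nat_lit 380) (nat_lit 3815122702) (nat_lit 120) (nat_lit 5) (nat_lit 124) (nat_lit 5) (nat_lit 125) (nat_lit 5) (nat_lit 619) (nat_lit 510) (nat_lit 431)) (XT.lf (nat_lit 0) (nat_lit 235209290) (nat_lit 380) (nat_lit 2471138012) (nat_lit 76) (nat_lit 9987924306) (nat_lit 119) (nat_lit 5) (nat_lit 124) (nat_lit 5) (nat_lit 120) (nat_lit 5) (nat_lit 620) (nat_lit 510) (nat_lit 430)))))) (XT.nd (nat_lit 546) (nat_lit 1368) (nat_lit 0) (XT.nd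 (nat_lit 234) (nat_lit 912) (nat_lit 0) (XT.nd (nat_lit 78) (nat_lit 304) (nat_lit 0) (XT.lf (nat_lit 0) (nat_lit 4340359027) (nat_lit 380) (nat_lit 6387378269) (nat_lit 76) (nat_lit 2112516858) (nat_lit 115) (nat_lit 5) (nat_lit 120) (nat_lit 5) (nat_lit 116) (nat_lit 5) (nat_lit 621) (nat_lit 510) (nat_lit 429)) (XT.nd (nat_lit 78) (nat_lit 0) (nat_lit 0) (XT.lf (nat_lit 0) (nat_lit 2564313648) (nat_lit 304) (nat_lit 5983672063) (nat_lit 380) (nat_lit 4440764399) (nat_lit 111) (nat_lit 5) (nat_lit 115) (nat_lit 5) (nat_lit 116) (nat_lit 5) (nat_lit 622) (nat_lit 510) (nat_lit 428)) (XT.lf (nat_lit 0) (nat_lit 11730632252) (nat_lit 304) (nat_lit 1121379428) (nat_lit 380) (nat_lit 287960584) (nat_lit 111) (nat_lit 5) (nat_lit 115) (nat_lit 5) (nat_lit 116) (nat_lit 5) (nat_lit 623) (nat_lit 510) (nat_lit 427)))) (XT.nd (nat_lit 156) (nat_lit 304) (nat_lit 0) (XT.nd (nat_lit 78) (nat_lit 304) (nat_lit 0) (XT.lf (nat_lit 0) (nat_lit 3941924781) (nat_lit 304) (nat_lit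 5506096149) (nat_lit 76) (nat_lit 3844770393) (nat_lit 107) (nat_lit 5) (nat_lit 111) (nat_lit 5) (nat_lit 108) (nat_lit 5) (nat_lit 624) (nat_lit 510) (nat_lit 426)) (XT.lf (nat_lit 0) (nat_lit 3726220822) (nat_lit 304) (nat_lit 4537395625) (nat_lit 380) (nat_lit 5184792103) (nat_lit 103) (nat_lit 5) (nat_lit 107) (nat_lit 5) (nat_lit 108) (nat_lit 5) (nat_lit 625) (nat_lit 510) (nat_lit 425))) (XT.nd (nat_lit 78) (nat_lit 304) (nat_lit 0) (XT.lf (nat_lit 0) (nat_lit 12682049160) (nat_lit 380) (nat_lit 442547330) (nat_lit 76) (nat_lit 482336609) (nat_lit 103) (nat_lit 5) (nat_lit 108) (nat_lit 5) (nat_lit 104) (nat_lit 5) (nat_lit 626) (nat_lit 510) (nat_lit 424)) (XT.lf (nat_lit 0) (nat_lit 3435282957) (nat_lit 304) (nat_lit 4728224968) (nat_lit 76) (nat_lit 5603478818) (nat_lit 99) (nat_lit 5) (nat_lit 103) (nat_lit 5) (nat_lit 100) (nat_lit 5) (nat_lit 627) (nat_lit 510) (nat_lit 423))))) (XT.nd (nat_lit 234) (nat_lit 760) (nat_lit 0) (XT.nd (nat_lit 78) (nat_lit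 304) (nat_lit 0) (XT.lf (nat_lit 0) (nat_lit 4792489952) (nat_lit 304) (nat_lit 3082597546) (nat_lit 380) (nat_lit 6054936377) (nat_lit 95) (nat_lit 5) (nat_lit 99) (nat_lit 5) (nat_lit 100) (nat_lit 5) (nat_lit 628) (nat_lit 510) (nat_lit 422)) (XT.nd (nat_lit 78) (nat_lit 76) (nat_lit 0) (XT.lf (nat_lit 0) (nat_lit 413750401) (nat_lit 228) (nat_lit 12009020229) (nat_lit 304) (nat_lit 1673170506) (nat_lit 92) (nat_lit 5) (nat_lit 95) (nat_lit 5) (nat_lit 96) (nat_lit 5) (nat_lit 629) (nat_lit 510) (nat_lit 421)) (XT.lf (nat_lit 0) (nat_lit 2812576875) (nat_lit 304) (nat_lit 4072919957) (nat_lit 76) (nat_lit 7378257422) (nat_lit 91) (nat_lit 5) (nat_lit 95) (nat_lit 5) (nat_lit 92) (nat_lit 5) (nat_lit 630) (nat_lit 510) (nat_lit 420)))) (XT.nd (nat_lit 156) (nat_lit 304) (nat_lit 0) (XT.nd (nat_lit 78) (nat_lit 228) (nat_lit 0) (XT.lf (nat_lit 0) (nat_lit 5743849966) (nat_lit 228) (nat_lit 1630551243) (nat_lit 304) (nat_lit 7060126894) (nat_lit 88) (nat_lit 5)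 (nat_lit 91) (nat_lit 5) (nat_lit 92) (nat_lit 5) (nat_lit 631) (nat_lit 510) (nat_lit 419)) (XT.lf (nat_lit 0) (nat_lit 1145572532) (nat_lit 228) (nat_lit 10912618277) (nat_lit 304) (nat_lit 2549913000) (nat_lit 85) (nat_lit 5) (nat_lit 88) (nat_lit 5) (nat_lit 89) (nat_lit 5) (nat_lit 632) (nat_lit 510) (nat_lit 418))) (XT.nd (nat_lit 78) (nat_lit 228) (nat_lit 0) (XT.lf (nat_lit 0) (nat_lit 2064733749) (nat_lit 304) (nat_lit 3561235722) (nat_lit 76) (nat_lit 9158093787) (nat_lit 84) (nat_lit 5) (nat_lit 88) (nat_lit 5) (nat_lit 85) (nat_lit 5) (nat_lit 633) (nat_lit 510) (nat_lit 417)) (XT.lf (nat_lit 0) (nat_lit 6559079363) (nat_lit 228) (nat_lit 193242785) (nat_lit 304) (nat_lit 8210587710) (nat_lit 81) (nat_lit 5) (nat_lit 84) (nat_lit 5) (nat_lit 85) (nat_lit 5) (nat_lit 634) (nat_lit 510) (nat_lit 416))))))))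
noncomputable def xc58 : XT := (XT.nd (nat_lit 74646) (nat_lit 0) (nat_lit 20824) (XT.nd (nat_lit 1092) (nat_lit 304) (nat_lit 0) (XT.nd (nat_lit 468) (nat_lit 1064) (nat_lit 0) (XT.nd (nat_lit 234) (nat_lit 532) (nat_lit 0) (XT.nd (nat_lit 78) (nat_lit 304) (nat_lit 0) (XT.lf (nat_lit 0) (nat_lit 1724709117) (nat_lit 228) (nat_lit 9851208788) (nat_lit 304) (nat_lit 3568571259) (nat_lit 78) (nat_lit 5) (nat_lit 81) (nat_lit 5) (nat_lit 82) (nat_lit 5) (nat_lit 635) (nat_lit 510) (nat_lit 415)) (XT.nd (nat_lit 78) (nat_lit 228) (nat_lit 0) (XT.lf (nat_lit 0) (nat_lit 1181364235) (nat_lit 304) (nat_lit 3216360855) (nat_lit 76) (nat_lit 10931216874) (nat_lit 77) (nat_lit 5) (nat_lit 81) (nat_lit 5) (nat_lit 78) (nat_lit 5) (nat_lit 636) (nat_lit 510) (nat_lit 414)) (XT.lf (nat_lit 0) (nat_lit 6006171259) (nat_lit 304) (nat_lit 8309351046) (nat_lit 76) (nat_lit 1200537462) (nat_lit 74) (nat_lit 5) (nat_lit 78) (nat_lit 5) (nat_lit 75) (nat_lit 5) (nat_lit 637) (nat_lit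 510) (nat_lit 413)))) (XT.nd (nat_lit 78) (nat_lit 304) (nat_lit 0) (XT.lf (nat_lit 0) (nat_lit 2126524457) (nat_lit 228) (nat_lit 8838573004) (nat_lit 304) (nat_lit 4741070824) (nat_lit 71) (nat_lit 5) (nat_lit 74) (nat_lit 5) (nat_lit 75) (nat_lit 5) (nat_lit 638) (nat_lit 510) (nat_lit 412)) (XT.nd (nat_lit 78) (nat_lit 228) (nat_lit 0) (XT.lf (nat_lit 0) (nat_lit 150649336) (nat_lit 304) (nat_lit 3063875214) (nat_lit 76) (nat_lit 12684956400) (nat_lit 70) (nat_lit 5) (nat_lit 74) (nat_lit 5) (nat_lit 71) (nat_lit 5) (nat_lit 639) (nat_lit 510) (nat_lit 411)) (XT.lf (nat_lit 0) (nat_lit 5116999726) (nat_lit 304) (nat_lit 8427309108) (nat_lit 76) (nat_lit 2550919460) (nat_lit 67) (nat_lit 5) (nat_lit 71) (nat_lit 5) (nat_lit 68) (nat_lit 5) (nat_lit 640) (nat_lit 510) (nat_lit 410))))) (XT.nd (nat_lit 234) (nat_lit 608) (nat_lit 0) (XT.nd (nat_lit 78) (nat_lit 304) (nat_lit 0) (XT.lf (nat_lit 0) (nat_lit 2323800732) (nat_lit 152) (nat_lit 7889577871) (nat_lit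 228) (nat_lit 6080898707) (nat_lit 65) (nat_lit 5) (nat_lit 67) (nat_lit 5) (nat_lit 68) (nat_lit 5) (nat_lit 641) (nat_lit 510) (nat_lit 409)) (XT.nd (nat_lit 78) (nat_lit 304) (nat_lit 0) (XT.lf (nat_lit 0) (nat_lit 13357820434) (nat_lit 152) (nat_lit 2084261670) (nat_lit 228) (nat_lit 1054618001) (nat_lit 65) (nat_lit 5) (nat_lit 67) (nat_lit 5) (nat_lit 68) (nat_lit 5) (nat_lit 642) (nat_lit 510) (nat_lit 408)) (XT.lf (nat_lit 0) (nat_lit 4069828854) (nat_lit 304) (nat_lit 8786149196) (nat_lit 76) (nat_lit 3845644270) (nat_lit 61) (nat_lit 5) (nat_lit 65) (nat_lit 5) (nat_lit 62) (nat_lit 5) (nat_lit 643) (nat_lit 510) (nat_lit 407)))) (XT.nd (nat_lit 156) (nat_lit 456) (nat_lit 0) (XT.nd (nat_lit 78) (nat_lit 0) (nat_lit 0) (XT.lf (nat_lit 0) (nat_lit 2286435671) (nat_lit 152) (nat_lit 7020341423) (nat_lit 228) (nat_lit 7603244487) (nat_lit 59) (nat_lit 5) (nat_lit 61) (nat_lit 5) (nat_lit 62) (nat_lit 5) (nat_lit 644) (nat_lit 510) (nat_lit 406)) (XT.lf (nat_lit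 0) (nat_lit 13654008364) (nat_lit 152) (nat_lit 1027893761) (nat_lit 228) (nat_lit 2440018629) (nat_lit 59) (nat_lit 5) (nat_lit 61) (nat_lit 5) (nat_lit 62) (nat_lit 5) (nat_lit 645) (nat_lit 510) (nat_lit 405))) (XT.nd (nat_lit 78) (nat_lit 152) (nat_lit 0) (XT.lf (nat_lit 0) (nat_lit 2849188770) (nat_lit 304) (nat_lit 9418700603) (nat_lit 76) (nat_lit 5068606432) (nat_lit 55) (nat_lit 5) (nat_lit 59) (nat_lit 5) (nat_lit 56) (nat_lit 5) (nat_lit 646) (nat_lit 510) (nat_lit 404)) (XT.lf (nat_lit 0) (nat_lit 1981110045) (nat_lit 152) (nat_lit 6248412262) (nat_lit 228) (nat_lit 9325157849) (nat_lit 53) (nat_lit 5) (nat_lit 55) (nat_lit 5) (nat_lit 56) (nat_lit 5) (nat_lit 647) (nat_lit 510) (nat_lit 403)))))) (XT.nd (nat_lit 73008) (nat_lit 0) (nat_lit 42712) (XT.nd (nat_lit 72696) (nat_lit 0) (nat_lit 47652) (XT.nd (nat_lit 72540) (nat_lit 0) (nat_lit 50540) (XT.lf (nat_lit 0) (nat_lit 1437698676) (nat_lit 304) (nat_lit 10361278023) (nat_lit 76) (nat_lit 6202202971)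 (nat_lit 49) (nat_lit 5) (nat_lit 53) (nat_lit 5) (nat_lit 50) (nat_lit 5) (nat_lit 649) (nat_lit 510) (nat_lit 401)) (XT.nd (nat_lit 78) (nat_lit 0) (nat_lit 0) (XT.lf (nat_lit 0) (nat_lit 150909114) (nat_lit 836) (nat_lit 2996717501) (nat_lit 0) (nat_lit 150909114) (nat_lit 714) (nat_lit 5) (nat_lit 725) (nat_lit 4) (nat_lit 714) (nat_lit 4) (nat_lit 538) (nat_lit 511) (nat_lit 511)) (XT.lf (nat_lit 0) (nat_lit 3558867147) (nat_lit 836) (nat_lit 1868876142) (nat_lit 0) (nat_lit 1186989935) (nat_lit 714) (nat_lit 5) (nat_lit 725) (nat_lit 4) (nat_lit 714) (nat_lit 4) (nat_lit 539) (nat_lit 511) (nat_lit 510)))) (XT.nd (nat_lit 156) (nat_lit 1976) (nat_lit 0) (XT.nd (nat_lit 78) (nat_lit 0) (nat_lit 0) (XT.lf (nat_lit 0) (nat_lit 185791985) (nat_lit 912) (nat_lit 4321947218) (nat_lit 76) (nat_lit 2126173134) (nat_lit 702) (nat_lit 5) (nat_lit 714) (nat_lit 5) (nat_lit 703) (nat_lit 4) (nat_lit 540) (nat_lit 511) (nat_lit 509)) (XT.lf (nat_lit 0) (nat_lit 3390748376)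 (nat_lit 912) (nat_lit 127709637) (nat_lit 76) (nat_lit 3135836303) (nat_lit 702) (nat_lit 5) (nat_lit 714) (nat_lit 5) (nat_lit 703) (nat_lit 4) (nat_lit 541) (nat_lit 511) (nat_lit 508))) (XT.nd (nat_lit 78) (nat_lit 1064) (nat_lit 0) (XT.lf (nat_lit 0) (nat_lit 4150016234) (nat_lit 912) (nat_lit 2464889936) (nat_lit 988) (nat_lit 61086439) (nat_lit 690) (nat_lit 5) (nat_lit 702) (nat_lit 5) (nat_lit 703) (nat_lit 4) (nat_lit 542) (nat_lit 511) (nat_lit 507)) (XT.lf (nat_lit 0) (nat_lit 1763813988) (nat_lit 988) (nat_lit 1340616611) (nat_lit 1064) (nat_lit 3594467377) (nat_lit 676) (nat_lit 5) (nat_lit 689) (nat_lit 5) (nat_lit 690) (nat_lit 5) (nat_lit 543) (nat_lit 511) (nat_lit 506))))) (XT.nd (nat_lit 234) (nat_lit 2660) (nat_lit 0) (XT.nd (nat_lit 78) (nat_lit 2280) (nat_lit 0) (XT.lf (nat_lit 0) (nat_lit 6118173747) (nat_lit 988) (nat_lit 160988449) (nat_lit 1064) (nat_lit 444166838) (nat_lit 676) (nat_lit 5) (nat_lit 689) (nat_lit 5) (nat_lit 690) (nat_lit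 5) (nat_lit 544) (nat_lit 511) (nat_lit 505)) (XT.nd (nat_lit 78) (nat_lit 1140) (nat_lit 0) (XT.lf (nat_lit 0) (nat_lit 2695244286) (nat_lit 1140) (nat_lit 2967768294) (nat_lit 76) (nat_lit 1085637811) (nat_lit 661) (nat_lit 5) (nat_lit 676) (nat_lit 5) (nat_lit 662) (nat_lit 5) (nat_lit 545) (nat_lit 511) (nat_lit 504)) (XT.lf (nat_lit 0) (nat_lit 1447382504) (nat_lit 1140) (nat_lit 4390449635) (nat_lit 1216) (nat_lit 937670120) (nat_lit 646) (nat_lit 5) (nat_lit 661) (nat_lit 5) (nat_lit 662) (nat_lit 5) (nat_lit 546) (nat_lit 511) (nat_lit 503)))) (XT.nd (nat_lit 156) (nat_lit 1368) (nat_lit 0) (XT.nd (nat_lit 78) (nat_lit 1216) (nat_lit 0) (XT.lf (nat_lit 0) (nat_lit 2163345643) (nat_lit 1216) (nat_lit 882657864) (nat_lit 76) (nat_lit 3757558924) (nat_lit 645) (nat_lit 5) (nat_lit 661) (nat_lit 5) (nat_lit 646) (nat_lit 5) (nat_lit 547) (nat_lit 511) (nat_lit 502)) (XT.lf (nat_lit 0) (nat_lit 3637770128) (nat_lit 1216) (nat_lit 1633315053) (nat_lit 1292) (nat_lit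 1561838458) (nat_lit 629) (nat_lit 5) (nat_lit 645) (nat_lit 5) (nat_lit 646) (nat_lit 5) (nat_lit 548) (nat_lit 511) (nat_lit 501))) (XT.nd (nat_lit 78) (nat_lit 0) (nat_lit 0) (XT.lf (nat_lit 0) (nat_lit 1349265596) (nat_lit 1292) (nat_lit 156997462) (nat_lit 1368) (nat_lit 5357435656) (nat_lit 611) (nat_lit 5) (nat_lit 628) (nat_lit 5) (nat_lit 629) (nat_lit 5) (nat_lit 549) (nat_lit 511) (nat_lit 500)) (XT.lf (nat_lit 0) (nat_lit 4580295316) (nat_lit 1368) (nat_lit 942981520) (nat_lit 76) (nat_lit 1372304799) (nat_lit 611) (nat_lit 5) (nat_lit 629) (nat_lit 5) (nat_lit 612) (nat_lit 5) (nat_lit 550) (nat_lit 511) (nat_lit 499))))))) (XT.nd (nat_lit 1014) (nat_lit 8284) (nat_lit 0) (XT.nd (nat_lit 468) (nat_lit 7448) (nat_lit 0) (XT.nd (nat_lit 234) (nat_lit 3268) (nat_lit 0) (XT.nd (nat_lit 78) (nat_lit 1444) (nat_lit 0) (XT.lf (nat_lit 0) (nat_lit 738644202) (nat_lit 1444) (nat_lit 3222045915) (nat_lit 76) (nat_lit 2968092551) (nat_lit 592) (nat_lit 5) (nat_lit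 611) (nat_lit 5) (nat_lit 593) (nat_lit 5) (nat_lit 551) (nat_lit 511) (nat_lit 498)) (XT.nd (nat_lit 78) (nat_lit 0) (nat_lit 0) (XT.lf (nat_lit 0) (nat_lit 1446988000) (nat_lit 1444) (nat_lit 2328314395) (nat_lit 1520) (nat_lit 3187994197) (nat_lit 573) (nat_lit 5) (nat_lit 592) (nat_lit 5) (nat_lit 593) (nat_lit 5) (nat_lit 552) (nat_lit 511) (nat_lit 497)) (XT.lf (nat_lit 0) (nat_lit 6197123666) (nat_lit 1444) (nat_lit 634923662) (nat_lit 1520) (nat_lit 167274204) (nat_lit 573) (nat_lit 5) (nat_lit 592) (nat_lit 5) (nat_lit 593) (nat_lit 5) (nat_lit 553) (nat_lit 511) (nat_lit 496)))) (XT.nd (nat_lit 78) (nat_lit 1672) (nat_lit 0) (XT.lf (nat_lit 0) (nat_lit 2847477452) (nat_lit 1596) (nat_lit 3059990762) (nat_lit 76) (nat_lit 1128791226) (nat_lit 552) (nat_lit 5) (nat_lit 573) (nat_lit 5) (nat_lit 553) (nat_lit 5) (nat_lit 554) (nat_lit 511) (nat_lit 495)) (XT.nd (nat_lit 78) (nat_lit 76) (nat_lit 0) (XT.lf (nat_lit 0) (nat_lit 1748362575) (nat_lit 1596) (nat_lit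 4132320382) (nat_lit 1672) (nat_lit 1194030422) (nat_lit 531) (nat_lit 5) (nat_lit 552) (nat_lit 5) (nat_lit 553) (nat_lit 5) (nat_lit 555) (nat_lit 511) (nat_lit 494)) (XT.lf (nat_lit 0) (nat_lit 1796725470) (nat_lit 1672) (nat_lit 488383886) (nat_lit 76) (nat_lit 4829382274) (nat_lit 530) (nat_lit 5) (nat_lit 552) (nat_lit 5) (nat_lit 531) (nat_lit 5) (nat_lit 556) (nat_lit 511) (nat_lit 493))))) (XT.nd (nat_lit 234) (nat_lit 2128) (nat_lit 0) (XT.nd (nat_lit 78) (nat_lit 3648) (nat_lit 0) (XT.lf (nat_lit 0) (nat_lit 4440790583) (nat_lit 1672) (nat_lit 360386389) (nat_lit 1748) (nat_lit 2354340187) (nat_lit 508) (nat_lit 5) (nat_lit 530) (nat_lit 5) (nat_lit 531) (nat_lit 5) (nat_lit 557) (nat_lit 511) (nat_lit 492)) (XT.nd (nat_lit 78) (nat_lit 1824) (nat_lit 0) (XT.lf (nat_lit 0) (nat_lit 629468213) (nat_lit 1824) (nat_lit 4961993459) (nat_lit 76) (nat_lit 1606423810) (nat_lit 484) (nat_lit 5) (nat_lit 508) (nat_lit 5) (nat_lit 485) (nat_lit 5) (nat_lit 558)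 (nat_lit 511) (nat_lit 491)) (XT.lf (nat_lit 0) (nat_lit 6463347) (nat_lit 1824) (nat_lit 3597983249) (nat_lit 1900) (nat_lit 3637089500) (nat_lit 460) (nat_lit 5) (nat_lit 484) (nat_lit 5) (nat_lit 485) (nat_lit 5) (nat_lit 559) (nat_lit 511) (nat_lit 490)))) (XT.nd (nat_lit 156) (nat_lit 988) (nat_lit 0) (XT.nd (nat_lit 78) (nat_lit 1140) (nat_lit 0) (XT.lf (nat_lit 0) (nat_lit 5084818670) (nat_lit 1824) (nat_lit 1530390462) (nat_lit 1900) (nat_lit 671331304) (nat_lit 460) (nat_lit 5) (nat_lit 484) (nat_lit 5) (nat_lit 485) (nat_lit 5) (nat_lit 560) (nat_lit 511) (nat_lit 489)) (XT.lf (nat_lit 0) (nat_lit 2289402382) (nat_lit 1140) (nat_lit 4438218690) (nat_lit 76) (nat_lit 605193705) (nat_lit 445) (nat_lit 5) (nat_lit 460) (nat_lit 5) (nat_lit 446) (nat_lit 5) (nat_lit 561) (nat_lit 511) (nat_lit 488))) (XT.nd (nat_lit 78) (nat_lit 76) (nat_lit 0) (XT.lf (nat_lit 0) (nat_lit 680090762) (nat_lit 912) (nat_lit 4594167687) (nat_lit 988) (nat_lit 2106195506) (nat_lit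 433) (nat_lit 5) (nat_lit 445) (nat_lit 5) (nat_lit 446) (nat_lit 5) (nat_lit 562) (nat_lit 511) (nat_lit 487)) (XT.lf (nat_lit 0) (nat_lit 852893212) (nat_lit 988) (nat_lit 1530976286) (nat_lit 76) (nat_lit 5045570742) (nat_lit 432) (nat_lit 5) (nat_lit 445) (nat_lit 5) (nat_lit 433) (nat_lit 5) (nat_lit 563) (nat_lit 511) (nat_lit 486)))))) (XT.nd (nat_lit 546) (nat_lit 3876) (nat_lit 0) (XT.nd (nat_lit 234) (nat_lit 2584) (nat_lit 0) (XT.nd (nat_lit 78) (nat_lit 912) (nat_lit 0) (XT.lf (nat_lit 0) (nat_lit 3720289898) (nat_lit 912) (nat_lit 92751729) (nat_lit 988) (nat_lit 3666690275) (nat_lit 420) (nat_lit 5) (nat_lit 432) (nat_lit 5) (nat_lit 433) (nat_lit 5) (nat_lit 564) (nat_lit 511) (nat_lit 485)) (XT.nd (nat_lit 78) (nat_lit 76) (nat_lit 0) (XT.lf (nat_lit 0) (nat_lit 1514698421) (nat_lit 836) (nat_lit 5299020998) (nat_lit 912) (nat_lit 717689027) (nat_lit 409) (nat_lit 5) (nat_lit 420) (nat_lit 5) (nat_lit 421) (nat_lit 5) (nat_lit 565) (nat_lit 511)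 (nat_lit 484)) (XT.lf (nat_lit 0) (nat_lit 2233168224) (nat_lit 912) (nat_lit 711357811) (nat_lit 76) (nat_lit 4639842174) (nat_lit 408) (nat_lit 5) (nat_lit 420) (nat_lit 5) (nat_lit 409) (nat_lit 5) (nat_lit 566) (nat_lit 511) (nat_lit 483)))) (XT.nd (nat_lit 156) (nat_lit 836) (nat_lit 0) (XT.nd (nat_lit 78) (nat_lit 912) (nat_lit 0) (XT.lf (nat_lit 0) (nat_lit 4700750404) (nat_lit 836) (nat_lit 511157240) (nat_lit 912) (nat_lit 2426820400) (nat_lit 397) (nat_lit 5) (nat_lit 408) (nat_lit 5) (nat_lit 409) (nat_lit 5) (nat_lit 567) (nat_lit 511) (nat_lit 482)) (XT.lf (nat_lit 0) (nat_lit 531038197) (nat_lit 912) (nat_lit 5198288574) (nat_lit 76) (nat_lit 1965135470) (nat_lit 385) (nat_lit 5) (nat_lit 397) (nat_lit 5) (nat_lit 386) (nat_lit 5) (nat_lit 568) (nat_lit 511) (nat_lit 481))) (XT.nd (nat_lit 78) (nat_lit 0) (nat_lit 0) (XT.lf (nat_lit 0) (nat_lit 254472940) (nat_lit 836) (nat_lit 3234873997) (nat_lit 912) (nat_lit 4262172551) (nat_lit 374) (nat_lit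 5) (nat_lit 385) (nat_lit 5) (nat_lit 386) (nat_lit 5) (nat_lit 569) (nat_lit 511) (nat_lit 480)) (XT.lf (nat_lit 0) (nat_lit 5829936734) (nat_lit 836) (nat_lit 661276362) (nat_lit 912) (nat_lit 1318821813) (nat_lit 374) (nat_lit 5) (nat_lit 385) (nat_lit 5) (nat_lit 386) (nat_lit 5) (nat_lit 570) (nat_lit 511) (nat_lit 479))))) (XT.nd (nat_lit 234) (nat_lit 2280) (nat_lit 0) (XT.nd (nat_lit 78) (nat_lit 760) (nat_lit 0) (XT.lf (nat_lit 0) (nat_lit 1647971480) (nat_lit 836) (nat_lit 4255504246) (nat_lit 76) (nat_lit 1966297913) (nat_lit 363) (nat_lit 5) (nat_lit 374) (nat_lit 5) (nat_lit 364) (nat_lit 5) (nat_lit 571) (nat_lit 511) (nat_lit 478)) (XT.nd (nat_lit 78) (nat_lit 0) (nat_lit 0) (XT.lf (nat_lit 0) (nat_lit 1364676286) (nat_lit 760) (nat_lit 3269132091) (nat_lit 836) (nat_lit 3297181657) (nat_lit 353) (nat_lit 5) (nat_lit 363) (nat_lit 5) (nat_lit 364) (nat_lit 5) (nat_lit 572) (nat_lit 511) (nat_lit 477)) (XT.lf (nat_lit 0) (nat_lit 7098375412) (nat_lit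 760) (nat_lit 560877028) (nat_lit 836) (nat_lit 334584995) (nat_lit 353) (nat_lit 5) (nat_lit 363) (nat_lit 5) (nat_lit 364) (nat_lit 5) (nat_lit 573) (nat_lit 511) (nat_lit 476)))) (XT.nd (nat_lit 156) (nat_lit 760) (nat_lit 0) (XT.nd (nat_lit 78) (nat_lit 760) (nat_lit 0) (XT.lf (nat_lit 0) (nat_lit 2650233474) (nat_lit 760) (nat_lit 3193242492) (nat_lit 76) (nat_lit 2214156900) (nat_lit 343) (nat_lit 5) (nat_lit 353) (nat_lit 5) (nat_lit 344) (nat_lit 5) (nat_lit 574) (nat_lit 511) (nat_lit 475)) (XT.lf (nat_lit 0) (nat_lit 2600496657) (nat_lit 760) (nat_lit 3068916995) (nat_lit 836) (nat_lit 2453667642) (nat_lit 333) (nat_lit 5) (nat_lit 343) (nat_lit 5) (nat_lit 344) (nat_lit 5) (nat_lit 575) (nat_lit 511) (nat_lit 474))) (XT.nd (nat_lit 78) (nat_lit 0) (nat_lit 0) (XT.lf (nat_lit 0) (nat_lit 307351670) (nat_lit 684) (nat_lit 220764768) (nat_lit 760) (nat_lit 7662127490) (nat_lit 323) (nat_lit 5) (nat_lit 332) (nat_lit 5) (nat_lit 333) (nat_lit 5) (nat_lit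 576) (nat_lit 511) (nat_lit 473)) (XT.lf (nat_lit 0) (nat_lit 3544686717) (nat_lit 760) (nat_lit 2020577913) (nat_lit 76) (nat_lit 2693004689) (nat_lit 323) (nat_lit 5) (nat_lit 333) (nat_lit 5) (nat_lit 324) (nat_lit 5) (nat_lit 577) (nat_lit 511) (nat_lit 472))))))))
noncomputable def xc59 : XT := (XT.nd (nat_lit 2106) (nat_lit 6612) (nat_lit 0) (XT.nd (nat_lit 1014) (nat_lit 4864) (nat_lit 0) (XT.nd (nat_lit 468) (nat_lit 3040) (nat_lit 0) (XT.nd (nat_lit 234) (nat_lit 1976) (nat_lit 0) (XT.nd (nat_lit 78) (nat_lit 684) (nat_lit 0) (XT.lf (nat_lit 0) (nat_lit 3953099034) (nat_lit 684) (nat_lit 2649775324) (nat_lit 760) (nat_lit 1725159046) (nat_lit 314) (nat_lit 5) (nat_lit 323) (nat_lit 5) (nat_lit 324) (nat_lit 5) (nat_lit 578) (nat_lit 511) (nat_lit 471)) (XT.nd (nat_lit 78) (nat_lit 0) (nat_lit 0) (XT.lf (nat_lit 0) (nat_lit 1286559474) (nat_lit 684) (nat_lit 6770782167) (nat_lit 76) (nat_lit 342065516) (nat_lit 305) (nat_lit 5) (nat_lit 314) (nat_lit 5)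 (nat_lit 306) (nat_lit 5) (nat_lit 579) (nat_lit 511) (nat_lit 470)) (XT.lf (nat_lit 0) (nat_lit 4337382793) (nat_lit 684) (nat_lit 746198525) (nat_lit 76) (nat_lit 3388363275) (nat_lit 305) (nat_lit 5) (nat_lit 314) (nat_lit 5) (nat_lit 306) (nat_lit 5) (nat_lit 580) (nat_lit 511) (nat_lit 469)))) (XT.nd (nat_lit 78) (nat_lit 1292) (nat_lit 0) (XT.lf (nat_lit 0) (nat_lit 5414031086) (nat_lit 684) (nat_lit 2026076302) (nat_lit 760) (nat_lit 1106011300) (nat_lit 296) (nat_lit 5) (nat_lit 305) (nat_lit 5) (nat_lit 306) (nat_lit 5) (nat_lit 581) (nat_lit 511) (nat_lit 468)) (XT.nd (nat_lit 78) (nat_lit 608) (nat_lit 0) (XT.lf (nat_lit 0) (nat_lit 1945203653) (nat_lit 684) (nat_lit 5572155863) (nat_lit 76) (nat_lit 1104400657) (nat_lit 287) (nat_lit 5) (nat_lit 296) (nat_lit 5) (nat_lit 288) (nat_lit 5) (nat_lit 582) (nat_lit 511) (nat_lit 467)) (XT.lf (nat_lit 0) (nat_lit 629770529) (nat_lit 608) (nat_lit 4407911454) (nat_lit 684) (nat_lit 3661188718) (nat_lit 279)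 (nat_lit 5) (nat_lit 287) (nat_lit 5) (nat_lit 288) (nat_lit 5) (nat_lit 583) (nat_lit 511) (nat_lit 466))))) (XT.nd (nat_lit 234) (nat_lit 1748) (nat_lit 0) (XT.nd (nat_lit 78) (nat_lit 1292) (nat_lit 0) (XT.lf (nat_lit 0) (nat_lit 6975139465) (nat_lit 608) (nat_lit 1211124531) (nat_lit 684) (nat_lit 591377694) (nat_lit 279) (nat_lit 5) (nat_lit 287) (nat_lit 5) (nat_lit 288) (nat_lit 5) (nat_lit 584) (nat_lit 511) (nat_lit 465)) (XT.nd (nat_lit 78) (nat_lit 608) (nat_lit 0) (XT.lf (nat_lit 0) (nat_lit 2507191965) (nat_lit 684) (nat_lit 4294073430) (nat_lit 76) (nat_lit 2056382646) (nat_lit 270) (nat_lit 5) (nat_lit 279) (nat_lit 5) (nat_lit 271) (nat_lit 5) (nat_lit 585) (nat_lit 511) (nat_lit 464)) (XT.lf (nat_lit 0) (nat_lit 2101953480) (nat_lit 608) (nat_lit 3549527719) (nat_lit 684) (nat_lit 3287864947) (nat_lit 262) (nat_lit 5) (nat_lit 270) (nat_lit 5) (nat_lit 271) (nat_lit 5) (nat_lit 586) (nat_lit 511) (nat_lit 463)))) (XT.nd (nat_lit 156) (nat_lit 1140)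 (nat_lit 0) (XT.nd (nat_lit 78) (nat_lit 608) (nat_lit 0) (XT.lf (nat_lit 0) (nat_lit 8628485999) (nat_lit 608) (nat_lit 217267235) (nat_lit 684) (nat_lit 177186116) (nat_lit 262) (nat_lit 5) (nat_lit 270) (nat_lit 5) (nat_lit 271) (nat_lit 5) (nat_lit 587) (nat_lit 511) (nat_lit 462)) (XT.lf (nat_lit 0) (nat_lit 2976354556) (nat_lit 608) (nat_lit 2944884505) (nat_lit 76) (nat_lit 3186180566) (nat_lit 254) (nat_lit 5) (nat_lit 262) (nat_lit 5) (nat_lit 255) (nat_lit 5) (nat_lit 588) (nat_lit 511) (nat_lit 461))) (XT.nd (nat_lit 78) (nat_lit 608) (nat_lit 0) (XT.lf (nat_lit 0) (nat_lit 3652298641) (nat_lit 532) (nat_lit 2525300494) (nat_lit 608) (nat_lit 3016229737) (nat_lit 247) (nat_lit 5) (nat_lit 254) (nat_lit 5) (nat_lit 255) (nat_lit 5) (nat_lit 589) (nat_lit 511) (nat_lit 460)) (XT.lf (nat_lit 0) (nat_lit 151351109) (nat_lit 608) (nat_lit 8191037232) (nat_lit 76) (nat_lit 939708676) (nat_lit 239) (nat_lit 5) (nat_lit 247) (nat_lit 5) (nat_lit 240) (nat_lit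 5) (nat_lit 590) (nat_lit 511) (nat_lit 459)))))) (XT.nd (nat_lit 546) (nat_lit 2280) (nat_lit 0) (XT.nd (nat_lit 234) (nat_lit 1520) (nat_lit 0) (XT.nd (nat_lit 78) (nat_lit 1064) (nat_lit 0) (XT.lf (nat_lit 0) (nat_lit 3355790412) (nat_lit 608) (nat_lit 1532880452) (nat_lit 76) (nat_lit 4482785765) (nat_lit 239) (nat_lit 5) (nat_lit 247) (nat_lit 5) (nat_lit 240) (nat_lit 5) (nat_lit 591) (nat_lit 511) (nat_lit 458)) (XT.nd (nat_lit 78) (nat_lit 532) (nat_lit 0) (XT.lf (nat_lit 0) (nat_lit 5272722541) (nat_lit 532) (nat_lit 1346319880) (nat_lit 608) (nat_lit 2843669215) (nat_lit 232) (nat_lit 5) (nat_lit 239) (nat_lit 5) (nat_lit 240) (nat_lit 5) (nat_lit 592) (nat_lit 511) (nat_lit 457)) (XT.lf (nat_lit 0) (nat_lit 389699227) (nat_lit 532) (nat_lit 6913965218) (nat_lit 76) (nat_lit 2252017610) (nat_lit 225) (nat_lit 5) (nat_lit 232) (nat_lit 5) (nat_lit 226) (nat_lit 5) (nat_lit 593) (nat_lit 511) (nat_lit 456)))) (XT.nd (nat_lit 156) (nat_lit 988) (nat_lit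 0) (XT.nd (nat_lit 78) (nat_lit 532) (nat_lit 0) (XT.lf (nat_lit 0) (nat_lit 3647876845) (nat_lit 532) (nat_lit 66381853) (nat_lit 76) (nat_lit 5935915405) (nat_lit 225) (nat_lit 5) (nat_lit 232) (nat_lit 5) (nat_lit 226) (nat_lit 5) (nat_lit 594) (nat_lit 511) (nat_lit 455)) (XT.lf (nat_lit 0) (nat_lit 6955104815) (nat_lit 532) (nat_lit 22999453) (nat_lit 608) (nat_lit 2768316476) (nat_lit 218) (nat_lit 5) (nat_lit 225) (nat_lit 5) (nat_lit 226) (nat_lit 5) (nat_lit 595) (nat_lit 511) (nat_lit 454))) (XT.nd (nat_lit 78) (nat_lit 456) (nat_lit 0) (XT.lf (nat_lit 0) (nat_lit 537846198) (nat_lit 532) (nat_lit 5597629476) (nat_lit 76) (nat_lit 3708761000) (nat_lit 211) (nat_lit 5) (nat_lit 218) (nat_lit 5) (nat_lit 212) (nat_lit 5) (nat_lit 596) (nat_lit 511) (nat_lit 453)) (XT.lf (nat_lit 0) (nat_lit 1465390137) (nat_lit 456) (nat_lit 2398397518) (nat_lit 532) (nat_lit 6080043163) (nat_lit 205) (nat_lit 5) (nat_lit 211) (nat_lit 5) (nat_lit 212) (nat_lit 5) (nat_lit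 597) (nat_lit 511) (nat_lit 452))))) (XT.nd (nat_lit 234) (nat_lit 1292) (nat_lit 0) (XT.nd (nat_lit 78) (nat_lit 988) (nat_lit 0) (XT.lf (nat_lit 0) (nat_lit 7265682590) (nat_lit 532) (nat_lit 1363535852) (nat_lit 76) (nat_lit 1416011998) (nat_lit 205) (nat_lit 5) (nat_lit 212) (nat_lit 5) (nat_lit 206) (nat_lit 5) (nat_lit 598) (nat_lit 511) (nat_lit 451)) (XT.nd (nat_lit 78) (nat_lit 456) (nat_lit 0) (XT.lf (nat_lit 0) (nat_lit 596752891) (nat_lit 532) (nat_lit 4250972716) (nat_lit 76) (nat_lit 5300508557) (nat_lit 198) (nat_lit 5) (nat_lit 205) (nat_lit 5) (nat_lit 199) (nat_lit 5) (nat_lit 599) (nat_lit 511) (nat_lit 450)) (XT.lf (nat_lit 0) (nat_lit 3035942710) (nat_lit 456) (nat_lit 959688557) (nat_lit 532) (nat_lit 6257455999) (nat_lit 192) (nat_lit 5) (nat_lit 198) (nat_lit 5) (nat_lit 199) (nat_lit 5) (nat_lit 600) (nat_lit 511) (nat_lit 449)))) (XT.nd (nat_lit 156) (nat_lit 836) (nat_lit 0) (XT.nd (nat_lit 78) (nat_lit 76) (nat_lit 0) (XT.lf (nat_lit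 0) (nat_lit 93969572) (nat_lit 380) (nat_lit 7380931485) (nat_lit 456) (nat_lit 2884890209) (nat_lit 187) (nat_lit 5) (nat_lit 192) (nat_lit 5) (nat_lit 193) (nat_lit 5) (nat_lit 601) (nat_lit 511) (nat_lit 448)) (XT.lf (nat_lit 0) (nat_lit 566647451) (nat_lit 456) (nat_lit 2883241094) (nat_lit 76) (nat_lit 7018294725) (nat_lit 186) (nat_lit 5) (nat_lit 192) (nat_lit 5) (nat_lit 187) (nat_lit 5) (nat_lit 602) (nat_lit 511) (nat_lit 447))) (XT.nd (nat_lit 78) (nat_lit 380) (nat_lit 0) (XT.lf (nat_lit 0) (nat_lit 4046969564) (nat_lit 532) (nat_lit 5947007750) (nat_lit 76) (nat_lit 584418761) (nat_lit 180) (nat_lit 5) (nat_lit 187) (nat_lit 5) (nat_lit 181) (nat_lit 5) (nat_lit 603) (nat_lit 511) (nat_lit 446)) (XT.lf (nat_lit 0) (nat_lit 1589226203) (nat_lit 380) (nat_lit 6024957546) (nat_lit 456) (nat_lit 3076285627) (nat_lit 175) (nat_lit 5) (nat_lit 180) (nat_lit 5) (nat_lit 181) (nat_lit 5) (nat_lit 604) (nat_lit 511) (nat_lit 445))))))) (XT.nd (nat_lit 1092)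 (nat_lit 2736) (nat_lit 0) (XT.nd (nat_lit 546) (nat_lit 1824) (nat_lit 0) (XT.nd (nat_lit 234) (nat_lit 1216) (nat_lit 0) (XT.nd (nat_lit 78) (nat_lit 760) (nat_lit 0) (XT.lf (nat_lit 0) (nat_lit 447012785) (nat_lit 456) (nat_lit 1504087121) (nat_lit 76) (nat_lit 8853529349) (nat_lit 174) (nat_lit 5) (nat_lit 180) (nat_lit 5) (nat_lit 175) (nat_lit 5) (nat_lit 605) (nat_lit 511) (nat_lit 444)) (XT.nd (nat_lit 78) (nat_lit 380) (nat_lit 0) (XT.lf (nat_lit 0) (nat_lit 4020275712) (nat_lit 456) (nat_lit 4681154708) (nat_lit 76) (nat_lit 2218823267) (nat_lit 169) (nat_lit 5) (nat_lit 175) (nat_lit 5) (nat_lit 170) (nat_lit 5) (nat_lit 606) (nat_lit 511) (nat_lit 443)) (XT.lf (nat_lit 0) (nat_lit 3094246962) (nat_lit 380) (nat_lit 4579597162) (nat_lit 456) (nat_lit 3364171482) (nat_lit 164) (nat_lit 5) (nat_lit 169) (nat_lit 5) (nat_lit 170) (nat_lit 5) (nat_lit 607) (nat_lit 511) (nat_lit 442)))) (XT.nd (nat_lit 156) (nat_lit 760) (nat_lit 0) (XT.nd (nat_lit 78) (nat_lit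 380) (nat_lit 0) (XT.lf (nat_lit 0) (nat_lit 236567862) (nat_lit 456) (nat_lit 123678641) (nat_lit 76) (nat_lit 10797908622) (nat_lit 163) (nat_lit 5) (nat_lit 169) (nat_lit 5) (nat_lit 164) (nat_lit 5) (nat_lit 608) (nat_lit 511) (nat_lit 441)) (XT.lf (nat_lit 0) (nat_lit 3907908580) (nat_lit 456) (nat_lit 3423929116) (nat_lit 76) (nat_lit 3947544036) (nat_lit 158) (nat_lit 5) (nat_lit 164) (nat_lit 5) (nat_lit 159) (nat_lit 5) (nat_lit 609) (nat_lit 511) (nat_lit 440))) (XT.nd (nat_lit 78) (nat_lit 380) (nat_lit 0) (XT.lf (nat_lit 0) (nat_lit 4598577360) (nat_lit 380) (nat_lit 3053825567) (nat_lit 456) (nat_lit 3750637074) (nat_lit 153) (nat_lit 5) (nat_lit 158) (nat_lit 5) (nat_lit 159) (nat_lit 5) (nat_lit 610) (nat_lit 511) (nat_lit 439)) (XT.lf (nat_lit 0) (nat_lit 1254667219) (nat_lit 380) (nat_lit 10223742413) (nat_lit 456) (nat_lit 50630989) (nat_lit 148) (nat_lit 5) (nat_lit 153) (nat_lit 5) (nat_lit 154) (nat_lit 5) (nat_lit 611) (nat_lit 511) (nat_lit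 438))))) (XT.nd (nat_lit 234) (nat_lit 1064) (nat_lit 0) (XT.nd (nat_lit 78) (nat_lit 684) (nat_lit 0) (XT.lf (nat_lit 0) (nat_lit 3707667746) (nat_lit 456) (nat_lit 2186595908) (nat_lit 76) (nat_lit 5762153171) (nat_lit 147) (nat_lit 5) (nat_lit 153) (nat_lit 5) (nat_lit 148) (nat_lit 5) (nat_lit 612) (nat_lit 511) (nat_lit 437)) (XT.nd (nat_lit 78) (nat_lit 380) (nat_lit 0) (XT.lf (nat_lit 0) (nat_lit 6091052950) (nat_lit 304) (nat_lit 1456534967) (nat_lit 380) (nat_lit 4238604813) (nat_lit 143) (nat_lit 5) (nat_lit 147) (nat_lit 5) (nat_lit 148) (nat_lit 5) (nat_lit 613) (nat_lit 511) (nat_lit 436)) (XT.lf (nat_lit 0) (nat_lit 2608185273) (nat_lit 380) (nat_lit 8875523996) (nat_lit 456) (nat_lit 434468338) (nat_lit 138) (nat_lit 5) (nat_lit 143) (nat_lit 5) (nat_lit 144) (nat_lit 5) (nat_lit 614) (nat_lit 511) (nat_lit 435)))) (XT.nd (nat_lit 156) (nat_lit 684) (nat_lit 0) (XT.nd (nat_lit 78) (nat_lit 304) (nat_lit 0) (XT.lf (nat_lit 0) (nat_lit 3416527981)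 (nat_lit 456) (nat_lit 981238315) (nat_lit 76) (nat_lit 7654270521) (nat_lit 137) (nat_lit 5) (nat_lit 143) (nat_lit 5) (nat_lit 138) (nat_lit 5) (nat_lit 615) (nat_lit 511) (nat_lit 434)) (XT.lf (nat_lit 0) (nat_lit 7357617633) (nat_lit 380) (nat_lit 4629817759) (nat_lit 76) (nat_lit 200703984) (nat_lit 133) (nat_lit 5) (nat_lit 138) (nat_lit 5) (nat_lit 134) (nat_lit 5) (nat_lit 616) (nat_lit 511) (nat_lit 433))) (XT.nd (nat_lit 78) (nat_lit 380) (nat_lit 0) (XT.lf (nat_lit 0) (nat_lit 3926612051) (nat_lit 304) (nat_lit 7480813220) (nat_lit 380) (nat_lit 918942187) (nat_lit 129) (nat_lit 5) (nat_lit 133) (nat_lit 5) (nat_lit 134) (nat_lit 5) (nat_lit 617) (nat_lit 511) (nat_lit 432)) (XT.lf (nat_lit 0) (nat_lit 181484462) (nat_lit 304) (nat_lit 2850291195) (nat_lit 380) (nat_lit 9435163387) (nat_lit 124) (nat_lit 5) (nat_lit 128) (nat_lit 5) (nat_lit 129) (nat_lit 5) (nat_lit 618) (nat_lit 511) (nat_lit 431)))))) (XT.nd (nat_lit 546) (nat_lit 1444) (nat_lit 0)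 (XT.nd (nat_lit 234) (nat_lit 608) (nat_lit 0) (XT.nd (nat_lit 78) (nat_lit 684) (nat_lit 0) (XT.lf (nat_lit 0) (nat_lit 7087000828) (nat_lit 380) (nat_lit 3630703929) (nat_lit 76) (nat_lit 1891741183) (nat_lit 124) (nat_lit 5) (nat_lit 129) (nat_lit 5) (nat_lit 125) (nat_lit 5) (nat_lit 619) (nat_lit 511) (nat_lit 430)) (XT.nd (nat_lit 78) (nat_lit 380) (nat_lit 0) (XT.lf (nat_lit 0) (nat_lit 5196317749) (nat_lit 304) (nat_lit 6049123172) (nat_lit 380) (nat_lit 1508921133) (nat_lit 120) (nat_lit 5) (nat_lit 124) (nat_lit 5) (nat_lit 125) (nat_lit 5) (nat_lit 620) (nat_lit 511) (nat_lit 429)) (XT.lf (nat_lit 0) (nat_lit 1297301504) (nat_lit 304) (nat_lit 1256188888) (nat_lit 380) (nat_lit 10348301319) (nat_lit 115) (nat_lit 5) (nat_lit 119) (nat_lit 5) (nat_lit 120) (nat_lit 5) (nat_lit 621) (nat_lit 511) (nat_lit 428)))) (XT.nd (nat_lit 156) (nat_lit 304) (nat_lit 0) (XT.nd (nat_lit 78) (nat_lit 304) (nat_lit 0) (XT.lf (nat_lit 0) (nat_lit 6721319335) (nat_lit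 380) (nat_lit 2703185102) (nat_lit 76) (nat_lit 3626579786) (nat_lit 115) (nat_lit 5) (nat_lit 120) (nat_lit 5) (nat_lit 116) (nat_lit 5) (nat_lit 622) (nat_lit 511) (nat_lit 427)) (XT.lf (nat_lit 0) (nat_lit 6402462096) (nat_lit 304) (nat_lit 4590239883) (nat_lit 380) (nat_lit 2210257853) (nat_lit 111) (nat_lit 5) (nat_lit 115) (nat_lit 5) (nat_lit 116) (nat_lit 5) (nat_lit 623) (nat_lit 511) (nat_lit 426))) (XT.nd (nat_lit 78) (nat_lit 0) (nat_lit 0) (XT.lf (nat_lit 0) (nat_lit 1971723159) (nat_lit 304) (nat_lit 11022373767) (nat_lit 76) (nat_lit 363394461) (nat_lit 107) (nat_lit 5) (nat_lit 111) (nat_lit 5) (nat_lit 108) (nat_lit 5) (nat_lit 624) (nat_lit 511) (nat_lit 425)) (XT.lf (nat_lit 0) (nat_lit 6254623245) (nat_lit 304) (nat_lit 1863451531) (nat_lit 76) (nat_lit 5395810225) (nat_lit 107) (nat_lit 5) (nat_lit 111) (nat_lit 5) (nat_lit 108) (nat_lit 5) (nat_lit 625) (nat_lit 511) (nat_lit 424))))) (XT.nd (nat_lit 234) (nat_lit 836) (nat_lit 0) (XT.nd (nat_lit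 78) (nat_lit 304) (nat_lit 0) (XT.lf (nat_lit 0) (nat_lit 7528822525) (nat_lit 304) (nat_lit 3114330194) (nat_lit 380) (nat_lit 3029855441) (nat_lit 103) (nat_lit 5) (nat_lit 107) (nat_lit 5) (nat_lit 108) (nat_lit 5) (nat_lit 626) (nat_lit 511) (nat_lit 423)) (XT.nd (nat_lit 78) (nat_lit 0) (nat_lit 0) (XT.lf (nat_lit 0) (nat_lit 1285434841) (nat_lit 304) (nat_lit 10562945297) (nat_lit 76) (nat_lit 1986405199) (nat_lit 99) (nat_lit 5) (nat_lit 103) (nat_lit 5) (nat_lit 100) (nat_lit 5) (nat_lit 627) (nat_lit 511) (nat_lit 422)) (XT.lf (nat_lit 0) (nat_lit 5679903552) (nat_lit 304) (nat_lit 1129222548) (nat_lit 76) (nat_lit 7189603599) (nat_lit 99) (nat_lit 5) (nat_lit 103) (nat_lit 5) (nat_lit 100) (nat_lit 5) (nat_lit 628) (nat_lit 511) (nat_lit 421)))) (XT.nd (nat_lit 156) (nat_lit 228) (nat_lit 0) (XT.nd (nat_lit 78) (nat_lit 304) (nat_lit 0) (XT.lf (nat_lit 0) (nat_lit 8557606888) (nat_lit 304) (nat_lit 1632055613) (nat_lit 380) (nat_lit 3975743446) (nat_lit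 95) (nat_lit 5) (nat_lit 99) (nat_lit 5) (nat_lit 100) (nat_lit 5) (nat_lit 629) (nat_lit 511) (nat_lit 420)) (XT.lf (nat_lit 0) (nat_lit 478335756) (nat_lit 304) (nat_lit 10237632635) (nat_lit 76) (nat_lit 3618787490) (nat_lit 91) (nat_lit 5) (nat_lit 95) (nat_lit 5) (nat_lit 92) (nat_lit 5) (nat_lit 630) (nat_lit 511) (nat_lit 419))) (XT.nd (nat_lit 78) (nat_lit 228) (nat_lit 0) (XT.lf (nat_lit 0) (nat_lit 4989011612) (nat_lit 304) (nat_lit 519945693) (nat_lit 76) (nat_lit 8997595868) (nat_lit 91) (nat_lit 5) (nat_lit 95) (nat_lit 5) (nat_lit 92) (nat_lit 5) (nat_lit 631) (nat_lit 511) (nat_lit 418)) (XT.lf (nat_lit 0) (nat_lit 9469248887) (nat_lit 228) (nat_lit 154693228) (nat_lit 304) (nat_lit 5057164410) (nat_lit 88) (nat_lit 5) (nat_lit 91) (nat_lit 5) (nat_lit 92) (nat_lit 5) (nat_lit 632) (nat_lit 511) (nat_lit 417))))))))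
noncomputable def xc60 : XT := (XT.nd (nat_lit 74490) (nat_lit 0) (nat_lit 22724) (XT.nd (nat_lit 1014) (nat_lit 456) (nat_lit 0) (XT.nd (nat_lit 468) (nat_lit 1140) (nat_lit 0) (XT.nd (nat_lit 234) (nat_lit 532) (nat_lit 0) (XT.nd (nat_lit 78) (nat_lit 304) (nat_lit 0) (XT.lf (nat_lit 0) (nat_lit 4787358009) (nat_lit 228) (nat_lit 9605930849) (nat_lit 304) (nat_lit 465028654) (nat_lit 85) (nat_lit 5) (nat_lit 88) (nat_lit 5) (nat_lit 89) (nat_lit 5) (nat_lit 633) (nat_lit 511) (nat_lit 416)) (XT.nd (nat_lit 78) (nat_lit 228) (nat_lit 0) (XT.lf (nat_lit 0) (nat_lit 4172567758) (nat_lit 304) (nat_lit 57014522) (nat_lit 76) (nat_lit 10808764475) (nat_lit 84) (nat_lit 5) (nat_lit 88) (nat_lit 5) (nat_lit 85) (nat_lit 5) (nat_lit 634) (nat_lit 511) (nat_lit 415)) (XT.lf (nat_lit 0) (nat_lit 8944926687) (nat_lit 304) (nat_lit 4987414285) (nat_lit 76) (nat_lit 1288610253) (nat_lit 81) (nat_lit 5) (nat_lit 85) (nat_lit 5) (nat_lit 82) (nat_lit 5) (nat_lit 635) (nat_lit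 511) (nat_lit 414)))) (XT.nd (nat_lit 78) (nat_lit 304) (nat_lit 0) (XT.lf (nat_lit 0) (nat_lit 5318842596) (nat_lit 228) (nat_lit 8530173685) (nat_lit 304) (nat_lit 1557466684) (nat_lit 78) (nat_lit 5) (nat_lit 81) (nat_lit 5) (nat_lit 82) (nat_lit 5) (nat_lit 636) (nat_lit 511) (nat_lit 413)) (XT.nd (nat_lit 78) (nat_lit 0) (nat_lit 0) (XT.lf (nat_lit 0) (nat_lit 239128993) (nat_lit 228) (nat_lit 2982281731) (nat_lit 304) (nat_lit 12373719814) (nat_lit 74) (nat_lit 5) (nat_lit 77) (nat_lit 5) (nat_lit 78) (nat_lit 5) (nat_lit 637) (nat_lit 511) (nat_lit 412)) (XT.lf (nat_lit 0) (nat_lit 8134046323) (nat_lit 304) (nat_lit 4951681573) (nat_lit 76) (nat_lit 2700437367) (nat_lit 74) (nat_lit 5) (nat_lit 78) (nat_lit 5) (nat_lit 75) (nat_lit 5) (nat_lit 638) (nat_lit 511) (nat_lit 411))))) (XT.nd (nat_lit 234) (nat_lit 608) (nat_lit 0) (XT.nd (nat_lit 78) (nat_lit 304) (nat_lit 0) (XT.lf (nat_lit 0) (nat_lit 5669728174) (nat_lit 228) (nat_lit 7505783888) (nat_lit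 304) (nat_lit 2804897857) (nat_lit 71) (nat_lit 5) (nat_lit 74) (nat_lit 5) (nat_lit 75) (nat_lit 5) (nat_lit 639) (nat_lit 511) (nat_lit 410)) (XT.nd (nat_lit 78) (nat_lit 0) (nat_lit 0) (XT.lf (nat_lit 0) (nat_lit 337477672) (nat_lit 228) (nat_lit 1783432178) (nat_lit 304) (nat_lit 14057158601) (nat_lit 67) (nat_lit 5) (nat_lit 70) (nat_lit 5) (nat_lit 71) (nat_lit 5) (nat_lit 640) (nat_lit 511) (nat_lit 409)) (XT.lf (nat_lit 0) (nat_lit 7177822976) (nat_lit 304) (nat_lit 5131021789) (nat_lit 76) (nat_lit 4069062383) (nat_lit 67) (nat_lit 5) (nat_lit 71) (nat_lit 5) (nat_lit 68) (nat_lit 5) (nat_lit 641) (nat_lit 511) (nat_lit 408)))) (XT.nd (nat_lit 156) (nat_lit 152) (nat_lit 0) (XT.nd (nat_lit 78) (nat_lit 304) (nat_lit 0) (XT.lf (nat_lit 0) (nat_lit 5812315290) (nat_lit 152) (nat_lit 6547760505) (nat_lit 228) (nat_lit 4221183521) (nat_lit 65) (nat_lit 5) (nat_lit 67) (nat_lit 5) (nat_lit 68) (nat_lit 5) (nat_lit 642) (nat_lit 511) (nat_lit 407)) (XT.lf (nat_lit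 0) (nat_lit 208133088) (nat_lit 228) (nat_lit 648623492) (nat_lit 304) (nat_lit 15931597221) (nat_lit 61) (nat_lit 5) (nat_lit 64) (nat_lit 5) (nat_lit 65) (nat_lit 5) (nat_lit 643) (nat_lit 511) (nat_lit 406))) (XT.nd (nat_lit 78) (nat_lit 152) (nat_lit 0) (XT.lf (nat_lit 0) (nat_lit 6062160333) (nat_lit 304) (nat_lit 5555671407) (nat_lit 76) (nat_lit 5379552550) (nat_lit 61) (nat_lit 5) (nat_lit 65) (nat_lit 5) (nat_lit 62) (nat_lit 5) (nat_lit 644) (nat_lit 511) (nat_lit 405)) (XT.lf (nat_lit 0) (nat_lit 5715955942) (nat_lit 152) (nat_lit 5672392103) (nat_lit 228) (nat_lit 5821914495) (nat_lit 59) (nat_lit 5) (nat_lit 61) (nat_lit 5) (nat_lit 62) (nat_lit 5) (nat_lit 645) (nat_lit 511) (nat_lit 404)))))) (XT.nd (nat_lit 72930) (nat_lit 0) (nat_lit 44992) (XT.nd (nat_lit 72618) (nat_lit 0) (nat_lit 50236) (XT.nd (nat_lit 78) (nat_lit 456) (nat_lit 0) (XT.lf (nat_lit 0) (nat_lit 16836476851) (nat_lit 228) (nat_lit 185279439) (nat_lit 76) (nat_lit 405334377) (nat_lit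 59) (nat_lit 5) (nat_lit 62) (nat_lit 5) (nat_lit 60) (nat_lit 5) (nat_lit 646) (nat_lit 511) (nat_lit 403)) (XT.nd (nat_lit 156) (nat_lit 152) (nat_lit 0) (XT.lf (nat_lit 0) (nat_lit 4771187980) (nat_lit 304) (nat_lit 6259065540) (nat_lit 76) (nat_lit 6615624058) (nat_lit 55) (nat_lit 5) (nat_lit 59) (nat_lit 5) (nat_lit 56) (nat_lit 5) (nat_lit 647) (nat_lit 511) (nat_lit 402)) (XT.lf (nat_lit 0) (nat_lit 15853608510) (nat_lit 228) (nat_lit 878233001) (nat_lit 76) (nat_lit 1363649977) (nat_lit 53) (nat_lit 5) (nat_lit 56) (nat_lit 5) (nat_lit 54) (nat_lit 5) (nat_lit 649) (nat_lit 511) (nat_lit 400)))) (XT.nd (nat_lit 156) (nat_lit 836) (nat_lit 0) (XT.nd (nat_lit 78) (nat_lit 684) (nat_lit 0) (XT.lf (nat_lit 0) (nat_lit 1404699705) (nat_lit 684) (nat_lit 472792064) (nat_lit 0) (nat_lit 1404699705) (nat_lit 734) (nat_lit 5) (nat_lit 743) (nat_lit 4) (nat_lit 734) (nat_lit 4) (nat_lit 536) (nat_lit 512) (nat_lit 512)) (XT.lf (nat_lit 0) (nat_lit 3092254426) (nat_lit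 684) (nat_lit 2977888317) (nat_lit 684) (nat_lit 510187265) (nat_lit 725) (nat_lit 4) (nat_lit 734) (nat_lit 5) (nat_lit 734) (nat_lit 4) (nat_lit 537) (nat_lit 512) (nat_lit 511))) (XT.nd (nat_lit 78) (nat_lit 0) (nat_lit 0) (XT.lf (nat_lit 0) (nat_lit 562322912) (nat_lit 760) (nat_lit 2135369523) (nat_lit 836) (nat_lit 3899853580) (nat_lit 714) (nat_lit 5) (nat_lit 724) (nat_lit 5) (nat_lit 725) (nat_lit 4) (nat_lit 538) (nat_lit 512) (nat_lit 510)) (XT.lf (nat_lit 0) (nat_lit 4683910927) (nat_lit 760) (nat_lit 1228368255) (nat_lit 836) (nat_lit 703783472) (nat_lit 714) (nat_lit 5) (nat_lit 724) (nat_lit 5) (nat_lit 725) (nat_lit 4) (nat_lit 539) (nat_lit 512) (nat_lit 509))))) (XT.nd (nat_lit 234) (nat_lit 3344) (nat_lit 0) (XT.nd (nat_lit 78) (nat_lit 988) (nat_lit 0) (XT.lf (nat_lit 0) (nat_lit 2211786595) (nat_lit 836) (nat_lit 252206226) (nat_lit 912) (nat_lit 4171809609) (nat_lit 702) (nat_lit 5) (nat_lit 713) (nat_lit 5) (nat_lit 714) (nat_lit 5) (nat_lit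 540) (nat_lit 512) (nat_lit 508)) (XT.nd (nat_lit 78) (nat_lit 988) (nat_lit 0) (XT.lf (nat_lit 0) (nat_lit 5631746186) (nat_lit 912) (nat_lit 255281690) (nat_lit 76) (nat_lit 769905900) (nat_lit 702) (nat_lit 5) (nat_lit 714) (nat_lit 5) (nat_lit 703) (nat_lit 4) (nat_lit 541) (nat_lit 512) (nat_lit 507)) (XT.lf (nat_lit 0) (nat_lit 2112591309) (nat_lit 988) (nat_lit 2699467101) (nat_lit 76) (nat_lit 1867018539) (nat_lit 689) (nat_lit 5) (nat_lit 702) (nat_lit 5) (nat_lit 690) (nat_lit 5) (nat_lit 542) (nat_lit 512) (nat_lit 506)))) (XT.nd (nat_lit 156) (nat_lit 2280) (nat_lit 0) (XT.nd (nat_lit 78) (nat_lit 76) (nat_lit 0) (XT.lf (nat_lit 0) (nat_lit 1560359953) (nat_lit 988) (nat_lit 3681037612) (nat_lit 1064) (nat_lit 1461300014) (nat_lit 676) (nat_lit 5) (nat_lit 689) (nat_lit 5) (nat_lit 690) (nat_lit 5) (nat_lit 543) (nat_lit 512) (nat_lit 505)) (XT.lf (nat_lit 0) (nat_lit 1632534470) (nat_lit 1064) (nat_lit 850557260) (nat_lit 76) (nat_lit 4244508680) (nat_lit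 675) (nat_lit 5) (nat_lit 689) (nat_lit 5) (nat_lit 676) (nat_lit 5) (nat_lit 544) (nat_lit 512) (nat_lit 504))) (XT.nd (nat_lit 78) (nat_lit 1216) (nat_lit 0) (XT.lf (nat_lit 0) (nat_lit 3509578518) (nat_lit 1064) (nat_lit 1213948934) (nat_lit 1140) (nat_lit 2030193207) (nat_lit 661) (nat_lit 5) (nat_lit 675) (nat_lit 5) (nat_lit 676) (nat_lit 5) (nat_lit 545) (nat_lit 512) (nat_lit 503)) (XT.lf (nat_lit 0) (nat_lit 1028079219) (nat_lit 1216) (nat_lit 5640423538) (nat_lit 76) (nat_lit 112797868) (nat_lit 645) (nat_lit 5) (nat_lit 661) (nat_lit 5) (nat_lit 646) (nat_lit 5) (nat_lit 546) (nat_lit 512) (nat_lit 502))))))) (XT.nd (nat_lit 1014) (nat_lit 10032) (nat_lit 0) (XT.nd (nat_lit 468) (nat_lit 6764) (nat_lit 0) (XT.nd (nat_lit 234) (nat_lit 2888) (nat_lit 0) (XT.nd (nat_lit 78) (nat_lit 2584) (nat_lit 0) (XT.lf (nat_lit 0) (nat_lit 4083939998) (nat_lit 1216) (nat_lit 1228496855) (nat_lit 76) (nat_lit 1497463770) (nat_lit 645) (nat_lit 5) (nat_lit 661) (nat_lit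 5) (nat_lit 646) (nat_lit 5) (nat_lit 547) (nat_lit 512) (nat_lit 501)) (XT.nd (nat_lit 78) (nat_lit 1292) (nat_lit 0) (XT.lf (nat_lit 0) (nat_lit 312896512) (nat_lit 1292) (nat_lit 3581949561) (nat_lit 76) (nat_lit 2945072247) (nat_lit 628) (nat_lit 5) (nat_lit 645) (nat_lit 5) (nat_lit 629) (nat_lit 5) (nat_lit 548) (nat_lit 512) (nat_lit 500)) (XT.lf (nat_lit 0) (nat_lit 919531961) (nat_lit 1292) (nat_lit 2406222704) (nat_lit 1368) (nat_lit 3545435297) (nat_lit 611) (nat_lit 5) (nat_lit 628) (nat_lit 5) (nat_lit 629) (nat_lit 5) (nat_lit 549) (nat_lit 512) (nat_lit 499)))) (XT.nd (nat_lit 78) (nat_lit 2888) (nat_lit 0) (XT.lf (nat_lit 0) (nat_lit 5505092999) (nat_lit 1292) (nat_lit 854147810) (nat_lit 1368) (nat_lit 544647097) (nat_lit 611) (nat_lit 5) (nat_lit 628) (nat_lit 5) (nat_lit 629) (nat_lit 5) (nat_lit 550) (nat_lit 512) (nat_lit 498)) (XT.nd (nat_lit 78) (nat_lit 1444) (nat_lit 0) (XT.lf (nat_lit 0) (nat_lit 2446238011) (nat_lit 1444) (nat_lit 3726097428)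 (nat_lit 76) (nat_lit 765323985) (nat_lit 592) (nat_lit 5) (nat_lit 611) (nat_lit 5) (nat_lit 593) (nat_lit 5) (nat_lit 551) (nat_lit 512) (nat_lit 497)) (XT.lf (nat_lit 0) (nat_lit 908537607) (nat_lit 1444) (nat_lit 4540216702) (nat_lit 1520) (nat_lit 1524105742) (nat_lit 573) (nat_lit 5) (nat_lit 592) (nat_lit 5) (nat_lit 593) (nat_lit 5) (nat_lit 552) (nat_lit 512) (nat_lit 496))))) (XT.nd (nat_lit 234) (nat_lit 3496) (nat_lit 0) (XT.nd (nat_lit 78) (nat_lit 3192) (nat_lit 0) (XT.lf (nat_lit 0) (nat_lit 1446560663) (nat_lit 1520) (nat_lit 1387493939) (nat_lit 76) (nat_lit 4175248268) (nat_lit 572) (nat_lit 5) (nat_lit 592) (nat_lit 5) (nat_lit 573) (nat_lit 5) (nat_lit 553) (nat_lit 512) (nat_lit 495)) (XT.nd (nat_lit 78) (nat_lit 1672) (nat_lit 0) (XT.lf (nat_lit 0) (nat_lit 3362284765) (nat_lit 1520) (nat_lit 1055543245) (nat_lit 1596) (nat_lit 2629220499) (nat_lit 552) (nat_lit 5) (nat_lit 572) (nat_lit 5) (nat_lit 573) (nat_lit 5) (nat_lit 554) (nat_lit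 512) (nat_lit 494)) (XT.lf (nat_lit 0) (nat_lit 319964757) (nat_lit 1672) (nat_lit 5994010428) (nat_lit 76) (nat_lit 772298746) (nat_lit 530) (nat_lit 5) (nat_lit 552) (nat_lit 5) (nat_lit 531) (nat_lit 5) (nat_lit 555) (nat_lit 512) (nat_lit 493)))) (XT.nd (nat_lit 156) (nat_lit 1824) (nat_lit 0) (XT.nd (nat_lit 78) (nat_lit 1672) (nat_lit 0) (XT.lf (nat_lit 0) (nat_lit 3265863229) (nat_lit 1672) (nat_lit 1191462317) (nat_lit 76) (nat_lit 2669158969) (nat_lit 530) (nat_lit 5) (nat_lit 552) (nat_lit 5) (nat_lit 531) (nat_lit 5) (nat_lit 556) (nat_lit 512) (nat_lit 492)) (XT.lf (nat_lit 0) (nat_lit 3700884255) (nat_lit 1672) (nat_lit 2536001514) (nat_lit 1748) (nat_lit 931296218) (nat_lit 508) (nat_lit 5) (nat_lit 530) (nat_lit 5) (nat_lit 531) (nat_lit 5) (nat_lit 557) (nat_lit 512) (nat_lit 491))) (XT.nd (nat_lit 78) (nat_lit 0) (nat_lit 0) (XT.lf (nat_lit 0) (nat_lit 1447047769) (nat_lit 1748) (nat_lit 542611728) (nat_lit 1824) (nat_lit 5221593047) (nat_lit 484)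 (nat_lit 5) (nat_lit 507) (nat_lit 5) (nat_lit 508) (nat_lit 5) (nat_lit 558) (nat_lit 512) (nat_lit 490)) (XT.lf (nat_lit 0) (nat_lit 4933031009) (nat_lit 1824) (nat_lit 820026424) (nat_lit 76) (nat_lit 1502481033) (nat_lit 484) (nat_lit 5) (nat_lit 508) (nat_lit 5) (nat_lit 485) (nat_lit 5) (nat_lit 559) (nat_lit 512) (nat_lit 489)))))) (XT.nd (nat_lit 546) (nat_lit 4256) (nat_lit 0) (XT.nd (nat_lit 234) (nat_lit 2812) (nat_lit 0) (XT.nd (nat_lit 78) (nat_lit 1064) (nat_lit 0) (XT.lf (nat_lit 0) (nat_lit 601526589) (nat_lit 1900) (nat_lit 3085267801) (nat_lit 76) (nat_lit 3614333692) (nat_lit 459) (nat_lit 5) (nat_lit 484) (nat_lit 5) (nat_lit 460) (nat_lit 5) (nat_lit 560) (nat_lit 512) (nat_lit 488)) (XT.nd (nat_lit 78) (nat_lit 0) (nat_lit 0) (XT.lf (nat_lit 0) (nat_lit 1971228717) (nat_lit 1064) (nat_lit 1544912966) (nat_lit 1140) (nat_lit 3831922832) (nat_lit 445) (nat_lit 5) (nat_lit 459) (nat_lit 5) (nat_lit 460) (nat_lit 5) (nat_lit 561) (nat_lit 512)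 (nat_lit 487)) (XT.lf (nat_lit 0) (nat_lit 6459598161) (nat_lit 1140) (nat_lit 285136125) (nat_lit 76) (nat_lit 651800328) (nat_lit 445) (nat_lit 5) (nat_lit 460) (nat_lit 5) (nat_lit 446) (nat_lit 5) (nat_lit 562) (nat_lit 512) (nat_lit 486)))) (XT.nd (nat_lit 156) (nat_lit 912) (nat_lit 0) (XT.nd (nat_lit 78) (nat_lit 912) (nat_lit 0) (XT.lf (nat_lit 0) (nat_lit 1978146194) (nat_lit 988) (nat_lit 2551587079) (nat_lit 76) (nat_lit 2916212031) (nat_lit 432) (nat_lit 5) (nat_lit 445) (nat_lit 5) (nat_lit 433) (nat_lit 5) (nat_lit 563) (nat_lit 512) (nat_lit 485)) (XT.lf (nat_lit 0) (nat_lit 2658402023) (nat_lit 912) (nat_lit 2246740549) (nat_lit 988) (nat_lit 2591760196) (nat_lit 420) (nat_lit 5) (nat_lit 432) (nat_lit 5) (nat_lit 433) (nat_lit 5) (nat_lit 564) (nat_lit 512) (nat_lit 484))) (XT.nd (nat_lit 78) (nat_lit 0) (nat_lit 0) (XT.lf (nat_lit 0) (nat_lit 305139620) (nat_lit 912) (nat_lit 7144112168) (nat_lit 76) (nat_lit 100232112) (nat_lit 408) (nat_lit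 5) (nat_lit 420) (nat_lit 5) (nat_lit 409) (nat_lit 5) (nat_lit 565) (nat_lit 512) (nat_lit 483)) (XT.lf (nat_lit 0) (nat_lit 3220814701) (nat_lit 912) (nat_lit 1871265866) (nat_lit 76) (nat_lit 2510787893) (nat_lit 408) (nat_lit 5) (nat_lit 420) (nat_lit 5) (nat_lit 409) (nat_lit 5) (nat_lit 566) (nat_lit 512) (nat_lit 482))))) (XT.nd (nat_lit 234) (nat_lit 2508) (nat_lit 0) (XT.nd (nat_lit 78) (nat_lit 912) (nat_lit 0) (XT.lf (nat_lit 0) (nat_lit 3497764780) (nat_lit 836) (nat_lit 2668714495) (nat_lit 912) (nat_lit 1491413068) (nat_lit 397) (nat_lit 5) (nat_lit 408) (nat_lit 5) (nat_lit 409) (nat_lit 5) (nat_lit 567) (nat_lit 512) (nat_lit 481)) (XT.nd (nat_lit 78) (nat_lit 0) (nat_lit 0) (XT.lf (nat_lit 0) (nat_lit 1236993453) (nat_lit 836) (nat_lit 170881826) (nat_lit 912) (nat_lit 6306558292) (nat_lit 385) (nat_lit 5) (nat_lit 396) (nat_lit 5) (nat_lit 397) (nat_lit 5) (nat_lit 568) (nat_lit 512) (nat_lit 480)) (XT.lf (nat_lit 0) (nat_lit 4338608912) (nat_lit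 912) (nat_lit 1054664976) (nat_lit 76) (nat_lit 2378770834) (nat_lit 385) (nat_lit 5) (nat_lit 397) (nat_lit 5) (nat_lit 386) (nat_lit 5) (nat_lit 569) (nat_lit 512) (nat_lit 479)))) (XT.nd (nat_lit 156) (nat_lit 836) (nat_lit 0) (XT.nd (nat_lit 78) (nat_lit 836) (nat_lit 0) (XT.lf (nat_lit 0) (nat_lit 4479207102) (nat_lit 836) (nat_lit 2829823459) (nat_lit 912) (nat_lit 522160830) (nat_lit 374) (nat_lit 5) (nat_lit 385) (nat_lit 5) (nat_lit 386) (nat_lit 5) (nat_lit 570) (nat_lit 512) (nat_lit 478)) (XT.lf (nat_lit 0) (nat_lit 2204382989) (nat_lit 760) (nat_lit 183438557) (nat_lit 836) (nat_lit 5503934641) (nat_lit 363) (nat_lit 5) (nat_lit 373) (nat_lit 5) (nat_lit 374) (nat_lit 5) (nat_lit 571) (nat_lit 512) (nat_lit 477))) (XT.nd (nat_lit 78) (nat_lit 836) (nat_lit 0) (XT.lf (nat_lit 0) (nat_lit 5339696680) (nat_lit 836) (nat_lit 111537051) (nat_lit 76) (nat_lit 2502420307) (nat_lit 363) (nat_lit 5) (nat_lit 374) (nat_lit 5) (nat_lit 364) (nat_lit 5) (nat_lit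 572) (nat_lit 512) (nat_lit 476)) (XT.lf (nat_lit 0) (nat_lit 319549803) (nat_lit 836) (nat_lit 2425868774) (nat_lit 76) (nat_lit 5271530064) (nat_lit 352) (nat_lit 5) (nat_lit 363) (nat_lit 5) (nat_lit 353) (nat_lit 5) (nat_lit 573) (nat_lit 512) (nat_lit 475))))))))
noncomputable def xc61 : XT := (XT.nd (nat_lit 2106) (nat_lit 7524) (nat_lit 0) (XT.nd (nat_lit 1014) (nat_lit 5472) (nat_lit 0) (XT.nd (nat_lit 468) (nat_lit 3268) (nat_lit 0) (XT.nd (nat_lit 234) (nat_lit 1444) (nat_lit 0) (XT.nd (nat_lit 78) (nat_lit 836) (nat_lit 0) (XT.lf (nat_lit 0) (nat_lit 3252143604) (nat_lit 760) (nat_lit 4783258600) (nat_lit 76) (nat_lit 46257246) (nat_lit 343) (nat_lit 5) (nat_lit 353) (nat_lit 5) (nat_lit 344) (nat_lit 5) (nat_lit 574) (nat_lit 512) (nat_lit 474)) (XT.nd (nat_lit 78) (nat_lit 76) (nat_lit 0) (XT.lf (nat_lit 0) (nat_lit 961498217) (nat_lit 760) (nat_lit 5276127343) (nat_lit 836) (nat_lit 1910158331) (nat_lit 333) (nat_lit 5) (nat_lit 343) (nat_lit 5) (nat_lit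 344) (nat_lit 5) (nat_lit 575) (nat_lit 512) (nat_lit 473)) (XT.lf (nat_lit 0) (nat_lit 1039567188) (nat_lit 836) (nat_lit 1391521665) (nat_lit 76) (nat_lit 5784287675) (nat_lit 332) (nat_lit 5) (nat_lit 343) (nat_lit 5) (nat_lit 333) (nat_lit 5) (nat_lit 576) (nat_lit 512) (nat_lit 472)))) (XT.nd (nat_lit 78) (nat_lit 760) (nat_lit 0) (XT.lf (nat_lit 0) (nat_lit 4009877042) (nat_lit 760) (nat_lit 3776703101) (nat_lit 76) (nat_lit 497748918) (nat_lit 323) (nat_lit 5) (nat_lit 333) (nat_lit 5) (nat_lit 324) (nat_lit 5) (nat_lit 577) (nat_lit 512) (nat_lit 471)) (XT.nd (nat_lit 78) (nat_lit 76) (nat_lit 0) (XT.lf (nat_lit 0) (nat_lit 2145964039) (nat_lit 684) (nat_lit 4888118349) (nat_lit 760) (nat_lit 1320692299) (nat_lit 314) (nat_lit 5) (nat_lit 323) (nat_lit 5) (nat_lit 324) (nat_lit 5) (nat_lit 578) (nat_lit 512) (nat_lit 470)) (XT.lf (nat_lit 0) (nat_lit 1650745604) (nat_lit 760) (nat_lit 254396973) (nat_lit 76) (nat_lit 6521654682) (nat_lit 313) (nat_lit 5)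 (nat_lit 323) (nat_lit 5) (nat_lit 314) (nat_lit 5) (nat_lit 579) (nat_lit 512) (nat_lit 469))))) (XT.nd (nat_lit 234) (nat_lit 1292) (nat_lit 0) (XT.nd (nat_lit 78) (nat_lit 1368) (nat_lit 0) (XT.lf (nat_lit 0) (nat_lit 4665600532) (nat_lit 684) (nat_lit 2675293687) (nat_lit 76) (nat_lit 1159161629) (nat_lit 305) (nat_lit 5) (nat_lit 314) (nat_lit 5) (nat_lit 306) (nat_lit 5) (nat_lit 580) (nat_lit 512) (nat_lit 468)) (XT.nd (nat_lit 78) (nat_lit 684) (nat_lit 0) (XT.lf (nat_lit 0) (nat_lit 3431831814) (nat_lit 684) (nat_lit 4302139058) (nat_lit 760) (nat_lit 840947908) (nat_lit 296) (nat_lit 5) (nat_lit 305) (nat_lit 5) (nat_lit 306) (nat_lit 5) (nat_lit 581) (nat_lit 512) (nat_lit 467)) (XT.lf (nat_lit 0) (nat_lit 989970736) (nat_lit 608) (nat_lit 1174753113) (nat_lit 684) (nat_lit 6486645015) (nat_lit 287) (nat_lit 5) (nat_lit 295) (nat_lit 5) (nat_lit 296) (nat_lit 5) (nat_lit 582) (nat_lit 512) (nat_lit 466)))) (XT.nd (nat_lit 156) (nat_lit 684) (nat_lit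 0) (XT.nd (nat_lit 78) (nat_lit 608) (nat_lit 0) (XT.lf (nat_lit 0) (nat_lit 5224310985) (nat_lit 684) (nat_lit 1487525744) (nat_lit 76) (nat_lit 2017302138) (nat_lit 287) (nat_lit 5) (nat_lit 296) (nat_lit 5) (nat_lit 288) (nat_lit 5) (nat_lit 583) (nat_lit 512) (nat_lit 465)) (XT.lf (nat_lit 0) (nat_lit 4810833432) (nat_lit 608) (nat_lit 3531336508) (nat_lit 684) (nat_lit 466355993) (nat_lit 279) (nat_lit 5) (nat_lit 287) (nat_lit 5) (nat_lit 288) (nat_lit 5) (nat_lit 584) (nat_lit 512) (nat_lit 464))) (XT.nd (nat_lit 78) (nat_lit 0) (nat_lit 0) (XT.lf (nat_lit 0) (nat_lit 2324846371) (nat_lit 608) (nat_lit 256910197) (nat_lit 684) (nat_lit 6307737386) (nat_lit 270) (nat_lit 5) (nat_lit 278) (nat_lit 5) (nat_lit 279) (nat_lit 5) (nat_lit 585) (nat_lit 512) (nat_lit 463)) (XT.lf (nat_lit 0) (nat_lit 5690256564) (nat_lit 684) (nat_lit 221694758) (nat_lit 76) (nat_lit 3059958045) (nat_lit 270) (nat_lit 5) (nat_lit 279) (nat_lit 5) (nat_lit 271) (nat_lit 5) (nat_lit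 586) (nat_lit 512) (nat_lit 462)))))) (XT.nd (nat_lit 546) (nat_lit 2508) (nat_lit 0) (XT.nd (nat_lit 234) (nat_lit 1216) (nat_lit 0) (XT.nd (nat_lit 78) (nat_lit 1140) (nat_lit 0) (XT.lf (nat_lit 0) (nat_lit 6274895716) (nat_lit 608) (nat_lit 2587926610) (nat_lit 684) (nat_lit 193115865) (nat_lit 262) (nat_lit 5) (nat_lit 270) (nat_lit 5) (nat_lit 271) (nat_lit 5) (nat_lit 587) (nat_lit 512) (nat_lit 461)) (XT.nd (nat_lit 78) (nat_lit 532) (nat_lit 0) (XT.lf (nat_lit 0) (nat_lit 2909232093) (nat_lit 608) (nat_lit 5408352134) (nat_lit 76) (nat_lit 823865777) (nat_lit 254) (nat_lit 5) (nat_lit 262) (nat_lit 5) (nat_lit 255) (nat_lit 5) (nat_lit 588) (nat_lit 512) (nat_lit 460)) (XT.lf (nat_lit 0) (nat_lit 1128824976) (nat_lit 532) (nat_lit 4945459282) (nat_lit 608) (nat_lit 3154300248) (nat_lit 247) (nat_lit 5) (nat_lit 254) (nat_lit 5) (nat_lit 255) (nat_lit 5) (nat_lit 589) (nat_lit 512) (nat_lit 459)))) (XT.nd (nat_lit 156) (nat_lit 608) (nat_lit 0) (XT.nd (nat_lit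 78) (nat_lit 608) (nat_lit 0) (XT.lf (nat_lit 0) (nat_lit 7816056238) (nat_lit 532) (nat_lit 1483295211) (nat_lit 608) (nat_lit 18178759) (nat_lit 247) (nat_lit 5) (nat_lit 254) (nat_lit 5) (nat_lit 255) (nat_lit 5) (nat_lit 590) (nat_lit 512) (nat_lit 458)) (XT.lf (nat_lit 0) (nat_lit 3147365437) (nat_lit 608) (nat_lit 4198347960) (nat_lit 76) (nat_lit 2061962782) (nat_lit 239) (nat_lit 5) (nat_lit 247) (nat_lit 5) (nat_lit 240) (nat_lit 5) (nat_lit 591) (nat_lit 512) (nat_lit 457))) (XT.nd (nat_lit 78) (nat_lit 76) (nat_lit 0) (XT.lf (nat_lit 0) (nat_lit 2544847896) (nat_lit 532) (nat_lit 3828882445) (nat_lit 608) (nat_lit 3125939888) (nat_lit 232) (nat_lit 5) (nat_lit 239) (nat_lit 5) (nat_lit 240) (nat_lit 5) (nat_lit 592) (nat_lit 512) (nat_lit 456)) (XT.lf (nat_lit 0) (nat_lit 59966184) (nat_lit 608) (nat_lit 167726707) (nat_lit 76) (nat_lit 9366008947) (nat_lit 231) (nat_lit 5) (nat_lit 239) (nat_lit 5) (nat_lit 232) (nat_lit 5) (nat_lit 593) (nat_lit 512)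 (nat_lit 455))))) (XT.nd (nat_lit 234) (nat_lit 988) (nat_lit 0) (XT.nd (nat_lit 78) (nat_lit 1064) (nat_lit 0) (XT.lf (nat_lit 0) (nat_lit 3296608706) (nat_lit 532) (nat_lit 2941474875) (nat_lit 76) (nat_lit 3450542235) (nat_lit 225) (nat_lit 5) (nat_lit 232) (nat_lit 5) (nat_lit 226) (nat_lit 5) (nat_lit 594) (nat_lit 512) (nat_lit 454)) (XT.nd (nat_lit 78) (nat_lit 532) (nat_lit 0) (XT.lf (nat_lit 0) (nat_lit 4015115795) (nat_lit 532) (nat_lit 2574057474) (nat_lit 608) (nat_lit 3196453646) (nat_lit 218) (nat_lit 5) (nat_lit 225) (nat_lit 5) (nat_lit 226) (nat_lit 5) (nat_lit 595) (nat_lit 512) (nat_lit 453)) (XT.lf (nat_lit 0) (nat_lit 60301882) (nat_lit 532) (nat_lit 8663626539) (nat_lit 76) (nat_lit 1160671618) (nat_lit 211) (nat_lit 5) (nat_lit 218) (nat_lit 5) (nat_lit 212) (nat_lit 5) (nat_lit 596) (nat_lit 512) (nat_lit 452)))) (XT.nd (nat_lit 156) (nat_lit 532) (nat_lit 0) (XT.nd (nat_lit 78) (nat_lit 456) (nat_lit 0) (XT.lf (nat_lit 0) (nat_lit 3358366986)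 (nat_lit 532) (nat_lit 1646379192) (nat_lit 76) (nat_lit 4980006666) (nat_lit 211) (nat_lit 5) (nat_lit 218) (nat_lit 5) (nat_lit 212) (nat_lit 5) (nat_lit 597) (nat_lit 512) (nat_lit 451)) (XT.lf (nat_lit 0) (nat_lit 5531169215) (nat_lit 456) (nat_lit 1190772098) (nat_lit 532) (nat_lit 3364978675) (nat_lit 205) (nat_lit 5) (nat_lit 211) (nat_lit 5) (nat_lit 212) (nat_lit 5) (nat_lit 598) (nat_lit 512) (nat_lit 450))) (XT.nd (nat_lit 78) (nat_lit 76) (nat_lit 0) (XT.lf (nat_lit 0) (nat_lit 2647947797) (nat_lit 456) (nat_lit 7514583863) (nat_lit 532) (nat_lit 28406123) (nat_lit 199) (nat_lit 5) (nat_lit 205) (nat_lit 5) (nat_lit 206) (nat_lit 5) (nat_lit 599) (nat_lit 512) (nat_lit 449)) (XT.lf (nat_lit 0) (nat_lit 3333327674) (nat_lit 532) (nat_lit 321939274) (nat_lit 76) (nat_lit 6641279015) (nat_lit 198) (nat_lit 5) (nat_lit 205) (nat_lit 5) (nat_lit 199) (nat_lit 5) (nat_lit 600) (nat_lit 512) (nat_lit 448))))))) (XT.nd (nat_lit 1092) (nat_lit 3344) (nat_lit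 0) (XT.nd (nat_lit 546) (nat_lit 1976) (nat_lit 0) (XT.nd (nat_lit 234) (nat_lit 836) (nat_lit 0) (XT.nd (nat_lit 78) (nat_lit 912) (nat_lit 0) (XT.lf (nat_lit 0) (nat_lit 6774673224) (nat_lit 532) (nat_lit 3321767206) (nat_lit 76) (nat_lit 307569043) (nat_lit 192) (nat_lit 5) (nat_lit 199) (nat_lit 5) (nat_lit 193) (nat_lit 5) (nat_lit 601) (nat_lit 512) (nat_lit 447)) (XT.nd (nat_lit 78) (nat_lit 532) (nat_lit 0) (XT.lf (nat_lit 0) (nat_lit 4102678357) (nat_lit 380) (nat_lit 6200171877) (nat_lit 456) (nat_lit 210413961) (nat_lit 187) (nat_lit 5) (nat_lit 192) (nat_lit 5) (nat_lit 193) (nat_lit 5) (nat_lit 602) (nat_lit 512) (nat_lit 446)) (XT.lf (nat_lit 0) (nat_lit 1036226740) (nat_lit 456) (nat_lit 2191953196) (nat_lit 532) (nat_lit 7396215110) (nat_lit 180) (nat_lit 5) (nat_lit 186) (nat_lit 5) (nat_lit 187) (nat_lit 5) (nat_lit 603) (nat_lit 512) (nat_lit 445)))) (XT.nd (nat_lit 156) (nat_lit 456) (nat_lit 0) (XT.nd (nat_lit 78) (nat_lit 380) (nat_lit 0)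 (XT.lf (nat_lit 0) (nat_lit 6753684509) (nat_lit 532) (nat_lit 2084564439) (nat_lit 76) (nat_lit 1899054540) (nat_lit 180) (nat_lit 5) (nat_lit 187) (nat_lit 5) (nat_lit 181) (nat_lit 5) (nat_lit 604) (nat_lit 512) (nat_lit 444)) (XT.lf (nat_lit 0) (nat_lit 5576200881) (nat_lit 380) (nat_lit 4790236019) (nat_lit 456) (nat_lit 485700319) (nat_lit 175) (nat_lit 5) (nat_lit 180) (nat_lit 5) (nat_lit 181) (nat_lit 5) (nat_lit 605) (nat_lit 512) (nat_lit 443))) (XT.nd (nat_lit 78) (nat_lit 0) (nat_lit 0) (XT.lf (nat_lit 0) (nat_lit 2409304534) (nat_lit 380) (nat_lit 628299258) (nat_lit 456) (nat_lit 7931348398) (nat_lit 169) (nat_lit 5) (nat_lit 174) (nat_lit 5) (nat_lit 175) (nat_lit 5) (nat_lit 606) (nat_lit 512) (nat_lit 442)) (XT.lf (nat_lit 0) (nat_lit 6650340704) (nat_lit 456) (nat_lit 846420438) (nat_lit 76) (nat_lit 3590770474) (nat_lit 169) (nat_lit 5) (nat_lit 175) (nat_lit 5) (nat_lit 170) (nat_lit 5) (nat_lit 607) (nat_lit 512) (nat_lit 441))))) (XT.nd (nat_lit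 234) (nat_lit 760) (nat_lit 0) (XT.nd (nat_lit 78) (nat_lit 836) (nat_lit 0) (XT.lf (nat_lit 0) (nat_lit 7058644809) (nat_lit 380) (nat_lit 3293680055) (nat_lit 456) (nat_lit 855819649) (nat_lit 164) (nat_lit 5) (nat_lit 169) (nat_lit 5) (nat_lit 170) (nat_lit 5) (nat_lit 608) (nat_lit 512) (nat_lit 440)) (XT.nd (nat_lit 78) (nat_lit 380) (nat_lit 0) (XT.lf (nat_lit 0) (nat_lit 2764527848) (nat_lit 456) (nat_lit 7554818961) (nat_lit 76) (nat_lit 1011380615) (nat_lit 158) (nat_lit 5) (nat_lit 164) (nat_lit 5) (nat_lit 159) (nat_lit 5) (nat_lit 609) (nat_lit 512) (nat_lit 439)) (XT.lf (nat_lit 0) (nat_lit 387133689) (nat_lit 380) (nat_lit 6078358172) (nat_lit 456) (nat_lit 4989765249) (nat_lit 153) (nat_lit 5) (nat_lit 158) (nat_lit 5) (nat_lit 159) (nat_lit 5) (nat_lit 610) (nat_lit 512) (nat_lit 438)))) (XT.nd (nat_lit 156) (nat_lit 304) (nat_lit 0) (XT.nd (nat_lit 78) (nat_lit 456) (nat_lit 0) (XT.lf (nat_lit 0) (nat_lit 8539523072) (nat_lit 380) (nat_lit 1719262694)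 (nat_lit 456) (nat_lit 1323127011) (nat_lit 153) (nat_lit 5) (nat_lit 158) (nat_lit 5) (nat_lit 159) (nat_lit 5) (nat_lit 611) (nat_lit 512) (nat_lit 437)) (XT.lf (nat_lit 0) (nat_lit 2404503145) (nat_lit 456) (nat_lit 6583262470) (nat_lit 76) (nat_lit 2722636518) (nat_lit 147) (nat_lit 5) (nat_lit 153) (nat_lit 5) (nat_lit 148) (nat_lit 5) (nat_lit 612) (nat_lit 512) (nat_lit 436))) (XT.nd (nat_lit 78) (nat_lit 0) (nat_lit 0) (XT.lf (nat_lit 0) (nat_lit 1610662076) (nat_lit 304) (nat_lit 4588939490) (nat_lit 380) (nat_lit 5641473655) (nat_lit 143) (nat_lit 5) (nat_lit 147) (nat_lit 5) (nat_lit 148) (nat_lit 5) (nat_lit 613) (nat_lit 512) (nat_lit 435)) (XT.lf (nat_lit 0) (nat_lit 10007609093) (nat_lit 304) (nat_lit 75689087) (nat_lit 380) (nat_lit 1890811146) (nat_lit 143) (nat_lit 5) (nat_lit 147) (nat_lit 5) (nat_lit 148) (nat_lit 5) (nat_lit 614) (nat_lit 512) (nat_lit 434)))))) (XT.nd (nat_lit 546) (nat_lit 1520) (nat_lit 0) (XT.nd (nat_lit 234) (nat_lit 1064)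 (nat_lit 0) (XT.nd (nat_lit 78) (nat_lit 304) (nat_lit 0) (XT.lf (nat_lit 0) (nat_lit 1950168142) (nat_lit 456) (nat_lit 5653310188) (nat_lit 76) (nat_lit 4505262365) (nat_lit 137) (nat_lit 5) (nat_lit 143) (nat_lit 5) (nat_lit 138) (nat_lit 5) (nat_lit 615) (nat_lit 512) (nat_lit 433)) (XT.nd (nat_lit 78) (nat_lit 0) (nat_lit 0) (XT.lf (nat_lit 0) (nat_lit 2800577505) (nat_lit 304) (nat_lit 3043164001) (nat_lit 380) (nat_lit 6402052764) (nat_lit 133) (nat_lit 5) (nat_lit 137) (nat_lit 5) (nat_lit 138) (nat_lit 5) (nat_lit 616) (nat_lit 512) (nat_lit 432)) (XT.lf (nat_lit 0) (nat_lit 9833081005) (nat_lit 380) (nat_lit 945211312) (nat_lit 76) (nat_lit 1606940073) (nat_lit 133) (nat_lit 5) (nat_lit 138) (nat_lit 5) (nat_lit 134) (nat_lit 5) (nat_lit 617) (nat_lit 512) (nat_lit 431)))) (XT.nd (nat_lit 156) (nat_lit 380) (nat_lit 0) (XT.nd (nat_lit 78) (nat_lit 304) (nat_lit 0) (XT.lf (nat_lit 0) (nat_lit 1397371200) (nat_lit 380) (nat_lit 4778349029) (nat_lit 76)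 (nat_lit 6350748778) (nat_lit 128) (nat_lit 5) (nat_lit 133) (nat_lit 5) (nat_lit 129) (nat_lit 5) (nat_lit 618) (nat_lit 512) (nat_lit 430)) (XT.lf (nat_lit 0) (nat_lit 3943539692) (nat_lit 304) (nat_lit 1450135530) (nat_lit 380) (nat_lit 7276479742) (nat_lit 124) (nat_lit 5) (nat_lit 128) (nat_lit 5) (nat_lit 129) (nat_lit 5) (nat_lit 619) (nat_lit 512) (nat_lit 429))) (XT.nd (nat_lit 78) (nat_lit 76) (nat_lit 0) (XT.lf (nat_lit 0) (nat_lit 17586705) (nat_lit 304) (nat_lit 9476684902) (nat_lit 380) (nat_lit 3321956970) (nat_lit 120) (nat_lit 5) (nat_lit 124) (nat_lit 5) (nat_lit 125) (nat_lit 5) (nat_lit 620) (nat_lit 512) (nat_lit 428)) (XT.lf (nat_lit 0) (nat_lit 741040888) (nat_lit 380) (nat_lit 3972890832) (nat_lit 76) (nat_lit 8250426383) (nat_lit 119) (nat_lit 5) (nat_lit 124) (nat_lit 5) (nat_lit 120) (nat_lit 5) (nat_lit 621) (nat_lit 512) (nat_lit 427))))) (XT.nd (nat_lit 234) (nat_lit 912) (nat_lit 0) (XT.nd (nat_lit 78) (nat_lit 304) (nat_lit 0) (XT.lf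 (nat_lit 0) (nat_lit 4845410802) (nat_lit 380) (nat_lit 8091064083) (nat_lit 76) (nat_lit 178445500) (nat_lit 115) (nat_lit 5) (nat_lit 120) (nat_lit 5) (nat_lit 116) (nat_lit 5) (nat_lit 622) (nat_lit 512) (nat_lit 426)) (XT.nd (nat_lit 78) (nat_lit 0) (nat_lit 0) (XT.lf (nat_lit 0) (nat_lit 918718786) (nat_lit 304) (nat_lit 8148060233) (nat_lit 380) (nat_lit 4201017841) (nat_lit 111) (nat_lit 5) (nat_lit 115) (nat_lit 5) (nat_lit 116) (nat_lit 5) (nat_lit 623) (nat_lit 512) (nat_lit 425)) (XT.lf (nat_lit 0) (nat_lit 10170325040) (nat_lit 304) (nat_lit 3227694795) (nat_lit 380) (nat_lit 25203270) (nat_lit 111) (nat_lit 5) (nat_lit 115) (nat_lit 5) (nat_lit 116) (nat_lit 5) (nat_lit 624) (nat_lit 512) (nat_lit 424)))) (XT.nd (nat_lit 156) (nat_lit 304) (nat_lit 0) (XT.nd (nat_lit 78) (nat_lit 304) (nat_lit 0) (XT.lf (nat_lit 0) (nat_lit 4201216415) (nat_lit 304) (nat_lit 7563638359) (nat_lit 76) (nat_lit 1815901982) (nat_lit 107) (nat_lit 5) (nat_lit 111) (nat_lit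 5) (nat_lit 108) (nat_lit 5) (nat_lit 625) (nat_lit 512) (nat_lit 423)) (XT.lf (nat_lit 0) (nat_lit 1728997593) (nat_lit 304) (nat_lit 6809060378) (nat_lit 380) (nat_lit 5202856234) (nat_lit 103) (nat_lit 5) (nat_lit 107) (nat_lit 5) (nat_lit 108) (nat_lit 5) (nat_lit 626) (nat_lit 512) (nat_lit 422))) (XT.nd (nat_lit 78) (nat_lit 304) (nat_lit 0) (XT.lf (nat_lit 0) (nat_lit 11262710477) (nat_lit 304) (nat_lit 1721586671) (nat_lit 380) (nat_lit 919525498) (nat_lit 103) (nat_lit 5) (nat_lit 107) (nat_lit 5) (nat_lit 108) (nat_lit 5) (nat_lit 627) (nat_lit 512) (nat_lit 421)) (XT.lf (nat_lit 0) (nat_lit 3444393475) (nat_lit 304) (nat_lit 7153060165) (nat_lit 76) (nat_lit 3471285464) (nat_lit 99) (nat_lit 5) (nat_lit 103) (nat_lit 5) (nat_lit 100) (nat_lit 5) (nat_lit 628) (nat_lit 512) (nat_lit 420))))))))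
noncomputable def xc62 : XT := (XT.nd (nat_lit 74256) (nat_lit 0) (nat_lit 26980) (XT.nd (nat_lit 1014) (nat_lit 1064) (nat_lit 0) (XT.nd (nat_lit 468) (nat_lit 1292) (nat_lit 0) (XT.nd (nat_lit 234) (nat_lit 532) (nat_lit 0) (XT.nd (nat_lit 78) (nat_lit 304) (nat_lit 0) (XT.lf (nat_lit 0) (nat_lit 2430206813) (nat_lit 304) (nat_lit 5470494831) (nat_lit 380) (nat_lit 6335783217) (nat_lit 95) (nat_lit 5) (nat_lit 99) (nat_lit 5) (nat_lit 100) (nat_lit 5) (nat_lit 629) (nat_lit 512) (nat_lit 419)) (XT.nd (nat_lit 78) (nat_lit 304) (nat_lit 0) (XT.lf (nat_lit 0) (nat_lit 12255544047) (nat_lit 304) (nat_lit 211223173) (nat_lit 380) (nat_lit 1940406663) (nat_lit 95) (nat_lit 5) (nat_lit 99) (nat_lit 5) (nat_lit 100) (nat_lit 5) (nat_lit 630) (nat_lit 512) (nat_lit 418)) (XT.lf (nat_lit 0) (nat_lit 2566513451) (nat_lit 304) (nat_lit 6879216009) (nat_lit 76) (nat_lit 5134078238) (nat_lit 91) (nat_lit 5) (nat_lit 95) (nat_lit 5) (nat_lit 92) (nat_lit 5) (nat_lit 631) (nat_lit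 512) (nat_lit 417)))) (XT.nd (nat_lit 78) (nat_lit 304) (nat_lit 0) (XT.lf (nat_lit 0) (nat_lit 3002334766) (nat_lit 228) (nat_lit 4143804127) (nat_lit 304) (nat_lit 7609328714) (nat_lit 88) (nat_lit 5) (nat_lit 91) (nat_lit 5) (nat_lit 92) (nat_lit 5) (nat_lit 632) (nat_lit 512) (nat_lit 416)) (XT.nd (nat_lit 78) (nat_lit 304) (nat_lit 0) (XT.lf (nat_lit 0) (nat_lit 11845237777) (nat_lit 304) (nat_lit 1813686173) (nat_lit 76) (nat_lit 1275160049) (nat_lit 88) (nat_lit 5) (nat_lit 92) (nat_lit 5) (nat_lit 89) (nat_lit 5) (nat_lit 633) (nat_lit 512) (nat_lit 415)) (XT.lf (nat_lit 0) (nat_lit 1557910639) (nat_lit 304) (nat_lit 6763959902) (nat_lit 76) (nat_lit 6793088867) (nat_lit 84) (nat_lit 5) (nat_lit 88) (nat_lit 5) (nat_lit 85) (nat_lit 5) (nat_lit 634) (nat_lit 512) (nat_lit 414))))) (XT.nd (nat_lit 234) (nat_lit 760) (nat_lit 0) (XT.nd (nat_lit 78) (nat_lit 304) (nat_lit 0) (XT.lf (nat_lit 0) (nat_lit 3423350030) (nat_lit 228) (nat_lit 2841188835) (nat_lit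 304) (nat_lit 9034340050) (nat_lit 81) (nat_lit 5) (nat_lit 84) (nat_lit 5) (nat_lit 85) (nat_lit 5) (nat_lit 635) (nat_lit 512) (nat_lit 413)) (XT.nd (nat_lit 78) (nat_lit 304) (nat_lit 0) (XT.lf (nat_lit 0) (nat_lit 11102715887) (nat_lit 304) (nat_lit 1643090034) (nat_lit 76) (nat_lit 2739923398) (nat_lit 81) (nat_lit 5) (nat_lit 85) (nat_lit 5) (nat_lit 82) (nat_lit 5) (nat_lit 636) (nat_lit 512) (nat_lit 412)) (XT.lf (nat_lit 0) (nat_lit 407578397) (nat_lit 304) (nat_lit 6831352509) (nat_lit 76) (nat_lit 8436320150) (nat_lit 77) (nat_lit 5) (nat_lit 81) (nat_lit 5) (nat_lit 78) (nat_lit 5) (nat_lit 637) (nat_lit 512) (nat_lit 411)))) (XT.nd (nat_lit 156) (nat_lit 532) (nat_lit 0) (XT.nd (nat_lit 78) (nat_lit 0) (nat_lit 0) (XT.lf (nat_lit 0) (nat_lit 3668955482) (nat_lit 228) (nat_lit 1575748006) (nat_lit 304) (nat_lit 10623092891) (nat_lit 74) (nat_lit 5) (nat_lit 77) (nat_lit 5) (nat_lit 78) (nat_lit 5) (nat_lit 638) (nat_lit 512) (nat_lit 410)) (XT.lf (nat_lit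 0) (nat_lit 10226515445) (nat_lit 304) (nat_lit 1663694352) (nat_lit 76) (nat_lit 4173024696) (nat_lit 74) (nat_lit 5) (nat_lit 78) (nat_lit 5) (nat_lit 75) (nat_lit 5) (nat_lit 639) (nat_lit 512) (nat_lit 409))) (XT.nd (nat_lit 78) (nat_lit 304) (nat_lit 0) (XT.lf (nat_lit 0) (nat_lit 9147860558) (nat_lit 228) (nat_lit 6204957066) (nat_lit 304) (nat_lit 908867419) (nat_lit 71) (nat_lit 5) (nat_lit 74) (nat_lit 5) (nat_lit 75) (nat_lit 5) (nat_lit 640) (nat_lit 512) (nat_lit 408)) (XT.lf (nat_lit 0) (nat_lit 3712318368) (nat_lit 228) (nat_lit 361628423) (nat_lit 304) (nat_lit 12389415705) (nat_lit 67) (nat_lit 5) (nat_lit 70) (nat_lit 5) (nat_lit 71) (nat_lit 5) (nat_lit 641) (nat_lit 512) (nat_lit 407)))))) (XT.nd (nat_lit 546) (nat_lit 152) (nat_lit 0) (XT.nd (nat_lit 234) (nat_lit 456) (nat_lit 0) (XT.nd (nat_lit 78) (nat_lit 456) (nat_lit 0) (XT.lf (nat_lit 0) (nat_lit 9203812398) (nat_lit 304) (nat_lit 1903352432) (nat_lit 76) (nat_lit 5560597930) (nat_lit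 67) (nat_lit 5) (nat_lit 71) (nat_lit 5) (nat_lit 68) (nat_lit 5) (nat_lit 642) (nat_lit 512) (nat_lit 406)) (XT.nd (nat_lit 78) (nat_lit 304) (nat_lit 0) (XT.lf (nat_lit 0) (nat_lit 9236941587) (nat_lit 152) (nat_lit 5237338434) (nat_lit 228) (nat_lit 2401211612) (nat_lit 65) (nat_lit 5) (nat_lit 67) (nat_lit 5) (nat_lit 68) (nat_lit 5) (nat_lit 643) (nat_lit 512) (nat_lit 405)) (XT.lf (nat_lit 0) (nat_lit 2743061783) (nat_lit 304) (nat_lit 13568117085) (nat_lit 76) (nat_lit 775507844) (nat_lit 61) (nat_lit 5) (nat_lit 65) (nat_lit 5) (nat_lit 62) (nat_lit 5) (nat_lit 644) (nat_lit 512) (nat_lit 404)))) (XT.nd (nat_lit 156) (nat_lit 304) (nat_lit 0) (XT.nd (nat_lit 78) (nat_lit 152) (nat_lit 0) (XT.lf (nat_lit 0) (nat_lit 8020134510) (nat_lit 304) (nat_lit 2392850989) (nat_lit 76) (nat_lit 6887562089) (nat_lit 61) (nat_lit 5) (nat_lit 65) (nat_lit 5) (nat_lit 62) (nat_lit 5) (nat_lit 645) (nat_lit 512) (nat_lit 403)) (XT.lf (nat_lit 0) (nat_lit 9082669869) (nat_lit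 152) (nat_lit 4355278480) (nat_lit 228) (nat_lit 4080033983) (nat_lit 59) (nat_lit 5) (nat_lit 61) (nat_lit 5) (nat_lit 62) (nat_lit 5) (nat_lit 646) (nat_lit 512) (nat_lit 402))) (XT.nd (nat_lit 78) (nat_lit 0) (nat_lit 0) (XT.lf (nat_lit 0) (nat_lit 1232669781) (nat_lit 304) (nat_lit 14680872465) (nat_lit 76) (nat_lit 1825577665) (nat_lit 55) (nat_lit 5) (nat_lit 59) (nat_lit 5) (nat_lit 56) (nat_lit 5) (nat_lit 647) (nat_lit 512) (nat_lit 401)) (XT.lf (nat_lit 0) (nat_lit 6659206352) (nat_lit 304) (nat_lit 3166245048) (nat_lit 76) (nat_lit 8137445859) (nat_lit 55) (nat_lit 5) (nat_lit 59) (nat_lit 5) (nat_lit 56) (nat_lit 5) (nat_lit 648) (nat_lit 512) (nat_lit 400))))) (XT.nd (nat_lit 72384) (nat_lit 0) (nat_lit 50160) (XT.nd (nat_lit 72228) (nat_lit 0) (nat_lit 51756) (XT.lf (nat_lit 0) (nat_lit 8650479984) (nat_lit 152) (nat_lit 3576758479) (nat_lit 228) (nat_lit 5963252990) (nat_lit 53) (nat_lit 5) (nat_lit 55) (nat_lit 5) (nat_lit 56) (nat_lit 5) (nat_lit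 649) (nat_lit 512) (nat_lit 399)) (XT.nd (nat_lit 78) (nat_lit 684) (nat_lit 0) (XT.lf (nat_lit 0) (nat_lit 2125328753) (nat_lit 532) (nat_lit 571276531) (nat_lit 532) (nat_lit 571276531) (nat_lit 743) (nat_lit 4) (nat_lit 750) (nat_lit 5) (nat_lit 750) (nat_lit 4) (nat_lit 534) (nat_lit 513) (nat_lit 513)) (XT.lf (nat_lit 0) (nat_lit 1630070636) (nat_lit 608) (nat_lit 447883230) (nat_lit 684) (nat_lit 4471840418) (nat_lit 734) (nat_lit 5) (nat_lit 742) (nat_lit 5) (nat_lit 743) (nat_lit 4) (nat_lit 535) (nat_lit 513) (nat_lit 512)))) (XT.nd (nat_lit 156) (nat_lit 836) (nat_lit 0) (XT.nd (nat_lit 78) (nat_lit 760) (nat_lit 0) (XT.lf (nat_lit 0) (nat_lit 5288944395) (nat_lit 684) (nat_lit 972006462) (nat_lit 0) (nat_lit 304188271) (nat_lit 734) (nat_lit 5) (nat_lit 743) (nat_lit 4) (nat_lit 734) (nat_lit 4) (nat_lit 536) (nat_lit 513) (nat_lit 511)) (XT.lf (nat_lit 0) (nat_lit 1905412524) (nat_lit 760) (nat_lit 3555137581) (nat_lit 76) (nat_lit 1121033604) (nat_lit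 724) (nat_lit 5) (nat_lit 734) (nat_lit 5) (nat_lit 725) (nat_lit 4) (nat_lit 537) (nat_lit 513) (nat_lit 510))) (XT.nd (nat_lit 78) (nat_lit 76) (nat_lit 0) (XT.lf (nat_lit 0) (nat_lit 464440622) (nat_lit 760) (nat_lit 4605058742) (nat_lit 836) (nat_lit 1529981769) (nat_lit 714) (nat_lit 5) (nat_lit 724) (nat_lit 5) (nat_lit 725) (nat_lit 4) (nat_lit 538) (nat_lit 513) (nat_lit 509)) (XT.lf (nat_lit 0) (nat_lit 1608073689) (nat_lit 836) (nat_lit 2069324041) (nat_lit 76) (nat_lit 2941112379) (nat_lit 713) (nat_lit 5) (nat_lit 724) (nat_lit 5) (nat_lit 714) (nat_lit 5) (nat_lit 539) (nat_lit 513) (nat_lit 508))))))) (XT.nd (nat_lit 1014) (nat_lit 12464) (nat_lit 0) (XT.nd (nat_lit 468) (nat_lit 6764) (nat_lit 0) (XT.nd (nat_lit 234) (nat_lit 2128) (nat_lit 0) (XT.nd (nat_lit 78) (nat_lit 988) (nat_lit 0) (XT.lf (nat_lit 0) (nat_lit 2041798213) (nat_lit 836) (nat_lit 2688263336) (nat_lit 912) (nat_lit 1908833418) (nat_lit 702) (nat_lit 5) (nat_lit 713) (nat_lit 5)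 (nat_lit 714) (nat_lit 5) (nat_lit 540) (nat_lit 513) (nat_lit 507)) (XT.nd (nat_lit 78) (nat_lit 912) (nat_lit 0) (XT.lf (nat_lit 0) (nat_lit 1181292492) (nat_lit 912) (nat_lit 457618890) (nat_lit 76) (nat_lit 5021764548) (nat_lit 701) (nat_lit 5) (nat_lit 713) (nat_lit 5) (nat_lit 702) (nat_lit 5) (nat_lit 541) (nat_lit 513) (nat_lit 506)) (XT.lf (nat_lit 0) (nat_lit 3749055939) (nat_lit 912) (nat_lit 513333287) (nat_lit 988) (nat_lit 2421166487) (nat_lit 689) (nat_lit 5) (nat_lit 701) (nat_lit 5) (nat_lit 702) (nat_lit 5) (nat_lit 542) (nat_lit 513) (nat_lit 505)))) (XT.nd (nat_lit 78) (nat_lit 1064) (nat_lit 0) (XT.lf (nat_lit 0) (nat_lit 635844188) (nat_lit 1064) (nat_lit 5413283636) (nat_lit 76) (nat_lit 658748579) (nat_lit 675) (nat_lit 5) (nat_lit 689) (nat_lit 5) (nat_lit 676) (nat_lit 5) (nat_lit 543) (nat_lit 513) (nat_lit 504)) (XT.nd (nat_lit 78) (nat_lit 1064) (nat_lit 0) (XT.lf (nat_lit 0) (nat_lit 3676871784) (nat_lit 1064) (nat_lit 1157640239)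 (nat_lit 76) (nat_lit 1898755003) (nat_lit 675) (nat_lit 5) (nat_lit 689) (nat_lit 5) (nat_lit 676) (nat_lit 5) (nat_lit 544) (nat_lit 513) (nat_lit 503)) (XT.lf (nat_lit 0) (nat_lit 3171940652) (nat_lit 1064) (nat_lit 3560749910) (nat_lit 1140) (nat_lit 27404818) (nat_lit 661) (nat_lit 5) (nat_lit 675) (nat_lit 5) (nat_lit 676) (nat_lit 5) (nat_lit 545) (nat_lit 513) (nat_lit 502))))) (XT.nd (nat_lit 234) (nat_lit 4256) (nat_lit 0) (XT.nd (nat_lit 78) (nat_lit 1292) (nat_lit 0) (XT.lf (nat_lit 0) (nat_lit 753128545) (nat_lit 1140) (nat_lit 2215484034) (nat_lit 1216) (nat_lit 3819526899) (nat_lit 645) (nat_lit 5) (nat_lit 660) (nat_lit 5) (nat_lit 661) (nat_lit 5) (nat_lit 546) (nat_lit 513) (nat_lit 501)) (XT.nd (nat_lit 78) (nat_lit 1292) (nat_lit 0) (XT.lf (nat_lit 0) (nat_lit 5176726570) (nat_lit 1140) (nat_lit 806384970) (nat_lit 1216) (nat_lit 834459527) (nat_lit 645) (nat_lit 5) (nat_lit 660) (nat_lit 5) (nat_lit 661) (nat_lit 5) (nat_lit 547) (nat_lit 513)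 (nat_lit 500)) (XT.lf (nat_lit 0) (nat_lit 2139654413) (nat_lit 1292) (nat_lit 4041690175) (nat_lit 76) (nat_lit 666801460) (nat_lit 628) (nat_lit 5) (nat_lit 645) (nat_lit 5) (nat_lit 629) (nat_lit 5) (nat_lit 548) (nat_lit 513) (nat_lit 499)))) (XT.nd (nat_lit 156) (nat_lit 2888) (nat_lit 0) (XT.nd (nat_lit 78) (nat_lit 76) (nat_lit 0) (XT.lf (nat_lit 0) (nat_lit 426699268) (nat_lit 1292) (nat_lit 4691270896) (nat_lit 1368) (nat_lit 1762142474) (nat_lit 611) (nat_lit 5) (nat_lit 628) (nat_lit 5) (nat_lit 629) (nat_lit 5) (nat_lit 549) (nat_lit 513) (nat_lit 498)) (XT.lf (nat_lit 0) (nat_lit 1191292264) (nat_lit 1368) (nat_lit 1935463048) (nat_lit 76) (nat_lit 3786520541) (nat_lit 610) (nat_lit 5) (nat_lit 628) (nat_lit 5) (nat_lit 611) (nat_lit 5) (nat_lit 550) (nat_lit 513) (nat_lit 497))) (XT.nd (nat_lit 78) (nat_lit 1520) (nat_lit 0) (XT.lf (nat_lit 0) (nat_lit 2642620461) (nat_lit 1368) (nat_lit 1493153018) (nat_lit 1444) (nat_lit 2811992246) (nat_lit 592)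 (nat_lit 5) (nat_lit 610) (nat_lit 5) (nat_lit 611) (nat_lit 5) (nat_lit 551) (nat_lit 513) (nat_lit 496)) (XT.lf (nat_lit 0) (nat_lit 109331814) (nat_lit 1520) (nat_lit 6680101918) (nat_lit 76) (nat_lit 194395257) (nat_lit 572) (nat_lit 5) (nat_lit 592) (nat_lit 5) (nat_lit 573) (nat_lit 5) (nat_lit 552) (nat_lit 513) (nat_lit 495)))))) (XT.nd (nat_lit 546) (nat_lit 5776) (nat_lit 0) (XT.nd (nat_lit 234) (nat_lit 3496) (nat_lit 0) (XT.nd (nat_lit 78) (nat_lit 3192) (nat_lit 0) (XT.lf (nat_lit 0) (nat_lit 3030180651) (nat_lit 1520) (nat_lit 2040193633) (nat_lit 76) (nat_lit 1950299830) (nat_lit 572) (nat_lit 5) (nat_lit 592) (nat_lit 5) (nat_lit 573) (nat_lit 5) (nat_lit 553) (nat_lit 513) (nat_lit 494)) (XT.nd (nat_lit 78) (nat_lit 1672) (nat_lit 0) (XT.lf (nat_lit 0) (nat_lit 2674064115) (nat_lit 1520) (nat_lit 3293671725) (nat_lit 1596) (nat_lit 1091361729) (nat_lit 552) (nat_lit 5) (nat_lit 572) (nat_lit 5) (nat_lit 573) (nat_lit 5) (nat_lit 554) (nat_lit 513)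 (nat_lit 493)) (XT.lf (nat_lit 0) (nat_lit 350687846) (nat_lit 1596) (nat_lit 1448001311) (nat_lit 1672) (nat_lit 5300216871) (nat_lit 530) (nat_lit 5) (nat_lit 551) (nat_lit 5) (nat_lit 552) (nat_lit 5) (nat_lit 555) (nat_lit 513) (nat_lit 492)))) (XT.nd (nat_lit 156) (nat_lit 1748) (nat_lit 0) (XT.nd (nat_lit 78) (nat_lit 1748) (nat_lit 0) (XT.lf (nat_lit 0) (nat_lit 4706561247) (nat_lit 1672) (nat_lit 1963392579) (nat_lit 76) (nat_lit 469926679) (nat_lit 530) (nat_lit 5) (nat_lit 552) (nat_lit 5) (nat_lit 531) (nat_lit 5) (nat_lit 556) (nat_lit 513) (nat_lit 491)) (XT.lf (nat_lit 0) (nat_lit 455959544) (nat_lit 1748) (nat_lit 4293497355) (nat_lit 76) (nat_lit 2432730726) (nat_lit 507) (nat_lit 5) (nat_lit 530) (nat_lit 5) (nat_lit 508) (nat_lit 5) (nat_lit 557) (nat_lit 513) (nat_lit 490))) (XT.nd (nat_lit 78) (nat_lit 0) (nat_lit 0) (XT.lf (nat_lit 0) (nat_lit 576594734) (nat_lit 1748) (nat_lit 2754583342) (nat_lit 1824) (nat_lit 3894632807) (nat_lit 484) (nat_lit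 5) (nat_lit 507) (nat_lit 5) (nat_lit 508) (nat_lit 5) (nat_lit 558) (nat_lit 513) (nat_lit 489)) (XT.lf (nat_lit 0) (nat_lit 5548527027) (nat_lit 1748) (nat_lit 688640011) (nat_lit 1824) (nat_lit 1033680528) (nat_lit 484) (nat_lit 5) (nat_lit 507) (nat_lit 5) (nat_lit 508) (nat_lit 5) (nat_lit 559) (nat_lit 513) (nat_lit 488))))) (XT.nd (nat_lit 234) (nat_lit 2736) (nat_lit 0) (XT.nd (nat_lit 78) (nat_lit 1140) (nat_lit 0) (XT.lf (nat_lit 0) (nat_lit 1835692814) (nat_lit 1900) (nat_lit 4046198635) (nat_lit 76) (nat_lit 1435136512) (nat_lit 459) (nat_lit 5) (nat_lit 484) (nat_lit 5) (nat_lit 460) (nat_lit 5) (nat_lit 560) (nat_lit 513) (nat_lit 487)) (XT.nd (nat_lit 78) (nat_lit 76) (nat_lit 0) (XT.lf (nat_lit 0) (nat_lit 970347237) (nat_lit 1064) (nat_lit 3746686852) (nat_lit 1140) (nat_lit 2647598711) (nat_lit 445) (nat_lit 5) (nat_lit 459) (nat_lit 5) (nat_lit 460) (nat_lit 5) (nat_lit 561) (nat_lit 513) (nat_lit 486)) (XT.lf (nat_lit 0) (nat_lit 213225312)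 (nat_lit 1140) (nat_lit 1326879303) (nat_lit 76) (nat_lit 5873587333) (nat_lit 444) (nat_lit 5) (nat_lit 459) (nat_lit 5) (nat_lit 445) (nat_lit 5) (nat_lit 562) (nat_lit 513) (nat_lit 485)))) (XT.nd (nat_lit 156) (nat_lit 912) (nat_lit 0) (XT.nd (nat_lit 78) (nat_lit 912) (nat_lit 0) (XT.lf (nat_lit 0) (nat_lit 3072863971) (nat_lit 988) (nat_lit 3647857555) (nat_lit 76) (nat_lit 743125325) (nat_lit 432) (nat_lit 5) (nat_lit 445) (nat_lit 5) (nat_lit 433) (nat_lit 5) (nat_lit 563) (nat_lit 513) (nat_lit 484)) (XT.lf (nat_lit 0) (nat_lit 1520392393) (nat_lit 912) (nat_lit 4446336540) (nat_lit 988) (nat_lit 1548740718) (nat_lit 420) (nat_lit 5) (nat_lit 432) (nat_lit 5) (nat_lit 433) (nat_lit 5) (nat_lit 564) (nat_lit 513) (nat_lit 483))) (XT.nd (nat_lit 78) (nat_lit 836) (nat_lit 0) (XT.lf (nat_lit 0) (nat_lit 1305602183) (nat_lit 988) (nat_lit 789609603) (nat_lit 76) (nat_lit 5473283709) (nat_lit 419) (nat_lit 5) (nat_lit 432) (nat_lit 5) (nat_lit 420) (nat_lit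 5) (nat_lit 565) (nat_lit 513) (nat_lit 482)) (XT.lf (nat_lit 0) (nat_lit 4177180291) (nat_lit 912) (nat_lit 3109518478) (nat_lit 76) (nat_lit 336065776) (nat_lit 408) (nat_lit 5) (nat_lit 420) (nat_lit 5) (nat_lit 409) (nat_lit 5) (nat_lit 566) (nat_lit 513) (nat_lit 481))))))))
noncomputable def xc63 : XT := (XT.nd (nat_lit 2106) (nat_lit 8512) (nat_lit 0) (XT.nd (nat_lit 1014) (nat_lit 6156) (nat_lit 0) (XT.nd (nat_lit 468) (nat_lit 3800) (nat_lit 0) (XT.nd (nat_lit 234) (nat_lit 1672) (nat_lit 0) (XT.nd (nat_lit 78) (nat_lit 912) (nat_lit 0) (XT.lf (nat_lit 0) (nat_lit 2215935854) (nat_lit 836) (nat_lit 4873817641) (nat_lit 912) (nat_lit 588699262) (nat_lit 397) (nat_lit 5) (nat_lit 408) (nat_lit 5) (nat_lit 409) (nat_lit 5) (nat_lit 567) (nat_lit 513) (nat_lit 480)) (XT.nd (nat_lit 78) (nat_lit 836) (nat_lit 0) (XT.lf (nat_lit 0) (nat_lit 2266098216) (nat_lit 912) (nat_lit 114398699) (nat_lit 76) (nat_lit 5355035284) (nat_lit 396) (nat_lit 5) (nat_lit 408)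 (nat_lit 5) (nat_lit 397) (nat_lit 5) (nat_lit 568) (nat_lit 513) (nat_lit 479)) (XT.lf (nat_lit 0) (nat_lit 5157401070) (nat_lit 912) (nat_lit 2441553950) (nat_lit 76) (nat_lit 194979304) (nat_lit 385) (nat_lit 5) (nat_lit 397) (nat_lit 5) (nat_lit 386) (nat_lit 5) (nat_lit 569) (nat_lit 513) (nat_lit 478)))) (XT.nd (nat_lit 78) (nat_lit 760) (nat_lit 0) (XT.lf (nat_lit 0) (nat_lit 237766938) (nat_lit 912) (nat_lit 4808458518) (nat_lit 76) (nat_lit 2807489553) (nat_lit 373) (nat_lit 5) (nat_lit 385) (nat_lit 5) (nat_lit 374) (nat_lit 5) (nat_lit 570) (nat_lit 513) (nat_lit 477)) (XT.nd (nat_lit 78) (nat_lit 0) (nat_lit 0) (XT.lf (nat_lit 0) (nat_lit 697938941) (nat_lit 760) (nat_lit 2409468753) (nat_lit 836) (nat_lit 4807476396) (nat_lit 363) (nat_lit 5) (nat_lit 373) (nat_lit 5) (nat_lit 374) (nat_lit 5) (nat_lit 571) (nat_lit 513) (nat_lit 476)) (XT.lf (nat_lit 0) (nat_lit 6021388418) (nat_lit 836) (nat_lit 1653751642) (nat_lit 76) (nat_lit 302401946) (nat_lit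 363) (nat_lit 5) (nat_lit 374) (nat_lit 5) (nat_lit 364) (nat_lit 5) (nat_lit 572) (nat_lit 513) (nat_lit 475))))) (XT.nd (nat_lit 234) (nat_lit 2280) (nat_lit 0) (XT.nd (nat_lit 78) (nat_lit 684) (nat_lit 0) (XT.lf (nat_lit 0) (nat_lit 935200884) (nat_lit 836) (nat_lit 4044102324) (nat_lit 76) (nat_lit 3062120584) (nat_lit 352) (nat_lit 5) (nat_lit 363) (nat_lit 5) (nat_lit 353) (nat_lit 5) (nat_lit 573) (nat_lit 513) (nat_lit 474)) (XT.nd (nat_lit 78) (nat_lit 0) (nat_lit 0) (XT.lf (nat_lit 0) (nat_lit 1631922234) (nat_lit 684) (nat_lit 2201891194) (nat_lit 760) (nat_lit 4273002850) (nat_lit 343) (nat_lit 5) (nat_lit 352) (nat_lit 5) (nat_lit 353) (nat_lit 5) (nat_lit 574) (nat_lit 513) (nat_lit 473)) (XT.lf (nat_lit 0) (nat_lit 6776151901) (nat_lit 760) (nat_lit 755398930) (nat_lit 76) (nat_lit 642254770) (nat_lit 343) (nat_lit 5) (nat_lit 353) (nat_lit 5) (nat_lit 344) (nat_lit 5) (nat_lit 575) (nat_lit 513) (nat_lit 472)))) (XT.nd (nat_lit 156) (nat_lit 760)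 (nat_lit 0) (XT.nd (nat_lit 78) (nat_lit 684) (nat_lit 0) (XT.lf (nat_lit 0) (nat_lit 1517862481) (nat_lit 836) (nat_lit 3174944460) (nat_lit 76) (nat_lit 3549076433) (nat_lit 332) (nat_lit 5) (nat_lit 343) (nat_lit 5) (nat_lit 333) (nat_lit 5) (nat_lit 576) (nat_lit 513) (nat_lit 471)) (XT.lf (nat_lit 0) (nat_lit 2676949590) (nat_lit 684) (nat_lit 1773996208) (nat_lit 760) (nat_lit 3860636535) (nat_lit 323) (nat_lit 5) (nat_lit 332) (nat_lit 5) (nat_lit 333) (nat_lit 5) (nat_lit 577) (nat_lit 513) (nat_lit 470))) (XT.nd (nat_lit 78) (nat_lit 76) (nat_lit 0) (XT.lf (nat_lit 0) (nat_lit 247885275) (nat_lit 684) (nat_lit 7181611404) (nat_lit 760) (nat_lit 953446226) (nat_lit 314) (nat_lit 5) (nat_lit 323) (nat_lit 5) (nat_lit 324) (nat_lit 5) (nat_lit 578) (nat_lit 513) (nat_lit 469)) (XT.lf (nat_lit 0) (nat_lit 1991472713) (nat_lit 760) (nat_lit 2209915858) (nat_lit 76) (nat_lit 4253965055) (nat_lit 313) (nat_lit 5) (nat_lit 323) (nat_lit 5) (nat_lit 314) (nat_lit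 5) (nat_lit 579) (nat_lit 513) (nat_lit 468)))))) (XT.nd (nat_lit 546) (nat_lit 2888) (nat_lit 0) (XT.nd (nat_lit 234) (nat_lit 1900) (nat_lit 0) (XT.nd (nat_lit 78) (nat_lit 760) (nat_lit 0) (XT.lf (nat_lit 0) (nat_lit 3824323440) (nat_lit 608) (nat_lit 1140062531) (nat_lit 684) (nat_lit 3565066828) (nat_lit 305) (nat_lit 5) (nat_lit 313) (nat_lit 5) (nat_lit 314) (nat_lit 5) (nat_lit 580) (nat_lit 513) (nat_lit 467)) (XT.nd (nat_lit 78) (nat_lit 76) (nat_lit 0) (XT.lf (nat_lit 0) (nat_lit 1355592233) (nat_lit 684) (nat_lit 6635218473) (nat_lit 760) (nat_lit 614345652) (nat_lit 296) (nat_lit 5) (nat_lit 305) (nat_lit 5) (nat_lit 306) (nat_lit 5) (nat_lit 581) (nat_lit 513) (nat_lit 466)) (XT.lf (nat_lit 0) (nat_lit 2360965431) (nat_lit 760) (nat_lit 1157642388) (nat_lit 76) (nat_lit 5163518624) (nat_lit 295) (nat_lit 5) (nat_lit 305) (nat_lit 5) (nat_lit 296) (nat_lit 5) (nat_lit 582) (nat_lit 513) (nat_lit 465)))) (XT.nd (nat_lit 156) (nat_lit 684) (nat_lit 0)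 (XT.nd (nat_lit 78) (nat_lit 608) (nat_lit 0) (XT.lf (nat_lit 0) (nat_lit 5065647164) (nat_lit 608) (nat_lit 313295323) (nat_lit 684) (nat_lit 3381787776) (nat_lit 287) (nat_lit 5) (nat_lit 295) (nat_lit 5) (nat_lit 296) (nat_lit 5) (nat_lit 583) (nat_lit 513) (nat_lit 464)) (XT.lf (nat_lit 0) (nat_lit 2549292773) (nat_lit 608) (nat_lit 5910438348) (nat_lit 684) (nat_lit 381129201) (nat_lit 279) (nat_lit 5) (nat_lit 287) (nat_lit 5) (nat_lit 288) (nat_lit 5) (nat_lit 584) (nat_lit 513) (nat_lit 463))) (XT.nd (nat_lit 78) (nat_lit 608) (nat_lit 0) (XT.lf (nat_lit 0) (nat_lit 2630512640) (nat_lit 684) (nat_lit 26527064) (nat_lit 76) (nat_lit 6265486155) (nat_lit 278) (nat_lit 5) (nat_lit 287) (nat_lit 5) (nat_lit 279) (nat_lit 5) (nat_lit 585) (nat_lit 513) (nat_lit 462)) (XT.lf (nat_lit 0) (nat_lit 5703181248) (nat_lit 684) (nat_lit 2617513514) (nat_lit 76) (nat_lit 684964633) (nat_lit 270) (nat_lit 5) (nat_lit 279) (nat_lit 5) (nat_lit 271) (nat_lit 5) (nat_lit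 586) (nat_lit 513) (nat_lit 461))))) (XT.nd (nat_lit 234) (nat_lit 1672) (nat_lit 0) (XT.nd (nat_lit 78) (nat_lit 608) (nat_lit 0) (XT.lf (nat_lit 0) (nat_lit 3820771281) (nat_lit 608) (nat_lit 5019363023) (nat_lit 684) (nat_lit 250267634) (nat_lit 262) (nat_lit 5) (nat_lit 270) (nat_lit 5) (nat_lit 271) (nat_lit 5) (nat_lit 587) (nat_lit 513) (nat_lit 460)) (XT.nd (nat_lit 78) (nat_lit 0) (nat_lit 0) (XT.lf (nat_lit 0) (nat_lit 1190784595) (nat_lit 532) (nat_lit 1620491024) (nat_lit 608) (nat_lit 6365478047) (nat_lit 254) (nat_lit 5) (nat_lit 261) (nat_lit 5) (nat_lit 262) (nat_lit 5) (nat_lit 588) (nat_lit 513) (nat_lit 459)) (XT.lf (nat_lit 0) (nat_lit 5939057453) (nat_lit 608) (nat_lit 1479457971) (nat_lit 76) (nat_lit 1846119531) (nat_lit 254) (nat_lit 5) (nat_lit 262) (nat_lit 5) (nat_lit 255) (nat_lit 5) (nat_lit 589) (nat_lit 513) (nat_lit 458)))) (XT.nd (nat_lit 156) (nat_lit 532) (nat_lit 0) (XT.nd (nat_lit 78) (nat_lit 608) (nat_lit 0) (XT.lf (nat_lit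 0) (nat_lit 5161903068) (nat_lit 532) (nat_lit 3973278965) (nat_lit 608) (nat_lit 218978829) (nat_lit 247) (nat_lit 5) (nat_lit 254) (nat_lit 5) (nat_lit 255) (nat_lit 5) (nat_lit 590) (nat_lit 513) (nat_lit 457)) (XT.lf (nat_lit 0) (nat_lit 2471650011) (nat_lit 532) (nat_lit 427159971) (nat_lit 608) (nat_lit 6546532004) (nat_lit 239) (nat_lit 5) (nat_lit 246) (nat_lit 5) (nat_lit 247) (nat_lit 5) (nat_lit 591) (nat_lit 513) (nat_lit 456))) (XT.nd (nat_lit 78) (nat_lit 532) (nat_lit 0) (XT.lf (nat_lit 0) (nat_lit 6087078706) (nat_lit 608) (nat_lit 287207253) (nat_lit 76) (nat_lit 3163813276) (nat_lit 239) (nat_lit 5) (nat_lit 247) (nat_lit 5) (nat_lit 240) (nat_lit 5) (nat_lit 592) (nat_lit 513) (nat_lit 455)) (XT.lf (nat_lit 0) (nat_lit 6564568917) (nat_lit 532) (nat_lit 2782763053) (nat_lit 608) (nat_lit 285217800) (nat_lit 232) (nat_lit 5) (nat_lit 239) (nat_lit 5) (nat_lit 240) (nat_lit 5) (nat_lit 593) (nat_lit 513) (nat_lit 454))))))) (XT.nd (nat_lit 1092)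 (nat_lit 3724) (nat_lit 0) (XT.nd (nat_lit 546) (nat_lit 2204) (nat_lit 0) (XT.nd (nat_lit 234) (nat_lit 1520) (nat_lit 0) (XT.nd (nat_lit 78) (nat_lit 532) (nat_lit 0) (XT.lf (nat_lit 0) (nat_lit 2900794712) (nat_lit 532) (nat_lit 5927271535) (nat_lit 76) (nat_lit 900533153) (nat_lit 225) (nat_lit 5) (nat_lit 232) (nat_lit 5) (nat_lit 226) (nat_lit 5) (nat_lit 594) (nat_lit 513) (nat_lit 453)) (XT.nd (nat_lit 78) (nat_lit 0) (nat_lit 0) (XT.lf (nat_lit 0) (nat_lit 963475229) (nat_lit 532) (nat_lit 5191860476) (nat_lit 608) (nat_lit 3671026443) (nat_lit 218) (nat_lit 5) (nat_lit 225) (nat_lit 5) (nat_lit 226) (nat_lit 5) (nat_lit 595) (nat_lit 513) (nat_lit 452)) (XT.lf (nat_lit 0) (nat_lit 8020567198) (nat_lit 532) (nat_lit 1457775488) (nat_lit 608) (nat_lit 447672296) (nat_lit 218) (nat_lit 5) (nat_lit 225) (nat_lit 5) (nat_lit 226) (nat_lit 5) (nat_lit 596) (nat_lit 513) (nat_lit 451)))) (XT.nd (nat_lit 156) (nat_lit 532) (nat_lit 0) (XT.nd (nat_lit 78) (nat_lit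 456) (nat_lit 0) (XT.lf (nat_lit 0) (nat_lit 2816178376) (nat_lit 532) (nat_lit 4853366842) (nat_lit 76) (nat_lit 2357483526) (nat_lit 211) (nat_lit 5) (nat_lit 218) (nat_lit 5) (nat_lit 212) (nat_lit 5) (nat_lit 597) (nat_lit 513) (nat_lit 450)) (XT.lf (nat_lit 0) (nat_lit 2255700900) (nat_lit 456) (nat_lit 3885136241) (nat_lit 532) (nat_lit 3989138146) (nat_lit 205) (nat_lit 5) (nat_lit 211) (nat_lit 5) (nat_lit 212) (nat_lit 5) (nat_lit 598) (nat_lit 513) (nat_lit 449))) (XT.nd (nat_lit 78) (nat_lit 532) (nat_lit 0) (XT.lf (nat_lit 0) (nat_lit 9521522775) (nat_lit 456) (nat_lit 7750390) (nat_lit 532) (nat_lit 705764071) (nat_lit 205) (nat_lit 5) (nat_lit 211) (nat_lit 5) (nat_lit 212) (nat_lit 5) (nat_lit 599) (nat_lit 513) (nat_lit 448)) (XT.lf (nat_lit 0) (nat_lit 2642621173) (nat_lit 532) (nat_lit 3758315689) (nat_lit 76) (nat_lit 3940242180) (nat_lit 198) (nat_lit 5) (nat_lit 205) (nat_lit 5) (nat_lit 199) (nat_lit 5) (nat_lit 600) (nat_lit 513) (nat_lit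 447))))) (XT.nd (nat_lit 234) (nat_lit 1292) (nat_lit 0) (XT.nd (nat_lit 78) (nat_lit 456) (nat_lit 0) (XT.lf (nat_lit 0) (nat_lit 3576713511) (nat_lit 456) (nat_lit 2465341757) (nat_lit 532) (nat_lit 4407426520) (nat_lit 192) (nat_lit 5) (nat_lit 198) (nat_lit 5) (nat_lit 199) (nat_lit 5) (nat_lit 601) (nat_lit 513) (nat_lit 446)) (XT.nd (nat_lit 78) (nat_lit 76) (nat_lit 0) (XT.lf (nat_lit 0) (nat_lit 495034131) (nat_lit 380) (nat_lit 9018774257) (nat_lit 456) (nat_lit 1046057585) (nat_lit 187) (nat_lit 5) (nat_lit 192) (nat_lit 5) (nat_lit 193) (nat_lit 5) (nat_lit 602) (nat_lit 513) (nat_lit 445)) (XT.lf (nat_lit 0) (nat_lit 2379831456) (nat_lit 456) (nat_lit 2651578245) (nat_lit 76) (nat_lit 5640169871) (nat_lit 186) (nat_lit 5) (nat_lit 192) (nat_lit 5) (nat_lit 187) (nat_lit 5) (nat_lit 603) (nat_lit 513) (nat_lit 444)))) (XT.nd (nat_lit 156) (nat_lit 456) (nat_lit 0) (XT.nd (nat_lit 78) (nat_lit 380) (nat_lit 0) (XT.lf (nat_lit 0) (nat_lit 4917212471) (nat_lit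 456) (nat_lit 941416879) (nat_lit 532) (nat_lit 4926793726) (nat_lit 180) (nat_lit 5) (nat_lit 186) (nat_lit 5) (nat_lit 187) (nat_lit 5) (nat_lit 604) (nat_lit 513) (nat_lit 443)) (XT.lf (nat_lit 0) (nat_lit 1723124858) (nat_lit 380) (nat_lit 7700634499) (nat_lit 456) (nat_lit 1477450810) (nat_lit 175) (nat_lit 5) (nat_lit 180) (nat_lit 5) (nat_lit 181) (nat_lit 5) (nat_lit 605) (nat_lit 513) (nat_lit 442))) (XT.nd (nat_lit 78) (nat_lit 380) (nat_lit 0) (XT.lf (nat_lit 0) (nat_lit 2026777189) (nat_lit 456) (nat_lit 1543067000) (nat_lit 76) (nat_lit 7448952268) (nat_lit 174) (nat_lit 5) (nat_lit 180) (nat_lit 5) (nat_lit 175) (nat_lit 5) (nat_lit 606) (nat_lit 513) (nat_lit 441)) (XT.lf (nat_lit 0) (nat_lit 5593861100) (nat_lit 456) (nat_lit 4875348939) (nat_lit 76) (nat_lit 669079761) (nat_lit 169) (nat_lit 5) (nat_lit 175) (nat_lit 5) (nat_lit 170) (nat_lit 5) (nat_lit 607) (nat_lit 513) (nat_lit 440)))))) (XT.nd (nat_lit 546) (nat_lit 1748) (nat_lit 0) (XT.nd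 (nat_lit 234) (nat_lit 1140) (nat_lit 0) (XT.nd (nat_lit 78) (nat_lit 456) (nat_lit 0) (XT.lf (nat_lit 0) (nat_lit 2951170747) (nat_lit 380) (nat_lit 6301990821) (nat_lit 456) (nat_lit 2006595645) (nat_lit 164) (nat_lit 5) (nat_lit 169) (nat_lit 5) (nat_lit 170) (nat_lit 5) (nat_lit 608) (nat_lit 513) (nat_lit 439)) (XT.nd (nat_lit 78) (nat_lit 380) (nat_lit 0) (XT.lf (nat_lit 0) (nat_lit 1581664672) (nat_lit 456) (nat_lit 443256485) (nat_lit 76) (nat_lit 9358512805) (nat_lit 163) (nat_lit 5) (nat_lit 169) (nat_lit 5) (nat_lit 164) (nat_lit 5) (nat_lit 609) (nat_lit 513) (nat_lit 438)) (XT.lf (nat_lit 0) (nat_lit 5248163092) (nat_lit 456) (nat_lit 3907421164) (nat_lit 76) (nat_lit 2353069495) (nat_lit 158) (nat_lit 5) (nat_lit 164) (nat_lit 5) (nat_lit 159) (nat_lit 5) (nat_lit 610) (nat_lit 513) (nat_lit 437)))) (XT.nd (nat_lit 156) (nat_lit 304) (nat_lit 0) (XT.nd (nat_lit 78) (nat_lit 456) (nat_lit 0) (XT.lf (nat_lit 0) (nat_lit 4168380446) (nat_lit 380) (nat_lit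 4831651430) (nat_lit 456) (nat_lit 2636106824) (nat_lit 153) (nat_lit 5) (nat_lit 158) (nat_lit 5) (nat_lit 159) (nat_lit 5) (nat_lit 611) (nat_lit 513) (nat_lit 436)) (XT.lf (nat_lit 0) (nat_lit 645161025) (nat_lit 380) (nat_lit 400938583) (nat_lit 456) (nat_lit 10719952562) (nat_lit 147) (nat_lit 5) (nat_lit 152) (nat_lit 5) (nat_lit 153) (nat_lit 5) (nat_lit 612) (nat_lit 513) (nat_lit 435))) (XT.nd (nat_lit 78) (nat_lit 304) (nat_lit 0) (XT.lf (nat_lit 0) (nat_lit 4812713776) (nat_lit 456) (nat_lit 2969961268) (nat_lit 76) (nat_lit 4114620632) (nat_lit 147) (nat_lit 5) (nat_lit 153) (nat_lit 5) (nat_lit 148) (nat_lit 5) (nat_lit 613) (nat_lit 513) (nat_lit 434)) (XT.lf (nat_lit 0) (nat_lit 5363203831) (nat_lit 304) (nat_lit 3298388301) (nat_lit 380) (nat_lit 3369434732) (nat_lit 143) (nat_lit 5) (nat_lit 147) (nat_lit 5) (nat_lit 148) (nat_lit 5) (nat_lit 614) (nat_lit 513) (nat_lit 433))))) (XT.nd (nat_lit 234) (nat_lit 988) (nat_lit 0) (XT.nd (nat_lit 78)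 (nat_lit 304) (nat_lit 0) (XT.lf (nat_lit 0) (nat_lit 423581788) (nat_lit 456) (nat_lit 10468521023) (nat_lit 76) (nat_lit 1275095219) (nat_lit 137) (nat_lit 5) (nat_lit 143) (nat_lit 5) (nat_lit 138) (nat_lit 5) (nat_lit 615) (nat_lit 513) (nat_lit 432)) (XT.nd (nat_lit 78) (nat_lit 304) (nat_lit 0) (XT.lf (nat_lit 0) (nat_lit 4283975190) (nat_lit 456) (nat_lit 2075483736) (nat_lit 76) (nat_lit 5945456956) (nat_lit 137) (nat_lit 5) (nat_lit 143) (nat_lit 5) (nat_lit 138) (nat_lit 5) (nat_lit 616) (nat_lit 513) (nat_lit 431)) (XT.lf (nat_lit 0) (nat_lit 6523199522) (nat_lit 304) (nat_lit 1711030416) (nat_lit 380) (nat_lit 4210906423) (nat_lit 133) (nat_lit 5) (nat_lit 137) (nat_lit 5) (nat_lit 138) (nat_lit 5) (nat_lit 617) (nat_lit 513) (nat_lit 430)))) (XT.nd (nat_lit 156) (nat_lit 608) (nat_lit 0) (XT.nd (nat_lit 78) (nat_lit 76) (nat_lit 0) (XT.lf (nat_lit 0) (nat_lit 2701849111) (nat_lit 304) (nat_lit 9583335575) (nat_lit 380) (nat_lit 302543981) (nat_lit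 129) (nat_lit 5) (nat_lit 133) (nat_lit 5) (nat_lit 134) (nat_lit 5) (nat_lit 618) (nat_lit 513) (nat_lit 429)) (XT.lf (nat_lit 0) (nat_lit 3657536134) (nat_lit 380) (nat_lit 1237510996) (nat_lit 76) (nat_lit 7837211241) (nat_lit 128) (nat_lit 5) (nat_lit 133) (nat_lit 5) (nat_lit 129) (nat_lit 5) (nat_lit 619) (nat_lit 513) (nat_lit 428))) (XT.nd (nat_lit 78) (nat_lit 304) (nat_lit 0) (XT.lf (nat_lit 0) (nat_lit 7634891782) (nat_lit 304) (nat_lit 78560108) (nat_lit 380) (nat_lit 5165774319) (nat_lit 124) (nat_lit 5) (nat_lit 128) (nat_lit 5) (nat_lit 129) (nat_lit 5) (nat_lit 620) (nat_lit 513) (nat_lit 427)) (XT.lf (nat_lit 0) (nat_lit 3641659952) (nat_lit 304) (nat_lit 8243472384) (nat_lit 380) (nat_lit 1143309356) (nat_lit 120) (nat_lit 5) (nat_lit 124) (nat_lit 5) (nat_lit 125) (nat_lit 5) (nat_lit 621) (nat_lit 513) (nat_lit 426))))))))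
noncomputable def xc64 : XT := (XT.nd (nat_lit 74178) (nat_lit 0) (nat_lit 34352) (XT.nd (nat_lit 1014) (nat_lit 2280) (nat_lit 0) (XT.nd (nat_lit 468) (nat_lit 1368) (nat_lit 0) (XT.nd (nat_lit 234) (nat_lit 608) (nat_lit 0) (XT.nd (nat_lit 78) (nat_lit 608) (nat_lit 0) (XT.lf (nat_lit 0) (nat_lit 2928059782) (nat_lit 380) (nat_lit 470724750) (nat_lit 76) (nat_lit 9781328392) (nat_lit 119) (nat_lit 5) (nat_lit 124) (nat_lit 5) (nat_lit 120) (nat_lit 5) (nat_lit 622) (nat_lit 513) (nat_lit 425)) (XT.nd (nat_lit 78) (nat_lit 304) (nat_lit 0) (XT.lf (nat_lit 0) (nat_lit 7104150749) (nat_lit 380) (nat_lit 4660808474) (nat_lit 76) (nat_lit 1568936287) (nat_lit 115) (nat_lit 5) (nat_lit 120) (nat_lit 5) (nat_lit 116) (nat_lit 5) (nat_lit 623) (nat_lit 513) (nat_lit 424)) (XT.lf (nat_lit 0) (nat_lit 4505537968) (nat_lit 304) (nat_lit 6885188217) (nat_lit 380) (nat_lit 2099489433) (nat_lit 111) (nat_lit 5) (nat_lit 115) (nat_lit 5) (nat_lit 116) (nat_lit 5) (nat_lit 624)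 (nat_lit 513) (nat_lit 423)))) (XT.nd (nat_lit 78) (nat_lit 304) (nat_lit 0) (XT.lf (nat_lit 0) (nat_lit 211645428) (nat_lit 228) (nat_lit 1878951574) (nat_lit 304) (nat_lit 11558692910) (nat_lit 107) (nat_lit 5) (nat_lit 110) (nat_lit 5) (nat_lit 111) (nat_lit 5) (nat_lit 625) (nat_lit 513) (nat_lit 422)) (XT.nd (nat_lit 78) (nat_lit 304) (nat_lit 0) (XT.lf (nat_lit 0) (nat_lit 6390256883) (nat_lit 304) (nat_lit 4178595399) (nat_lit 76) (nat_lit 3241339236) (nat_lit 107) (nat_lit 5) (nat_lit 111) (nat_lit 5) (nat_lit 108) (nat_lit 5) (nat_lit 626) (nat_lit 513) (nat_lit 421)) (XT.lf (nat_lit 0) (nat_lit 5276628037) (nat_lit 304) (nat_lit 5518741461) (nat_lit 380) (nat_lit 3178553504) (nat_lit 103) (nat_lit 5) (nat_lit 107) (nat_lit 5) (nat_lit 108) (nat_lit 5) (nat_lit 627) (nat_lit 513) (nat_lit 420))))) (XT.nd (nat_lit 234) (nat_lit 760) (nat_lit 0) (XT.nd (nat_lit 78) (nat_lit 304) (nat_lit 0) (XT.lf (nat_lit 0) (nat_lit 794180047) (nat_lit 228) (nat_lit 344622040)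 (nat_lit 304) (nat_lit 13001855027) (nat_lit 99) (nat_lit 5) (nat_lit 102) (nat_lit 5) (nat_lit 103) (nat_lit 5) (nat_lit 628) (nat_lit 513) (nat_lit 419)) (XT.nd (nat_lit 78) (nat_lit 304) (nat_lit 0) (XT.lf (nat_lit 0) (nat_lit 5563694586) (nat_lit 304) (nat_lit 3815590767) (nat_lit 76) (nat_lit 4929746316) (nat_lit 99) (nat_lit 5) (nat_lit 103) (nat_lit 5) (nat_lit 100) (nat_lit 5) (nat_lit 629) (nat_lit 513) (nat_lit 418)) (XT.lf (nat_lit 0) (nat_lit 5936443323) (nat_lit 304) (nat_lit 4154930657) (nat_lit 380) (nat_lit 4389114909) (nat_lit 95) (nat_lit 5) (nat_lit 99) (nat_lit 5) (nat_lit 100) (nat_lit 5) (nat_lit 630) (nat_lit 513) (nat_lit 417)))) (XT.nd (nat_lit 156) (nat_lit 456) (nat_lit 0) (XT.nd (nat_lit 78) (nat_lit 0) (nat_lit 0) (XT.lf (nat_lit 0) (nat_lit 68663845) (nat_lit 304) (nat_lit 13411786439) (nat_lit 76) (nat_lit 1174615980) (nat_lit 91) (nat_lit 5) (nat_lit 95) (nat_lit 5) (nat_lit 92) (nat_lit 5) (nat_lit 631) (nat_lit 513) (nat_lit 416))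 (XT.lf (nat_lit 0) (nat_lit 4615739702) (nat_lit 304) (nat_lit 3591993257) (nat_lit 76) (nat_lit 6623644652) (nat_lit 91) (nat_lit 5) (nat_lit 95) (nat_lit 5) (nat_lit 92) (nat_lit 5) (nat_lit 632) (nat_lit 513) (nat_lit 415))) (XT.nd (nat_lit 78) (nat_lit 228) (nat_lit 0) (XT.lf (nat_lit 0) (nat_lit 6464656909) (nat_lit 228) (nat_lit 2805216142) (nat_lit 304) (nat_lit 5741020699) (nat_lit 88) (nat_lit 5) (nat_lit 91) (nat_lit 5) (nat_lit 92) (nat_lit 5) (nat_lit 633) (nat_lit 513) (nat_lit 414)) (XT.lf (nat_lit 0) (nat_lit 1535600931) (nat_lit 228) (nat_lit 12507531807) (nat_lit 304) (nat_lit 1150347469) (nat_lit 85) (nat_lit 5) (nat_lit 88) (nat_lit 5) (nat_lit 89) (nat_lit 5) (nat_lit 634) (nat_lit 513) (nat_lit 413)))))) (XT.nd (nat_lit 546) (nat_lit 1140) (nat_lit 0) (XT.nd (nat_lit 234) (nat_lit 608) (nat_lit 0) (XT.nd (nat_lit 78) (nat_lit 456) (nat_lit 0) (XT.lf (nat_lit 0) (nat_lit 3536415022) (nat_lit 304) (nat_lit 3530016559) (nat_lit 76) (nat_lit 8311816974)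 (nat_lit 84) (nat_lit 5) (nat_lit 88) (nat_lit 5) (nat_lit 85) (nat_lit 5) (nat_lit 635) (nat_lit 513) (nat_lit 412)) (XT.nd (nat_lit 78) (nat_lit 228) (nat_lit 0) (XT.lf (nat_lit 0) (nat_lit 6838873633) (nat_lit 228) (nat_lit 1481850231) (nat_lit 304) (nat_lit 7245452863) (nat_lit 81) (nat_lit 5) (nat_lit 84) (nat_lit 5) (nat_lit 85) (nat_lit 5) (nat_lit 636) (nat_lit 513) (nat_lit 411)) (XT.lf (nat_lit 0) (nat_lit 1656103259) (nat_lit 228) (nat_lit 11581467396) (nat_lit 304) (nat_lit 2519556573) (nat_lit 78) (nat_lit 5) (nat_lit 81) (nat_lit 5) (nat_lit 82) (nat_lit 5) (nat_lit 637) (nat_lit 513) (nat_lit 410)))) (XT.nd (nat_lit 156) (nat_lit 304) (nat_lit 0) (XT.nd (nat_lit 78) (nat_lit 228) (nat_lit 0) (XT.lf (nat_lit 0) (nat_lit 2314383782) (nat_lit 304) (nat_lit 3654132655) (nat_lit 76) (nat_lit 9982208252) (nat_lit 77) (nat_lit 5) (nat_lit 81) (nat_lit 5) (nat_lit 78) (nat_lit 5) (nat_lit 638) (nat_lit 513) (nat_lit 409)) (XT.lf (nat_lit 0) (nat_lit 7034379872)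 (nat_lit 228) (nat_lit 198017139) (nat_lit 304) (nat_lit 8915042139) (nat_lit 74) (nat_lit 5) (nat_lit 77) (nat_lit 5) (nat_lit 78) (nat_lit 5) (nat_lit 639) (nat_lit 513) (nat_lit 408))) (XT.nd (nat_lit 78) (nat_lit 76) (nat_lit 0) (XT.lf (nat_lit 0) (nat_lit 1579242514) (nat_lit 228) (nat_lit 10716908897) (nat_lit 304) (nat_lit 4050989611) (nat_lit 71) (nat_lit 5) (nat_lit 74) (nat_lit 5) (nat_lit 75) (nat_lit 5) (nat_lit 640) (nat_lit 513) (nat_lit 407)) (XT.lf (nat_lit 0) (nat_lit 936830123) (nat_lit 304) (nat_lit 3991338827) (nat_lit 76) (nat_lit 11621781972) (nat_lit 70) (nat_lit 5) (nat_lit 74) (nat_lit 5) (nat_lit 71) (nat_lit 5) (nat_lit 641) (nat_lit 513) (nat_lit 406))))) (XT.nd (nat_lit 234) (nat_lit 760) (nat_lit 0) (XT.nd (nat_lit 78) (nat_lit 152) (nat_lit 0) (XT.lf (nat_lit 0) (nat_lit 5998553350) (nat_lit 304) (nat_lit 9738680128) (nat_lit 76) (nat_lit 1018480901) (nat_lit 67) (nat_lit 5) (nat_lit 71) (nat_lit 5) (nat_lit 68) (nat_lit 5) (nat_lit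 642) (nat_lit 513) (nat_lit 405)) (XT.nd (nat_lit 78) (nat_lit 0) (nat_lit 0) (XT.lf (nat_lit 0) (nat_lit 1276289871) (nat_lit 152) (nat_lit 9929221093) (nat_lit 228) (nat_lit 5759202827) (nat_lit 65) (nat_lit 5) (nat_lit 67) (nat_lit 5) (nat_lit 68) (nat_lit 5) (nat_lit 643) (nat_lit 513) (nat_lit 404)) (XT.lf (nat_lit 0) (nat_lit 12601591983) (nat_lit 152) (nat_lit 3956678358) (nat_lit 228) (nat_lit 618790267) (nat_lit 65) (nat_lit 5) (nat_lit 67) (nat_lit 5) (nat_lit 68) (nat_lit 5) (nat_lit 644) (nat_lit 513) (nat_lit 403)))) (XT.nd (nat_lit 156) (nat_lit 304) (nat_lit 0) (XT.nd (nat_lit 78) (nat_lit 152) (nat_lit 0) (XT.lf (nat_lit 0) (nat_lit 4598639657) (nat_lit 304) (nat_lit 10629740362) (nat_lit 76) (nat_lit 2163977303) (nat_lit 61) (nat_lit 5) (nat_lit 65) (nat_lit 5) (nat_lit 62) (nat_lit 5) (nat_lit 645) (nat_lit 513) (nat_lit 402)) (XT.lf (nat_lit 0) (nat_lit 715478626) (nat_lit 152) (nat_lit 9235112404) (nat_lit 228) (nat_lit 7660518597) (nat_lit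 59) (nat_lit 5) (nat_lit 61) (nat_lit 5) (nat_lit 62) (nat_lit 5) (nat_lit 646) (nat_lit 513) (nat_lit 401))) (XT.nd (nat_lit 78) (nat_lit 304) (nat_lit 0) (XT.lf (nat_lit 0) (nat_lit 12390423620) (nat_lit 152) (nat_lit 3067373030) (nat_lit 228) (nat_lit 2375476645) (nat_lit 59) (nat_lit 5) (nat_lit 61) (nat_lit 5) (nat_lit 62) (nat_lit 5) (nat_lit 647) (nat_lit 513) (nat_lit 400)) (XT.lf (nat_lit 0) (nat_lit 3014768874) (nat_lit 304) (nat_lit 11819586186) (nat_lit 76) (nat_lit 3224353257) (nat_lit 55) (nat_lit 5) (nat_lit 59) (nat_lit 5) (nat_lit 56) (nat_lit 5) (nat_lit 648) (nat_lit 513) (nat_lit 399))))))) (XT.nd (nat_lit 1014) (nat_lit 12768) (nat_lit 0) (XT.nd (nat_lit 468) (nat_lit 3724) (nat_lit 0) (XT.nd (nat_lit 234) (nat_lit 1368) (nat_lit 0) (XT.nd (nat_lit 78) (nat_lit 608) (nat_lit 0) (XT.lf (nat_lit 0) (nat_lit 767105300) (nat_lit 532) (nat_lit 1721235864) (nat_lit 0) (nat_lit 767105300) (nat_lit 750) (nat_lit 5) (nat_lit 757) (nat_lit 4) (nat_lit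 750) (nat_lit 4) (nat_lit 532) (nat_lit 514) (nat_lit 514)) (XT.nd (nat_lit 78) (nat_lit 76) (nat_lit 0) (XT.lf (nat_lit 0) (nat_lit 355653640) (nat_lit 532) (nat_lit 4393069157) (nat_lit 532) (nat_lit 1774325059) (nat_lit 743) (nat_lit 4) (nat_lit 750) (nat_lit 5) (nat_lit 750) (nat_lit 4) (nat_lit 533) (nat_lit 514) (nat_lit 513)) (XT.lf (nat_lit 0) (nat_lit 1418660202) (nat_lit 608) (nat_lit 2320446663) (nat_lit 76) (nat_lit 2797234582) (nat_lit 742) (nat_lit 5) (nat_lit 750) (nat_lit 5) (nat_lit 743) (nat_lit 4) (nat_lit 534) (nat_lit 514) (nat_lit 512)))) (XT.nd (nat_lit 78) (nat_lit 760) (nat_lit 0) (XT.lf (nat_lit 0) (nat_lit 1561156969) (nat_lit 608) (nat_lit 3025156057) (nat_lit 684) (nat_lit 1964674070) (nat_lit 734) (nat_lit 5) (nat_lit 742) (nat_lit 5) (nat_lit 743) (nat_lit 4) (nat_lit 535) (nat_lit 514) (nat_lit 511)) (XT.nd (nat_lit 78) (nat_lit 684) (nat_lit 0) (XT.lf (nat_lit 0) (nat_lit 1175711890) (nat_lit 684) (nat_lit 1073674505) (nat_lit 76)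 (nat_lit 4317573749) (nat_lit 733) (nat_lit 5) (nat_lit 742) (nat_lit 5) (nat_lit 734) (nat_lit 5) (nat_lit 536) (nat_lit 514) (nat_lit 510)) (XT.lf (nat_lit 0) (nat_lit 2895096957) (nat_lit 684) (nat_lit 1402848939) (nat_lit 760) (nat_lit 2286151459) (nat_lit 724) (nat_lit 5) (nat_lit 733) (nat_lit 5) (nat_lit 734) (nat_lit 5) (nat_lit 537) (nat_lit 514) (nat_lit 509))))) (XT.nd (nat_lit 234) (nat_lit 1976) (nat_lit 0) (XT.nd (nat_lit 78) (nat_lit 912) (nat_lit 0) (XT.lf (nat_lit 0) (nat_lit 303262208) (nat_lit 760) (nat_lit 502601082) (nat_lit 836) (nat_lit 5796883124) (nat_lit 713) (nat_lit 5) (nat_lit 723) (nat_lit 5) (nat_lit 724) (nat_lit 5) (nat_lit 538) (nat_lit 514) (nat_lit 508)) (XT.nd (nat_lit 78) (nat_lit 912) (nat_lit 0) (XT.lf (nat_lit 0) (nat_lit 3885135033) (nat_lit 836) (nat_lit 2266455384) (nat_lit 76) (nat_lit 470765962) (nat_lit 713) (nat_lit 5) (nat_lit 724) (nat_lit 5) (nat_lit 714) (nat_lit 5) (nat_lit 539) (nat_lit 514) (nat_lit 507)) (XT.lf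 (nat_lit 0) (nat_lit 323133645) (nat_lit 912) (nat_lit 4829395747) (nat_lit 76) (nat_lit 1490899011) (nat_lit 701) (nat_lit 5) (nat_lit 713) (nat_lit 5) (nat_lit 702) (nat_lit 5) (nat_lit 540) (nat_lit 514) (nat_lit 506)))) (XT.nd (nat_lit 156) (nat_lit 1064) (nat_lit 0) (XT.nd (nat_lit 78) (nat_lit 912) (nat_lit 0) (XT.lf (nat_lit 0) (nat_lit 3353750771) (nat_lit 912) (nat_lit 728113698) (nat_lit 76) (nat_lit 2583791510) (nat_lit 701) (nat_lit 5) (nat_lit 713) (nat_lit 5) (nat_lit 702) (nat_lit 5) (nat_lit 541) (nat_lit 514) (nat_lit 505)) (XT.lf (nat_lit 0) (nat_lit 3449333746) (nat_lit 912) (nat_lit 2949769634) (nat_lit 988) (nat_lit 290152167) (nat_lit 689) (nat_lit 5) (nat_lit 701) (nat_lit 5) (nat_lit 702) (nat_lit 5) (nat_lit 542) (nat_lit 514) (nat_lit 504))) (XT.nd (nat_lit 78) (nat_lit 0) (nat_lit 0) (XT.lf (nat_lit 0) (nat_lit 949592335) (nat_lit 988) (nat_lit 1749191145) (nat_lit 1064) (nat_lit 4015323278) (nat_lit 675) (nat_lit 5) (nat_lit 688) (nat_lit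 5) (nat_lit 689) (nat_lit 5) (nat_lit 543) (nat_lit 514) (nat_lit 503)) (XT.lf (nat_lit 0) (nat_lit 5213535466) (nat_lit 988) (nat_lit 485086167) (nat_lit 1064) (nat_lit 1041704157) (nat_lit 675) (nat_lit 5) (nat_lit 688) (nat_lit 5) (nat_lit 689) (nat_lit 5) (nat_lit 544) (nat_lit 514) (nat_lit 502)))))) (XT.nd (nat_lit 546) (nat_lit 6460) (nat_lit 0) (XT.nd (nat_lit 234) (nat_lit 3952) (nat_lit 0) (XT.nd (nat_lit 78) (nat_lit 1216) (nat_lit 0) (XT.lf (nat_lit 0) (nat_lit 1922904874) (nat_lit 1140) (nat_lit 4005449296) (nat_lit 76) (nat_lit 839312715) (nat_lit 660) (nat_lit 5) (nat_lit 675) (nat_lit 5) (nat_lit 661) (nat_lit 5) (nat_lit 545) (nat_lit 514) (nat_lit 501)) (XT.nd (nat_lit 78) (nat_lit 76) (nat_lit 0) (XT.lf (nat_lit 0) (nat_lit 303887564) (nat_lit 1140) (nat_lit 4579676585) (nat_lit 1216) (nat_lit 1912847603) (nat_lit 645) (nat_lit 5) (nat_lit 660) (nat_lit 5) (nat_lit 661) (nat_lit 5) (nat_lit 546) (nat_lit 514) (nat_lit 500)) (XT.lf (nat_lit 0)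 (nat_lit 1026324020) (nat_lit 1216) (nat_lit 2131452913) (nat_lit 76) (nat_lit 3668568028) (nat_lit 644) (nat_lit 5) (nat_lit 660) (nat_lit 5) (nat_lit 645) (nat_lit 5) (nat_lit 547) (nat_lit 514) (nat_lit 499)))) (XT.nd (nat_lit 156) (nat_lit 2736) (nat_lit 0) (XT.nd (nat_lit 78) (nat_lit 0) (nat_lit 0) (XT.lf (nat_lit 0) (nat_lit 2282350585) (nat_lit 1216) (nat_lit 1668115336) (nat_lit 1292) (nat_lit 2907130325) (nat_lit 628) (nat_lit 5) (nat_lit 644) (nat_lit 5) (nat_lit 645) (nat_lit 5) (nat_lit 548) (nat_lit 514) (nat_lit 498)) (XT.lf (nat_lit 0) (nat_lit 6761908276) (nat_lit 1216) (nat_lit 123345268) (nat_lit 1292) (nat_lit 5183879) (nat_lit 628) (nat_lit 5) (nat_lit 644) (nat_lit 5) (nat_lit 645) (nat_lit 5) (nat_lit 549) (nat_lit 514) (nat_lit 497))) (XT.nd (nat_lit 78) (nat_lit 1368) (nat_lit 0) (XT.lf (nat_lit 0) (nat_lit 2893057575) (nat_lit 1368) (nat_lit 2539685929) (nat_lit 76) (nat_lit 1491275859) (nat_lit 610) (nat_lit 5) (nat_lit 628) (nat_lit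 5) (nat_lit 611) (nat_lit 5) (nat_lit 550) (nat_lit 514) (nat_lit 496)) (XT.lf (nat_lit 0) (nat_lit 2004197306) (nat_lit 1368) (nat_lit 3799295996) (nat_lit 1444) (nat_lit 1155700635) (nat_lit 592) (nat_lit 5) (nat_lit 610) (nat_lit 5) (nat_lit 611) (nat_lit 5) (nat_lit 551) (nat_lit 514) (nat_lit 495))))) (XT.nd (nat_lit 234) (nat_lit 3344) (nat_lit 0) (XT.nd (nat_lit 78) (nat_lit 3040) (nat_lit 0) (XT.lf (nat_lit 0) (nat_lit 1710961852) (nat_lit 1444) (nat_lit 385629480) (nat_lit 76) (nat_lit 4899113217) (nat_lit 591) (nat_lit 5) (nat_lit 610) (nat_lit 5) (nat_lit 592) (nat_lit 5) (nat_lit 552) (nat_lit 514) (nat_lit 494)) (XT.nd (nat_lit 78) (nat_lit 1596) (nat_lit 0) (XT.lf (nat_lit 0) (nat_lit 4271898184) (nat_lit 1444) (nat_lit 316557735) (nat_lit 1520) (nat_lit 2444964422) (nat_lit 572) (nat_lit 5) (nat_lit 591) (nat_lit 5) (nat_lit 592) (nat_lit 5) (nat_lit 553) (nat_lit 514) (nat_lit 493)) (XT.lf (nat_lit 0) (nat_lit 412342801) (nat_lit 1596) (nat_lit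 5156361029) (nat_lit 76) (nat_lit 1503801782) (nat_lit 551) (nat_lit 5) (nat_lit 572) (nat_lit 5) (nat_lit 552) (nat_lit 5) (nat_lit 554) (nat_lit 514) (nat_lit 492)))) (XT.nd (nat_lit 156) (nat_lit 1748) (nat_lit 0) (XT.nd (nat_lit 78) (nat_lit 1596) (nat_lit 0) (XT.lf (nat_lit 0) (nat_lit 3257336999) (nat_lit 1596) (nat_lit 458510997) (nat_lit 76) (nat_lit 3396942589) (nat_lit 551) (nat_lit 5) (nat_lit 572) (nat_lit 5) (nat_lit 552) (nat_lit 5) (nat_lit 555) (nat_lit 514) (nat_lit 491)) (XT.lf (nat_lit 0) (nat_lit 4338335354) (nat_lit 1596) (nat_lit 1792688471) (nat_lit 1672) (nat_lit 1023428243) (nat_lit 530) (nat_lit 5) (nat_lit 551) (nat_lit 5) (nat_lit 552) (nat_lit 5) (nat_lit 556) (nat_lit 514) (nat_lit 490))) (XT.nd (nat_lit 78) (nat_lit 0) (nat_lit 0) (XT.lf (nat_lit 0) (nat_lit 1802201576) (nat_lit 1748) (nat_lit 5196505653) (nat_lit 76) (nat_lit 198775212) (nat_lit 507) (nat_lit 5) (nat_lit 530) (nat_lit 5) (nat_lit 508) (nat_lit 5) (nat_lit 557) (nat_lit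 514) (nat_lit 489)) (XT.lf (nat_lit 0) (nat_lit 4646351465) (nat_lit 1748) (nat_lit 360241073) (nat_lit 76) (nat_lit 2235137643) (nat_lit 507) (nat_lit 5) (nat_lit 530) (nat_lit 5) (nat_lit 508) (nat_lit 5) (nat_lit 558) (nat_lit 514) (nat_lit 488))))))))
noncomputable def xc65 : XT := (XT.nd (nat_lit 2106) (nat_lit 9500) (nat_lit 0) (XT.nd (nat_lit 1014) (nat_lit 7220) (nat_lit 0) (XT.nd (nat_lit 468) (nat_lit 3572) (nat_lit 0) (XT.nd (nat_lit 234) (nat_lit 2964) (nat_lit 0) (XT.nd (nat_lit 78) (nat_lit 1824) (nat_lit 0) (XT.lf (nat_lit 0) (nat_lit 232564639) (nat_lit 1824) (nat_lit 2708075276) (nat_lit 76) (nat_lit 4346685967) (nat_lit 483) (nat_lit 5) (nat_lit 507) (nat_lit 5) (nat_lit 484) (nat_lit 5) (nat_lit 559) (nat_lit 514) (nat_lit 487)) (XT.nd (nat_lit 78) (nat_lit 0) (nat_lit 0) (XT.lf (nat_lit 0) (nat_lit 2248522239) (nat_lit 1824) (nat_lit 797109109) (nat_lit 1900) (nat_lit 4288598627) (nat_lit 459) (nat_lit 5) (nat_lit 483) (nat_lit 5) (nat_lit 484)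 (nat_lit 5) (nat_lit 560) (nat_lit 514) (nat_lit 486)) (XT.lf (nat_lit 0) (nat_lit 5889246701) (nat_lit 1900) (nat_lit 103010729) (nat_lit 76) (nat_lit 1390334776) (nat_lit 459) (nat_lit 5) (nat_lit 484) (nat_lit 5) (nat_lit 460) (nat_lit 5) (nat_lit 561) (nat_lit 514) (nat_lit 485)))) (XT.nd (nat_lit 78) (nat_lit 1824) (nat_lit 0) (XT.lf (nat_lit 0) (nat_lit 1325578420) (nat_lit 1140) (nat_lit 2453543157) (nat_lit 76) (nat_lit 3652917890) (nat_lit 444) (nat_lit 5) (nat_lit 459) (nat_lit 5) (nat_lit 445) (nat_lit 5) (nat_lit 562) (nat_lit 514) (nat_lit 484)) (XT.nd (nat_lit 78) (nat_lit 912) (nat_lit 0) (XT.lf (nat_lit 0) (nat_lit 2653039328) (nat_lit 912) (nat_lit 1494137446) (nat_lit 988) (nat_lit 3335781110) (nat_lit 432) (nat_lit 5) (nat_lit 444) (nat_lit 5) (nat_lit 445) (nat_lit 5) (nat_lit 563) (nat_lit 514) (nat_lit 483)) (XT.lf (nat_lit 0) (nat_lit 305814730) (nat_lit 912) (nat_lit 6692402287) (nat_lit 988) (nat_lit 537222814) (nat_lit 420) (nat_lit 5)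 (nat_lit 432) (nat_lit 5) (nat_lit 433) (nat_lit 5) (nat_lit 564) (nat_lit 514) (nat_lit 482))))) (XT.nd (nat_lit 234) (nat_lit 1748) (nat_lit 0) (XT.nd (nat_lit 78) (nat_lit 1748) (nat_lit 0) (XT.lf (nat_lit 0) (nat_lit 2278773656) (nat_lit 988) (nat_lit 2057175985) (nat_lit 76) (nat_lit 3252888840) (nat_lit 419) (nat_lit 5) (nat_lit 432) (nat_lit 5) (nat_lit 420) (nat_lit 5) (nat_lit 565) (nat_lit 514) (nat_lit 481)) (XT.nd (nat_lit 78) (nat_lit 912) (nat_lit 0) (XT.lf (nat_lit 0) (nat_lit 3204812502) (nat_lit 836) (nat_lit 1910230019) (nat_lit 912) (nat_lit 2528773696) (nat_lit 408) (nat_lit 5) (nat_lit 419) (nat_lit 5) (nat_lit 420) (nat_lit 5) (nat_lit 566) (nat_lit 514) (nat_lit 480)) (XT.lf (nat_lit 0) (nat_lit 277980805) (nat_lit 912) (nat_lit 6847485220) (nat_lit 76) (nat_lit 574914745) (nat_lit 396) (nat_lit 5) (nat_lit 408) (nat_lit 5) (nat_lit 397) (nat_lit 5) (nat_lit 567) (nat_lit 514) (nat_lit 479)))) (XT.nd (nat_lit 156) (nat_lit 912) (nat_lit 0)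 (XT.nd (nat_lit 78) (nat_lit 836) (nat_lit 0) (XT.lf (nat_lit 0) (nat_lit 3100919903) (nat_lit 912) (nat_lit 1529579837) (nat_lit 76) (nat_lit 3127369134) (nat_lit 396) (nat_lit 5) (nat_lit 408) (nat_lit 5) (nat_lit 397) (nat_lit 5) (nat_lit 568) (nat_lit 514) (nat_lit 478)) (XT.lf (nat_lit 0) (nat_lit 3893483666) (nat_lit 836) (nat_lit 2064311511) (nat_lit 912) (nat_lit 1859166683) (nat_lit 385) (nat_lit 5) (nat_lit 396) (nat_lit 5) (nat_lit 397) (nat_lit 5) (nat_lit 569) (nat_lit 514) (nat_lit 477))) (XT.nd (nat_lit 78) (nat_lit 0) (nat_lit 0) (XT.lf (nat_lit 0) (nat_lit 958008706) (nat_lit 912) (nat_lit 6351701335) (nat_lit 76) (nat_lit 567872371) (nat_lit 373) (nat_lit 5) (nat_lit 385) (nat_lit 5) (nat_lit 374) (nat_lit 5) (nat_lit 570) (nat_lit 514) (nat_lit 476)) (XT.lf (nat_lit 0) (nat_lit 3799870377) (nat_lit 912) (nat_lit 880753861) (nat_lit 76) (nat_lit 3258685013) (nat_lit 373) (nat_lit 5) (nat_lit 385) (nat_lit 5) (nat_lit 374) (nat_lit 5) (nat_lit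 571) (nat_lit 514) (nat_lit 475)))))) (XT.nd (nat_lit 546) (nat_lit 3420) (nat_lit 0) (XT.nd (nat_lit 234) (nat_lit 2204) (nat_lit 0) (XT.nd (nat_lit 78) (nat_lit 836) (nat_lit 0) (XT.lf (nat_lit 0) (nat_lit 4709298693) (nat_lit 760) (nat_lit 1973807110) (nat_lit 836) (nat_lit 1319478405) (nat_lit 363) (nat_lit 5) (nat_lit 373) (nat_lit 5) (nat_lit 374) (nat_lit 5) (nat_lit 572) (nat_lit 514) (nat_lit 474)) (XT.nd (nat_lit 78) (nat_lit 0) (nat_lit 0) (XT.lf (nat_lit 0) (nat_lit 1516997820) (nat_lit 836) (nat_lit 5748624928) (nat_lit 76) (nat_lit 801693186) (nat_lit 352) (nat_lit 5) (nat_lit 363) (nat_lit 5) (nat_lit 353) (nat_lit 5) (nat_lit 573) (nat_lit 514) (nat_lit 473)) (XT.lf (nat_lit 0) (nat_lit 4382607948) (nat_lit 836) (nat_lit 120175125) (nat_lit 76) (nat_lit 3630587405) (nat_lit 352) (nat_lit 5) (nat_lit 363) (nat_lit 5) (nat_lit 353) (nat_lit 5) (nat_lit 574) (nat_lit 514) (nat_lit 472)))) (XT.nd (nat_lit 156) (nat_lit 684) (nat_lit 0) (XT.nd (nat_lit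 78) (nat_lit 836) (nat_lit 0) (XT.lf (nat_lit 0) (nat_lit 5643022495) (nat_lit 684) (nat_lit 1654771588) (nat_lit 760) (nat_lit 903110737) (nat_lit 343) (nat_lit 5) (nat_lit 352) (nat_lit 5) (nat_lit 353) (nat_lit 5) (nat_lit 575) (nat_lit 514) (nat_lit 471)) (XT.lf (nat_lit 0) (nat_lit 1961194353) (nat_lit 836) (nat_lit 5047647068) (nat_lit 76) (nat_lit 1260973350) (nat_lit 332) (nat_lit 5) (nat_lit 343) (nat_lit 5) (nat_lit 333) (nat_lit 5) (nat_lit 576) (nat_lit 514) (nat_lit 470))) (XT.nd (nat_lit 78) (nat_lit 0) (nat_lit 0) (XT.lf (nat_lit 0) (nat_lit 752994080) (nat_lit 684) (nat_lit 4107180012) (nat_lit 760) (nat_lit 3480023568) (nat_lit 323) (nat_lit 5) (nat_lit 332) (nat_lit 5) (nat_lit 333) (nat_lit 5) (nat_lit 577) (nat_lit 514) (nat_lit 469)) (XT.lf (nat_lit 0) (nat_lit 6685855874) (nat_lit 684) (nat_lit 1122010713) (nat_lit 760) (nat_lit 604310636) (nat_lit 323) (nat_lit 5) (nat_lit 332) (nat_lit 5) (nat_lit 333) (nat_lit 5) (nat_lit 578) (nat_lit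 514) (nat_lit 468))))) (XT.nd (nat_lit 234) (nat_lit 2052) (nat_lit 0) (XT.nd (nat_lit 78) (nat_lit 608) (nat_lit 0) (XT.lf (nat_lit 0) (nat_lit 2296034970) (nat_lit 760) (nat_lit 4257792907) (nat_lit 76) (nat_lit 1931516366) (nat_lit 313) (nat_lit 5) (nat_lit 323) (nat_lit 5) (nat_lit 314) (nat_lit 5) (nat_lit 579) (nat_lit 514) (nat_lit 467)) (XT.nd (nat_lit 78) (nat_lit 0) (nat_lit 0) (XT.lf (nat_lit 0) (nat_lit 1723044315) (nat_lit 608) (nat_lit 3511401283) (nat_lit 684) (nat_lit 3325689587) (nat_lit 305) (nat_lit 5) (nat_lit 313) (nat_lit 5) (nat_lit 314) (nat_lit 5) (nat_lit 580) (nat_lit 514) (nat_lit 466)) (XT.lf (nat_lit 0) (nat_lit 7829353518) (nat_lit 608) (nat_lit 389195790) (nat_lit 684) (nat_lit 418137540) (nat_lit 305) (nat_lit 5) (nat_lit 313) (nat_lit 5) (nat_lit 314) (nat_lit 5) (nat_lit 581) (nat_lit 514) (nat_lit 465)))) (XT.nd (nat_lit 156) (nat_lit 684) (nat_lit 0) (XT.nd (nat_lit 78) (nat_lit 608) (nat_lit 0) (XT.lf (nat_lit 0) (nat_lit 2526176549)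 (nat_lit 760) (nat_lit 3387803437) (nat_lit 76) (nat_lit 2800221560) (nat_lit 295) (nat_lit 5) (nat_lit 305) (nat_lit 5) (nat_lit 296) (nat_lit 5) (nat_lit 582) (nat_lit 514) (nat_lit 464)) (XT.lf (nat_lit 0) (nat_lit 2779862630) (nat_lit 608) (nat_lit 2729302897) (nat_lit 684) (nat_lit 3284341187) (nat_lit 287) (nat_lit 5) (nat_lit 295) (nat_lit 5) (nat_lit 296) (nat_lit 5) (nat_lit 583) (nat_lit 514) (nat_lit 463))) (XT.nd (nat_lit 78) (nat_lit 76) (nat_lit 0) (XT.lf (nat_lit 0) (nat_lit 189630609) (nat_lit 608) (nat_lit 8349363032) (nat_lit 684) (nat_lit 335663897) (nat_lit 279) (nat_lit 5) (nat_lit 287) (nat_lit 5) (nat_lit 288) (nat_lit 5) (nat_lit 584) (nat_lit 514) (nat_lit 462)) (XT.lf (nat_lit 0) (nat_lit 2655520375) (nat_lit 684) (nat_lit 2446217183) (nat_lit 76) (nat_lit 3854978332) (nat_lit 278) (nat_lit 5) (nat_lit 287) (nat_lit 5) (nat_lit 279) (nat_lit 5) (nat_lit 585) (nat_lit 514) (nat_lit 461))))))) (XT.nd (nat_lit 1014) (nat_lit 4408) (nat_lit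 0) (XT.nd (nat_lit 468) (nat_lit 2660) (nat_lit 0) (XT.nd (nat_lit 234) (nat_lit 1140) (nat_lit 0) (XT.nd (nat_lit 78) (nat_lit 684) (nat_lit 0) (XT.lf (nat_lit 0) (nat_lit 3915130907) (nat_lit 608) (nat_lit 1772993586) (nat_lit 684) (nat_lit 3352527688) (nat_lit 270) (nat_lit 5) (nat_lit 278) (nat_lit 5) (nat_lit 279) (nat_lit 5) (nat_lit 586) (nat_lit 514) (nat_lit 460)) (XT.nd (nat_lit 78) (nat_lit 76) (nat_lit 0) (XT.lf (nat_lit 0) (nat_lit 1265150293) (nat_lit 608) (nat_lit 7512529978) (nat_lit 684) (nat_lit 348663835) (nat_lit 262) (nat_lit 5) (nat_lit 270) (nat_lit 5) (nat_lit 271) (nat_lit 5) (nat_lit 587) (nat_lit 514) (nat_lit 459)) (XT.lf (nat_lit 0) (nat_lit 2687230880) (nat_lit 684) (nat_lit 1441452482) (nat_lit 76) (nat_lit 5084565409) (nat_lit 261) (nat_lit 5) (nat_lit 270) (nat_lit 5) (nat_lit 262) (nat_lit 5) (nat_lit 588) (nat_lit 514) (nat_lit 458)))) (XT.nd (nat_lit 78) (nat_lit 608) (nat_lit 0) (XT.lf (nat_lit 0) (nat_lit 5120645822) (nat_lit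 532) (nat_lit 653741356) (nat_lit 608) (nat_lit 3527556747) (nat_lit 254) (nat_lit 5) (nat_lit 261) (nat_lit 5) (nat_lit 262) (nat_lit 5) (nat_lit 589) (nat_lit 514) (nat_lit 457)) (XT.nd (nat_lit 78) (nat_lit 76) (nat_lit 0) (XT.lf (nat_lit 0) (nat_lit 2402762732) (nat_lit 532) (nat_lit 6526924486) (nat_lit 608) (nat_lit 462600432) (nat_lit 247) (nat_lit 5) (nat_lit 254) (nat_lit 5) (nat_lit 255) (nat_lit 5) (nat_lit 590) (nat_lit 514) (nat_lit 456)) (XT.lf (nat_lit 0) (nat_lit 2623748960) (nat_lit 608) (nat_lit 381891055) (nat_lit 76) (nat_lit 6478554360) (nat_lit 246) (nat_lit 5) (nat_lit 254) (nat_lit 5) (nat_lit 247) (nat_lit 5) (nat_lit 591) (nat_lit 514) (nat_lit 455))))) (XT.nd (nat_lit 234) (nat_lit 1064) (nat_lit 0) (XT.nd (nat_lit 78) (nat_lit 1064) (nat_lit 0) (XT.lf (nat_lit 0) (nat_lit 5774316093) (nat_lit 608) (nat_lit 3193564719) (nat_lit 76) (nat_lit 609826093) (nat_lit 239) (nat_lit 5) (nat_lit 247) (nat_lit 5) (nat_lit 240) (nat_lit 5) (nat_lit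 592) (nat_lit 514) (nat_lit 454)) (XT.nd (nat_lit 78) (nat_lit 532) (nat_lit 0) (XT.lf (nat_lit 0) (nat_lit 3594159415) (nat_lit 532) (nat_lit 5403054164) (nat_lit 608) (nat_lit 675692204) (nat_lit 232) (nat_lit 5) (nat_lit 239) (nat_lit 5) (nat_lit 240) (nat_lit 5) (nat_lit 593) (nat_lit 514) (nat_lit 453)) (XT.lf (nat_lit 0) (nat_lit 733658495) (nat_lit 456) (nat_lit 1737904778) (nat_lit 532) (nat_lit 7298321585) (nat_lit 225) (nat_lit 5) (nat_lit 231) (nat_lit 5) (nat_lit 232) (nat_lit 5) (nat_lit 594) (nat_lit 514) (nat_lit 452)))) (XT.nd (nat_lit 156) (nat_lit 532) (nat_lit 0) (XT.nd (nat_lit 78) (nat_lit 532) (nat_lit 0) (XT.lf (nat_lit 0) (nat_lit 5690711886) (nat_lit 532) (nat_lit 2172146915) (nat_lit 76) (nat_lit 2005497808) (nat_lit 225) (nat_lit 5) (nat_lit 232) (nat_lit 5) (nat_lit 226) (nat_lit 5) (nat_lit 595) (nat_lit 514) (nat_lit 451)) (XT.lf (nat_lit 0) (nat_lit 4830930113) (nat_lit 532) (nat_lit 4150831867) (nat_lit 608) (nat_lit 986887733) (nat_lit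 218) (nat_lit 5) (nat_lit 225) (nat_lit 5) (nat_lit 226) (nat_lit 5) (nat_lit 596) (nat_lit 514) (nat_lit 450))) (XT.nd (nat_lit 78) (nat_lit 0) (nat_lit 0) (XT.lf (nat_lit 0) (nat_lit 1892583622) (nat_lit 456) (nat_lit 337099970) (nat_lit 532) (nat_lit 7841138015) (nat_lit 211) (nat_lit 5) (nat_lit 217) (nat_lit 5) (nat_lit 218) (nat_lit 5) (nat_lit 597) (nat_lit 514) (nat_lit 449)) (XT.lf (nat_lit 0) (nat_lit 5520205188) (nat_lit 532) (nat_lit 1121587361) (nat_lit 76) (nat_lit 3532659413) (nat_lit 211) (nat_lit 5) (nat_lit 218) (nat_lit 5) (nat_lit 212) (nat_lit 5) (nat_lit 598) (nat_lit 514) (nat_lit 448)))))) (XT.nd (nat_lit 546) (nat_lit 2052) (nat_lit 0) (XT.nd (nat_lit 234) (nat_lit 1368) (nat_lit 0) (XT.nd (nat_lit 78) (nat_lit 532) (nat_lit 0) (XT.lf (nat_lit 0) (nat_lit 6104471953) (nat_lit 456) (nat_lit 2779665290) (nat_lit 532) (nat_lit 1395867793) (nat_lit 205) (nat_lit 5) (nat_lit 211) (nat_lit 5) (nat_lit 212) (nat_lit 5) (nat_lit 599) (nat_lit 514)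 (nat_lit 447)) (XT.nd (nat_lit 78) (nat_lit 0) (nat_lit 0) (XT.lf (nat_lit 0) (nat_lit 1903529545) (nat_lit 532) (nat_lit 7314351069) (nat_lit 76) (nat_lit 1169517621) (nat_lit 198) (nat_lit 5) (nat_lit 205) (nat_lit 5) (nat_lit 199) (nat_lit 5) (nat_lit 600) (nat_lit 514) (nat_lit 446)) (XT.lf (nat_lit 0) (nat_lit 5262962464) (nat_lit 532) (nat_lit 50950307) (nat_lit 76) (nat_lit 5182589219) (nat_lit 198) (nat_lit 5) (nat_lit 205) (nat_lit 5) (nat_lit 199) (nat_lit 5) (nat_lit 601) (nat_lit 514) (nat_lit 445)))) (XT.nd (nat_lit 156) (nat_lit 456) (nat_lit 0) (XT.nd (nat_lit 78) (nat_lit 456) (nat_lit 0) (XT.lf (nat_lit 0) (nat_lit 7405894401) (nat_lit 456) (nat_lit 1298545056) (nat_lit 532) (nat_lit 1903053208) (nat_lit 192) (nat_lit 5) (nat_lit 198) (nat_lit 5) (nat_lit 199) (nat_lit 5) (nat_lit 602) (nat_lit 514) (nat_lit 444)) (XT.lf (nat_lit 0) (nat_lit 1487837319) (nat_lit 456) (nat_lit 6449567769) (nat_lit 76) (nat_lit 2782838151) (nat_lit 186) (nat_lit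 5) (nat_lit 192) (nat_lit 5) (nat_lit 187) (nat_lit 5) (nat_lit 603) (nat_lit 514) (nat_lit 443))) (XT.nd (nat_lit 78) (nat_lit 0) (nat_lit 0) (XT.lf (nat_lit 0) (nat_lit 1044017148) (nat_lit 456) (nat_lit 3881191779) (nat_lit 532) (nat_lit 5909707253) (nat_lit 180) (nat_lit 5) (nat_lit 186) (nat_lit 5) (nat_lit 187) (nat_lit 5) (nat_lit 604) (nat_lit 514) (nat_lit 442)) (XT.lf (nat_lit 0) (nat_lit 8443894338) (nat_lit 532) (nat_lit 2227593706) (nat_lit 76) (nat_lit 280145010) (nat_lit 180) (nat_lit 5) (nat_lit 187) (nat_lit 5) (nat_lit 181) (nat_lit 5) (nat_lit 605) (nat_lit 514) (nat_lit 441))))) (XT.nd (nat_lit 234) (nat_lit 1216) (nat_lit 0) (XT.nd (nat_lit 78) (nat_lit 380) (nat_lit 0) (XT.lf (nat_lit 0) (nat_lit 979131480) (nat_lit 456) (nat_lit 5591890508) (nat_lit 76) (nat_lit 4498949407) (nat_lit 174) (nat_lit 5) (nat_lit 180) (nat_lit 5) (nat_lit 175) (nat_lit 5) (nat_lit 606) (nat_lit 514) (nat_lit 440)) (XT.nd (nat_lit 78) (nat_lit 0) (nat_lit 0) (XT.lf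 (nat_lit 0) (nat_lit 2140390386) (nat_lit 380) (nat_lit 2358825782) (nat_lit 456) (nat_lit 6691189396) (nat_lit 169) (nat_lit 5) (nat_lit 174) (nat_lit 5) (nat_lit 175) (nat_lit 5) (nat_lit 607) (nat_lit 514) (nat_lit 439)) (XT.lf (nat_lit 0) (nat_lit 8108339393) (nat_lit 456) (nat_lit 1271077036) (nat_lit 76) (nat_lit 1933460916) (nat_lit 169) (nat_lit 5) (nat_lit 175) (nat_lit 5) (nat_lit 170) (nat_lit 5) (nat_lit 608) (nat_lit 514) (nat_lit 438)))) (XT.nd (nat_lit 156) (nat_lit 380) (nat_lit 0) (XT.nd (nat_lit 78) (nat_lit 380) (nat_lit 0) (XT.lf (nat_lit 0) (nat_lit 375362701) (nat_lit 456) (nat_lit 4752091509) (nat_lit 76) (nat_lit 6309737652) (nat_lit 163) (nat_lit 5) (nat_lit 169) (nat_lit 5) (nat_lit 164) (nat_lit 5) (nat_lit 609) (nat_lit 514) (nat_lit 437)) (XT.lf (nat_lit 0) (nat_lit 3226844098) (nat_lit 380) (nat_lit 755686111) (nat_lit 456) (nat_lit 7581068838) (nat_lit 158) (nat_lit 5) (nat_lit 163) (nat_lit 5) (nat_lit 164) (nat_lit 5) (nat_lit 610)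 (nat_lit 514) (nat_lit 436))) (XT.nd (nat_lit 78) (nat_lit 380) (nat_lit 0) (XT.lf (nat_lit 0) (nat_lit 7687175458) (nat_lit 456) (nat_lit 334575570) (nat_lit 76) (nat_lit 3670278200) (nat_lit 158) (nat_lit 5) (nat_lit 164) (nat_lit 5) (nat_lit 159) (nat_lit 5) (nat_lit 611) (nat_lit 514) (nat_lit 435)) (XT.lf (nat_lit 0) (nat_lit 7878722375) (nat_lit 380) (nat_lit 3613142296) (nat_lit 456) (nat_lit 330645829) (nat_lit 153) (nat_lit 5) (nat_lit 158) (nat_lit 5) (nat_lit 159) (nat_lit 5) (nat_lit 612) (nat_lit 514) (nat_lit 434))))))))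
noncomputable def xc66 : XT := (XT.nd (nat_lit 2106) (nat_lit 1368) (nat_lit 0) (XT.nd (nat_lit 1014) (nat_lit 2584) (nat_lit 0) (XT.nd (nat_lit 468) (nat_lit 1672) (nat_lit 0) (XT.nd (nat_lit 234) (nat_lit 760) (nat_lit 0) (XT.nd (nat_lit 78) (nat_lit 304) (nat_lit 0) (XT.lf (nat_lit 0) (nat_lit 3378210073) (nat_lit 456) (nat_lit 7669118010) (nat_lit 76) (nat_lit 907711472) (nat_lit 147) (nat_lit 5) (nat_lit 153) (nat_lit 5) (nat_lit 148) (nat_lit 5) (nat_lit 613) (nat_lit 514) (nat_lit 433)) (XT.nd (nat_lit 78) (nat_lit 0) (nat_lit 0) (XT.lf (nat_lit 0) (nat_lit 577761795) (nat_lit 304) (nat_lit 6603431679) (nat_lit 380) (nat_lit 4908495872) (nat_lit 143) (nat_lit 5) (nat_lit 147) (nat_lit 5) (nat_lit 148) (nat_lit 5) (nat_lit 614) (nat_lit 514) (nat_lit 432)) (XT.lf (nat_lit 0) (nat_lit 9046331531) (nat_lit 304) (nat_lit 2035703646) (nat_lit 380) (nat_lit 1144562378) (nat_lit 143) (nat_lit 5) (nat_lit 147) (nat_lit 5) (nat_lit 148) (nat_lit 5) (nat_lit 615)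 (nat_lit 514) (nat_lit 431)))) (XT.nd (nat_lit 78) (nat_lit 304) (nat_lit 0) (XT.lf (nat_lit 0) (nat_lit 2681860959) (nat_lit 456) (nat_lit 7059369232) (nat_lit 76) (nat_lit 2624214127) (nat_lit 137) (nat_lit 5) (nat_lit 143) (nat_lit 5) (nat_lit 138) (nat_lit 5) (nat_lit 616) (nat_lit 514) (nat_lit 430)) (XT.nd (nat_lit 78) (nat_lit 0) (nat_lit 0) (XT.lf (nat_lit 0) (nat_lit 1449589005) (nat_lit 304) (nat_lit 5135171044) (nat_lit 380) (nat_lit 5921852513) (nat_lit 133) (nat_lit 5) (nat_lit 137) (nat_lit 5) (nat_lit 138) (nat_lit 5) (nat_lit 617) (nat_lit 514) (nat_lit 429)) (XT.lf (nat_lit 0) (nat_lit 10177895027) (nat_lit 304) (nat_lit 406345925) (nat_lit 380) (nat_lit 2065994029) (nat_lit 133) (nat_lit 5) (nat_lit 137) (nat_lit 5) (nat_lit 138) (nat_lit 5) (nat_lit 618) (nat_lit 514) (nat_lit 428))))) (XT.nd (nat_lit 234) (nat_lit 988) (nat_lit 0) (XT.nd (nat_lit 78) (nat_lit 304) (nat_lit 0) (XT.lf (nat_lit 0) (nat_lit 1883900955) (nat_lit 380) (nat_lit 6516490590)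 (nat_lit 76) (nat_lit 4395269005) (nat_lit 128) (nat_lit 5) (nat_lit 133) (nat_lit 5) (nat_lit 129) (nat_lit 5) (nat_lit 619) (nat_lit 514) (nat_lit 427)) (XT.nd (nat_lit 78) (nat_lit 0) (nat_lit 0) (XT.lf (nat_lit 0) (nat_lit 2262612325) (nat_lit 304) (nat_lit 3628302694) (nat_lit 380) (nat_lit 7052692004) (nat_lit 124) (nat_lit 5) (nat_lit 128) (nat_lit 5) (nat_lit 129) (nat_lit 5) (nat_lit 620) (nat_lit 514) (nat_lit 426)) (XT.lf (nat_lit 0) (nat_lit 10001953303) (nat_lit 380) (nat_lit 1842626583) (nat_lit 76) (nat_lit 1249456052) (nat_lit 124) (nat_lit 5) (nat_lit 129) (nat_lit 5) (nat_lit 125) (nat_lit 5) (nat_lit 621) (nat_lit 514) (nat_lit 425)))) (XT.nd (nat_lit 156) (nat_lit 304) (nat_lit 0) (XT.nd (nat_lit 78) (nat_lit 304) (nat_lit 0) (XT.lf (nat_lit 0) (nat_lit 978725014) (nat_lit 380) (nat_lit 6055549811) (nat_lit 76) (nat_lit 6212208365) (nat_lit 119) (nat_lit 5) (nat_lit 124) (nat_lit 5) (nat_lit 120) (nat_lit 5) (nat_lit 622) (nat_lit 514) (nat_lit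 424)) (XT.lf (nat_lit 0) (nat_lit 3001774647) (nat_lit 304) (nat_lit 2092184819) (nat_lit 380) (nat_lit 8307523997) (nat_lit 115) (nat_lit 5) (nat_lit 119) (nat_lit 5) (nat_lit 120) (nat_lit 5) (nat_lit 623) (nat_lit 514) (nat_lit 423))) (XT.nd (nat_lit 78) (nat_lit 304) (nat_lit 0) (XT.lf (nat_lit 0) (nat_lit 9324118935) (nat_lit 380) (nat_lit 1301432476) (nat_lit 76) (nat_lit 2933381023) (nat_lit 115) (nat_lit 5) (nat_lit 120) (nat_lit 5) (nat_lit 116) (nat_lit 5) (nat_lit 624) (nat_lit 514) (nat_lit 422)) (XT.lf (nat_lit 0) (nat_lit 8025526472) (nat_lit 304) (nat_lit 5652425602) (nat_lit 380) (nat_lit 40797978) (nat_lit 111) (nat_lit 5) (nat_lit 115) (nat_lit 5) (nat_lit 116) (nat_lit 5) (nat_lit 625) (nat_lit 514) (nat_lit 421)))))) (XT.nd (nat_lit 546) (nat_lit 1064) (nat_lit 0) (XT.nd (nat_lit 234) (nat_lit 912) (nat_lit 0) (XT.nd (nat_lit 78) (nat_lit 304) (nat_lit 0) (XT.lf (nat_lit 0) (nat_lit 3650640176) (nat_lit 228) (nat_lit 536550332) (nat_lit 304)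 (nat_lit 9693911091) (nat_lit 107) (nat_lit 5) (nat_lit 110) (nat_lit 5) (nat_lit 111) (nat_lit 5) (nat_lit 626) (nat_lit 514) (nat_lit 420)) (XT.nd (nat_lit 78) (nat_lit 304) (nat_lit 0) (XT.lf (nat_lit 0) (nat_lit 8541337818) (nat_lit 304) (nat_lit 863171030) (nat_lit 76) (nat_lit 4641344044) (nat_lit 107) (nat_lit 5) (nat_lit 111) (nat_lit 5) (nat_lit 108) (nat_lit 5) (nat_lit 627) (nat_lit 514) (nat_lit 419)) (XT.lf (nat_lit 0) (nat_lit 8758795058) (nat_lit 304) (nat_lit 4258008905) (nat_lit 380) (nat_lit 1196411527) (nat_lit 103) (nat_lit 5) (nat_lit 107) (nat_lit 5) (nat_lit 108) (nat_lit 5) (nat_lit 628) (nat_lit 514) (nat_lit 418)))) (XT.nd (nat_lit 156) (nat_lit 608) (nat_lit 0) (XT.nd (nat_lit 78) (nat_lit 0) (nat_lit 0) (XT.lf (nat_lit 0) (nat_lit 3169504925) (nat_lit 304) (nat_lit 10198839441) (nat_lit 76) (nat_lit 1014894852) (nat_lit 99) (nat_lit 5) (nat_lit 103) (nat_lit 5) (nat_lit 100) (nat_lit 5) (nat_lit 629) (nat_lit 514) (nat_lit 417)) (XT.lf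 (nat_lit 0) (nat_lit 7645761674) (nat_lit 304) (nat_lit 546525226) (nat_lit 76) (nat_lit 6363438456) (nat_lit 99) (nat_lit 5) (nat_lit 103) (nat_lit 5) (nat_lit 100) (nat_lit 5) (nat_lit 630) (nat_lit 514) (nat_lit 416))) (XT.nd (nat_lit 78) (nat_lit 304) (nat_lit 0) (XT.lf (nat_lit 0) (nat_lit 9378540484) (nat_lit 304) (nat_lit 2868388679) (nat_lit 380) (nat_lit 2484025262) (nat_lit 95) (nat_lit 5) (nat_lit 99) (nat_lit 5) (nat_lit 100) (nat_lit 5) (nat_lit 631) (nat_lit 514) (nat_lit 415)) (XT.lf (nat_lit 0) (nat_lit 2028758672) (nat_lit 304) (nat_lit 10322368175) (nat_lit 76) (nat_lit 2557799328) (nat_lit 91) (nat_lit 5) (nat_lit 95) (nat_lit 5) (nat_lit 92) (nat_lit 5) (nat_lit 632) (nat_lit 514) (nat_lit 414))))) (XT.nd (nat_lit 234) (nat_lit 532) (nat_lit 0) (XT.nd (nat_lit 78) (nat_lit 532) (nat_lit 0) (XT.lf (nat_lit 0) (nat_lit 6628369742) (nat_lit 304) (nat_lit 372015483) (nat_lit 76) (nat_lit 8089147966) (nat_lit 91) (nat_lit 5) (nat_lit 95) (nat_lit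 5) (nat_lit 92) (nat_lit 5) (nat_lit 633) (nat_lit 514) (nat_lit 413)) (XT.nd (nat_lit 78) (nat_lit 304) (nat_lit 0) (XT.lf (nat_lit 0) (nat_lit 9864110992) (nat_lit 228) (nat_lit 1495053580) (nat_lit 304) (nat_lit 3913804792) (nat_lit 88) (nat_lit 5) (nat_lit 91) (nat_lit 5) (nat_lit 92) (nat_lit 5) (nat_lit 634) (nat_lit 514) (nat_lit 412)) (XT.lf (nat_lit 0) (nat_lit 751197247) (nat_lit 304) (nat_lit 10620259312) (nat_lit 76) (nat_lit 4087800476) (nat_lit 84) (nat_lit 5) (nat_lit 88) (nat_lit 5) (nat_lit 85) (nat_lit 5) (nat_lit 635) (nat_lit 514) (nat_lit 411)))) (XT.nd (nat_lit 156) (nat_lit 304) (nat_lit 0) (XT.nd (nat_lit 78) (nat_lit 228) (nat_lit 0) (XT.lf (nat_lit 0) (nat_lit 5478871666) (nat_lit 304) (nat_lit 362225367) (nat_lit 76) (nat_lit 9807221259) (nat_lit 84) (nat_lit 5) (nat_lit 88) (nat_lit 5) (nat_lit 85) (nat_lit 5) (nat_lit 636) (nat_lit 514) (nat_lit 410)) (XT.lf (nat_lit 0) (nat_lit 10192737422) (nat_lit 228) (nat_lit 150316166) (nat_lit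 304) (nat_lit 5497268891) (nat_lit 81) (nat_lit 5) (nat_lit 84) (nat_lit 5) (nat_lit 85) (nat_lit 5) (nat_lit 637) (nat_lit 514) (nat_lit 409))) (XT.nd (nat_lit 78) (nat_lit 76) (nat_lit 0) (XT.lf (nat_lit 0) (nat_lit 4913300308) (nat_lit 228) (nat_lit 10438143684) (nat_lit 304) (nat_lit 683785031) (nat_lit 78) (nat_lit 5) (nat_lit 81) (nat_lit 5) (nat_lit 82) (nat_lit 5) (nat_lit 638) (nat_lit 514) (nat_lit 408)) (XT.lf (nat_lit 0) (nat_lit 4185598234) (nat_lit 304) (nat_lit 542049118) (nat_lit 76) (nat_lit 11505537249) (nat_lit 77) (nat_lit 5) (nat_lit 81) (nat_lit 5) (nat_lit 78) (nat_lit 5) (nat_lit 639) (nat_lit 514) (nat_lit 407))))))) (XT.nd (nat_lit 72930) (nat_lit 0) (nat_lit 44460) (XT.nd (nat_lit 468) (nat_lit 380) (nat_lit 0) (XT.nd (nat_lit 234) (nat_lit 456) (nat_lit 0) (XT.nd (nat_lit 78) (nat_lit 304) (nat_lit 0) (XT.lf (nat_lit 0) (nat_lit 9194216098) (nat_lit 304) (nat_lit 6102343696) (nat_lit 76) (nat_lit 1137429769) (nat_lit 74) (nat_lit 5)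 (nat_lit 78) (nat_lit 5) (nat_lit 75) (nat_lit 5) (nat_lit 640) (nat_lit 514) (nat_lit 406)) (XT.nd (nat_lit 78) (nat_lit 76) (nat_lit 0) (XT.lf (nat_lit 0) (nat_lit 4781494963) (nat_lit 228) (nat_lit 9563991552) (nat_lit 304) (nat_lit 2292475216) (nat_lit 71) (nat_lit 5) (nat_lit 74) (nat_lit 5) (nat_lit 75) (nat_lit 5) (nat_lit 641) (nat_lit 514) (nat_lit 405)) (XT.lf (nat_lit 0) (nat_lit 2735378849) (nat_lit 304) (nat_lit 938963413) (nat_lit 76) (nat_lit 13170959658) (nat_lit 70) (nat_lit 5) (nat_lit 74) (nat_lit 5) (nat_lit 71) (nat_lit 5) (nat_lit 642) (nat_lit 514) (nat_lit 404)))) (XT.nd (nat_lit 78) (nat_lit 228) (nat_lit 0) (XT.lf (nat_lit 0) (nat_lit 7892383042) (nat_lit 304) (nat_lit 6795247278) (nat_lit 76) (nat_lit 2367670411) (nat_lit 67) (nat_lit 5) (nat_lit 71) (nat_lit 5) (nat_lit 68) (nat_lit 5) (nat_lit 643) (nat_lit 514) (nat_lit 403)) (XT.nd (nat_lit 78) (nat_lit 76) (nat_lit 0) (XT.lf (nat_lit 0) (nat_lit 4419376026) (nat_lit 152) (nat_lit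 8769563510) (nat_lit 228) (nat_lit 4079832396) (nat_lit 65) (nat_lit 5) (nat_lit 67) (nat_lit 5) (nat_lit 68) (nat_lit 5) (nat_lit 644) (nat_lit 514) (nat_lit 402)) (XT.lf (nat_lit 0) (nat_lit 1113404512) (nat_lit 228) (nat_lit 1583326074) (nat_lit 76) (nat_lit 14789179503) (nat_lit 64) (nat_lit 5) (nat_lit 67) (nat_lit 5) (nat_lit 65) (nat_lit 5) (nat_lit 645) (nat_lit 514) (nat_lit 401))))) (XT.nd (nat_lit 72150) (nat_lit 0) (nat_lit 51908) (XT.nd (nat_lit 78) (nat_lit 152) (nat_lit 0) (XT.lf (nat_lit 0) (nat_lit 6421405066) (nat_lit 304) (nat_lit 7757234184) (nat_lit 76) (nat_lit 3526902467) (nat_lit 61) (nat_lit 5) (nat_lit 65) (nat_lit 5) (nat_lit 62) (nat_lit 5) (nat_lit 646) (nat_lit 514) (nat_lit 400)) (XT.nd (nat_lit 78) (nat_lit 0) (nat_lit 0) (XT.lf (nat_lit 0) (nat_lit 3794592467) (nat_lit 152) (nat_lit 8071764633) (nat_lit 228) (nat_lit 6062593657) (nat_lit 59) (nat_lit 5) (nat_lit 61) (nat_lit 5) (nat_lit 62) (nat_lit 5) (nat_lit 647) (nat_lit 514)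 (nat_lit 399)) (XT.lf (nat_lit 0) (nat_lit 15642942159) (nat_lit 152) (nat_lit 1807102824) (nat_lit 228) (nat_lit 706186852) (nat_lit 59) (nat_lit 5) (nat_lit 61) (nat_lit 5) (nat_lit 62) (nat_lit 5) (nat_lit 648) (nat_lit 514) (nat_lit 398)))) (XT.nd (nat_lit 156) (nat_lit 1064) (nat_lit 0) (XT.nd (nat_lit 78) (nat_lit 76) (nat_lit 0) (XT.lf (nat_lit 0) (nat_lit 1038670689) (nat_lit 380) (nat_lit 1103131616) (nat_lit 380) (nat_lit 1103131616) (nat_lit 757) (nat_lit 4) (nat_lit 762) (nat_lit 5) (nat_lit 762) (nat_lit 4) (nat_lit 530) (nat_lit 515) (nat_lit 515)) (XT.lf (nat_lit 0) (nat_lit 995676802) (nat_lit 456) (nat_lit 713274217) (nat_lit 76) (nat_lit 4791201281) (nat_lit 756) (nat_lit 5) (nat_lit 762) (nat_lit 5) (nat_lit 757) (nat_lit 4) (nat_lit 531) (nat_lit 515) (nat_lit 514))) (XT.nd (nat_lit 78) (nat_lit 608) (nat_lit 0) (XT.lf (nat_lit 0) (nat_lit 3036251517) (nat_lit 456) (nat_lit 1137962272) (nat_lit 532) (nat_lit 2337307799) (nat_lit 750) (nat_lit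 5) (nat_lit 756) (nat_lit 5) (nat_lit 757) (nat_lit 4) (nat_lit 532) (nat_lit 515) (nat_lit 513)) (XT.lf (nat_lit 0) (nat_lit 295828074) (nat_lit 532) (nat_lit 515446805) (nat_lit 608) (nat_lit 5713143986) (nat_lit 742) (nat_lit 5) (nat_lit 749) (nat_lit 5) (nat_lit 750) (nat_lit 5) (nat_lit 533) (nat_lit 515) (nat_lit 512)))))) (XT.nd (nat_lit 546) (nat_lit 4332) (nat_lit 0) (XT.nd (nat_lit 234) (nat_lit 2432) (nat_lit 0) (XT.nd (nat_lit 78) (nat_lit 684) (nat_lit 0) (XT.lf (nat_lit 0) (nat_lit 3940221044) (nat_lit 608) (nat_lit 2415067815) (nat_lit 76) (nat_lit 183014543) (nat_lit 742) (nat_lit 5) (nat_lit 750) (nat_lit 5) (nat_lit 743) (nat_lit 4) (nat_lit 534) (nat_lit 515) (nat_lit 511)) (XT.nd (nat_lit 78) (nat_lit 0) (nat_lit 0) (XT.lf (nat_lit 0) (nat_lit 509919430) (nat_lit 684) (nat_lit 5116865739) (nat_lit 76) (nat_lit 926852116) (nat_lit 733) (nat_lit 5) (nat_lit 742) (nat_lit 5) (nat_lit 734) (nat_lit 5) (nat_lit 535) (nat_lit 515) (nat_lit 510)) (XT.lf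 (nat_lit 0) (nat_lit 3588164986) (nat_lit 684) (nat_lit 1238548214) (nat_lit 76) (nat_lit 1743375114) (nat_lit 733) (nat_lit 5) (nat_lit 742) (nat_lit 5) (nat_lit 734) (nat_lit 5) (nat_lit 536) (nat_lit 515) (nat_lit 509)))) (XT.nd (nat_lit 156) (nat_lit 912) (nat_lit 0) (XT.nd (nat_lit 78) (nat_lit 760) (nat_lit 0) (XT.lf (nat_lit 0) (nat_lit 84401540) (nat_lit 760) (nat_lit 3885409401) (nat_lit 76) (nat_lit 2618147130) (nat_lit 723) (nat_lit 5) (nat_lit 733) (nat_lit 5) (nat_lit 724) (nat_lit 5) (nat_lit 537) (nat_lit 515) (nat_lit 508)) (XT.lf (nat_lit 0) (nat_lit 63967871) (nat_lit 760) (nat_lit 3045554016) (nat_lit 836) (nat_lit 3497531908) (nat_lit 713) (nat_lit 5) (nat_lit 723) (nat_lit 5) (nat_lit 724) (nat_lit 5) (nat_lit 538) (nat_lit 515) (nat_lit 507))) (XT.nd (nat_lit 78) (nat_lit 912) (nat_lit 0) (XT.lf (nat_lit 0) (nat_lit 4095025853) (nat_lit 760) (nat_lit 2055845831) (nat_lit 836) (nat_lit 476555718) (nat_lit 713) (nat_lit 5) (nat_lit 723) (nat_lit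 5) (nat_lit 724) (nat_lit 5) (nat_lit 539) (nat_lit 515) (nat_lit 506)) (XT.lf (nat_lit 0) (nat_lit 1511479967) (nat_lit 836) (nat_lit 999576947) (nat_lit 912) (nat_lit 4138015824) (nat_lit 701) (nat_lit 5) (nat_lit 712) (nat_lit 5) (nat_lit 713) (nat_lit 5) (nat_lit 540) (nat_lit 515) (nat_lit 505))))) (XT.nd (nat_lit 234) (nat_lit 2356) (nat_lit 0) (XT.nd (nat_lit 78) (nat_lit 1976) (nat_lit 0) (XT.lf (nat_lit 0) (nat_lit 5501385995) (nat_lit 912) (nat_lit 1055117279) (nat_lit 76) (nat_lit 115607704) (nat_lit 701) (nat_lit 5) (nat_lit 713) (nat_lit 5) (nat_lit 702) (nat_lit 5) (nat_lit 541) (nat_lit 515) (nat_lit 504)) (XT.nd (nat_lit 78) (nat_lit 988) (nat_lit 0) (XT.lf (nat_lit 0) (nat_lit 1791062060) (nat_lit 988) (nat_lit 3615353245) (nat_lit 76) (nat_lit 1289773381) (nat_lit 688) (nat_lit 5) (nat_lit 701) (nat_lit 5) (nat_lit 689) (nat_lit 5) (nat_lit 542) (nat_lit 515) (nat_lit 503)) (XT.lf (nat_lit 0) (nat_lit 541850726) (nat_lit 988) (nat_lit 4198827741)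 (nat_lit 1064) (nat_lit 1981038650) (nat_lit 675) (nat_lit 5) (nat_lit 688) (nat_lit 5) (nat_lit 689) (nat_lit 5) (nat_lit 543) (nat_lit 515) (nat_lit 502)))) (XT.nd (nat_lit 156) (nat_lit 1216) (nat_lit 0) (XT.nd (nat_lit 78) (nat_lit 1064) (nat_lit 0) (XT.lf (nat_lit 0) (nat_lit 946959837) (nat_lit 1064) (nat_lit 1973938207) (nat_lit 76) (nat_lit 3827565710) (nat_lit 674) (nat_lit 5) (nat_lit 688) (nat_lit 5) (nat_lit 675) (nat_lit 5) (nat_lit 544) (nat_lit 515) (nat_lit 501)) (XT.lf (nat_lit 0) (nat_lit 2282721622) (nat_lit 1064) (nat_lit 1574550048) (nat_lit 1140) (nat_lit 2919214964) (nat_lit 660) (nat_lit 5) (nat_lit 674) (nat_lit 5) (nat_lit 675) (nat_lit 5) (nat_lit 545) (nat_lit 515) (nat_lit 500))) (XT.nd (nat_lit 78) (nat_lit 1216) (nat_lit 0) (XT.lf (nat_lit 0) (nat_lit 6601396439) (nat_lit 1064) (nat_lit 174015393) (nat_lit 1140) (nat_lit 30674321) (nat_lit 660) (nat_lit 5) (nat_lit 674) (nat_lit 5) (nat_lit 675) (nat_lit 5) (nat_lit 546) (nat_lit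 515) (nat_lit 499)) (XT.lf (nat_lit 0) (nat_lit 2850117668) (nat_lit 1216) (nat_lit 2689154495) (nat_lit 76) (nat_lit 1297180786) (nat_lit 644) (nat_lit 5) (nat_lit 660) (nat_lit 5) (nat_lit 645) (nat_lit 5) (nat_lit 547) (nat_lit 515) (nat_lit 498))))))))
noncomputable def xc67 : XT := (XT.nd (nat_lit 2106) (nat_lit 12160) (nat_lit 0) (XT.nd (nat_lit 1014) (nat_lit 8132) (nat_lit 0) (XT.nd (nat_lit 468) (nat_lit 8588) (nat_lit 0) (XT.nd (nat_lit 234) (nat_lit 2888) (nat_lit 0) (XT.nd (nat_lit 78) (nat_lit 1368) (nat_lit 0) (XT.lf (nat_lit 0) (nat_lit 1691784827) (nat_lit 1216) (nat_lit 4048043134) (nat_lit 1292) (nat_lit 1128568926) (nat_lit 628) (nat_lit 5) (nat_lit 644) (nat_lit 5) (nat_lit 645) (nat_lit 5) (nat_lit 548) (nat_lit 515) (nat_lit 497)) (XT.nd (nat_lit 78) (nat_lit 1292) (nat_lit 0) (XT.lf (nat_lit 0) (nat_lit 1719756400) (nat_lit 1292) (nat_lit 766770406) (nat_lit 76) (nat_lit 4415092103) (nat_lit 627) (nat_lit 5) (nat_lit 644) (nat_lit 5) (nat_lit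 628) (nat_lit 5) (nat_lit 549) (nat_lit 515) (nat_lit 496)) (XT.lf (nat_lit 0) (nat_lit 3722389356) (nat_lit 1292) (nat_lit 851599129) (nat_lit 1368) (nat_lit 2362094310) (nat_lit 610) (nat_lit 5) (nat_lit 627) (nat_lit 5) (nat_lit 628) (nat_lit 5) (nat_lit 550) (nat_lit 515) (nat_lit 495)))) (XT.nd (nat_lit 78) (nat_lit 1444) (nat_lit 0) (XT.lf (nat_lit 0) (nat_lit 466764168) (nat_lit 1444) (nat_lit 5673942163) (nat_lit 76) (nat_lit 831281491) (nat_lit 591) (nat_lit 5) (nat_lit 610) (nat_lit 5) (nat_lit 592) (nat_lit 5) (nat_lit 551) (nat_lit 515) (nat_lit 494)) (XT.nd (nat_lit 78) (nat_lit 1444) (nat_lit 0) (XT.lf (nat_lit 0) (nat_lit 3289171761) (nat_lit 1444) (nat_lit 1137623090) (nat_lit 76) (nat_lit 2582139037) (nat_lit 591) (nat_lit 5) (nat_lit 610) (nat_lit 5) (nat_lit 592) (nat_lit 5) (nat_lit 552) (nat_lit 515) (nat_lit 493)) (XT.lf (nat_lit 0) (nat_lit 3484534528) (nat_lit 1444) (nat_lit 2648492081) (nat_lit 1520) (nat_lit 914299356) (nat_lit 572) (nat_lit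 5) (nat_lit 591) (nat_lit 5) (nat_lit 592) (nat_lit 5) (nat_lit 553) (nat_lit 515) (nat_lit 492))))) (XT.nd (nat_lit 234) (nat_lit 5320) (nat_lit 0) (XT.nd (nat_lit 78) (nat_lit 1672) (nat_lit 0) (XT.lf (nat_lit 0) (nat_lit 1078653741) (nat_lit 1520) (nat_lit 800563700) (nat_lit 1596) (nat_lit 5207872710) (nat_lit 551) (nat_lit 5) (nat_lit 571) (nat_lit 5) (nat_lit 572) (nat_lit 5) (nat_lit 554) (nat_lit 515) (nat_lit 491)) (XT.nd (nat_lit 78) (nat_lit 1672) (nat_lit 0) (XT.lf (nat_lit 0) (nat_lit 4691105628) (nat_lit 1596) (nat_lit 1331061226) (nat_lit 76) (nat_lit 1105873690) (nat_lit 551) (nat_lit 5) (nat_lit 572) (nat_lit 5) (nat_lit 552) (nat_lit 5) (nat_lit 555) (nat_lit 515) (nat_lit 490)) (XT.lf (nat_lit 0) (nat_lit 356418191) (nat_lit 1672) (nat_lit 3744029804) (nat_lit 76) (nat_lit 3069875708) (nat_lit 529) (nat_lit 5) (nat_lit 551) (nat_lit 5) (nat_lit 530) (nat_lit 5) (nat_lit 556) (nat_lit 515) (nat_lit 489)))) (XT.nd (nat_lit 156) (nat_lit 3648) (nat_lit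 0) (XT.nd (nat_lit 78) (nat_lit 0) (nat_lit 0) (XT.lf (nat_lit 0) (nat_lit 1029628070) (nat_lit 1672) (nat_lit 2104205761) (nat_lit 1748) (nat_lit 4080086294) (nat_lit 507) (nat_lit 5) (nat_lit 529) (nat_lit 5) (nat_lit 530) (nat_lit 5) (nat_lit 557) (nat_lit 515) (nat_lit 488)) (XT.lf (nat_lit 0) (nat_lit 5898604515) (nat_lit 1672) (nat_lit 39182481) (nat_lit 1748) (nat_lit 1321187851) (nat_lit 507) (nat_lit 5) (nat_lit 529) (nat_lit 5) (nat_lit 530) (nat_lit 5) (nat_lit 558) (nat_lit 515) (nat_lit 487))) (XT.nd (nat_lit 78) (nat_lit 1824) (nat_lit 0) (XT.lf (nat_lit 0) (nat_lit 1456558474) (nat_lit 1824) (nat_lit 3772784393) (nat_lit 76) (nat_lit 2075734869) (nat_lit 483) (nat_lit 5) (nat_lit 507) (nat_lit 5) (nat_lit 484) (nat_lit 5) (nat_lit 559) (nat_lit 515) (nat_lit 486)) (XT.lf (nat_lit 0) (nat_lit 1143896856) (nat_lit 1824) (nat_lit 3092470078) (nat_lit 1900) (nat_lit 3116282933) (nat_lit 459) (nat_lit 5) (nat_lit 483) (nat_lit 5) (nat_lit 484) (nat_lit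 5) (nat_lit 560) (nat_lit 515) (nat_lit 485)))))) (XT.nd (nat_lit 546) (nat_lit 4180) (nat_lit 0) (XT.nd (nat_lit 234) (nat_lit 1900) (nat_lit 0) (XT.nd (nat_lit 78) (nat_lit 2052) (nat_lit 0) (XT.lf (nat_lit 0) (nat_lit 6159024361) (nat_lit 1824) (nat_lit 886072175) (nat_lit 1900) (nat_lit 356616091) (nat_lit 459) (nat_lit 5) (nat_lit 483) (nat_lit 5) (nat_lit 484) (nat_lit 5) (nat_lit 561) (nat_lit 515) (nat_lit 484)) (XT.nd (nat_lit 78) (nat_lit 912) (nat_lit 0) (XT.lf (nat_lit 0) (nat_lit 2408530620) (nat_lit 1140) (nat_lit 3655169745) (nat_lit 76) (nat_lit 1388092000) (nat_lit 444) (nat_lit 5) (nat_lit 459) (nat_lit 5) (nat_lit 445) (nat_lit 5) (nat_lit 562) (nat_lit 515) (nat_lit 483)) (XT.lf (nat_lit 0) (nat_lit 1409659336) (nat_lit 912) (nat_lit 3787329826) (nat_lit 988) (nat_lit 2306387068) (nat_lit 432) (nat_lit 5) (nat_lit 444) (nat_lit 5) (nat_lit 445) (nat_lit 5) (nat_lit 563) (nat_lit 515) (nat_lit 482)))) (XT.nd (nat_lit 156) (nat_lit 912) (nat_lit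 0) (XT.nd (nat_lit 78) (nat_lit 912) (nat_lit 0) (XT.lf (nat_lit 0) (nat_lit 453241743) (nat_lit 988) (nat_lit 985219274) (nat_lit 76) (nat_lit 6117985292) (nat_lit 431) (nat_lit 5) (nat_lit 444) (nat_lit 5) (nat_lit 432) (nat_lit 5) (nat_lit 564) (nat_lit 515) (nat_lit 481)) (XT.lf (nat_lit 0) (nat_lit 3221739943) (nat_lit 988) (nat_lit 3402477231) (nat_lit 76) (nat_lit 986369575) (nat_lit 419) (nat_lit 5) (nat_lit 432) (nat_lit 5) (nat_lit 420) (nat_lit 5) (nat_lit 565) (nat_lit 515) (nat_lit 480))) (XT.nd (nat_lit 78) (nat_lit 76) (nat_lit 0) (XT.lf (nat_lit 0) (nat_lit 1815871074) (nat_lit 836) (nat_lit 4209013508) (nat_lit 912) (nat_lit 1641344840) (nat_lit 408) (nat_lit 5) (nat_lit 419) (nat_lit 5) (nat_lit 420) (nat_lit 5) (nat_lit 566) (nat_lit 515) (nat_lit 479)) (XT.lf (nat_lit 0) (nat_lit 1120468346) (nat_lit 912) (nat_lit 597176797) (nat_lit 76) (nat_lit 6005702003) (nat_lit 407) (nat_lit 5) (nat_lit 419) (nat_lit 5) (nat_lit 408) (nat_lit 5) (nat_lit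 567) (nat_lit 515) (nat_lit 478))))) (XT.nd (nat_lit 234) (nat_lit 2432) (nat_lit 0) (XT.nd (nat_lit 78) (nat_lit 912) (nat_lit 0) (XT.lf (nat_lit 0) (nat_lit 3904636339) (nat_lit 912) (nat_lit 3025328323) (nat_lit 76) (nat_lit 851648320) (nat_lit 396) (nat_lit 5) (nat_lit 408) (nat_lit 5) (nat_lit 397) (nat_lit 5) (nat_lit 568) (nat_lit 515) (nat_lit 477)) (XT.nd (nat_lit 78) (nat_lit 76) (nat_lit 0) (XT.lf (nat_lit 0) (nat_lit 2352154555) (nat_lit 836) (nat_lit 4376149530) (nat_lit 912) (nat_lit 1113068297) (nat_lit 385) (nat_lit 5) (nat_lit 396) (nat_lit 5) (nat_lit 397) (nat_lit 5) (nat_lit 569) (nat_lit 515) (nat_lit 476)) (XT.lf (nat_lit 0) (nat_lit 1657591296) (nat_lit 912) (nat_lit 86461786) (nat_lit 76) (nat_lit 6158579760) (nat_lit 384) (nat_lit 5) (nat_lit 396) (nat_lit 5) (nat_lit 385) (nat_lit 5) (nat_lit 570) (nat_lit 515) (nat_lit 475)))) (XT.nd (nat_lit 156) (nat_lit 836) (nat_lit 0) (XT.nd (nat_lit 78) (nat_lit 760) (nat_lit 0) (XT.lf (nat_lit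 0) (nat_lit 4464765056) (nat_lit 912) (nat_lit 2533761022) (nat_lit 76) (nat_lit 966529494) (nat_lit 373) (nat_lit 5) (nat_lit 385) (nat_lit 5) (nat_lit 374) (nat_lit 5) (nat_lit 571) (nat_lit 515) (nat_lit 474)) (XT.lf (nat_lit 0) (nat_lit 3008712772) (nat_lit 760) (nat_lit 4305901509) (nat_lit 836) (nat_lit 714386064) (nat_lit 363) (nat_lit 5) (nat_lit 373) (nat_lit 5) (nat_lit 374) (nat_lit 5) (nat_lit 572) (nat_lit 515) (nat_lit 473))) (XT.nd (nat_lit 78) (nat_lit 0) (nat_lit 0) (XT.lf (nat_lit 0) (nat_lit 544393015) (nat_lit 760) (nat_lit 1530714164) (nat_lit 836) (nat_lit 6019329272) (nat_lit 352) (nat_lit 5) (nat_lit 362) (nat_lit 5) (nat_lit 363) (nat_lit 5) (nat_lit 573) (nat_lit 515) (nat_lit 472)) (XT.lf (nat_lit 0) (nat_lit 4908811351) (nat_lit 836) (nat_lit 1937313852) (nat_lit 76) (nat_lit 1315005882) (nat_lit 352) (nat_lit 5) (nat_lit 363) (nat_lit 5) (nat_lit 353) (nat_lit 5) (nat_lit 574) (nat_lit 515) (nat_lit 471))))))) (XT.nd (nat_lit 1092)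 (nat_lit 5244) (nat_lit 0) (XT.nd (nat_lit 546) (nat_lit 3344) (nat_lit 0) (XT.nd (nat_lit 234) (nat_lit 2052) (nat_lit 0) (XT.nd (nat_lit 78) (nat_lit 836) (nat_lit 0) (XT.lf (nat_lit 0) (nat_lit 3776245127) (nat_lit 684) (nat_lit 4014095195) (nat_lit 760) (nat_lit 439000182) (nat_lit 343) (nat_lit 5) (nat_lit 352) (nat_lit 5) (nat_lit 353) (nat_lit 5) (nat_lit 575) (nat_lit 515) (nat_lit 470)) (XT.nd (nat_lit 78) (nat_lit 0) (nat_lit 0) (XT.lf (nat_lit 0) (nat_lit 1281564257) (nat_lit 760) (nat_lit 1095283710) (nat_lit 836) (nat_lit 5922191481) (nat_lit 332) (nat_lit 5) (nat_lit 342) (nat_lit 5) (nat_lit 343) (nat_lit 5) (nat_lit 576) (nat_lit 515) (nat_lit 469)) (XT.lf (nat_lit 0) (nat_lit 5242639245) (nat_lit 836) (nat_lit 1245108071) (nat_lit 76) (nat_lit 1882340611) (nat_lit 332) (nat_lit 5) (nat_lit 343) (nat_lit 5) (nat_lit 333) (nat_lit 5) (nat_lit 577) (nat_lit 515) (nat_lit 468)))) (XT.nd (nat_lit 156) (nat_lit 608) (nat_lit 0) (XT.nd (nat_lit 78) (nat_lit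 760) (nat_lit 0) (XT.lf (nat_lit 0) (nat_lit 4645865033) (nat_lit 684) (nat_lit 3515337907) (nat_lit 760) (nat_lit 281448911) (nat_lit 323) (nat_lit 5) (nat_lit 332) (nat_lit 5) (nat_lit 333) (nat_lit 5) (nat_lit 578) (nat_lit 515) (nat_lit 467)) (XT.lf (nat_lit 0) (nat_lit 2114952729) (nat_lit 684) (nat_lit 452537256) (nat_lit 760) (nat_lit 5949232125) (nat_lit 313) (nat_lit 5) (nat_lit 322) (nat_lit 5) (nat_lit 323) (nat_lit 5) (nat_lit 579) (nat_lit 515) (nat_lit 466))) (XT.nd (nat_lit 78) (nat_lit 608) (nat_lit 0) (XT.lf (nat_lit 0) (nat_lit 5471324577) (nat_lit 760) (nat_lit 465928711) (nat_lit 76) (nat_lit 2654952968) (nat_lit 313) (nat_lit 5) (nat_lit 323) (nat_lit 5) (nat_lit 314) (nat_lit 5) (nat_lit 580) (nat_lit 515) (nat_lit 465)) (XT.lf (nat_lit 0) (nat_lit 5609018544) (nat_lit 608) (nat_lit 2823131278) (nat_lit 684) (nat_lit 237075316) (nat_lit 305) (nat_lit 5) (nat_lit 313) (nat_lit 5) (nat_lit 314) (nat_lit 5) (nat_lit 581) (nat_lit 515) (nat_lit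 464))))) (XT.nd (nat_lit 234) (nat_lit 1976) (nat_lit 0) (XT.nd (nat_lit 78) (nat_lit 608) (nat_lit 0) (XT.lf (nat_lit 0) (nat_lit 2653994447) (nat_lit 760) (nat_lit 5714370627) (nat_lit 76) (nat_lit 379370229) (nat_lit 295) (nat_lit 5) (nat_lit 305) (nat_lit 5) (nat_lit 296) (nat_lit 5) (nat_lit 582) (nat_lit 515) (nat_lit 463)) (XT.nd (nat_lit 78) (nat_lit 0) (nat_lit 0) (XT.lf (nat_lit 0) (nat_lit 396900293) (nat_lit 608) (nat_lit 5204859154) (nat_lit 684) (nat_lit 3225987058) (nat_lit 287) (nat_lit 5) (nat_lit 295) (nat_lit 5) (nat_lit 296) (nat_lit 5) (nat_lit 583) (nat_lit 515) (nat_lit 462)) (XT.lf (nat_lit 0) (nat_lit 6657403379) (nat_lit 608) (nat_lit 1949978117) (nat_lit 684) (nat_lit 302001479) (nat_lit 287) (nat_lit 5) (nat_lit 295) (nat_lit 5) (nat_lit 296) (nat_lit 5) (nat_lit 584) (nat_lit 515) (nat_lit 461)))) (XT.nd (nat_lit 156) (nat_lit 684) (nat_lit 0) (XT.nd (nat_lit 78) (nat_lit 608) (nat_lit 0) (XT.lf (nat_lit 0) (nat_lit 2641695135) (nat_lit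 684) (nat_lit 4965663662) (nat_lit 76) (nat_lit 1385020548) (nat_lit 278) (nat_lit 5) (nat_lit 287) (nat_lit 5) (nat_lit 279) (nat_lit 5) (nat_lit 585) (nat_lit 515) (nat_lit 460)) (XT.lf (nat_lit 0) (nat_lit 1336942584) (nat_lit 608) (nat_lit 4301527313) (nat_lit 684) (nat_lit 3438563760) (nat_lit 270) (nat_lit 5) (nat_lit 278) (nat_lit 5) (nat_lit 279) (nat_lit 5) (nat_lit 586) (nat_lit 515) (nat_lit 459))) (XT.nd (nat_lit 78) (nat_lit 684) (nat_lit 0) (XT.lf (nat_lit 0) (nat_lit 7782887671) (nat_lit 608) (nat_lit 907484134) (nat_lit 684) (nat_lit 473108263) (nat_lit 270) (nat_lit 5) (nat_lit 278) (nat_lit 5) (nat_lit 279) (nat_lit 5) (nat_lit 587) (nat_lit 515) (nat_lit 458)) (XT.lf (nat_lit 0) (nat_lit 2530552541) (nat_lit 684) (nat_lit 4161291612) (nat_lit 76) (nat_lit 2559235414) (nat_lit 261) (nat_lit 5) (nat_lit 270) (nat_lit 5) (nat_lit 262) (nat_lit 5) (nat_lit 588) (nat_lit 515) (nat_lit 457)))))) (XT.nd (nat_lit 546) (nat_lit 2508) (nat_lit 0) (XT.nd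 (nat_lit 234) (nat_lit 1596) (nat_lit 0) (XT.nd (nat_lit 78) (nat_lit 608) (nat_lit 0) (XT.lf (nat_lit 0) (nat_lit 2339635606) (nat_lit 532) (nat_lit 3241555268) (nat_lit 608) (nat_lit 3759315533) (nat_lit 254) (nat_lit 5) (nat_lit 261) (nat_lit 5) (nat_lit 262) (nat_lit 5) (nat_lit 589) (nat_lit 515) (nat_lit 456)) (XT.nd (nat_lit 78) (nat_lit 608) (nat_lit 0) (XT.lf (nat_lit 0) (nat_lit 8685788928) (nat_lit 608) (nat_lit 456381713) (nat_lit 76) (nat_lit 289694831) (nat_lit 254) (nat_lit 5) (nat_lit 262) (nat_lit 5) (nat_lit 255) (nat_lit 5) (nat_lit 590) (nat_lit 515) (nat_lit 455)) (XT.lf (nat_lit 0) (nat_lit 2322745774) (nat_lit 608) (nat_lit 3309818794) (nat_lit 76) (nat_lit 3891670589) (nat_lit 246) (nat_lit 5) (nat_lit 254) (nat_lit 5) (nat_lit 247) (nat_lit 5) (nat_lit 591) (nat_lit 515) (nat_lit 454)))) (XT.nd (nat_lit 156) (nat_lit 532) (nat_lit 0) (XT.nd (nat_lit 78) (nat_lit 532) (nat_lit 0) (XT.lf (nat_lit 0) (nat_lit 3396619421) (nat_lit 532) (nat_lit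 2035392708) (nat_lit 608) (nat_lit 4186562799) (nat_lit 239) (nat_lit 5) (nat_lit 246) (nat_lit 5) (nat_lit 247) (nat_lit 5) (nat_lit 592) (nat_lit 515) (nat_lit 453)) (XT.lf (nat_lit 0) (nat_lit 513984163) (nat_lit 532) (nat_lit 8089996194) (nat_lit 608) (nat_lit 1110813235) (nat_lit 232) (nat_lit 5) (nat_lit 239) (nat_lit 5) (nat_lit 240) (nat_lit 5) (nat_lit 593) (nat_lit 515) (nat_lit 452))) (XT.nd (nat_lit 78) (nat_lit 456) (nat_lit 0) (XT.lf (nat_lit 0) (nat_lit 2019741381) (nat_lit 608) (nat_lit 2419877843) (nat_lit 76) (nat_lit 5372659252) (nat_lit 231) (nat_lit 5) (nat_lit 239) (nat_lit 5) (nat_lit 232) (nat_lit 5) (nat_lit 594) (nat_lit 515) (nat_lit 451)) (XT.lf (nat_lit 0) (nat_lit 4499458436) (nat_lit 456) (nat_lit 692859894) (nat_lit 532) (nat_lit 4719364463) (nat_lit 225) (nat_lit 5) (nat_lit 231) (nat_lit 5) (nat_lit 232) (nat_lit 5) (nat_lit 595) (nat_lit 515) (nat_lit 450))))) (XT.nd (nat_lit 234) (nat_lit 1444) (nat_lit 0) (XT.nd (nat_lit 78)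 (nat_lit 532) (nat_lit 0) (XT.lf (nat_lit 0) (nat_lit 1527696887) (nat_lit 532) (nat_lit 6912566283) (nat_lit 608) (nat_lit 1572575943) (nat_lit 218) (nat_lit 5) (nat_lit 225) (nat_lit 5) (nat_lit 226) (nat_lit 5) (nat_lit 596) (nat_lit 515) (nat_lit 449)) (XT.nd (nat_lit 78) (nat_lit 456) (nat_lit 0) (XT.lf (nat_lit 0) (nat_lit 1622294917) (nat_lit 608) (nat_lit 1500257851) (nat_lit 76) (nat_lit 6993122995) (nat_lit 217) (nat_lit 5) (nat_lit 225) (nat_lit 5) (nat_lit 218) (nat_lit 5) (nat_lit 597) (nat_lit 515) (nat_lit 448)) (XT.lf (nat_lit 0) (nat_lit 4867832309) (nat_lit 532) (nat_lit 4585798906) (nat_lit 76) (nat_lit 766575634) (nat_lit 211) (nat_lit 5) (nat_lit 218) (nat_lit 5) (nat_lit 212) (nat_lit 5) (nat_lit 598) (nat_lit 515) (nat_lit 447)))) (XT.nd (nat_lit 156) (nat_lit 912) (nat_lit 0) (XT.nd (nat_lit 78) (nat_lit 76) (nat_lit 0) (XT.lf (nat_lit 0) (nat_lit 2569853004) (nat_lit 456) (nat_lit 5622331178) (nat_lit 532) (nat_lit 2134368371) (nat_lit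 205) (nat_lit 5) (nat_lit 211) (nat_lit 5) (nat_lit 212) (nat_lit 5) (nat_lit 599) (nat_lit 515) (nat_lit 446)) (XT.lf (nat_lit 0) (nat_lit 1130447010) (nat_lit 532) (nat_lit 559996090) (nat_lit 76) (nat_lit 8744484885) (nat_lit 204) (nat_lit 5) (nat_lit 211) (nat_lit 5) (nat_lit 205) (nat_lit 5) (nat_lit 600) (nat_lit 515) (nat_lit 445))) (XT.nd (nat_lit 78) (nat_lit 456) (nat_lit 0) (XT.lf (nat_lit 0) (nat_lit 4458746084) (nat_lit 532) (nat_lit 3752273682) (nat_lit 76) (nat_lit 2333635617) (nat_lit 198) (nat_lit 5) (nat_lit 205) (nat_lit 5) (nat_lit 199) (nat_lit 5) (nat_lit 601) (nat_lit 515) (nat_lit 444)) (XT.lf (nat_lit 0) (nat_lit 3631307315) (nat_lit 456) (nat_lit 4228281399) (nat_lit 532) (nat_lit 2796870978) (nat_lit 192) (nat_lit 5) (nat_lit 198) (nat_lit 5) (nat_lit 199) (nat_lit 5) (nat_lit 602) (nat_lit 515) (nat_lit 443))))))))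
noncomputable def xc68 : XT := (XT.nd (nat_lit 2106) (nat_lit 3116) (nat_lit 0) (XT.nd (nat_lit 1014) (nat_lit 3116) (nat_lit 0) (XT.nd (nat_lit 468) (nat_lit 1976) (nat_lit 0) (XT.nd (nat_lit 234) (nat_lit 836) (nat_lit 0) (XT.nd (nat_lit 78) (nat_lit 456) (nat_lit 0) (XT.lf (nat_lit 0) (nat_lit 396729008) (nat_lit 380) (nat_lit 149360594) (nat_lit 456) (nat_lit 10224430692) (nat_lit 186) (nat_lit 5) (nat_lit 191) (nat_lit 5) (nat_lit 192) (nat_lit 5) (nat_lit 603) (nat_lit 515) (nat_lit 442)) (XT.nd (nat_lit 78) (nat_lit 456) (nat_lit 0) (XT.lf (nat_lit 0) (nat_lit 3959753272) (nat_lit 456) (nat_lit 2916858648) (nat_lit 76) (nat_lit 4009056365) (nat_lit 186) (nat_lit 5) (nat_lit 192) (nat_lit 5) (nat_lit 187) (nat_lit 5) (nat_lit 604) (nat_lit 515) (nat_lit 441)) (XT.lf (nat_lit 0) (nat_lit 4702507833) (nat_lit 456) (nat_lit 2739096784) (nat_lit 532) (nat_lit 3561518100) (nat_lit 180) (nat_lit 5) (nat_lit 186) (nat_lit 5) (nat_lit 187) (nat_lit 5) (nat_lit 605)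 (nat_lit 515) (nat_lit 440)))) (XT.nd (nat_lit 78) (nat_lit 456) (nat_lit 0) (XT.lf (nat_lit 0) (nat_lit 1351643133) (nat_lit 380) (nat_lit 9648150674) (nat_lit 456) (nat_lit 123000148) (nat_lit 175) (nat_lit 5) (nat_lit 180) (nat_lit 5) (nat_lit 181) (nat_lit 5) (nat_lit 606) (nat_lit 515) (nat_lit 439)) (XT.nd (nat_lit 78) (nat_lit 380) (nat_lit 0) (XT.lf (nat_lit 0) (nat_lit 3369308816) (nat_lit 456) (nat_lit 2089760551) (nat_lit 76) (nat_lit 5784763331) (nat_lit 174) (nat_lit 5) (nat_lit 180) (nat_lit 5) (nat_lit 175) (nat_lit 5) (nat_lit 607) (nat_lit 515) (nat_lit 438)) (XT.lf (nat_lit 0) (nat_lit 5773389857) (nat_lit 380) (nat_lit 1163232997) (nat_lit 456) (nat_lit 4430518619) (nat_lit 169) (nat_lit 5) (nat_lit 174) (nat_lit 5) (nat_lit 175) (nat_lit 5) (nat_lit 608) (nat_lit 515) (nat_lit 437))))) (XT.nd (nat_lit 234) (nat_lit 1140) (nat_lit 0) (XT.nd (nat_lit 78) (nat_lit 456) (nat_lit 0) (XT.lf (nat_lit 0) (nat_lit 2291590338) (nat_lit 380) (nat_lit 8303099510)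 (nat_lit 456) (nat_lit 897840043) (nat_lit 164) (nat_lit 5) (nat_lit 169) (nat_lit 5) (nat_lit 170) (nat_lit 5) (nat_lit 609) (nat_lit 515) (nat_lit 436)) (XT.nd (nat_lit 78) (nat_lit 380) (nat_lit 0) (XT.lf (nat_lit 0) (nat_lit 2685106654) (nat_lit 456) (nat_lit 1281795032) (nat_lit 76) (nat_lit 7652872663) (nat_lit 163) (nat_lit 5) (nat_lit 169) (nat_lit 5) (nat_lit 164) (nat_lit 5) (nat_lit 610) (nat_lit 515) (nat_lit 435)) (XT.lf (nat_lit 0) (nat_lit 6345459705) (nat_lit 456) (nat_lit 4919079605) (nat_lit 76) (nat_lit 484551810) (nat_lit 158) (nat_lit 5) (nat_lit 164) (nat_lit 5) (nat_lit 159) (nat_lit 5) (nat_lit 611) (nat_lit 515) (nat_lit 434)))) (XT.nd (nat_lit 156) (nat_lit 684) (nat_lit 0) (XT.nd (nat_lit 78) (nat_lit 76) (nat_lit 0) (XT.lf (nat_lit 0) (nat_lit 3210054835) (nat_lit 380) (nat_lit 6895121069) (nat_lit 456) (nat_lit 1775296681) (nat_lit 153) (nat_lit 5) (nat_lit 158) (nat_lit 5) (nat_lit 159) (nat_lit 5) (nat_lit 612) (nat_lit 515) (nat_lit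 433)) (XT.lf (nat_lit 0) (nat_lit 1904049444) (nat_lit 456) (nat_lit 504504933) (nat_lit 76) (nat_lit 9605604691) (nat_lit 152) (nat_lit 5) (nat_lit 158) (nat_lit 5) (nat_lit 153) (nat_lit 5) (nat_lit 613) (nat_lit 515) (nat_lit 432))) (XT.nd (nat_lit 78) (nat_lit 304) (nat_lit 0) (XT.lf (nat_lit 0) (nat_lit 5669768598) (nat_lit 456) (nat_lit 4293534841) (nat_lit 76) (nat_lit 2186251396) (nat_lit 147) (nat_lit 5) (nat_lit 153) (nat_lit 5) (nat_lit 148) (nat_lit 5) (nat_lit 614) (nat_lit 515) (nat_lit 431)) (XT.lf (nat_lit 0) (nat_lit 4095065681) (nat_lit 304) (nat_lit 5432899900) (nat_lit 380) (nat_lit 2759351035) (nat_lit 143) (nat_lit 5) (nat_lit 147) (nat_lit 5) (nat_lit 148) (nat_lit 5) (nat_lit 615) (nat_lit 515) (nat_lit 430)))))) (XT.nd (nat_lit 546) (nat_lit 1368) (nat_lit 0) (XT.nd (nat_lit 234) (nat_lit 988) (nat_lit 0) (XT.nd (nat_lit 78) (nat_lit 304) (nat_lit 0) (XT.lf (nat_lit 0) (nat_lit 232765326) (nat_lit 380) (nat_lit 790957421) (nat_lit 456)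 (nat_lit 11403941525) (nat_lit 137) (nat_lit 5) (nat_lit 142) (nat_lit 5) (nat_lit 143) (nat_lit 5) (nat_lit 616) (nat_lit 515) (nat_lit 429)) (XT.nd (nat_lit 78) (nat_lit 304) (nat_lit 0) (XT.lf (nat_lit 0) (nat_lit 4897942945) (nat_lit 456) (nat_lit 3722546033) (nat_lit 76) (nat_lit 3948917753) (nat_lit 137) (nat_lit 5) (nat_lit 143) (nat_lit 5) (nat_lit 138) (nat_lit 5) (nat_lit 617) (nat_lit 515) (nat_lit 428)) (XT.lf (nat_lit 0) (nat_lit 4933709720) (nat_lit 304) (nat_lit 3925222406) (nat_lit 380) (nat_lit 3854867482) (nat_lit 133) (nat_lit 5) (nat_lit 137) (nat_lit 5) (nat_lit 138) (nat_lit 5) (nat_lit 618) (nat_lit 515) (nat_lit 427)))) (XT.nd (nat_lit 156) (nat_lit 608) (nat_lit 0) (XT.nd (nat_lit 78) (nat_lit 0) (nat_lit 0) (XT.lf (nat_lit 0) (nat_lit 46470067) (nat_lit 380) (nat_lit 11947189509) (nat_lit 76) (nat_lit 867238872) (nat_lit 128) (nat_lit 5) (nat_lit 133) (nat_lit 5) (nat_lit 129) (nat_lit 5) (nat_lit 619) (nat_lit 515) (nat_lit 426)) (XT.lf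 (nat_lit 0) (nat_lit 4025047389) (nat_lit 380) (nat_lit 3220154740) (nat_lit 76) (nat_lit 5764212115) (nat_lit 128) (nat_lit 5) (nat_lit 133) (nat_lit 5) (nat_lit 129) (nat_lit 5) (nat_lit 620) (nat_lit 515) (nat_lit 425))) (XT.nd (nat_lit 78) (nat_lit 304) (nat_lit 0) (XT.lf (nat_lit 0) (nat_lit 5711986381) (nat_lit 304) (nat_lit 2381072693) (nat_lit 380) (nat_lit 5067645195) (nat_lit 124) (nat_lit 5) (nat_lit 128) (nat_lit 5) (nat_lit 129) (nat_lit 5) (nat_lit 621) (nat_lit 515) (nat_lit 424)) (XT.lf (nat_lit 0) (nat_lit 1510257311) (nat_lit 304) (nat_lit 10753398242) (nat_lit 380) (nat_lit 1050941192) (nat_lit 120) (nat_lit 5) (nat_lit 124) (nat_lit 5) (nat_lit 125) (nat_lit 5) (nat_lit 622) (nat_lit 515) (nat_lit 423))))) (XT.nd (nat_lit 234) (nat_lit 684) (nat_lit 0) (XT.nd (nat_lit 78) (nat_lit 608) (nat_lit 0) (XT.lf (nat_lit 0) (nat_lit 3045210276) (nat_lit 380) (nat_lit 2801616613) (nat_lit 76) (nat_lit 7623564467) (nat_lit 119) (nat_lit 5) (nat_lit 124)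 (nat_lit 5) (nat_lit 120) (nat_lit 5) (nat_lit 623) (nat_lit 515) (nat_lit 422)) (XT.nd (nat_lit 78) (nat_lit 304) (nat_lit 0) (XT.lf (nat_lit 0) (nat_lit 6414650096) (nat_lit 304) (nat_lit 809732676) (nat_lit 380) (nat_lit 6404477828) (nat_lit 115) (nat_lit 5) (nat_lit 119) (nat_lit 5) (nat_lit 120) (nat_lit 5) (nat_lit 624) (nat_lit 515) (nat_lit 421)) (XT.lf (nat_lit 0) (nat_lit 2017522854) (nat_lit 304) (nat_lit 9503375913) (nat_lit 380) (nat_lit 2268926317) (nat_lit 111) (nat_lit 5) (nat_lit 115) (nat_lit 5) (nat_lit 116) (nat_lit 5) (nat_lit 625) (nat_lit 515) (nat_lit 420)))) (XT.nd (nat_lit 156) (nat_lit 380) (nat_lit 0) (XT.nd (nat_lit 78) (nat_lit 228) (nat_lit 0) (XT.lf (nat_lit 0) (nat_lit 1951560085) (nat_lit 380) (nat_lit 2483568533) (nat_lit 76) (nat_lit 9518072333) (nat_lit 110) (nat_lit 5) (nat_lit 115) (nat_lit 5) (nat_lit 111) (nat_lit 5) (nat_lit 626) (nat_lit 515) (nat_lit 419)) (XT.lf (nat_lit 0) (nat_lit 6250984729) (nat_lit 304) (nat_lit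 7099168047) (nat_lit 76) (nat_lit 768894415) (nat_lit 107) (nat_lit 5) (nat_lit 111) (nat_lit 5) (nat_lit 108) (nat_lit 5) (nat_lit 627) (nat_lit 515) (nat_lit 418))) (XT.nd (nat_lit 78) (nat_lit 76) (nat_lit 0) (XT.lf (nat_lit 0) (nat_lit 2418290979) (nat_lit 304) (nat_lit 8254284277) (nat_lit 380) (nat_lit 3614912527) (nat_lit 103) (nat_lit 5) (nat_lit 107) (nat_lit 5) (nat_lit 108) (nat_lit 5) (nat_lit 628) (nat_lit 515) (nat_lit 417)) (XT.lf (nat_lit 0) (nat_lit 736152677) (nat_lit 380) (nat_lit 2284210818) (nat_lit 76) (nat_lit 11438393939) (nat_lit 102) (nat_lit 5) (nat_lit 107) (nat_lit 5) (nat_lit 103) (nat_lit 5) (nat_lit 629) (nat_lit 515) (nat_lit 416))))))) (XT.nd (nat_lit 1014) (nat_lit 760) (nat_lit 0) (XT.nd (nat_lit 468) (nat_lit 1292) (nat_lit 0) (XT.nd (nat_lit 234) (nat_lit 532) (nat_lit 0) (XT.nd (nat_lit 78) (nat_lit 304) (nat_lit 0) (XT.lf (nat_lit 0) (nat_lit 5165045216) (nat_lit 304) (nat_lit 7123034508) (nat_lit 76) (nat_lit 2344111587)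 (nat_lit 99) (nat_lit 5) (nat_lit 103) (nat_lit 5) (nat_lit 100) (nat_lit 5) (nat_lit 630) (nat_lit 515) (nat_lit 415)) (XT.nd (nat_lit 78) (nat_lit 0) (nat_lit 0) (XT.lf (nat_lit 0) (nat_lit 2693340186) (nat_lit 304) (nat_lit 7017088567) (nat_lit 380) (nat_lit 5098107753) (nat_lit 95) (nat_lit 5) (nat_lit 99) (nat_lit 5) (nat_lit 100) (nat_lit 5) (nat_lit 631) (nat_lit 515) (nat_lit 414)) (XT.lf (nat_lit 0) (nat_lit 12760429147) (nat_lit 304) (nat_lit 1609300675) (nat_lit 380) (nat_lit 618219468) (nat_lit 95) (nat_lit 5) (nat_lit 99) (nat_lit 5) (nat_lit 100) (nat_lit 5) (nat_lit 632) (nat_lit 515) (nat_lit 413)))) (XT.nd (nat_lit 78) (nat_lit 228) (nat_lit 0) (XT.lf (nat_lit 0) (nat_lit 3951995852) (nat_lit 304) (nat_lit 7301543343) (nat_lit 76) (nat_lit 3915847884) (nat_lit 91) (nat_lit 5) (nat_lit 95) (nat_lit 5) (nat_lit 92) (nat_lit 5) (nat_lit 633) (nat_lit 515) (nat_lit 412)) (XT.nd (nat_lit 78) (nat_lit 0) (nat_lit 0) (XT.lf (nat_lit 0) (nat_lit 2821541581)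 (nat_lit 228) (nat_lit 5803461939) (nat_lit 304) (nat_lit 6728975888) (nat_lit 88) (nat_lit 5) (nat_lit 91) (nat_lit 5) (nat_lit 92) (nat_lit 5) (nat_lit 634) (nat_lit 515) (nat_lit 411)) (XT.lf (nat_lit 0) (nat_lit 13204569821) (nat_lit 228) (nat_lit 211741575) (nat_lit 304) (nat_lit 2125456203) (nat_lit 88) (nat_lit 5) (nat_lit 91) (nat_lit 5) (nat_lit 92) (nat_lit 5) (nat_lit 635) (nat_lit 515) (nat_lit 410))))) (XT.nd (nat_lit 234) (nat_lit 760) (nat_lit 0) (XT.nd (nat_lit 78) (nat_lit 228) (nat_lit 0) (XT.lf (nat_lit 0) (nat_lit 2601248980) (nat_lit 304) (nat_lit 7657770848) (nat_lit 76) (nat_lit 5472662314) (nat_lit 84) (nat_lit 5) (nat_lit 88) (nat_lit 5) (nat_lit 85) (nat_lit 5) (nat_lit 636) (nat_lit 515) (nat_lit 409)) (XT.nd (nat_lit 78) (nat_lit 0) (nat_lit 0) (XT.lf (nat_lit 0) (nat_lit 2779626256) (nat_lit 228) (nat_lit 4625916872) (nat_lit 304) (nat_lit 8519341338) (nat_lit 81) (nat_lit 5) (nat_lit 84) (nat_lit 5) (nat_lit 85) (nat_lit 5) (nat_lit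 637) (nat_lit 515) (nat_lit 408)) (XT.lf (nat_lit 0) (nat_lit 12341261435) (nat_lit 304) (nat_lit 2640138680) (nat_lit 76) (nat_lit 1139844711) (nat_lit 81) (nat_lit 5) (nat_lit 85) (nat_lit 5) (nat_lit 82) (nat_lit 5) (nat_lit 638) (nat_lit 515) (nat_lit 407)))) (XT.nd (nat_lit 156) (nat_lit 228) (nat_lit 0) (XT.nd (nat_lit 78) (nat_lit 228) (nat_lit 0) (XT.lf (nat_lit 0) (nat_lit 1100830488) (nat_lit 304) (nat_lit 8217126961) (nat_lit 76) (nat_lit 7002228896) (nat_lit 77) (nat_lit 5) (nat_lit 81) (nat_lit 5) (nat_lit 78) (nat_lit 5) (nat_lit 639) (nat_lit 515) (nat_lit 406)) (XT.lf (nat_lit 0) (nat_lit 2541930074) (nat_lit 228) (nat_lit 3497946664) (nat_lit 304) (nat_lit 10482506352) (nat_lit 74) (nat_lit 5) (nat_lit 77) (nat_lit 5) (nat_lit 78) (nat_lit 5) (nat_lit 640) (nat_lit 515) (nat_lit 405))) (XT.nd (nat_lit 78) (nat_lit 228) (nat_lit 0) (XT.lf (nat_lit 0) (nat_lit 11125969045) (nat_lit 304) (nat_lit 3156661431) (nat_lit 76) (nat_lit 2445028691) (nat_lit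 74) (nat_lit 5) (nat_lit 78) (nat_lit 5) (nat_lit 75) (nat_lit 5) (nat_lit 641) (nat_lit 515) (nat_lit 404)) (XT.lf (nat_lit 0) (nat_lit 7924671573) (nat_lit 228) (nat_lit 8441108058) (nat_lit 304) (nat_lit 570221888) (nat_lit 71) (nat_lit 5) (nat_lit 74) (nat_lit 5) (nat_lit 75) (nat_lit 5) (nat_lit 642) (nat_lit 515) (nat_lit 403)))))) (XT.nd (nat_lit 72384) (nat_lit 0) (nat_lit 51072) (XT.nd (nat_lit 234) (nat_lit 304) (nat_lit 0) (XT.nd (nat_lit 78) (nat_lit 152) (nat_lit 0) (XT.lf (nat_lit 0) (nat_lit 2080113341) (nat_lit 228) (nat_lit 2434178409) (nat_lit 304) (nat_lit 12633382333) (nat_lit 67) (nat_lit 5) (nat_lit 70) (nat_lit 5) (nat_lit 71) (nat_lit 5) (nat_lit 643) (nat_lit 515) (nat_lit 402)) (XT.nd (nat_lit 78) (nat_lit 152) (nat_lit 0) (XT.lf (nat_lit 0) (nat_lit 9755208235) (nat_lit 304) (nat_lit 3914806152) (nat_lit 76) (nat_lit 3692244015) (nat_lit 67) (nat_lit 5) (nat_lit 71) (nat_lit 5) (nat_lit 68) (nat_lit 5) (nat_lit 644) (nat_lit 515) (nat_lit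 401)) (XT.lf (nat_lit 0) (nat_lit 7504265235) (nat_lit 152) (nat_lit 7639454968) (nat_lit 228) (nat_lit 2436559293) (nat_lit 65) (nat_lit 5) (nat_lit 67) (nat_lit 5) (nat_lit 68) (nat_lit 5) (nat_lit 645) (nat_lit 515) (nat_lit 400)))) (XT.nd (nat_lit 71994) (nat_lit 0) (nat_lit 53276) (XT.nd (nat_lit 78) (nat_lit 0) (nat_lit 0) (XT.lf (nat_lit 0) (nat_lit 1362852602) (nat_lit 228) (nat_lit 1450538909) (nat_lit 304) (nat_lit 14988636423) (nat_lit 61) (nat_lit 5) (nat_lit 64) (nat_lit 5) (nat_lit 65) (nat_lit 5) (nat_lit 646) (nat_lit 515) (nat_lit 399)) (XT.lf (nat_lit 0) (nat_lit 8213416998) (nat_lit 304) (nat_lit 4947076113) (nat_lit 76) (nat_lit 4865842688) (nat_lit 61) (nat_lit 5) (nat_lit 65) (nat_lit 5) (nat_lit 62) (nat_lit 5) (nat_lit 647) (nat_lit 515) (nat_lit 398))) (XT.nd (nat_lit 78) (nat_lit 0) (nat_lit 0) (XT.lf (nat_lit 0) (nat_lit 321215194) (nat_lit 380) (nat_lit 2593983959) (nat_lit 0) (nat_lit 321215194) (nat_lit 762) (nat_lit 5) (nat_lit 767)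 (nat_lit 4) (nat_lit 762) (nat_lit 4) (nat_lit 528) (nat_lit 516) (nat_lit 516)) (XT.lf (nat_lit 0) (nat_lit 3833657163) (nat_lit 380) (nat_lit 1592720312) (nat_lit 0) (nat_lit 1054624976) (nat_lit 762) (nat_lit 5) (nat_lit 767) (nat_lit 4) (nat_lit 762) (nat_lit 4) (nat_lit 529) (nat_lit 516) (nat_lit 515))))) (XT.nd (nat_lit 234) (nat_lit 1216) (nat_lit 0) (XT.nd (nat_lit 78) (nat_lit 532) (nat_lit 0) (XT.lf (nat_lit 0) (nat_lit 526052144) (nat_lit 456) (nat_lit 4440948213) (nat_lit 76) (nat_lit 1523583678) (nat_lit 756) (nat_lit 5) (nat_lit 762) (nat_lit 5) (nat_lit 757) (nat_lit 4) (nat_lit 530) (nat_lit 516) (nat_lit 514)) (XT.nd (nat_lit 78) (nat_lit 532) (nat_lit 0) (XT.lf (nat_lit 0) (nat_lit 3660620524) (nat_lit 456) (nat_lit 780239067) (nat_lit 76) (nat_lit 2060497475) (nat_lit 756) (nat_lit 5) (nat_lit 762) (nat_lit 5) (nat_lit 757) (nat_lit 4) (nat_lit 531) (nat_lit 516) (nat_lit 513)) (XT.lf (nat_lit 0) (nat_lit 283611078) (nat_lit 532) (nat_lit 3571026523)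 (nat_lit 76) (nat_lit 2658823236) (nat_lit 749) (nat_lit 5) (nat_lit 756) (nat_lit 5) (nat_lit 750) (nat_lit 5) (nat_lit 532) (nat_lit 516) (nat_lit 512)))) (XT.nd (nat_lit 156) (nat_lit 684) (nat_lit 0) (XT.nd (nat_lit 78) (nat_lit 0) (nat_lit 0) (XT.lf (nat_lit 0) (nat_lit 159012091) (nat_lit 532) (nat_lit 3204290723) (nat_lit 608) (nat_lit 3163522506) (nat_lit 742) (nat_lit 5) (nat_lit 749) (nat_lit 5) (nat_lit 750) (nat_lit 5) (nat_lit 533) (nat_lit 516) (nat_lit 511)) (XT.lf (nat_lit 0) (nat_lit 3963716400) (nat_lit 532) (nat_lit 2490557046) (nat_lit 608) (nat_lit 87201779) (nat_lit 742) (nat_lit 5) (nat_lit 749) (nat_lit 5) (nat_lit 750) (nat_lit 5) (nat_lit 534) (nat_lit 516) (nat_lit 510))) (XT.nd (nat_lit 78) (nat_lit 0) (nat_lit 0) (XT.lf (nat_lit 0) (nat_lit 1236122708) (nat_lit 608) (nat_lit 1709222937) (nat_lit 684) (nat_lit 3611993522) (nat_lit 733) (nat_lit 5) (nat_lit 741) (nat_lit 5) (nat_lit 742) (nat_lit 5) (nat_lit 535) (nat_lit 516) (nat_lit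 509)) (XT.lf (nat_lit 0) (nat_lit 5112578070) (nat_lit 608) (nat_lit 869903566) (nat_lit 684) (nat_lit 592136273) (nat_lit 733) (nat_lit 5) (nat_lit 741) (nat_lit 5) (nat_lit 742) (nat_lit 5) (nat_lit 536) (nat_lit 516) (nat_lit 508))))))))
noncomputable def xc69 : XT := (XT.nd (nat_lit 2106) (nat_lit 14136) (nat_lit 0) (XT.nd (nat_lit 1014) (nat_lit 14820) (nat_lit 0) (XT.nd (nat_lit 468) (nat_lit 4636) (nat_lit 0) (XT.nd (nat_lit 234) (nat_lit 1824) (nat_lit 0) (XT.nd (nat_lit 78) (nat_lit 836) (nat_lit 0) (XT.lf (nat_lit 0) (nat_lit 2400360583) (nat_lit 760) (nat_lit 4151192202) (nat_lit 76) (nat_lit 41479576) (nat_lit 723) (nat_lit 5) (nat_lit 733) (nat_lit 5) (nat_lit 724) (nat_lit 5) (nat_lit 537) (nat_lit 516) (nat_lit 507)) (XT.nd (nat_lit 78) (nat_lit 836) (nat_lit 0) (XT.lf (nat_lit 0) (nat_lit 5390401435) (nat_lit 760) (nat_lit 227069303) (nat_lit 76) (nat_lit 995364140) (nat_lit 723) (nat_lit 5) (nat_lit 733) (nat_lit 5) (nat_lit 724) (nat_lit 5) (nat_lit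 538) (nat_lit 516) (nat_lit 506)) (XT.lf (nat_lit 0) (nat_lit 1739077662) (nat_lit 836) (nat_lit 2868651354) (nat_lit 76) (nat_lit 2025968461) (nat_lit 712) (nat_lit 5) (nat_lit 723) (nat_lit 5) (nat_lit 713) (nat_lit 5) (nat_lit 539) (nat_lit 516) (nat_lit 505)))) (XT.nd (nat_lit 78) (nat_lit 988) (nat_lit 0) (XT.lf (nat_lit 0) (nat_lit 1143072356) (nat_lit 836) (nat_lit 3541276759) (nat_lit 912) (nat_lit 1971658539) (nat_lit 701) (nat_lit 5) (nat_lit 712) (nat_lit 5) (nat_lit 713) (nat_lit 5) (nat_lit 540) (nat_lit 516) (nat_lit 504)) (XT.nd (nat_lit 78) (nat_lit 912) (nat_lit 0) (XT.lf (nat_lit 0) (nat_lit 948389567) (nat_lit 912) (nat_lit 1460679873) (nat_lit 76) (nat_lit 4270535578) (nat_lit 700) (nat_lit 5) (nat_lit 712) (nat_lit 5) (nat_lit 701) (nat_lit 5) (nat_lit 541) (nat_lit 516) (nat_lit 503)) (XT.lf (nat_lit 0) (nat_lit 2645700217) (nat_lit 912) (nat_lit 1205757063) (nat_lit 988) (nat_lit 2852945343) (nat_lit 688) (nat_lit 5) (nat_lit 700) (nat_lit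 5) (nat_lit 701) (nat_lit 5) (nat_lit 542) (nat_lit 516) (nat_lit 502))))) (XT.nd (nat_lit 234) (nat_lit 2508) (nat_lit 0) (XT.nd (nat_lit 78) (nat_lit 1064) (nat_lit 0) (XT.lf (nat_lit 0) (nat_lit 26842160) (nat_lit 1064) (nat_lit 6655345141) (nat_lit 76) (nat_lit 48606303) (nat_lit 674) (nat_lit 5) (nat_lit 688) (nat_lit 5) (nat_lit 675) (nat_lit 5) (nat_lit 543) (nat_lit 516) (nat_lit 501)) (XT.nd (nat_lit 78) (nat_lit 1064) (nat_lit 0) (XT.lf (nat_lit 0) (nat_lit 2896895477) (nat_lit 1064) (nat_lit 2487133511) (nat_lit 76) (nat_lit 1373897632) (nat_lit 674) (nat_lit 5) (nat_lit 688) (nat_lit 5) (nat_lit 675) (nat_lit 5) (nat_lit 544) (nat_lit 516) (nat_lit 500)) (XT.lf (nat_lit 0) (nat_lit 1738015399) (nat_lit 1064) (nat_lit 4034318560) (nat_lit 1140) (nat_lit 1014317277) (nat_lit 660) (nat_lit 5) (nat_lit 674) (nat_lit 5) (nat_lit 675) (nat_lit 5) (nat_lit 545) (nat_lit 516) (nat_lit 499)))) (XT.nd (nat_lit 156) (nat_lit 1292) (nat_lit 0) (XT.nd (nat_lit 78)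 (nat_lit 1140) (nat_lit 0) (XT.lf (nat_lit 0) (nat_lit 1818554483) (nat_lit 1140) (nat_lit 796353175) (nat_lit 76) (nat_lit 4201725587) (nat_lit 659) (nat_lit 5) (nat_lit 674) (nat_lit 5) (nat_lit 660) (nat_lit 5) (nat_lit 546) (nat_lit 516) (nat_lit 498)) (XT.lf (nat_lit 0) (nat_lit 3531813122) (nat_lit 1140) (nat_lit 1124065775) (nat_lit 1216) (nat_lit 2191982489) (nat_lit 644) (nat_lit 5) (nat_lit 659) (nat_lit 5) (nat_lit 660) (nat_lit 5) (nat_lit 547) (nat_lit 516) (nat_lit 497))) (XT.nd (nat_lit 78) (nat_lit 0) (nat_lit 0) (XT.lf (nat_lit 0) (nat_lit 615239241) (nat_lit 1292) (nat_lit 5845685975) (nat_lit 76) (nat_lit 419633774) (nat_lit 627) (nat_lit 5) (nat_lit 644) (nat_lit 5) (nat_lit 628) (nat_lit 5) (nat_lit 548) (nat_lit 516) (nat_lit 496)) (XT.lf (nat_lit 0) (nat_lit 3418995581) (nat_lit 1292) (nat_lit 1468035384) (nat_lit 76) (nat_lit 2027202641) (nat_lit 627) (nat_lit 5) (nat_lit 644) (nat_lit 5) (nat_lit 628) (nat_lit 5) (nat_lit 549) (nat_lit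 516) (nat_lit 495)))))) (XT.nd (nat_lit 546) (nat_lit 7372) (nat_lit 0) (XT.nd (nat_lit 234) (nat_lit 4712) (nat_lit 0) (XT.nd (nat_lit 78) (nat_lit 1444) (nat_lit 0) (XT.lf (nat_lit 0) (nat_lit 2987104868) (nat_lit 1292) (nat_lit 3252164921) (nat_lit 1368) (nat_lit 710110577) (nat_lit 610) (nat_lit 5) (nat_lit 627) (nat_lit 5) (nat_lit 628) (nat_lit 5) (nat_lit 550) (nat_lit 516) (nat_lit 494)) (XT.nd (nat_lit 78) (nat_lit 0) (nat_lit 0) (XT.lf (nat_lit 0) (nat_lit 509294157) (nat_lit 1368) (nat_lit 1548198375) (nat_lit 1444) (nat_lit 4928373703) (nat_lit 591) (nat_lit 5) (nat_lit 609) (nat_lit 5) (nat_lit 610) (nat_lit 5) (nat_lit 551) (nat_lit 516) (nat_lit 493)) (XT.lf (nat_lit 0) (nat_lit 4841321063) (nat_lit 1444) (nat_lit 1955244705) (nat_lit 76) (nat_lit 227021615) (nat_lit 591) (nat_lit 5) (nat_lit 610) (nat_lit 5) (nat_lit 592) (nat_lit 5) (nat_lit 552) (nat_lit 516) (nat_lit 492)))) (XT.nd (nat_lit 156) (nat_lit 1672) (nat_lit 0) (XT.nd (nat_lit 78)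 (nat_lit 1520) (nat_lit 0) (XT.lf (nat_lit 0) (nat_lit 581289424) (nat_lit 1520) (nat_lit 4435309051) (nat_lit 76) (nat_lit 2045978100) (nat_lit 571) (nat_lit 5) (nat_lit 591) (nat_lit 5) (nat_lit 572) (nat_lit 5) (nat_lit 553) (nat_lit 516) (nat_lit 491)) (XT.lf (nat_lit 0) (nat_lit 163433296) (nat_lit 1520) (nat_lit 3165675801) (nat_lit 1596) (nat_lit 3773790356) (nat_lit 551) (nat_lit 5) (nat_lit 571) (nat_lit 5) (nat_lit 572) (nat_lit 5) (nat_lit 554) (nat_lit 516) (nat_lit 490))) (XT.nd (nat_lit 78) (nat_lit 1672) (nat_lit 0) (XT.lf (nat_lit 0) (nat_lit 4864579472) (nat_lit 1520) (nat_lit 1241763285) (nat_lit 1596) (nat_lit 1038203414) (nat_lit 551) (nat_lit 5) (nat_lit 571) (nat_lit 5) (nat_lit 572) (nat_lit 5) (nat_lit 555) (nat_lit 516) (nat_lit 489)) (XT.lf (nat_lit 0) (nat_lit 1695289884) (nat_lit 1672) (nat_lit 4748521847) (nat_lit 76) (nat_lit 743669384) (nat_lit 529) (nat_lit 5) (nat_lit 551) (nat_lit 5) (nat_lit 530) (nat_lit 5) (nat_lit 556) (nat_lit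 516) (nat_lit 488))))) (XT.nd (nat_lit 234) (nat_lit 3876) (nat_lit 0) (XT.nd (nat_lit 78) (nat_lit 3496) (nat_lit 0) (XT.lf (nat_lit 0) (nat_lit 4439384513) (nat_lit 1672) (nat_lit 13238154) (nat_lit 76) (nat_lit 2779124337) (nat_lit 529) (nat_lit 5) (nat_lit 551) (nat_lit 5) (nat_lit 530) (nat_lit 5) (nat_lit 557) (nat_lit 516) (nat_lit 487)) (XT.nd (nat_lit 78) (nat_lit 1824) (nat_lit 0) (XT.lf (nat_lit 0) (nat_lit 4830855560) (nat_lit 1672) (nat_lit 2386120904) (nat_lit 1748) (nat_lit 60355475) (nat_lit 507) (nat_lit 5) (nat_lit 529) (nat_lit 5) (nat_lit 530) (nat_lit 5) (nat_lit 558) (nat_lit 516) (nat_lit 486)) (XT.lf (nat_lit 0) (nat_lit 2412491467) (nat_lit 1748) (nat_lit 241413833) (nat_lit 1824) (nat_lit 4670307668) (nat_lit 483) (nat_lit 5) (nat_lit 506) (nat_lit 5) (nat_lit 507) (nat_lit 5) (nat_lit 559) (nat_lit 516) (nat_lit 485)))) (XT.nd (nat_lit 156) (nat_lit 1976) (nat_lit 0) (XT.nd (nat_lit 78) (nat_lit 1900) (nat_lit 0) (XT.lf (nat_lit 0) (nat_lit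 5399144610) (nat_lit 1824) (nat_lit 33405546) (nat_lit 76) (nat_lit 1939929141) (nat_lit 483) (nat_lit 5) (nat_lit 507) (nat_lit 5) (nat_lit 484) (nat_lit 5) (nat_lit 560) (nat_lit 516) (nat_lit 484)) (XT.lf (nat_lit 0) (nat_lit 750394073) (nat_lit 1900) (nat_lit 2470478969) (nat_lit 76) (nat_lit 4201082119) (nat_lit 458) (nat_lit 5) (nat_lit 483) (nat_lit 5) (nat_lit 459) (nat_lit 5) (nat_lit 561) (nat_lit 516) (nat_lit 483))) (XT.nd (nat_lit 78) (nat_lit 912) (nat_lit 0) (XT.lf (nat_lit 0) (nat_lit 2534542474) (nat_lit 1064) (nat_lit 934028455) (nat_lit 1140) (nat_lit 4004266169) (nat_lit 444) (nat_lit 5) (nat_lit 458) (nat_lit 5) (nat_lit 459) (nat_lit 5) (nat_lit 562) (nat_lit 516) (nat_lit 482)) (XT.lf (nat_lit 0) (nat_lit 90348484) (nat_lit 912) (nat_lit 6127475361) (nat_lit 988) (nat_lit 1307383834) (nat_lit 432) (nat_lit 5) (nat_lit 444) (nat_lit 5) (nat_lit 445) (nat_lit 5) (nat_lit 563) (nat_lit 516) (nat_lit 481))))))) (XT.nd (nat_lit 1092) (nat_lit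 6536) (nat_lit 0) (XT.nd (nat_lit 546) (nat_lit 3952) (nat_lit 0) (XT.nd (nat_lit 234) (nat_lit 1824) (nat_lit 0) (XT.nd (nat_lit 78) (nat_lit 1748) (nat_lit 0) (XT.lf (nat_lit 0) (nat_lit 1414725236) (nat_lit 988) (nat_lit 2357957943) (nat_lit 76) (nat_lit 3805955708) (nat_lit 431) (nat_lit 5) (nat_lit 444) (nat_lit 5) (nat_lit 432) (nat_lit 5) (nat_lit 564) (nat_lit 516) (nat_lit 480)) (XT.nd (nat_lit 78) (nat_lit 836) (nat_lit 0) (XT.lf (nat_lit 0) (nat_lit 2798801958) (nat_lit 912) (nat_lit 1344800213) (nat_lit 988) (nat_lit 3489972033) (nat_lit 419) (nat_lit 5) (nat_lit 431) (nat_lit 5) (nat_lit 432) (nat_lit 5) (nat_lit 565) (nat_lit 516) (nat_lit 479)) (XT.lf (nat_lit 0) (nat_lit 348132279) (nat_lit 836) (nat_lit 6556720036) (nat_lit 912) (nat_lit 785204853) (nat_lit 408) (nat_lit 5) (nat_lit 419) (nat_lit 5) (nat_lit 420) (nat_lit 5) (nat_lit 566) (nat_lit 516) (nat_lit 478)))) (XT.nd (nat_lit 156) (nat_lit 912) (nat_lit 0) (XT.nd (nat_lit 78) (nat_lit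 836) (nat_lit 0) (XT.lf (nat_lit 0) (nat_lit 1941892079) (nat_lit 912) (nat_lit 2119377890) (nat_lit 76) (nat_lit 3686265817) (nat_lit 407) (nat_lit 5) (nat_lit 419) (nat_lit 5) (nat_lit 408) (nat_lit 5) (nat_lit 567) (nat_lit 516) (nat_lit 477)) (XT.lf (nat_lit 0) (nat_lit 3194658373) (nat_lit 836) (nat_lit 1492595252) (nat_lit 912) (nat_lit 3119326392) (nat_lit 396) (nat_lit 5) (nat_lit 407) (nat_lit 5) (nat_lit 408) (nat_lit 5) (nat_lit 568) (nat_lit 516) (nat_lit 476))) (XT.nd (nat_lit 78) (nat_lit 76) (nat_lit 0) (XT.lf (nat_lit 0) (nat_lit 729097014) (nat_lit 836) (nat_lit 6738850183) (nat_lit 912) (nat_lit 399253924) (nat_lit 385) (nat_lit 5) (nat_lit 396) (nat_lit 5) (nat_lit 397) (nat_lit 5) (nat_lit 569) (nat_lit 516) (nat_lit 475)) (XT.lf (nat_lit 0) (nat_lit 2339433272) (nat_lit 912) (nat_lit 1764990077) (nat_lit 76) (nat_lit 3824399885) (nat_lit 384) (nat_lit 5) (nat_lit 396) (nat_lit 5) (nat_lit 385) (nat_lit 5) (nat_lit 570) (nat_lit 516) (nat_lit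 474))))) (XT.nd (nat_lit 234) (nat_lit 2280) (nat_lit 0) (XT.nd (nat_lit 78) (nat_lit 836) (nat_lit 0) (XT.lf (nat_lit 0) (nat_lit 3712102491) (nat_lit 836) (nat_lit 1394774300) (nat_lit 912) (nat_lit 2885165871) (nat_lit 373) (nat_lit 5) (nat_lit 384) (nat_lit 5) (nat_lit 385) (nat_lit 5) (nat_lit 571) (nat_lit 516) (nat_lit 473)) (XT.nd (nat_lit 78) (nat_lit 76) (nat_lit 0) (XT.lf (nat_lit 0) (nat_lit 1223394981) (nat_lit 760) (nat_lit 6690777034) (nat_lit 836) (nat_lit 142668552) (nat_lit 363) (nat_lit 5) (nat_lit 373) (nat_lit 5) (nat_lit 374) (nat_lit 5) (nat_lit 572) (nat_lit 516) (nat_lit 472)) (XT.lf (nat_lit 0) (nat_lit 2614009658) (nat_lit 836) (nat_lit 1304524879) (nat_lit 76) (nat_lit 4204176205) (nat_lit 362) (nat_lit 5) (nat_lit 373) (nat_lit 5) (nat_lit 363) (nat_lit 5) (nat_lit 573) (nat_lit 516) (nat_lit 471)))) (XT.nd (nat_lit 156) (nat_lit 836) (nat_lit 0) (XT.nd (nat_lit 78) (nat_lit 684) (nat_lit 0) (XT.lf (nat_lit 0) (nat_lit 4341643042) (nat_lit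 760) (nat_lit 1067321186) (nat_lit 836) (nat_lit 2781218074) (nat_lit 352) (nat_lit 5) (nat_lit 362) (nat_lit 5) (nat_lit 363) (nat_lit 5) (nat_lit 574) (nat_lit 516) (nat_lit 470)) (XT.lf (nat_lit 0) (nat_lit 1821652366) (nat_lit 684) (nat_lit 6428106046) (nat_lit 760) (nat_lit 9449899) (nat_lit 343) (nat_lit 5) (nat_lit 352) (nat_lit 5) (nat_lit 353) (nat_lit 5) (nat_lit 575) (nat_lit 516) (nat_lit 469))) (XT.nd (nat_lit 78) (nat_lit 760) (nat_lit 0) (XT.lf (nat_lit 0) (nat_lit 2771444302) (nat_lit 760) (nat_lit 747274098) (nat_lit 76) (nat_lit 4810721304) (nat_lit 342) (nat_lit 5) (nat_lit 352) (nat_lit 5) (nat_lit 343) (nat_lit 5) (nat_lit 576) (nat_lit 516) (nat_lit 468)) (XT.lf (nat_lit 0) (nat_lit 5074224233) (nat_lit 760) (nat_lit 524963615) (nat_lit 836) (nat_lit 2802063076) (nat_lit 332) (nat_lit 5) (nat_lit 342) (nat_lit 5) (nat_lit 343) (nat_lit 5) (nat_lit 577) (nat_lit 516) (nat_lit 467)))))) (XT.nd (nat_lit 546) (nat_lit 3116) (nat_lit 0) (XT.nd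 (nat_lit 234) (nat_lit 1976) (nat_lit 0) (XT.nd (nat_lit 78) (nat_lit 684) (nat_lit 0) (XT.lf (nat_lit 0) (nat_lit 5500075) (nat_lit 760) (nat_lit 5959717416) (nat_lit 76) (nat_lit 2509350575) (nat_lit 322) (nat_lit 5) (nat_lit 332) (nat_lit 5) (nat_lit 323) (nat_lit 5) (nat_lit 578) (nat_lit 516) (nat_lit 466)) (XT.nd (nat_lit 78) (nat_lit 684) (nat_lit 0) (XT.lf (nat_lit 0) (nat_lit 2816756799) (nat_lit 760) (nat_lit 102171926) (nat_lit 76) (nat_lit 5630354555) (nat_lit 322) (nat_lit 5) (nat_lit 332) (nat_lit 5) (nat_lit 323) (nat_lit 5) (nat_lit 579) (nat_lit 516) (nat_lit 465)) (XT.lf (nat_lit 0) (nat_lit 5683851582) (nat_lit 760) (nat_lit 2725807781) (nat_lit 76) (nat_lit 215844508) (nat_lit 313) (nat_lit 5) (nat_lit 323) (nat_lit 5) (nat_lit 314) (nat_lit 5) (nat_lit 580) (nat_lit 516) (nat_lit 464)))) (XT.nd (nat_lit 156) (nat_lit 608) (nat_lit 0) (XT.nd (nat_lit 78) (nat_lit 760) (nat_lit 0) (XT.lf (nat_lit 0) (nat_lit 3294430400) (nat_lit 608) (nat_lit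 5315561993) (nat_lit 684) (nat_lit 93225665) (nat_lit 305) (nat_lit 5) (nat_lit 313) (nat_lit 5) (nat_lit 314) (nat_lit 5) (nat_lit 581) (nat_lit 516) (nat_lit 463)) (XT.lf (nat_lit 0) (nat_lit 630392523) (nat_lit 684) (nat_lit 2127892413) (nat_lit 760) (nat_lit 6024179615) (nat_lit 295) (nat_lit 5) (nat_lit 304) (nat_lit 5) (nat_lit 305) (nat_lit 5) (nat_lit 582) (nat_lit 516) (nat_lit 462))) (XT.nd (nat_lit 78) (nat_lit 608) (nat_lit 0) (XT.lf (nat_lit 0) (nat_lit 5670292401) (nat_lit 760) (nat_lit 2056840020) (nat_lit 76) (nat_lit 1136060006) (nat_lit 295) (nat_lit 5) (nat_lit 305) (nat_lit 5) (nat_lit 296) (nat_lit 5) (nat_lit 583) (nat_lit 516) (nat_lit 461)) (XT.lf (nat_lit 0) (nat_lit 4151841726) (nat_lit 608) (nat_lit 4491396692) (nat_lit 684) (nat_lit 302245494) (nat_lit 287) (nat_lit 5) (nat_lit 295) (nat_lit 5) (nat_lit 296) (nat_lit 5) (nat_lit 584) (nat_lit 516) (nat_lit 460))))) (XT.nd (nat_lit 234) (nat_lit 1824) (nat_lit 0) (XT.nd (nat_lit 78) (nat_lit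 608) (nat_lit 0) (XT.lf (nat_lit 0) (nat_lit 1435989747) (nat_lit 608) (nat_lit 1160576985) (nat_lit 684) (nat_lit 6432812769) (nat_lit 278) (nat_lit 5) (nat_lit 286) (nat_lit 5) (nat_lit 287) (nat_lit 5) (nat_lit 585) (nat_lit 516) (nat_lit 459)) (XT.nd (nat_lit 78) (nat_lit 608) (nat_lit 0) (XT.lf (nat_lit 0) (nat_lit 5558410211) (nat_lit 684) (nat_lit 1325222161) (nat_lit 76) (nat_lit 2231101476) (nat_lit 278) (nat_lit 5) (nat_lit 287) (nat_lit 5) (nat_lit 279) (nat_lit 5) (nat_lit 586) (nat_lit 516) (nat_lit 458)) (XT.lf (nat_lit 0) (nat_lit 5078832560) (nat_lit 608) (nat_lit 3504254601) (nat_lit 684) (nat_lit 618638977) (nat_lit 270) (nat_lit 5) (nat_lit 278) (nat_lit 5) (nat_lit 279) (nat_lit 5) (nat_lit 587) (nat_lit 516) (nat_lit 457)))) (XT.nd (nat_lit 156) (nat_lit 1140) (nat_lit 0) (XT.nd (nat_lit 78) (nat_lit 0) (nat_lit 0) (XT.lf (nat_lit 0) (nat_lit 2304807857) (nat_lit 608) (nat_lit 28827102) (nat_lit 684) (nat_lit 6956776814) (nat_lit 261) (nat_lit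 5) (nat_lit 269) (nat_lit 5) (nat_lit 270) (nat_lit 5) (nat_lit 588) (nat_lit 516) (nat_lit 456)) (XT.lf (nat_lit 0) (nat_lit 5350795856) (nat_lit 684) (nat_lit 539387643) (nat_lit 76) (nat_lit 3490325962) (nat_lit 261) (nat_lit 5) (nat_lit 270) (nat_lit 5) (nat_lit 262) (nat_lit 5) (nat_lit 589) (nat_lit 516) (nat_lit 455))) (XT.nd (nat_lit 78) (nat_lit 608) (nat_lit 0) (XT.lf (nat_lit 0) (nat_lit 6067182265) (nat_lit 532) (nat_lit 2364856072) (nat_lit 608) (nat_lit 1040298577) (nat_lit 254) (nat_lit 5) (nat_lit 261) (nat_lit 5) (nat_lit 262) (nat_lit 5) (nat_lit 590) (nat_lit 516) (nat_lit 454)) (XT.lf (nat_lit 0) (nat_lit 1979634790) (nat_lit 608) (nat_lit 6345697546) (nat_lit 76) (nat_lit 1240468648) (nat_lit 246) (nat_lit 5) (nat_lit 254) (nat_lit 5) (nat_lit 247) (nat_lit 5) (nat_lit 591) (nat_lit 516) (nat_lit 453))))))))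
noncomputable def xc70 : XT := (XT.nd (nat_lit 2106) (nat_lit 5320) (nat_lit 0) (XT.nd (nat_lit 1014) (nat_lit 3724) (nat_lit 0) (XT.nd (nat_lit 468) (nat_lit 2356) (nat_lit 0) (XT.nd (nat_lit 234) (nat_lit 1064) (nat_lit 0) (XT.nd (nat_lit 78) (nat_lit 608) (nat_lit 0) (XT.lf (nat_lit 0) (nat_lit 296104592) (nat_lit 532) (nat_lit 4755151039) (nat_lit 608) (nat_lit 4609639237) (nat_lit 239) (nat_lit 5) (nat_lit 246) (nat_lit 5) (nat_lit 247) (nat_lit 5) (nat_lit 592) (nat_lit 516) (nat_lit 452)) (XT.nd (nat_lit 78) (nat_lit 608) (nat_lit 0) (XT.lf (nat_lit 0) (nat_lit 7108654973) (nat_lit 532) (nat_lit 1083238152) (nat_lit 608) (nat_lit 1565848200) (nat_lit 239) (nat_lit 5) (nat_lit 246) (nat_lit 5) (nat_lit 247) (nat_lit 5) (nat_lit 593) (nat_lit 516) (nat_lit 451)) (XT.lf (nat_lit 0) (nat_lit 1528799373) (nat_lit 608) (nat_lit 5675539170) (nat_lit 76) (nat_lit 2651785383) (nat_lit 231) (nat_lit 5) (nat_lit 239) (nat_lit 5) (nat_lit 232) (nat_lit 5) (nat_lit 594)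 (nat_lit 516) (nat_lit 450)))) (XT.nd (nat_lit 78) (nat_lit 608) (nat_lit 0) (XT.lf (nat_lit 0) (nat_lit 1176497784) (nat_lit 456) (nat_lit 3486344663) (nat_lit 532) (nat_lit 5293457584) (nat_lit 225) (nat_lit 5) (nat_lit 231) (nat_lit 5) (nat_lit 232) (nat_lit 5) (nat_lit 595) (nat_lit 516) (nat_lit 449)) (XT.nd (nat_lit 78) (nat_lit 608) (nat_lit 0) (XT.lf (nat_lit 0) (nat_lit 7865907813) (nat_lit 532) (nat_lit 1865634563) (nat_lit 76) (nat_lit 326812653) (nat_lit 225) (nat_lit 5) (nat_lit 232) (nat_lit 5) (nat_lit 226) (nat_lit 5) (nat_lit 596) (nat_lit 516) (nat_lit 448)) (XT.lf (nat_lit 0) (nat_lit 981439383) (nat_lit 608) (nat_lit 4983959619) (nat_lit 76) (nat_lit 4196456496) (nat_lit 217) (nat_lit 5) (nat_lit 225) (nat_lit 5) (nat_lit 218) (nat_lit 5) (nat_lit 597) (nat_lit 516) (nat_lit 447))))) (XT.nd (nat_lit 234) (nat_lit 1368) (nat_lit 0) (XT.nd (nat_lit 78) (nat_lit 532) (nat_lit 0) (XT.lf (nat_lit 0) (nat_lit 2085789596) (nat_lit 456) (nat_lit 2096640350)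 (nat_lit 532) (nat_lit 6084848600) (nat_lit 211) (nat_lit 5) (nat_lit 217) (nat_lit 5) (nat_lit 218) (nat_lit 5) (nat_lit 598) (nat_lit 516) (nat_lit 446)) (XT.nd (nat_lit 78) (nat_lit 532) (nat_lit 0) (XT.lf (nat_lit 0) (nat_lit 7460178857) (nat_lit 532) (nat_lit 1069507012) (nat_lit 76) (nat_lit 1844871444) (nat_lit 211) (nat_lit 5) (nat_lit 218) (nat_lit 5) (nat_lit 212) (nat_lit 5) (nat_lit 599) (nat_lit 516) (nat_lit 445)) (XT.lf (nat_lit 0) (nat_lit 337338857) (nat_lit 532) (nat_lit 4280244241) (nat_lit 76) (nat_lit 5865918462) (nat_lit 204) (nat_lit 5) (nat_lit 211) (nat_lit 5) (nat_lit 205) (nat_lit 5) (nat_lit 600) (nat_lit 516) (nat_lit 444)))) (XT.nd (nat_lit 156) (nat_lit 912) (nat_lit 0) (XT.nd (nat_lit 78) (nat_lit 0) (nat_lit 0) (XT.lf (nat_lit 0) (nat_lit 3014868460) (nat_lit 456) (nat_lit 594862132) (nat_lit 532) (nat_lit 6984617462) (nat_lit 198) (nat_lit 5) (nat_lit 204) (nat_lit 5) (nat_lit 205) (nat_lit 5) (nat_lit 601) (nat_lit 516) (nat_lit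 443)) (XT.lf (nat_lit 0) (nat_lit 6967323109) (nat_lit 532) (nat_lit 262955057) (nat_lit 76) (nat_lit 3476740128) (nat_lit 198) (nat_lit 5) (nat_lit 205) (nat_lit 5) (nat_lit 199) (nat_lit 5) (nat_lit 602) (nat_lit 516) (nat_lit 442))) (XT.nd (nat_lit 78) (nat_lit 456) (nat_lit 0) (XT.lf (nat_lit 0) (nat_lit 7244847797) (nat_lit 456) (nat_lit 3166885502) (nat_lit 532) (nat_lit 409817163) (nat_lit 192) (nat_lit 5) (nat_lit 198) (nat_lit 5) (nat_lit 199) (nat_lit 5) (nat_lit 603) (nat_lit 516) (nat_lit 441)) (XT.lf (nat_lit 0) (nat_lit 2950295984) (nat_lit 456) (nat_lit 6990375541) (nat_lit 76) (nat_lit 997259528) (nat_lit 186) (nat_lit 5) (nat_lit 192) (nat_lit 5) (nat_lit 187) (nat_lit 5) (nat_lit 604) (nat_lit 516) (nat_lit 440)))))) (XT.nd (nat_lit 546) (nat_lit 1596) (nat_lit 0) (XT.nd (nat_lit 234) (nat_lit 1216) (nat_lit 0) (XT.nd (nat_lit 78) (nat_lit 456) (nat_lit 0) (XT.lf (nat_lit 0) (nat_lit 551550041) (nat_lit 456) (nat_lit 5838306513) (nat_lit 532)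 (nat_lit 4666375603) (nat_lit 180) (nat_lit 5) (nat_lit 186) (nat_lit 5) (nat_lit 187) (nat_lit 5) (nat_lit 605) (nat_lit 516) (nat_lit 439)) (XT.nd (nat_lit 78) (nat_lit 456) (nat_lit 0) (XT.lf (nat_lit 0) (nat_lit 8292915489) (nat_lit 456) (nat_lit 1621523057) (nat_lit 532) (nat_lit 1262137834) (nat_lit 180) (nat_lit 5) (nat_lit 186) (nat_lit 5) (nat_lit 187) (nat_lit 5) (nat_lit 606) (nat_lit 516) (nat_lit 438)) (XT.lf (nat_lit 0) (nat_lit 2200297738) (nat_lit 456) (nat_lit 6422653614) (nat_lit 76) (nat_lit 2675708769) (nat_lit 174) (nat_lit 5) (nat_lit 180) (nat_lit 5) (nat_lit 175) (nat_lit 5) (nat_lit 607) (nat_lit 516) (nat_lit 437)))) (XT.nd (nat_lit 156) (nat_lit 836) (nat_lit 0) (XT.nd (nat_lit 78) (nat_lit 0) (nat_lit 0) (XT.lf (nat_lit 0) (nat_lit 1359912731) (nat_lit 380) (nat_lit 4364153342) (nat_lit 456) (nat_lit 5698774530) (nat_lit 169) (nat_lit 5) (nat_lit 174) (nat_lit 5) (nat_lit 175) (nat_lit 5) (nat_lit 608) (nat_lit 516) (nat_lit 436)) (XT.lf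 (nat_lit 0) (nat_lit 9331676432) (nat_lit 456) (nat_lit 2209654201) (nat_lit 76) (nat_lit 7908298) (nat_lit 169) (nat_lit 5) (nat_lit 175) (nat_lit 5) (nat_lit 170) (nat_lit 5) (nat_lit 609) (nat_lit 516) (nat_lit 435))) (XT.nd (nat_lit 78) (nat_lit 380) (nat_lit 0) (XT.lf (nat_lit 0) (nat_lit 1353308797) (nat_lit 456) (nat_lit 5883582672) (nat_lit 76) (nat_lit 4440351713) (nat_lit 163) (nat_lit 5) (nat_lit 169) (nat_lit 5) (nat_lit 164) (nat_lit 5) (nat_lit 610) (nat_lit 516) (nat_lit 434)) (XT.lf (nat_lit 0) (nat_lit 2147627461) (nat_lit 380) (nat_lit 2817963188) (nat_lit 456) (nat_lit 6841931461) (nat_lit 158) (nat_lit 5) (nat_lit 163) (nat_lit 5) (nat_lit 164) (nat_lit 5) (nat_lit 611) (nat_lit 516) (nat_lit 433))))) (XT.nd (nat_lit 234) (nat_lit 760) (nat_lit 0) (XT.nd (nat_lit 78) (nat_lit 836) (nat_lit 0) (XT.lf (nat_lit 0) (nat_lit 8671795500) (nat_lit 456) (nat_lit 1577047991) (nat_lit 76) (nat_lit 1691131030) (nat_lit 158) (nat_lit 5) (nat_lit 164) (nat_lit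 5) (nat_lit 159) (nat_lit 5) (nat_lit 612) (nat_lit 516) (nat_lit 432)) (XT.nd (nat_lit 78) (nat_lit 380) (nat_lit 0) (XT.lf (nat_lit 0) (nat_lit 405970878) (nat_lit 456) (nat_lit 5385040501) (nat_lit 76) (nat_lit 6283339684) (nat_lit 152) (nat_lit 5) (nat_lit 158) (nat_lit 5) (nat_lit 153) (nat_lit 5) (nat_lit 613) (nat_lit 516) (nat_lit 431)) (XT.lf (nat_lit 0) (nat_lit 2902917123) (nat_lit 380) (nat_lit 1208084985) (nat_lit 456) (nat_lit 8099959156) (nat_lit 147) (nat_lit 5) (nat_lit 152) (nat_lit 5) (nat_lit 153) (nat_lit 5) (nat_lit 614) (nat_lit 516) (nat_lit 430)))) (XT.nd (nat_lit 156) (nat_lit 456) (nat_lit 0) (XT.nd (nat_lit 78) (nat_lit 304) (nat_lit 0) (XT.lf (nat_lit 0) (nat_lit 7920797883) (nat_lit 456) (nat_lit 987474042) (nat_lit 76) (nat_lit 3441419807) (nat_lit 147) (nat_lit 5) (nat_lit 153) (nat_lit 5) (nat_lit 148) (nat_lit 5) (nat_lit 615) (nat_lit 516) (nat_lit 429)) (XT.lf (nat_lit 0) (nat_lit 7546583152) (nat_lit 304) (nat_lit 4289539046)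 (nat_lit 380) (nat_lit 654489272) (nat_lit 143) (nat_lit 5) (nat_lit 147) (nat_lit 5) (nat_lit 148) (nat_lit 5) (nat_lit 616) (nat_lit 516) (nat_lit 428))) (XT.nd (nat_lit 78) (nat_lit 0) (nat_lit 0) (XT.lf (nat_lit 0) (nat_lit 3159002962) (nat_lit 456) (nat_lit 9023744498) (nat_lit 76) (nat_lit 451078315) (nat_lit 137) (nat_lit 5) (nat_lit 143) (nat_lit 5) (nat_lit 138) (nat_lit 5) (nat_lit 617) (nat_lit 516) (nat_lit 427)) (XT.lf (nat_lit 0) (nat_lit 7074376204) (nat_lit 456) (nat_lit 454041759) (nat_lit 76) (nat_lit 5250713623) (nat_lit 137) (nat_lit 5) (nat_lit 143) (nat_lit 5) (nat_lit 138) (nat_lit 5) (nat_lit 618) (nat_lit 516) (nat_lit 426))))))) (XT.nd (nat_lit 1014) (nat_lit 2432) (nat_lit 0) (XT.nd (nat_lit 468) (nat_lit 1216) (nat_lit 0) (XT.nd (nat_lit 234) (nat_lit 684) (nat_lit 0) (XT.nd (nat_lit 78) (nat_lit 684) (nat_lit 0) (XT.lf (nat_lit 0) (nat_lit 8353345983) (nat_lit 304) (nat_lit 2742046676) (nat_lit 380) (nat_lit 1831405354) (nat_lit 133)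 (nat_lit 5) (nat_lit 137) (nat_lit 5) (nat_lit 138) (nat_lit 5) (nat_lit 619) (nat_lit 516) (nat_lit 425)) (XT.nd (nat_lit 78) (nat_lit 304) (nat_lit 0) (XT.lf (nat_lit 0) (nat_lit 2109623405) (nat_lit 380) (nat_lit 8826657160) (nat_lit 76) (nat_lit 2140502992) (nat_lit 128) (nat_lit 5) (nat_lit 133) (nat_lit 5) (nat_lit 129) (nat_lit 5) (nat_lit 620) (nat_lit 516) (nat_lit 424)) (XT.lf (nat_lit 0) (nat_lit 9166441) (nat_lit 304) (nat_lit 6118229583) (nat_lit 380) (nat_lit 7101682903) (nat_lit 124) (nat_lit 5) (nat_lit 128) (nat_lit 5) (nat_lit 129) (nat_lit 5) (nat_lit 621) (nat_lit 516) (nat_lit 423)))) (XT.nd (nat_lit 78) (nat_lit 684) (nat_lit 0) (XT.lf (nat_lit 0) (nat_lit 9098161718) (nat_lit 304) (nat_lit 1160147381) (nat_lit 380) (nat_lit 3125456529) (nat_lit 124) (nat_lit 5) (nat_lit 128) (nat_lit 5) (nat_lit 129) (nat_lit 5) (nat_lit 622) (nat_lit 516) (nat_lit 422)) (XT.nd (nat_lit 78) (nat_lit 304) (nat_lit 0) (XT.lf (nat_lit 0) (nat_lit 948874188)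 (nat_lit 380) (nat_lit 8724599491) (nat_lit 76) (nat_lit 3867337043) (nat_lit 119) (nat_lit 5) (nat_lit 124) (nat_lit 5) (nat_lit 120) (nat_lit 5) (nat_lit 623) (nat_lit 516) (nat_lit 421)) (XT.lf (nat_lit 0) (nat_lit 391472400) (nat_lit 304) (nat_lit 4684610502) (nat_lit 380) (nat_lit 8624236864) (nat_lit 115) (nat_lit 5) (nat_lit 119) (nat_lit 5) (nat_lit 120) (nat_lit 5) (nat_lit 624) (nat_lit 516) (nat_lit 420))))) (XT.nd (nat_lit 234) (nat_lit 608) (nat_lit 0) (XT.nd (nat_lit 78) (nat_lit 608) (nat_lit 0) (XT.lf (nat_lit 0) (nat_lit 9321545565) (nat_lit 380) (nat_lit 4099677535) (nat_lit 76) (nat_lit 441082729) (nat_lit 115) (nat_lit 5) (nat_lit 120) (nat_lit 5) (nat_lit 116) (nat_lit 5) (nat_lit 625) (nat_lit 516) (nat_lit 419)) (XT.nd (nat_lit 78) (nat_lit 304) (nat_lit 0) (XT.lf (nat_lit 0) (nat_lit 5289923715) (nat_lit 304) (nat_lit 8402022353) (nat_lit 380) (nat_lit 334785990) (nat_lit 111) (nat_lit 5) (nat_lit 115) (nat_lit 5) (nat_lit 116) (nat_lit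 5) (nat_lit 626) (nat_lit 516) (nat_lit 418)) (XT.lf (nat_lit 0) (nat_lit 669747465) (nat_lit 228) (nat_lit 3240444332) (nat_lit 304) (nat_lit 10283607210) (nat_lit 107) (nat_lit 5) (nat_lit 110) (nat_lit 5) (nat_lit 111) (nat_lit 5) (nat_lit 627) (nat_lit 516) (nat_lit 417)))) (XT.nd (nat_lit 156) (nat_lit 304) (nat_lit 0) (XT.nd (nat_lit 78) (nat_lit 304) (nat_lit 0) (XT.lf (nat_lit 0) (nat_lit 8282582397) (nat_lit 304) (nat_lit 4038201300) (nat_lit 76) (nat_lit 2042440375) (nat_lit 107) (nat_lit 5) (nat_lit 111) (nat_lit 5) (nat_lit 108) (nat_lit 5) (nat_lit 628) (nat_lit 516) (nat_lit 416)) (XT.lf (nat_lit 0) (nat_lit 5648534866) (nat_lit 304) (nat_lit 7127344849) (nat_lit 380) (nat_lit 1759489683) (nat_lit 103) (nat_lit 5) (nat_lit 107) (nat_lit 5) (nat_lit 108) (nat_lit 5) (nat_lit 629) (nat_lit 516) (nat_lit 415))) (XT.nd (nat_lit 78) (nat_lit 0) (nat_lit 0) (XT.lf (nat_lit 0) (nat_lit 825271851) (nat_lit 228) (nat_lit 1796098058) (nat_lit 304) (nat_lit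 12089084469) (nat_lit 99) (nat_lit 5) (nat_lit 102) (nat_lit 5) (nat_lit 103) (nat_lit 5) (nat_lit 630) (nat_lit 516) (nat_lit 414)) (XT.lf (nat_lit 0) (nat_lit 7125468566) (nat_lit 304) (nat_lit 4113071397) (nat_lit 76) (nat_lit 3649085743) (nat_lit 99) (nat_lit 5) (nat_lit 103) (nat_lit 5) (nat_lit 100) (nat_lit 5) (nat_lit 631) (nat_lit 516) (nat_lit 413)))))) (XT.nd (nat_lit 546) (nat_lit 1064) (nat_lit 0) (XT.nd (nat_lit 234) (nat_lit 760) (nat_lit 0) (XT.nd (nat_lit 78) (nat_lit 304) (nat_lit 0) (XT.lf (nat_lit 0) (nat_lit 5878891160) (nat_lit 304) (nat_lit 5866787419) (nat_lit 380) (nat_lit 3322142163) (nat_lit 95) (nat_lit 5) (nat_lit 99) (nat_lit 5) (nat_lit 100) (nat_lit 5) (nat_lit 632) (nat_lit 516) (nat_lit 412)) (XT.nd (nat_lit 78) (nat_lit 0) (nat_lit 0) (XT.lf (nat_lit 0) (nat_lit 837495676) (nat_lit 228) (nat_lit 362587464) (nat_lit 304) (nat_lit 14051195966) (nat_lit 91) (nat_lit 5) (nat_lit 94) (nat_lit 5) (nat_lit 95) (nat_lit 5) (nat_lit 633)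 (nat_lit 516) (nat_lit 411)) (XT.lf (nat_lit 0) (nat_lit 5840591714) (nat_lit 304) (nat_lit 4345620927) (nat_lit 76) (nat_lit 5250309180) (nat_lit 91) (nat_lit 5) (nat_lit 95) (nat_lit 5) (nat_lit 92) (nat_lit 5) (nat_lit 634) (nat_lit 516) (nat_lit 410)))) (XT.nd (nat_lit 156) (nat_lit 304) (nat_lit 0) (XT.nd (nat_lit 78) (nat_lit 228) (nat_lit 0) (XT.lf (nat_lit 0) (nat_lit 5959518108) (nat_lit 228) (nat_lit 4632067377) (nat_lit 304) (nat_lit 5033531205) (nat_lit 88) (nat_lit 5) (nat_lit 91) (nat_lit 5) (nat_lit 92) (nat_lit 5) (nat_lit 635) (nat_lit 516) (nat_lit 409)) (XT.lf (nat_lit 0) (nat_lit 674471967) (nat_lit 228) (nat_lit 14780241499) (nat_lit 304) (nat_lit 362428491) (nat_lit 85) (nat_lit 5) (nat_lit 88) (nat_lit 5) (nat_lit 89) (nat_lit 5) (nat_lit 636) (nat_lit 516) (nat_lit 408))) (XT.nd (nat_lit 78) (nat_lit 228) (nat_lit 0) (XT.lf (nat_lit 0) (nat_lit 4417045383) (nat_lit 304) (nat_lit 4759317605) (nat_lit 76) (nat_lit 6834620201) (nat_lit 84)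 (nat_lit 5) (nat_lit 88) (nat_lit 5) (nat_lit 85) (nat_lit 5) (nat_lit 637) (nat_lit 516) (nat_lit 407)) (XT.lf (nat_lit 0) (nat_lit 5866751069) (nat_lit 228) (nat_lit 3435773310) (nat_lit 304) (nat_lit 6905824321) (nat_lit 81) (nat_lit 5) (nat_lit 84) (nat_lit 5) (nat_lit 85) (nat_lit 5) (nat_lit 638) (nat_lit 516) (nat_lit 406))))) (XT.nd (nat_lit 234) (nat_lit 532) (nat_lit 0) (XT.nd (nat_lit 78) (nat_lit 304) (nat_lit 0) (XT.lf (nat_lit 0) (nat_lit 309388636) (nat_lit 228) (nat_lit 14003450195) (nat_lit 304) (nat_lit 2096280899) (nat_lit 78) (nat_lit 5) (nat_lit 81) (nat_lit 5) (nat_lit 82) (nat_lit 5) (nat_lit 639) (nat_lit 516) (nat_lit 405)) (XT.nd (nat_lit 78) (nat_lit 228) (nat_lit 0) (XT.lf (nat_lit 0) (nat_lit 2842516357) (nat_lit 304) (nat_lit 5380016260) (nat_lit 76) (nat_lit 8389611255) (nat_lit 77) (nat_lit 5) (nat_lit 81) (nat_lit 5) (nat_lit 78) (nat_lit 5) (nat_lit 640) (nat_lit 516) (nat_lit 404)) (XT.lf (nat_lit 0) (nat_lit 5574475513) (nat_lit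 228) (nat_lit 2291508233) (nat_lit 304) (nat_lit 8952689038) (nat_lit 74) (nat_lit 5) (nat_lit 77) (nat_lit 5) (nat_lit 78) (nat_lit 5) (nat_lit 641) (nat_lit 516) (nat_lit 403)))) (XT.nd (nat_lit 156) (nat_lit 228) (nat_lit 0) (XT.nd (nat_lit 78) (nat_lit 304) (nat_lit 0) (XT.lf (nat_lit 0) (nat_lit 13028485182) (nat_lit 304) (nat_lit 271189181) (nat_lit 76) (nat_lit 3728887288) (nat_lit 74) (nat_lit 5) (nat_lit 78) (nat_lit 5) (nat_lit 75) (nat_lit 5) (nat_lit 642) (nat_lit 516) (nat_lit 402)) (XT.lf (nat_lit 0) (nat_lit 1103158522) (nat_lit 304) (nat_lit 6236236161) (nat_lit 76) (nat_lit 9901810466) (nat_lit 70) (nat_lit 5) (nat_lit 74) (nat_lit 5) (nat_lit 71) (nat_lit 5) (nat_lit 643) (nat_lit 516) (nat_lit 401))) (XT.nd (nat_lit 78) (nat_lit 0) (nat_lit 0) (XT.lf (nat_lit 0) (nat_lit 5053841635) (nat_lit 228) (nat_lit 1214044546) (nat_lit 304) (nat_lit 11189427376) (nat_lit 67) (nat_lit 5) (nat_lit 70) (nat_lit 5) (nat_lit 71) (nat_lit 5) (nat_lit 644) (nat_lit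 516) (nat_lit 400)) (XT.lf (nat_lit 0) (nat_lit 11589083577) (nat_lit 304) (nat_lit 1093884598) (nat_lit 76) (nat_lit 4993713074) (nat_lit 67) (nat_lit 5) (nat_lit 71) (nat_lit 5) (nat_lit 68) (nat_lit 5) (nat_lit 645) (nat_lit 516) (nat_lit 399))))))))
noncomputable def xc71 : XT := (XT.nd (nat_lit 73788) (nat_lit 0) (nat_lit 19836) (XT.nd (nat_lit 72696) (nat_lit 0) (nat_lit 41648) (XT.nd (nat_lit 72150) (nat_lit 0) (nat_lit 50996) (XT.nd (nat_lit 71916) (nat_lit 0) (nat_lit 53200) (XT.nd (nat_lit 78) (nat_lit 304) (nat_lit 0) (XT.lf (nat_lit 0) (nat_lit 10534494416) (nat_lit 152) (nat_lit 6537438404) (nat_lit 228) (nat_lit 827399524) (nat_lit 65) (nat_lit 5) (nat_lit 67) (nat_lit 5) (nat_lit 68) (nat_lit 5) (nat_lit 646) (nat_lit 516) (nat_lit 398)) (XT.nd (nat_lit 71760) (nat_lit 0) (nat_lit 53656) (XT.lf (nat_lit 0) (nat_lit 4272950484) (nat_lit 228) (nat_lit 219492267) (nat_lit 304) (nat_lit 13633125880) (nat_lit 61) (nat_lit 5) (nat_lit 64) (nat_lit 5) (nat_lit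 65) (nat_lit 5) (nat_lit 647) (nat_lit 516) (nat_lit 397)) (XT.lf (nat_lit 0) (nat_lit 335226120) (nat_lit 228) (nat_lit 1447228862) (nat_lit 228) (nat_lit 1447228862) (nat_lit 767) (nat_lit 4) (nat_lit 770) (nat_lit 5) (nat_lit 770) (nat_lit 4) (nat_lit 526) (nat_lit 517) (nat_lit 517)))) (XT.nd (nat_lit 78) (nat_lit 380) (nat_lit 0) (XT.lf (nat_lit 0) (nat_lit 301928305) (nat_lit 304) (nat_lit 2281409910) (nat_lit 76) (nat_lit 3882419547) (nat_lit 766) (nat_lit 5) (nat_lit 770) (nat_lit 5) (nat_lit 767) (nat_lit 4) (nat_lit 527) (nat_lit 517) (nat_lit 516)) (XT.nd (nat_lit 78) (nat_lit 76) (nat_lit 0) (XT.lf (nat_lit 0) (nat_lit 1246719932) (nat_lit 304) (nat_lit 2205080983) (nat_lit 380) (nat_lit 3021539356) (nat_lit 762) (nat_lit 5) (nat_lit 766) (nat_lit 5) (nat_lit 767) (nat_lit 4) (nat_lit 528) (nat_lit 517) (nat_lit 515)) (XT.lf (nat_lit 0) (nat_lit 117514755) (nat_lit 380) (nat_lit 1653189116) (nat_lit 76) (nat_lit 4711633264) (nat_lit 761) (nat_lit 5)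 (nat_lit 766) (nat_lit 5) (nat_lit 762) (nat_lit 5) (nat_lit 529) (nat_lit 517) (nat_lit 514))))) (XT.nd (nat_lit 234) (nat_lit 1292) (nat_lit 0) (XT.nd (nat_lit 78) (nat_lit 532) (nat_lit 0) (XT.lf (nat_lit 0) (nat_lit 1950750729) (nat_lit 380) (nat_lit 1263310140) (nat_lit 456) (nat_lit 3278363045) (nat_lit 756) (nat_lit 5) (nat_lit 761) (nat_lit 5) (nat_lit 762) (nat_lit 5) (nat_lit 530) (nat_lit 517) (nat_lit 513)) (XT.nd (nat_lit 78) (nat_lit 532) (nat_lit 0) (XT.lf (nat_lit 0) (nat_lit 5602950677) (nat_lit 380) (nat_lit 704367074) (nat_lit 456) (nat_lit 196711640) (nat_lit 756) (nat_lit 5) (nat_lit 761) (nat_lit 5) (nat_lit 762) (nat_lit 5) (nat_lit 531) (nat_lit 517) (nat_lit 512)) (XT.lf (nat_lit 0) (nat_lit 2783366108) (nat_lit 456) (nat_lit 67308105) (nat_lit 532) (nat_lit 3665967289) (nat_lit 749) (nat_lit 5) (nat_lit 755) (nat_lit 5) (nat_lit 756) (nat_lit 5) (nat_lit 532) (nat_lit 517) (nat_lit 511)))) (XT.nd (nat_lit 156) (nat_lit 684) (nat_lit 0)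 (XT.nd (nat_lit 78) (nat_lit 608) (nat_lit 0) (XT.lf (nat_lit 0) (nat_lit 5892280419) (nat_lit 532) (nat_lit 28502707) (nat_lit 76) (nat_lit 609990428) (nat_lit 749) (nat_lit 5) (nat_lit 756) (nat_lit 5) (nat_lit 750) (nat_lit 5) (nat_lit 533) (nat_lit 517) (nat_lit 510)) (XT.lf (nat_lit 0) (nat_lit 2369371391) (nat_lit 608) (nat_lit 2809381205) (nat_lit 76) (nat_lit 1367089609) (nat_lit 741) (nat_lit 5) (nat_lit 749) (nat_lit 5) (nat_lit 742) (nat_lit 5) (nat_lit 534) (nat_lit 517) (nat_lit 509))) (XT.nd (nat_lit 78) (nat_lit 76) (nat_lit 0) (XT.lf (nat_lit 0) (nat_lit 977056002) (nat_lit 608) (nat_lit 4386453887) (nat_lit 684) (nat_lit 1198935761) (nat_lit 733) (nat_lit 5) (nat_lit 741) (nat_lit 5) (nat_lit 742) (nat_lit 5) (nat_lit 535) (nat_lit 517) (nat_lit 508)) (XT.lf (nat_lit 0) (nat_lit 1761765435) (nat_lit 684) (nat_lit 1761835714) (nat_lit 76) (nat_lit 3056597582) (nat_lit 732) (nat_lit 5) (nat_lit 741) (nat_lit 5) (nat_lit 733) (nat_lit 5) (nat_lit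 536) (nat_lit 517) (nat_lit 507)))))) (XT.nd (nat_lit 546) (nat_lit 5928) (nat_lit 0) (XT.nd (nat_lit 234) (nat_lit 1900) (nat_lit 0) (XT.nd (nat_lit 78) (nat_lit 836) (nat_lit 0) (XT.lf (nat_lit 0) (nat_lit 2110799395) (nat_lit 684) (nat_lit 2598690201) (nat_lit 760) (nat_lit 1889792035) (nat_lit 723) (nat_lit 5) (nat_lit 732) (nat_lit 5) (nat_lit 733) (nat_lit 5) (nat_lit 537) (nat_lit 517) (nat_lit 506)) (XT.nd (nat_lit 78) (nat_lit 760) (nat_lit 0) (XT.lf (nat_lit 0) (nat_lit 1025673278) (nat_lit 760) (nat_lit 588697714) (nat_lit 76) (nat_lit 5005389912) (nat_lit 722) (nat_lit 5) (nat_lit 732) (nat_lit 5) (nat_lit 723) (nat_lit 5) (nat_lit 538) (nat_lit 517) (nat_lit 505)) (XT.lf (nat_lit 0) (nat_lit 3374000444) (nat_lit 760) (nat_lit 554173993) (nat_lit 836) (nat_lit 2713154781) (nat_lit 712) (nat_lit 5) (nat_lit 722) (nat_lit 5) (nat_lit 723) (nat_lit 5) (nat_lit 539) (nat_lit 517) (nat_lit 504)))) (XT.nd (nat_lit 156) (nat_lit 988) (nat_lit 0) (XT.nd (nat_lit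 78) (nat_lit 0) (nat_lit 0) (XT.lf (nat_lit 0) (nat_lit 167397308) (nat_lit 912) (nat_lit 5946863275) (nat_lit 76) (nat_lit 550149433) (nat_lit 700) (nat_lit 5) (nat_lit 712) (nat_lit 5) (nat_lit 701) (nat_lit 5) (nat_lit 540) (nat_lit 517) (nat_lit 503)) (XT.lf (nat_lit 0) (nat_lit 3028822815) (nat_lit 912) (nat_lit 1931449726) (nat_lit 76) (nat_lit 1728138709) (nat_lit 700) (nat_lit 5) (nat_lit 712) (nat_lit 5) (nat_lit 701) (nat_lit 5) (nat_lit 541) (nat_lit 517) (nat_lit 502))) (XT.nd (nat_lit 78) (nat_lit 76) (nat_lit 0) (XT.lf (nat_lit 0) (nat_lit 2144791678) (nat_lit 912) (nat_lit 3751725105) (nat_lit 988) (nat_lit 817404077) (nat_lit 688) (nat_lit 5) (nat_lit 700) (nat_lit 5) (nat_lit 701) (nat_lit 5) (nat_lit 542) (nat_lit 517) (nat_lit 501)) (XT.lf (nat_lit 0) (nat_lit 2003017536) (nat_lit 988) (nat_lit 472703864) (nat_lit 76) (nat_lit 4264983863) (nat_lit 687) (nat_lit 5) (nat_lit 700) (nat_lit 5) (nat_lit 688) (nat_lit 5) (nat_lit 543) (nat_lit 517)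 (nat_lit 500))))) (XT.nd (nat_lit 234) (nat_lit 3800) (nat_lit 0) (XT.nd (nat_lit 78) (nat_lit 1140) (nat_lit 0) (XT.lf (nat_lit 0) (nat_lit 3701567209) (nat_lit 988) (nat_lit 1128287966) (nat_lit 1064) (nat_lit 1938851685) (nat_lit 674) (nat_lit 5) (nat_lit 687) (nat_lit 5) (nat_lit 688) (nat_lit 5) (nat_lit 544) (nat_lit 517) (nat_lit 499)) (XT.nd (nat_lit 78) (nat_lit 0) (nat_lit 0) (XT.lf (nat_lit 0) (nat_lit 853700605) (nat_lit 1140) (nat_lit 5670374024) (nat_lit 76) (nat_lit 274088156) (nat_lit 659) (nat_lit 5) (nat_lit 674) (nat_lit 5) (nat_lit 660) (nat_lit 5) (nat_lit 545) (nat_lit 517) (nat_lit 498)) (XT.lf (nat_lit 0) (nat_lit 3642790876) (nat_lit 1140) (nat_lit 1448818096) (nat_lit 76) (nat_lit 1737017702) (nat_lit 659) (nat_lit 5) (nat_lit 674) (nat_lit 5) (nat_lit 660) (nat_lit 5) (nat_lit 546) (nat_lit 517) (nat_lit 497)))) (XT.nd (nat_lit 156) (nat_lit 1368) (nat_lit 0) (XT.nd (nat_lit 78) (nat_lit 1292) (nat_lit 0) (XT.lf (nat_lit 0) (nat_lit 2846694996)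 (nat_lit 1140) (nat_lit 3599091136) (nat_lit 1216) (nat_lit 414759209) (nat_lit 644) (nat_lit 5) (nat_lit 659) (nat_lit 5) (nat_lit 660) (nat_lit 5) (nat_lit 547) (nat_lit 517) (nat_lit 496)) (XT.lf (nat_lit 0) (nat_lit 294693643) (nat_lit 1216) (nat_lit 2037229002) (nat_lit 1292) (nat_lit 4561837937) (nat_lit 627) (nat_lit 5) (nat_lit 643) (nat_lit 5) (nat_lit 644) (nat_lit 5) (nat_lit 548) (nat_lit 517) (nat_lit 495))) (XT.nd (nat_lit 78) (nat_lit 1368) (nat_lit 0) (XT.lf (nat_lit 0) (nat_lit 4693053960) (nat_lit 1216) (nat_lit 402829497) (nat_lit 1292) (nat_lit 1832351368) (nat_lit 627) (nat_lit 5) (nat_lit 643) (nat_lit 5) (nat_lit 644) (nat_lit 5) (nat_lit 549) (nat_lit 517) (nat_lit 494)) (XT.lf (nat_lit 0) (nat_lit 903621348) (nat_lit 1368) (nat_lit 4781859519) (nat_lit 76) (nat_lit 1278513744) (nat_lit 609) (nat_lit 5) (nat_lit 627) (nat_lit 5) (nat_lit 610) (nat_lit 5) (nat_lit 550) (nat_lit 517) (nat_lit 493))))))) (XT.nd (nat_lit 1092) (nat_lit 8284)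 (nat_lit 0) (XT.nd (nat_lit 546) (nat_lit 7448) (nat_lit 0) (XT.nd (nat_lit 234) (nat_lit 3192) (nat_lit 0) (XT.nd (nat_lit 78) (nat_lit 2888) (nat_lit 0) (XT.lf (nat_lit 0) (nat_lit 3630209425) (nat_lit 1368) (nat_lit 345701649) (nat_lit 76) (nat_lit 3025114733) (nat_lit 609) (nat_lit 5) (nat_lit 627) (nat_lit 5) (nat_lit 610) (nat_lit 5) (nat_lit 551) (nat_lit 517) (nat_lit 492)) (XT.nd (nat_lit 78) (nat_lit 1520) (nat_lit 0) (XT.lf (nat_lit 0) (nat_lit 4186313017) (nat_lit 1368) (nat_lit 2195963076) (nat_lit 1444) (nat_lit 657109533) (nat_lit 591) (nat_lit 5) (nat_lit 609) (nat_lit 5) (nat_lit 610) (nat_lit 5) (nat_lit 552) (nat_lit 517) (nat_lit 491)) (XT.lf (nat_lit 0) (nat_lit 1695499332) (nat_lit 1444) (nat_lit 345218324) (nat_lit 1520) (nat_lit 5038376932) (nat_lit 571) (nat_lit 5) (nat_lit 590) (nat_lit 5) (nat_lit 591) (nat_lit 5) (nat_lit 553) (nat_lit 517) (nat_lit 490)))) (XT.nd (nat_lit 156) (nat_lit 1596) (nat_lit 0) (XT.nd (nat_lit 78) (nat_lit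 1596) (nat_lit 0) (XT.lf (nat_lit 0) (nat_lit 4758015506) (nat_lit 1520) (nat_lit 809032738) (nat_lit 76) (nat_lit 1552982894) (nat_lit 571) (nat_lit 5) (nat_lit 591) (nat_lit 5) (nat_lit 572) (nat_lit 5) (nat_lit 554) (nat_lit 517) (nat_lit 489)) (XT.lf (nat_lit 0) (nat_lit 336290932) (nat_lit 1596) (nat_lit 3307292981) (nat_lit 76) (nat_lit 3518696160) (nat_lit 550) (nat_lit 5) (nat_lit 571) (nat_lit 5) (nat_lit 551) (nat_lit 5) (nat_lit 555) (nat_lit 517) (nat_lit 488))) (XT.nd (nat_lit 78) (nat_lit 0) (nat_lit 0) (XT.lf (nat_lit 0) (nat_lit 1371821276) (nat_lit 1596) (nat_lit 1645999974) (nat_lit 1672) (nat_lit 4188028937) (nat_lit 529) (nat_lit 5) (nat_lit 550) (nat_lit 5) (nat_lit 551) (nat_lit 5) (nat_lit 556) (nat_lit 517) (nat_lit 487)) (XT.lf (nat_lit 0) (nat_lit 5725115248) (nat_lit 1672) (nat_lit 1112441062) (nat_lit 76) (nat_lit 413298766) (nat_lit 529) (nat_lit 5) (nat_lit 551) (nat_lit 5) (nat_lit 530) (nat_lit 5) (nat_lit 557) (nat_lit 517) (nat_lit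 486))))) (XT.nd (nat_lit 234) (nat_lit 3952) (nat_lit 0) (XT.nd (nat_lit 78) (nat_lit 1748) (nat_lit 0) (XT.lf (nat_lit 0) (nat_lit 1157234864) (nat_lit 1748) (nat_lit 3611893671) (nat_lit 76) (nat_lit 2527821948) (nat_lit 506) (nat_lit 5) (nat_lit 529) (nat_lit 5) (nat_lit 507) (nat_lit 5) (nat_lit 558) (nat_lit 517) (nat_lit 485)) (XT.nd (nat_lit 78) (nat_lit 0) (nat_lit 0) (XT.lf (nat_lit 0) (nat_lit 1206781105) (nat_lit 1748) (nat_lit 2630670747) (nat_lit 1824) (nat_lit 3507039684) (nat_lit 483) (nat_lit 5) (nat_lit 506) (nat_lit 5) (nat_lit 507) (nat_lit 5) (nat_lit 559) (nat_lit 517) (nat_lit 484)) (XT.lf (nat_lit 0) (nat_lit 6122451714) (nat_lit 1748) (nat_lit 422395954) (nat_lit 1824) (nat_lit 848669827) (nat_lit 483) (nat_lit 5) (nat_lit 506) (nat_lit 5) (nat_lit 507) (nat_lit 5) (nat_lit 560) (nat_lit 517) (nat_lit 483)))) (XT.nd (nat_lit 156) (nat_lit 988) (nat_lit 0) (XT.nd (nat_lit 78) (nat_lit 1064) (nat_lit 0) (XT.lf (nat_lit 0) (nat_lit 1824464003)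 (nat_lit 1900) (nat_lit 3774908088) (nat_lit 76) (nat_lit 1844194775) (nat_lit 458) (nat_lit 5) (nat_lit 483) (nat_lit 5) (nat_lit 459) (nat_lit 5) (nat_lit 561) (nat_lit 517) (nat_lit 482)) (XT.lf (nat_lit 0) (nat_lit 1188325804) (nat_lit 1064) (nat_lit 3321157026) (nat_lit 1140) (nat_lit 2985631736) (nat_lit 444) (nat_lit 5) (nat_lit 458) (nat_lit 5) (nat_lit 459) (nat_lit 5) (nat_lit 562) (nat_lit 517) (nat_lit 481))) (XT.nd (nat_lit 78) (nat_lit 988) (nat_lit 0) (XT.lf (nat_lit 0) (nat_lit 6253568956) (nat_lit 1064) (nat_lit 971294068) (nat_lit 1140) (nat_lit 323302127) (nat_lit 444) (nat_lit 5) (nat_lit 458) (nat_lit 5) (nat_lit 459) (nat_lit 5) (nat_lit 563) (nat_lit 517) (nat_lit 480)) (XT.lf (nat_lit 0) (nat_lit 2347081908) (nat_lit 988) (nat_lit 3807879381) (nat_lit 76) (nat_lit 1447286109) (nat_lit 431) (nat_lit 5) (nat_lit 444) (nat_lit 5) (nat_lit 432) (nat_lit 5) (nat_lit 564) (nat_lit 517) (nat_lit 479)))))) (XT.nd (nat_lit 546) (nat_lit 3876) (nat_lit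 0) (XT.nd (nat_lit 234) (nat_lit 2584) (nat_lit 0) (XT.nd (nat_lit 78) (nat_lit 912) (nat_lit 0) (XT.lf (nat_lit 0) (nat_lit 1305155966) (nat_lit 912) (nat_lit 3737635668) (nat_lit 988) (nat_lit 2615056828) (nat_lit 419) (nat_lit 5) (nat_lit 431) (nat_lit 5) (nat_lit 432) (nat_lit 5) (nat_lit 565) (nat_lit 517) (nat_lit 478)) (XT.nd (nat_lit 78) (nat_lit 836) (nat_lit 0) (XT.lf (nat_lit 0) (nat_lit 55447246) (nat_lit 988) (nat_lit 1191719266) (nat_lit 76) (nat_lit 6467817306) (nat_lit 418) (nat_lit 5) (nat_lit 431) (nat_lit 5) (nat_lit 419) (nat_lit 5) (nat_lit 566) (nat_lit 517) (nat_lit 477)) (XT.lf (nat_lit 0) (nat_lit 2733229186) (nat_lit 912) (nat_lit 3721683168) (nat_lit 76) (nat_lit 1318230724) (nat_lit 407) (nat_lit 5) (nat_lit 419) (nat_lit 5) (nat_lit 408) (nat_lit 5) (nat_lit 567) (nat_lit 517) (nat_lit 476)))) (XT.nd (nat_lit 156) (nat_lit 1672) (nat_lit 0) (XT.nd (nat_lit 78) (nat_lit 76) (nat_lit 0) (XT.lf (nat_lit 0) (nat_lit 1546636802) (nat_lit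 836) (nat_lit 3898678119) (nat_lit 912) (nat_lit 2387540125) (nat_lit 396) (nat_lit 5) (nat_lit 407) (nat_lit 5) (nat_lit 408) (nat_lit 5) (nat_lit 568) (nat_lit 517) (nat_lit 475)) (XT.lf (nat_lit 0) (nat_lit 293526503) (nat_lit 912) (nat_lit 973692275) (nat_lit 76) (nat_lit 6626909217) (nat_lit 395) (nat_lit 5) (nat_lit 407) (nat_lit 5) (nat_lit 396) (nat_lit 5) (nat_lit 569) (nat_lit 517) (nat_lit 474))) (XT.nd (nat_lit 78) (nat_lit 836) (nat_lit 0) (XT.lf (nat_lit 0) (nat_lit 2990134248) (nat_lit 912) (nat_lit 3526613502) (nat_lit 76) (nat_lit 1439689469) (nat_lit 384) (nat_lit 5) (nat_lit 396) (nat_lit 5) (nat_lit 385) (nat_lit 5) (nat_lit 570) (nat_lit 517) (nat_lit 473)) (XT.lf (nat_lit 0) (nat_lit 1902712202) (nat_lit 836) (nat_lit 3821385208) (nat_lit 912) (nat_lit 2296230896) (nat_lit 373) (nat_lit 5) (nat_lit 384) (nat_lit 5) (nat_lit 385) (nat_lit 5) (nat_lit 571) (nat_lit 517) (nat_lit 472))))) (XT.nd (nat_lit 234) (nat_lit 2280) (nat_lit 0) (XT.nd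 (nat_lit 78) (nat_lit 1520) (nat_lit 0) (XT.lf (nat_lit 0) (nat_lit 401818074) (nat_lit 912) (nat_lit 648344025) (nat_lit 76) (nat_lit 7035680043) (nat_lit 372) (nat_lit 5) (nat_lit 384) (nat_lit 5) (nat_lit 373) (nat_lit 5) (nat_lit 572) (nat_lit 517) (nat_lit 471)) (XT.nd (nat_lit 78) (nat_lit 760) (nat_lit 0) (XT.lf (nat_lit 0) (nat_lit 3124157952) (nat_lit 836) (nat_lit 3232466328) (nat_lit 76) (nat_lit 1795720788) (nat_lit 362) (nat_lit 5) (nat_lit 373) (nat_lit 5) (nat_lit 363) (nat_lit 5) (nat_lit 573) (nat_lit 517) (nat_lit 470)) (XT.lf (nat_lit 0) (nat_lit 2363821216) (nat_lit 760) (nat_lit 3521513513) (nat_lit 836) (nat_lit 2335159350) (nat_lit 352) (nat_lit 5) (nat_lit 362) (nat_lit 5) (nat_lit 363) (nat_lit 5) (nat_lit 574) (nat_lit 517) (nat_lit 469)))) (XT.nd (nat_lit 156) (nat_lit 1520) (nat_lit 0) (XT.nd (nat_lit 78) (nat_lit 684) (nat_lit 0) (XT.lf (nat_lit 0) (nat_lit 386109591) (nat_lit 836) (nat_lit 225142662) (nat_lit 76) (nat_lit 7679108422)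 (nat_lit 351) (nat_lit 5) (nat_lit 362) (nat_lit 5) (nat_lit 352) (nat_lit 5) (nat_lit 575) (nat_lit 517) (nat_lit 468)) (XT.lf (nat_lit 0) (nat_lit 3140832391) (nat_lit 760) (nat_lit 2848621050) (nat_lit 76) (nat_lit 2371660135) (nat_lit 342) (nat_lit 5) (nat_lit 352) (nat_lit 5) (nat_lit 343) (nat_lit 5) (nat_lit 576) (nat_lit 517) (nat_lit 467))) (XT.nd (nat_lit 78) (nat_lit 760) (nat_lit 0) (XT.lf (nat_lit 0) (nat_lit 2920816305) (nat_lit 760) (nat_lit 3013594164) (nat_lit 836) (nat_lit 2499199387) (nat_lit 332) (nat_lit 5) (nat_lit 342) (nat_lit 5) (nat_lit 343) (nat_lit 5) (nat_lit 577) (nat_lit 517) (nat_lit 466)) (XT.lf (nat_lit 0) (nat_lit 253499290) (nat_lit 760) (nat_lit 8217520540) (nat_lit 76) (nat_lit 36887371) (nat_lit 322) (nat_lit 5) (nat_lit 332) (nat_lit 5) (nat_lit 323) (nat_lit 5) (nat_lit 578) (nat_lit 517) (nat_lit 465))))))))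
noncomputable def xc72 : XT := (XT.nd (nat_lit 2106) (nat_lit 6612) (nat_lit 0) (XT.nd (nat_lit 1014) (nat_lit 4560) (nat_lit 0) (XT.nd (nat_lit 468) (nat_lit 3116) (nat_lit 0) (XT.nd (nat_lit 234) (nat_lit 1292) (nat_lit 0) (XT.nd (nat_lit 78) (nat_lit 1368) (nat_lit 0) (XT.lf (nat_lit 0) (nat_lit 3044894009) (nat_lit 760) (nat_lit 2384120854) (nat_lit 76) (nat_lit 3154006441) (nat_lit 322) (nat_lit 5) (nat_lit 332) (nat_lit 5) (nat_lit 323) (nat_lit 5) (nat_lit 579) (nat_lit 517) (nat_lit 464)) (XT.nd (nat_lit 78) (nat_lit 684) (nat_lit 0) (XT.lf (nat_lit 0) (nat_lit 3564882743) (nat_lit 684) (nat_lit 2311044905) (nat_lit 760) (nat_lit 2784037088) (nat_lit 313) (nat_lit 5) (nat_lit 322) (nat_lit 5) (nat_lit 323) (nat_lit 5) (nat_lit 580) (nat_lit 517) (nat_lit 463)) (XT.lf (nat_lit 0) (nat_lit 13291189) (nat_lit 684) (nat_lit 7854084980) (nat_lit 76) (nat_lit 871301025) (nat_lit 304) (nat_lit 5) (nat_lit 313) (nat_lit 5) (nat_lit 305) (nat_lit 5) (nat_lit 581)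 (nat_lit 517) (nat_lit 462)))) (XT.nd (nat_lit 78) (nat_lit 1292) (nat_lit 0) (XT.lf (nat_lit 0) (nat_lit 2840311221) (nat_lit 684) (nat_lit 1847752393) (nat_lit 76) (nat_lit 4130314848) (nat_lit 304) (nat_lit 5) (nat_lit 313) (nat_lit 5) (nat_lit 305) (nat_lit 5) (nat_lit 582) (nat_lit 517) (nat_lit 461)) (XT.nd (nat_lit 78) (nat_lit 608) (nat_lit 0) (XT.lf (nat_lit 0) (nat_lit 4287458520) (nat_lit 684) (nat_lit 1426276194) (nat_lit 760) (nat_lit 3186144799) (nat_lit 295) (nat_lit 5) (nat_lit 304) (nat_lit 5) (nat_lit 305) (nat_lit 5) (nat_lit 583) (nat_lit 517) (nat_lit 460)) (XT.lf (nat_lit 0) (nat_lit 1547674943) (nat_lit 608) (nat_lit 7094224535) (nat_lit 684) (nat_lit 341168609) (nat_lit 287) (nat_lit 5) (nat_lit 295) (nat_lit 5) (nat_lit 296) (nat_lit 5) (nat_lit 584) (nat_lit 517) (nat_lit 459))))) (XT.nd (nat_lit 234) (nat_lit 1824) (nat_lit 0) (XT.nd (nat_lit 78) (nat_lit 1216) (nat_lit 0) (XT.lf (nat_lit 0) (nat_lit 2530306629) (nat_lit 684) (nat_lit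 1248125499) (nat_lit 76) (nat_lit 5289094960) (nat_lit 286) (nat_lit 5) (nat_lit 295) (nat_lit 5) (nat_lit 287) (nat_lit 5) (nat_lit 585) (nat_lit 517) (nat_lit 458)) (XT.nd (nat_lit 78) (nat_lit 608) (nat_lit 0) (XT.lf (nat_lit 0) (nat_lit 5080154106) (nat_lit 608) (nat_lit 370792089) (nat_lit 684) (nat_lit 3702760698) (nat_lit 278) (nat_lit 5) (nat_lit 286) (nat_lit 5) (nat_lit 287) (nat_lit 5) (nat_lit 586) (nat_lit 517) (nat_lit 457)) (XT.lf (nat_lit 0) (nat_lit 2272614683) (nat_lit 608) (nat_lit 6164392230) (nat_lit 684) (nat_lit 804465948) (nat_lit 270) (nat_lit 5) (nat_lit 278) (nat_lit 5) (nat_lit 279) (nat_lit 5) (nat_lit 587) (nat_lit 517) (nat_lit 456)))) (XT.nd (nat_lit 156) (nat_lit 1140) (nat_lit 0) (XT.nd (nat_lit 78) (nat_lit 608) (nat_lit 0) (XT.lf (nat_lit 0) (nat_lit 2117373927) (nat_lit 684) (nat_lit 593753556) (nat_lit 76) (nat_lit 6619713868) (nat_lit 269) (nat_lit 5) (nat_lit 278) (nat_lit 5) (nat_lit 270) (nat_lit 5) (nat_lit 588) (nat_lit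 517) (nat_lit 455)) (XT.lf (nat_lit 0) (nat_lit 5095442500) (nat_lit 684) (nat_lit 3492644889) (nat_lit 76) (nat_lit 833634773) (nat_lit 261) (nat_lit 5) (nat_lit 270) (nat_lit 5) (nat_lit 262) (nat_lit 5) (nat_lit 589) (nat_lit 517) (nat_lit 454))) (XT.nd (nat_lit 78) (nat_lit 608) (nat_lit 0) (XT.lf (nat_lit 0) (nat_lit 3051095363) (nat_lit 532) (nat_lit 5088610214) (nat_lit 608) (nat_lit 1374584877) (nat_lit 254) (nat_lit 5) (nat_lit 261) (nat_lit 5) (nat_lit 262) (nat_lit 5) (nat_lit 590) (nat_lit 517) (nat_lit 453)) (XT.lf (nat_lit 0) (nat_lit 108284958) (nat_lit 532) (nat_lit 1495707625) (nat_lit 608) (nat_lit 8004721353) (nat_lit 246) (nat_lit 5) (nat_lit 253) (nat_lit 5) (nat_lit 254) (nat_lit 5) (nat_lit 591) (nat_lit 517) (nat_lit 452)))))) (XT.nd (nat_lit 546) (nat_lit 2356) (nat_lit 0) (XT.nd (nat_lit 234) (nat_lit 1064) (nat_lit 0) (XT.nd (nat_lit 78) (nat_lit 1140) (nat_lit 0) (XT.lf (nat_lit 0) (nat_lit 4646808305) (nat_lit 608) (nat_lit 2876301402)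 (nat_lit 76) (nat_lit 2181275394) (nat_lit 246) (nat_lit 5) (nat_lit 254) (nat_lit 5) (nat_lit 247) (nat_lit 5) (nat_lit 592) (nat_lit 517) (nat_lit 451)) (XT.nd (nat_lit 78) (nat_lit 608) (nat_lit 0) (XT.lf (nat_lit 0) (nat_lit 3874676844) (nat_lit 532) (nat_lit 3876859540) (nat_lit 608) (nat_lit 2050414517) (nat_lit 239) (nat_lit 5) (nat_lit 246) (nat_lit 5) (nat_lit 247) (nat_lit 5) (nat_lit 593) (nat_lit 517) (nat_lit 450)) (XT.lf (nat_lit 0) (nat_lit 856393594) (nat_lit 532) (nat_lit 138285573) (nat_lit 608) (nat_lit 8906836549) (nat_lit 231) (nat_lit 5) (nat_lit 238) (nat_lit 5) (nat_lit 239) (nat_lit 5) (nat_lit 594) (nat_lit 517) (nat_lit 449)))) (XT.nd (nat_lit 156) (nat_lit 608) (nat_lit 0) (XT.nd (nat_lit 78) (nat_lit 456) (nat_lit 0) (XT.lf (nat_lit 0) (nat_lit 4103559317) (nat_lit 608) (nat_lit 2230870341) (nat_lit 76) (nat_lit 3667766510) (nat_lit 231) (nat_lit 5) (nat_lit 239) (nat_lit 5) (nat_lit 232) (nat_lit 5) (nat_lit 595) (nat_lit 517) (nat_lit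 448)) (XT.lf (nat_lit 0) (nat_lit 4734798276) (nat_lit 456) (nat_lit 2538549092) (nat_lit 532) (nat_lit 2831570411) (nat_lit 225) (nat_lit 5) (nat_lit 231) (nat_lit 5) (nat_lit 232) (nat_lit 5) (nat_lit 596) (nat_lit 517) (nat_lit 447))) (XT.nd (nat_lit 78) (nat_lit 0) (nat_lit 0) (XT.lf (nat_lit 0) (nat_lit 294577766) (nat_lit 608) (nat_lit 8584709414) (nat_lit 76) (nat_lit 1330337500) (nat_lit 217) (nat_lit 5) (nat_lit 225) (nat_lit 5) (nat_lit 218) (nat_lit 5) (nat_lit 597) (nat_lit 517) (nat_lit 446)) (XT.lf (nat_lit 0) (nat_lit 3465917976) (nat_lit 608) (nat_lit 1565308322) (nat_lit 76) (nat_lit 5284415442) (nat_lit 217) (nat_lit 5) (nat_lit 225) (nat_lit 5) (nat_lit 218) (nat_lit 5) (nat_lit 598) (nat_lit 517) (nat_lit 445))))) (XT.nd (nat_lit 234) (nat_lit 1368) (nat_lit 0) (XT.nd (nat_lit 78) (nat_lit 532) (nat_lit 0) (XT.lf (nat_lit 0) (nat_lit 5622688967) (nat_lit 456) (nat_lit 1082602045) (nat_lit 532) (nat_lit 3718397999) (nat_lit 211) (nat_lit 5) (nat_lit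 217) (nat_lit 5) (nat_lit 218) (nat_lit 5) (nat_lit 599) (nat_lit 517) (nat_lit 444)) (XT.nd (nat_lit 78) (nat_lit 76) (nat_lit 0) (XT.lf (nat_lit 0) (nat_lit 2408596552) (nat_lit 456) (nat_lit 7614530493) (nat_lit 532) (nat_lit 510498626) (nat_lit 205) (nat_lit 5) (nat_lit 211) (nat_lit 5) (nat_lit 212) (nat_lit 5) (nat_lit 600) (nat_lit 517) (nat_lit 443)) (XT.lf (nat_lit 0) (nat_lit 2733399474) (nat_lit 532) (nat_lit 888864881) (nat_lit 76) (nat_lit 7022978805) (nat_lit 204) (nat_lit 5) (nat_lit 211) (nat_lit 5) (nat_lit 205) (nat_lit 5) (nat_lit 601) (nat_lit 517) (nat_lit 442)))) (XT.nd (nat_lit 156) (nat_lit 456) (nat_lit 0) (XT.nd (nat_lit 78) (nat_lit 456) (nat_lit 0) (XT.lf (nat_lit 0) (nat_lit 6049948566) (nat_lit 532) (nat_lit 4232655095) (nat_lit 76) (nat_lit 476131518) (nat_lit 198) (nat_lit 5) (nat_lit 205) (nat_lit 5) (nat_lit 199) (nat_lit 5) (nat_lit 602) (nat_lit 517) (nat_lit 441)) (XT.lf (nat_lit 0) (nat_lit 3199706058) (nat_lit 456) (nat_lit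 6253191898) (nat_lit 532) (nat_lit 1421199501) (nat_lit 192) (nat_lit 5) (nat_lit 198) (nat_lit 5) (nat_lit 199) (nat_lit 5) (nat_lit 603) (nat_lit 517) (nat_lit 440))) (XT.nd (nat_lit 78) (nat_lit 380) (nat_lit 0) (XT.lf (nat_lit 0) (nat_lit 1904799616) (nat_lit 532) (nat_lit 211178946) (nat_lit 76) (nat_lit 8875579244) (nat_lit 191) (nat_lit 5) (nat_lit 198) (nat_lit 5) (nat_lit 192) (nat_lit 5) (nat_lit 604) (nat_lit 517) (nat_lit 439)) (XT.lf (nat_lit 0) (nat_lit 5310603068) (nat_lit 456) (nat_lit 3679680910) (nat_lit 76) (nat_lit 2120250918) (nat_lit 186) (nat_lit 5) (nat_lit 192) (nat_lit 5) (nat_lit 187) (nat_lit 5) (nat_lit 605) (nat_lit 517) (nat_lit 438))))))) (XT.nd (nat_lit 1014) (nat_lit 2888) (nat_lit 0) (XT.nd (nat_lit 468) (nat_lit 1976) (nat_lit 0) (XT.nd (nat_lit 234) (nat_lit 836) (nat_lit 0) (XT.nd (nat_lit 78) (nat_lit 456) (nat_lit 0) (XT.lf (nat_lit 0) (nat_lit 3990382512) (nat_lit 456) (nat_lit 4805704347) (nat_lit 532) (nat_lit 2435575049)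 (nat_lit 180) (nat_lit 5) (nat_lit 186) (nat_lit 5) (nat_lit 187) (nat_lit 5) (nat_lit 606) (nat_lit 517) (nat_lit 437)) (XT.nd (nat_lit 78) (nat_lit 0) (nat_lit 0) (XT.lf (nat_lit 0) (nat_lit 463700623) (nat_lit 380) (nat_lit 517486908) (nat_lit 456) (nat_lit 10373932541) (nat_lit 174) (nat_lit 5) (nat_lit 179) (nat_lit 5) (nat_lit 180) (nat_lit 5) (nat_lit 607) (nat_lit 517) (nat_lit 436)) (XT.lf (nat_lit 0) (nat_lit 4478168031) (nat_lit 456) (nat_lit 3145584144) (nat_lit 76) (nat_lit 3856084914) (nat_lit 174) (nat_lit 5) (nat_lit 180) (nat_lit 5) (nat_lit 175) (nat_lit 5) (nat_lit 608) (nat_lit 517) (nat_lit 435)))) (XT.nd (nat_lit 78) (nat_lit 456) (nat_lit 0) (XT.lf (nat_lit 0) (nat_lit 4770228775) (nat_lit 380) (nat_lit 3280347140) (nat_lit 456) (nat_lit 3556364313) (nat_lit 169) (nat_lit 5) (nat_lit 174) (nat_lit 5) (nat_lit 175) (nat_lit 5) (nat_lit 609) (nat_lit 517) (nat_lit 434)) (XT.nd (nat_lit 78) (nat_lit 76) (nat_lit 0) (XT.lf (nat_lit 0) (nat_lit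 1113572603) (nat_lit 380) (nat_lit 10588077222) (nat_lit 456) (nat_lit 34792757) (nat_lit 164) (nat_lit 5) (nat_lit 169) (nat_lit 5) (nat_lit 170) (nat_lit 5) (nat_lit 610) (nat_lit 517) (nat_lit 433)) (XT.lf (nat_lit 0) (nat_lit 3549824034) (nat_lit 456) (nat_lit 2641556409) (nat_lit 76) (nat_lit 5675908732) (nat_lit 163) (nat_lit 5) (nat_lit 169) (nat_lit 5) (nat_lit 164) (nat_lit 5) (nat_lit 611) (nat_lit 517) (nat_lit 432))))) (XT.nd (nat_lit 234) (nat_lit 1140) (nat_lit 0) (XT.nd (nat_lit 78) (nat_lit 456) (nat_lit 0) (XT.lf (nat_lit 0) (nat_lit 5528174651) (nat_lit 380) (nat_lit 1685308533) (nat_lit 456) (nat_lit 4787110018) (nat_lit 158) (nat_lit 5) (nat_lit 163) (nat_lit 5) (nat_lit 164) (nat_lit 5) (nat_lit 612) (nat_lit 517) (nat_lit 431)) (XT.nd (nat_lit 78) (nat_lit 76) (nat_lit 0) (XT.lf (nat_lit 0) (nat_lit 1720797384) (nat_lit 380) (nat_lit 9249626768) (nat_lit 456) (nat_lit 1165740381) (nat_lit 153) (nat_lit 5) (nat_lit 158) (nat_lit 5) (nat_lit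 159) (nat_lit 5) (nat_lit 613) (nat_lit 517) (nat_lit 430)) (XT.lf (nat_lit 0) (nat_lit 2521956974) (nat_lit 456) (nat_lit 2179564962) (nat_lit 76) (nat_lit 7572057293) (nat_lit 152) (nat_lit 5) (nat_lit 158) (nat_lit 5) (nat_lit 153) (nat_lit 5) (nat_lit 614) (nat_lit 517) (nat_lit 429)))) (XT.nd (nat_lit 156) (nat_lit 456) (nat_lit 0) (XT.nd (nat_lit 78) (nat_lit 304) (nat_lit 0) (XT.lf (nat_lit 0) (nat_lit 6252354602) (nat_lit 380) (nat_lit 28773324) (nat_lit 456) (nat_lit 6132194917) (nat_lit 147) (nat_lit 5) (nat_lit 152) (nat_lit 5) (nat_lit 153) (nat_lit 5) (nat_lit 615) (nat_lit 517) (nat_lit 428)) (XT.lf (nat_lit 0) (nat_lit 2282936258) (nat_lit 304) (nat_lit 7865726902) (nat_lit 380) (nat_lit 2406535841) (nat_lit 143) (nat_lit 5) (nat_lit 147) (nat_lit 5) (nat_lit 148) (nat_lit 5) (nat_lit 616) (nat_lit 517) (nat_lit 427))) (XT.nd (nat_lit 78) (nat_lit 380) (nat_lit 0) (XT.lf (nat_lit 0) (nat_lit 1390118455) (nat_lit 380) (nat_lit 1772481511) (nat_lit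 76) (nat_lit 9536837788) (nat_lit 142) (nat_lit 5) (nat_lit 147) (nat_lit 5) (nat_lit 143) (nat_lit 5) (nat_lit 617) (nat_lit 517) (nat_lit 426)) (XT.lf (nat_lit 0) (nat_lit 5259903022) (nat_lit 456) (nat_lit 5926812335) (nat_lit 76) (nat_lit 1658940583) (nat_lit 137) (nat_lit 5) (nat_lit 143) (nat_lit 5) (nat_lit 138) (nat_lit 5) (nat_lit 618) (nat_lit 517) (nat_lit 425)))))) (XT.nd (nat_lit 546) (nat_lit 1216) (nat_lit 0) (XT.nd (nat_lit 234) (nat_lit 988) (nat_lit 0) (XT.nd (nat_lit 78) (nat_lit 380) (nat_lit 0) (XT.lf (nat_lit 0) (nat_lit 2786567914) (nat_lit 304) (nat_lit 6445152768) (nat_lit 380) (nat_lit 3762586249) (nat_lit 133) (nat_lit 5) (nat_lit 137) (nat_lit 5) (nat_lit 138) (nat_lit 5) (nat_lit 619) (nat_lit 517) (nat_lit 424)) (XT.nd (nat_lit 78) (nat_lit 304) (nat_lit 0) (XT.lf (nat_lit 0) (nat_lit 148978881) (nat_lit 380) (nat_lit 1434221401) (nat_lit 76) (nat_lit 11562439358) (nat_lit 132) (nat_lit 5) (nat_lit 137) (nat_lit 5) (nat_lit 133) (nat_lit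 5) (nat_lit 620) (nat_lit 517) (nat_lit 423)) (XT.lf (nat_lit 0) (nat_lit 4133961141) (nat_lit 380) (nat_lit 5774166717) (nat_lit 76) (nat_lit 3390463516) (nat_lit 128) (nat_lit 5) (nat_lit 133) (nat_lit 5) (nat_lit 129) (nat_lit 5) (nat_lit 621) (nat_lit 517) (nat_lit 422)))) (XT.nd (nat_lit 156) (nat_lit 684) (nat_lit 0) (XT.nd (nat_lit 78) (nat_lit 0) (nat_lit 0) (XT.lf (nat_lit 0) (nat_lit 3217129780) (nat_lit 304) (nat_lit 4996920875) (nat_lit 380) (nat_lit 5240244434) (nat_lit 124) (nat_lit 5) (nat_lit 128) (nat_lit 5) (nat_lit 129) (nat_lit 5) (nat_lit 622) (nat_lit 517) (nat_lit 421)) (XT.lf (nat_lit 0) (nat_lit 12389303423) (nat_lit 380) (nat_lit 1188073408) (nat_lit 76) (nat_lit 35465897) (nat_lit 124) (nat_lit 5) (nat_lit 129) (nat_lit 5) (nat_lit 125) (nat_lit 5) (nat_lit 623) (nat_lit 517) (nat_lit 420))) (XT.nd (nat_lit 78) (nat_lit 304) (nat_lit 0) (XT.lf (nat_lit 0) (nat_lit 2896701399) (nat_lit 380) (nat_lit 5718711957) (nat_lit 76) (nat_lit 5157558107)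 (nat_lit 119) (nat_lit 5) (nat_lit 124) (nat_lit 5) (nat_lit 120) (nat_lit 5) (nat_lit 624) (nat_lit 517) (nat_lit 419)) (XT.lf (nat_lit 0) (nat_lit 3558757822) (nat_lit 304) (nat_lit 3530389165) (nat_lit 380) (nat_lit 6846871383) (nat_lit 115) (nat_lit 5) (nat_lit 119) (nat_lit 5) (nat_lit 120) (nat_lit 5) (nat_lit 625) (nat_lit 517) (nat_lit 418))))) (XT.nd (nat_lit 234) (nat_lit 608) (nat_lit 0) (XT.nd (nat_lit 78) (nat_lit 608) (nat_lit 0) (XT.lf (nat_lit 0) (nat_lit 11389981094) (nat_lit 380) (nat_lit 1054551986) (nat_lit 76) (nat_lit 1657303341) (nat_lit 115) (nat_lit 5) (nat_lit 120) (nat_lit 5) (nat_lit 116) (nat_lit 5) (nat_lit 626) (nat_lit 517) (nat_lit 417)) (XT.nd (nat_lit 78) (nat_lit 228) (nat_lit 0) (XT.lf (nat_lit 0) (nat_lit 1540694987) (nat_lit 380) (nat_lit 5777755315) (nat_lit 76) (nat_lit 6951234276) (nat_lit 110) (nat_lit 5) (nat_lit 115) (nat_lit 5) (nat_lit 111) (nat_lit 5) (nat_lit 627) (nat_lit 517) (nat_lit 416)) (XT.lf (nat_lit 0) (nat_lit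 3794112037) (nat_lit 228) (nat_lit 2055362568) (nat_lit 304) (nat_lit 8590907721) (nat_lit 107) (nat_lit 5) (nat_lit 110) (nat_lit 5) (nat_lit 111) (nat_lit 5) (nat_lit 628) (nat_lit 517) (nat_lit 415)))) (XT.nd (nat_lit 156) (nat_lit 228) (nat_lit 0) (XT.nd (nat_lit 78) (nat_lit 380) (nat_lit 0) (XT.lf (nat_lit 0) (nat_lit 10280777271) (nat_lit 304) (nat_lit 1040389675) (nat_lit 76) (nat_lit 3292601054) (nat_lit 107) (nat_lit 5) (nat_lit 111) (nat_lit 5) (nat_lit 108) (nat_lit 5) (nat_lit 629) (nat_lit 517) (nat_lit 414)) (XT.lf (nat_lit 0) (nat_lit 57422740) (nat_lit 380) (nat_lit 5970229466) (nat_lit 76) (nat_lit 8762019351) (nat_lit 102) (nat_lit 5) (nat_lit 107) (nat_lit 5) (nat_lit 103) (nat_lit 5) (nat_lit 630) (nat_lit 517) (nat_lit 413))) (XT.nd (nat_lit 78) (nat_lit 0) (nat_lit 0) (XT.lf (nat_lit 0) (nat_lit 3904185944) (nat_lit 228) (nat_lit 582205015) (nat_lit 304) (nat_lit 10481954965) (nat_lit 99) (nat_lit 5) (nat_lit 102) (nat_lit 5) (nat_lit 103)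 (nat_lit 5) (nat_lit 631) (nat_lit 517) (nat_lit 412)) (XT.lf (nat_lit 0) (nat_lit 9052986056) (nat_lit 304) (nat_lit 1165321483) (nat_lit 76) (nat_lit 4931306139) (nat_lit 99) (nat_lit 5) (nat_lit 103) (nat_lit 5) (nat_lit 100) (nat_lit 5) (nat_lit 632) (nat_lit 517) (nat_lit 411))))))))
noncomputable def xc73 : XT := (XT.nd (nat_lit 73632) (nat_lit 0) (nat_lit 29944) (XT.nd (nat_lit 1014) (nat_lit 228) (nat_lit 0) (XT.nd (nat_lit 468) (nat_lit 1292) (nat_lit 0) (XT.nd (nat_lit 234) (nat_lit 532) (nat_lit 0) (XT.nd (nat_lit 78) (nat_lit 304) (nat_lit 0) (XT.lf (nat_lit 0) (nat_lit 9006546040) (nat_lit 304) (nat_lit 4743597486) (nat_lit 380) (nat_lit 1583579485) (nat_lit 95) (nat_lit 5) (nat_lit 99) (nat_lit 5) (nat_lit 100) (nat_lit 5) (nat_lit 633) (nat_lit 517) (nat_lit 410)) (XT.nd (nat_lit 78) (nat_lit 0) (nat_lit 0) (XT.lf (nat_lit 0) (nat_lit 2995758018) (nat_lit 304) (nat_lit 11658527188) (nat_lit 76) (nat_lit 866525350) (nat_lit 91) (nat_lit 5) (nat_lit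 95) (nat_lit 5) (nat_lit 92) (nat_lit 5) (nat_lit 634) (nat_lit 517) (nat_lit 409)) (XT.lf (nat_lit 0) (nat_lit 7696692231) (nat_lit 304) (nat_lit 1451032689) (nat_lit 76) (nat_lit 6562682086) (nat_lit 91) (nat_lit 5) (nat_lit 95) (nat_lit 5) (nat_lit 92) (nat_lit 5) (nat_lit 635) (nat_lit 517) (nat_lit 408)))) (XT.nd (nat_lit 78) (nat_lit 304) (nat_lit 0) (XT.lf (nat_lit 0) (nat_lit 9040593991) (nat_lit 228) (nat_lit 3487238713) (nat_lit 304) (nat_lit 3375239699) (nat_lit 88) (nat_lit 5) (nat_lit 91) (nat_lit 5) (nat_lit 92) (nat_lit 5) (nat_lit 636) (nat_lit 517) (nat_lit 407)) (XT.nd (nat_lit 78) (nat_lit 0) (nat_lit 0) (XT.lf (nat_lit 0) (nat_lit 1364358989) (nat_lit 304) (nat_lit 12451350005) (nat_lit 76) (nat_lit 2283184006) (nat_lit 84) (nat_lit 5) (nat_lit 88) (nat_lit 5) (nat_lit 85) (nat_lit 5) (nat_lit 637) (nat_lit 517) (nat_lit 406)) (XT.lf (nat_lit 0) (nat_lit 6200668320) (nat_lit 304) (nat_lit 1921392980) (nat_lit 76) (nat_lit 8175180964) (nat_lit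 84) (nat_lit 5) (nat_lit 88) (nat_lit 5) (nat_lit 85) (nat_lit 5) (nat_lit 638) (nat_lit 517) (nat_lit 405))))) (XT.nd (nat_lit 234) (nat_lit 760) (nat_lit 0) (XT.nd (nat_lit 78) (nat_lit 304) (nat_lit 0) (XT.lf (nat_lit 0) (nat_lit 8897900285) (nat_lit 228) (nat_lit 2271634201) (nat_lit 304) (nat_lit 5329308125) (nat_lit 81) (nat_lit 5) (nat_lit 84) (nat_lit 5) (nat_lit 85) (nat_lit 5) (nat_lit 639) (nat_lit 517) (nat_lit 404)) (XT.nd (nat_lit 78) (nat_lit 76) (nat_lit 0) (XT.lf (nat_lit 0) (nat_lit 3235720455) (nat_lit 228) (nat_lit 13038181851) (nat_lit 304) (nat_lit 429850871) (nat_lit 78) (nat_lit 5) (nat_lit 81) (nat_lit 5) (nat_lit 82) (nat_lit 5) (nat_lit 640) (nat_lit 517) (nat_lit 403)) (XT.lf (nat_lit 0) (nat_lit 4552259091) (nat_lit 304) (nat_lit 2602713432) (nat_lit 76) (nat_lit 9756305615) (nat_lit 77) (nat_lit 5) (nat_lit 81) (nat_lit 5) (nat_lit 78) (nat_lit 5) (nat_lit 641) (nat_lit 517) (nat_lit 402)))) (XT.nd (nat_lit 156) (nat_lit 304) (nat_lit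 0) (XT.nd (nat_lit 78) (nat_lit 228) (nat_lit 0) (XT.lf (nat_lit 0) (nat_lit 8551888551) (nat_lit 228) (nat_lit 1110505098) (nat_lit 304) (nat_lit 7459821018) (nat_lit 74) (nat_lit 5) (nat_lit 77) (nat_lit 5) (nat_lit 78) (nat_lit 5) (nat_lit 642) (nat_lit 517) (nat_lit 401)) (XT.lf (nat_lit 0) (nat_lit 2591482325) (nat_lit 228) (nat_lit 12329158617) (nat_lit 304) (nat_lit 2415811429) (nat_lit 71) (nat_lit 5) (nat_lit 74) (nat_lit 5) (nat_lit 75) (nat_lit 5) (nat_lit 643) (nat_lit 517) (nat_lit 400))) (XT.nd (nat_lit 78) (nat_lit 228) (nat_lit 0) (XT.lf (nat_lit 0) (nat_lit 2737252368) (nat_lit 304) (nat_lit 3524028858) (nat_lit 76) (nat_lit 11292460515) (nat_lit 70) (nat_lit 5) (nat_lit 74) (nat_lit 5) (nat_lit 71) (nat_lit 5) (nat_lit 644) (nat_lit 517) (nat_lit 399)) (XT.lf (nat_lit 0) (nat_lit 7973186467) (nat_lit 228) (nat_lit 18777733) (nat_lit 304) (nat_lit 9782475243) (nat_lit 67) (nat_lit 5) (nat_lit 70) (nat_lit 5) (nat_lit 71) (nat_lit 5) (nat_lit 645)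 (nat_lit 517) (nat_lit 398)))))) (XT.nd (nat_lit 72072) (nat_lit 0) (nat_lit 50768) (XT.nd (nat_lit 71760) (nat_lit 0) (nat_lit 53048) (XT.nd (nat_lit 78) (nat_lit 76) (nat_lit 0) (XT.lf (nat_lit 0) (nat_lit 1693080282) (nat_lit 152) (nat_lit 11713913260) (nat_lit 228) (nat_lit 4591453688) (nat_lit 65) (nat_lit 5) (nat_lit 67) (nat_lit 5) (nat_lit 68) (nat_lit 5) (nat_lit 646) (nat_lit 517) (nat_lit 397)) (XT.nd (nat_lit 71604) (nat_lit 0) (nat_lit 53656) (XT.lf (nat_lit 0) (nat_lit 739734828) (nat_lit 228) (nat_lit 4717408303) (nat_lit 76) (nat_lit 12768789846) (nat_lit 64) (nat_lit 5) (nat_lit 67) (nat_lit 5) (nat_lit 65) (nat_lit 5) (nat_lit 647) (nat_lit 517) (nat_lit 396)) (XT.lf (nat_lit 0) (nat_lit 65732121) (nat_lit 228) (nat_lit 3093558151) (nat_lit 0) (nat_lit 65732121) (nat_lit 770) (nat_lit 5) (nat_lit 773) (nat_lit 4) (nat_lit 770) (nat_lit 4) (nat_lit 524) (nat_lit 518) (nat_lit 518)))) (XT.nd (nat_lit 156) (nat_lit 304) (nat_lit 0) (XT.nd (nat_lit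 78) (nat_lit 304) (nat_lit 0) (XT.lf (nat_lit 0) (nat_lit 3309138781) (nat_lit 228) (nat_lit 2785150516) (nat_lit 0) (nat_lit 360007592) (nat_lit 770) (nat_lit 5) (nat_lit 773) (nat_lit 4) (nat_lit 770) (nat_lit 4) (nat_lit 525) (nat_lit 518) (nat_lit 517)) (XT.lf (nat_lit 0) (nat_lit 13653731) (nat_lit 304) (nat_lit 5812855738) (nat_lit 76) (nat_lit 633664038) (nat_lit 766) (nat_lit 5) (nat_lit 770) (nat_lit 5) (nat_lit 767) (nat_lit 4) (nat_lit 526) (nat_lit 518) (nat_lit 516))) (XT.nd (nat_lit 78) (nat_lit 304) (nat_lit 0) (XT.lf (nat_lit 0) (nat_lit 3132565995) (nat_lit 304) (nat_lit 2347265794) (nat_lit 76) (nat_lit 987152915) (nat_lit 766) (nat_lit 5) (nat_lit 770) (nat_lit 5) (nat_lit 767) (nat_lit 4) (nat_lit 527) (nat_lit 518) (nat_lit 515)) (XT.lf (nat_lit 0) (nat_lit 1157018126) (nat_lit 304) (nat_lit 5086100397) (nat_lit 380) (nat_lit 232241691) (nat_lit 762) (nat_lit 5) (nat_lit 766) (nat_lit 5) (nat_lit 767) (nat_lit 4) (nat_lit 528) (nat_lit 518)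 (nat_lit 514))))) (XT.nd (nat_lit 234) (nat_lit 1748) (nat_lit 0) (XT.nd (nat_lit 78) (nat_lit 456) (nat_lit 0) (XT.lf (nat_lit 0) (nat_lit 2831847085) (nat_lit 380) (nat_lit 1786057595) (nat_lit 76) (nat_lit 1866864205) (nat_lit 761) (nat_lit 5) (nat_lit 766) (nat_lit 5) (nat_lit 762) (nat_lit 5) (nat_lit 529) (nat_lit 518) (nat_lit 513)) (XT.nd (nat_lit 78) (nat_lit 76) (nat_lit 0) (XT.lf (nat_lit 0) (nat_lit 1793231296) (nat_lit 380) (nat_lit 4096508598) (nat_lit 456) (nat_lit 605895054) (nat_lit 756) (nat_lit 5) (nat_lit 761) (nat_lit 5) (nat_lit 762) (nat_lit 5) (nat_lit 530) (nat_lit 518) (nat_lit 512)) (XT.lf (nat_lit 0) (nat_lit 2405996655) (nat_lit 456) (nat_lit 1100821443) (nat_lit 76) (nat_lit 3000852612) (nat_lit 755) (nat_lit 5) (nat_lit 761) (nat_lit 5) (nat_lit 756) (nat_lit 5) (nat_lit 531) (nat_lit 518) (nat_lit 511)))) (XT.nd (nat_lit 156) (nat_lit 1216) (nat_lit 0) (XT.nd (nat_lit 78) (nat_lit 76) (nat_lit 0) (XT.lf (nat_lit 0) (nat_lit 2556887647)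 (nat_lit 456) (nat_lit 2855885970) (nat_lit 532) (nat_lit 1108250099) (nat_lit 749) (nat_lit 5) (nat_lit 755) (nat_lit 5) (nat_lit 756) (nat_lit 5) (nat_lit 532) (nat_lit 518) (nat_lit 510)) (XT.lf (nat_lit 0) (nat_lit 1853782673) (nat_lit 532) (nat_lit 290612000) (nat_lit 76) (nat_lit 4391322917) (nat_lit 748) (nat_lit 5) (nat_lit 755) (nat_lit 5) (nat_lit 749) (nat_lit 5) (nat_lit 533) (nat_lit 518) (nat_lit 509))) (XT.nd (nat_lit 78) (nat_lit 684) (nat_lit 0) (XT.lf (nat_lit 0) (nat_lit 3449071100) (nat_lit 532) (nat_lit 1361801987) (nat_lit 608) (nat_lit 1740683768) (nat_lit 741) (nat_lit 5) (nat_lit 748) (nat_lit 5) (nat_lit 749) (nat_lit 5) (nat_lit 534) (nat_lit 518) (nat_lit 508)) (XT.lf (nat_lit 0) (nat_lit 654339731) (nat_lit 608) (nat_lit 523632644) (nat_lit 684) (nat_lit 5390885769) (nat_lit 732) (nat_lit 5) (nat_lit 740) (nat_lit 5) (nat_lit 741) (nat_lit 5) (nat_lit 535) (nat_lit 518) (nat_lit 507))))))) (XT.nd (nat_lit 1014) (nat_lit 14060) (nat_lit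 0) (XT.nd (nat_lit 468) (nat_lit 4332) (nat_lit 0) (XT.nd (nat_lit 234) (nat_lit 1672) (nat_lit 0) (XT.nd (nat_lit 78) (nat_lit 760) (nat_lit 0) (XT.lf (nat_lit 0) (nat_lit 4084966859) (nat_lit 684) (nat_lit 2118682384) (nat_lit 76) (nat_lit 383571150) (nat_lit 732) (nat_lit 5) (nat_lit 741) (nat_lit 5) (nat_lit 733) (nat_lit 5) (nat_lit 536) (nat_lit 518) (nat_lit 506)) (XT.nd (nat_lit 78) (nat_lit 0) (nat_lit 0) (XT.lf (nat_lit 0) (nat_lit 384146694) (nat_lit 760) (nat_lit 4883533189) (nat_lit 76) (nat_lit 1339306020) (nat_lit 722) (nat_lit 5) (nat_lit 732) (nat_lit 5) (nat_lit 723) (nat_lit 5) (nat_lit 537) (nat_lit 518) (nat_lit 505)) (XT.lf (nat_lit 0) (nat_lit 3241213656) (nat_lit 760) (nat_lit 1019195428) (nat_lit 76) (nat_lit 2367487867) (nat_lit 722) (nat_lit 5) (nat_lit 732) (nat_lit 5) (nat_lit 723) (nat_lit 5) (nat_lit 538) (nat_lit 518) (nat_lit 504)))) (XT.nd (nat_lit 78) (nat_lit 912) (nat_lit 0) (XT.lf (nat_lit 0) (nat_lit 2914757144) (nat_lit 760)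 (nat_lit 3193021656) (nat_lit 836) (nat_lit 542409992) (nat_lit 712) (nat_lit 5) (nat_lit 722) (nat_lit 5) (nat_lit 723) (nat_lit 5) (nat_lit 539) (nat_lit 518) (nat_lit 503)) (XT.nd (nat_lit 78) (nat_lit 0) (nat_lit 0) (XT.lf (nat_lit 0) (nat_lit 209315906) (nat_lit 836) (nat_lit 2060739056) (nat_lit 912) (nat_lit 4403729717) (nat_lit 700) (nat_lit 5) (nat_lit 711) (nat_lit 5) (nat_lit 712) (nat_lit 5) (nat_lit 540) (nat_lit 518) (nat_lit 502)) (XT.lf (nat_lit 0) (nat_lit 4233775130) (nat_lit 836) (nat_lit 857773373) (nat_lit 912) (nat_lit 1607040579) (nat_lit 700) (nat_lit 5) (nat_lit 711) (nat_lit 5) (nat_lit 712) (nat_lit 5) (nat_lit 541) (nat_lit 518) (nat_lit 501))))) (XT.nd (nat_lit 234) (nat_lit 2356) (nat_lit 0) (XT.nd (nat_lit 78) (nat_lit 988) (nat_lit 0) (XT.lf (nat_lit 0) (nat_lit 1177985556) (nat_lit 988) (nat_lit 5146098295) (nat_lit 76) (nat_lit 400677989) (nat_lit 687) (nat_lit 5) (nat_lit 700) (nat_lit 5) (nat_lit 688) (nat_lit 5) (nat_lit 542)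 (nat_lit 518) (nat_lit 500)) (XT.nd (nat_lit 78) (nat_lit 988) (nat_lit 0) (XT.lf (nat_lit 0) (nat_lit 3956453785) (nat_lit 988) (nat_lit 1078354462) (nat_lit 76) (nat_lit 1717260780) (nat_lit 687) (nat_lit 5) (nat_lit 700) (nat_lit 5) (nat_lit 688) (nat_lit 5) (nat_lit 543) (nat_lit 518) (nat_lit 499)) (XT.lf (nat_lit 0) (nat_lit 3064647255) (nat_lit 988) (nat_lit 3683888290) (nat_lit 1064) (nat_lit 32234382) (nat_lit 674) (nat_lit 5) (nat_lit 687) (nat_lit 5) (nat_lit 688) (nat_lit 5) (nat_lit 544) (nat_lit 518) (nat_lit 498)))) (XT.nd (nat_lit 156) (nat_lit 1216) (nat_lit 0) (XT.nd (nat_lit 78) (nat_lit 0) (nat_lit 0) (XT.lf (nat_lit 0) (nat_lit 435995963) (nat_lit 1064) (nat_lit 2262637773) (nat_lit 1140) (nat_lit 4112082129) (nat_lit 659) (nat_lit 5) (nat_lit 673) (nat_lit 5) (nat_lit 674) (nat_lit 5) (nat_lit 545) (nat_lit 518) (nat_lit 497)) (XT.lf (nat_lit 0) (nat_lit 4674812341) (nat_lit 1064) (nat_lit 773361379) (nat_lit 1140) (nat_lit 1393800981) (nat_lit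 659) (nat_lit 5) (nat_lit 673) (nat_lit 5) (nat_lit 674) (nat_lit 5) (nat_lit 546) (nat_lit 518) (nat_lit 496))) (XT.nd (nat_lit 78) (nat_lit 0) (nat_lit 0) (XT.lf (nat_lit 0) (nat_lit 1319787462) (nat_lit 1216) (nat_lit 4782983113) (nat_lit 76) (nat_lit 771736238) (nat_lit 643) (nat_lit 5) (nat_lit 659) (nat_lit 5) (nat_lit 644) (nat_lit 5) (nat_lit 547) (nat_lit 518) (nat_lit 495)) (XT.lf (nat_lit 0) (nat_lit 4030051129) (nat_lit 1216) (nat_lit 504437981) (nat_lit 76) (nat_lit 2373802374) (nat_lit 643) (nat_lit 5) (nat_lit 659) (nat_lit 5) (nat_lit 644) (nat_lit 5) (nat_lit 548) (nat_lit 518) (nat_lit 494)))))) (XT.nd (nat_lit 546) (nat_lit 6992) (nat_lit 0) (XT.nd (nat_lit 234) (nat_lit 4484) (nat_lit 0) (XT.nd (nat_lit 78) (nat_lit 1368) (nat_lit 0) (XT.lf (nat_lit 0) (nat_lit 3863931831) (nat_lit 1216) (nat_lit 2898114949) (nat_lit 1292) (nat_lit 181361892) (nat_lit 627) (nat_lit 5) (nat_lit 643) (nat_lit 5) (nat_lit 644) (nat_lit 5) (nat_lit 549) (nat_lit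 518) (nat_lit 493)) (XT.nd (nat_lit 78) (nat_lit 0) (nat_lit 0) (XT.lf (nat_lit 0) (nat_lit 1300818717) (nat_lit 1292) (nat_lit 1189675704) (nat_lit 1368) (nat_lit 4489312419) (nat_lit 609) (nat_lit 5) (nat_lit 626) (nat_lit 5) (nat_lit 627) (nat_lit 5) (nat_lit 550) (nat_lit 518) (nat_lit 492)) (XT.lf (nat_lit 0) (nat_lit 5181519973) (nat_lit 1368) (nat_lit 1258754906) (nat_lit 76) (nat_lit 577277841) (nat_lit 609) (nat_lit 5) (nat_lit 627) (nat_lit 5) (nat_lit 610) (nat_lit 5) (nat_lit 551) (nat_lit 518) (nat_lit 491)))) (XT.nd (nat_lit 156) (nat_lit 1596) (nat_lit 0) (XT.nd (nat_lit 78) (nat_lit 1444) (nat_lit 0) (XT.lf (nat_lit 0) (nat_lit 832486415) (nat_lit 1444) (nat_lit 3824429297) (nat_lit 76) (nat_lit 2399559694) (nat_lit 590) (nat_lit 5) (nat_lit 609) (nat_lit 5) (nat_lit 591) (nat_lit 5) (nat_lit 552) (nat_lit 518) (nat_lit 490)) (XT.lf (nat_lit 0) (nat_lit 683204014) (nat_lit 1444) (nat_lit 2804830634) (nat_lit 1520) (nat_lit 3608740844) (nat_lit 571)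 (nat_lit 5) (nat_lit 590) (nat_lit 5) (nat_lit 591) (nat_lit 5) (nat_lit 553) (nat_lit 518) (nat_lit 489))) (XT.nd (nat_lit 78) (nat_lit 1596) (nat_lit 0) (XT.lf (nat_lit 0) (nat_lit 5285882530) (nat_lit 1444) (nat_lit 882524862) (nat_lit 1520) (nat_lit 970046322) (nat_lit 571) (nat_lit 5) (nat_lit 590) (nat_lit 5) (nat_lit 591) (nat_lit 5) (nat_lit 554) (nat_lit 518) (nat_lit 488)) (XT.lf (nat_lit 0) (nat_lit 1670870301) (nat_lit 1596) (nat_lit 4410521837) (nat_lit 76) (nat_lit 1099915489) (nat_lit 550) (nat_lit 5) (nat_lit 571) (nat_lit 5) (nat_lit 551) (nat_lit 5) (nat_lit 555) (nat_lit 518) (nat_lit 487))))) (XT.nd (nat_lit 234) (nat_lit 3648) (nat_lit 0) (XT.nd (nat_lit 78) (nat_lit 1748) (nat_lit 0) (XT.lf (nat_lit 0) (nat_lit 230088724) (nat_lit 1596) (nat_lit 4088925258) (nat_lit 1672) (nat_lit 2906534478) (nat_lit 529) (nat_lit 5) (nat_lit 550) (nat_lit 5) (nat_lit 551) (nat_lit 5) (nat_lit 556) (nat_lit 518) (nat_lit 486)) (XT.nd (nat_lit 78) (nat_lit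 1748) (nat_lit 0) (XT.lf (nat_lit 0) (nat_lit 4976080046) (nat_lit 1596) (nat_lit 2021892636) (nat_lit 1672) (nat_lit 273150304) (nat_lit 529) (nat_lit 5) (nat_lit 550) (nat_lit 5) (nat_lit 551) (nat_lit 5) (nat_lit 557) (nat_lit 518) (nat_lit 485)) (XT.lf (nat_lit 0) (nat_lit 2347013240) (nat_lit 1748) (nat_lit 4849676965) (nat_lit 76) (nat_lit 121296016) (nat_lit 506) (nat_lit 5) (nat_lit 529) (nat_lit 5) (nat_lit 507) (nat_lit 5) (nat_lit 558) (nat_lit 518) (nat_lit 484)))) (XT.nd (nat_lit 156) (nat_lit 1824) (nat_lit 0) (XT.nd (nat_lit 78) (nat_lit 1824) (nat_lit 0) (XT.lf (nat_lit 0) (nat_lit 4994469570) (nat_lit 1748) (nat_lit 70445117) (nat_lit 76) (nat_lit 2301270559) (nat_lit 506) (nat_lit 5) (nat_lit 529) (nat_lit 5) (nat_lit 507) (nat_lit 5) (nat_lit 559) (nat_lit 518) (nat_lit 483)) (XT.lf (nat_lit 0) (nat_lit 257673600) (nat_lit 1824) (nat_lit 2596581283) (nat_lit 76) (nat_lit 4561426175) (nat_lit 482) (nat_lit 5) (nat_lit 506) (nat_lit 5) (nat_lit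 483) (nat_lit 5) (nat_lit 560) (nat_lit 518) (nat_lit 482))) (XT.nd (nat_lit 78) (nat_lit 0) (nat_lit 0) (XT.lf (nat_lit 0) (nat_lit 2308684524) (nat_lit 1824) (nat_lit 565680234) (nat_lit 1900) (nat_lit 4592164314) (nat_lit 458) (nat_lit 5) (nat_lit 482) (nat_lit 5) (nat_lit 483) (nat_lit 5) (nat_lit 561) (nat_lit 518) (nat_lit 481)) (XT.lf (nat_lit 0) (nat_lit 5524056692) (nat_lit 1900) (nat_lit 230181499) (nat_lit 76) (nat_lit 1764547669) (nat_lit 458) (nat_lit 5) (nat_lit 483) (nat_lit 5) (nat_lit 459) (nat_lit 5) (nat_lit 562) (nat_lit 518) (nat_lit 480))))))))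
noncomputable def xc74 : XT := (XT.nd (nat_lit 2106) (nat_lit 8664) (nat_lit 0) (XT.nd (nat_lit 1014) (nat_lit 6840) (nat_lit 0) (XT.nd (nat_lit 468) (nat_lit 4256) (nat_lit 0) (XT.nd (nat_lit 234) (nat_lit 1824) (nat_lit 0) (XT.nd (nat_lit 78) (nat_lit 912) (nat_lit 0) (XT.lf (nat_lit 0) (nat_lit 633539521) (nat_lit 1140) (nat_lit 2768009893) (nat_lit 76) (nat_lit 4170708897) (nat_lit 443) (nat_lit 5) (nat_lit 458) (nat_lit 5) (nat_lit 444) (nat_lit 5) (nat_lit 563) (nat_lit 518) (nat_lit 479)) (XT.nd (nat_lit 78) (nat_lit 0) (nat_lit 0) (XT.lf (nat_lit 0) (nat_lit 2285293865) (nat_lit 912) (nat_lit 971692394) (nat_lit 988) (nat_lit 4370168663) (nat_lit 431) (nat_lit 5) (nat_lit 443) (nat_lit 5) (nat_lit 444) (nat_lit 5) (nat_lit 564) (nat_lit 518) (nat_lit 478)) (XT.lf (nat_lit 0) (nat_lit 5914903894) (nat_lit 988) (nat_lit 263296073) (nat_lit 76) (nat_lit 1505314217) (nat_lit 431) (nat_lit 5) (nat_lit 444) (nat_lit 5) (nat_lit 432) (nat_lit 5) (nat_lit 565)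 (nat_lit 518) (nat_lit 477)))) (XT.nd (nat_lit 78) (nat_lit 836) (nat_lit 0) (XT.lf (nat_lit 0) (nat_lit 866185383) (nat_lit 988) (nat_lit 2818667277) (nat_lit 76) (nat_lit 4056181374) (nat_lit 418) (nat_lit 5) (nat_lit 431) (nat_lit 5) (nat_lit 419) (nat_lit 5) (nat_lit 566) (nat_lit 518) (nat_lit 476)) (XT.nd (nat_lit 78) (nat_lit 0) (nat_lit 0) (XT.lf (nat_lit 0) (nat_lit 2388080981) (nat_lit 836) (nat_lit 1113941459) (nat_lit 912) (nat_lit 4298011971) (nat_lit 407) (nat_lit 5) (nat_lit 418) (nat_lit 5) (nat_lit 419) (nat_lit 5) (nat_lit 567) (nat_lit 518) (nat_lit 475)) (XT.lf (nat_lit 0) (nat_lit 6174700836) (nat_lit 912) (nat_lit 180315036) (nat_lit 76) (nat_lit 1505520830) (nat_lit 407) (nat_lit 5) (nat_lit 419) (nat_lit 5) (nat_lit 408) (nat_lit 5) (nat_lit 568) (nat_lit 518) (nat_lit 474))))) (XT.nd (nat_lit 234) (nat_lit 1672) (nat_lit 0) (XT.nd (nat_lit 78) (nat_lit 1672) (nat_lit 0) (XT.lf (nat_lit 0) (nat_lit 962835299) (nat_lit 912) (nat_lit 2759062445)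 (nat_lit 76) (nat_lit 4200286732) (nat_lit 395) (nat_lit 5) (nat_lit 407) (nat_lit 5) (nat_lit 396) (nat_lit 5) (nat_lit 569) (nat_lit 518) (nat_lit 473)) (XT.nd (nat_lit 78) (nat_lit 836) (nat_lit 0) (XT.lf (nat_lit 0) (nat_lit 2606775780) (nat_lit 836) (nat_lit 1009729453) (nat_lit 912) (nat_lit 4368849274) (nat_lit 384) (nat_lit 5) (nat_lit 395) (nat_lit 5) (nat_lit 396) (nat_lit 5) (nat_lit 570) (nat_lit 518) (nat_lit 472)) (XT.lf (nat_lit 0) (nat_lit 8900040) (nat_lit 836) (nat_lit 6301410171) (nat_lit 912) (nat_lit 1739740558) (nat_lit 373) (nat_lit 5) (nat_lit 384) (nat_lit 5) (nat_lit 385) (nat_lit 5) (nat_lit 571) (nat_lit 518) (nat_lit 471)))) (XT.nd (nat_lit 156) (nat_lit 836) (nat_lit 0) (XT.nd (nat_lit 78) (nat_lit 760) (nat_lit 0) (XT.lf (nat_lit 0) (nat_lit 929827967) (nat_lit 912) (nat_lit 2599185235) (nat_lit 76) (nat_lit 4586904713) (nat_lit 372) (nat_lit 5) (nat_lit 384) (nat_lit 5) (nat_lit 373) (nat_lit 5) (nat_lit 572) (nat_lit 518) (nat_lit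 470)) (XT.lf (nat_lit 0) (nat_lit 2931624508) (nat_lit 760) (nat_lit 674975440) (nat_lit 836) (nat_lit 4576734147) (nat_lit 362) (nat_lit 5) (nat_lit 372) (nat_lit 5) (nat_lit 373) (nat_lit 5) (nat_lit 573) (nat_lit 518) (nat_lit 469))) (XT.nd (nat_lit 78) (nat_lit 76) (nat_lit 0) (XT.lf (nat_lit 0) (nat_lit 298400522) (nat_lit 760) (nat_lit 6031057790) (nat_lit 836) (nat_lit 1922793019) (nat_lit 352) (nat_lit 5) (nat_lit 362) (nat_lit 5) (nat_lit 363) (nat_lit 5) (nat_lit 574) (nat_lit 518) (nat_lit 468)) (XT.lf (nat_lit 0) (nat_lit 772656732) (nat_lit 836) (nat_lit 2348588041) (nat_lit 76) (nat_lit 5201229611) (nat_lit 351) (nat_lit 5) (nat_lit 362) (nat_lit 5) (nat_lit 352) (nat_lit 5) (nat_lit 575) (nat_lit 518) (nat_lit 467)))))) (XT.nd (nat_lit 546) (nat_lit 3268) (nat_lit 0) (XT.nd (nat_lit 234) (nat_lit 2052) (nat_lit 0) (XT.nd (nat_lit 78) (nat_lit 836) (nat_lit 0) (XT.lf (nat_lit 0) (nat_lit 3353307884) (nat_lit 684) (nat_lit 124335713) (nat_lit 760)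 (nat_lit 4916580158) (nat_lit 342) (nat_lit 5) (nat_lit 351) (nat_lit 5) (nat_lit 352) (nat_lit 5) (nat_lit 576) (nat_lit 518) (nat_lit 466)) (XT.nd (nat_lit 78) (nat_lit 76) (nat_lit 0) (XT.lf (nat_lit 0) (nat_lit 676543095) (nat_lit 760) (nat_lit 5559511651) (nat_lit 836) (nat_lit 2231370343) (nat_lit 332) (nat_lit 5) (nat_lit 342) (nat_lit 5) (nat_lit 343) (nat_lit 5) (nat_lit 577) (nat_lit 518) (nat_lit 465)) (XT.lf (nat_lit 0) (nat_lit 496003942) (nat_lit 836) (nat_lit 2016466088) (nat_lit 76) (nat_lit 6029655511) (nat_lit 331) (nat_lit 5) (nat_lit 342) (nat_lit 5) (nat_lit 332) (nat_lit 5) (nat_lit 578) (nat_lit 518) (nat_lit 464)))) (XT.nd (nat_lit 156) (nat_lit 684) (nat_lit 0) (XT.nd (nat_lit 78) (nat_lit 684) (nat_lit 0) (XT.lf (nat_lit 0) (nat_lit 3238259406) (nat_lit 760) (nat_lit 4759526921) (nat_lit 76) (nat_lit 620437720) (nat_lit 322) (nat_lit 5) (nat_lit 332) (nat_lit 5) (nat_lit 323) (nat_lit 5) (nat_lit 579) (nat_lit 518) (nat_lit 463)) (XT.lf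 (nat_lit 0) (nat_lit 1134392162) (nat_lit 684) (nat_lit 4900029787) (nat_lit 760) (nat_lit 2661444538) (nat_lit 313) (nat_lit 5) (nat_lit 322) (nat_lit 5) (nat_lit 323) (nat_lit 5) (nat_lit 580) (nat_lit 518) (nat_lit 462))) (XT.nd (nat_lit 78) (nat_lit 608) (nat_lit 0) (XT.lf (nat_lit 0) (nat_lit 103769774) (nat_lit 760) (nat_lit 1611736881) (nat_lit 76) (nat_lit 7059668018) (nat_lit 312) (nat_lit 5) (nat_lit 322) (nat_lit 5) (nat_lit 313) (nat_lit 5) (nat_lit 581) (nat_lit 518) (nat_lit 461)) (XT.lf (nat_lit 0) (nat_lit 2890178852) (nat_lit 684) (nat_lit 4414506257) (nat_lit 76) (nat_lit 1551004545) (nat_lit 304) (nat_lit 5) (nat_lit 313) (nat_lit 5) (nat_lit 305) (nat_lit 5) (nat_lit 582) (nat_lit 518) (nat_lit 460))))) (XT.nd (nat_lit 234) (nat_lit 1900) (nat_lit 0) (XT.nd (nat_lit 78) (nat_lit 684) (nat_lit 0) (XT.lf (nat_lit 0) (nat_lit 1663243971) (nat_lit 684) (nat_lit 4064889847) (nat_lit 760) (nat_lit 3209767722) (nat_lit 295) (nat_lit 5) (nat_lit 304)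 (nat_lit 5) (nat_lit 305) (nat_lit 5) (nat_lit 583) (nat_lit 518) (nat_lit 459)) (XT.nd (nat_lit 78) (nat_lit 684) (nat_lit 0) (XT.lf (nat_lit 0) (nat_lit 7876147085) (nat_lit 684) (nat_lit 739524836) (nat_lit 760) (nat_lit 406232162) (nat_lit 295) (nat_lit 5) (nat_lit 304) (nat_lit 5) (nat_lit 305) (nat_lit 5) (nat_lit 584) (nat_lit 518) (nat_lit 458)) (XT.lf (nat_lit 0) (nat_lit 2435546259) (nat_lit 684) (nat_lit 4013814255) (nat_lit 76) (nat_lit 2657623402) (nat_lit 286) (nat_lit 5) (nat_lit 295) (nat_lit 5) (nat_lit 287) (nat_lit 5) (nat_lit 585) (nat_lit 518) (nat_lit 457)))) (XT.nd (nat_lit 156) (nat_lit 1292) (nat_lit 0) (XT.nd (nat_lit 78) (nat_lit 0) (nat_lit 0) (XT.lf (nat_lit 0) (nat_lit 2254546814) (nat_lit 608) (nat_lit 3065488534) (nat_lit 684) (nat_lit 3873852738) (nat_lit 278) (nat_lit 5) (nat_lit 286) (nat_lit 5) (nat_lit 287) (nat_lit 5) (nat_lit 586) (nat_lit 518) (nat_lit 456)) (XT.lf (nat_lit 0) (nat_lit 8256208736) (nat_lit 684) (nat_lit 628513818)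 (nat_lit 76) (nat_lit 397930573) (nat_lit 278) (nat_lit 5) (nat_lit 287) (nat_lit 5) (nat_lit 279) (nat_lit 5) (nat_lit 587) (nat_lit 518) (nat_lit 455))) (XT.nd (nat_lit 78) (nat_lit 608) (nat_lit 0) (XT.lf (nat_lit 0) (nat_lit 1876588669) (nat_lit 684) (nat_lit 3566142119) (nat_lit 76) (nat_lit 3929755290) (nat_lit 269) (nat_lit 5) (nat_lit 278) (nat_lit 5) (nat_lit 270) (nat_lit 5) (nat_lit 588) (nat_lit 518) (nat_lit 454)) (XT.lf (nat_lit 0) (nat_lit 2899820325) (nat_lit 608) (nat_lit 1912436683) (nat_lit 684) (nat_lit 4651959136) (nat_lit 261) (nat_lit 5) (nat_lit 269) (nat_lit 5) (nat_lit 270) (nat_lit 5) (nat_lit 589) (nat_lit 518) (nat_lit 453))))))) (XT.nd (nat_lit 1014) (nat_lit 3876) (nat_lit 0) (XT.nd (nat_lit 468) (nat_lit 2508) (nat_lit 0) (XT.nd (nat_lit 234) (nat_lit 1140) (nat_lit 0) (XT.nd (nat_lit 78) (nat_lit 1140) (nat_lit 0) (XT.lf (nat_lit 0) (nat_lit 7807237692) (nat_lit 684) (nat_lit 71071223) (nat_lit 76) (nat_lit 1679462394) (nat_lit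 261) (nat_lit 5) (nat_lit 270) (nat_lit 5) (nat_lit 262) (nat_lit 5) (nat_lit 590) (nat_lit 518) (nat_lit 452)) (XT.nd (nat_lit 78) (nat_lit 532) (nat_lit 0) (XT.lf (nat_lit 0) (nat_lit 1214819262) (nat_lit 608) (nat_lit 3080186047) (nat_lit 76) (nat_lit 5357602583) (nat_lit 253) (nat_lit 5) (nat_lit 261) (nat_lit 5) (nat_lit 254) (nat_lit 5) (nat_lit 591) (nat_lit 518) (nat_lit 451)) (XT.lf (nat_lit 0) (nat_lit 3590573222) (nat_lit 532) (nat_lit 615650703) (nat_lit 608) (nat_lit 5543084508) (nat_lit 246) (nat_lit 5) (nat_lit 253) (nat_lit 5) (nat_lit 254) (nat_lit 5) (nat_lit 592) (nat_lit 518) (nat_lit 450)))) (XT.nd (nat_lit 78) (nat_lit 608) (nat_lit 0) (XT.lf (nat_lit 0) (nat_lit 529781743) (nat_lit 532) (nat_lit 6738951075) (nat_lit 608) (nat_lit 2578986932) (nat_lit 239) (nat_lit 5) (nat_lit 246) (nat_lit 5) (nat_lit 247) (nat_lit 5) (nat_lit 593) (nat_lit 518) (nat_lit 449)) (XT.nd (nat_lit 78) (nat_lit 532) (nat_lit 0) (XT.lf (nat_lit 0) (nat_lit 451042803)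 (nat_lit 608) (nat_lit 2564730769) (nat_lit 76) (nat_lit 6932020644) (nat_lit 238) (nat_lit 5) (nat_lit 246) (nat_lit 5) (nat_lit 239) (nat_lit 5) (nat_lit 594) (nat_lit 518) (nat_lit 448)) (XT.lf (nat_lit 0) (nat_lit 3507954949) (nat_lit 608) (nat_lit 5736697382) (nat_lit 76) (nat_lit 804862764) (nat_lit 231) (nat_lit 5) (nat_lit 239) (nat_lit 5) (nat_lit 232) (nat_lit 5) (nat_lit 595) (nat_lit 518) (nat_lit 447))))) (XT.nd (nat_lit 234) (nat_lit 1444) (nat_lit 0) (XT.nd (nat_lit 78) (nat_lit 608) (nat_lit 0) (XT.lf (nat_lit 0) (nat_lit 1159733526) (nat_lit 456) (nat_lit 5478816929) (nat_lit 532) (nat_lit 3514471148) (nat_lit 225) (nat_lit 5) (nat_lit 231) (nat_lit 5) (nat_lit 232) (nat_lit 5) (nat_lit 596) (nat_lit 518) (nat_lit 446)) (XT.nd (nat_lit 78) (nat_lit 608) (nat_lit 0) (XT.lf (nat_lit 0) (nat_lit 8227005330) (nat_lit 456) (nat_lit 1611309247) (nat_lit 532) (nat_lit 420154602) (nat_lit 225) (nat_lit 5) (nat_lit 231) (nat_lit 5) (nat_lit 232) (nat_lit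 5) (nat_lit 597) (nat_lit 518) (nat_lit 445)) (XT.lf (nat_lit 0) (nat_lit 2716988738) (nat_lit 608) (nat_lit 5307059984) (nat_lit 76) (nat_lit 2341287206) (nat_lit 217) (nat_lit 5) (nat_lit 225) (nat_lit 5) (nat_lit 218) (nat_lit 5) (nat_lit 598) (nat_lit 518) (nat_lit 444)))) (XT.nd (nat_lit 156) (nat_lit 988) (nat_lit 0) (XT.nd (nat_lit 78) (nat_lit 0) (nat_lit 0) (XT.lf (nat_lit 0) (nat_lit 1808817912) (nat_lit 456) (nat_lit 4107299152) (nat_lit 532) (nat_lit 4558071997) (nat_lit 211) (nat_lit 5) (nat_lit 217) (nat_lit 5) (nat_lit 218) (nat_lit 5) (nat_lit 599) (nat_lit 518) (nat_lit 443)) (XT.lf (nat_lit 0) (nat_lit 9094604086) (nat_lit 456) (nat_lit 89287620) (nat_lit 532) (nat_lit 1401236190) (nat_lit 211) (nat_lit 5) (nat_lit 217) (nat_lit 5) (nat_lit 218) (nat_lit 5) (nat_lit 600) (nat_lit 518) (nat_lit 442))) (XT.nd (nat_lit 78) (nat_lit 456) (nat_lit 0) (XT.lf (nat_lit 0) (nat_lit 1828585136) (nat_lit 532) (nat_lit 4875340832) (nat_lit 76) (nat_lit 3993451173)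 (nat_lit 204) (nat_lit 5) (nat_lit 211) (nat_lit 5) (nat_lit 205) (nat_lit 5) (nat_lit 601) (nat_lit 518) (nat_lit 441)) (XT.lf (nat_lit 0) (nat_lit 2467690738) (nat_lit 456) (nat_lit 2632932481) (nat_lit 532) (nat_lit 5711137053) (nat_lit 198) (nat_lit 5) (nat_lit 204) (nat_lit 5) (nat_lit 205) (nat_lit 5) (nat_lit 602) (nat_lit 518) (nat_lit 440)))))) (XT.nd (nat_lit 546) (nat_lit 1672) (nat_lit 0) (XT.nd (nat_lit 234) (nat_lit 1292) (nat_lit 0) (XT.nd (nat_lit 78) (nat_lit 912) (nat_lit 0) (XT.lf (nat_lit 0) (nat_lit 8450804176) (nat_lit 532) (nat_lit 958528298) (nat_lit 76) (nat_lit 1518846321) (nat_lit 198) (nat_lit 5) (nat_lit 205) (nat_lit 5) (nat_lit 199) (nat_lit 5) (nat_lit 603) (nat_lit 518) (nat_lit 439)) (XT.nd (nat_lit 78) (nat_lit 380) (nat_lit 0) (XT.lf (nat_lit 0) (nat_lit 841281523) (nat_lit 532) (nat_lit 4451463632) (nat_lit 76) (nat_lit 5753455877) (nat_lit 191) (nat_lit 5) (nat_lit 198) (nat_lit 5) (nat_lit 192) (nat_lit 5) (nat_lit 604) (nat_lit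 518) (nat_lit 438)) (XT.lf (nat_lit 0) (nat_lit 3126587226) (nat_lit 380) (nat_lit 1063954282) (nat_lit 456) (nat_lit 6975768307) (nat_lit 186) (nat_lit 5) (nat_lit 191) (nat_lit 5) (nat_lit 192) (nat_lit 5) (nat_lit 605) (nat_lit 518) (nat_lit 437)))) (XT.nd (nat_lit 156) (nat_lit 836) (nat_lit 0) (XT.nd (nat_lit 78) (nat_lit 456) (nat_lit 0) (XT.lf (nat_lit 0) (nat_lit 7628753966) (nat_lit 456) (nat_lit 436759589) (nat_lit 76) (nat_lit 3222869507) (nat_lit 186) (nat_lit 5) (nat_lit 192) (nat_lit 5) (nat_lit 187) (nat_lit 5) (nat_lit 606) (nat_lit 518) (nat_lit 436)) (XT.lf (nat_lit 0) (nat_lit 7364885923) (nat_lit 456) (nat_lit 3797081509) (nat_lit 532) (nat_lit 250407208) (nat_lit 180) (nat_lit 5) (nat_lit 186) (nat_lit 5) (nat_lit 187) (nat_lit 5) (nat_lit 607) (nat_lit 518) (nat_lit 435))) (XT.nd (nat_lit 78) (nat_lit 380) (nat_lit 0) (XT.lf (nat_lit 0) (nat_lit 3187447294) (nat_lit 456) (nat_lit 7767073182) (nat_lit 76) (nat_lit 583852662) (nat_lit 174) (nat_lit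 5) (nat_lit 180) (nat_lit 5) (nat_lit 175) (nat_lit 5) (nat_lit 608) (nat_lit 518) (nat_lit 434)) (XT.lf (nat_lit 0) (nat_lit 65647098) (nat_lit 380) (nat_lit 6649631181) (nat_lit 456) (nat_lit 4951090283) (nat_lit 169) (nat_lit 5) (nat_lit 174) (nat_lit 5) (nat_lit 175) (nat_lit 5) (nat_lit 609) (nat_lit 518) (nat_lit 433))))) (XT.nd (nat_lit 234) (nat_lit 836) (nat_lit 0) (XT.nd (nat_lit 78) (nat_lit 836) (nat_lit 0) (XT.lf (nat_lit 0) (nat_lit 8117380553) (nat_lit 380) (nat_lit 2220339639) (nat_lit 456) (nat_lit 1458724097) (nat_lit 169) (nat_lit 5) (nat_lit 174) (nat_lit 5) (nat_lit 175) (nat_lit 5) (nat_lit 610) (nat_lit 518) (nat_lit 432)) (XT.nd (nat_lit 78) (nat_lit 380) (nat_lit 0) (XT.lf (nat_lit 0) (nat_lit 2091887670) (nat_lit 456) (nat_lit 7541275477) (nat_lit 76) (nat_lit 2295366943) (nat_lit 163) (nat_lit 5) (nat_lit 169) (nat_lit 5) (nat_lit 164) (nat_lit 5) (nat_lit 611) (nat_lit 518) (nat_lit 431)) (XT.lf (nat_lit 0) (nat_lit 541957079) (nat_lit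 380) (nat_lit 5167588889) (nat_lit 456) (nat_lit 6353208858) (nat_lit 158) (nat_lit 5) (nat_lit 163) (nat_lit 5) (nat_lit 164) (nat_lit 5) (nat_lit 612) (nat_lit 518) (nat_lit 430)))) (XT.nd (nat_lit 156) (nat_lit 380) (nat_lit 0) (XT.nd (nat_lit 78) (nat_lit 456) (nat_lit 0) (XT.lf (nat_lit 0) (nat_lit 8846729918) (nat_lit 380) (nat_lit 576171644) (nat_lit 456) (nat_lit 2776296979) (nat_lit 158) (nat_lit 5) (nat_lit 163) (nat_lit 5) (nat_lit 164) (nat_lit 5) (nat_lit 613) (nat_lit 518) (nat_lit 429)) (XT.lf (nat_lit 0) (nat_lit 893075443) (nat_lit 456) (nat_lit 7367742250) (nat_lit 76) (nat_lit 4076794283) (nat_lit 152) (nat_lit 5) (nat_lit 158) (nat_lit 5) (nat_lit 153) (nat_lit 5) (nat_lit 614) (nat_lit 518) (nat_lit 428))) (XT.nd (nat_lit 78) (nat_lit 0) (nat_lit 0) (XT.lf (nat_lit 0) (nat_lit 974141452) (nat_lit 380) (nat_lit 3630595080) (nat_lit 456) (nat_lit 7873569893) (nat_lit 147) (nat_lit 5) (nat_lit 152) (nat_lit 5) (nat_lit 153) (nat_lit 5) (nat_lit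 615) (nat_lit 518) (nat_lit 427)) (XT.lf (nat_lit 0) (nat_lit 8420900113) (nat_lit 456) (nat_lit 3087704249) (nat_lit 76) (nat_lit 1112606280) (nat_lit 147) (nat_lit 5) (nat_lit 153) (nat_lit 5) (nat_lit 148) (nat_lit 5) (nat_lit 616) (nat_lit 518) (nat_lit 426))))))))
noncomputable def xc75 : XT := (XT.nd (nat_lit 2106) (nat_lit 684) (nat_lit 0) (XT.nd (nat_lit 1014) (nat_lit 2508) (nat_lit 0) (XT.nd (nat_lit 468) (nat_lit 1596) (nat_lit 0) (XT.nd (nat_lit 234) (nat_lit 684) (nat_lit 0) (XT.nd (nat_lit 78) (nat_lit 456) (nat_lit 0) (XT.lf (nat_lit 0) (nat_lit 5503859548) (nat_lit 304) (nat_lit 6843236113) (nat_lit 380) (nat_lit 419204345) (nat_lit 143) (nat_lit 5) (nat_lit 147) (nat_lit 5) (nat_lit 148) (nat_lit 5) (nat_lit 617) (nat_lit 518) (nat_lit 425)) (XT.nd (nat_lit 78) (nat_lit 0) (nat_lit 0) (XT.lf (nat_lit 0) (nat_lit 1349028241) (nat_lit 380) (nat_lit 2047030545) (nat_lit 456) (nat_lit 9517714816) (nat_lit 137) (nat_lit 5) (nat_lit 142) (nat_lit 5)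 (nat_lit 143) (nat_lit 5) (nat_lit 618) (nat_lit 518) (nat_lit 424)) (XT.lf (nat_lit 0) (nat_lit 7323693932) (nat_lit 456) (nat_lit 2895207239) (nat_lit 76) (nat_lit 2844407650) (nat_lit 137) (nat_lit 5) (nat_lit 143) (nat_lit 5) (nat_lit 138) (nat_lit 5) (nat_lit 619) (nat_lit 518) (nat_lit 423)))) (XT.nd (nat_lit 78) (nat_lit 380) (nat_lit 0) (XT.lf (nat_lit 0) (nat_lit 5971716001) (nat_lit 304) (nat_lit 5385146411) (nat_lit 380) (nat_lit 1858433863) (nat_lit 133) (nat_lit 5) (nat_lit 137) (nat_lit 5) (nat_lit 138) (nat_lit 5) (nat_lit 620) (nat_lit 518) (nat_lit 422)) (XT.nd (nat_lit 78) (nat_lit 0) (nat_lit 0) (XT.lf (nat_lit 0) (nat_lit 1652355222) (nat_lit 304) (nat_lit 425472471) (nat_lit 380) (nat_lit 11292124071) (nat_lit 128) (nat_lit 5) (nat_lit 132) (nat_lit 5) (nat_lit 133) (nat_lit 5) (nat_lit 621) (nat_lit 518) (nat_lit 421)) (XT.lf (nat_lit 0) (nat_lit 6121816515) (nat_lit 380) (nat_lit 2786013387) (nat_lit 76) (nat_lit 4618548126) (nat_lit 128)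 (nat_lit 5) (nat_lit 133) (nat_lit 5) (nat_lit 129) (nat_lit 5) (nat_lit 622) (nat_lit 518) (nat_lit 420))))) (XT.nd (nat_lit 234) (nat_lit 912) (nat_lit 0) (XT.nd (nat_lit 78) (nat_lit 380) (nat_lit 0) (XT.lf (nat_lit 0) (nat_lit 6364690378) (nat_lit 304) (nat_lit 3901479342) (nat_lit 380) (nat_lit 3419374460) (nat_lit 124) (nat_lit 5) (nat_lit 128) (nat_lit 5) (nat_lit 129) (nat_lit 5) (nat_lit 623) (nat_lit 518) (nat_lit 419)) (XT.nd (nat_lit 78) (nat_lit 0) (nat_lit 0) (XT.lf (nat_lit 0) (nat_lit 651361533) (nat_lit 380) (nat_lit 11987023710) (nat_lit 76) (nat_lit 1209139382) (nat_lit 119) (nat_lit 5) (nat_lit 124) (nat_lit 5) (nat_lit 120) (nat_lit 5) (nat_lit 624) (nat_lit 518) (nat_lit 418)) (XT.lf (nat_lit 0) (nat_lit 4808585568) (nat_lit 380) (nat_lit 2776204685) (nat_lit 76) (nat_lit 6426486204) (nat_lit 119) (nat_lit 5) (nat_lit 124) (nat_lit 5) (nat_lit 120) (nat_lit 5) (nat_lit 625) (nat_lit 518) (nat_lit 417)))) (XT.nd (nat_lit 156) (nat_lit 304)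 (nat_lit 0) (XT.nd (nat_lit 78) (nat_lit 304) (nat_lit 0) (XT.lf (nat_lit 0) (nat_lit 6666703427) (nat_lit 304) (nat_lit 2401541406) (nat_lit 380) (nat_lit 5109673654) (nat_lit 115) (nat_lit 5) (nat_lit 119) (nat_lit 5) (nat_lit 120) (nat_lit 5) (nat_lit 626) (nat_lit 518) (nat_lit 416)) (XT.lf (nat_lit 0) (nat_lit 1955695525) (nat_lit 304) (nat_lit 11483706948) (nat_lit 380) (nat_lit 907965738) (nat_lit 111) (nat_lit 5) (nat_lit 115) (nat_lit 5) (nat_lit 116) (nat_lit 5) (nat_lit 627) (nat_lit 518) (nat_lit 415))) (XT.nd (nat_lit 78) (nat_lit 228) (nat_lit 0) (XT.lf (nat_lit 0) (nat_lit 3376293684) (nat_lit 380) (nat_lit 2883341111) (nat_lit 76) (nat_lit 8259278090) (nat_lit 110) (nat_lit 5) (nat_lit 115) (nat_lit 5) (nat_lit 111) (nat_lit 5) (nat_lit 628) (nat_lit 518) (nat_lit 414)) (XT.lf (nat_lit 0) (nat_lit 6860161158) (nat_lit 228) (nat_lit 895113946) (nat_lit 304) (nat_lit 6938070327) (nat_lit 107) (nat_lit 5) (nat_lit 110) (nat_lit 5) (nat_lit 111) (nat_lit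 5) (nat_lit 629) (nat_lit 518) (nat_lit 413)))))) (XT.nd (nat_lit 546) (nat_lit 1064) (nat_lit 0) (XT.nd (nat_lit 234) (nat_lit 836) (nat_lit 0) (XT.nd (nat_lit 78) (nat_lit 304) (nat_lit 0) (XT.lf (nat_lit 0) (nat_lit 1923054543) (nat_lit 304) (nat_lit 10337207359) (nat_lit 380) (nat_lit 2610237096) (nat_lit 103) (nat_lit 5) (nat_lit 107) (nat_lit 5) (nat_lit 108) (nat_lit 5) (nat_lit 630) (nat_lit 518) (nat_lit 412)) (XT.nd (nat_lit 78) (nat_lit 228) (nat_lit 0) (XT.lf (nat_lit 0) (nat_lit 1816130473) (nat_lit 380) (nat_lit 3126649138) (nat_lit 76) (nat_lit 10107469810) (nat_lit 102) (nat_lit 5) (nat_lit 107) (nat_lit 5) (nat_lit 103) (nat_lit 5) (nat_lit 631) (nat_lit 518) (nat_lit 411)) (XT.lf (nat_lit 0) (nat_lit 6322271075) (nat_lit 304) (nat_lit 8310988163) (nat_lit 76) (nat_lit 599467440) (nat_lit 99) (nat_lit 5) (nat_lit 103) (nat_lit 5) (nat_lit 100) (nat_lit 5) (nat_lit 632) (nat_lit 518) (nat_lit 410)))) (XT.nd (nat_lit 156) (nat_lit 456) (nat_lit 0)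 (XT.nd (nat_lit 78) (nat_lit 76) (nat_lit 0) (XT.lf (nat_lit 0) (nat_lit 1746631785) (nat_lit 304) (nat_lit 9214448360) (nat_lit 380) (nat_lit 4456923238) (nat_lit 95) (nat_lit 5) (nat_lit 99) (nat_lit 5) (nat_lit 100) (nat_lit 5) (nat_lit 633) (nat_lit 518) (nat_lit 409)) (XT.lf (nat_lit 0) (nat_lit 118094468) (nat_lit 380) (nat_lit 3527227934) (nat_lit 76) (nat_lit 11960982113) (nat_lit 94) (nat_lit 5) (nat_lit 99) (nat_lit 5) (nat_lit 95) (nat_lit 5) (nat_lit 634) (nat_lit 518) (nat_lit 408))) (XT.nd (nat_lit 78) (nat_lit 228) (nat_lit 0) (XT.lf (nat_lit 0) (nat_lit 4760858161) (nat_lit 304) (nat_lit 8968657872) (nat_lit 76) (nat_lit 2067548723) (nat_lit 91) (nat_lit 5) (nat_lit 95) (nat_lit 5) (nat_lit 92) (nat_lit 5) (nat_lit 635) (nat_lit 518) (nat_lit 407)) (XT.lf (nat_lit 0) (nat_lit 1404086861) (nat_lit 228) (nat_lit 8127405462) (nat_lit 304) (nat_lit 6459448331) (nat_lit 88) (nat_lit 5) (nat_lit 91) (nat_lit 5) (nat_lit 92) (nat_lit 5) (nat_lit 636) (nat_lit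 518) (nat_lit 406))))) (XT.nd (nat_lit 234) (nat_lit 532) (nat_lit 0) (XT.nd (nat_lit 78) (nat_lit 532) (nat_lit 0) (XT.lf (nat_lit 0) (nat_lit 12068277767) (nat_lit 228) (nat_lit 2367565944) (nat_lit 304) (nat_lit 1752085006) (nat_lit 88) (nat_lit 5) (nat_lit 91) (nat_lit 5) (nat_lit 92) (nat_lit 5) (nat_lit 637) (nat_lit 518) (nat_lit 405)) (XT.nd (nat_lit 78) (nat_lit 228) (nat_lit 0) (XT.lf (nat_lit 0) (nat_lit 3053687374) (nat_lit 304) (nat_lit 9824778008) (nat_lit 76) (nat_lit 3509110783) (nat_lit 84) (nat_lit 5) (nat_lit 88) (nat_lit 5) (nat_lit 85) (nat_lit 5) (nat_lit 638) (nat_lit 518) (nat_lit 404)) (XT.lf (nat_lit 0) (nat_lit 870814755) (nat_lit 228) (nat_lit 7088972999) (nat_lit 304) (nat_lit 8630644418) (nat_lit 81) (nat_lit 5) (nat_lit 84) (nat_lit 5) (nat_lit 85) (nat_lit 5) (nat_lit 639) (nat_lit 518) (nat_lit 403)))) (XT.nd (nat_lit 156) (nat_lit 228) (nat_lit 0) (XT.nd (nat_lit 78) (nat_lit 304) (nat_lit 0) (XT.lf (nat_lit 0) (nat_lit 11876525529)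 (nat_lit 228) (nat_lit 1132085556) (nat_lit 304) (nat_lit 3787842882) (nat_lit 81) (nat_lit 5) (nat_lit 84) (nat_lit 5) (nat_lit 85) (nat_lit 5) (nat_lit 640) (nat_lit 518) (nat_lit 402)) (XT.lf (nat_lit 0) (nat_lit 1187785185) (nat_lit 304) (nat_lit 10906210258) (nat_lit 76) (nat_lit 4911430308) (nat_lit 77) (nat_lit 5) (nat_lit 81) (nat_lit 5) (nat_lit 78) (nat_lit 5) (nat_lit 641) (nat_lit 518) (nat_lit 401))) (XT.nd (nat_lit 78) (nat_lit 0) (nat_lit 0) (XT.lf (nat_lit 0) (nat_lit 119680781) (nat_lit 228) (nat_lit 6113109117) (nat_lit 304) (nat_lit 10984875297) (nat_lit 74) (nat_lit 5) (nat_lit 77) (nat_lit 5) (nat_lit 78) (nat_lit 5) (nat_lit 642) (nat_lit 518) (nat_lit 400)) (XT.lf (nat_lit 0) (nat_lit 11431385650) (nat_lit 304) (nat_lit 5955841503) (nat_lit 76) (nat_lit 45869090) (nat_lit 74) (nat_lit 5) (nat_lit 78) (nat_lit 5) (nat_lit 75) (nat_lit 5) (nat_lit 643) (nat_lit 518) (nat_lit 399))))))) (XT.nd (nat_lit 72462) (nat_lit 0) (nat_lit 46208) (XT.nd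 (nat_lit 71916) (nat_lit 0) (nat_lit 52440) (XT.nd (nat_lit 234) (nat_lit 152) (nat_lit 0) (XT.nd (nat_lit 78) (nat_lit 304) (nat_lit 0) (XT.lf (nat_lit 0) (nat_lit 5403568922) (nat_lit 228) (nat_lit 11385463577) (nat_lit 304) (nat_lit 862702447) (nat_lit 71) (nat_lit 5) (nat_lit 74) (nat_lit 5) (nat_lit 75) (nat_lit 5) (nat_lit 644) (nat_lit 518) (nat_lit 398)) (XT.nd (nat_lit 78) (nat_lit 228) (nat_lit 0) (XT.lf (nat_lit 0) (nat_lit 4341430975) (nat_lit 304) (nat_lit 867738936) (nat_lit 76) (nat_lit 12664612916) (nat_lit 70) (nat_lit 5) (nat_lit 74) (nat_lit 5) (nat_lit 71) (nat_lit 5) (nat_lit 645) (nat_lit 518) (nat_lit 397)) (XT.lf (nat_lit 0) (nat_lit 9695929810) (nat_lit 304) (nat_lit 7265156111) (nat_lit 76) (nat_lit 1137915592) (nat_lit 67) (nat_lit 5) (nat_lit 71) (nat_lit 5) (nat_lit 68) (nat_lit 5) (nat_lit 646) (nat_lit 518) (nat_lit 396)))) (XT.nd (nat_lit 71526) (nat_lit 0) (nat_lit 53580) (XT.nd (nat_lit 71448) (nat_lit 0) (nat_lit 53808) (XT.lf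 (nat_lit 0) (nat_lit 4440965789) (nat_lit 152) (nat_lit 10765760123) (nat_lit 228) (nat_lit 3121015087) (nat_lit 65) (nat_lit 5) (nat_lit 67) (nat_lit 5) (nat_lit 68) (nat_lit 5) (nat_lit 647) (nat_lit 518) (nat_lit 395)) (XT.lf (nat_lit 0) (nat_lit 13035213) (nat_lit 76) (nat_lit 1604518672) (nat_lit 76) (nat_lit 1604518672) (nat_lit 773) (nat_lit 4) (nat_lit 774) (nat_lit 5) (nat_lit 774) (nat_lit 4) (nat_lit 522) (nat_lit 519) (nat_lit 519))) (XT.nd (nat_lit 78) (nat_lit 228) (nat_lit 0) (XT.lf (nat_lit 0) (nat_lit 3346408282) (nat_lit 76) (nat_lit 3084277997) (nat_lit 76) (nat_lit 16001908) (nat_lit 773) (nat_lit 4) (nat_lit 774) (nat_lit 5) (nat_lit 774) (nat_lit 4) (nat_lit 523) (nat_lit 519) (nat_lit 518)) (XT.lf (nat_lit 0) (nat_lit 221372750) (nat_lit 152) (nat_lit 2896331532) (nat_lit 228) (nat_lit 3332785124) (nat_lit 770) (nat_lit 5) (nat_lit 772) (nat_lit 5) (nat_lit 773) (nat_lit 4) (nat_lit 524) (nat_lit 519) (nat_lit 517))))) (XT.nd (nat_lit 234)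 (nat_lit 836) (nat_lit 0) (XT.nd (nat_lit 78) (nat_lit 304) (nat_lit 0) (XT.lf (nat_lit 0) (nat_lit 3607308693) (nat_lit 152) (nat_lit 2646567437) (nat_lit 228) (nat_lit 201702434) (nat_lit 770) (nat_lit 5) (nat_lit 772) (nat_lit 5) (nat_lit 773) (nat_lit 4) (nat_lit 525) (nat_lit 519) (nat_lit 516)) (XT.nd (nat_lit 78) (nat_lit 0) (nat_lit 0) (XT.lf (nat_lit 0) (nat_lit 543620585) (nat_lit 228) (nat_lit 2332918010) (nat_lit 304) (nat_lit 3585380436) (nat_lit 766) (nat_lit 5) (nat_lit 769) (nat_lit 5) (nat_lit 770) (nat_lit 5) (nat_lit 526) (nat_lit 519) (nat_lit 515)) (XT.lf (nat_lit 0) (nat_lit 3996618777) (nat_lit 228) (nat_lit 1957657966) (nat_lit 304) (nat_lit 515283566) (nat_lit 766) (nat_lit 5) (nat_lit 769) (nat_lit 5) (nat_lit 770) (nat_lit 5) (nat_lit 527) (nat_lit 519) (nat_lit 514)))) (XT.nd (nat_lit 156) (nat_lit 456) (nat_lit 0) (XT.nd (nat_lit 78) (nat_lit 0) (nat_lit 0) (XT.lf (nat_lit 0) (nat_lit 993196960) (nat_lit 304) (nat_lit 1517696914) (nat_lit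 380) (nat_lit 3967553810) (nat_lit 761) (nat_lit 5) (nat_lit 765) (nat_lit 5) (nat_lit 766) (nat_lit 5) (nat_lit 528) (nat_lit 519) (nat_lit 513)) (XT.lf (nat_lit 0) (nat_lit 4514847022) (nat_lit 304) (nat_lit 1016203123) (nat_lit 380) (nat_lit 957600003) (nat_lit 761) (nat_lit 5) (nat_lit 765) (nat_lit 5) (nat_lit 766) (nat_lit 5) (nat_lit 529) (nat_lit 519) (nat_lit 512))) (XT.nd (nat_lit 78) (nat_lit 0) (nat_lit 0) (XT.lf (nat_lit 0) (nat_lit 1570731369) (nat_lit 380) (nat_lit 449076953) (nat_lit 456) (nat_lit 4480286849) (nat_lit 755) (nat_lit 5) (nat_lit 760) (nat_lit 5) (nat_lit 761) (nat_lit 5) (nat_lit 530) (nat_lit 519) (nat_lit 511)) (XT.lf (nat_lit 0) (nat_lit 4984279370) (nat_lit 456) (nat_lit 1351288005) (nat_lit 76) (nat_lit 177280225) (nat_lit 755) (nat_lit 5) (nat_lit 761) (nat_lit 5) (nat_lit 756) (nat_lit 5) (nat_lit 531) (nat_lit 519) (nat_lit 510)))))) (XT.nd (nat_lit 546) (nat_lit 3724) (nat_lit 0) (XT.nd (nat_lit 234) (nat_lit 1368) (nat_lit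 0) (XT.nd (nat_lit 78) (nat_lit 608) (nat_lit 0) (XT.lf (nat_lit 0) (nat_lit 1407754419) (nat_lit 532) (nat_lit 4255468364) (nat_lit 76) (nat_lit 863551028) (nat_lit 748) (nat_lit 5) (nat_lit 755) (nat_lit 5) (nat_lit 749) (nat_lit 5) (nat_lit 532) (nat_lit 519) (nat_lit 509)) (XT.nd (nat_lit 78) (nat_lit 608) (nat_lit 0) (XT.lf (nat_lit 0) (nat_lit 4319731959) (nat_lit 532) (nat_lit 611519608) (nat_lit 76) (nat_lit 1610788136) (nat_lit 748) (nat_lit 5) (nat_lit 755) (nat_lit 5) (nat_lit 749) (nat_lit 5) (nat_lit 533) (nat_lit 519) (nat_lit 508)) (XT.lf (nat_lit 0) (nat_lit 672183991) (nat_lit 608) (nat_lit 3461382017) (nat_lit 76) (nat_lit 2424971516) (nat_lit 740) (nat_lit 5) (nat_lit 748) (nat_lit 5) (nat_lit 741) (nat_lit 5) (nat_lit 534) (nat_lit 519) (nat_lit 507)))) (XT.nd (nat_lit 156) (nat_lit 760) (nat_lit 0) (XT.nd (nat_lit 78) (nat_lit 0) (nat_lit 0) (XT.lf (nat_lit 0) (nat_lit 256665693) (nat_lit 608) (nat_lit 3274248270) (nat_lit 684) (nat_lit 3045445956)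 (nat_lit 732) (nat_lit 5) (nat_lit 740) (nat_lit 5) (nat_lit 741) (nat_lit 5) (nat_lit 535) (nat_lit 519) (nat_lit 506)) (XT.lf (nat_lit 0) (nat_lit 4051323851) (nat_lit 608) (nat_lit 2350079455) (nat_lit 684) (nat_lit 194054066) (nat_lit 732) (nat_lit 5) (nat_lit 740) (nat_lit 5) (nat_lit 741) (nat_lit 5) (nat_lit 536) (nat_lit 519) (nat_lit 505))) (XT.nd (nat_lit 78) (nat_lit 0) (nat_lit 0) (XT.lf (nat_lit 0) (nat_lit 1261150287) (nat_lit 684) (nat_lit 1358051575) (nat_lit 760) (nat_lit 3996583632) (nat_lit 722) (nat_lit 5) (nat_lit 731) (nat_lit 5) (nat_lit 732) (nat_lit 5) (nat_lit 537) (nat_lit 519) (nat_lit 504)) (XT.lf (nat_lit 0) (nat_lit 5131313217) (nat_lit 684) (nat_lit 305165267) (nat_lit 760) (nat_lit 1201018671) (nat_lit 722) (nat_lit 5) (nat_lit 731) (nat_lit 5) (nat_lit 732) (nat_lit 5) (nat_lit 538) (nat_lit 519) (nat_lit 503))))) (XT.nd (nat_lit 234) (nat_lit 1976) (nat_lit 0) (XT.nd (nat_lit 78) (nat_lit 912) (nat_lit 0) (XT.lf (nat_lit 0) (nat_lit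 1583822345) (nat_lit 836) (nat_lit 4270234688) (nat_lit 76) (nat_lit 806280814) (nat_lit 711) (nat_lit 5) (nat_lit 722) (nat_lit 5) (nat_lit 712) (nat_lit 5) (nat_lit 539) (nat_lit 519) (nat_lit 502)) (XT.nd (nat_lit 78) (nat_lit 912) (nat_lit 0) (XT.lf (nat_lit 0) (nat_lit 4355780868) (nat_lit 836) (nat_lit 354314702) (nat_lit 76) (nat_lit 1974440113) (nat_lit 711) (nat_lit 5) (nat_lit 722) (nat_lit 5) (nat_lit 712) (nat_lit 5) (nat_lit 540) (nat_lit 519) (nat_lit 501)) (XT.lf (nat_lit 0) (nat_lit 427686480) (nat_lit 912) (nat_lit 3069812273) (nat_lit 76) (nat_lit 3212467141) (nat_lit 699) (nat_lit 5) (nat_lit 711) (nat_lit 5) (nat_lit 700) (nat_lit 5) (nat_lit 541) (nat_lit 519) (nat_lit 500)))) (XT.nd (nat_lit 156) (nat_lit 1064) (nat_lit 0) (XT.nd (nat_lit 78) (nat_lit 0) (nat_lit 0) (XT.lf (nat_lit 0) (nat_lit 935052769) (nat_lit 912) (nat_lit 2218609462) (nat_lit 988) (nat_lit 3583031484) (nat_lit 687) (nat_lit 5) (nat_lit 699) (nat_lit 5) (nat_lit 700) (nat_lit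 5) (nat_lit 542) (nat_lit 519) (nat_lit 499)) (XT.lf (nat_lit 0) (nat_lit 5016695151) (nat_lit 912) (nat_lit 876098263) (nat_lit 988) (nat_lit 871998413) (nat_lit 687) (nat_lit 5) (nat_lit 699) (nat_lit 5) (nat_lit 700) (nat_lit 5) (nat_lit 543) (nat_lit 519) (nat_lit 498))) (XT.nd (nat_lit 78) (nat_lit 0) (nat_lit 0) (XT.lf (nat_lit 0) (nat_lit 1826081224) (nat_lit 1064) (nat_lit 4437311969) (nat_lit 76) (nat_lit 530667861) (nat_lit 673) (nat_lit 5) (nat_lit 687) (nat_lit 5) (nat_lit 674) (nat_lit 5) (nat_lit 544) (nat_lit 519) (nat_lit 497)) (XT.lf (nat_lit 0) (nat_lit 4523919521) (nat_lit 1064) (nat_lit 313839334) (nat_lit 76) (nat_lit 1986900034) (nat_lit 673) (nat_lit 5) (nat_lit 687) (nat_lit 5) (nat_lit 674) (nat_lit 5) (nat_lit 545) (nat_lit 519) (nat_lit 496))))))))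
noncomputable def xc76 : XT := (XT.nd (nat_lit 2106) (nat_lit 11780) (nat_lit 0) (XT.nd (nat_lit 1014) (nat_lit 10184) (nat_lit 0) (XT.nd (nat_lit 468) (nat_lit 7828) (nat_lit 0) (XT.nd (nat_lit 234) (nat_lit 2584) (nat_lit 0) (XT.nd (nat_lit 78) (nat_lit 1140) (nat_lit 0) (XT.lf (nat_lit 0) (nat_lit 380450152) (nat_lit 1140) (nat_lit 2960815429) (nat_lit 76) (nat_lit 3515234026) (nat_lit 658) (nat_lit 5) (nat_lit 673) (nat_lit 5) (nat_lit 659) (nat_lit 5) (nat_lit 546) (nat_lit 519) (nat_lit 495)) (XT.nd (nat_lit 78) (nat_lit 0) (nat_lit 0) (XT.lf (nat_lit 0) (nat_lit 1260518095) (nat_lit 1140) (nat_lit 1775776349) (nat_lit 1216) (nat_lit 3853349285) (nat_lit 643) (nat_lit 5) (nat_lit 658) (nat_lit 5) (nat_lit 659) (nat_lit 5) (nat_lit 547) (nat_lit 519) (nat_lit 494)) (XT.lf (nat_lit 0) (nat_lit 5561231625) (nat_lit 1140) (nat_lit 146251232) (nat_lit 1216) (nat_lit 1216730690) (nat_lit 643) (nat_lit 5) (nat_lit 658) (nat_lit 5) (nat_lit 659) (nat_lit 5) (nat_lit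 548) (nat_lit 519) (nat_lit 493)))) (XT.nd (nat_lit 78) (nat_lit 1292) (nat_lit 0) (XT.lf (nat_lit 0) (nat_lit 1425825778) (nat_lit 1292) (nat_lit 3997297982) (nat_lit 76) (nat_lit 1536716467) (nat_lit 626) (nat_lit 5) (nat_lit 643) (nat_lit 5) (nat_lit 627) (nat_lit 5) (nat_lit 549) (nat_lit 519) (nat_lit 492)) (XT.nd (nat_lit 78) (nat_lit 0) (nat_lit 0) (XT.lf (nat_lit 0) (nat_lit 346550304) (nat_lit 1292) (nat_lit 3714837540) (nat_lit 1368) (nat_lit 2935508747) (nat_lit 609) (nat_lit 5) (nat_lit 626) (nat_lit 5) (nat_lit 627) (nat_lit 5) (nat_lit 550) (nat_lit 519) (nat_lit 491)) (XT.lf (nat_lit 0) (nat_lit 4785798590) (nat_lit 1292) (nat_lit 1935493777) (nat_lit 1368) (nat_lit 313975890) (nat_lit 609) (nat_lit 5) (nat_lit 626) (nat_lit 5) (nat_lit 627) (nat_lit 5) (nat_lit 551) (nat_lit 519) (nat_lit 490))))) (XT.nd (nat_lit 234) (nat_lit 4864) (nat_lit 0) (XT.nd (nat_lit 78) (nat_lit 1520) (nat_lit 0) (XT.lf (nat_lit 0) (nat_lit 2207557843) (nat_lit 1368)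 (nat_lit 81335575) (nat_lit 1444) (nat_lit 4786016871) (nat_lit 590) (nat_lit 5) (nat_lit 608) (nat_lit 5) (nat_lit 609) (nat_lit 5) (nat_lit 552) (nat_lit 519) (nat_lit 489)) (XT.nd (nat_lit 78) (nat_lit 1520) (nat_lit 0) (XT.lf (nat_lit 0) (nat_lit 4912920543) (nat_lit 1444) (nat_lit 391088457) (nat_lit 76) (nat_lit 1811834968) (nat_lit 590) (nat_lit 5) (nat_lit 609) (nat_lit 5) (nat_lit 591) (nat_lit 5) (nat_lit 553) (nat_lit 519) (nat_lit 488)) (XT.lf (nat_lit 0) (nat_lit 401104990) (nat_lit 1520) (nat_lit 2977132759) (nat_lit 76) (nat_lit 3779809920) (nat_lit 570) (nat_lit 5) (nat_lit 590) (nat_lit 5) (nat_lit 571) (nat_lit 5) (nat_lit 554) (nat_lit 519) (nat_lit 487)))) (XT.nd (nat_lit 156) (nat_lit 3344) (nat_lit 0) (XT.nd (nat_lit 78) (nat_lit 0) (nat_lit 0) (XT.lf (nat_lit 0) (nat_lit 1609291214) (nat_lit 1520) (nat_lit 1379338647) (nat_lit 1596) (nat_lit 4212962134) (nat_lit 550) (nat_lit 5) (nat_lit 570) (nat_lit 5) (nat_lit 571) (nat_lit 5) (nat_lit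 555) (nat_lit 519) (nat_lit 486)) (XT.lf (nat_lit 0) (nat_lit 5600859612) (nat_lit 1596) (nat_lit 968820597) (nat_lit 76) (nat_lit 676873829) (nat_lit 550) (nat_lit 5) (nat_lit 571) (nat_lit 5) (nat_lit 551) (nat_lit 5) (nat_lit 556) (nat_lit 519) (nat_lit 485))) (XT.nd (nat_lit 78) (nat_lit 1672) (nat_lit 0) (XT.lf (nat_lit 0) (nat_lit 943036889) (nat_lit 1672) (nat_lit 3557586310) (nat_lit 76) (nat_lit 2792013908) (nat_lit 528) (nat_lit 5) (nat_lit 550) (nat_lit 5) (nat_lit 529) (nat_lit 5) (nat_lit 557) (nat_lit 519) (nat_lit 484)) (XT.lf (nat_lit 0) (nat_lit 1164901912) (nat_lit 1672) (nat_lit 2360662882) (nat_lit 1748) (nat_lit 3814583903) (nat_lit 506) (nat_lit 5) (nat_lit 528) (nat_lit 5) (nat_lit 529) (nat_lit 5) (nat_lit 558) (nat_lit 519) (nat_lit 483)))))) (XT.nd (nat_lit 546) (nat_lit 4484) (nat_lit 0) (XT.nd (nat_lit 234) (nat_lit 2052) (nat_lit 0) (XT.nd (nat_lit 78) (nat_lit 3648) (nat_lit 0) (XT.lf (nat_lit 0) (nat_lit 5984312192) (nat_lit 1672)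 (nat_lit 149918614) (nat_lit 1748) (nat_lit 1254895430) (nat_lit 506) (nat_lit 5) (nat_lit 528) (nat_lit 5) (nat_lit 529) (nat_lit 5) (nat_lit 559) (nat_lit 519) (nat_lit 482)) (XT.nd (nat_lit 78) (nat_lit 1824) (nat_lit 0) (XT.lf (nat_lit 0) (nat_lit 1325767147) (nat_lit 1824) (nat_lit 4001344993) (nat_lit 76) (nat_lit 2112049074) (nat_lit 482) (nat_lit 5) (nat_lit 506) (nat_lit 5) (nat_lit 483) (nat_lit 5) (nat_lit 560) (nat_lit 519) (nat_lit 481)) (XT.lf (nat_lit 0) (nat_lit 862080171) (nat_lit 1824) (nat_lit 3047192534) (nat_lit 1900) (nat_lit 3581402786) (nat_lit 458) (nat_lit 5) (nat_lit 482) (nat_lit 5) (nat_lit 483) (nat_lit 5) (nat_lit 561) (nat_lit 519) (nat_lit 480)))) (XT.nd (nat_lit 156) (nat_lit 912) (nat_lit 0) (XT.nd (nat_lit 78) (nat_lit 1140) (nat_lit 0) (XT.lf (nat_lit 0) (nat_lit 5831123336) (nat_lit 1824) (nat_lit 692758188) (nat_lit 1900) (nat_lit 1019754918) (nat_lit 458) (nat_lit 5) (nat_lit 482) (nat_lit 5) (nat_lit 483) (nat_lit 5) (nat_lit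 562) (nat_lit 519) (nat_lit 479)) (XT.lf (nat_lit 0) (nat_lit 1558097652) (nat_lit 1140) (nat_lit 4320208543) (nat_lit 76) (nat_lit 1719431081) (nat_lit 443) (nat_lit 5) (nat_lit 458) (nat_lit 5) (nat_lit 444) (nat_lit 5) (nat_lit 563) (nat_lit 519) (nat_lit 478))) (XT.nd (nat_lit 78) (nat_lit 0) (nat_lit 0) (XT.lf (nat_lit 0) (nat_lit 689266698) (nat_lit 912) (nat_lit 3459057827) (nat_lit 988) (nat_lit 3504976115) (nat_lit 431) (nat_lit 5) (nat_lit 443) (nat_lit 5) (nat_lit 444) (nat_lit 5) (nat_lit 564) (nat_lit 519) (nat_lit 477)) (XT.lf (nat_lit 0) (nat_lit 5811546695) (nat_lit 912) (nat_lit 962235187) (nat_lit 988) (nat_lit 936529535) (nat_lit 431) (nat_lit 5) (nat_lit 443) (nat_lit 5) (nat_lit 444) (nat_lit 5) (nat_lit 565) (nat_lit 519) (nat_lit 476))))) (XT.nd (nat_lit 234) (nat_lit 2660) (nat_lit 0) (XT.nd (nat_lit 78) (nat_lit 836) (nat_lit 0) (XT.lf (nat_lit 0) (nat_lit 1647859745) (nat_lit 988) (nat_lit 4525311975) (nat_lit 76) (nat_lit 1595343589)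 (nat_lit 418) (nat_lit 5) (nat_lit 431) (nat_lit 5) (nat_lit 419) (nat_lit 5) (nat_lit 566) (nat_lit 519) (nat_lit 475)) (XT.nd (nat_lit 78) (nat_lit 0) (nat_lit 0) (XT.lf (nat_lit 0) (nat_lit 635564052) (nat_lit 836) (nat_lit 3614778643) (nat_lit 912) (nat_lit 3577842251) (nat_lit 407) (nat_lit 5) (nat_lit 418) (nat_lit 5) (nat_lit 419) (nat_lit 5) (nat_lit 567) (nat_lit 519) (nat_lit 474)) (XT.lf (nat_lit 0) (nat_lit 5915070495) (nat_lit 836) (nat_lit 976353518) (nat_lit 912) (nat_lit 997897299) (nat_lit 407) (nat_lit 5) (nat_lit 418) (nat_lit 5) (nat_lit 419) (nat_lit 5) (nat_lit 568) (nat_lit 519) (nat_lit 473)))) (XT.nd (nat_lit 156) (nat_lit 912) (nat_lit 0) (XT.nd (nat_lit 78) (nat_lit 836) (nat_lit 0) (XT.lf (nat_lit 0) (nat_lit 1601964917) (nat_lit 912) (nat_lit 4627211135) (nat_lit 76) (nat_lit 1722501484) (nat_lit 395) (nat_lit 5) (nat_lit 407) (nat_lit 5) (nat_lit 396) (nat_lit 5) (nat_lit 569) (nat_lit 519) (nat_lit 472)) (XT.lf (nat_lit 0) (nat_lit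 690651151) (nat_lit 836) (nat_lit 3531398825) (nat_lit 912) (nat_lit 3793471301) (nat_lit 384) (nat_lit 5) (nat_lit 395) (nat_lit 5) (nat_lit 396) (nat_lit 5) (nat_lit 570) (nat_lit 519) (nat_lit 471))) (XT.nd (nat_lit 78) (nat_lit 912) (nat_lit 0) (XT.lf (nat_lit 0) (nat_lit 6131749201) (nat_lit 836) (nat_lit 751667247) (nat_lit 912) (nat_lit 1197451831) (nat_lit 384) (nat_lit 5) (nat_lit 395) (nat_lit 5) (nat_lit 396) (nat_lit 5) (nat_lit 571) (nat_lit 519) (nat_lit 470)) (XT.lf (nat_lit 0) (nat_lit 1426449442) (nat_lit 912) (nat_lit 4635965652) (nat_lit 76) (nat_lit 2085022910) (nat_lit 372) (nat_lit 5) (nat_lit 384) (nat_lit 5) (nat_lit 373) (nat_lit 5) (nat_lit 572) (nat_lit 519) (nat_lit 469))))))) (XT.nd (nat_lit 1014) (nat_lit 5244) (nat_lit 0) (XT.nd (nat_lit 468) (nat_lit 3420) (nat_lit 0) (XT.nd (nat_lit 234) (nat_lit 1520) (nat_lit 0) (XT.nd (nat_lit 78) (nat_lit 836) (nat_lit 0) (XT.lf (nat_lit 0) (nat_lit 844700271) (nat_lit 760) (nat_lit 3224612004)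 (nat_lit 836) (nat_lit 4146221950) (nat_lit 362) (nat_lit 5) (nat_lit 372) (nat_lit 5) (nat_lit 373) (nat_lit 5) (nat_lit 573) (nat_lit 519) (nat_lit 468)) (XT.nd (nat_lit 78) (nat_lit 836) (nat_lit 0) (XT.lf (nat_lit 0) (nat_lit 6452121558) (nat_lit 760) (nat_lit 303404163) (nat_lit 836) (nat_lit 1529660460) (nat_lit 362) (nat_lit 5) (nat_lit 372) (nat_lit 5) (nat_lit 373) (nat_lit 5) (nat_lit 574) (nat_lit 519) (nat_lit 467)) (XT.lf (nat_lit 0) (nat_lit 1126513168) (nat_lit 836) (nat_lit 4561219932) (nat_lit 76) (nat_lit 2668309237) (nat_lit 351) (nat_lit 5) (nat_lit 362) (nat_lit 5) (nat_lit 352) (nat_lit 5) (nat_lit 575) (nat_lit 519) (nat_lit 466)))) (XT.nd (nat_lit 78) (nat_lit 836) (nat_lit 0) (XT.lf (nat_lit 0) (nat_lit 1088295908) (nat_lit 684) (nat_lit 2708879815) (nat_lit 760) (nat_lit 4631304188) (nat_lit 342) (nat_lit 5) (nat_lit 351) (nat_lit 5) (nat_lit 352) (nat_lit 5) (nat_lit 576) (nat_lit 519) (nat_lit 465)) (XT.nd (nat_lit 78) (nat_lit 836)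 (nat_lit 0) (XT.lf (nat_lit 0) (nat_lit 6515013389) (nat_lit 760) (nat_lit 1637711182) (nat_lit 76) (nat_lit 349769826) (nat_lit 342) (nat_lit 5) (nat_lit 352) (nat_lit 5) (nat_lit 343) (nat_lit 5) (nat_lit 577) (nat_lit 519) (nat_lit 464)) (XT.lf (nat_lit 0) (nat_lit 706552682) (nat_lit 836) (nat_lit 4412282794) (nat_lit 76) (nat_lit 3458932160) (nat_lit 331) (nat_lit 5) (nat_lit 342) (nat_lit 5) (nat_lit 332) (nat_lit 5) (nat_lit 578) (nat_lit 519) (nat_lit 463))))) (XT.nd (nat_lit 234) (nat_lit 1976) (nat_lit 0) (XT.nd (nat_lit 78) (nat_lit 760) (nat_lit 0) (XT.lf (nat_lit 0) (nat_lit 1412354891) (nat_lit 684) (nat_lit 1997543302) (nat_lit 760) (nat_lit 5244747733) (nat_lit 322) (nat_lit 5) (nat_lit 331) (nat_lit 5) (nat_lit 332) (nat_lit 5) (nat_lit 579) (nat_lit 519) (nat_lit 462)) (XT.nd (nat_lit 78) (nat_lit 760) (nat_lit 0) (XT.lf (nat_lit 0) (nat_lit 6167009724) (nat_lit 760) (nat_lit 1373033463) (nat_lit 76) (nat_lit 1193027753) (nat_lit 322) (nat_lit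 5) (nat_lit 332) (nat_lit 5) (nat_lit 323) (nat_lit 5) (nat_lit 580) (nat_lit 519) (nat_lit 461)) (XT.lf (nat_lit 0) (nat_lit 170189015) (nat_lit 760) (nat_lit 4198206370) (nat_lit 76) (nat_lit 4444527112) (nat_lit 312) (nat_lit 5) (nat_lit 322) (nat_lit 5) (nat_lit 313) (nat_lit 5) (nat_lit 581) (nat_lit 519) (nat_lit 460)))) (XT.nd (nat_lit 156) (nat_lit 1368) (nat_lit 0) (XT.nd (nat_lit 78) (nat_lit 0) (nat_lit 0) (XT.lf (nat_lit 0) (nat_lit 1808047106) (nat_lit 608) (nat_lit 1102928293) (nat_lit 684) (nat_lit 5983375998) (nat_lit 304) (nat_lit 5) (nat_lit 312) (nat_lit 5) (nat_lit 313) (nat_lit 5) (nat_lit 582) (nat_lit 519) (nat_lit 459)) (XT.lf (nat_lit 0) (nat_lit 5712901537) (nat_lit 684) (nat_lit 1045798667) (nat_lit 76) (nat_lit 2218585092) (nat_lit 304) (nat_lit 5) (nat_lit 313) (nat_lit 5) (nat_lit 305) (nat_lit 5) (nat_lit 583) (nat_lit 519) (nat_lit 458))) (XT.nd (nat_lit 78) (nat_lit 684) (nat_lit 0) (XT.lf (nat_lit 0) (nat_lit 5130763159) (nat_lit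 684) (nat_lit 3444935800) (nat_lit 760) (nat_lit 486085103) (nat_lit 295) (nat_lit 5) (nat_lit 304) (nat_lit 5) (nat_lit 305) (nat_lit 5) (nat_lit 584) (nat_lit 519) (nat_lit 457)) (XT.lf (nat_lit 0) (nat_lit 2266716201) (nat_lit 608) (nat_lit 36445491) (nat_lit 684) (nat_lit 6844785503) (nat_lit 286) (nat_lit 5) (nat_lit 294) (nat_lit 5) (nat_lit 295) (nat_lit 5) (nat_lit 585) (nat_lit 519) (nat_lit 456)))))) (XT.nd (nat_lit 546) (nat_lit 2204) (nat_lit 0) (XT.nd (nat_lit 234) (nat_lit 1748) (nat_lit 0) (XT.nd (nat_lit 78) (nat_lit 1292) (nat_lit 0) (XT.lf (nat_lit 0) (nat_lit 5155320491) (nat_lit 684) (nat_lit 664614033) (nat_lit 76) (nat_lit 3415564772) (nat_lit 286) (nat_lit 5) (nat_lit 295) (nat_lit 5) (nat_lit 287) (nat_lit 5) (nat_lit 586) (nat_lit 519) (nat_lit 455)) (XT.nd (nat_lit 78) (nat_lit 684) (nat_lit 0) (XT.lf (nat_lit 0) (nat_lit 5706551912) (nat_lit 608) (nat_lit 2360693606) (nat_lit 684) (nat_lit 1257505089) (nat_lit 278) (nat_lit 5) (nat_lit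 286) (nat_lit 5) (nat_lit 287) (nat_lit 5) (nat_lit 587) (nat_lit 519) (nat_lit 454)) (XT.lf (nat_lit 0) (nat_lit 1596220419) (nat_lit 684) (nat_lit 6643751444) (nat_lit 76) (nat_lit 1175689708) (nat_lit 269) (nat_lit 5) (nat_lit 278) (nat_lit 5) (nat_lit 270) (nat_lit 5) (nat_lit 588) (nat_lit 519) (nat_lit 453)))) (XT.nd (nat_lit 156) (nat_lit 1140) (nat_lit 0) (XT.nd (nat_lit 78) (nat_lit 608) (nat_lit 0) (XT.lf (nat_lit 0) (nat_lit 4496187155) (nat_lit 684) (nat_lit 238036248) (nat_lit 76) (nat_lit 4773883493) (nat_lit 269) (nat_lit 5) (nat_lit 278) (nat_lit 5) (nat_lit 270) (nat_lit 5) (nat_lit 589) (nat_lit 519) (nat_lit 452)) (XT.lf (nat_lit 0) (nat_lit 6334880783) (nat_lit 608) (nat_lit 1126985458) (nat_lit 684) (nat_lit 2140383051) (nat_lit 261) (nat_lit 5) (nat_lit 269) (nat_lit 5) (nat_lit 270) (nat_lit 5) (nat_lit 590) (nat_lit 519) (nat_lit 451))) (XT.nd (nat_lit 78) (nat_lit 532) (nat_lit 0) (XT.lf (nat_lit 0) (nat_lit 784949586) (nat_lit 608) (nat_lit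 6376316083) (nat_lit 76) (nat_lit 2536774649) (nat_lit 253) (nat_lit 5) (nat_lit 261) (nat_lit 5) (nat_lit 254) (nat_lit 5) (nat_lit 591) (nat_lit 519) (nat_lit 450)) (XT.lf (nat_lit 0) (nat_lit 228342366) (nat_lit 532) (nat_lit 3509859974) (nat_lit 608) (nat_lit 6057302690) (nat_lit 246) (nat_lit 5) (nat_lit 253) (nat_lit 5) (nat_lit 254) (nat_lit 5) (nat_lit 592) (nat_lit 519) (nat_lit 449))))) (XT.nd (nat_lit 234) (nat_lit 1064) (nat_lit 0) (XT.nd (nat_lit 78) (nat_lit 1140) (nat_lit 0) (XT.lf (nat_lit 0) (nat_lit 6762299338) (nat_lit 608) (nat_lit 2888949434) (nat_lit 76) (nat_lit 243436923) (nat_lit 246) (nat_lit 5) (nat_lit 254) (nat_lit 5) (nat_lit 247) (nat_lit 5) (nat_lit 593) (nat_lit 519) (nat_lit 448)) (XT.nd (nat_lit 78) (nat_lit 608) (nat_lit 0) (XT.lf (nat_lit 0) (nat_lit 3906965418) (nat_lit 532) (nat_lit 5956478700) (nat_lit 608) (nat_lit 132076737) (nat_lit 239) (nat_lit 5) (nat_lit 246) (nat_lit 5) (nat_lit 247) (nat_lit 5) (nat_lit 594) (nat_lit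 519) (nat_lit 447)) (XT.lf (nat_lit 0) (nat_lit 726363231) (nat_lit 532) (nat_lit 2155790762) (nat_lit 608) (nat_lit 7215994210) (nat_lit 231) (nat_lit 5) (nat_lit 238) (nat_lit 5) (nat_lit 239) (nat_lit 5) (nat_lit 595) (nat_lit 519) (nat_lit 446)))) (XT.nd (nat_lit 156) (nat_lit 608) (nat_lit 0) (XT.nd (nat_lit 78) (nat_lit 456) (nat_lit 0) (XT.lf (nat_lit 0) (nat_lit 5975555414) (nat_lit 608) (nat_lit 2498479210) (nat_lit 76) (nat_lit 1728364995) (nat_lit 231) (nat_lit 5) (nat_lit 239) (nat_lit 5) (nat_lit 232) (nat_lit 5) (nat_lit 596) (nat_lit 519) (nat_lit 445)) (XT.lf (nat_lit 0) (nat_lit 4513821420) (nat_lit 456) (nat_lit 4629559123) (nat_lit 532) (nat_lit 1165106437) (nat_lit 225) (nat_lit 5) (nat_lit 231) (nat_lit 5) (nat_lit 232) (nat_lit 5) (nat_lit 597) (nat_lit 519) (nat_lit 444))) (XT.nd (nat_lit 78) (nat_lit 0) (nat_lit 0) (XT.lf (nat_lit 0) (nat_lit 1243844041) (nat_lit 532) (nat_lit 682392710) (nat_lit 608) (nat_lit 8490326086) (nat_lit 217) (nat_lit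 5) (nat_lit 224) (nat_lit 5) (nat_lit 225) (nat_lit 5) (nat_lit 598) (nat_lit 519) (nat_lit 443)) (XT.lf (nat_lit 0) (nat_lit 5094011536) (nat_lit 608) (nat_lit 2097799783) (nat_lit 76) (nat_lit 3334232669) (nat_lit 217) (nat_lit 5) (nat_lit 225) (nat_lit 5) (nat_lit 218) (nat_lit 5) (nat_lit 599) (nat_lit 519) (nat_lit 442))))))))
noncomputable def xc77 : XT := (XT.nd (nat_lit 2106) (nat_lit 3648) (nat_lit 0) (XT.nd (nat_lit 1014) (nat_lit 3648) (nat_lit 0) (XT.nd (nat_lit 468) (nat_lit 2128) (nat_lit 0) (XT.nd (nat_lit 234) (nat_lit 988) (nat_lit 0) (XT.nd (nat_lit 78) (nat_lit 532) (nat_lit 0) (XT.lf (nat_lit 0) (nat_lit 5138583820) (nat_lit 456) (nat_lit 3194379972) (nat_lit 532) (nat_lit 2304596408) (nat_lit 211) (nat_lit 5) (nat_lit 217) (nat_lit 5) (nat_lit 218) (nat_lit 5) (nat_lit 600) (nat_lit 519) (nat_lit 441)) (XT.nd (nat_lit 78) (nat_lit 0) (nat_lit 0) (XT.lf (nat_lit 0) (nat_lit 875358223) (nat_lit 532) (nat_lit 8985663260) (nat_lit 76) (nat_lit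 890140448) (nat_lit 204) (nat_lit 5) (nat_lit 211) (nat_lit 5) (nat_lit 205) (nat_lit 5) (nat_lit 601) (nat_lit 519) (nat_lit 440)) (XT.lf (nat_lit 0) (nat_lit 4116660634) (nat_lit 532) (nat_lit 1696407737) (nat_lit 76) (nat_lit 5053092280) (nat_lit 204) (nat_lit 5) (nat_lit 211) (nat_lit 5) (nat_lit 205) (nat_lit 5) (nat_lit 602) (nat_lit 519) (nat_lit 439)))) (XT.nd (nat_lit 78) (nat_lit 532) (nat_lit 0) (XT.lf (nat_lit 0) (nat_lit 5771928939) (nat_lit 456) (nat_lit 1659196276) (nat_lit 532) (nat_lit 3552169144) (nat_lit 198) (nat_lit 5) (nat_lit 204) (nat_lit 5) (nat_lit 205) (nat_lit 5) (nat_lit 603) (nat_lit 519) (nat_lit 438)) (XT.nd (nat_lit 78) (nat_lit 76) (nat_lit 0) (XT.lf (nat_lit 0) (nat_lit 2280565544) (nat_lit 456) (nat_lit 8545388686) (nat_lit 532) (nat_lit 276536708) (nat_lit 192) (nat_lit 5) (nat_lit 198) (nat_lit 5) (nat_lit 199) (nat_lit 5) (nat_lit 604) (nat_lit 519) (nat_lit 437)) (XT.lf (nat_lit 0) (nat_lit 3041779723) (nat_lit 532) (nat_lit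 1304234083) (nat_lit 76) (nat_lit 6877314040) (nat_lit 191) (nat_lit 5) (nat_lit 198) (nat_lit 5) (nat_lit 192) (nat_lit 5) (nat_lit 605) (nat_lit 519) (nat_lit 436))))) (XT.nd (nat_lit 234) (nat_lit 1216) (nat_lit 0) (XT.nd (nat_lit 78) (nat_lit 532) (nat_lit 0) (XT.lf (nat_lit 0) (nat_lit 6404086616) (nat_lit 380) (nat_lit 31994886) (nat_lit 456) (nat_lit 4910198598) (nat_lit 186) (nat_lit 5) (nat_lit 191) (nat_lit 5) (nat_lit 192) (nat_lit 5) (nat_lit 606) (nat_lit 519) (nat_lit 435)) (XT.nd (nat_lit 78) (nat_lit 76) (nat_lit 0) (XT.lf (nat_lit 0) (nat_lit 2778678710) (nat_lit 456) (nat_lit 7146737915) (nat_lit 532) (nat_lit 1545733398) (nat_lit 180) (nat_lit 5) (nat_lit 186) (nat_lit 5) (nat_lit 187) (nat_lit 5) (nat_lit 607) (nat_lit 519) (nat_lit 434)) (XT.lf (nat_lit 0) (nat_lit 1866909486) (nat_lit 532) (nat_lit 931747065) (nat_lit 76) (nat_lit 8799504920) (nat_lit 179) (nat_lit 5) (nat_lit 186) (nat_lit 5) (nat_lit 180) (nat_lit 5) (nat_lit 608) (nat_lit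 519) (nat_lit 433)))) (XT.nd (nat_lit 156) (nat_lit 456) (nat_lit 0) (XT.nd (nat_lit 78) (nat_lit 380) (nat_lit 0) (XT.lf (nat_lit 0) (nat_lit 5356216498) (nat_lit 456) (nat_lit 4713314693) (nat_lit 76) (nat_lit 1657396916) (nat_lit 174) (nat_lit 5) (nat_lit 180) (nat_lit 5) (nat_lit 175) (nat_lit 5) (nat_lit 609) (nat_lit 519) (nat_lit 432)) (XT.lf (nat_lit 0) (nat_lit 3254947494) (nat_lit 380) (nat_lit 5679080232) (nat_lit 456) (nat_lit 2923869440) (nat_lit 169) (nat_lit 5) (nat_lit 174) (nat_lit 5) (nat_lit 175) (nat_lit 5) (nat_lit 610) (nat_lit 519) (nat_lit 431))) (XT.nd (nat_lit 78) (nat_lit 380) (nat_lit 0) (XT.lf (nat_lit 0) (nat_lit 588827824) (nat_lit 456) (nat_lit 590061799) (nat_lit 76) (nat_lit 10812426891) (nat_lit 168) (nat_lit 5) (nat_lit 174) (nat_lit 5) (nat_lit 169) (nat_lit 5) (nat_lit 611) (nat_lit 519) (nat_lit 430)) (XT.lf (nat_lit 0) (nat_lit 4178045726) (nat_lit 456) (nat_lit 4526182603) (nat_lit 76) (nat_lit 3421882405) (nat_lit 163)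 (nat_lit 5) (nat_lit 169) (nat_lit 5) (nat_lit 164) (nat_lit 5) (nat_lit 612) (nat_lit 519) (nat_lit 429)))))) (XT.nd (nat_lit 546) (nat_lit 1672) (nat_lit 0) (XT.nd (nat_lit 234) (nat_lit 1140) (nat_lit 0) (XT.nd (nat_lit 78) (nat_lit 456) (nat_lit 0) (XT.lf (nat_lit 0) (nat_lit 3697886194) (nat_lit 380) (nat_lit 4150506295) (nat_lit 456) (nat_lit 4415022800) (nat_lit 158) (nat_lit 5) (nat_lit 163) (nat_lit 5) (nat_lit 164) (nat_lit 5) (nat_lit 613) (nat_lit 519) (nat_lit 428)) (XT.nd (nat_lit 78) (nat_lit 456) (nat_lit 0) (XT.lf (nat_lit 0) (nat_lit 11599632323) (nat_lit 456) (nat_lit 299614049) (nat_lit 76) (nat_lit 504071153) (nat_lit 158) (nat_lit 5) (nat_lit 164) (nat_lit 5) (nat_lit 159) (nat_lit 5) (nat_lit 614) (nat_lit 519) (nat_lit 427)) (XT.lf (nat_lit 0) (nat_lit 2897226801) (nat_lit 456) (nat_lit 4393017023) (nat_lit 76) (nat_lit 5254298928) (nat_lit 152) (nat_lit 5) (nat_lit 158) (nat_lit 5) (nat_lit 153) (nat_lit 5) (nat_lit 615) (nat_lit 519) (nat_lit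 426)))) (XT.nd (nat_lit 156) (nat_lit 760) (nat_lit 0) (XT.nd (nat_lit 78) (nat_lit 0) (nat_lit 0) (XT.lf (nat_lit 0) (nat_lit 4095164353) (nat_lit 380) (nat_lit 2569147155) (nat_lit 456) (nat_lit 6024117651) (nat_lit 147) (nat_lit 5) (nat_lit 152) (nat_lit 5) (nat_lit 153) (nat_lit 5) (nat_lit 616) (nat_lit 519) (nat_lit 425)) (XT.lf (nat_lit 0) (nat_lit 10525439011) (nat_lit 456) (nat_lit 77281472) (nat_lit 76) (nat_lit 2232100002) (nat_lit 147) (nat_lit 5) (nat_lit 153) (nat_lit 5) (nat_lit 148) (nat_lit 5) (nat_lit 617) (nat_lit 519) (nat_lit 424))) (XT.nd (nat_lit 78) (nat_lit 380) (nat_lit 0) (XT.lf (nat_lit 0) (nat_lit 1508783364) (nat_lit 380) (nat_lit 4327200692) (nat_lit 76) (nat_lit 7146993815) (nat_lit 142) (nat_lit 5) (nat_lit 147) (nat_lit 5) (nat_lit 143) (nat_lit 5) (nat_lit 618) (nat_lit 519) (nat_lit 423)) (XT.lf (nat_lit 0) (nat_lit 4433473086) (nat_lit 380) (nat_lit 943263744) (nat_lit 456) (nat_lit 7756970459) (nat_lit 137) (nat_lit 5) (nat_lit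 142) (nat_lit 5) (nat_lit 143) (nat_lit 5) (nat_lit 619) (nat_lit 519) (nat_lit 422))))) (XT.nd (nat_lit 234) (nat_lit 988) (nat_lit 0) (XT.nd (nat_lit 78) (nat_lit 380) (nat_lit 0) (XT.lf (nat_lit 0) (nat_lit 75698936) (nat_lit 304) (nat_lit 9277498664) (nat_lit 380) (nat_lit 3933631853) (nat_lit 133) (nat_lit 5) (nat_lit 137) (nat_lit 5) (nat_lit 138) (nat_lit 5) (nat_lit 620) (nat_lit 519) (nat_lit 421)) (XT.nd (nat_lit 78) (nat_lit 304) (nat_lit 0) (XT.lf (nat_lit 0) (nat_lit 6847891) (nat_lit 380) (nat_lit 4343212884) (nat_lit 76) (nat_lit 9092154139) (nat_lit 132) (nat_lit 5) (nat_lit 137) (nat_lit 5) (nat_lit 133) (nat_lit 5) (nat_lit 621) (nat_lit 519) (nat_lit 420)) (XT.lf (nat_lit 0) (nat_lit 3984386306) (nat_lit 380) (nat_lit 8906349731) (nat_lit 76) (nat_lit 709234673) (nat_lit 128) (nat_lit 5) (nat_lit 133) (nat_lit 5) (nat_lit 129) (nat_lit 5) (nat_lit 622) (nat_lit 519) (nat_lit 419)))) (XT.nd (nat_lit 156) (nat_lit 684) (nat_lit 0) (XT.nd (nat_lit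 78) (nat_lit 0) (nat_lit 0) (XT.lf (nat_lit 0) (nat_lit 143263948) (nat_lit 304) (nat_lit 7933114901) (nat_lit 380) (nat_lit 5683805740) (nat_lit 124) (nat_lit 5) (nat_lit 128) (nat_lit 5) (nat_lit 129) (nat_lit 5) (nat_lit 623) (nat_lit 519) (nat_lit 418)) (XT.lf (nat_lit 0) (nat_lit 9455477076) (nat_lit 304) (nat_lit 2830547039) (nat_lit 380) (nat_lit 1636863388) (nat_lit 124) (nat_lit 5) (nat_lit 128) (nat_lit 5) (nat_lit 129) (nat_lit 5) (nat_lit 624) (nat_lit 519) (nat_lit 417))) (XT.nd (nat_lit 78) (nat_lit 304) (nat_lit 0) (XT.lf (nat_lit 0) (nat_lit 2481986942) (nat_lit 380) (nat_lit 9229821526) (nat_lit 76) (nat_lit 2376240733) (nat_lit 119) (nat_lit 5) (nat_lit 124) (nat_lit 5) (nat_lit 120) (nat_lit 5) (nat_lit 625) (nat_lit 519) (nat_lit 416)) (XT.lf (nat_lit 0) (nat_lit 107864965) (nat_lit 304) (nat_lit 6579551643) (nat_lit 380) (nat_lit 7568359688) (nat_lit 115) (nat_lit 5) (nat_lit 119) (nat_lit 5) (nat_lit 120) (nat_lit 5) (nat_lit 626) (nat_lit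 519) (nat_lit 415))))))) (XT.nd (nat_lit 1092) (nat_lit 1064) (nat_lit 0) (XT.nd (nat_lit 546) (nat_lit 1368) (nat_lit 0) (XT.nd (nat_lit 234) (nat_lit 836) (nat_lit 0) (XT.nd (nat_lit 78) (nat_lit 380) (nat_lit 0) (XT.lf (nat_lit 0) (nat_lit 9718886447) (nat_lit 304) (nat_lit 1296693012) (nat_lit 380) (nat_lit 3410506922) (nat_lit 115) (nat_lit 5) (nat_lit 119) (nat_lit 5) (nat_lit 120) (nat_lit 5) (nat_lit 627) (nat_lit 519) (nat_lit 414)) (XT.nd (nat_lit 78) (nat_lit 0) (nat_lit 0) (XT.lf (nat_lit 0) (nat_lit 855418104) (nat_lit 380) (nat_lit 9682542818) (nat_lit 76) (nat_lit 4061018656) (nat_lit 110) (nat_lit 5) (nat_lit 115) (nat_lit 5) (nat_lit 111) (nat_lit 5) (nat_lit 628) (nat_lit 519) (nat_lit 413)) (XT.lf (nat_lit 0) (nat_lit 5178522363) (nat_lit 380) (nat_lit 47919400) (nat_lit 76) (nat_lit 9548088342) (nat_lit 110) (nat_lit 5) (nat_lit 115) (nat_lit 5) (nat_lit 111) (nat_lit 5) (nat_lit 629) (nat_lit 519) (nat_lit 412)))) (XT.nd (nat_lit 156) (nat_lit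 304) (nat_lit 0) (XT.nd (nat_lit 78) (nat_lit 304) (nat_lit 0) (XT.lf (nat_lit 0) (nat_lit 9631299112) (nat_lit 304) (nat_lit 5082909458) (nat_lit 76) (nat_lit 238519732) (nat_lit 107) (nat_lit 5) (nat_lit 111) (nat_lit 5) (nat_lit 108) (nat_lit 5) (nat_lit 630) (nat_lit 519) (nat_lit 411)) (XT.lf (nat_lit 0) (nat_lit 4843440632) (nat_lit 304) (nat_lit 9373724554) (nat_lit 380) (nat_lit 916445450) (nat_lit 103) (nat_lit 5) (nat_lit 107) (nat_lit 5) (nat_lit 108) (nat_lit 5) (nat_lit 631) (nat_lit 519) (nat_lit 410))) (XT.nd (nat_lit 78) (nat_lit 228) (nat_lit 0) (XT.lf (nat_lit 0) (nat_lit 3541764192) (nat_lit 380) (nat_lit 341253520) (nat_lit 76) (nat_lit 11434388595) (nat_lit 102) (nat_lit 5) (nat_lit 107) (nat_lit 5) (nat_lit 103) (nat_lit 5) (nat_lit 632) (nat_lit 519) (nat_lit 409)) (XT.lf (nat_lit 0) (nat_lit 8130769513) (nat_lit 304) (nat_lit 5621960564) (nat_lit 76) (nat_lit 1750949406) (nat_lit 99) (nat_lit 5) (nat_lit 103) (nat_lit 5) (nat_lit 100) (nat_lit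 5) (nat_lit 633) (nat_lit 519) (nat_lit 408))))) (XT.nd (nat_lit 234) (nat_lit 760) (nat_lit 0) (XT.nd (nat_lit 78) (nat_lit 304) (nat_lit 0) (XT.lf (nat_lit 0) (nat_lit 4618027260) (nat_lit 304) (nat_lit 8229762271) (nat_lit 380) (nat_lit 2845164686) (nat_lit 95) (nat_lit 5) (nat_lit 99) (nat_lit 5) (nat_lit 100) (nat_lit 5) (nat_lit 634) (nat_lit 519) (nat_lit 407)) (XT.nd (nat_lit 78) (nat_lit 228) (nat_lit 0) (XT.lf (nat_lit 0) (nat_lit 1766132285) (nat_lit 380) (nat_lit 794999236) (nat_lit 76) (nat_lit 13324328397) (nat_lit 94) (nat_lit 5) (nat_lit 99) (nat_lit 5) (nat_lit 95) (nat_lit 5) (nat_lit 635) (nat_lit 519) (nat_lit 406)) (XT.lf (nat_lit 0) (nat_lit 6495045897) (nat_lit 304) (nat_lit 6338496370) (nat_lit 76) (nat_lit 3246628325) (nat_lit 91) (nat_lit 5) (nat_lit 95) (nat_lit 5) (nat_lit 92) (nat_lit 5) (nat_lit 636) (nat_lit 519) (nat_lit 405)))) (XT.nd (nat_lit 156) (nat_lit 532) (nat_lit 0) (XT.nd (nat_lit 78) (nat_lit 0) (nat_lit 0) (XT.lf (nat_lit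 0) (nat_lit 4223219476) (nat_lit 228) (nat_lit 7123857940) (nat_lit 304) (nat_lit 4931127997) (nat_lit 88) (nat_lit 5) (nat_lit 91) (nat_lit 5) (nat_lit 92) (nat_lit 5) (nat_lit 637) (nat_lit 519) (nat_lit 404)) (XT.lf (nat_lit 0) (nat_lit 15045967713) (nat_lit 228) (nat_lit 1271686252) (nat_lit 304) (nat_lit 162117588) (nat_lit 88) (nat_lit 5) (nat_lit 91) (nat_lit 5) (nat_lit 92) (nat_lit 5) (nat_lit 638) (nat_lit 519) (nat_lit 403))) (XT.nd (nat_lit 78) (nat_lit 228) (nat_lit 0) (XT.lf (nat_lit 0) (nat_lit 4712263241) (nat_lit 304) (nat_lit 7257337584) (nat_lit 76) (nat_lit 4713725041) (nat_lit 84) (nat_lit 5) (nat_lit 88) (nat_lit 5) (nat_lit 85) (nat_lit 5) (nat_lit 639) (nat_lit 519) (nat_lit 402)) (XT.lf (nat_lit 0) (nat_lit 3633983244) (nat_lit 228) (nat_lit 6069006058) (nat_lit 304) (nat_lit 7187520634) (nat_lit 81) (nat_lit 5) (nat_lit 84) (nat_lit 5) (nat_lit 85) (nat_lit 5) (nat_lit 640) (nat_lit 519) (nat_lit 401)))))) (XT.nd (nat_lit 71760) (nat_lit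 0) (nat_lit 53124) (XT.nd (nat_lit 234) (nat_lit 532) (nat_lit 0) (XT.nd (nat_lit 78) (nat_lit 532) (nat_lit 0) (XT.lf (nat_lit 0) (nat_lit 14805969955) (nat_lit 228) (nat_lit 15760207) (nat_lit 304) (nat_lit 2279544178) (nat_lit 81) (nat_lit 5) (nat_lit 84) (nat_lit 5) (nat_lit 85) (nat_lit 5) (nat_lit 641) (nat_lit 519) (nat_lit 400)) (XT.nd (nat_lit 78) (nat_lit 228) (nat_lit 0) (XT.lf (nat_lit 0) (nat_lit 2769098320) (nat_lit 304) (nat_lit 8405825789) (nat_lit 76) (nat_lit 6139411173) (nat_lit 77) (nat_lit 5) (nat_lit 81) (nat_lit 5) (nat_lit 78) (nat_lit 5) (nat_lit 642) (nat_lit 519) (nat_lit 399)) (XT.lf (nat_lit 0) (nat_lit 2822698145) (nat_lit 228) (nat_lit 5079298881) (nat_lit 304) (nat_lit 9629083549) (nat_lit 74) (nat_lit 5) (nat_lit 77) (nat_lit 5) (nat_lit 78) (nat_lit 5) (nat_lit 643) (nat_lit 519) (nat_lit 398)))) (XT.nd (nat_lit 156) (nat_lit 228) (nat_lit 0) (XT.nd (nat_lit 78) (nat_lit 304) (nat_lit 0) (XT.lf (nat_lit 0) (nat_lit 13181638185)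 (nat_lit 304) (nat_lit 3404315506) (nat_lit 76) (nat_lit 1165326002) (nat_lit 74) (nat_lit 5) (nat_lit 78) (nat_lit 5) (nat_lit 75) (nat_lit 5) (nat_lit 644) (nat_lit 519) (nat_lit 397)) (XT.lf (nat_lit 0) (nat_lit 650636800) (nat_lit 304) (nat_lit 9814111673) (nat_lit 76) (nat_lit 7509710193) (nat_lit 70) (nat_lit 5) (nat_lit 74) (nat_lit 5) (nat_lit 71) (nat_lit 5) (nat_lit 645) (nat_lit 519) (nat_lit 396))) (XT.nd (nat_lit 78) (nat_lit 0) (nat_lit 0) (XT.lf (nat_lit 0) (nat_lit 1758860735) (nat_lit 228) (nat_lit 4170085715) (nat_lit 304) (nat_lit 12272254969) (nat_lit 67) (nat_lit 5) (nat_lit 70) (nat_lit 5) (nat_lit 71) (nat_lit 5) (nat_lit 646) (nat_lit 519) (nat_lit 395)) (XT.lf (nat_lit 0) (nat_lit 11374133951) (nat_lit 304) (nat_lit 4784548459) (nat_lit 76) (nat_lit 2272570946) (nat_lit 67) (nat_lit 5) (nat_lit 71) (nat_lit 5) (nat_lit 68) (nat_lit 5) (nat_lit 647) (nat_lit 519) (nat_lit 394))))) (XT.nd (nat_lit 234) (nat_lit 532) (nat_lit 0) (XT.nd (nat_lit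 78) (nat_lit 152) (nat_lit 0) (XT.lf (nat_lit 0) (nat_lit 1073741823) (nat_lit 0) (nat_lit 0) (nat_lit 0) (nat_lit 0) (nat_lit 775) (nat_lit 0) (nat_lit 1) (nat_lit 0) (nat_lit 1) (nat_lit 0) (nat_lit 520) (nat_lit 520) (nat_lit 520)) (XT.nd (nat_lit 78) (nat_lit 76) (nat_lit 0) (XT.lf (nat_lit 0) (nat_lit 3171508339) (nat_lit 76) (nat_lit 3229497977) (nat_lit 0) (nat_lit 41866728) (nat_lit 774) (nat_lit 5) (nat_lit 775) (nat_lit 0) (nat_lit 774) (nat_lit 4) (nat_lit 521) (nat_lit 520) (nat_lit 519)) (XT.lf (nat_lit 0) (nat_lit 4229530) (nat_lit 76) (nat_lit 6319332234) (nat_lit 76) (nat_lit 121414535) (nat_lit 773) (nat_lit 4) (nat_lit 774) (nat_lit 5) (nat_lit 774) (nat_lit 4) (nat_lit 522) (nat_lit 520) (nat_lit 518)))) (XT.nd (nat_lit 156) (nat_lit 304) (nat_lit 0) (XT.nd (nat_lit 78) (nat_lit 152) (nat_lit 0) (XT.lf (nat_lit 0) (nat_lit 2990681415) (nat_lit 152) (nat_lit 3164855052) (nat_lit 76) (nat_lit 292404278) (nat_lit 772) (nat_lit 5) (nat_lit 774) (nat_lit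 5) (nat_lit 773) (nat_lit 4) (nat_lit 523) (nat_lit 520) (nat_lit 517)) (XT.lf (nat_lit 0) (nat_lit 134018566) (nat_lit 152) (nat_lit 5949734535) (nat_lit 228) (nat_lit 368802279) (nat_lit 770) (nat_lit 5) (nat_lit 772) (nat_lit 5) (nat_lit 773) (nat_lit 4) (nat_lit 524) (nat_lit 520) (nat_lit 516))) (XT.nd (nat_lit 78) (nat_lit 228) (nat_lit 0) (XT.lf (nat_lit 0) (nat_lit 2686571310) (nat_lit 228) (nat_lit 2977543836) (nat_lit 76) (nat_lit 793967056) (nat_lit 769) (nat_lit 5) (nat_lit 772) (nat_lit 5) (nat_lit 770) (nat_lit 5) (nat_lit 525) (nat_lit 520) (nat_lit 515)) (XT.lf (nat_lit 0) (nat_lit 389526601) (nat_lit 228) (nat_lit 5332932741) (nat_lit 304) (nat_lit 742737887) (nat_lit 766) (nat_lit 5) (nat_lit 769) (nat_lit 5) (nat_lit 770) (nat_lit 5) (nat_lit 526) (nat_lit 520) (nat_lit 514))))))))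
noncomputable def xc78 : XT := (XT.nd (nat_lit 2106) (nat_lit 20368) (nat_lit 0) (XT.nd (nat_lit 1014) (nat_lit 9196) (nat_lit 0) (XT.nd (nat_lit 468) (nat_lit 2812) (nat_lit 0) (XT.nd (nat_lit 234) (nat_lit 912) (nat_lit 0) (XT.nd (nat_lit 78) (nat_lit 380) (nat_lit 0) (XT.lf (nat_lit 0) (nat_lit 2258489842) (nat_lit 304) (nat_lit 2667288488) (nat_lit 76) (nat_lit 1547531213) (nat_lit 765) (nat_lit 5) (nat_lit 769) (nat_lit 5) (nat_lit 766) (nat_lit 5) (nat_lit 527) (nat_lit 520) (nat_lit 513)) (XT.nd (nat_lit 78) (nat_lit 76) (nat_lit 0) (XT.lf (nat_lit 0) (nat_lit 771157038) (nat_lit 304) (nat_lit 4467717039) (nat_lit 380) (nat_lit 1244042851) (nat_lit 761) (nat_lit 5) (nat_lit 765) (nat_lit 5) (nat_lit 766) (nat_lit 5) (nat_lit 528) (nat_lit 520) (nat_lit 512)) (XT.lf (nat_lit 0) (nat_lit 1705505035) (nat_lit 380) (nat_lit 2233572997) (nat_lit 76) (nat_lit 2554562941) (nat_lit 760) (nat_lit 5) (nat_lit 765) (nat_lit 5) (nat_lit 761) (nat_lit 5) (nat_lit 529)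 (nat_lit 520) (nat_lit 511)))) (XT.nd (nat_lit 78) (nat_lit 532) (nat_lit 0) (XT.lf (nat_lit 0) (nat_lit 1279557444) (nat_lit 380) (nat_lit 3352390954) (nat_lit 456) (nat_lit 1873787228) (nat_lit 755) (nat_lit 5) (nat_lit 760) (nat_lit 5) (nat_lit 761) (nat_lit 5) (nat_lit 530) (nat_lit 520) (nat_lit 510)) (XT.nd (nat_lit 78) (nat_lit 456) (nat_lit 0) (XT.lf (nat_lit 0) (nat_lit 1026439213) (nat_lit 456) (nat_lit 1675640748) (nat_lit 76) (nat_lit 3817020849) (nat_lit 754) (nat_lit 5) (nat_lit 760) (nat_lit 5) (nat_lit 755) (nat_lit 5) (nat_lit 531) (nat_lit 520) (nat_lit 509)) (XT.lf (nat_lit 0) (nat_lit 1915620189) (nat_lit 456) (nat_lit 1984768601) (nat_lit 532) (nat_lit 2633291775) (nat_lit 748) (nat_lit 5) (nat_lit 754) (nat_lit 5) (nat_lit 755) (nat_lit 5) (nat_lit 532) (nat_lit 520) (nat_lit 508))))) (XT.nd (nat_lit 234) (nat_lit 2204) (nat_lit 0) (XT.nd (nat_lit 78) (nat_lit 532) (nat_lit 0) (XT.lf (nat_lit 0) (nat_lit 219866697) (nat_lit 532) (nat_lit 992493704)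 (nat_lit 76) (nat_lit 5337359125) (nat_lit 747) (nat_lit 5) (nat_lit 754) (nat_lit 5) (nat_lit 748) (nat_lit 5) (nat_lit 533) (nat_lit 520) (nat_lit 507)) (XT.nd (nat_lit 78) (nat_lit 0) (nat_lit 0) (XT.lf (nat_lit 0) (nat_lit 2680483483) (nat_lit 532) (nat_lit 362171157) (nat_lit 608) (nat_lit 3524130492) (nat_lit 740) (nat_lit 5) (nat_lit 747) (nat_lit 5) (nat_lit 748) (nat_lit 5) (nat_lit 534) (nat_lit 520) (nat_lit 506)) (XT.lf (nat_lit 0) (nat_lit 5863528647) (nat_lit 608) (nat_lit 191092754) (nat_lit 76) (nat_lit 530748346) (nat_lit 740) (nat_lit 5) (nat_lit 748) (nat_lit 5) (nat_lit 741) (nat_lit 5) (nat_lit 535) (nat_lit 520) (nat_lit 505)))) (XT.nd (nat_lit 156) (nat_lit 836) (nat_lit 0) (XT.nd (nat_lit 78) (nat_lit 684) (nat_lit 0) (XT.lf (nat_lit 0) (nat_lit 2066814927) (nat_lit 684) (nat_lit 3039415714) (nat_lit 76) (nat_lit 1498661061) (nat_lit 731) (nat_lit 5) (nat_lit 740) (nat_lit 5) (nat_lit 732) (nat_lit 5) (nat_lit 536) (nat_lit 520) (nat_lit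 504)) (XT.lf (nat_lit 0) (nat_lit 736023864) (nat_lit 684) (nat_lit 4105209227) (nat_lit 760) (nat_lit 1784692195) (nat_lit 722) (nat_lit 5) (nat_lit 731) (nat_lit 5) (nat_lit 732) (nat_lit 5) (nat_lit 537) (nat_lit 520) (nat_lit 503))) (XT.nd (nat_lit 78) (nat_lit 760) (nat_lit 0) (XT.lf (nat_lit 0) (nat_lit 965017493) (nat_lit 760) (nat_lit 2070005665) (nat_lit 76) (nat_lit 3613139094) (nat_lit 721) (nat_lit 5) (nat_lit 731) (nat_lit 5) (nat_lit 722) (nat_lit 5) (nat_lit 538) (nat_lit 520) (nat_lit 502)) (XT.lf (nat_lit 0) (nat_lit 1794450100) (nat_lit 760) (nat_lit 1898491523) (nat_lit 836) (nat_lit 2978733201) (nat_lit 711) (nat_lit 5) (nat_lit 721) (nat_lit 5) (nat_lit 722) (nat_lit 5) (nat_lit 539) (nat_lit 520) (nat_lit 501)))))) (XT.nd (nat_lit 546) (nat_lit 5168) (nat_lit 0) (XT.nd (nat_lit 234) (nat_lit 2204) (nat_lit 0) (XT.nd (nat_lit 78) (nat_lit 1824) (nat_lit 0) (XT.lf (nat_lit 0) (nat_lit 5720987700) (nat_lit 760) (nat_lit 704756426) (nat_lit 836)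 (nat_lit 270916094) (nat_lit 711) (nat_lit 5) (nat_lit 721) (nat_lit 5) (nat_lit 722) (nat_lit 5) (nat_lit 540) (nat_lit 520) (nat_lit 500)) (XT.nd (nat_lit 78) (nat_lit 912) (nat_lit 0) (XT.lf (nat_lit 0) (nat_lit 2418704063) (nat_lit 912) (nat_lit 3742782849) (nat_lit 76) (nat_lit 561137213) (nat_lit 699) (nat_lit 5) (nat_lit 711) (nat_lit 5) (nat_lit 700) (nat_lit 5) (nat_lit 541) (nat_lit 520) (nat_lit 499)) (XT.lf (nat_lit 0) (nat_lit 230895167) (nat_lit 912) (nat_lit 4878681893) (nat_lit 988) (nat_lit 1640481126) (nat_lit 687) (nat_lit 5) (nat_lit 699) (nat_lit 5) (nat_lit 700) (nat_lit 5) (nat_lit 542) (nat_lit 520) (nat_lit 498)))) (XT.nd (nat_lit 156) (nat_lit 1140) (nat_lit 0) (XT.nd (nat_lit 78) (nat_lit 988) (nat_lit 0) (XT.lf (nat_lit 0) (nat_lit 1026234410) (nat_lit 988) (nat_lit 2494783322) (nat_lit 76) (nat_lit 3257609114) (nat_lit 686) (nat_lit 5) (nat_lit 699) (nat_lit 5) (nat_lit 687) (nat_lit 5) (nat_lit 543) (nat_lit 520) (nat_lit 497)) (XT.lf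 (nat_lit 0) (nat_lit 1575895899) (nat_lit 988) (nat_lit 2098714174) (nat_lit 1064) (nat_lit 3133942063) (nat_lit 673) (nat_lit 5) (nat_lit 686) (nat_lit 5) (nat_lit 687) (nat_lit 5) (nat_lit 544) (nat_lit 520) (nat_lit 496))) (XT.nd (nat_lit 78) (nat_lit 1140) (nat_lit 0) (XT.lf (nat_lit 0) (nat_lit 5718103458) (nat_lit 988) (nat_lit 615522611) (nat_lit 1064) (nat_lit 506304214) (nat_lit 673) (nat_lit 5) (nat_lit 686) (nat_lit 5) (nat_lit 687) (nat_lit 5) (nat_lit 545) (nat_lit 520) (nat_lit 495)) (XT.lf (nat_lit 0) (nat_lit 2113045749) (nat_lit 1140) (nat_lit 3825052541) (nat_lit 76) (nat_lit 934209518) (nat_lit 658) (nat_lit 5) (nat_lit 673) (nat_lit 5) (nat_lit 659) (nat_lit 5) (nat_lit 546) (nat_lit 520) (nat_lit 494))))) (XT.nd (nat_lit 234) (nat_lit 2736) (nat_lit 0) (XT.nd (nat_lit 78) (nat_lit 1292) (nat_lit 0) (XT.lf (nat_lit 0) (nat_lit 362428748) (nat_lit 1140) (nat_lit 4372240179) (nat_lit 1216) (nat_lit 2171471068) (nat_lit 643) (nat_lit 5) (nat_lit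 658) (nat_lit 5) (nat_lit 659) (nat_lit 5) (nat_lit 547) (nat_lit 520) (nat_lit 493)) (XT.nd (nat_lit 78) (nat_lit 1216) (nat_lit 0) (XT.lf (nat_lit 0) (nat_lit 430882410) (nat_lit 1216) (nat_lit 2302893786) (nat_lit 76) (nat_lit 4207440010) (nat_lit 642) (nat_lit 5) (nat_lit 658) (nat_lit 5) (nat_lit 643) (nat_lit 5) (nat_lit 548) (nat_lit 520) (nat_lit 492)) (XT.lf (nat_lit 0) (nat_lit 1990287363) (nat_lit 1216) (nat_lit 1023092044) (nat_lit 1292) (nat_lit 3964190950) (nat_lit 626) (nat_lit 5) (nat_lit 642) (nat_lit 5) (nat_lit 643) (nat_lit 5) (nat_lit 549) (nat_lit 520) (nat_lit 491)))) (XT.nd (nat_lit 156) (nat_lit 1368) (nat_lit 0) (XT.nd (nat_lit 78) (nat_lit 1368) (nat_lit 0) (XT.lf (nat_lit 0) (nat_lit 5612872465) (nat_lit 1292) (nat_lit 663645371) (nat_lit 76) (nat_lit 738833632) (nat_lit 626) (nat_lit 5) (nat_lit 643) (nat_lit 5) (nat_lit 627) (nat_lit 5) (nat_lit 550) (nat_lit 520) (nat_lit 490)) (XT.lf (nat_lit 0) (nat_lit 1171702684) (nat_lit 1368)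 (nat_lit 3317436078) (nat_lit 76) (nat_lit 2565056569) (nat_lit 608) (nat_lit 5) (nat_lit 626) (nat_lit 5) (nat_lit 609) (nat_lit 5) (nat_lit 551) (nat_lit 520) (nat_lit 489))) (XT.nd (nat_lit 78) (nat_lit 0) (nat_lit 0) (XT.lf (nat_lit 0) (nat_lit 1100958220) (nat_lit 1368) (nat_lit 2635871874) (nat_lit 1444) (nat_lit 3357642151) (nat_lit 590) (nat_lit 5) (nat_lit 608) (nat_lit 5) (nat_lit 609) (nat_lit 5) (nat_lit 552) (nat_lit 520) (nat_lit 488)) (XT.lf (nat_lit 0) (nat_lit 5608378108) (nat_lit 1368) (nat_lit 714495866) (nat_lit 1444) (nat_lit 813294723) (nat_lit 590) (nat_lit 5) (nat_lit 608) (nat_lit 5) (nat_lit 609) (nat_lit 5) (nat_lit 553) (nat_lit 520) (nat_lit 487))))))) (XT.nd (nat_lit 1014) (nat_lit 7296) (nat_lit 0) (XT.nd (nat_lit 468) (nat_lit 6688) (nat_lit 0) (XT.nd (nat_lit 234) (nat_lit 3344) (nat_lit 0) (XT.nd (nat_lit 78) (nat_lit 1520) (nat_lit 0) (XT.lf (nat_lit 0) (nat_lit 1734497634) (nat_lit 1520) (nat_lit 4176435061) (nat_lit 76) (nat_lit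 1268022462) (nat_lit 570) (nat_lit 5) (nat_lit 590) (nat_lit 5) (nat_lit 571) (nat_lit 5) (nat_lit 554) (nat_lit 520) (nat_lit 486)) (XT.nd (nat_lit 78) (nat_lit 0) (nat_lit 0) (XT.lf (nat_lit 0) (nat_lit 371514249) (nat_lit 1520) (nat_lit 3917134513) (nat_lit 1596) (nat_lit 2934521125) (nat_lit 550) (nat_lit 5) (nat_lit 570) (nat_lit 5) (nat_lit 571) (nat_lit 5) (nat_lit 555) (nat_lit 520) (nat_lit 485)) (XT.lf (nat_lit 0) (nat_lit 5022403982) (nat_lit 1520) (nat_lit 1849037495) (nat_lit 1596) (nat_lit 397282064) (nat_lit 550) (nat_lit 5) (nat_lit 570) (nat_lit 5) (nat_lit 571) (nat_lit 5) (nat_lit 556) (nat_lit 520) (nat_lit 484)))) (XT.nd (nat_lit 78) (nat_lit 1672) (nat_lit 0) (XT.lf (nat_lit 0) (nat_lit 2129823310) (nat_lit 1672) (nat_lit 4893244207) (nat_lit 76) (nat_lit 292484801) (nat_lit 528) (nat_lit 5) (nat_lit 550) (nat_lit 5) (nat_lit 529) (nat_lit 5) (nat_lit 557) (nat_lit 520) (nat_lit 483)) (XT.nd (nat_lit 78) (nat_lit 1672) (nat_lit 0) (XT.lf (nat_lit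 0) (nat_lit 4680486574) (nat_lit 1672) (nat_lit 208386201) (nat_lit 76) (nat_lit 2474831133) (nat_lit 528) (nat_lit 5) (nat_lit 550) (nat_lit 5) (nat_lit 529) (nat_lit 5) (nat_lit 558) (nat_lit 520) (nat_lit 482)) (XT.lf (nat_lit 0) (nat_lit 4586049471) (nat_lit 1672) (nat_lit 2677763151) (nat_lit 1748) (nat_lit 149378276) (nat_lit 506) (nat_lit 5) (nat_lit 528) (nat_lit 5) (nat_lit 529) (nat_lit 5) (nat_lit 559) (nat_lit 520) (nat_lit 481))))) (XT.nd (nat_lit 234) (nat_lit 3040) (nat_lit 0) (XT.nd (nat_lit 78) (nat_lit 1824) (nat_lit 0) (XT.lf (nat_lit 0) (nat_lit 1981106346) (nat_lit 1748) (nat_lit 388576680) (nat_lit 1824) (nat_lit 5094343890) (nat_lit 482) (nat_lit 5) (nat_lit 505) (nat_lit 5) (nat_lit 506) (nat_lit 5) (nat_lit 560) (nat_lit 520) (nat_lit 480)) (XT.nd (nat_lit 78) (nat_lit 1824) (nat_lit 0) (XT.lf (nat_lit 0) (nat_lit 4921741742) (nat_lit 1824) (nat_lit 650698614) (nat_lit 76) (nat_lit 1943732275) (nat_lit 482) (nat_lit 5) (nat_lit 506) (nat_lit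 5) (nat_lit 483) (nat_lit 5) (nat_lit 561) (nat_lit 520) (nat_lit 479)) (XT.lf (nat_lit 0) (nat_lit 4287424835) (nat_lit 1824) (nat_lit 3221630845) (nat_lit 1900) (nat_lit 60626251) (nat_lit 458) (nat_lit 5) (nat_lit 482) (nat_lit 5) (nat_lit 483) (nat_lit 5) (nat_lit 562) (nat_lit 520) (nat_lit 478)))) (XT.nd (nat_lit 156) (nat_lit 1900) (nat_lit 0) (XT.nd (nat_lit 78) (nat_lit 0) (nat_lit 0) (XT.lf (nat_lit 0) (nat_lit 1669717896) (nat_lit 1064) (nat_lit 790388834) (nat_lit 1140) (nat_lit 5164444654) (nat_lit 443) (nat_lit 5) (nat_lit 457) (nat_lit 5) (nat_lit 458) (nat_lit 5) (nat_lit 563) (nat_lit 520) (nat_lit 477)) (XT.lf (nat_lit 0) (nat_lit 5018317484) (nat_lit 1140) (nat_lit 971713760) (nat_lit 76) (nat_lit 1690726135) (nat_lit 443) (nat_lit 5) (nat_lit 458) (nat_lit 5) (nat_lit 444) (nat_lit 5) (nat_lit 564) (nat_lit 520) (nat_lit 476))) (XT.nd (nat_lit 78) (nat_lit 988) (nat_lit 0) (XT.lf (nat_lit 0) (nat_lit 4115352967) (nat_lit 912) (nat_lit 3499914420)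 (nat_lit 988) (nat_lit 123073186) (nat_lit 431) (nat_lit 5) (nat_lit 443) (nat_lit 5) (nat_lit 444) (nat_lit 5) (nat_lit 565) (nat_lit 520) (nat_lit 475)) (XT.lf (nat_lit 0) (nat_lit 1478971222) (nat_lit 912) (nat_lit 927829736) (nat_lit 988) (nat_lit 5390516983) (nat_lit 418) (nat_lit 5) (nat_lit 430) (nat_lit 5) (nat_lit 431) (nat_lit 5) (nat_lit 566) (nat_lit 520) (nat_lit 474)))))) (XT.nd (nat_lit 546) (nat_lit 3800) (nat_lit 0) (XT.nd (nat_lit 234) (nat_lit 1748) (nat_lit 0) (XT.nd (nat_lit 78) (nat_lit 1748) (nat_lit 0) (XT.lf (nat_lit 0) (nat_lit 4977588608) (nat_lit 988) (nat_lit 1182221020) (nat_lit 76) (nat_lit 1697813989) (nat_lit 418) (nat_lit 5) (nat_lit 431) (nat_lit 5) (nat_lit 419) (nat_lit 5) (nat_lit 567) (nat_lit 520) (nat_lit 473)) (XT.nd (nat_lit 78) (nat_lit 912) (nat_lit 0) (XT.lf (nat_lit 0) (nat_lit 4059283072) (nat_lit 836) (nat_lit 3530342088) (nat_lit 912) (nat_lit 329717811) (nat_lit 407) (nat_lit 5) (nat_lit 418) (nat_lit 5) (nat_lit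 419) (nat_lit 5) (nat_lit 568) (nat_lit 520) (nat_lit 472)) (XT.lf (nat_lit 0) (nat_lit 1398329591) (nat_lit 836) (nat_lit 818148369) (nat_lit 912) (nat_lit 5766034544) (nat_lit 395) (nat_lit 5) (nat_lit 406) (nat_lit 5) (nat_lit 407) (nat_lit 5) (nat_lit 569) (nat_lit 520) (nat_lit 471)))) (XT.nd (nat_lit 156) (nat_lit 912) (nat_lit 0) (XT.nd (nat_lit 78) (nat_lit 836) (nat_lit 0) (XT.lf (nat_lit 0) (nat_lit 4806037359) (nat_lit 912) (nat_lit 1292464346) (nat_lit 76) (nat_lit 1948467024) (nat_lit 395) (nat_lit 5) (nat_lit 407) (nat_lit 5) (nat_lit 396) (nat_lit 5) (nat_lit 570) (nat_lit 520) (nat_lit 470)) (XT.lf (nat_lit 0) (nat_lit 4109207218) (nat_lit 836) (nat_lit 3329226022) (nat_lit 912) (nat_lit 674463836) (nat_lit 384) (nat_lit 5) (nat_lit 395) (nat_lit 5) (nat_lit 396) (nat_lit 5) (nat_lit 571) (nat_lit 520) (nat_lit 469))) (XT.nd (nat_lit 78) (nat_lit 0) (nat_lit 0) (XT.lf (nat_lit 0) (nat_lit 1417770458) (nat_lit 836) (nat_lit 477205127) (nat_lit 912)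 (nat_lit 6285377217) (nat_lit 372) (nat_lit 5) (nat_lit 383) (nat_lit 5) (nat_lit 384) (nat_lit 5) (nat_lit 572) (nat_lit 520) (nat_lit 468)) (XT.lf (nat_lit 0) (nat_lit 4509295484) (nat_lit 912) (nat_lit 1312223381) (nat_lit 76) (nat_lit 2427502838) (nat_lit 372) (nat_lit 5) (nat_lit 384) (nat_lit 5) (nat_lit 373) (nat_lit 5) (nat_lit 573) (nat_lit 520) (nat_lit 467))))) (XT.nd (nat_lit 234) (nat_lit 2204) (nat_lit 0) (XT.nd (nat_lit 78) (nat_lit 836) (nat_lit 0) (XT.lf (nat_lit 0) (nat_lit 4255579139) (nat_lit 760) (nat_lit 2911583865) (nat_lit 836) (nat_lit 1152079360) (nat_lit 362) (nat_lit 5) (nat_lit 372) (nat_lit 5) (nat_lit 373) (nat_lit 5) (nat_lit 574) (nat_lit 520) (nat_lit 466)) (XT.nd (nat_lit 78) (nat_lit 0) (nat_lit 0) (XT.lf (nat_lit 0) (nat_lit 1447817665) (nat_lit 836) (nat_lit 6863906034) (nat_lit 76) (nat_lit 79353999) (nat_lit 351) (nat_lit 5) (nat_lit 362) (nat_lit 5) (nat_lit 352) (nat_lit 5) (nat_lit 575) (nat_lit 520) (nat_lit 465)) (XT.lf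 (nat_lit 0) (nat_lit 4092180605) (nat_lit 836) (nat_lit 1250892846) (nat_lit 76) (nat_lit 3120969495) (nat_lit 351) (nat_lit 5) (nat_lit 362) (nat_lit 5) (nat_lit 352) (nat_lit 5) (nat_lit 576) (nat_lit 520) (nat_lit 464)))) (XT.nd (nat_lit 156) (nat_lit 684) (nat_lit 0) (XT.nd (nat_lit 78) (nat_lit 836) (nat_lit 0) (XT.lf (nat_lit 0) (nat_lit 4489234683) (nat_lit 684) (nat_lit 2291252988) (nat_lit 760) (nat_lit 1758162024) (nat_lit 342) (nat_lit 5) (nat_lit 351) (nat_lit 5) (nat_lit 352) (nat_lit 5) (nat_lit 577) (nat_lit 520) (nat_lit 463)) (XT.lf (nat_lit 0) (nat_lit 883098408) (nat_lit 836) (nat_lit 6901567177) (nat_lit 76) (nat_lit 830224470) (nat_lit 331) (nat_lit 5) (nat_lit 342) (nat_lit 5) (nat_lit 332) (nat_lit 5) (nat_lit 578) (nat_lit 520) (nat_lit 462))) (XT.nd (nat_lit 78) (nat_lit 684) (nat_lit 0) (XT.lf (nat_lit 0) (nat_lit 3558727097) (nat_lit 836) (nat_lit 1117560789) (nat_lit 76) (nat_lit 4016036351) (nat_lit 331) (nat_lit 5) (nat_lit 342) (nat_lit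 5) (nat_lit 332) (nat_lit 5) (nat_lit 579) (nat_lit 520) (nat_lit 461)) (XT.lf (nat_lit 0) (nat_lit 4801313283) (nat_lit 684) (nat_lit 1480998293) (nat_lit 760) (nat_lit 2489109739) (nat_lit 322) (nat_lit 5) (nat_lit 331) (nat_lit 5) (nat_lit 332) (nat_lit 5) (nat_lit 580) (nat_lit 520) (nat_lit 460))))))))
noncomputable def xc79 : XT := (XT.nd (nat_lit 2106) (nat_lit 6916) (nat_lit 0) (XT.nd (nat_lit 1014) (nat_lit 4560) (nat_lit 0) (XT.nd (nat_lit 468) (nat_lit 3040) (nat_lit 0) (XT.nd (nat_lit 234) (nat_lit 1368) (nat_lit 0) (XT.nd (nat_lit 78) (nat_lit 608) (nat_lit 0) (XT.lf (nat_lit 0) (nat_lit 201061394) (nat_lit 760) (nat_lit 6881661934) (nat_lit 76) (nat_lit 1769442415) (nat_lit 312) (nat_lit 5) (nat_lit 322) (nat_lit 5) (nat_lit 313) (nat_lit 5) (nat_lit 581) (nat_lit 520) (nat_lit 459)) (XT.nd (nat_lit 78) (nat_lit 608) (nat_lit 0) (XT.lf (nat_lit 0) (nat_lit 2912211609) (nat_lit 760) (nat_lit 921086318) (nat_lit 76) (nat_lit 5100890876) (nat_lit 312)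 (nat_lit 5) (nat_lit 322) (nat_lit 5) (nat_lit 313) (nat_lit 5) (nat_lit 582) (nat_lit 520) (nat_lit 458)) (XT.lf (nat_lit 0) (nat_lit 5183179832) (nat_lit 608) (nat_lit 492614301) (nat_lit 684) (nat_lit 3342096848) (nat_lit 304) (nat_lit 5) (nat_lit 312) (nat_lit 5) (nat_lit 313) (nat_lit 5) (nat_lit 583) (nat_lit 520) (nat_lit 457)))) (XT.nd (nat_lit 78) (nat_lit 684) (nat_lit 0) (XT.lf (nat_lit 0) (nat_lit 2286025271) (nat_lit 684) (nat_lit 6213530617) (nat_lit 760) (nat_lit 603615953) (nat_lit 295) (nat_lit 5) (nat_lit 304) (nat_lit 5) (nat_lit 305) (nat_lit 5) (nat_lit 584) (nat_lit 520) (nat_lit 456)) (XT.nd (nat_lit 78) (nat_lit 608) (nat_lit 0) (XT.lf (nat_lit 0) (nat_lit 2155173348) (nat_lit 760) (nat_lit 670177439) (nat_lit 76) (nat_lit 6364640755) (nat_lit 294) (nat_lit 5) (nat_lit 304) (nat_lit 5) (nat_lit 295) (nat_lit 5) (nat_lit 585) (nat_lit 520) (nat_lit 455)) (XT.lf (nat_lit 0) (nat_lit 4967673082) (nat_lit 684) (nat_lit 3656382384) (nat_lit 76)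 (nat_lit 654282659) (nat_lit 286) (nat_lit 5) (nat_lit 295) (nat_lit 5) (nat_lit 287) (nat_lit 5) (nat_lit 586) (nat_lit 520) (nat_lit 454))))) (XT.nd (nat_lit 234) (nat_lit 1748) (nat_lit 0) (XT.nd (nat_lit 78) (nat_lit 684) (nat_lit 0) (XT.lf (nat_lit 0) (nat_lit 2653196590) (nat_lit 608) (nat_lit 5189799286) (nat_lit 684) (nat_lit 1525326879) (nat_lit 278) (nat_lit 5) (nat_lit 286) (nat_lit 5) (nat_lit 287) (nat_lit 5) (nat_lit 587) (nat_lit 520) (nat_lit 453)) (XT.nd (nat_lit 78) (nat_lit 608) (nat_lit 0) (XT.lf (nat_lit 0) (nat_lit 1289429180) (nat_lit 684) (nat_lit 373469629) (nat_lit 76) (nat_lit 7797220553) (nat_lit 277) (nat_lit 5) (nat_lit 286) (nat_lit 5) (nat_lit 278) (nat_lit 5) (nat_lit 588) (nat_lit 520) (nat_lit 452)) (XT.lf (nat_lit 0) (nat_lit 4159582781) (nat_lit 684) (nat_lit 3443853223) (nat_lit 76) (nat_lit 1949726147) (nat_lit 269) (nat_lit 5) (nat_lit 278) (nat_lit 5) (nat_lit 270) (nat_lit 5) (nat_lit 589) (nat_lit 520) (nat_lit 451))))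 (XT.nd (nat_lit 156) (nat_lit 1064) (nat_lit 0) (XT.nd (nat_lit 78) (nat_lit 76) (nat_lit 0) (XT.lf (nat_lit 0) (nat_lit 3064823492) (nat_lit 608) (nat_lit 4022988188) (nat_lit 684) (nat_lit 2560243051) (nat_lit 261) (nat_lit 5) (nat_lit 269) (nat_lit 5) (nat_lit 270) (nat_lit 5) (nat_lit 590) (nat_lit 520) (nat_lit 450)) (XT.lf (nat_lit 0) (nat_lit 316083585) (nat_lit 684) (nat_lit 39605810) (nat_lit 76) (nat_lit 9389302265) (nat_lit 260) (nat_lit 5) (nat_lit 269) (nat_lit 5) (nat_lit 261) (nat_lit 5) (nat_lit 591) (nat_lit 520) (nat_lit 449))) (XT.nd (nat_lit 78) (nat_lit 532) (nat_lit 0) (XT.lf (nat_lit 0) (nat_lit 3249280091) (nat_lit 608) (nat_lit 3202727322) (nat_lit 76) (nat_lit 3390851193) (nat_lit 253) (nat_lit 5) (nat_lit 261) (nat_lit 5) (nat_lit 254) (nat_lit 5) (nat_lit 592) (nat_lit 520) (nat_lit 448)) (XT.lf (nat_lit 0) (nat_lit 3512306434) (nat_lit 532) (nat_lit 2722571106) (nat_lit 608) (nat_lit 3707932811) (nat_lit 246) (nat_lit 5) (nat_lit 253)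 (nat_lit 5) (nat_lit 254) (nat_lit 5) (nat_lit 593) (nat_lit 520) (nat_lit 447)))))) (XT.nd (nat_lit 546) (nat_lit 1900) (nat_lit 0) (XT.nd (nat_lit 234) (nat_lit 1520) (nat_lit 0) (XT.nd (nat_lit 78) (nat_lit 608) (nat_lit 0) (XT.lf (nat_lit 0) (nat_lit 314687616) (nat_lit 532) (nat_lit 8964781772) (nat_lit 608) (nat_lit 765308248) (nat_lit 239) (nat_lit 5) (nat_lit 246) (nat_lit 5) (nat_lit 247) (nat_lit 5) (nat_lit 594) (nat_lit 520) (nat_lit 446)) (XT.nd (nat_lit 78) (nat_lit 532) (nat_lit 0) (XT.lf (nat_lit 0) (nat_lit 2237023388) (nat_lit 608) (nat_lit 2941939874) (nat_lit 76) (nat_lit 4968929056) (nat_lit 238) (nat_lit 5) (nat_lit 246) (nat_lit 5) (nat_lit 239) (nat_lit 5) (nat_lit 595) (nat_lit 520) (nat_lit 445)) (XT.lf (nat_lit 0) (nat_lit 3986905697) (nat_lit 532) (nat_lit 1297471371) (nat_lit 608) (nat_lit 4968688626) (nat_lit 231) (nat_lit 5) (nat_lit 238) (nat_lit 5) (nat_lit 239) (nat_lit 5) (nat_lit 596) (nat_lit 520) (nat_lit 444)))) (XT.nd (nat_lit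 156) (nat_lit 988) (nat_lit 0) (XT.nd (nat_lit 78) (nat_lit 76) (nat_lit 0) (XT.lf (nat_lit 0) (nat_lit 683265253) (nat_lit 456) (nat_lit 7720583275) (nat_lit 532) (nat_lit 1956272587) (nat_lit 225) (nat_lit 5) (nat_lit 231) (nat_lit 5) (nat_lit 232) (nat_lit 5) (nat_lit 597) (nat_lit 520) (nat_lit 443)) (XT.lf (nat_lit 0) (nat_lit 1122371719) (nat_lit 532) (nat_lit 2670645435) (nat_lit 76) (nat_lit 6675745004) (nat_lit 224) (nat_lit 5) (nat_lit 231) (nat_lit 5) (nat_lit 225) (nat_lit 5) (nat_lit 598) (nat_lit 520) (nat_lit 442))) (XT.nd (nat_lit 78) (nat_lit 456) (nat_lit 0) (XT.lf (nat_lit 0) (nat_lit 4237382548) (nat_lit 608) (nat_lit 6101260486) (nat_lit 76) (nat_lit 240656484) (nat_lit 217) (nat_lit 5) (nat_lit 225) (nat_lit 5) (nat_lit 218) (nat_lit 5) (nat_lit 599) (nat_lit 520) (nat_lit 441)) (XT.lf (nat_lit 0) (nat_lit 1060817354) (nat_lit 456) (nat_lit 6374452352) (nat_lit 532) (nat_lit 3256368236) (nat_lit 211) (nat_lit 5) (nat_lit 217) (nat_lit 5) (nat_lit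 218) (nat_lit 5) (nat_lit 600) (nat_lit 520) (nat_lit 440))))) (XT.nd (nat_lit 234) (nat_lit 912) (nat_lit 0) (XT.nd (nat_lit 78) (nat_lit 988) (nat_lit 0) (XT.lf (nat_lit 0) (nat_lit 8407050949) (nat_lit 456) (nat_lit 2301842001) (nat_lit 532) (nat_lit 97096421) (nat_lit 211) (nat_lit 5) (nat_lit 217) (nat_lit 5) (nat_lit 218) (nat_lit 5) (nat_lit 601) (nat_lit 520) (nat_lit 439)) (XT.nd (nat_lit 78) (nat_lit 456) (nat_lit 0) (XT.lf (nat_lit 0) (nat_lit 3100222050) (nat_lit 532) (nat_lit 5953180533) (nat_lit 76) (nat_lit 1868504123) (nat_lit 204) (nat_lit 5) (nat_lit 211) (nat_lit 5) (nat_lit 205) (nat_lit 5) (nat_lit 602) (nat_lit 520) (nat_lit 438)) (XT.lf (nat_lit 0) (nat_lit 1437731977) (nat_lit 456) (nat_lit 4934671739) (nat_lit 532) (nat_lit 4667483198) (nat_lit 198) (nat_lit 5) (nat_lit 204) (nat_lit 5) (nat_lit 205) (nat_lit 5) (nat_lit 603) (nat_lit 520) (nat_lit 437)))) (XT.nd (nat_lit 156) (nat_lit 380) (nat_lit 0) (XT.nd (nat_lit 78) (nat_lit 532)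 (nat_lit 0) (XT.lf (nat_lit 0) (nat_lit 9015860776) (nat_lit 456) (nat_lit 705841510) (nat_lit 532) (nat_lit 1438292640) (nat_lit 198) (nat_lit 5) (nat_lit 204) (nat_lit 5) (nat_lit 205) (nat_lit 5) (nat_lit 604) (nat_lit 520) (nat_lit 436)) (XT.lf (nat_lit 0) (nat_lit 1862487384) (nat_lit 532) (nat_lit 5823729766) (nat_lit 76) (nat_lit 3595421796) (nat_lit 191) (nat_lit 5) (nat_lit 198) (nat_lit 5) (nat_lit 192) (nat_lit 5) (nat_lit 605) (nat_lit 520) (nat_lit 435))) (XT.nd (nat_lit 78) (nat_lit 0) (nat_lit 0) (XT.lf (nat_lit 0) (nat_lit 1803931062) (nat_lit 380) (nat_lit 3409274475) (nat_lit 456) (nat_lit 6192258112) (nat_lit 186) (nat_lit 5) (nat_lit 191) (nat_lit 5) (nat_lit 192) (nat_lit 5) (nat_lit 606) (nat_lit 520) (nat_lit 434)) (XT.lf (nat_lit 0) (nat_lit 8648950613) (nat_lit 456) (nat_lit 1915599368) (nat_lit 76) (nat_lit 966856154) (nat_lit 186) (nat_lit 5) (nat_lit 192) (nat_lit 5) (nat_lit 187) (nat_lit 5) (nat_lit 607) (nat_lit 520) (nat_lit 433)))))))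 (XT.nd (nat_lit 1092) (nat_lit 2888) (nat_lit 0) (XT.nd (nat_lit 546) (nat_lit 1900) (nat_lit 0) (XT.nd (nat_lit 234) (nat_lit 1216) (nat_lit 0) (XT.nd (nat_lit 78) (nat_lit 380) (nat_lit 0) (XT.lf (nat_lit 0) (nat_lit 521456447) (nat_lit 532) (nat_lit 5723698700) (nat_lit 76) (nat_lit 5413961991) (nat_lit 179) (nat_lit 5) (nat_lit 186) (nat_lit 5) (nat_lit 180) (nat_lit 5) (nat_lit 608) (nat_lit 520) (nat_lit 432)) (XT.nd (nat_lit 78) (nat_lit 0) (nat_lit 0) (XT.lf (nat_lit 0) (nat_lit 2148765512) (nat_lit 380) (nat_lit 1806126012) (nat_lit 456) (nat_lit 7834110408) (nat_lit 174) (nat_lit 5) (nat_lit 179) (nat_lit 5) (nat_lit 180) (nat_lit 5) (nat_lit 609) (nat_lit 520) (nat_lit 431)) (XT.lf (nat_lit 0) (nat_lit 7486620584) (nat_lit 456) (nat_lit 1723094296) (nat_lit 76) (nat_lit 2711178458) (nat_lit 174) (nat_lit 5) (nat_lit 180) (nat_lit 5) (nat_lit 175) (nat_lit 5) (nat_lit 610) (nat_lit 520) (nat_lit 430)))) (XT.nd (nat_lit 156) (nat_lit 380) (nat_lit 0) (XT.nd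 (nat_lit 78) (nat_lit 456) (nat_lit 0) (XT.lf (nat_lit 0) (nat_lit 6384240459) (nat_lit 380) (nat_lit 4731970205) (nat_lit 456) (nat_lit 938668774) (nat_lit 169) (nat_lit 5) (nat_lit 174) (nat_lit 5) (nat_lit 175) (nat_lit 5) (nat_lit 611) (nat_lit 520) (nat_lit 429)) (XT.lf (nat_lit 0) (nat_lit 2460903105) (nat_lit 380) (nat_lit 133007374) (nat_lit 456) (nat_lit 9597264721) (nat_lit 163) (nat_lit 5) (nat_lit 168) (nat_lit 5) (nat_lit 169) (nat_lit 5) (nat_lit 612) (nat_lit 520) (nat_lit 428))) (XT.nd (nat_lit 78) (nat_lit 380) (nat_lit 0) (XT.lf (nat_lit 0) (nat_lit 6226543495) (nat_lit 456) (nat_lit 1573724340) (nat_lit 76) (nat_lit 4528966845) (nat_lit 163) (nat_lit 5) (nat_lit 169) (nat_lit 5) (nat_lit 164) (nat_lit 5) (nat_lit 613) (nat_lit 520) (nat_lit 427)) (XT.lf (nat_lit 0) (nat_lit 6794806215) (nat_lit 380) (nat_lit 3156589880) (nat_lit 456) (nat_lit 2518269204) (nat_lit 158) (nat_lit 5) (nat_lit 163) (nat_lit 5) (nat_lit 164) (nat_lit 5) (nat_lit 614)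 (nat_lit 520) (nat_lit 426))))) (XT.nd (nat_lit 234) (nat_lit 1064) (nat_lit 0) (XT.nd (nat_lit 78) (nat_lit 380) (nat_lit 0) (XT.lf (nat_lit 0) (nat_lit 1136311484) (nat_lit 456) (nat_lit 9894893217) (nat_lit 76) (nat_lit 1581285450) (nat_lit 152) (nat_lit 5) (nat_lit 158) (nat_lit 5) (nat_lit 153) (nat_lit 5) (nat_lit 615) (nat_lit 520) (nat_lit 425)) (XT.nd (nat_lit 78) (nat_lit 380) (nat_lit 0) (XT.lf (nat_lit 0) (nat_lit 4864331130) (nat_lit 456) (nat_lit 1480031466) (nat_lit 76) (nat_lit 6412795864) (nat_lit 152) (nat_lit 5) (nat_lit 158) (nat_lit 5) (nat_lit 153) (nat_lit 5) (nat_lit 616) (nat_lit 520) (nat_lit 424)) (XT.lf (nat_lit 0) (nat_lit 7158171130) (nat_lit 380) (nat_lit 1530507196) (nat_lit 456) (nat_lit 4215607655) (nat_lit 147) (nat_lit 5) (nat_lit 152) (nat_lit 5) (nat_lit 153) (nat_lit 5) (nat_lit 617) (nat_lit 520) (nat_lit 423)))) (XT.nd (nat_lit 156) (nat_lit 684) (nat_lit 0) (XT.nd (nat_lit 78) (nat_lit 76) (nat_lit 0) (XT.lf (nat_lit 0)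 (nat_lit 2912248043) (nat_lit 304) (nat_lit 9703546955) (nat_lit 380) (nat_lit 438036572) (nat_lit 143) (nat_lit 5) (nat_lit 147) (nat_lit 5) (nat_lit 148) (nat_lit 5) (nat_lit 618) (nat_lit 520) (nat_lit 422)) (XT.lf (nat_lit 0) (nat_lit 3394749014) (nat_lit 380) (nat_lit 1455543641) (nat_lit 76) (nat_lit 8355144025) (nat_lit 142) (nat_lit 5) (nat_lit 147) (nat_lit 5) (nat_lit 143) (nat_lit 5) (nat_lit 619) (nat_lit 520) (nat_lit 421))) (XT.nd (nat_lit 78) (nat_lit 304) (nat_lit 0) (XT.lf (nat_lit 0) (nat_lit 7323650574) (nat_lit 456) (nat_lit 5899543563) (nat_lit 76) (nat_lit 136316435) (nat_lit 137) (nat_lit 5) (nat_lit 143) (nat_lit 5) (nat_lit 138) (nat_lit 5) (nat_lit 620) (nat_lit 520) (nat_lit 420)) (XT.lf (nat_lit 0) (nat_lit 3026132192) (nat_lit 304) (nat_lit 8342712745) (nat_lit 380) (nat_lit 2147067787) (nat_lit 133) (nat_lit 5) (nat_lit 137) (nat_lit 5) (nat_lit 138) (nat_lit 5) (nat_lit 621) (nat_lit 520) (nat_lit 419)))))) (XT.nd (nat_lit 546) (nat_lit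 1520) (nat_lit 0) (XT.nd (nat_lit 234) (nat_lit 684) (nat_lit 0) (XT.nd (nat_lit 78) (nat_lit 608) (nat_lit 0) (XT.lf (nat_lit 0) (nat_lit 1811665034) (nat_lit 380) (nat_lit 1514918082) (nat_lit 76) (nat_lit 10348304015) (nat_lit 132) (nat_lit 5) (nat_lit 137) (nat_lit 5) (nat_lit 133) (nat_lit 5) (nat_lit 622) (nat_lit 520) (nat_lit 418)) (XT.nd (nat_lit 78) (nat_lit 304) (nat_lit 0) (XT.lf (nat_lit 0) (nat_lit 5859364070) (nat_lit 380) (nat_lit 6159850578) (nat_lit 76) (nat_lit 1816772733) (nat_lit 128) (nat_lit 5) (nat_lit 133) (nat_lit 5) (nat_lit 129) (nat_lit 5) (nat_lit 623) (nat_lit 520) (nat_lit 417)) (XT.lf (nat_lit 0) (nat_lit 3051514413) (nat_lit 304) (nat_lit 6965343974) (nat_lit 380) (nat_lit 3982875423) (nat_lit 124) (nat_lit 5) (nat_lit 128) (nat_lit 5) (nat_lit 129) (nat_lit 5) (nat_lit 624) (nat_lit 520) (nat_lit 416)))) (XT.nd (nat_lit 156) (nat_lit 304) (nat_lit 0) (XT.nd (nat_lit 78) (nat_lit 304) (nat_lit 0) (XT.lf (nat_lit 0) (nat_lit 107990125)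 (nat_lit 380) (nat_lit 1674096885) (nat_lit 76) (nat_lit 12384288670) (nat_lit 123) (nat_lit 5) (nat_lit 128) (nat_lit 5) (nat_lit 124) (nat_lit 5) (nat_lit 625) (nat_lit 520) (nat_lit 415)) (XT.lf (nat_lit 0) (nat_lit 4278645306) (nat_lit 380) (nat_lit 6533850234) (nat_lit 76) (nat_lit 3522303190) (nat_lit 119) (nat_lit 5) (nat_lit 124) (nat_lit 5) (nat_lit 120) (nat_lit 5) (nat_lit 626) (nat_lit 520) (nat_lit 414))) (XT.nd (nat_lit 78) (nat_lit 0) (nat_lit 0) (XT.lf (nat_lit 0) (nat_lit 2971638883) (nat_lit 304) (nat_lit 5580868929) (nat_lit 380) (nat_lit 5953687465) (nat_lit 115) (nat_lit 5) (nat_lit 119) (nat_lit 5) (nat_lit 120) (nat_lit 5) (nat_lit 627) (nat_lit 520) (nat_lit 413)) (XT.lf (nat_lit 0) (nat_lit 12718770665) (nat_lit 304) (nat_lit 214515356) (nat_lit 380) (nat_lit 1747305867) (nat_lit 115) (nat_lit 5) (nat_lit 119) (nat_lit 5) (nat_lit 120) (nat_lit 5) (nat_lit 628) (nat_lit 520) (nat_lit 412))))) (XT.nd (nat_lit 234) (nat_lit 912) (nat_lit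 0) (XT.nd (nat_lit 78) (nat_lit 228) (nat_lit 0) (XT.lf (nat_lit 0) (nat_lit 2573215490) (nat_lit 380) (nat_lit 7039832367) (nat_lit 76) (nat_lit 5243831863) (nat_lit 110) (nat_lit 5) (nat_lit 115) (nat_lit 5) (nat_lit 111) (nat_lit 5) (nat_lit 629) (nat_lit 520) (nat_lit 411)) (XT.nd (nat_lit 78) (nat_lit 0) (nat_lit 0) (XT.lf (nat_lit 0) (nat_lit 2768173687) (nat_lit 228) (nat_lit 4199234123) (nat_lit 304) (nat_lit 8068842216) (nat_lit 107) (nat_lit 5) (nat_lit 110) (nat_lit 5) (nat_lit 111) (nat_lit 5) (nat_lit 630) (nat_lit 520) (nat_lit 410)) (XT.lf (nat_lit 0) (nat_lit 11483715955) (nat_lit 304) (nat_lit 2396206829) (nat_lit 76) (nat_lit 1338601148) (nat_lit 107) (nat_lit 5) (nat_lit 111) (nat_lit 5) (nat_lit 108) (nat_lit 5) (nat_lit 631) (nat_lit 520) (nat_lit 409)))) (XT.nd (nat_lit 156) (nat_lit 304) (nat_lit 0) (XT.nd (nat_lit 78) (nat_lit 228) (nat_lit 0) (XT.lf (nat_lit 0) (nat_lit 733672737) (nat_lit 380) (nat_lit 7697817365) (nat_lit 76) (nat_lit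 6971729716) (nat_lit 102) (nat_lit 5) (nat_lit 107) (nat_lit 5) (nat_lit 103) (nat_lit 5) (nat_lit 632) (nat_lit 520) (nat_lit 408)) (XT.lf (nat_lit 0) (nat_lit 2421013499) (nat_lit 228) (nat_lit 2831017902) (nat_lit 304) (nat_lit 10338874916) (nat_lit 99) (nat_lit 5) (nat_lit 102) (nat_lit 5) (nat_lit 103) (nat_lit 5) (nat_lit 633) (nat_lit 520) (nat_lit 407))) (XT.nd (nat_lit 78) (nat_lit 304) (nat_lit 0) (XT.lf (nat_lit 0) (nat_lit 9910121752) (nat_lit 304) (nat_lit 2990025149) (nat_lit 76) (nat_lit 2881213124) (nat_lit 99) (nat_lit 5) (nat_lit 103) (nat_lit 5) (nat_lit 100) (nat_lit 5) (nat_lit 634) (nat_lit 520) (nat_lit 406)) (XT.lf (nat_lit 0) (nat_lit 7436707336) (nat_lit 304) (nat_lit 7270775187) (nat_lit 380) (nat_lit 1267218868) (nat_lit 95) (nat_lit 5) (nat_lit 99) (nat_lit 5) (nat_lit 100) (nat_lit 5) (nat_lit 635) (nat_lit 520) (nat_lit 405))))))))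
noncomputable def xc80 : XT := (XT.nd (nat_lit 73320) (nat_lit 0) (nat_lit 31540) (XT.nd (nat_lit 72228) (nat_lit 0) (nat_lit 51148) (XT.nd (nat_lit 468) (nat_lit 1064) (nat_lit 0) (XT.nd (nat_lit 234) (nat_lit 532) (nat_lit 0) (XT.nd (nat_lit 78) (nat_lit 228) (nat_lit 0) (XT.lf (nat_lit 0) (nat_lit 1908063529) (nat_lit 228) (nat_lit 1487552141) (nat_lit 304) (nat_lit 12775615284) (nat_lit 91) (nat_lit 5) (nat_lit 94) (nat_lit 5) (nat_lit 95) (nat_lit 5) (nat_lit 636) (nat_lit 520) (nat_lit 404)) (XT.nd (nat_lit 78) (nat_lit 228) (nat_lit 0) (XT.lf (nat_lit 0) (nat_lit 8200274162) (nat_lit 304) (nat_lit 3764829293) (nat_lit 76) (nat_lit 4405110131) (nat_lit 91) (nat_lit 5) (nat_lit 95) (nat_lit 5) (nat_lit 92) (nat_lit 5) (nat_lit 637) (nat_lit 520) (nat_lit 403)) (XT.lf (nat_lit 0) (nat_lit 6990354837) (nat_lit 228) (nat_lit 6145520382) (nat_lit 304) (nat_lit 3436604362) (nat_lit 88) (nat_lit 5) (nat_lit 91) (nat_lit 5) (nat_lit 92) (nat_lit 5) (nat_lit 638)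 (nat_lit 520) (nat_lit 402)))) (XT.nd (nat_lit 78) (nat_lit 228) (nat_lit 0) (XT.lf (nat_lit 0) (nat_lit 1205002582) (nat_lit 228) (nat_lit 181053207) (nat_lit 304) (nat_lit 15392296963) (nat_lit 84) (nat_lit 5) (nat_lit 87) (nat_lit 5) (nat_lit 88) (nat_lit 5) (nat_lit 639) (nat_lit 520) (nat_lit 401)) (XT.nd (nat_lit 78) (nat_lit 228) (nat_lit 0) (XT.lf (nat_lit 0) (nat_lit 6341977671) (nat_lit 304) (nat_lit 4745875356) (nat_lit 76) (nat_lit 5898380206) (nat_lit 84) (nat_lit 5) (nat_lit 88) (nat_lit 5) (nat_lit 85) (nat_lit 5) (nat_lit 640) (nat_lit 520) (nat_lit 400)) (XT.lf (nat_lit 0) (nat_lit 6345794199) (nat_lit 228) (nat_lit 5073751807) (nat_lit 304) (nat_lit 5778275399) (nat_lit 81) (nat_lit 5) (nat_lit 84) (nat_lit 5) (nat_lit 85) (nat_lit 5) (nat_lit 641) (nat_lit 520) (nat_lit 399))))) (XT.nd (nat_lit 234) (nat_lit 532) (nat_lit 0) (XT.nd (nat_lit 78) (nat_lit 304) (nat_lit 0) (XT.lf (nat_lit 0) (nat_lit 272646261) (nat_lit 228) (nat_lit 16346936145)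 (nat_lit 304) (nat_lit 793641233) (nat_lit 78) (nat_lit 5) (nat_lit 81) (nat_lit 5) (nat_lit 82) (nat_lit 5) (nat_lit 642) (nat_lit 520) (nat_lit 398)) (XT.nd (nat_lit 78) (nat_lit 228) (nat_lit 0) (XT.lf (nat_lit 0) (nat_lit 4321555864) (nat_lit 304) (nat_lit 5960996635) (nat_lit 76) (nat_lit 7348081998) (nat_lit 77) (nat_lit 5) (nat_lit 81) (nat_lit 5) (nat_lit 78) (nat_lit 5) (nat_lit 643) (nat_lit 520) (nat_lit 397)) (XT.lf (nat_lit 0) (nat_lit 5474907345) (nat_lit 228) (nat_lit 4069704141) (nat_lit 304) (nat_lit 8307354133) (nat_lit 74) (nat_lit 5) (nat_lit 77) (nat_lit 5) (nat_lit 78) (nat_lit 5) (nat_lit 644) (nat_lit 520) (nat_lit 396)))) (XT.nd (nat_lit 156) (nat_lit 228) (nat_lit 0) (XT.nd (nat_lit 78) (nat_lit 304) (nat_lit 0) (XT.lf (nat_lit 0) (nat_lit 14907809225) (nat_lit 304) (nat_lit 905463304) (nat_lit 76) (nat_lit 2263737799) (nat_lit 74) (nat_lit 5) (nat_lit 78) (nat_lit 5) (nat_lit 75) (nat_lit 5) (nat_lit 645) (nat_lit 520) (nat_lit 395))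 (XT.lf (nat_lit 0) (nat_lit 2123715385) (nat_lit 304) (nat_lit 7440897165) (nat_lit 76) (nat_lit 8740091496) (nat_lit 70) (nat_lit 5) (nat_lit 74) (nat_lit 5) (nat_lit 71) (nat_lit 5) (nat_lit 646) (nat_lit 520) (nat_lit 394))) (XT.nd (nat_lit 78) (nat_lit 0) (nat_lit 0) (XT.lf (nat_lit 0) (nat_lit 4346630108) (nat_lit 228) (nat_lit 3148905500) (nat_lit 304) (nat_lit 11040687992) (nat_lit 67) (nat_lit 5) (nat_lit 70) (nat_lit 5) (nat_lit 71) (nat_lit 5) (nat_lit 647) (nat_lit 520) (nat_lit 393)) (XT.lf (nat_lit 0) (nat_lit 13028265559) (nat_lit 304) (nat_lit 2356295969) (nat_lit 76) (nat_lit 3386743089) (nat_lit 67) (nat_lit 5) (nat_lit 71) (nat_lit 5) (nat_lit 68) (nat_lit 5) (nat_lit 648) (nat_lit 520) (nat_lit 392)))))) (XT.nd (nat_lit 546) (nat_lit 1824) (nat_lit 0) (XT.nd (nat_lit 234) (nat_lit 532) (nat_lit 0) (XT.nd (nat_lit 78) (nat_lit 228) (nat_lit 0) (XT.lf (nat_lit 0) (nat_lit 1575321576) (nat_lit 0) (nat_lit 1575321576) (nat_lit 76) (nat_lit 71425439)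 (nat_lit 774) (nat_lit 5) (nat_lit 774) (nat_lit 3) (nat_lit 775) (nat_lit 0) (nat_lit 521) (nat_lit 521) (nat_lit 518)) (XT.nd (nat_lit 78) (nat_lit 0) (nat_lit 0) (XT.lf (nat_lit 0) (nat_lit 2926431757) (nat_lit 228) (nat_lit 99524603) (nat_lit 228) (nat_lit 3420725317) (nat_lit 771) (nat_lit 3) (nat_lit 774) (nat_lit 3) (nat_lit 774) (nat_lit 5) (nat_lit 522) (nat_lit 521) (nat_lit 517)) (XT.lf (nat_lit 76) (nat_lit 3157732262) (nat_lit 0) (nat_lit 2837462668) (nat_lit 228) (nat_lit 455277237) (nat_lit 772) (nat_lit 5) (nat_lit 771) (nat_lit 3) (nat_lit 774) (nat_lit 5) (nat_lit 523) (nat_lit 521) (nat_lit 516)))) (XT.nd (nat_lit 156) (nat_lit 304) (nat_lit 0) (XT.nd (nat_lit 78) (nat_lit 0) (nat_lit 0) (XT.lf (nat_lit 0) (nat_lit 2556915831) (nat_lit 228) (nat_lit 32051112) (nat_lit 304) (nat_lit 3866619251) (nat_lit 768) (nat_lit 5) (nat_lit 771) (nat_lit 3) (nat_lit 772) (nat_lit 5) (nat_lit 524) (nat_lit 521) (nat_lit 515)) (XT.lf (nat_lit 76) (nat_lit 3292982218)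 (nat_lit 0) (nat_lit 2273502680) (nat_lit 304) (nat_lit 895406178) (nat_lit 769) (nat_lit 5) (nat_lit 768) (nat_lit 5) (nat_lit 772) (nat_lit 5) (nat_lit 525) (nat_lit 521) (nat_lit 514))) (XT.nd (nat_lit 78) (nat_lit 0) (nat_lit 0) (XT.lf (nat_lit 76) (nat_lit 162878307) (nat_lit 0) (nat_lit 1900474355) (nat_lit 380) (nat_lit 4406223451) (nat_lit 765) (nat_lit 5) (nat_lit 764) (nat_lit 5) (nat_lit 769) (nat_lit 5) (nat_lit 526) (nat_lit 521) (nat_lit 513)) (XT.lf (nat_lit 76) (nat_lit 3556709282) (nat_lit 0) (nat_lit 1457661395) (nat_lit 380) (nat_lit 1464036891) (nat_lit 765) (nat_lit 5) (nat_lit 764) (nat_lit 5) (nat_lit 769) (nat_lit 5) (nat_lit 527) (nat_lit 521) (nat_lit 512))))) (XT.nd (nat_lit 234) (nat_lit 1064) (nat_lit 0) (XT.nd (nat_lit 78) (nat_lit 380) (nat_lit 0) (XT.lf (nat_lit 76) (nat_lit 485656177) (nat_lit 0) (nat_lit 959155471) (nat_lit 456) (nat_lit 5043856970) (nat_lit 760) (nat_lit 5) (nat_lit 759) (nat_lit 5) (nat_lit 765) (nat_lit 5) (nat_lit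 528) (nat_lit 521) (nat_lit 511)) (XT.nd (nat_lit 78) (nat_lit 380) (nat_lit 0) (XT.lf (nat_lit 76) (nat_lit 3949476904) (nat_lit 0) (nat_lit 388345333) (nat_lit 456) (nat_lit 2162219170) (nat_lit 760) (nat_lit 5) (nat_lit 759) (nat_lit 5) (nat_lit 765) (nat_lit 5) (nat_lit 529) (nat_lit 521) (nat_lit 510)) (XT.lf (nat_lit 0) (nat_lit 701463677) (nat_lit 456) (nat_lit 5577886361) (nat_lit 76) (nat_lit 233510018) (nat_lit 754) (nat_lit 5) (nat_lit 760) (nat_lit 5) (nat_lit 755) (nat_lit 5) (nat_lit 530) (nat_lit 521) (nat_lit 509)))) (XT.nd (nat_lit 156) (nat_lit 608) (nat_lit 0) (XT.nd (nat_lit 78) (nat_lit 456) (nat_lit 0) (XT.lf (nat_lit 0) (nat_lit 3541643621) (nat_lit 456) (nat_lit 2060802797) (nat_lit 76) (nat_lit 924250457) (nat_lit 754) (nat_lit 5) (nat_lit 760) (nat_lit 5) (nat_lit 755) (nat_lit 5) (nat_lit 531) (nat_lit 521) (nat_lit 508)) (XT.lf (nat_lit 0) (nat_lit 1504191593) (nat_lit 456) (nat_lit 4873954415) (nat_lit 532) (nat_lit 163884979) (nat_lit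 748) (nat_lit 5) (nat_lit 754) (nat_lit 5) (nat_lit 755) (nat_lit 5) (nat_lit 532) (nat_lit 521) (nat_lit 507))) (XT.nd (nat_lit 78) (nat_lit 532) (nat_lit 0) (XT.lf (nat_lit 0) (nat_lit 2622426206) (nat_lit 532) (nat_lit 1449502195) (nat_lit 76) (nat_lit 2486515299) (nat_lit 747) (nat_lit 5) (nat_lit 754) (nat_lit 5) (nat_lit 748) (nat_lit 5) (nat_lit 533) (nat_lit 521) (nat_lit 506)) (XT.lf (nat_lit 0) (nat_lit 2196344593) (nat_lit 532) (nat_lit 3211941329) (nat_lit 608) (nat_lit 1167967050) (nat_lit 740) (nat_lit 5) (nat_lit 747) (nat_lit 5) (nat_lit 748) (nat_lit 5) (nat_lit 534) (nat_lit 521) (nat_lit 505))))))) (XT.nd (nat_lit 1014) (nat_lit 13376) (nat_lit 0) (XT.nd (nat_lit 468) (nat_lit 3952) (nat_lit 0) (XT.nd (nat_lit 234) (nat_lit 836) (nat_lit 0) (XT.nd (nat_lit 78) (nat_lit 1368) (nat_lit 0) (XT.lf (nat_lit 0) (nat_lit 1575891380) (nat_lit 608) (nat_lit 712889670) (nat_lit 76) (nat_lit 4306589148) (nat_lit 739) (nat_lit 5) (nat_lit 747) (nat_lit 5)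 (nat_lit 740) (nat_lit 5) (nat_lit 535) (nat_lit 521) (nat_lit 504)) (XT.nd (nat_lit 78) (nat_lit 760) (nat_lit 0) (XT.lf (nat_lit 0) (nat_lit 3017535721) (nat_lit 608) (nat_lit 1294751865) (nat_lit 684) (nat_lit 2303371494) (nat_lit 731) (nat_lit 5) (nat_lit 739) (nat_lit 5) (nat_lit 740) (nat_lit 5) (nat_lit 536) (nat_lit 521) (nat_lit 503)) (XT.lf (nat_lit 0) (nat_lit 152529090) (nat_lit 684) (nat_lit 248491431) (nat_lit 760) (nat_lit 6236480139) (nat_lit 721) (nat_lit 5) (nat_lit 730) (nat_lit 5) (nat_lit 731) (nat_lit 5) (nat_lit 537) (nat_lit 521) (nat_lit 502)))) (XT.nd (nat_lit 78) (nat_lit 836) (nat_lit 0) (XT.lf (nat_lit 0) (nat_lit 3093751952) (nat_lit 760) (nat_lit 2696610881) (nat_lit 76) (nat_lit 869819008) (nat_lit 721) (nat_lit 5) (nat_lit 731) (nat_lit 5) (nat_lit 722) (nat_lit 5) (nat_lit 538) (nat_lit 521) (nat_lit 501)) (XT.nd (nat_lit 78) (nat_lit 76) (nat_lit 0) (XT.lf (nat_lit 0) (nat_lit 1138098446) (nat_lit 760) (nat_lit 4647984472) (nat_lit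 836) (nat_lit 898327799) (nat_lit 711) (nat_lit 5) (nat_lit 721) (nat_lit 5) (nat_lit 722) (nat_lit 5) (nat_lit 539) (nat_lit 521) (nat_lit 500)) (XT.lf (nat_lit 0) (nat_lit 1754695216) (nat_lit 836) (nat_lit 1677924743) (nat_lit 76) (nat_lit 3277166699) (nat_lit 710) (nat_lit 5) (nat_lit 721) (nat_lit 5) (nat_lit 711) (nat_lit 5) (nat_lit 540) (nat_lit 521) (nat_lit 499))))) (XT.nd (nat_lit 234) (nat_lit 2128) (nat_lit 0) (XT.nd (nat_lit 78) (nat_lit 988) (nat_lit 0) (XT.lf (nat_lit 0) (nat_lit 2248964300) (nat_lit 836) (nat_lit 2152883234) (nat_lit 912) (nat_lit 2334650329) (nat_lit 699) (nat_lit 5) (nat_lit 710) (nat_lit 5) (nat_lit 711) (nat_lit 5) (nat_lit 541) (nat_lit 521) (nat_lit 498)) (XT.nd (nat_lit 78) (nat_lit 912) (nat_lit 0) (XT.lf (nat_lit 0) (nat_lit 284106061) (nat_lit 912) (nat_lit 531604910) (nat_lit 76) (nat_lit 5948989690) (nat_lit 698) (nat_lit 5) (nat_lit 710) (nat_lit 5) (nat_lit 699) (nat_lit 5) (nat_lit 542) (nat_lit 521) (nat_lit 497))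 (XT.lf (nat_lit 0) (nat_lit 2890806309) (nat_lit 988) (nat_lit 3306170639) (nat_lit 76) (nat_lit 596853295) (nat_lit 686) (nat_lit 5) (nat_lit 699) (nat_lit 5) (nat_lit 687) (nat_lit 5) (nat_lit 543) (nat_lit 521) (nat_lit 496)))) (XT.nd (nat_lit 156) (nat_lit 1064) (nat_lit 0) (XT.nd (nat_lit 78) (nat_lit 76) (nat_lit 0) (XT.lf (nat_lit 0) (nat_lit 732090676) (nat_lit 988) (nat_lit 4772511395) (nat_lit 1064) (nat_lit 1319848926) (nat_lit 673) (nat_lit 5) (nat_lit 686) (nat_lit 5) (nat_lit 687) (nat_lit 5) (nat_lit 544) (nat_lit 521) (nat_lit 495)) (XT.lf (nat_lit 0) (nat_lit 1261774980) (nat_lit 1064) (nat_lit 2011620001) (nat_lit 76) (nat_lit 3582845299) (nat_lit 672) (nat_lit 5) (nat_lit 686) (nat_lit 5) (nat_lit 673) (nat_lit 5) (nat_lit 545) (nat_lit 521) (nat_lit 494))) (XT.nd (nat_lit 78) (nat_lit 0) (nat_lit 0) (XT.lf (nat_lit 0) (nat_lit 2127119333) (nat_lit 1064) (nat_lit 1706908258) (nat_lit 1140) (nat_lit 3055337254) (nat_lit 658) (nat_lit 5) (nat_lit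 672) (nat_lit 5) (nat_lit 673) (nat_lit 5) (nat_lit 546) (nat_lit 521) (nat_lit 493)) (XT.lf (nat_lit 0) (nat_lit 6333410267) (nat_lit 1064) (nat_lit 81500695) (nat_lit 1140) (nat_lit 509104436) (nat_lit 658) (nat_lit 5) (nat_lit 672) (nat_lit 5) (nat_lit 673) (nat_lit 5) (nat_lit 547) (nat_lit 521) (nat_lit 492)))))) (XT.nd (nat_lit 546) (nat_lit 6688) (nat_lit 0) (XT.nd (nat_lit 234) (nat_lit 4180) (nat_lit 0) (XT.nd (nat_lit 78) (nat_lit 1292) (nat_lit 0) (XT.lf (nat_lit 0) (nat_lit 2039393980) (nat_lit 1216) (nat_lit 3313836740) (nat_lit 76) (nat_lit 1606289515) (nat_lit 642) (nat_lit 5) (nat_lit 658) (nat_lit 5) (nat_lit 643) (nat_lit 5) (nat_lit 548) (nat_lit 521) (nat_lit 491)) (XT.nd (nat_lit 78) (nat_lit 76) (nat_lit 0) (XT.lf (nat_lit 0) (nat_lit 944184555) (nat_lit 1216) (nat_lit 3643843473) (nat_lit 1292) (nat_lit 2408526982) (nat_lit 626) (nat_lit 5) (nat_lit 642) (nat_lit 5) (nat_lit 643) (nat_lit 5) (nat_lit 549) (nat_lit 521) (nat_lit 490)) (XT.lf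 (nat_lit 0) (nat_lit 119424602) (nat_lit 1292) (nat_lit 1746493616) (nat_lit 76) (nat_lit 5169036272) (nat_lit 625) (nat_lit 5) (nat_lit 642) (nat_lit 5) (nat_lit 626) (nat_lit 5) (nat_lit 550) (nat_lit 521) (nat_lit 489)))) (XT.nd (nat_lit 156) (nat_lit 2888) (nat_lit 0) (XT.nd (nat_lit 78) (nat_lit 0) (nat_lit 0) (XT.lf (nat_lit 0) (nat_lit 2621031958) (nat_lit 1292) (nat_lit 8510595) (nat_lit 1368) (nat_lit 4444990255) (nat_lit 608) (nat_lit 5) (nat_lit 625) (nat_lit 5) (nat_lit 626) (nat_lit 5) (nat_lit 551) (nat_lit 521) (nat_lit 488)) (XT.lf (nat_lit 0) (nat_lit 5161545703) (nat_lit 1368) (nat_lit 71139010) (nat_lit 76) (nat_lit 1882790602) (nat_lit 608) (nat_lit 5) (nat_lit 626) (nat_lit 5) (nat_lit 609) (nat_lit 5) (nat_lit 552) (nat_lit 521) (nat_lit 487))) (XT.nd (nat_lit 78) (nat_lit 1444) (nat_lit 0) (XT.lf (nat_lit 0) (nat_lit 556478798) (nat_lit 1444) (nat_lit 2747526815) (nat_lit 76) (nat_lit 3853616388) (nat_lit 589) (nat_lit 5) (nat_lit 608) (nat_lit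 5) (nat_lit 590) (nat_lit 5) (nat_lit 553) (nat_lit 521) (nat_lit 486)) (XT.lf (nat_lit 0) (nat_lit 1748025570) (nat_lit 1444) (nat_lit 1303816508) (nat_lit 1520) (nat_lit 4149298953) (nat_lit 570) (nat_lit 5) (nat_lit 589) (nat_lit 5) (nat_lit 590) (nat_lit 5) (nat_lit 554) (nat_lit 521) (nat_lit 485))))) (XT.nd (nat_lit 234) (nat_lit 3496) (nat_lit 0) (XT.nd (nat_lit 78) (nat_lit 3192) (nat_lit 0) (XT.lf (nat_lit 0) (nat_lit 5570275385) (nat_lit 1520) (nat_lit 923378283) (nat_lit 76) (nat_lit 752419322) (nat_lit 570) (nat_lit 5) (nat_lit 590) (nat_lit 5) (nat_lit 571) (nat_lit 5) (nat_lit 555) (nat_lit 521) (nat_lit 484)) (XT.nd (nat_lit 78) (nat_lit 1596) (nat_lit 0) (XT.lf (nat_lit 0) (nat_lit 819369379) (nat_lit 1596) (nat_lit 3604052635) (nat_lit 76) (nat_lit 2868711013) (nat_lit 549) (nat_lit 5) (nat_lit 570) (nat_lit 5) (nat_lit 550) (nat_lit 5) (nat_lit 556) (nat_lit 521) (nat_lit 483)) (XT.lf (nat_lit 0) (nat_lit 1024033279) (nat_lit 1596) (nat_lit 2282040017)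 (nat_lit 1672) (nat_lit 4033543445) (nat_lit 528) (nat_lit 5) (nat_lit 549) (nat_lit 5) (nat_lit 550) (nat_lit 5) (nat_lit 557) (nat_lit 521) (nat_lit 482)))) (XT.nd (nat_lit 156) (nat_lit 1748) (nat_lit 0) (XT.nd (nat_lit 78) (nat_lit 1748) (nat_lit 0) (XT.lf (nat_lit 0) (nat_lit 5750268718) (nat_lit 1596) (nat_lit 68269749) (nat_lit 1672) (nat_lit 1569996481) (nat_lit 528) (nat_lit 5) (nat_lit 549) (nat_lit 5) (nat_lit 550) (nat_lit 5) (nat_lit 558) (nat_lit 521) (nat_lit 481)) (XT.lf (nat_lit 0) (nat_lit 917631739) (nat_lit 1748) (nat_lit 4328882156) (nat_lit 76) (nat_lit 2192056833) (nat_lit 505) (nat_lit 5) (nat_lit 528) (nat_lit 5) (nat_lit 506) (nat_lit 5) (nat_lit 559) (nat_lit 521) (nat_lit 480))) (XT.nd (nat_lit 78) (nat_lit 0) (nat_lit 0) (XT.lf (nat_lit 0) (nat_lit 436484021) (nat_lit 1748) (nat_lit 2965027843) (nat_lit 1824) (nat_lit 4088542427) (nat_lit 482) (nat_lit 5) (nat_lit 505) (nat_lit 5) (nat_lit 506) (nat_lit 5) (nat_lit 560) (nat_lit 521)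 (nat_lit 479)) (XT.lf (nat_lit 0) (nat_lit 5312383882) (nat_lit 1748) (nat_lit 605520746) (nat_lit 1824) (nat_lit 1625011147) (nat_lit 482) (nat_lit 5) (nat_lit 505) (nat_lit 5) (nat_lit 506) (nat_lit 5) (nat_lit 561) (nat_lit 521) (nat_lit 478))))))))
noncomputable def xc81 : XT := (XT.nd (nat_lit 2106) (nat_lit 9044) (nat_lit 0) (XT.nd (nat_lit 1014) (nat_lit 6460) (nat_lit 0) (XT.nd (nat_lit 468) (nat_lit 4256) (nat_lit 0) (XT.nd (nat_lit 234) (nat_lit 1900) (nat_lit 0) (XT.nd (nat_lit 78) (nat_lit 1064) (nat_lit 0) (XT.lf (nat_lit 0) (nat_lit 859766077) (nat_lit 1900) (nat_lit 4934076543) (nat_lit 76) (nat_lit 1803208970) (nat_lit 457) (nat_lit 5) (nat_lit 482) (nat_lit 5) (nat_lit 458) (nat_lit 5) (nat_lit 562) (nat_lit 521) (nat_lit 477)) (XT.nd (nat_lit 78) (nat_lit 1064) (nat_lit 0) (XT.lf (nat_lit 0) (nat_lit 3346593894) (nat_lit 1900) (nat_lit 26099493) (nat_lit 76) (nat_lit 4279884295) (nat_lit 457) (nat_lit 5) (nat_lit 482) (nat_lit 5) (nat_lit 458)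 (nat_lit 5) (nat_lit 563) (nat_lit 521) (nat_lit 476)) (XT.lf (nat_lit 0) (nat_lit 5002662177) (nat_lit 1064) (nat_lit 868875088) (nat_lit 1140) (nat_lit 1837914025) (nat_lit 443) (nat_lit 5) (nat_lit 457) (nat_lit 5) (nat_lit 458) (nat_lit 5) (nat_lit 564) (nat_lit 521) (nat_lit 475)))) (XT.nd (nat_lit 78) (nat_lit 912) (nat_lit 0) (XT.lf (nat_lit 0) (nat_lit 653294371) (nat_lit 988) (nat_lit 5431035494) (nat_lit 76) (nat_lit 1683394881) (nat_lit 430) (nat_lit 5) (nat_lit 443) (nat_lit 5) (nat_lit 431) (nat_lit 5) (nat_lit 565) (nat_lit 521) (nat_lit 474)) (XT.nd (nat_lit 78) (nat_lit 912) (nat_lit 0) (XT.lf (nat_lit 0) (nat_lit 3150553146) (nat_lit 988) (nat_lit 370993006) (nat_lit 76) (nat_lit 4305762140) (nat_lit 430) (nat_lit 5) (nat_lit 443) (nat_lit 5) (nat_lit 431) (nat_lit 5) (nat_lit 566) (nat_lit 521) (nat_lit 473)) (XT.lf (nat_lit 0) (nat_lit 4810323896) (nat_lit 912) (nat_lit 876287036) (nat_lit 988) (nat_lit 2201699726) (nat_lit 418) (nat_lit 5) (nat_lit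 430) (nat_lit 5) (nat_lit 431) (nat_lit 5) (nat_lit 567) (nat_lit 521) (nat_lit 472))))) (XT.nd (nat_lit 234) (nat_lit 2508) (nat_lit 0) (XT.nd (nat_lit 78) (nat_lit 836) (nat_lit 0) (XT.lf (nat_lit 0) (nat_lit 304811015) (nat_lit 912) (nat_lit 5830582406) (nat_lit 76) (nat_lit 1815378019) (nat_lit 406) (nat_lit 5) (nat_lit 418) (nat_lit 5) (nat_lit 407) (nat_lit 5) (nat_lit 568) (nat_lit 521) (nat_lit 471)) (XT.nd (nat_lit 78) (nat_lit 836) (nat_lit 0) (XT.lf (nat_lit 0) (nat_lit 2817025067) (nat_lit 912) (nat_lit 614374113) (nat_lit 76) (nat_lit 4583094098) (nat_lit 406) (nat_lit 5) (nat_lit 418) (nat_lit 5) (nat_lit 407) (nat_lit 5) (nat_lit 569) (nat_lit 521) (nat_lit 470)) (XT.lf (nat_lit 0) (nat_lit 4725152872) (nat_lit 836) (nat_lit 644255797) (nat_lit 912) (nat_lit 2710286282) (nat_lit 395) (nat_lit 5) (nat_lit 406) (nat_lit 5) (nat_lit 407) (nat_lit 5) (nat_lit 570) (nat_lit 521) (nat_lit 469)))) (XT.nd (nat_lit 156) (nat_lit 1596) (nat_lit 0) (XT.nd (nat_lit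 78) (nat_lit 76) (nat_lit 0) (XT.lf (nat_lit 0) (nat_lit 2002150049) (nat_lit 836) (nat_lit 5961866574) (nat_lit 912) (nat_lit 182364330) (nat_lit 384) (nat_lit 5) (nat_lit 395) (nat_lit 5) (nat_lit 396) (nat_lit 5) (nat_lit 571) (nat_lit 521) (nat_lit 468)) (XT.lf (nat_lit 0) (nat_lit 2351611139) (nat_lit 912) (nat_lit 766211263) (nat_lit 76) (nat_lit 5096532397) (nat_lit 383) (nat_lit 5) (nat_lit 395) (nat_lit 5) (nat_lit 384) (nat_lit 5) (nat_lit 572) (nat_lit 521) (nat_lit 467))) (XT.nd (nat_lit 78) (nat_lit 760) (nat_lit 0) (XT.lf (nat_lit 0) (nat_lit 4737414996) (nat_lit 836) (nat_lit 187948572) (nat_lit 912) (nat_lit 3358473266) (nat_lit 372) (nat_lit 5) (nat_lit 383) (nat_lit 5) (nat_lit 384) (nat_lit 5) (nat_lit 573) (nat_lit 521) (nat_lit 466)) (XT.lf (nat_lit 0) (nat_lit 1971180757) (nat_lit 760) (nat_lit 5576813049) (nat_lit 836) (nat_lit 806770186) (nat_lit 362) (nat_lit 5) (nat_lit 372) (nat_lit 5) (nat_lit 373) (nat_lit 5) (nat_lit 574) (nat_lit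 521) (nat_lit 465)))))) (XT.nd (nat_lit 546) (nat_lit 3344) (nat_lit 0) (XT.nd (nat_lit 234) (nat_lit 1596) (nat_lit 0) (XT.nd (nat_lit 78) (nat_lit 1444) (nat_lit 0) (XT.lf (nat_lit 0) (nat_lit 1759082536) (nat_lit 836) (nat_lit 836067834) (nat_lit 76) (nat_lit 5831996109) (nat_lit 361) (nat_lit 5) (nat_lit 372) (nat_lit 5) (nat_lit 362) (nat_lit 5) (nat_lit 575) (nat_lit 521) (nat_lit 464)) (XT.nd (nat_lit 78) (nat_lit 684) (nat_lit 0) (XT.lf (nat_lit 0) (nat_lit 4362202621) (nat_lit 836) (nat_lit 3666329758) (nat_lit 76) (nat_lit 472405856) (nat_lit 351) (nat_lit 5) (nat_lit 362) (nat_lit 5) (nat_lit 352) (nat_lit 5) (nat_lit 576) (nat_lit 521) (nat_lit 463)) (XT.lf (nat_lit 0) (nat_lit 2020047679) (nat_lit 684) (nat_lit 4995943598) (nat_lit 760) (nat_lit 1560245692) (nat_lit 342) (nat_lit 5) (nat_lit 351) (nat_lit 5) (nat_lit 352) (nat_lit 5) (nat_lit 577) (nat_lit 521) (nat_lit 462)))) (XT.nd (nat_lit 156) (nat_lit 760) (nat_lit 0) (XT.nd (nat_lit 78) (nat_lit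 760) (nat_lit 0) (XT.lf (nat_lit 0) (nat_lit 1043412188) (nat_lit 760) (nat_lit 833180333) (nat_lit 76) (nat_lit 6776560799) (nat_lit 341) (nat_lit 5) (nat_lit 351) (nat_lit 5) (nat_lit 342) (nat_lit 5) (nat_lit 578) (nat_lit 521) (nat_lit 461)) (XT.lf (nat_lit 0) (nat_lit 3683155828) (nat_lit 836) (nat_lit 3722963559) (nat_lit 76) (nat_lit 1325187339) (nat_lit 331) (nat_lit 5) (nat_lit 342) (nat_lit 5) (nat_lit 332) (nat_lit 5) (nat_lit 579) (nat_lit 521) (nat_lit 460))) (XT.nd (nat_lit 78) (nat_lit 76) (nat_lit 0) (XT.lf (nat_lit 0) (nat_lit 2139754158) (nat_lit 684) (nat_lit 4231878862) (nat_lit 760) (nat_lit 2439474426) (nat_lit 322) (nat_lit 5) (nat_lit 331) (nat_lit 5) (nat_lit 332) (nat_lit 5) (nat_lit 580) (nat_lit 521) (nat_lit 459)) (XT.lf (nat_lit 0) (nat_lit 207801460) (nat_lit 760) (nat_lit 766535879) (nat_lit 76) (nat_lit 7918354410) (nat_lit 321) (nat_lit 5) (nat_lit 331) (nat_lit 5) (nat_lit 322) (nat_lit 5) (nat_lit 581) (nat_lit 521) (nat_lit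 458))))) (XT.nd (nat_lit 234) (nat_lit 2052) (nat_lit 0) (XT.nd (nat_lit 78) (nat_lit 608) (nat_lit 0) (XT.lf (nat_lit 0) (nat_lit 2890003028) (nat_lit 760) (nat_lit 3724114604) (nat_lit 76) (nat_lit 2361177558) (nat_lit 312) (nat_lit 5) (nat_lit 322) (nat_lit 5) (nat_lit 313) (nat_lit 5) (nat_lit 582) (nat_lit 521) (nat_lit 457)) (XT.nd (nat_lit 78) (nat_lit 0) (nat_lit 0) (XT.lf (nat_lit 0) (nat_lit 2321508136) (nat_lit 608) (nat_lit 3296295383) (nat_lit 684) (nat_lit 3441910871) (nat_lit 304) (nat_lit 5) (nat_lit 312) (nat_lit 5) (nat_lit 313) (nat_lit 5) (nat_lit 583) (nat_lit 521) (nat_lit 456)) (XT.lf (nat_lit 0) (nat_lit 8391492698) (nat_lit 684) (nat_lit 650536869) (nat_lit 76) (nat_lit 103968487) (nat_lit 304) (nat_lit 5) (nat_lit 313) (nat_lit 5) (nat_lit 305) (nat_lit 5) (nat_lit 584) (nat_lit 521) (nat_lit 455)))) (XT.nd (nat_lit 156) (nat_lit 684) (nat_lit 0) (XT.nd (nat_lit 78) (nat_lit 608) (nat_lit 0) (XT.lf (nat_lit 0) (nat_lit 1985011647) (nat_lit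 760) (nat_lit 3678663833) (nat_lit 76) (nat_lit 3569588193) (nat_lit 294) (nat_lit 5) (nat_lit 304) (nat_lit 5) (nat_lit 295) (nat_lit 5) (nat_lit 585) (nat_lit 521) (nat_lit 454)) (XT.lf (nat_lit 0) (nat_lit 2556644185) (nat_lit 608) (nat_lit 2200021332) (nat_lit 684) (nat_lit 4565762933) (nat_lit 286) (nat_lit 5) (nat_lit 294) (nat_lit 5) (nat_lit 295) (nat_lit 5) (nat_lit 586) (nat_lit 521) (nat_lit 453))) (XT.nd (nat_lit 78) (nat_lit 684) (nat_lit 0) (XT.lf (nat_lit 0) (nat_lit 7584029154) (nat_lit 684) (nat_lit 497837724) (nat_lit 76) (nat_lit 1331506635) (nat_lit 286) (nat_lit 5) (nat_lit 295) (nat_lit 5) (nat_lit 287) (nat_lit 5) (nat_lit 587) (nat_lit 521) (nat_lit 452)) (XT.lf (nat_lit 0) (nat_lit 969730557) (nat_lit 684) (nat_lit 3595439743) (nat_lit 76) (nat_lit 4940433868) (nat_lit 277) (nat_lit 5) (nat_lit 286) (nat_lit 5) (nat_lit 278) (nat_lit 5) (nat_lit 588) (nat_lit 521) (nat_lit 451))))))) (XT.nd (nat_lit 1014) (nat_lit 4028) (nat_lit 0) (XT.nd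 (nat_lit 468) (nat_lit 2660) (nat_lit 0) (XT.nd (nat_lit 234) (nat_lit 1140) (nat_lit 0) (XT.nd (nat_lit 78) (nat_lit 608) (nat_lit 0) (XT.lf (nat_lit 0) (nat_lit 2836544576) (nat_lit 608) (nat_lit 953128092) (nat_lit 684) (nat_lit 5809979697) (nat_lit 269) (nat_lit 5) (nat_lit 277) (nat_lit 5) (nat_lit 278) (nat_lit 5) (nat_lit 589) (nat_lit 521) (nat_lit 450)) (XT.nd (nat_lit 78) (nat_lit 608) (nat_lit 0) (XT.lf (nat_lit 0) (nat_lit 6675913569) (nat_lit 684) (nat_lit 309372686) (nat_lit 76) (nat_lit 2710099605) (nat_lit 269) (nat_lit 5) (nat_lit 278) (nat_lit 5) (nat_lit 270) (nat_lit 5) (nat_lit 590) (nat_lit 521) (nat_lit 449)) (XT.lf (nat_lit 0) (nat_lit 6308402843) (nat_lit 608) (nat_lit 3327257083) (nat_lit 684) (nat_lit 157060773) (nat_lit 261) (nat_lit 5) (nat_lit 269) (nat_lit 5) (nat_lit 270) (nat_lit 5) (nat_lit 591) (nat_lit 521) (nat_lit 448)))) (XT.nd (nat_lit 78) (nat_lit 532) (nat_lit 0) (XT.lf (nat_lit 0) (nat_lit 2720401292) (nat_lit 608) (nat_lit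 6742086949) (nat_lit 76) (nat_lit 429276775) (nat_lit 253) (nat_lit 5) (nat_lit 261) (nat_lit 5) (nat_lit 254) (nat_lit 5) (nat_lit 592) (nat_lit 521) (nat_lit 447)) (XT.nd (nat_lit 78) (nat_lit 532) (nat_lit 0) (XT.lf (nat_lit 0) (nat_lit 5667813860) (nat_lit 608) (nat_lit 93853108) (nat_lit 76) (nat_lit 4230814555) (nat_lit 253) (nat_lit 5) (nat_lit 261) (nat_lit 5) (nat_lit 254) (nat_lit 5) (nat_lit 593) (nat_lit 521) (nat_lit 446)) (XT.lf (nat_lit 0) (nat_lit 6734606792) (nat_lit 532) (nat_lit 1952833689) (nat_lit 608) (nat_lit 1407508679) (nat_lit 246) (nat_lit 5) (nat_lit 253) (nat_lit 5) (nat_lit 254) (nat_lit 5) (nat_lit 594) (nat_lit 521) (nat_lit 445))))) (XT.nd (nat_lit 234) (nat_lit 1520) (nat_lit 0) (XT.nd (nat_lit 78) (nat_lit 532) (nat_lit 0) (XT.lf (nat_lit 0) (nat_lit 1553128196) (nat_lit 608) (nat_lit 6716180426) (nat_lit 76) (nat_lit 1929841965) (nat_lit 238) (nat_lit 5) (nat_lit 246) (nat_lit 5) (nat_lit 239) (nat_lit 5) (nat_lit 595) (nat_lit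 521) (nat_lit 444)) (XT.nd (nat_lit 78) (nat_lit 0) (nat_lit 0) (XT.lf (nat_lit 0) (nat_lit 141710404) (nat_lit 532) (nat_lit 4418919326) (nat_lit 608) (nat_lit 5744492261) (nat_lit 231) (nat_lit 5) (nat_lit 238) (nat_lit 5) (nat_lit 239) (nat_lit 5) (nat_lit 596) (nat_lit 521) (nat_lit 443)) (XT.lf (nat_lit 0) (nat_lit 7186612287) (nat_lit 532) (nat_lit 456989420) (nat_lit 608) (nat_lit 2769306661) (nat_lit 231) (nat_lit 5) (nat_lit 238) (nat_lit 5) (nat_lit 239) (nat_lit 5) (nat_lit 597) (nat_lit 521) (nat_lit 442)))) (XT.nd (nat_lit 156) (nat_lit 456) (nat_lit 0) (XT.nd (nat_lit 78) (nat_lit 532) (nat_lit 0) (XT.lf (nat_lit 0) (nat_lit 280962252) (nat_lit 532) (nat_lit 6688616454) (nat_lit 76) (nat_lit 3552857980) (nat_lit 224) (nat_lit 5) (nat_lit 231) (nat_lit 5) (nat_lit 225) (nat_lit 5) (nat_lit 598) (nat_lit 521) (nat_lit 441)) (XT.lf (nat_lit 0) (nat_lit 387713924) (nat_lit 532) (nat_lit 2965691434) (nat_lit 608) (nat_lit 7280420951) (nat_lit 217) (nat_lit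 5) (nat_lit 224) (nat_lit 5) (nat_lit 225) (nat_lit 5) (nat_lit 599) (nat_lit 521) (nat_lit 440))) (XT.nd (nat_lit 78) (nat_lit 456) (nat_lit 0) (XT.lf (nat_lit 0) (nat_lit 6510846288) (nat_lit 608) (nat_lit 3099108907) (nat_lit 76) (nat_lit 1137019357) (nat_lit 217) (nat_lit 5) (nat_lit 225) (nat_lit 5) (nat_lit 218) (nat_lit 5) (nat_lit 600) (nat_lit 521) (nat_lit 439)) (XT.lf (nat_lit 0) (nat_lit 4185656694) (nat_lit 456) (nat_lit 5564269272) (nat_lit 532) (nat_lit 1112091762) (nat_lit 211) (nat_lit 5) (nat_lit 217) (nat_lit 5) (nat_lit 218) (nat_lit 5) (nat_lit 601) (nat_lit 521) (nat_lit 438)))))) (XT.nd (nat_lit 546) (nat_lit 1672) (nat_lit 0) (XT.nd (nat_lit 234) (nat_lit 1368) (nat_lit 0) (XT.nd (nat_lit 78) (nat_lit 456) (nat_lit 0) (XT.lf (nat_lit 0) (nat_lit 633337113) (nat_lit 456) (nat_lit 1410709124) (nat_lit 532) (nat_lit 8935111314) (nat_lit 204) (nat_lit 5) (nat_lit 210) (nat_lit 5) (nat_lit 211) (nat_lit 5) (nat_lit 602) (nat_lit 521) (nat_lit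 437)) (XT.nd (nat_lit 78) (nat_lit 456) (nat_lit 0) (XT.lf (nat_lit 0) (nat_lit 5283868804) (nat_lit 532) (nat_lit 2984781638) (nat_lit 76) (nat_lit 2829135323) (nat_lit 204) (nat_lit 5) (nat_lit 211) (nat_lit 5) (nat_lit 205) (nat_lit 5) (nat_lit 603) (nat_lit 521) (nat_lit 436)) (XT.lf (nat_lit 0) (nat_lit 4533636869) (nat_lit 456) (nat_lit 4066170377) (nat_lit 532) (nat_lit 2618754541) (nat_lit 198) (nat_lit 5) (nat_lit 204) (nat_lit 5) (nat_lit 205) (nat_lit 5) (nat_lit 604) (nat_lit 521) (nat_lit 435)))) (XT.nd (nat_lit 156) (nat_lit 836) (nat_lit 0) (XT.nd (nat_lit 78) (nat_lit 0) (nat_lit 0) (XT.lf (nat_lit 0) (nat_lit 631902143) (nat_lit 532) (nat_lit 10474677928) (nat_lit 76) (nat_lit 235091908) (nat_lit 191) (nat_lit 5) (nat_lit 198) (nat_lit 5) (nat_lit 192) (nat_lit 5) (nat_lit 605) (nat_lit 521) (nat_lit 434)) (XT.lf (nat_lit 0) (nat_lit 3957460566) (nat_lit 532) (nat_lit 2890605393) (nat_lit 76) (nat_lit 4617934681) (nat_lit 191) (nat_lit 5) (nat_lit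 198) (nat_lit 5) (nat_lit 192) (nat_lit 5) (nat_lit 606) (nat_lit 521) (nat_lit 433))) (XT.nd (nat_lit 78) (nat_lit 456) (nat_lit 0) (XT.lf (nat_lit 0) (nat_lit 4869545501) (nat_lit 380) (nat_lit 2484969820) (nat_lit 456) (nat_lit 4238202359) (nat_lit 186) (nat_lit 5) (nat_lit 191) (nat_lit 5) (nat_lit 192) (nat_lit 5) (nat_lit 607) (nat_lit 521) (nat_lit 432)) (XT.lf (nat_lit 0) (nat_lit 1063911799) (nat_lit 456) (nat_lit 9768346601) (nat_lit 532) (nat_lit 889457195) (nat_lit 180) (nat_lit 5) (nat_lit 186) (nat_lit 5) (nat_lit 187) (nat_lit 5) (nat_lit 608) (nat_lit 521) (nat_lit 431))))) (XT.nd (nat_lit 234) (nat_lit 836) (nat_lit 0) (XT.nd (nat_lit 78) (nat_lit 760) (nat_lit 0) (XT.lf (nat_lit 0) (nat_lit 2528643065) (nat_lit 532) (nat_lit 2827421623) (nat_lit 76) (nat_lit 6496191908) (nat_lit 179) (nat_lit 5) (nat_lit 186) (nat_lit 5) (nat_lit 180) (nat_lit 5) (nat_lit 609) (nat_lit 521) (nat_lit 430)) (XT.nd (nat_lit 78) (nat_lit 380) (nat_lit 0) (XT.lf (nat_lit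 0) (nat_lit 5182684301) (nat_lit 380) (nat_lit 828329624) (nat_lit 456) (nat_lit 5974121931) (nat_lit 174) (nat_lit 5) (nat_lit 179) (nat_lit 5) (nat_lit 180) (nat_lit 5) (nat_lit 610) (nat_lit 521) (nat_lit 429)) (XT.lf (nat_lit 0) (nat_lit 1223198600) (nat_lit 380) (nat_lit 8365809549) (nat_lit 456) (nat_lit 2531146400) (nat_lit 169) (nat_lit 5) (nat_lit 174) (nat_lit 5) (nat_lit 175) (nat_lit 5) (nat_lit 611) (nat_lit 521) (nat_lit 428)))) (XT.nd (nat_lit 156) (nat_lit 380) (nat_lit 0) (XT.nd (nat_lit 78) (nat_lit 380) (nat_lit 0) (XT.lf (nat_lit 0) (nat_lit 993672017) (nat_lit 456) (nat_lit 2806765847) (nat_lit 76) (nat_lit 8456792816) (nat_lit 168) (nat_lit 5) (nat_lit 174) (nat_lit 5) (nat_lit 169) (nat_lit 5) (nat_lit 612) (nat_lit 521) (nat_lit 427)) (XT.lf (nat_lit 0) (nat_lit 4571316526) (nat_lit 456) (nat_lit 6940681091) (nat_lit 76) (nat_lit 884392950) (nat_lit 163) (nat_lit 5) (nat_lit 169) (nat_lit 5) (nat_lit 164) (nat_lit 5) (nat_lit 613) (nat_lit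 521) (nat_lit 426))) (XT.nd (nat_lit 78) (nat_lit 0) (nat_lit 0) (XT.lf (nat_lit 0) (nat_lit 1337157451) (nat_lit 380) (nat_lit 6911234587) (nat_lit 456) (nat_lit 4289385315) (nat_lit 158) (nat_lit 5) (nat_lit 163) (nat_lit 5) (nat_lit 164) (nat_lit 5) (nat_lit 614) (nat_lit 521) (nat_lit 425)) (XT.lf (nat_lit 0) (nat_lit 9836279326) (nat_lit 380) (nat_lit 2184613508) (nat_lit 456) (nat_lit 660662605) (nat_lit 158) (nat_lit 5) (nat_lit 163) (nat_lit 5) (nat_lit 164) (nat_lit 5) (nat_lit 615) (nat_lit 521) (nat_lit 424))))))))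
noncomputable def xc82 : XT := (XT.nd (nat_lit 2106) (nat_lit 1064) (nat_lit 0) (XT.nd (nat_lit 1014) (nat_lit 2584) (nat_lit 0) (XT.nd (nat_lit 468) (nat_lit 1672) (nat_lit 0) (XT.nd (nat_lit 234) (nat_lit 760) (nat_lit 0) (XT.nd (nat_lit 78) (nat_lit 380) (nat_lit 0) (XT.lf (nat_lit 0) (nat_lit 3030763002) (nat_lit 456) (nat_lit 7150785299) (nat_lit 76) (nat_lit 2645666999) (nat_lit 152) (nat_lit 5) (nat_lit 158) (nat_lit 5) (nat_lit 153) (nat_lit 5) (nat_lit 616) (nat_lit 521) (nat_lit 423)) (XT.nd (nat_lit 78) (nat_lit 0) (nat_lit 0) (XT.lf (nat_lit 0) (nat_lit 1392956169) (nat_lit 380) (nat_lit 5412730371) (nat_lit 456) (nat_lit 6169645333) (nat_lit 147) (nat_lit 5) (nat_lit 152) (nat_lit 5) (nat_lit 153) (nat_lit 5) (nat_lit 617) (nat_lit 521) (nat_lit 422)) (XT.lf (nat_lit 0) (nat_lit 10166678161) (nat_lit 380) (nat_lit 513421357) (nat_lit 456) (nat_lit 2445832582) (nat_lit 147) (nat_lit 5) (nat_lit 152) (nat_lit 5) (nat_lit 153) (nat_lit 5) (nat_lit 618)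 (nat_lit 521) (nat_lit 421)))) (XT.nd (nat_lit 78) (nat_lit 380) (nat_lit 0) (XT.lf (nat_lit 0) (nat_lit 1378464467) (nat_lit 380) (nat_lit 7441317170) (nat_lit 76) (nat_lit 4458713260) (nat_lit 142) (nat_lit 5) (nat_lit 147) (nat_lit 5) (nat_lit 143) (nat_lit 5) (nat_lit 619) (nat_lit 521) (nat_lit 420)) (XT.nd (nat_lit 78) (nat_lit 0) (nat_lit 0) (XT.lf (nat_lit 0) (nat_lit 1376732087) (nat_lit 380) (nat_lit 3878577960) (nat_lit 456) (nat_lit 8178300395) (nat_lit 137) (nat_lit 5) (nat_lit 142) (nat_lit 5) (nat_lit 143) (nat_lit 5) (nat_lit 620) (nat_lit 521) (nat_lit 419)) (XT.lf (nat_lit 0) (nat_lit 9244081473) (nat_lit 456) (nat_lit 3164354365) (nat_lit 76) (nat_lit 1182705738) (nat_lit 137) (nat_lit 5) (nat_lit 143) (nat_lit 5) (nat_lit 138) (nat_lit 5) (nat_lit 621) (nat_lit 521) (nat_lit 418))))) (XT.nd (nat_lit 234) (nat_lit 988) (nat_lit 0) (XT.nd (nat_lit 78) (nat_lit 380) (nat_lit 0) (XT.lf (nat_lit 0) (nat_lit 5921063984) (nat_lit 304) (nat_lit 7432735116)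 (nat_lit 380) (nat_lit 397201854) (nat_lit 133) (nat_lit 5) (nat_lit 137) (nat_lit 5) (nat_lit 138) (nat_lit 5) (nat_lit 622) (nat_lit 521) (nat_lit 417)) (XT.nd (nat_lit 78) (nat_lit 0) (nat_lit 0) (XT.lf (nat_lit 0) (nat_lit 1273444896) (nat_lit 304) (nat_lit 2317323741) (nat_lit 380) (nat_lit 10322683398) (nat_lit 128) (nat_lit 5) (nat_lit 132) (nat_lit 5) (nat_lit 133) (nat_lit 5) (nat_lit 623) (nat_lit 521) (nat_lit 416)) (XT.lf (nat_lit 0) (nat_lit 7702128090) (nat_lit 380) (nat_lit 3471988240) (nat_lit 76) (nat_lit 2904005312) (nat_lit 128) (nat_lit 5) (nat_lit 133) (nat_lit 5) (nat_lit 129) (nat_lit 5) (nat_lit 624) (nat_lit 521) (nat_lit 415)))) (XT.nd (nat_lit 156) (nat_lit 304) (nat_lit 0) (XT.nd (nat_lit 78) (nat_lit 380) (nat_lit 0) (XT.lf (nat_lit 0) (nat_lit 5905110239) (nat_lit 304) (nat_lit 6021958403) (nat_lit 380) (nat_lit 2318389878) (nat_lit 124) (nat_lit 5) (nat_lit 128) (nat_lit 5) (nat_lit 129) (nat_lit 5) (nat_lit 625) (nat_lit 521) (nat_lit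 414)) (XT.lf (nat_lit 0) (nat_lit 1066716621) (nat_lit 304) (nat_lit 737877082) (nat_lit 380) (nat_lit 12611150928) (nat_lit 119) (nat_lit 5) (nat_lit 123) (nat_lit 5) (nat_lit 124) (nat_lit 5) (nat_lit 626) (nat_lit 521) (nat_lit 413))) (XT.nd (nat_lit 78) (nat_lit 304) (nat_lit 0) (XT.lf (nat_lit 0) (nat_lit 6043397975) (nat_lit 380) (nat_lit 3895815472) (nat_lit 76) (nat_lit 4648629341) (nat_lit 119) (nat_lit 5) (nat_lit 124) (nat_lit 5) (nat_lit 120) (nat_lit 5) (nat_lit 627) (nat_lit 521) (nat_lit 412)) (XT.lf (nat_lit 0) (nat_lit 5781568219) (nat_lit 304) (nat_lit 4606102467) (nat_lit 380) (nat_lit 4375299261) (nat_lit 115) (nat_lit 5) (nat_lit 119) (nat_lit 5) (nat_lit 120) (nat_lit 5) (nat_lit 628) (nat_lit 521) (nat_lit 411)))))) (XT.nd (nat_lit 546) (nat_lit 1368) (nat_lit 0) (XT.nd (nat_lit 234) (nat_lit 608) (nat_lit 0) (XT.nd (nat_lit 78) (nat_lit 304) (nat_lit 0) (XT.lf (nat_lit 0) (nat_lit 732312758) (nat_lit 304) (nat_lit 14101371289) (nat_lit 380)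 (nat_lit 107619365) (nat_lit 111) (nat_lit 5) (nat_lit 115) (nat_lit 5) (nat_lit 116) (nat_lit 5) (nat_lit 629) (nat_lit 521) (nat_lit 410)) (XT.nd (nat_lit 78) (nat_lit 228) (nat_lit 0) (XT.lf (nat_lit 0) (nat_lit 4259328997) (nat_lit 380) (nat_lit 4454407074) (nat_lit 76) (nat_lit 6407525142) (nat_lit 110) (nat_lit 5) (nat_lit 115) (nat_lit 5) (nat_lit 111) (nat_lit 5) (nat_lit 630) (nat_lit 521) (nat_lit 409)) (XT.lf (nat_lit 0) (nat_lit 5531823431) (nat_lit 228) (nat_lit 3195113778) (nat_lit 304) (nat_lit 6577572313) (nat_lit 107) (nat_lit 5) (nat_lit 110) (nat_lit 5) (nat_lit 111) (nat_lit 5) (nat_lit 631) (nat_lit 521) (nat_lit 408)))) (XT.nd (nat_lit 156) (nat_lit 228) (nat_lit 0) (XT.nd (nat_lit 78) (nat_lit 76) (nat_lit 0) (XT.lf (nat_lit 0) (nat_lit 239090112) (nat_lit 304) (nat_lit 13071191652) (nat_lit 380) (nat_lit 2180614150) (nat_lit 103) (nat_lit 5) (nat_lit 107) (nat_lit 5) (nat_lit 108) (nat_lit 5) (nat_lit 632) (nat_lit 521) (nat_lit 407)) (XT.lf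 (nat_lit 0) (nat_lit 2340221780) (nat_lit 380) (nat_lit 5168106984) (nat_lit 76) (nat_lit 8171059627) (nat_lit 102) (nat_lit 5) (nat_lit 107) (nat_lit 5) (nat_lit 103) (nat_lit 5) (nat_lit 633) (nat_lit 521) (nat_lit 406))) (XT.nd (nat_lit 78) (nat_lit 0) (nat_lit 0) (XT.lf (nat_lit 0) (nat_lit 5135444796) (nat_lit 228) (nat_lit 1799599087) (nat_lit 304) (nat_lit 8936063955) (nat_lit 99) (nat_lit 5) (nat_lit 102) (nat_lit 5) (nat_lit 103) (nat_lit 5) (nat_lit 634) (nat_lit 521) (nat_lit 405)) (XT.lf (nat_lit 0) (nat_lit 11662281173) (nat_lit 304) (nat_lit 412018437) (nat_lit 76) (nat_lit 3991552429) (nat_lit 99) (nat_lit 5) (nat_lit 103) (nat_lit 5) (nat_lit 100) (nat_lit 5) (nat_lit 635) (nat_lit 521) (nat_lit 404))))) (XT.nd (nat_lit 234) (nat_lit 760) (nat_lit 0) (XT.nd (nat_lit 78) (nat_lit 228) (nat_lit 0) (XT.lf (nat_lit 0) (nat_lit 275146136) (nat_lit 380) (nat_lit 6059245920) (nat_lit 76) (nat_lit 9928902191) (nat_lit 94) (nat_lit 5) (nat_lit 99) (nat_lit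 5) (nat_lit 95) (nat_lit 5) (nat_lit 636) (nat_lit 521) (nat_lit 403)) (XT.nd (nat_lit 78) (nat_lit 0) (nat_lit 0) (XT.lf (nat_lit 0) (nat_lit 4569964875) (nat_lit 228) (nat_lit 430948347) (nat_lit 304) (nat_lit 11462941830) (nat_lit 91) (nat_lit 5) (nat_lit 94) (nat_lit 5) (nat_lit 95) (nat_lit 5) (nat_lit 637) (nat_lit 521) (nat_lit 402)) (XT.lf (nat_lit 0) (nat_lit 9878435111) (nat_lit 304) (nat_lit 1244550135) (nat_lit 76) (nat_lit 5544297723) (nat_lit 91) (nat_lit 5) (nat_lit 95) (nat_lit 5) (nat_lit 92) (nat_lit 5) (nat_lit 638) (nat_lit 521) (nat_lit 401)))) (XT.nd (nat_lit 156) (nat_lit 228) (nat_lit 0) (XT.nd (nat_lit 78) (nat_lit 304) (nat_lit 0) (XT.lf (nat_lit 0) (nat_lit 9708661522) (nat_lit 228) (nat_lit 5191138675) (nat_lit 304) (nat_lit 1974054063) (nat_lit 88) (nat_lit 5) (nat_lit 91) (nat_lit 5) (nat_lit 92) (nat_lit 5) (nat_lit 639) (nat_lit 521) (nat_lit 400)) (XT.lf (nat_lit 0) (nat_lit 2917939805) (nat_lit 304) (nat_lit 13279099538) (nat_lit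 76) (nat_lit 886748415) (nat_lit 84) (nat_lit 5) (nat_lit 88) (nat_lit 5) (nat_lit 85) (nat_lit 5) (nat_lit 640) (nat_lit 521) (nat_lit 399))) (XT.nd (nat_lit 78) (nat_lit 228) (nat_lit 0) (XT.lf (nat_lit 0) (nat_lit 7944662250) (nat_lit 304) (nat_lit 2287343247) (nat_lit 76) (nat_lit 7064387664) (nat_lit 84) (nat_lit 5) (nat_lit 88) (nat_lit 5) (nat_lit 85) (nat_lit 5) (nat_lit 641) (nat_lit 521) (nat_lit 398)) (XT.lf (nat_lit 0) (nat_lit 9009360688) (nat_lit 228) (nat_lit 4101952744) (nat_lit 304) (nat_lit 4401149972) (nat_lit 81) (nat_lit 5) (nat_lit 84) (nat_lit 5) (nat_lit 85) (nat_lit 5) (nat_lit 642) (nat_lit 521) (nat_lit 397))))))) (XT.nd (nat_lit 72306) (nat_lit 0) (nat_lit 47956) (XT.nd (nat_lit 71760) (nat_lit 0) (nat_lit 52592) (XT.nd (nat_lit 234) (nat_lit 532) (nat_lit 0) (XT.nd (nat_lit 78) (nat_lit 228) (nat_lit 0) (XT.lf (nat_lit 0) (nat_lit 668824019) (nat_lit 304) (nat_lit 14916421583) (nat_lit 76) (nat_lit 2146948128) (nat_lit 77) (nat_lit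 5) (nat_lit 81) (nat_lit 5) (nat_lit 78) (nat_lit 5) (nat_lit 643) (nat_lit 521) (nat_lit 396)) (XT.nd (nat_lit 78) (nat_lit 228) (nat_lit 0) (XT.lf (nat_lit 0) (nat_lit 5846929290) (nat_lit 304) (nat_lit 3568734764) (nat_lit 76) (nat_lit 8538760094) (nat_lit 77) (nat_lit 5) (nat_lit 81) (nat_lit 5) (nat_lit 78) (nat_lit 5) (nat_lit 644) (nat_lit 521) (nat_lit 395)) (XT.lf (nat_lit 0) (nat_lit 8079364390) (nat_lit 228) (nat_lit 3083066008) (nat_lit 304) (nat_lit 7017992674) (nat_lit 74) (nat_lit 5) (nat_lit 77) (nat_lit 5) (nat_lit 78) (nat_lit 5) (nat_lit 645) (nat_lit 521) (nat_lit 394)))) (XT.nd (nat_lit 78) (nat_lit 304) (nat_lit 0) (XT.lf (nat_lit 0) (nat_lit 1564203398) (nat_lit 228) (nat_lit 15057663989) (nat_lit 304) (nat_lit 1788322631) (nat_lit 71) (nat_lit 5) (nat_lit 74) (nat_lit 5) (nat_lit 75) (nat_lit 5) (nat_lit 646) (nat_lit 521) (nat_lit 393)) (XT.nd (nat_lit 78) (nat_lit 228) (nat_lit 0) (XT.lf (nat_lit 0) (nat_lit 3569559406) (nat_lit 304) (nat_lit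 5119995056) (nat_lit 76) (nat_lit 9953135443) (nat_lit 70) (nat_lit 5) (nat_lit 74) (nat_lit 5) (nat_lit 71) (nat_lit 5) (nat_lit 647) (nat_lit 521) (nat_lit 392)) (XT.lf (nat_lit 0) (nat_lit 6887034604) (nat_lit 228) (nat_lit 2150193943) (nat_lit 304) (nat_lit 9841843854) (nat_lit 67) (nat_lit 5) (nat_lit 70) (nat_lit 5) (nat_lit 71) (nat_lit 5) (nat_lit 648) (nat_lit 521) (nat_lit 391))))) (XT.nd (nat_lit 234) (nat_lit 684) (nat_lit 0) (XT.nd (nat_lit 78) (nat_lit 228) (nat_lit 0) (XT.lf (nat_lit 0) (nat_lit 2976995631) (nat_lit 228) (nat_lit 124005088) (nat_lit 228) (nat_lit 124005088) (nat_lit 771) (nat_lit 3) (nat_lit 774) (nat_lit 3) (nat_lit 774) (nat_lit 5) (nat_lit 522) (nat_lit 522) (nat_lit 516)) (XT.nd (nat_lit 78) (nat_lit 0) (nat_lit 0) (XT.lf (nat_lit 0) (nat_lit 2494810980) (nat_lit 228) (nat_lit 3483945407) (nat_lit 304) (nat_lit 475527842) (nat_lit 768) (nat_lit 5) (nat_lit 771) (nat_lit 3) (nat_lit 772) (nat_lit 5) (nat_lit 523) (nat_lit 522)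 (nat_lit 515)) (XT.lf (nat_lit 0) (nat_lit 5462341113) (nat_lit 228) (nat_lit 246530502) (nat_lit 304) (nat_lit 751247959) (nat_lit 768) (nat_lit 5) (nat_lit 771) (nat_lit 3) (nat_lit 772) (nat_lit 5) (nat_lit 524) (nat_lit 522) (nat_lit 514)))) (XT.nd (nat_lit 156) (nat_lit 380) (nat_lit 0) (XT.nd (nat_lit 78) (nat_lit 0) (nat_lit 0) (XT.lf (nat_lit 0) (nat_lit 1939440280) (nat_lit 304) (nat_lit 3424511654) (nat_lit 380) (nat_lit 1103013308) (nat_lit 764) (nat_lit 5) (nat_lit 768) (nat_lit 5) (nat_lit 769) (nat_lit 5) (nat_lit 525) (nat_lit 522) (nat_lit 513)) (XT.lf (nat_lit 0) (nat_lit 4847826878) (nat_lit 304) (nat_lit 120968244) (nat_lit 380) (nat_lit 1506517680) (nat_lit 764) (nat_lit 5) (nat_lit 768) (nat_lit 5) (nat_lit 769) (nat_lit 5) (nat_lit 526) (nat_lit 522) (nat_lit 512))) (XT.nd (nat_lit 78) (nat_lit 0) (nat_lit 0) (XT.lf (nat_lit 0) (nat_lit 1259440645) (nat_lit 380) (nat_lit 3242096743) (nat_lit 456) (nat_lit 1983202478) (nat_lit 759) (nat_lit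 5) (nat_lit 764) (nat_lit 5) (nat_lit 765) (nat_lit 5) (nat_lit 527) (nat_lit 522) (nat_lit 511)) (XT.lf (nat_lit 76) (nat_lit 130842845) (nat_lit 0) (nat_lit 3979454941) (nat_lit 456) (nat_lit 2385294683) (nat_lit 760) (nat_lit 5) (nat_lit 759) (nat_lit 5) (nat_lit 765) (nat_lit 5) (nat_lit 528) (nat_lit 522) (nat_lit 510)))))) (XT.nd (nat_lit 546) (nat_lit 3116) (nat_lit 0) (XT.nd (nat_lit 234) (nat_lit 1064) (nat_lit 0) (XT.nd (nat_lit 78) (nat_lit 0) (nat_lit 0) (XT.lf (nat_lit 0) (nat_lit 453688223) (nat_lit 456) (nat_lit 2936132932) (nat_lit 532) (nat_lit 3117808188) (nat_lit 753) (nat_lit 5) (nat_lit 759) (nat_lit 5) (nat_lit 760) (nat_lit 5) (nat_lit 529) (nat_lit 522) (nat_lit 509)) (XT.nd (nat_lit 78) (nat_lit 0) (nat_lit 0) (XT.lf (nat_lit 76) (nat_lit 511150041) (nat_lit 0) (nat_lit 2738128436) (nat_lit 532) (nat_lit 3271688960) (nat_lit 754) (nat_lit 5) (nat_lit 753) (nat_lit 5) (nat_lit 760) (nat_lit 5) (nat_lit 530) (nat_lit 522) (nat_lit 508)) (XT.lf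 (nat_lit 76) (nat_lit 4026634014) (nat_lit 0) (nat_lit 2023408045) (nat_lit 532) (nat_lit 485555936) (nat_lit 754) (nat_lit 5) (nat_lit 753) (nat_lit 5) (nat_lit 760) (nat_lit 5) (nat_lit 531) (nat_lit 522) (nat_lit 507)))) (XT.nd (nat_lit 156) (nat_lit 532) (nat_lit 0) (XT.nd (nat_lit 78) (nat_lit 0) (nat_lit 0) (XT.lf (nat_lit 76) (nat_lit 1019291812) (nat_lit 0) (nat_lit 1243194356) (nat_lit 608) (nat_lit 4288997738) (nat_lit 747) (nat_lit 5) (nat_lit 746) (nat_lit 5) (nat_lit 754) (nat_lit 5) (nat_lit 532) (nat_lit 522) (nat_lit 506)) (XT.lf (nat_lit 76) (nat_lit 4608447489) (nat_lit 0) (nat_lit 398934110) (nat_lit 608) (nat_lit 1561284168) (nat_lit 747) (nat_lit 5) (nat_lit 746) (nat_lit 5) (nat_lit 754) (nat_lit 5) (nat_lit 533) (nat_lit 522) (nat_lit 505))) (XT.nd (nat_lit 78) (nat_lit 0) (nat_lit 0) (XT.lf (nat_lit 0) (nat_lit 1151485309) (nat_lit 608) (nat_lit 4934017579) (nat_lit 76) (nat_lit 501609431) (nat_lit 739) (nat_lit 5) (nat_lit 747) (nat_lit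 5) (nat_lit 740) (nat_lit 5) (nat_lit 534) (nat_lit 522) (nat_lit 504)) (XT.lf (nat_lit 0) (nat_lit 3847200504) (nat_lit 608) (nat_lit 1295262450) (nat_lit 76) (nat_lit 1464276236) (nat_lit 739) (nat_lit 5) (nat_lit 747) (nat_lit 5) (nat_lit 740) (nat_lit 5) (nat_lit 535) (nat_lit 522) (nat_lit 503))))) (XT.nd (nat_lit 234) (nat_lit 1748) (nat_lit 0) (XT.nd (nat_lit 78) (nat_lit 760) (nat_lit 0) (XT.lf (nat_lit 0) (nat_lit 2406879204) (nat_lit 608) (nat_lit 4140571212) (nat_lit 684) (nat_lit 80305294) (nat_lit 731) (nat_lit 5) (nat_lit 739) (nat_lit 5) (nat_lit 740) (nat_lit 5) (nat_lit 536) (nat_lit 522) (nat_lit 502)) (XT.nd (nat_lit 78) (nat_lit 684) (nat_lit 0) (XT.lf (nat_lit 0) (nat_lit 2562044851) (nat_lit 684) (nat_lit 507228007) (nat_lit 76) (nat_lit 3580698008) (nat_lit 730) (nat_lit 5) (nat_lit 739) (nat_lit 5) (nat_lit 731) (nat_lit 5) (nat_lit 537) (nat_lit 522) (nat_lit 501)) (XT.lf (nat_lit 0) (nat_lit 3282475456) (nat_lit 684) (nat_lit 1931838398)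 (nat_lit 760) (nat_lit 1459151882) (nat_lit 721) (nat_lit 5) (nat_lit 730) (nat_lit 5) (nat_lit 731) (nat_lit 5) (nat_lit 538) (nat_lit 522) (nat_lit 500)))) (XT.nd (nat_lit 156) (nat_lit 912) (nat_lit 0) (XT.nd (nat_lit 78) (nat_lit 0) (nat_lit 0) (XT.lf (nat_lit 0) (nat_lit 413644209) (nat_lit 760) (nat_lit 736025535) (nat_lit 836) (nat_lit 5548740646) (nat_lit 710) (nat_lit 5) (nat_lit 720) (nat_lit 5) (nat_lit 721) (nat_lit 5) (nat_lit 539) (nat_lit 522) (nat_lit 499)) (XT.lf (nat_lit 0) (nat_lit 3755679017) (nat_lit 836) (nat_lit 2438428772) (nat_lit 76) (nat_lit 530270718) (nat_lit 710) (nat_lit 5) (nat_lit 721) (nat_lit 5) (nat_lit 711) (nat_lit 5) (nat_lit 540) (nat_lit 522) (nat_lit 498))) (XT.nd (nat_lit 78) (nat_lit 76) (nat_lit 0) (XT.lf (nat_lit 0) (nat_lit 1457495363) (nat_lit 836) (nat_lit 4910341105) (nat_lit 912) (nat_lit 383957243) (nat_lit 699) (nat_lit 5) (nat_lit 710) (nat_lit 5) (nat_lit 711) (nat_lit 5) (nat_lit 541) (nat_lit 522) (nat_lit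 497)) (XT.lf (nat_lit 0) (nat_lit 2179613281) (nat_lit 912) (nat_lit 1371881454) (nat_lit 76) (nat_lit 3228844456) (nat_lit 698) (nat_lit 5) (nat_lit 710) (nat_lit 5) (nat_lit 699) (nat_lit 5) (nat_lit 542) (nat_lit 522) (nat_lit 496))))))))
noncomputable def xc83 : XT := (XT.nd (nat_lit 2106) (nat_lit 13300) (nat_lit 0) (XT.nd (nat_lit 1014) (nat_lit 12464) (nat_lit 0) (XT.nd (nat_lit 468) (nat_lit 5472) (nat_lit 0) (XT.nd (nat_lit 234) (nat_lit 2280) (nat_lit 0) (XT.nd (nat_lit 78) (nat_lit 1064) (nat_lit 0) (XT.lf (nat_lit 0) (nat_lit 2619512010) (nat_lit 912) (nat_lit 2128190518) (nat_lit 988) (nat_lit 2062542332) (nat_lit 686) (nat_lit 5) (nat_lit 698) (nat_lit 5) (nat_lit 699) (nat_lit 5) (nat_lit 543) (nat_lit 522) (nat_lit 495)) (XT.nd (nat_lit 78) (nat_lit 988) (nat_lit 0) (XT.lf (nat_lit 0) (nat_lit 470637382) (nat_lit 988) (nat_lit 176506500) (nat_lit 76) (nat_lit 6194521183) (nat_lit 685) (nat_lit 5) (nat_lit 698) (nat_lit 5) (nat_lit 686) (nat_lit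 5) (nat_lit 544) (nat_lit 522) (nat_lit 494)) (XT.lf (nat_lit 0) (nat_lit 3001284496) (nat_lit 1064) (nat_lit 2965334672) (nat_lit 76) (nat_lit 907340771) (nat_lit 672) (nat_lit 5) (nat_lit 686) (nat_lit 5) (nat_lit 673) (nat_lit 5) (nat_lit 545) (nat_lit 522) (nat_lit 493)))) (XT.nd (nat_lit 78) (nat_lit 1216) (nat_lit 0) (XT.lf (nat_lit 0) (nat_lit 1139695036) (nat_lit 1064) (nat_lit 4399689751) (nat_lit 1140) (nat_lit 1368386334) (nat_lit 658) (nat_lit 5) (nat_lit 672) (nat_lit 5) (nat_lit 673) (nat_lit 5) (nat_lit 546) (nat_lit 522) (nat_lit 492)) (XT.nd (nat_lit 78) (nat_lit 1140) (nat_lit 0) (XT.lf (nat_lit 0) (nat_lit 1134883102) (nat_lit 1140) (nat_lit 1625074971) (nat_lit 76) (nat_lit 4182864401) (nat_lit 657) (nat_lit 5) (nat_lit 672) (nat_lit 5) (nat_lit 658) (nat_lit 5) (nat_lit 547) (nat_lit 522) (nat_lit 491)) (XT.lf (nat_lit 0) (nat_lit 2584041972) (nat_lit 1140) (nat_lit 1048155802) (nat_lit 1216) (nat_lit 3346956929) (nat_lit 642) (nat_lit 5) (nat_lit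 657) (nat_lit 5) (nat_lit 658) (nat_lit 5) (nat_lit 548) (nat_lit 522) (nat_lit 490))))) (XT.nd (nat_lit 234) (nat_lit 2888) (nat_lit 0) (XT.nd (nat_lit 78) (nat_lit 2584) (nat_lit 0) (XT.lf (nat_lit 0) (nat_lit 6141356074) (nat_lit 1216) (nat_lit 163688898) (nat_lit 76) (nat_lit 711937321) (nat_lit 642) (nat_lit 5) (nat_lit 658) (nat_lit 5) (nat_lit 643) (nat_lit 5) (nat_lit 549) (nat_lit 522) (nat_lit 489)) (XT.nd (nat_lit 78) (nat_lit 1292) (nat_lit 0) (XT.lf (nat_lit 0) (nat_lit 1604805324) (nat_lit 1292) (nat_lit 2908171160) (nat_lit 76) (nat_lit 2542757722) (nat_lit 625) (nat_lit 5) (nat_lit 642) (nat_lit 5) (nat_lit 626) (nat_lit 5) (nat_lit 550) (nat_lit 522) (nat_lit 488)) (XT.lf (nat_lit 0) (nat_lit 1422821576) (nat_lit 1292) (nat_lit 2658506691) (nat_lit 1368) (nat_lit 3014659266) (nat_lit 608) (nat_lit 5) (nat_lit 625) (nat_lit 5) (nat_lit 626) (nat_lit 5) (nat_lit 551) (nat_lit 522) (nat_lit 487)))) (XT.nd (nat_lit 156) (nat_lit 1444) (nat_lit 0) (XT.nd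 (nat_lit 78) (nat_lit 1444) (nat_lit 0) (XT.lf (nat_lit 0) (nat_lit 5838079309) (nat_lit 1292) (nat_lit 737421806) (nat_lit 1368) (nat_lit 562188580) (nat_lit 608) (nat_lit 5) (nat_lit 625) (nat_lit 5) (nat_lit 626) (nat_lit 5) (nat_lit 552) (nat_lit 522) (nat_lit 486)) (XT.lf (nat_lit 0) (nat_lit 1891823433) (nat_lit 1444) (nat_lit 4040317131) (nat_lit 76) (nat_lit 1248280893) (nat_lit 589) (nat_lit 5) (nat_lit 608) (nat_lit 5) (nat_lit 590) (nat_lit 5) (nat_lit 553) (nat_lit 522) (nat_lit 485))) (XT.nd (nat_lit 78) (nat_lit 0) (nat_lit 0) (XT.lf (nat_lit 0) (nat_lit 416773258) (nat_lit 1444) (nat_lit 3937044534) (nat_lit 1520) (nat_lit 2870792947) (nat_lit 570) (nat_lit 5) (nat_lit 589) (nat_lit 5) (nat_lit 590) (nat_lit 5) (nat_lit 554) (nat_lit 522) (nat_lit 484)) (XT.lf (nat_lit 0) (nat_lit 4975627316) (nat_lit 1444) (nat_lit 1867297457) (nat_lit 1520) (nat_lit 427207267) (nat_lit 570) (nat_lit 5) (nat_lit 589) (nat_lit 5) (nat_lit 590) (nat_lit 5) (nat_lit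 555) (nat_lit 522) (nat_lit 483)))))) (XT.nd (nat_lit 546) (nat_lit 3876) (nat_lit 0) (XT.nd (nat_lit 234) (nat_lit 5396) (nat_lit 0) (XT.nd (nat_lit 78) (nat_lit 1596) (nat_lit 0) (XT.lf (nat_lit 0) (nat_lit 2006204672) (nat_lit 1596) (nat_lit 5035123987) (nat_lit 76) (nat_lit 275611582) (nat_lit 549) (nat_lit 5) (nat_lit 570) (nat_lit 5) (nat_lit 550) (nat_lit 5) (nat_lit 556) (nat_lit 522) (nat_lit 482)) (XT.nd (nat_lit 78) (nat_lit 1596) (nat_lit 0) (XT.lf (nat_lit 0) (nat_lit 4462558400) (nat_lit 1596) (nat_lit 441606390) (nat_lit 76) (nat_lit 2460868823) (nat_lit 549) (nat_lit 5) (nat_lit 570) (nat_lit 5) (nat_lit 550) (nat_lit 5) (nat_lit 557) (nat_lit 522) (nat_lit 481)) (XT.lf (nat_lit 0) (nat_lit 4257761458) (nat_lit 1596) (nat_lit 2690983715) (nat_lit 1672) (nat_lit 465734816) (nat_lit 528) (nat_lit 5) (nat_lit 549) (nat_lit 5) (nat_lit 550) (nat_lit 5) (nat_lit 558) (nat_lit 522) (nat_lit 480)))) (XT.nd (nat_lit 156) (nat_lit 3648) (nat_lit 0) (XT.nd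 (nat_lit 78) (nat_lit 0) (nat_lit 0) (XT.lf (nat_lit 0) (nat_lit 1557327910) (nat_lit 1672) (nat_lit 402417950) (nat_lit 1748) (nat_lit 5505582316) (nat_lit 505) (nat_lit 5) (nat_lit 527) (nat_lit 5) (nat_lit 528) (nat_lit 5) (nat_lit 559) (nat_lit 522) (nat_lit 479)) (XT.lf (nat_lit 0) (nat_lit 4415440705) (nat_lit 1748) (nat_lit 1166975043) (nat_lit 76) (nat_lit 1934962148) (nat_lit 505) (nat_lit 5) (nat_lit 528) (nat_lit 5) (nat_lit 506) (nat_lit 5) (nat_lit 560) (nat_lit 522) (nat_lit 478))) (XT.nd (nat_lit 78) (nat_lit 1900) (nat_lit 0) (XT.lf (nat_lit 0) (nat_lit 3672326848) (nat_lit 1748) (nat_lit 3229399510) (nat_lit 1824) (nat_lit 669117569) (nat_lit 482) (nat_lit 5) (nat_lit 505) (nat_lit 5) (nat_lit 506) (nat_lit 5) (nat_lit 561) (nat_lit 522) (nat_lit 477)) (XT.lf (nat_lit 0) (nat_lit 957383735) (nat_lit 1824) (nat_lit 800585791) (nat_lit 1900) (nat_lit 5867791467) (nat_lit 457) (nat_lit 5) (nat_lit 481) (nat_lit 5) (nat_lit 482) (nat_lit 5) (nat_lit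 562) (nat_lit 522) (nat_lit 476))))) (XT.nd (nat_lit 234) (nat_lit 1824) (nat_lit 0) (XT.nd (nat_lit 78) (nat_lit 2052) (nat_lit 0) (XT.lf (nat_lit 0) (nat_lit 4217766933) (nat_lit 1900) (nat_lit 1776482341) (nat_lit 76) (nat_lit 1687580684) (nat_lit 457) (nat_lit 5) (nat_lit 482) (nat_lit 5) (nat_lit 458) (nat_lit 5) (nat_lit 563) (nat_lit 522) (nat_lit 475)) (XT.nd (nat_lit 78) (nat_lit 988) (nat_lit 0) (XT.lf (nat_lit 0) (nat_lit 3207877596) (nat_lit 1064) (nat_lit 3501775387) (nat_lit 1140) (nat_lit 1029713950) (nat_lit 443) (nat_lit 5) (nat_lit 457) (nat_lit 5) (nat_lit 458) (nat_lit 5) (nat_lit 564) (nat_lit 522) (nat_lit 474)) (XT.lf (nat_lit 0) (nat_lit 472429628) (nat_lit 912) (nat_lit 933951538) (nat_lit 988) (nat_lit 6392046681) (nat_lit 430) (nat_lit 5) (nat_lit 442) (nat_lit 5) (nat_lit 443) (nat_lit 5) (nat_lit 565) (nat_lit 522) (nat_lit 473)))) (XT.nd (nat_lit 156) (nat_lit 912) (nat_lit 0) (XT.nd (nat_lit 78) (nat_lit 912) (nat_lit 0) (XT.lf (nat_lit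 0) (nat_lit 3876596912) (nat_lit 988) (nat_lit 2281186304) (nat_lit 76) (nat_lit 1700771130) (nat_lit 430) (nat_lit 5) (nat_lit 443) (nat_lit 5) (nat_lit 431) (nat_lit 5) (nat_lit 566) (nat_lit 522) (nat_lit 472)) (XT.lf (nat_lit 0) (nat_lit 2853590824) (nat_lit 912) (nat_lit 3525791626) (nat_lit 988) (nat_lit 1540841759) (nat_lit 418) (nat_lit 5) (nat_lit 430) (nat_lit 5) (nat_lit 431) (nat_lit 5) (nat_lit 567) (nat_lit 522) (nat_lit 471))) (XT.nd (nat_lit 78) (nat_lit 0) (nat_lit 0) (XT.lf (nat_lit 0) (nat_lit 91656413) (nat_lit 836) (nat_lit 819716727) (nat_lit 912) (nat_lit 7072140579) (nat_lit 406) (nat_lit 5) (nat_lit 417) (nat_lit 5) (nat_lit 418) (nat_lit 5) (nat_lit 568) (nat_lit 522) (nat_lit 470)) (XT.lf (nat_lit 0) (nat_lit 3398090019) (nat_lit 912) (nat_lit 2691602464) (nat_lit 76) (nat_lit 1958054950) (nat_lit 406) (nat_lit 5) (nat_lit 418) (nat_lit 5) (nat_lit 407) (nat_lit 5) (nat_lit 569) (nat_lit 522) (nat_lit 469))))))) (XT.nd (nat_lit 1092)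 (nat_lit 6156) (nat_lit 0) (XT.nd (nat_lit 546) (nat_lit 2964) (nat_lit 0) (XT.nd (nat_lit 234) (nat_lit 2432) (nat_lit 0) (XT.nd (nat_lit 78) (nat_lit 912) (nat_lit 0) (XT.lf (nat_lit 0) (nat_lit 2599183626) (nat_lit 836) (nat_lit 3317707354) (nat_lit 912) (nat_lit 2196731674) (nat_lit 395) (nat_lit 5) (nat_lit 406) (nat_lit 5) (nat_lit 407) (nat_lit 5) (nat_lit 570) (nat_lit 522) (nat_lit 468)) (XT.nd (nat_lit 78) (nat_lit 836) (nat_lit 0) (XT.lf (nat_lit 0) (nat_lit 279723099) (nat_lit 912) (nat_lit 192673039) (nat_lit 76) (nat_lit 7708813804) (nat_lit 394) (nat_lit 5) (nat_lit 406) (nat_lit 5) (nat_lit 395) (nat_lit 5) (nat_lit 571) (nat_lit 522) (nat_lit 467)) (XT.lf (nat_lit 0) (nat_lit 2787547197) (nat_lit 912) (nat_lit 3017784532) (nat_lit 76) (nat_lit 2444305357) (nat_lit 383) (nat_lit 5) (nat_lit 395) (nat_lit 5) (nat_lit 384) (nat_lit 5) (nat_lit 572) (nat_lit 522) (nat_lit 466)))) (XT.nd (nat_lit 156) (nat_lit 1596) (nat_lit 0) (XT.nd (nat_lit 78) (nat_lit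 0) (nat_lit 0) (XT.lf (nat_lit 0) (nat_lit 2434832363) (nat_lit 836) (nat_lit 2892481544) (nat_lit 912) (nat_lit 2992486680) (nat_lit 372) (nat_lit 5) (nat_lit 383) (nat_lit 5) (nat_lit 384) (nat_lit 5) (nat_lit 573) (nat_lit 522) (nat_lit 465)) (XT.lf (nat_lit 0) (nat_lit 7900777323) (nat_lit 912) (nat_lit 396697528) (nat_lit 76) (nat_lit 94237946) (nat_lit 372) (nat_lit 5) (nat_lit 384) (nat_lit 5) (nat_lit 373) (nat_lit 5) (nat_lit 574) (nat_lit 522) (nat_lit 464))) (XT.nd (nat_lit 78) (nat_lit 760) (nat_lit 0) (XT.lf (nat_lit 0) (nat_lit 2049447319) (nat_lit 836) (nat_lit 3269403236) (nat_lit 76) (nat_lit 3145631922) (nat_lit 361) (nat_lit 5) (nat_lit 372) (nat_lit 5) (nat_lit 362) (nat_lit 5) (nat_lit 575) (nat_lit 522) (nat_lit 463)) (XT.lf (nat_lit 0) (nat_lit 2351093683) (nat_lit 760) (nat_lit 2263886691) (nat_lit 836) (nat_lit 3924047215) (nat_lit 351) (nat_lit 5) (nat_lit 361) (nat_lit 5) (nat_lit 362) (nat_lit 5) (nat_lit 576) (nat_lit 522) (nat_lit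 462))))) (XT.nd (nat_lit 234) (nat_lit 1444) (nat_lit 0) (XT.nd (nat_lit 78) (nat_lit 1520) (nat_lit 0) (XT.lf (nat_lit 0) (nat_lit 7222830566) (nat_lit 836) (nat_lit 534298417) (nat_lit 76) (nat_lit 858117696) (nat_lit 351) (nat_lit 5) (nat_lit 362) (nat_lit 5) (nat_lit 352) (nat_lit 5) (nat_lit 577) (nat_lit 522) (nat_lit 461)) (XT.nd (nat_lit 78) (nat_lit 760) (nat_lit 0) (XT.lf (nat_lit 0) (nat_lit 1187478094) (nat_lit 760) (nat_lit 3455823928) (nat_lit 76) (nat_lit 4049271991) (nat_lit 341) (nat_lit 5) (nat_lit 351) (nat_lit 5) (nat_lit 342) (nat_lit 5) (nat_lit 578) (nat_lit 522) (nat_lit 460)) (XT.lf (nat_lit 0) (nat_lit 2338826657) (nat_lit 760) (nat_lit 1444615987) (nat_lit 836) (nat_lit 4988161850) (nat_lit 331) (nat_lit 5) (nat_lit 341) (nat_lit 5) (nat_lit 342) (nat_lit 5) (nat_lit 579) (nat_lit 522) (nat_lit 459)))) (XT.nd (nat_lit 156) (nat_lit 684) (nat_lit 0) (XT.nd (nat_lit 78) (nat_lit 760) (nat_lit 0) (XT.lf (nat_lit 0) (nat_lit 6431170591) (nat_lit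 836) (nat_lit 609576847) (nat_lit 76) (nat_lit 1811474227) (nat_lit 331) (nat_lit 5) (nat_lit 342) (nat_lit 5) (nat_lit 332) (nat_lit 5) (nat_lit 580) (nat_lit 522) (nat_lit 458)) (XT.lf (nat_lit 0) (nat_lit 204561653) (nat_lit 760) (nat_lit 3586183577) (nat_lit 76) (nat_lit 5143488184) (nat_lit 321) (nat_lit 5) (nat_lit 331) (nat_lit 5) (nat_lit 322) (nat_lit 5) (nat_lit 581) (nat_lit 522) (nat_lit 457))) (XT.nd (nat_lit 78) (nat_lit 0) (nat_lit 0) (XT.lf (nat_lit 0) (nat_lit 2389115432) (nat_lit 684) (nat_lit 446384700) (nat_lit 760) (nat_lit 6182363364) (nat_lit 312) (nat_lit 5) (nat_lit 321) (nat_lit 5) (nat_lit 322) (nat_lit 5) (nat_lit 582) (nat_lit 522) (nat_lit 456)) (XT.lf (nat_lit 0) (nat_lit 5528464763) (nat_lit 760) (nat_lit 631372205) (nat_lit 76) (nat_lit 2943143800) (nat_lit 312) (nat_lit 5) (nat_lit 322) (nat_lit 5) (nat_lit 313) (nat_lit 5) (nat_lit 583) (nat_lit 522) (nat_lit 455)))))) (XT.nd (nat_lit 546) (nat_lit 2888) (nat_lit 0) (XT.nd (nat_lit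 234) (nat_lit 1900) (nat_lit 0) (XT.nd (nat_lit 78) (nat_lit 760) (nat_lit 0) (XT.lf (nat_lit 0) (nat_lit 5514325985) (nat_lit 608) (nat_lit 2766322505) (nat_lit 684) (nat_lit 909047378) (nat_lit 304) (nat_lit 5) (nat_lit 312) (nat_lit 5) (nat_lit 313) (nat_lit 5) (nat_lit 584) (nat_lit 522) (nat_lit 454)) (XT.nd (nat_lit 78) (nat_lit 0) (nat_lit 0) (XT.lf (nat_lit 0) (nat_lit 1777892835) (nat_lit 760) (nat_lit 6789651171) (nat_lit 76) (nat_lit 710530897) (nat_lit 294) (nat_lit 5) (nat_lit 304) (nat_lit 5) (nat_lit 295) (nat_lit 5) (nat_lit 585) (nat_lit 522) (nat_lit 453)) (XT.lf (nat_lit 0) (nat_lit 4516662147) (nat_lit 760) (nat_lit 608419144) (nat_lit 76) (nat_lit 4242817329) (nat_lit 294) (nat_lit 5) (nat_lit 304) (nat_lit 5) (nat_lit 295) (nat_lit 5) (nat_lit 586) (nat_lit 522) (nat_lit 452)))) (XT.nd (nat_lit 156) (nat_lit 608) (nat_lit 0) (XT.nd (nat_lit 78) (nat_lit 684) (nat_lit 0) (XT.lf (nat_lit 0) (nat_lit 5730912021) (nat_lit 608) (nat_lit 1584252766)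 (nat_lit 684) (nat_lit 2144257342) (nat_lit 286) (nat_lit 5) (nat_lit 294) (nat_lit 5) (nat_lit 295) (nat_lit 5) (nat_lit 587) (nat_lit 522) (nat_lit 451)) (XT.lf (nat_lit 0) (nat_lit 611216075) (nat_lit 684) (nat_lit 6923831806) (nat_lit 76) (nat_lit 2017601607) (nat_lit 277) (nat_lit 5) (nat_lit 286) (nat_lit 5) (nat_lit 278) (nat_lit 5) (nat_lit 588) (nat_lit 522) (nat_lit 450))) (XT.nd (nat_lit 78) (nat_lit 608) (nat_lit 0) (XT.lf (nat_lit 0) (nat_lit 3397005733) (nat_lit 684) (nat_lit 549425198) (nat_lit 76) (nat_lit 5700950957) (nat_lit 277) (nat_lit 5) (nat_lit 286) (nat_lit 5) (nat_lit 278) (nat_lit 5) (nat_lit 589) (nat_lit 522) (nat_lit 449)) (XT.lf (nat_lit 0) (nat_lit 5990686154) (nat_lit 608) (nat_lit 255557633) (nat_lit 684) (nat_lit 3497612786) (nat_lit 269) (nat_lit 5) (nat_lit 277) (nat_lit 5) (nat_lit 278) (nat_lit 5) (nat_lit 590) (nat_lit 522) (nat_lit 448))))) (XT.nd (nat_lit 234) (nat_lit 1672) (nat_lit 0) (XT.nd (nat_lit 78) (nat_lit 608)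 (nat_lit 0) (XT.lf (nat_lit 0) (nat_lit 2800131409) (nat_lit 608) (nat_lit 6366138116) (nat_lit 684) (nat_lit 675717410) (nat_lit 261) (nat_lit 5) (nat_lit 269) (nat_lit 5) (nat_lit 270) (nat_lit 5) (nat_lit 591) (nat_lit 522) (nat_lit 447)) (XT.nd (nat_lit 78) (nat_lit 532) (nat_lit 0) (XT.lf (nat_lit 0) (nat_lit 2170039622) (nat_lit 684) (nat_lit 463150064) (nat_lit 76) (nat_lit 7308680127) (nat_lit 260) (nat_lit 5) (nat_lit 269) (nat_lit 5) (nat_lit 261) (nat_lit 5) (nat_lit 592) (nat_lit 522) (nat_lit 446)) (XT.lf (nat_lit 0) (nat_lit 5082209482) (nat_lit 608) (nat_lit 3766214216) (nat_lit 76) (nat_lit 1194868524) (nat_lit 253) (nat_lit 5) (nat_lit 261) (nat_lit 5) (nat_lit 254) (nat_lit 5) (nat_lit 593) (nat_lit 522) (nat_lit 445)))) (XT.nd (nat_lit 156) (nat_lit 1064) (nat_lit 0) (XT.nd (nat_lit 78) (nat_lit 76) (nat_lit 0) (XT.lf (nat_lit 0) (nat_lit 2993246870) (nat_lit 532) (nat_lit 5069514435) (nat_lit 608) (nat_lit 2083781076) (nat_lit 246) (nat_lit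 5) (nat_lit 253) (nat_lit 5) (nat_lit 254) (nat_lit 5) (nat_lit 594) (nat_lit 522) (nat_lit 444)) (XT.lf (nat_lit 0) (nat_lit 835611158) (nat_lit 608) (nat_lit 358487232) (nat_lit 76) (nat_lit 9057736500) (nat_lit 245) (nat_lit 5) (nat_lit 253) (nat_lit 5) (nat_lit 246) (nat_lit 5) (nat_lit 595) (nat_lit 522) (nat_lit 443))) (XT.nd (nat_lit 78) (nat_lit 532) (nat_lit 0) (XT.lf (nat_lit 0) (nat_lit 3817470953) (nat_lit 608) (nat_lit 3771454506) (nat_lit 76) (nat_lit 2769394638) (nat_lit 238) (nat_lit 5) (nat_lit 246) (nat_lit 5) (nat_lit 239) (nat_lit 5) (nat_lit 596) (nat_lit 522) (nat_lit 442)) (XT.lf (nat_lit 0) (nat_lit 3203337235) (nat_lit 532) (nat_lit 3657855185) (nat_lit 608) (nat_lit 3605700011) (nat_lit 231) (nat_lit 5) (nat_lit 238) (nat_lit 5) (nat_lit 239) (nat_lit 5) (nat_lit 597) (nat_lit 522) (nat_lit 441))))))))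
noncomputable def xc84 : XT := (XT.nd (nat_lit 2106) (nat_lit 4408) (nat_lit 0) (XT.nd (nat_lit 1014) (nat_lit 3496) (nat_lit 0) (XT.nd (nat_lit 468) (nat_lit 2280) (nat_lit 0) (XT.nd (nat_lit 234) (nat_lit 988) (nat_lit 0) (XT.nd (nat_lit 78) (nat_lit 1064) (nat_lit 0) (XT.lf (nat_lit 0) (nat_lit 9964883832) (nat_lit 608) (nat_lit 250923545) (nat_lit 76) (nat_lit 361848802) (nat_lit 231) (nat_lit 5) (nat_lit 239) (nat_lit 5) (nat_lit 232) (nat_lit 5) (nat_lit 598) (nat_lit 522) (nat_lit 440)) (XT.nd (nat_lit 78) (nat_lit 532) (nat_lit 0) (XT.lf (nat_lit 0) (nat_lit 2449394154) (nat_lit 532) (nat_lit 3776616889) (nat_lit 76) (nat_lit 4463481488) (nat_lit 224) (nat_lit 5) (nat_lit 231) (nat_lit 5) (nat_lit 225) (nat_lit 5) (nat_lit 599) (nat_lit 522) (nat_lit 439)) (XT.lf (nat_lit 0) (nat_lit 3421202124) (nat_lit 532) (nat_lit 2139320979) (nat_lit 608) (nat_lit 5243044785) (nat_lit 217) (nat_lit 5) (nat_lit 224) (nat_lit 5) (nat_lit 225) (nat_lit 5) (nat_lit 600)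 (nat_lit 522) (nat_lit 438)))) (XT.nd (nat_lit 78) (nat_lit 988) (nat_lit 0) (XT.lf (nat_lit 0) (nat_lit 8744788789) (nat_lit 608) (nat_lit 158229890) (nat_lit 76) (nat_lit 2016689523) (nat_lit 217) (nat_lit 5) (nat_lit 225) (nat_lit 5) (nat_lit 218) (nat_lit 5) (nat_lit 601) (nat_lit 522) (nat_lit 437)) (XT.nd (nat_lit 78) (nat_lit 456) (nat_lit 0) (XT.lf (nat_lit 0) (nat_lit 976301859) (nat_lit 532) (nat_lit 3791440122) (nat_lit 76) (nat_lit 6269621999) (nat_lit 210) (nat_lit 5) (nat_lit 217) (nat_lit 5) (nat_lit 211) (nat_lit 5) (nat_lit 602) (nat_lit 522) (nat_lit 436)) (XT.lf (nat_lit 0) (nat_lit 3637277383) (nat_lit 456) (nat_lit 521736275) (nat_lit 532) (nat_lit 6998121560) (nat_lit 204) (nat_lit 5) (nat_lit 210) (nat_lit 5) (nat_lit 211) (nat_lit 5) (nat_lit 603) (nat_lit 522) (nat_lit 435))))) (XT.nd (nat_lit 234) (nat_lit 1292) (nat_lit 0) (XT.nd (nat_lit 78) (nat_lit 988) (nat_lit 0) (XT.lf (nat_lit 0) (nat_lit 7428802536) (nat_lit 532) (nat_lit 76904696)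 (nat_lit 76) (nat_lit 3773127793) (nat_lit 204) (nat_lit 5) (nat_lit 211) (nat_lit 5) (nat_lit 205) (nat_lit 5) (nat_lit 604) (nat_lit 522) (nat_lit 434)) (XT.nd (nat_lit 78) (nat_lit 532) (nat_lit 0) (XT.lf (nat_lit 0) (nat_lit 7572358677) (nat_lit 456) (nat_lit 3217856342) (nat_lit 532) (nat_lit 612230823) (nat_lit 198) (nat_lit 5) (nat_lit 204) (nat_lit 5) (nat_lit 205) (nat_lit 5) (nat_lit 605) (nat_lit 522) (nat_lit 433)) (XT.lf (nat_lit 0) (nat_lit 2661916102) (nat_lit 532) (nat_lit 7694368577) (nat_lit 76) (nat_lit 1171758891) (nat_lit 191) (nat_lit 5) (nat_lit 198) (nat_lit 5) (nat_lit 192) (nat_lit 5) (nat_lit 606) (nat_lit 522) (nat_lit 432)))) (XT.nd (nat_lit 156) (nat_lit 912) (nat_lit 0) (XT.nd (nat_lit 78) (nat_lit 380) (nat_lit 0) (XT.lf (nat_lit 0) (nat_lit 6014429302) (nat_lit 532) (nat_lit 17238178) (nat_lit 76) (nat_lit 5623984693) (nat_lit 191) (nat_lit 5) (nat_lit 198) (nat_lit 5) (nat_lit 192) (nat_lit 5) (nat_lit 607) (nat_lit 522) (nat_lit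 431)) (XT.lf (nat_lit 0) (nat_lit 7878831660) (nat_lit 380) (nat_lit 1580718673) (nat_lit 456) (nat_lit 2325752916) (nat_lit 186) (nat_lit 5) (nat_lit 191) (nat_lit 5) (nat_lit 192) (nat_lit 5) (nat_lit 608) (nat_lit 522) (nat_lit 430))) (XT.nd (nat_lit 78) (nat_lit 380) (nat_lit 0) (XT.lf (nat_lit 0) (nat_lit 1062257740) (nat_lit 532) (nat_lit 7913352710) (nat_lit 76) (nat_lit 2941399535) (nat_lit 179) (nat_lit 5) (nat_lit 186) (nat_lit 5) (nat_lit 180) (nat_lit 5) (nat_lit 609) (nat_lit 522) (nat_lit 429)) (XT.lf (nat_lit 0) (nat_lit 10001028) (nat_lit 380) (nat_lit 4488500793) (nat_lit 456) (nat_lit 7552310637) (nat_lit 174) (nat_lit 5) (nat_lit 179) (nat_lit 5) (nat_lit 180) (nat_lit 5) (nat_lit 610) (nat_lit 522) (nat_lit 428)))))) (XT.nd (nat_lit 546) (nat_lit 1824) (nat_lit 0) (XT.nd (nat_lit 234) (nat_lit 1216) (nat_lit 0) (XT.nd (nat_lit 78) (nat_lit 456) (nat_lit 0) (XT.lf (nat_lit 0) (nat_lit 8032330280) (nat_lit 456) (nat_lit 4026434260) (nat_lit 76)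 (nat_lit 127950589) (nat_lit 174) (nat_lit 5) (nat_lit 180) (nat_lit 5) (nat_lit 175) (nat_lit 5) (nat_lit 611) (nat_lit 522) (nat_lit 427)) (XT.nd (nat_lit 78) (nat_lit 76) (nat_lit 0) (XT.lf (nat_lit 0) (nat_lit 4135121030) (nat_lit 380) (nat_lit 7533612326) (nat_lit 456) (nat_lit 655965852) (nat_lit 169) (nat_lit 5) (nat_lit 174) (nat_lit 5) (nat_lit 175) (nat_lit 5) (nat_lit 612) (nat_lit 522) (nat_lit 426)) (XT.lf (nat_lit 0) (nat_lit 2876826062) (nat_lit 456) (nat_lit 7201854) (nat_lit 76) (nat_lit 9580986099) (nat_lit 168) (nat_lit 5) (nat_lit 174) (nat_lit 5) (nat_lit 169) (nat_lit 5) (nat_lit 613) (nat_lit 522) (nat_lit 425)))) (XT.nd (nat_lit 156) (nat_lit 456) (nat_lit 0) (XT.nd (nat_lit 78) (nat_lit 380) (nat_lit 0) (XT.lf (nat_lit 0) (nat_lit 6514346740) (nat_lit 456) (nat_lit 4212024891) (nat_lit 76) (nat_lit 1880820879) (nat_lit 163) (nat_lit 5) (nat_lit 169) (nat_lit 5) (nat_lit 164) (nat_lit 5) (nat_lit 614) (nat_lit 522) (nat_lit 424)) (XT.lf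 (nat_lit 0) (nat_lit 4212505489) (nat_lit 380) (nat_lit 6034647348) (nat_lit 456) (nat_lit 2504612254) (nat_lit 158) (nat_lit 5) (nat_lit 163) (nat_lit 5) (nat_lit 164) (nat_lit 5) (nat_lit 615) (nat_lit 522) (nat_lit 423))) (XT.nd (nat_lit 78) (nat_lit 380) (nat_lit 0) (XT.lf (nat_lit 0) (nat_lit 1144793545) (nat_lit 456) (nat_lit 80916408) (nat_lit 76) (nat_lit 11673279091) (nat_lit 157) (nat_lit 5) (nat_lit 163) (nat_lit 5) (nat_lit 158) (nat_lit 5) (nat_lit 616) (nat_lit 522) (nat_lit 422)) (XT.lf (nat_lit 0) (nat_lit 4890422175) (nat_lit 456) (nat_lit 4466036893) (nat_lit 76) (nat_lit 3691233012) (nat_lit 152) (nat_lit 5) (nat_lit 158) (nat_lit 5) (nat_lit 153) (nat_lit 5) (nat_lit 617) (nat_lit 522) (nat_lit 421))))) (XT.nd (nat_lit 234) (nat_lit 1064) (nat_lit 0) (XT.nd (nat_lit 78) (nat_lit 380) (nat_lit 0) (XT.lf (nat_lit 0) (nat_lit 4229975693) (nat_lit 380) (nat_lit 4493832053) (nat_lit 456) (nat_lit 4475305665) (nat_lit 147) (nat_lit 5) (nat_lit 152)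 (nat_lit 5) (nat_lit 153) (nat_lit 5) (nat_lit 618) (nat_lit 522) (nat_lit 420)) (XT.nd (nat_lit 78) (nat_lit 380) (nat_lit 0) (XT.lf (nat_lit 0) (nat_lit 12643905714) (nat_lit 456) (nat_lit 232473641) (nat_lit 76) (nat_lit 476984020) (nat_lit 147) (nat_lit 5) (nat_lit 153) (nat_lit 5) (nat_lit 148) (nat_lit 5) (nat_lit 619) (nat_lit 522) (nat_lit 419)) (XT.lf (nat_lit 0) (nat_lit 3154786105) (nat_lit 380) (nat_lit 4802564580) (nat_lit 76) (nat_lit 5551659014) (nat_lit 142) (nat_lit 5) (nat_lit 147) (nat_lit 5) (nat_lit 143) (nat_lit 5) (nat_lit 620) (nat_lit 522) (nat_lit 418)))) (XT.nd (nat_lit 156) (nat_lit 684) (nat_lit 0) (XT.nd (nat_lit 78) (nat_lit 0) (nat_lit 0) (XT.lf (nat_lit 0) (nat_lit 4173506327) (nat_lit 380) (nat_lit 2919352748) (nat_lit 456) (nat_lit 6574696239) (nat_lit 137) (nat_lit 5) (nat_lit 142) (nat_lit 5) (nat_lit 143) (nat_lit 5) (nat_lit 621) (nat_lit 522) (nat_lit 417)) (XT.lf (nat_lit 0) (nat_lit 11134036043) (nat_lit 456) (nat_lit 485253842)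 (nat_lit 76) (nat_lit 2209496123) (nat_lit 137) (nat_lit 5) (nat_lit 143) (nat_lit 5) (nat_lit 138) (nat_lit 5) (nat_lit 622) (nat_lit 522) (nat_lit 416))) (XT.nd (nat_lit 78) (nat_lit 304) (nat_lit 0) (XT.lf (nat_lit 0) (nat_lit 1300758114) (nat_lit 380) (nat_lit 5236885742) (nat_lit 76) (nat_lit 7454343964) (nat_lit 132) (nat_lit 5) (nat_lit 137) (nat_lit 5) (nat_lit 133) (nat_lit 5) (nat_lit 623) (nat_lit 522) (nat_lit 415)) (XT.lf (nat_lit 0) (nat_lit 4027860789) (nat_lit 304) (nat_lit 1319686889) (nat_lit 380) (nat_lit 8810401621) (nat_lit 128) (nat_lit 5) (nat_lit 132) (nat_lit 5) (nat_lit 133) (nat_lit 5) (nat_lit 624) (nat_lit 522) (nat_lit 414))))))) (XT.nd (nat_lit 1014) (nat_lit 1824) (nat_lit 0) (XT.nd (nat_lit 468) (nat_lit 1216) (nat_lit 0) (XT.nd (nat_lit 234) (nat_lit 684) (nat_lit 0) (XT.nd (nat_lit 78) (nat_lit 684) (nat_lit 0) (XT.lf (nat_lit 0) (nat_lit 9514741142) (nat_lit 380) (nat_lit 839525516) (nat_lit 76) (nat_lit 3972174925) (nat_lit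 128) (nat_lit 5) (nat_lit 133) (nat_lit 5) (nat_lit 129) (nat_lit 5) (nat_lit 625) (nat_lit 522) (nat_lit 413)) (XT.nd (nat_lit 78) (nat_lit 380) (nat_lit 0) (XT.lf (nat_lit 0) (nat_lit 8707339259) (nat_lit 304) (nat_lit 5101747388) (nat_lit 380) (nat_lit 688341823) (nat_lit 124) (nat_lit 5) (nat_lit 128) (nat_lit 5) (nat_lit 129) (nat_lit 5) (nat_lit 626) (nat_lit 522) (nat_lit 412)) (XT.lf (nat_lit 0) (nat_lit 3482053644) (nat_lit 380) (nat_lit 10896698666) (nat_lit 76) (nat_lit 292412870) (nat_lit 119) (nat_lit 5) (nat_lit 124) (nat_lit 5) (nat_lit 120) (nat_lit 5) (nat_lit 627) (nat_lit 522) (nat_lit 411)))) (XT.nd (nat_lit 78) (nat_lit 684) (nat_lit 0) (XT.lf (nat_lit 0) (nat_lit 7778241101) (nat_lit 380) (nat_lit 1312532468) (nat_lit 76) (nat_lit 5756480904) (nat_lit 119) (nat_lit 5) (nat_lit 124) (nat_lit 5) (nat_lit 120) (nat_lit 5) (nat_lit 628) (nat_lit 522) (nat_lit 410)) (XT.nd (nat_lit 78) (nat_lit 380) (nat_lit 0) (XT.lf (nat_lit 0) (nat_lit 8540891007)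 (nat_lit 304) (nat_lit 3654026285) (nat_lit 380) (nat_lit 2831257809) (nat_lit 115) (nat_lit 5) (nat_lit 119) (nat_lit 5) (nat_lit 120) (nat_lit 5) (nat_lit 629) (nat_lit 522) (nat_lit 409)) (XT.lf (nat_lit 0) (nat_lit 1494265174) (nat_lit 380) (nat_lit 11819691148) (nat_lit 76) (nat_lit 1894073586) (nat_lit 110) (nat_lit 5) (nat_lit 115) (nat_lit 5) (nat_lit 111) (nat_lit 5) (nat_lit 630) (nat_lit 522) (nat_lit 408))))) (XT.nd (nat_lit 234) (nat_lit 684) (nat_lit 0) (XT.nd (nat_lit 78) (nat_lit 532) (nat_lit 0) (XT.lf (nat_lit 0) (nat_lit 5915689353) (nat_lit 380) (nat_lit 1923135795) (nat_lit 76) (nat_lit 7553377146) (nat_lit 110) (nat_lit 5) (nat_lit 115) (nat_lit 5) (nat_lit 111) (nat_lit 5) (nat_lit 631) (nat_lit 522) (nat_lit 407)) (XT.nd (nat_lit 78) (nat_lit 304) (nat_lit 0) (XT.lf (nat_lit 0) (nat_lit 8245580113) (nat_lit 228) (nat_lit 2213163470) (nat_lit 304) (nat_lit 5120651298) (nat_lit 107) (nat_lit 5) (nat_lit 110) (nat_lit 5) (nat_lit 111) (nat_lit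 5) (nat_lit 632) (nat_lit 522) (nat_lit 406)) (XT.lf (nat_lit 0) (nat_lit 2854120177) (nat_lit 304) (nat_lit 12272704881) (nat_lit 380) (nat_lit 642823710) (nat_lit 103) (nat_lit 5) (nat_lit 107) (nat_lit 5) (nat_lit 108) (nat_lit 5) (nat_lit 633) (nat_lit 522) (nat_lit 405)))) (XT.nd (nat_lit 156) (nat_lit 380) (nat_lit 0) (XT.nd (nat_lit 78) (nat_lit 228) (nat_lit 0) (XT.lf (nat_lit 0) (nat_lit 3917087335) (nat_lit 380) (nat_lit 2692012445) (nat_lit 76) (nat_lit 9353219110) (nat_lit 102) (nat_lit 5) (nat_lit 107) (nat_lit 5) (nat_lit 103) (nat_lit 5) (nat_lit 634) (nat_lit 522) (nat_lit 404)) (XT.lf (nat_lit 0) (nat_lit 7800640260) (nat_lit 228) (nat_lit 789801783) (nat_lit 304) (nat_lit 7567699057) (nat_lit 99) (nat_lit 5) (nat_lit 102) (nat_lit 5) (nat_lit 103) (nat_lit 5) (nat_lit 635) (nat_lit 522) (nat_lit 403))) (XT.nd (nat_lit 78) (nat_lit 76) (nat_lit 0) (XT.lf (nat_lit 0) (nat_lit 2143227960) (nat_lit 304) (nat_lit 11259829036) (nat_lit 380) (nat_lit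 2953907609) (nat_lit 95) (nat_lit 5) (nat_lit 99) (nat_lit 5) (nat_lit 100) (nat_lit 5) (nat_lit 636) (nat_lit 522) (nat_lit 402)) (XT.lf (nat_lit 0) (nat_lit 1771188449) (nat_lit 380) (nat_lit 3641872747) (nat_lit 76) (nat_lit 11145636369) (nat_lit 94) (nat_lit 5) (nat_lit 99) (nat_lit 5) (nat_lit 95) (nat_lit 5) (nat_lit 637) (nat_lit 522) (nat_lit 401)))))) (XT.nd (nat_lit 546) (nat_lit 532) (nat_lit 0) (XT.nd (nat_lit 234) (nat_lit 836) (nat_lit 0) (XT.nd (nat_lit 78) (nat_lit 228) (nat_lit 0) (XT.lf (nat_lit 0) (nat_lit 6582543669) (nat_lit 304) (nat_lit 9584231917) (nat_lit 76) (nat_lit 596673561) (nat_lit 91) (nat_lit 5) (nat_lit 95) (nat_lit 5) (nat_lit 92) (nat_lit 5) (nat_lit 638) (nat_lit 522) (nat_lit 400)) (XT.nd (nat_lit 78) (nat_lit 0) (nat_lit 0) (XT.lf (nat_lit 0) (nat_lit 1241629429) (nat_lit 228) (nat_lit 10297794830) (nat_lit 304) (nat_lit 5431886193) (nat_lit 88) (nat_lit 5) (nat_lit 91) (nat_lit 5) (nat_lit 92) (nat_lit 5) (nat_lit 639) (nat_lit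 522) (nat_lit 399)) (XT.lf (nat_lit 0) (nat_lit 12381208059) (nat_lit 228) (nat_lit 4259501900) (nat_lit 304) (nat_lit 541714319) (nat_lit 88) (nat_lit 5) (nat_lit 91) (nat_lit 5) (nat_lit 92) (nat_lit 5) (nat_lit 640) (nat_lit 522) (nat_lit 398)))) (XT.nd (nat_lit 156) (nat_lit 304) (nat_lit 0) (XT.nd (nat_lit 78) (nat_lit 228) (nat_lit 0) (XT.lf (nat_lit 0) (nat_lit 4423205489) (nat_lit 304) (nat_lit 11041299552) (nat_lit 76) (nat_lit 1931973436) (nat_lit 84) (nat_lit 5) (nat_lit 88) (nat_lit 5) (nat_lit 85) (nat_lit 5) (nat_lit 641) (nat_lit 522) (nat_lit 397)) (XT.lf (nat_lit 0) (nat_lit 122816706) (nat_lit 228) (nat_lit 9400072361) (nat_lit 304) (nat_lit 8090999307) (nat_lit 81) (nat_lit 5) (nat_lit 84) (nat_lit 5) (nat_lit 85) (nat_lit 5) (nat_lit 642) (nat_lit 522) (nat_lit 396))) (XT.nd (nat_lit 78) (nat_lit 304) (nat_lit 0) (XT.lf (nat_lit 0) (nat_lit 11627697273) (nat_lit 228) (nat_lit 3152394242) (nat_lit 304) (nat_lit 3054445045) (nat_lit 81) (nat_lit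 5) (nat_lit 84) (nat_lit 5) (nat_lit 85) (nat_lit 5) (nat_lit 643) (nat_lit 522) (nat_lit 395)) (XT.lf (nat_lit 0) (nat_lit 2092928253) (nat_lit 304) (nat_lit 12752512952) (nat_lit 76) (nat_lit 3213138519) (nat_lit 77) (nat_lit 5) (nat_lit 81) (nat_lit 5) (nat_lit 78) (nat_lit 5) (nat_lit 644) (nat_lit 522) (nat_lit 394))))) (XT.nd (nat_lit 234) (nat_lit 76) (nat_lit 0) (XT.nd (nat_lit 78) (nat_lit 456) (nat_lit 0) (XT.lf (nat_lit 0) (nat_lit 7346934300) (nat_lit 304) (nat_lit 1226151554) (nat_lit 76) (nat_lit 9712722971) (nat_lit 77) (nat_lit 5) (nat_lit 81) (nat_lit 5) (nat_lit 78) (nat_lit 5) (nat_lit 645) (nat_lit 522) (nat_lit 393)) (XT.nd (nat_lit 78) (nat_lit 228) (nat_lit 0) (XT.lf (nat_lit 0) (nat_lit 10639028281) (nat_lit 228) (nat_lit 2118168104) (nat_lit 304) (nat_lit 5759363157) (nat_lit 74) (nat_lit 5) (nat_lit 77) (nat_lit 5) (nat_lit 78) (nat_lit 5) (nat_lit 646) (nat_lit 522) (nat_lit 392)) (XT.lf (nat_lit 0) (nat_lit 3998457250) (nat_lit 228)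 (nat_lit 14322608455) (nat_lit 304) (nat_lit 429952066) (nat_lit 71) (nat_lit 5) (nat_lit 74) (nat_lit 5) (nat_lit 75) (nat_lit 5) (nat_lit 647) (nat_lit 522) (nat_lit 391)))) (XT.nd (nat_lit 71526) (nat_lit 0) (nat_lit 52668) (XT.nd (nat_lit 71448) (nat_lit 0) (nat_lit 53048) (XT.lf (nat_lit 0) (nat_lit 4989825750) (nat_lit 304) (nat_lit 2848577146) (nat_lit 76) (nat_lit 11150124063) (nat_lit 70) (nat_lit 5) (nat_lit 74) (nat_lit 5) (nat_lit 71) (nat_lit 5) (nat_lit 648) (nat_lit 522) (nat_lit 390)) (XT.lf (nat_lit 0) (nat_lit 1359326041) (nat_lit 0) (nat_lit 1359326041) (nat_lit 228) (nat_lit 511015760) (nat_lit 768) (nat_lit 5) (nat_lit 768) (nat_lit 3) (nat_lit 771) (nat_lit 3) (nat_lit 523) (nat_lit 523) (nat_lit 514))) (XT.nd (nat_lit 78) (nat_lit 0) (nat_lit 0) (XT.lf (nat_lit 0) (nat_lit 1874083085) (nat_lit 380) (nat_lit 533580236) (nat_lit 380) (nat_lit 4058065004) (nat_lit 763) (nat_lit 3) (nat_lit 768) (nat_lit 3) (nat_lit 768) (nat_lit 5) (nat_lit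 524) (nat_lit 523) (nat_lit 513)) (XT.lf (nat_lit 76) (nat_lit 2727969974) (nat_lit 0) (nat_lit 2028310490) (nat_lit 380) (nat_lit 1717008888) (nat_lit 764) (nat_lit 5) (nat_lit 763) (nat_lit 3) (nat_lit 768) (nat_lit 5) (nat_lit 525) (nat_lit 523) (nat_lit 512))))))))
noncomputable def xc85 : XT := (XT.nd (nat_lit 2106) (nat_lit 20976) (nat_lit 0) (XT.nd (nat_lit 1014) (nat_lit 8588) (nat_lit 0) (XT.nd (nat_lit 468) (nat_lit 1976) (nat_lit 0) (XT.nd (nat_lit 234) (nat_lit 456) (nat_lit 0) (XT.nd (nat_lit 78) (nat_lit 456) (nat_lit 0) (XT.lf (nat_lit 0) (nat_lit 1127640608) (nat_lit 380) (nat_lit 466319784) (nat_lit 456) (nat_lit 4888326355) (nat_lit 758) (nat_lit 5) (nat_lit 763) (nat_lit 3) (nat_lit 764) (nat_lit 5) (nat_lit 526) (nat_lit 523) (nat_lit 511)) (XT.nd (nat_lit 78) (nat_lit 456) (nat_lit 0) (XT.lf (nat_lit 76) (nat_lit 2865787211) (nat_lit 0) (nat_lit 1085359316) (nat_lit 456) (nat_lit 2541203325) (nat_lit 759) (nat_lit 5) (nat_lit 758) (nat_lit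 5) (nat_lit 764) (nat_lit 5) (nat_lit 527) (nat_lit 523) (nat_lit 510)) (XT.lf (nat_lit 0) (nat_lit 254379586) (nat_lit 456) (nat_lit 273261397) (nat_lit 532) (nat_lit 5976338360) (nat_lit 752) (nat_lit 5) (nat_lit 758) (nat_lit 5) (nat_lit 759) (nat_lit 5) (nat_lit 528) (nat_lit 523) (nat_lit 509)))) (XT.nd (nat_lit 78) (nat_lit 532) (nat_lit 0) (XT.lf (nat_lit 0) (nat_lit 3021406918) (nat_lit 456) (nat_lit 3384545285) (nat_lit 532) (nat_lit 110573237) (nat_lit 753) (nat_lit 5) (nat_lit 759) (nat_lit 5) (nat_lit 760) (nat_lit 5) (nat_lit 529) (nat_lit 523) (nat_lit 508)) (XT.nd (nat_lit 78) (nat_lit 532) (nat_lit 0) (XT.lf (nat_lit 76) (nat_lit 36706883) (nat_lit 0) (nat_lit 5742468190) (nat_lit 532) (nat_lit 751450315) (nat_lit 754) (nat_lit 5) (nat_lit 753) (nat_lit 5) (nat_lit 760) (nat_lit 5) (nat_lit 530) (nat_lit 523) (nat_lit 507)) (XT.lf (nat_lit 0) (nat_lit 1973577576) (nat_lit 532) (nat_lit 3026416306) (nat_lit 608) (nat_lit 1545691455) (nat_lit 746)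 (nat_lit 5) (nat_lit 753) (nat_lit 5) (nat_lit 754) (nat_lit 5) (nat_lit 531) (nat_lit 523) (nat_lit 506))))) (XT.nd (nat_lit 234) (nat_lit 1368) (nat_lit 0) (XT.nd (nat_lit 78) (nat_lit 608) (nat_lit 0) (XT.lf (nat_lit 76) (nat_lit 471760172) (nat_lit 0) (nat_lit 4206191416) (nat_lit 608) (nat_lit 1884307709) (nat_lit 747) (nat_lit 5) (nat_lit 746) (nat_lit 5) (nat_lit 754) (nat_lit 5) (nat_lit 532) (nat_lit 523) (nat_lit 505)) (XT.nd (nat_lit 78) (nat_lit 0) (nat_lit 0) (XT.lf (nat_lit 0) (nat_lit 798908872) (nat_lit 608) (nat_lit 2544066386) (nat_lit 684) (nat_lit 3237029994) (nat_lit 738) (nat_lit 5) (nat_lit 746) (nat_lit 5) (nat_lit 747) (nat_lit 5) (nat_lit 533) (nat_lit 523) (nat_lit 504)) (XT.lf (nat_lit 76) (nat_lit 1034648937) (nat_lit 0) (nat_lit 2416435645) (nat_lit 684) (nat_lit 3147971636) (nat_lit 739) (nat_lit 5) (nat_lit 738) (nat_lit 5) (nat_lit 747) (nat_lit 5) (nat_lit 534) (nat_lit 523) (nat_lit 503)))) (XT.nd (nat_lit 156) (nat_lit 684) (nat_lit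 0) (XT.nd (nat_lit 78) (nat_lit 684) (nat_lit 0) (XT.lf (nat_lit 76) (nat_lit 4679948665) (nat_lit 0) (nat_lit 1428253673) (nat_lit 684) (nat_lit 511257413) (nat_lit 739) (nat_lit 5) (nat_lit 738) (nat_lit 5) (nat_lit 747) (nat_lit 5) (nat_lit 535) (nat_lit 523) (nat_lit 502)) (XT.lf (nat_lit 76) (nat_lit 1726822967) (nat_lit 0) (nat_lit 369684499) (nat_lit 760) (nat_lit 4544552517) (nat_lit 730) (nat_lit 5) (nat_lit 729) (nat_lit 5) (nat_lit 739) (nat_lit 5) (nat_lit 536) (nat_lit 523) (nat_lit 501))) (XT.nd (nat_lit 78) (nat_lit 760) (nat_lit 0) (XT.lf (nat_lit 0) (nat_lit 4704133923) (nat_lit 684) (nat_lit 1218876229) (nat_lit 76) (nat_lit 740932409) (nat_lit 730) (nat_lit 5) (nat_lit 739) (nat_lit 5) (nat_lit 731) (nat_lit 5) (nat_lit 537) (nat_lit 523) (nat_lit 500)) (XT.lf (nat_lit 0) (nat_lit 624483640) (nat_lit 760) (nat_lit 4150923686) (nat_lit 76) (nat_lit 1912661671) (nat_lit 720) (nat_lit 5) (nat_lit 730) (nat_lit 5) (nat_lit 721) (nat_lit 5) (nat_lit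 538) (nat_lit 523) (nat_lit 499)))))) (XT.nd (nat_lit 546) (nat_lit 4940) (nat_lit 0) (XT.nd (nat_lit 234) (nat_lit 1976) (nat_lit 0) (XT.nd (nat_lit 78) (nat_lit 1672) (nat_lit 0) (XT.lf (nat_lit 0) (nat_lit 3181094980) (nat_lit 760) (nat_lit 381237072) (nat_lit 76) (nat_lit 3151157774) (nat_lit 720) (nat_lit 5) (nat_lit 730) (nat_lit 5) (nat_lit 721) (nat_lit 5) (nat_lit 539) (nat_lit 523) (nat_lit 498)) (XT.nd (nat_lit 78) (nat_lit 912) (nat_lit 0) (XT.lf (nat_lit 0) (nat_lit 3469643233) (nat_lit 760) (nat_lit 2281543179) (nat_lit 836) (nat_lit 988993989) (nat_lit 710) (nat_lit 5) (nat_lit 720) (nat_lit 5) (nat_lit 721) (nat_lit 5) (nat_lit 540) (nat_lit 523) (nat_lit 497)) (XT.lf (nat_lit 0) (nat_lit 592441236) (nat_lit 836) (nat_lit 938546040) (nat_lit 912) (nat_lit 5237281708) (nat_lit 698) (nat_lit 5) (nat_lit 709) (nat_lit 5) (nat_lit 710) (nat_lit 5) (nat_lit 541) (nat_lit 523) (nat_lit 496)))) (XT.nd (nat_lit 156) (nat_lit 1064) (nat_lit 0) (XT.nd (nat_lit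 78) (nat_lit 912) (nat_lit 0) (XT.lf (nat_lit 0) (nat_lit 4054406729) (nat_lit 912) (nat_lit 2270247905) (nat_lit 76) (nat_lit 472816145) (nat_lit 698) (nat_lit 5) (nat_lit 710) (nat_lit 5) (nat_lit 699) (nat_lit 5) (nat_lit 542) (nat_lit 523) (nat_lit 495)) (XT.lf (nat_lit 0) (nat_lit 1688903391) (nat_lit 912) (nat_lit 4899097770) (nat_lit 988) (nat_lit 240068973) (nat_lit 686) (nat_lit 5) (nat_lit 698) (nat_lit 5) (nat_lit 699) (nat_lit 5) (nat_lit 543) (nat_lit 523) (nat_lit 494))) (XT.nd (nat_lit 78) (nat_lit 988) (nat_lit 0) (XT.lf (nat_lit 0) (nat_lit 2240995390) (nat_lit 988) (nat_lit 1157056927) (nat_lit 76) (nat_lit 3461769277) (nat_lit 685) (nat_lit 5) (nat_lit 698) (nat_lit 5) (nat_lit 686) (nat_lit 5) (nat_lit 544) (nat_lit 523) (nat_lit 493)) (XT.lf (nat_lit 0) (nat_lit 2900982194) (nat_lit 988) (nat_lit 1830449059) (nat_lit 1064) (nat_lit 2161493011) (nat_lit 672) (nat_lit 5) (nat_lit 685) (nat_lit 5) (nat_lit 686) (nat_lit 5) (nat_lit 545) (nat_lit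 523) (nat_lit 492))))) (XT.nd (nat_lit 234) (nat_lit 2660) (nat_lit 0) (XT.nd (nat_lit 78) (nat_lit 1140) (nat_lit 0) (XT.lf (nat_lit 0) (nat_lit 87540475) (nat_lit 1064) (nat_lit 205897688) (nat_lit 1140) (nat_lit 6634153445) (nat_lit 657) (nat_lit 5) (nat_lit 671) (nat_lit 5) (nat_lit 672) (nat_lit 5) (nat_lit 546) (nat_lit 523) (nat_lit 491)) (XT.nd (nat_lit 78) (nat_lit 1140) (nat_lit 0) (XT.lf (nat_lit 0) (nat_lit 2750447953) (nat_lit 1140) (nat_lit 2725177966) (nat_lit 76) (nat_lit 1487408978) (nat_lit 657) (nat_lit 5) (nat_lit 672) (nat_lit 5) (nat_lit 658) (nat_lit 5) (nat_lit 547) (nat_lit 523) (nat_lit 490)) (XT.lf (nat_lit 0) (nat_lit 1448874284) (nat_lit 1140) (nat_lit 3765070835) (nat_lit 1216) (nat_lit 1786101656) (nat_lit 642) (nat_lit 5) (nat_lit 657) (nat_lit 5) (nat_lit 658) (nat_lit 5) (nat_lit 548) (nat_lit 523) (nat_lit 489)))) (XT.nd (nat_lit 156) (nat_lit 1368) (nat_lit 0) (XT.nd (nat_lit 78) (nat_lit 1216) (nat_lit 0) (XT.lf (nat_lit 0)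 (nat_lit 645292758) (nat_lit 1216) (nat_lit 1339878640) (nat_lit 76) (nat_lit 5053236147) (nat_lit 641) (nat_lit 5) (nat_lit 657) (nat_lit 5) (nat_lit 642) (nat_lit 5) (nat_lit 549) (nat_lit 523) (nat_lit 488)) (XT.lf (nat_lit 0) (nat_lit 2942005777) (nat_lit 1216) (nat_lit 126562439) (nat_lit 1292) (nat_lit 4009394090) (nat_lit 625) (nat_lit 5) (nat_lit 641) (nat_lit 5) (nat_lit 642) (nat_lit 5) (nat_lit 550) (nat_lit 523) (nat_lit 487))) (XT.nd (nat_lit 78) (nat_lit 76) (nat_lit 0) (XT.lf (nat_lit 0) (nat_lit 158871102) (nat_lit 1292) (nat_lit 5351882680) (nat_lit 1368) (nat_lit 1608151647) (nat_lit 608) (nat_lit 5) (nat_lit 625) (nat_lit 5) (nat_lit 626) (nat_lit 5) (nat_lit 551) (nat_lit 523) (nat_lit 486)) (XT.lf (nat_lit 0) (nat_lit 808132867) (nat_lit 1368) (nat_lit 2612572920) (nat_lit 76) (nat_lit 3740297351) (nat_lit 607) (nat_lit 5) (nat_lit 625) (nat_lit 5) (nat_lit 608) (nat_lit 5) (nat_lit 552) (nat_lit 523) (nat_lit 485))))))) (XT.nd (nat_lit 1092)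 (nat_lit 7524) (nat_lit 0) (XT.nd (nat_lit 546) (nat_lit 7372) (nat_lit 0) (XT.nd (nat_lit 234) (nat_lit 3192) (nat_lit 0) (XT.nd (nat_lit 78) (nat_lit 1520) (nat_lit 0) (XT.lf (nat_lit 0) (nat_lit 1793894548) (nat_lit 1368) (nat_lit 1419249514) (nat_lit 1444) (nat_lit 3991353261) (nat_lit 589) (nat_lit 5) (nat_lit 607) (nat_lit 5) (nat_lit 608) (nat_lit 5) (nat_lit 553) (nat_lit 523) (nat_lit 484)) (XT.nd (nat_lit 78) (nat_lit 1520) (nat_lit 0) (XT.lf (nat_lit 0) (nat_lit 5638977010) (nat_lit 1444) (nat_lit 970354303) (nat_lit 76) (nat_lit 640081335) (nat_lit 589) (nat_lit 5) (nat_lit 608) (nat_lit 5) (nat_lit 590) (nat_lit 5) (nat_lit 554) (nat_lit 523) (nat_lit 483)) (XT.lf (nat_lit 0) (nat_lit 791737715) (nat_lit 1520) (nat_lit 3745602006) (nat_lit 76) (nat_lit 2758098456) (nat_lit 569) (nat_lit 5) (nat_lit 589) (nat_lit 5) (nat_lit 570) (nat_lit 5) (nat_lit 555) (nat_lit 523) (nat_lit 482)))) (XT.nd (nat_lit 156) (nat_lit 1672) (nat_lit 0) (XT.nd (nat_lit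 78) (nat_lit 0) (nat_lit 0) (XT.lf (nat_lit 0) (nat_lit 789832726) (nat_lit 1520) (nat_lit 2394614365) (nat_lit 1596) (nat_lit 4158448461) (nat_lit 549) (nat_lit 5) (nat_lit 569) (nat_lit 5) (nat_lit 570) (nat_lit 5) (nat_lit 556) (nat_lit 523) (nat_lit 481)) (XT.lf (nat_lit 0) (nat_lit 5425871790) (nat_lit 1520) (nat_lit 177295974) (nat_lit 1596) (nat_lit 1788576422) (nat_lit 549) (nat_lit 5) (nat_lit 569) (nat_lit 5) (nat_lit 570) (nat_lit 5) (nat_lit 557) (nat_lit 523) (nat_lit 480))) (XT.nd (nat_lit 78) (nat_lit 0) (nat_lit 0) (XT.lf (nat_lit 0) (nat_lit 605348523) (nat_lit 1672) (nat_lit 4752039346) (nat_lit 76) (nat_lit 2084407319) (nat_lit 527) (nat_lit 5) (nat_lit 549) (nat_lit 5) (nat_lit 528) (nat_lit 5) (nat_lit 558) (nat_lit 523) (nat_lit 479)) (XT.lf (nat_lit 0) (nat_lit 2991993067) (nat_lit 1672) (nat_lit 81927876) (nat_lit 76) (nat_lit 4419318967) (nat_lit 527) (nat_lit 5) (nat_lit 549) (nat_lit 5) (nat_lit 528) (nat_lit 5) (nat_lit 559) (nat_lit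 523) (nat_lit 478))))) (XT.nd (nat_lit 234) (nat_lit 3876) (nat_lit 0) (XT.nd (nat_lit 78) (nat_lit 1824) (nat_lit 0) (XT.lf (nat_lit 0) (nat_lit 4702691206) (nat_lit 1672) (nat_lit 709422290) (nat_lit 1748) (nat_lit 2133890026) (nat_lit 505) (nat_lit 5) (nat_lit 527) (nat_lit 5) (nat_lit 528) (nat_lit 5) (nat_lit 560) (nat_lit 523) (nat_lit 477)) (XT.nd (nat_lit 78) (nat_lit 0) (nat_lit 0) (XT.lf (nat_lit 0) (nat_lit 257163667) (nat_lit 1824) (nat_lit 5644212437) (nat_lit 76) (nat_lit 1698813848) (nat_lit 481) (nat_lit 5) (nat_lit 505) (nat_lit 5) (nat_lit 482) (nat_lit 5) (nat_lit 561) (nat_lit 523) (nat_lit 476)) (XT.lf (nat_lit 0) (nat_lit 2647555470) (nat_lit 1824) (nat_lit 825773488) (nat_lit 76) (nat_lit 4182251834) (nat_lit 481) (nat_lit 5) (nat_lit 505) (nat_lit 5) (nat_lit 482) (nat_lit 5) (nat_lit 562) (nat_lit 523) (nat_lit 475)))) (XT.nd (nat_lit 156) (nat_lit 988) (nat_lit 0) (XT.nd (nat_lit 78) (nat_lit 1064) (nat_lit 0) (XT.lf (nat_lit 0) (nat_lit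 4102114873) (nat_lit 1824) (nat_lit 967291995) (nat_lit 1900) (nat_lit 2643004028) (nat_lit 457) (nat_lit 5) (nat_lit 481) (nat_lit 5) (nat_lit 482) (nat_lit 5) (nat_lit 563) (nat_lit 523) (nat_lit 474)) (XT.lf (nat_lit 0) (nat_lit 1335331703) (nat_lit 1064) (nat_lit 6186538410) (nat_lit 1140) (nat_lit 248868391) (nat_lit 443) (nat_lit 5) (nat_lit 457) (nat_lit 5) (nat_lit 458) (nat_lit 5) (nat_lit 564) (nat_lit 523) (nat_lit 473))) (XT.nd (nat_lit 78) (nat_lit 912) (nat_lit 0) (XT.lf (nat_lit 0) (nat_lit 2153074087) (nat_lit 1140) (nat_lit 1463351877) (nat_lit 76) (nat_lit 4213752386) (nat_lit 442) (nat_lit 5) (nat_lit 457) (nat_lit 5) (nat_lit 443) (nat_lit 5) (nat_lit 565) (nat_lit 523) (nat_lit 472)) (XT.lf (nat_lit 0) (nat_lit 3613089671) (nat_lit 912) (nat_lit 968815036) (nat_lit 988) (nat_lit 3309229895) (nat_lit 430) (nat_lit 5) (nat_lit 442) (nat_lit 5) (nat_lit 443) (nat_lit 5) (nat_lit 566) (nat_lit 523) (nat_lit 471)))))) (XT.nd (nat_lit 546) (nat_lit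 3116) (nat_lit 0) (XT.nd (nat_lit 234) (nat_lit 2584) (nat_lit 0) (XT.nd (nat_lit 78) (nat_lit 912) (nat_lit 0) (XT.lf (nat_lit 0) (nat_lit 815829259) (nat_lit 912) (nat_lit 6229175747) (nat_lit 988) (nat_lit 908595174) (nat_lit 418) (nat_lit 5) (nat_lit 430) (nat_lit 5) (nat_lit 431) (nat_lit 5) (nat_lit 567) (nat_lit 523) (nat_lit 470)) (XT.nd (nat_lit 78) (nat_lit 836) (nat_lit 0) (XT.lf (nat_lit 0) (nat_lit 1514697682) (nat_lit 988) (nat_lit 2005389226) (nat_lit 76) (nat_lit 4497135216) (nat_lit 417) (nat_lit 5) (nat_lit 430) (nat_lit 5) (nat_lit 418) (nat_lit 5) (nat_lit 568) (nat_lit 523) (nat_lit 469)) (XT.lf (nat_lit 0) (nat_lit 3225122825) (nat_lit 836) (nat_lit 730441489) (nat_lit 912) (nat_lit 4126810424) (nat_lit 406) (nat_lit 5) (nat_lit 417) (nat_lit 5) (nat_lit 418) (nat_lit 5) (nat_lit 569) (nat_lit 523) (nat_lit 468)))) (XT.nd (nat_lit 156) (nat_lit 1672) (nat_lit 0) (XT.nd (nat_lit 78) (nat_lit 76) (nat_lit 0) (XT.lf (nat_lit 0) (nat_lit 388838170)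 (nat_lit 836) (nat_lit 6047041959) (nat_lit 912) (nat_lit 1713141392) (nat_lit 395) (nat_lit 5) (nat_lit 406) (nat_lit 5) (nat_lit 407) (nat_lit 5) (nat_lit 570) (nat_lit 523) (nat_lit 467)) (XT.lf (nat_lit 0) (nat_lit 737699156) (nat_lit 912) (nat_lit 2462129951) (nat_lit 76) (nat_lit 5017104129) (nat_lit 394) (nat_lit 5) (nat_lit 406) (nat_lit 5) (nat_lit 395) (nat_lit 5) (nat_lit 571) (nat_lit 523) (nat_lit 466))) (XT.nd (nat_lit 78) (nat_lit 836) (nat_lit 0) (XT.lf (nat_lit 0) (nat_lit 2928200877) (nat_lit 836) (nat_lit 267284117) (nat_lit 912) (nat_lit 5090877902) (nat_lit 383) (nat_lit 5) (nat_lit 394) (nat_lit 5) (nat_lit 395) (nat_lit 5) (nat_lit 572) (nat_lit 523) (nat_lit 465)) (XT.lf (nat_lit 0) (nat_lit 44437273) (nat_lit 836) (nat_lit 5654896441) (nat_lit 912) (nat_lit 2657912758) (nat_lit 372) (nat_lit 5) (nat_lit 383) (nat_lit 5) (nat_lit 384) (nat_lit 5) (nat_lit 573) (nat_lit 523) (nat_lit 464))))) (XT.nd (nat_lit 234) (nat_lit 2280) (nat_lit 0)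 (XT.nd (nat_lit 78) (nat_lit 836) (nat_lit 0) (XT.lf (nat_lit 0) (nat_lit 5584984266) (nat_lit 836) (nat_lit 2668764641) (nat_lit 912) (nat_lit 175792423) (nat_lit 372) (nat_lit 5) (nat_lit 383) (nat_lit 5) (nat_lit 384) (nat_lit 5) (nat_lit 574) (nat_lit 523) (nat_lit 463)) (XT.nd (nat_lit 78) (nat_lit 0) (nat_lit 0) (XT.lf (nat_lit 0) (nat_lit 2308584946) (nat_lit 836) (nat_lit 5793292398) (nat_lit 76) (nat_lit 401431806) (nat_lit 361) (nat_lit 5) (nat_lit 372) (nat_lit 5) (nat_lit 362) (nat_lit 5) (nat_lit 575) (nat_lit 523) (nat_lit 462)) (XT.lf (nat_lit 0) (nat_lit 4840878744) (nat_lit 836) (nat_lit 223960067) (nat_lit 76) (nat_lit 3513681823) (nat_lit 361) (nat_lit 5) (nat_lit 372) (nat_lit 5) (nat_lit 362) (nat_lit 5) (nat_lit 576) (nat_lit 523) (nat_lit 461)))) (XT.nd (nat_lit 156) (nat_lit 760) (nat_lit 0) (XT.nd (nat_lit 78) (nat_lit 760) (nat_lit 0) (XT.lf (nat_lit 0) (nat_lit 5488480796) (nat_lit 760) (nat_lit 1935376122) (nat_lit 836) (nat_lit 1231381801)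 (nat_lit 351) (nat_lit 5) (nat_lit 361) (nat_lit 5) (nat_lit 362) (nat_lit 5) (nat_lit 577) (nat_lit 523) (nat_lit 460)) (XT.lf (nat_lit 0) (nat_lit 1298730418) (nat_lit 760) (nat_lit 6172608754) (nat_lit 76) (nat_lit 1262160862) (nat_lit 341) (nat_lit 5) (nat_lit 351) (nat_lit 5) (nat_lit 342) (nat_lit 5) (nat_lit 578) (nat_lit 523) (nat_lit 459))) (XT.nd (nat_lit 78) (nat_lit 760) (nat_lit 0) (XT.lf (nat_lit 0) (nat_lit 3862185498) (nat_lit 760) (nat_lit 428865440) (nat_lit 76) (nat_lit 4522131234) (nat_lit 341) (nat_lit 5) (nat_lit 351) (nat_lit 5) (nat_lit 342) (nat_lit 5) (nat_lit 579) (nat_lit 523) (nat_lit 458)) (XT.lf (nat_lit 0) (nat_lit 5461309243) (nat_lit 760) (nat_lit 1016750055) (nat_lit 836) (nat_lit 2416378562) (nat_lit 331) (nat_lit 5) (nat_lit 341) (nat_lit 5) (nat_lit 342) (nat_lit 5) (nat_lit 580) (nat_lit 523) (nat_lit 457))))))))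
noncomputable def xc86 : XT := (XT.nd (nat_lit 2106) (nat_lit 6764) (nat_lit 0) (XT.nd (nat_lit 1014) (nat_lit 4712) (nat_lit 0) (XT.nd (nat_lit 468) (nat_lit 3116) (nat_lit 0) (XT.nd (nat_lit 234) (nat_lit 1368) (nat_lit 0) (XT.nd (nat_lit 78) (nat_lit 684) (nat_lit 0) (XT.lf (nat_lit 0) (nat_lit 166828724) (nat_lit 760) (nat_lit 6503670377) (nat_lit 76) (nat_lit 2306798165) (nat_lit 321) (nat_lit 5) (nat_lit 331) (nat_lit 5) (nat_lit 322) (nat_lit 5) (nat_lit 581) (nat_lit 523) (nat_lit 456)) (XT.nd (nat_lit 78) (nat_lit 684) (nat_lit 0) (XT.lf (nat_lit 0) (nat_lit 2765545946) (nat_lit 760) (nat_lit 579820630) (nat_lit 76) (nat_lit 5716206551) (nat_lit 321) (nat_lit 5) (nat_lit 331) (nat_lit 5) (nat_lit 322) (nat_lit 5) (nat_lit 582) (nat_lit 523) (nat_lit 455)) (XT.lf (nat_lit 0) (nat_lit 5419314410) (nat_lit 760) (nat_lit 3653244591) (nat_lit 76) (nat_lit 74916648) (nat_lit 312) (nat_lit 5) (nat_lit 322) (nat_lit 5) (nat_lit 313) (nat_lit 5) (nat_lit 583) (nat_lit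 523) (nat_lit 454)))) (XT.nd (nat_lit 78) (nat_lit 760) (nat_lit 0) (XT.lf (nat_lit 0) (nat_lit 2432135744) (nat_lit 608) (nat_lit 5703140788) (nat_lit 684) (nat_lit 1099639950) (nat_lit 304) (nat_lit 5) (nat_lit 312) (nat_lit 5) (nat_lit 313) (nat_lit 5) (nat_lit 584) (nat_lit 523) (nat_lit 453)) (XT.nd (nat_lit 78) (nat_lit 684) (nat_lit 0) (XT.lf (nat_lit 0) (nat_lit 1552810108) (nat_lit 684) (nat_lit 685659364) (nat_lit 76) (nat_lit 7085591842) (nat_lit 303) (nat_lit 5) (nat_lit 312) (nat_lit 5) (nat_lit 304) (nat_lit 5) (nat_lit 585) (nat_lit 523) (nat_lit 452)) (XT.lf (nat_lit 0) (nat_lit 4256539189) (nat_lit 760) (nat_lit 3843269718) (nat_lit 76) (nat_lit 1314778154) (nat_lit 294) (nat_lit 5) (nat_lit 304) (nat_lit 5) (nat_lit 295) (nat_lit 5) (nat_lit 586) (nat_lit 523) (nat_lit 451))))) (XT.nd (nat_lit 234) (nat_lit 1824) (nat_lit 0) (XT.nd (nat_lit 78) (nat_lit 684) (nat_lit 0) (XT.lf (nat_lit 0) (nat_lit 2433062203) (nat_lit 608) (nat_lit 4584915042)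 (nat_lit 684) (nat_lit 2488875819) (nat_lit 286) (nat_lit 5) (nat_lit 294) (nat_lit 5) (nat_lit 295) (nat_lit 5) (nat_lit 587) (nat_lit 523) (nat_lit 450)) (XT.nd (nat_lit 78) (nat_lit 608) (nat_lit 0) (XT.lf (nat_lit 0) (nat_lit 225110860) (nat_lit 684) (nat_lit 755166991) (nat_lit 76) (nat_lit 8620768605) (nat_lit 285) (nat_lit 5) (nat_lit 294) (nat_lit 5) (nat_lit 286) (nat_lit 5) (nat_lit 588) (nat_lit 523) (nat_lit 449)) (XT.lf (nat_lit 0) (nat_lit 2984107617) (nat_lit 684) (nat_lit 4005520854) (nat_lit 76) (nat_lit 2706687377) (nat_lit 277) (nat_lit 5) (nat_lit 286) (nat_lit 5) (nat_lit 278) (nat_lit 5) (nat_lit 589) (nat_lit 523) (nat_lit 448)))) (XT.nd (nat_lit 156) (nat_lit 1216) (nat_lit 0) (XT.nd (nat_lit 78) (nat_lit 0) (nat_lit 0) (XT.lf (nat_lit 0) (nat_lit 2468815837) (nat_lit 608) (nat_lit 3326538828) (nat_lit 684) (nat_lit 3998196797) (nat_lit 269) (nat_lit 5) (nat_lit 277) (nat_lit 5) (nat_lit 278) (nat_lit 5) (nat_lit 590) (nat_lit 523) (nat_lit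 447)) (XT.lf (nat_lit 0) (nat_lit 8662277576) (nat_lit 684) (nat_lit 807945979) (nat_lit 76) (nat_lit 422521414) (nat_lit 269) (nat_lit 5) (nat_lit 278) (nat_lit 5) (nat_lit 270) (nat_lit 5) (nat_lit 591) (nat_lit 523) (nat_lit 446))) (XT.nd (nat_lit 78) (nat_lit 532) (nat_lit 0) (XT.lf (nat_lit 0) (nat_lit 1602298358) (nat_lit 684) (nat_lit 4148988263) (nat_lit 76) (nat_lit 4241819647) (nat_lit 260) (nat_lit 5) (nat_lit 269) (nat_lit 5) (nat_lit 261) (nat_lit 5) (nat_lit 592) (nat_lit 523) (nat_lit 445)) (XT.lf (nat_lit 0) (nat_lit 2530609096) (nat_lit 532) (nat_lit 1936997710) (nat_lit 608) (nat_lit 5627860125) (nat_lit 253) (nat_lit 5) (nat_lit 260) (nat_lit 5) (nat_lit 261) (nat_lit 5) (nat_lit 593) (nat_lit 523) (nat_lit 444)))))) (XT.nd (nat_lit 546) (nat_lit 2508) (nat_lit 0) (XT.nd (nat_lit 234) (nat_lit 1064) (nat_lit 0) (XT.nd (nat_lit 78) (nat_lit 1140) (nat_lit 0) (XT.lf (nat_lit 0) (nat_lit 7401654675) (nat_lit 608) (nat_lit 851616864) (nat_lit 76)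 (nat_lit 1946376635) (nat_lit 253) (nat_lit 5) (nat_lit 261) (nat_lit 5) (nat_lit 254) (nat_lit 5) (nat_lit 594) (nat_lit 523) (nat_lit 443)) (XT.nd (nat_lit 78) (nat_lit 532) (nat_lit 0) (XT.lf (nat_lit 0) (nat_lit 110694625) (nat_lit 608) (nat_lit 4282815729) (nat_lit 76) (nat_lit 5911925462) (nat_lit 245) (nat_lit 5) (nat_lit 253) (nat_lit 5) (nat_lit 246) (nat_lit 5) (nat_lit 595) (nat_lit 523) (nat_lit 442)) (XT.lf (nat_lit 0) (nat_lit 2609494282) (nat_lit 532) (nat_lit 424747722) (nat_lit 608) (nat_lit 7378846214) (nat_lit 238) (nat_lit 5) (nat_lit 245) (nat_lit 5) (nat_lit 246) (nat_lit 5) (nat_lit 596) (nat_lit 523) (nat_lit 441)))) (XT.nd (nat_lit 156) (nat_lit 532) (nat_lit 0) (XT.nd (nat_lit 78) (nat_lit 532) (nat_lit 0) (XT.lf (nat_lit 0) (nat_lit 6040379573) (nat_lit 608) (nat_lit 887397314) (nat_lit 76) (nat_lit 3594636273) (nat_lit 238) (nat_lit 5) (nat_lit 246) (nat_lit 5) (nat_lit 239) (nat_lit 5) (nat_lit 597) (nat_lit 523) (nat_lit 440)) (XT.lf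 (nat_lit 0) (nat_lit 6207419958) (nat_lit 532) (nat_lit 2914554649) (nat_lit 608) (nat_lit 1511645139) (nat_lit 231) (nat_lit 5) (nat_lit 238) (nat_lit 5) (nat_lit 239) (nat_lit 5) (nat_lit 598) (nat_lit 523) (nat_lit 439))) (XT.nd (nat_lit 78) (nat_lit 0) (nat_lit 0) (XT.lf (nat_lit 0) (nat_lit 1501879141) (nat_lit 532) (nat_lit 8058466209) (nat_lit 76) (nat_lit 1186436967) (nat_lit 224) (nat_lit 5) (nat_lit 231) (nat_lit 5) (nat_lit 225) (nat_lit 5) (nat_lit 599) (nat_lit 523) (nat_lit 438)) (XT.lf (nat_lit 0) (nat_lit 4577210042) (nat_lit 532) (nat_lit 924648368) (nat_lit 76) (nat_lit 5359716083) (nat_lit 224) (nat_lit 5) (nat_lit 231) (nat_lit 5) (nat_lit 225) (nat_lit 5) (nat_lit 600) (nat_lit 523) (nat_lit 437))))) (XT.nd (nat_lit 234) (nat_lit 1444) (nat_lit 0) (XT.nd (nat_lit 78) (nat_lit 532) (nat_lit 0) (XT.lf (nat_lit 0) (nat_lit 6397867151) (nat_lit 532) (nat_lit 1330815315) (nat_lit 608) (nat_lit 3249689047) (nat_lit 217) (nat_lit 5) (nat_lit 224)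 (nat_lit 5) (nat_lit 225) (nat_lit 5) (nat_lit 601) (nat_lit 523) (nat_lit 436)) (XT.nd (nat_lit 78) (nat_lit 76) (nat_lit 0) (XT.lf (nat_lit 0) (nat_lit 2761073928) (nat_lit 456) (nat_lit 8198572706) (nat_lit 532) (nat_lit 137530261) (nat_lit 211) (nat_lit 5) (nat_lit 217) (nat_lit 5) (nat_lit 218) (nat_lit 5) (nat_lit 602) (nat_lit 523) (nat_lit 435)) (XT.lf (nat_lit 0) (nat_lit 3010205509) (nat_lit 532) (nat_lit 973109672) (nat_lit 76) (nat_lit 7234387199) (nat_lit 210) (nat_lit 5) (nat_lit 217) (nat_lit 5) (nat_lit 211) (nat_lit 5) (nat_lit 603) (nat_lit 523) (nat_lit 434)))) (XT.nd (nat_lit 156) (nat_lit 532) (nat_lit 0) (XT.nd (nat_lit 78) (nat_lit 456) (nat_lit 0) (XT.lf (nat_lit 0) (nat_lit 6238009662) (nat_lit 532) (nat_lit 4757414908) (nat_lit 76) (nat_lit 344818088) (nat_lit 204) (nat_lit 5) (nat_lit 211) (nat_lit 5) (nat_lit 205) (nat_lit 5) (nat_lit 604) (nat_lit 523) (nat_lit 433)) (XT.lf (nat_lit 0) (nat_lit 2810758932) (nat_lit 456) (nat_lit 6744938512)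 (nat_lit 532) (nat_lit 1909031288) (nat_lit 198) (nat_lit 5) (nat_lit 204) (nat_lit 5) (nat_lit 205) (nat_lit 5) (nat_lit 605) (nat_lit 523) (nat_lit 432))) (XT.nd (nat_lit 78) (nat_lit 456) (nat_lit 0) (XT.lf (nat_lit 0) (nat_lit 1336709650) (nat_lit 532) (nat_lit 1042995304) (nat_lit 76) (nat_lit 9211698907) (nat_lit 197) (nat_lit 5) (nat_lit 204) (nat_lit 5) (nat_lit 198) (nat_lit 5) (nat_lit 606) (nat_lit 523) (nat_lit 431)) (XT.lf (nat_lit 0) (nat_lit 4654193175) (nat_lit 532) (nat_lit 4974550729) (nat_lit 76) (nat_lit 2090969872) (nat_lit 191) (nat_lit 5) (nat_lit 198) (nat_lit 5) (nat_lit 192) (nat_lit 5) (nat_lit 607) (nat_lit 523) (nat_lit 430))))))) (XT.nd (nat_lit 1014) (nat_lit 3040) (nat_lit 0) (XT.nd (nat_lit 468) (nat_lit 1976) (nat_lit 0) (XT.nd (nat_lit 234) (nat_lit 836) (nat_lit 0) (XT.nd (nat_lit 78) (nat_lit 532) (nat_lit 0) (XT.lf (nat_lit 0) (nat_lit 2836982653) (nat_lit 380) (nat_lit 5217173191) (nat_lit 456) (nat_lit 3796112878) (nat_lit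 186) (nat_lit 5) (nat_lit 191) (nat_lit 5) (nat_lit 192) (nat_lit 5) (nat_lit 608) (nat_lit 523) (nat_lit 429)) (XT.nd (nat_lit 78) (nat_lit 532) (nat_lit 0) (XT.lf (nat_lit 0) (nat_lit 10835231101) (nat_lit 380) (nat_lit 695425565) (nat_lit 456) (nat_lit 452608718) (nat_lit 186) (nat_lit 5) (nat_lit 191) (nat_lit 5) (nat_lit 192) (nat_lit 5) (nat_lit 609) (nat_lit 523) (nat_lit 428)) (XT.lf (nat_lit 0) (nat_lit 2965092073) (nat_lit 532) (nat_lit 5234521804) (nat_lit 76) (nat_lit 3918003002) (nat_lit 179) (nat_lit 5) (nat_lit 186) (nat_lit 5) (nat_lit 180) (nat_lit 5) (nat_lit 610) (nat_lit 523) (nat_lit 427)))) (XT.nd (nat_lit 78) (nat_lit 456) (nat_lit 0) (XT.lf (nat_lit 0) (nat_lit 2828633891) (nat_lit 380) (nat_lit 3622832375) (nat_lit 456) (nat_lit 5803003022) (nat_lit 174) (nat_lit 5) (nat_lit 179) (nat_lit 5) (nat_lit 180) (nat_lit 5) (nat_lit 611) (nat_lit 523) (nat_lit 426)) (XT.nd (nat_lit 78) (nat_lit 456) (nat_lit 0) (XT.lf (nat_lit 0) (nat_lit 10025523698)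 (nat_lit 456) (nat_lit 1313248317) (nat_lit 76) (nat_lit 1054928901) (nat_lit 174) (nat_lit 5) (nat_lit 180) (nat_lit 5) (nat_lit 175) (nat_lit 5) (nat_lit 612) (nat_lit 523) (nat_lit 425)) (XT.lf (nat_lit 0) (nat_lit 1166435693) (nat_lit 456) (nat_lit 5549320391) (nat_lit 76) (nat_lit 5818895287) (nat_lit 168) (nat_lit 5) (nat_lit 174) (nat_lit 5) (nat_lit 169) (nat_lit 5) (nat_lit 613) (nat_lit 523) (nat_lit 424))))) (XT.nd (nat_lit 234) (nat_lit 1216) (nat_lit 0) (XT.nd (nat_lit 78) (nat_lit 380) (nat_lit 0) (XT.lf (nat_lit 0) (nat_lit 2773842578) (nat_lit 380) (nat_lit 1969456779) (nat_lit 456) (nat_lit 7934744252) (nat_lit 163) (nat_lit 5) (nat_lit 168) (nat_lit 5) (nat_lit 169) (nat_lit 5) (nat_lit 614) (nat_lit 523) (nat_lit 423)) (XT.nd (nat_lit 78) (nat_lit 380) (nat_lit 0) (XT.lf (nat_lit 0) (nat_lit 8424337523) (nat_lit 456) (nat_lit 1540142915) (nat_lit 76) (nat_lit 2859171697) (nat_lit 163) (nat_lit 5) (nat_lit 169) (nat_lit 5) (nat_lit 164) (nat_lit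 5) (nat_lit 615) (nat_lit 523) (nat_lit 422)) (XT.lf (nat_lit 0) (nat_lit 7034745688) (nat_lit 380) (nat_lit 5179934747) (nat_lit 456) (nat_lit 756779885) (nat_lit 158) (nat_lit 5) (nat_lit 163) (nat_lit 5) (nat_lit 164) (nat_lit 5) (nat_lit 616) (nat_lit 523) (nat_lit 421)))) (XT.nd (nat_lit 156) (nat_lit 760) (nat_lit 0) (XT.nd (nat_lit 78) (nat_lit 0) (nat_lit 0) (XT.lf (nat_lit 0) (nat_lit 2659856467) (nat_lit 380) (nat_lit 264655941) (nat_lit 456) (nat_lit 10197235008) (nat_lit 152) (nat_lit 5) (nat_lit 157) (nat_lit 5) (nat_lit 158) (nat_lit 5) (nat_lit 617) (nat_lit 523) (nat_lit 420)) (XT.lf (nat_lit 0) (nat_lit 6717415465) (nat_lit 456) (nat_lit 1837399046) (nat_lit 76) (nat_lit 4719164431) (nat_lit 152) (nat_lit 5) (nat_lit 158) (nat_lit 5) (nat_lit 153) (nat_lit 5) (nat_lit 618) (nat_lit 523) (nat_lit 419))) (XT.nd (nat_lit 78) (nat_lit 380) (nat_lit 0) (XT.lf (nat_lit 0) (nat_lit 7014652486) (nat_lit 380) (nat_lit 3596441369) (nat_lit 456) (nat_lit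 2817663976) (nat_lit 147) (nat_lit 5) (nat_lit 152) (nat_lit 5) (nat_lit 153) (nat_lit 5) (nat_lit 619) (nat_lit 523) (nat_lit 418)) (XT.lf (nat_lit 0) (nat_lit 998736678) (nat_lit 380) (nat_lit 11123106950) (nat_lit 76) (nat_lit 1464344649) (nat_lit 142) (nat_lit 5) (nat_lit 147) (nat_lit 5) (nat_lit 143) (nat_lit 5) (nat_lit 620) (nat_lit 523) (nat_lit 417)))))) (XT.nd (nat_lit 546) (nat_lit 1596) (nat_lit 0) (XT.nd (nat_lit 234) (nat_lit 760) (nat_lit 0) (XT.nd (nat_lit 78) (nat_lit 684) (nat_lit 0) (XT.lf (nat_lit 0) (nat_lit 4898727991) (nat_lit 380) (nat_lit 2219282025) (nat_lit 76) (nat_lit 6627486012) (nat_lit 142) (nat_lit 5) (nat_lit 147) (nat_lit 5) (nat_lit 143) (nat_lit 5) (nat_lit 621) (nat_lit 523) (nat_lit 416)) (XT.nd (nat_lit 78) (nat_lit 304) (nat_lit 0) (XT.lf (nat_lit 0) (nat_lit 6918683103) (nat_lit 380) (nat_lit 1981203114) (nat_lit 456) (nat_lit 5007641372) (nat_lit 137) (nat_lit 5) (nat_lit 142) (nat_lit 5) (nat_lit 143) (nat_lit 5) (nat_lit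 622) (nat_lit 523) (nat_lit 415)) (XT.lf (nat_lit 0) (nat_lit 2169390382) (nat_lit 304) (nat_lit 10840274383) (nat_lit 380) (nat_lit 1062564050) (nat_lit 133) (nat_lit 5) (nat_lit 137) (nat_lit 5) (nat_lit 138) (nat_lit 5) (nat_lit 623) (nat_lit 523) (nat_lit 414)))) (XT.nd (nat_lit 156) (nat_lit 380) (nat_lit 0) (XT.nd (nat_lit 78) (nat_lit 304) (nat_lit 0) (XT.lf (nat_lit 0) (nat_lit 2961327722) (nat_lit 380) (nat_lit 2701274080) (nat_lit 76) (nat_lit 8576463604) (nat_lit 132) (nat_lit 5) (nat_lit 137) (nat_lit 5) (nat_lit 133) (nat_lit 5) (nat_lit 624) (nat_lit 523) (nat_lit 413)) (XT.lf (nat_lit 0) (nat_lit 6731396662) (nat_lit 304) (nat_lit 342636445) (nat_lit 380) (nat_lit 7334614801) (nat_lit 128) (nat_lit 5) (nat_lit 132) (nat_lit 5) (nat_lit 133) (nat_lit 5) (nat_lit 625) (nat_lit 523) (nat_lit 412))) (XT.nd (nat_lit 78) (nat_lit 76) (nat_lit 0) (XT.lf (nat_lit 0) (nat_lit 1763800861) (nat_lit 304) (nat_lit 9546853046) (nat_lit 380) (nat_lit 3270135828)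 (nat_lit 124) (nat_lit 5) (nat_lit 128) (nat_lit 5) (nat_lit 129) (nat_lit 5) (nat_lit 626) (nat_lit 523) (nat_lit 411)) (XT.lf (nat_lit 0) (nat_lit 897285469) (nat_lit 380) (nat_lit 3300235140) (nat_lit 76) (nat_lit 10558078216) (nat_lit 123) (nat_lit 5) (nat_lit 128) (nat_lit 5) (nat_lit 124) (nat_lit 5) (nat_lit 627) (nat_lit 523) (nat_lit 410))))) (XT.nd (nat_lit 234) (nat_lit 988) (nat_lit 0) (XT.nd (nat_lit 78) (nat_lit 304) (nat_lit 0) (XT.lf (nat_lit 0) (nat_lit 5134023311) (nat_lit 380) (nat_lit 8505613704) (nat_lit 76) (nat_lit 1293240516) (nat_lit 119) (nat_lit 5) (nat_lit 124) (nat_lit 5) (nat_lit 120) (nat_lit 5) (nat_lit 628) (nat_lit 523) (nat_lit 409)) (XT.nd (nat_lit 78) (nat_lit 0) (nat_lit 0) (XT.lf (nat_lit 0) (nat_lit 1235279496) (nat_lit 304) (nat_lit 8257849224) (nat_lit 380) (nat_lit 5619821268) (nat_lit 115) (nat_lit 5) (nat_lit 119) (nat_lit 5) (nat_lit 120) (nat_lit 5) (nat_lit 629) (nat_lit 523) (nat_lit 408)) (XT.lf (nat_lit 0) (nat_lit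 11252742491) (nat_lit 304) (nat_lit 2723456070) (nat_lit 380) (nat_lit 1319690503) (nat_lit 115) (nat_lit 5) (nat_lit 119) (nat_lit 5) (nat_lit 120) (nat_lit 5) (nat_lit 630) (nat_lit 523) (nat_lit 407)))) (XT.nd (nat_lit 156) (nat_lit 380) (nat_lit 0) (XT.nd (nat_lit 78) (nat_lit 228) (nat_lit 0) (XT.lf (nat_lit 0) (nat_lit 3064516925) (nat_lit 380) (nat_lit 9487105147) (nat_lit 76) (nat_lit 2929701628) (nat_lit 110) (nat_lit 5) (nat_lit 115) (nat_lit 5) (nat_lit 111) (nat_lit 5) (nat_lit 631) (nat_lit 523) (nat_lit 406)) (XT.lf (nat_lit 0) (nat_lit 564411517) (nat_lit 228) (nat_lit 6983419340) (nat_lit 304) (nat_lit 8121880617) (nat_lit 107) (nat_lit 5) (nat_lit 110) (nat_lit 5) (nat_lit 111) (nat_lit 5) (nat_lit 632) (nat_lit 523) (nat_lit 405))) (XT.nd (nat_lit 78) (nat_lit 380) (nat_lit 0) (XT.lf (nat_lit 0) (nat_lit 10912529598) (nat_lit 228) (nat_lit 1252185887) (nat_lit 304) (nat_lit 3696274185) (nat_lit 107) (nat_lit 5) (nat_lit 110) (nat_lit 5) (nat_lit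 111) (nat_lit 5) (nat_lit 633) (nat_lit 523) (nat_lit 404)) (XT.lf (nat_lit 0) (nat_lit 852979099) (nat_lit 380) (nat_lit 10640702956) (nat_lit 76) (nat_lit 4561388683) (nat_lit 102) (nat_lit 5) (nat_lit 107) (nat_lit 5) (nat_lit 103) (nat_lit 5) (nat_lit 634) (nat_lit 523) (nat_lit 403))))))))
noncomputable def xc87 : XT := (XT.nd (nat_lit 73554) (nat_lit 0) (nat_lit 29336) (XT.nd (nat_lit 1014) (nat_lit 304) (nat_lit 0) (XT.nd (nat_lit 468) (nat_lit 1064) (nat_lit 0) (XT.nd (nat_lit 234) (nat_lit 532) (nat_lit 0) (XT.nd (nat_lit 78) (nat_lit 532) (nat_lit 0) (XT.lf (nat_lit 0) (nat_lit 5466076063) (nat_lit 380) (nat_lit 266559462) (nat_lit 76) (nat_lit 10519462932) (nat_lit 102) (nat_lit 5) (nat_lit 107) (nat_lit 5) (nat_lit 103) (nat_lit 5) (nat_lit 635) (nat_lit 523) (nat_lit 402)) (XT.nd (nat_lit 78) (nat_lit 304) (nat_lit 0) (XT.lf (nat_lit 0) (nat_lit 10221348784) (nat_lit 304) (nat_lit 6033755729) (nat_lit 76) (nat_lit 196964637) (nat_lit 99) (nat_lit 5)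 (nat_lit 103) (nat_lit 5) (nat_lit 100) (nat_lit 5) (nat_lit 636) (nat_lit 523) (nat_lit 401)) (XT.lf (nat_lit 0) (nat_lit 4655404115) (nat_lit 304) (nat_lit 10467362483) (nat_lit 380) (nat_lit 1532252551) (nat_lit 95) (nat_lit 5) (nat_lit 99) (nat_lit 5) (nat_lit 100) (nat_lit 5) (nat_lit 637) (nat_lit 523) (nat_lit 400)))) (XT.nd (nat_lit 78) (nat_lit 456) (nat_lit 0) (XT.lf (nat_lit 0) (nat_lit 3239272148) (nat_lit 380) (nat_lit 1274727416) (nat_lit 76) (nat_lit 12347168986) (nat_lit 94) (nat_lit 5) (nat_lit 99) (nat_lit 5) (nat_lit 95) (nat_lit 5) (nat_lit 638) (nat_lit 523) (nat_lit 399)) (XT.nd (nat_lit 78) (nat_lit 228) (nat_lit 0) (XT.lf (nat_lit 0) (nat_lit 8141017056) (nat_lit 304) (nat_lit 7330047561) (nat_lit 76) (nat_lit 1599068270) (nat_lit 91) (nat_lit 5) (nat_lit 95) (nat_lit 5) (nat_lit 92) (nat_lit 5) (nat_lit 639) (nat_lit 523) (nat_lit 398)) (XT.lf (nat_lit 0) (nat_lit 3696239769) (nat_lit 228) (nat_lit 9488594306) (nat_lit 304) (nat_lit 4097562324)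 (nat_lit 88) (nat_lit 5) (nat_lit 91) (nat_lit 5) (nat_lit 92) (nat_lit 5) (nat_lit 640) (nat_lit 523) (nat_lit 397))))) (XT.nd (nat_lit 234) (nat_lit 532) (nat_lit 0) (XT.nd (nat_lit 78) (nat_lit 456) (nat_lit 0) (XT.lf (nat_lit 0) (nat_lit 850812768) (nat_lit 304) (nat_lit 2492918375) (nat_lit 76) (nat_lit 14154445100) (nat_lit 87) (nat_lit 5) (nat_lit 91) (nat_lit 5) (nat_lit 88) (nat_lit 5) (nat_lit 641) (nat_lit 523) (nat_lit 396)) (XT.nd (nat_lit 78) (nat_lit 228) (nat_lit 0) (XT.lf (nat_lit 0) (nat_lit 5902391329) (nat_lit 304) (nat_lit 8855952940) (nat_lit 76) (nat_lit 2958204266) (nat_lit 84) (nat_lit 5) (nat_lit 88) (nat_lit 5) (nat_lit 85) (nat_lit 5) (nat_lit 642) (nat_lit 523) (nat_lit 395)) (XT.lf (nat_lit 0) (nat_lit 2515615561) (nat_lit 228) (nat_lit 8576703654) (nat_lit 304) (nat_lit 6846223287) (nat_lit 81) (nat_lit 5) (nat_lit 84) (nat_lit 5) (nat_lit 85) (nat_lit 5) (nat_lit 643) (nat_lit 523) (nat_lit 394)))) (XT.nd (nat_lit 156) (nat_lit 228)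 (nat_lit 0) (XT.nd (nat_lit 78) (nat_lit 304) (nat_lit 0) (XT.lf (nat_lit 0) (nat_lit 14203724278) (nat_lit 228) (nat_lit 2223902760) (nat_lit 304) (nat_lit 1736518254) (nat_lit 81) (nat_lit 5) (nat_lit 84) (nat_lit 5) (nat_lit 85) (nat_lit 5) (nat_lit 644) (nat_lit 523) (nat_lit 393)) (XT.lf (nat_lit 0) (nat_lit 3490734293) (nat_lit 304) (nat_lit 10640937814) (nat_lit 76) (nat_lit 4260918617) (nat_lit 77) (nat_lit 5) (nat_lit 81) (nat_lit 5) (nat_lit 78) (nat_lit 5) (nat_lit 645) (nat_lit 523) (nat_lit 392))) (XT.nd (nat_lit 78) (nat_lit 0) (nat_lit 0) (XT.lf (nat_lit 0) (nat_lit 1083760100) (nat_lit 228) (nat_lit 7746509646) (nat_lit 304) (nat_lit 9794486494) (nat_lit 74) (nat_lit 5) (nat_lit 77) (nat_lit 5) (nat_lit 78) (nat_lit 5) (nat_lit 646) (nat_lit 523) (nat_lit 391)) (XT.lf (nat_lit 0) (nat_lit 13156765212) (nat_lit 228) (nat_lit 1173834789) (nat_lit 304) (nat_lit 4529885512) (nat_lit 74) (nat_lit 5) (nat_lit 77) (nat_lit 5) (nat_lit 78) (nat_lit 5) (nat_lit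 647) (nat_lit 523) (nat_lit 390)))))) (XT.nd (nat_lit 71994) (nat_lit 0) (nat_lit 50084) (XT.nd (nat_lit 71682) (nat_lit 0) (nat_lit 51832) (XT.nd (nat_lit 71526) (nat_lit 0) (nat_lit 52288) (XT.lf (nat_lit 0) (nat_lit 889627192) (nat_lit 304) (nat_lit 12717492003) (nat_lit 76) (nat_lit 5492488875) (nat_lit 70) (nat_lit 5) (nat_lit 74) (nat_lit 5) (nat_lit 71) (nat_lit 5) (nat_lit 648) (nat_lit 523) (nat_lit 389)) (XT.nd (nat_lit 78) (nat_lit 380) (nat_lit 0) (XT.lf (nat_lit 0) (nat_lit 2359614826) (nat_lit 380) (nat_lit 438379022) (nat_lit 380) (nat_lit 438379022) (nat_lit 763) (nat_lit 3) (nat_lit 768) (nat_lit 3) (nat_lit 768) (nat_lit 5) (nat_lit 524) (nat_lit 524) (nat_lit 512)) (XT.lf (nat_lit 0) (nat_lit 1066942193) (nat_lit 380) (nat_lit 4126919532) (nat_lit 456) (nat_lit 1287094930) (nat_lit 758) (nat_lit 5) (nat_lit 763) (nat_lit 3) (nat_lit 764) (nat_lit 5) (nat_lit 525) (nat_lit 524) (nat_lit 511)))) (XT.nd (nat_lit 156) (nat_lit 0) (nat_lit 0) (XT.nd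 (nat_lit 78) (nat_lit 456) (nat_lit 0) (XT.lf (nat_lit 0) (nat_lit 3852600581) (nat_lit 380) (nat_lit 878219870) (nat_lit 456) (nat_lit 1759645941) (nat_lit 758) (nat_lit 5) (nat_lit 763) (nat_lit 3) (nat_lit 764) (nat_lit 5) (nat_lit 526) (nat_lit 524) (nat_lit 510)) (XT.lf (nat_lit 0) (nat_lit 134422558) (nat_lit 456) (nat_lit 4072804196) (nat_lit 532) (nat_lit 2294062611) (nat_lit 752) (nat_lit 5) (nat_lit 758) (nat_lit 5) (nat_lit 759) (nat_lit 5) (nat_lit 527) (nat_lit 524) (nat_lit 509))) (XT.nd (nat_lit 78) (nat_lit 0) (nat_lit 0) (XT.lf (nat_lit 0) (nat_lit 2861261538) (nat_lit 456) (nat_lit 755131220) (nat_lit 532) (nat_lit 2896909947) (nat_lit 752) (nat_lit 5) (nat_lit 758) (nat_lit 5) (nat_lit 759) (nat_lit 5) (nat_lit 528) (nat_lit 524) (nat_lit 508)) (XT.lf (nat_lit 76) (nat_lit 2625445299) (nat_lit 0) (nat_lit 2964101367) (nat_lit 532) (nat_lit 937082393) (nat_lit 753) (nat_lit 5) (nat_lit 752) (nat_lit 5) (nat_lit 759) (nat_lit 5) (nat_lit 529) (nat_lit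 524) (nat_lit 507))))) (XT.nd (nat_lit 234) (nat_lit 608) (nat_lit 0) (XT.nd (nat_lit 78) (nat_lit 608) (nat_lit 0) (XT.lf (nat_lit 0) (nat_lit 1743773684) (nat_lit 532) (nat_lit 506748146) (nat_lit 608) (nat_lit 4290760158) (nat_lit 745) (nat_lit 5) (nat_lit 752) (nat_lit 5) (nat_lit 753) (nat_lit 5) (nat_lit 530) (nat_lit 524) (nat_lit 506)) (XT.nd (nat_lit 78) (nat_lit 608) (nat_lit 0) (XT.lf (nat_lit 76) (nat_lit 2950252005) (nat_lit 0) (nat_lit 1466502844) (nat_lit 608) (nat_lit 2140338437) (nat_lit 746) (nat_lit 5) (nat_lit 745) (nat_lit 5) (nat_lit 753) (nat_lit 5) (nat_lit 531) (nat_lit 524) (nat_lit 505)) (XT.lf (nat_lit 0) (nat_lit 498449174) (nat_lit 608) (nat_lit 132083957) (nat_lit 684) (nat_lit 5943904575) (nat_lit 737) (nat_lit 5) (nat_lit 745) (nat_lit 5) (nat_lit 746) (nat_lit 5) (nat_lit 532) (nat_lit 524) (nat_lit 504)))) (XT.nd (nat_lit 156) (nat_lit 684) (nat_lit 0) (XT.nd (nat_lit 78) (nat_lit 0) (nat_lit 0) (XT.lf (nat_lit 0) (nat_lit 3119204186)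 (nat_lit 608) (nat_lit 3189667904) (nat_lit 684) (nat_lit 283826666) (nat_lit 738) (nat_lit 5) (nat_lit 746) (nat_lit 5) (nat_lit 747) (nat_lit 5) (nat_lit 533) (nat_lit 524) (nat_lit 503)) (XT.lf (nat_lit 76) (nat_lit 360925442) (nat_lit 0) (nat_lit 5373942970) (nat_lit 684) (nat_lit 877616251) (nat_lit 739) (nat_lit 5) (nat_lit 738) (nat_lit 5) (nat_lit 747) (nat_lit 5) (nat_lit 534) (nat_lit 524) (nat_lit 502))) (XT.nd (nat_lit 78) (nat_lit 0) (nat_lit 0) (XT.lf (nat_lit 0) (nat_lit 1704181570) (nat_lit 684) (nat_lit 2657671088) (nat_lit 760) (nat_lit 2271448552) (nat_lit 729) (nat_lit 5) (nat_lit 738) (nat_lit 5) (nat_lit 739) (nat_lit 5) (nat_lit 535) (nat_lit 524) (nat_lit 501)) (XT.lf (nat_lit 76) (nat_lit 976297491) (nat_lit 0) (nat_lit 3292849723) (nat_lit 760) (nat_lit 2386414160) (nat_lit 730) (nat_lit 5) (nat_lit 729) (nat_lit 5) (nat_lit 739) (nat_lit 5) (nat_lit 536) (nat_lit 524) (nat_lit 500))))))) (XT.nd (nat_lit 1092) (nat_lit 12844) (nat_lit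 0) (XT.nd (nat_lit 546) (nat_lit 4560) (nat_lit 0) (XT.nd (nat_lit 234) (nat_lit 2584) (nat_lit 0) (XT.nd (nat_lit 78) (nat_lit 0) (nat_lit 0) (XT.lf (nat_lit 0) (nat_lit 159881154) (nat_lit 760) (nat_lit 1999775841) (nat_lit 836) (nat_lit 4519482420) (nat_lit 719) (nat_lit 5) (nat_lit 729) (nat_lit 5) (nat_lit 730) (nat_lit 5) (nat_lit 537) (nat_lit 524) (nat_lit 499)) (XT.nd (nat_lit 78) (nat_lit 0) (nat_lit 76) (XT.lf (nat_lit 76) (nat_lit 1721473739) (nat_lit 0) (nat_lit 953606856) (nat_lit 836) (nat_lit 4028802745) (nat_lit 720) (nat_lit 5) (nat_lit 719) (nat_lit 5) (nat_lit 730) (nat_lit 5) (nat_lit 538) (nat_lit 524) (nat_lit 498)) (XT.lf (nat_lit 0) (nat_lit 5195708725) (nat_lit 760) (nat_lit 1226187497) (nat_lit 76) (nat_lit 308131713) (nat_lit 720) (nat_lit 5) (nat_lit 730) (nat_lit 5) (nat_lit 721) (nat_lit 5) (nat_lit 539) (nat_lit 524) (nat_lit 497)))) (XT.nd (nat_lit 156) (nat_lit 1824) (nat_lit 0) (XT.nd (nat_lit 78) (nat_lit 0) (nat_lit 0) (XT.lf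 (nat_lit 0) (nat_lit 960719034) (nat_lit 836) (nat_lit 4169803698) (nat_lit 76) (nat_lit 1626771255) (nat_lit 709) (nat_lit 5) (nat_lit 720) (nat_lit 5) (nat_lit 710) (nat_lit 5) (nat_lit 540) (nat_lit 524) (nat_lit 496)) (XT.lf (nat_lit 0) (nat_lit 3434929390) (nat_lit 836) (nat_lit 340548882) (nat_lit 76) (nat_lit 3010435742) (nat_lit 709) (nat_lit 5) (nat_lit 720) (nat_lit 5) (nat_lit 710) (nat_lit 5) (nat_lit 541) (nat_lit 524) (nat_lit 495))) (XT.nd (nat_lit 78) (nat_lit 988) (nat_lit 0) (XT.lf (nat_lit 0) (nat_lit 3573475978) (nat_lit 836) (nat_lit 2351009957) (nat_lit 912) (nat_lit 891310922) (nat_lit 698) (nat_lit 5) (nat_lit 709) (nat_lit 5) (nat_lit 710) (nat_lit 5) (nat_lit 542) (nat_lit 524) (nat_lit 494)) (XT.lf (nat_lit 0) (nat_lit 683421570) (nat_lit 912) (nat_lit 862811831) (nat_lit 988) (nat_lit 5300843435) (nat_lit 685) (nat_lit 5) (nat_lit 697) (nat_lit 5) (nat_lit 698) (nat_lit 5) (nat_lit 543) (nat_lit 524) (nat_lit 493))))) (XT.nd (nat_lit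 234) (nat_lit 3496) (nat_lit 0) (XT.nd (nat_lit 78) (nat_lit 1064) (nat_lit 0) (XT.lf (nat_lit 0) (nat_lit 3990887188) (nat_lit 988) (nat_lit 2197388296) (nat_lit 76) (nat_lit 691190450) (nat_lit 685) (nat_lit 5) (nat_lit 698) (nat_lit 5) (nat_lit 686) (nat_lit 5) (nat_lit 544) (nat_lit 524) (nat_lit 492)) (XT.nd (nat_lit 78) (nat_lit 76) (nat_lit 0) (XT.lf (nat_lit 0) (nat_lit 1827070092) (nat_lit 988) (nat_lit 4620162680) (nat_lit 1064) (nat_lit 466021139) (nat_lit 672) (nat_lit 5) (nat_lit 685) (nat_lit 5) (nat_lit 686) (nat_lit 5) (nat_lit 545) (nat_lit 524) (nat_lit 491)) (XT.lf (nat_lit 0) (nat_lit 1939213200) (nat_lit 1064) (nat_lit 1038586175) (nat_lit 76) (nat_lit 3970454290) (nat_lit 671) (nat_lit 5) (nat_lit 685) (nat_lit 5) (nat_lit 672) (nat_lit 5) (nat_lit 546) (nat_lit 524) (nat_lit 490)))) (XT.nd (nat_lit 156) (nat_lit 1292) (nat_lit 0) (XT.nd (nat_lit 78) (nat_lit 1140) (nat_lit 0) (XT.lf (nat_lit 0) (nat_lit 3088310443) (nat_lit 1064) (nat_lit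 1264802158) (nat_lit 1140) (nat_lit 2631449861) (nat_lit 657) (nat_lit 5) (nat_lit 671) (nat_lit 5) (nat_lit 672) (nat_lit 5) (nat_lit 547) (nat_lit 524) (nat_lit 489)) (XT.lf (nat_lit 0) (nat_lit 250514317) (nat_lit 1140) (nat_lit 6524174299) (nat_lit 1216) (nat_lit 247727382) (nat_lit 642) (nat_lit 5) (nat_lit 657) (nat_lit 5) (nat_lit 658) (nat_lit 5) (nat_lit 548) (nat_lit 524) (nat_lit 488))) (XT.nd (nat_lit 78) (nat_lit 1216) (nat_lit 0) (XT.lf (nat_lit 0) (nat_lit 2137770802) (nat_lit 1216) (nat_lit 2590591896) (nat_lit 76) (nat_lit 2332731820) (nat_lit 641) (nat_lit 5) (nat_lit 657) (nat_lit 5) (nat_lit 642) (nat_lit 5) (nat_lit 549) (nat_lit 524) (nat_lit 487)) (XT.lf (nat_lit 0) (nat_lit 1654806833) (nat_lit 1216) (nat_lit 2872666222) (nat_lit 1292) (nat_lit 2573850736) (nat_lit 625) (nat_lit 5) (nat_lit 641) (nat_lit 5) (nat_lit 642) (nat_lit 5) (nat_lit 550) (nat_lit 524) (nat_lit 486)))))) (XT.nd (nat_lit 546) (nat_lit 7068) (nat_lit 0) (XT.nd (nat_lit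 234) (nat_lit 3040) (nat_lit 0) (XT.nd (nat_lit 78) (nat_lit 2736) (nat_lit 0) (XT.lf (nat_lit 0) (nat_lit 5980890456) (nat_lit 1216) (nat_lit 951270433) (nat_lit 1292) (nat_lit 210858968) (nat_lit 625) (nat_lit 5) (nat_lit 641) (nat_lit 5) (nat_lit 642) (nat_lit 5) (nat_lit 551) (nat_lit 524) (nat_lit 485)) (XT.nd (nat_lit 78) (nat_lit 1368) (nat_lit 0) (XT.lf (nat_lit 0) (nat_lit 2148606934) (nat_lit 1368) (nat_lit 3996338213) (nat_lit 76) (nat_lit 1040763705) (nat_lit 607) (nat_lit 5) (nat_lit 625) (nat_lit 5) (nat_lit 608) (nat_lit 5) (nat_lit 552) (nat_lit 524) (nat_lit 484)) (XT.lf (nat_lit 0) (nat_lit 371664569) (nat_lit 1368) (nat_lit 4148581885) (nat_lit 1444) (nat_lit 2709626833) (nat_lit 589) (nat_lit 5) (nat_lit 607) (nat_lit 5) (nat_lit 608) (nat_lit 5) (nat_lit 553) (nat_lit 524) (nat_lit 483)))) (XT.nd (nat_lit 156) (nat_lit 1520) (nat_lit 0) (XT.nd (nat_lit 78) (nat_lit 1520) (nat_lit 0) (XT.lf (nat_lit 0) (nat_lit 4841442107) (nat_lit 1368) (nat_lit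 2076634120) (nat_lit 1444) (nat_lit 357275211) (nat_lit 589) (nat_lit 5) (nat_lit 607) (nat_lit 5) (nat_lit 608) (nat_lit 5) (nat_lit 554) (nat_lit 524) (nat_lit 482)) (XT.lf (nat_lit 0) (nat_lit 1981699941) (nat_lit 1520) (nat_lit 5269698112) (nat_lit 76) (nat_lit 70754095) (nat_lit 569) (nat_lit 5) (nat_lit 589) (nat_lit 5) (nat_lit 570) (nat_lit 5) (nat_lit 555) (nat_lit 524) (nat_lit 481))) (XT.nd (nat_lit 78) (nat_lit 1520) (nat_lit 0) (XT.lf (nat_lit 0) (nat_lit 4346156223) (nat_lit 1520) (nat_lit 764592908) (nat_lit 76) (nat_lit 2259428054) (nat_lit 569) (nat_lit 5) (nat_lit 589) (nat_lit 5) (nat_lit 570) (nat_lit 5) (nat_lit 556) (nat_lit 524) (nat_lit 480)) (XT.lf (nat_lit 0) (nat_lit 3841445774) (nat_lit 1520) (nat_lit 2895600550) (nat_lit 1596) (nat_lit 682538657) (nat_lit 549) (nat_lit 5) (nat_lit 569) (nat_lit 5) (nat_lit 570) (nat_lit 5) (nat_lit 557) (nat_lit 524) (nat_lit 479))))) (XT.nd (nat_lit 234) (nat_lit 3724) (nat_lit 0) (XT.nd (nat_lit 78)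 (nat_lit 1672) (nat_lit 0) (XT.lf (nat_lit 0) (nat_lit 1042759415) (nat_lit 1596) (nat_lit 607119780) (nat_lit 1672) (nat_lit 5820555641) (nat_lit 527) (nat_lit 5) (nat_lit 548) (nat_lit 5) (nat_lit 549) (nat_lit 5) (nat_lit 558) (nat_lit 524) (nat_lit 478)) (XT.nd (nat_lit 78) (nat_lit 1672) (nat_lit 0) (XT.lf (nat_lit 0) (nat_lit 4010408650) (nat_lit 1672) (nat_lit 1773706909) (nat_lit 76) (nat_lit 1738288705) (nat_lit 527) (nat_lit 5) (nat_lit 549) (nat_lit 5) (nat_lit 528) (nat_lit 5) (nat_lit 559) (nat_lit 524) (nat_lit 477)) (XT.lf (nat_lit 0) (nat_lit 2968476675) (nat_lit 1672) (nat_lit 3429054236) (nat_lit 1748) (nat_lit 1178299283) (nat_lit 505) (nat_lit 5) (nat_lit 527) (nat_lit 5) (nat_lit 528) (nat_lit 5) (nat_lit 560) (nat_lit 524) (nat_lit 476)))) (XT.nd (nat_lit 156) (nat_lit 1900) (nat_lit 0) (XT.nd (nat_lit 78) (nat_lit 0) (nat_lit 0) (XT.lf (nat_lit 0) (nat_lit 153491970) (nat_lit 1748) (nat_lit 1002192822) (nat_lit 1824) (nat_lit 6475100750)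 (nat_lit 481) (nat_lit 5) (nat_lit 504) (nat_lit 5) (nat_lit 505) (nat_lit 5) (nat_lit 561) (nat_lit 524) (nat_lit 475)) (XT.lf (nat_lit 0) (nat_lit 3518291531) (nat_lit 1824) (nat_lit 2672505812) (nat_lit 76) (nat_lit 1495936959) (nat_lit 481) (nat_lit 5) (nat_lit 505) (nat_lit 5) (nat_lit 482) (nat_lit 5) (nat_lit 562) (nat_lit 524) (nat_lit 474))) (XT.nd (nat_lit 78) (nat_lit 76) (nat_lit 0) (XT.lf (nat_lit 0) (nat_lit 2210814977) (nat_lit 1824) (nat_lit 3696187434) (nat_lit 1900) (nat_lit 1837226983) (nat_lit 457) (nat_lit 5) (nat_lit 481) (nat_lit 5) (nat_lit 482) (nat_lit 5) (nat_lit 563) (nat_lit 524) (nat_lit 473)) (XT.lf (nat_lit 0) (nat_lit 509725676) (nat_lit 1900) (nat_lit 618334469) (nat_lit 76) (nat_lit 6675224213) (nat_lit 456) (nat_lit 5) (nat_lit 481) (nat_lit 5) (nat_lit 457) (nat_lit 5) (nat_lit 564) (nat_lit 524) (nat_lit 472))))))))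
noncomputable def xc88 : XT := (XT.nd (nat_lit 2106) (nat_lit 8892) (nat_lit 0) (XT.nd (nat_lit 1014) (nat_lit 6232) (nat_lit 0) (XT.nd (nat_lit 468) (nat_lit 4180) (nat_lit 0) (XT.nd (nat_lit 234) (nat_lit 1824) (nat_lit 0) (XT.nd (nat_lit 78) (nat_lit 912) (nat_lit 0) (XT.lf (nat_lit 0) (nat_lit 2876549488) (nat_lit 1140) (nat_lit 3472321754) (nat_lit 76) (nat_lit 1514459791) (nat_lit 442) (nat_lit 5) (nat_lit 457) (nat_lit 5) (nat_lit 443) (nat_lit 5) (nat_lit 565) (nat_lit 524) (nat_lit 471)) (XT.nd (nat_lit 78) (nat_lit 0) (nat_lit 0) (XT.lf (nat_lit 0) (nat_lit 1557360113) (nat_lit 912) (nat_lit 3714637866) (nat_lit 988) (nat_lit 2652958960) (nat_lit 430) (nat_lit 5) (nat_lit 442) (nat_lit 5) (nat_lit 443) (nat_lit 5) (nat_lit 566) (nat_lit 524) (nat_lit 470)) (XT.lf (nat_lit 0) (nat_lit 6694974158) (nat_lit 912) (nat_lit 1003747340) (nat_lit 988) (nat_lit 289430526) (nat_lit 430) (nat_lit 5) (nat_lit 442) (nat_lit 5) (nat_lit 443) (nat_lit 5) (nat_lit 567)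 (nat_lit 524) (nat_lit 469)))) (XT.nd (nat_lit 78) (nat_lit 836) (nat_lit 0) (XT.lf (nat_lit 0) (nat_lit 2091018709) (nat_lit 988) (nat_lit 4183947804) (nat_lit 76) (nat_lit 1777423413) (nat_lit 417) (nat_lit 5) (nat_lit 430) (nat_lit 5) (nat_lit 418) (nat_lit 5) (nat_lit 568) (nat_lit 524) (nat_lit 468)) (XT.nd (nat_lit 78) (nat_lit 0) (nat_lit 0) (XT.lf (nat_lit 0) (nat_lit 997548119) (nat_lit 836) (nat_lit 3500617389) (nat_lit 912) (nat_lit 3620053287) (nat_lit 406) (nat_lit 5) (nat_lit 417) (nat_lit 5) (nat_lit 418) (nat_lit 5) (nat_lit 569) (nat_lit 524) (nat_lit 467)) (XT.lf (nat_lit 0) (nat_lit 6299653428) (nat_lit 836) (nat_lit 643484025) (nat_lit 912) (nat_lit 1242436823) (nat_lit 406) (nat_lit 5) (nat_lit 417) (nat_lit 5) (nat_lit 418) (nat_lit 5) (nat_lit 570) (nat_lit 524) (nat_lit 466))))) (XT.nd (nat_lit 234) (nat_lit 2432) (nat_lit 0) (XT.nd (nat_lit 78) (nat_lit 836) (nat_lit 0) (XT.lf (nat_lit 0) (nat_lit 1166668911) (nat_lit 912) (nat_lit 4817718215)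 (nat_lit 76) (nat_lit 2269750723) (nat_lit 394) (nat_lit 5) (nat_lit 406) (nat_lit 5) (nat_lit 395) (nat_lit 5) (nat_lit 571) (nat_lit 524) (nat_lit 465)) (XT.nd (nat_lit 78) (nat_lit 0) (nat_lit 0) (XT.lf (nat_lit 0) (nat_lit 521271366) (nat_lit 836) (nat_lit 3069032498) (nat_lit 912) (nat_lit 4733948379) (nat_lit 383) (nat_lit 5) (nat_lit 394) (nat_lit 5) (nat_lit 395) (nat_lit 5) (nat_lit 572) (nat_lit 524) (nat_lit 464)) (XT.lf (nat_lit 0) (nat_lit 5992665617) (nat_lit 836) (nat_lit 65133894) (nat_lit 912) (nat_lit 2338065053) (nat_lit 383) (nat_lit 5) (nat_lit 394) (nat_lit 5) (nat_lit 395) (nat_lit 5) (nat_lit 573) (nat_lit 524) (nat_lit 463)))) (XT.nd (nat_lit 156) (nat_lit 760) (nat_lit 0) (XT.nd (nat_lit 78) (nat_lit 760) (nat_lit 0) (XT.lf (nat_lit 0) (nat_lit 107639678) (nat_lit 912) (nat_lit 5383586752) (nat_lit 76) (nat_lit 2977606428) (nat_lit 371) (nat_lit 5) (nat_lit 383) (nat_lit 5) (nat_lit 372) (nat_lit 5) (nat_lit 574) (nat_lit 524) (nat_lit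 462)) (XT.lf (nat_lit 0) (nat_lit 118800106) (nat_lit 760) (nat_lit 2433597462) (nat_lit 836) (nat_lit 5990928146) (nat_lit 361) (nat_lit 5) (nat_lit 371) (nat_lit 5) (nat_lit 372) (nat_lit 5) (nat_lit 575) (nat_lit 524) (nat_lit 461))) (XT.nd (nat_lit 78) (nat_lit 760) (nat_lit 0) (XT.lf (nat_lit 0) (nat_lit 5051268879) (nat_lit 836) (nat_lit 2859323703) (nat_lit 76) (nat_lit 708614622) (nat_lit 361) (nat_lit 5) (nat_lit 372) (nat_lit 5) (nat_lit 362) (nat_lit 5) (nat_lit 576) (nat_lit 524) (nat_lit 460)) (XT.lf (nat_lit 0) (nat_lit 2798294735) (nat_lit 760) (nat_lit 4801209414) (nat_lit 836) (nat_lit 1097117521) (nat_lit 351) (nat_lit 5) (nat_lit 361) (nat_lit 5) (nat_lit 362) (nat_lit 5) (nat_lit 577) (nat_lit 524) (nat_lit 459)))))) (XT.nd (nat_lit 546) (nat_lit 3268) (nat_lit 0) (XT.nd (nat_lit 234) (nat_lit 1444) (nat_lit 0) (XT.nd (nat_lit 78) (nat_lit 1444) (nat_lit 0) (XT.lf (nat_lit 0) (nat_lit 1389069922) (nat_lit 836) (nat_lit 216418683) (nat_lit 76)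 (nat_lit 7170221689) (nat_lit 350) (nat_lit 5) (nat_lit 361) (nat_lit 5) (nat_lit 351) (nat_lit 5) (nat_lit 578) (nat_lit 524) (nat_lit 458)) (XT.nd (nat_lit 78) (nat_lit 760) (nat_lit 0) (XT.lf (nat_lit 0) (nat_lit 3923683303) (nat_lit 760) (nat_lit 3260693315) (nat_lit 76) (nat_lit 1671594083) (nat_lit 341) (nat_lit 5) (nat_lit 351) (nat_lit 5) (nat_lit 342) (nat_lit 5) (nat_lit 579) (nat_lit 524) (nat_lit 457)) (XT.lf (nat_lit 0) (nat_lit 2572141957) (nat_lit 760) (nat_lit 3932005220) (nat_lit 836) (nat_lit 2433788819) (nat_lit 331) (nat_lit 5) (nat_lit 341) (nat_lit 5) (nat_lit 342) (nat_lit 5) (nat_lit 580) (nat_lit 524) (nat_lit 456)))) (XT.nd (nat_lit 156) (nat_lit 684) (nat_lit 0) (XT.nd (nat_lit 78) (nat_lit 684) (nat_lit 0) (XT.lf (nat_lit 0) (nat_lit 101748795) (nat_lit 836) (nat_lit 495631700) (nat_lit 76) (nat_lit 8424376482) (nat_lit 330) (nat_lit 5) (nat_lit 341) (nat_lit 5) (nat_lit 331) (nat_lit 5) (nat_lit 581) (nat_lit 524) (nat_lit 455)) (XT.lf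 (nat_lit 0) (nat_lit 2676923201) (nat_lit 760) (nat_lit 3616011806) (nat_lit 76) (nat_lit 2813570014) (nat_lit 321) (nat_lit 5) (nat_lit 331) (nat_lit 5) (nat_lit 322) (nat_lit 5) (nat_lit 582) (nat_lit 524) (nat_lit 454))) (XT.nd (nat_lit 78) (nat_lit 0) (nat_lit 0) (XT.lf (nat_lit 0) (nat_lit 2398601814) (nat_lit 684) (nat_lit 2895434152) (nat_lit 760) (nat_lit 3899105992) (nat_lit 312) (nat_lit 5) (nat_lit 321) (nat_lit 5) (nat_lit 322) (nat_lit 5) (nat_lit 583) (nat_lit 524) (nat_lit 453)) (XT.lf (nat_lit 0) (nat_lit 7959515832) (nat_lit 760) (nat_lit 741762918) (nat_lit 76) (nat_lit 580314961) (nat_lit 312) (nat_lit 5) (nat_lit 322) (nat_lit 5) (nat_lit 313) (nat_lit 5) (nat_lit 584) (nat_lit 524) (nat_lit 452))))) (XT.nd (nat_lit 234) (nat_lit 1900) (nat_lit 0) (XT.nd (nat_lit 78) (nat_lit 684) (nat_lit 0) (XT.lf (nat_lit 0) (nat_lit 1312565575) (nat_lit 684) (nat_lit 3934301288) (nat_lit 76) (nat_lit 4124316268) (nat_lit 303) (nat_lit 5) (nat_lit 312) (nat_lit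 5) (nat_lit 304) (nat_lit 5) (nat_lit 585) (nat_lit 524) (nat_lit 451)) (XT.nd (nat_lit 78) (nat_lit 0) (nat_lit 0) (XT.lf (nat_lit 0) (nat_lit 2268867068) (nat_lit 684) (nat_lit 1701777201) (nat_lit 760) (nat_lit 5491978819) (nat_lit 294) (nat_lit 5) (nat_lit 303) (nat_lit 5) (nat_lit 304) (nat_lit 5) (nat_lit 586) (nat_lit 524) (nat_lit 450)) (XT.lf (nat_lit 0) (nat_lit 6689890366) (nat_lit 760) (nat_lit 957645228) (nat_lit 76) (nat_lit 1908198514) (nat_lit 294) (nat_lit 5) (nat_lit 304) (nat_lit 5) (nat_lit 295) (nat_lit 5) (nat_lit 587) (nat_lit 524) (nat_lit 449)))) (XT.nd (nat_lit 156) (nat_lit 608) (nat_lit 0) (XT.nd (nat_lit 78) (nat_lit 684) (nat_lit 0) (XT.lf (nat_lit 0) (nat_lit 5424723266) (nat_lit 608) (nat_lit 4054898285) (nat_lit 684) (nat_lit 170766125) (nat_lit 286) (nat_lit 5) (nat_lit 294) (nat_lit 5) (nat_lit 295) (nat_lit 5) (nat_lit 588) (nat_lit 524) (nat_lit 448)) (XT.lf (nat_lit 0) (nat_lit 2174154261) (nat_lit 608) (nat_lit 360586576)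 (nat_lit 684) (nat_lit 7212054105) (nat_lit 277) (nat_lit 5) (nat_lit 285) (nat_lit 5) (nat_lit 286) (nat_lit 5) (nat_lit 589) (nat_lit 524) (nat_lit 447))) (XT.nd (nat_lit 78) (nat_lit 608) (nat_lit 0) (XT.lf (nat_lit 0) (nat_lit 5312789404) (nat_lit 684) (nat_lit 1147542470) (nat_lit 76) (nat_lit 3384363740) (nat_lit 277) (nat_lit 5) (nat_lit 286) (nat_lit 5) (nat_lit 278) (nat_lit 5) (nat_lit 590) (nat_lit 524) (nat_lit 446)) (XT.lf (nat_lit 0) (nat_lit 5436951423) (nat_lit 608) (nat_lit 2717770303) (nat_lit 684) (nat_lit 1789668274) (nat_lit 269) (nat_lit 5) (nat_lit 277) (nat_lit 5) (nat_lit 278) (nat_lit 5) (nat_lit 591) (nat_lit 524) (nat_lit 445))))))) (XT.nd (nat_lit 1014) (nat_lit 3952) (nat_lit 0) (XT.nd (nat_lit 468) (nat_lit 2584) (nat_lit 0) (XT.nd (nat_lit 234) (nat_lit 1140) (nat_lit 0) (XT.nd (nat_lit 78) (nat_lit 532) (nat_lit 0) (XT.lf (nat_lit 0) (nat_lit 993662165) (nat_lit 684) (nat_lit 7947747659) (nat_lit 76) (nat_lit 1104550502) (nat_lit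 260) (nat_lit 5) (nat_lit 269) (nat_lit 5) (nat_lit 261) (nat_lit 5) (nat_lit 592) (nat_lit 524) (nat_lit 444)) (XT.nd (nat_lit 78) (nat_lit 532) (nat_lit 0) (XT.lf (nat_lit 0) (nat_lit 3828203148) (nat_lit 684) (nat_lit 1320367275) (nat_lit 76) (nat_lit 5000366921) (nat_lit 260) (nat_lit 5) (nat_lit 269) (nat_lit 5) (nat_lit 261) (nat_lit 5) (nat_lit 593) (nat_lit 524) (nat_lit 443)) (XT.lf (nat_lit 0) (nat_lit 5473666763) (nat_lit 532) (nat_lit 1252913837) (nat_lit 608) (nat_lit 3527252381) (nat_lit 253) (nat_lit 5) (nat_lit 260) (nat_lit 5) (nat_lit 261) (nat_lit 5) (nat_lit 594) (nat_lit 524) (nat_lit 442)))) (XT.nd (nat_lit 78) (nat_lit 608) (nat_lit 0) (XT.lf (nat_lit 0) (nat_lit 2031817790) (nat_lit 532) (nat_lit 7662742974) (nat_lit 608) (nat_lit 666035015) (nat_lit 246) (nat_lit 5) (nat_lit 253) (nat_lit 5) (nat_lit 254) (nat_lit 5) (nat_lit 595) (nat_lit 524) (nat_lit 441)) (XT.nd (nat_lit 78) (nat_lit 532) (nat_lit 0) (XT.lf (nat_lit 0) (nat_lit 2235434062)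 (nat_lit 608) (nat_lit 1485210011) (nat_lit 76) (nat_lit 6748307794) (nat_lit 245) (nat_lit 5) (nat_lit 253) (nat_lit 5) (nat_lit 246) (nat_lit 5) (nat_lit 596) (nat_lit 524) (nat_lit 440)) (XT.lf (nat_lit 0) (nat_lit 5196583750) (nat_lit 608) (nat_lit 5055395777) (nat_lit 76) (nat_lit 327197949) (nat_lit 238) (nat_lit 5) (nat_lit 246) (nat_lit 5) (nat_lit 239) (nat_lit 5) (nat_lit 597) (nat_lit 524) (nat_lit 439))))) (XT.nd (nat_lit 234) (nat_lit 1520) (nat_lit 0) (XT.nd (nat_lit 78) (nat_lit 532) (nat_lit 0) (XT.lf (nat_lit 0) (nat_lit 1965194440) (nat_lit 532) (nat_lit 6271957760) (nat_lit 608) (nat_lit 2454053287) (nat_lit 231) (nat_lit 5) (nat_lit 238) (nat_lit 5) (nat_lit 239) (nat_lit 5) (nat_lit 598) (nat_lit 524) (nat_lit 438)) (XT.nd (nat_lit 78) (nat_lit 456) (nat_lit 0) (XT.lf (nat_lit 0) (nat_lit 533091350) (nat_lit 608) (nat_lit 1651423474) (nat_lit 76) (nat_lit 8620751257) (nat_lit 230) (nat_lit 5) (nat_lit 238) (nat_lit 5) (nat_lit 231) (nat_lit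 5) (nat_lit 599) (nat_lit 524) (nat_lit 437)) (XT.lf (nat_lit 0) (nat_lit 3569983396) (nat_lit 532) (nat_lit 5349536652) (nat_lit 76) (nat_lit 2001307828) (nat_lit 224) (nat_lit 5) (nat_lit 231) (nat_lit 5) (nat_lit 225) (nat_lit 5) (nat_lit 600) (nat_lit 524) (nat_lit 436)))) (XT.nd (nat_lit 156) (nat_lit 988) (nat_lit 0) (XT.nd (nat_lit 78) (nat_lit 0) (nat_lit 0) (XT.lf (nat_lit 0) (nat_lit 1895541464) (nat_lit 532) (nat_lit 4783624471) (nat_lit 608) (nat_lit 4359305584) (nat_lit 217) (nat_lit 5) (nat_lit 224) (nat_lit 5) (nat_lit 225) (nat_lit 5) (nat_lit 601) (nat_lit 524) (nat_lit 435)) (XT.lf (nat_lit 0) (nat_lit 9321134937) (nat_lit 532) (nat_lit 539196247) (nat_lit 608) (nat_lit 1297942504) (nat_lit 217) (nat_lit 5) (nat_lit 224) (nat_lit 5) (nat_lit 225) (nat_lit 5) (nat_lit 602) (nat_lit 524) (nat_lit 434))) (XT.nd (nat_lit 78) (nat_lit 456) (nat_lit 0) (XT.lf (nat_lit 0) (nat_lit 1836438954) (nat_lit 532) (nat_lit 5664503198) (nat_lit 76) (nat_lit 3778579947)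 (nat_lit 210) (nat_lit 5) (nat_lit 217) (nat_lit 5) (nat_lit 211) (nat_lit 5) (nat_lit 603) (nat_lit 524) (nat_lit 433)) (XT.lf (nat_lit 0) (nat_lit 1812981230) (nat_lit 456) (nat_lit 3205356340) (nat_lit 532) (nat_lit 6384643682) (nat_lit 204) (nat_lit 5) (nat_lit 210) (nat_lit 5) (nat_lit 211) (nat_lit 5) (nat_lit 604) (nat_lit 524) (nat_lit 432)))))) (XT.nd (nat_lit 546) (nat_lit 2052) (nat_lit 0) (XT.nd (nat_lit 234) (nat_lit 912) (nat_lit 0) (XT.nd (nat_lit 78) (nat_lit 988) (nat_lit 0) (XT.lf (nat_lit 0) (nat_lit 8284406666) (nat_lit 532) (nat_lit 2056153290) (nat_lit 76) (nat_lit 1187940490) (nat_lit 204) (nat_lit 5) (nat_lit 211) (nat_lit 5) (nat_lit 205) (nat_lit 5) (nat_lit 605) (nat_lit 524) (nat_lit 431)) (XT.nd (nat_lit 78) (nat_lit 532) (nat_lit 0) (XT.lf (nat_lit 0) (nat_lit 5644986593) (nat_lit 456) (nat_lit 6003819156) (nat_lit 532) (nat_lit 7065582) (nat_lit 198) (nat_lit 5) (nat_lit 204) (nat_lit 5) (nat_lit 205) (nat_lit 5) (nat_lit 606) (nat_lit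 524) (nat_lit 430)) (XT.lf (nat_lit 0) (nat_lit 1707129929) (nat_lit 456) (nat_lit 1544555541) (nat_lit 532) (nat_lit 8533673900) (nat_lit 191) (nat_lit 5) (nat_lit 197) (nat_lit 5) (nat_lit 198) (nat_lit 5) (nat_lit 607) (nat_lit 524) (nat_lit 429)))) (XT.nd (nat_lit 156) (nat_lit 532) (nat_lit 0) (XT.nd (nat_lit 78) (nat_lit 380) (nat_lit 0) (XT.lf (nat_lit 0) (nat_lit 6611020551) (nat_lit 532) (nat_lit 2311926001) (nat_lit 76) (nat_lit 2993781007) (nat_lit 191) (nat_lit 5) (nat_lit 198) (nat_lit 5) (nat_lit 192) (nat_lit 5) (nat_lit 608) (nat_lit 524) (nat_lit 428)) (XT.lf (nat_lit 0) (nat_lit 5637666235) (nat_lit 380) (nat_lit 4422587752) (nat_lit 456) (nat_lit 1990016257) (nat_lit 186) (nat_lit 5) (nat_lit 191) (nat_lit 5) (nat_lit 192) (nat_lit 5) (nat_lit 609) (nat_lit 524) (nat_lit 427))) (XT.nd (nat_lit 78) (nat_lit 0) (nat_lit 0) (XT.lf (nat_lit 0) (nat_lit 1376728745) (nat_lit 532) (nat_lit 10620519163) (nat_lit 76) (nat_lit 188996503) (nat_lit 179)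 (nat_lit 5) (nat_lit 186) (nat_lit 5) (nat_lit 180) (nat_lit 5) (nat_lit 610) (nat_lit 524) (nat_lit 426)) (XT.lf (nat_lit 0) (nat_lit 4832918692) (nat_lit 532) (nat_lit 2612282252) (nat_lit 76) (nat_lit 4878500198) (nat_lit 179) (nat_lit 5) (nat_lit 186) (nat_lit 5) (nat_lit 180) (nat_lit 5) (nat_lit 611) (nat_lit 524) (nat_lit 425))))) (XT.nd (nat_lit 234) (nat_lit 1216) (nat_lit 0) (XT.nd (nat_lit 78) (nat_lit 456) (nat_lit 0) (XT.lf (nat_lit 0) (nat_lit 5594196228) (nat_lit 380) (nat_lit 2776951428) (nat_lit 456) (nat_lit 4092502310) (nat_lit 174) (nat_lit 5) (nat_lit 179) (nat_lit 5) (nat_lit 180) (nat_lit 5) (nat_lit 612) (nat_lit 524) (nat_lit 424)) (XT.nd (nat_lit 78) (nat_lit 76) (nat_lit 0) (XT.lf (nat_lit 0) (nat_lit 1363601884) (nat_lit 380) (nat_lit 10632672481) (nat_lit 456) (nat_lit 609801975) (nat_lit 169) (nat_lit 5) (nat_lit 174) (nat_lit 5) (nat_lit 175) (nat_lit 5) (nat_lit 613) (nat_lit 524) (nat_lit 423)) (XT.lf (nat_lit 0) (nat_lit 2945575336)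 (nat_lit 456) (nat_lit 2969317558) (nat_lit 76) (nat_lit 6835245137) (nat_lit 168) (nat_lit 5) (nat_lit 174) (nat_lit 5) (nat_lit 169) (nat_lit 5) (nat_lit 614) (nat_lit 524) (nat_lit 422)))) (XT.nd (nat_lit 156) (nat_lit 456) (nat_lit 0) (XT.nd (nat_lit 78) (nat_lit 380) (nat_lit 0) (XT.lf (nat_lit 0) (nat_lit 5502604793) (nat_lit 380) (nat_lit 1074300556) (nat_lit 456) (nat_lit 6319835950) (nat_lit 163) (nat_lit 5) (nat_lit 168) (nat_lit 5) (nat_lit 169) (nat_lit 5) (nat_lit 615) (nat_lit 524) (nat_lit 421)) (XT.lf (nat_lit 0) (nat_lit 1092481192) (nat_lit 380) (nat_lit 9218031972) (nat_lit 456) (nat_lit 2735171588) (nat_lit 158) (nat_lit 5) (nat_lit 163) (nat_lit 5) (nat_lit 164) (nat_lit 5) (nat_lit 616) (nat_lit 524) (nat_lit 420))) (XT.nd (nat_lit 78) (nat_lit 380) (nat_lit 0) (XT.lf (nat_lit 0) (nat_lit 943652876) (nat_lit 456) (nat_lit 3396018797) (nat_lit 76) (nat_lit 8857125915) (nat_lit 157) (nat_lit 5) (nat_lit 163) (nat_lit 5) (nat_lit 158) (nat_lit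 5) (nat_lit 617) (nat_lit 524) (nat_lit 419)) (XT.lf (nat_lit 0) (nat_lit 4676529229) (nat_lit 456) (nat_lit 8004710800) (nat_lit 76) (nat_lit 668990153) (nat_lit 152) (nat_lit 5) (nat_lit 158) (nat_lit 5) (nat_lit 153) (nat_lit 5) (nat_lit 618) (nat_lit 524) (nat_lit 418))))))))
noncomputable def xc89 : XT := (XT.nd (nat_lit 2106) (nat_lit 532) (nat_lit 0) (XT.nd (nat_lit 1014) (nat_lit 2508) (nat_lit 0) (XT.nd (nat_lit 468) (nat_lit 1368) (nat_lit 0) (XT.nd (nat_lit 234) (nat_lit 760) (nat_lit 0) (XT.nd (nat_lit 78) (nat_lit 380) (nat_lit 0) (XT.lf (nat_lit 0) (nat_lit 748081132) (nat_lit 380) (nat_lit 7770578172) (nat_lit 456) (nat_lit 4987381257) (nat_lit 147) (nat_lit 5) (nat_lit 152) (nat_lit 5) (nat_lit 153) (nat_lit 5) (nat_lit 619) (nat_lit 524) (nat_lit 417)) (XT.nd (nat_lit 78) (nat_lit 380) (nat_lit 0) (XT.lf (nat_lit 0) (nat_lit 9750175522) (nat_lit 380) (nat_lit 2719439664) (nat_lit 456) (nat_lit 1194713331) (nat_lit 147) (nat_lit 5) (nat_lit 152)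 (nat_lit 5) (nat_lit 153) (nat_lit 5) (nat_lit 620) (nat_lit 524) (nat_lit 416)) (XT.lf (nat_lit 0) (nat_lit 2666599807) (nat_lit 380) (nat_lit 8718771201) (nat_lit 76) (nat_lit 2439507834) (nat_lit 142) (nat_lit 5) (nat_lit 147) (nat_lit 5) (nat_lit 143) (nat_lit 5) (nat_lit 621) (nat_lit 524) (nat_lit 415)))) (XT.nd (nat_lit 78) (nat_lit 380) (nat_lit 0) (XT.lf (nat_lit 0) (nat_lit 315765705) (nat_lit 380) (nat_lit 6298563864) (nat_lit 456) (nat_lit 7373649887) (nat_lit 137) (nat_lit 5) (nat_lit 142) (nat_lit 5) (nat_lit 143) (nat_lit 5) (nat_lit 622) (nat_lit 524) (nat_lit 414)) (XT.nd (nat_lit 78) (nat_lit 380) (nat_lit 0) (XT.lf (nat_lit 0) (nat_lit 9615406102) (nat_lit 380) (nat_lit 1062987222) (nat_lit 456) (nat_lit 3475202127) (nat_lit 137) (nat_lit 5) (nat_lit 142) (nat_lit 5) (nat_lit 143) (nat_lit 5) (nat_lit 623) (nat_lit 524) (nat_lit 413)) (XT.lf (nat_lit 0) (nat_lit 532903459) (nat_lit 380) (nat_lit 9545280534) (nat_lit 76) (nat_lit 4243510360) (nat_lit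 132) (nat_lit 5) (nat_lit 137) (nat_lit 5) (nat_lit 133) (nat_lit 5) (nat_lit 624) (nat_lit 524) (nat_lit 412))))) (XT.nd (nat_lit 234) (nat_lit 760) (nat_lit 0) (XT.nd (nat_lit 78) (nat_lit 608) (nat_lit 0) (XT.lf (nat_lit 0) (nat_lit 4591636980) (nat_lit 380) (nat_lit 217478169) (nat_lit 76) (nat_lit 9683241590) (nat_lit 132) (nat_lit 5) (nat_lit 137) (nat_lit 5) (nat_lit 133) (nat_lit 5) (nat_lit 625) (nat_lit 524) (nat_lit 411)) (XT.nd (nat_lit 78) (nat_lit 304) (nat_lit 0) (XT.lf (nat_lit 0) (nat_lit 8776152670) (nat_lit 380) (nat_lit 5282464095) (nat_lit 76) (nat_lit 606924341) (nat_lit 128) (nat_lit 5) (nat_lit 133) (nat_lit 5) (nat_lit 129) (nat_lit 5) (nat_lit 626) (nat_lit 524) (nat_lit 410)) (XT.lf (nat_lit 0) (nat_lit 4328389525) (nat_lit 304) (nat_lit 8757162197) (nat_lit 380) (nat_lit 1755814445) (nat_lit 124) (nat_lit 5) (nat_lit 128) (nat_lit 5) (nat_lit 129) (nat_lit 5) (nat_lit 627) (nat_lit 524) (nat_lit 409)))) (XT.nd (nat_lit 156) (nat_lit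 380) (nat_lit 0) (XT.nd (nat_lit 78) (nat_lit 304) (nat_lit 0) (XT.lf (nat_lit 0) (nat_lit 2443668173) (nat_lit 380) (nat_lit 866146321) (nat_lit 76) (nat_lit 11710264451) (nat_lit 123) (nat_lit 5) (nat_lit 128) (nat_lit 5) (nat_lit 124) (nat_lit 5) (nat_lit 628) (nat_lit 524) (nat_lit 408)) (XT.lf (nat_lit 0) (nat_lit 6757588624) (nat_lit 380) (nat_lit 6168018428) (nat_lit 76) (nat_lit 2275448452) (nat_lit 119) (nat_lit 5) (nat_lit 124) (nat_lit 5) (nat_lit 120) (nat_lit 5) (nat_lit 629) (nat_lit 524) (nat_lit 407))) (XT.nd (nat_lit 78) (nat_lit 76) (nat_lit 0) (XT.lf (nat_lit 0) (nat_lit 3751194561) (nat_lit 304) (nat_lit 7439034893) (nat_lit 380) (nat_lit 4194774103) (nat_lit 115) (nat_lit 5) (nat_lit 119) (nat_lit 5) (nat_lit 120) (nat_lit 5) (nat_lit 630) (nat_lit 524) (nat_lit 406)) (XT.lf (nat_lit 0) (nat_lit 159098981) (nat_lit 380) (nat_lit 1653080812) (nat_lit 76) (nat_lit 13759992952) (nat_lit 114) (nat_lit 5) (nat_lit 119) (nat_lit 5) (nat_lit 115)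 (nat_lit 5) (nat_lit 631) (nat_lit 524) (nat_lit 405)))))) (XT.nd (nat_lit 546) (nat_lit 1064) (nat_lit 0) (XT.nd (nat_lit 234) (nat_lit 912) (nat_lit 0) (XT.nd (nat_lit 78) (nat_lit 228) (nat_lit 0) (XT.lf (nat_lit 0) (nat_lit 4606359404) (nat_lit 380) (nat_lit 7207624044) (nat_lit 76) (nat_lit 3947298515) (nat_lit 110) (nat_lit 5) (nat_lit 115) (nat_lit 5) (nat_lit 111) (nat_lit 5) (nat_lit 632) (nat_lit 524) (nat_lit 404)) (XT.nd (nat_lit 78) (nat_lit 0) (nat_lit 0) (XT.lf (nat_lit 0) (nat_lit 3028678064) (nat_lit 228) (nat_lit 6137557479) (nat_lit 304) (nat_lit 6787465152) (nat_lit 107) (nat_lit 5) (nat_lit 110) (nat_lit 5) (nat_lit 111) (nat_lit 5) (nat_lit 633) (nat_lit 524) (nat_lit 403)) (XT.lf (nat_lit 0) (nat_lit 13535660893) (nat_lit 228) (nat_lit 311023479) (nat_lit 304) (nat_lit 2302696652) (nat_lit 107) (nat_lit 5) (nat_lit 110) (nat_lit 5) (nat_lit 111) (nat_lit 5) (nat_lit 634) (nat_lit 524) (nat_lit 402)))) (XT.nd (nat_lit 156) (nat_lit 304) (nat_lit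 0) (XT.nd (nat_lit 78) (nat_lit 228) (nat_lit 0) (XT.lf (nat_lit 0) (nat_lit 2311849447) (nat_lit 380) (nat_lit 8422837375) (nat_lit 76) (nat_lit 5612596300) (nat_lit 102) (nat_lit 5) (nat_lit 107) (nat_lit 5) (nat_lit 103) (nat_lit 5) (nat_lit 635) (nat_lit 524) (nat_lit 401)) (XT.lf (nat_lit 0) (nat_lit 2139184390) (nat_lit 228) (nat_lit 4863642164) (nat_lit 304) (nat_lit 9545713513) (nat_lit 99) (nat_lit 5) (nat_lit 102) (nat_lit 5) (nat_lit 103) (nat_lit 5) (nat_lit 636) (nat_lit 524) (nat_lit 400))) (XT.nd (nat_lit 78) (nat_lit 304) (nat_lit 0) (XT.lf (nat_lit 0) (nat_lit 11833242479) (nat_lit 304) (nat_lit 3765287579) (nat_lit 76) (nat_lit 1154380377) (nat_lit 99) (nat_lit 5) (nat_lit 103) (nat_lit 5) (nat_lit 100) (nat_lit 5) (nat_lit 637) (nat_lit 524) (nat_lit 399)) (XT.lf (nat_lit 0) (nat_lit 7121937415) (nat_lit 304) (nat_lit 9698563698) (nat_lit 380) (nat_lit 139663067) (nat_lit 95) (nat_lit 5) (nat_lit 99) (nat_lit 5) (nat_lit 100) (nat_lit 5) (nat_lit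 638) (nat_lit 524) (nat_lit 398))))) (XT.nd (nat_lit 234) (nat_lit 532) (nat_lit 0) (XT.nd (nat_lit 78) (nat_lit 228) (nat_lit 0) (XT.lf (nat_lit 0) (nat_lit 1058900993) (nat_lit 228) (nat_lit 3629059683) (nat_lit 304) (nat_lit 12482705346) (nat_lit 91) (nat_lit 5) (nat_lit 94) (nat_lit 5) (nat_lit 95) (nat_lit 5) (nat_lit 639) (nat_lit 524) (nat_lit 397)) (XT.nd (nat_lit 78) (nat_lit 228) (nat_lit 0) (XT.lf (nat_lit 0) (nat_lit 9675254654) (nat_lit 304) (nat_lit 5125755591) (nat_lit 76) (nat_lit 2583050057) (nat_lit 91) (nat_lit 5) (nat_lit 95) (nat_lit 5) (nat_lit 92) (nat_lit 5) (nat_lit 640) (nat_lit 524) (nat_lit 396)) (XT.lf (nat_lit 0) (nat_lit 6105591084) (nat_lit 228) (nat_lit 8702629533) (nat_lit 304) (nat_lit 2792583934) (nat_lit 88) (nat_lit 5) (nat_lit 91) (nat_lit 5) (nat_lit 92) (nat_lit 5) (nat_lit 641) (nat_lit 524) (nat_lit 395)))) (XT.nd (nat_lit 156) (nat_lit 228) (nat_lit 0) (XT.nd (nat_lit 78) (nat_lit 228) (nat_lit 0) (XT.lf (nat_lit 0) (nat_lit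 2209730792) (nat_lit 304) (nat_lit 235265538) (nat_lit 76) (nat_lit 15376261209) (nat_lit 87) (nat_lit 5) (nat_lit 91) (nat_lit 5) (nat_lit 88) (nat_lit 5) (nat_lit 642) (nat_lit 524) (nat_lit 394)) (XT.lf (nat_lit 0) (nat_lit 7357157466) (nat_lit 304) (nat_lit 6720334010) (nat_lit 76) (nat_lit 3966610337) (nat_lit 84) (nat_lit 5) (nat_lit 88) (nat_lit 5) (nat_lit 85) (nat_lit 5) (nat_lit 643) (nat_lit 524) (nat_lit 393))) (XT.nd (nat_lit 78) (nat_lit 0) (nat_lit 0) (XT.lf (nat_lit 0) (nat_lit 4863450479) (nat_lit 228) (nat_lit 7776140308) (nat_lit 304) (nat_lit 5631171583) (nat_lit 81) (nat_lit 5) (nat_lit 84) (nat_lit 5) (nat_lit 85) (nat_lit 5) (nat_lit 644) (nat_lit 524) (nat_lit 392)) (XT.lf (nat_lit 0) (nat_lit 16740271908) (nat_lit 228) (nat_lit 1315344130) (nat_lit 304) (nat_lit 445781787) (nat_lit 81) (nat_lit 5) (nat_lit 84) (nat_lit 5) (nat_lit 85) (nat_lit 5) (nat_lit 645) (nat_lit 524) (nat_lit 391))))))) (XT.nd (nat_lit 72618) (nat_lit 0) (nat_lit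 43092) (XT.nd (nat_lit 72072) (nat_lit 0) (nat_lit 49704) (XT.nd (nat_lit 71760) (nat_lit 0) (nat_lit 51452) (XT.nd (nat_lit 78) (nat_lit 228) (nat_lit 0) (XT.lf (nat_lit 0) (nat_lit 4863843361) (nat_lit 304) (nat_lit 8579030122) (nat_lit 76) (nat_lit 5291463141) (nat_lit 77) (nat_lit 5) (nat_lit 81) (nat_lit 5) (nat_lit 78) (nat_lit 5) (nat_lit 646) (nat_lit 524) (nat_lit 390)) (XT.nd (nat_lit 78) (nat_lit 0) (nat_lit 0) (XT.lf (nat_lit 0) (nat_lit 3365196444) (nat_lit 228) (nat_lit 6934090155) (nat_lit 304) (nat_lit 8672077294) (nat_lit 74) (nat_lit 5) (nat_lit 77) (nat_lit 5) (nat_lit 78) (nat_lit 5) (nat_lit 647) (nat_lit 524) (nat_lit 389)) (XT.lf (nat_lit 0) (nat_lit 15635352617) (nat_lit 228) (nat_lit 248929441) (nat_lit 304) (nat_lit 3328033291) (nat_lit 74) (nat_lit 5) (nat_lit 77) (nat_lit 5) (nat_lit 78) (nat_lit 5) (nat_lit 648) (nat_lit 524) (nat_lit 388)))) (XT.nd (nat_lit 156) (nat_lit 0) (nat_lit 0) (XT.nd (nat_lit 78) (nat_lit 532) (nat_lit 0)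 (XT.lf (nat_lit 0) (nat_lit 955584428) (nat_lit 0) (nat_lit 955584428) (nat_lit 380) (nat_lit 1333724656) (nat_lit 758) (nat_lit 5) (nat_lit 758) (nat_lit 3) (nat_lit 763) (nat_lit 3) (nat_lit 525) (nat_lit 525) (nat_lit 510)) (XT.lf (nat_lit 0) (nat_lit 68027462) (nat_lit 532) (nat_lit 1345917156) (nat_lit 532) (nat_lit 5086128587) (nat_lit 751) (nat_lit 3) (nat_lit 758) (nat_lit 3) (nat_lit 758) (nat_lit 5) (nat_lit 526) (nat_lit 525) (nat_lit 509))) (XT.nd (nat_lit 78) (nat_lit 0) (nat_lit 0) (XT.lf (nat_lit 76) (nat_lit 1922503093) (nat_lit 0) (nat_lit 840983686) (nat_lit 532) (nat_lit 3747917043) (nat_lit 752) (nat_lit 5) (nat_lit 751) (nat_lit 3) (nat_lit 758) (nat_lit 5) (nat_lit 527) (nat_lit 525) (nat_lit 508)) (XT.lf (nat_lit 76) (nat_lit 5238292501) (nat_lit 0) (nat_lit 213236336) (nat_lit 532) (nat_lit 1072669677) (nat_lit 752) (nat_lit 5) (nat_lit 751) (nat_lit 3) (nat_lit 758) (nat_lit 5) (nat_lit 528) (nat_lit 525) (nat_lit 507))))) (XT.nd (nat_lit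 234) (nat_lit 684) (nat_lit 0) (XT.nd (nat_lit 78) (nat_lit 608) (nat_lit 0) (XT.lf (nat_lit 0) (nat_lit 1581457848) (nat_lit 532) (nat_lit 4478326047) (nat_lit 608) (nat_lit 478318767) (nat_lit 745) (nat_lit 5) (nat_lit 752) (nat_lit 5) (nat_lit 753) (nat_lit 5) (nat_lit 529) (nat_lit 525) (nat_lit 506)) (XT.nd (nat_lit 78) (nat_lit 608) (nat_lit 0) (XT.lf (nat_lit 0) (nat_lit 4216305494) (nat_lit 532) (nat_lit 1108693116) (nat_lit 608) (nat_lit 1228314765) (nat_lit 745) (nat_lit 5) (nat_lit 752) (nat_lit 5) (nat_lit 753) (nat_lit 5) (nat_lit 530) (nat_lit 525) (nat_lit 505)) (XT.lf (nat_lit 0) (nat_lit 278573940) (nat_lit 608) (nat_lit 4249993034) (nat_lit 684) (nat_lit 2041268809) (nat_lit 737) (nat_lit 5) (nat_lit 745) (nat_lit 5) (nat_lit 746) (nat_lit 5) (nat_lit 531) (nat_lit 525) (nat_lit 504)))) (XT.nd (nat_lit 156) (nat_lit 684) (nat_lit 0) (XT.nd (nat_lit 78) (nat_lit 0) (nat_lit 0) (XT.lf (nat_lit 0) (nat_lit 2856542910) (nat_lit 608) (nat_lit 807802973)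 (nat_lit 684) (nat_lit 2923216151) (nat_lit 737) (nat_lit 5) (nat_lit 745) (nat_lit 5) (nat_lit 746) (nat_lit 5) (nat_lit 532) (nat_lit 525) (nat_lit 503)) (XT.lf (nat_lit 76) (nat_lit 2701688579) (nat_lit 0) (nat_lit 2737070511) (nat_lit 684) (nat_lit 1167839483) (nat_lit 738) (nat_lit 5) (nat_lit 737) (nat_lit 5) (nat_lit 746) (nat_lit 5) (nat_lit 533) (nat_lit 525) (nat_lit 502))) (XT.nd (nat_lit 78) (nat_lit 0) (nat_lit 0) (XT.lf (nat_lit 0) (nat_lit 1368835925) (nat_lit 684) (nat_lit 380610897) (nat_lit 760) (nat_lit 4877566231) (nat_lit 728) (nat_lit 5) (nat_lit 737) (nat_lit 5) (nat_lit 738) (nat_lit 5) (nat_lit 534) (nat_lit 525) (nat_lit 501)) (XT.lf (nat_lit 76) (nat_lit 3211704179) (nat_lit 0) (nat_lit 686778228) (nat_lit 760) (nat_lit 2750050497) (nat_lit 729) (nat_lit 5) (nat_lit 728) (nat_lit 5) (nat_lit 738) (nat_lit 5) (nat_lit 535) (nat_lit 525) (nat_lit 500)))))) (XT.nd (nat_lit 546) (nat_lit 4256) (nat_lit 0) (XT.nd (nat_lit 234) (nat_lit 1672)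 (nat_lit 0) (XT.nd (nat_lit 78) (nat_lit 760) (nat_lit 0) (XT.lf (nat_lit 76) (nat_lit 172227094) (nat_lit 0) (nat_lit 6250932464) (nat_lit 760) (nat_lit 248443633) (nat_lit 730) (nat_lit 5) (nat_lit 729) (nat_lit 5) (nat_lit 739) (nat_lit 5) (nat_lit 536) (nat_lit 525) (nat_lit 499)) (XT.nd (nat_lit 78) (nat_lit 0) (nat_lit 0) (XT.lf (nat_lit 0) (nat_lit 2239477896) (nat_lit 760) (nat_lit 2852878877) (nat_lit 836) (nat_lit 1603157700) (nat_lit 719) (nat_lit 5) (nat_lit 729) (nat_lit 5) (nat_lit 730) (nat_lit 5) (nat_lit 537) (nat_lit 525) (nat_lit 498)) (XT.lf (nat_lit 76) (nat_lit 838049435) (nat_lit 0) (nat_lit 3881152990) (nat_lit 836) (nat_lit 2001769573) (nat_lit 720) (nat_lit 5) (nat_lit 719) (nat_lit 5) (nat_lit 730) (nat_lit 5) (nat_lit 538) (nat_lit 525) (nat_lit 497)))) (XT.nd (nat_lit 156) (nat_lit 836) (nat_lit 0) (XT.nd (nat_lit 78) (nat_lit 0) (nat_lit 0) (XT.lf (nat_lit 0) (nat_lit 454736610) (nat_lit 836) (nat_lit 2146866267) (nat_lit 912) (nat_lit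 4146083985) (nat_lit 708) (nat_lit 5) (nat_lit 719) (nat_lit 5) (nat_lit 720) (nat_lit 5) (nat_lit 539) (nat_lit 525) (nat_lit 496)) (XT.lf (nat_lit 76) (nat_lit 1634448403) (nat_lit 0) (nat_lit 1251386314) (nat_lit 912) (nat_lit 3889799172) (nat_lit 709) (nat_lit 5) (nat_lit 708) (nat_lit 5) (nat_lit 720) (nat_lit 5) (nat_lit 540) (nat_lit 525) (nat_lit 495))) (XT.nd (nat_lit 78) (nat_lit 912) (nat_lit 0) (XT.lf (nat_lit 0) (nat_lit 5323534404) (nat_lit 836) (nat_lit 1322955262) (nat_lit 76) (nat_lit 158498253) (nat_lit 709) (nat_lit 5) (nat_lit 720) (nat_lit 5) (nat_lit 710) (nat_lit 5) (nat_lit 541) (nat_lit 525) (nat_lit 494)) (XT.lf (nat_lit 0) (nat_lit 930743099) (nat_lit 912) (nat_lit 4282695611) (nat_lit 76) (nat_lit 1622001620) (nat_lit 697) (nat_lit 5) (nat_lit 709) (nat_lit 5) (nat_lit 698) (nat_lit 5) (nat_lit 542) (nat_lit 525) (nat_lit 493))))) (XT.nd (nat_lit 234) (nat_lit 2280) (nat_lit 0) (XT.nd (nat_lit 78) (nat_lit 1976) (nat_lit 0) (XT.lf (nat_lit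 0) (nat_lit 3324570740) (nat_lit 912) (nat_lit 390723994) (nat_lit 76) (nat_lit 3151953947) (nat_lit 697) (nat_lit 5) (nat_lit 709) (nat_lit 5) (nat_lit 698) (nat_lit 5) (nat_lit 543) (nat_lit 525) (nat_lit 492)) (XT.nd (nat_lit 78) (nat_lit 1064) (nat_lit 0) (XT.lf (nat_lit 0) (nat_lit 3588482290) (nat_lit 912) (nat_lit 2146452915) (nat_lit 988) (nat_lit 1165391862) (nat_lit 685) (nat_lit 5) (nat_lit 697) (nat_lit 5) (nat_lit 698) (nat_lit 5) (nat_lit 544) (nat_lit 525) (nat_lit 491)) (XT.lf (nat_lit 0) (nat_lit 681146085) (nat_lit 988) (nat_lit 514664500) (nat_lit 1064) (nat_lit 5739041921) (nat_lit 671) (nat_lit 5) (nat_lit 684) (nat_lit 5) (nat_lit 685) (nat_lit 5) (nat_lit 545) (nat_lit 525) (nat_lit 490)))) (XT.nd (nat_lit 156) (nat_lit 1216) (nat_lit 0) (XT.nd (nat_lit 78) (nat_lit 1064) (nat_lit 0) (XT.lf (nat_lit 0) (nat_lit 3565226682) (nat_lit 1064) (nat_lit 2225134780) (nat_lit 76) (nat_lit 1180027709) (nat_lit 671) (nat_lit 5) (nat_lit 685) (nat_lit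 5) (nat_lit 672) (nat_lit 5) (nat_lit 546) (nat_lit 525) (nat_lit 489)) (XT.lf (nat_lit 0) (nat_lit 1866778653) (nat_lit 1064) (nat_lit 4078568641) (nat_lit 1140) (nat_lit 1062029484) (nat_lit 657) (nat_lit 5) (nat_lit 671) (nat_lit 5) (nat_lit 672) (nat_lit 5) (nat_lit 547) (nat_lit 525) (nat_lit 488))) (XT.nd (nat_lit 78) (nat_lit 1140) (nat_lit 0) (XT.lf (nat_lit 0) (nat_lit 1273797590) (nat_lit 1140) (nat_lit 1021580630) (nat_lit 76) (nat_lit 4750294800) (nat_lit 656) (nat_lit 5) (nat_lit 671) (nat_lit 5) (nat_lit 657) (nat_lit 5) (nat_lit 548) (nat_lit 525) (nat_lit 487)) (XT.lf (nat_lit 0) (nat_lit 3176456601) (nat_lit 1140) (nat_lit 435533548) (nat_lit 1216) (nat_lit 3473213403) (nat_lit 641) (nat_lit 5) (nat_lit 656) (nat_lit 5) (nat_lit 657) (nat_lit 5) (nat_lit 549) (nat_lit 525) (nat_lit 486))))))))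
noncomputable def xc90 : XT := (XT.nd (nat_lit 2106) (nat_lit 11476) (nat_lit 0) (XT.nd (nat_lit 1014) (nat_lit 9120) (nat_lit 0) (XT.nd (nat_lit 468) (nat_lit 6688) (nat_lit 0) (XT.nd (nat_lit 234) (nat_lit 2888) (nat_lit 0) (XT.nd (nat_lit 78) (nat_lit 1368) (nat_lit 0) (XT.lf (nat_lit 0) (nat_lit 302524673) (nat_lit 1216) (nat_lit 5662838617) (nat_lit 1292) (nat_lit 1160799107) (nat_lit 625) (nat_lit 5) (nat_lit 641) (nat_lit 5) (nat_lit 642) (nat_lit 5) (nat_lit 550) (nat_lit 525) (nat_lit 485)) (XT.nd (nat_lit 78) (nat_lit 1292) (nat_lit 0) (XT.lf (nat_lit 0) (nat_lit 1161900809) (nat_lit 1292) (nat_lit 2566477403) (nat_lit 76) (nat_lit 3439817511) (nat_lit 624) (nat_lit 5) (nat_lit 641) (nat_lit 5) (nat_lit 625) (nat_lit 5) (nat_lit 551) (nat_lit 525) (nat_lit 484)) (XT.lf (nat_lit 0) (nat_lit 1752662405) (nat_lit 1292) (nat_lit 1725674317) (nat_lit 1368) (nat_lit 3733328722) (nat_lit 607) (nat_lit 5) (nat_lit 624) (nat_lit 5) (nat_lit 625) (nat_lit 5) (nat_lit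 552) (nat_lit 525) (nat_lit 483)))) (XT.nd (nat_lit 78) (nat_lit 2888) (nat_lit 0) (XT.lf (nat_lit 0) (nat_lit 5812694599) (nat_lit 1368) (nat_lit 1104093899) (nat_lit 76) (nat_lit 339789775) (nat_lit 607) (nat_lit 5) (nat_lit 625) (nat_lit 5) (nat_lit 608) (nat_lit 5) (nat_lit 553) (nat_lit 525) (nat_lit 482)) (XT.nd (nat_lit 78) (nat_lit 1444) (nat_lit 0) (XT.lf (nat_lit 0) (nat_lit 865758600) (nat_lit 1444) (nat_lit 3976651516) (nat_lit 76) (nat_lit 2460146886) (nat_lit 588) (nat_lit 5) (nat_lit 607) (nat_lit 5) (nat_lit 589) (nat_lit 5) (nat_lit 554) (nat_lit 525) (nat_lit 481)) (XT.lf (nat_lit 0) (nat_lit 467852580) (nat_lit 1444) (nat_lit 2698416287) (nat_lit 1520) (nat_lit 4183720636) (nat_lit 569) (nat_lit 5) (nat_lit 588) (nat_lit 5) (nat_lit 589) (nat_lit 5) (nat_lit 555) (nat_lit 525) (nat_lit 480))))) (XT.nd (nat_lit 234) (nat_lit 5092) (nat_lit 0) (XT.nd (nat_lit 78) (nat_lit 1596) (nat_lit 0) (XT.lf (nat_lit 0) (nat_lit 5016570621) (nat_lit 1444)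 (nat_lit 477060469) (nat_lit 1520) (nat_lit 1905127883) (nat_lit 569) (nat_lit 5) (nat_lit 588) (nat_lit 5) (nat_lit 589) (nat_lit 5) (nat_lit 556) (nat_lit 525) (nat_lit 479)) (XT.nd (nat_lit 78) (nat_lit 0) (nat_lit 0) (XT.lf (nat_lit 0) (nat_lit 394317818) (nat_lit 1596) (nat_lit 5265443357) (nat_lit 76) (nat_lit 1789077658) (nat_lit 548) (nat_lit 5) (nat_lit 569) (nat_lit 5) (nat_lit 549) (nat_lit 5) (nat_lit 557) (nat_lit 525) (nat_lit 478)) (XT.lf (nat_lit 0) (nat_lit 2688951228) (nat_lit 1596) (nat_lit 682016764) (nat_lit 76) (nat_lit 4129211125) (nat_lit 548) (nat_lit 5) (nat_lit 569) (nat_lit 5) (nat_lit 549) (nat_lit 5) (nat_lit 558) (nat_lit 525) (nat_lit 477)))) (XT.nd (nat_lit 156) (nat_lit 1824) (nat_lit 0) (XT.nd (nat_lit 78) (nat_lit 1672) (nat_lit 0) (XT.lf (nat_lit 0) (nat_lit 4007285201) (nat_lit 1596) (nat_lit 1004517577) (nat_lit 1672) (nat_lit 2541101682) (nat_lit 527) (nat_lit 5) (nat_lit 548) (nat_lit 5) (nat_lit 549) (nat_lit 5) (nat_lit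 559) (nat_lit 525) (nat_lit 476)) (XT.lf (nat_lit 0) (nat_lit 1160063794) (nat_lit 1672) (nat_lit 6199285583) (nat_lit 1748) (nat_lit 247774836) (nat_lit 505) (nat_lit 5) (nat_lit 527) (nat_lit 5) (nat_lit 528) (nat_lit 5) (nat_lit 560) (nat_lit 525) (nat_lit 475))) (XT.nd (nat_lit 78) (nat_lit 1748) (nat_lit 0) (XT.lf (nat_lit 0) (nat_lit 2051848360) (nat_lit 1748) (nat_lit 1713730875) (nat_lit 76) (nat_lit 3896824852) (nat_lit 504) (nat_lit 5) (nat_lit 527) (nat_lit 5) (nat_lit 505) (nat_lit 5) (nat_lit 561) (nat_lit 525) (nat_lit 474)) (XT.lf (nat_lit 0) (nat_lit 3114936333) (nat_lit 1748) (nat_lit 1257531601) (nat_lit 1824) (nat_lit 3346726834) (nat_lit 481) (nat_lit 5) (nat_lit 504) (nat_lit 5) (nat_lit 505) (nat_lit 5) (nat_lit 562) (nat_lit 525) (nat_lit 473)))))) (XT.nd (nat_lit 546) (nat_lit 4256) (nat_lit 0) (XT.nd (nat_lit 234) (nat_lit 1900) (nat_lit 0) (XT.nd (nat_lit 78) (nat_lit 1140) (nat_lit 0) (XT.lf (nat_lit 0) (nat_lit 242030798) (nat_lit 1824)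 (nat_lit 6477748728) (nat_lit 1900) (nat_lit 1057740454) (nat_lit 457) (nat_lit 5) (nat_lit 481) (nat_lit 5) (nat_lit 482) (nat_lit 5) (nat_lit 563) (nat_lit 525) (nat_lit 472)) (XT.nd (nat_lit 78) (nat_lit 1064) (nat_lit 0) (XT.lf (nat_lit 0) (nat_lit 1258677561) (nat_lit 1900) (nat_lit 2644990015) (nat_lit 76) (nat_lit 3933214432) (nat_lit 456) (nat_lit 5) (nat_lit 481) (nat_lit 5) (nat_lit 457) (nat_lit 5) (nat_lit 564) (nat_lit 525) (nat_lit 471)) (XT.lf (nat_lit 0) (nat_lit 2328191953) (nat_lit 1064) (nat_lit 1253973433) (nat_lit 1140) (nat_lit 4315632026) (nat_lit 442) (nat_lit 5) (nat_lit 456) (nat_lit 5) (nat_lit 457) (nat_lit 5) (nat_lit 565) (nat_lit 525) (nat_lit 470)))) (XT.nd (nat_lit 156) (nat_lit 912) (nat_lit 0) (XT.nd (nat_lit 78) (nat_lit 988) (nat_lit 0) (XT.lf (nat_lit 0) (nat_lit 5939718709) (nat_lit 1140) (nat_lit 571617238) (nat_lit 76) (nat_lit 1448847247) (nat_lit 442) (nat_lit 5) (nat_lit 457) (nat_lit 5) (nat_lit 443) (nat_lit 5) (nat_lit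 566) (nat_lit 525) (nat_lit 469)) (XT.lf (nat_lit 0) (nat_lit 315266610) (nat_lit 988) (nat_lit 3486799392) (nat_lit 76) (nat_lit 4221735585) (nat_lit 429) (nat_lit 5) (nat_lit 442) (nat_lit 5) (nat_lit 430) (nat_lit 5) (nat_lit 567) (nat_lit 525) (nat_lit 468))) (XT.nd (nat_lit 78) (nat_lit 0) (nat_lit 0) (XT.lf (nat_lit 0) (nat_lit 1636276677) (nat_lit 912) (nat_lit 1010249669) (nat_lit 988) (nat_lit 5442385287) (nat_lit 417) (nat_lit 5) (nat_lit 429) (nat_lit 5) (nat_lit 430) (nat_lit 5) (nat_lit 568) (nat_lit 525) (nat_lit 467)) (XT.lf (nat_lit 0) (nat_lit 5021757837) (nat_lit 988) (nat_lit 1297075674) (nat_lit 76) (nat_lit 1836547119) (nat_lit 417) (nat_lit 5) (nat_lit 430) (nat_lit 5) (nat_lit 418) (nat_lit 5) (nat_lit 569) (nat_lit 525) (nat_lit 466))))) (XT.nd (nat_lit 234) (nat_lit 2508) (nat_lit 0) (XT.nd (nat_lit 78) (nat_lit 912) (nat_lit 0) (XT.lf (nat_lit 0) (nat_lit 3968507068) (nat_lit 836) (nat_lit 3471054939) (nat_lit 912) (nat_lit 783719246)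 (nat_lit 406) (nat_lit 5) (nat_lit 417) (nat_lit 5) (nat_lit 418) (nat_lit 5) (nat_lit 570) (nat_lit 525) (nat_lit 465)) (XT.nd (nat_lit 78) (nat_lit 0) (nat_lit 0) (XT.lf (nat_lit 0) (nat_lit 1028891186) (nat_lit 836) (nat_lit 541424688) (nat_lit 912) (nat_lit 6722452190) (nat_lit 394) (nat_lit 5) (nat_lit 405) (nat_lit 5) (nat_lit 406) (nat_lit 5) (nat_lit 571) (nat_lit 525) (nat_lit 464)) (XT.lf (nat_lit 0) (nat_lit 3968890804) (nat_lit 912) (nat_lit 1947594785) (nat_lit 76) (nat_lit 2446899752) (nat_lit 394) (nat_lit 5) (nat_lit 406) (nat_lit 5) (nat_lit 395) (nat_lit 5) (nat_lit 572) (nat_lit 525) (nat_lit 463)))) (XT.nd (nat_lit 156) (nat_lit 760) (nat_lit 0) (XT.nd (nat_lit 78) (nat_lit 912) (nat_lit 0) (XT.lf (nat_lit 0) (nat_lit 3478658286) (nat_lit 836) (nat_lit 2926985789) (nat_lit 912) (nat_lit 2029970084) (nat_lit 383) (nat_lit 5) (nat_lit 394) (nat_lit 5) (nat_lit 395) (nat_lit 5) (nat_lit 573) (nat_lit 525) (nat_lit 462)) (XT.lf (nat_lit 0) (nat_lit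 358369044) (nat_lit 912) (nat_lit 8014395246) (nat_lit 76) (nat_lit 136846240) (nat_lit 371) (nat_lit 5) (nat_lit 383) (nat_lit 5) (nat_lit 372) (nat_lit 5) (nat_lit 574) (nat_lit 525) (nat_lit 461))) (XT.nd (nat_lit 78) (nat_lit 760) (nat_lit 0) (XT.lf (nat_lit 0) (nat_lit 2784873699) (nat_lit 912) (nat_lit 2532899624) (nat_lit 76) (nat_lit 3266696683) (nat_lit 371) (nat_lit 5) (nat_lit 383) (nat_lit 5) (nat_lit 372) (nat_lit 5) (nat_lit 575) (nat_lit 525) (nat_lit 460)) (XT.lf (nat_lit 0) (nat_lit 3060072084) (nat_lit 760) (nat_lit 2185083352) (nat_lit 836) (nat_lit 3415969374) (nat_lit 361) (nat_lit 5) (nat_lit 371) (nat_lit 5) (nat_lit 372) (nat_lit 5) (nat_lit 576) (nat_lit 525) (nat_lit 459))))))) (XT.nd (nat_lit 1014) (nat_lit 5700) (nat_lit 0) (XT.nd (nat_lit 468) (nat_lit 2736) (nat_lit 0) (XT.nd (nat_lit 234) (nat_lit 1520) (nat_lit 0) (XT.nd (nat_lit 78) (nat_lit 760) (nat_lit 0) (XT.lf (nat_lit 0) (nat_lit 15093527) (nat_lit 760) (nat_lit 7729102104)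 (nat_lit 836) (nat_lit 995329042) (nat_lit 351) (nat_lit 5) (nat_lit 361) (nat_lit 5) (nat_lit 362) (nat_lit 5) (nat_lit 577) (nat_lit 525) (nat_lit 458)) (XT.nd (nat_lit 78) (nat_lit 684) (nat_lit 0) (XT.lf (nat_lit 0) (nat_lit 1472682064) (nat_lit 836) (nat_lit 3062439999) (nat_lit 76) (nat_lit 4283816279) (nat_lit 350) (nat_lit 5) (nat_lit 361) (nat_lit 5) (nat_lit 351) (nat_lit 5) (nat_lit 578) (nat_lit 525) (nat_lit 457)) (XT.lf (nat_lit 0) (nat_lit 2703521680) (nat_lit 684) (nat_lit 1257417269) (nat_lit 760) (nat_lit 4939188338) (nat_lit 341) (nat_lit 5) (nat_lit 350) (nat_lit 5) (nat_lit 351) (nat_lit 5) (nat_lit 579) (nat_lit 525) (nat_lit 456)))) (XT.nd (nat_lit 78) (nat_lit 1520) (nat_lit 0) (XT.lf (nat_lit 0) (nat_lit 6500213752) (nat_lit 760) (nat_lit 408406591) (nat_lit 76) (nat_lit 2074297402) (nat_lit 341) (nat_lit 5) (nat_lit 351) (nat_lit 5) (nat_lit 342) (nat_lit 5) (nat_lit 580) (nat_lit 525) (nat_lit 455)) (XT.nd (nat_lit 78) (nat_lit 684) (nat_lit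 0) (XT.lf (nat_lit 0) (nat_lit 34534418) (nat_lit 836) (nat_lit 3545465660) (nat_lit 76) (nat_lit 5487125141) (nat_lit 330) (nat_lit 5) (nat_lit 341) (nat_lit 5) (nat_lit 331) (nat_lit 5) (nat_lit 581) (nat_lit 525) (nat_lit 454)) (XT.lf (nat_lit 0) (nat_lit 2399977342) (nat_lit 684) (nat_lit 155115188) (nat_lit 760) (nat_lit 6597874360) (nat_lit 321) (nat_lit 5) (nat_lit 330) (nat_lit 5) (nat_lit 331) (nat_lit 5) (nat_lit 582) (nat_lit 525) (nat_lit 453))))) (XT.nd (nat_lit 234) (nat_lit 1368) (nat_lit 0) (XT.nd (nat_lit 78) (nat_lit 1368) (nat_lit 0) (XT.lf (nat_lit 0) (nat_lit 5139879103) (nat_lit 760) (nat_lit 787782274) (nat_lit 76) (nat_lit 3312590248) (nat_lit 321) (nat_lit 5) (nat_lit 331) (nat_lit 5) (nat_lit 322) (nat_lit 5) (nat_lit 583) (nat_lit 525) (nat_lit 452)) (XT.nd (nat_lit 78) (nat_lit 684) (nat_lit 0) (XT.lf (nat_lit 0) (nat_lit 5328041054) (nat_lit 684) (nat_lit 2452757986) (nat_lit 760) (nat_lit 1548396788) (nat_lit 312) (nat_lit 5) (nat_lit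 321) (nat_lit 5) (nat_lit 322) (nat_lit 5) (nat_lit 584) (nat_lit 525) (nat_lit 451)) (XT.lf (nat_lit 0) (nat_lit 1036203023) (nat_lit 684) (nat_lit 7286706638) (nat_lit 76) (nat_lit 1096966413) (nat_lit 303) (nat_lit 5) (nat_lit 312) (nat_lit 5) (nat_lit 304) (nat_lit 5) (nat_lit 585) (nat_lit 525) (nat_lit 450)))) (XT.nd (nat_lit 156) (nat_lit 684) (nat_lit 0) (XT.nd (nat_lit 78) (nat_lit 684) (nat_lit 0) (XT.lf (nat_lit 0) (nat_lit 3664353131) (nat_lit 684) (nat_lit 1132121607) (nat_lit 76) (nat_lit 4715441043) (nat_lit 303) (nat_lit 5) (nat_lit 312) (nat_lit 5) (nat_lit 304) (nat_lit 5) (nat_lit 586) (nat_lit 525) (nat_lit 449)) (XT.lf (nat_lit 0) (nat_lit 5176157053) (nat_lit 684) (nat_lit 1172419032) (nat_lit 760) (nat_lit 3257152334) (nat_lit 294) (nat_lit 5) (nat_lit 303) (nat_lit 5) (nat_lit 304) (nat_lit 5) (nat_lit 587) (nat_lit 525) (nat_lit 448))) (XT.nd (nat_lit 78) (nat_lit 76) (nat_lit 0) (XT.lf (nat_lit 0) (nat_lit 1895514674) (nat_lit 608) (nat_lit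 7197516570) (nat_lit 684) (nat_lit 608257398) (nat_lit 286) (nat_lit 5) (nat_lit 294) (nat_lit 5) (nat_lit 295) (nat_lit 5) (nat_lit 588) (nat_lit 525) (nat_lit 447)) (XT.lf (nat_lit 0) (nat_lit 2074192883) (nat_lit 684) (nat_lit 1450311338) (nat_lit 76) (nat_lit 6273825472) (nat_lit 285) (nat_lit 5) (nat_lit 294) (nat_lit 5) (nat_lit 286) (nat_lit 5) (nat_lit 589) (nat_lit 525) (nat_lit 446)))))) (XT.nd (nat_lit 546) (nat_lit 2660) (nat_lit 0) (XT.nd (nat_lit 234) (nat_lit 1748) (nat_lit 0) (XT.nd (nat_lit 78) (nat_lit 684) (nat_lit 0) (XT.lf (nat_lit 0) (nat_lit 4807557110) (nat_lit 684) (nat_lit 4841226288) (nat_lit 76) (nat_lit 248341723) (nat_lit 277) (nat_lit 5) (nat_lit 286) (nat_lit 5) (nat_lit 278) (nat_lit 5) (nat_lit 590) (nat_lit 525) (nat_lit 445)) (XT.nd (nat_lit 78) (nat_lit 76) (nat_lit 0) (XT.lf (nat_lit 0) (nat_lit 1675480134) (nat_lit 608) (nat_lit 5935335000) (nat_lit 684) (nat_lit 2386778904) (nat_lit 269) (nat_lit 5) (nat_lit 277) (nat_lit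 5) (nat_lit 278) (nat_lit 5) (nat_lit 591) (nat_lit 525) (nat_lit 444)) (XT.lf (nat_lit 0) (nat_lit 369258613) (nat_lit 684) (nat_lit 1751312569) (nat_lit 76) (nat_lit 7979374207) (nat_lit 268) (nat_lit 5) (nat_lit 277) (nat_lit 5) (nat_lit 269) (nat_lit 5) (nat_lit 592) (nat_lit 525) (nat_lit 443)))) (XT.nd (nat_lit 156) (nat_lit 608) (nat_lit 0) (XT.nd (nat_lit 78) (nat_lit 532) (nat_lit 0) (XT.lf (nat_lit 0) (nat_lit 3164377392) (nat_lit 684) (nat_lit 5252192069) (nat_lit 76) (nat_lit 1787142376) (nat_lit 260) (nat_lit 5) (nat_lit 269) (nat_lit 5) (nat_lit 261) (nat_lit 5) (nat_lit 593) (nat_lit 525) (nat_lit 442)) (XT.lf (nat_lit 0) (nat_lit 1471058320) (nat_lit 532) (nat_lit 4551928587) (nat_lit 608) (nat_lit 4286416891) (nat_lit 253) (nat_lit 5) (nat_lit 260) (nat_lit 5) (nat_lit 261) (nat_lit 5) (nat_lit 594) (nat_lit 525) (nat_lit 441))) (XT.nd (nat_lit 78) (nat_lit 608) (nat_lit 0) (XT.lf (nat_lit 0) (nat_lit 8363268400) (nat_lit 532) (nat_lit 583216416)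 (nat_lit 608) (nat_lit 1470572374) (nat_lit 253) (nat_lit 5) (nat_lit 260) (nat_lit 5) (nat_lit 261) (nat_lit 5) (nat_lit 595) (nat_lit 525) (nat_lit 440)) (XT.lf (nat_lit 0) (nat_lit 1410461552) (nat_lit 608) (nat_lit 5664215240) (nat_lit 76) (nat_lit 3451461604) (nat_lit 245) (nat_lit 5) (nat_lit 253) (nat_lit 5) (nat_lit 246) (nat_lit 5) (nat_lit 596) (nat_lit 525) (nat_lit 439))))) (XT.nd (nat_lit 234) (nat_lit 1596) (nat_lit 0) (XT.nd (nat_lit 78) (nat_lit 532) (nat_lit 0) (XT.lf (nat_lit 0) (nat_lit 1273083966) (nat_lit 532) (nat_lit 3055429772) (nat_lit 608) (nat_lit 6308713110) (nat_lit 238) (nat_lit 5) (nat_lit 245) (nat_lit 5) (nat_lit 246) (nat_lit 5) (nat_lit 597) (nat_lit 525) (nat_lit 438)) (XT.nd (nat_lit 78) (nat_lit 532) (nat_lit 0) (XT.lf (nat_lit 0) (nat_lit 7323266102) (nat_lit 608) (nat_lit 2367713670) (nat_lit 76) (nat_lit 1059192284) (nat_lit 238) (nat_lit 5) (nat_lit 246) (nat_lit 5) (nat_lit 239) (nat_lit 5) (nat_lit 598) (nat_lit 525)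 (nat_lit 437)) (XT.lf (nat_lit 0) (nat_lit 4774941049) (nat_lit 532) (nat_lit 5628030647) (nat_lit 608) (nat_lit 461905043) (nat_lit 231) (nat_lit 5) (nat_lit 238) (nat_lit 5) (nat_lit 239) (nat_lit 5) (nat_lit 599) (nat_lit 525) (nat_lit 436)))) (XT.nd (nat_lit 156) (nat_lit 1064) (nat_lit 0) (XT.nd (nat_lit 78) (nat_lit 0) (nat_lit 0) (XT.lf (nat_lit 0) (nat_lit 1072101569) (nat_lit 456) (nat_lit 1453571440) (nat_lit 532) (nat_lit 8455933767) (nat_lit 224) (nat_lit 5) (nat_lit 230) (nat_lit 5) (nat_lit 231) (nat_lit 5) (nat_lit 600) (nat_lit 525) (nat_lit 435)) (XT.lf (nat_lit 0) (nat_lit 5600309123) (nat_lit 532) (nat_lit 2697877941) (nat_lit 76) (nat_lit 2801755094) (nat_lit 224) (nat_lit 5) (nat_lit 231) (nat_lit 5) (nat_lit 225) (nat_lit 5) (nat_lit 601) (nat_lit 525) (nat_lit 434))) (XT.nd (nat_lit 78) (nat_lit 532) (nat_lit 0) (XT.lf (nat_lit 0) (nat_lit 4673952727) (nat_lit 532) (nat_lit 4077105417) (nat_lit 608) (nat_lit 2469295299) (nat_lit 217) (nat_lit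 5) (nat_lit 224) (nat_lit 5) (nat_lit 225) (nat_lit 5) (nat_lit 602) (nat_lit 525) (nat_lit 433)) (XT.lf (nat_lit 0) (nat_lit 613638077) (nat_lit 532) (nat_lit 10486446505) (nat_lit 76) (nat_lit 243006352) (nat_lit 210) (nat_lit 5) (nat_lit 217) (nat_lit 5) (nat_lit 211) (nat_lit 5) (nat_lit 603) (nat_lit 525) (nat_lit 432))))))))
noncomputable def xc91 : XT := (XT.nd (nat_lit 2106) (nat_lit 3420) (nat_lit 0) (XT.nd (nat_lit 1014) (nat_lit 3344) (nat_lit 0) (XT.nd (nat_lit 468) (nat_lit 1748) (nat_lit 0) (XT.nd (nat_lit 234) (nat_lit 912) (nat_lit 0) (XT.nd (nat_lit 78) (nat_lit 912) (nat_lit 0) (XT.lf (nat_lit 0) (nat_lit 3771360748) (nat_lit 532) (nat_lit 3050562359) (nat_lit 76) (nat_lit 4645111245) (nat_lit 210) (nat_lit 5) (nat_lit 217) (nat_lit 5) (nat_lit 211) (nat_lit 5) (nat_lit 604) (nat_lit 525) (nat_lit 431)) (XT.nd (nat_lit 78) (nat_lit 456) (nat_lit 0) (XT.lf (nat_lit 0) (nat_lit 4558529450) (nat_lit 456) (nat_lit 2438738914) (nat_lit 532) (nat_lit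 4596089144) (nat_lit 204) (nat_lit 5) (nat_lit 210) (nat_lit 5) (nat_lit 211) (nat_lit 5) (nat_lit 605) (nat_lit 525) (nat_lit 430)) (XT.lf (nat_lit 0) (nat_lit 598393594) (nat_lit 456) (nat_lit 9702603684) (nat_lit 532) (nat_lit 1420945237) (nat_lit 198) (nat_lit 5) (nat_lit 204) (nat_lit 5) (nat_lit 205) (nat_lit 5) (nat_lit 606) (nat_lit 525) (nat_lit 429)))) (XT.nd (nat_lit 78) (nat_lit 836) (nat_lit 0) (XT.lf (nat_lit 0) (nat_lit 1833238417) (nat_lit 532) (nat_lit 3436353852) (nat_lit 76) (nat_lit 6582484785) (nat_lit 197) (nat_lit 5) (nat_lit 204) (nat_lit 5) (nat_lit 198) (nat_lit 5) (nat_lit 607) (nat_lit 525) (nat_lit 428)) (XT.nd (nat_lit 78) (nat_lit 380) (nat_lit 0) (XT.lf (nat_lit 0) (nat_lit 4418246015) (nat_lit 456) (nat_lit 720119334) (nat_lit 532) (nat_lit 6846164733) (nat_lit 191) (nat_lit 5) (nat_lit 197) (nat_lit 5) (nat_lit 198) (nat_lit 5) (nat_lit 608) (nat_lit 525) (nat_lit 427)) (XT.lf (nat_lit 0) (nat_lit 300637820) (nat_lit 380) (nat_lit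 8235927162) (nat_lit 456) (nat_lit 3582529126) (nat_lit 186) (nat_lit 5) (nat_lit 191) (nat_lit 5) (nat_lit 192) (nat_lit 5) (nat_lit 609) (nat_lit 525) (nat_lit 426))))) (XT.nd (nat_lit 234) (nat_lit 1216) (nat_lit 0) (XT.nd (nat_lit 78) (nat_lit 532) (nat_lit 0) (XT.lf (nat_lit 0) (nat_lit 8387812802) (nat_lit 380) (nat_lit 3647017109) (nat_lit 456) (nat_lit 220878790) (nat_lit 186) (nat_lit 5) (nat_lit 191) (nat_lit 5) (nat_lit 192) (nat_lit 5) (nat_lit 610) (nat_lit 525) (nat_lit 425)) (XT.nd (nat_lit 78) (nat_lit 0) (nat_lit 0) (XT.lf (nat_lit 0) (nat_lit 3177326827) (nat_lit 532) (nat_lit 8159468774) (nat_lit 76) (nat_lit 1057616762) (nat_lit 179) (nat_lit 5) (nat_lit 186) (nat_lit 5) (nat_lit 180) (nat_lit 5) (nat_lit 611) (nat_lit 525) (nat_lit 424)) (XT.lf (nat_lit 0) (nat_lit 6667874622) (nat_lit 532) (nat_lit 43487924) (nat_lit 76) (nat_lit 5823952877) (nat_lit 179) (nat_lit 5) (nat_lit 186) (nat_lit 5) (nat_lit 180) (nat_lit 5) (nat_lit 612) (nat_lit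 525) (nat_lit 423)))) (XT.nd (nat_lit 156) (nat_lit 380) (nat_lit 0) (XT.nd (nat_lit 78) (nat_lit 456) (nat_lit 0) (XT.lf (nat_lit 0) (nat_lit 8309876442) (nat_lit 380) (nat_lit 1949813030) (nat_lit 456) (nat_lit 2418719165) (nat_lit 174) (nat_lit 5) (nat_lit 179) (nat_lit 5) (nat_lit 180) (nat_lit 5) (nat_lit 613) (nat_lit 525) (nat_lit 422)) (XT.lf (nat_lit 0) (nat_lit 1107542864) (nat_lit 456) (nat_lit 8825060777) (nat_lit 76) (nat_lit 2891158949) (nat_lit 168) (nat_lit 5) (nat_lit 174) (nat_lit 5) (nat_lit 169) (nat_lit 5) (nat_lit 614) (nat_lit 525) (nat_lit 421))) (XT.nd (nat_lit 78) (nat_lit 380) (nat_lit 0) (XT.lf (nat_lit 0) (nat_lit 4692117494) (nat_lit 456) (nat_lit 442209061) (nat_lit 76) (nat_lit 7836974977) (nat_lit 168) (nat_lit 5) (nat_lit 174) (nat_lit 5) (nat_lit 169) (nat_lit 5) (nat_lit 615) (nat_lit 525) (nat_lit 420)) (XT.lf (nat_lit 0) (nat_lit 8182135325) (nat_lit 380) (nat_lit 197530744) (nat_lit 456) (nat_lit 4741500656) (nat_lit 163)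 (nat_lit 5) (nat_lit 168) (nat_lit 5) (nat_lit 169) (nat_lit 5) (nat_lit 616) (nat_lit 525) (nat_lit 419)))))) (XT.nd (nat_lit 546) (nat_lit 1368) (nat_lit 0) (XT.nd (nat_lit 234) (nat_lit 1140) (nat_lit 0) (XT.nd (nat_lit 78) (nat_lit 456) (nat_lit 0) (XT.lf (nat_lit 0) (nat_lit 3694400029) (nat_lit 380) (nat_lit 8483246180) (nat_lit 456) (nat_lit 1095650501) (nat_lit 158) (nat_lit 5) (nat_lit 163) (nat_lit 5) (nat_lit 164) (nat_lit 5) (nat_lit 617) (nat_lit 525) (nat_lit 418)) (XT.nd (nat_lit 78) (nat_lit 380) (nat_lit 0) (XT.lf (nat_lit 0) (nat_lit 2601745992) (nat_lit 456) (nat_lit 912595132) (nat_lit 76) (nat_lit 9913527966) (nat_lit 157) (nat_lit 5) (nat_lit 163) (nat_lit 5) (nat_lit 158) (nat_lit 5) (nat_lit 618) (nat_lit 525) (nat_lit 417)) (XT.lf (nat_lit 0) (nat_lit 6399509314) (nat_lit 456) (nat_lit 5603611937) (nat_lit 76) (nat_lit 1581446065) (nat_lit 152) (nat_lit 5) (nat_lit 158) (nat_lit 5) (nat_lit 153) (nat_lit 5) (nat_lit 619) (nat_lit 525) (nat_lit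 416)))) (XT.nd (nat_lit 156) (nat_lit 684) (nat_lit 0) (XT.nd (nat_lit 78) (nat_lit 76) (nat_lit 0) (XT.lf (nat_lit 0) (nat_lit 3307385879) (nat_lit 380) (nat_lit 6995665685) (nat_lit 456) (nat_lit 3440752486) (nat_lit 147) (nat_lit 5) (nat_lit 152) (nat_lit 5) (nat_lit 153) (nat_lit 5) (nat_lit 620) (nat_lit 525) (nat_lit 415)) (XT.lf (nat_lit 0) (nat_lit 390300025) (nat_lit 456) (nat_lit 1468826911) (nat_lit 76) (nat_lit 12046713932) (nat_lit 146) (nat_lit 5) (nat_lit 152) (nat_lit 5) (nat_lit 147) (nat_lit 5) (nat_lit 621) (nat_lit 525) (nat_lit 414))) (XT.nd (nat_lit 78) (nat_lit 380) (nat_lit 0) (XT.lf (nat_lit 0) (nat_lit 4303830684) (nat_lit 380) (nat_lit 6368350500) (nat_lit 76) (nat_lit 3397444754) (nat_lit 142) (nat_lit 5) (nat_lit 147) (nat_lit 5) (nat_lit 143) (nat_lit 5) (nat_lit 622) (nat_lit 525) (nat_lit 413)) (XT.lf (nat_lit 0) (nat_lit 2830266643) (nat_lit 380) (nat_lit 5485476362) (nat_lit 456) (nat_lit 5920542421) (nat_lit 137) (nat_lit 5) (nat_lit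 142) (nat_lit 5) (nat_lit 143) (nat_lit 5) (nat_lit 623) (nat_lit 525) (nat_lit 412))))) (XT.nd (nat_lit 234) (nat_lit 684) (nat_lit 0) (XT.nd (nat_lit 78) (nat_lit 684) (nat_lit 0) (XT.lf (nat_lit 0) (nat_lit 12266719738) (nat_lit 380) (nat_lit 163601104) (nat_lit 456) (nat_lit 1975509637) (nat_lit 137) (nat_lit 5) (nat_lit 142) (nat_lit 5) (nat_lit 143) (nat_lit 5) (nat_lit 624) (nat_lit 525) (nat_lit 411)) (XT.nd (nat_lit 78) (nat_lit 304) (nat_lit 0) (XT.lf (nat_lit 0) (nat_lit 2083838689) (nat_lit 380) (nat_lit 7248125956) (nat_lit 76) (nat_lit 5245291071) (nat_lit 132) (nat_lit 5) (nat_lit 137) (nat_lit 5) (nat_lit 133) (nat_lit 5) (nat_lit 625) (nat_lit 525) (nat_lit 410)) (XT.lf (nat_lit 0) (nat_lit 2246915664) (nat_lit 304) (nat_lit 3961218170) (nat_lit 380) (nat_lit 8543511089) (nat_lit 128) (nat_lit 5) (nat_lit 132) (nat_lit 5) (nat_lit 133) (nat_lit 5) (nat_lit 626) (nat_lit 525) (nat_lit 409)))) (XT.nd (nat_lit 156) (nat_lit 380) (nat_lit 0) (XT.nd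 (nat_lit 78) (nat_lit 304) (nat_lit 0) (XT.lf (nat_lit 0) (nat_lit 10453894117) (nat_lit 380) (nat_lit 2940917047) (nat_lit 76) (nat_lit 1533932016) (nat_lit 128) (nat_lit 5) (nat_lit 133) (nat_lit 5) (nat_lit 129) (nat_lit 5) (nat_lit 627) (nat_lit 525) (nat_lit 408)) (XT.lf (nat_lit 0) (nat_lit 6846053669) (nat_lit 304) (nat_lit 7989756508) (nat_lit 380) (nat_lit 272549246) (nat_lit 124) (nat_lit 5) (nat_lit 128) (nat_lit 5) (nat_lit 129) (nat_lit 5) (nat_lit 628) (nat_lit 525) (nat_lit 407))) (XT.nd (nat_lit 78) (nat_lit 0) (nat_lit 0) (XT.lf (nat_lit 0) (nat_lit 1539736517) (nat_lit 304) (nat_lit 2431887932) (nat_lit 380) (nat_lit 11319213748) (nat_lit 119) (nat_lit 5) (nat_lit 123) (nat_lit 5) (nat_lit 124) (nat_lit 5) (nat_lit 629) (nat_lit 525) (nat_lit 406)) (XT.lf (nat_lit 0) (nat_lit 8354567431) (nat_lit 380) (nat_lit 3881048586) (nat_lit 76) (nat_lit 3240164579) (nat_lit 119) (nat_lit 5) (nat_lit 124) (nat_lit 5) (nat_lit 120) (nat_lit 5) (nat_lit 630)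 (nat_lit 525) (nat_lit 405))))))) (XT.nd (nat_lit 1092) (nat_lit 760) (nat_lit 0) (XT.nd (nat_lit 546) (nat_lit 1140) (nat_lit 0) (XT.nd (nat_lit 234) (nat_lit 836) (nat_lit 0) (XT.nd (nat_lit 78) (nat_lit 380) (nat_lit 0) (XT.lf (nat_lit 0) (nat_lit 6220691227) (nat_lit 304) (nat_lit 6642053081) (nat_lit 380) (nat_lit 2800926804) (nat_lit 115) (nat_lit 5) (nat_lit 119) (nat_lit 5) (nat_lit 120) (nat_lit 5) (nat_lit 631) (nat_lit 525) (nat_lit 404)) (XT.nd (nat_lit 78) (nat_lit 0) (nat_lit 0) (XT.lf (nat_lit 0) (nat_lit 689479439) (nat_lit 304) (nat_lit 907044667) (nat_lit 380) (nat_lit 14258351183) (nat_lit 110) (nat_lit 5) (nat_lit 114) (nat_lit 5) (nat_lit 115) (nat_lit 5) (nat_lit 632) (nat_lit 525) (nat_lit 403)) (XT.lf (nat_lit 0) (nat_lit 6121547089) (nat_lit 380) (nat_lit 4978436265) (nat_lit 76) (nat_lit 4948008090) (nat_lit 110) (nat_lit 5) (nat_lit 115) (nat_lit 5) (nat_lit 111) (nat_lit 5) (nat_lit 633) (nat_lit 525) (nat_lit 402)))) (XT.nd (nat_lit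 156) (nat_lit 608) (nat_lit 0) (XT.nd (nat_lit 78) (nat_lit 0) (nat_lit 0) (XT.lf (nat_lit 0) (nat_lit 5446977804) (nat_lit 228) (nat_lit 5313047721) (nat_lit 304) (nat_lit 5484486007) (nat_lit 107) (nat_lit 5) (nat_lit 110) (nat_lit 5) (nat_lit 111) (nat_lit 5) (nat_lit 634) (nat_lit 525) (nat_lit 401)) (XT.lf (nat_lit 0) (nat_lit 15510397045) (nat_lit 304) (nat_lit 330759179) (nat_lit 76) (nat_lit 603424026) (nat_lit 107) (nat_lit 5) (nat_lit 111) (nat_lit 5) (nat_lit 108) (nat_lit 5) (nat_lit 635) (nat_lit 525) (nat_lit 400))) (XT.nd (nat_lit 78) (nat_lit 228) (nat_lit 0) (XT.lf (nat_lit 0) (nat_lit 3743909933) (nat_lit 380) (nat_lit 6255000737) (nat_lit 76) (nat_lit 6647550883) (nat_lit 102) (nat_lit 5) (nat_lit 107) (nat_lit 5) (nat_lit 103) (nat_lit 5) (nat_lit 636) (nat_lit 525) (nat_lit 399)) (XT.lf (nat_lit 0) (nat_lit 4502891113) (nat_lit 228) (nat_lit 4013711431) (nat_lit 304) (nat_lit 8335384168) (nat_lit 99) (nat_lit 5) (nat_lit 102) (nat_lit 5) (nat_lit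 103) (nat_lit 5) (nat_lit 637) (nat_lit 525) (nat_lit 398))))) (XT.nd (nat_lit 234) (nat_lit 532) (nat_lit 0) (XT.nd (nat_lit 78) (nat_lit 608) (nat_lit 0) (XT.lf (nat_lit 0) (nat_lit 13422720400) (nat_lit 304) (nat_lit 1544223410) (nat_lit 76) (nat_lit 2093919780) (nat_lit 99) (nat_lit 5) (nat_lit 103) (nat_lit 5) (nat_lit 100) (nat_lit 5) (nat_lit 638) (nat_lit 525) (nat_lit 397)) (XT.nd (nat_lit 78) (nat_lit 228) (nat_lit 0) (XT.lf (nat_lit 0) (nat_lit 1209439461) (nat_lit 380) (nat_lit 7734816104) (nat_lit 76) (nat_lit 8328082950) (nat_lit 94) (nat_lit 5) (nat_lit 99) (nat_lit 5) (nat_lit 95) (nat_lit 5) (nat_lit 639) (nat_lit 525) (nat_lit 396)) (XT.lf (nat_lit 0) (nat_lit 3364202642) (nat_lit 228) (nat_lit 2755903617) (nat_lit 304) (nat_lit 11367159379) (nat_lit 91) (nat_lit 5) (nat_lit 94) (nat_lit 5) (nat_lit 95) (nat_lit 5) (nat_lit 640) (nat_lit 525) (nat_lit 395)))) (XT.nd (nat_lit 156) (nat_lit 304) (nat_lit 0) (XT.nd (nat_lit 78) (nat_lit 228) (nat_lit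 0) (XT.lf (nat_lit 0) (nat_lit 11186923200) (nat_lit 304) (nat_lit 2968665820) (nat_lit 76) (nat_lit 3549744142) (nat_lit 91) (nat_lit 5) (nat_lit 95) (nat_lit 5) (nat_lit 92) (nat_lit 5) (nat_lit 641) (nat_lit 525) (nat_lit 394)) (XT.lf (nat_lit 0) (nat_lit 8472441968) (nat_lit 228) (nat_lit 7938834507) (nat_lit 304) (nat_lit 1515362145) (nat_lit 88) (nat_lit 5) (nat_lit 91) (nat_lit 5) (nat_lit 92) (nat_lit 5) (nat_lit 642) (nat_lit 525) (nat_lit 393))) (XT.nd (nat_lit 78) (nat_lit 0) (nat_lit 0) (XT.lf (nat_lit 0) (nat_lit 2004222622) (nat_lit 228) (nat_lit 1552509616) (nat_lit 304) (nat_lit 14594851839) (nat_lit 84) (nat_lit 5) (nat_lit 87) (nat_lit 5) (nat_lit 88) (nat_lit 5) (nat_lit 643) (nat_lit 525) (nat_lit 392)) (XT.lf (nat_lit 0) (nat_lit 8789112525) (nat_lit 304) (nat_lit 4631809137) (nat_lit 76) (nat_lit 4958324306) (nat_lit 84) (nat_lit 5) (nat_lit 88) (nat_lit 5) (nat_lit 85) (nat_lit 5) (nat_lit 644) (nat_lit 525) (nat_lit 391)))))) (XT.nd (nat_lit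 72072) (nat_lit 0) (nat_lit 49704) (XT.nd (nat_lit 234) (nat_lit 228) (nat_lit 0) (XT.nd (nat_lit 78) (nat_lit 304) (nat_lit 0) (XT.lf (nat_lit 0) (nat_lit 7169026493) (nat_lit 228) (nat_lit 6997313423) (nat_lit 304) (nat_lit 4444317729) (nat_lit 81) (nat_lit 5) (nat_lit 84) (nat_lit 5) (nat_lit 85) (nat_lit 5) (nat_lit 645) (nat_lit 525) (nat_lit 390)) (XT.nd (nat_lit 78) (nat_lit 0) (nat_lit 0) (XT.lf (nat_lit 0) (nat_lit 393519655) (nat_lit 228) (nat_lit 417589986) (nat_lit 304) (nat_lit 18035139069) (nat_lit 77) (nat_lit 5) (nat_lit 80) (nat_lit 5) (nat_lit 81) (nat_lit 5) (nat_lit 646) (nat_lit 525) (nat_lit 389)) (XT.lf (nat_lit 0) (nat_lit 6213806102) (nat_lit 304) (nat_lit 6564214676) (nat_lit 76) (nat_lit 6305910389) (nat_lit 77) (nat_lit 5) (nat_lit 81) (nat_lit 5) (nat_lit 78) (nat_lit 5) (nat_lit 647) (nat_lit 525) (nat_lit 388)))) (XT.nd (nat_lit 71682) (nat_lit 0) (nat_lit 51452) (XT.nd (nat_lit 78) (nat_lit 0) (nat_lit 0) (XT.lf (nat_lit 0) (nat_lit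 5604512237) (nat_lit 228) (nat_lit 6142985641) (nat_lit 304) (nat_lit 7578411065) (nat_lit 74) (nat_lit 5) (nat_lit 77) (nat_lit 5) (nat_lit 78) (nat_lit 5) (nat_lit 648) (nat_lit 525) (nat_lit 387)) (XT.lf (nat_lit 0) (nat_lit 17424105765) (nat_lit 304) (nat_lit 1498954131) (nat_lit 76) (nat_lit 649022020) (nat_lit 74) (nat_lit 5) (nat_lit 78) (nat_lit 5) (nat_lit 75) (nat_lit 5) (nat_lit 649) (nat_lit 525) (nat_lit 386))) (XT.nd (nat_lit 78) (nat_lit 0) (nat_lit 0) (XT.lf (nat_lit 0) (nat_lit 1366555773) (nat_lit 532) (nat_lit 944403789) (nat_lit 532) (nat_lit 944403789) (nat_lit 751) (nat_lit 3) (nat_lit 758) (nat_lit 3) (nat_lit 758) (nat_lit 5) (nat_lit 526) (nat_lit 526) (nat_lit 508)) (XT.lf (nat_lit 76) (nat_lit 1354455613) (nat_lit 0) (nat_lit 4035712782) (nat_lit 532) (nat_lit 1132662386) (nat_lit 752) (nat_lit 5) (nat_lit 751) (nat_lit 3) (nat_lit 758) (nat_lit 5) (nat_lit 527) (nat_lit 526) (nat_lit 507))))) (XT.nd (nat_lit 234) (nat_lit 608) (nat_lit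 0) (XT.nd (nat_lit 78) (nat_lit 608) (nat_lit 0) (XT.lf (nat_lit 0) (nat_lit 1487974454) (nat_lit 532) (nat_lit 1893448542) (nat_lit 608) (nat_lit 3154694955) (nat_lit 744) (nat_lit 5) (nat_lit 751) (nat_lit 3) (nat_lit 752) (nat_lit 5) (nat_lit 528) (nat_lit 526) (nat_lit 506)) (XT.nd (nat_lit 78) (nat_lit 608) (nat_lit 0) (XT.lf (nat_lit 76) (nat_lit 1422379062) (nat_lit 0) (nat_lit 2664643437) (nat_lit 608) (nat_lit 2463685635) (nat_lit 745) (nat_lit 5) (nat_lit 744) (nat_lit 5) (nat_lit 752) (nat_lit 5) (nat_lit 529) (nat_lit 526) (nat_lit 505)) (XT.lf (nat_lit 0) (nat_lit 115556166) (nat_lit 608) (nat_lit 1772772558) (nat_lit 684) (nat_lit 4678341771) (nat_lit 736) (nat_lit 5) (nat_lit 744) (nat_lit 5) (nat_lit 745) (nat_lit 5) (nat_lit 530) (nat_lit 526) (nat_lit 504)))) (XT.nd (nat_lit 156) (nat_lit 608) (nat_lit 0) (XT.nd (nat_lit 78) (nat_lit 0) (nat_lit 0) (XT.lf (nat_lit 76) (nat_lit 1619106224) (nat_lit 0) (nat_lit 1038719665) (nat_lit 684) (nat_lit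 3925921589) (nat_lit 737) (nat_lit 5) (nat_lit 736) (nat_lit 5) (nat_lit 745) (nat_lit 5) (nat_lit 531) (nat_lit 526) (nat_lit 503)) (XT.lf (nat_lit 76) (nat_lit 5067379970) (nat_lit 0) (nat_lit 130411947) (nat_lit 684) (nat_lit 1404446583) (nat_lit 737) (nat_lit 5) (nat_lit 736) (nat_lit 5) (nat_lit 745) (nat_lit 5) (nat_lit 532) (nat_lit 526) (nat_lit 502))) (XT.nd (nat_lit 78) (nat_lit 0) (nat_lit 0) (XT.lf (nat_lit 0) (nat_lit 1106066467) (nat_lit 684) (nat_lit 4681656222) (nat_lit 760) (nat_lit 834155806) (nat_lit 728) (nat_lit 5) (nat_lit 737) (nat_lit 5) (nat_lit 738) (nat_lit 5) (nat_lit 533) (nat_lit 526) (nat_lit 501)) (XT.lf (nat_lit 0) (nat_lit 3596241196) (nat_lit 684) (nat_lit 1183186070) (nat_lit 760) (nat_lit 1863342186) (nat_lit 728) (nat_lit 5) (nat_lit 737) (nat_lit 5) (nat_lit 738) (nat_lit 5) (nat_lit 534) (nat_lit 526) (nat_lit 500))))))))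
noncomputable def xc92 : XT := (XT.nd (nat_lit 2106) (nat_lit 15960) (nat_lit 0) (XT.nd (nat_lit 1014) (nat_lit 11552) (nat_lit 0) (XT.nd (nat_lit 468) (nat_lit 3876) (nat_lit 0) (XT.nd (nat_lit 234) (nat_lit 836) (nat_lit 0) (XT.nd (nat_lit 78) (nat_lit 760) (nat_lit 0) (XT.lf (nat_lit 76) (nat_lit 2380336691) (nat_lit 0) (nat_lit 3709580399) (nat_lit 760) (nat_lit 575095979) (nat_lit 729) (nat_lit 5) (nat_lit 728) (nat_lit 5) (nat_lit 738) (nat_lit 5) (nat_lit 535) (nat_lit 526) (nat_lit 499)) (XT.nd (nat_lit 78) (nat_lit 0) (nat_lit 0) (XT.lf (nat_lit 0) (nat_lit 1867048047) (nat_lit 760) (nat_lit 705779478) (nat_lit 836) (nat_lit 4115693779) (nat_lit 718) (nat_lit 5) (nat_lit 728) (nat_lit 5) (nat_lit 729) (nat_lit 5) (nat_lit 536) (nat_lit 526) (nat_lit 498)) (XT.lf (nat_lit 76) (nat_lit 2943491946) (nat_lit 0) (nat_lit 1365970358) (nat_lit 836) (nat_lit 2403787099) (nat_lit 719) (nat_lit 5) (nat_lit 718) (nat_lit 5) (nat_lit 729) (nat_lit 5) (nat_lit 537)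 (nat_lit 526) (nat_lit 497)))) (XT.nd (nat_lit 78) (nat_lit 0) (nat_lit 76) (XT.lf (nat_lit 0) (nat_lit 6758464) (nat_lit 836) (nat_lit 100057453) (nat_lit 912) (nat_lit 6632749587) (nat_lit 707) (nat_lit 5) (nat_lit 718) (nat_lit 5) (nat_lit 719) (nat_lit 5) (nat_lit 538) (nat_lit 526) (nat_lit 496)) (XT.nd (nat_lit 78) (nat_lit 0) (nat_lit 0) (XT.lf (nat_lit 0) (nat_lit 2406758153) (nat_lit 836) (nat_lit 3135843171) (nat_lit 912) (nat_lit 1224028033) (nat_lit 708) (nat_lit 5) (nat_lit 719) (nat_lit 5) (nat_lit 720) (nat_lit 5) (nat_lit 539) (nat_lit 526) (nat_lit 495)) (XT.lf (nat_lit 76) (nat_lit 613816417) (nat_lit 0) (nat_lit 4189083051) (nat_lit 912) (nat_lit 1992379840) (nat_lit 709) (nat_lit 5) (nat_lit 708) (nat_lit 5) (nat_lit 720) (nat_lit 5) (nat_lit 540) (nat_lit 526) (nat_lit 494))))) (XT.nd (nat_lit 234) (nat_lit 3040) (nat_lit 0) (XT.nd (nat_lit 78) (nat_lit 0) (nat_lit 0) (XT.lf (nat_lit 0) (nat_lit 381379793) (nat_lit 912) (nat_lit 2383409675)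 (nat_lit 988) (nat_lit 4060376110) (nat_lit 696) (nat_lit 5) (nat_lit 708) (nat_lit 5) (nat_lit 709) (nat_lit 5) (nat_lit 541) (nat_lit 526) (nat_lit 493)) (XT.nd (nat_lit 78) (nat_lit 0) (nat_lit 76) (XT.lf (nat_lit 76) (nat_lit 1459867840) (nat_lit 0) (nat_lit 1269960988) (nat_lit 988) (nat_lit 4126486723) (nat_lit 697) (nat_lit 5) (nat_lit 696) (nat_lit 5) (nat_lit 709) (nat_lit 5) (nat_lit 542) (nat_lit 526) (nat_lit 492)) (XT.lf (nat_lit 0) (nat_lit 5088362260) (nat_lit 912) (nat_lit 1514878365) (nat_lit 76) (nat_lit 285592662) (nat_lit 697) (nat_lit 5) (nat_lit 709) (nat_lit 5) (nat_lit 698) (nat_lit 5) (nat_lit 543) (nat_lit 526) (nat_lit 491)))) (XT.nd (nat_lit 156) (nat_lit 2128) (nat_lit 0) (XT.nd (nat_lit 78) (nat_lit 0) (nat_lit 0) (XT.lf (nat_lit 0) (nat_lit 534986797) (nat_lit 988) (nat_lit 4495251963) (nat_lit 76) (nat_lit 1892286640) (nat_lit 684) (nat_lit 5) (nat_lit 697) (nat_lit 5) (nat_lit 685) (nat_lit 5) (nat_lit 544) (nat_lit 526) (nat_lit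 490)) (XT.lf (nat_lit 0) (nat_lit 2850189831) (nat_lit 988) (nat_lit 537275448) (nat_lit 76) (nat_lit 3570051833) (nat_lit 684) (nat_lit 5) (nat_lit 697) (nat_lit 5) (nat_lit 685) (nat_lit 5) (nat_lit 545) (nat_lit 526) (nat_lit 489))) (XT.nd (nat_lit 78) (nat_lit 1140) (nat_lit 0) (XT.lf (nat_lit 0) (nat_lit 3509218665) (nat_lit 988) (nat_lit 1673192700) (nat_lit 1064) (nat_lit 1811389537) (nat_lit 671) (nat_lit 5) (nat_lit 684) (nat_lit 5) (nat_lit 685) (nat_lit 5) (nat_lit 546) (nat_lit 526) (nat_lit 488)) (XT.lf (nat_lit 0) (nat_lit 479930325) (nat_lit 1140) (nat_lit 6452076114) (nat_lit 76) (nat_lit 99612916) (nat_lit 656) (nat_lit 5) (nat_lit 671) (nat_lit 5) (nat_lit 657) (nat_lit 5) (nat_lit 547) (nat_lit 526) (nat_lit 487)))))) (XT.nd (nat_lit 546) (nat_lit 6384) (nat_lit 0) (XT.nd (nat_lit 234) (nat_lit 3952) (nat_lit 0) (XT.nd (nat_lit 78) (nat_lit 1216) (nat_lit 0) (XT.lf (nat_lit 0) (nat_lit 2776696297) (nat_lit 1140) (nat_lit 2358759516) (nat_lit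 76) (nat_lit 1934827570) (nat_lit 656) (nat_lit 5) (nat_lit 671) (nat_lit 5) (nat_lit 657) (nat_lit 5) (nat_lit 548) (nat_lit 526) (nat_lit 486)) (XT.nd (nat_lit 78) (nat_lit 76) (nat_lit 0) (XT.lf (nat_lit 0) (nat_lit 1802825534) (nat_lit 1140) (nat_lit 3278505196) (nat_lit 1216) (nat_lit 2029157337) (nat_lit 641) (nat_lit 5) (nat_lit 656) (nat_lit 5) (nat_lit 657) (nat_lit 5) (nat_lit 549) (nat_lit 526) (nat_lit 485)) (XT.lf (nat_lit 0) (nat_lit 243447870) (nat_lit 1216) (nat_lit 1111149901) (nat_lit 76) (nat_lit 5797537113) (nat_lit 640) (nat_lit 5) (nat_lit 656) (nat_lit 5) (nat_lit 641) (nat_lit 5) (nat_lit 550) (nat_lit 526) (nat_lit 484)))) (XT.nd (nat_lit 156) (nat_lit 1444) (nat_lit 0) (XT.nd (nat_lit 78) (nat_lit 1292) (nat_lit 0) (XT.lf (nat_lit 0) (nat_lit 2510726143) (nat_lit 1292) (nat_lit 4038771571) (nat_lit 76) (nat_lit 645326530) (nat_lit 624) (nat_lit 5) (nat_lit 641) (nat_lit 5) (nat_lit 625) (nat_lit 5) (nat_lit 551) (nat_lit 526) (nat_lit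 483)) (XT.lf (nat_lit 0) (nat_lit 241886508) (nat_lit 1292) (nat_lit 4551894042) (nat_lit 1368) (nat_lit 2445183807) (nat_lit 607) (nat_lit 5) (nat_lit 624) (nat_lit 5) (nat_lit 625) (nat_lit 5) (nat_lit 552) (nat_lit 526) (nat_lit 482))) (XT.nd (nat_lit 78) (nat_lit 1444) (nat_lit 0) (XT.lf (nat_lit 0) (nat_lit 4625443826) (nat_lit 1292) (nat_lit 2477228395) (nat_lit 1368) (nat_lit 181716994) (nat_lit 607) (nat_lit 5) (nat_lit 624) (nat_lit 5) (nat_lit 625) (nat_lit 5) (nat_lit 553) (nat_lit 526) (nat_lit 481)) (XT.lf (nat_lit 0) (nat_lit 1737581612) (nat_lit 1368) (nat_lit 326506882) (nat_lit 1444) (nat_lit 5267063820) (nat_lit 588) (nat_lit 5) (nat_lit 606) (nat_lit 5) (nat_lit 607) (nat_lit 5) (nat_lit 554) (nat_lit 526) (nat_lit 480))))) (XT.nd (nat_lit 234) (nat_lit 3344) (nat_lit 0) (XT.nd (nat_lit 78) (nat_lit 3040) (nat_lit 0) (XT.lf (nat_lit 0) (nat_lit 4336870371) (nat_lit 1444) (nat_lit 1171931540) (nat_lit 76) (nat_lit 1870340023) (nat_lit 588) (nat_lit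 5) (nat_lit 607) (nat_lit 5) (nat_lit 589) (nat_lit 5) (nat_lit 555) (nat_lit 526) (nat_lit 479)) (XT.nd (nat_lit 78) (nat_lit 1596) (nat_lit 0) (XT.lf (nat_lit 0) (nat_lit 3342487290) (nat_lit 1444) (nat_lit 3291785336) (nat_lit 1520) (nat_lit 794240478) (nat_lit 569) (nat_lit 5) (nat_lit 588) (nat_lit 5) (nat_lit 589) (nat_lit 5) (nat_lit 556) (nat_lit 526) (nat_lit 478)) (XT.lf (nat_lit 0) (nat_lit 442712269) (nat_lit 1520) (nat_lit 1002813099) (nat_lit 1596) (nat_lit 6033827953) (nat_lit 548) (nat_lit 5) (nat_lit 568) (nat_lit 5) (nat_lit 569) (nat_lit 5) (nat_lit 557) (nat_lit 526) (nat_lit 477)))) (XT.nd (nat_lit 156) (nat_lit 1748) (nat_lit 0) (XT.nd (nat_lit 78) (nat_lit 1596) (nat_lit 0) (XT.lf (nat_lit 0) (nat_lit 3712017910) (nat_lit 1596) (nat_lit 2465688396) (nat_lit 76) (nat_lit 1353552475) (nat_lit 548) (nat_lit 5) (nat_lit 569) (nat_lit 5) (nat_lit 549) (nat_lit 5) (nat_lit 558) (nat_lit 526) (nat_lit 476)) (XT.lf (nat_lit 0) (nat_lit 2181049548)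 (nat_lit 1596) (nat_lit 3820756952) (nat_lit 1672) (nat_lit 1582841192) (nat_lit 527) (nat_lit 5) (nat_lit 548) (nat_lit 5) (nat_lit 549) (nat_lit 5) (nat_lit 559) (nat_lit 526) (nat_lit 475))) (XT.nd (nat_lit 78) (nat_lit 1672) (nat_lit 0) (XT.lf (nat_lit 0) (nat_lit 663261380) (nat_lit 1672) (nat_lit 727191178) (nat_lit 76) (nat_lit 6249082971) (nat_lit 526) (nat_lit 5) (nat_lit 548) (nat_lit 5) (nat_lit 527) (nat_lit 5) (nat_lit 560) (nat_lit 526) (nat_lit 474)) (XT.lf (nat_lit 0) (nat_lit 2925045986) (nat_lit 1748) (nat_lit 3654785826) (nat_lit 76) (nat_lit 1115645374) (nat_lit 504) (nat_lit 5) (nat_lit 527) (nat_lit 5) (nat_lit 505) (nat_lit 5) (nat_lit 561) (nat_lit 526) (nat_lit 473))))))) (XT.nd (nat_lit 1014) (nat_lit 6688) (nat_lit 0) (XT.nd (nat_lit 468) (nat_lit 3572) (nat_lit 0) (XT.nd (nat_lit 234) (nat_lit 2052) (nat_lit 0) (XT.nd (nat_lit 78) (nat_lit 1900) (nat_lit 0) (XT.lf (nat_lit 0) (nat_lit 1129131613) (nat_lit 1748) (nat_lit 4083302154) (nat_lit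 1824) (nat_lit 2540500868) (nat_lit 481) (nat_lit 5) (nat_lit 504) (nat_lit 5) (nat_lit 505) (nat_lit 5) (nat_lit 562) (nat_lit 526) (nat_lit 472)) (XT.nd (nat_lit 78) (nat_lit 1900) (nat_lit 0) (XT.lf (nat_lit 0) (nat_lit 6020732295) (nat_lit 1748) (nat_lit 1508840367) (nat_lit 1824) (nat_lit 282292732) (nat_lit 481) (nat_lit 5) (nat_lit 504) (nat_lit 5) (nat_lit 505) (nat_lit 5) (nat_lit 563) (nat_lit 526) (nat_lit 471)) (XT.lf (nat_lit 0) (nat_lit 1982383672) (nat_lit 1900) (nat_lit 4750835606) (nat_lit 76) (nat_lit 1138740890) (nat_lit 456) (nat_lit 5) (nat_lit 481) (nat_lit 5) (nat_lit 457) (nat_lit 5) (nat_lit 564) (nat_lit 526) (nat_lit 470)))) (XT.nd (nat_lit 78) (nat_lit 988) (nat_lit 0) (XT.lf (nat_lit 0) (nat_lit 175349588) (nat_lit 1064) (nat_lit 4097021412) (nat_lit 1140) (nat_lit 3661176554) (nat_lit 442) (nat_lit 5) (nat_lit 456) (nat_lit 5) (nat_lit 457) (nat_lit 5) (nat_lit 565) (nat_lit 526) (nat_lit 469)) (XT.nd (nat_lit 78) (nat_lit 988) (nat_lit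 0) (XT.lf (nat_lit 0) (nat_lit 5226807694) (nat_lit 1064) (nat_lit 1374323709) (nat_lit 1140) (nat_lit 1395379724) (nat_lit 442) (nat_lit 5) (nat_lit 456) (nat_lit 5) (nat_lit 457) (nat_lit 5) (nat_lit 566) (nat_lit 526) (nat_lit 468)) (XT.lf (nat_lit 0) (nat_lit 889543538) (nat_lit 988) (nat_lit 5764914337) (nat_lit 76) (nat_lit 1406444528) (nat_lit 429) (nat_lit 5) (nat_lit 442) (nat_lit 5) (nat_lit 430) (nat_lit 5) (nat_lit 567) (nat_lit 526) (nat_lit 467))))) (XT.nd (nat_lit 234) (nat_lit 1824) (nat_lit 0) (XT.nd (nat_lit 78) (nat_lit 1748) (nat_lit 0) (XT.lf (nat_lit 0) (nat_lit 3191424725) (nat_lit 988) (nat_lit 682083144) (nat_lit 76) (nat_lit 4253093973) (nat_lit 429) (nat_lit 5) (nat_lit 442) (nat_lit 5) (nat_lit 430) (nat_lit 5) (nat_lit 568) (nat_lit 526) (nat_lit 466)) (XT.nd (nat_lit 78) (nat_lit 836) (nat_lit 0) (XT.lf (nat_lit 0) (nat_lit 4524543577) (nat_lit 912) (nat_lit 1007034525) (nat_lit 988) (nat_lit 2662196085) (nat_lit 417) (nat_lit 5) (nat_lit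 429) (nat_lit 5) (nat_lit 430) (nat_lit 5) (nat_lit 569) (nat_lit 526) (nat_lit 465)) (XT.lf (nat_lit 0) (nat_lit 1552545694) (nat_lit 836) (nat_lit 6356465972) (nat_lit 912) (nat_lit 353472305) (nat_lit 406) (nat_lit 5) (nat_lit 417) (nat_lit 5) (nat_lit 418) (nat_lit 5) (nat_lit 570) (nat_lit 526) (nat_lit 464)))) (XT.nd (nat_lit 156) (nat_lit 912) (nat_lit 0) (XT.nd (nat_lit 78) (nat_lit 836) (nat_lit 0) (XT.lf (nat_lit 0) (nat_lit 1970208710) (nat_lit 912) (nat_lit 1461338003) (nat_lit 76) (nat_lit 4900864112) (nat_lit 405) (nat_lit 5) (nat_lit 417) (nat_lit 5) (nat_lit 406) (nat_lit 5) (nat_lit 571) (nat_lit 526) (nat_lit 463)) (XT.lf (nat_lit 0) (nat_lit 3903906920) (nat_lit 836) (nat_lit 421365970) (nat_lit 912) (nat_lit 4078627076) (nat_lit 394) (nat_lit 5) (nat_lit 405) (nat_lit 5) (nat_lit 406) (nat_lit 5) (nat_lit 572) (nat_lit 526) (nat_lit 462))) (XT.nd (nat_lit 78) (nat_lit 76) (nat_lit 0) (XT.lf (nat_lit 0) (nat_lit 876231092) (nat_lit 836) (nat_lit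 5848707489) (nat_lit 912) (nat_lit 1751933573) (nat_lit 383) (nat_lit 5) (nat_lit 394) (nat_lit 5) (nat_lit 395) (nat_lit 5) (nat_lit 573) (nat_lit 526) (nat_lit 461)) (XT.lf (nat_lit 0) (nat_lit 611288796) (nat_lit 912) (nat_lit 2174606612) (nat_lit 76) (nat_lit 5765367972) (nat_lit 382) (nat_lit 5) (nat_lit 394) (nat_lit 5) (nat_lit 383) (nat_lit 5) (nat_lit 574) (nat_lit 526) (nat_lit 460)))))) (XT.nd (nat_lit 546) (nat_lit 2812) (nat_lit 0) (XT.nd (nat_lit 234) (nat_lit 2280) (nat_lit 0) (XT.nd (nat_lit 78) (nat_lit 760) (nat_lit 0) (XT.lf (nat_lit 0) (nat_lit 2988165079) (nat_lit 912) (nat_lit 5274331325) (nat_lit 76) (nat_lit 364620544) (nat_lit 371) (nat_lit 5) (nat_lit 383) (nat_lit 5) (nat_lit 372) (nat_lit 5) (nat_lit 575) (nat_lit 526) (nat_lit 459)) (XT.nd (nat_lit 78) (nat_lit 0) (nat_lit 0) (XT.lf (nat_lit 0) (nat_lit 263378826) (nat_lit 760) (nat_lit 5150106939) (nat_lit 836) (nat_lit 3290986701) (nat_lit 361) (nat_lit 5) (nat_lit 371) (nat_lit 5)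 (nat_lit 372) (nat_lit 5) (nat_lit 576) (nat_lit 526) (nat_lit 458)) (XT.lf (nat_lit 0) (nat_lit 5946048589) (nat_lit 760) (nat_lit 1943139056) (nat_lit 836) (nat_lit 894152915) (nat_lit 361) (nat_lit 5) (nat_lit 371) (nat_lit 5) (nat_lit 372) (nat_lit 5) (nat_lit 577) (nat_lit 526) (nat_lit 457)))) (XT.nd (nat_lit 156) (nat_lit 1444) (nat_lit 0) (XT.nd (nat_lit 78) (nat_lit 0) (nat_lit 0) (XT.lf (nat_lit 0) (nat_lit 1524613948) (nat_lit 836) (nat_lit 6003516621) (nat_lit 76) (nat_lit 1335570278) (nat_lit 350) (nat_lit 5) (nat_lit 361) (nat_lit 5) (nat_lit 351) (nat_lit 5) (nat_lit 578) (nat_lit 526) (nat_lit 456)) (XT.lf (nat_lit 0) (nat_lit 3979130386) (nat_lit 836) (nat_lit 291520598) (nat_lit 76) (nat_lit 4674914997) (nat_lit 350) (nat_lit 5) (nat_lit 361) (nat_lit 5) (nat_lit 351) (nat_lit 5) (nat_lit 579) (nat_lit 526) (nat_lit 455))) (XT.nd (nat_lit 78) (nat_lit 760) (nat_lit 0) (XT.lf (nat_lit 0) (nat_lit 5571127629) (nat_lit 684) (nat_lit 915723595) (nat_lit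 760) (nat_lit 2542137646) (nat_lit 341) (nat_lit 5) (nat_lit 350) (nat_lit 5) (nat_lit 351) (nat_lit 5) (nat_lit 580) (nat_lit 526) (nat_lit 454)) (XT.lf (nat_lit 0) (nat_lit 2419366186) (nat_lit 760) (nat_lit 6627614164) (nat_lit 836) (nat_lit 67057471) (nat_lit 331) (nat_lit 5) (nat_lit 341) (nat_lit 5) (nat_lit 342) (nat_lit 5) (nat_lit 581) (nat_lit 526) (nat_lit 453))))) (XT.nd (nat_lit 234) (nat_lit 1368) (nat_lit 0) (XT.nd (nat_lit 78) (nat_lit 1368) (nat_lit 0) (XT.lf (nat_lit 0) (nat_lit 2423192278) (nat_lit 836) (nat_lit 798683264) (nat_lit 76) (nat_lit 5978637690) (nat_lit 330) (nat_lit 5) (nat_lit 341) (nat_lit 5) (nat_lit 331) (nat_lit 5) (nat_lit 582) (nat_lit 526) (nat_lit 452)) (XT.nd (nat_lit 78) (nat_lit 684) (nat_lit 0) (XT.lf (nat_lit 0) (nat_lit 4967341087) (nat_lit 760) (nat_lit 4043345843) (nat_lit 76) (nat_lit 277925042) (nat_lit 321) (nat_lit 5) (nat_lit 331) (nat_lit 5) (nat_lit 322) (nat_lit 5) (nat_lit 583) (nat_lit 526) (nat_lit 451))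 (XT.lf (nat_lit 0) (nat_lit 2010751330) (nat_lit 684) (nat_lit 5560837308) (nat_lit 760) (nat_lit 1806702210) (nat_lit 312) (nat_lit 5) (nat_lit 321) (nat_lit 5) (nat_lit 322) (nat_lit 5) (nat_lit 584) (nat_lit 526) (nat_lit 450)))) (XT.nd (nat_lit 156) (nat_lit 684) (nat_lit 0) (XT.nd (nat_lit 78) (nat_lit 608) (nat_lit 0) (XT.lf (nat_lit 0) (nat_lit 745115364) (nat_lit 760) (nat_lit 1270551135) (nat_lit 76) (nat_lit 7454062714) (nat_lit 311) (nat_lit 5) (nat_lit 321) (nat_lit 5) (nat_lit 312) (nat_lit 5) (nat_lit 585) (nat_lit 526) (nat_lit 449)) (XT.lf (nat_lit 0) (nat_lit 3336864578) (nat_lit 684) (nat_lit 4608062627) (nat_lit 76) (nat_lit 1617570888) (nat_lit 303) (nat_lit 5) (nat_lit 312) (nat_lit 5) (nat_lit 304) (nat_lit 5) (nat_lit 586) (nat_lit 526) (nat_lit 448))) (XT.nd (nat_lit 78) (nat_lit 0) (nat_lit 0) (XT.lf (nat_lit 0) (nat_lit 1635686462) (nat_lit 684) (nat_lit 4347806531) (nat_lit 760) (nat_lit 3673570762) (nat_lit 294) (nat_lit 5) (nat_lit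 303) (nat_lit 5) (nat_lit 304) (nat_lit 5) (nat_lit 587) (nat_lit 526) (nat_lit 447)) (XT.lf (nat_lit 0) (nat_lit 8030461281) (nat_lit 684) (nat_lit 654350964) (nat_lit 760) (nat_lit 1068675561) (nat_lit 294) (nat_lit 5) (nat_lit 303) (nat_lit 5) (nat_lit 304) (nat_lit 5) (nat_lit 588) (nat_lit 526) (nat_lit 446))))))))
noncomputable def xc93 : XT := (XT.nd (nat_lit 2106) (nat_lit 6080) (nat_lit 0) (XT.nd (nat_lit 1014) (nat_lit 4256) (nat_lit 0) (XT.nd (nat_lit 468) (nat_lit 2736) (nat_lit 0) (XT.nd (nat_lit 234) (nat_lit 1292) (nat_lit 0) (XT.nd (nat_lit 78) (nat_lit 608) (nat_lit 0) (XT.lf (nat_lit 0) (nat_lit 1589763339) (nat_lit 684) (nat_lit 5155179429) (nat_lit 76) (nat_lit 3106247940) (nat_lit 285) (nat_lit 5) (nat_lit 294) (nat_lit 5) (nat_lit 286) (nat_lit 5) (nat_lit 589) (nat_lit 526) (nat_lit 445)) (XT.nd (nat_lit 78) (nat_lit 0) (nat_lit 0) (XT.lf (nat_lit 0) (nat_lit 1285266210) (nat_lit 608) (nat_lit 2997626834) (nat_lit 684) (nat_lit 5667898829)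 (nat_lit 277) (nat_lit 5) (nat_lit 285) (nat_lit 5) (nat_lit 286) (nat_lit 5) (nat_lit 590) (nat_lit 526) (nat_lit 444)) (XT.lf (nat_lit 0) (nat_lit 7041837285) (nat_lit 684) (nat_lit 2169424116) (nat_lit 76) (nat_lit 840886690) (nat_lit 277) (nat_lit 5) (nat_lit 286) (nat_lit 5) (nat_lit 278) (nat_lit 5) (nat_lit 591) (nat_lit 526) (nat_lit 443)))) (XT.nd (nat_lit 78) (nat_lit 684) (nat_lit 0) (XT.lf (nat_lit 0) (nat_lit 4459401785) (nat_lit 608) (nat_lit 5417692086) (nat_lit 684) (nat_lit 278016926) (nat_lit 269) (nat_lit 5) (nat_lit 277) (nat_lit 5) (nat_lit 278) (nat_lit 5) (nat_lit 592) (nat_lit 526) (nat_lit 442)) (XT.nd (nat_lit 78) (nat_lit 0) (nat_lit 0) (XT.lf (nat_lit 0) (nat_lit 950485554) (nat_lit 608) (nat_lit 1518814417) (nat_lit 684) (nat_lit 7790643305) (nat_lit 260) (nat_lit 5) (nat_lit 268) (nat_lit 5) (nat_lit 269) (nat_lit 5) (nat_lit 593) (nat_lit 526) (nat_lit 441)) (XT.lf (nat_lit 0) (nat_lit 5294987107) (nat_lit 684) (nat_lit 2613569492)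 (nat_lit 76) (nat_lit 2457738034) (nat_lit 260) (nat_lit 5) (nat_lit 269) (nat_lit 5) (nat_lit 261) (nat_lit 5) (nat_lit 594) (nat_lit 526) (nat_lit 440))))) (XT.nd (nat_lit 234) (nat_lit 1596) (nat_lit 0) (XT.nd (nat_lit 78) (nat_lit 608) (nat_lit 0) (XT.lf (nat_lit 0) (nat_lit 4226095469) (nat_lit 532) (nat_lit 3961834122) (nat_lit 608) (nat_lit 2286630470) (nat_lit 253) (nat_lit 5) (nat_lit 260) (nat_lit 5) (nat_lit 261) (nat_lit 5) (nat_lit 595) (nat_lit 526) (nat_lit 439)) (XT.nd (nat_lit 78) (nat_lit 0) (nat_lit 0) (XT.lf (nat_lit 0) (nat_lit 542058390) (nat_lit 608) (nat_lit 9963384215) (nat_lit 76) (nat_lit 79566479) (nat_lit 245) (nat_lit 5) (nat_lit 253) (nat_lit 5) (nat_lit 246) (nat_lit 5) (nat_lit 596) (nat_lit 526) (nat_lit 438)) (XT.lf (nat_lit 0) (nat_lit 3438774009) (nat_lit 608) (nat_lit 3060537335) (nat_lit 76) (nat_lit 4197213799) (nat_lit 245) (nat_lit 5) (nat_lit 253) (nat_lit 5) (nat_lit 246) (nat_lit 5) (nat_lit 597) (nat_lit 526) (nat_lit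 437)))) (XT.nd (nat_lit 156) (nat_lit 532) (nat_lit 0) (XT.nd (nat_lit 78) (nat_lit 532) (nat_lit 0) (XT.lf (nat_lit 0) (nat_lit 3997633103) (nat_lit 532) (nat_lit 2395860692) (nat_lit 608) (nat_lit 4416778066) (nat_lit 238) (nat_lit 5) (nat_lit 245) (nat_lit 5) (nat_lit 246) (nat_lit 5) (nat_lit 598) (nat_lit 526) (nat_lit 436)) (XT.lf (nat_lit 0) (nat_lit 268957387) (nat_lit 532) (nat_lit 9146725090) (nat_lit 608) (nat_lit 1510445245) (nat_lit 231) (nat_lit 5) (nat_lit 238) (nat_lit 5) (nat_lit 239) (nat_lit 5) (nat_lit 599) (nat_lit 526) (nat_lit 435))) (XT.nd (nat_lit 78) (nat_lit 456) (nat_lit 0) (XT.lf (nat_lit 0) (nat_lit 1471270334) (nat_lit 608) (nat_lit 3519957088) (nat_lit 76) (nat_lit 6052159589) (nat_lit 230) (nat_lit 5) (nat_lit 238) (nat_lit 5) (nat_lit 231) (nat_lit 5) (nat_lit 600) (nat_lit 526) (nat_lit 434)) (XT.lf (nat_lit 0) (nat_lit 3764573007) (nat_lit 456) (nat_lit 727224530) (nat_lit 532) (nat_lit 6671007826) (nat_lit 224) (nat_lit 5) (nat_lit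 230) (nat_lit 5) (nat_lit 231) (nat_lit 5) (nat_lit 601) (nat_lit 526) (nat_lit 433)))))) (XT.nd (nat_lit 546) (nat_lit 2204) (nat_lit 0) (XT.nd (nat_lit 234) (nat_lit 988) (nat_lit 0) (XT.nd (nat_lit 78) (nat_lit 1064) (nat_lit 0) (XT.lf (nat_lit 0) (nat_lit 7595173878) (nat_lit 532) (nat_lit 100307776) (nat_lit 76) (nat_lit 3588683227) (nat_lit 224) (nat_lit 5) (nat_lit 231) (nat_lit 5) (nat_lit 225) (nat_lit 5) (nat_lit 602) (nat_lit 526) (nat_lit 432)) (XT.nd (nat_lit 78) (nat_lit 532) (nat_lit 0) (XT.lf (nat_lit 0) (nat_lit 7401515244) (nat_lit 532) (nat_lit 3387606057) (nat_lit 608) (nat_lit 618261755) (nat_lit 217) (nat_lit 5) (nat_lit 224) (nat_lit 5) (nat_lit 225) (nat_lit 5) (nat_lit 603) (nat_lit 526) (nat_lit 431)) (XT.lf (nat_lit 0) (nat_lit 2486884382) (nat_lit 532) (nat_lit 8022419647) (nat_lit 76) (nat_lit 1023317164) (nat_lit 210) (nat_lit 5) (nat_lit 217) (nat_lit 5) (nat_lit 211) (nat_lit 5) (nat_lit 604) (nat_lit 526) (nat_lit 430)))) (XT.nd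 (nat_lit 156) (nat_lit 532) (nat_lit 0) (XT.nd (nat_lit 78) (nat_lit 456) (nat_lit 0) (XT.lf (nat_lit 0) (nat_lit 5671271829) (nat_lit 532) (nat_lit 490244402) (nat_lit 76) (nat_lit 5498259239) (nat_lit 210) (nat_lit 5) (nat_lit 217) (nat_lit 5) (nat_lit 211) (nat_lit 5) (nat_lit 605) (nat_lit 526) (nat_lit 429)) (XT.lf (nat_lit 0) (nat_lit 7253783655) (nat_lit 456) (nat_lit 1689047187) (nat_lit 532) (nat_lit 2846173738) (nat_lit 204) (nat_lit 5) (nat_lit 210) (nat_lit 5) (nat_lit 211) (nat_lit 5) (nat_lit 606) (nat_lit 526) (nat_lit 428))) (XT.nd (nat_lit 78) (nat_lit 0) (nat_lit 0) (XT.lf (nat_lit 0) (nat_lit 373910011) (nat_lit 532) (nat_lit 8694745168) (nat_lit 76) (nat_lit 2851725529) (nat_lit 197) (nat_lit 5) (nat_lit 204) (nat_lit 5) (nat_lit 198) (nat_lit 5) (nat_lit 607) (nat_lit 526) (nat_lit 427)) (XT.lf (nat_lit 0) (nat_lit 3638790913) (nat_lit 532) (nat_lit 915017695) (nat_lit 76) (nat_lit 7499830711) (nat_lit 197) (nat_lit 5) (nat_lit 204) (nat_lit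 5) (nat_lit 198) (nat_lit 5) (nat_lit 608) (nat_lit 526) (nat_lit 426))))) (XT.nd (nat_lit 234) (nat_lit 1292) (nat_lit 0) (XT.nd (nat_lit 78) (nat_lit 456) (nat_lit 0) (XT.lf (nat_lit 0) (nat_lit 6992610793) (nat_lit 532) (nat_lit 5110037391) (nat_lit 76) (nat_lit 86443406) (nat_lit 191) (nat_lit 5) (nat_lit 198) (nat_lit 5) (nat_lit 192) (nat_lit 5) (nat_lit 609) (nat_lit 526) (nat_lit 425)) (XT.nd (nat_lit 78) (nat_lit 76) (nat_lit 0) (XT.lf (nat_lit 0) (nat_lit 2892330225) (nat_lit 380) (nat_lit 7553564923) (nat_lit 456) (nat_lit 1880711285) (nat_lit 186) (nat_lit 5) (nat_lit 191) (nat_lit 5) (nat_lit 192) (nat_lit 5) (nat_lit 610) (nat_lit 526) (nat_lit 424)) (XT.lf (nat_lit 0) (nat_lit 1493549677) (nat_lit 456) (nat_lit 1385913914) (nat_lit 76) (nat_lit 9586976924) (nat_lit 185) (nat_lit 5) (nat_lit 191) (nat_lit 5) (nat_lit 186) (nat_lit 5) (nat_lit 611) (nat_lit 526) (nat_lit 423)))) (XT.nd (nat_lit 156) (nat_lit 456) (nat_lit 0) (XT.nd (nat_lit 78) (nat_lit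 380) (nat_lit 0) (XT.lf (nat_lit 0) (nat_lit 4945086653) (nat_lit 532) (nat_lit 5753011117) (nat_lit 76) (nat_lit 1910026623) (nat_lit 179) (nat_lit 5) (nat_lit 186) (nat_lit 5) (nat_lit 180) (nat_lit 5) (nat_lit 612) (nat_lit 526) (nat_lit 422)) (XT.lf (nat_lit 0) (nat_lit 2507794287) (nat_lit 380) (nat_lit 5980517434) (nat_lit 456) (nat_lit 4263878270) (nat_lit 174) (nat_lit 5) (nat_lit 179) (nat_lit 5) (nat_lit 180) (nat_lit 5) (nat_lit 613) (nat_lit 526) (nat_lit 421))) (XT.nd (nat_lit 78) (nat_lit 456) (nat_lit 0) (XT.lf (nat_lit 0) (nat_lit 10978761677) (nat_lit 380) (nat_lit 1140407304) (nat_lit 456) (nat_lit 779633733) (nat_lit 174) (nat_lit 5) (nat_lit 179) (nat_lit 5) (nat_lit 180) (nat_lit 5) (nat_lit 614) (nat_lit 526) (nat_lit 420)) (XT.lf (nat_lit 0) (nat_lit 2784233576) (nat_lit 456) (nat_lit 6465782729) (nat_lit 76) (nat_lit 3797045791) (nat_lit 168) (nat_lit 5) (nat_lit 174) (nat_lit 5) (nat_lit 169) (nat_lit 5) (nat_lit 615) (nat_lit 526) (nat_lit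 419))))))) (XT.nd (nat_lit 1092) (nat_lit 2660) (nat_lit 0) (XT.nd (nat_lit 546) (nat_lit 1444) (nat_lit 0) (XT.nd (nat_lit 234) (nat_lit 1140) (nat_lit 0) (XT.nd (nat_lit 78) (nat_lit 456) (nat_lit 0) (XT.lf (nat_lit 0) (nat_lit 2062049002) (nat_lit 380) (nat_lit 4359396927) (nat_lit 456) (nat_lit 6776488628) (nat_lit 163) (nat_lit 5) (nat_lit 168) (nat_lit 5) (nat_lit 169) (nat_lit 5) (nat_lit 616) (nat_lit 526) (nat_lit 418)) (XT.nd (nat_lit 78) (nat_lit 456) (nat_lit 0) (XT.lf (nat_lit 0) (nat_lit 10157883848) (nat_lit 456) (nat_lit 2540198837) (nat_lit 76) (nat_lit 653213235) (nat_lit 163) (nat_lit 5) (nat_lit 169) (nat_lit 5) (nat_lit 164) (nat_lit 5) (nat_lit 617) (nat_lit 526) (nat_lit 417)) (XT.lf (nat_lit 0) (nat_lit 504172024) (nat_lit 456) (nat_lit 7261900963) (nat_lit 76) (nat_lit 5740614726) (nat_lit 157) (nat_lit 5) (nat_lit 163) (nat_lit 5) (nat_lit 158) (nat_lit 5) (nat_lit 618) (nat_lit 526) (nat_lit 416)))) (XT.nd (nat_lit 156) (nat_lit 760)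 (nat_lit 0) (XT.nd (nat_lit 78) (nat_lit 0) (nat_lit 0) (XT.lf (nat_lit 0) (nat_lit 1541644148) (nat_lit 380) (nat_lit 2697713286) (nat_lit 456) (nat_lit 9425280566) (nat_lit 152) (nat_lit 5) (nat_lit 157) (nat_lit 5) (nat_lit 158) (nat_lit 5) (nat_lit 619) (nat_lit 526) (nat_lit 415)) (XT.lf (nat_lit 0) (nat_lit 8093675491) (nat_lit 456) (nat_lit 3253945346) (nat_lit 76) (nat_lit 2477238874) (nat_lit 152) (nat_lit 5) (nat_lit 158) (nat_lit 5) (nat_lit 153) (nat_lit 5) (nat_lit 620) (nat_lit 526) (nat_lit 414))) (XT.nd (nat_lit 78) (nat_lit 380) (nat_lit 0) (XT.lf (nat_lit 0) (nat_lit 5819076777) (nat_lit 380) (nat_lit 6241380564) (nat_lit 456) (nat_lit 1927121941) (nat_lit 147) (nat_lit 5) (nat_lit 152) (nat_lit 5) (nat_lit 153) (nat_lit 5) (nat_lit 621) (nat_lit 526) (nat_lit 413)) (XT.lf (nat_lit 0) (nat_lit 932029840) (nat_lit 304) (nat_lit 1003197674) (nat_lit 380) (nat_lit 12217916661) (nat_lit 142) (nat_lit 5) (nat_lit 146) (nat_lit 5) (nat_lit 147) (nat_lit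 5) (nat_lit 622) (nat_lit 526) (nat_lit 412))))) (XT.nd (nat_lit 234) (nat_lit 760) (nat_lit 0) (XT.nd (nat_lit 78) (nat_lit 684) (nat_lit 0) (XT.lf (nat_lit 0) (nat_lit 5912301455) (nat_lit 380) (nat_lit 4068962295) (nat_lit 76) (nat_lit 4339237136) (nat_lit 142) (nat_lit 5) (nat_lit 147) (nat_lit 5) (nat_lit 143) (nat_lit 5) (nat_lit 623) (nat_lit 526) (nat_lit 411)) (XT.nd (nat_lit 78) (nat_lit 304) (nat_lit 0) (XT.lf (nat_lit 0) (nat_lit 5297661695) (nat_lit 380) (nat_lit 4692591907) (nat_lit 456) (nat_lit 4500525296) (nat_lit 137) (nat_lit 5) (nat_lit 142) (nat_lit 5) (nat_lit 143) (nat_lit 5) (nat_lit 624) (nat_lit 526) (nat_lit 410)) (XT.lf (nat_lit 0) (nat_lit 209349599) (nat_lit 304) (nat_lit 13954222050) (nat_lit 380) (nat_lit 500615571) (nat_lit 133) (nat_lit 5) (nat_lit 137) (nat_lit 5) (nat_lit 138) (nat_lit 5) (nat_lit 625) (nat_lit 526) (nat_lit 409)))) (XT.nd (nat_lit 156) (nat_lit 380) (nat_lit 0) (XT.nd (nat_lit 78) (nat_lit 304) (nat_lit 0) (XT.lf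 (nat_lit 0) (nat_lit 3605981784) (nat_lit 380) (nat_lit 5001642696) (nat_lit 76) (nat_lit 6231502643) (nat_lit 132) (nat_lit 5) (nat_lit 137) (nat_lit 5) (nat_lit 133) (nat_lit 5) (nat_lit 626) (nat_lit 526) (nat_lit 408)) (XT.lf (nat_lit 0) (nat_lit 4667566561) (nat_lit 304) (nat_lit 3131592222) (nat_lit 380) (nat_lit 7218118675) (nat_lit 128) (nat_lit 5) (nat_lit 132) (nat_lit 5) (nat_lit 133) (nat_lit 5) (nat_lit 627) (nat_lit 526) (nat_lit 407))) (XT.nd (nat_lit 78) (nat_lit 380) (nat_lit 0) (XT.lf (nat_lit 0) (nat_lit 12106857422) (nat_lit 380) (nat_lit 647566674) (nat_lit 76) (nat_lit 2443954358) (nat_lit 128) (nat_lit 5) (nat_lit 133) (nat_lit 5) (nat_lit 129) (nat_lit 5) (nat_lit 628) (nat_lit 526) (nat_lit 406)) (XT.lf (nat_lit 0) (nat_lit 1165926107) (nat_lit 380) (nat_lit 6069852943) (nat_lit 76) (nat_lit 8145918576) (nat_lit 123) (nat_lit 5) (nat_lit 128) (nat_lit 5) (nat_lit 124) (nat_lit 5) (nat_lit 629) (nat_lit 526) (nat_lit 405)))))) (XT.nd (nat_lit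 546) (nat_lit 1064) (nat_lit 0) (XT.nd (nat_lit 234) (nat_lit 988) (nat_lit 0) (XT.nd (nat_lit 78) (nat_lit 304) (nat_lit 0) (XT.lf (nat_lit 0) (nat_lit 3910925910) (nat_lit 304) (nat_lit 1567365949) (nat_lit 380) (nat_lit 10089760092) (nat_lit 119) (nat_lit 5) (nat_lit 123) (nat_lit 5) (nat_lit 124) (nat_lit 5) (nat_lit 630) (nat_lit 526) (nat_lit 404)) (XT.nd (nat_lit 78) (nat_lit 304) (nat_lit 0) (XT.lf (nat_lit 0) (nat_lit 9926721289) (nat_lit 380) (nat_lit 1641935407) (nat_lit 76) (nat_lit 4188481093) (nat_lit 119) (nat_lit 5) (nat_lit 124) (nat_lit 5) (nat_lit 120) (nat_lit 5) (nat_lit 631) (nat_lit 526) (nat_lit 403)) (XT.lf (nat_lit 0) (nat_lit 8646597530) (nat_lit 304) (nat_lit 5865856744) (nat_lit 380) (nat_lit 1436585112) (nat_lit 115) (nat_lit 5) (nat_lit 119) (nat_lit 5) (nat_lit 120) (nat_lit 5) (nat_lit 632) (nat_lit 526) (nat_lit 402)))) (XT.nd (nat_lit 156) (nat_lit 608) (nat_lit 0) (XT.nd (nat_lit 78) (nat_lit 0) (nat_lit 0) (XT.lf (nat_lit 0)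 (nat_lit 3008180420) (nat_lit 304) (nat_lit 9486190) (nat_lit 380) (nat_lit 13126468074) (nat_lit 110) (nat_lit 5) (nat_lit 114) (nat_lit 5) (nat_lit 115) (nat_lit 5) (nat_lit 633) (nat_lit 526) (nat_lit 401)) (XT.lf (nat_lit 0) (nat_lit 7611779354) (nat_lit 380) (nat_lit 2796824425) (nat_lit 76) (nat_lit 5932938652) (nat_lit 110) (nat_lit 5) (nat_lit 115) (nat_lit 5) (nat_lit 111) (nat_lit 5) (nat_lit 634) (nat_lit 526) (nat_lit 400))) (XT.nd (nat_lit 78) (nat_lit 380) (nat_lit 0) (XT.lf (nat_lit 0) (nat_lit 7822090159) (nat_lit 228) (nat_lit 4508831064) (nat_lit 304) (nat_lit 4211314858) (nat_lit 107) (nat_lit 5) (nat_lit 110) (nat_lit 5) (nat_lit 111) (nat_lit 5) (nat_lit 635) (nat_lit 526) (nat_lit 399)) (XT.lf (nat_lit 0) (nat_lit 416046369) (nat_lit 380) (nat_lit 14818689084) (nat_lit 76) (nat_lit 1511682043) (nat_lit 102) (nat_lit 5) (nat_lit 107) (nat_lit 5) (nat_lit 103) (nat_lit 5) (nat_lit 636) (nat_lit 526) (nat_lit 398))))) (XT.nd (nat_lit 234) (nat_lit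 532) (nat_lit 0) (XT.nd (nat_lit 78) (nat_lit 532) (nat_lit 0) (XT.lf (nat_lit 0) (nat_lit 5150798413) (nat_lit 380) (nat_lit 4134528484) (nat_lit 76) (nat_lit 7667374888) (nat_lit 102) (nat_lit 5) (nat_lit 107) (nat_lit 5) (nat_lit 103) (nat_lit 5) (nat_lit 637) (nat_lit 526) (nat_lit 397)) (XT.nd (nat_lit 78) (nat_lit 304) (nat_lit 0) (XT.lf (nat_lit 0) (nat_lit 6823747700) (nat_lit 228) (nat_lit 3183563152) (nat_lit 304) (nat_lit 7155260232) (nat_lit 99) (nat_lit 5) (nat_lit 102) (nat_lit 5) (nat_lit 103) (nat_lit 5) (nat_lit 638) (nat_lit 526) (nat_lit 396)) (XT.lf (nat_lit 0) (nat_lit 640491358) (nat_lit 304) (nat_lit 14355123635) (nat_lit 380) (nat_lit 2380330167) (nat_lit 95) (nat_lit 5) (nat_lit 99) (nat_lit 5) (nat_lit 100) (nat_lit 5) (nat_lit 639) (nat_lit 526) (nat_lit 395)))) (XT.nd (nat_lit 156) (nat_lit 228) (nat_lit 0) (XT.nd (nat_lit 78) (nat_lit 228) (nat_lit 0) (XT.lf (nat_lit 0) (nat_lit 2531232488) (nat_lit 380) (nat_lit 5679544841) (nat_lit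 76) (nat_lit 9381010794) (nat_lit 94) (nat_lit 5) (nat_lit 99) (nat_lit 5) (nat_lit 95) (nat_lit 5) (nat_lit 640) (nat_lit 526) (nat_lit 394)) (XT.lf (nat_lit 0) (nat_lit 5626915020) (nat_lit 228) (nat_lit 1902008559) (nat_lit 304) (nat_lit 10282314875) (nat_lit 91) (nat_lit 5) (nat_lit 94) (nat_lit 5) (nat_lit 95) (nat_lit 5) (nat_lit 641) (nat_lit 526) (nat_lit 393))) (XT.nd (nat_lit 78) (nat_lit 228) (nat_lit 0) (XT.lf (nat_lit 0) (nat_lit 12677639224) (nat_lit 304) (nat_lit 856177464) (nat_lit 76) (nat_lit 4500240260) (nat_lit 91) (nat_lit 5) (nat_lit 95) (nat_lit 5) (nat_lit 92) (nat_lit 5) (nat_lit 642) (nat_lit 526) (nat_lit 392)) (XT.lf (nat_lit 0) (nat_lit 10799463916) (nat_lit 228) (nat_lit 7196181347) (nat_lit 304) (nat_lit 264360788) (nat_lit 88) (nat_lit 5) (nat_lit 91) (nat_lit 5) (nat_lit 92) (nat_lit 5) (nat_lit 643) (nat_lit 526) (nat_lit 391))))))))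
noncomputable def xc94 : XT := (XT.nd (nat_lit 73710) (nat_lit 0) (nat_lit 23408) (XT.nd (nat_lit 72618) (nat_lit 0) (nat_lit 45296) (XT.nd (nat_lit 72072) (nat_lit 0) (nat_lit 49628) (XT.nd (nat_lit 234) (nat_lit 532) (nat_lit 0) (XT.nd (nat_lit 78) (nat_lit 228) (nat_lit 0) (XT.lf (nat_lit 0) (nat_lit 4204421029) (nat_lit 228) (nat_lit 677180558) (nat_lit 304) (nat_lit 13607898651) (nat_lit 84) (nat_lit 5) (nat_lit 87) (nat_lit 5) (nat_lit 88) (nat_lit 5) (nat_lit 644) (nat_lit 526) (nat_lit 390)) (XT.nd (nat_lit 78) (nat_lit 228) (nat_lit 0) (XT.lf (nat_lit 0) (nat_lit 10199815873) (nat_lit 304) (nat_lit 2587832907) (nat_lit 76) (nat_lit 5934443658) (nat_lit 84) (nat_lit 5) (nat_lit 88) (nat_lit 5) (nat_lit 85) (nat_lit 5) (nat_lit 645) (nat_lit 526) (nat_lit 389)) (XT.lf (nat_lit 0) (nat_lit 9434962774) (nat_lit 228) (nat_lit 6239191938) (nat_lit 304) (nat_lit 3284187083) (nat_lit 81) (nat_lit 5) (nat_lit 84) (nat_lit 5) (nat_lit 85) (nat_lit 5) (nat_lit 646)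 (nat_lit 526) (nat_lit 388)))) (XT.nd (nat_lit 78) (nat_lit 228) (nat_lit 0) (XT.lf (nat_lit 0) (nat_lit 2052689742) (nat_lit 304) (nat_lit 16675492602) (nat_lit 76) (nat_lit 470446463) (nat_lit 77) (nat_lit 5) (nat_lit 81) (nat_lit 5) (nat_lit 78) (nat_lit 5) (nat_lit 647) (nat_lit 526) (nat_lit 387)) (XT.nd (nat_lit 78) (nat_lit 228) (nat_lit 0) (XT.lf (nat_lit 0) (nat_lit 7542124778) (nat_lit 304) (nat_lit 4594003345) (nat_lit 76) (nat_lit 7305363838) (nat_lit 77) (nat_lit 5) (nat_lit 81) (nat_lit 5) (nat_lit 78) (nat_lit 5) (nat_lit 648) (nat_lit 526) (nat_lit 386)) (XT.lf (nat_lit 0) (nat_lit 7804272477) (nat_lit 228) (nat_lit 5372163773) (nat_lit 304) (nat_lit 6512074849) (nat_lit 74) (nat_lit 5) (nat_lit 77) (nat_lit 5) (nat_lit 78) (nat_lit 5) (nat_lit 649) (nat_lit 526) (nat_lit 385))))) (XT.nd (nat_lit 234) (nat_lit 684) (nat_lit 0) (XT.nd (nat_lit 78) (nat_lit 608) (nat_lit 0) (XT.lf (nat_lit 0) (nat_lit 362507026) (nat_lit 0) (nat_lit 362507026) (nat_lit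 532) (nat_lit 2542782075) (nat_lit 744) (nat_lit 5) (nat_lit 744) (nat_lit 3) (nat_lit 751) (nat_lit 3) (nat_lit 527) (nat_lit 527) (nat_lit 506)) (XT.nd (nat_lit 78) (nat_lit 608) (nat_lit 0) (XT.lf (nat_lit 0) (nat_lit 3993348457) (nat_lit 0) (nat_lit 24206165) (nat_lit 532) (nat_lit 2531947928) (nat_lit 744) (nat_lit 5) (nat_lit 744) (nat_lit 3) (nat_lit 751) (nat_lit 3) (nat_lit 528) (nat_lit 527) (nat_lit 505)) (XT.lf (nat_lit 0) (nat_lit 13892376) (nat_lit 608) (nat_lit 5831499059) (nat_lit 684) (nat_lit 719457958) (nat_lit 736) (nat_lit 5) (nat_lit 744) (nat_lit 5) (nat_lit 745) (nat_lit 5) (nat_lit 529) (nat_lit 527) (nat_lit 504)))) (XT.nd (nat_lit 156) (nat_lit 684) (nat_lit 0) (XT.nd (nat_lit 78) (nat_lit 0) (nat_lit 0) (XT.lf (nat_lit 0) (nat_lit 2528094126) (nat_lit 608) (nat_lit 2509615620) (nat_lit 684) (nat_lit 1543441467) (nat_lit 736) (nat_lit 5) (nat_lit 744) (nat_lit 5) (nat_lit 745) (nat_lit 5) (nat_lit 530) (nat_lit 527) (nat_lit 503)) (XT.lf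 (nat_lit 76) (nat_lit 854910009) (nat_lit 0) (nat_lit 4178405531) (nat_lit 684) (nat_lit 1565658333) (nat_lit 737) (nat_lit 5) (nat_lit 736) (nat_lit 5) (nat_lit 745) (nat_lit 5) (nat_lit 531) (nat_lit 527) (nat_lit 502))) (XT.nd (nat_lit 78) (nat_lit 0) (nat_lit 0) (XT.lf (nat_lit 0) (nat_lit 911498066) (nat_lit 684) (nat_lit 2338130409) (nat_lit 760) (nat_lit 3368352492) (nat_lit 727) (nat_lit 5) (nat_lit 736) (nat_lit 5) (nat_lit 737) (nat_lit 5) (nat_lit 532) (nat_lit 527) (nat_lit 501)) (XT.lf (nat_lit 76) (nat_lit 1105105782) (nat_lit 0) (nat_lit 2256379719) (nat_lit 760) (nat_lit 3276799649) (nat_lit 728) (nat_lit 5) (nat_lit 727) (nat_lit 5) (nat_lit 737) (nat_lit 5) (nat_lit 533) (nat_lit 527) (nat_lit 500)))))) (XT.nd (nat_lit 546) (nat_lit 2812) (nat_lit 0) (XT.nd (nat_lit 234) (nat_lit 760) (nat_lit 0) (XT.nd (nat_lit 78) (nat_lit 760) (nat_lit 0) (XT.lf (nat_lit 76) (nat_lit 4614189551) (nat_lit 0) (nat_lit 1200039419) (nat_lit 760) (nat_lit 845700116)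 (nat_lit 728) (nat_lit 5) (nat_lit 727) (nat_lit 5) (nat_lit 737) (nat_lit 5) (nat_lit 534) (nat_lit 527) (nat_lit 499)) (XT.nd (nat_lit 78) (nat_lit 0) (nat_lit 76) (XT.lf (nat_lit 76) (nat_lit 1485470811) (nat_lit 0) (nat_lit 75634734) (nat_lit 836) (nat_lit 5121726332) (nat_lit 718) (nat_lit 5) (nat_lit 717) (nat_lit 5) (nat_lit 728) (nat_lit 5) (nat_lit 535) (nat_lit 527) (nat_lit 498)) (XT.lf (nat_lit 0) (nat_lit 3965517790) (nat_lit 760) (nat_lit 1639528414) (nat_lit 836) (nat_lit 1101827118) (nat_lit 718) (nat_lit 5) (nat_lit 728) (nat_lit 5) (nat_lit 729) (nat_lit 5) (nat_lit 536) (nat_lit 527) (nat_lit 497)))) (XT.nd (nat_lit 156) (nat_lit 0) (nat_lit 0) (XT.nd (nat_lit 78) (nat_lit 836) (nat_lit 0) (XT.lf (nat_lit 76) (nat_lit 1979629809) (nat_lit 0) (nat_lit 4392928300) (nat_lit 836) (nat_lit 359754814) (nat_lit 719) (nat_lit 5) (nat_lit 718) (nat_lit 5) (nat_lit 729) (nat_lit 5) (nat_lit 537) (nat_lit 527) (nat_lit 496)) (XT.lf (nat_lit 0) (nat_lit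 1995131520) (nat_lit 836) (nat_lit 1113998636) (nat_lit 912) (nat_lit 3649814336) (nat_lit 707) (nat_lit 5) (nat_lit 718) (nat_lit 5) (nat_lit 719) (nat_lit 5) (nat_lit 538) (nat_lit 527) (nat_lit 495))) (XT.nd (nat_lit 78) (nat_lit 0) (nat_lit 0) (XT.lf (nat_lit 76) (nat_lit 2593956556) (nat_lit 0) (nat_lit 1758051058) (nat_lit 912) (nat_lit 2434866992) (nat_lit 708) (nat_lit 5) (nat_lit 707) (nat_lit 5) (nat_lit 719) (nat_lit 5) (nat_lit 539) (nat_lit 527) (nat_lit 494)) (XT.lf (nat_lit 76) (nat_lit 6356261887) (nat_lit 0) (nat_lit 350991497) (nat_lit 912) (nat_lit 109092801) (nat_lit 708) (nat_lit 5) (nat_lit 707) (nat_lit 5) (nat_lit 719) (nat_lit 5) (nat_lit 540) (nat_lit 527) (nat_lit 493))))) (XT.nd (nat_lit 234) (nat_lit 1976) (nat_lit 0) (XT.nd (nat_lit 78) (nat_lit 0) (nat_lit 0) (XT.lf (nat_lit 0) (nat_lit 2207111105) (nat_lit 912) (nat_lit 3512643403) (nat_lit 988) (nat_lit 1126894088) (nat_lit 696) (nat_lit 5) (nat_lit 708) (nat_lit 5) (nat_lit 709)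 (nat_lit 5) (nat_lit 541) (nat_lit 527) (nat_lit 492)) (XT.nd (nat_lit 78) (nat_lit 0) (nat_lit 0) (XT.lf (nat_lit 76) (nat_lit 297583996) (nat_lit 0) (nat_lit 4223439343) (nat_lit 988) (nat_lit 2357469467) (nat_lit 697) (nat_lit 5) (nat_lit 696) (nat_lit 5) (nat_lit 709) (nat_lit 5) (nat_lit 542) (nat_lit 527) (nat_lit 491)) (XT.lf (nat_lit 76) (nat_lit 4195898149) (nat_lit 0) (nat_lit 2655203612) (nat_lit 988) (nat_lit 60481314) (nat_lit 697) (nat_lit 5) (nat_lit 696) (nat_lit 5) (nat_lit 709) (nat_lit 5) (nat_lit 543) (nat_lit 527) (nat_lit 490)))) (XT.nd (nat_lit 156) (nat_lit 988) (nat_lit 0) (XT.nd (nat_lit 78) (nat_lit 0) (nat_lit 76) (XT.lf (nat_lit 76) (nat_lit 1191913651) (nat_lit 0) (nat_lit 1015350567) (nat_lit 1064) (nat_lit 4738686167) (nat_lit 684) (nat_lit 5) (nat_lit 683) (nat_lit 5) (nat_lit 697) (nat_lit 5) (nat_lit 544) (nat_lit 527) (nat_lit 489)) (XT.lf (nat_lit 0) (nat_lit 4490097827) (nat_lit 988) (nat_lit 1807619358) (nat_lit 76) (nat_lit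 683875534) (nat_lit 684) (nat_lit 5) (nat_lit 697) (nat_lit 5) (nat_lit 685) (nat_lit 5) (nat_lit 545) (nat_lit 527) (nat_lit 488))) (XT.nd (nat_lit 78) (nat_lit 76) (nat_lit 0) (XT.lf (nat_lit 0) (nat_lit 2203960502) (nat_lit 988) (nat_lit 4584612594) (nat_lit 1064) (nat_lit 229981510) (nat_lit 671) (nat_lit 5) (nat_lit 684) (nat_lit 5) (nat_lit 685) (nat_lit 5) (nat_lit 546) (nat_lit 527) (nat_lit 487)) (XT.lf (nat_lit 0) (nat_lit 2011116604) (nat_lit 1064) (nat_lit 785691848) (nat_lit 76) (nat_lit 4259951930) (nat_lit 670) (nat_lit 5) (nat_lit 684) (nat_lit 5) (nat_lit 671) (nat_lit 5) (nat_lit 547) (nat_lit 527) (nat_lit 486))))))) (XT.nd (nat_lit 1014) (nat_lit 10944) (nat_lit 0) (XT.nd (nat_lit 468) (nat_lit 6080) (nat_lit 0) (XT.nd (nat_lit 234) (nat_lit 2584) (nat_lit 0) (XT.nd (nat_lit 78) (nat_lit 1216) (nat_lit 0) (XT.lf (nat_lit 0) (nat_lit 3330266573) (nat_lit 1064) (nat_lit 935689525) (nat_lit 1140) (nat_lit 2830309832) (nat_lit 656) (nat_lit 5) (nat_lit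 670) (nat_lit 5) (nat_lit 671) (nat_lit 5) (nat_lit 548) (nat_lit 527) (nat_lit 485)) (XT.nd (nat_lit 78) (nat_lit 76) (nat_lit 0) (XT.lf (nat_lit 0) (nat_lit 364724601) (nat_lit 1140) (nat_lit 6166297234) (nat_lit 1216) (nat_lit 606243081) (nat_lit 641) (nat_lit 5) (nat_lit 656) (nat_lit 5) (nat_lit 657) (nat_lit 5) (nat_lit 549) (nat_lit 527) (nat_lit 484)) (XT.lf (nat_lit 0) (nat_lit 1623740502) (nat_lit 1216) (nat_lit 2603543758) (nat_lit 76) (nat_lit 2951924717) (nat_lit 640) (nat_lit 5) (nat_lit 656) (nat_lit 5) (nat_lit 641) (nat_lit 5) (nat_lit 550) (nat_lit 527) (nat_lit 483)))) (XT.nd (nat_lit 78) (nat_lit 1368) (nat_lit 0) (XT.lf (nat_lit 0) (nat_lit 1629998846) (nat_lit 1216) (nat_lit 2223348042) (nat_lit 1292) (nat_lit 3369307647) (nat_lit 624) (nat_lit 5) (nat_lit 640) (nat_lit 5) (nat_lit 641) (nat_lit 5) (nat_lit 551) (nat_lit 527) (nat_lit 482)) (XT.nd (nat_lit 78) (nat_lit 1368) (nat_lit 0) (XT.lf (nat_lit 0) (nat_lit 5947545401) (nat_lit 1216)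 (nat_lit 150718177) (nat_lit 1292) (nat_lit 1169296529) (nat_lit 624) (nat_lit 5) (nat_lit 640) (nat_lit 5) (nat_lit 641) (nat_lit 5) (nat_lit 552) (nat_lit 527) (nat_lit 481)) (XT.lf (nat_lit 0) (nat_lit 1047170971) (nat_lit 1368) (nat_lit 4291714855) (nat_lit 76) (nat_lit 1974612642) (nat_lit 606) (nat_lit 5) (nat_lit 624) (nat_lit 5) (nat_lit 607) (nat_lit 5) (nat_lit 553) (nat_lit 527) (nat_lit 480))))) (XT.nd (nat_lit 234) (nat_lit 3192) (nat_lit 0) (XT.nd (nat_lit 78) (nat_lit 1520) (nat_lit 0) (XT.lf (nat_lit 0) (nat_lit 63551121) (nat_lit 1368) (nat_lit 3193694065) (nat_lit 1444) (nat_lit 4103662295) (nat_lit 588) (nat_lit 5) (nat_lit 606) (nat_lit 5) (nat_lit 607) (nat_lit 5) (nat_lit 554) (nat_lit 527) (nat_lit 479)) (XT.nd (nat_lit 78) (nat_lit 1520) (nat_lit 0) (XT.lf (nat_lit 0) (nat_lit 4527724134) (nat_lit 1368) (nat_lit 967842808) (nat_lit 1444) (nat_lit 1914021862) (nat_lit 588) (nat_lit 5) (nat_lit 606) (nat_lit 5) (nat_lit 607) (nat_lit 5) (nat_lit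 555) (nat_lit 527) (nat_lit 478)) (XT.lf (nat_lit 0) (nat_lit 290060194) (nat_lit 1520) (nat_lit 5863817099) (nat_lit 76) (nat_lit 1305833079) (nat_lit 568) (nat_lit 5) (nat_lit 588) (nat_lit 5) (nat_lit 569) (nat_lit 5) (nat_lit 556) (nat_lit 527) (nat_lit 477)))) (XT.nd (nat_lit 156) (nat_lit 1672) (nat_lit 0) (XT.nd (nat_lit 78) (nat_lit 1520) (nat_lit 0) (XT.lf (nat_lit 0) (nat_lit 2495005152) (nat_lit 1520) (nat_lit 1364328227) (nat_lit 76) (nat_lit 3651604519) (nat_lit 568) (nat_lit 5) (nat_lit 588) (nat_lit 5) (nat_lit 569) (nat_lit 5) (nat_lit 557) (nat_lit 527) (nat_lit 476)) (XT.lf (nat_lit 0) (nat_lit 3231315811) (nat_lit 1520) (nat_lit 1491075395) (nat_lit 1596) (nat_lit 2841236591) (nat_lit 548) (nat_lit 5) (nat_lit 568) (nat_lit 5) (nat_lit 569) (nat_lit 5) (nat_lit 558) (nat_lit 527) (nat_lit 475))) (XT.nd (nat_lit 78) (nat_lit 76) (nat_lit 0) (XT.lf (nat_lit 0) (nat_lit 280939060) (nat_lit 1596) (nat_lit 6688432885) (nat_lit 1672) (nat_lit 648503186)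 (nat_lit 527) (nat_lit 5) (nat_lit 548) (nat_lit 5) (nat_lit 549) (nat_lit 5) (nat_lit 559) (nat_lit 527) (nat_lit 474)) (XT.lf (nat_lit 0) (nat_lit 1564707348) (nat_lit 1672) (nat_lit 2684999501) (nat_lit 76) (nat_lit 3423349730) (nat_lit 526) (nat_lit 5) (nat_lit 548) (nat_lit 5) (nat_lit 527) (nat_lit 5) (nat_lit 560) (nat_lit 527) (nat_lit 473)))))) (XT.nd (nat_lit 546) (nat_lit 4484) (nat_lit 0) (XT.nd (nat_lit 234) (nat_lit 2964) (nat_lit 0) (XT.nd (nat_lit 78) (nat_lit 1824) (nat_lit 0) (XT.lf (nat_lit 0) (nat_lit 2046068389) (nat_lit 1672) (nat_lit 1739851409) (nat_lit 1748) (nat_lit 3943892013) (nat_lit 504) (nat_lit 5) (nat_lit 526) (nat_lit 5) (nat_lit 527) (nat_lit 5) (nat_lit 561) (nat_lit 527) (nat_lit 472)) (XT.nd (nat_lit 78) (nat_lit 1824) (nat_lit 0) (XT.lf (nat_lit 0) (nat_lit 6034740405) (nat_lit 1748) (nat_lit 921677284) (nat_lit 76) (nat_lit 831625008) (nat_lit 504) (nat_lit 5) (nat_lit 527) (nat_lit 5) (nat_lit 505) (nat_lit 5) (nat_lit 562)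 (nat_lit 527) (nat_lit 471)) (XT.lf (nat_lit 0) (nat_lit 472380676) (nat_lit 1824) (nat_lit 3911141258) (nat_lit 76) (nat_lit 3463906034) (nat_lit 480) (nat_lit 5) (nat_lit 504) (nat_lit 5) (nat_lit 481) (nat_lit 5) (nat_lit 563) (nat_lit 527) (nat_lit 470)))) (XT.nd (nat_lit 156) (nat_lit 1140) (nat_lit 0) (XT.nd (nat_lit 78) (nat_lit 0) (nat_lit 0) (XT.lf (nat_lit 0) (nat_lit 960365281) (nat_lit 1824) (nat_lit 1732007878) (nat_lit 1900) (nat_lit 5215934529) (nat_lit 456) (nat_lit 5) (nat_lit 480) (nat_lit 5) (nat_lit 481) (nat_lit 5) (nat_lit 564) (nat_lit 527) (nat_lit 469)) (XT.lf (nat_lit 0) (nat_lit 4950836642) (nat_lit 1900) (nat_lit 2031205590) (nat_lit 76) (nat_lit 988485253) (nat_lit 456) (nat_lit 5) (nat_lit 481) (nat_lit 5) (nat_lit 457) (nat_lit 5) (nat_lit 565) (nat_lit 527) (nat_lit 468))) (XT.nd (nat_lit 78) (nat_lit 76) (nat_lit 0) (XT.lf (nat_lit 0) (nat_lit 2974985895) (nat_lit 1064) (nat_lit 4272364593) (nat_lit 1140) (nat_lit 786787396) (nat_lit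 442) (nat_lit 5) (nat_lit 456) (nat_lit 5) (nat_lit 457) (nat_lit 5) (nat_lit 566) (nat_lit 527) (nat_lit 467)) (XT.lf (nat_lit 0) (nat_lit 1447295251) (nat_lit 1140) (nat_lit 36374145) (nat_lit 76) (nat_lit 6615639734) (nat_lit 441) (nat_lit 5) (nat_lit 456) (nat_lit 5) (nat_lit 442) (nat_lit 5) (nat_lit 567) (nat_lit 527) (nat_lit 466))))) (XT.nd (nat_lit 234) (nat_lit 2584) (nat_lit 0) (XT.nd (nat_lit 78) (nat_lit 988) (nat_lit 0) (XT.lf (nat_lit 0) (nat_lit 3720915568) (nat_lit 988) (nat_lit 3062122196) (nat_lit 76) (nat_lit 1382537808) (nat_lit 429) (nat_lit 5) (nat_lit 442) (nat_lit 5) (nat_lit 430) (nat_lit 5) (nat_lit 568) (nat_lit 527) (nat_lit 465)) (XT.nd (nat_lit 78) (nat_lit 76) (nat_lit 0) (XT.lf (nat_lit 0) (nat_lit 2094579734) (nat_lit 912) (nat_lit 3932685787) (nat_lit 988) (nat_lit 2206160214) (nat_lit 417) (nat_lit 5) (nat_lit 429) (nat_lit 5) (nat_lit 430) (nat_lit 5) (nat_lit 569) (nat_lit 527) (nat_lit 464)) (XT.lf (nat_lit 0) (nat_lit 60606646)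 (nat_lit 988) (nat_lit 943651162) (nat_lit 76) (nat_lit 7298678314) (nat_lit 416) (nat_lit 5) (nat_lit 429) (nat_lit 5) (nat_lit 417) (nat_lit 5) (nat_lit 570) (nat_lit 527) (nat_lit 463)))) (XT.nd (nat_lit 156) (nat_lit 912) (nat_lit 0) (XT.nd (nat_lit 78) (nat_lit 836) (nat_lit 0) (XT.lf (nat_lit 0) (nat_lit 2349204612) (nat_lit 912) (nat_lit 4024794724) (nat_lit 76) (nat_lit 1999428332) (nat_lit 405) (nat_lit 5) (nat_lit 417) (nat_lit 5) (nat_lit 406) (nat_lit 5) (nat_lit 571) (nat_lit 527) (nat_lit 462)) (XT.lf (nat_lit 0) (nat_lit 1288094954) (nat_lit 836) (nat_lit 3381859326) (nat_lit 912) (nat_lit 3775650437) (nat_lit 394) (nat_lit 5) (nat_lit 405) (nat_lit 5) (nat_lit 406) (nat_lit 5) (nat_lit 572) (nat_lit 527) (nat_lit 461))) (XT.nd (nat_lit 78) (nat_lit 912) (nat_lit 0) (XT.lf (nat_lit 0) (nat_lit 6725581666) (nat_lit 836) (nat_lit 303988588) (nat_lit 912) (nat_lit 1489809231) (nat_lit 394) (nat_lit 5) (nat_lit 405) (nat_lit 5) (nat_lit 406) (nat_lit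 5) (nat_lit 573) (nat_lit 527) (nat_lit 460)) (XT.lf (nat_lit 0) (nat_lit 839113621) (nat_lit 912) (nat_lit 4929242979) (nat_lit 76) (nat_lit 2825998832) (nat_lit 382) (nat_lit 5) (nat_lit 394) (nat_lit 5) (nat_lit 383) (nat_lit 5) (nat_lit 574) (nat_lit 527) (nat_lit 459))))))))
noncomputable def xc95 : XT := (XT.nd (nat_lit 2106) (nat_lit 8056) (nat_lit 0) (XT.nd (nat_lit 1014) (nat_lit 5548) (nat_lit 0) (XT.nd (nat_lit 468) (nat_lit 2888) (nat_lit 0) (XT.nd (nat_lit 234) (nat_lit 1520) (nat_lit 0) (XT.nd (nat_lit 78) (nat_lit 760) (nat_lit 0) (XT.lf (nat_lit 0) (nat_lit 545733843) (nat_lit 836) (nat_lit 2632941057) (nat_lit 912) (nat_lit 5492281894) (nat_lit 371) (nat_lit 5) (nat_lit 382) (nat_lit 5) (nat_lit 383) (nat_lit 5) (nat_lit 575) (nat_lit 527) (nat_lit 458)) (XT.nd (nat_lit 78) (nat_lit 760) (nat_lit 0) (XT.lf (nat_lit 0) (nat_lit 5568717168) (nat_lit 912) (nat_lit 2592090321) (nat_lit 76) (nat_lit 588211858) (nat_lit 371) (nat_lit 5) (nat_lit 383)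 (nat_lit 5) (nat_lit 372) (nat_lit 5) (nat_lit 576) (nat_lit 527) (nat_lit 457)) (XT.lf (nat_lit 0) (nat_lit 3038033720) (nat_lit 760) (nat_lit 4973064017) (nat_lit 836) (nat_lit 817457566) (nat_lit 361) (nat_lit 5) (nat_lit 371) (nat_lit 5) (nat_lit 372) (nat_lit 5) (nat_lit 577) (nat_lit 527) (nat_lit 456)))) (XT.nd (nat_lit 78) (nat_lit 1444) (nat_lit 0) (XT.lf (nat_lit 0) (nat_lit 1556832259) (nat_lit 836) (nat_lit 140168432) (nat_lit 76) (nat_lit 7212775742) (nat_lit 360) (nat_lit 5) (nat_lit 371) (nat_lit 5) (nat_lit 361) (nat_lit 5) (nat_lit 578) (nat_lit 527) (nat_lit 455)) (XT.nd (nat_lit 78) (nat_lit 684) (nat_lit 0) (XT.lf (nat_lit 0) (nat_lit 3983532383) (nat_lit 836) (nat_lit 3346951462) (nat_lit 76) (nat_lit 1661715401) (nat_lit 350) (nat_lit 5) (nat_lit 361) (nat_lit 5) (nat_lit 351) (nat_lit 5) (nat_lit 579) (nat_lit 527) (nat_lit 454)) (XT.lf (nat_lit 0) (nat_lit 2457065503) (nat_lit 684) (nat_lit 3998410347) (nat_lit 760) (nat_lit 2620863162)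 (nat_lit 341) (nat_lit 5) (nat_lit 350) (nat_lit 5) (nat_lit 351) (nat_lit 5) (nat_lit 580) (nat_lit 527) (nat_lit 453))))) (XT.nd (nat_lit 234) (nat_lit 1368) (nat_lit 0) (XT.nd (nat_lit 78) (nat_lit 1520) (nat_lit 0) (XT.lf (nat_lit 0) (nat_lit 8386832684) (nat_lit 684) (nat_lit 581440970) (nat_lit 760) (nat_lit 194062235) (nat_lit 341) (nat_lit 5) (nat_lit 350) (nat_lit 5) (nat_lit 351) (nat_lit 5) (nat_lit 581) (nat_lit 527) (nat_lit 452)) (XT.nd (nat_lit 78) (nat_lit 684) (nat_lit 0) (XT.lf (nat_lit 0) (nat_lit 2273642724) (nat_lit 836) (nat_lit 4065678127) (nat_lit 76) (nat_lit 2909992400) (nat_lit 330) (nat_lit 5) (nat_lit 341) (nat_lit 5) (nat_lit 331) (nat_lit 5) (nat_lit 582) (nat_lit 527) (nat_lit 451)) (XT.lf (nat_lit 0) (nat_lit 1918785594) (nat_lit 684) (nat_lit 2860568053) (nat_lit 760) (nat_lit 4558828328) (nat_lit 321) (nat_lit 5) (nat_lit 330) (nat_lit 5) (nat_lit 331) (nat_lit 5) (nat_lit 583) (nat_lit 527) (nat_lit 450)))) (XT.nd (nat_lit 156)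 (nat_lit 608) (nat_lit 0) (XT.nd (nat_lit 78) (nat_lit 760) (nat_lit 0) (XT.lf (nat_lit 0) (nat_lit 7337135773) (nat_lit 760) (nat_lit 1390959931) (nat_lit 76) (nat_lit 700695657) (nat_lit 321) (nat_lit 5) (nat_lit 331) (nat_lit 5) (nat_lit 322) (nat_lit 5) (nat_lit 584) (nat_lit 527) (nat_lit 449)) (XT.lf (nat_lit 0) (nat_lit 439927419) (nat_lit 760) (nat_lit 4757462206) (nat_lit 76) (nat_lit 4323357695) (nat_lit 311) (nat_lit 5) (nat_lit 321) (nat_lit 5) (nat_lit 312) (nat_lit 5) (nat_lit 585) (nat_lit 527) (nat_lit 448))) (XT.nd (nat_lit 78) (nat_lit 0) (nat_lit 0) (XT.lf (nat_lit 0) (nat_lit 1414216115) (nat_lit 608) (nat_lit 1569291963) (nat_lit 684) (nat_lit 6630972625) (nat_lit 303) (nat_lit 5) (nat_lit 311) (nat_lit 5) (nat_lit 312) (nat_lit 5) (nat_lit 586) (nat_lit 527) (nat_lit 447)) (XT.lf (nat_lit 0) (nat_lit 5595006613) (nat_lit 684) (nat_lit 1985519781) (nat_lit 76) (nat_lit 2129223678) (nat_lit 303) (nat_lit 5) (nat_lit 312) (nat_lit 5) (nat_lit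 304) (nat_lit 5) (nat_lit 587) (nat_lit 527) (nat_lit 446)))))) (XT.nd (nat_lit 546) (nat_lit 2280) (nat_lit 0) (XT.nd (nat_lit 234) (nat_lit 1900) (nat_lit 0) (XT.nd (nat_lit 78) (nat_lit 684) (nat_lit 0) (XT.lf (nat_lit 0) (nat_lit 4365244395) (nat_lit 684) (nat_lit 3903864182) (nat_lit 760) (nat_lit 1537610981) (nat_lit 294) (nat_lit 5) (nat_lit 303) (nat_lit 5) (nat_lit 304) (nat_lit 5) (nat_lit 588) (nat_lit 527) (nat_lit 445)) (XT.nd (nat_lit 78) (nat_lit 0) (nat_lit 0) (XT.lf (nat_lit 0) (nat_lit 934378713) (nat_lit 608) (nat_lit 133635115) (nat_lit 684) (nat_lit 8837649856) (nat_lit 285) (nat_lit 5) (nat_lit 293) (nat_lit 5) (nat_lit 294) (nat_lit 5) (nat_lit 589) (nat_lit 527) (nat_lit 444)) (XT.lf (nat_lit 0) (nat_lit 3738099294) (nat_lit 684) (nat_lit 2564432745) (nat_lit 76) (nat_lit 3703194719) (nat_lit 285) (nat_lit 5) (nat_lit 294) (nat_lit 5) (nat_lit 286) (nat_lit 5) (nat_lit 590) (nat_lit 527) (nat_lit 443)))) (XT.nd (nat_lit 156) (nat_lit 684)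 (nat_lit 0) (XT.nd (nat_lit 78) (nat_lit 608) (nat_lit 0) (XT.lf (nat_lit 0) (nat_lit 3987099107) (nat_lit 608) (nat_lit 2473866883) (nat_lit 684) (nat_lit 3646839544) (nat_lit 277) (nat_lit 5) (nat_lit 285) (nat_lit 5) (nat_lit 286) (nat_lit 5) (nat_lit 591) (nat_lit 527) (nat_lit 442)) (XT.lf (nat_lit 0) (nat_lit 454262686) (nat_lit 608) (nat_lit 8786463596) (nat_lit 684) (nat_lit 971152870) (nat_lit 269) (nat_lit 5) (nat_lit 277) (nat_lit 5) (nat_lit 278) (nat_lit 5) (nat_lit 592) (nat_lit 527) (nat_lit 441))) (XT.nd (nat_lit 78) (nat_lit 608) (nat_lit 0) (XT.lf (nat_lit 0) (nat_lit 1765715433) (nat_lit 684) (nat_lit 3136842231) (nat_lit 76) (nat_lit 5414635704) (nat_lit 268) (nat_lit 5) (nat_lit 277) (nat_lit 5) (nat_lit 269) (nat_lit 5) (nat_lit 593) (nat_lit 527) (nat_lit 440)) (XT.lf (nat_lit 0) (nat_lit 3622863082) (nat_lit 608) (nat_lit 918514558) (nat_lit 684) (nat_lit 5883168512) (nat_lit 260) (nat_lit 5) (nat_lit 268) (nat_lit 5) (nat_lit 269) (nat_lit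 5) (nat_lit 594) (nat_lit 527) (nat_lit 439))))) (XT.nd (nat_lit 234) (nat_lit 1140) (nat_lit 0) (XT.nd (nat_lit 78) (nat_lit 1140) (nat_lit 0) (XT.lf (nat_lit 0) (nat_lit 7387932377) (nat_lit 684) (nat_lit 28714373) (nat_lit 76) (nat_lit 3117093497) (nat_lit 260) (nat_lit 5) (nat_lit 269) (nat_lit 5) (nat_lit 261) (nat_lit 5) (nat_lit 595) (nat_lit 527) (nat_lit 438)) (XT.nd (nat_lit 78) (nat_lit 608) (nat_lit 0) (XT.lf (nat_lit 0) (nat_lit 6930394370) (nat_lit 532) (nat_lit 3386386994) (nat_lit 608) (nat_lit 327831400) (nat_lit 253) (nat_lit 5) (nat_lit 260) (nat_lit 5) (nat_lit 261) (nat_lit 5) (nat_lit 596) (nat_lit 527) (nat_lit 437)) (XT.lf (nat_lit 0) (nat_lit 2513785073) (nat_lit 608) (nat_lit 7498963459) (nat_lit 76) (nat_lit 744611694) (nat_lit 245) (nat_lit 5) (nat_lit 253) (nat_lit 5) (nat_lit 246) (nat_lit 5) (nat_lit 597) (nat_lit 527) (nat_lit 436)))) (XT.nd (nat_lit 156) (nat_lit 608) (nat_lit 0) (XT.nd (nat_lit 78) (nat_lit 532) (nat_lit 0) (XT.lf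 (nat_lit 0) (nat_lit 5429986270) (nat_lit 608) (nat_lit 510288827) (nat_lit 76) (nat_lit 4931603060) (nat_lit 245) (nat_lit 5) (nat_lit 253) (nat_lit 5) (nat_lit 246) (nat_lit 5) (nat_lit 598) (nat_lit 527) (nat_lit 435)) (XT.lf (nat_lit 0) (nat_lit 6671864368) (nat_lit 532) (nat_lit 1751085022) (nat_lit 608) (nat_lit 2565369964) (nat_lit 238) (nat_lit 5) (nat_lit 245) (nat_lit 5) (nat_lit 246) (nat_lit 5) (nat_lit 599) (nat_lit 527) (nat_lit 434))) (XT.nd (nat_lit 78) (nat_lit 0) (nat_lit 0) (XT.lf (nat_lit 0) (nat_lit 377820777) (nat_lit 608) (nat_lit 8224312419) (nat_lit 76) (nat_lit 2504630432) (nat_lit 230) (nat_lit 5) (nat_lit 238) (nat_lit 5) (nat_lit 231) (nat_lit 5) (nat_lit 600) (nat_lit 527) (nat_lit 433)) (XT.lf (nat_lit 0) (nat_lit 3361743753) (nat_lit 608) (nat_lit 1006044097) (nat_lit 76) (nat_lit 6859126992) (nat_lit 230) (nat_lit 5) (nat_lit 238) (nat_lit 5) (nat_lit 231) (nat_lit 5) (nat_lit 601) (nat_lit 527) (nat_lit 432))))))) (XT.nd (nat_lit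 1092) (nat_lit 3344) (nat_lit 0) (XT.nd (nat_lit 546) (nat_lit 2204) (nat_lit 0) (XT.nd (nat_lit 234) (nat_lit 1444) (nat_lit 0) (XT.nd (nat_lit 78) (nat_lit 608) (nat_lit 0) (XT.lf (nat_lit 0) (nat_lit 6407174545) (nat_lit 456) (nat_lit 15684497) (nat_lit 532) (nat_lit 4926261300) (nat_lit 224) (nat_lit 5) (nat_lit 230) (nat_lit 5) (nat_lit 231) (nat_lit 5) (nat_lit 602) (nat_lit 527) (nat_lit 431)) (XT.nd (nat_lit 78) (nat_lit 76) (nat_lit 0) (XT.lf (nat_lit 0) (nat_lit 2478761137) (nat_lit 532) (nat_lit 7094154859) (nat_lit 608) (nat_lit 1900301079) (nat_lit 217) (nat_lit 5) (nat_lit 224) (nat_lit 5) (nat_lit 225) (nat_lit 5) (nat_lit 603) (nat_lit 527) (nat_lit 430)) (XT.lf (nat_lit 0) (nat_lit 1180311143) (nat_lit 608) (nat_lit 1526025538) (nat_lit 76) (nat_lit 8893112689) (nat_lit 216) (nat_lit 5) (nat_lit 224) (nat_lit 5) (nat_lit 217) (nat_lit 5) (nat_lit 604) (nat_lit 527) (nat_lit 429)))) (XT.nd (nat_lit 156) (nat_lit 532) (nat_lit 0) (XT.nd (nat_lit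 78) (nat_lit 456) (nat_lit 0) (XT.lf (nat_lit 0) (nat_lit 4325331743) (nat_lit 532) (nat_lit 5612937448) (nat_lit 76) (nat_lit 1789122497) (nat_lit 210) (nat_lit 5) (nat_lit 217) (nat_lit 5) (nat_lit 211) (nat_lit 5) (nat_lit 605) (nat_lit 527) (nat_lit 428)) (XT.lf (nat_lit 0) (nat_lit 2046328470) (nat_lit 456) (nat_lit 5505291851) (nat_lit 532) (nat_lit 4305906575) (nat_lit 204) (nat_lit 5) (nat_lit 210) (nat_lit 5) (nat_lit 211) (nat_lit 5) (nat_lit 606) (nat_lit 527) (nat_lit 427))) (XT.nd (nat_lit 78) (nat_lit 532) (nat_lit 0) (XT.lf (nat_lit 0) (nat_lit 9901823205) (nat_lit 456) (nat_lit 955367052) (nat_lit 532) (nat_lit 1132780806) (nat_lit 204) (nat_lit 5) (nat_lit 210) (nat_lit 5) (nat_lit 211) (nat_lit 5) (nat_lit 607) (nat_lit 527) (nat_lit 426)) (XT.lf (nat_lit 0) (nat_lit 2115591866) (nat_lit 532) (nat_lit 6329362391) (nat_lit 76) (nat_lit 3679050461) (nat_lit 197) (nat_lit 5) (nat_lit 204) (nat_lit 5) (nat_lit 198) (nat_lit 5) (nat_lit 608) (nat_lit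 527) (nat_lit 425))))) (XT.nd (nat_lit 234) (nat_lit 1368) (nat_lit 0) (XT.nd (nat_lit 78) (nat_lit 380) (nat_lit 0) (XT.lf (nat_lit 0) (nat_lit 1576850550) (nat_lit 456) (nat_lit 3845153802) (nat_lit 532) (nat_lit 6838401421) (nat_lit 191) (nat_lit 5) (nat_lit 197) (nat_lit 5) (nat_lit 198) (nat_lit 5) (nat_lit 609) (nat_lit 527) (nat_lit 424)) (XT.nd (nat_lit 78) (nat_lit 380) (nat_lit 0) (XT.lf (nat_lit 0) (nat_lit 8820512930) (nat_lit 532) (nat_lit 2710504810) (nat_lit 76) (nat_lit 867999017) (nat_lit 191) (nat_lit 5) (nat_lit 198) (nat_lit 5) (nat_lit 192) (nat_lit 5) (nat_lit 610) (nat_lit 527) (nat_lit 423)) (XT.lf (nat_lit 0) (nat_lit 5435451386) (nat_lit 380) (nat_lit 6890448619) (nat_lit 456) (nat_lit 213723027) (nat_lit 186) (nat_lit 5) (nat_lit 191) (nat_lit 5) (nat_lit 192) (nat_lit 5) (nat_lit 611) (nat_lit 527) (nat_lit 422)))) (XT.nd (nat_lit 156) (nat_lit 836) (nat_lit 0) (XT.nd (nat_lit 78) (nat_lit 0) (nat_lit 0) (XT.lf (nat_lit 0) (nat_lit 1058805880)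 (nat_lit 456) (nat_lit 2120750353) (nat_lit 532) (nat_lit 9503000232) (nat_lit 179) (nat_lit 5) (nat_lit 185) (nat_lit 5) (nat_lit 186) (nat_lit 5) (nat_lit 612) (nat_lit 527) (nat_lit 421)) (XT.lf (nat_lit 0) (nat_lit 6682024998) (nat_lit 532) (nat_lit 3398206832) (nat_lit 76) (nat_lit 2747205938) (nat_lit 179) (nat_lit 5) (nat_lit 186) (nat_lit 5) (nat_lit 180) (nat_lit 5) (nat_lit 613) (nat_lit 527) (nat_lit 420))) (XT.nd (nat_lit 78) (nat_lit 456) (nat_lit 0) (XT.lf (nat_lit 0) (nat_lit 5011565570) (nat_lit 380) (nat_lit 5268361130) (nat_lit 456) (nat_lit 2694783468) (nat_lit 174) (nat_lit 5) (nat_lit 179) (nat_lit 5) (nat_lit 180) (nat_lit 5) (nat_lit 614) (nat_lit 527) (nat_lit 419)) (XT.lf (nat_lit 0) (nat_lit 479875458) (nat_lit 380) (nat_lit 339105081) (nat_lit 456) (nat_lit 12305742660) (nat_lit 168) (nat_lit 5) (nat_lit 173) (nat_lit 5) (nat_lit 174) (nat_lit 5) (nat_lit 615) (nat_lit 527) (nat_lit 418)))))) (XT.nd (nat_lit 546) (nat_lit 1748) (nat_lit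 0) (XT.nd (nat_lit 234) (nat_lit 1216) (nat_lit 0) (XT.nd (nat_lit 78) (nat_lit 380) (nat_lit 0) (XT.lf (nat_lit 0) (nat_lit 4430210302) (nat_lit 456) (nat_lit 4157786519) (nat_lit 76) (nat_lit 4688119025) (nat_lit 168) (nat_lit 5) (nat_lit 174) (nat_lit 5) (nat_lit 169) (nat_lit 5) (nat_lit 616) (nat_lit 527) (nat_lit 417)) (XT.nd (nat_lit 78) (nat_lit 0) (nat_lit 0) (XT.lf (nat_lit 0) (nat_lit 4524566900) (nat_lit 380) (nat_lit 3600138342) (nat_lit 456) (nat_lit 5305611350) (nat_lit 163) (nat_lit 5) (nat_lit 168) (nat_lit 5) (nat_lit 169) (nat_lit 5) (nat_lit 617) (nat_lit 527) (nat_lit 416)) (XT.lf (nat_lit 0) (nat_lit 11910380825) (nat_lit 456) (nat_lit 191632341) (nat_lit 76) (nat_lit 1485243407) (nat_lit 163) (nat_lit 5) (nat_lit 169) (nat_lit 5) (nat_lit 164) (nat_lit 5) (nat_lit 618) (nat_lit 527) (nat_lit 415)))) (XT.nd (nat_lit 156) (nat_lit 380) (nat_lit 0) (XT.nd (nat_lit 78) (nat_lit 380) (nat_lit 0) (XT.lf (nat_lit 0) (nat_lit 2058929137) (nat_lit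 456) (nat_lit 5002950509) (nat_lit 76) (nat_lit 6683972916) (nat_lit 157) (nat_lit 5) (nat_lit 163) (nat_lit 5) (nat_lit 158) (nat_lit 5) (nat_lit 619) (nat_lit 527) (nat_lit 414)) (XT.lf (nat_lit 0) (nat_lit 3960848475) (nat_lit 380) (nat_lit 1893188953) (nat_lit 456) (nat_lit 8053221522) (nat_lit 152) (nat_lit 5) (nat_lit 157) (nat_lit 5) (nat_lit 158) (nat_lit 5) (nat_lit 620) (nat_lit 527) (nat_lit 413))) (XT.nd (nat_lit 78) (nat_lit 380) (nat_lit 0) (XT.lf (nat_lit 0) (nat_lit 9760908469) (nat_lit 456) (nat_lit 952877741) (nat_lit 76) (nat_lit 3357391002) (nat_lit 152) (nat_lit 5) (nat_lit 158) (nat_lit 5) (nat_lit 153) (nat_lit 5) (nat_lit 621) (nat_lit 527) (nat_lit 412)) (XT.lf (nat_lit 0) (nat_lit 8286038070) (nat_lit 380) (nat_lit 5506732556) (nat_lit 456) (nat_lit 444667077) (nat_lit 147) (nat_lit 5) (nat_lit 152) (nat_lit 5) (nat_lit 153) (nat_lit 5) (nat_lit 622) (nat_lit 527) (nat_lit 411))))) (XT.nd (nat_lit 234) (nat_lit 988) (nat_lit 0) (XT.nd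 (nat_lit 78) (nat_lit 380) (nat_lit 0) (XT.lf (nat_lit 0) (nat_lit 3305671999) (nat_lit 304) (nat_lit 155167112) (nat_lit 380) (nat_lit 10945561486) (nat_lit 142) (nat_lit 5) (nat_lit 146) (nat_lit 5) (nat_lit 147) (nat_lit 5) (nat_lit 623) (nat_lit 527) (nat_lit 410)) (XT.nd (nat_lit 78) (nat_lit 380) (nat_lit 0) (XT.lf (nat_lit 0) (nat_lit 7493825221) (nat_lit 380) (nat_lit 1817820190) (nat_lit 76) (nat_lit 5265932957) (nat_lit 142) (nat_lit 5) (nat_lit 147) (nat_lit 5) (nat_lit 143) (nat_lit 5) (nat_lit 624) (nat_lit 527) (nat_lit 409)) (XT.lf (nat_lit 0) (nat_lit 7720790746) (nat_lit 380) (nat_lit 3918898588) (nat_lit 456) (nat_lit 3111846862) (nat_lit 137) (nat_lit 5) (nat_lit 142) (nat_lit 5) (nat_lit 143) (nat_lit 5) (nat_lit 625) (nat_lit 527) (nat_lit 408)))) (XT.nd (nat_lit 156) (nat_lit 608) (nat_lit 0) (XT.nd (nat_lit 78) (nat_lit 0) (nat_lit 0) (XT.lf (nat_lit 0) (nat_lit 947506663) (nat_lit 380) (nat_lit 12396064353) (nat_lit 76) (nat_lit 1584874384)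 (nat_lit 132) (nat_lit 5) (nat_lit 137) (nat_lit 5) (nat_lit 133) (nat_lit 5) (nat_lit 626) (nat_lit 527) (nat_lit 407)) (XT.lf (nat_lit 0) (nat_lit 5101079430) (nat_lit 380) (nat_lit 2803092525) (nat_lit 76) (nat_lit 7203216270) (nat_lit 132) (nat_lit 5) (nat_lit 137) (nat_lit 5) (nat_lit 133) (nat_lit 5) (nat_lit 627) (nat_lit 527) (nat_lit 406))) (XT.nd (nat_lit 78) (nat_lit 304) (nat_lit 0) (XT.lf (nat_lit 0) (nat_lit 7044378660) (nat_lit 304) (nat_lit 2320665520) (nat_lit 380) (nat_lit 5924320115) (nat_lit 128) (nat_lit 5) (nat_lit 132) (nat_lit 5) (nat_lit 133) (nat_lit 5) (nat_lit 628) (nat_lit 527) (nat_lit 405)) (XT.lf (nat_lit 0) (nat_lit 1621580446) (nat_lit 304) (nat_lit 12125760091) (nat_lit 380) (nat_lit 1726979089) (nat_lit 124) (nat_lit 5) (nat_lit 128) (nat_lit 5) (nat_lit 129) (nat_lit 5) (nat_lit 629) (nat_lit 527) (nat_lit 404))))))))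
noncomputable def xc96 : XT := (XT.nd (nat_lit 73710) (nat_lit 0) (nat_lit 34352) (XT.nd (nat_lit 1014) (nat_lit 1292) (nat_lit 0) (XT.nd (nat_lit 468) (nat_lit 1444) (nat_lit 0) (XT.nd (nat_lit 234) (nat_lit 380) (nat_lit 0) (XT.nd (nat_lit 78) (nat_lit 608) (nat_lit 0) (XT.lf (nat_lit 0) (nat_lit 2573597106) (nat_lit 380) (nat_lit 3926838272) (nat_lit 76) (nat_lit 9161151984) (nat_lit 123) (nat_lit 5) (nat_lit 128) (nat_lit 5) (nat_lit 124) (nat_lit 5) (nat_lit 630) (nat_lit 527) (nat_lit 403)) (XT.nd (nat_lit 78) (nat_lit 304) (nat_lit 0) (XT.lf (nat_lit 0) (nat_lit 6238658713) (nat_lit 304) (nat_lit 721012632) (nat_lit 380) (nat_lit 8892249325) (nat_lit 119) (nat_lit 5) (nat_lit 123) (nat_lit 5) (nat_lit 124) (nat_lit 5) (nat_lit 631) (nat_lit 527) (nat_lit 402)) (XT.lf (nat_lit 0) (nat_lit 559334192) (nat_lit 304) (nat_lit 10920055311) (nat_lit 380) (nat_lit 4565753419) (nat_lit 115) (nat_lit 5) (nat_lit 119) (nat_lit 5) (nat_lit 120) (nat_lit 5) (nat_lit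 632) (nat_lit 527) (nat_lit 401)))) (XT.nd (nat_lit 78) (nat_lit 380) (nat_lit 0) (XT.lf (nat_lit 0) (nat_lit 11031652201) (nat_lit 304) (nat_lit 5109435510) (nat_lit 380) (nat_lit 100110904) (nat_lit 115) (nat_lit 5) (nat_lit 119) (nat_lit 5) (nat_lit 120) (nat_lit 5) (nat_lit 633) (nat_lit 527) (nat_lit 400)) (XT.nd (nat_lit 78) (nat_lit 0) (nat_lit 0) (XT.lf (nat_lit 0) (nat_lit 4418938809) (nat_lit 380) (nat_lit 11162158993) (nat_lit 76) (nat_lit 859049419) (nat_lit 110) (nat_lit 5) (nat_lit 115) (nat_lit 5) (nat_lit 111) (nat_lit 5) (nat_lit 634) (nat_lit 527) (nat_lit 399)) (XT.lf (nat_lit 0) (nat_lit 9078702872) (nat_lit 380) (nat_lit 660161370) (nat_lit 76) (nat_lit 6903164516) (nat_lit 110) (nat_lit 5) (nat_lit 115) (nat_lit 5) (nat_lit 111) (nat_lit 5) (nat_lit 635) (nat_lit 527) (nat_lit 398))))) (XT.nd (nat_lit 234) (nat_lit 836) (nat_lit 0) (XT.nd (nat_lit 78) (nat_lit 380) (nat_lit 0) (XT.lf (nat_lit 0) (nat_lit 10156706508) (nat_lit 228) (nat_lit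 3723885029) (nat_lit 304) (nat_lit 2966378459) (nat_lit 107) (nat_lit 5) (nat_lit 110) (nat_lit 5) (nat_lit 111) (nat_lit 5) (nat_lit 636) (nat_lit 527) (nat_lit 397)) (XT.nd (nat_lit 78) (nat_lit 0) (nat_lit 0) (XT.lf (nat_lit 0) (nat_lit 1730259729) (nat_lit 380) (nat_lit 12913521427) (nat_lit 76) (nat_lit 2411399005) (nat_lit 102) (nat_lit 5) (nat_lit 107) (nat_lit 5) (nat_lit 103) (nat_lit 5) (nat_lit 637) (nat_lit 527) (nat_lit 396)) (XT.lf (nat_lit 0) (nat_lit 6534101080) (nat_lit 380) (nat_lit 2058845095) (nat_lit 76) (nat_lit 8673157014) (nat_lit 102) (nat_lit 5) (nat_lit 107) (nat_lit 5) (nat_lit 103) (nat_lit 5) (nat_lit 638) (nat_lit 527) (nat_lit 395)))) (XT.nd (nat_lit 156) (nat_lit 304) (nat_lit 0) (XT.nd (nat_lit 78) (nat_lit 304) (nat_lit 0) (XT.lf (nat_lit 0) (nat_lit 9104396785) (nat_lit 228) (nat_lit 2372164724) (nat_lit 304) (nat_lit 6003832931) (nat_lit 99) (nat_lit 5) (nat_lit 102) (nat_lit 5) (nat_lit 103) (nat_lit 5) (nat_lit 639) (nat_lit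 527) (nat_lit 394)) (XT.lf (nat_lit 0) (nat_lit 2802985530) (nat_lit 304) (nat_lit 13756289108) (nat_lit 380) (nat_lit 1138869402) (nat_lit 95) (nat_lit 5) (nat_lit 99) (nat_lit 5) (nat_lit 100) (nat_lit 5) (nat_lit 640) (nat_lit 527) (nat_lit 393))) (XT.nd (nat_lit 78) (nat_lit 228) (nat_lit 0) (XT.lf (nat_lit 0) (nat_lit 3829073823) (nat_lit 380) (nat_lit 3668983887) (nat_lit 76) (nat_lit 10420578516) (nat_lit 94) (nat_lit 5) (nat_lit 99) (nat_lit 5) (nat_lit 95) (nat_lit 5) (nat_lit 641) (nat_lit 527) (nat_lit 392)) (XT.lf (nat_lit 0) (nat_lit 7849630487) (nat_lit 228) (nat_lit 1066333688) (nat_lit 304) (nat_lit 9226727328) (nat_lit 91) (nat_lit 5) (nat_lit 94) (nat_lit 5) (nat_lit 95) (nat_lit 5) (nat_lit 642) (nat_lit 527) (nat_lit 391)))))) (XT.nd (nat_lit 546) (nat_lit 228) (nat_lit 0) (XT.nd (nat_lit 234) (nat_lit 532) (nat_lit 0) (XT.nd (nat_lit 78) (nat_lit 304) (nat_lit 0) (XT.lf (nat_lit 0) (nat_lit 1230361028) (nat_lit 228) (nat_lit 12926598577) (nat_lit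 304) (nat_lit 4213221486) (nat_lit 88) (nat_lit 5) (nat_lit 91) (nat_lit 5) (nat_lit 92) (nat_lit 5) (nat_lit 643) (nat_lit 527) (nat_lit 390)) (XT.nd (nat_lit 78) (nat_lit 228) (nat_lit 0) (XT.lf (nat_lit 0) (nat_lit 949290253) (nat_lit 304) (nat_lit 5518018253) (nat_lit 76) (nat_lit 12133584618) (nat_lit 87) (nat_lit 5) (nat_lit 91) (nat_lit 5) (nat_lit 88) (nat_lit 5) (nat_lit 644) (nat_lit 527) (nat_lit 389)) (XT.lf (nat_lit 0) (nat_lit 6185455937) (nat_lit 304) (nat_lit 12471578102) (nat_lit 76) (nat_lit 178092514) (nat_lit 84) (nat_lit 5) (nat_lit 88) (nat_lit 5) (nat_lit 85) (nat_lit 5) (nat_lit 645) (nat_lit 527) (nat_lit 388)))) (XT.nd (nat_lit 156) (nat_lit 304) (nat_lit 0) (XT.nd (nat_lit 78) (nat_lit 228) (nat_lit 0) (XT.lf (nat_lit 0) (nat_lit 11590779796) (nat_lit 304) (nat_lit 585944417) (nat_lit 76) (nat_lit 6896032249) (nat_lit 84) (nat_lit 5) (nat_lit 88) (nat_lit 5) (nat_lit 85) (nat_lit 5) (nat_lit 646) (nat_lit 527) (nat_lit 387)) (XT.lf (nat_lit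 0) (nat_lit 11663796355) (nat_lit 228) (nat_lit 5500781088) (nat_lit 304) (nat_lit 2149354678) (nat_lit 81) (nat_lit 5) (nat_lit 84) (nat_lit 5) (nat_lit 85) (nat_lit 5) (nat_lit 647) (nat_lit 527) (nat_lit 386))) (XT.nd (nat_lit 78) (nat_lit 0) (nat_lit 0) (XT.lf (nat_lit 0) (nat_lit 3274177414) (nat_lit 304) (nat_lit 14948712626) (nat_lit 76) (nat_lit 1336066413) (nat_lit 77) (nat_lit 5) (nat_lit 81) (nat_lit 5) (nat_lit 78) (nat_lit 5) (nat_lit 648) (nat_lit 527) (nat_lit 385)) (XT.lf (nat_lit 0) (nat_lit 8850255387) (nat_lit 304) (nat_lit 2665991423) (nat_lit 76) (nat_lit 8290893684) (nat_lit 77) (nat_lit 5) (nat_lit 81) (nat_lit 5) (nat_lit 78) (nat_lit 5) (nat_lit 649) (nat_lit 527) (nat_lit 384))))) (XT.nd (nat_lit 71838) (nat_lit 0) (nat_lit 49552) (XT.nd (nat_lit 71682) (nat_lit 0) (nat_lit 50236) (XT.lf (nat_lit 0) (nat_lit 9966961152) (nat_lit 228) (nat_lit 4620628212) (nat_lit 304) (nat_lit 5471704623) (nat_lit 74) (nat_lit 5) (nat_lit 77) (nat_lit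 5) (nat_lit 78) (nat_lit 5) (nat_lit 650) (nat_lit 527) (nat_lit 383)) (XT.nd (nat_lit 78) (nat_lit 684) (nat_lit 0) (XT.lf (nat_lit 0) (nat_lit 1637982315) (nat_lit 0) (nat_lit 1637982315) (nat_lit 532) (nat_lit 6075812) (nat_lit 744) (nat_lit 5) (nat_lit 744) (nat_lit 3) (nat_lit 751) (nat_lit 3) (nat_lit 528) (nat_lit 528) (nat_lit 504)) (XT.lf (nat_lit 0) (nat_lit 2458393155) (nat_lit 684) (nat_lit 36515998) (nat_lit 684) (nat_lit 4085041136) (nat_lit 735) (nat_lit 3) (nat_lit 744) (nat_lit 3) (nat_lit 744) (nat_lit 5) (nat_lit 529) (nat_lit 528) (nat_lit 503)))) (XT.nd (nat_lit 156) (nat_lit 0) (nat_lit 76) (XT.nd (nat_lit 78) (nat_lit 684) (nat_lit 0) (XT.lf (nat_lit 76) (nat_lit 3290132565) (nat_lit 0) (nat_lit 1644613186) (nat_lit 684) (nat_lit 1662268052) (nat_lit 736) (nat_lit 5) (nat_lit 735) (nat_lit 3) (nat_lit 744) (nat_lit 5) (nat_lit 530) (nat_lit 528) (nat_lit 502)) (XT.lf (nat_lit 76) (nat_lit 30602535) (nat_lit 0) (nat_lit 740775310) (nat_lit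 760) (nat_lit 5844214625) (nat_lit 727) (nat_lit 5) (nat_lit 726) (nat_lit 5) (nat_lit 736) (nat_lit 5) (nat_lit 531) (nat_lit 528) (nat_lit 501))) (XT.nd (nat_lit 78) (nat_lit 0) (nat_lit 0) (XT.lf (nat_lit 0) (nat_lit 3192031045) (nat_lit 684) (nat_lit 3201709690) (nat_lit 760) (nat_lit 241379349) (nat_lit 727) (nat_lit 5) (nat_lit 736) (nat_lit 5) (nat_lit 737) (nat_lit 5) (nat_lit 532) (nat_lit 528) (nat_lit 500)) (XT.lf (nat_lit 76) (nat_lit 212866264) (nat_lit 0) (nat_lit 5392810476) (nat_lit 760) (nat_lit 1050478716) (nat_lit 728) (nat_lit 5) (nat_lit 727) (nat_lit 5) (nat_lit 737) (nat_lit 5) (nat_lit 533) (nat_lit 528) (nat_lit 499))))))) (XT.nd (nat_lit 1014) (nat_lit 10868) (nat_lit 0) (XT.nd (nat_lit 468) (nat_lit 2812) (nat_lit 0) (XT.nd (nat_lit 234) (nat_lit 836) (nat_lit 0) (XT.nd (nat_lit 78) (nat_lit 0) (nat_lit 0) (XT.lf (nat_lit 0) (nat_lit 1332251331) (nat_lit 760) (nat_lit 2982066408) (nat_lit 836) (nat_lit 2363911807) (nat_lit 717) (nat_lit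 5) (nat_lit 727) (nat_lit 5) (nat_lit 728) (nat_lit 5) (nat_lit 534) (nat_lit 528) (nat_lit 498)) (XT.nd (nat_lit 78) (nat_lit 0) (nat_lit 0) (XT.lf (nat_lit 76) (nat_lit 513997196) (nat_lit 0) (nat_lit 3177991823) (nat_lit 836) (nat_lit 3009757134) (nat_lit 718) (nat_lit 5) (nat_lit 717) (nat_lit 5) (nat_lit 728) (nat_lit 5) (nat_lit 535) (nat_lit 528) (nat_lit 497)) (XT.lf (nat_lit 76) (nat_lit 4086461569) (nat_lit 0) (nat_lit 1973494462) (nat_lit 836) (nat_lit 666564492) (nat_lit 718) (nat_lit 5) (nat_lit 717) (nat_lit 5) (nat_lit 728) (nat_lit 5) (nat_lit 536) (nat_lit 528) (nat_lit 496)))) (XT.nd (nat_lit 78) (nat_lit 0) (nat_lit 76) (XT.lf (nat_lit 76) (nat_lit 945739285) (nat_lit 0) (nat_lit 703078139) (nat_lit 912) (nat_lit 5103798379) (nat_lit 707) (nat_lit 5) (nat_lit 706) (nat_lit 5) (nat_lit 718) (nat_lit 5) (nat_lit 537) (nat_lit 528) (nat_lit 495)) (XT.nd (nat_lit 78) (nat_lit 0) (nat_lit 0) (XT.lf (nat_lit 0) (nat_lit 3966134997) (nat_lit 836) (nat_lit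 2183359343) (nat_lit 912) (nat_lit 630367117) (nat_lit 707) (nat_lit 5) (nat_lit 718) (nat_lit 5) (nat_lit 719) (nat_lit 5) (nat_lit 538) (nat_lit 528) (nat_lit 494)) (XT.lf (nat_lit 76) (nat_lit 1493102673) (nat_lit 0) (nat_lit 4795029901) (nat_lit 912) (nat_lit 520360283) (nat_lit 708) (nat_lit 5) (nat_lit 707) (nat_lit 5) (nat_lit 719) (nat_lit 5) (nat_lit 539) (nat_lit 528) (nat_lit 493))))) (XT.nd (nat_lit 234) (nat_lit 1976) (nat_lit 0) (XT.nd (nat_lit 78) (nat_lit 0) (nat_lit 0) (XT.lf (nat_lit 0) (nat_lit 1754253905) (nat_lit 912) (nat_lit 1611590239) (nat_lit 988) (nat_lit 3472439057) (nat_lit 695) (nat_lit 5) (nat_lit 707) (nat_lit 5) (nat_lit 708) (nat_lit 5) (nat_lit 540) (nat_lit 528) (nat_lit 492)) (XT.nd (nat_lit 78) (nat_lit 0) (nat_lit 0) (XT.lf (nat_lit 76) (nat_lit 2156842713) (nat_lit 0) (nat_lit 1870135714) (nat_lit 988) (nat_lit 2842437493) (nat_lit 696) (nat_lit 5) (nat_lit 695) (nat_lit 5) (nat_lit 708) (nat_lit 5) (nat_lit 541) (nat_lit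 528) (nat_lit 491)) (XT.lf (nat_lit 76) (nat_lit 5988431132) (nat_lit 0) (nat_lit 313962449) (nat_lit 988) (nat_lit 599639923) (nat_lit 696) (nat_lit 5) (nat_lit 695) (nat_lit 5) (nat_lit 708) (nat_lit 5) (nat_lit 542) (nat_lit 528) (nat_lit 490)))) (XT.nd (nat_lit 156) (nat_lit 1064) (nat_lit 0) (XT.nd (nat_lit 78) (nat_lit 0) (nat_lit 0) (XT.lf (nat_lit 0) (nat_lit 1640767522) (nat_lit 988) (nat_lit 3989310002) (nat_lit 1064) (nat_lit 1305515536) (nat_lit 683) (nat_lit 5) (nat_lit 696) (nat_lit 5) (nat_lit 697) (nat_lit 5) (nat_lit 543) (nat_lit 528) (nat_lit 489)) (XT.lf (nat_lit 0) (nat_lit 3874264589) (nat_lit 988) (nat_lit 115083769) (nat_lit 1064) (nat_lit 2981276498) (nat_lit 683) (nat_lit 5) (nat_lit 696) (nat_lit 5) (nat_lit 697) (nat_lit 5) (nat_lit 544) (nat_lit 528) (nat_lit 488))) (XT.nd (nat_lit 78) (nat_lit 1064) (nat_lit 0) (XT.lf (nat_lit 76) (nat_lit 3852802332) (nat_lit 0) (nat_lit 2273715359) (nat_lit 1064) (nat_lit 880364280) (nat_lit 684)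 (nat_lit 5) (nat_lit 683) (nat_lit 5) (nat_lit 697) (nat_lit 5) (nat_lit 545) (nat_lit 528) (nat_lit 487)) (XT.lf (nat_lit 76) (nat_lit 824804164) (nat_lit 0) (nat_lit 492691546) (nat_lit 1140) (nat_lit 5727082637) (nat_lit 670) (nat_lit 5) (nat_lit 669) (nat_lit 5) (nat_lit 684) (nat_lit 5) (nat_lit 546) (nat_lit 528) (nat_lit 486)))))) (XT.nd (nat_lit 546) (nat_lit 6080) (nat_lit 0) (XT.nd (nat_lit 234) (nat_lit 3724) (nat_lit 0) (XT.nd (nat_lit 78) (nat_lit 1140) (nat_lit 0) (XT.lf (nat_lit 0) (nat_lit 3527811216) (nat_lit 1064) (nat_lit 2206827560) (nat_lit 76) (nat_lit 1348673798) (nat_lit 670) (nat_lit 5) (nat_lit 684) (nat_lit 5) (nat_lit 671) (nat_lit 5) (nat_lit 547) (nat_lit 528) (nat_lit 485)) (XT.nd (nat_lit 78) (nat_lit 76) (nat_lit 0) (XT.lf (nat_lit 0) (nat_lit 1872699586) (nat_lit 1064) (nat_lit 3876401867) (nat_lit 1140) (nat_lit 1374390583) (nat_lit 656) (nat_lit 5) (nat_lit 670) (nat_lit 5) (nat_lit 671) (nat_lit 5) (nat_lit 548) (nat_lit 528)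 (nat_lit 484)) (XT.lf (nat_lit 0) (nat_lit 805849097) (nat_lit 1140) (nat_lit 1141459675) (nat_lit 76) (nat_lit 5217728402) (nat_lit 655) (nat_lit 5) (nat_lit 670) (nat_lit 5) (nat_lit 656) (nat_lit 5) (nat_lit 549) (nat_lit 528) (nat_lit 483)))) (XT.nd (nat_lit 156) (nat_lit 1368) (nat_lit 0) (XT.nd (nat_lit 78) (nat_lit 1216) (nat_lit 0) (XT.lf (nat_lit 0) (nat_lit 2984189090) (nat_lit 1216) (nat_lit 4161982249) (nat_lit 76) (nat_lit 61607785) (nat_lit 640) (nat_lit 5) (nat_lit 656) (nat_lit 5) (nat_lit 641) (nat_lit 5) (nat_lit 550) (nat_lit 528) (nat_lit 482)) (XT.lf (nat_lit 0) (nat_lit 33048229) (nat_lit 1216) (nat_lit 5147349327) (nat_lit 1292) (nat_lit 2071497792) (nat_lit 624) (nat_lit 5) (nat_lit 640) (nat_lit 5) (nat_lit 641) (nat_lit 5) (nat_lit 551) (nat_lit 528) (nat_lit 481))) (XT.nd (nat_lit 78) (nat_lit 1292) (nat_lit 0) (XT.lf (nat_lit 0) (nat_lit 103983746) (nat_lit 1292) (nat_lit 2964798971) (nat_lit 76) (nat_lit 4228461000) (nat_lit 623) (nat_lit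 5) (nat_lit 640) (nat_lit 5) (nat_lit 624) (nat_lit 5) (nat_lit 552) (nat_lit 528) (nat_lit 480)) (XT.lf (nat_lit 0) (nat_lit 1343057374) (nat_lit 1292) (nat_lit 915685850) (nat_lit 1368) (nat_lit 5085217016) (nat_lit 606) (nat_lit 5) (nat_lit 623) (nat_lit 5) (nat_lit 624) (nat_lit 5) (nat_lit 553) (nat_lit 528) (nat_lit 479))))) (XT.nd (nat_lit 234) (nat_lit 4636) (nat_lit 0) (XT.nd (nat_lit 78) (nat_lit 1444) (nat_lit 0) (XT.lf (nat_lit 0) (nat_lit 4440421243) (nat_lit 1368) (nat_lit 1658295709) (nat_lit 76) (nat_lit 1293222725) (nat_lit 606) (nat_lit 5) (nat_lit 624) (nat_lit 5) (nat_lit 607) (nat_lit 5) (nat_lit 554) (nat_lit 528) (nat_lit 478)) (XT.nd (nat_lit 78) (nat_lit 76) (nat_lit 0) (XT.lf (nat_lit 0) (nat_lit 2766185761) (nat_lit 1368) (nat_lit 3879926562) (nat_lit 1444) (nat_lit 795163743) (nat_lit 588) (nat_lit 5) (nat_lit 606) (nat_lit 5) (nat_lit 607) (nat_lit 5) (nat_lit 555) (nat_lit 528) (nat_lit 477)) (XT.lf (nat_lit 0) (nat_lit 1353796455)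 (nat_lit 1444) (nat_lit 234474028) (nat_lit 76) (nat_lit 5903793177) (nat_lit 587) (nat_lit 5) (nat_lit 606) (nat_lit 5) (nat_lit 588) (nat_lit 5) (nat_lit 556) (nat_lit 528) (nat_lit 476)))) (XT.nd (nat_lit 156) (nat_lit 1672) (nat_lit 0) (XT.nd (nat_lit 78) (nat_lit 1520) (nat_lit 0) (XT.lf (nat_lit 0) (nat_lit 3525768753) (nat_lit 1520) (nat_lit 3237801056) (nat_lit 76) (nat_lit 780383140) (nat_lit 568) (nat_lit 5) (nat_lit 588) (nat_lit 5) (nat_lit 569) (nat_lit 5) (nat_lit 557) (nat_lit 528) (nat_lit 475)) (XT.lf (nat_lit 0) (nat_lit 1315135788) (nat_lit 1520) (nat_lit 4404884039) (nat_lit 1596) (nat_lit 1877287985) (nat_lit 548) (nat_lit 5) (nat_lit 568) (nat_lit 5) (nat_lit 569) (nat_lit 5) (nat_lit 558) (nat_lit 528) (nat_lit 474))) (XT.nd (nat_lit 78) (nat_lit 1596) (nat_lit 0) (XT.lf (nat_lit 0) (nat_lit 282790234) (nat_lit 1596) (nat_lit 1686234021) (nat_lit 76) (nat_lit 5683062466) (nat_lit 547) (nat_lit 5) (nat_lit 568) (nat_lit 5) (nat_lit 548) (nat_lit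 5) (nat_lit 559) (nat_lit 528) (nat_lit 473)) (XT.lf (nat_lit 0) (nat_lit 2443310848) (nat_lit 1672) (nat_lit 4718411232) (nat_lit 76) (nat_lit 546347707) (nat_lit 526) (nat_lit 5) (nat_lit 548) (nat_lit 5) (nat_lit 527) (nat_lit 5) (nat_lit 560) (nat_lit 528) (nat_lit 472))))))))
noncomputable def xc97 : XT := (XT.nd (nat_lit 2106) (nat_lit 9424) (nat_lit 0) (XT.nd (nat_lit 1014) (nat_lit 6916) (nat_lit 0) (XT.nd (nat_lit 468) (nat_lit 3648) (nat_lit 0) (XT.nd (nat_lit 234) (nat_lit 2888) (nat_lit 0) (XT.nd (nat_lit 78) (nat_lit 3496) (nat_lit 0) (XT.lf (nat_lit 0) (nat_lit 4631402238) (nat_lit 1672) (nat_lit 31867297) (nat_lit 76) (nat_lit 3102219999) (nat_lit 526) (nat_lit 5) (nat_lit 548) (nat_lit 5) (nat_lit 527) (nat_lit 5) (nat_lit 561) (nat_lit 528) (nat_lit 471)) (XT.nd (nat_lit 78) (nat_lit 1824) (nat_lit 0) (XT.lf (nat_lit 0) (nat_lit 4776013844) (nat_lit 1672) (nat_lit 2078966359) (nat_lit 1748) (nat_lit 969247120) (nat_lit 504) (nat_lit 5) (nat_lit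 526) (nat_lit 5) (nat_lit 527) (nat_lit 5) (nat_lit 562) (nat_lit 528) (nat_lit 470)) (XT.lf (nat_lit 0) (nat_lit 1199160586) (nat_lit 1824) (nat_lit 6112023235) (nat_lit 76) (nat_lit 573268778) (nat_lit 480) (nat_lit 5) (nat_lit 504) (nat_lit 5) (nat_lit 481) (nat_lit 5) (nat_lit 563) (nat_lit 528) (nat_lit 469)))) (XT.nd (nat_lit 78) (nat_lit 2888) (nat_lit 0) (XT.lf (nat_lit 0) (nat_lit 3393887165) (nat_lit 1824) (nat_lit 1270877621) (nat_lit 76) (nat_lit 3281074785) (nat_lit 480) (nat_lit 5) (nat_lit 504) (nat_lit 5) (nat_lit 481) (nat_lit 5) (nat_lit 564) (nat_lit 528) (nat_lit 468)) (XT.nd (nat_lit 78) (nat_lit 1064) (nat_lit 0) (XT.lf (nat_lit 0) (nat_lit 3680174270) (nat_lit 1824) (nat_lit 1938540132) (nat_lit 1900) (nat_lit 2390019585) (nat_lit 456) (nat_lit 5) (nat_lit 480) (nat_lit 5) (nat_lit 481) (nat_lit 5) (nat_lit 565) (nat_lit 528) (nat_lit 467)) (XT.lf (nat_lit 0) (nat_lit 641940021) (nat_lit 1064) (nat_lit 7227157471) (nat_lit 1140) (nat_lit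 204171366) (nat_lit 442) (nat_lit 5) (nat_lit 456) (nat_lit 5) (nat_lit 457) (nat_lit 5) (nat_lit 566) (nat_lit 528) (nat_lit 466))))) (XT.nd (nat_lit 234) (nat_lit 2660) (nat_lit 0) (XT.nd (nat_lit 78) (nat_lit 912) (nat_lit 0) (XT.lf (nat_lit 0) (nat_lit 2003998072) (nat_lit 1140) (nat_lit 2430141740) (nat_lit 76) (nat_lit 3704591865) (nat_lit 441) (nat_lit 5) (nat_lit 456) (nat_lit 5) (nat_lit 442) (nat_lit 5) (nat_lit 567) (nat_lit 528) (nat_lit 465)) (XT.nd (nat_lit 78) (nat_lit 0) (nat_lit 0) (XT.lf (nat_lit 0) (nat_lit 2669460568) (nat_lit 912) (nat_lit 1565285027) (nat_lit 988) (nat_lit 3971111732) (nat_lit 429) (nat_lit 5) (nat_lit 441) (nat_lit 5) (nat_lit 442) (nat_lit 5) (nat_lit 568) (nat_lit 528) (nat_lit 464)) (XT.lf (nat_lit 0) (nat_lit 6499660254) (nat_lit 988) (nat_lit 414704099) (nat_lit 76) (nat_lit 1360173560) (nat_lit 429) (nat_lit 5) (nat_lit 442) (nat_lit 5) (nat_lit 430) (nat_lit 5) (nat_lit 569) (nat_lit 528) (nat_lit 463)))) (XT.nd (nat_lit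 156) (nat_lit 836) (nat_lit 0) (XT.nd (nat_lit 78) (nat_lit 836) (nat_lit 0) (XT.lf (nat_lit 0) (nat_lit 465928638) (nat_lit 988) (nat_lit 3520214920) (nat_lit 76) (nat_lit 4358256471) (nat_lit 416) (nat_lit 5) (nat_lit 429) (nat_lit 5) (nat_lit 417) (nat_lit 5) (nat_lit 570) (nat_lit 528) (nat_lit 462)) (XT.lf (nat_lit 0) (nat_lit 1733542585) (nat_lit 836) (nat_lit 973550311) (nat_lit 912) (nat_lit 5708748971) (nat_lit 405) (nat_lit 5) (nat_lit 416) (nat_lit 5) (nat_lit 417) (nat_lit 5) (nat_lit 571) (nat_lit 528) (nat_lit 461))) (XT.nd (nat_lit 78) (nat_lit 836) (nat_lit 0) (XT.lf (nat_lit 0) (nat_lit 4996167361) (nat_lit 912) (nat_lit 1397676774) (nat_lit 76) (nat_lit 2094809871) (nat_lit 405) (nat_lit 5) (nat_lit 417) (nat_lit 5) (nat_lit 406) (nat_lit 5) (nat_lit 572) (nat_lit 528) (nat_lit 460)) (XT.lf (nat_lit 0) (nat_lit 4003657449) (nat_lit 836) (nat_lit 3326158569) (nat_lit 912) (nat_lit 1233133656) (nat_lit 394) (nat_lit 5) (nat_lit 405) (nat_lit 5)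 (nat_lit 406) (nat_lit 5) (nat_lit 573) (nat_lit 528) (nat_lit 459)))))) (XT.nd (nat_lit 546) (nat_lit 3572) (nat_lit 0) (XT.nd (nat_lit 234) (nat_lit 1596) (nat_lit 0) (XT.nd (nat_lit 78) (nat_lit 836) (nat_lit 0) (XT.lf (nat_lit 0) (nat_lit 862454487) (nat_lit 836) (nat_lit 176502815) (nat_lit 912) (nat_lit 7600005794) (nat_lit 382) (nat_lit 5) (nat_lit 393) (nat_lit 5) (nat_lit 394) (nat_lit 5) (nat_lit 574) (nat_lit 528) (nat_lit 458)) (XT.nd (nat_lit 78) (nat_lit 836) (nat_lit 0) (XT.lf (nat_lit 0) (nat_lit 3357481249) (nat_lit 912) (nat_lit 2325205103) (nat_lit 76) (nat_lit 3033300318) (nat_lit 382) (nat_lit 5) (nat_lit 394) (nat_lit 5) (nat_lit 383) (nat_lit 5) (nat_lit 575) (nat_lit 528) (nat_lit 457)) (XT.lf (nat_lit 0) (nat_lit 3241490843) (nat_lit 836) (nat_lit 2470723994) (nat_lit 912) (nat_lit 3082541995) (nat_lit 371) (nat_lit 5) (nat_lit 382) (nat_lit 5) (nat_lit 383) (nat_lit 5) (nat_lit 576) (nat_lit 528) (nat_lit 456)))) (XT.nd (nat_lit 156) (nat_lit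 760) (nat_lit 0) (XT.nd (nat_lit 78) (nat_lit 76) (nat_lit 0) (XT.lf (nat_lit 0) (nat_lit 36017010) (nat_lit 760) (nat_lit 8067211833) (nat_lit 836) (nat_lit 772092684) (nat_lit 361) (nat_lit 5) (nat_lit 371) (nat_lit 5) (nat_lit 372) (nat_lit 5) (nat_lit 577) (nat_lit 528) (nat_lit 455)) (XT.lf (nat_lit 0) (nat_lit 1585860883) (nat_lit 836) (nat_lit 3206851882) (nat_lit 76) (nat_lit 4164140181) (nat_lit 360) (nat_lit 5) (nat_lit 371) (nat_lit 5) (nat_lit 361) (nat_lit 5) (nat_lit 578) (nat_lit 528) (nat_lit 454))) (XT.nd (nat_lit 78) (nat_lit 0) (nat_lit 0) (XT.lf (nat_lit 0) (nat_lit 2531470564) (nat_lit 760) (nat_lit 1434436362) (nat_lit 836) (nat_lit 5074303243) (nat_lit 350) (nat_lit 5) (nat_lit 360) (nat_lit 5) (nat_lit 361) (nat_lit 5) (nat_lit 579) (nat_lit 528) (nat_lit 453)) (XT.lf (nat_lit 0) (nat_lit 6397330441) (nat_lit 836) (nat_lit 745075141) (nat_lit 76) (nat_lit 1982756051) (nat_lit 350) (nat_lit 5) (nat_lit 361) (nat_lit 5) (nat_lit 351) (nat_lit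 5) (nat_lit 580) (nat_lit 528) (nat_lit 452))))) (XT.nd (nat_lit 234) (nat_lit 2052) (nat_lit 0) (XT.nd (nat_lit 78) (nat_lit 836) (nat_lit 0) (XT.lf (nat_lit 0) (nat_lit 5157464168) (nat_lit 684) (nat_lit 3732695125) (nat_lit 760) (nat_lit 321399871) (nat_lit 341) (nat_lit 5) (nat_lit 350) (nat_lit 5) (nat_lit 351) (nat_lit 5) (nat_lit 581) (nat_lit 528) (nat_lit 451)) (XT.nd (nat_lit 78) (nat_lit 0) (nat_lit 0) (XT.lf (nat_lit 0) (nat_lit 1864424182) (nat_lit 760) (nat_lit 227858203) (nat_lit 836) (nat_lit 7207385759) (nat_lit 330) (nat_lit 5) (nat_lit 340) (nat_lit 5) (nat_lit 341) (nat_lit 5) (nat_lit 582) (nat_lit 528) (nat_lit 450)) (XT.lf (nat_lit 0) (nat_lit 4569350378) (nat_lit 836) (nat_lit 1491817861) (nat_lit 76) (nat_lit 3327942689) (nat_lit 330) (nat_lit 5) (nat_lit 341) (nat_lit 5) (nat_lit 331) (nat_lit 5) (nat_lit 583) (nat_lit 528) (nat_lit 449)))) (XT.nd (nat_lit 156) (nat_lit 608) (nat_lit 0) (XT.nd (nat_lit 78) (nat_lit 760) (nat_lit 0) (XT.lf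 (nat_lit 0) (nat_lit 4594866886) (nat_lit 684) (nat_lit 2503312117) (nat_lit 760) (nat_lit 2382121559) (nat_lit 321) (nat_lit 5) (nat_lit 330) (nat_lit 5) (nat_lit 331) (nat_lit 5) (nat_lit 584) (nat_lit 528) (nat_lit 448)) (XT.lf (nat_lit 0) (nat_lit 99404877) (nat_lit 760) (nat_lit 8349643414) (nat_lit 76) (nat_lit 1124324402) (nat_lit 311) (nat_lit 5) (nat_lit 321) (nat_lit 5) (nat_lit 312) (nat_lit 5) (nat_lit 585) (nat_lit 528) (nat_lit 447))) (XT.nd (nat_lit 78) (nat_lit 608) (nat_lit 0) (XT.lf (nat_lit 0) (nat_lit 2619616534) (nat_lit 760) (nat_lit 2213757945) (nat_lit 76) (nat_lit 4834200088) (nat_lit 311) (nat_lit 5) (nat_lit 321) (nat_lit 5) (nat_lit 312) (nat_lit 5) (nat_lit 586) (nat_lit 528) (nat_lit 446)) (XT.lf (nat_lit 0) (nat_lit 4063993065) (nat_lit 608) (nat_lit 1124529729) (nat_lit 684) (nat_lit 4575174076) (nat_lit 303) (nat_lit 5) (nat_lit 311) (nat_lit 5) (nat_lit 312) (nat_lit 5) (nat_lit 587) (nat_lit 528) (nat_lit 445))))))) (XT.nd (nat_lit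 1014) (nat_lit 4484) (nat_lit 0) (XT.nd (nat_lit 468) (nat_lit 2280) (nat_lit 0) (XT.nd (nat_lit 234) (nat_lit 1292) (nat_lit 0) (XT.nd (nat_lit 78) (nat_lit 684) (nat_lit 0) (XT.lf (nat_lit 0) (nat_lit 591820484) (nat_lit 684) (nat_lit 7225238579) (nat_lit 760) (nat_lit 2044519673) (nat_lit 294) (nat_lit 5) (nat_lit 303) (nat_lit 5) (nat_lit 304) (nat_lit 5) (nat_lit 588) (nat_lit 528) (nat_lit 444)) (XT.nd (nat_lit 78) (nat_lit 608) (nat_lit 0) (XT.lf (nat_lit 0) (nat_lit 547990582) (nat_lit 760) (nat_lit 2919990535) (nat_lit 76) (nat_lit 6493003851) (nat_lit 293) (nat_lit 5) (nat_lit 303) (nat_lit 5) (nat_lit 294) (nat_lit 5) (nat_lit 589) (nat_lit 528) (nat_lit 443)) (XT.lf (nat_lit 0) (nat_lit 3163528996) (nat_lit 684) (nat_lit 6508795992) (nat_lit 76) (nat_lit 389815000) (nat_lit 285) (nat_lit 5) (nat_lit 294) (nat_lit 5) (nat_lit 286) (nat_lit 5) (nat_lit 590) (nat_lit 528) (nat_lit 442)))) (XT.nd (nat_lit 78) (nat_lit 1292) (nat_lit 0) (XT.lf (nat_lit 0)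 (nat_lit 5847214114) (nat_lit 684) (nat_lit 26476617) (nat_lit 76) (nat_lit 4291312650) (nat_lit 285) (nat_lit 5) (nat_lit 294) (nat_lit 5) (nat_lit 286) (nat_lit 5) (nat_lit 591) (nat_lit 528) (nat_lit 441)) (XT.nd (nat_lit 78) (nat_lit 684) (nat_lit 0) (XT.lf (nat_lit 0) (nat_lit 6639051367) (nat_lit 608) (nat_lit 1962298000) (nat_lit 684) (nat_lit 1668241098) (nat_lit 277) (nat_lit 5) (nat_lit 285) (nat_lit 5) (nat_lit 286) (nat_lit 5) (nat_lit 592) (nat_lit 528) (nat_lit 440)) (XT.lf (nat_lit 0) (nat_lit 1027879900) (nat_lit 684) (nat_lit 7327768898) (nat_lit 76) (nat_lit 2020345127) (nat_lit 268) (nat_lit 5) (nat_lit 277) (nat_lit 5) (nat_lit 269) (nat_lit 5) (nat_lit 593) (nat_lit 528) (nat_lit 439))))) (XT.nd (nat_lit 234) (nat_lit 1140) (nat_lit 0) (XT.nd (nat_lit 78) (nat_lit 1140) (nat_lit 0) (XT.lf (nat_lit 0) (nat_lit 3767171160) (nat_lit 684) (nat_lit 632355133) (nat_lit 76) (nat_lit 6084548746) (nat_lit 268) (nat_lit 5) (nat_lit 277) (nat_lit 5) (nat_lit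 269) (nat_lit 5) (nat_lit 594) (nat_lit 528) (nat_lit 438)) (XT.nd (nat_lit 78) (nat_lit 532) (nat_lit 0) (XT.lf (nat_lit 0) (nat_lit 6245654656) (nat_lit 608) (nat_lit 330698625) (nat_lit 684) (nat_lit 4017664198) (nat_lit 260) (nat_lit 5) (nat_lit 268) (nat_lit 5) (nat_lit 269) (nat_lit 5) (nat_lit 595) (nat_lit 528) (nat_lit 437)) (XT.lf (nat_lit 0) (nat_lit 2538730923) (nat_lit 532) (nat_lit 6923329355) (nat_lit 608) (nat_lit 1243693434) (nat_lit 253) (nat_lit 5) (nat_lit 260) (nat_lit 5) (nat_lit 261) (nat_lit 5) (nat_lit 596) (nat_lit 528) (nat_lit 436)))) (XT.nd (nat_lit 156) (nat_lit 532) (nat_lit 0) (XT.nd (nat_lit 78) (nat_lit 532) (nat_lit 0) (XT.lf (nat_lit 0) (nat_lit 1571421873) (nat_lit 608) (nat_lit 1242886152) (nat_lit 76) (nat_lit 8005083174) (nat_lit 252) (nat_lit 5) (nat_lit 260) (nat_lit 5) (nat_lit 253) (nat_lit 5) (nat_lit 597) (nat_lit 528) (nat_lit 435)) (XT.lf (nat_lit 0) (nat_lit 4448802716) (nat_lit 608) (nat_lit 5088688556) (nat_lit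 76) (nat_lit 1397195090) (nat_lit 245) (nat_lit 5) (nat_lit 253) (nat_lit 5) (nat_lit 246) (nat_lit 5) (nat_lit 598) (nat_lit 528) (nat_lit 434))) (XT.nd (nat_lit 78) (nat_lit 0) (nat_lit 0) (XT.lf (nat_lit 0) (nat_lit 2015998691) (nat_lit 532) (nat_lit 5383462721) (nat_lit 608) (nat_lit 3652513045) (nat_lit 238) (nat_lit 5) (nat_lit 245) (nat_lit 5) (nat_lit 246) (nat_lit 5) (nat_lit 599) (nat_lit 528) (nat_lit 433)) (XT.lf (nat_lit 0) (nat_lit 9298841257) (nat_lit 532) (nat_lit 1120311948) (nat_lit 608) (nat_lit 752256311) (nat_lit 238) (nat_lit 5) (nat_lit 245) (nat_lit 5) (nat_lit 246) (nat_lit 5) (nat_lit 600) (nat_lit 528) (nat_lit 432)))))) (XT.nd (nat_lit 546) (nat_lit 1900) (nat_lit 0) (XT.nd (nat_lit 234) (nat_lit 1520) (nat_lit 0) (XT.nd (nat_lit 78) (nat_lit 456) (nat_lit 0) (XT.lf (nat_lit 0) (nat_lit 2209934068) (nat_lit 608) (nat_lit 5855159322) (nat_lit 76) (nat_lit 3227197757) (nat_lit 230) (nat_lit 5) (nat_lit 238) (nat_lit 5) (nat_lit 231) (nat_lit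 5) (nat_lit 601) (nat_lit 528) (nat_lit 431)) (XT.nd (nat_lit 78) (nat_lit 0) (nat_lit 0) (XT.lf (nat_lit 0) (nat_lit 1477168493) (nat_lit 456) (nat_lit 3750182142) (nat_lit 532) (nat_lit 6188020734) (nat_lit 224) (nat_lit 5) (nat_lit 230) (nat_lit 5) (nat_lit 231) (nat_lit 5) (nat_lit 602) (nat_lit 528) (nat_lit 430)) (XT.lf (nat_lit 0) (nat_lit 8325472039) (nat_lit 532) (nat_lit 2542087048) (nat_lit 76) (nat_lit 672948458) (nat_lit 224) (nat_lit 5) (nat_lit 231) (nat_lit 5) (nat_lit 225) (nat_lit 5) (nat_lit 603) (nat_lit 528) (nat_lit 429)))) (XT.nd (nat_lit 156) (nat_lit 456) (nat_lit 0) (XT.nd (nat_lit 78) (nat_lit 532) (nat_lit 0) (XT.lf (nat_lit 0) (nat_lit 5010492037) (nat_lit 532) (nat_lit 6509468360) (nat_lit 608) (nat_lit 147499408) (nat_lit 217) (nat_lit 5) (nat_lit 224) (nat_lit 5) (nat_lit 225) (nat_lit 5) (nat_lit 604) (nat_lit 528) (nat_lit 428)) (XT.lf (nat_lit 0) (nat_lit 912033253) (nat_lit 456) (nat_lit 2030473214) (nat_lit 532) (nat_lit 8854054484)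 (nat_lit 210) (nat_lit 5) (nat_lit 216) (nat_lit 5) (nat_lit 217) (nat_lit 5) (nat_lit 605) (nat_lit 528) (nat_lit 427))) (XT.nd (nat_lit 78) (nat_lit 456) (nat_lit 0) (XT.lf (nat_lit 0) (nat_lit 6131090274) (nat_lit 532) (nat_lit 3255059142) (nat_lit 76) (nat_lit 2541301515) (nat_lit 210) (nat_lit 5) (nat_lit 217) (nat_lit 5) (nat_lit 211) (nat_lit 5) (nat_lit 606) (nat_lit 528) (nat_lit 426)) (XT.lf (nat_lit 0) (nat_lit 4541141193) (nat_lit 456) (nat_lit 4862984866) (nat_lit 532) (nat_lit 2656420386) (nat_lit 204) (nat_lit 5) (nat_lit 210) (nat_lit 5) (nat_lit 211) (nat_lit 5) (nat_lit 607) (nat_lit 528) (nat_lit 425))))) (XT.nd (nat_lit 234) (nat_lit 912) (nat_lit 0) (XT.nd (nat_lit 78) (nat_lit 456) (nat_lit 0) (XT.lf (nat_lit 0) (nat_lit 309839394) (nat_lit 456) (nat_lit 231146050) (nat_lit 532) (nat_lit 11655212136) (nat_lit 197) (nat_lit 5) (nat_lit 203) (nat_lit 5) (nat_lit 204) (nat_lit 5) (nat_lit 608) (nat_lit 528) (nat_lit 424)) (XT.nd (nat_lit 78)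 (nat_lit 456) (nat_lit 0) (XT.lf (nat_lit 0) (nat_lit 3824766116) (nat_lit 532) (nat_lit 4015275205) (nat_lit 76) (nat_lit 4493010576) (nat_lit 197) (nat_lit 5) (nat_lit 204) (nat_lit 5) (nat_lit 198) (nat_lit 5) (nat_lit 609) (nat_lit 528) (nat_lit 423)) (XT.lf (nat_lit 0) (nat_lit 4033004926) (nat_lit 456) (nat_lit 3147360574) (nat_lit 532) (nat_lit 5292156178) (nat_lit 191) (nat_lit 5) (nat_lit 197) (nat_lit 5) (nat_lit 198) (nat_lit 5) (nat_lit 610) (nat_lit 528) (nat_lit 422)))) (XT.nd (nat_lit 156) (nat_lit 456) (nat_lit 0) (XT.nd (nat_lit 78) (nat_lit 456) (nat_lit 0) (XT.lf (nat_lit 0) (nat_lit 10619424073) (nat_lit 532) (nat_lit 360126932) (nat_lit 76) (nat_lit 1634904118) (nat_lit 191) (nat_lit 5) (nat_lit 198) (nat_lit 5) (nat_lit 192) (nat_lit 5) (nat_lit 611) (nat_lit 528) (nat_lit 421)) (XT.lf (nat_lit 0) (nat_lit 1401784228) (nat_lit 456) (nat_lit 4834494946) (nat_lit 76) (nat_lit 6521737792) (nat_lit 185) (nat_lit 5) (nat_lit 191) (nat_lit 5) (nat_lit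 186) (nat_lit 5) (nat_lit 612) (nat_lit 528) (nat_lit 420))) (XT.nd (nat_lit 78) (nat_lit 0) (nat_lit 0) (XT.lf (nat_lit 0) (nat_lit 3474469215) (nat_lit 456) (nat_lit 1369443017) (nat_lit 532) (nat_lit 8060193417) (nat_lit 179) (nat_lit 5) (nat_lit 185) (nat_lit 5) (nat_lit 186) (nat_lit 5) (nat_lit 613) (nat_lit 528) (nat_lit 419)) (XT.lf (nat_lit 0) (nat_lit 8390095151) (nat_lit 532) (nat_lit 1092214311) (nat_lit 76) (nat_lit 3570103519) (nat_lit 179) (nat_lit 5) (nat_lit 186) (nat_lit 5) (nat_lit 180) (nat_lit 5) (nat_lit 614) (nat_lit 528) (nat_lit 418))))))))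
noncomputable def xc98 : XT := (XT.nd (nat_lit 2106) (nat_lit 1292) (nat_lit 0) (XT.nd (nat_lit 1014) (nat_lit 2888) (nat_lit 0) (XT.nd (nat_lit 468) (nat_lit 1900) (nat_lit 0) (XT.nd (nat_lit 234) (nat_lit 836) (nat_lit 0) (XT.nd (nat_lit 78) (nat_lit 456) (nat_lit 0) (XT.lf (nat_lit 0) (nat_lit 7470135404) (nat_lit 380) (nat_lit 4574260212) (nat_lit 456) (nat_lit 1158548065) (nat_lit 174) (nat_lit 5) (nat_lit 179) (nat_lit 5) (nat_lit 180) (nat_lit 5) (nat_lit 615) (nat_lit 528) (nat_lit 417)) (XT.nd (nat_lit 78) (nat_lit 0) (nat_lit 0) (XT.lf (nat_lit 0) (nat_lit 2392224280) (nat_lit 456) (nat_lit 10505977532) (nat_lit 76) (nat_lit 457798520) (nat_lit 168) (nat_lit 5) (nat_lit 174) (nat_lit 5) (nat_lit 169) (nat_lit 5) (nat_lit 616) (nat_lit 528) (nat_lit 416)) (XT.lf (nat_lit 0) (nat_lit 6047353585) (nat_lit 456) (nat_lit 1898274175) (nat_lit 76) (nat_lit 5565361142) (nat_lit 168) (nat_lit 5) (nat_lit 174) (nat_lit 5) (nat_lit 169) (nat_lit 5) (nat_lit 617)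 (nat_lit 528) (nat_lit 415)))) (XT.nd (nat_lit 78) (nat_lit 456) (nat_lit 0) (XT.lf (nat_lit 0) (nat_lit 6942314022) (nat_lit 380) (nat_lit 2858563134) (nat_lit 456) (nat_lit 3867695270) (nat_lit 163) (nat_lit 5) (nat_lit 168) (nat_lit 5) (nat_lit 169) (nat_lit 5) (nat_lit 618) (nat_lit 528) (nat_lit 414)) (XT.nd (nat_lit 78) (nat_lit 76) (nat_lit 0) (XT.lf (nat_lit 0) (nat_lit 2138785562) (nat_lit 380) (nat_lit 11512865860) (nat_lit 456) (nat_lit 177213590) (nat_lit 158) (nat_lit 5) (nat_lit 163) (nat_lit 5) (nat_lit 164) (nat_lit 5) (nat_lit 619) (nat_lit 528) (nat_lit 413)) (XT.lf (nat_lit 0) (nat_lit 3584799831) (nat_lit 456) (nat_lit 2792178614) (nat_lit 76) (nat_lit 7614024822) (nat_lit 157) (nat_lit 5) (nat_lit 163) (nat_lit 5) (nat_lit 158) (nat_lit 5) (nat_lit 620) (nat_lit 528) (nat_lit 412))))) (XT.nd (nat_lit 234) (nat_lit 1064) (nat_lit 0) (XT.nd (nat_lit 78) (nat_lit 456) (nat_lit 0) (XT.lf (nat_lit 0) (nat_lit 6335693514) (nat_lit 380) (nat_lit 1105909904)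 (nat_lit 456) (nat_lit 6714319925) (nat_lit 152) (nat_lit 5) (nat_lit 157) (nat_lit 5) (nat_lit 158) (nat_lit 5) (nat_lit 621) (nat_lit 528) (nat_lit 411)) (XT.nd (nat_lit 78) (nat_lit 76) (nat_lit 0) (XT.lf (nat_lit 0) (nat_lit 1319638153) (nat_lit 380) (nat_lit 10091960977) (nat_lit 456) (nat_lit 2911822489) (nat_lit 147) (nat_lit 5) (nat_lit 152) (nat_lit 5) (nat_lit 153) (nat_lit 5) (nat_lit 622) (nat_lit 528) (nat_lit 410)) (XT.lf (nat_lit 0) (nat_lit 995149689) (nat_lit 456) (nat_lit 3788938407) (nat_lit 76) (nat_lit 9709235045) (nat_lit 146) (nat_lit 5) (nat_lit 152) (nat_lit 5) (nat_lit 147) (nat_lit 5) (nat_lit 623) (nat_lit 528) (nat_lit 409)))) (XT.nd (nat_lit 156) (nat_lit 380) (nat_lit 0) (XT.nd (nat_lit 78) (nat_lit 380) (nat_lit 0) (XT.lf (nat_lit 0) (nat_lit 4963614312) (nat_lit 380) (nat_lit 9034929934) (nat_lit 76) (nat_lit 667247525) (nat_lit 142) (nat_lit 5) (nat_lit 147) (nat_lit 5) (nat_lit 143) (nat_lit 5) (nat_lit 624) (nat_lit 528) (nat_lit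 408)) (XT.lf (nat_lit 0) (nat_lit 392923371) (nat_lit 380) (nat_lit 8659786351) (nat_lit 456) (nat_lit 5788175672) (nat_lit 137) (nat_lit 5) (nat_lit 142) (nat_lit 5) (nat_lit 143) (nat_lit 5) (nat_lit 625) (nat_lit 528) (nat_lit 407))) (XT.nd (nat_lit 78) (nat_lit 380) (nat_lit 0) (XT.lf (nat_lit 0) (nat_lit 10102403616) (nat_lit 380) (nat_lit 3163419237) (nat_lit 456) (nat_lit 1752814153) (nat_lit 137) (nat_lit 5) (nat_lit 142) (nat_lit 5) (nat_lit 143) (nat_lit 5) (nat_lit 626) (nat_lit 528) (nat_lit 406)) (XT.lf (nat_lit 0) (nat_lit 2361533277) (nat_lit 380) (nat_lit 10390472870) (nat_lit 76) (nat_lit 2447045965) (nat_lit 132) (nat_lit 5) (nat_lit 137) (nat_lit 5) (nat_lit 133) (nat_lit 5) (nat_lit 627) (nat_lit 528) (nat_lit 405)))))) (XT.nd (nat_lit 546) (nat_lit 1520) (nat_lit 0) (XT.nd (nat_lit 234) (nat_lit 760) (nat_lit 0) (XT.nd (nat_lit 78) (nat_lit 608) (nat_lit 0) (XT.lf (nat_lit 0) (nat_lit 6570823058) (nat_lit 380) (nat_lit 649828131) (nat_lit 76)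 (nat_lit 8161470882) (nat_lit 132) (nat_lit 5) (nat_lit 137) (nat_lit 5) (nat_lit 133) (nat_lit 5) (nat_lit 628) (nat_lit 528) (nat_lit 404)) (XT.nd (nat_lit 78) (nat_lit 304) (nat_lit 0) (XT.lf (nat_lit 0) (nat_lit 9380057437) (nat_lit 304) (nat_lit 1527441627) (nat_lit 380) (nat_lit 4660491125) (nat_lit 128) (nat_lit 5) (nat_lit 132) (nat_lit 5) (nat_lit 133) (nat_lit 5) (nat_lit 629) (nat_lit 528) (nat_lit 403)) (XT.lf (nat_lit 0) (nat_lit 3855930925) (nat_lit 304) (nat_lit 11514579685) (nat_lit 380) (nat_lit 386273776) (nat_lit 124) (nat_lit 5) (nat_lit 128) (nat_lit 5) (nat_lit 129) (nat_lit 5) (nat_lit 630) (nat_lit 528) (nat_lit 402)))) (XT.nd (nat_lit 156) (nat_lit 380) (nat_lit 0) (XT.nd (nat_lit 78) (nat_lit 304) (nat_lit 0) (XT.lf (nat_lit 0) (nat_lit 3955665431) (nat_lit 380) (nat_lit 1828893174) (nat_lit 76) (nat_lit 10163593629) (nat_lit 123) (nat_lit 5) (nat_lit 128) (nat_lit 5) (nat_lit 124) (nat_lit 5) (nat_lit 631) (nat_lit 528) (nat_lit 401))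 (XT.lf (nat_lit 0) (nat_lit 8418111639) (nat_lit 380) (nat_lit 7617641946) (nat_lit 76) (nat_lit 106766691) (nat_lit 119) (nat_lit 5) (nat_lit 124) (nat_lit 5) (nat_lit 120) (nat_lit 5) (nat_lit 632) (nat_lit 528) (nat_lit 400))) (XT.nd (nat_lit 78) (nat_lit 76) (nat_lit 0) (XT.lf (nat_lit 0) (nat_lit 2739268641) (nat_lit 304) (nat_lit 10281850173) (nat_lit 380) (nat_lit 3318631321) (nat_lit 115) (nat_lit 5) (nat_lit 119) (nat_lit 5) (nat_lit 120) (nat_lit 5) (nat_lit 633) (nat_lit 528) (nat_lit 399)) (XT.lf (nat_lit 0) (nat_lit 1194209758) (nat_lit 380) (nat_lit 3169590643) (nat_lit 76) (nat_lit 12176285009) (nat_lit 114) (nat_lit 5) (nat_lit 119) (nat_lit 5) (nat_lit 115) (nat_lit 5) (nat_lit 634) (nat_lit 528) (nat_lit 398))))) (XT.nd (nat_lit 234) (nat_lit 988) (nat_lit 0) (XT.nd (nat_lit 78) (nat_lit 228) (nat_lit 0) (XT.lf (nat_lit 0) (nat_lit 5796227322) (nat_lit 380) (nat_lit 9235794777) (nat_lit 76) (nat_lit 1711100104) (nat_lit 110) (nat_lit 5) (nat_lit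 115) (nat_lit 5) (nat_lit 111) (nat_lit 5) (nat_lit 635) (nat_lit 528) (nat_lit 397)) (XT.nd (nat_lit 78) (nat_lit 0) (nat_lit 0) (XT.lf (nat_lit 0) (nat_lit 1453151982) (nat_lit 228) (nat_lit 9080196770) (nat_lit 304) (nat_lit 6416010353) (nat_lit 107) (nat_lit 5) (nat_lit 110) (nat_lit 5) (nat_lit 111) (nat_lit 5) (nat_lit 636) (nat_lit 528) (nat_lit 396)) (XT.lf (nat_lit 0) (nat_lit 12453434012) (nat_lit 228) (nat_lit 2957222152) (nat_lit 304) (nat_lit 1748156340) (nat_lit 107) (nat_lit 5) (nat_lit 110) (nat_lit 5) (nat_lit 111) (nat_lit 5) (nat_lit 637) (nat_lit 528) (nat_lit 395)))) (XT.nd (nat_lit 156) (nat_lit 608) (nat_lit 0) (XT.nd (nat_lit 78) (nat_lit 0) (nat_lit 0) (XT.lf (nat_lit 0) (nat_lit 3020047962) (nat_lit 380) (nat_lit 11055738955) (nat_lit 76) (nat_lit 3295347209) (nat_lit 102) (nat_lit 5) (nat_lit 107) (nat_lit 5) (nat_lit 103) (nat_lit 5) (nat_lit 638) (nat_lit 528) (nat_lit 394)) (XT.lf (nat_lit 0) (nat_lit 7895354707) (nat_lit 380) (nat_lit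 25460330) (nat_lit 76) (nat_lit 9665953707) (nat_lit 102) (nat_lit 5) (nat_lit 107) (nat_lit 5) (nat_lit 103) (nat_lit 5) (nat_lit 639) (nat_lit 528) (nat_lit 393))) (XT.nd (nat_lit 78) (nat_lit 380) (nat_lit 0) (XT.lf (nat_lit 0) (nat_lit 11347397956) (nat_lit 228) (nat_lit 1578518349) (nat_lit 304) (nat_lit 4879645359) (nat_lit 99) (nat_lit 5) (nat_lit 102) (nat_lit 5) (nat_lit 103) (nat_lit 5) (nat_lit 640) (nat_lit 528) (nat_lit 392)) (XT.lf (nat_lit 0) (nat_lit 76349870) (nat_lit 380) (nat_lit 13103017686) (nat_lit 76) (nat_lit 4848392502) (nat_lit 94) (nat_lit 5) (nat_lit 99) (nat_lit 5) (nat_lit 95) (nat_lit 5) (nat_lit 641) (nat_lit 528) (nat_lit 391))))))) (XT.nd (nat_lit 72696) (nat_lit 0) (nat_lit 44992) (XT.nd (nat_lit 468) (nat_lit 304) (nat_lit 0) (XT.nd (nat_lit 234) (nat_lit 532) (nat_lit 0) (XT.nd (nat_lit 78) (nat_lit 456) (nat_lit 0) (XT.lf (nat_lit 0) (nat_lit 5104441039) (nat_lit 380) (nat_lit 1700695120) (nat_lit 76) (nat_lit 11447855433)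 (nat_lit 94) (nat_lit 5) (nat_lit 99) (nat_lit 5) (nat_lit 95) (nat_lit 5) (nat_lit 642) (nat_lit 528) (nat_lit 390)) (XT.nd (nat_lit 78) (nat_lit 228) (nat_lit 0) (XT.lf (nat_lit 0) (nat_lit 10034859513) (nat_lit 228) (nat_lit 247872740) (nat_lit 304) (nat_lit 8199003278) (nat_lit 91) (nat_lit 5) (nat_lit 94) (nat_lit 5) (nat_lit 95) (nat_lit 5) (nat_lit 643) (nat_lit 528) (nat_lit 389)) (XT.lf (nat_lit 0) (nat_lit 3288097577) (nat_lit 228) (nat_lit 12335693068) (nat_lit 304) (nat_lit 3090080205) (nat_lit 88) (nat_lit 5) (nat_lit 91) (nat_lit 5) (nat_lit 92) (nat_lit 5) (nat_lit 644) (nat_lit 528) (nat_lit 388)))) (XT.nd (nat_lit 78) (nat_lit 456) (nat_lit 0) (XT.lf (nat_lit 0) (nat_lit 2136482302) (nat_lit 304) (nat_lit 3619551252) (nat_lit 76) (nat_lit 13193474836) (nat_lit 87) (nat_lit 5) (nat_lit 91) (nat_lit 5) (nat_lit 88) (nat_lit 5) (nat_lit 645) (nat_lit 528) (nat_lit 387)) (XT.nd (nat_lit 78) (nat_lit 228) (nat_lit 0) (XT.lf (nat_lit 0) (nat_lit 7472858787)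 (nat_lit 304) (nat_lit 10707632068) (nat_lit 76) (nat_lit 1008026637) (nat_lit 84) (nat_lit 5) (nat_lit 88) (nat_lit 5) (nat_lit 85) (nat_lit 5) (nat_lit 646) (nat_lit 528) (nat_lit 386)) (XT.lf (nat_lit 0) (nat_lit 1394525755) (nat_lit 228) (nat_lit 11578000031) (nat_lit 304) (nat_lit 6458650220) (nat_lit 81) (nat_lit 5) (nat_lit 84) (nat_lit 5) (nat_lit 85) (nat_lit 5) (nat_lit 647) (nat_lit 528) (nat_lit 385))))) (XT.nd (nat_lit 71916) (nat_lit 0) (nat_lit 49324) (XT.nd (nat_lit 78) (nat_lit 304) (nat_lit 0) (XT.lf (nat_lit 0) (nat_lit 13857985705) (nat_lit 228) (nat_lit 4781120923) (nat_lit 304) (nat_lit 1038443129) (nat_lit 81) (nat_lit 5) (nat_lit 84) (nat_lit 5) (nat_lit 85) (nat_lit 5) (nat_lit 648) (nat_lit 528) (nat_lit 384)) (XT.nd (nat_lit 78) (nat_lit 0) (nat_lit 0) (XT.lf (nat_lit 0) (nat_lit 4474257152) (nat_lit 304) (nat_lit 13267400615) (nat_lit 76) (nat_lit 2185751045) (nat_lit 77) (nat_lit 5) (nat_lit 81) (nat_lit 5) (nat_lit 78) (nat_lit 5)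 (nat_lit 649) (nat_lit 528) (nat_lit 383)) (XT.lf (nat_lit 0) (nat_lit 10139609701) (nat_lit 304) (nat_lit 777854131) (nat_lit 76) (nat_lit 9263538326) (nat_lit 77) (nat_lit 5) (nat_lit 81) (nat_lit 5) (nat_lit 78) (nat_lit 5) (nat_lit 650) (nat_lit 528) (nat_lit 382)))) (XT.nd (nat_lit 156) (nat_lit 0) (nat_lit 0) (XT.nd (nat_lit 78) (nat_lit 684) (nat_lit 0) (XT.lf (nat_lit 0) (nat_lit 2448349122) (nat_lit 684) (nat_lit 424941547) (nat_lit 684) (nat_lit 424941547) (nat_lit 735) (nat_lit 3) (nat_lit 744) (nat_lit 3) (nat_lit 744) (nat_lit 5) (nat_lit 529) (nat_lit 529) (nat_lit 502)) (XT.lf (nat_lit 0) (nat_lit 712404694) (nat_lit 684) (nat_lit 4169257020) (nat_lit 760) (nat_lit 1732515276) (nat_lit 726) (nat_lit 5) (nat_lit 735) (nat_lit 3) (nat_lit 736) (nat_lit 5) (nat_lit 530) (nat_lit 529) (nat_lit 501))) (XT.nd (nat_lit 78) (nat_lit 0) (nat_lit 0) (XT.lf (nat_lit 0) (nat_lit 3092903525) (nat_lit 684) (nat_lit 859322450) (nat_lit 760) (nat_lit 2680945194)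 (nat_lit 726) (nat_lit 5) (nat_lit 735) (nat_lit 3) (nat_lit 736) (nat_lit 5) (nat_lit 531) (nat_lit 529) (nat_lit 500)) (XT.lf (nat_lit 76) (nat_lit 2517437549) (nat_lit 0) (nat_lit 2958235528) (nat_lit 760) (nat_lit 1177787733) (nat_lit 727) (nat_lit 5) (nat_lit 726) (nat_lit 5) (nat_lit 736) (nat_lit 5) (nat_lit 532) (nat_lit 529) (nat_lit 499)))))) (XT.nd (nat_lit 546) (nat_lit 1900) (nat_lit 0) (XT.nd (nat_lit 234) (nat_lit 1672) (nat_lit 0) (XT.nd (nat_lit 78) (nat_lit 0) (nat_lit 0) (XT.lf (nat_lit 0) (nat_lit 1160495396) (nat_lit 760) (nat_lit 741693771) (nat_lit 836) (nat_lit 4772921343) (nat_lit 716) (nat_lit 5) (nat_lit 726) (nat_lit 5) (nat_lit 727) (nat_lit 5) (nat_lit 533) (nat_lit 529) (nat_lit 498)) (XT.nd (nat_lit 78) (nat_lit 0) (nat_lit 76) (XT.lf (nat_lit 76) (nat_lit 2715992955) (nat_lit 0) (nat_lit 771533410) (nat_lit 836) (nat_lit 3210364366) (nat_lit 717) (nat_lit 5) (nat_lit 716) (nat_lit 5) (nat_lit 727) (nat_lit 5) (nat_lit 534) (nat_lit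 529) (nat_lit 497)) (XT.lf (nat_lit 0) (nat_lit 5809830268) (nat_lit 760) (nat_lit 504149213) (nat_lit 836) (nat_lit 408180554) (nat_lit 717) (nat_lit 5) (nat_lit 727) (nat_lit 5) (nat_lit 728) (nat_lit 5) (nat_lit 535) (nat_lit 529) (nat_lit 496)))) (XT.nd (nat_lit 156) (nat_lit 912) (nat_lit 0) (XT.nd (nat_lit 78) (nat_lit 0) (nat_lit 0) (XT.lf (nat_lit 0) (nat_lit 1379940768) (nat_lit 836) (nat_lit 3711514520) (nat_lit 912) (nat_lit 1655940302) (nat_lit 706) (nat_lit 5) (nat_lit 717) (nat_lit 5) (nat_lit 718) (nat_lit 5) (nat_lit 536) (nat_lit 529) (nat_lit 495)) (XT.lf (nat_lit 0) (nat_lit 3652187907) (nat_lit 836) (nat_lit 158977908) (nat_lit 912) (nat_lit 2962930142) (nat_lit 706) (nat_lit 5) (nat_lit 717) (nat_lit 5) (nat_lit 718) (nat_lit 5) (nat_lit 537) (nat_lit 529) (nat_lit 494))) (XT.nd (nat_lit 78) (nat_lit 912) (nat_lit 0) (XT.lf (nat_lit 76) (nat_lit 3477480726) (nat_lit 0) (nat_lit 2459026742) (nat_lit 912) (nat_lit 865497819) (nat_lit 707) (nat_lit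 5) (nat_lit 706) (nat_lit 5) (nat_lit 718) (nat_lit 5) (nat_lit 538) (nat_lit 529) (nat_lit 493)) (XT.lf (nat_lit 76) (nat_lit 319972698) (nat_lit 0) (nat_lit 1044948716) (nat_lit 988) (nat_lit 5466417835) (nat_lit 695) (nat_lit 5) (nat_lit 694) (nat_lit 5) (nat_lit 707) (nat_lit 5) (nat_lit 539) (nat_lit 529) (nat_lit 492))))) (XT.nd (nat_lit 234) (nat_lit 988) (nat_lit 0) (XT.nd (nat_lit 78) (nat_lit 988) (nat_lit 0) (XT.lf (nat_lit 0) (nat_lit 3598983667) (nat_lit 912) (nat_lit 2821133044) (nat_lit 988) (nat_lit 441623360) (nat_lit 695) (nat_lit 5) (nat_lit 707) (nat_lit 5) (nat_lit 708) (nat_lit 5) (nat_lit 540) (nat_lit 529) (nat_lit 491)) (XT.nd (nat_lit 78) (nat_lit 988) (nat_lit 0) (XT.lf (nat_lit 76) (nat_lit 914364967) (nat_lit 0) (nat_lit 4922861705) (nat_lit 988) (nat_lit 1056339181) (nat_lit 696) (nat_lit 5) (nat_lit 695) (nat_lit 5) (nat_lit 708) (nat_lit 5) (nat_lit 541) (nat_lit 529) (nat_lit 490)) (XT.lf (nat_lit 0) (nat_lit 1144718319) (nat_lit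 988) (nat_lit 2204814687) (nat_lit 1064) (nat_lit 3577023253) (nat_lit 682) (nat_lit 5) (nat_lit 695) (nat_lit 5) (nat_lit 696) (nat_lit 5) (nat_lit 542) (nat_lit 529) (nat_lit 489)))) (XT.nd (nat_lit 156) (nat_lit 988) (nat_lit 0) (XT.nd (nat_lit 78) (nat_lit 0) (nat_lit 0) (XT.lf (nat_lit 76) (nat_lit 1625956609) (nat_lit 0) (nat_lit 1708420407) (nat_lit 1064) (nat_lit 3626521856) (nat_lit 683) (nat_lit 5) (nat_lit 682) (nat_lit 5) (nat_lit 696) (nat_lit 5) (nat_lit 543) (nat_lit 529) (nat_lit 488)) (XT.lf (nat_lit 76) (nat_lit 5530018405) (nat_lit 0) (nat_lit 1561312) (nat_lit 1064) (nat_lit 1465080009) (nat_lit 683) (nat_lit 5) (nat_lit 682) (nat_lit 5) (nat_lit 696) (nat_lit 5) (nat_lit 544) (nat_lit 529) (nat_lit 487))) (XT.nd (nat_lit 78) (nat_lit 0) (nat_lit 0) (XT.lf (nat_lit 0) (nat_lit 707111599) (nat_lit 1064) (nat_lit 4571848491) (nat_lit 1140) (nat_lit 1754541410) (nat_lit 669) (nat_lit 5) (nat_lit 683) (nat_lit 5) (nat_lit 684) (nat_lit 5) (nat_lit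 545) (nat_lit 529) (nat_lit 486)) (XT.lf (nat_lit 0) (nat_lit 2863565248) (nat_lit 1064) (nat_lit 626390876) (nat_lit 1140) (nat_lit 3581727626) (nat_lit 669) (nat_lit 5) (nat_lit 683) (nat_lit 5) (nat_lit 684) (nat_lit 5) (nat_lit 546) (nat_lit 529) (nat_lit 485))))))))
noncomputable def xc99 : XT := (XT.nd (nat_lit 2106) (nat_lit 12464) (nat_lit 0) (XT.nd (nat_lit 1014) (nat_lit 11628) (nat_lit 0) (XT.nd (nat_lit 468) (nat_lit 5776) (nat_lit 0) (XT.nd (nat_lit 234) (nat_lit 2432) (nat_lit 0) (XT.nd (nat_lit 78) (nat_lit 1064) (nat_lit 0) (XT.lf (nat_lit 76) (nat_lit 3409234192) (nat_lit 0) (nat_lit 1627519218) (nat_lit 1140) (nat_lit 2074410045) (nat_lit 670) (nat_lit 5) (nat_lit 669) (nat_lit 5) (nat_lit 684) (nat_lit 5) (nat_lit 547) (nat_lit 529) (nat_lit 484)) (XT.nd (nat_lit 78) (nat_lit 0) (nat_lit 0) (XT.lf (nat_lit 0) (nat_lit 60947930) (nat_lit 1140) (nat_lit 6801392912) (nat_lit 76) (nat_lit 289878103) (nat_lit 655) (nat_lit 5) (nat_lit 670) (nat_lit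 5) (nat_lit 656) (nat_lit 5) (nat_lit 548) (nat_lit 529) (nat_lit 483)) (XT.lf (nat_lit 0) (nat_lit 2199745436) (nat_lit 1140) (nat_lit 2718161379) (nat_lit 76) (nat_lit 2276149895) (nat_lit 655) (nat_lit 5) (nat_lit 670) (nat_lit 5) (nat_lit 656) (nat_lit 5) (nat_lit 549) (nat_lit 529) (nat_lit 482)))) (XT.nd (nat_lit 78) (nat_lit 1292) (nat_lit 0) (XT.lf (nat_lit 0) (nat_lit 1431490281) (nat_lit 1140) (nat_lit 2912748359) (nat_lit 1216) (nat_lit 2893239664) (nat_lit 640) (nat_lit 5) (nat_lit 655) (nat_lit 5) (nat_lit 656) (nat_lit 5) (nat_lit 550) (nat_lit 529) (nat_lit 481)) (XT.nd (nat_lit 78) (nat_lit 1292) (nat_lit 0) (XT.lf (nat_lit 0) (nat_lit 5667185420) (nat_lit 1140) (nat_lit 836992027) (nat_lit 1216) (nat_lit 778145126) (nat_lit 640) (nat_lit 5) (nat_lit 655) (nat_lit 5) (nat_lit 656) (nat_lit 5) (nat_lit 551) (nat_lit 529) (nat_lit 480)) (XT.lf (nat_lit 0) (nat_lit 1341847100) (nat_lit 1292) (nat_lit 4685391282) (nat_lit 76) (nat_lit 1301037700) (nat_lit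 623) (nat_lit 5) (nat_lit 640) (nat_lit 5) (nat_lit 624) (nat_lit 5) (nat_lit 552) (nat_lit 529) (nat_lit 479))))) (XT.nd (nat_lit 234) (nat_lit 3040) (nat_lit 0) (XT.nd (nat_lit 78) (nat_lit 2736) (nat_lit 0) (XT.lf (nat_lit 0) (nat_lit 3465929520) (nat_lit 1292) (nat_lit 412218234) (nat_lit 76) (nat_lit 3497460893) (nat_lit 623) (nat_lit 5) (nat_lit 640) (nat_lit 5) (nat_lit 624) (nat_lit 5) (nat_lit 553) (nat_lit 529) (nat_lit 478)) (XT.nd (nat_lit 78) (nat_lit 1444) (nat_lit 0) (XT.lf (nat_lit 0) (nat_lit 3964611839) (nat_lit 1292) (nat_lit 1650139091) (nat_lit 1368) (nat_lit 1809496738) (nat_lit 606) (nat_lit 5) (nat_lit 623) (nat_lit 5) (nat_lit 624) (nat_lit 5) (nat_lit 554) (nat_lit 529) (nat_lit 477)) (XT.lf (nat_lit 0) (nat_lit 298227312) (nat_lit 1444) (nat_lit 6541968821) (nat_lit 76) (nat_lit 634226869) (nat_lit 587) (nat_lit 5) (nat_lit 606) (nat_lit 5) (nat_lit 588) (nat_lit 5) (nat_lit 555) (nat_lit 529) (nat_lit 476)))) (XT.nd (nat_lit 156) (nat_lit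 1596) (nat_lit 0) (XT.nd (nat_lit 78) (nat_lit 1444) (nat_lit 0) (XT.lf (nat_lit 0) (nat_lit 2415740820) (nat_lit 1444) (nat_lit 2123765052) (nat_lit 76) (nat_lit 2986024139) (nat_lit 587) (nat_lit 5) (nat_lit 606) (nat_lit 5) (nat_lit 588) (nat_lit 5) (nat_lit 556) (nat_lit 529) (nat_lit 475)) (XT.lf (nat_lit 0) (nat_lit 2379853674) (nat_lit 1444) (nat_lit 2169578680) (nat_lit 1520) (nat_lit 3028754827) (nat_lit 568) (nat_lit 5) (nat_lit 587) (nat_lit 5) (nat_lit 588) (nat_lit 5) (nat_lit 557) (nat_lit 529) (nat_lit 474))) (XT.nd (nat_lit 78) (nat_lit 1596) (nat_lit 0) (XT.lf (nat_lit 0) (nat_lit 6700770244) (nat_lit 1520) (nat_lit 665790079) (nat_lit 76) (nat_lit 265842204) (nat_lit 568) (nat_lit 5) (nat_lit 588) (nat_lit 5) (nat_lit 569) (nat_lit 5) (nat_lit 558) (nat_lit 529) (nat_lit 473)) (XT.lf (nat_lit 0) (nat_lit 1191498233) (nat_lit 1596) (nat_lit 3734688910) (nat_lit 76) (nat_lit 2761364537) (nat_lit 547) (nat_lit 5) (nat_lit 568) (nat_lit 5) (nat_lit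 548) (nat_lit 5) (nat_lit 559) (nat_lit 529) (nat_lit 472)))))) (XT.nd (nat_lit 546) (nat_lit 4636) (nat_lit 0) (XT.nd (nat_lit 234) (nat_lit 3724) (nat_lit 0) (XT.nd (nat_lit 78) (nat_lit 1672) (nat_lit 0) (XT.lf (nat_lit 0) (nat_lit 900373569) (nat_lit 1596) (nat_lit 2414720830) (nat_lit 1672) (nat_lit 4429180927) (nat_lit 526) (nat_lit 5) (nat_lit 547) (nat_lit 5) (nat_lit 548) (nat_lit 5) (nat_lit 560) (nat_lit 529) (nat_lit 471)) (XT.nd (nat_lit 78) (nat_lit 1672) (nat_lit 0) (XT.lf (nat_lit 0) (nat_lit 5468060146) (nat_lit 1672) (nat_lit 2159022404) (nat_lit 76) (nat_lit 175317087) (nat_lit 526) (nat_lit 5) (nat_lit 548) (nat_lit 5) (nat_lit 527) (nat_lit 5) (nat_lit 561) (nat_lit 529) (nat_lit 470)) (XT.lf (nat_lit 0) (nat_lit 2603361511) (nat_lit 1672) (nat_lit 5055103954) (nat_lit 1748) (nat_lit 203337427) (nat_lit 504) (nat_lit 5) (nat_lit 526) (nat_lit 5) (nat_lit 527) (nat_lit 5) (nat_lit 562) (nat_lit 529) (nat_lit 469)))) (XT.nd (nat_lit 156) (nat_lit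 1900) (nat_lit 0) (XT.nd (nat_lit 78) (nat_lit 1748) (nat_lit 0) (XT.lf (nat_lit 0) (nat_lit 1920792341) (nat_lit 1748) (nat_lit 479364704) (nat_lit 76) (nat_lit 5522458256) (nat_lit 503) (nat_lit 5) (nat_lit 526) (nat_lit 5) (nat_lit 504) (nat_lit 5) (nat_lit 563) (nat_lit 529) (nat_lit 468)) (XT.lf (nat_lit 0) (nat_lit 4078103479) (nat_lit 1824) (nat_lit 3569080893) (nat_lit 76) (nat_lit 337568104) (nat_lit 480) (nat_lit 5) (nat_lit 504) (nat_lit 5) (nat_lit 481) (nat_lit 5) (nat_lit 564) (nat_lit 529) (nat_lit 467))) (XT.nd (nat_lit 78) (nat_lit 76) (nat_lit 0) (XT.lf (nat_lit 0) (nat_lit 1334126454) (nat_lit 1824) (nat_lit 4935280567) (nat_lit 1900) (nat_lit 1778912203) (nat_lit 456) (nat_lit 5) (nat_lit 480) (nat_lit 5) (nat_lit 481) (nat_lit 5) (nat_lit 565) (nat_lit 529) (nat_lit 466)) (XT.lf (nat_lit 0) (nat_lit 373663325) (nat_lit 1900) (nat_lit 1766357447) (nat_lit 76) (nat_lit 5973340981) (nat_lit 455) (nat_lit 5) (nat_lit 480) (nat_lit 5) (nat_lit 456)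 (nat_lit 5) (nat_lit 566) (nat_lit 529) (nat_lit 465))))) (XT.nd (nat_lit 234) (nat_lit 2660) (nat_lit 0) (XT.nd (nat_lit 78) (nat_lit 912) (nat_lit 0) (XT.lf (nat_lit 0) (nat_lit 2535649035) (nat_lit 1140) (nat_lit 4907051544) (nat_lit 76) (nat_lit 736969351) (nat_lit 441) (nat_lit 5) (nat_lit 456) (nat_lit 5) (nat_lit 442) (nat_lit 5) (nat_lit 567) (nat_lit 529) (nat_lit 464)) (XT.nd (nat_lit 78) (nat_lit 0) (nat_lit 0) (XT.lf (nat_lit 0) (nat_lit 142289956) (nat_lit 912) (nat_lit 4590135967) (nat_lit 988) (nat_lit 3515050786) (nat_lit 429) (nat_lit 5) (nat_lit 441) (nat_lit 5) (nat_lit 442) (nat_lit 5) (nat_lit 568) (nat_lit 529) (nat_lit 463)) (XT.lf (nat_lit 0) (nat_lit 5324786782) (nat_lit 912) (nat_lit 1646276686) (nat_lit 988) (nat_lit 1345621052) (nat_lit 429) (nat_lit 5) (nat_lit 441) (nat_lit 5) (nat_lit 442) (nat_lit 5) (nat_lit 569) (nat_lit 529) (nat_lit 462)))) (XT.nd (nat_lit 156) (nat_lit 1672) (nat_lit 0) (XT.nd (nat_lit 78) (nat_lit 0) (nat_lit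 0) (XT.lf (nat_lit 0) (nat_lit 844585680) (nat_lit 988) (nat_lit 6183600299) (nat_lit 76) (nat_lit 1359205930) (nat_lit 416) (nat_lit 5) (nat_lit 429) (nat_lit 5) (nat_lit 417) (nat_lit 5) (nat_lit 570) (nat_lit 529) (nat_lit 461)) (XT.lf (nat_lit 0) (nat_lit 3057618592) (nat_lit 988) (nat_lit 969706425) (nat_lit 76) (nat_lit 4432072942) (nat_lit 416) (nat_lit 5) (nat_lit 429) (nat_lit 5) (nat_lit 417) (nat_lit 5) (nat_lit 571) (nat_lit 529) (nat_lit 460))) (XT.nd (nat_lit 78) (nat_lit 836) (nat_lit 0) (XT.lf (nat_lit 0) (nat_lit 4371883383) (nat_lit 836) (nat_lit 937992772) (nat_lit 912) (nat_lit 3223071836) (nat_lit 405) (nat_lit 5) (nat_lit 416) (nat_lit 5) (nat_lit 417) (nat_lit 5) (nat_lit 572) (nat_lit 529) (nat_lit 459)) (XT.lf (nat_lit 0) (nat_lit 1192483220) (nat_lit 836) (nat_lit 6410368196) (nat_lit 912) (nat_lit 1005207236) (nat_lit 394) (nat_lit 5) (nat_lit 405) (nat_lit 5) (nat_lit 406) (nat_lit 5) (nat_lit 573) (nat_lit 529) (nat_lit 458))))))) (XT.nd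 (nat_lit 1092) (nat_lit 5548) (nat_lit 0) (XT.nd (nat_lit 546) (nat_lit 3572) (nat_lit 0) (XT.nd (nat_lit 234) (nat_lit 1596) (nat_lit 0) (XT.nd (nat_lit 78) (nat_lit 1672) (nat_lit 0) (XT.lf (nat_lit 0) (nat_lit 1242065772) (nat_lit 912) (nat_lit 2023732473) (nat_lit 76) (nat_lit 5418682270) (nat_lit 393) (nat_lit 5) (nat_lit 405) (nat_lit 5) (nat_lit 394) (nat_lit 5) (nat_lit 574) (nat_lit 529) (nat_lit 457)) (XT.nd (nat_lit 78) (nat_lit 836) (nat_lit 0) (XT.lf (nat_lit 0) (nat_lit 3481055232) (nat_lit 836) (nat_lit 30243345) (nat_lit 912) (nat_lit 5251192769) (nat_lit 382) (nat_lit 5) (nat_lit 393) (nat_lit 5) (nat_lit 394) (nat_lit 5) (nat_lit 575) (nat_lit 529) (nat_lit 456)) (XT.lf (nat_lit 0) (nat_lit 228970383) (nat_lit 836) (nat_lit 5601592865) (nat_lit 912) (nat_lit 3011409048) (nat_lit 371) (nat_lit 5) (nat_lit 382) (nat_lit 5) (nat_lit 383) (nat_lit 5) (nat_lit 576) (nat_lit 529) (nat_lit 455)))) (XT.nd (nat_lit 156) (nat_lit 760) (nat_lit 0) (XT.nd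 (nat_lit 78) (nat_lit 836) (nat_lit 0) (XT.lf (nat_lit 0) (nat_lit 5886907284) (nat_lit 836) (nat_lit 2313606482) (nat_lit 912) (nat_lit 722445875) (nat_lit 371) (nat_lit 5) (nat_lit 382) (nat_lit 5) (nat_lit 383) (nat_lit 5) (nat_lit 577) (nat_lit 529) (nat_lit 454)) (XT.lf (nat_lit 0) (nat_lit 1584296154) (nat_lit 836) (nat_lit 6369735738) (nat_lit 76) (nat_lit 1051465257) (nat_lit 360) (nat_lit 5) (nat_lit 371) (nat_lit 5) (nat_lit 361) (nat_lit 5) (nat_lit 578) (nat_lit 529) (nat_lit 453))) (XT.nd (nat_lit 78) (nat_lit 760) (nat_lit 0) (XT.lf (nat_lit 0) (nat_lit 3932776175) (nat_lit 836) (nat_lit 681536298) (nat_lit 76) (nat_lit 4475174519) (nat_lit 360) (nat_lit 5) (nat_lit 371) (nat_lit 5) (nat_lit 361) (nat_lit 5) (nat_lit 579) (nat_lit 529) (nat_lit 452)) (XT.lf (nat_lit 0) (nat_lit 5154516723) (nat_lit 760) (nat_lit 1177212210) (nat_lit 836) (nat_lit 2843360213) (nat_lit 350) (nat_lit 5) (nat_lit 360) (nat_lit 5) (nat_lit 361) (nat_lit 5) (nat_lit 580)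 (nat_lit 529) (nat_lit 451))))) (XT.nd (nat_lit 234) (nat_lit 2052) (nat_lit 0) (XT.nd (nat_lit 78) (nat_lit 836) (nat_lit 0) (XT.lf (nat_lit 0) (nat_lit 1829195582) (nat_lit 684) (nat_lit 6951448215) (nat_lit 760) (nat_lit 481722411) (nat_lit 341) (nat_lit 5) (nat_lit 350) (nat_lit 5) (nat_lit 351) (nat_lit 5) (nat_lit 581) (nat_lit 529) (nat_lit 450)) (XT.nd (nat_lit 78) (nat_lit 760) (nat_lit 0) (XT.lf (nat_lit 0) (nat_lit 1907378243) (nat_lit 760) (nat_lit 1554911153) (nat_lit 76) (nat_lit 5888741497) (nat_lit 340) (nat_lit 5) (nat_lit 350) (nat_lit 5) (nat_lit 341) (nat_lit 5) (nat_lit 582) (nat_lit 529) (nat_lit 449)) (XT.lf (nat_lit 0) (nat_lit 4338731587) (nat_lit 836) (nat_lit 4979328249) (nat_lit 76) (nat_lit 123329312) (nat_lit 330) (nat_lit 5) (nat_lit 341) (nat_lit 5) (nat_lit 331) (nat_lit 5) (nat_lit 583) (nat_lit 529) (nat_lit 448)))) (XT.nd (nat_lit 156) (nat_lit 1368) (nat_lit 0) (XT.nd (nat_lit 78) (nat_lit 0) (nat_lit 0) (XT.lf (nat_lit 0) (nat_lit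 1044109660) (nat_lit 684) (nat_lit 5786262217) (nat_lit 760) (nat_lit 2702951827) (nat_lit 321) (nat_lit 5) (nat_lit 330) (nat_lit 5) (nat_lit 331) (nat_lit 5) (nat_lit 584) (nat_lit 529) (nat_lit 447)) (XT.lf (nat_lit 0) (nat_lit 7222044481) (nat_lit 684) (nat_lit 2155005332) (nat_lit 760) (nat_lit 249945329) (nat_lit 321) (nat_lit 5) (nat_lit 330) (nat_lit 5) (nat_lit 331) (nat_lit 5) (nat_lit 585) (nat_lit 529) (nat_lit 446))) (XT.nd (nat_lit 78) (nat_lit 608) (nat_lit 0) (XT.lf (nat_lit 0) (nat_lit 2229717059) (nat_lit 760) (nat_lit 5929525003) (nat_lit 76) (nat_lit 1562865046) (nat_lit 311) (nat_lit 5) (nat_lit 321) (nat_lit 5) (nat_lit 312) (nat_lit 5) (nat_lit 586) (nat_lit 529) (nat_lit 445)) (XT.lf (nat_lit 0) (nat_lit 282049635) (nat_lit 608) (nat_lit 4478382723) (nat_lit 684) (nat_lit 5058561939) (nat_lit 303) (nat_lit 5) (nat_lit 311) (nat_lit 5) (nat_lit 312) (nat_lit 5) (nat_lit 587) (nat_lit 529) (nat_lit 444)))))) (XT.nd (nat_lit 546) (nat_lit 2888)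 (nat_lit 0) (XT.nd (nat_lit 234) (nat_lit 1900) (nat_lit 0) (XT.nd (nat_lit 78) (nat_lit 760) (nat_lit 0) (XT.lf (nat_lit 0) (nat_lit 6664969800) (nat_lit 608) (nat_lit 689361660) (nat_lit 684) (nat_lit 2563238493) (nat_lit 303) (nat_lit 5) (nat_lit 311) (nat_lit 5) (nat_lit 312) (nat_lit 5) (nat_lit 588) (nat_lit 529) (nat_lit 443)) (XT.nd (nat_lit 78) (nat_lit 76) (nat_lit 0) (XT.lf (nat_lit 0) (nat_lit 3144953419) (nat_lit 684) (nat_lit 6869465856) (nat_lit 760) (nat_lit 3413704) (nat_lit 294) (nat_lit 5) (nat_lit 303) (nat_lit 5) (nat_lit 304) (nat_lit 5) (nat_lit 589) (nat_lit 529) (nat_lit 442)) (XT.lf (nat_lit 0) (nat_lit 2573352948) (nat_lit 760) (nat_lit 460001958) (nat_lit 76) (nat_lit 7086410853) (nat_lit 293) (nat_lit 5) (nat_lit 303) (nat_lit 5) (nat_lit 294) (nat_lit 5) (nat_lit 590) (nat_lit 529) (nat_lit 441)))) (XT.nd (nat_lit 156) (nat_lit 684) (nat_lit 0) (XT.nd (nat_lit 78) (nat_lit 608) (nat_lit 0) (XT.lf (nat_lit 0) (nat_lit 5221263138) (nat_lit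 684) (nat_lit 4100496634) (nat_lit 76) (nat_lit 901585846) (nat_lit 285) (nat_lit 5) (nat_lit 294) (nat_lit 5) (nat_lit 286) (nat_lit 5) (nat_lit 591) (nat_lit 529) (nat_lit 440)) (XT.lf (nat_lit 0) (nat_lit 2494409735) (nat_lit 608) (nat_lit 5441300458) (nat_lit 684) (nat_lit 2393017222) (nat_lit 277) (nat_lit 5) (nat_lit 285) (nat_lit 5) (nat_lit 286) (nat_lit 5) (nat_lit 592) (nat_lit 529) (nat_lit 439))) (XT.nd (nat_lit 78) (nat_lit 608) (nat_lit 0) (XT.lf (nat_lit 0) (nat_lit 266721119) (nat_lit 684) (nat_lit 1193772890) (nat_lit 76) (nat_lit 8975649654) (nat_lit 276) (nat_lit 5) (nat_lit 285) (nat_lit 5) (nat_lit 277) (nat_lit 5) (nat_lit 593) (nat_lit 529) (nat_lit 438)) (XT.lf (nat_lit 0) (nat_lit 2976027124) (nat_lit 684) (nat_lit 4957438057) (nat_lit 76) (nat_lit 2611360194) (nat_lit 268) (nat_lit 5) (nat_lit 277) (nat_lit 5) (nat_lit 269) (nat_lit 5) (nat_lit 594) (nat_lit 529) (nat_lit 437))))) (XT.nd (nat_lit 234) (nat_lit 1672) (nat_lit 0) (XT.nd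 (nat_lit 78) (nat_lit 608) (nat_lit 0) (XT.lf (nat_lit 0) (nat_lit 1846753780) (nat_lit 608) (nat_lit 3897544904) (nat_lit 684) (nat_lit 4911288218) (nat_lit 260) (nat_lit 5) (nat_lit 268) (nat_lit 5) (nat_lit 269) (nat_lit 5) (nat_lit 595) (nat_lit 529) (nat_lit 436)) (XT.nd (nat_lit 78) (nat_lit 608) (nat_lit 0) (XT.lf (nat_lit 0) (nat_lit 8578127671) (nat_lit 684) (nat_lit 1948116815) (nat_lit 76) (nat_lit 242117067) (nat_lit 260) (nat_lit 5) (nat_lit 269) (nat_lit 5) (nat_lit 261) (nat_lit 5) (nat_lit 596) (nat_lit 529) (nat_lit 435)) (XT.lf (nat_lit 0) (nat_lit 612211697) (nat_lit 608) (nat_lit 5828552804) (nat_lit 76) (nat_lit 4441859951) (nat_lit 252) (nat_lit 5) (nat_lit 260) (nat_lit 5) (nat_lit 253) (nat_lit 5) (nat_lit 597) (nat_lit 529) (nat_lit 434)))) (XT.nd (nat_lit 156) (nat_lit 1140) (nat_lit 0) (XT.nd (nat_lit 78) (nat_lit 0) (nat_lit 0) (XT.lf (nat_lit 0) (nat_lit 1192577442) (nat_lit 532) (nat_lit 2245605589) (nat_lit 608) (nat_lit 7560765583)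 (nat_lit 245) (nat_lit 5) (nat_lit 252) (nat_lit 5) (nat_lit 253) (nat_lit 5) (nat_lit 598) (nat_lit 529) (nat_lit 433)) (XT.lf (nat_lit 0) (nat_lit 6349333885) (nat_lit 608) (nat_lit 2729625945) (nat_lit 76) (nat_lit 2038067829) (nat_lit 245) (nat_lit 5) (nat_lit 253) (nat_lit 5) (nat_lit 246) (nat_lit 5) (nat_lit 599) (nat_lit 529) (nat_lit 432))) (XT.nd (nat_lit 78) (nat_lit 608) (nat_lit 0) (XT.lf (nat_lit 0) (nat_lit 4500965334) (nat_lit 532) (nat_lit 4838392001) (nat_lit 608) (nat_lit 1897699529) (nat_lit 238) (nat_lit 5) (nat_lit 245) (nat_lit 5) (nat_lit 246) (nat_lit 5) (nat_lit 600) (nat_lit 529) (nat_lit 431)) (XT.lf (nat_lit 0) (nat_lit 522139617) (nat_lit 532) (nat_lit 492532919) (nat_lit 608) (nat_lit 10344712264) (nat_lit 230) (nat_lit 5) (nat_lit 237) (nat_lit 5) (nat_lit 238) (nat_lit 5) (nat_lit 601) (nat_lit 529) (nat_lit 430))))))))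
noncomputable def xc100 : XT := (XT.nd (nat_lit 2106) (nat_lit 4408) (nat_lit 0) (XT.nd (nat_lit 1014) (nat_lit 3572) (nat_lit 0) (XT.nd (nat_lit 468) (nat_lit 2356) (nat_lit 0) (XT.nd (nat_lit 234) (nat_lit 1064) (nat_lit 0) (XT.nd (nat_lit 78) (nat_lit 456) (nat_lit 0) (XT.lf (nat_lit 0) (nat_lit 4007839857) (nat_lit 608) (nat_lit 3537007467) (nat_lit 76) (nat_lit 3938103416) (nat_lit 230) (nat_lit 5) (nat_lit 238) (nat_lit 5) (nat_lit 231) (nat_lit 5) (nat_lit 602) (nat_lit 529) (nat_lit 429)) (XT.nd (nat_lit 78) (nat_lit 0) (nat_lit 0) (XT.lf (nat_lit 0) (nat_lit 3925945490) (nat_lit 456) (nat_lit 3140980122) (nat_lit 532) (nat_lit 4541942736) (nat_lit 224) (nat_lit 5) (nat_lit 230) (nat_lit 5) (nat_lit 231) (nat_lit 5) (nat_lit 603) (nat_lit 529) (nat_lit 428)) (XT.lf (nat_lit 0) (nat_lit 10197344499) (nat_lit 532) (nat_lit 191358436) (nat_lit 76) (nat_lit 1348399764) (nat_lit 224) (nat_lit 5) (nat_lit 231) (nat_lit 5) (nat_lit 225) (nat_lit 5) (nat_lit 604)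 (nat_lit 529) (nat_lit 427)))) (XT.nd (nat_lit 78) (nat_lit 456) (nat_lit 0) (XT.lf (nat_lit 0) (nat_lit 1550217477) (nat_lit 608) (nat_lit 4380681461) (nat_lit 76) (nat_lit 5935852173) (nat_lit 216) (nat_lit 5) (nat_lit 224) (nat_lit 5) (nat_lit 217) (nat_lit 5) (nat_lit 605) (nat_lit 529) (nat_lit 426)) (XT.nd (nat_lit 78) (nat_lit 0) (nat_lit 0) (XT.lf (nat_lit 0) (nat_lit 3322877705) (nat_lit 456) (nat_lit 1359399245) (nat_lit 532) (nat_lit 7316495291) (nat_lit 210) (nat_lit 5) (nat_lit 216) (nat_lit 5) (nat_lit 217) (nat_lit 5) (nat_lit 606) (nat_lit 529) (nat_lit 425)) (XT.lf (nat_lit 0) (nat_lit 7906203329) (nat_lit 532) (nat_lit 945941703) (nat_lit 76) (nat_lit 3280705562) (nat_lit 210) (nat_lit 5) (nat_lit 217) (nat_lit 5) (nat_lit 211) (nat_lit 5) (nat_lit 607) (nat_lit 529) (nat_lit 424))))) (XT.nd (nat_lit 234) (nat_lit 1368) (nat_lit 0) (XT.nd (nat_lit 78) (nat_lit 532) (nat_lit 0) (XT.lf (nat_lit 0) (nat_lit 6990562780) (nat_lit 456) (nat_lit 4237048848)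 (nat_lit 532) (nat_lit 1041340105) (nat_lit 204) (nat_lit 5) (nat_lit 210) (nat_lit 5) (nat_lit 211) (nat_lit 5) (nat_lit 608) (nat_lit 529) (nat_lit 423)) (XT.nd (nat_lit 78) (nat_lit 0) (nat_lit 0) (XT.lf (nat_lit 0) (nat_lit 2184453221) (nat_lit 532) (nat_lit 9729736510) (nat_lit 76) (nat_lit 493185049) (nat_lit 197) (nat_lit 5) (nat_lit 204) (nat_lit 5) (nat_lit 198) (nat_lit 5) (nat_lit 609) (nat_lit 529) (nat_lit 422)) (XT.lf (nat_lit 0) (nat_lit 5503397553) (nat_lit 532) (nat_lit 1749680639) (nat_lit 76) (nat_lit 5294500070) (nat_lit 197) (nat_lit 5) (nat_lit 204) (nat_lit 5) (nat_lit 198) (nat_lit 5) (nat_lit 610) (nat_lit 529) (nat_lit 421)))) (XT.nd (nat_lit 156) (nat_lit 532) (nat_lit 0) (XT.nd (nat_lit 78) (nat_lit 380) (nat_lit 0) (XT.lf (nat_lit 0) (nat_lit 6444131542) (nat_lit 456) (nat_lit 2465693883) (nat_lit 532) (nat_lit 3780339485) (nat_lit 191) (nat_lit 5) (nat_lit 197) (nat_lit 5) (nat_lit 198) (nat_lit 5) (nat_lit 611) (nat_lit 529) (nat_lit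 420)) (XT.lf (nat_lit 0) (nat_lit 1969718636) (nat_lit 380) (nat_lit 10434379837) (nat_lit 456) (nat_lit 431111654) (nat_lit 186) (nat_lit 5) (nat_lit 191) (nat_lit 5) (nat_lit 192) (nat_lit 5) (nat_lit 612) (nat_lit 529) (nat_lit 419))) (XT.nd (nat_lit 78) (nat_lit 456) (nat_lit 0) (XT.lf (nat_lit 0) (nat_lit 2983955477) (nat_lit 456) (nat_lit 2614436720) (nat_lit 76) (nat_lit 7383617449) (nat_lit 185) (nat_lit 5) (nat_lit 191) (nat_lit 5) (nat_lit 186) (nat_lit 5) (nat_lit 613) (nat_lit 529) (nat_lit 418)) (XT.lf (nat_lit 0) (nat_lit 5845464960) (nat_lit 456) (nat_lit 633930740) (nat_lit 532) (nat_lit 6651936675) (nat_lit 179) (nat_lit 5) (nat_lit 185) (nat_lit 5) (nat_lit 186) (nat_lit 5) (nat_lit 614) (nat_lit 529) (nat_lit 417)))))) (XT.nd (nat_lit 546) (nat_lit 1900) (nat_lit 0) (XT.nd (nat_lit 234) (nat_lit 836) (nat_lit 0) (XT.nd (nat_lit 78) (nat_lit 456) (nat_lit 0) (XT.lf (nat_lit 0) (nat_lit 1183232739) (nat_lit 380) (nat_lit 8895639277) (nat_lit 456)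 (nat_lit 3204088075) (nat_lit 174) (nat_lit 5) (nat_lit 179) (nat_lit 5) (nat_lit 180) (nat_lit 5) (nat_lit 615) (nat_lit 529) (nat_lit 416)) (XT.nd (nat_lit 78) (nat_lit 380) (nat_lit 0) (XT.lf (nat_lit 0) (nat_lit 342118740) (nat_lit 456) (nat_lit 3552907061) (nat_lit 76) (nat_lit 9541884938) (nat_lit 173) (nat_lit 5) (nat_lit 179) (nat_lit 5) (nat_lit 174) (nat_lit 5) (nat_lit 616) (nat_lit 529) (nat_lit 415)) (XT.lf (nat_lit 0) (nat_lit 3938636487) (nat_lit 456) (nat_lit 8419363676) (nat_lit 76) (nat_lit 1235071879) (nat_lit 168) (nat_lit 5) (nat_lit 174) (nat_lit 5) (nat_lit 169) (nat_lit 5) (nat_lit 617) (nat_lit 529) (nat_lit 414)))) (XT.nd (nat_lit 156) (nat_lit 456) (nat_lit 0) (XT.nd (nat_lit 78) (nat_lit 0) (nat_lit 0) (XT.lf (nat_lit 0) (nat_lit 319652052) (nat_lit 380) (nat_lit 7319908038) (nat_lit 456) (nat_lit 6112147969) (nat_lit 163) (nat_lit 5) (nat_lit 168) (nat_lit 5) (nat_lit 169) (nat_lit 5) (nat_lit 618) (nat_lit 529) (nat_lit 413)) (XT.lf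 (nat_lit 0) (nat_lit 9318045908) (nat_lit 380) (nat_lit 2133748647) (nat_lit 456) (nat_lit 2460977369) (nat_lit 163) (nat_lit 5) (nat_lit 168) (nat_lit 5) (nat_lit 169) (nat_lit 5) (nat_lit 619) (nat_lit 529) (nat_lit 412))) (XT.nd (nat_lit 78) (nat_lit 0) (nat_lit 0) (XT.lf (nat_lit 0) (nat_lit 1277193310) (nat_lit 456) (nat_lit 9657186945) (nat_lit 76) (nat_lit 3141902838) (nat_lit 157) (nat_lit 5) (nat_lit 163) (nat_lit 5) (nat_lit 158) (nat_lit 5) (nat_lit 620) (nat_lit 529) (nat_lit 411)) (XT.lf (nat_lit 0) (nat_lit 5083535535) (nat_lit 456) (nat_lit 626923662) (nat_lit 76) (nat_lit 8531753654) (nat_lit 157) (nat_lit 5) (nat_lit 163) (nat_lit 5) (nat_lit 158) (nat_lit 5) (nat_lit 621) (nat_lit 529) (nat_lit 410))))) (XT.nd (nat_lit 234) (nat_lit 1064) (nat_lit 0) (XT.nd (nat_lit 78) (nat_lit 456) (nat_lit 0) (XT.lf (nat_lit 0) (nat_lit 8668893419) (nat_lit 380) (nat_lit 334926575) (nat_lit 456) (nat_lit 5406885805) (nat_lit 152) (nat_lit 5) (nat_lit 157) (nat_lit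 5) (nat_lit 158) (nat_lit 5) (nat_lit 622) (nat_lit 529) (nat_lit 409)) (XT.nd (nat_lit 78) (nat_lit 76) (nat_lit 0) (XT.lf (nat_lit 0) (nat_lit 3561034721) (nat_lit 380) (nat_lit 9483897125) (nat_lit 456) (nat_lit 1536789209) (nat_lit 147) (nat_lit 5) (nat_lit 152) (nat_lit 5) (nat_lit 153) (nat_lit 5) (nat_lit 623) (nat_lit 529) (nat_lit 408)) (XT.lf (nat_lit 0) (nat_lit 2401790074) (nat_lit 456) (nat_lit 1674651426) (nat_lit 76) (nat_lit 10678948975) (nat_lit 146) (nat_lit 5) (nat_lit 152) (nat_lit 5) (nat_lit 147) (nat_lit 5) (nat_lit 624) (nat_lit 529) (nat_lit 407)))) (XT.nd (nat_lit 156) (nat_lit 380) (nat_lit 0) (XT.nd (nat_lit 78) (nat_lit 380) (nat_lit 0) (XT.lf (nat_lit 0) (nat_lit 6441765891) (nat_lit 380) (nat_lit 7017641567) (nat_lit 76) (nat_lit 1472059444) (nat_lit 142) (nat_lit 5) (nat_lit 147) (nat_lit 5) (nat_lit 143) (nat_lit 5) (nat_lit 625) (nat_lit 529) (nat_lit 406)) (XT.lf (nat_lit 0) (nat_lit 2584308364) (nat_lit 380) (nat_lit 8015474900)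 (nat_lit 456) (nat_lit 4510537571) (nat_lit 137) (nat_lit 5) (nat_lit 142) (nat_lit 5) (nat_lit 143) (nat_lit 5) (nat_lit 626) (nat_lit 529) (nat_lit 405))) (XT.nd (nat_lit 78) (nat_lit 380) (nat_lit 0) (XT.lf (nat_lit 0) (nat_lit 12445163968) (nat_lit 380) (nat_lit 2425209996) (nat_lit 456) (nat_lit 421790422) (nat_lit 137) (nat_lit 5) (nat_lit 142) (nat_lit 5) (nat_lit 143) (nat_lit 5) (nat_lit 627) (nat_lit 529) (nat_lit 404)) (XT.lf (nat_lit 0) (nat_lit 3749667903) (nat_lit 380) (nat_lit 8432276205) (nat_lit 76) (nat_lit 3294212655) (nat_lit 132) (nat_lit 5) (nat_lit 137) (nat_lit 5) (nat_lit 133) (nat_lit 5) (nat_lit 628) (nat_lit 529) (nat_lit 403))))))) (XT.nd (nat_lit 1014) (nat_lit 1900) (nat_lit 0) (XT.nd (nat_lit 468) (nat_lit 1216) (nat_lit 0) (XT.nd (nat_lit 234) (nat_lit 608) (nat_lit 0) (XT.nd (nat_lit 78) (nat_lit 380) (nat_lit 0) (XT.lf (nat_lit 0) (nat_lit 1480122796) (nat_lit 304) (nat_lit 6546338387) (nat_lit 380) (nat_lit 7636761727) (nat_lit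 128) (nat_lit 5) (nat_lit 132) (nat_lit 5) (nat_lit 133) (nat_lit 5) (nat_lit 629) (nat_lit 529) (nat_lit 402)) (XT.nd (nat_lit 78) (nat_lit 380) (nat_lit 0) (XT.lf (nat_lit 0) (nat_lit 11677223372) (nat_lit 304) (nat_lit 750957393) (nat_lit 380) (nat_lit 3425062547) (nat_lit 128) (nat_lit 5) (nat_lit 132) (nat_lit 5) (nat_lit 133) (nat_lit 5) (nat_lit 630) (nat_lit 529) (nat_lit 401)) (XT.lf (nat_lit 0) (nat_lit 915674376) (nat_lit 380) (nat_lit 10002506678) (nat_lit 76) (nat_lit 5127646186) (nat_lit 123) (nat_lit 5) (nat_lit 128) (nat_lit 5) (nat_lit 124) (nat_lit 5) (nat_lit 631) (nat_lit 529) (nat_lit 400)))) (XT.nd (nat_lit 78) (nat_lit 304) (nat_lit 0) (XT.lf (nat_lit 0) (nat_lit 229505386) (nat_lit 304) (nat_lit 5085691157) (nat_lit 380) (nat_lit 10926257564) (nat_lit 119) (nat_lit 5) (nat_lit 123) (nat_lit 5) (nat_lit 124) (nat_lit 5) (nat_lit 632) (nat_lit 529) (nat_lit 399)) (XT.nd (nat_lit 78) (nat_lit 304) (nat_lit 0) (XT.lf (nat_lit 0) (nat_lit 9859082276)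 (nat_lit 380) (nat_lit 5671657286) (nat_lit 76) (nat_lit 909127172) (nat_lit 119) (nat_lit 5) (nat_lit 124) (nat_lit 5) (nat_lit 120) (nat_lit 5) (nat_lit 633) (nat_lit 529) (nat_lit 398)) (XT.lf (nat_lit 0) (nat_lit 4878586660) (nat_lit 304) (nat_lit 9664143997) (nat_lit 380) (nat_lit 2098539928) (nat_lit 115) (nat_lit 5) (nat_lit 119) (nat_lit 5) (nat_lit 120) (nat_lit 5) (nat_lit 634) (nat_lit 529) (nat_lit 397))))) (XT.nd (nat_lit 234) (nat_lit 608) (nat_lit 0) (XT.nd (nat_lit 78) (nat_lit 532) (nat_lit 0) (XT.lf (nat_lit 0) (nat_lit 2462791809) (nat_lit 380) (nat_lit 1172732827) (nat_lit 76) (nat_lit 13210419733) (nat_lit 114) (nat_lit 5) (nat_lit 119) (nat_lit 5) (nat_lit 115) (nat_lit 5) (nat_lit 635) (nat_lit 529) (nat_lit 396)) (XT.nd (nat_lit 78) (nat_lit 228) (nat_lit 0) (XT.lf (nat_lit 0) (nat_lit 7151011668) (nat_lit 380) (nat_lit 7354375152) (nat_lit 76) (nat_lit 2547772794) (nat_lit 110) (nat_lit 5) (nat_lit 115) (nat_lit 5) (nat_lit 111) (nat_lit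 5) (nat_lit 636) (nat_lit 529) (nat_lit 395)) (XT.lf (nat_lit 0) (nat_lit 3534757545) (nat_lit 228) (nat_lit 8437153081) (nat_lit 304) (nat_lit 5291830865) (nat_lit 107) (nat_lit 5) (nat_lit 110) (nat_lit 5) (nat_lit 111) (nat_lit 5) (nat_lit 637) (nat_lit 529) (nat_lit 394)))) (XT.nd (nat_lit 156) (nat_lit 228) (nat_lit 0) (XT.nd (nat_lit 78) (nat_lit 380) (nat_lit 0) (XT.lf (nat_lit 0) (nat_lit 14714799284) (nat_lit 228) (nat_lit 2207888532) (nat_lit 304) (nat_lit 555178589) (nat_lit 107) (nat_lit 5) (nat_lit 110) (nat_lit 5) (nat_lit 111) (nat_lit 5) (nat_lit 638) (nat_lit 529) (nat_lit 393)) (XT.lf (nat_lit 0) (nat_lit 4286891672) (nat_lit 380) (nat_lit 9242969746) (nat_lit 76) (nat_lit 4164522342) (nat_lit 102) (nat_lit 5) (nat_lit 107) (nat_lit 5) (nat_lit 103) (nat_lit 5) (nat_lit 639) (nat_lit 529) (nat_lit 392))) (XT.nd (nat_lit 78) (nat_lit 0) (nat_lit 0) (XT.lf (nat_lit 0) (nat_lit 1994188513) (nat_lit 228) (nat_lit 7254807893) (nat_lit 304) (nat_lit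 8665549694) (nat_lit 99) (nat_lit 5) (nat_lit 102) (nat_lit 5) (nat_lit 103) (nat_lit 5) (nat_lit 640) (nat_lit 529) (nat_lit 391)) (XT.lf (nat_lit 0) (nat_lit 13555231378) (nat_lit 228) (nat_lit 801659584) (nat_lit 304) (nat_lit 3781290332) (nat_lit 99) (nat_lit 5) (nat_lit 102) (nat_lit 5) (nat_lit 103) (nat_lit 5) (nat_lit 641) (nat_lit 529) (nat_lit 390)))))) (XT.nd (nat_lit 546) (nat_lit 532) (nat_lit 0) (XT.nd (nat_lit 234) (nat_lit 760) (nat_lit 0) (XT.nd (nat_lit 78) (nat_lit 228) (nat_lit 0) (XT.lf (nat_lit 0) (nat_lit 1253157006) (nat_lit 380) (nat_lit 11363442309) (nat_lit 76) (nat_lit 5748169515) (nat_lit 94) (nat_lit 5) (nat_lit 99) (nat_lit 5) (nat_lit 95) (nat_lit 5) (nat_lit 642) (nat_lit 529) (nat_lit 389)) (XT.nd (nat_lit 78) (nat_lit 0) (nat_lit 0) (XT.lf (nat_lit 0) (nat_lit 230704681) (nat_lit 228) (nat_lit 6129558495) (nat_lit 304) (nat_lit 12234673554) (nat_lit 91) (nat_lit 5) (nat_lit 94) (nat_lit 5) (nat_lit 95) (nat_lit 5) (nat_lit 643)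 (nat_lit 529) (nat_lit 388)) (XT.lf (nat_lit 0) (nat_lit 11634285968) (nat_lit 304) (nat_lit 6647049966) (nat_lit 76) (nat_lit 547077084) (nat_lit 91) (nat_lit 5) (nat_lit 95) (nat_lit 5) (nat_lit 92) (nat_lit 5) (nat_lit 644) (nat_lit 529) (nat_lit 387)))) (XT.nd (nat_lit 156) (nat_lit 456) (nat_lit 0) (XT.nd (nat_lit 78) (nat_lit 76) (nat_lit 0) (XT.lf (nat_lit 0) (nat_lit 5308039967) (nat_lit 228) (nat_lit 11765954141) (nat_lit 304) (nat_lit 1991361133) (nat_lit 88) (nat_lit 5) (nat_lit 91) (nat_lit 5) (nat_lit 92) (nat_lit 5) (nat_lit 645) (nat_lit 529) (nat_lit 386)) (XT.lf (nat_lit 0) (nat_lit 3302055319) (nat_lit 304) (nat_lit 1761120126) (nat_lit 76) (nat_lit 14242829266) (nat_lit 87) (nat_lit 5) (nat_lit 91) (nat_lit 5) (nat_lit 88) (nat_lit 5) (nat_lit 646) (nat_lit 529) (nat_lit 385))) (XT.nd (nat_lit 78) (nat_lit 228) (nat_lit 0) (XT.lf (nat_lit 0) (nat_lit 8740822049) (nat_lit 304) (nat_lit 8986589019) (nat_lit 76) (nat_lit 1822470399) (nat_lit 84)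 (nat_lit 5) (nat_lit 88) (nat_lit 5) (nat_lit 85) (nat_lit 5) (nat_lit 647) (nat_lit 529) (nat_lit 384)) (XT.lf (nat_lit 0) (nat_lit 3344880410) (nat_lit 228) (nat_lit 10996152397) (nat_lit 304) (nat_lit 5456550046) (nat_lit 81) (nat_lit 5) (nat_lit 84) (nat_lit 5) (nat_lit 85) (nat_lit 5) (nat_lit 648) (nat_lit 529) (nat_lit 383))))) (XT.nd (nat_lit 71916) (nat_lit 0) (nat_lit 48792) (XT.nd (nat_lit 78) (nat_lit 456) (nat_lit 0) (XT.lf (nat_lit 0) (nat_lit 49225183) (nat_lit 304) (nat_lit 4029729367) (nat_lit 76) (nat_lit 15970358674) (nat_lit 80) (nat_lit 5) (nat_lit 84) (nat_lit 5) (nat_lit 81) (nat_lit 5) (nat_lit 649) (nat_lit 529) (nat_lit 382)) (XT.nd (nat_lit 78) (nat_lit 228) (nat_lit 0) (XT.lf (nat_lit 0) (nat_lit 5654280733) (nat_lit 304) (nat_lit 11629359294) (nat_lit 76) (nat_lit 3020472701) (nat_lit 77) (nat_lit 5) (nat_lit 81) (nat_lit 5) (nat_lit 78) (nat_lit 5) (nat_lit 650) (nat_lit 529) (nat_lit 381)) (XT.lf (nat_lit 0) (nat_lit 1086911804) (nat_lit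 228) (nat_lit 10331702374) (nat_lit 304) (nat_lit 9144450941) (nat_lit 74) (nat_lit 5) (nat_lit 77) (nat_lit 5) (nat_lit 78) (nat_lit 5) (nat_lit 651) (nat_lit 529) (nat_lit 380)))) (XT.nd (nat_lit 156) (nat_lit 760) (nat_lit 0) (XT.nd (nat_lit 78) (nat_lit 0) (nat_lit 0) (XT.lf (nat_lit 0) (nat_lit 764836944) (nat_lit 0) (nat_lit 764836944) (nat_lit 684) (nat_lit 1786592094) (nat_lit 726) (nat_lit 5) (nat_lit 726) (nat_lit 3) (nat_lit 735) (nat_lit 3) (nat_lit 530) (nat_lit 530) (nat_lit 500)) (XT.lf (nat_lit 0) (nat_lit 4849649025) (nat_lit 0) (nat_lit 553321760) (nat_lit 684) (nat_lit 1249297229) (nat_lit 726) (nat_lit 5) (nat_lit 726) (nat_lit 3) (nat_lit 735) (nat_lit 3) (nat_lit 531) (nat_lit 530) (nat_lit 499))) (XT.nd (nat_lit 78) (nat_lit 0) (nat_lit 0) (XT.lf (nat_lit 0) (nat_lit 1058499038) (nat_lit 760) (nat_lit 5131005805) (nat_lit 836) (nat_lit 483714127) (nat_lit 716) (nat_lit 5) (nat_lit 726) (nat_lit 5) (nat_lit 727) (nat_lit 5) (nat_lit 532) (nat_lit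 530) (nat_lit 498)) (XT.lf (nat_lit 0) (nat_lit 3351683778) (nat_lit 760) (nat_lit 1760338230) (nat_lit 836) (nat_lit 1583290855) (nat_lit 716) (nat_lit 5) (nat_lit 726) (nat_lit 5) (nat_lit 727) (nat_lit 5) (nat_lit 533) (nat_lit 530) (nat_lit 497))))))))
noncomputable def xc101 : XT := (XT.nd (nat_lit 2106) (nat_lit 18544) (nat_lit 0) (XT.nd (nat_lit 1014) (nat_lit 9196) (nat_lit 0) (XT.nd (nat_lit 468) (nat_lit 1976) (nat_lit 0) (XT.nd (nat_lit 234) (nat_lit 836) (nat_lit 0) (XT.nd (nat_lit 78) (nat_lit 836) (nat_lit 0) (XT.lf (nat_lit 76) (nat_lit 1667901672) (nat_lit 0) (nat_lit 3974938081) (nat_lit 836) (nat_lit 1075974854) (nat_lit 717) (nat_lit 5) (nat_lit 716) (nat_lit 5) (nat_lit 727) (nat_lit 5) (nat_lit 534) (nat_lit 530) (nat_lit 496)) (XT.nd (nat_lit 78) (nat_lit 0) (nat_lit 0) (XT.lf (nat_lit 0) (nat_lit 1174534365) (nat_lit 836) (nat_lit 1594379765) (nat_lit 912) (nat_lit 3974644914) (nat_lit 705) (nat_lit 5) (nat_lit 716) (nat_lit 5) (nat_lit 717)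 (nat_lit 5) (nat_lit 535) (nat_lit 530) (nat_lit 495)) (XT.lf (nat_lit 76) (nat_lit 1917653888) (nat_lit 0) (nat_lit 1493431999) (nat_lit 912) (nat_lit 3358469107) (nat_lit 706) (nat_lit 5) (nat_lit 705) (nat_lit 5) (nat_lit 717) (nat_lit 5) (nat_lit 536) (nat_lit 530) (nat_lit 494)))) (XT.nd (nat_lit 78) (nat_lit 836) (nat_lit 0) (XT.lf (nat_lit 76) (nat_lit 5490093814) (nat_lit 0) (nat_lit 156862987) (nat_lit 912) (nat_lit 1150029800) (nat_lit 706) (nat_lit 5) (nat_lit 705) (nat_lit 5) (nat_lit 717) (nat_lit 5) (nat_lit 537) (nat_lit 530) (nat_lit 493)) (XT.nd (nat_lit 78) (nat_lit 0) (nat_lit 0) (XT.lf (nat_lit 0) (nat_lit 1055805630) (nat_lit 912) (nat_lit 4533319045) (nat_lit 988) (nat_lit 1236352448) (nat_lit 694) (nat_lit 5) (nat_lit 706) (nat_lit 5) (nat_lit 707) (nat_lit 5) (nat_lit 538) (nat_lit 530) (nat_lit 492)) (XT.lf (nat_lit 0) (nat_lit 3245890465) (nat_lit 912) (nat_lit 914782622) (nat_lit 988) (nat_lit 2694608775) (nat_lit 694) (nat_lit 5) (nat_lit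 706) (nat_lit 5) (nat_lit 707) (nat_lit 5) (nat_lit 539) (nat_lit 530) (nat_lit 491))))) (XT.nd (nat_lit 234) (nat_lit 988) (nat_lit 0) (XT.nd (nat_lit 78) (nat_lit 988) (nat_lit 0) (XT.lf (nat_lit 76) (nat_lit 2780619515) (nat_lit 0) (nat_lit 2663927144) (nat_lit 988) (nat_lit 1441847580) (nat_lit 695) (nat_lit 5) (nat_lit 694) (nat_lit 5) (nat_lit 707) (nat_lit 5) (nat_lit 540) (nat_lit 530) (nat_lit 490)) (XT.nd (nat_lit 78) (nat_lit 0) (nat_lit 76) (XT.lf (nat_lit 0) (nat_lit 712340812) (nat_lit 988) (nat_lit 393181418) (nat_lit 1064) (nat_lit 5813445834) (nat_lit 681) (nat_lit 5) (nat_lit 694) (nat_lit 5) (nat_lit 695) (nat_lit 5) (nat_lit 541) (nat_lit 530) (nat_lit 489)) (XT.lf (nat_lit 0) (nat_lit 2864096471) (nat_lit 988) (nat_lit 3559254089) (nat_lit 1064) (nat_lit 529182933) (nat_lit 682) (nat_lit 5) (nat_lit 695) (nat_lit 5) (nat_lit 696) (nat_lit 5) (nat_lit 542) (nat_lit 530) (nat_lit 488)))) (XT.nd (nat_lit 156) (nat_lit 0) (nat_lit 0) (XT.nd (nat_lit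 78) (nat_lit 1064) (nat_lit 0) (XT.lf (nat_lit 76) (nat_lit 237075950) (nat_lit 0) (nat_lit 4782498810) (nat_lit 1064) (nat_lit 1967988125) (nat_lit 683) (nat_lit 5) (nat_lit 682) (nat_lit 5) (nat_lit 696) (nat_lit 5) (nat_lit 543) (nat_lit 530) (nat_lit 487)) (XT.lf (nat_lit 0) (nat_lit 165975267) (nat_lit 1064) (nat_lit 2899895616) (nat_lit 1140) (nat_lit 3957929609) (nat_lit 668) (nat_lit 5) (nat_lit 682) (nat_lit 5) (nat_lit 683) (nat_lit 5) (nat_lit 544) (nat_lit 530) (nat_lit 486))) (XT.nd (nat_lit 78) (nat_lit 0) (nat_lit 76) (XT.lf (nat_lit 76) (nat_lit 995141387) (nat_lit 0) (nat_lit 1278217425) (nat_lit 1140) (nat_lit 4788008063) (nat_lit 669) (nat_lit 5) (nat_lit 668) (nat_lit 5) (nat_lit 683) (nat_lit 5) (nat_lit 545) (nat_lit 530) (nat_lit 485)) (XT.lf (nat_lit 0) (nat_lit 4397488886) (nat_lit 1064) (nat_lit 2129030431) (nat_lit 1140) (nat_lit 573679208) (nat_lit 669) (nat_lit 5) (nat_lit 683) (nat_lit 5) (nat_lit 684) (nat_lit 5) (nat_lit 546) (nat_lit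 530) (nat_lit 484)))))) (XT.nd (nat_lit 546) (nat_lit 5776) (nat_lit 0) (XT.nd (nat_lit 234) (nat_lit 2356) (nat_lit 0) (XT.nd (nat_lit 78) (nat_lit 1140) (nat_lit 0) (XT.lf (nat_lit 76) (nat_lit 1870172712) (nat_lit 0) (nat_lit 4666958258) (nat_lit 1140) (nat_lit 603221054) (nat_lit 670) (nat_lit 5) (nat_lit 669) (nat_lit 5) (nat_lit 684) (nat_lit 5) (nat_lit 547) (nat_lit 530) (nat_lit 483)) (XT.nd (nat_lit 78) (nat_lit 0) (nat_lit 0) (XT.lf (nat_lit 0) (nat_lit 1485291733) (nat_lit 1140) (nat_lit 1246100516) (nat_lit 1216) (nat_lit 4450377993) (nat_lit 654) (nat_lit 5) (nat_lit 669) (nat_lit 5) (nat_lit 670) (nat_lit 5) (nat_lit 548) (nat_lit 530) (nat_lit 482)) (XT.lf (nat_lit 76) (nat_lit 2859402727) (nat_lit 0) (nat_lit 720419982) (nat_lit 1216) (nat_lit 3644673335) (nat_lit 655) (nat_lit 5) (nat_lit 654) (nat_lit 5) (nat_lit 670) (nat_lit 5) (nat_lit 549) (nat_lit 530) (nat_lit 481)))) (XT.nd (nat_lit 156) (nat_lit 1216) (nat_lit 0) (XT.nd (nat_lit 78) (nat_lit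 1216) (nat_lit 0) (XT.lf (nat_lit 0) (nat_lit 5687836792) (nat_lit 1140) (nat_lit 246049217) (nat_lit 76) (nat_lit 1334763863) (nat_lit 655) (nat_lit 5) (nat_lit 670) (nat_lit 5) (nat_lit 656) (nat_lit 5) (nat_lit 550) (nat_lit 530) (nat_lit 480)) (XT.lf (nat_lit 0) (nat_lit 503322725) (nat_lit 1216) (nat_lit 3347309980) (nat_lit 76) (nat_lit 3463273641) (nat_lit 639) (nat_lit 5) (nat_lit 655) (nat_lit 5) (nat_lit 640) (nat_lit 5) (nat_lit 551) (nat_lit 530) (nat_lit 479))) (XT.nd (nat_lit 78) (nat_lit 0) (nat_lit 0) (XT.lf (nat_lit 0) (nat_lit 874712129) (nat_lit 1216) (nat_lit 1696416634) (nat_lit 1292) (nat_lit 4789472161) (nat_lit 623) (nat_lit 5) (nat_lit 639) (nat_lit 5) (nat_lit 640) (nat_lit 5) (nat_lit 552) (nat_lit 530) (nat_lit 478)) (XT.lf (nat_lit 0) (nat_lit 4662670413) (nat_lit 1292) (nat_lit 2218435659) (nat_lit 76) (nat_lit 527480683) (nat_lit 623) (nat_lit 5) (nat_lit 640) (nat_lit 5) (nat_lit 624) (nat_lit 5) (nat_lit 553) (nat_lit 530) (nat_lit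 477))))) (XT.nd (nat_lit 234) (nat_lit 3040) (nat_lit 0) (XT.nd (nat_lit 78) (nat_lit 1444) (nat_lit 0) (XT.lf (nat_lit 0) (nat_lit 2117766652) (nat_lit 1292) (nat_lit 4660629807) (nat_lit 1368) (nat_lit 679493628) (nat_lit 606) (nat_lit 5) (nat_lit 623) (nat_lit 5) (nat_lit 624) (nat_lit 5) (nat_lit 554) (nat_lit 530) (nat_lit 476)) (XT.nd (nat_lit 78) (nat_lit 1368) (nat_lit 0) (XT.lf (nat_lit 0) (nat_lit 1382219462) (nat_lit 1368) (nat_lit 979977944) (nat_lit 76) (nat_lit 5146347407) (nat_lit 605) (nat_lit 5) (nat_lit 623) (nat_lit 5) (nat_lit 606) (nat_lit 5) (nat_lit 555) (nat_lit 530) (nat_lit 475)) (XT.lf (nat_lit 0) (nat_lit 3457300240) (nat_lit 1444) (nat_lit 4085003223) (nat_lit 76) (nat_lit 18199279) (nat_lit 587) (nat_lit 5) (nat_lit 606) (nat_lit 5) (nat_lit 588) (nat_lit 5) (nat_lit 556) (nat_lit 530) (nat_lit 474)))) (XT.nd (nat_lit 156) (nat_lit 1520) (nat_lit 0) (XT.nd (nat_lit 78) (nat_lit 76) (nat_lit 0) (XT.lf (nat_lit 0) (nat_lit 375751393)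 (nat_lit 1444) (nat_lit 5182026597) (nat_lit 1520) (nat_lit 2056048416) (nat_lit 568) (nat_lit 5) (nat_lit 587) (nat_lit 5) (nat_lit 588) (nat_lit 5) (nat_lit 557) (nat_lit 530) (nat_lit 473)) (XT.lf (nat_lit 0) (nat_lit 18728219) (nat_lit 1520) (nat_lit 2720777136) (nat_lit 76) (nat_lit 4928969343) (nat_lit 567) (nat_lit 5) (nat_lit 587) (nat_lit 5) (nat_lit 568) (nat_lit 5) (nat_lit 558) (nat_lit 530) (nat_lit 472))) (XT.nd (nat_lit 78) (nat_lit 0) (nat_lit 0) (XT.lf (nat_lit 0) (nat_lit 1864553840) (nat_lit 1520) (nat_lit 215347452) (nat_lit 1596) (nat_lit 5644598454) (nat_lit 547) (nat_lit 5) (nat_lit 567) (nat_lit 5) (nat_lit 568) (nat_lit 5) (nat_lit 559) (nat_lit 530) (nat_lit 471)) (XT.lf (nat_lit 0) (nat_lit 4176899314) (nat_lit 1596) (nat_lit 1252006501) (nat_lit 76) (nat_lit 2352851592) (nat_lit 547) (nat_lit 5) (nat_lit 568) (nat_lit 5) (nat_lit 548) (nat_lit 5) (nat_lit 560) (nat_lit 530) (nat_lit 470))))))) (XT.nd (nat_lit 1092) (nat_lit 6840) (nat_lit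 0) (XT.nd (nat_lit 546) (nat_lit 3648) (nat_lit 0) (XT.nd (nat_lit 234) (nat_lit 4712) (nat_lit 0) (XT.nd (nat_lit 78) (nat_lit 1748) (nat_lit 0) (XT.lf (nat_lit 0) (nat_lit 3458932384) (nat_lit 1596) (nat_lit 2842459942) (nat_lit 1672) (nat_lit 1539060857) (nat_lit 526) (nat_lit 5) (nat_lit 547) (nat_lit 5) (nat_lit 548) (nat_lit 5) (nat_lit 561) (nat_lit 530) (nat_lit 469)) (XT.nd (nat_lit 78) (nat_lit 0) (nat_lit 0) (XT.lf (nat_lit 0) (nat_lit 348341796) (nat_lit 1672) (nat_lit 184934418) (nat_lit 1748) (nat_lit 7367523322) (nat_lit 503) (nat_lit 5) (nat_lit 525) (nat_lit 5) (nat_lit 526) (nat_lit 5) (nat_lit 562) (nat_lit 530) (nat_lit 468)) (XT.lf (nat_lit 0) (nat_lit 2634980984) (nat_lit 1748) (nat_lit 2790308514) (nat_lit 76) (nat_lit 2536693103) (nat_lit 503) (nat_lit 5) (nat_lit 526) (nat_lit 5) (nat_lit 504) (nat_lit 5) (nat_lit 563) (nat_lit 530) (nat_lit 467)))) (XT.nd (nat_lit 156) (nat_lit 2964) (nat_lit 0) (XT.nd (nat_lit 78) (nat_lit 0) (nat_lit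 0) (XT.lf (nat_lit 0) (nat_lit 2059584418) (nat_lit 1748) (nat_lit 2696981268) (nat_lit 1824) (nat_lit 3268270476) (nat_lit 480) (nat_lit 5) (nat_lit 503) (nat_lit 5) (nat_lit 504) (nat_lit 5) (nat_lit 564) (nat_lit 530) (nat_lit 466)) (XT.lf (nat_lit 0) (nat_lit 6903763667) (nat_lit 1824) (nat_lit 1078772001) (nat_lit 76) (nat_lit 106751176) (nat_lit 480) (nat_lit 5) (nat_lit 504) (nat_lit 5) (nat_lit 481) (nat_lit 5) (nat_lit 565) (nat_lit 530) (nat_lit 465))) (XT.nd (nat_lit 78) (nat_lit 1064) (nat_lit 0) (XT.lf (nat_lit 0) (nat_lit 934317563) (nat_lit 1900) (nat_lit 4255376614) (nat_lit 76) (nat_lit 2965058941) (nat_lit 455) (nat_lit 5) (nat_lit 480) (nat_lit 5) (nat_lit 456) (nat_lit 5) (nat_lit 566) (nat_lit 530) (nat_lit 464)) (XT.lf (nat_lit 0) (nat_lit 738708737) (nat_lit 1064) (nat_lit 2318803102) (nat_lit 1140) (nat_lit 5164327000) (nat_lit 441) (nat_lit 5) (nat_lit 455) (nat_lit 5) (nat_lit 456) (nat_lit 5) (nat_lit 567) (nat_lit 530) (nat_lit 463)))))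 (XT.nd (nat_lit 234) (nat_lit 2660) (nat_lit 0) (XT.nd (nat_lit 78) (nat_lit 988) (nat_lit 0) (XT.lf (nat_lit 0) (nat_lit 5221091477) (nat_lit 1140) (nat_lit 2437380444) (nat_lit 76) (nat_lit 631839325) (nat_lit 441) (nat_lit 5) (nat_lit 456) (nat_lit 5) (nat_lit 442) (nat_lit 5) (nat_lit 568) (nat_lit 530) (nat_lit 462)) (XT.nd (nat_lit 78) (nat_lit 76) (nat_lit 0) (XT.lf (nat_lit 0) (nat_lit 2696054386) (nat_lit 912) (nat_lit 4730650410) (nat_lit 988) (nat_lit 933476395) (nat_lit 429) (nat_lit 5) (nat_lit 441) (nat_lit 5) (nat_lit 442) (nat_lit 5) (nat_lit 569) (nat_lit 530) (nat_lit 461)) (XT.lf (nat_lit 0) (nat_lit 1211247533) (nat_lit 988) (nat_lit 507583169) (nat_lit 76) (nat_lit 6712807494) (nat_lit 428) (nat_lit 5) (nat_lit 441) (nat_lit 5) (nat_lit 429) (nat_lit 5) (nat_lit 570) (nat_lit 530) (nat_lit 460)))) (XT.nd (nat_lit 156) (nat_lit 912) (nat_lit 0) (XT.nd (nat_lit 78) (nat_lit 836) (nat_lit 0) (XT.lf (nat_lit 0) (nat_lit 3393214043) (nat_lit 988)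 (nat_lit 3737749959) (nat_lit 76) (nat_lit 1373303128) (nat_lit 416) (nat_lit 5) (nat_lit 429) (nat_lit 5) (nat_lit 417) (nat_lit 5) (nat_lit 571) (nat_lit 530) (nat_lit 459)) (XT.lf (nat_lit 0) (nat_lit 1550372413) (nat_lit 836) (nat_lit 4060559350) (nat_lit 912) (nat_lit 2967577719) (nat_lit 405) (nat_lit 5) (nat_lit 416) (nat_lit 5) (nat_lit 417) (nat_lit 5) (nat_lit 572) (nat_lit 530) (nat_lit 458))) (XT.nd (nat_lit 78) (nat_lit 912) (nat_lit 0) (XT.lf (nat_lit 0) (nat_lit 6961887319) (nat_lit 836) (nat_lit 903860909) (nat_lit 912) (nat_lit 788636585) (nat_lit 405) (nat_lit 5) (nat_lit 416) (nat_lit 5) (nat_lit 417) (nat_lit 5) (nat_lit 573) (nat_lit 530) (nat_lit 457)) (XT.lf (nat_lit 0) (nat_lit 1422808191) (nat_lit 912) (nat_lit 4989995479) (nat_lit 76) (nat_lit 2318636078) (nat_lit 393) (nat_lit 5) (nat_lit 405) (nat_lit 5) (nat_lit 394) (nat_lit 5) (nat_lit 574) (nat_lit 530) (nat_lit 456)))))) (XT.nd (nat_lit 546) (nat_lit 3572) (nat_lit 0) (XT.nd (nat_lit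 234) (nat_lit 1596) (nat_lit 0) (XT.nd (nat_lit 78) (nat_lit 836) (nat_lit 0) (XT.lf (nat_lit 0) (nat_lit 458705410) (nat_lit 836) (nat_lit 3198113650) (nat_lit 912) (nat_lit 5153337365) (nat_lit 382) (nat_lit 5) (nat_lit 393) (nat_lit 5) (nat_lit 394) (nat_lit 5) (nat_lit 575) (nat_lit 530) (nat_lit 455)) (XT.nd (nat_lit 78) (nat_lit 836) (nat_lit 0) (XT.lf (nat_lit 0) (nat_lit 5938624015) (nat_lit 912) (nat_lit 2840122784) (nat_lit 76) (nat_lit 111641151) (nat_lit 382) (nat_lit 5) (nat_lit 394) (nat_lit 5) (nat_lit 383) (nat_lit 5) (nat_lit 576) (nat_lit 530) (nat_lit 454)) (XT.lf (nat_lit 0) (nat_lit 2763536677) (nat_lit 836) (nat_lit 5511142377) (nat_lit 912) (nat_lit 697375504) (nat_lit 371) (nat_lit 5) (nat_lit 382) (nat_lit 5) (nat_lit 383) (nat_lit 5) (nat_lit 577) (nat_lit 530) (nat_lit 453)))) (XT.nd (nat_lit 156) (nat_lit 760) (nat_lit 0) (XT.nd (nat_lit 78) (nat_lit 760) (nat_lit 0) (XT.lf (nat_lit 0) (nat_lit 1569948984) (nat_lit 912) (nat_lit 580882340)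 (nat_lit 76) (nat_lit 6904540561) (nat_lit 370) (nat_lit 5) (nat_lit 382) (nat_lit 5) (nat_lit 371) (nat_lit 5) (nat_lit 578) (nat_lit 530) (nat_lit 452)) (XT.lf (nat_lit 0) (nat_lit 3885784110) (nat_lit 836) (nat_lit 3958451413) (nat_lit 76) (nat_lit 1295780379) (nat_lit 360) (nat_lit 5) (nat_lit 371) (nat_lit 5) (nat_lit 361) (nat_lit 5) (nat_lit 579) (nat_lit 530) (nat_lit 451))) (XT.nd (nat_lit 78) (nat_lit 0) (nat_lit 0) (XT.lf (nat_lit 0) (nat_lit 1817571775) (nat_lit 760) (nat_lit 4430956916) (nat_lit 836) (nat_lit 2977814780) (nat_lit 350) (nat_lit 5) (nat_lit 360) (nat_lit 5) (nat_lit 361) (nat_lit 5) (nat_lit 580) (nat_lit 530) (nat_lit 450)) (XT.lf (nat_lit 0) (nat_lit 7730133729) (nat_lit 760) (nat_lit 925945921) (nat_lit 836) (nat_lit 658369387) (nat_lit 350) (nat_lit 5) (nat_lit 360) (nat_lit 5) (nat_lit 361) (nat_lit 5) (nat_lit 581) (nat_lit 530) (nat_lit 449))))) (XT.nd (nat_lit 234) (nat_lit 2052) (nat_lit 0) (XT.nd (nat_lit 78) (nat_lit 760)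 (nat_lit 0) (XT.lf (nat_lit 0) (nat_lit 1702250698) (nat_lit 760) (nat_lit 5051058268) (nat_lit 76) (nat_lit 2650444818) (nat_lit 340) (nat_lit 5) (nat_lit 350) (nat_lit 5) (nat_lit 341) (nat_lit 5) (nat_lit 582) (nat_lit 530) (nat_lit 448)) (XT.nd (nat_lit 78) (nat_lit 0) (nat_lit 0) (XT.lf (nat_lit 0) (nat_lit 903870098) (nat_lit 760) (nat_lit 3191802003) (nat_lit 836) (nat_lit 5399199733) (nat_lit 330) (nat_lit 5) (nat_lit 340) (nat_lit 5) (nat_lit 341) (nat_lit 5) (nat_lit 583) (nat_lit 530) (nat_lit 447)) (XT.lf (nat_lit 0) (nat_lit 6545952728) (nat_lit 836) (nat_lit 2576885213) (nat_lit 76) (nat_lit 464796774) (nat_lit 330) (nat_lit 5) (nat_lit 341) (nat_lit 5) (nat_lit 331) (nat_lit 5) (nat_lit 584) (nat_lit 530) (nat_lit 446)))) (XT.nd (nat_lit 156) (nat_lit 608) (nat_lit 0) (XT.nd (nat_lit 78) (nat_lit 760) (nat_lit 0) (XT.lf (nat_lit 0) (nat_lit 3550560734) (nat_lit 684) (nat_lit 5511425670) (nat_lit 760) (nat_lit 619933744) (nat_lit 321) (nat_lit 5)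 (nat_lit 330) (nat_lit 5) (nat_lit 331) (nat_lit 5) (nat_lit 585) (nat_lit 530) (nat_lit 445)) (XT.lf (nat_lit 0) (nat_lit 13253519) (nat_lit 684) (nat_lit 1802927000) (nat_lit 760) (nat_lit 7961868717) (nat_lit 311) (nat_lit 5) (nat_lit 320) (nat_lit 5) (nat_lit 321) (nat_lit 5) (nat_lit 586) (nat_lit 530) (nat_lit 444))) (XT.nd (nat_lit 78) (nat_lit 608) (nat_lit 0) (XT.lf (nat_lit 0) (nat_lit 4319990067) (nat_lit 760) (nat_lit 3561464907) (nat_lit 76) (nat_lit 1994020613) (nat_lit 311) (nat_lit 5) (nat_lit 321) (nat_lit 5) (nat_lit 312) (nat_lit 5) (nat_lit 587) (nat_lit 530) (nat_lit 443)) (XT.lf (nat_lit 0) (nat_lit 2757981680) (nat_lit 608) (nat_lit 4119265414) (nat_lit 684) (nat_lit 3097538017) (nat_lit 303) (nat_lit 5) (nat_lit 311) (nat_lit 5) (nat_lit 312) (nat_lit 5) (nat_lit 588) (nat_lit 530) (nat_lit 442))))))))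
noncomputable def xc102 : XT := (XT.nd (nat_lit 2106) (nat_lit 6080) (nat_lit 0) (XT.nd (nat_lit 1014) (nat_lit 4484) (nat_lit 0) (XT.nd (nat_lit 468) (nat_lit 2280) (nat_lit 0) (XT.nd (nat_lit 234) (nat_lit 1292) (nat_lit 0) (XT.nd (nat_lit 78) (nat_lit 1368) (nat_lit 0) (XT.lf (nat_lit 0) (nat_lit 9220123168) (nat_lit 608) (nat_lit 263261674) (nat_lit 684) (nat_lit 592743302) (nat_lit 303) (nat_lit 5) (nat_lit 311) (nat_lit 5) (nat_lit 312) (nat_lit 5) (nat_lit 589) (nat_lit 530) (nat_lit 441)) (XT.nd (nat_lit 78) (nat_lit 608) (nat_lit 0) (XT.lf (nat_lit 0) (nat_lit 1971468153) (nat_lit 760) (nat_lit 4541306322) (nat_lit 76) (nat_lit 3665769629) (nat_lit 293) (nat_lit 5) (nat_lit 303) (nat_lit 5) (nat_lit 294) (nat_lit 5) (nat_lit 590) (nat_lit 530) (nat_lit 440)) (XT.lf (nat_lit 0) (nat_lit 1977327302) (nat_lit 608) (nat_lit 2596511674) (nat_lit 684) (nat_lit 5709196721) (nat_lit 285) (nat_lit 5) (nat_lit 293) (nat_lit 5) (nat_lit 294) (nat_lit 5) (nat_lit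 591) (nat_lit 530) (nat_lit 439)))) (XT.nd (nat_lit 78) (nat_lit 1292) (nat_lit 0) (XT.lf (nat_lit 0) (nat_lit 7242704513) (nat_lit 684) (nat_lit 1742603378) (nat_lit 76) (nat_lit 1404022163) (nat_lit 285) (nat_lit 5) (nat_lit 294) (nat_lit 5) (nat_lit 286) (nat_lit 5) (nat_lit 592) (nat_lit 530) (nat_lit 438)) (XT.nd (nat_lit 78) (nat_lit 684) (nat_lit 0) (XT.lf (nat_lit 0) (nat_lit 4968149124) (nat_lit 608) (nat_lit 5021440083) (nat_lit 684) (nat_lit 507670092) (nat_lit 277) (nat_lit 5) (nat_lit 285) (nat_lit 5) (nat_lit 286) (nat_lit 5) (nat_lit 593) (nat_lit 530) (nat_lit 437)) (XT.lf (nat_lit 0) (nat_lit 1199397845) (nat_lit 608) (nat_lit 950889208) (nat_lit 684) (nat_lit 8456880897) (nat_lit 268) (nat_lit 5) (nat_lit 276) (nat_lit 5) (nat_lit 277) (nat_lit 5) (nat_lit 594) (nat_lit 530) (nat_lit 436))))) (XT.nd (nat_lit 234) (nat_lit 1140) (nat_lit 0) (XT.nd (nat_lit 78) (nat_lit 1140) (nat_lit 0) (XT.lf (nat_lit 0) (nat_lit 4888286638) (nat_lit 684) (nat_lit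 2637434359) (nat_lit 76) (nat_lit 3192814777) (nat_lit 268) (nat_lit 5) (nat_lit 277) (nat_lit 5) (nat_lit 269) (nat_lit 5) (nat_lit 595) (nat_lit 530) (nat_lit 435)) (XT.nd (nat_lit 78) (nat_lit 532) (nat_lit 0) (XT.lf (nat_lit 0) (nat_lit 4286925838) (nat_lit 608) (nat_lit 3404272985) (nat_lit 684) (nat_lit 3140730780) (nat_lit 260) (nat_lit 5) (nat_lit 268) (nat_lit 5) (nat_lit 269) (nat_lit 5) (nat_lit 596) (nat_lit 530) (nat_lit 434)) (XT.lf (nat_lit 0) (nat_lit 406782602) (nat_lit 532) (nat_lit 10145277079) (nat_lit 608) (nat_lit 395495484) (nat_lit 253) (nat_lit 5) (nat_lit 260) (nat_lit 5) (nat_lit 261) (nat_lit 5) (nat_lit 597) (nat_lit 530) (nat_lit 433)))) (XT.nd (nat_lit 156) (nat_lit 532) (nat_lit 0) (XT.nd (nat_lit 78) (nat_lit 532) (nat_lit 0) (XT.lf (nat_lit 0) (nat_lit 2416210557) (nat_lit 608) (nat_lit 3548378320) (nat_lit 76) (nat_lit 5099731645) (nat_lit 252) (nat_lit 5) (nat_lit 260) (nat_lit 5) (nat_lit 253) (nat_lit 5) (nat_lit 598) (nat_lit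 530) (nat_lit 432)) (XT.lf (nat_lit 0) (nat_lit 3597406468) (nat_lit 532) (nat_lit 1681621291) (nat_lit 608) (nat_lit 5904339258) (nat_lit 245) (nat_lit 5) (nat_lit 252) (nat_lit 5) (nat_lit 253) (nat_lit 5) (nat_lit 599) (nat_lit 530) (nat_lit 431))) (XT.nd (nat_lit 78) (nat_lit 532) (nat_lit 0) (XT.lf (nat_lit 0) (nat_lit 8217530785) (nat_lit 608) (nat_lit 418939358) (nat_lit 76) (nat_lit 2667957249) (nat_lit 245) (nat_lit 5) (nat_lit 253) (nat_lit 5) (nat_lit 246) (nat_lit 5) (nat_lit 600) (nat_lit 530) (nat_lit 430)) (XT.lf (nat_lit 0) (nat_lit 6940702700) (nat_lit 532) (nat_lit 4307766554) (nat_lit 608) (nat_lit 178767921) (nat_lit 238) (nat_lit 5) (nat_lit 245) (nat_lit 5) (nat_lit 246) (nat_lit 5) (nat_lit 601) (nat_lit 530) (nat_lit 429)))))) (XT.nd (nat_lit 546) (nat_lit 1900) (nat_lit 0) (XT.nd (nat_lit 234) (nat_lit 1520) (nat_lit 0) (XT.nd (nat_lit 78) (nat_lit 456) (nat_lit 0) (XT.lf (nat_lit 0) (nat_lit 2751024874) (nat_lit 608) (nat_lit 8663223337)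 (nat_lit 76) (nat_lit 137893217) (nat_lit 230) (nat_lit 5) (nat_lit 238) (nat_lit 5) (nat_lit 231) (nat_lit 5) (nat_lit 602) (nat_lit 530) (nat_lit 428)) (XT.nd (nat_lit 78) (nat_lit 456) (nat_lit 0) (XT.lf (nat_lit 0) (nat_lit 5773605177) (nat_lit 608) (nat_lit 1267056496) (nat_lit 76) (nat_lit 4638128175) (nat_lit 230) (nat_lit 5) (nat_lit 238) (nat_lit 5) (nat_lit 231) (nat_lit 5) (nat_lit 603) (nat_lit 530) (nat_lit 427)) (XT.lf (nat_lit 0) (nat_lit 6329756236) (nat_lit 456) (nat_lit 2546162600) (nat_lit 532) (nat_lit 2931668160) (nat_lit 224) (nat_lit 5) (nat_lit 230) (nat_lit 5) (nat_lit 231) (nat_lit 5) (nat_lit 604) (nat_lit 530) (nat_lit 426)))) (XT.nd (nat_lit 156) (nat_lit 912) (nat_lit 0) (XT.nd (nat_lit 78) (nat_lit 0) (nat_lit 0) (XT.lf (nat_lit 0) (nat_lit 114138087) (nat_lit 608) (nat_lit 9798220020) (nat_lit 76) (nat_lit 2026307199) (nat_lit 216) (nat_lit 5) (nat_lit 224) (nat_lit 5) (nat_lit 217) (nat_lit 5) (nat_lit 605) (nat_lit 530) (nat_lit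 425)) (XT.lf (nat_lit 0) (nat_lit 3213953182) (nat_lit 608) (nat_lit 2153369249) (nat_lit 76) (nat_lit 6704009543) (nat_lit 216) (nat_lit 5) (nat_lit 224) (nat_lit 5) (nat_lit 217) (nat_lit 5) (nat_lit 606) (nat_lit 530) (nat_lit 424))) (XT.nd (nat_lit 78) (nat_lit 456) (nat_lit 0) (XT.lf (nat_lit 0) (nat_lit 5689031325) (nat_lit 456) (nat_lit 702539332) (nat_lit 532) (nat_lit 5814766486) (nat_lit 210) (nat_lit 5) (nat_lit 216) (nat_lit 5) (nat_lit 217) (nat_lit 5) (nat_lit 607) (nat_lit 530) (nat_lit 423)) (XT.lf (nat_lit 0) (nat_lit 1334668702) (nat_lit 456) (nat_lit 8326647248) (nat_lit 532) (nat_lit 2682156218) (nat_lit 204) (nat_lit 5) (nat_lit 210) (nat_lit 5) (nat_lit 211) (nat_lit 5) (nat_lit 608) (nat_lit 530) (nat_lit 422))))) (XT.nd (nat_lit 234) (nat_lit 912) (nat_lit 0) (XT.nd (nat_lit 78) (nat_lit 912) (nat_lit 0) (XT.lf (nat_lit 0) (nat_lit 534164439) (nat_lit 532) (nat_lit 3088927717) (nat_lit 76) (nat_lit 8859636570) (nat_lit 203) (nat_lit 5) (nat_lit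 210) (nat_lit 5) (nat_lit 204) (nat_lit 5) (nat_lit 609) (nat_lit 530) (nat_lit 421)) (XT.nd (nat_lit 78) (nat_lit 456) (nat_lit 0) (XT.lf (nat_lit 0) (nat_lit 3798863966) (nat_lit 532) (nat_lit 7624429210) (nat_lit 76) (nat_lit 1200724517) (nat_lit 197) (nat_lit 5) (nat_lit 204) (nat_lit 5) (nat_lit 198) (nat_lit 5) (nat_lit 610) (nat_lit 530) (nat_lit 420)) (XT.lf (nat_lit 0) (nat_lit 476379462) (nat_lit 456) (nat_lit 6680102230) (nat_lit 532) (nat_lit 5611099431) (nat_lit 191) (nat_lit 5) (nat_lit 197) (nat_lit 5) (nat_lit 198) (nat_lit 5) (nat_lit 611) (nat_lit 530) (nat_lit 419)))) (XT.nd (nat_lit 156) (nat_lit 456) (nat_lit 0) (XT.nd (nat_lit 78) (nat_lit 456) (nat_lit 0) (XT.lf (nat_lit 0) (nat_lit 8812985835) (nat_lit 456) (nat_lit 1799308124) (nat_lit 532) (nat_lit 2301102161) (nat_lit 191) (nat_lit 5) (nat_lit 197) (nat_lit 5) (nat_lit 198) (nat_lit 5) (nat_lit 612) (nat_lit 530) (nat_lit 418)) (XT.lf (nat_lit 0) (nat_lit 1089695618) (nat_lit 456) (nat_lit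 8808624586) (nat_lit 76) (nat_lit 3163094696) (nat_lit 185) (nat_lit 5) (nat_lit 191) (nat_lit 5) (nat_lit 186) (nat_lit 5) (nat_lit 613) (nat_lit 530) (nat_lit 417))) (XT.nd (nat_lit 78) (nat_lit 456) (nat_lit 0) (XT.lf (nat_lit 0) (nat_lit 4537421172) (nat_lit 456) (nat_lit 439939484) (nat_lit 76) (nat_lit 8234331801) (nat_lit 185) (nat_lit 5) (nat_lit 191) (nat_lit 5) (nat_lit 186) (nat_lit 5) (nat_lit 614) (nat_lit 530) (nat_lit 416)) (XT.lf (nat_lit 0) (nat_lit 8088405624) (nat_lit 532) (nat_lit 5190354167) (nat_lit 76) (nat_lit 85530742) (nat_lit 179) (nat_lit 5) (nat_lit 186) (nat_lit 5) (nat_lit 180) (nat_lit 5) (nat_lit 615) (nat_lit 530) (nat_lit 415))))))) (XT.nd (nat_lit 1014) (nat_lit 2812) (nat_lit 0) (XT.nd (nat_lit 468) (nat_lit 1596) (nat_lit 0) (XT.nd (nat_lit 234) (nat_lit 836) (nat_lit 0) (XT.nd (nat_lit 78) (nat_lit 456) (nat_lit 0) (XT.lf (nat_lit 0) (nat_lit 3429212455) (nat_lit 380) (nat_lit 8320195378) (nat_lit 456) (nat_lit 1769753813)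 (nat_lit 174) (nat_lit 5) (nat_lit 179) (nat_lit 5) (nat_lit 180) (nat_lit 5) (nat_lit 616) (nat_lit 530) (nat_lit 414)) (XT.nd (nat_lit 78) (nat_lit 380) (nat_lit 0) (XT.lf (nat_lit 0) (nat_lit 1798729770) (nat_lit 456) (nat_lit 1425882851) (nat_lit 76) (nat_lit 10451965527) (nat_lit 173) (nat_lit 5) (nat_lit 179) (nat_lit 5) (nat_lit 174) (nat_lit 5) (nat_lit 617) (nat_lit 530) (nat_lit 413)) (XT.lf (nat_lit 0) (nat_lit 5457785728) (nat_lit 456) (nat_lit 6380202501) (nat_lit 76) (nat_lit 1998063771) (nat_lit 168) (nat_lit 5) (nat_lit 174) (nat_lit 5) (nat_lit 169) (nat_lit 5) (nat_lit 618) (nat_lit 530) (nat_lit 412)))) (XT.nd (nat_lit 78) (nat_lit 456) (nat_lit 0) (XT.lf (nat_lit 0) (nat_lit 2519070197) (nat_lit 380) (nat_lit 6699653503) (nat_lit 456) (nat_lit 4779418570) (nat_lit 163) (nat_lit 5) (nat_lit 168) (nat_lit 5) (nat_lit 169) (nat_lit 5) (nat_lit 619) (nat_lit 530) (nat_lit 411)) (XT.nd (nat_lit 78) (nat_lit 456) (nat_lit 0) (XT.lf (nat_lit 0) (nat_lit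 11654431438) (nat_lit 380) (nat_lit 1424803330) (nat_lit 456) (nat_lit 1083753427) (nat_lit 163) (nat_lit 5) (nat_lit 168) (nat_lit 5) (nat_lit 169) (nat_lit 5) (nat_lit 620) (nat_lit 530) (nat_lit 410)) (XT.lf (nat_lit 0) (nat_lit 2701795713) (nat_lit 456) (nat_lit 7672783111) (nat_lit 76) (nat_lit 3955180439) (nat_lit 157) (nat_lit 5) (nat_lit 163) (nat_lit 5) (nat_lit 158) (nat_lit 5) (nat_lit 621) (nat_lit 530) (nat_lit 409))))) (XT.nd (nat_lit 234) (nat_lit 836) (nat_lit 0) (XT.nd (nat_lit 78) (nat_lit 380) (nat_lit 0) (XT.lf (nat_lit 0) (nat_lit 1515261351) (nat_lit 380) (nat_lit 5051408992) (nat_lit 456) (nat_lit 7932690501) (nat_lit 152) (nat_lit 5) (nat_lit 157) (nat_lit 5) (nat_lit 158) (nat_lit 5) (nat_lit 622) (nat_lit 530) (nat_lit 408)) (XT.nd (nat_lit 78) (nat_lit 380) (nat_lit 0) (XT.lf (nat_lit 0) (nat_lit 10545128788) (nat_lit 456) (nat_lit 3711338775) (nat_lit 76) (nat_lit 415162035) (nat_lit 152) (nat_lit 5) (nat_lit 158) (nat_lit 5) (nat_lit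 153) (nat_lit 5) (nat_lit 623) (nat_lit 530) (nat_lit 407)) (XT.lf (nat_lit 0) (nat_lit 5761247923) (nat_lit 380) (nat_lit 8895121519) (nat_lit 456) (nat_lit 189910874) (nat_lit 147) (nat_lit 5) (nat_lit 152) (nat_lit 5) (nat_lit 153) (nat_lit 5) (nat_lit 624) (nat_lit 530) (nat_lit 406)))) (XT.nd (nat_lit 156) (nat_lit 456) (nat_lit 0) (XT.nd (nat_lit 78) (nat_lit 0) (nat_lit 0) (XT.lf (nat_lit 0) (nat_lit 402152675) (nat_lit 304) (nat_lit 3383172930) (nat_lit 380) (nat_lit 11238400804) (nat_lit 142) (nat_lit 5) (nat_lit 146) (nat_lit 5) (nat_lit 147) (nat_lit 5) (nat_lit 625) (nat_lit 530) (nat_lit 405)) (XT.lf (nat_lit 0) (nat_lit 7895936939) (nat_lit 380) (nat_lit 5045357946) (nat_lit 76) (nat_lit 2262233974) (nat_lit 142) (nat_lit 5) (nat_lit 147) (nat_lit 5) (nat_lit 143) (nat_lit 5) (nat_lit 626) (nat_lit 530) (nat_lit 404))) (XT.nd (nat_lit 78) (nat_lit 76) (nat_lit 0) (XT.lf (nat_lit 0) (nat_lit 4734732060) (nat_lit 380) (nat_lit 7390022019) (nat_lit 456)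 (nat_lit 3261454192) (nat_lit 137) (nat_lit 5) (nat_lit 142) (nat_lit 5) (nat_lit 143) (nat_lit 5) (nat_lit 627) (nat_lit 530) (nat_lit 403)) (XT.lf (nat_lit 0) (nat_lit 871229054) (nat_lit 456) (nat_lit 826283462) (nat_lit 76) (nat_lit 13874577599) (nat_lit 136) (nat_lit 5) (nat_lit 142) (nat_lit 5) (nat_lit 137) (nat_lit 5) (nat_lit 628) (nat_lit 530) (nat_lit 402)))))) (XT.nd (nat_lit 546) (nat_lit 1216) (nat_lit 0) (XT.nd (nat_lit 234) (nat_lit 988) (nat_lit 0) (XT.nd (nat_lit 78) (nat_lit 304) (nat_lit 0) (XT.lf (nat_lit 0) (nat_lit 5113496286) (nat_lit 380) (nat_lit 6519024265) (nat_lit 76) (nat_lit 4127326600) (nat_lit 132) (nat_lit 5) (nat_lit 137) (nat_lit 5) (nat_lit 133) (nat_lit 5) (nat_lit 629) (nat_lit 530) (nat_lit 401)) (XT.nd (nat_lit 78) (nat_lit 0) (nat_lit 0) (XT.lf (nat_lit 0) (nat_lit 3577926023) (nat_lit 304) (nat_lit 5886056265) (nat_lit 380) (nat_lit 6486910295) (nat_lit 128) (nat_lit 5) (nat_lit 132) (nat_lit 5) (nat_lit 133) (nat_lit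 5) (nat_lit 630) (nat_lit 530) (nat_lit 400)) (XT.lf (nat_lit 0) (nat_lit 13928760304) (nat_lit 380) (nat_lit 2206862696) (nat_lit 76) (nat_lit 9590989) (nat_lit 128) (nat_lit 5) (nat_lit 133) (nat_lit 5) (nat_lit 129) (nat_lit 5) (nat_lit 631) (nat_lit 530) (nat_lit 399)))) (XT.nd (nat_lit 156) (nat_lit 304) (nat_lit 0) (XT.nd (nat_lit 78) (nat_lit 304) (nat_lit 0) (XT.lf (nat_lit 0) (nat_lit 2187838553) (nat_lit 380) (nat_lit 8151609341) (nat_lit 76) (nat_lit 6002167098) (nat_lit 123) (nat_lit 5) (nat_lit 128) (nat_lit 5) (nat_lit 124) (nat_lit 5) (nat_lit 632) (nat_lit 530) (nat_lit 398)) (XT.lf (nat_lit 0) (nat_lit 2271549889) (nat_lit 304) (nat_lit 4392444473) (nat_lit 380) (nat_lit 9877388186) (nat_lit 119) (nat_lit 5) (nat_lit 123) (nat_lit 5) (nat_lit 124) (nat_lit 5) (nat_lit 633) (nat_lit 530) (nat_lit 397))) (XT.nd (nat_lit 78) (nat_lit 304) (nat_lit 0) (XT.lf (nat_lit 0) (nat_lit 11279455390) (nat_lit 380) (nat_lit 3768233936) (nat_lit 76) (nat_lit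 1696461145) (nat_lit 119) (nat_lit 5) (nat_lit 124) (nat_lit 5) (nat_lit 120) (nat_lit 5) (nat_lit 634) (nat_lit 530) (nat_lit 396)) (XT.lf (nat_lit 0) (nat_lit 6979746096) (nat_lit 304) (nat_lit 9066055117) (nat_lit 380) (nat_lit 904001672) (nat_lit 115) (nat_lit 5) (nat_lit 119) (nat_lit 5) (nat_lit 120) (nat_lit 5) (nat_lit 635) (nat_lit 530) (nat_lit 395))))) (XT.nd (nat_lit 234) (nat_lit 608) (nat_lit 0) (XT.nd (nat_lit 78) (nat_lit 228) (nat_lit 0) (XT.lf (nat_lit 0) (nat_lit 794479887) (nat_lit 304) (nat_lit 2919090769) (nat_lit 380) (nat_lit 13445215242) (nat_lit 110) (nat_lit 5) (nat_lit 114) (nat_lit 5) (nat_lit 115) (nat_lit 5) (nat_lit 636) (nat_lit 530) (nat_lit 394)) (XT.nd (nat_lit 78) (nat_lit 228) (nat_lit 0) (XT.lf (nat_lit 0) (nat_lit 8484785266) (nat_lit 380) (nat_lit 5515557695) (nat_lit 76) (nat_lit 3370018800) (nat_lit 110) (nat_lit 5) (nat_lit 115) (nat_lit 5) (nat_lit 111) (nat_lit 5) (nat_lit 637) (nat_lit 530) (nat_lit 393)) (XT.lf (nat_lit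 0) (nat_lit 5578292492) (nat_lit 228) (nat_lit 7813270590) (nat_lit 304) (nat_lit 4193803877) (nat_lit 107) (nat_lit 5) (nat_lit 110) (nat_lit 5) (nat_lit 111) (nat_lit 5) (nat_lit 638) (nat_lit 530) (nat_lit 392)))) (XT.nd (nat_lit 156) (nat_lit 228) (nat_lit 0) (XT.nd (nat_lit 78) (nat_lit 304) (nat_lit 0) (XT.lf (nat_lit 0) (nat_lit 605923865) (nat_lit 304) (nat_lit 864972494) (nat_lit 76) (nat_lit 16333261999) (nat_lit 106) (nat_lit 5) (nat_lit 110) (nat_lit 5) (nat_lit 107) (nat_lit 5) (nat_lit 639) (nat_lit 530) (nat_lit 391)) (XT.lf (nat_lit 0) (nat_lit 5532224613) (nat_lit 380) (nat_lit 7472923347) (nat_lit 76) (nat_lit 5019889095) (nat_lit 102) (nat_lit 5) (nat_lit 107) (nat_lit 5) (nat_lit 103) (nat_lit 5) (nat_lit 640) (nat_lit 530) (nat_lit 390))) (XT.nd (nat_lit 78) (nat_lit 0) (nat_lit 0) (XT.lf (nat_lit 0) (nat_lit 3976116855) (nat_lit 228) (nat_lit 6607326470) (nat_lit 304) (nat_lit 7666362714) (nat_lit 99) (nat_lit 5) (nat_lit 102) (nat_lit 5)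 (nat_lit 103) (nat_lit 5) (nat_lit 641) (nat_lit 530) (nat_lit 389)) (XT.lf (nat_lit 0) (nat_lit 15730301271) (nat_lit 228) (nat_lit 40655932) (nat_lit 304) (nat_lit 2707408320) (nat_lit 99) (nat_lit 5) (nat_lit 102) (nat_lit 5) (nat_lit 103) (nat_lit 5) (nat_lit 642) (nat_lit 530) (nat_lit 388))))))))
noncomputable def xc103 : XT := (XT.nd (nat_lit 73788) (nat_lit 0) (nat_lit 24244) (XT.nd (nat_lit 72696) (nat_lit 0) (nat_lit 44004) (XT.nd (nat_lit 468) (nat_lit 760) (nat_lit 0) (XT.nd (nat_lit 234) (nat_lit 532) (nat_lit 0) (XT.nd (nat_lit 78) (nat_lit 228) (nat_lit 0) (XT.lf (nat_lit 0) (nat_lit 2407862723) (nat_lit 380) (nat_lit 9666801379) (nat_lit 76) (nat_lit 6634768010) (nat_lit 94) (nat_lit 5) (nat_lit 99) (nat_lit 5) (nat_lit 95) (nat_lit 5) (nat_lit 643) (nat_lit 530) (nat_lit 387)) (XT.nd (nat_lit 78) (nat_lit 0) (nat_lit 0) (XT.lf (nat_lit 0) (nat_lit 2146571250) (nat_lit 228) (nat_lit 5460799032) (nat_lit 304) (nat_lit 11337028674) (nat_lit 91) (nat_lit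 5) (nat_lit 94) (nat_lit 5) (nat_lit 95) (nat_lit 5) (nat_lit 644) (nat_lit 530) (nat_lit 386)) (XT.lf (nat_lit 0) (nat_lit 12969951898) (nat_lit 304) (nat_lit 4889254680) (nat_lit 76) (nat_lit 1323677377) (nat_lit 91) (nat_lit 5) (nat_lit 95) (nat_lit 5) (nat_lit 92) (nat_lit 5) (nat_lit 645) (nat_lit 530) (nat_lit 385)))) (XT.nd (nat_lit 78) (nat_lit 304) (nat_lit 0) (XT.lf (nat_lit 0) (nat_lit 7292497997) (nat_lit 228) (nat_lit 11216524293) (nat_lit 304) (nat_lit 915732111) (nat_lit 88) (nat_lit 5) (nat_lit 91) (nat_lit 5) (nat_lit 92) (nat_lit 5) (nat_lit 646) (nat_lit 530) (nat_lit 384)) (XT.nd (nat_lit 78) (nat_lit 0) (nat_lit 0) (XT.lf (nat_lit 0) (nat_lit 60294213) (nat_lit 228) (nat_lit 4387435676) (nat_lit 304) (nat_lit 15222766704) (nat_lit 84) (nat_lit 5) (nat_lit 87) (nat_lit 5) (nat_lit 88) (nat_lit 5) (nat_lit 647) (nat_lit 530) (nat_lit 383)) (XT.lf (nat_lit 0) (nat_lit 9990711621) (nat_lit 304) (nat_lit 7306271116) (nat_lit 76) (nat_lit 2622360051)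 (nat_lit 84) (nat_lit 5) (nat_lit 88) (nat_lit 5) (nat_lit 85) (nat_lit 5) (nat_lit 648) (nat_lit 530) (nat_lit 382))))) (XT.nd (nat_lit 234) (nat_lit 228) (nat_lit 0) (XT.nd (nat_lit 78) (nat_lit 304) (nat_lit 0) (XT.lf (nat_lit 0) (nat_lit 5259590532) (nat_lit 228) (nat_lit 10434253421) (nat_lit 304) (nat_lit 4478336584) (nat_lit 81) (nat_lit 5) (nat_lit 84) (nat_lit 5) (nat_lit 85) (nat_lit 5) (nat_lit 649) (nat_lit 530) (nat_lit 381)) (XT.nd (nat_lit 78) (nat_lit 228) (nat_lit 0) (XT.lf (nat_lit 0) (nat_lit 1102252573) (nat_lit 304) (nat_lit 2284729126) (nat_lit 76) (nat_lit 17042244096) (nat_lit 80) (nat_lit 5) (nat_lit 84) (nat_lit 5) (nat_lit 81) (nat_lit 5) (nat_lit 650) (nat_lit 530) (nat_lit 380)) (XT.lf (nat_lit 0) (nat_lit 6815557848) (nat_lit 304) (nat_lit 10032468073) (nat_lit 76) (nat_lit 3841173038) (nat_lit 77) (nat_lit 5) (nat_lit 81) (nat_lit 5) (nat_lit 78) (nat_lit 5) (nat_lit 651) (nat_lit 530) (nat_lit 379)))) (XT.nd (nat_lit 71838) (nat_lit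 0) (nat_lit 48716) (XT.nd (nat_lit 71760) (nat_lit 0) (nat_lit 48716) (XT.lf (nat_lit 0) (nat_lit 2926092404) (nat_lit 228) (nat_lit 9760332825) (nat_lit 304) (nat_lit 8267080856) (nat_lit 74) (nat_lit 5) (nat_lit 77) (nat_lit 5) (nat_lit 78) (nat_lit 5) (nat_lit 652) (nat_lit 530) (nat_lit 378)) (XT.lf (nat_lit 0) (nat_lit 515128862) (nat_lit 836) (nat_lit 1410553939) (nat_lit 836) (nat_lit 1410553939) (nat_lit 715) (nat_lit 3) (nat_lit 726) (nat_lit 3) (nat_lit 726) (nat_lit 5) (nat_lit 531) (nat_lit 531) (nat_lit 498))) (XT.nd (nat_lit 78) (nat_lit 0) (nat_lit 0) (XT.lf (nat_lit 76) (nat_lit 489893724) (nat_lit 0) (nat_lit 2792094097) (nat_lit 836) (nat_lit 3412072119) (nat_lit 716) (nat_lit 5) (nat_lit 715) (nat_lit 3) (nat_lit 726) (nat_lit 5) (nat_lit 532) (nat_lit 531) (nat_lit 497)) (XT.lf (nat_lit 76) (nat_lit 3875012078) (nat_lit 0) (nat_lit 1663764528) (nat_lit 836) (nat_lit 1178109168) (nat_lit 716) (nat_lit 5) (nat_lit 715) (nat_lit 3) (nat_lit 726)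 (nat_lit 5) (nat_lit 533) (nat_lit 531) (nat_lit 496)))))) (XT.nd (nat_lit 546) (nat_lit 2128) (nat_lit 0) (XT.nd (nat_lit 234) (nat_lit 1748) (nat_lit 0) (XT.nd (nat_lit 78) (nat_lit 0) (nat_lit 76) (XT.lf (nat_lit 76) (nat_lit 557298710) (nat_lit 0) (nat_lit 474276679) (nat_lit 912) (nat_lit 5709548115) (nat_lit 705) (nat_lit 5) (nat_lit 704) (nat_lit 5) (nat_lit 716) (nat_lit 5) (nat_lit 534) (nat_lit 531) (nat_lit 495)) (XT.nd (nat_lit 78) (nat_lit 0) (nat_lit 0) (XT.lf (nat_lit 0) (nat_lit 3236663624) (nat_lit 836) (nat_lit 2746868988) (nat_lit 912) (nat_lit 782825589) (nat_lit 705) (nat_lit 5) (nat_lit 716) (nat_lit 5) (nat_lit 717) (nat_lit 5) (nat_lit 535) (nat_lit 531) (nat_lit 494)) (XT.lf (nat_lit 76) (nat_lit 734281047) (nat_lit 0) (nat_lit 4703574325) (nat_lit 912) (nat_lit 1355209688) (nat_lit 706) (nat_lit 5) (nat_lit 705) (nat_lit 5) (nat_lit 717) (nat_lit 5) (nat_lit 536) (nat_lit 531) (nat_lit 493)))) (XT.nd (nat_lit 156) (nat_lit 912) (nat_lit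 0) (XT.nd (nat_lit 78) (nat_lit 0) (nat_lit 0) (XT.lf (nat_lit 0) (nat_lit 814622464) (nat_lit 912) (nat_lit 2534945749) (nat_lit 988) (nat_lit 3471369569) (nat_lit 693) (nat_lit 5) (nat_lit 705) (nat_lit 5) (nat_lit 706) (nat_lit 5) (nat_lit 537) (nat_lit 531) (nat_lit 492)) (XT.lf (nat_lit 76) (nat_lit 1032988038) (nat_lit 0) (nat_lit 1929144569) (nat_lit 988) (nat_lit 3888014713) (nat_lit 694) (nat_lit 5) (nat_lit 693) (nat_lit 5) (nat_lit 706) (nat_lit 5) (nat_lit 538) (nat_lit 531) (nat_lit 491))) (XT.nd (nat_lit 78) (nat_lit 912) (nat_lit 0) (XT.lf (nat_lit 76) (nat_lit 4675891838) (nat_lit 0) (nat_lit 440280713) (nat_lit 988) (nat_lit 1764503840) (nat_lit 694) (nat_lit 5) (nat_lit 693) (nat_lit 5) (nat_lit 706) (nat_lit 5) (nat_lit 539) (nat_lit 531) (nat_lit 490)) (XT.lf (nat_lit 0) (nat_lit 360214047) (nat_lit 988) (nat_lit 5454261285) (nat_lit 1064) (nat_lit 1098015197) (nat_lit 681) (nat_lit 5) (nat_lit 694) (nat_lit 5) (nat_lit 695) (nat_lit 5) (nat_lit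 540) (nat_lit 531) (nat_lit 489))))) (XT.nd (nat_lit 234) (nat_lit 2128) (nat_lit 0) (XT.nd (nat_lit 78) (nat_lit 0) (nat_lit 0) (XT.lf (nat_lit 0) (nat_lit 2469866532) (nat_lit 988) (nat_lit 1766789130) (nat_lit 1064) (nat_lit 2708737216) (nat_lit 681) (nat_lit 5) (nat_lit 694) (nat_lit 5) (nat_lit 695) (nat_lit 5) (nat_lit 541) (nat_lit 531) (nat_lit 488)) (XT.nd (nat_lit 78) (nat_lit 0) (nat_lit 0) (XT.lf (nat_lit 76) (nat_lit 1989312227) (nat_lit 0) (nat_lit 2594566603) (nat_lit 1064) (nat_lit 2395837515) (nat_lit 682) (nat_lit 5) (nat_lit 681) (nat_lit 5) (nat_lit 695) (nat_lit 5) (nat_lit 542) (nat_lit 531) (nat_lit 487)) (XT.lf (nat_lit 76) (nat_lit 5813479808) (nat_lit 0) (nat_lit 888592256) (nat_lit 1064) (nat_lit 313422482) (nat_lit 682) (nat_lit 5) (nat_lit 681) (nat_lit 5) (nat_lit 695) (nat_lit 5) (nat_lit 543) (nat_lit 531) (nat_lit 486)))) (XT.nd (nat_lit 156) (nat_lit 1140) (nat_lit 0) (XT.nd (nat_lit 78) (nat_lit 0) (nat_lit 0) (XT.lf (nat_lit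 0) (nat_lit 1760659061) (nat_lit 1064) (nat_lit 4404102080) (nat_lit 1140) (nat_lit 887522789) (nat_lit 668) (nat_lit 5) (nat_lit 682) (nat_lit 5) (nat_lit 683) (nat_lit 5) (nat_lit 544) (nat_lit 531) (nat_lit 485)) (XT.lf (nat_lit 0) (nat_lit 3837608714) (nat_lit 1064) (nat_lit 537931214) (nat_lit 1140) (nat_lit 2714921992) (nat_lit 668) (nat_lit 5) (nat_lit 682) (nat_lit 5) (nat_lit 683) (nat_lit 5) (nat_lit 545) (nat_lit 531) (nat_lit 484))) (XT.nd (nat_lit 78) (nat_lit 1140) (nat_lit 0) (XT.lf (nat_lit 76) (nat_lit 3419085724) (nat_lit 0) (nat_lit 2511735113) (nat_lit 1140) (nat_lit 1199093965) (nat_lit 669) (nat_lit 5) (nat_lit 668) (nat_lit 5) (nat_lit 683) (nat_lit 5) (nat_lit 546) (nat_lit 531) (nat_lit 483)) (XT.lf (nat_lit 76) (nat_lit 258253423) (nat_lit 0) (nat_lit 583987896) (nat_lit 1216) (nat_lit 6328639712) (nat_lit 654) (nat_lit 5) (nat_lit 653) (nat_lit 5) (nat_lit 669) (nat_lit 5) (nat_lit 547) (nat_lit 531) (nat_lit 482))))))) (XT.nd (nat_lit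 1092) (nat_lit 10108) (nat_lit 0) (XT.nd (nat_lit 546) (nat_lit 6004) (nat_lit 0) (XT.nd (nat_lit 234) (nat_lit 3724) (nat_lit 0) (XT.nd (nat_lit 78) (nat_lit 0) (nat_lit 0) (XT.lf (nat_lit 0) (nat_lit 2896156254) (nat_lit 1140) (nat_lit 2904794413) (nat_lit 1216) (nat_lit 1411806689) (nat_lit 654) (nat_lit 5) (nat_lit 669) (nat_lit 5) (nat_lit 670) (nat_lit 5) (nat_lit 548) (nat_lit 531) (nat_lit 481)) (XT.nd (nat_lit 78) (nat_lit 0) (nat_lit 0) (XT.lf (nat_lit 76) (nat_lit 1162650992) (nat_lit 0) (nat_lit 3794573855) (nat_lit 1216) (nat_lit 2298930212) (nat_lit 655) (nat_lit 5) (nat_lit 654) (nat_lit 5) (nat_lit 670) (nat_lit 5) (nat_lit 549) (nat_lit 531) (nat_lit 480)) (XT.lf (nat_lit 76) (nat_lit 5319105232) (nat_lit 0) (nat_lit 1715244588) (nat_lit 1216) (nat_lit 266579451) (nat_lit 655) (nat_lit 5) (nat_lit 654) (nat_lit 5) (nat_lit 670) (nat_lit 5) (nat_lit 550) (nat_lit 531) (nat_lit 479)))) (XT.nd (nat_lit 156) (nat_lit 2584) (nat_lit 0) (XT.nd (nat_lit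 78) (nat_lit 0) (nat_lit 0) (XT.lf (nat_lit 0) (nat_lit 1755803861) (nat_lit 1216) (nat_lit 5152354721) (nat_lit 76) (nat_lit 438749327) (nat_lit 639) (nat_lit 5) (nat_lit 655) (nat_lit 5) (nat_lit 640) (nat_lit 5) (nat_lit 551) (nat_lit 531) (nat_lit 478)) (XT.lf (nat_lit 0) (nat_lit 3796475413) (nat_lit 1216) (nat_lit 957857413) (nat_lit 76) (nat_lit 2639814802) (nat_lit 639) (nat_lit 5) (nat_lit 655) (nat_lit 5) (nat_lit 640) (nat_lit 5) (nat_lit 552) (nat_lit 531) (nat_lit 477))) (XT.nd (nat_lit 78) (nat_lit 1368) (nat_lit 0) (XT.lf (nat_lit 0) (nat_lit 3332444620) (nat_lit 1216) (nat_lit 2524662357) (nat_lit 1292) (nat_lit 1585647087) (nat_lit 623) (nat_lit 5) (nat_lit 639) (nat_lit 5) (nat_lit 640) (nat_lit 5) (nat_lit 553) (nat_lit 531) (nat_lit 476)) (XT.lf (nat_lit 0) (nat_lit 196693722) (nat_lit 1292) (nat_lit 229408694) (nat_lit 1368) (nat_lit 7066862215) (nat_lit 605) (nat_lit 5) (nat_lit 622) (nat_lit 5) (nat_lit 623) (nat_lit 5) (nat_lit 554) (nat_lit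 531) (nat_lit 475))))) (XT.nd (nat_lit 234) (nat_lit 4636) (nat_lit 0) (XT.nd (nat_lit 78) (nat_lit 1368) (nat_lit 0) (XT.lf (nat_lit 0) (nat_lit 2456888396) (nat_lit 1368) (nat_lit 2955301260) (nat_lit 76) (nat_lit 2131784039) (nat_lit 605) (nat_lit 5) (nat_lit 623) (nat_lit 5) (nat_lit 606) (nat_lit 5) (nat_lit 555) (nat_lit 531) (nat_lit 474)) (XT.nd (nat_lit 78) (nat_lit 0) (nat_lit 0) (XT.lf (nat_lit 0) (nat_lit 1457900661) (nat_lit 1368) (nat_lit 3040724909) (nat_lit 1444) (nat_lit 3097975146) (nat_lit 587) (nat_lit 5) (nat_lit 605) (nat_lit 5) (nat_lit 606) (nat_lit 5) (nat_lit 556) (nat_lit 531) (nat_lit 473)) (XT.lf (nat_lit 0) (nat_lit 5967449788) (nat_lit 1368) (nat_lit 593519317) (nat_lit 1444) (nat_lit 1089720138) (nat_lit 587) (nat_lit 5) (nat_lit 605) (nat_lit 5) (nat_lit 606) (nat_lit 5) (nat_lit 557) (nat_lit 531) (nat_lit 472)))) (XT.nd (nat_lit 156) (nat_lit 3116) (nat_lit 0) (XT.nd (nat_lit 78) (nat_lit 0) (nat_lit 0) (XT.lf (nat_lit 0) (nat_lit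 937728531) (nat_lit 1520) (nat_lit 4857980042) (nat_lit 76) (nat_lit 1910198661) (nat_lit 567) (nat_lit 5) (nat_lit 587) (nat_lit 5) (nat_lit 568) (nat_lit 5) (nat_lit 558) (nat_lit 531) (nat_lit 471)) (XT.lf (nat_lit 0) (nat_lit 2967527453) (nat_lit 1520) (nat_lit 313192426) (nat_lit 76) (nat_lit 4481841936) (nat_lit 567) (nat_lit 5) (nat_lit 587) (nat_lit 5) (nat_lit 568) (nat_lit 5) (nat_lit 559) (nat_lit 531) (nat_lit 470))) (XT.nd (nat_lit 78) (nat_lit 1596) (nat_lit 0) (XT.lf (nat_lit 0) (nat_lit 4347647799) (nat_lit 1520) (nat_lit 680343714) (nat_lit 1596) (nat_lit 2792560654) (nat_lit 547) (nat_lit 5) (nat_lit 567) (nat_lit 5) (nat_lit 568) (nat_lit 5) (nat_lit 560) (nat_lit 531) (nat_lit 469)) (XT.lf (nat_lit 0) (nat_lit 1196718702) (nat_lit 1596) (nat_lit 5918058190) (nat_lit 1672) (nat_lit 765227175) (nat_lit 526) (nat_lit 5) (nat_lit 547) (nat_lit 5) (nat_lit 548) (nat_lit 5) (nat_lit 561) (nat_lit 531) (nat_lit 468)))))) (XT.nd (nat_lit 546) (nat_lit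 3648) (nat_lit 0) (XT.nd (nat_lit 234) (nat_lit 4712) (nat_lit 0) (XT.nd (nat_lit 78) (nat_lit 1672) (nat_lit 0) (XT.lf (nat_lit 0) (nat_lit 1276234436) (nat_lit 1672) (nat_lit 1979220895) (nat_lit 76) (nat_lit 4685211030) (nat_lit 525) (nat_lit 5) (nat_lit 547) (nat_lit 5) (nat_lit 526) (nat_lit 5) (nat_lit 562) (nat_lit 531) (nat_lit 467)) (XT.nd (nat_lit 78) (nat_lit 0) (nat_lit 0) (XT.lf (nat_lit 0) (nat_lit 2818732432) (nat_lit 1672) (nat_lit 511289518) (nat_lit 1748) (nat_lit 4672787679) (nat_lit 503) (nat_lit 5) (nat_lit 525) (nat_lit 5) (nat_lit 526) (nat_lit 5) (nat_lit 563) (nat_lit 531) (nat_lit 466)) (XT.lf (nat_lit 0) (nat_lit 5417077967) (nat_lit 1748) (nat_lit 374031746) (nat_lit 76) (nat_lit 2275245872) (nat_lit 503) (nat_lit 5) (nat_lit 526) (nat_lit 5) (nat_lit 504) (nat_lit 5) (nat_lit 564) (nat_lit 531) (nat_lit 465)))) (XT.nd (nat_lit 156) (nat_lit 1064) (nat_lit 0) (XT.nd (nat_lit 78) (nat_lit 1900) (nat_lit 0) (XT.lf (nat_lit 0) (nat_lit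 4556595341) (nat_lit 1748) (nat_lit 2986926234) (nat_lit 1824) (nat_lit 587701564) (nat_lit 480) (nat_lit 5) (nat_lit 503) (nat_lit 5) (nat_lit 504) (nat_lit 5) (nat_lit 565) (nat_lit 531) (nat_lit 464)) (XT.lf (nat_lit 0) (nat_lit 1369420844) (nat_lit 1824) (nat_lit 102160114) (nat_lit 1900) (nat_lit 6726086897) (nat_lit 455) (nat_lit 5) (nat_lit 479) (nat_lit 5) (nat_lit 480) (nat_lit 5) (nat_lit 566) (nat_lit 531) (nat_lit 463))) (XT.nd (nat_lit 78) (nat_lit 1064) (nat_lit 0) (XT.lf (nat_lit 0) (nat_lit 3572199072) (nat_lit 1900) (nat_lit 1859400777) (nat_lit 76) (nat_lit 2833606933) (nat_lit 455) (nat_lit 5) (nat_lit 480) (nat_lit 5) (nat_lit 456) (nat_lit 5) (nat_lit 567) (nat_lit 531) (nat_lit 462)) (XT.lf (nat_lit 0) (nat_lit 3218243364) (nat_lit 1064) (nat_lit 2484259962) (nat_lit 1140) (nat_lit 2631843020) (nat_lit 441) (nat_lit 5) (nat_lit 455) (nat_lit 5) (nat_lit 456) (nat_lit 5) (nat_lit 568) (nat_lit 531) (nat_lit 461))))) (XT.nd (nat_lit 234) (nat_lit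 1748) (nat_lit 0) (XT.nd (nat_lit 78) (nat_lit 1900) (nat_lit 0) (XT.lf (nat_lit 0) (nat_lit 7857933011) (nat_lit 1140) (nat_lit 18027196) (nat_lit 76) (nat_lit 529261375) (nat_lit 441) (nat_lit 5) (nat_lit 456) (nat_lit 5) (nat_lit 442) (nat_lit 5) (nat_lit 569) (nat_lit 531) (nat_lit 460)) (XT.nd (nat_lit 78) (nat_lit 912) (nat_lit 0) (XT.lf (nat_lit 0) (nat_lit 1575812214) (nat_lit 988) (nat_lit 3285696863) (nat_lit 76) (nat_lit 3615452081) (nat_lit 428) (nat_lit 5) (nat_lit 441) (nat_lit 5) (nat_lit 429) (nat_lit 5) (nat_lit 570) (nat_lit 531) (nat_lit 459)) (XT.lf (nat_lit 0) (nat_lit 1944563084) (nat_lit 912) (nat_lit 1769682413) (nat_lit 988) (nat_lit 4836216783) (nat_lit 416) (nat_lit 5) (nat_lit 428) (nat_lit 5) (nat_lit 429) (nat_lit 5) (nat_lit 571) (nat_lit 531) (nat_lit 458)))) (XT.nd (nat_lit 156) (nat_lit 912) (nat_lit 0) (XT.nd (nat_lit 78) (nat_lit 836) (nat_lit 0) (XT.lf (nat_lit 0) (nat_lit 5894504553) (nat_lit 988) (nat_lit 1342760296) (nat_lit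 76) (nat_lit 1388190451) (nat_lit 416) (nat_lit 5) (nat_lit 429) (nat_lit 5) (nat_lit 417) (nat_lit 5) (nat_lit 572) (nat_lit 531) (nat_lit 457)) (XT.lf (nat_lit 0) (nat_lit 4034876203) (nat_lit 836) (nat_lit 4089915911) (nat_lit 912) (nat_lit 577030560) (nat_lit 405) (nat_lit 5) (nat_lit 416) (nat_lit 5) (nat_lit 417) (nat_lit 5) (nat_lit 573) (nat_lit 531) (nat_lit 456))) (XT.nd (nat_lit 78) (nat_lit 0) (nat_lit 0) (XT.lf (nat_lit 0) (nat_lit 725495188) (nat_lit 836) (nat_lit 855716500) (nat_lit 912) (nat_lit 7198648395) (nat_lit 393) (nat_lit 5) (nat_lit 404) (nat_lit 5) (nat_lit 405) (nat_lit 5) (nat_lit 574) (nat_lit 531) (nat_lit 455)) (XT.lf (nat_lit 0) (nat_lit 3791395485) (nat_lit 912) (nat_lit 2622249771) (nat_lit 76) (nat_lit 2445409428) (nat_lit 393) (nat_lit 5) (nat_lit 405) (nat_lit 5) (nat_lit 394) (nat_lit 5) (nat_lit 575) (nat_lit 531) (nat_lit 454))))))))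
noncomputable def xc104 : XT := (XT.nd (nat_lit 2106) (nat_lit 7980) (nat_lit 0) (XT.nd (nat_lit 1014) (nat_lit 5624) (nat_lit 0) (XT.nd (nat_lit 468) (nat_lit 2964) (nat_lit 0) (XT.nd (nat_lit 234) (nat_lit 1520) (nat_lit 0) (XT.nd (nat_lit 78) (nat_lit 912) (nat_lit 0) (XT.lf (nat_lit 0) (nat_lit 2919191283) (nat_lit 836) (nat_lit 3120925908) (nat_lit 912) (nat_lit 2899832036) (nat_lit 382) (nat_lit 5) (nat_lit 393) (nat_lit 5) (nat_lit 394) (nat_lit 5) (nat_lit 576) (nat_lit 531) (nat_lit 453)) (XT.nd (nat_lit 78) (nat_lit 912) (nat_lit 0) (XT.lf (nat_lit 0) (nat_lit 8323159425) (nat_lit 912) (nat_lit 449076561) (nat_lit 76) (nat_lit 250441432) (nat_lit 382) (nat_lit 5) (nat_lit 394) (nat_lit 5) (nat_lit 383) (nat_lit 5) (nat_lit 577) (nat_lit 531) (nat_lit 452)) (XT.lf (nat_lit 0) (nat_lit 1550142654) (nat_lit 912) (nat_lit 3866200589) (nat_lit 76) (nat_lit 3690006895) (nat_lit 370) (nat_lit 5) (nat_lit 382) (nat_lit 5) (nat_lit 371) (nat_lit 5) (nat_lit 578)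 (nat_lit 531) (nat_lit 451)))) (XT.nd (nat_lit 78) (nat_lit 760) (nat_lit 0) (XT.lf (nat_lit 0) (nat_lit 1845298760) (nat_lit 760) (nat_lit 1976007107) (nat_lit 836) (nat_lit 5370582977) (nat_lit 360) (nat_lit 5) (nat_lit 370) (nat_lit 5) (nat_lit 371) (nat_lit 5) (nat_lit 579) (nat_lit 531) (nat_lit 450)) (XT.nd (nat_lit 78) (nat_lit 760) (nat_lit 0) (XT.lf (nat_lit 0) (nat_lit 6145162647) (nat_lit 836) (nat_lit 1597521402) (nat_lit 76) (nat_lit 1536311344) (nat_lit 360) (nat_lit 5) (nat_lit 371) (nat_lit 5) (nat_lit 361) (nat_lit 5) (nat_lit 580) (nat_lit 531) (nat_lit 449)) (XT.lf (nat_lit 0) (nat_lit 4277968966) (nat_lit 760) (nat_lit 4250153963) (nat_lit 836) (nat_lit 839471045) (nat_lit 350) (nat_lit 5) (nat_lit 360) (nat_lit 5) (nat_lit 361) (nat_lit 5) (nat_lit 581) (nat_lit 531) (nat_lit 448))))) (XT.nd (nat_lit 234) (nat_lit 1444) (nat_lit 0) (XT.nd (nat_lit 78) (nat_lit 760) (nat_lit 0) (XT.lf (nat_lit 0) (nat_lit 803853976) (nat_lit 684) (nat_lit 665179036)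 (nat_lit 760) (nat_lit 7988980205) (nat_lit 340) (nat_lit 5) (nat_lit 349) (nat_lit 5) (nat_lit 350) (nat_lit 5) (nat_lit 582) (nat_lit 531) (nat_lit 447)) (XT.nd (nat_lit 78) (nat_lit 760) (nat_lit 0) (XT.lf (nat_lit 0) (nat_lit 3838528818) (nat_lit 760) (nat_lit 2722643104) (nat_lit 76) (nat_lit 2988438989) (nat_lit 340) (nat_lit 5) (nat_lit 350) (nat_lit 5) (nat_lit 341) (nat_lit 5) (nat_lit 583) (nat_lit 531) (nat_lit 446)) (XT.lf (nat_lit 0) (nat_lit 3335400695) (nat_lit 760) (nat_lit 2918867436) (nat_lit 836) (nat_lit 3388797598) (nat_lit 330) (nat_lit 5) (nat_lit 340) (nat_lit 5) (nat_lit 341) (nat_lit 5) (nat_lit 584) (nat_lit 531) (nat_lit 445)))) (XT.nd (nat_lit 156) (nat_lit 684) (nat_lit 0) (XT.nd (nat_lit 78) (nat_lit 760) (nat_lit 0) (XT.lf (nat_lit 0) (nat_lit 8714978770) (nat_lit 836) (nat_lit 223550175) (nat_lit 76) (nat_lit 799929768) (nat_lit 330) (nat_lit 5) (nat_lit 341) (nat_lit 5) (nat_lit 331) (nat_lit 5) (nat_lit 585) (nat_lit 531) (nat_lit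 444)) (XT.lf (nat_lit 0) (nat_lit 1403112759) (nat_lit 760) (nat_lit 3833729997) (nat_lit 76) (nat_lit 4598094775) (nat_lit 320) (nat_lit 5) (nat_lit 330) (nat_lit 5) (nat_lit 321) (nat_lit 5) (nat_lit 586) (nat_lit 531) (nat_lit 443))) (XT.nd (nat_lit 78) (nat_lit 0) (nat_lit 0) (XT.lf (nat_lit 0) (nat_lit 2413773943) (nat_lit 684) (nat_lit 1441718184) (nat_lit 760) (nat_lit 6077901384) (nat_lit 311) (nat_lit 5) (nat_lit 320) (nat_lit 5) (nat_lit 321) (nat_lit 5) (nat_lit 587) (nat_lit 531) (nat_lit 442)) (XT.lf (nat_lit 0) (nat_lit 6372632339) (nat_lit 760) (nat_lit 1242603283) (nat_lit 76) (nat_lit 2418270754) (nat_lit 311) (nat_lit 5) (nat_lit 321) (nat_lit 5) (nat_lit 312) (nat_lit 5) (nat_lit 588) (nat_lit 531) (nat_lit 441)))))) (XT.nd (nat_lit 546) (nat_lit 2356) (nat_lit 0) (XT.nd (nat_lit 234) (nat_lit 1900) (nat_lit 0) (XT.nd (nat_lit 78) (nat_lit 760) (nat_lit 0) (XT.lf (nat_lit 0) (nat_lit 5187507953) (nat_lit 608) (nat_lit 3770388742) (nat_lit 684)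 (nat_lit 1177371168) (nat_lit 303) (nat_lit 5) (nat_lit 311) (nat_lit 5) (nat_lit 312) (nat_lit 5) (nat_lit 589) (nat_lit 531) (nat_lit 440)) (XT.nd (nat_lit 78) (nat_lit 0) (nat_lit 0) (XT.lf (nat_lit 0) (nat_lit 1331986354) (nat_lit 760) (nat_lit 8736190796) (nat_lit 76) (nat_lit 170833966) (nat_lit 293) (nat_lit 5) (nat_lit 303) (nat_lit 5) (nat_lit 294) (nat_lit 5) (nat_lit 590) (nat_lit 531) (nat_lit 439)) (XT.lf (nat_lit 0) (nat_lit 3909114034) (nat_lit 760) (nat_lit 2258998824) (nat_lit 76) (nat_lit 4175895643) (nat_lit 293) (nat_lit 5) (nat_lit 303) (nat_lit 5) (nat_lit 294) (nat_lit 5) (nat_lit 591) (nat_lit 531) (nat_lit 438)))) (XT.nd (nat_lit 156) (nat_lit 684) (nat_lit 0) (XT.nd (nat_lit 78) (nat_lit 608) (nat_lit 0) (XT.lf (nat_lit 0) (nat_lit 4374394752) (nat_lit 608) (nat_lit 2167224180) (nat_lit 684) (nat_lit 3909412049) (nat_lit 285) (nat_lit 5) (nat_lit 293) (nat_lit 5) (nat_lit 294) (nat_lit 5) (nat_lit 592) (nat_lit 531) (nat_lit 437)) (XT.lf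 (nat_lit 0) (nat_lit 575247807) (nat_lit 608) (nat_lit 8658621726) (nat_lit 684) (nat_lit 1326184268) (nat_lit 277) (nat_lit 5) (nat_lit 285) (nat_lit 5) (nat_lit 286) (nat_lit 5) (nat_lit 593) (nat_lit 531) (nat_lit 436))) (XT.nd (nat_lit 78) (nat_lit 608) (nat_lit 0) (XT.lf (nat_lit 0) (nat_lit 1322736702) (nat_lit 684) (nat_lit 3282099075) (nat_lit 76) (nat_lit 6065629242) (nat_lit 276) (nat_lit 5) (nat_lit 285) (nat_lit 5) (nat_lit 277) (nat_lit 5) (nat_lit 594) (nat_lit 531) (nat_lit 435)) (XT.lf (nat_lit 0) (nat_lit 3562128689) (nat_lit 608) (nat_lit 444161373) (nat_lit 684) (nat_lit 6776632548) (nat_lit 268) (nat_lit 5) (nat_lit 276) (nat_lit 5) (nat_lit 277) (nat_lit 5) (nat_lit 595) (nat_lit 531) (nat_lit 434))))) (XT.nd (nat_lit 234) (nat_lit 1140) (nat_lit 0) (XT.nd (nat_lit 78) (nat_lit 1216) (nat_lit 0) (XT.lf (nat_lit 0) (nat_lit 6766847230) (nat_lit 684) (nat_lit 364969226) (nat_lit 76) (nat_lit 3765347907) (nat_lit 268) (nat_lit 5) (nat_lit 277)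 (nat_lit 5) (nat_lit 269) (nat_lit 5) (nat_lit 596) (nat_lit 531) (nat_lit 433)) (XT.nd (nat_lit 78) (nat_lit 608) (nat_lit 0) (XT.lf (nat_lit 0) (nat_lit 6682580716) (nat_lit 608) (nat_lit 2923316905) (nat_lit 684) (nat_lit 1407329322) (nat_lit 260) (nat_lit 5) (nat_lit 268) (nat_lit 5) (nat_lit 269) (nat_lit 5) (nat_lit 597) (nat_lit 531) (nat_lit 432)) (XT.lf (nat_lit 0) (nat_lit 1358507522) (nat_lit 608) (nat_lit 8399218309) (nat_lit 76) (nat_lit 1373581428) (nat_lit 252) (nat_lit 5) (nat_lit 260) (nat_lit 5) (nat_lit 253) (nat_lit 5) (nat_lit 598) (nat_lit 531) (nat_lit 431)))) (XT.nd (nat_lit 156) (nat_lit 608) (nat_lit 0) (XT.nd (nat_lit 78) (nat_lit 532) (nat_lit 0) (XT.lf (nat_lit 0) (nat_lit 4186713377) (nat_lit 608) (nat_lit 1315668897) (nat_lit 76) (nat_lit 5748664469) (nat_lit 252) (nat_lit 5) (nat_lit 260) (nat_lit 5) (nat_lit 253) (nat_lit 5) (nat_lit 599) (nat_lit 531) (nat_lit 430)) (XT.lf (nat_lit 0) (nat_lit 5957875818) (nat_lit 532) (nat_lit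 1130001496) (nat_lit 608) (nat_lit 4284977334) (nat_lit 245) (nat_lit 5) (nat_lit 252) (nat_lit 5) (nat_lit 253) (nat_lit 5) (nat_lit 600) (nat_lit 531) (nat_lit 429))) (XT.nd (nat_lit 78) (nat_lit 76) (nat_lit 0) (XT.lf (nat_lit 0) (nat_lit 1870648177) (nat_lit 532) (nat_lit 8196975618) (nat_lit 608) (nat_lit 1429065208) (nat_lit 238) (nat_lit 5) (nat_lit 245) (nat_lit 5) (nat_lit 246) (nat_lit 5) (nat_lit 601) (nat_lit 531) (nat_lit 428)) (XT.lf (nat_lit 0) (nat_lit 1486564647) (nat_lit 608) (nat_lit 2294350766) (nat_lit 76) (nat_lit 7841452118) (nat_lit 237) (nat_lit 5) (nat_lit 245) (nat_lit 5) (nat_lit 238) (nat_lit 5) (nat_lit 602) (nat_lit 531) (nat_lit 427))))))) (XT.nd (nat_lit 1014) (nat_lit 3572) (nat_lit 0) (XT.nd (nat_lit 468) (nat_lit 2356) (nat_lit 0) (XT.nd (nat_lit 234) (nat_lit 1064) (nat_lit 0) (XT.nd (nat_lit 78) (nat_lit 456) (nat_lit 0) (XT.lf (nat_lit 0) (nat_lit 4458602747) (nat_lit 608) (nat_lit 6541692588) (nat_lit 76) (nat_lit 749732151)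 (nat_lit 230) (nat_lit 5) (nat_lit 238) (nat_lit 5) (nat_lit 231) (nat_lit 5) (nat_lit 603) (nat_lit 531) (nat_lit 426)) (XT.nd (nat_lit 78) (nat_lit 0) (nat_lit 0) (XT.lf (nat_lit 0) (nat_lit 970124968) (nat_lit 456) (nat_lit 6545405297) (nat_lit 532) (nat_lit 4364202768) (nat_lit 224) (nat_lit 5) (nat_lit 230) (nat_lit 5) (nat_lit 231) (nat_lit 5) (nat_lit 604) (nat_lit 531) (nat_lit 425)) (XT.lf (nat_lit 0) (nat_lit 8691349282) (nat_lit 456) (nat_lit 1964985579) (nat_lit 532) (nat_lit 1355244401) (nat_lit 224) (nat_lit 5) (nat_lit 230) (nat_lit 5) (nat_lit 231) (nat_lit 5) (nat_lit 605) (nat_lit 531) (nat_lit 424)))) (XT.nd (nat_lit 78) (nat_lit 456) (nat_lit 0) (XT.lf (nat_lit 0) (nat_lit 1717137865) (nat_lit 608) (nat_lit 7724649282) (nat_lit 76) (nat_lit 2703539546) (nat_lit 216) (nat_lit 5) (nat_lit 224) (nat_lit 5) (nat_lit 217) (nat_lit 5) (nat_lit 606) (nat_lit 531) (nat_lit 423)) (XT.nd (nat_lit 78) (nat_lit 0) (nat_lit 0) (XT.lf (nat_lit 0) (nat_lit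 28977864) (nat_lit 456) (nat_lit 4818772932) (nat_lit 532) (nat_lit 7433521780) (nat_lit 210) (nat_lit 5) (nat_lit 216) (nat_lit 5) (nat_lit 217) (nat_lit 5) (nat_lit 607) (nat_lit 531) (nat_lit 422)) (XT.lf (nat_lit 0) (nat_lit 8013208016) (nat_lit 456) (nat_lit 59104634) (nat_lit 532) (nat_lit 4346999234) (nat_lit 210) (nat_lit 5) (nat_lit 216) (nat_lit 5) (nat_lit 217) (nat_lit 5) (nat_lit 608) (nat_lit 531) (nat_lit 421))))) (XT.nd (nat_lit 234) (nat_lit 1368) (nat_lit 0) (XT.nd (nat_lit 78) (nat_lit 532) (nat_lit 0) (XT.lf (nat_lit 0) (nat_lit 3583922369) (nat_lit 456) (nat_lit 7811696719) (nat_lit 532) (nat_lit 1163809037) (nat_lit 204) (nat_lit 5) (nat_lit 210) (nat_lit 5) (nat_lit 211) (nat_lit 5) (nat_lit 609) (nat_lit 531) (nat_lit 420)) (XT.nd (nat_lit 78) (nat_lit 456) (nat_lit 0) (XT.lf (nat_lit 0) (nat_lit 2065802013) (nat_lit 532) (nat_lit 951424530) (nat_lit 76) (nat_lit 9684649292) (nat_lit 203) (nat_lit 5) (nat_lit 210) (nat_lit 5) (nat_lit 204)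 (nat_lit 5) (nat_lit 610) (nat_lit 531) (nat_lit 419)) (XT.lf (nat_lit 0) (nat_lit 5384569889) (nat_lit 532) (nat_lit 5566323763) (nat_lit 76) (nat_lit 1895323175) (nat_lit 197) (nat_lit 5) (nat_lit 204) (nat_lit 5) (nat_lit 198) (nat_lit 5) (nat_lit 611) (nat_lit 531) (nat_lit 418)))) (XT.nd (nat_lit 156) (nat_lit 912) (nat_lit 0) (XT.nd (nat_lit 78) (nat_lit 0) (nat_lit 0) (XT.lf (nat_lit 0) (nat_lit 2681957700) (nat_lit 456) (nat_lit 6112037963) (nat_lit 532) (nat_lit 4198964446) (nat_lit 191) (nat_lit 5) (nat_lit 197) (nat_lit 5) (nat_lit 198) (nat_lit 5) (nat_lit 612) (nat_lit 531) (nat_lit 417)) (XT.lf (nat_lit 0) (nat_lit 11142236385) (nat_lit 456) (nat_lit 1147386138) (nat_lit 532) (nat_lit 852656583) (nat_lit 191) (nat_lit 5) (nat_lit 197) (nat_lit 5) (nat_lit 198) (nat_lit 5) (nat_lit 613) (nat_lit 531) (nat_lit 416))) (XT.nd (nat_lit 78) (nat_lit 456) (nat_lit 0) (XT.lf (nat_lit 0) (nat_lit 2575986183) (nat_lit 456) (nat_lit 6801673577) (nat_lit 76)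 (nat_lit 3915613456) (nat_lit 185) (nat_lit 5) (nat_lit 191) (nat_lit 5) (nat_lit 186) (nat_lit 5) (nat_lit 614) (nat_lit 531) (nat_lit 415)) (XT.lf (nat_lit 0) (nat_lit 1714059077) (nat_lit 456) (nat_lit 4361020359) (nat_lit 532) (nat_lit 7371830194) (nat_lit 179) (nat_lit 5) (nat_lit 185) (nat_lit 5) (nat_lit 186) (nat_lit 5) (nat_lit 615) (nat_lit 531) (nat_lit 414)))))) (XT.nd (nat_lit 546) (nat_lit 1900) (nat_lit 0) (XT.nd (nat_lit 234) (nat_lit 836) (nat_lit 0) (XT.nd (nat_lit 78) (nat_lit 836) (nat_lit 0) (XT.lf (nat_lit 0) (nat_lit 9676183182) (nat_lit 532) (nat_lit 3143995565) (nat_lit 76) (nat_lit 782800468) (nat_lit 179) (nat_lit 5) (nat_lit 186) (nat_lit 5) (nat_lit 180) (nat_lit 5) (nat_lit 616) (nat_lit 531) (nat_lit 413)) (XT.nd (nat_lit 78) (nat_lit 456) (nat_lit 0) (XT.lf (nat_lit 0) (nat_lit 5633816564) (nat_lit 380) (nat_lit 7762496359) (nat_lit 456) (nat_lit 364918185) (nat_lit 174) (nat_lit 5) (nat_lit 179) (nat_lit 5) (nat_lit 180) (nat_lit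 5) (nat_lit 617) (nat_lit 531) (nat_lit 412)) (XT.lf (nat_lit 0) (nat_lit 667076453) (nat_lit 380) (nat_lit 2565431387) (nat_lit 456) (nat_lit 10689573299) (nat_lit 168) (nat_lit 5) (nat_lit 173) (nat_lit 5) (nat_lit 174) (nat_lit 5) (nat_lit 618) (nat_lit 531) (nat_lit 411)))) (XT.nd (nat_lit 156) (nat_lit 456) (nat_lit 0) (XT.nd (nat_lit 78) (nat_lit 380) (nat_lit 0) (XT.lf (nat_lit 0) (nat_lit 6951386378) (nat_lit 456) (nat_lit 4385979899) (nat_lit 76) (nat_lit 2747646783) (nat_lit 168) (nat_lit 5) (nat_lit 174) (nat_lit 5) (nat_lit 169) (nat_lit 5) (nat_lit 619) (nat_lit 531) (nat_lit 410)) (XT.lf (nat_lit 0) (nat_lit 4677318867) (nat_lit 380) (nat_lit 6096763936) (nat_lit 456) (nat_lit 3476532932) (nat_lit 163) (nat_lit 5) (nat_lit 168) (nat_lit 5) (nat_lit 169) (nat_lit 5) (nat_lit 620) (nat_lit 531) (nat_lit 409))) (XT.nd (nat_lit 78) (nat_lit 380) (nat_lit 0) (XT.lf (nat_lit 0) (nat_lit 262140741) (nat_lit 456) (nat_lit 466965595) (nat_lit 76) (nat_lit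 13690156758) (nat_lit 162) (nat_lit 5) (nat_lit 168) (nat_lit 5) (nat_lit 163) (nat_lit 5) (nat_lit 621) (nat_lit 531) (nat_lit 408)) (XT.lf (nat_lit 0) (nat_lit 4100563016) (nat_lit 456) (nat_lit 5733248026) (nat_lit 76) (nat_lit 4755583111) (nat_lit 157) (nat_lit 5) (nat_lit 163) (nat_lit 5) (nat_lit 158) (nat_lit 5) (nat_lit 622) (nat_lit 531) (nat_lit 407))))) (XT.nd (nat_lit 234) (nat_lit 1064) (nat_lit 0) (XT.nd (nat_lit 78) (nat_lit 456) (nat_lit 0) (XT.lf (nat_lit 0) (nat_lit 3624787649) (nat_lit 380) (nat_lit 4405079890) (nat_lit 456) (nat_lit 6732778866) (nat_lit 152) (nat_lit 5) (nat_lit 157) (nat_lit 5) (nat_lit 158) (nat_lit 5) (nat_lit 623) (nat_lit 531) (nat_lit 406)) (XT.nd (nat_lit 78) (nat_lit 456) (nat_lit 0) (XT.lf (nat_lit 0) (nat_lit 12066537371) (nat_lit 456) (nat_lit 1725692621) (nat_lit 76) (nat_lit 1146558959) (nat_lit 152) (nat_lit 5) (nat_lit 158) (nat_lit 5) (nat_lit 153) (nat_lit 5) (nat_lit 624) (nat_lit 531) (nat_lit 405)) (XT.lf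 (nat_lit 0) (nat_lit 1115585053) (nat_lit 456) (nat_lit 7201727484) (nat_lit 76) (nat_lit 6799722800) (nat_lit 146) (nat_lit 5) (nat_lit 152) (nat_lit 5) (nat_lit 147) (nat_lit 5) (nat_lit 625) (nat_lit 531) (nat_lit 404)))) (XT.nd (nat_lit 156) (nat_lit 760) (nat_lit 0) (XT.nd (nat_lit 78) (nat_lit 0) (nat_lit 0) (XT.lf (nat_lit 0) (nat_lit 2460366309) (nat_lit 304) (nat_lit 2695107872) (nat_lit 380) (nat_lit 10142778438) (nat_lit 142) (nat_lit 5) (nat_lit 146) (nat_lit 5) (nat_lit 147) (nat_lit 5) (nat_lit 626) (nat_lit 531) (nat_lit 403)) (XT.lf (nat_lit 0) (nat_lit 9327727005) (nat_lit 380) (nat_lit 3115664900) (nat_lit 76) (nat_lit 3038671793) (nat_lit 142) (nat_lit 5) (nat_lit 147) (nat_lit 5) (nat_lit 143) (nat_lit 5) (nat_lit 627) (nat_lit 531) (nat_lit 402))) (XT.nd (nat_lit 78) (nat_lit 380) (nat_lit 0) (XT.lf (nat_lit 0) (nat_lit 6846667694) (nat_lit 380) (nat_lit 6782572192) (nat_lit 456) (nat_lit 2039395568) (nat_lit 137) (nat_lit 5) (nat_lit 142)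 (nat_lit 5) (nat_lit 143) (nat_lit 5) (nat_lit 628) (nat_lit 531) (nat_lit 401)) (XT.lf (nat_lit 0) (nat_lit 1166787664) (nat_lit 304) (nat_lit 974936333) (nat_lit 380) (nat_lit 13716691567) (nat_lit 132) (nat_lit 5) (nat_lit 136) (nat_lit 5) (nat_lit 137) (nat_lit 5) (nat_lit 629) (nat_lit 531) (nat_lit 400))))))))
noncomputable def xc105 : XT := (XT.nd (nat_lit 73788) (nat_lit 0) (nat_lit 34276) (XT.nd (nat_lit 1014) (nat_lit 1900) (nat_lit 0) (XT.nd (nat_lit 468) (nat_lit 1520) (nat_lit 0) (XT.nd (nat_lit 234) (nat_lit 684) (nat_lit 0) (XT.nd (nat_lit 78) (nat_lit 304) (nat_lit 0) (XT.lf (nat_lit 0) (nat_lit 6454554202) (nat_lit 380) (nat_lit 4648349901) (nat_lit 76) (nat_lit 4947310360) (nat_lit 132) (nat_lit 5) (nat_lit 137) (nat_lit 5) (nat_lit 133) (nat_lit 5) (nat_lit 630) (nat_lit 531) (nat_lit 399)) (XT.nd (nat_lit 78) (nat_lit 0) (nat_lit 0) (XT.lf (nat_lit 0) (nat_lit 5637374558) (nat_lit 304) (nat_lit 5243292106) (nat_lit 380) (nat_lit 5364642861)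 (nat_lit 128) (nat_lit 5) (nat_lit 132) (nat_lit 5) (nat_lit 133) (nat_lit 5) (nat_lit 631) (nat_lit 531) (nat_lit 398)) (XT.lf (nat_lit 0) (nat_lit 15415514241) (nat_lit 380) (nat_lit 282810392) (nat_lit 76) (nat_lit 745578282) (nat_lit 128) (nat_lit 5) (nat_lit 133) (nat_lit 5) (nat_lit 129) (nat_lit 5) (nat_lit 632) (nat_lit 531) (nat_lit 397)))) (XT.nd (nat_lit 78) (nat_lit 304) (nat_lit 0) (XT.lf (nat_lit 0) (nat_lit 3436757463) (nat_lit 380) (nat_lit 6343334847) (nat_lit 76) (nat_lit 6864201970) (nat_lit 123) (nat_lit 5) (nat_lit 128) (nat_lit 5) (nat_lit 124) (nat_lit 5) (nat_lit 633) (nat_lit 531) (nat_lit 396)) (XT.nd (nat_lit 78) (nat_lit 0) (nat_lit 0) (XT.lf (nat_lit 0) (nat_lit 4275318445) (nat_lit 304) (nat_lit 3716202140) (nat_lit 380) (nat_lit 8856755895) (nat_lit 119) (nat_lit 5) (nat_lit 123) (nat_lit 5) (nat_lit 124) (nat_lit 5) (nat_lit 634) (nat_lit 531) (nat_lit 395)) (XT.lf (nat_lit 0) (nat_lit 12680737951) (nat_lit 380) (nat_lit 1905059115)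 (nat_lit 76) (nat_lit 2469674709) (nat_lit 119) (nat_lit 5) (nat_lit 124) (nat_lit 5) (nat_lit 120) (nat_lit 5) (nat_lit 635) (nat_lit 531) (nat_lit 394))))) (XT.nd (nat_lit 234) (nat_lit 836) (nat_lit 0) (XT.nd (nat_lit 78) (nat_lit 304) (nat_lit 0) (XT.lf (nat_lit 0) (nat_lit 262918150) (nat_lit 380) (nat_lit 8222051919) (nat_lit 76) (nat_lit 8780444499) (nat_lit 114) (nat_lit 5) (nat_lit 119) (nat_lit 5) (nat_lit 115) (nat_lit 5) (nat_lit 636) (nat_lit 531) (nat_lit 393)) (XT.nd (nat_lit 78) (nat_lit 0) (nat_lit 0) (XT.lf (nat_lit 0) (nat_lit 2739016230) (nat_lit 304) (nat_lit 2211256314) (nat_lit 380) (nat_lit 12528395386) (nat_lit 110) (nat_lit 5) (nat_lit 114) (nat_lit 5) (nat_lit 115) (nat_lit 5) (nat_lit 637) (nat_lit 531) (nat_lit 392)) (XT.lf (nat_lit 0) (nat_lit 9798995931) (nat_lit 380) (nat_lit 3717078999) (nat_lit 76) (nat_lit 4178759575) (nat_lit 110) (nat_lit 5) (nat_lit 115) (nat_lit 5) (nat_lit 111) (nat_lit 5) (nat_lit 638) (nat_lit 531) (nat_lit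 391)))) (XT.nd (nat_lit 156) (nat_lit 228) (nat_lit 0) (XT.nd (nat_lit 78) (nat_lit 380) (nat_lit 0) (XT.lf (nat_lit 0) (nat_lit 7586090364) (nat_lit 228) (nat_lit 7207689066) (nat_lit 304) (nat_lit 3120563840) (nat_lit 107) (nat_lit 5) (nat_lit 110) (nat_lit 5) (nat_lit 111) (nat_lit 5) (nat_lit 639) (nat_lit 531) (nat_lit 390)) (XT.lf (nat_lit 0) (nat_lit 1004878079) (nat_lit 304) (nat_lit 739237939) (nat_lit 380) (nat_lit 16393562390) (nat_lit 102) (nat_lit 5) (nat_lit 106) (nat_lit 5) (nat_lit 107) (nat_lit 5) (nat_lit 640) (nat_lit 531) (nat_lit 389))) (XT.nd (nat_lit 78) (nat_lit 228) (nat_lit 0) (XT.lf (nat_lit 0) (nat_lit 6757435723) (nat_lit 380) (nat_lit 5743387395) (nat_lit 76) (nat_lit 5862382520) (nat_lit 102) (nat_lit 5) (nat_lit 107) (nat_lit 5) (nat_lit 103) (nat_lit 5) (nat_lit 641) (nat_lit 531) (nat_lit 388)) (XT.lf (nat_lit 0) (nat_lit 5922271806) (nat_lit 228) (nat_lit 5977672172) (nat_lit 304) (nat_lit 6692721519) (nat_lit 99) (nat_lit 5)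 (nat_lit 102) (nat_lit 5) (nat_lit 103) (nat_lit 5) (nat_lit 642) (nat_lit 531) (nat_lit 387)))))) (XT.nd (nat_lit 546) (nat_lit 760) (nat_lit 0) (XT.nd (nat_lit 234) (nat_lit 532) (nat_lit 0) (XT.nd (nat_lit 78) (nat_lit 608) (nat_lit 0) (XT.lf (nat_lit 0) (nat_lit 17174124656) (nat_lit 304) (nat_lit 955870843) (nat_lit 76) (nat_lit 696143128) (nat_lit 99) (nat_lit 5) (nat_lit 103) (nat_lit 5) (nat_lit 100) (nat_lit 5) (nat_lit 643) (nat_lit 531) (nat_lit 386)) (XT.nd (nat_lit 78) (nat_lit 228) (nat_lit 0) (XT.lf (nat_lit 0) (nat_lit 3541797157) (nat_lit 380) (nat_lit 8010935392) (nat_lit 76) (nat_lit 7509134944) (nat_lit 94) (nat_lit 5) (nat_lit 99) (nat_lit 5) (nat_lit 95) (nat_lit 5) (nat_lit 644) (nat_lit 531) (nat_lit 385)) (XT.lf (nat_lit 0) (nat_lit 4026538886) (nat_lit 228) (nat_lit 4809393490) (nat_lit 304) (nat_lit 10465789287) (nat_lit 91) (nat_lit 5) (nat_lit 94) (nat_lit 5) (nat_lit 95) (nat_lit 5) (nat_lit 645) (nat_lit 531) (nat_lit 384)))) (XT.nd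 (nat_lit 156) (nat_lit 228) (nat_lit 0) (XT.nd (nat_lit 78) (nat_lit 304) (nat_lit 0) (XT.lf (nat_lit 0) (nat_lit 14289501081) (nat_lit 304) (nat_lit 3169723083) (nat_lit 76) (nat_lit 2086078214) (nat_lit 91) (nat_lit 5) (nat_lit 95) (nat_lit 5) (nat_lit 92) (nat_lit 5) (nat_lit 646) (nat_lit 531) (nat_lit 383)) (XT.lf (nat_lit 0) (nat_lit 136283824) (nat_lit 304) (nat_lit 10549380245) (nat_lit 76) (nat_lit 9106510256) (nat_lit 87) (nat_lit 5) (nat_lit 91) (nat_lit 5) (nat_lit 88) (nat_lit 5) (nat_lit 647) (nat_lit 531) (nat_lit 382))) (XT.nd (nat_lit 78) (nat_lit 0) (nat_lit 0) (XT.lf (nat_lit 0) (nat_lit 1868986824) (nat_lit 228) (nat_lit 3716766779) (nat_lit 304) (nat_lit 14457137378) (nat_lit 84) (nat_lit 5) (nat_lit 87) (nat_lit 5) (nat_lit 88) (nat_lit 5) (nat_lit 648) (nat_lit 531) (nat_lit 381)) (XT.lf (nat_lit 0) (nat_lit 11223852584) (nat_lit 304) (nat_lit 5664574851) (nat_lit 76) (nat_lit 3408602181) (nat_lit 84) (nat_lit 5) (nat_lit 88) (nat_lit 5)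 (nat_lit 85) (nat_lit 5) (nat_lit 649) (nat_lit 531) (nat_lit 380))))) (XT.nd (nat_lit 234) (nat_lit 228) (nat_lit 0) (XT.nd (nat_lit 78) (nat_lit 304) (nat_lit 0) (XT.lf (nat_lit 0) (nat_lit 7140842045) (nat_lit 228) (nat_lit 9891475567) (nat_lit 304) (nat_lit 3522781764) (nat_lit 81) (nat_lit 5) (nat_lit 84) (nat_lit 5) (nat_lit 85) (nat_lit 5) (nat_lit 650) (nat_lit 531) (nat_lit 379)) (XT.nd (nat_lit 78) (nat_lit 228) (nat_lit 0) (XT.lf (nat_lit 0) (nat_lit 2135488403) (nat_lit 304) (nat_lit 575718952) (nat_lit 76) (nat_lit 18106347579) (nat_lit 80) (nat_lit 5) (nat_lit 84) (nat_lit 5) (nat_lit 81) (nat_lit 5) (nat_lit 651) (nat_lit 531) (nat_lit 378)) (XT.lf (nat_lit 0) (nat_lit 7959357953) (nat_lit 304) (nat_lit 8474679904) (nat_lit 76) (nat_lit 4648764361) (nat_lit 77) (nat_lit 5) (nat_lit 81) (nat_lit 5) (nat_lit 78) (nat_lit 5) (nat_lit 652) (nat_lit 531) (nat_lit 377)))) (XT.nd (nat_lit 71838) (nat_lit 0) (nat_lit 47880) (XT.nd (nat_lit 71760) (nat_lit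 0) (nat_lit 48716) (XT.lf (nat_lit 0) (nat_lit 4731483115) (nat_lit 228) (nat_lit 9207746712) (nat_lit 304) (nat_lit 7413334523) (nat_lit 74) (nat_lit 5) (nat_lit 77) (nat_lit 5) (nat_lit 78) (nat_lit 5) (nat_lit 653) (nat_lit 531) (nat_lit 376)) (XT.lf (nat_lit 0) (nat_lit 2749146062) (nat_lit 836) (nat_lit 304516704) (nat_lit 836) (nat_lit 304516704) (nat_lit 715) (nat_lit 3) (nat_lit 726) (nat_lit 3) (nat_lit 726) (nat_lit 5) (nat_lit 532) (nat_lit 532) (nat_lit 496))) (XT.nd (nat_lit 78) (nat_lit 0) (nat_lit 0) (XT.lf (nat_lit 0) (nat_lit 969755814) (nat_lit 836) (nat_lit 3992956721) (nat_lit 912) (nat_lit 1777000519) (nat_lit 704) (nat_lit 5) (nat_lit 715) (nat_lit 3) (nat_lit 716) (nat_lit 5) (nat_lit 533) (nat_lit 532) (nat_lit 495)) (XT.lf (nat_lit 0) (nat_lit 3132151959) (nat_lit 836) (nat_lit 623559793) (nat_lit 912) (nat_lit 3008726586) (nat_lit 704) (nat_lit 5) (nat_lit 715) (nat_lit 3) (nat_lit 716) (nat_lit 5) (nat_lit 534) (nat_lit 532) (nat_lit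 494))))))) (XT.nd (nat_lit 1092) (nat_lit 9728) (nat_lit 0) (XT.nd (nat_lit 546) (nat_lit 2052) (nat_lit 0) (XT.nd (nat_lit 234) (nat_lit 912) (nat_lit 0) (XT.nd (nat_lit 78) (nat_lit 912) (nat_lit 0) (XT.lf (nat_lit 76) (nat_lit 2820877242) (nat_lit 0) (nat_lit 2479349211) (nat_lit 912) (nat_lit 1490190572) (nat_lit 705) (nat_lit 5) (nat_lit 704) (nat_lit 5) (nat_lit 716) (nat_lit 5) (nat_lit 535) (nat_lit 532) (nat_lit 493)) (XT.nd (nat_lit 78) (nat_lit 0) (nat_lit 76) (XT.lf (nat_lit 0) (nat_lit 634498115) (nat_lit 912) (nat_lit 508608401) (nat_lit 988) (nat_lit 5674748515) (nat_lit 692) (nat_lit 5) (nat_lit 704) (nat_lit 5) (nat_lit 705) (nat_lit 5) (nat_lit 536) (nat_lit 532) (nat_lit 492)) (XT.lf (nat_lit 0) (nat_lit 2748887068) (nat_lit 912) (nat_lit 3826130029) (nat_lit 988) (nat_lit 271291566) (nat_lit 693) (nat_lit 5) (nat_lit 705) (nat_lit 5) (nat_lit 706) (nat_lit 5) (nat_lit 537) (nat_lit 532) (nat_lit 491)))) (XT.nd (nat_lit 156) (nat_lit 0) (nat_lit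 0) (XT.nd (nat_lit 78) (nat_lit 988) (nat_lit 0) (XT.lf (nat_lit 0) (nat_lit 4863338106) (nat_lit 912) (nat_lit 286767442) (nat_lit 988) (nat_lit 1726077268) (nat_lit 693) (nat_lit 5) (nat_lit 705) (nat_lit 5) (nat_lit 706) (nat_lit 5) (nat_lit 538) (nat_lit 532) (nat_lit 490)) (XT.lf (nat_lit 0) (nat_lit 81208123) (nat_lit 988) (nat_lit 3570405068) (nat_lit 1064) (nat_lit 3255647757) (nat_lit 680) (nat_lit 5) (nat_lit 693) (nat_lit 5) (nat_lit 694) (nat_lit 5) (nat_lit 539) (nat_lit 532) (nat_lit 489))) (XT.nd (nat_lit 78) (nat_lit 0) (nat_lit 0) (XT.lf (nat_lit 76) (nat_lit 55045732) (nat_lit 0) (nat_lit 2085760872) (nat_lit 1064) (nat_lit 4798882141) (nat_lit 681) (nat_lit 5) (nat_lit 680) (nat_lit 5) (nat_lit 694) (nat_lit 5) (nat_lit 540) (nat_lit 532) (nat_lit 488)) (XT.lf (nat_lit 76) (nat_lit 3771352261) (nat_lit 0) (nat_lit 443319658) (nat_lit 1064) (nat_lit 2758638090) (nat_lit 681) (nat_lit 5) (nat_lit 680) (nat_lit 5) (nat_lit 694) (nat_lit 5) (nat_lit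 541) (nat_lit 532) (nat_lit 487))))) (XT.nd (nat_lit 234) (nat_lit 1064) (nat_lit 0) (XT.nd (nat_lit 78) (nat_lit 1064) (nat_lit 0) (XT.lf (nat_lit 76) (nat_lit 522638492) (nat_lit 0) (nat_lit 5769014044) (nat_lit 1064) (nat_lit 716724682) (nat_lit 682) (nat_lit 5) (nat_lit 681) (nat_lit 5) (nat_lit 695) (nat_lit 5) (nat_lit 542) (nat_lit 532) (nat_lit 486)) (XT.nd (nat_lit 78) (nat_lit 0) (nat_lit 0) (XT.lf (nat_lit 0) (nat_lit 1323370018) (nat_lit 1064) (nat_lit 2721591782) (nat_lit 1140) (nat_lit 2999507452) (nat_lit 667) (nat_lit 5) (nat_lit 681) (nat_lit 5) (nat_lit 682) (nat_lit 5) (nat_lit 543) (nat_lit 532) (nat_lit 485)) (XT.lf (nat_lit 76) (nat_lit 1097029870) (nat_lit 0) (nat_lit 2256431908) (nat_lit 1140) (nat_lit 3728556670) (nat_lit 668) (nat_lit 5) (nat_lit 667) (nat_lit 5) (nat_lit 682) (nat_lit 5) (nat_lit 544) (nat_lit 532) (nat_lit 484)))) (XT.nd (nat_lit 156) (nat_lit 0) (nat_lit 0) (XT.nd (nat_lit 78) (nat_lit 1064) (nat_lit 0) (XT.lf (nat_lit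 76) (nat_lit 4998666720) (nat_lit 0) (nat_lit 396163897) (nat_lit 1140) (nat_lit 1726080310) (nat_lit 668) (nat_lit 5) (nat_lit 667) (nat_lit 5) (nat_lit 682) (nat_lit 5) (nat_lit 545) (nat_lit 532) (nat_lit 483)) (XT.lf (nat_lit 0) (nat_lit 287019142) (nat_lit 1140) (nat_lit 5362055512) (nat_lit 1216) (nat_lit 1511976610) (nat_lit 653) (nat_lit 5) (nat_lit 668) (nat_lit 5) (nat_lit 669) (nat_lit 5) (nat_lit 546) (nat_lit 532) (nat_lit 482))) (XT.nd (nat_lit 78) (nat_lit 0) (nat_lit 0) (XT.lf (nat_lit 0) (nat_lit 2288110241) (nat_lit 1140) (nat_lit 1419552189) (nat_lit 1216) (nat_lit 3494692420) (nat_lit 653) (nat_lit 5) (nat_lit 668) (nat_lit 5) (nat_lit 669) (nat_lit 5) (nat_lit 547) (nat_lit 532) (nat_lit 481)) (XT.lf (nat_lit 76) (nat_lit 2605460730) (nat_lit 0) (nat_lit 1695444475) (nat_lit 1216) (nat_lit 2944151023) (nat_lit 654) (nat_lit 5) (nat_lit 653) (nat_lit 5) (nat_lit 669) (nat_lit 5) (nat_lit 548) (nat_lit 532) (nat_lit 480)))))) (XT.nd (nat_lit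 546) (nat_lit 6080) (nat_lit 0) (XT.nd (nat_lit 234) (nat_lit 2508) (nat_lit 0) (XT.nd (nat_lit 78) (nat_lit 1216) (nat_lit 0) (XT.lf (nat_lit 0) (nat_lit 6321411318) (nat_lit 1140) (nat_lit 591885260) (nat_lit 1216) (nat_lit 375971205) (nat_lit 654) (nat_lit 5) (nat_lit 669) (nat_lit 5) (nat_lit 670) (nat_lit 5) (nat_lit 549) (nat_lit 532) (nat_lit 479)) (XT.nd (nat_lit 78) (nat_lit 0) (nat_lit 0) (XT.lf (nat_lit 0) (nat_lit 1024793154) (nat_lit 1216) (nat_lit 3799987636) (nat_lit 1292) (nat_lit 2509640280) (nat_lit 638) (nat_lit 5) (nat_lit 654) (nat_lit 5) (nat_lit 655) (nat_lit 5) (nat_lit 550) (nat_lit 532) (nat_lit 478)) (XT.lf (nat_lit 76) (nat_lit 337835492) (nat_lit 0) (nat_lit 2669491581) (nat_lit 1292) (nat_lit 4373767533) (nat_lit 639) (nat_lit 5) (nat_lit 638) (nat_lit 5) (nat_lit 655) (nat_lit 5) (nat_lit 551) (nat_lit 532) (nat_lit 477)))) (XT.nd (nat_lit 156) (nat_lit 1368) (nat_lit 0) (XT.nd (nat_lit 78) (nat_lit 1140) (nat_lit 0) (XT.lf (nat_lit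 76) (nat_lit 4579066269) (nat_lit 0) (nat_lit 433379449) (nat_lit 1292) (nat_lit 2416602068) (nat_lit 639) (nat_lit 5) (nat_lit 638) (nat_lit 5) (nat_lit 655) (nat_lit 5) (nat_lit 552) (nat_lit 532) (nat_lit 476)) (XT.lf (nat_lit 0) (nat_lit 1402391867) (nat_lit 1216) (nat_lit 5634718306) (nat_lit 1292) (nat_lit 441265749) (nat_lit 623) (nat_lit 5) (nat_lit 639) (nat_lit 5) (nat_lit 640) (nat_lit 5) (nat_lit 553) (nat_lit 532) (nat_lit 475))) (XT.nd (nat_lit 78) (nat_lit 1292) (nat_lit 0) (XT.lf (nat_lit 0) (nat_lit 1533743786) (nat_lit 1292) (nat_lit 1794592669) (nat_lit 76) (nat_lit 4200538320) (nat_lit 622) (nat_lit 5) (nat_lit 639) (nat_lit 5) (nat_lit 623) (nat_lit 5) (nat_lit 554) (nat_lit 532) (nat_lit 474)) (XT.lf (nat_lit 0) (nat_lit 2572342864) (nat_lit 1292) (nat_lit 946201769) (nat_lit 1368) (nat_lit 4062261130) (nat_lit 605) (nat_lit 5) (nat_lit 622) (nat_lit 5) (nat_lit 623) (nat_lit 5) (nat_lit 555) (nat_lit 532) (nat_lit 473))))) (XT.nd (nat_lit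 234) (nat_lit 3192) (nat_lit 0) (XT.nd (nat_lit 78) (nat_lit 2888) (nat_lit 0) (XT.lf (nat_lit 0) (nat_lit 5524943871) (nat_lit 1368) (nat_lit 623860682) (nat_lit 76) (nat_lit 1485337166) (nat_lit 605) (nat_lit 5) (nat_lit 623) (nat_lit 5) (nat_lit 606) (nat_lit 5) (nat_lit 556) (nat_lit 532) (nat_lit 472)) (XT.nd (nat_lit 78) (nat_lit 1520) (nat_lit 0) (XT.lf (nat_lit 0) (nat_lit 3861877997) (nat_lit 1368) (nat_lit 3701862230) (nat_lit 1444) (nat_lit 124963096) (nat_lit 587) (nat_lit 5) (nat_lit 605) (nat_lit 5) (nat_lit 606) (nat_lit 5) (nat_lit 557) (nat_lit 532) (nat_lit 471)) (XT.lf (nat_lit 0) (nat_lit 666647491) (nat_lit 1444) (nat_lit 1177182581) (nat_lit 1520) (nat_lit 5900888067) (nat_lit 567) (nat_lit 5) (nat_lit 586) (nat_lit 5) (nat_lit 587) (nat_lit 5) (nat_lit 558) (nat_lit 532) (nat_lit 470)))) (XT.nd (nat_lit 156) (nat_lit 1672) (nat_lit 0) (XT.nd (nat_lit 78) (nat_lit 1520) (nat_lit 0) (XT.lf (nat_lit 0) (nat_lit 3847095522) (nat_lit 1520) (nat_lit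 2541413906) (nat_lit 76) (nat_lit 1413395973) (nat_lit 567) (nat_lit 5) (nat_lit 587) (nat_lit 5) (nat_lit 568) (nat_lit 5) (nat_lit 559) (nat_lit 532) (nat_lit 469)) (XT.lf (nat_lit 0) (nat_lit 2074144281) (nat_lit 1520) (nat_lit 3800134186) (nat_lit 1596) (nat_lit 1986284879) (nat_lit 547) (nat_lit 5) (nat_lit 567) (nat_lit 5) (nat_lit 568) (nat_lit 5) (nat_lit 560) (nat_lit 532) (nat_lit 468))) (XT.nd (nat_lit 78) (nat_lit 1596) (nat_lit 0) (XT.lf (nat_lit 0) (nat_lit 1367885) (nat_lit 1596) (nat_lit 1135373709) (nat_lit 76) (nat_lit 6784053065) (nat_lit 546) (nat_lit 5) (nat_lit 567) (nat_lit 5) (nat_lit 547) (nat_lit 5) (nat_lit 561) (nat_lit 532) (nat_lit 467)) (XT.lf (nat_lit 0) (nat_lit 1999791123) (nat_lit 1672) (nat_lit 4380767791) (nat_lit 76) (nat_lit 1601460575) (nat_lit 525) (nat_lit 5) (nat_lit 547) (nat_lit 5) (nat_lit 526) (nat_lit 5) (nat_lit 562) (nat_lit 532) (nat_lit 466))))))))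
noncomputable def xc106 : XT := (XT.nd (nat_lit 2106) (nat_lit 9424) (nat_lit 0) (XT.nd (nat_lit 1014) (nat_lit 6840) (nat_lit 0) (XT.nd (nat_lit 468) (nat_lit 3648) (nat_lit 0) (XT.nd (nat_lit 234) (nat_lit 2964) (nat_lit 0) (XT.nd (nat_lit 78) (nat_lit 1748) (nat_lit 0) (XT.lf (nat_lit 0) (nat_lit 369487198) (nat_lit 1672) (nat_lit 3650441499) (nat_lit 1748) (nat_lit 4024908880) (nat_lit 503) (nat_lit 5) (nat_lit 525) (nat_lit 5) (nat_lit 526) (nat_lit 5) (nat_lit 563) (nat_lit 532) (nat_lit 465)) (XT.nd (nat_lit 78) (nat_lit 1748) (nat_lit 0) (XT.lf (nat_lit 0) (nat_lit 5242873131) (nat_lit 1672) (nat_lit 831642578) (nat_lit 1748) (nat_lit 2034518991) (nat_lit 503) (nat_lit 5) (nat_lit 525) (nat_lit 5) (nat_lit 526) (nat_lit 5) (nat_lit 564) (nat_lit 532) (nat_lit 464)) (XT.lf (nat_lit 0) (nat_lit 2021083436) (nat_lit 1748) (nat_lit 6140869842) (nat_lit 1824) (nat_lit 12730848) (nat_lit 480) (nat_lit 5) (nat_lit 503) (nat_lit 5) (nat_lit 504) (nat_lit 5) (nat_lit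 565) (nat_lit 532) (nat_lit 463)))) (XT.nd (nat_lit 78) (nat_lit 2888) (nat_lit 0) (XT.lf (nat_lit 0) (nat_lit 2013097740) (nat_lit 1824) (nat_lit 1246899039) (nat_lit 76) (nat_lit 4981577343) (nat_lit 479) (nat_lit 5) (nat_lit 503) (nat_lit 5) (nat_lit 480) (nat_lit 5) (nat_lit 566) (nat_lit 532) (nat_lit 462)) (XT.nd (nat_lit 78) (nat_lit 1064) (nat_lit 0) (XT.lf (nat_lit 0) (nat_lit 3776379768) (nat_lit 1824) (nat_lit 293701547) (nat_lit 1900) (nat_lit 4239906076) (nat_lit 455) (nat_lit 5) (nat_lit 479) (nat_lit 5) (nat_lit 480) (nat_lit 5) (nat_lit 567) (nat_lit 532) (nat_lit 461)) (XT.lf (nat_lit 0) (nat_lit 494638355) (nat_lit 1064) (nat_lit 5669704836) (nat_lit 1140) (nat_lit 2215506229) (nat_lit 441) (nat_lit 5) (nat_lit 455) (nat_lit 5) (nat_lit 456) (nat_lit 5) (nat_lit 568) (nat_lit 532) (nat_lit 460))))) (XT.nd (nat_lit 234) (nat_lit 2660) (nat_lit 0) (XT.nd (nat_lit 78) (nat_lit 988) (nat_lit 0) (XT.lf (nat_lit 0) (nat_lit 5651659031) (nat_lit 1064)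 (nat_lit 2648401907) (nat_lit 1140) (nat_lit 151059541) (nat_lit 441) (nat_lit 5) (nat_lit 455) (nat_lit 5) (nat_lit 456) (nat_lit 5) (nat_lit 569) (nat_lit 532) (nat_lit 459)) (XT.nd (nat_lit 78) (nat_lit 0) (nat_lit 0) (XT.lf (nat_lit 0) (nat_lit 1915112847) (nat_lit 988) (nat_lit 6151540685) (nat_lit 76) (nat_lit 457191232) (nat_lit 428) (nat_lit 5) (nat_lit 441) (nat_lit 5) (nat_lit 429) (nat_lit 5) (nat_lit 570) (nat_lit 532) (nat_lit 458)) (XT.lf (nat_lit 0) (nat_lit 4025120242) (nat_lit 988) (nat_lit 962396464) (nat_lit 76) (nat_lit 3610399192) (nat_lit 428) (nat_lit 5) (nat_lit 441) (nat_lit 5) (nat_lit 429) (nat_lit 5) (nat_lit 571) (nat_lit 532) (nat_lit 457)))) (XT.nd (nat_lit 156) (nat_lit 912) (nat_lit 0) (XT.nd (nat_lit 78) (nat_lit 836) (nat_lit 0) (XT.lf (nat_lit 0) (nat_lit 4356751483) (nat_lit 912) (nat_lit 1817572046) (nat_lit 988) (nat_lit 2499207970) (nat_lit 416) (nat_lit 5) (nat_lit 428) (nat_lit 5) (nat_lit 429) (nat_lit 5) (nat_lit 572)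 (nat_lit 532) (nat_lit 456)) (XT.lf (nat_lit 0) (nat_lit 1017571598) (nat_lit 836) (nat_lit 7340363118) (nat_lit 912) (nat_lit 392899120) (nat_lit 405) (nat_lit 5) (nat_lit 416) (nat_lit 5) (nat_lit 417) (nat_lit 5) (nat_lit 573) (nat_lit 532) (nat_lit 455))) (XT.nd (nat_lit 78) (nat_lit 836) (nat_lit 0) (XT.lf (nat_lit 0) (nat_lit 1743031024) (nat_lit 912) (nat_lit 2367145501) (nat_lit 76) (nat_lit 4719070136) (nat_lit 404) (nat_lit 5) (nat_lit 416) (nat_lit 5) (nat_lit 405) (nat_lit 5) (nat_lit 574) (nat_lit 532) (nat_lit 454)) (XT.lf (nat_lit 0) (nat_lit 3113604397) (nat_lit 836) (nat_lit 792959153) (nat_lit 912) (nat_lit 5002812090) (nat_lit 393) (nat_lit 5) (nat_lit 404) (nat_lit 5) (nat_lit 405) (nat_lit 5) (nat_lit 575) (nat_lit 532) (nat_lit 453)))))) (XT.nd (nat_lit 546) (nat_lit 3496) (nat_lit 0) (XT.nd (nat_lit 234) (nat_lit 1596) (nat_lit 0) (XT.nd (nat_lit 78) (nat_lit 1748) (nat_lit 0) (XT.lf (nat_lit 0) (nat_lit 6116484382) (nat_lit 912) (nat_lit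 302966953) (nat_lit 76) (nat_lit 2571596191) (nat_lit 393) (nat_lit 5) (nat_lit 405) (nat_lit 5) (nat_lit 394) (nat_lit 5) (nat_lit 576) (nat_lit 532) (nat_lit 452)) (XT.nd (nat_lit 78) (nat_lit 912) (nat_lit 0) (XT.lf (nat_lit 0) (nat_lit 5333699450) (nat_lit 836) (nat_lit 3047675437) (nat_lit 912) (nat_lit 692765166) (nat_lit 382) (nat_lit 5) (nat_lit 393) (nat_lit 5) (nat_lit 394) (nat_lit 5) (nat_lit 577) (nat_lit 532) (nat_lit 451)) (XT.lf (nat_lit 0) (nat_lit 1500792938) (nat_lit 912) (nat_lit 7249086832) (nat_lit 76) (nat_lit 409053656) (nat_lit 370) (nat_lit 5) (nat_lit 382) (nat_lit 5) (nat_lit 371) (nat_lit 5) (nat_lit 578) (nat_lit 532) (nat_lit 450)))) (XT.nd (nat_lit 156) (nat_lit 836) (nat_lit 0) (XT.nd (nat_lit 78) (nat_lit 760) (nat_lit 0) (XT.lf (nat_lit 0) (nat_lit 3745828840) (nat_lit 912) (nat_lit 1577252715) (nat_lit 76) (nat_lit 3921914348) (nat_lit 370) (nat_lit 5) (nat_lit 382) (nat_lit 5) (nat_lit 371) (nat_lit 5) (nat_lit 579) (nat_lit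 532) (nat_lit 449)) (XT.lf (nat_lit 0) (nat_lit 4232909042) (nat_lit 760) (nat_lit 1802323835) (nat_lit 836) (nat_lit 3297559833) (nat_lit 360) (nat_lit 5) (nat_lit 370) (nat_lit 5) (nat_lit 371) (nat_lit 5) (nat_lit 580) (nat_lit 532) (nat_lit 448))) (XT.nd (nat_lit 78) (nat_lit 76) (nat_lit 0) (XT.lf (nat_lit 0) (nat_lit 725388792) (nat_lit 760) (nat_lit 7644333039) (nat_lit 836) (nat_lit 1052640064) (nat_lit 350) (nat_lit 5) (nat_lit 360) (nat_lit 5) (nat_lit 361) (nat_lit 5) (nat_lit 581) (nat_lit 532) (nat_lit 447)) (XT.lf (nat_lit 0) (nat_lit 1239815925) (nat_lit 836) (nat_lit 2828061196) (nat_lit 76) (nat_lit 5445309708) (nat_lit 349) (nat_lit 5) (nat_lit 360) (nat_lit 5) (nat_lit 350) (nat_lit 5) (nat_lit 582) (nat_lit 532) (nat_lit 446))))) (XT.nd (nat_lit 234) (nat_lit 2052) (nat_lit 0) (XT.nd (nat_lit 78) (nat_lit 760) (nat_lit 0) (XT.lf (nat_lit 0) (nat_lit 3162216136) (nat_lit 684) (nat_lit 395372246) (nat_lit 760) (nat_lit 6048231717) (nat_lit 340)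 (nat_lit 5) (nat_lit 349) (nat_lit 5) (nat_lit 350) (nat_lit 5) (nat_lit 583) (nat_lit 532) (nat_lit 445)) (XT.nd (nat_lit 78) (nat_lit 760) (nat_lit 0) (XT.lf (nat_lit 0) (nat_lit 5935900228) (nat_lit 760) (nat_lit 441997611) (nat_lit 76) (nat_lit 3322126717) (nat_lit 340) (nat_lit 5) (nat_lit 350) (nat_lit 5) (nat_lit 341) (nat_lit 5) (nat_lit 584) (nat_lit 532) (nat_lit 444)) (XT.lf (nat_lit 0) (nat_lit 5721844575) (nat_lit 760) (nat_lit 2653551392) (nat_lit 836) (nat_lit 1420446937) (nat_lit 330) (nat_lit 5) (nat_lit 340) (nat_lit 5) (nat_lit 341) (nat_lit 5) (nat_lit 585) (nat_lit 532) (nat_lit 443)))) (XT.nd (nat_lit 156) (nat_lit 1292) (nat_lit 0) (XT.nd (nat_lit 78) (nat_lit 0) (nat_lit 0) (XT.lf (nat_lit 0) (nat_lit 955635916) (nat_lit 760) (nat_lit 7788745830) (nat_lit 76) (nat_lit 1149106872) (nat_lit 320) (nat_lit 5) (nat_lit 330) (nat_lit 5) (nat_lit 321) (nat_lit 5) (nat_lit 586) (nat_lit 532) (nat_lit 442)) (XT.lf (nat_lit 0) (nat_lit 3379610257)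 (nat_lit 760) (nat_lit 1588075604) (nat_lit 76) (nat_lit 5024827843) (nat_lit 320) (nat_lit 5) (nat_lit 330) (nat_lit 5) (nat_lit 321) (nat_lit 5) (nat_lit 587) (nat_lit 532) (nat_lit 441))) (XT.nd (nat_lit 78) (nat_lit 608) (nat_lit 0) (XT.lf (nat_lit 0) (nat_lit 4769099935) (nat_lit 684) (nat_lit 1088711567) (nat_lit 760) (nat_lit 4235594833) (nat_lit 311) (nat_lit 5) (nat_lit 320) (nat_lit 5) (nat_lit 321) (nat_lit 5) (nat_lit 588) (nat_lit 532) (nat_lit 440)) (XT.lf (nat_lit 0) (nat_lit 1043511267) (nat_lit 608) (nat_lit 7353239765) (nat_lit 684) (nat_lit 1799344252) (nat_lit 303) (nat_lit 5) (nat_lit 311) (nat_lit 5) (nat_lit 312) (nat_lit 5) (nat_lit 589) (nat_lit 532) (nat_lit 439))))))) (XT.nd (nat_lit 1014) (nat_lit 4408) (nat_lit 0) (XT.nd (nat_lit 468) (nat_lit 2964) (nat_lit 0) (XT.nd (nat_lit 234) (nat_lit 1292) (nat_lit 0) (XT.nd (nat_lit 78) (nat_lit 684) (nat_lit 0) (XT.lf (nat_lit 0) (nat_lit 694994859) (nat_lit 684) (nat_lit 2731622325) (nat_lit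 76) (nat_lit 6873766562) (nat_lit 302) (nat_lit 5) (nat_lit 311) (nat_lit 5) (nat_lit 303) (nat_lit 5) (nat_lit 590) (nat_lit 532) (nat_lit 438)) (XT.nd (nat_lit 78) (nat_lit 0) (nat_lit 0) (XT.lf (nat_lit 0) (nat_lit 3219622667) (nat_lit 760) (nat_lit 6584313019) (nat_lit 76) (nat_lit 602496352) (nat_lit 293) (nat_lit 5) (nat_lit 303) (nat_lit 5) (nat_lit 294) (nat_lit 5) (nat_lit 591) (nat_lit 532) (nat_lit 437)) (XT.lf (nat_lit 0) (nat_lit 5811802772) (nat_lit 760) (nat_lit 23196847) (nat_lit 76) (nat_lit 4679262288) (nat_lit 293) (nat_lit 5) (nat_lit 303) (nat_lit 5) (nat_lit 294) (nat_lit 5) (nat_lit 592) (nat_lit 532) (nat_lit 436)))) (XT.nd (nat_lit 78) (nat_lit 684) (nat_lit 0) (XT.lf (nat_lit 0) (nat_lit 6727858140) (nat_lit 608) (nat_lit 1748037207) (nat_lit 684) (nat_lit 2147953416) (nat_lit 285) (nat_lit 5) (nat_lit 293) (nat_lit 5) (nat_lit 294) (nat_lit 5) (nat_lit 593) (nat_lit 532) (nat_lit 435)) (XT.nd (nat_lit 78) (nat_lit 0) (nat_lit 0) (XT.lf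 (nat_lit 0) (nat_lit 462845651) (nat_lit 684) (nat_lit 7867649584) (nat_lit 76) (nat_lit 2404850289) (nat_lit 276) (nat_lit 5) (nat_lit 285) (nat_lit 5) (nat_lit 277) (nat_lit 5) (nat_lit 594) (nat_lit 532) (nat_lit 434)) (XT.lf (nat_lit 0) (nat_lit 3111752806) (nat_lit 684) (nat_lit 1084927475) (nat_lit 76) (nat_lit 6651816582) (nat_lit 276) (nat_lit 5) (nat_lit 285) (nat_lit 5) (nat_lit 277) (nat_lit 5) (nat_lit 595) (nat_lit 532) (nat_lit 433))))) (XT.nd (nat_lit 234) (nat_lit 1672) (nat_lit 0) (XT.nd (nat_lit 78) (nat_lit 684) (nat_lit 0) (XT.lf (nat_lit 0) (nat_lit 5829351710) (nat_lit 684) (nat_lit 5082646941) (nat_lit 76) (nat_lit 51599939) (nat_lit 268) (nat_lit 5) (nat_lit 277) (nat_lit 5) (nat_lit 269) (nat_lit 5) (nat_lit 596) (nat_lit 532) (nat_lit 432)) (XT.nd (nat_lit 78) (nat_lit 76) (nat_lit 0) (XT.lf (nat_lit 0) (nat_lit 1887408018) (nat_lit 608) (nat_lit 6738674885) (nat_lit 684) (nat_lit 2454425445) (nat_lit 260) (nat_lit 5) (nat_lit 268) (nat_lit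 5) (nat_lit 269) (nat_lit 5) (nat_lit 597) (nat_lit 532) (nat_lit 431)) (XT.lf (nat_lit 0) (nat_lit 287174506) (nat_lit 684) (nat_lit 2164960058) (nat_lit 76) (nat_lit 8747350226) (nat_lit 259) (nat_lit 5) (nat_lit 268) (nat_lit 5) (nat_lit 260) (nat_lit 5) (nat_lit 598) (nat_lit 532) (nat_lit 430)))) (XT.nd (nat_lit 156) (nat_lit 608) (nat_lit 0) (XT.nd (nat_lit 78) (nat_lit 532) (nat_lit 0) (XT.lf (nat_lit 0) (nat_lit 3074088074) (nat_lit 608) (nat_lit 6308695823) (nat_lit 76) (nat_lit 1937266970) (nat_lit 252) (nat_lit 5) (nat_lit 260) (nat_lit 5) (nat_lit 253) (nat_lit 5) (nat_lit 599) (nat_lit 532) (nat_lit 429)) (XT.lf (nat_lit 0) (nat_lit 883831741) (nat_lit 532) (nat_lit 5047658641) (nat_lit 608) (nat_lit 5511244354) (nat_lit 245) (nat_lit 5) (nat_lit 252) (nat_lit 5) (nat_lit 253) (nat_lit 5) (nat_lit 600) (nat_lit 532) (nat_lit 428))) (XT.nd (nat_lit 78) (nat_lit 608) (nat_lit 0) (XT.lf (nat_lit 0) (nat_lit 8276688486) (nat_lit 532) (nat_lit 590075362)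 (nat_lit 608) (nat_lit 2700695422) (nat_lit 245) (nat_lit 5) (nat_lit 252) (nat_lit 5) (nat_lit 253) (nat_lit 5) (nat_lit 601) (nat_lit 532) (nat_lit 427)) (XT.lf (nat_lit 0) (nat_lit 195310453) (nat_lit 608) (nat_lit 7573087335) (nat_lit 76) (nat_lit 3925631859) (nat_lit 237) (nat_lit 5) (nat_lit 245) (nat_lit 5) (nat_lit 238) (nat_lit 5) (nat_lit 602) (nat_lit 532) (nat_lit 426)))))) (XT.nd (nat_lit 546) (nat_lit 2356) (nat_lit 0) (XT.nd (nat_lit 234) (nat_lit 1064) (nat_lit 0) (XT.nd (nat_lit 78) (nat_lit 988) (nat_lit 0) (XT.lf (nat_lit 0) (nat_lit 3118099538) (nat_lit 608) (nat_lit 148070821) (nat_lit 76) (nat_lit 8556504899) (nat_lit 237) (nat_lit 5) (nat_lit 245) (nat_lit 5) (nat_lit 238) (nat_lit 5) (nat_lit 603) (nat_lit 532) (nat_lit 425)) (XT.nd (nat_lit 78) (nat_lit 456) (nat_lit 0) (XT.lf (nat_lit 0) (nat_lit 6136161361) (nat_lit 608) (nat_lit 4466840918) (nat_lit 76) (nat_lit 1350156503) (nat_lit 230) (nat_lit 5) (nat_lit 238) (nat_lit 5) (nat_lit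 231) (nat_lit 5) (nat_lit 604) (nat_lit 532) (nat_lit 424)) (XT.lf (nat_lit 0) (nat_lit 3180701900) (nat_lit 456) (nat_lit 6056607253) (nat_lit 532) (nat_lit 2848489645) (nat_lit 224) (nat_lit 5) (nat_lit 230) (nat_lit 5) (nat_lit 231) (nat_lit 5) (nat_lit 605) (nat_lit 532) (nat_lit 423)))) (XT.nd (nat_lit 156) (nat_lit 456) (nat_lit 0) (XT.nd (nat_lit 78) (nat_lit 532) (nat_lit 0) (XT.lf (nat_lit 0) (nat_lit 186734963) (nat_lit 532) (nat_lit 1208742189) (nat_lit 76) (nat_lit 10825398442) (nat_lit 223) (nat_lit 5) (nat_lit 230) (nat_lit 5) (nat_lit 224) (nat_lit 5) (nat_lit 606) (nat_lit 532) (nat_lit 422)) (XT.lf (nat_lit 0) (nat_lit 3290039845) (nat_lit 608) (nat_lit 5697735945) (nat_lit 76) (nat_lit 3369592461) (nat_lit 216) (nat_lit 5) (nat_lit 224) (nat_lit 5) (nat_lit 217) (nat_lit 5) (nat_lit 607) (nat_lit 532) (nat_lit 421))) (XT.nd (nat_lit 78) (nat_lit 0) (nat_lit 0) (XT.lf (nat_lit 0) (nat_lit 2196612387) (nat_lit 456) (nat_lit 4270554779) (nat_lit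 532) (nat_lit 6029189684) (nat_lit 210) (nat_lit 5) (nat_lit 216) (nat_lit 5) (nat_lit 217) (nat_lit 5) (nat_lit 608) (nat_lit 532) (nat_lit 420)) (XT.lf (nat_lit 0) (nat_lit 9730079720) (nat_lit 532) (nat_lit 2343431568) (nat_lit 76) (nat_lit 564170268) (nat_lit 210) (nat_lit 5) (nat_lit 217) (nat_lit 5) (nat_lit 211) (nat_lit 5) (nat_lit 609) (nat_lit 532) (nat_lit 419))))) (XT.nd (nat_lit 234) (nat_lit 1368) (nat_lit 0) (XT.nd (nat_lit 78) (nat_lit 456) (nat_lit 0) (XT.lf (nat_lit 0) (nat_lit 319615270) (nat_lit 532) (nat_lit 6991149956) (nat_lit 76) (nat_lit 5470096327) (nat_lit 203) (nat_lit 5) (nat_lit 210) (nat_lit 5) (nat_lit 204) (nat_lit 5) (nat_lit 610) (nat_lit 532) (nat_lit 418)) (XT.nd (nat_lit 78) (nat_lit 0) (nat_lit 0) (XT.lf (nat_lit 0) (nat_lit 1158623486) (nat_lit 456) (nat_lit 2417910895) (nat_lit 532) (nat_lit 9349905694) (nat_lit 197) (nat_lit 5) (nat_lit 203) (nat_lit 5) (nat_lit 204) (nat_lit 5) (nat_lit 611) (nat_lit 532) (nat_lit 417))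 (XT.lf (nat_lit 0) (nat_lit 6943365327) (nat_lit 532) (nat_lit 3552896268) (nat_lit 76) (nat_lit 2577774205) (nat_lit 197) (nat_lit 5) (nat_lit 204) (nat_lit 5) (nat_lit 198) (nat_lit 5) (nat_lit 612) (nat_lit 532) (nat_lit 416)))) (XT.nd (nat_lit 156) (nat_lit 456) (nat_lit 0) (XT.nd (nat_lit 78) (nat_lit 456) (nat_lit 0) (XT.lf (nat_lit 0) (nat_lit 4846372180) (nat_lit 456) (nat_lit 5559858970) (nat_lit 532) (nat_lit 2817779400) (nat_lit 191) (nat_lit 5) (nat_lit 197) (nat_lit 5) (nat_lit 198) (nat_lit 5) (nat_lit 613) (nat_lit 532) (nat_lit 415)) (XT.lf (nat_lit 0) (nat_lit 54624734) (nat_lit 380) (nat_lit 505023120) (nat_lit 456) (nat_lit 12817152266) (nat_lit 185) (nat_lit 5) (nat_lit 190) (nat_lit 5) (nat_lit 191) (nat_lit 5) (nat_lit 614) (nat_lit 532) (nat_lit 414))) (XT.nd (nat_lit 78) (nat_lit 456) (nat_lit 0) (XT.lf (nat_lit 0) (nat_lit 4035134370) (nat_lit 456) (nat_lit 4839356894) (nat_lit 76) (nat_lit 4656417907) (nat_lit 185) (nat_lit 5) (nat_lit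 191) (nat_lit 5) (nat_lit 186) (nat_lit 5) (nat_lit 615) (nat_lit 532) (nat_lit 413)) (XT.lf (nat_lit 0) (nat_lit 3832885478) (nat_lit 456) (nat_lit 3757257701) (nat_lit 532) (nat_lit 6097757968) (nat_lit 179) (nat_lit 5) (nat_lit 185) (nat_lit 5) (nat_lit 186) (nat_lit 5) (nat_lit 616) (nat_lit 532) (nat_lit 412))))))))
noncomputable def xc107 : XT := (XT.nd (nat_lit 2106) (nat_lit 1672) (nat_lit 0) (XT.nd (nat_lit 1014) (nat_lit 2888) (nat_lit 0) (XT.nd (nat_lit 468) (nat_lit 1520) (nat_lit 0) (XT.nd (nat_lit 234) (nat_lit 836) (nat_lit 0) (XT.nd (nat_lit 78) (nat_lit 836) (nat_lit 0) (XT.lf (nat_lit 0) (nat_lit 11240342605) (nat_lit 532) (nat_lit 1140203344) (nat_lit 76) (nat_lit 1467006181) (nat_lit 179) (nat_lit 5) (nat_lit 186) (nat_lit 5) (nat_lit 180) (nat_lit 5) (nat_lit 617) (nat_lit 532) (nat_lit 411)) (XT.nd (nat_lit 78) (nat_lit 380) (nat_lit 0) (XT.lf (nat_lit 0) (nat_lit 998814521) (nat_lit 456) (nat_lit 6216244066) (nat_lit 76) (nat_lit 6794051407)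 (nat_lit 173) (nat_lit 5) (nat_lit 179) (nat_lit 5) (nat_lit 174) (nat_lit 5) (nat_lit 618) (nat_lit 532) (nat_lit 410)) (XT.lf (nat_lit 0) (nat_lit 2738093087) (nat_lit 380) (nat_lit 1911786842) (nat_lit 456) (nat_lit 9523518706) (nat_lit 168) (nat_lit 5) (nat_lit 173) (nat_lit 5) (nat_lit 174) (nat_lit 5) (nat_lit 619) (nat_lit 532) (nat_lit 409)))) (XT.nd (nat_lit 78) (nat_lit 836) (nat_lit 0) (XT.lf (nat_lit 0) (nat_lit 8421099357) (nat_lit 456) (nat_lit 2434265960) (nat_lit 76) (nat_lit 3484665978) (nat_lit 168) (nat_lit 5) (nat_lit 174) (nat_lit 5) (nat_lit 169) (nat_lit 5) (nat_lit 620) (nat_lit 532) (nat_lit 408)) (XT.nd (nat_lit 78) (nat_lit 456) (nat_lit 0) (XT.lf (nat_lit 0) (nat_lit 6796881455) (nat_lit 380) (nat_lit 5510430628) (nat_lit 456) (nat_lit 2201894032) (nat_lit 163) (nat_lit 5) (nat_lit 168) (nat_lit 5) (nat_lit 169) (nat_lit 5) (nat_lit 621) (nat_lit 532) (nat_lit 407)) (XT.lf (nat_lit 0) (nat_lit 1547630689) (nat_lit 380) (nat_lit 30331046)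 (nat_lit 456) (nat_lit 13103410677) (nat_lit 157) (nat_lit 5) (nat_lit 162) (nat_lit 5) (nat_lit 163) (nat_lit 5) (nat_lit 622) (nat_lit 532) (nat_lit 406))))) (XT.nd (nat_lit 234) (nat_lit 760) (nat_lit 0) (XT.nd (nat_lit 78) (nat_lit 760) (nat_lit 0) (XT.lf (nat_lit 0) (nat_lit 5475088106) (nat_lit 456) (nat_lit 3836195621) (nat_lit 76) (nat_lit 5543984914) (nat_lit 157) (nat_lit 5) (nat_lit 163) (nat_lit 5) (nat_lit 158) (nat_lit 5) (nat_lit 623) (nat_lit 532) (nat_lit 405)) (XT.nd (nat_lit 78) (nat_lit 380) (nat_lit 0) (XT.lf (nat_lit 0) (nat_lit 5695765784) (nat_lit 380) (nat_lit 3774844999) (nat_lit 456) (nat_lit 5561623751) (nat_lit 152) (nat_lit 5) (nat_lit 157) (nat_lit 5) (nat_lit 158) (nat_lit 5) (nat_lit 624) (nat_lit 532) (nat_lit 404)) (XT.lf (nat_lit 0) (nat_lit 222598498) (nat_lit 380) (nat_lit 13346332340) (nat_lit 456) (nat_lit 1643351972) (nat_lit 147) (nat_lit 5) (nat_lit 152) (nat_lit 5) (nat_lit 153) (nat_lit 5) (nat_lit 625) (nat_lit 532)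 (nat_lit 403)))) (XT.nd (nat_lit 156) (nat_lit 380) (nat_lit 0) (XT.nd (nat_lit 78) (nat_lit 304) (nat_lit 0) (XT.lf (nat_lit 0) (nat_lit 2393907534) (nat_lit 456) (nat_lit 5362152010) (nat_lit 76) (nat_lit 7638137972) (nat_lit 146) (nat_lit 5) (nat_lit 152) (nat_lit 5) (nat_lit 147) (nat_lit 5) (nat_lit 626) (nat_lit 532) (nat_lit 402)) (XT.lf (nat_lit 0) (nat_lit 4480133594) (nat_lit 304) (nat_lit 2022627372) (nat_lit 380) (nat_lit 9076515992) (nat_lit 142) (nat_lit 5) (nat_lit 146) (nat_lit 5) (nat_lit 147) (nat_lit 5) (nat_lit 627) (nat_lit 532) (nat_lit 401))) (XT.nd (nat_lit 78) (nat_lit 380) (nat_lit 0) (XT.lf (nat_lit 0) (nat_lit 10738686897) (nat_lit 380) (nat_lit 1226228674) (nat_lit 76) (nat_lit 3802245247) (nat_lit 142) (nat_lit 5) (nat_lit 147) (nat_lit 5) (nat_lit 143) (nat_lit 5) (nat_lit 628) (nat_lit 532) (nat_lit 400)) (XT.lf (nat_lit 0) (nat_lit 8922510114) (nat_lit 380) (nat_lit 6192300656) (nat_lit 456) (nat_lit 842882722) (nat_lit 137) (nat_lit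 5) (nat_lit 142) (nat_lit 5) (nat_lit 143) (nat_lit 5) (nat_lit 629) (nat_lit 532) (nat_lit 399)))))) (XT.nd (nat_lit 546) (nat_lit 1520) (nat_lit 0) (XT.nd (nat_lit 234) (nat_lit 684) (nat_lit 0) (XT.nd (nat_lit 78) (nat_lit 304) (nat_lit 0) (XT.lf (nat_lit 0) (nat_lit 3132450682) (nat_lit 304) (nat_lit 261849392) (nat_lit 380) (nat_lit 12757036154) (nat_lit 132) (nat_lit 5) (nat_lit 136) (nat_lit 5) (nat_lit 137) (nat_lit 5) (nat_lit 630) (nat_lit 532) (nat_lit 398)) (XT.nd (nat_lit 78) (nat_lit 304) (nat_lit 0) (XT.lf (nat_lit 0) (nat_lit 7774329629) (nat_lit 380) (nat_lit 2817965449) (nat_lit 76) (nat_lit 5755058209) (nat_lit 132) (nat_lit 5) (nat_lit 137) (nat_lit 5) (nat_lit 133) (nat_lit 5) (nat_lit 631) (nat_lit 532) (nat_lit 397)) (XT.lf (nat_lit 0) (nat_lit 7660819871) (nat_lit 304) (nat_lit 4617203235) (nat_lit 380) (nat_lit 4268546984) (nat_lit 128) (nat_lit 5) (nat_lit 132) (nat_lit 5) (nat_lit 133) (nat_lit 5) (nat_lit 632) (nat_lit 532) (nat_lit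 396)))) (XT.nd (nat_lit 156) (nat_lit 304) (nat_lit 0) (XT.nd (nat_lit 78) (nat_lit 0) (nat_lit 0) (XT.lf (nat_lit 0) (nat_lit 144421937) (nat_lit 380) (nat_lit 15125642403) (nat_lit 76) (nat_lit 1479211629) (nat_lit 123) (nat_lit 5) (nat_lit 128) (nat_lit 5) (nat_lit 124) (nat_lit 5) (nat_lit 633) (nat_lit 532) (nat_lit 395)) (XT.lf (nat_lit 0) (nat_lit 4663856837) (nat_lit 380) (nat_lit 4575443104) (nat_lit 76) (nat_lit 7714665104) (nat_lit 123) (nat_lit 5) (nat_lit 128) (nat_lit 5) (nat_lit 124) (nat_lit 5) (nat_lit 634) (nat_lit 532) (nat_lit 394))) (XT.nd (nat_lit 78) (nat_lit 0) (nat_lit 0) (XT.lf (nat_lit 0) (nat_lit 6243117738) (nat_lit 304) (nat_lit 3056105553) (nat_lit 380) (nat_lit 7863014375) (nat_lit 119) (nat_lit 5) (nat_lit 123) (nat_lit 5) (nat_lit 124) (nat_lit 5) (nat_lit 635) (nat_lit 532) (nat_lit 393)) (XT.lf (nat_lit 0) (nat_lit 14064392554) (nat_lit 380) (nat_lit 79896649) (nat_lit 76) (nat_lit 3229645233) (nat_lit 119) (nat_lit 5) (nat_lit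 124) (nat_lit 5) (nat_lit 120) (nat_lit 5) (nat_lit 636) (nat_lit 532) (nat_lit 392))))) (XT.nd (nat_lit 234) (nat_lit 836) (nat_lit 0) (XT.nd (nat_lit 78) (nat_lit 304) (nat_lit 0) (XT.lf (nat_lit 0) (nat_lit 1395537710) (nat_lit 380) (nat_lit 6520461392) (nat_lit 76) (nat_lit 9672132340) (nat_lit 114) (nat_lit 5) (nat_lit 119) (nat_lit 5) (nat_lit 115) (nat_lit 5) (nat_lit 637) (nat_lit 532) (nat_lit 391)) (XT.nd (nat_lit 78) (nat_lit 0) (nat_lit 0) (XT.lf (nat_lit 0) (nat_lit 4647551596) (nat_lit 304) (nat_lit 1519018281) (nat_lit 380) (nat_lit 11639282247) (nat_lit 110) (nat_lit 5) (nat_lit 114) (nat_lit 5) (nat_lit 115) (nat_lit 5) (nat_lit 638) (nat_lit 532) (nat_lit 390)) (XT.lf (nat_lit 0) (nat_lit 11095047899) (nat_lit 380) (nat_lit 1956751365) (nat_lit 76) (nat_lit 4974888013) (nat_lit 110) (nat_lit 5) (nat_lit 115) (nat_lit 5) (nat_lit 111) (nat_lit 5) (nat_lit 639) (nat_lit 532) (nat_lit 389)))) (XT.nd (nat_lit 156) (nat_lit 228) (nat_lit 0) (XT.nd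 (nat_lit 78) (nat_lit 380) (nat_lit 0) (XT.lf (nat_lit 0) (nat_lit 9560411193) (nat_lit 228) (nat_lit 6619579356) (nat_lit 304) (nat_lit 2070791232) (nat_lit 107) (nat_lit 5) (nat_lit 110) (nat_lit 5) (nat_lit 111) (nat_lit 5) (nat_lit 640) (nat_lit 532) (nat_lit 388)) (XT.lf (nat_lit 0) (nat_lit 2850114966) (nat_lit 304) (nat_lit 16809264) (nat_lit 380) (nat_lit 15611709202) (nat_lit 102) (nat_lit 5) (nat_lit 106) (nat_lit 5) (nat_lit 107) (nat_lit 5) (nat_lit 641) (nat_lit 532) (nat_lit 387))) (XT.nd (nat_lit 78) (nat_lit 228) (nat_lit 0) (XT.lf (nat_lit 0) (nat_lit 7963871074) (nat_lit 380) (nat_lit 4052224367) (nat_lit 76) (nat_lit 6692909334) (nat_lit 102) (nat_lit 5) (nat_lit 107) (nat_lit 5) (nat_lit 103) (nat_lit 5) (nat_lit 642) (nat_lit 532) (nat_lit 386)) (XT.lf (nat_lit 0) (nat_lit 7834866237) (nat_lit 228) (nat_lit 5365006443) (nat_lit 304) (nat_lit 5743369058) (nat_lit 99) (nat_lit 5) (nat_lit 102) (nat_lit 5) (nat_lit 103) (nat_lit 5) (nat_lit 643)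 (nat_lit 532) (nat_lit 385))))))) (XT.nd (nat_lit 72852) (nat_lit 0) (nat_lit 42560) (XT.nd (nat_lit 546) (nat_lit 532) (nat_lit 0) (XT.nd (nat_lit 234) (nat_lit 532) (nat_lit 0) (XT.nd (nat_lit 78) (nat_lit 304) (nat_lit 0) (XT.lf (nat_lit 0) (nat_lit 810814354) (nat_lit 304) (nat_lit 17757825643) (nat_lit 380) (nat_lit 612963027) (nat_lit 95) (nat_lit 5) (nat_lit 99) (nat_lit 5) (nat_lit 100) (nat_lit 5) (nat_lit 644) (nat_lit 532) (nat_lit 384)) (XT.nd (nat_lit 78) (nat_lit 228) (nat_lit 0) (XT.lf (nat_lit 0) (nat_lit 4656248228) (nat_lit 380) (nat_lit 6393758854) (nat_lit 76) (nat_lit 8372189205) (nat_lit 94) (nat_lit 5) (nat_lit 99) (nat_lit 5) (nat_lit 95) (nat_lit 5) (nat_lit 645) (nat_lit 532) (nat_lit 383)) (XT.lf (nat_lit 0) (nat_lit 5872771521) (nat_lit 228) (nat_lit 4174495697) (nat_lit 304) (nat_lit 9619761012) (nat_lit 91) (nat_lit 5) (nat_lit 94) (nat_lit 5) (nat_lit 95) (nat_lit 5) (nat_lit 646) (nat_lit 532) (nat_lit 382)))) (XT.nd (nat_lit 156)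 (nat_lit 228) (nat_lit 0) (XT.nd (nat_lit 78) (nat_lit 304) (nat_lit 0) (XT.lf (nat_lit 0) (nat_lit 15594274326) (nat_lit 304) (nat_lit 1486369476) (nat_lit 76) (nat_lit 2835150114) (nat_lit 91) (nat_lit 5) (nat_lit 95) (nat_lit 5) (nat_lit 92) (nat_lit 5) (nat_lit 647) (nat_lit 532) (nat_lit 381)) (XT.lf (nat_lit 0) (nat_lit 1156003336) (nat_lit 304) (nat_lit 9011562739) (nat_lit 76) (nat_lit 10000078367) (nat_lit 87) (nat_lit 5) (nat_lit 91) (nat_lit 5) (nat_lit 88) (nat_lit 5) (nat_lit 648) (nat_lit 532) (nat_lit 380))) (XT.nd (nat_lit 78) (nat_lit 0) (nat_lit 0) (XT.lf (nat_lit 0) (nat_lit 3643666374) (nat_lit 228) (nat_lit 3062134784) (nat_lit 304) (nat_lit 13717748157) (nat_lit 84) (nat_lit 5) (nat_lit 87) (nat_lit 5) (nat_lit 88) (nat_lit 5) (nat_lit 649) (nat_lit 532) (nat_lit 379)) (XT.lf (nat_lit 0) (nat_lit 12441531030) (nat_lit 304) (nat_lit 4059467956) (nat_lit 76) (nat_lit 4182075003) (nat_lit 84) (nat_lit 5) (nat_lit 88) (nat_lit 5) (nat_lit 85)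 (nat_lit 5) (nat_lit 650) (nat_lit 532) (nat_lit 378))))) (XT.nd (nat_lit 71994) (nat_lit 0) (nat_lit 46740) (XT.nd (nat_lit 78) (nat_lit 304) (nat_lit 0) (XT.lf (nat_lit 0) (nat_lit 8990752026) (nat_lit 228) (nat_lit 9367022377) (nat_lit 304) (nat_lit 2588699191) (nat_lit 81) (nat_lit 5) (nat_lit 84) (nat_lit 5) (nat_lit 85) (nat_lit 5) (nat_lit 651) (nat_lit 532) (nat_lit 377)) (XT.nd (nat_lit 78) (nat_lit 0) (nat_lit 0) (XT.lf (nat_lit 0) (nat_lit 1113943672) (nat_lit 228) (nat_lit 2043411969) (nat_lit 304) (nat_lit 18056936907) (nat_lit 77) (nat_lit 5) (nat_lit 80) (nat_lit 5) (nat_lit 81) (nat_lit 5) (nat_lit 652) (nat_lit 532) (nat_lit 376)) (XT.lf (nat_lit 0) (nat_lit 9086912035) (nat_lit 304) (nat_lit 6954018244) (nat_lit 76) (nat_lit 5444130904) (nat_lit 77) (nat_lit 5) (nat_lit 81) (nat_lit 5) (nat_lit 78) (nat_lit 5) (nat_lit 653) (nat_lit 532) (nat_lit 375)))) (XT.nd (nat_lit 156) (nat_lit 912) (nat_lit 0) (XT.nd (nat_lit 78) (nat_lit 0) (nat_lit 0)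 (XT.lf (nat_lit 0) (nat_lit 774468102) (nat_lit 0) (nat_lit 774468102) (nat_lit 836) (nat_lit 1832957498) (nat_lit 704) (nat_lit 5) (nat_lit 704) (nat_lit 3) (nat_lit 715) (nat_lit 3) (nat_lit 533) (nat_lit 533) (nat_lit 494)) (XT.lf (nat_lit 0) (nat_lit 4937446079) (nat_lit 0) (nat_lit 286963277) (nat_lit 836) (nat_lit 1564824233) (nat_lit 704) (nat_lit 5) (nat_lit 704) (nat_lit 3) (nat_lit 715) (nat_lit 3) (nat_lit 534) (nat_lit 533) (nat_lit 493))) (XT.nd (nat_lit 78) (nat_lit 0) (nat_lit 0) (XT.lf (nat_lit 0) (nat_lit 532302731) (nat_lit 912) (nat_lit 5255677168) (nat_lit 988) (nat_lit 1027908944) (nat_lit 692) (nat_lit 5) (nat_lit 704) (nat_lit 5) (nat_lit 705) (nat_lit 5) (nat_lit 535) (nat_lit 533) (nat_lit 492)) (XT.lf (nat_lit 0) (nat_lit 2610583864) (nat_lit 912) (nat_lit 1818929861) (nat_lit 988) (nat_lit 2414160387) (nat_lit 692) (nat_lit 5) (nat_lit 704) (nat_lit 5) (nat_lit 705) (nat_lit 5) (nat_lit 536) (nat_lit 533) (nat_lit 491)))))) (XT.nd (nat_lit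 546) (nat_lit 2204) (nat_lit 0) (XT.nd (nat_lit 234) (nat_lit 1064) (nat_lit 0) (XT.nd (nat_lit 78) (nat_lit 912) (nat_lit 0) (XT.lf (nat_lit 76) (nat_lit 1679850884) (nat_lit 0) (nat_lit 3008286300) (nat_lit 988) (nat_lit 2184730706) (nat_lit 693) (nat_lit 5) (nat_lit 692) (nat_lit 5) (nat_lit 705) (nat_lit 5) (nat_lit 537) (nat_lit 533) (nat_lit 490)) (XT.nd (nat_lit 78) (nat_lit 912) (nat_lit 0) (XT.lf (nat_lit 76) (nat_lit 5244719298) (nat_lit 0) (nat_lit 1522385921) (nat_lit 988) (nat_lit 136349849) (nat_lit 693) (nat_lit 5) (nat_lit 692) (nat_lit 5) (nat_lit 705) (nat_lit 5) (nat_lit 538) (nat_lit 533) (nat_lit 489)) (XT.lf (nat_lit 0) (nat_lit 1888526596) (nat_lit 988) (nat_lit 5005273531) (nat_lit 1064) (nat_lit 41383956) (nat_lit 680) (nat_lit 5) (nat_lit 693) (nat_lit 5) (nat_lit 694) (nat_lit 5) (nat_lit 539) (nat_lit 533) (nat_lit 488)))) (XT.nd (nat_lit 156) (nat_lit 1064) (nat_lit 0) (XT.nd (nat_lit 78) (nat_lit 0) (nat_lit 0) (XT.lf (nat_lit 0) (nat_lit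 3922673960) (nat_lit 988) (nat_lit 1395226319) (nat_lit 1064) (nat_lit 1650223795) (nat_lit 680) (nat_lit 5) (nat_lit 693) (nat_lit 5) (nat_lit 694) (nat_lit 5) (nat_lit 540) (nat_lit 533) (nat_lit 487)) (XT.lf (nat_lit 76) (nat_lit 2287953320) (nat_lit 0) (nat_lit 3674710448) (nat_lit 1064) (nat_lit 1039762189) (nat_lit 681) (nat_lit 5) (nat_lit 680) (nat_lit 5) (nat_lit 694) (nat_lit 5) (nat_lit 541) (nat_lit 533) (nat_lit 486))) (XT.nd (nat_lit 78) (nat_lit 0) (nat_lit 0) (XT.lf (nat_lit 0) (nat_lit 953031309) (nat_lit 1064) (nat_lit 1009655830) (nat_lit 1140) (nat_lit 5075398413) (nat_lit 666) (nat_lit 5) (nat_lit 680) (nat_lit 5) (nat_lit 681) (nat_lit 5) (nat_lit 542) (nat_lit 533) (nat_lit 485)) (XT.lf (nat_lit 76) (nat_lit 2769731767) (nat_lit 0) (nat_lit 171749402) (nat_lit 1140) (nat_lit 4133451174) (nat_lit 667) (nat_lit 5) (nat_lit 666) (nat_lit 5) (nat_lit 681) (nat_lit 5) (nat_lit 543) (nat_lit 533) (nat_lit 484))))) (XT.nd (nat_lit 234) (nat_lit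 1140) (nat_lit 0) (XT.nd (nat_lit 78) (nat_lit 1140) (nat_lit 0) (XT.lf (nat_lit 0) (nat_lit 4939873949) (nat_lit 1064) (nat_lit 514629975) (nat_lit 1140) (nat_lit 1658614467) (nat_lit 667) (nat_lit 5) (nat_lit 681) (nat_lit 5) (nat_lit 682) (nat_lit 5) (nat_lit 544) (nat_lit 533) (nat_lit 483)) (XT.nd (nat_lit 78) (nat_lit 1140) (nat_lit 0) (XT.lf (nat_lit 76) (nat_lit 3365486520) (nat_lit 0) (nat_lit 3589274024) (nat_lit 1140) (nat_lit 197782787) (nat_lit 668) (nat_lit 5) (nat_lit 667) (nat_lit 5) (nat_lit 682) (nat_lit 5) (nat_lit 545) (nat_lit 533) (nat_lit 482)) (XT.lf (nat_lit 76) (nat_lit 97255909) (nat_lit 0) (nat_lit 1654158614) (nat_lit 1216) (nat_lit 5441950562) (nat_lit 653) (nat_lit 5) (nat_lit 652) (nat_lit 5) (nat_lit 668) (nat_lit 5) (nat_lit 546) (nat_lit 533) (nat_lit 481)))) (XT.nd (nat_lit 156) (nat_lit 1216) (nat_lit 0) (XT.nd (nat_lit 78) (nat_lit 0) (nat_lit 0) (XT.lf (nat_lit 0) (nat_lit 3719372492) (nat_lit 1140) (nat_lit 3157970690) (nat_lit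 1216) (nat_lit 357990806) (nat_lit 653) (nat_lit 5) (nat_lit 668) (nat_lit 5) (nat_lit 669) (nat_lit 5) (nat_lit 547) (nat_lit 533) (nat_lit 480)) (XT.lf (nat_lit 76) (nat_lit 828934204) (nat_lit 0) (nat_lit 4869744710) (nat_lit 1216) (nat_lit 1580028823) (nat_lit 654) (nat_lit 5) (nat_lit 653) (nat_lit 5) (nat_lit 669) (nat_lit 5) (nat_lit 548) (nat_lit 533) (nat_lit 479))) (XT.nd (nat_lit 78) (nat_lit 0) (nat_lit 0) (XT.lf (nat_lit 0) (nat_lit 366813878) (nat_lit 1216) (nat_lit 2417149119) (nat_lit 1292) (nat_lit 4539392435) (nat_lit 637) (nat_lit 5) (nat_lit 653) (nat_lit 5) (nat_lit 654) (nat_lit 5) (nat_lit 549) (nat_lit 533) (nat_lit 478)) (XT.lf (nat_lit 76) (nat_lit 1677959169) (nat_lit 0) (nat_lit 621288874) (nat_lit 1292) (nat_lit 5070087885) (nat_lit 638) (nat_lit 5) (nat_lit 637) (nat_lit 5) (nat_lit 654) (nat_lit 5) (nat_lit 550) (nat_lit 533) (nat_lit 477))))))))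
noncomputable def xc108 : XT := (XT.nd (nat_lit 2106) (nat_lit 11552) (nat_lit 0) (XT.nd (nat_lit 1014) (nat_lit 10868) (nat_lit 0) (XT.nd (nat_lit 468) (nat_lit 6080) (nat_lit 0) (XT.nd (nat_lit 234) (nat_lit 1216) (nat_lit 0) (XT.nd (nat_lit 78) (nat_lit 1292) (nat_lit 0) (XT.lf (nat_lit 0) (nat_lit 4254581664) (nat_lit 1216) (nat_lit 1569026788) (nat_lit 1292) (nat_lit 1592947422) (nat_lit 638) (nat_lit 5) (nat_lit 654) (nat_lit 5) (nat_lit 655) (nat_lit 5) (nat_lit 551) (nat_lit 533) (nat_lit 476)) (XT.nd (nat_lit 78) (nat_lit 1292) (nat_lit 0) (XT.lf (nat_lit 76) (nat_lit 2636375430) (nat_lit 0) (nat_lit 3592343301) (nat_lit 1292) (nat_lit 1236412310) (nat_lit 639) (nat_lit 5) (nat_lit 638) (nat_lit 5) (nat_lit 655) (nat_lit 5) (nat_lit 552) (nat_lit 533) (nat_lit 475)) (XT.lf (nat_lit 0) (nat_lit 687527610) (nat_lit 1292) (nat_lit 602319371) (nat_lit 1368) (nat_lit 6225352613) (nat_lit 621) (nat_lit 5) (nat_lit 638) (nat_lit 5) (nat_lit 639) (nat_lit 5) (nat_lit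 553) (nat_lit 533) (nat_lit 474)))) (XT.nd (nat_lit 78) (nat_lit 1292) (nat_lit 0) (XT.lf (nat_lit 0) (nat_lit 2624333380) (nat_lit 1292) (nat_lit 3853971651) (nat_lit 76) (nat_lit 1087986668) (nat_lit 622) (nat_lit 5) (nat_lit 639) (nat_lit 5) (nat_lit 623) (nat_lit 5) (nat_lit 554) (nat_lit 533) (nat_lit 473)) (XT.nd (nat_lit 78) (nat_lit 0) (nat_lit 0) (XT.lf (nat_lit 0) (nat_lit 470400347) (nat_lit 1292) (nat_lit 4105426798) (nat_lit 1368) (nat_lit 3043063860) (nat_lit 605) (nat_lit 5) (nat_lit 622) (nat_lit 5) (nat_lit 623) (nat_lit 5) (nat_lit 555) (nat_lit 533) (nat_lit 472)) (XT.lf (nat_lit 0) (nat_lit 4903408394) (nat_lit 1292) (nat_lit 1649674921) (nat_lit 1368) (nat_lit 1119728642) (nat_lit 605) (nat_lit 5) (nat_lit 622) (nat_lit 5) (nat_lit 623) (nat_lit 5) (nat_lit 556) (nat_lit 533) (nat_lit 471))))) (XT.nd (nat_lit 234) (nat_lit 3192) (nat_lit 0) (XT.nd (nat_lit 78) (nat_lit 1444) (nat_lit 0) (XT.lf (nat_lit 0) (nat_lit 809058378) (nat_lit 1444)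 (nat_lit 6050115007) (nat_lit 76) (nat_lit 868972160) (nat_lit 586) (nat_lit 5) (nat_lit 605) (nat_lit 5) (nat_lit 587) (nat_lit 5) (nat_lit 557) (nat_lit 533) (nat_lit 470)) (XT.nd (nat_lit 78) (nat_lit 1444) (nat_lit 0) (XT.lf (nat_lit 0) (nat_lit 2753070689) (nat_lit 1444) (nat_lit 1581365787) (nat_lit 76) (nat_lit 3450172509) (nat_lit 586) (nat_lit 5) (nat_lit 605) (nat_lit 5) (nat_lit 587) (nat_lit 5) (nat_lit 558) (nat_lit 533) (nat_lit 469)) (XT.lf (nat_lit 0) (nat_lit 2985878072) (nat_lit 1444) (nat_lit 1732213113) (nat_lit 1520) (nat_lit 3124471932) (nat_lit 567) (nat_lit 5) (nat_lit 586) (nat_lit 5) (nat_lit 587) (nat_lit 5) (nat_lit 559) (nat_lit 533) (nat_lit 468)))) (XT.nd (nat_lit 156) (nat_lit 1596) (nat_lit 0) (XT.nd (nat_lit 78) (nat_lit 1596) (nat_lit 0) (XT.lf (nat_lit 0) (nat_lit 6702403850) (nat_lit 1520) (nat_lit 272244359) (nat_lit 76) (nat_lit 927432192) (nat_lit 567) (nat_lit 5) (nat_lit 587) (nat_lit 5) (nat_lit 568) (nat_lit 5) (nat_lit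 560) (nat_lit 533) (nat_lit 467)) (XT.lf (nat_lit 0) (nat_lit 757837699) (nat_lit 1596) (nat_lit 3547331510) (nat_lit 76) (nat_lit 3657438659) (nat_lit 546) (nat_lit 5) (nat_lit 567) (nat_lit 5) (nat_lit 547) (nat_lit 5) (nat_lit 561) (nat_lit 533) (nat_lit 466))) (XT.nd (nat_lit 78) (nat_lit 0) (nat_lit 0) (XT.lf (nat_lit 0) (nat_lit 1152784590) (nat_lit 1596) (nat_lit 1559307828) (nat_lit 1672) (nat_lit 5312625471) (nat_lit 525) (nat_lit 5) (nat_lit 546) (nat_lit 5) (nat_lit 547) (nat_lit 5) (nat_lit 562) (nat_lit 533) (nat_lit 465)) (XT.lf (nat_lit 0) (nat_lit 4702307158) (nat_lit 1672) (nat_lit 2131670774) (nat_lit 76) (nat_lit 1254158288) (nat_lit 525) (nat_lit 5) (nat_lit 547) (nat_lit 5) (nat_lit 526) (nat_lit 5) (nat_lit 563) (nat_lit 533) (nat_lit 464)))))) (XT.nd (nat_lit 546) (nat_lit 4408) (nat_lit 0) (XT.nd (nat_lit 234) (nat_lit 2964) (nat_lit 0) (XT.nd (nat_lit 78) (nat_lit 1824) (nat_lit 0) (XT.lf (nat_lit 0) (nat_lit 2698216207) (nat_lit 1672)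 (nat_lit 4027496672) (nat_lit 1748) (nat_lit 1427245840) (nat_lit 503) (nat_lit 5) (nat_lit 525) (nat_lit 5) (nat_lit 526) (nat_lit 5) (nat_lit 564) (nat_lit 533) (nat_lit 463)) (XT.nd (nat_lit 78) (nat_lit 1748) (nat_lit 0) (XT.lf (nat_lit 0) (nat_lit 543219775) (nat_lit 1748) (nat_lit 599495013) (nat_lit 76) (nat_lit 7076688336) (nat_lit 502) (nat_lit 5) (nat_lit 525) (nat_lit 5) (nat_lit 503) (nat_lit 5) (nat_lit 565) (nat_lit 533) (nat_lit 462)) (XT.lf (nat_lit 0) (nat_lit 2540803829) (nat_lit 1824) (nat_lit 3928226382) (nat_lit 76) (nat_lit 1817824458) (nat_lit 479) (nat_lit 5) (nat_lit 503) (nat_lit 5) (nat_lit 480) (nat_lit 5) (nat_lit 566) (nat_lit 533) (nat_lit 461)))) (XT.nd (nat_lit 156) (nat_lit 1140) (nat_lit 0) (XT.nd (nat_lit 78) (nat_lit 0) (nat_lit 0) (XT.lf (nat_lit 0) (nat_lit 1044173197) (nat_lit 1824) (nat_lit 3519513991) (nat_lit 1900) (nat_lit 3792264373) (nat_lit 455) (nat_lit 5) (nat_lit 479) (nat_lit 5) (nat_lit 480) (nat_lit 5) (nat_lit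 567) (nat_lit 533) (nat_lit 460)) (XT.lf (nat_lit 0) (nat_lit 6139076248) (nat_lit 1824) (nat_lit 481715362) (nat_lit 1900) (nat_lit 1805766713) (nat_lit 455) (nat_lit 5) (nat_lit 479) (nat_lit 5) (nat_lit 480) (nat_lit 5) (nat_lit 568) (nat_lit 533) (nat_lit 459))) (XT.nd (nat_lit 78) (nat_lit 0) (nat_lit 0) (XT.lf (nat_lit 0) (nat_lit 220992206) (nat_lit 1140) (nat_lit 5672836248) (nat_lit 76) (nat_lit 2604654766) (nat_lit 440) (nat_lit 5) (nat_lit 455) (nat_lit 5) (nat_lit 441) (nat_lit 5) (nat_lit 569) (nat_lit 533) (nat_lit 458)) (XT.lf (nat_lit 0) (nat_lit 2251048555) (nat_lit 1140) (nat_lit 545227919) (nat_lit 76) (nat_lit 5775595605) (nat_lit 440) (nat_lit 5) (nat_lit 455) (nat_lit 5) (nat_lit 441) (nat_lit 5) (nat_lit 570) (nat_lit 533) (nat_lit 457))))) (XT.nd (nat_lit 234) (nat_lit 2584) (nat_lit 0) (XT.nd (nat_lit 78) (nat_lit 912) (nat_lit 0) (XT.lf (nat_lit 0) (nat_lit 4323799206) (nat_lit 988) (nat_lit 3932400581) (nat_lit 76) (nat_lit 390490026)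 (nat_lit 428) (nat_lit 5) (nat_lit 441) (nat_lit 5) (nat_lit 429) (nat_lit 5) (nat_lit 571) (nat_lit 533) (nat_lit 456)) (XT.nd (nat_lit 78) (nat_lit 0) (nat_lit 0) (XT.lf (nat_lit 0) (nat_lit 1332071968) (nat_lit 912) (nat_lit 5106105356) (nat_lit 988) (nat_lit 2284826029) (nat_lit 416) (nat_lit 5) (nat_lit 428) (nat_lit 5) (nat_lit 429) (nat_lit 5) (nat_lit 572) (nat_lit 533) (nat_lit 455)) (XT.lf (nat_lit 0) (nat_lit 6725025629) (nat_lit 912) (nat_lit 1865934237) (nat_lit 988) (nat_lit 209963806) (nat_lit 416) (nat_lit 5) (nat_lit 428) (nat_lit 5) (nat_lit 429) (nat_lit 5) (nat_lit 573) (nat_lit 533) (nat_lit 454)))) (XT.nd (nat_lit 156) (nat_lit 1672) (nat_lit 0) (XT.nd (nat_lit 78) (nat_lit 0) (nat_lit 0) (XT.lf (nat_lit 0) (nat_lit 1882815544) (nat_lit 912) (nat_lit 5542856380) (nat_lit 76) (nat_lit 1454457202) (nat_lit 404) (nat_lit 5) (nat_lit 416) (nat_lit 5) (nat_lit 405) (nat_lit 5) (nat_lit 574) (nat_lit 533) (nat_lit 453)) (XT.lf (nat_lit 0) (nat_lit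 4011535415) (nat_lit 912) (nat_lit 117950056) (nat_lit 76) (nat_lit 4831470215) (nat_lit 404) (nat_lit 5) (nat_lit 416) (nat_lit 5) (nat_lit 405) (nat_lit 5) (nat_lit 575) (nat_lit 533) (nat_lit 452))) (XT.nd (nat_lit 78) (nat_lit 836) (nat_lit 0) (XT.lf (nat_lit 0) (nat_lit 5457306035) (nat_lit 836) (nat_lit 732048173) (nat_lit 912) (nat_lit 2853916705) (nat_lit 393) (nat_lit 5) (nat_lit 404) (nat_lit 5) (nat_lit 405) (nat_lit 5) (nat_lit 576) (nat_lit 533) (nat_lit 451)) (XT.lf (nat_lit 0) (nat_lit 1996792735) (nat_lit 836) (nat_lit 6416905280) (nat_lit 912) (nat_lit 713477635) (nat_lit 382) (nat_lit 5) (nat_lit 393) (nat_lit 5) (nat_lit 394) (nat_lit 5) (nat_lit 577) (nat_lit 533) (nat_lit 450))))))) (XT.nd (nat_lit 1014) (nat_lit 5472) (nat_lit 0) (XT.nd (nat_lit 468) (nat_lit 3572) (nat_lit 0) (XT.nd (nat_lit 234) (nat_lit 836) (nat_lit 0) (XT.nd (nat_lit 78) (nat_lit 1596) (nat_lit 0) (XT.lf (nat_lit 0) (nat_lit 1451202152) (nat_lit 912) (nat_lit 1517287667)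 (nat_lit 76) (nat_lit 6244066118) (nat_lit 381) (nat_lit 5) (nat_lit 393) (nat_lit 5) (nat_lit 382) (nat_lit 5) (nat_lit 578) (nat_lit 533) (nat_lit 449)) (XT.nd (nat_lit 78) (nat_lit 760) (nat_lit 0) (XT.lf (nat_lit 0) (nat_lit 3653047358) (nat_lit 912) (nat_lit 5074194171) (nat_lit 76) (nat_lit 572241901) (nat_lit 370) (nat_lit 5) (nat_lit 382) (nat_lit 5) (nat_lit 371) (nat_lit 5) (nat_lit 579) (nat_lit 533) (nat_lit 448)) (XT.lf (nat_lit 0) (nat_lit 674434220) (nat_lit 760) (nat_lit 5231316112) (nat_lit 836) (nat_lit 3482265105) (nat_lit 360) (nat_lit 5) (nat_lit 370) (nat_lit 5) (nat_lit 371) (nat_lit 5) (nat_lit 580) (nat_lit 533) (nat_lit 447)))) (XT.nd (nat_lit 78) (nat_lit 836) (nat_lit 0) (XT.lf (nat_lit 0) (nat_lit 6576990817) (nat_lit 760) (nat_lit 1633445846) (nat_lit 836) (nat_lit 1267745167) (nat_lit 360) (nat_lit 5) (nat_lit 370) (nat_lit 5) (nat_lit 371) (nat_lit 5) (nat_lit 581) (nat_lit 533) (nat_lit 446)) (XT.nd (nat_lit 78) (nat_lit 0) (nat_lit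 0) (XT.lf (nat_lit 0) (nat_lit 984355849) (nat_lit 836) (nat_lit 6552375849) (nat_lit 76) (nat_lit 2033167628) (nat_lit 349) (nat_lit 5) (nat_lit 360) (nat_lit 5) (nat_lit 350) (nat_lit 5) (nat_lit 582) (nat_lit 533) (nat_lit 445)) (XT.lf (nat_lit 0) (nat_lit 3268501499) (nat_lit 836) (nat_lit 618381645) (nat_lit 76) (nat_lit 5776323078) (nat_lit 349) (nat_lit 5) (nat_lit 360) (nat_lit 5) (nat_lit 350) (nat_lit 5) (nat_lit 583) (nat_lit 533) (nat_lit 444))))) (XT.nd (nat_lit 234) (nat_lit 2052) (nat_lit 0) (XT.nd (nat_lit 78) (nat_lit 836) (nat_lit 0) (XT.lf (nat_lit 0) (nat_lit 5476791755) (nat_lit 684) (nat_lit 131162841) (nat_lit 760) (nat_lit 4150234325) (nat_lit 340) (nat_lit 5) (nat_lit 349) (nat_lit 5) (nat_lit 350) (nat_lit 5) (nat_lit 584) (nat_lit 533) (nat_lit 443)) (XT.nd (nat_lit 78) (nat_lit 76) (nat_lit 0) (XT.lf (nat_lit 0) (nat_lit 1817421891) (nat_lit 760) (nat_lit 6191134689) (nat_lit 836) (nat_lit 1846229609) (nat_lit 330) (nat_lit 5) (nat_lit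 340) (nat_lit 5) (nat_lit 341) (nat_lit 5) (nat_lit 585) (nat_lit 533) (nat_lit 442)) (XT.lf (nat_lit 0) (nat_lit 501540253) (nat_lit 836) (nat_lit 1890592582) (nat_lit 76) (nat_lit 7561033309) (nat_lit 329) (nat_lit 5) (nat_lit 340) (nat_lit 5) (nat_lit 330) (nat_lit 5) (nat_lit 586) (nat_lit 533) (nat_lit 441)))) (XT.nd (nat_lit 156) (nat_lit 684) (nat_lit 0) (XT.nd (nat_lit 78) (nat_lit 684) (nat_lit 0) (XT.lf (nat_lit 0) (nat_lit 2884979265) (nat_lit 760) (nat_lit 5667727616) (nat_lit 76) (nat_lit 1500296042) (nat_lit 320) (nat_lit 5) (nat_lit 330) (nat_lit 5) (nat_lit 321) (nat_lit 5) (nat_lit 587) (nat_lit 533) (nat_lit 440)) (XT.lf (nat_lit 0) (nat_lit 620450328) (nat_lit 684) (nat_lit 4703555636) (nat_lit 760) (nat_lit 4830674046) (nat_lit 311) (nat_lit 5) (nat_lit 320) (nat_lit 5) (nat_lit 321) (nat_lit 5) (nat_lit 588) (nat_lit 533) (nat_lit 439))) (XT.nd (nat_lit 78) (nat_lit 684) (nat_lit 0) (XT.lf (nat_lit 0) (nat_lit 7081946864) (nat_lit 684) (nat_lit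 743472168) (nat_lit 760) (nat_lit 2432701406) (nat_lit 311) (nat_lit 5) (nat_lit 320) (nat_lit 5) (nat_lit 321) (nat_lit 5) (nat_lit 589) (nat_lit 533) (nat_lit 438)) (XT.lf (nat_lit 0) (nat_lit 32036802) (nat_lit 684) (nat_lit 7061664978) (nat_lit 76) (nat_lit 3269548422) (nat_lit 302) (nat_lit 5) (nat_lit 311) (nat_lit 5) (nat_lit 303) (nat_lit 5) (nat_lit 590) (nat_lit 533) (nat_lit 437)))))) (XT.nd (nat_lit 546) (nat_lit 2888) (nat_lit 0) (XT.nd (nat_lit 234) (nat_lit 1292) (nat_lit 0) (XT.nd (nat_lit 78) (nat_lit 1292) (nat_lit 0) (XT.lf (nat_lit 0) (nat_lit 2516048915) (nat_lit 684) (nat_lit 568554249) (nat_lit 76) (nat_lit 7385508538) (nat_lit 302) (nat_lit 5) (nat_lit 311) (nat_lit 5) (nat_lit 303) (nat_lit 5) (nat_lit 591) (nat_lit 533) (nat_lit 436)) (XT.nd (nat_lit 78) (nat_lit 608) (nat_lit 0) (XT.lf (nat_lit 0) (nat_lit 5072746941) (nat_lit 760) (nat_lit 4479742462) (nat_lit 76) (nat_lit 1026162684) (nat_lit 293) (nat_lit 5) (nat_lit 303) (nat_lit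 5) (nat_lit 294) (nat_lit 5) (nat_lit 592) (nat_lit 533) (nat_lit 435)) (XT.lf (nat_lit 0) (nat_lit 2197569377) (nat_lit 608) (nat_lit 5498396176) (nat_lit 684) (nat_lit 2993091728) (nat_lit 285) (nat_lit 5) (nat_lit 293) (nat_lit 5) (nat_lit 294) (nat_lit 5) (nat_lit 593) (nat_lit 533) (nat_lit 434)))) (XT.nd (nat_lit 156) (nat_lit 608) (nat_lit 0) (XT.nd (nat_lit 78) (nat_lit 684) (nat_lit 0) (XT.lf (nat_lit 0) (nat_lit 9040400206) (nat_lit 608) (nat_lit 1338427154) (nat_lit 684) (nat_lit 422701341) (nat_lit 285) (nat_lit 5) (nat_lit 293) (nat_lit 5) (nat_lit 294) (nat_lit 5) (nat_lit 594) (nat_lit 533) (nat_lit 433)) (XT.lf (nat_lit 0) (nat_lit 2200103907) (nat_lit 684) (nat_lit 5806557888) (nat_lit 76) (nat_lit 2908706859) (nat_lit 276) (nat_lit 5) (nat_lit 285) (nat_lit 5) (nat_lit 277) (nat_lit 5) (nat_lit 595) (nat_lit 533) (nat_lit 432))) (XT.nd (nat_lit 78) (nat_lit 0) (nat_lit 0) (XT.lf (nat_lit 0) (nat_lit 1082517154) (nat_lit 608) (nat_lit 3792618090)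 (nat_lit 684) (nat_lit 6156187281) (nat_lit 268) (nat_lit 5) (nat_lit 276) (nat_lit 5) (nat_lit 277) (nat_lit 5) (nat_lit 596) (nat_lit 533) (nat_lit 431)) (XT.lf (nat_lit 0) (nat_lit 7624021513) (nat_lit 684) (nat_lit 2993198964) (nat_lit 76) (nat_lit 531969481) (nat_lit 268) (nat_lit 5) (nat_lit 277) (nat_lit 5) (nat_lit 269) (nat_lit 5) (nat_lit 597) (nat_lit 533) (nat_lit 430))))) (XT.nd (nat_lit 234) (nat_lit 1672) (nat_lit 0) (XT.nd (nat_lit 78) (nat_lit 608) (nat_lit 0) (XT.lf (nat_lit 0) (nat_lit 4101841957) (nat_lit 608) (nat_lit 6356074278) (nat_lit 684) (nat_lit 810899430) (nat_lit 260) (nat_lit 5) (nat_lit 268) (nat_lit 5) (nat_lit 269) (nat_lit 5) (nat_lit 598) (nat_lit 533) (nat_lit 429)) (XT.nd (nat_lit 78) (nat_lit 532) (nat_lit 0) (XT.lf (nat_lit 0) (nat_lit 1930580329) (nat_lit 684) (nat_lit 52377835) (nat_lit 76) (nat_lit 9407650986) (nat_lit 259) (nat_lit 5) (nat_lit 268) (nat_lit 5) (nat_lit 260) (nat_lit 5) (nat_lit 599) (nat_lit 533) (nat_lit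 428)) (XT.lf (nat_lit 0) (nat_lit 4758417203) (nat_lit 608) (nat_lit 4264063460) (nat_lit 76) (nat_lit 2491404382) (nat_lit 252) (nat_lit 5) (nat_lit 260) (nat_lit 5) (nat_lit 253) (nat_lit 5) (nat_lit 600) (nat_lit 533) (nat_lit 427)))) (XT.nd (nat_lit 156) (nat_lit 1140) (nat_lit 0) (XT.nd (nat_lit 78) (nat_lit 0) (nat_lit 0) (XT.lf (nat_lit 0) (nat_lit 3058033034) (nat_lit 532) (nat_lit 4597115575) (nat_lit 608) (nat_lit 3984232517) (nat_lit 245) (nat_lit 5) (nat_lit 252) (nat_lit 5) (nat_lit 253) (nat_lit 5) (nat_lit 601) (nat_lit 533) (nat_lit 426)) (XT.lf (nat_lit 0) (nat_lit 10556462117) (nat_lit 532) (nat_lit 61194282) (nat_lit 608) (nat_lit 1149575287) (nat_lit 245) (nat_lit 5) (nat_lit 252) (nat_lit 5) (nat_lit 253) (nat_lit 5) (nat_lit 602) (nat_lit 533) (nat_lit 425))) (XT.nd (nat_lit 78) (nat_lit 532) (nat_lit 0) (XT.lf (nat_lit 0) (nat_lit 1769612346) (nat_lit 608) (nat_lit 5575365787) (nat_lit 76) (nat_lit 4551422671) (nat_lit 237) (nat_lit 5) (nat_lit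 245) (nat_lit 5) (nat_lit 238) (nat_lit 5) (nat_lit 603) (nat_lit 533) (nat_lit 424)) (XT.lf (nat_lit 0) (nat_lit 1982004554) (nat_lit 532) (nat_lit 2750929074) (nat_lit 608) (nat_lit 7295046162) (nat_lit 230) (nat_lit 5) (nat_lit 237) (nat_lit 5) (nat_lit 238) (nat_lit 5) (nat_lit 604) (nat_lit 533) (nat_lit 423))))))))
noncomputable def xc109 : XT := (XT.nd (nat_lit 2106) (nat_lit 4180) (nat_lit 0) (XT.nd (nat_lit 1014) (nat_lit 3572) (nat_lit 0) (XT.nd (nat_lit 468) (nat_lit 2356) (nat_lit 0) (XT.nd (nat_lit 234) (nat_lit 456) (nat_lit 0) (XT.nd (nat_lit 78) (nat_lit 1064) (nat_lit 0) (XT.lf (nat_lit 0) (nat_lit 7785592161) (nat_lit 608) (nat_lit 2436141673) (nat_lit 76) (nat_lit 1939856393) (nat_lit 230) (nat_lit 5) (nat_lit 238) (nat_lit 5) (nat_lit 231) (nat_lit 5) (nat_lit 605) (nat_lit 533) (nat_lit 422)) (XT.nd (nat_lit 78) (nat_lit 608) (nat_lit 0) (XT.lf (nat_lit 0) (nat_lit 5350404396) (nat_lit 456) (nat_lit 5582097193) (nat_lit 532) (nat_lit 1364708593)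 (nat_lit 224) (nat_lit 5) (nat_lit 230) (nat_lit 5) (nat_lit 231) (nat_lit 5) (nat_lit 606) (nat_lit 533) (nat_lit 421)) (XT.lf (nat_lit 0) (nat_lit 863098217) (nat_lit 532) (nat_lit 823704290) (nat_lit 608) (nat_lit 10748471989) (nat_lit 216) (nat_lit 5) (nat_lit 223) (nat_lit 5) (nat_lit 224) (nat_lit 5) (nat_lit 607) (nat_lit 533) (nat_lit 420)))) (XT.nd (nat_lit 78) (nat_lit 456) (nat_lit 0) (XT.lf (nat_lit 0) (nat_lit 4834655735) (nat_lit 608) (nat_lit 3714991007) (nat_lit 76) (nat_lit 4025202424) (nat_lit 216) (nat_lit 5) (nat_lit 224) (nat_lit 5) (nat_lit 217) (nat_lit 5) (nat_lit 608) (nat_lit 533) (nat_lit 419)) (XT.nd (nat_lit 78) (nat_lit 0) (nat_lit 0) (XT.lf (nat_lit 0) (nat_lit 4323450215) (nat_lit 456) (nat_lit 3736402618) (nat_lit 532) (nat_lit 4657075927) (nat_lit 210) (nat_lit 5) (nat_lit 216) (nat_lit 5) (nat_lit 217) (nat_lit 5) (nat_lit 609) (nat_lit 533) (nat_lit 418)) (XT.lf (nat_lit 0) (nat_lit 11363274392) (nat_lit 532) (nat_lit 323400012)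 (nat_lit 76) (nat_lit 1174902275) (nat_lit 210) (nat_lit 5) (nat_lit 217) (nat_lit 5) (nat_lit 211) (nat_lit 5) (nat_lit 610) (nat_lit 533) (nat_lit 417))))) (XT.nd (nat_lit 234) (nat_lit 1368) (nat_lit 0) (XT.nd (nat_lit 78) (nat_lit 456) (nat_lit 0) (XT.lf (nat_lit 0) (nat_lit 1759236767) (nat_lit 532) (nat_lit 5058540650) (nat_lit 76) (nat_lit 6189953499) (nat_lit 203) (nat_lit 5) (nat_lit 210) (nat_lit 5) (nat_lit 204) (nat_lit 5) (nat_lit 611) (nat_lit 533) (nat_lit 416)) (XT.nd (nat_lit 78) (nat_lit 0) (nat_lit 0) (XT.lf (nat_lit 0) (nat_lit 3240593838) (nat_lit 456) (nat_lit 1825964972) (nat_lit 532) (nat_lit 8089958542) (nat_lit 197) (nat_lit 5) (nat_lit 203) (nat_lit 5) (nat_lit 204) (nat_lit 5) (nat_lit 612) (nat_lit 533) (nat_lit 415)) (XT.lf (nat_lit 0) (nat_lit 8476988535) (nat_lit 532) (nat_lit 1581707009) (nat_lit 76) (nat_lit 3248845804) (nat_lit 197) (nat_lit 5) (nat_lit 204) (nat_lit 5) (nat_lit 198) (nat_lit 5) (nat_lit 613) (nat_lit 533) (nat_lit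 414)))) (XT.nd (nat_lit 156) (nat_lit 456) (nat_lit 0) (XT.nd (nat_lit 78) (nat_lit 456) (nat_lit 0) (XT.lf (nat_lit 0) (nat_lit 6972110972) (nat_lit 456) (nat_lit 5022824937) (nat_lit 532) (nat_lit 1465864770) (nat_lit 191) (nat_lit 5) (nat_lit 197) (nat_lit 5) (nat_lit 198) (nat_lit 5) (nat_lit 614) (nat_lit 533) (nat_lit 413)) (XT.lf (nat_lit 0) (nat_lit 1947524192) (nat_lit 456) (nat_lit 11528068336) (nat_lit 76) (nat_lit 141134494) (nat_lit 185) (nat_lit 5) (nat_lit 191) (nat_lit 5) (nat_lit 186) (nat_lit 5) (nat_lit 615) (nat_lit 533) (nat_lit 412))) (XT.nd (nat_lit 78) (nat_lit 456) (nat_lit 0) (XT.lf (nat_lit 0) (nat_lit 5468805591) (nat_lit 456) (nat_lit 2919275371) (nat_lit 76) (nat_lit 5386313068) (nat_lit 185) (nat_lit 5) (nat_lit 191) (nat_lit 5) (nat_lit 186) (nat_lit 5) (nat_lit 616) (nat_lit 533) (nat_lit 411)) (XT.lf (nat_lit 0) (nat_lit 5913142976) (nat_lit 456) (nat_lit 3168251505) (nat_lit 532) (nat_lit 4853403218) (nat_lit 179) (nat_lit 5)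 (nat_lit 185) (nat_lit 5) (nat_lit 186) (nat_lit 5) (nat_lit 617) (nat_lit 533) (nat_lit 410)))))) (XT.nd (nat_lit 546) (nat_lit 1900) (nat_lit 0) (XT.nd (nat_lit 234) (nat_lit 836) (nat_lit 0) (XT.nd (nat_lit 78) (nat_lit 456) (nat_lit 0) (XT.lf (nat_lit 0) (nat_lit 834356052) (nat_lit 380) (nat_lit 11953622901) (nat_lit 456) (nat_lit 1309996549) (nat_lit 174) (nat_lit 5) (nat_lit 179) (nat_lit 5) (nat_lit 180) (nat_lit 5) (nat_lit 618) (nat_lit 533) (nat_lit 409)) (XT.nd (nat_lit 78) (nat_lit 380) (nat_lit 0) (XT.lf (nat_lit 0) (nat_lit 2331890950) (nat_lit 456) (nat_lit 4349698040) (nat_lit 76) (nat_lit 7581372880) (nat_lit 173) (nat_lit 5) (nat_lit 179) (nat_lit 5) (nat_lit 174) (nat_lit 5) (nat_lit 619) (nat_lit 533) (nat_lit 408)) (XT.lf (nat_lit 0) (nat_lit 4770628021) (nat_lit 380) (nat_lit 1272443598) (nat_lit 456) (nat_lit 8387724125) (nat_lit 168) (nat_lit 5) (nat_lit 173) (nat_lit 5) (nat_lit 174) (nat_lit 5) (nat_lit 620) (nat_lit 533) (nat_lit 407))))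 (XT.nd (nat_lit 156) (nat_lit 456) (nat_lit 0) (XT.nd (nat_lit 78) (nat_lit 380) (nat_lit 0) (XT.lf (nat_lit 0) (nat_lit 9868534465) (nat_lit 456) (nat_lit 522711432) (nat_lit 76) (nat_lit 4209940093) (nat_lit 168) (nat_lit 5) (nat_lit 174) (nat_lit 5) (nat_lit 169) (nat_lit 5) (nat_lit 621) (nat_lit 533) (nat_lit 406)) (XT.lf (nat_lit 0) (nat_lit 8880162617) (nat_lit 380) (nat_lit 4939873587) (nat_lit 456) (nat_lit 953958096) (nat_lit 163) (nat_lit 5) (nat_lit 168) (nat_lit 5) (nat_lit 169) (nat_lit 5) (nat_lit 622) (nat_lit 533) (nat_lit 405))) (XT.nd (nat_lit 78) (nat_lit 0) (nat_lit 0) (XT.lf (nat_lit 0) (nat_lit 2876490524) (nat_lit 456) (nat_lit 11423943763) (nat_lit 76) (nat_lit 649164302) (nat_lit 157) (nat_lit 5) (nat_lit 163) (nat_lit 5) (nat_lit 158) (nat_lit 5) (nat_lit 623) (nat_lit 533) (nat_lit 404)) (XT.lf (nat_lit 0) (nat_lit 6826913810) (nat_lit 456) (nat_lit 1979319605) (nat_lit 76) (nat_lit 6321233452) (nat_lit 157) (nat_lit 5) (nat_lit 163)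 (nat_lit 5) (nat_lit 158) (nat_lit 5) (nat_lit 624) (nat_lit 533) (nat_lit 403))))) (XT.nd (nat_lit 234) (nat_lit 1064) (nat_lit 0) (XT.nd (nat_lit 78) (nat_lit 456) (nat_lit 0) (XT.lf (nat_lit 0) (nat_lit 7730559976) (nat_lit 380) (nat_lit 3159899293) (nat_lit 456) (nat_lit 4417751753) (nat_lit 152) (nat_lit 5) (nat_lit 157) (nat_lit 5) (nat_lit 158) (nat_lit 5) (nat_lit 625) (nat_lit 533) (nat_lit 402)) (XT.nd (nat_lit 78) (nat_lit 76) (nat_lit 0) (XT.lf (nat_lit 0) (nat_lit 2155344576) (nat_lit 380) (nat_lit 12908189624) (nat_lit 456) (nat_lit 428471460) (nat_lit 147) (nat_lit 5) (nat_lit 152) (nat_lit 5) (nat_lit 153) (nat_lit 5) (nat_lit 626) (nat_lit 533) (nat_lit 401)) (XT.lf (nat_lit 0) (nat_lit 3649024036) (nat_lit 456) (nat_lit 3562811021) (nat_lit 76) (nat_lit 8466045595) (nat_lit 146) (nat_lit 5) (nat_lit 152) (nat_lit 5) (nat_lit 147) (nat_lit 5) (nat_lit 627) (nat_lit 533) (nat_lit 400)))) (XT.nd (nat_lit 156) (nat_lit 380) (nat_lit 0) (XT.nd (nat_lit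 78) (nat_lit 380) (nat_lit 0) (XT.lf (nat_lit 0) (nat_lit 6463776979) (nat_lit 304) (nat_lit 1364903585) (nat_lit 380) (nat_lit 8038209696) (nat_lit 142) (nat_lit 5) (nat_lit 146) (nat_lit 5) (nat_lit 147) (nat_lit 5) (nat_lit 628) (nat_lit 533) (nat_lit 399)) (XT.lf (nat_lit 0) (nat_lit 633516140) (nat_lit 380) (nat_lit 11500917900) (nat_lit 456) (nat_lit 3924396655) (nat_lit 137) (nat_lit 5) (nat_lit 142) (nat_lit 5) (nat_lit 143) (nat_lit 5) (nat_lit 629) (nat_lit 533) (nat_lit 398))) (XT.nd (nat_lit 78) (nat_lit 304) (nat_lit 0) (XT.lf (nat_lit 0) (nat_lit 325192842) (nat_lit 456) (nat_lit 5291037107) (nat_lit 76) (nat_lit 10637204123) (nat_lit 136) (nat_lit 5) (nat_lit 142) (nat_lit 5) (nat_lit 137) (nat_lit 5) (nat_lit 630) (nat_lit 533) (nat_lit 397)) (XT.lf (nat_lit 0) (nat_lit 4627789565) (nat_lit 380) (nat_lit 11391890479) (nat_lit 76) (nat_lit 431320075) (nat_lit 132) (nat_lit 5) (nat_lit 137) (nat_lit 5) (nat_lit 133) (nat_lit 5) (nat_lit 631) (nat_lit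 533) (nat_lit 396))))))) (XT.nd (nat_lit 1092) (nat_lit 1292) (nat_lit 0) (XT.nd (nat_lit 546) (nat_lit 1520) (nat_lit 0) (XT.nd (nat_lit 234) (nat_lit 684) (nat_lit 0) (XT.nd (nat_lit 78) (nat_lit 684) (nat_lit 0) (XT.lf (nat_lit 0) (nat_lit 9074264840) (nat_lit 380) (nat_lit 1025659389) (nat_lit 76) (nat_lit 6551437383) (nat_lit 132) (nat_lit 5) (nat_lit 137) (nat_lit 5) (nat_lit 133) (nat_lit 5) (nat_lit 632) (nat_lit 533) (nat_lit 395)) (XT.nd (nat_lit 78) (nat_lit 380) (nat_lit 0) (XT.lf (nat_lit 0) (nat_lit 9650539366) (nat_lit 304) (nat_lit 4006976449) (nat_lit 380) (nat_lit 3197258240) (nat_lit 128) (nat_lit 5) (nat_lit 132) (nat_lit 5) (nat_lit 133) (nat_lit 5) (nat_lit 633) (nat_lit 533) (nat_lit 394)) (XT.lf (nat_lit 0) (nat_lit 1282961577) (nat_lit 380) (nat_lit 13570548937) (nat_lit 76) (nat_lit 2207991052) (nat_lit 123) (nat_lit 5) (nat_lit 128) (nat_lit 5) (nat_lit 124) (nat_lit 5) (nat_lit 634) (nat_lit 533) (nat_lit 393)))) (XT.nd (nat_lit 156)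 (nat_lit 380) (nat_lit 0) (XT.nd (nat_lit 78) (nat_lit 304) (nat_lit 0) (XT.lf (nat_lit 0) (nat_lit 5870517504) (nat_lit 380) (nat_lit 2845769306) (nat_lit 76) (nat_lit 8554443888) (nat_lit 123) (nat_lit 5) (nat_lit 128) (nat_lit 5) (nat_lit 124) (nat_lit 5) (nat_lit 635) (nat_lit 533) (nat_lit 392)) (XT.lf (nat_lit 0) (nat_lit 8177181288) (nat_lit 304) (nat_lit 2411325484) (nat_lit 380) (nat_lit 6894864591) (nat_lit 119) (nat_lit 5) (nat_lit 123) (nat_lit 5) (nat_lit 124) (nat_lit 5) (nat_lit 636) (nat_lit 533) (nat_lit 391))) (XT.nd (nat_lit 78) (nat_lit 76) (nat_lit 0) (XT.lf (nat_lit 0) (nat_lit 1732133510) (nat_lit 304) (nat_lit 13710952074) (nat_lit 380) (nat_lit 2256335245) (nat_lit 115) (nat_lit 5) (nat_lit 119) (nat_lit 5) (nat_lit 120) (nat_lit 5) (nat_lit 637) (nat_lit 533) (nat_lit 390)) (XT.lf (nat_lit 0) (nat_lit 2507032852) (nat_lit 380) (nat_lit 4857299335) (nat_lit 76) (nat_lit 10553847720) (nat_lit 114) (nat_lit 5) (nat_lit 119) (nat_lit 5) (nat_lit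 115) (nat_lit 5) (nat_lit 638) (nat_lit 533) (nat_lit 389))))) (XT.nd (nat_lit 234) (nat_lit 988) (nat_lit 0) (XT.nd (nat_lit 78) (nat_lit 228) (nat_lit 0) (XT.lf (nat_lit 0) (nat_lit 6522274102) (nat_lit 304) (nat_lit 841533250) (nat_lit 380) (nat_lit 10776642049) (nat_lit 110) (nat_lit 5) (nat_lit 114) (nat_lit 5) (nat_lit 115) (nat_lit 5) (nat_lit 639) (nat_lit 533) (nat_lit 388)) (XT.nd (nat_lit 78) (nat_lit 228) (nat_lit 0) (XT.lf (nat_lit 0) (nat_lit 12374303767) (nat_lit 380) (nat_lit 232459620) (nat_lit 76) (nat_lit 5759269709) (nat_lit 110) (nat_lit 5) (nat_lit 115) (nat_lit 5) (nat_lit 111) (nat_lit 5) (nat_lit 640) (nat_lit 533) (nat_lit 387)) (XT.lf (nat_lit 0) (nat_lit 11503444697) (nat_lit 228) (nat_lit 6048142136) (nat_lit 304) (nat_lit 1043210627) (nat_lit 107) (nat_lit 5) (nat_lit 110) (nat_lit 5) (nat_lit 111) (nat_lit 5) (nat_lit 641) (nat_lit 533) (nat_lit 386)))) (XT.nd (nat_lit 156) (nat_lit 608) (nat_lit 0) (XT.nd (nat_lit 78) (nat_lit 0)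 (nat_lit 0) (XT.lf (nat_lit 0) (nat_lit 3974432412) (nat_lit 380) (nat_lit 14170359108) (nat_lit 76) (nat_lit 682372714) (nat_lit 102) (nat_lit 5) (nat_lit 107) (nat_lit 5) (nat_lit 103) (nat_lit 5) (nat_lit 642) (nat_lit 533) (nat_lit 385)) (XT.lf (nat_lit 0) (nat_lit 9152835767) (nat_lit 380) (nat_lit 2397368455) (nat_lit 76) (nat_lit 7512349186) (nat_lit 102) (nat_lit 5) (nat_lit 107) (nat_lit 5) (nat_lit 103) (nat_lit 5) (nat_lit 643) (nat_lit 533) (nat_lit 384))) (XT.nd (nat_lit 78) (nat_lit 380) (nat_lit 0) (XT.lf (nat_lit 0) (nat_lit 9716043564) (nat_lit 228) (nat_lit 4768520363) (nat_lit 304) (nat_lit 4817091792) (nat_lit 99) (nat_lit 5) (nat_lit 102) (nat_lit 5) (nat_lit 103) (nat_lit 5) (nat_lit 644) (nat_lit 533) (nat_lit 383)) (XT.lf (nat_lit 0) (nat_lit 406129701) (nat_lit 380) (nat_lit 16991600727) (nat_lit 76) (nat_lit 2147087259) (nat_lit 94) (nat_lit 5) (nat_lit 99) (nat_lit 5) (nat_lit 95) (nat_lit 5) (nat_lit 645) (nat_lit 533) (nat_lit 382))))))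 (XT.nd (nat_lit 546) (nat_lit 304) (nat_lit 0) (XT.nd (nat_lit 234) (nat_lit 532) (nat_lit 0) (XT.nd (nat_lit 78) (nat_lit 456) (nat_lit 0) (XT.lf (nat_lit 0) (nat_lit 5752463474) (nat_lit 380) (nat_lit 4813257208) (nat_lit 76) (nat_lit 9224822879) (nat_lit 94) (nat_lit 5) (nat_lit 99) (nat_lit 5) (nat_lit 95) (nat_lit 5) (nat_lit 646) (nat_lit 533) (nat_lit 381)) (XT.nd (nat_lit 78) (nat_lit 228) (nat_lit 0) (XT.lf (nat_lit 0) (nat_lit 7687364453) (nat_lit 228) (nat_lit 3555288896) (nat_lit 304) (nat_lit 8797792468) (nat_lit 91) (nat_lit 5) (nat_lit 94) (nat_lit 5) (nat_lit 95) (nat_lit 5) (nat_lit 647) (nat_lit 533) (nat_lit 380)) (XT.lf (nat_lit 0) (nat_lit 164986675) (nat_lit 228) (nat_lit 16721659201) (nat_lit 304) (nat_lit 3407820703) (nat_lit 88) (nat_lit 5) (nat_lit 91) (nat_lit 5) (nat_lit 92) (nat_lit 5) (nat_lit 648) (nat_lit 533) (nat_lit 379)))) (XT.nd (nat_lit 156) (nat_lit 228) (nat_lit 0) (XT.nd (nat_lit 78) (nat_lit 228) (nat_lit 0) (XT.lf (nat_lit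 0) (nat_lit 2156626129) (nat_lit 304) (nat_lit 7510897117) (nat_lit 76) (nat_lit 10883891838) (nat_lit 87) (nat_lit 5) (nat_lit 91) (nat_lit 5) (nat_lit 88) (nat_lit 5) (nat_lit 649) (nat_lit 533) (nat_lit 378)) (XT.lf (nat_lit 0) (nat_lit 5386378046) (nat_lit 228) (nat_lit 2422716839) (nat_lit 304) (nat_lit 13003510301) (nat_lit 84) (nat_lit 5) (nat_lit 87) (nat_lit 5) (nat_lit 88) (nat_lit 5) (nat_lit 650) (nat_lit 533) (nat_lit 377))) (XT.nd (nat_lit 78) (nat_lit 228) (nat_lit 0) (XT.lf (nat_lit 0) (nat_lit 13644995825) (nat_lit 304) (nat_lit 2488986427) (nat_lit 76) (nat_lit 4943629591) (nat_lit 84) (nat_lit 5) (nat_lit 88) (nat_lit 5) (nat_lit 85) (nat_lit 5) (nat_lit 651) (nat_lit 533) (nat_lit 376)) (XT.lf (nat_lit 0) (nat_lit 10811371699) (nat_lit 228) (nat_lit 8860127241) (nat_lit 304) (nat_lit 1674942410) (nat_lit 81) (nat_lit 5) (nat_lit 84) (nat_lit 5) (nat_lit 85) (nat_lit 5) (nat_lit 652) (nat_lit 533) (nat_lit 375))))) (XT.nd (nat_lit 71994) (nat_lit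 0) (nat_lit 45752) (XT.nd (nat_lit 78) (nat_lit 0) (nat_lit 0) (XT.lf (nat_lit 0) (nat_lit 2778841755) (nat_lit 228) (nat_lit 1386509948) (nat_lit 304) (nat_lit 17454300559) (nat_lit 77) (nat_lit 5) (nat_lit 80) (nat_lit 5) (nat_lit 81) (nat_lit 5) (nat_lit 653) (nat_lit 533) (nat_lit 374)) (XT.nd (nat_lit 71838) (nat_lit 0) (nat_lit 46664) (XT.lf (nat_lit 0) (nat_lit 10199414332) (nat_lit 304) (nat_lit 5468574140) (nat_lit 76) (nat_lit 6228130069) (nat_lit 77) (nat_lit 5) (nat_lit 81) (nat_lit 5) (nat_lit 78) (nat_lit 5) (nat_lit 654) (nat_lit 533) (nat_lit 373)) (XT.lf (nat_lit 0) (nat_lit 250918992) (nat_lit 988) (nat_lit 1578330907) (nat_lit 988) (nat_lit 1578330907) (nat_lit 691) (nat_lit 3) (nat_lit 704) (nat_lit 3) (nat_lit 704) (nat_lit 5) (nat_lit 534) (nat_lit 534) (nat_lit 492)))) (XT.nd (nat_lit 156) (nat_lit 912) (nat_lit 0) (XT.nd (nat_lit 78) (nat_lit 0) (nat_lit 0) (XT.lf (nat_lit 76) (nat_lit 220717729) (nat_lit 0) (nat_lit 2315361894) (nat_lit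 988) (nat_lit 4306384797) (nat_lit 692) (nat_lit 5) (nat_lit 691) (nat_lit 3) (nat_lit 704) (nat_lit 5) (nat_lit 535) (nat_lit 534) (nat_lit 491)) (XT.lf (nat_lit 76) (nat_lit 3680943503) (nat_lit 0) (nat_lit 897877299) (nat_lit 988) (nat_lit 2292143119) (nat_lit 692) (nat_lit 5) (nat_lit 691) (nat_lit 3) (nat_lit 704) (nat_lit 5) (nat_lit 536) (nat_lit 534) (nat_lit 490))) (XT.nd (nat_lit 78) (nat_lit 988) (nat_lit 0) (XT.lf (nat_lit 76) (nat_lit 282315639) (nat_lit 0) (nat_lit 6333334844) (nat_lit 988) (nat_lit 285325053) (nat_lit 693) (nat_lit 5) (nat_lit 692) (nat_lit 5) (nat_lit 705) (nat_lit 5) (nat_lit 537) (nat_lit 534) (nat_lit 489)) (XT.lf (nat_lit 0) (nat_lit 1714357551) (nat_lit 988) (nat_lit 3110022338) (nat_lit 1064) (nat_lit 2107468630) (nat_lit 679) (nat_lit 5) (nat_lit 692) (nat_lit 5) (nat_lit 693) (nat_lit 5) (nat_lit 538) (nat_lit 534) (nat_lit 488))))))))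
noncomputable def xc110 : XT := (XT.nd (nat_lit 2106) (nat_lit 15884) (nat_lit 0) (XT.nd (nat_lit 1014) (nat_lit 10260) (nat_lit 0) (XT.nd (nat_lit 468) (nat_lit 2204) (nat_lit 0) (XT.nd (nat_lit 234) (nat_lit 0) (nat_lit 0) (XT.nd (nat_lit 78) (nat_lit 988) (nat_lit 0) (XT.lf (nat_lit 76) (nat_lit 444614469) (nat_lit 0) (nat_lit 3257839702) (nat_lit 1064) (nat_lit 3261808660) (nat_lit 680) (nat_lit 5) (nat_lit 679) (nat_lit 5) (nat_lit 693) (nat_lit 5) (nat_lit 539) (nat_lit 534) (nat_lit 487)) (XT.nd (nat_lit 78) (nat_lit 988) (nat_lit 0) (XT.lf (nat_lit 76) (nat_lit 4084571021) (nat_lit 0) (nat_lit 1616773936) (nat_lit 1064) (nat_lit 1296566106) (nat_lit 680) (nat_lit 5) (nat_lit 679) (nat_lit 5) (nat_lit 693) (nat_lit 5) (nat_lit 540) (nat_lit 534) (nat_lit 486)) (XT.lf (nat_lit 0) (nat_lit 654895159) (nat_lit 1064) (nat_lit 6291414822) (nat_lit 1140) (nat_lit 86712400) (nat_lit 666) (nat_lit 5) (nat_lit 680) (nat_lit 5) (nat_lit 681) (nat_lit 5) (nat_lit 541)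 (nat_lit 534) (nat_lit 485)))) (XT.nd (nat_lit 78) (nat_lit 0) (nat_lit 0) (XT.lf (nat_lit 0) (nat_lit 2610154444) (nat_lit 1064) (nat_lit 2607688065) (nat_lit 1140) (nat_lit 1851185332) (nat_lit 666) (nat_lit 5) (nat_lit 680) (nat_lit 5) (nat_lit 681) (nat_lit 5) (nat_lit 542) (nat_lit 534) (nat_lit 484)) (XT.nd (nat_lit 78) (nat_lit 0) (nat_lit 0) (XT.lf (nat_lit 76) (nat_lit 1136217637) (nat_lit 0) (nat_lit 3428351843) (nat_lit 1140) (nat_lit 2541988719) (nat_lit 667) (nat_lit 5) (nat_lit 666) (nat_lit 5) (nat_lit 681) (nat_lit 5) (nat_lit 543) (nat_lit 534) (nat_lit 483)) (XT.lf (nat_lit 76) (nat_lit 4962138887) (nat_lit 0) (nat_lit 1566851187) (nat_lit 1140) (nat_lit 616436434) (nat_lit 667) (nat_lit 5) (nat_lit 666) (nat_lit 5) (nat_lit 681) (nat_lit 5) (nat_lit 544) (nat_lit 534) (nat_lit 482))))) (XT.nd (nat_lit 234) (nat_lit 1140) (nat_lit 0) (XT.nd (nat_lit 78) (nat_lit 0) (nat_lit 0) (XT.lf (nat_lit 0) (nat_lit 1297181281) (nat_lit 1140) (nat_lit 5523694654)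 (nat_lit 1216) (nat_lit 364682147) (nat_lit 652) (nat_lit 5) (nat_lit 667) (nat_lit 5) (nat_lit 668) (nat_lit 5) (nat_lit 545) (nat_lit 534) (nat_lit 481)) (XT.nd (nat_lit 78) (nat_lit 0) (nat_lit 0) (XT.lf (nat_lit 0) (nat_lit 3220803843) (nat_lit 1140) (nat_lit 1656352366) (nat_lit 1216) (nat_lit 2349660214) (nat_lit 652) (nat_lit 5) (nat_lit 667) (nat_lit 5) (nat_lit 668) (nat_lit 5) (nat_lit 546) (nat_lit 534) (nat_lit 480)) (XT.lf (nat_lit 76) (nat_lit 2289829318) (nat_lit 0) (nat_lit 2863676167) (nat_lit 1216) (nat_lit 2115987569) (nat_lit 653) (nat_lit 5) (nat_lit 652) (nat_lit 5) (nat_lit 668) (nat_lit 5) (nat_lit 547) (nat_lit 534) (nat_lit 479)))) (XT.nd (nat_lit 156) (nat_lit 0) (nat_lit 0) (XT.nd (nat_lit 78) (nat_lit 1140) (nat_lit 0) (XT.lf (nat_lit 76) (nat_lit 6309035712) (nat_lit 0) (nat_lit 783363757) (nat_lit 1216) (nat_lit 221278134) (nat_lit 653) (nat_lit 5) (nat_lit 652) (nat_lit 5) (nat_lit 668) (nat_lit 5) (nat_lit 548) (nat_lit 534) (nat_lit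 478)) (XT.lf (nat_lit 0) (nat_lit 1674666812) (nat_lit 1216) (nat_lit 4317579158) (nat_lit 1292) (nat_lit 1366566890) (nat_lit 637) (nat_lit 5) (nat_lit 653) (nat_lit 5) (nat_lit 654) (nat_lit 5) (nat_lit 549) (nat_lit 534) (nat_lit 477))) (XT.nd (nat_lit 78) (nat_lit 0) (nat_lit 0) (XT.lf (nat_lit 0) (nat_lit 3575286825) (nat_lit 1216) (nat_lit 258897905) (nat_lit 1292) (nat_lit 3571247311) (nat_lit 637) (nat_lit 5) (nat_lit 653) (nat_lit 5) (nat_lit 654) (nat_lit 5) (nat_lit 550) (nat_lit 534) (nat_lit 476)) (XT.lf (nat_lit 76) (nat_lit 3903595481) (nat_lit 0) (nat_lit 1594239225) (nat_lit 1292) (nat_lit 1955475352) (nat_lit 638) (nat_lit 5) (nat_lit 637) (nat_lit 5) (nat_lit 654) (nat_lit 5) (nat_lit 551) (nat_lit 534) (nat_lit 475)))))) (XT.nd (nat_lit 546) (nat_lit 6384) (nat_lit 0) (XT.nd (nat_lit 234) (nat_lit 2660) (nat_lit 0) (XT.nd (nat_lit 78) (nat_lit 1292) (nat_lit 0) (XT.lf (nat_lit 76) (nat_lit 625170407) (nat_lit 0) (nat_lit 6803233812) (nat_lit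 1292) (nat_lit 74354668) (nat_lit 639) (nat_lit 5) (nat_lit 638) (nat_lit 5) (nat_lit 655) (nat_lit 5) (nat_lit 552) (nat_lit 534) (nat_lit 474)) (XT.nd (nat_lit 78) (nat_lit 0) (nat_lit 0) (XT.lf (nat_lit 0) (nat_lit 1814354103) (nat_lit 1292) (nat_lit 2673360416) (nat_lit 1368) (nat_lit 3065364057) (nat_lit 621) (nat_lit 5) (nat_lit 638) (nat_lit 5) (nat_lit 639) (nat_lit 5) (nat_lit 553) (nat_lit 534) (nat_lit 473)) (XT.lf (nat_lit 76) (nat_lit 1606490065) (nat_lit 0) (nat_lit 2104193570) (nat_lit 1368) (nat_lit 3894298747) (nat_lit 622) (nat_lit 5) (nat_lit 621) (nat_lit 5) (nat_lit 639) (nat_lit 5) (nat_lit 554) (nat_lit 534) (nat_lit 472)))) (XT.nd (nat_lit 156) (nat_lit 1444) (nat_lit 0) (XT.nd (nat_lit 78) (nat_lit 1292) (nat_lit 0) (XT.lf (nat_lit 0) (nat_lit 5626187041) (nat_lit 1292) (nat_lit 1681330020) (nat_lit 76) (nat_lit 350786568) (nat_lit 622) (nat_lit 5) (nat_lit 639) (nat_lit 5) (nat_lit 623) (nat_lit 5) (nat_lit 555) (nat_lit 534) (nat_lit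 471)) (XT.lf (nat_lit 0) (nat_lit 2714728622) (nat_lit 1292) (nat_lit 4858661919) (nat_lit 1368) (nat_lit 139437186) (nat_lit 605) (nat_lit 5) (nat_lit 622) (nat_lit 5) (nat_lit 623) (nat_lit 5) (nat_lit 556) (nat_lit 534) (nat_lit 470))) (XT.nd (nat_lit 78) (nat_lit 1368) (nat_lit 0) (XT.lf (nat_lit 0) (nat_lit 1741099228) (nat_lit 1368) (nat_lit 587852739) (nat_lit 76) (nat_lit 5439791943) (nat_lit 604) (nat_lit 5) (nat_lit 622) (nat_lit 5) (nat_lit 605) (nat_lit 5) (nat_lit 557) (nat_lit 534) (nat_lit 469)) (XT.lf (nat_lit 0) (nat_lit 3647652640) (nat_lit 1444) (nat_lit 3895461939) (nat_lit 76) (nat_lit 282843920) (nat_lit 586) (nat_lit 5) (nat_lit 605) (nat_lit 5) (nat_lit 587) (nat_lit 5) (nat_lit 558) (nat_lit 534) (nat_lit 468))))) (XT.nd (nat_lit 234) (nat_lit 3344) (nat_lit 0) (XT.nd (nat_lit 78) (nat_lit 1596) (nat_lit 0) (XT.lf (nat_lit 0) (nat_lit 626255019) (nat_lit 1444) (nat_lit 4953014807) (nat_lit 1520) (nat_lit 2305312804) (nat_lit 567) (nat_lit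 5) (nat_lit 586) (nat_lit 5) (nat_lit 587) (nat_lit 5) (nat_lit 559) (nat_lit 534) (nat_lit 467)) (XT.nd (nat_lit 78) (nat_lit 1596) (nat_lit 0) (XT.lf (nat_lit 0) (nat_lit 5261952449) (nat_lit 1444) (nat_lit 2277705972) (nat_lit 1520) (nat_lit 404921870) (nat_lit 567) (nat_lit 5) (nat_lit 586) (nat_lit 5) (nat_lit 587) (nat_lit 5) (nat_lit 560) (nat_lit 534) (nat_lit 466)) (XT.lf (nat_lit 0) (nat_lit 1493752102) (nat_lit 1596) (nat_lit 6037834365) (nat_lit 76) (nat_lit 474388250) (nat_lit 546) (nat_lit 5) (nat_lit 567) (nat_lit 5) (nat_lit 547) (nat_lit 5) (nat_lit 561) (nat_lit 534) (nat_lit 465)))) (XT.nd (nat_lit 156) (nat_lit 1748) (nat_lit 0) (XT.nd (nat_lit 78) (nat_lit 1596) (nat_lit 0) (XT.lf (nat_lit 0) (nat_lit 3423202819) (nat_lit 1596) (nat_lit 1367545986) (nat_lit 76) (nat_lit 3277833798) (nat_lit 546) (nat_lit 5) (nat_lit 567) (nat_lit 5) (nat_lit 547) (nat_lit 5) (nat_lit 562) (nat_lit 534) (nat_lit 464)) (XT.lf (nat_lit 0) (nat_lit 3411764988)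 (nat_lit 1596) (nat_lit 1967329881) (nat_lit 1672) (nat_lit 2753594269) (nat_lit 525) (nat_lit 5) (nat_lit 546) (nat_lit 5) (nat_lit 547) (nat_lit 5) (nat_lit 563) (nat_lit 534) (nat_lit 463))) (XT.nd (nat_lit 78) (nat_lit 76) (nat_lit 0) (XT.lf (nat_lit 0) (nat_lit 72623261) (nat_lit 1672) (nat_lit 7283332866) (nat_lit 1748) (nat_lit 842488117) (nat_lit 503) (nat_lit 5) (nat_lit 525) (nat_lit 5) (nat_lit 526) (nat_lit 5) (nat_lit 564) (nat_lit 534) (nat_lit 462)) (XT.lf (nat_lit 0) (nat_lit 1103706516) (nat_lit 1748) (nat_lit 3289173490) (nat_lit 76) (nat_lit 3872266395) (nat_lit 502) (nat_lit 5) (nat_lit 525) (nat_lit 5) (nat_lit 503) (nat_lit 5) (nat_lit 565) (nat_lit 534) (nat_lit 461))))))) (XT.nd (nat_lit 1014) (nat_lit 6688) (nat_lit 0) (XT.nd (nat_lit 468) (nat_lit 3572) (nat_lit 0) (XT.nd (nat_lit 234) (nat_lit 2052) (nat_lit 0) (XT.nd (nat_lit 78) (nat_lit 1824) (nat_lit 0) (XT.lf (nat_lit 0) (nat_lit 1630697977) (nat_lit 1748) (nat_lit 1424566233) (nat_lit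 1824) (nat_lit 5278255880) (nat_lit 479) (nat_lit 5) (nat_lit 502) (nat_lit 5) (nat_lit 503) (nat_lit 5) (nat_lit 566) (nat_lit 534) (nat_lit 460)) (XT.nd (nat_lit 78) (nat_lit 1824) (nat_lit 0) (XT.lf (nat_lit 0) (nat_lit 5046078757) (nat_lit 1824) (nat_lit 1749618656) (nat_lit 76) (nat_lit 1607562530) (nat_lit 479) (nat_lit 5) (nat_lit 503) (nat_lit 5) (nat_lit 480) (nat_lit 5) (nat_lit 567) (nat_lit 534) (nat_lit 459)) (XT.lf (nat_lit 0) (nat_lit 3307379096) (nat_lit 1824) (nat_lit 3768472686) (nat_lit 1900) (nat_lit 1398563107) (nat_lit 455) (nat_lit 5) (nat_lit 479) (nat_lit 5) (nat_lit 480) (nat_lit 5) (nat_lit 568) (nat_lit 534) (nat_lit 458)))) (XT.nd (nat_lit 78) (nat_lit 1976) (nat_lit 0) (XT.lf (nat_lit 0) (nat_lit 571645160) (nat_lit 1900) (nat_lit 90935543) (nat_lit 76) (nat_lit 7884731902) (nat_lit 454) (nat_lit 5) (nat_lit 479) (nat_lit 5) (nat_lit 455) (nat_lit 5) (nat_lit 569) (nat_lit 534) (nat_lit 457)) (XT.nd (nat_lit 78) (nat_lit 912) (nat_lit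 0) (XT.lf (nat_lit 0) (nat_lit 2581400767) (nat_lit 1140) (nat_lit 3522349479) (nat_lit 76) (nat_lit 2517358699) (nat_lit 440) (nat_lit 5) (nat_lit 455) (nat_lit 5) (nat_lit 441) (nat_lit 5) (nat_lit 570) (nat_lit 534) (nat_lit 456)) (XT.lf (nat_lit 0) (nat_lit 1685525943) (nat_lit 912) (nat_lit 2931279996) (nat_lit 988) (nat_lit 4079869086) (nat_lit 428) (nat_lit 5) (nat_lit 440) (nat_lit 5) (nat_lit 441) (nat_lit 5) (nat_lit 571) (nat_lit 534) (nat_lit 455))))) (XT.nd (nat_lit 234) (nat_lit 1748) (nat_lit 0) (XT.nd (nat_lit 78) (nat_lit 1824) (nat_lit 0) (XT.lf (nat_lit 0) (nat_lit 6688614389) (nat_lit 988) (nat_lit 1759827026) (nat_lit 76) (nat_lit 325399951) (nat_lit 428) (nat_lit 5) (nat_lit 441) (nat_lit 5) (nat_lit 429) (nat_lit 5) (nat_lit 572) (nat_lit 534) (nat_lit 454)) (XT.nd (nat_lit 78) (nat_lit 912) (nat_lit 0) (XT.lf (nat_lit 0) (nat_lit 3595124306) (nat_lit 912) (nat_lit 5220002709) (nat_lit 988) (nat_lit 37161448) (nat_lit 416) (nat_lit 5) (nat_lit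 428) (nat_lit 5) (nat_lit 429) (nat_lit 5) (nat_lit 573) (nat_lit 534) (nat_lit 453)) (XT.lf (nat_lit 0) (nat_lit 107636981) (nat_lit 836) (nat_lit 1900612729) (nat_lit 912) (nat_lit 6924125132) (nat_lit 404) (nat_lit 5) (nat_lit 415) (nat_lit 5) (nat_lit 416) (nat_lit 5) (nat_lit 574) (nat_lit 534) (nat_lit 452)))) (XT.nd (nat_lit 156) (nat_lit 912) (nat_lit 0) (XT.nd (nat_lit 78) (nat_lit 836) (nat_lit 0) (XT.lf (nat_lit 0) (nat_lit 4110318689) (nat_lit 912) (nat_lit 3402205316) (nat_lit 76) (nat_lit 1501211716) (nat_lit 404) (nat_lit 5) (nat_lit 416) (nat_lit 5) (nat_lit 405) (nat_lit 5) (nat_lit 575) (nat_lit 534) (nat_lit 451)) (XT.lf (nat_lit 0) (nat_lit 2114787736) (nat_lit 836) (nat_lit 4137617652) (nat_lit 912) (nat_lit 2844361478) (nat_lit 393) (nat_lit 5) (nat_lit 404) (nat_lit 5) (nat_lit 405) (nat_lit 5) (nat_lit 576) (nat_lit 534) (nat_lit 450))) (XT.nd (nat_lit 78) (nat_lit 912) (nat_lit 0) (XT.lf (nat_lit 0) (nat_lit 7759291016) (nat_lit 836) (nat_lit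 672900053) (nat_lit 912) (nat_lit 749372945) (nat_lit 393) (nat_lit 5) (nat_lit 404) (nat_lit 5) (nat_lit 405) (nat_lit 5) (nat_lit 577) (nat_lit 534) (nat_lit 449)) (XT.lf (nat_lit 0) (nat_lit 1388223980) (nat_lit 912) (nat_lit 5019859773) (nat_lit 76) (nat_lit 2859417485) (nat_lit 381) (nat_lit 5) (nat_lit 393) (nat_lit 5) (nat_lit 382) (nat_lit 5) (nat_lit 578) (nat_lit 534) (nat_lit 448)))))) (XT.nd (nat_lit 546) (nat_lit 3572) (nat_lit 0) (XT.nd (nat_lit 234) (nat_lit 1520) (nat_lit 0) (XT.nd (nat_lit 78) (nat_lit 760) (nat_lit 0) (XT.lf (nat_lit 0) (nat_lit 665412985) (nat_lit 836) (nat_lit 2884257663) (nat_lit 912) (nat_lit 5805567232) (nat_lit 370) (nat_lit 5) (nat_lit 381) (nat_lit 5) (nat_lit 382) (nat_lit 5) (nat_lit 579) (nat_lit 534) (nat_lit 447)) (XT.nd (nat_lit 78) (nat_lit 760) (nat_lit 0) (XT.lf (nat_lit 0) (nat_lit 5765937757) (nat_lit 912) (nat_lit 2945887207) (nat_lit 76) (nat_lit 732674793) (nat_lit 370) (nat_lit 5) (nat_lit 382) (nat_lit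 5) (nat_lit 371) (nat_lit 5) (nat_lit 580) (nat_lit 534) (nat_lit 446)) (XT.lf (nat_lit 0) (nat_lit 2903044075) (nat_lit 760) (nat_lit 5135036095) (nat_lit 836) (nat_lit 1497237993) (nat_lit 360) (nat_lit 5) (nat_lit 370) (nat_lit 5) (nat_lit 371) (nat_lit 5) (nat_lit 581) (nat_lit 534) (nat_lit 445)))) (XT.nd (nat_lit 156) (nat_lit 684) (nat_lit 0) (XT.nd (nat_lit 78) (nat_lit 760) (nat_lit 0) (XT.lf (nat_lit 0) (nat_lit 711824871) (nat_lit 836) (nat_lit 752546173) (nat_lit 76) (nat_lit 8163616464) (nat_lit 359) (nat_lit 5) (nat_lit 370) (nat_lit 5) (nat_lit 360) (nat_lit 5) (nat_lit 582) (nat_lit 534) (nat_lit 444)) (XT.lf (nat_lit 0) (nat_lit 2968640276) (nat_lit 836) (nat_lit 4461618685) (nat_lit 76) (nat_lit 2291583114) (nat_lit 349) (nat_lit 5) (nat_lit 360) (nat_lit 5) (nat_lit 350) (nat_lit 5) (nat_lit 583) (nat_lit 534) (nat_lit 443))) (XT.nd (nat_lit 78) (nat_lit 0) (nat_lit 0) (XT.lf (nat_lit 0) (nat_lit 1568055940) (nat_lit 684) (nat_lit 3702072242)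 (nat_lit 760) (nat_lit 4547456942) (nat_lit 340) (nat_lit 5) (nat_lit 349) (nat_lit 5) (nat_lit 350) (nat_lit 5) (nat_lit 584) (nat_lit 534) (nat_lit 442)) (XT.lf (nat_lit 0) (nat_lit 7623302354) (nat_lit 760) (nat_lit 2165741148) (nat_lit 76) (nat_lit 126088473) (nat_lit 340) (nat_lit 5) (nat_lit 350) (nat_lit 5) (nat_lit 341) (nat_lit 5) (nat_lit 585) (nat_lit 534) (nat_lit 441))))) (XT.nd (nat_lit 234) (nat_lit 2052) (nat_lit 0) (XT.nd (nat_lit 78) (nat_lit 684) (nat_lit 0) (XT.lf (nat_lit 0) (nat_lit 35067355) (nat_lit 836) (nat_lit 5974631193) (nat_lit 76) (nat_lit 4004406571) (nat_lit 329) (nat_lit 5) (nat_lit 340) (nat_lit 5) (nat_lit 330) (nat_lit 5) (nat_lit 586) (nat_lit 534) (nat_lit 440)) (XT.nd (nat_lit 78) (nat_lit 0) (nat_lit 0) (XT.lf (nat_lit 0) (nat_lit 242674069) (nat_lit 684) (nat_lit 2126868326) (nat_lit 760) (nat_lit 7745379747) (nat_lit 320) (nat_lit 5) (nat_lit 329) (nat_lit 5) (nat_lit 330) (nat_lit 5) (nat_lit 587) (nat_lit 534) (nat_lit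 439)) (XT.lf (nat_lit 0) (nat_lit 4778732896) (nat_lit 760) (nat_lit 3592699690) (nat_lit 76) (nat_lit 1845764315) (nat_lit 320) (nat_lit 5) (nat_lit 330) (nat_lit 5) (nat_lit 321) (nat_lit 5) (nat_lit 588) (nat_lit 534) (nat_lit 438)))) (XT.nd (nat_lit 156) (nat_lit 1368) (nat_lit 0) (XT.nd (nat_lit 78) (nat_lit 0) (nat_lit 0) (XT.lf (nat_lit 0) (nat_lit 2806844560) (nat_lit 684) (nat_lit 4437809464) (nat_lit 760) (nat_lit 3076694072) (nat_lit 311) (nat_lit 5) (nat_lit 320) (nat_lit 5) (nat_lit 321) (nat_lit 5) (nat_lit 589) (nat_lit 534) (nat_lit 437)) (XT.lf (nat_lit 0) (nat_lit 9354943865) (nat_lit 684) (nat_lit 405579568) (nat_lit 760) (nat_lit 667048125) (nat_lit 311) (nat_lit 5) (nat_lit 320) (nat_lit 5) (nat_lit 321) (nat_lit 5) (nat_lit 590) (nat_lit 534) (nat_lit 436))) (XT.nd (nat_lit 78) (nat_lit 684) (nat_lit 0) (XT.lf (nat_lit 0) (nat_lit 1804397303) (nat_lit 684) (nat_lit 5028682079) (nat_lit 76) (nat_lit 3701867474) (nat_lit 302) (nat_lit 5) (nat_lit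 311) (nat_lit 5) (nat_lit 303) (nat_lit 5) (nat_lit 591) (nat_lit 534) (nat_lit 435)) (XT.lf (nat_lit 0) (nat_lit 1572279908) (nat_lit 684) (nat_lit 2741278431) (nat_lit 760) (nat_lit 6330880500) (nat_lit 293) (nat_lit 5) (nat_lit 302) (nat_lit 5) (nat_lit 303) (nat_lit 5) (nat_lit 592) (nat_lit 534) (nat_lit 434))))))))
noncomputable def xc111 : XT := (XT.nd (nat_lit 2106) (nat_lit 6080) (nat_lit 0) (XT.nd (nat_lit 1014) (nat_lit 4256) (nat_lit 0) (XT.nd (nat_lit 468) (nat_lit 2888) (nat_lit 0) (XT.nd (nat_lit 234) (nat_lit 608) (nat_lit 0) (XT.nd (nat_lit 78) (nat_lit 1292) (nat_lit 0) (XT.lf (nat_lit 0) (nat_lit 6893475064) (nat_lit 760) (nat_lit 2419917072) (nat_lit 76) (nat_lit 1442318775) (nat_lit 293) (nat_lit 5) (nat_lit 303) (nat_lit 5) (nat_lit 294) (nat_lit 5) (nat_lit 593) (nat_lit 534) (nat_lit 433)) (XT.nd (nat_lit 78) (nat_lit 684) (nat_lit 0) (XT.lf (nat_lit 0) (nat_lit 4376800082) (nat_lit 608) (nat_lit 5172510377) (nat_lit 684) (nat_lit 1319413226)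 (nat_lit 285) (nat_lit 5) (nat_lit 293) (nat_lit 5) (nat_lit 294) (nat_lit 5) (nat_lit 594) (nat_lit 534) (nat_lit 432)) (XT.lf (nat_lit 0) (nat_lit 326553404) (nat_lit 608) (nat_lit 927325561) (nat_lit 684) (nat_lit 9730027376) (nat_lit 276) (nat_lit 5) (nat_lit 284) (nat_lit 5) (nat_lit 285) (nat_lit 5) (nat_lit 595) (nat_lit 534) (nat_lit 431)))) (XT.nd (nat_lit 78) (nat_lit 608) (nat_lit 0) (XT.lf (nat_lit 0) (nat_lit 3905006929) (nat_lit 684) (nat_lit 3790389268) (nat_lit 76) (nat_lit 3404942861) (nat_lit 276) (nat_lit 5) (nat_lit 285) (nat_lit 5) (nat_lit 277) (nat_lit 5) (nat_lit 596) (nat_lit 534) (nat_lit 430)) (XT.nd (nat_lit 78) (nat_lit 0) (nat_lit 0) (XT.lf (nat_lit 0) (nat_lit 3222438986) (nat_lit 608) (nat_lit 3392286446) (nat_lit 684) (nat_lit 4604265177) (nat_lit 268) (nat_lit 5) (nat_lit 276) (nat_lit 5) (nat_lit 277) (nat_lit 5) (nat_lit 597) (nat_lit 534) (nat_lit 429)) (XT.lf (nat_lit 0) (nat_lit 9389422714) (nat_lit 684) (nat_lit 947045146)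 (nat_lit 76) (nat_lit 1003333152) (nat_lit 268) (nat_lit 5) (nat_lit 277) (nat_lit 5) (nat_lit 269) (nat_lit 5) (nat_lit 598) (nat_lit 534) (nat_lit 428))))) (XT.nd (nat_lit 234) (nat_lit 1672) (nat_lit 0) (XT.nd (nat_lit 78) (nat_lit 532) (nat_lit 0) (XT.lf (nat_lit 0) (nat_lit 789281681) (nat_lit 684) (nat_lit 5191333749) (nat_lit 76) (nat_lit 5481463036) (nat_lit 259) (nat_lit 5) (nat_lit 268) (nat_lit 5) (nat_lit 260) (nat_lit 5) (nat_lit 599) (nat_lit 534) (nat_lit 427)) (XT.nd (nat_lit 78) (nat_lit 0) (nat_lit 0) (XT.lf (nat_lit 0) (nat_lit 2045568527) (nat_lit 532) (nat_lit 1510974504) (nat_lit 608) (nat_lit 8030023545) (nat_lit 252) (nat_lit 5) (nat_lit 259) (nat_lit 5) (nat_lit 260) (nat_lit 5) (nat_lit 600) (nat_lit 534) (nat_lit 426)) (XT.lf (nat_lit 0) (nat_lit 6413415774) (nat_lit 608) (nat_lit 2262833504) (nat_lit 76) (nat_lit 3036611241) (nat_lit 252) (nat_lit 5) (nat_lit 260) (nat_lit 5) (nat_lit 253) (nat_lit 5) (nat_lit 601) (nat_lit 534) (nat_lit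 425)))) (XT.nd (nat_lit 156) (nat_lit 532) (nat_lit 0) (XT.nd (nat_lit 78) (nat_lit 608) (nat_lit 0) (XT.lf (nat_lit 0) (nat_lit 5191977873) (nat_lit 532) (nat_lit 4158976918) (nat_lit 608) (nat_lit 2490256341) (nat_lit 245) (nat_lit 5) (nat_lit 252) (nat_lit 5) (nat_lit 253) (nat_lit 5) (nat_lit 602) (nat_lit 534) (nat_lit 424)) (XT.lf (nat_lit 0) (nat_lit 373831273) (nat_lit 608) (nat_lit 11139021486) (nat_lit 76) (nat_lit 459155898) (nat_lit 237) (nat_lit 5) (nat_lit 245) (nat_lit 5) (nat_lit 238) (nat_lit 5) (nat_lit 603) (nat_lit 534) (nat_lit 423))) (XT.nd (nat_lit 78) (nat_lit 532) (nat_lit 0) (XT.lf (nat_lit 0) (nat_lit 3314419898) (nat_lit 608) (nat_lit 3621145215) (nat_lit 76) (nat_lit 5168477822) (nat_lit 237) (nat_lit 5) (nat_lit 245) (nat_lit 5) (nat_lit 238) (nat_lit 5) (nat_lit 604) (nat_lit 534) (nat_lit 422)) (XT.lf (nat_lit 0) (nat_lit 4073782218) (nat_lit 532) (nat_lit 2246952848) (nat_lit 608) (nat_lit 5917845799) (nat_lit 230) (nat_lit 5) (nat_lit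 237) (nat_lit 5) (nat_lit 238) (nat_lit 5) (nat_lit 605) (nat_lit 534) (nat_lit 421)))))) (XT.nd (nat_lit 546) (nat_lit 2204) (nat_lit 0) (XT.nd (nat_lit 234) (nat_lit 988) (nat_lit 0) (XT.nd (nat_lit 78) (nat_lit 1064) (nat_lit 0) (XT.lf (nat_lit 0) (nat_lit 9408727662) (nat_lit 608) (nat_lit 447152026) (nat_lit 76) (nat_lit 2519500080) (nat_lit 230) (nat_lit 5) (nat_lit 238) (nat_lit 5) (nat_lit 231) (nat_lit 5) (nat_lit 606) (nat_lit 534) (nat_lit 420)) (XT.nd (nat_lit 78) (nat_lit 532) (nat_lit 0) (XT.lf (nat_lit 0) (nat_lit 87752660) (nat_lit 532) (nat_lit 5032884919) (nat_lit 76) (nat_lit 7393377434) (nat_lit 223) (nat_lit 5) (nat_lit 230) (nat_lit 5) (nat_lit 224) (nat_lit 5) (nat_lit 607) (nat_lit 534) (nat_lit 419)) (XT.lf (nat_lit 0) (nat_lit 2910733181) (nat_lit 532) (nat_lit 255830119) (nat_lit 608) (nat_lit 9488407811) (nat_lit 216) (nat_lit 5) (nat_lit 223) (nat_lit 5) (nat_lit 224) (nat_lit 5) (nat_lit 608) (nat_lit 534) (nat_lit 418)))) (XT.nd (nat_lit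 156) (nat_lit 532) (nat_lit 0) (XT.nd (nat_lit 78) (nat_lit 456) (nat_lit 0) (XT.lf (nat_lit 0) (nat_lit 6352739751) (nat_lit 608) (nat_lit 1774008574) (nat_lit 76) (nat_lit 4671083359) (nat_lit 216) (nat_lit 5) (nat_lit 224) (nat_lit 5) (nat_lit 217) (nat_lit 5) (nat_lit 609) (nat_lit 534) (nat_lit 417)) (XT.lf (nat_lit 0) (nat_lit 6411943037) (nat_lit 456) (nat_lit 3215625810) (nat_lit 532) (nat_lit 3315483160) (nat_lit 210) (nat_lit 5) (nat_lit 216) (nat_lit 5) (nat_lit 217) (nat_lit 5) (nat_lit 610) (nat_lit 534) (nat_lit 416))) (XT.nd (nat_lit 78) (nat_lit 76) (nat_lit 0) (XT.lf (nat_lit 0) (nat_lit 1678789548) (nat_lit 456) (nat_lit 11305380901) (nat_lit 532) (nat_lit 106681868) (nat_lit 204) (nat_lit 5) (nat_lit 210) (nat_lit 5) (nat_lit 211) (nat_lit 5) (nat_lit 611) (nat_lit 534) (nat_lit 415)) (XT.lf (nat_lit 0) (nat_lit 3171996659) (nat_lit 532) (nat_lit 3167754229) (nat_lit 76) (nat_lit 6900503094) (nat_lit 203) (nat_lit 5) (nat_lit 210) (nat_lit 5)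 (nat_lit 204) (nat_lit 5) (nat_lit 612) (nat_lit 534) (nat_lit 414))))) (XT.nd (nat_lit 234) (nat_lit 1292) (nat_lit 0) (XT.nd (nat_lit 78) (nat_lit 456) (nat_lit 0) (XT.lf (nat_lit 0) (nat_lit 5284257966) (nat_lit 456) (nat_lit 1247043920) (nat_lit 532) (nat_lit 6860999096) (nat_lit 197) (nat_lit 5) (nat_lit 203) (nat_lit 5) (nat_lit 204) (nat_lit 5) (nat_lit 613) (nat_lit 534) (nat_lit 413)) (XT.nd (nat_lit 78) (nat_lit 0) (nat_lit 0) (XT.lf (nat_lit 0) (nat_lit 354249128) (nat_lit 456) (nat_lit 9635175027) (nat_lit 532) (nat_lit 3557333161) (nat_lit 191) (nat_lit 5) (nat_lit 197) (nat_lit 5) (nat_lit 198) (nat_lit 5) (nat_lit 614) (nat_lit 534) (nat_lit 412)) (XT.lf (nat_lit 0) (nat_lit 9061583321) (nat_lit 456) (nat_lit 4500221832) (nat_lit 532) (nat_lit 141596696) (nat_lit 191) (nat_lit 5) (nat_lit 197) (nat_lit 5) (nat_lit 198) (nat_lit 5) (nat_lit 615) (nat_lit 534) (nat_lit 411)))) (XT.nd (nat_lit 156) (nat_lit 836) (nat_lit 0) (XT.nd (nat_lit 78) (nat_lit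 0) (nat_lit 0) (XT.lf (nat_lit 0) (nat_lit 3312914415) (nat_lit 456) (nat_lit 9781307486) (nat_lit 76) (nat_lit 768238364) (nat_lit 185) (nat_lit 5) (nat_lit 191) (nat_lit 5) (nat_lit 186) (nat_lit 5) (nat_lit 616) (nat_lit 534) (nat_lit 410)) (XT.lf (nat_lit 0) (nat_lit 6878612820) (nat_lit 456) (nat_lit 1039109685) (nat_lit 76) (nat_lit 6106079702) (nat_lit 185) (nat_lit 5) (nat_lit 191) (nat_lit 5) (nat_lit 186) (nat_lit 5) (nat_lit 617) (nat_lit 534) (nat_lit 409))) (XT.nd (nat_lit 78) (nat_lit 380) (nat_lit 0) (XT.lf (nat_lit 0) (nat_lit 7957203402) (nat_lit 456) (nat_lit 2593254991) (nat_lit 532) (nat_lit 3637216851) (nat_lit 179) (nat_lit 5) (nat_lit 185) (nat_lit 5) (nat_lit 186) (nat_lit 5) (nat_lit 618) (nat_lit 534) (nat_lit 408)) (XT.lf (nat_lit 0) (nat_lit 2785702170) (nat_lit 380) (nat_lit 11536853029) (nat_lit 456) (nat_lit 31735158) (nat_lit 174) (nat_lit 5) (nat_lit 179) (nat_lit 5) (nat_lit 180) (nat_lit 5) (nat_lit 619) (nat_lit 534) (nat_lit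 407))))))) (XT.nd (nat_lit 1092) (nat_lit 2584) (nat_lit 0) (XT.nd (nat_lit 546) (nat_lit 1824) (nat_lit 0) (XT.nd (nat_lit 234) (nat_lit 836) (nat_lit 0) (XT.nd (nat_lit 78) (nat_lit 760) (nat_lit 0) (XT.lf (nat_lit 0) (nat_lit 3640639629) (nat_lit 456) (nat_lit 2523129037) (nat_lit 76) (nat_lit 8359144557) (nat_lit 173) (nat_lit 5) (nat_lit 179) (nat_lit 5) (nat_lit 174) (nat_lit 5) (nat_lit 620) (nat_lit 534) (nat_lit 406)) (XT.nd (nat_lit 78) (nat_lit 380) (nat_lit 0) (XT.lf (nat_lit 0) (nat_lit 6767014316) (nat_lit 380) (nat_lit 646624706) (nat_lit 456) (nat_lit 7280714137) (nat_lit 168) (nat_lit 5) (nat_lit 173) (nat_lit 5) (nat_lit 174) (nat_lit 5) (nat_lit 621) (nat_lit 534) (nat_lit 405)) (XT.lf (nat_lit 0) (nat_lit 1368909173) (nat_lit 380) (nat_lit 9935231330) (nat_lit 456) (nat_lit 3564241382) (nat_lit 163) (nat_lit 5) (nat_lit 168) (nat_lit 5) (nat_lit 169) (nat_lit 5) (nat_lit 622) (nat_lit 534) (nat_lit 404)))) (XT.nd (nat_lit 156) (nat_lit 380)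 (nat_lit 0) (XT.nd (nat_lit 78) (nat_lit 380) (nat_lit 0) (XT.lf (nat_lit 0) (nat_lit 265242704) (nat_lit 456) (nat_lit 4117317742) (nat_lit 76) (nat_lit 10662469056) (nat_lit 162) (nat_lit 5) (nat_lit 168) (nat_lit 5) (nat_lit 163) (nat_lit 5) (nat_lit 623) (nat_lit 534) (nat_lit 403)) (XT.lf (nat_lit 0) (nat_lit 4151984984) (nat_lit 456) (nat_lit 9756736434) (nat_lit 76) (nat_lit 1315450372) (nat_lit 157) (nat_lit 5) (nat_lit 163) (nat_lit 5) (nat_lit 158) (nat_lit 5) (nat_lit 624) (nat_lit 534) (nat_lit 402))) (XT.nd (nat_lit 78) (nat_lit 380) (nat_lit 0) (XT.lf (nat_lit 0) (nat_lit 8157535076) (nat_lit 456) (nat_lit 160390111) (nat_lit 76) (nat_lit 7088151046) (nat_lit 157) (nat_lit 5) (nat_lit 163) (nat_lit 5) (nat_lit 158) (nat_lit 5) (nat_lit 625) (nat_lit 534) (nat_lit 401)) (XT.lf (nat_lit 0) (nat_lit 9731459984) (nat_lit 380) (nat_lit 2559465400) (nat_lit 456) (nat_lit 3299739553) (nat_lit 152) (nat_lit 5) (nat_lit 157) (nat_lit 5) (nat_lit 158) (nat_lit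 5) (nat_lit 626) (nat_lit 534) (nat_lit 400))))) (XT.nd (nat_lit 234) (nat_lit 1064) (nat_lit 0) (XT.nd (nat_lit 78) (nat_lit 304) (nat_lit 0) (XT.lf (nat_lit 0) (nat_lit 752257991) (nat_lit 456) (nat_lit 11731356717) (nat_lit 76) (nat_lit 3294561527) (nat_lit 146) (nat_lit 5) (nat_lit 152) (nat_lit 5) (nat_lit 147) (nat_lit 5) (nat_lit 627) (nat_lit 534) (nat_lit 399)) (XT.nd (nat_lit 78) (nat_lit 304) (nat_lit 0) (XT.lf (nat_lit 0) (nat_lit 4882364332) (nat_lit 456) (nat_lit 1801518194) (nat_lit 76) (nat_lit 9284294673) (nat_lit 146) (nat_lit 5) (nat_lit 152) (nat_lit 5) (nat_lit 147) (nat_lit 5) (nat_lit 628) (nat_lit 534) (nat_lit 398)) (XT.lf (nat_lit 0) (nat_lit 8413545322) (nat_lit 304) (nat_lit 721136361) (nat_lit 380) (nat_lit 7026505017) (nat_lit 142) (nat_lit 5) (nat_lit 146) (nat_lit 5) (nat_lit 147) (nat_lit 5) (nat_lit 629) (nat_lit 534) (nat_lit 397)))) (XT.nd (nat_lit 156) (nat_lit 608) (nat_lit 0) (XT.nd (nat_lit 78) (nat_lit 76) (nat_lit 0) (XT.lf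 (nat_lit 0) (nat_lit 2473263781) (nat_lit 380) (nat_lit 11046882822) (nat_lit 456) (nat_lit 2836948450) (nat_lit 137) (nat_lit 5) (nat_lit 142) (nat_lit 5) (nat_lit 143) (nat_lit 5) (nat_lit 630) (nat_lit 534) (nat_lit 396)) (XT.lf (nat_lit 0) (nat_lit 1459779714) (nat_lit 456) (nat_lit 3590564179) (nat_lit 76) (nat_lit 11505547432) (nat_lit 136) (nat_lit 5) (nat_lit 142) (nat_lit 5) (nat_lit 137) (nat_lit 5) (nat_lit 631) (nat_lit 534) (nat_lit 395))) (XT.nd (nat_lit 78) (nat_lit 304) (nat_lit 0) (XT.lf (nat_lit 0) (nat_lit 5842353806) (nat_lit 380) (nat_lit 9807311260) (nat_lit 76) (nat_lit 1107866094) (nat_lit 132) (nat_lit 5) (nat_lit 137) (nat_lit 5) (nat_lit 133) (nat_lit 5) (nat_lit 632) (nat_lit 534) (nat_lit 394)) (XT.lf (nat_lit 0) (nat_lit 740417572) (nat_lit 304) (nat_lit 9620148131) (nat_lit 380) (nat_lit 6601678994) (nat_lit 128) (nat_lit 5) (nat_lit 132) (nat_lit 5) (nat_lit 133) (nat_lit 5) (nat_lit 633) (nat_lit 534) (nat_lit 393)))))) (XT.nd (nat_lit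 546) (nat_lit 1216) (nat_lit 0) (XT.nd (nat_lit 234) (nat_lit 988) (nat_lit 0) (XT.nd (nat_lit 78) (nat_lit 380) (nat_lit 0) (XT.lf (nat_lit 0) (nat_lit 11608739597) (nat_lit 304) (nat_lit 3411826809) (nat_lit 380) (nat_lit 2149458227) (nat_lit 128) (nat_lit 5) (nat_lit 132) (nat_lit 5) (nat_lit 133) (nat_lit 5) (nat_lit 634) (nat_lit 534) (nat_lit 392)) (XT.nd (nat_lit 78) (nat_lit 0) (nat_lit 0) (XT.lf (nat_lit 0) (nat_lit 2400173289) (nat_lit 380) (nat_lit 12056486720) (nat_lit 76) (nat_lit 2924195463) (nat_lit 123) (nat_lit 5) (nat_lit 128) (nat_lit 5) (nat_lit 124) (nat_lit 5) (nat_lit 635) (nat_lit 534) (nat_lit 391)) (XT.lf (nat_lit 0) (nat_lit 7058077345) (nat_lit 380) (nat_lit 1152220774) (nat_lit 76) (nat_lit 9384400011) (nat_lit 123) (nat_lit 5) (nat_lit 128) (nat_lit 5) (nat_lit 124) (nat_lit 5) (nat_lit 636) (nat_lit 534) (nat_lit 390)))) (XT.nd (nat_lit 156) (nat_lit 380) (nat_lit 0) (XT.nd (nat_lit 78) (nat_lit 304) (nat_lit 0) (XT.lf (nat_lit 0)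 (nat_lit 10079672622) (nat_lit 304) (nat_lit 1781060854) (nat_lit 380) (nat_lit 5951052856) (nat_lit 119) (nat_lit 5) (nat_lit 123) (nat_lit 5) (nat_lit 124) (nat_lit 5) (nat_lit 637) (nat_lit 534) (nat_lit 389)) (XT.lf (nat_lit 0) (nat_lit 3511019849) (nat_lit 304) (nat_lit 13296234374) (nat_lit 380) (nat_lit 1225006407) (nat_lit 115) (nat_lit 5) (nat_lit 119) (nat_lit 5) (nat_lit 120) (nat_lit 5) (nat_lit 638) (nat_lit 534) (nat_lit 388))) (XT.nd (nat_lit 78) (nat_lit 304) (nat_lit 0) (XT.lf (nat_lit 0) (nat_lit 3598680994) (nat_lit 380) (nat_lit 3230520596) (nat_lit 76) (nat_lit 11426470938) (nat_lit 114) (nat_lit 5) (nat_lit 119) (nat_lit 5) (nat_lit 115) (nat_lit 5) (nat_lit 639) (nat_lit 534) (nat_lit 387)) (XT.lf (nat_lit 0) (nat_lit 8365302700) (nat_lit 304) (nat_lit 177985795) (nat_lit 380) (nat_lit 9939285768) (nat_lit 110) (nat_lit 5) (nat_lit 114) (nat_lit 5) (nat_lit 115) (nat_lit 5) (nat_lit 640) (nat_lit 534) (nat_lit 386))))) (XT.nd (nat_lit 234)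 (nat_lit 608) (nat_lit 0) (XT.nd (nat_lit 78) (nat_lit 380) (nat_lit 0) (XT.lf (nat_lit 0) (nat_lit 1477215900) (nat_lit 228) (nat_lit 12170461539) (nat_lit 304) (nat_lit 5065119327) (nat_lit 107) (nat_lit 5) (nat_lit 110) (nat_lit 5) (nat_lit 111) (nat_lit 5) (nat_lit 641) (nat_lit 534) (nat_lit 385)) (XT.nd (nat_lit 78) (nat_lit 380) (nat_lit 0) (XT.lf (nat_lit 0) (nat_lit 13417313360) (nat_lit 228) (nat_lit 5492606702) (nat_lit 304) (nat_lit 36588845) (nat_lit 107) (nat_lit 5) (nat_lit 110) (nat_lit 5) (nat_lit 111) (nat_lit 5) (nat_lit 642) (nat_lit 534) (nat_lit 384)) (XT.lf (nat_lit 0) (nat_lit 5063418385) (nat_lit 380) (nat_lit 12751903154) (nat_lit 76) (nat_lit 1368159055) (nat_lit 102) (nat_lit 5) (nat_lit 107) (nat_lit 5) (nat_lit 103) (nat_lit 5) (nat_lit 643) (nat_lit 534) (nat_lit 383)))) (XT.nd (nat_lit 156) (nat_lit 380) (nat_lit 0) (XT.nd (nat_lit 78) (nat_lit 228) (nat_lit 0) (XT.lf (nat_lit 0) (nat_lit 10325595742) (nat_lit 380) (nat_lit 776822552)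 (nat_lit 76) (nat_lit 8321555863) (nat_lit 102) (nat_lit 5) (nat_lit 107) (nat_lit 5) (nat_lit 103) (nat_lit 5) (nat_lit 644) (nat_lit 534) (nat_lit 382)) (XT.lf (nat_lit 0) (nat_lit 11567880777) (nat_lit 228) (nat_lit 4187433436) (nat_lit 304) (nat_lit 3912717896) (nat_lit 99) (nat_lit 5) (nat_lit 102) (nat_lit 5) (nat_lit 103) (nat_lit 5) (nat_lit 645) (nat_lit 534) (nat_lit 381))) (XT.nd (nat_lit 78) (nat_lit 0) (nat_lit 0) (XT.lf (nat_lit 0) (nat_lit 1397674139) (nat_lit 380) (nat_lit 15656553504) (nat_lit 76) (nat_lit 2861783799) (nat_lit 94) (nat_lit 5) (nat_lit 99) (nat_lit 5) (nat_lit 95) (nat_lit 5) (nat_lit 646) (nat_lit 534) (nat_lit 380)) (XT.lf (nat_lit 0) (nat_lit 6831651806) (nat_lit 380) (nat_lit 3267483884) (nat_lit 76) (nat_lit 10067902469) (nat_lit 94) (nat_lit 5) (nat_lit 99) (nat_lit 5) (nat_lit 95) (nat_lit 5) (nat_lit 647) (nat_lit 534) (nat_lit 379))))))))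
noncomputable def xc112 : XT := (XT.nd (nat_lit 73866) (nat_lit 0) (nat_lit 22268) (XT.nd (nat_lit 72774) (nat_lit 0) (nat_lit 41268) (XT.nd (nat_lit 468) (nat_lit 304) (nat_lit 0) (XT.nd (nat_lit 234) (nat_lit 456) (nat_lit 0) (XT.nd (nat_lit 78) (nat_lit 304) (nat_lit 0) (XT.lf (nat_lit 0) (nat_lit 9472347326) (nat_lit 228) (nat_lit 2950984528) (nat_lit 304) (nat_lit 7998773534) (nat_lit 91) (nat_lit 5) (nat_lit 94) (nat_lit 5) (nat_lit 95) (nat_lit 5) (nat_lit 648) (nat_lit 534) (nat_lit 378)) (XT.nd (nat_lit 78) (nat_lit 76) (nat_lit 0) (XT.lf (nat_lit 0) (nat_lit 1803457181) (nat_lit 228) (nat_lit 16372921216) (nat_lit 304) (nat_lit 2504905331) (nat_lit 88) (nat_lit 5) (nat_lit 91) (nat_lit 5) (nat_lit 92) (nat_lit 5) (nat_lit 649) (nat_lit 534) (nat_lit 377)) (XT.lf (nat_lit 0) (nat_lit 3139303755) (nat_lit 304) (nat_lit 6045489457) (nat_lit 76) (nat_lit 11758828330) (nat_lit 87) (nat_lit 5) (nat_lit 91) (nat_lit 5) (nat_lit 88) (nat_lit 5) (nat_lit 650)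 (nat_lit 534) (nat_lit 376)))) (XT.nd (nat_lit 78) (nat_lit 228) (nat_lit 0) (XT.lf (nat_lit 0) (nat_lit 7099102094) (nat_lit 228) (nat_lit 1797718041) (nat_lit 304) (nat_lit 12313375952) (nat_lit 84) (nat_lit 5) (nat_lit 87) (nat_lit 5) (nat_lit 88) (nat_lit 5) (nat_lit 651) (nat_lit 534) (nat_lit 375)) (XT.nd (nat_lit 78) (nat_lit 228) (nat_lit 0) (XT.lf (nat_lit 0) (nat_lit 14835460307) (nat_lit 304) (nat_lit 951231660) (nat_lit 76) (nat_lit 5694091080) (nat_lit 84) (nat_lit 5) (nat_lit 88) (nat_lit 5) (nat_lit 85) (nat_lit 5) (nat_lit 652) (nat_lit 534) (nat_lit 374)) (XT.lf (nat_lit 0) (nat_lit 12604689322) (nat_lit 228) (nat_lit 8370052217) (nat_lit 304) (nat_lit 780403229) (nat_lit 81) (nat_lit 5) (nat_lit 84) (nat_lit 5) (nat_lit 85) (nat_lit 5) (nat_lit 653) (nat_lit 534) (nat_lit 373))))) (XT.nd (nat_lit 71994) (nat_lit 0) (nat_lit 45676) (XT.nd (nat_lit 78) (nat_lit 0) (nat_lit 0) (XT.lf (nat_lit 0) (nat_lit 4413252894) (nat_lit 228) (nat_lit 743565156)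 (nat_lit 304) (nat_lit 16877036046) (nat_lit 77) (nat_lit 5) (nat_lit 80) (nat_lit 5) (nat_lit 81) (nat_lit 5) (nat_lit 654) (nat_lit 534) (nat_lit 372)) (XT.nd (nat_lit 71838) (nat_lit 0) (nat_lit 46664) (XT.lf (nat_lit 0) (nat_lit 11298023971) (nat_lit 304) (nat_lit 4016503419) (nat_lit 76) (nat_lit 7001593618) (nat_lit 77) (nat_lit 5) (nat_lit 81) (nat_lit 5) (nat_lit 78) (nat_lit 5) (nat_lit 655) (nat_lit 534) (nat_lit 371)) (XT.lf (nat_lit 0) (nat_lit 2270561826) (nat_lit 988) (nat_lit 582307739) (nat_lit 988) (nat_lit 582307739) (nat_lit 691) (nat_lit 3) (nat_lit 704) (nat_lit 3) (nat_lit 704) (nat_lit 5) (nat_lit 535) (nat_lit 535) (nat_lit 490)))) (XT.nd (nat_lit 156) (nat_lit 0) (nat_lit 0) (XT.nd (nat_lit 78) (nat_lit 988) (nat_lit 0) (XT.lf (nat_lit 76) (nat_lit 2266790738) (nat_lit 0) (nat_lit 4283510307) (nat_lit 988) (nat_lit 349227707) (nat_lit 692) (nat_lit 5) (nat_lit 691) (nat_lit 3) (nat_lit 704) (nat_lit 5) (nat_lit 536) (nat_lit 535) (nat_lit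 489)) (XT.lf (nat_lit 0) (nat_lit 1604693182) (nat_lit 988) (nat_lit 1184531342) (nat_lit 1064) (nat_lit 4140726987) (nat_lit 678) (nat_lit 5) (nat_lit 691) (nat_lit 3) (nat_lit 692) (nat_lit 5) (nat_lit 537) (nat_lit 535) (nat_lit 488))) (XT.nd (nat_lit 78) (nat_lit 0) (nat_lit 76) (XT.lf (nat_lit 76) (nat_lit 2334357834) (nat_lit 0) (nat_lit 1223189567) (nat_lit 1064) (nat_lit 3404104938) (nat_lit 679) (nat_lit 5) (nat_lit 678) (nat_lit 5) (nat_lit 692) (nat_lit 5) (nat_lit 538) (nat_lit 535) (nat_lit 487)) (XT.lf (nat_lit 0) (nat_lit 5510233200) (nat_lit 988) (nat_lit 1084192611) (nat_lit 1064) (nat_lit 400352166) (nat_lit 679) (nat_lit 5) (nat_lit 692) (nat_lit 5) (nat_lit 693) (nat_lit 5) (nat_lit 539) (nat_lit 535) (nat_lit 486)))))) (XT.nd (nat_lit 546) (nat_lit 2356) (nat_lit 0) (XT.nd (nat_lit 234) (nat_lit 1064) (nat_lit 0) (XT.nd (nat_lit 78) (nat_lit 0) (nat_lit 0) (XT.lf (nat_lit 0) (nat_lit 442861720) (nat_lit 1064) (nat_lit 4504169354) (nat_lit 1140)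 (nat_lit 2081966336) (nat_lit 665) (nat_lit 5) (nat_lit 679) (nat_lit 5) (nat_lit 680) (nat_lit 5) (nat_lit 540) (nat_lit 535) (nat_lit 485)) (XT.nd (nat_lit 78) (nat_lit 0) (nat_lit 0) (XT.lf (nat_lit 0) (nat_lit 2348054973) (nat_lit 1064) (nat_lit 880402084) (nat_lit 1140) (nat_lit 3836071502) (nat_lit 665) (nat_lit 5) (nat_lit 679) (nat_lit 5) (nat_lit 680) (nat_lit 5) (nat_lit 541) (nat_lit 535) (nat_lit 484)) (XT.lf (nat_lit 76) (nat_lit 2825950028) (nat_lit 0) (nat_lit 1436470017) (nat_lit 1140) (nat_lit 2838934731) (nat_lit 666) (nat_lit 5) (nat_lit 665) (nat_lit 5) (nat_lit 680) (nat_lit 5) (nat_lit 542) (nat_lit 535) (nat_lit 483)))) (XT.nd (nat_lit 156) (nat_lit 0) (nat_lit 0) (XT.nd (nat_lit 78) (nat_lit 1140) (nat_lit 0) (XT.lf (nat_lit 0) (nat_lit 6177161912) (nat_lit 1064) (nat_lit 550856644) (nat_lit 1140) (nat_lit 411662858) (nat_lit 666) (nat_lit 5) (nat_lit 680) (nat_lit 5) (nat_lit 681) (nat_lit 5) (nat_lit 543) (nat_lit 535) (nat_lit 482)) (XT.lf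 (nat_lit 0) (nat_lit 923993842) (nat_lit 1140) (nat_lit 3931103765) (nat_lit 1216) (nat_lit 2323857942) (nat_lit 651) (nat_lit 5) (nat_lit 666) (nat_lit 5) (nat_lit 667) (nat_lit 5) (nat_lit 544) (nat_lit 535) (nat_lit 481))) (XT.nd (nat_lit 78) (nat_lit 0) (nat_lit 0) (XT.lf (nat_lit 0) (nat_lit 2794007601) (nat_lit 1140) (nat_lit 123058026) (nat_lit 1216) (nat_lit 4302654488) (nat_lit 651) (nat_lit 5) (nat_lit 666) (nat_lit 5) (nat_lit 667) (nat_lit 5) (nat_lit 545) (nat_lit 535) (nat_lit 480)) (XT.lf (nat_lit 76) (nat_lit 3783595278) (nat_lit 0) (nat_lit 898201003) (nat_lit 1216) (nat_lit 2579901455) (nat_lit 652) (nat_lit 5) (nat_lit 651) (nat_lit 5) (nat_lit 667) (nat_lit 5) (nat_lit 546) (nat_lit 535) (nat_lit 479))))) (XT.nd (nat_lit 234) (nat_lit 1216) (nat_lit 0) (XT.nd (nat_lit 78) (nat_lit 1216) (nat_lit 0) (XT.lf (nat_lit 76) (nat_lit 435743088) (nat_lit 0) (nat_lit 6139403670) (nat_lit 1216) (nat_lit 730017182) (nat_lit 653) (nat_lit 5) (nat_lit 652)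 (nat_lit 5) (nat_lit 668) (nat_lit 5) (nat_lit 547) (nat_lit 535) (nat_lit 478)) (XT.nd (nat_lit 78) (nat_lit 0) (nat_lit 0) (XT.lf (nat_lit 0) (nat_lit 1128124948) (nat_lit 1216) (nat_lit 2916006429) (nat_lit 1292) (nat_lit 3305494167) (nat_lit 636) (nat_lit 5) (nat_lit 652) (nat_lit 5) (nat_lit 653) (nat_lit 5) (nat_lit 548) (nat_lit 535) (nat_lit 477)) (XT.lf (nat_lit 76) (nat_lit 1098229678) (nat_lit 0) (nat_lit 1880398068) (nat_lit 1292) (nat_lit 4416957526) (nat_lit 637) (nat_lit 5) (nat_lit 636) (nat_lit 5) (nat_lit 653) (nat_lit 5) (nat_lit 549) (nat_lit 535) (nat_lit 476)))) (XT.nd (nat_lit 156) (nat_lit 1292) (nat_lit 0) (XT.nd (nat_lit 78) (nat_lit 0) (nat_lit 0) (XT.lf (nat_lit 0) (nat_lit 4846529432) (nat_lit 1216) (nat_lit 2240603099) (nat_lit 1292) (nat_lit 355728647) (nat_lit 637) (nat_lit 5) (nat_lit 653) (nat_lit 5) (nat_lit 654) (nat_lit 5) (nat_lit 550) (nat_lit 535) (nat_lit 475)) (XT.lf (nat_lit 76) (nat_lit 1881509930) (nat_lit 0) (nat_lit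 4854331273) (nat_lit 1292) (nat_lit 755565023) (nat_lit 638) (nat_lit 5) (nat_lit 637) (nat_lit 5) (nat_lit 654) (nat_lit 5) (nat_lit 551) (nat_lit 535) (nat_lit 474))) (XT.nd (nat_lit 78) (nat_lit 0) (nat_lit 0) (XT.lf (nat_lit 0) (nat_lit 1082166256) (nat_lit 1292) (nat_lit 1459922083) (nat_lit 1368) (nat_lit 4999195331) (nat_lit 620) (nat_lit 5) (nat_lit 637) (nat_lit 5) (nat_lit 638) (nat_lit 5) (nat_lit 552) (nat_lit 535) (nat_lit 473)) (XT.lf (nat_lit 76) (nat_lit 2776666954) (nat_lit 0) (nat_lit 148424706) (nat_lit 1368) (nat_lit 4667400382) (nat_lit 621) (nat_lit 5) (nat_lit 620) (nat_lit 5) (nat_lit 638) (nat_lit 5) (nat_lit 553) (nat_lit 535) (nat_lit 472))))))) (XT.nd (nat_lit 1014) (nat_lit 10032) (nat_lit 0) (XT.nd (nat_lit 468) (nat_lit 6384) (nat_lit 0) (XT.nd (nat_lit 234) (nat_lit 1292) (nat_lit 0) (XT.nd (nat_lit 78) (nat_lit 1368) (nat_lit 0) (XT.lf (nat_lit 0) (nat_lit 4790812826) (nat_lit 1292) (nat_lit 570174273) (nat_lit 1368) (nat_lit 2284023051)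 (nat_lit 621) (nat_lit 5) (nat_lit 638) (nat_lit 5) (nat_lit 639) (nat_lit 5) (nat_lit 554) (nat_lit 535) (nat_lit 471)) (XT.nd (nat_lit 78) (nat_lit 1368) (nat_lit 0) (XT.lf (nat_lit 76) (nat_lit 3781084709) (nat_lit 0) (nat_lit 2900244119) (nat_lit 1368) (nat_lit 1017504410) (nat_lit 622) (nat_lit 5) (nat_lit 621) (nat_lit 5) (nat_lit 639) (nat_lit 5) (nat_lit 555) (nat_lit 535) (nat_lit 470)) (XT.lf (nat_lit 76) (nat_lit 445467841) (nat_lit 0) (nat_lit 368234631) (nat_lit 1444) (nat_lit 6940543119) (nat_lit 604) (nat_lit 5) (nat_lit 603) (nat_lit 5) (nat_lit 622) (nat_lit 5) (nat_lit 556) (nat_lit 535) (nat_lit 469)))) (XT.nd (nat_lit 78) (nat_lit 1368) (nat_lit 0) (XT.lf (nat_lit 0) (nat_lit 2671642616) (nat_lit 1368) (nat_lit 2911330334) (nat_lit 76) (nat_lit 2227588039) (nat_lit 604) (nat_lit 5) (nat_lit 622) (nat_lit 5) (nat_lit 605) (nat_lit 5) (nat_lit 557) (nat_lit 535) (nat_lit 468)) (XT.nd (nat_lit 78) (nat_lit 0) (nat_lit 0) (XT.lf (nat_lit 0) (nat_lit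 1563848724) (nat_lit 1368) (nat_lit 2979091942) (nat_lit 1444) (nat_lit 3325541954) (nat_lit 586) (nat_lit 5) (nat_lit 604) (nat_lit 5) (nat_lit 605) (nat_lit 5) (nat_lit 558) (nat_lit 535) (nat_lit 467)) (XT.lf (nat_lit 0) (nat_lit 6139892500) (nat_lit 1368) (nat_lit 295446783) (nat_lit 1444) (nat_lit 1492553734) (nat_lit 586) (nat_lit 5) (nat_lit 604) (nat_lit 5) (nat_lit 605) (nat_lit 5) (nat_lit 559) (nat_lit 535) (nat_lit 466))))) (XT.nd (nat_lit 234) (nat_lit 3344) (nat_lit 0) (XT.nd (nat_lit 78) (nat_lit 1520) (nat_lit 0) (XT.lf (nat_lit 0) (nat_lit 371138412) (nat_lit 1520) (nat_lit 5179278115) (nat_lit 76) (nat_lit 2438050012) (nat_lit 566) (nat_lit 5) (nat_lit 586) (nat_lit 5) (nat_lit 567) (nat_lit 5) (nat_lit 560) (nat_lit 535) (nat_lit 465)) (XT.nd (nat_lit 78) (nat_lit 1520) (nat_lit 0) (XT.lf (nat_lit 0) (nat_lit 2231335928) (nat_lit 1520) (nat_lit 567962448) (nat_lit 76) (nat_lit 5251175110) (nat_lit 566) (nat_lit 5) (nat_lit 586) (nat_lit 5) (nat_lit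 567) (nat_lit 5) (nat_lit 561) (nat_lit 535) (nat_lit 464)) (XT.lf (nat_lit 0) (nat_lit 4121870640) (nat_lit 1596) (nat_lit 3951990901) (nat_lit 76) (nat_lit 39999903) (nat_lit 546) (nat_lit 5) (nat_lit 567) (nat_lit 5) (nat_lit 547) (nat_lit 5) (nat_lit 562) (nat_lit 535) (nat_lit 463)))) (XT.nd (nat_lit 156) (nat_lit 1748) (nat_lit 0) (XT.nd (nat_lit 78) (nat_lit 0) (nat_lit 0) (XT.lf (nat_lit 0) (nat_lit 778648693) (nat_lit 1596) (nat_lit 5265371232) (nat_lit 1672) (nat_lit 2134624626) (nat_lit 525) (nat_lit 5) (nat_lit 546) (nat_lit 5) (nat_lit 547) (nat_lit 5) (nat_lit 563) (nat_lit 535) (nat_lit 462)) (XT.lf (nat_lit 0) (nat_lit 5629101312) (nat_lit 1596) (nat_lit 2368879378) (nat_lit 1672) (nat_lit 246878658) (nat_lit 525) (nat_lit 5) (nat_lit 546) (nat_lit 5) (nat_lit 547) (nat_lit 5) (nat_lit 564) (nat_lit 535) (nat_lit 461))) (XT.nd (nat_lit 78) (nat_lit 0) (nat_lit 0) (XT.lf (nat_lit 0) (nat_lit 1642524958) (nat_lit 1748) (nat_lit 6061962017) (nat_lit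 76) (nat_lit 607978396) (nat_lit 502) (nat_lit 5) (nat_lit 525) (nat_lit 5) (nat_lit 503) (nat_lit 5) (nat_lit 565) (nat_lit 535) (nat_lit 460)) (XT.lf (nat_lit 0) (nat_lit 3567537968) (nat_lit 1748) (nat_lit 1177705985) (nat_lit 76) (nat_lit 3636127588) (nat_lit 502) (nat_lit 5) (nat_lit 525) (nat_lit 5) (nat_lit 503) (nat_lit 5) (nat_lit 566) (nat_lit 535) (nat_lit 459)))))) (XT.nd (nat_lit 546) (nat_lit 3420) (nat_lit 0) (XT.nd (nat_lit 234) (nat_lit 2964) (nat_lit 0) (XT.nd (nat_lit 78) (nat_lit 1900) (nat_lit 0) (XT.lf (nat_lit 0) (nat_lit 3826238892) (nat_lit 1748) (nat_lit 1698053485) (nat_lit 1824) (nat_lit 2927501773) (nat_lit 479) (nat_lit 5) (nat_lit 502) (nat_lit 5) (nat_lit 503) (nat_lit 5) (nat_lit 567) (nat_lit 535) (nat_lit 458)) (XT.nd (nat_lit 78) (nat_lit 76) (nat_lit 0) (XT.lf (nat_lit 0) (nat_lit 390027757) (nat_lit 1824) (nat_lit 7118654116) (nat_lit 1900) (nat_lit 1015176418) (nat_lit 455) (nat_lit 5) (nat_lit 479) (nat_lit 5) (nat_lit 480)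 (nat_lit 5) (nat_lit 568) (nat_lit 535) (nat_lit 457)) (XT.lf (nat_lit 0) (nat_lit 934695075) (nat_lit 1900) (nat_lit 3074509155) (nat_lit 76) (nat_lit 4587809629) (nat_lit 454) (nat_lit 5) (nat_lit 479) (nat_lit 5) (nat_lit 455) (nat_lit 5) (nat_lit 569) (nat_lit 535) (nat_lit 456)))) (XT.nd (nat_lit 156) (nat_lit 1900) (nat_lit 0) (XT.nd (nat_lit 78) (nat_lit 0) (nat_lit 0) (XT.lf (nat_lit 0) (nat_lit 2078232875) (nat_lit 1064) (nat_lit 814926875) (nat_lit 1140) (nat_lit 5778677704) (nat_lit 440) (nat_lit 5) (nat_lit 454) (nat_lit 5) (nat_lit 455) (nat_lit 5) (nat_lit 570) (nat_lit 535) (nat_lit 455)) (XT.lf (nat_lit 0) (nat_lit 4897531587) (nat_lit 1140) (nat_lit 1416764659) (nat_lit 76) (nat_lit 2433729362) (nat_lit 440) (nat_lit 5) (nat_lit 455) (nat_lit 5) (nat_lit 441) (nat_lit 5) (nat_lit 571) (nat_lit 535) (nat_lit 454))) (XT.nd (nat_lit 78) (nat_lit 988) (nat_lit 0) (XT.lf (nat_lit 0) (nat_lit 3880952272) (nat_lit 912) (nat_lit 3062325867) (nat_lit 988)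 (nat_lit 1882436429) (nat_lit 428) (nat_lit 5) (nat_lit 440) (nat_lit 5) (nat_lit 441) (nat_lit 5) (nat_lit 572) (nat_lit 535) (nat_lit 453)) (XT.lf (nat_lit 0) (nat_lit 107981154) (nat_lit 988) (nat_lit 8532294390) (nat_lit 76) (nat_lit 264975455) (nat_lit 415) (nat_lit 5) (nat_lit 428) (nat_lit 5) (nat_lit 416) (nat_lit 5) (nat_lit 573) (nat_lit 535) (nat_lit 452))))) (XT.nd (nat_lit 234) (nat_lit 2584) (nat_lit 0) (XT.nd (nat_lit 78) (nat_lit 836) (nat_lit 0) (XT.lf (nat_lit 0) (nat_lit 2137989660) (nat_lit 988) (nat_lit 3183384065) (nat_lit 76) (nat_lit 3664258434) (nat_lit 415) (nat_lit 5) (nat_lit 428) (nat_lit 5) (nat_lit 416) (nat_lit 5) (nat_lit 574) (nat_lit 535) (nat_lit 451)) (XT.nd (nat_lit 78) (nat_lit 0) (nat_lit 0) (XT.lf (nat_lit 0) (nat_lit 2274133591) (nat_lit 836) (nat_lit 1921075834) (nat_lit 912) (nat_lit 4872681872) (nat_lit 404) (nat_lit 5) (nat_lit 415) (nat_lit 5) (nat_lit 416) (nat_lit 5) (nat_lit 575) (nat_lit 535) (nat_lit 450)) (XT.lf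 (nat_lit 0) (nat_lit 6297337475) (nat_lit 912) (nat_lit 1306170038) (nat_lit 76) (nat_lit 1548215352) (nat_lit 404) (nat_lit 5) (nat_lit 416) (nat_lit 5) (nat_lit 405) (nat_lit 5) (nat_lit 576) (nat_lit 535) (nat_lit 449)))) (XT.nd (nat_lit 156) (nat_lit 836) (nat_lit 0) (XT.nd (nat_lit 78) (nat_lit 912) (nat_lit 0) (XT.lf (nat_lit 0) (nat_lit 4306925511) (nat_lit 836) (nat_lit 4148027766) (nat_lit 912) (nat_lit 782011360) (nat_lit 393) (nat_lit 5) (nat_lit 404) (nat_lit 5) (nat_lit 405) (nat_lit 5) (nat_lit 577) (nat_lit 535) (nat_lit 448)) (XT.lf (nat_lit 0) (nat_lit 698523270) (nat_lit 836) (nat_lit 602110804) (nat_lit 912) (nat_lit 8023380794) (nat_lit 381) (nat_lit 5) (nat_lit 392) (nat_lit 5) (nat_lit 393) (nat_lit 5) (nat_lit 578) (nat_lit 535) (nat_lit 447))) (XT.nd (nat_lit 78) (nat_lit 836) (nat_lit 0) (XT.lf (nat_lit 0) (nat_lit 3440619981) (nat_lit 912) (nat_lit 2959159521) (nat_lit 76) (nat_lit 3012402378) (nat_lit 381) (nat_lit 5) (nat_lit 393) (nat_lit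 5) (nat_lit 382) (nat_lit 5) (nat_lit 579) (nat_lit 535) (nat_lit 446)) (XT.lf (nat_lit 0) (nat_lit 2825600945) (nat_lit 836) (nat_lit 2793934946) (nat_lit 912) (nat_lit 3882656023) (nat_lit 370) (nat_lit 5) (nat_lit 381) (nat_lit 5) (nat_lit 382) (nat_lit 5) (nat_lit 580) (nat_lit 535) (nat_lit 445))))))))
noncomputable def xc113 : XT := (XT.nd (nat_lit 2106) (nat_lit 7296) (nat_lit 0) (XT.nd (nat_lit 1014) (nat_lit 5244) (nat_lit 0) (XT.nd (nat_lit 468) (nat_lit 3572) (nat_lit 0) (XT.nd (nat_lit 234) (nat_lit 684) (nat_lit 0) (XT.nd (nat_lit 78) (nat_lit 1596) (nat_lit 0) (XT.lf (nat_lit 0) (nat_lit 7841876901) (nat_lit 912) (nat_lit 861599601) (nat_lit 76) (nat_lit 890530956) (nat_lit 370) (nat_lit 5) (nat_lit 382) (nat_lit 5) (nat_lit 371) (nat_lit 5) (nat_lit 581) (nat_lit 535) (nat_lit 444)) (XT.nd (nat_lit 78) (nat_lit 760) (nat_lit 0) (XT.lf (nat_lit 0) (nat_lit 441832506) (nat_lit 836) (nat_lit 4599834481) (nat_lit 76) (nat_lit 4645412837) (nat_lit 359)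 (nat_lit 5) (nat_lit 370) (nat_lit 5) (nat_lit 360) (nat_lit 5) (nat_lit 582) (nat_lit 535) (nat_lit 443)) (XT.lf (nat_lit 0) (nat_lit 1363192799) (nat_lit 760) (nat_lit 1282489892) (nat_lit 836) (nat_lit 7136312051) (nat_lit 349) (nat_lit 5) (nat_lit 359) (nat_lit 5) (nat_lit 360) (nat_lit 5) (nat_lit 583) (nat_lit 535) (nat_lit 442)))) (XT.nd (nat_lit 78) (nat_lit 684) (nat_lit 0) (XT.lf (nat_lit 0) (nat_lit 4916322684) (nat_lit 836) (nat_lit 2415321761) (nat_lit 76) (nat_lit 2546711329) (nat_lit 349) (nat_lit 5) (nat_lit 360) (nat_lit 5) (nat_lit 350) (nat_lit 5) (nat_lit 584) (nat_lit 535) (nat_lit 441)) (XT.nd (nat_lit 78) (nat_lit 0) (nat_lit 0) (XT.lf (nat_lit 0) (nat_lit 3720896822) (nat_lit 684) (nat_lit 3519691901) (nat_lit 760) (nat_lit 2735893071) (nat_lit 340) (nat_lit 5) (nat_lit 349) (nat_lit 5) (nat_lit 350) (nat_lit 5) (nat_lit 585) (nat_lit 535) (nat_lit 440)) (XT.lf (nat_lit 0) (nat_lit 9605888830) (nat_lit 760) (nat_lit 94085446) (nat_lit 76)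 (nat_lit 376707073) (nat_lit 340) (nat_lit 5) (nat_lit 350) (nat_lit 5) (nat_lit 341) (nat_lit 5) (nat_lit 586) (nat_lit 535) (nat_lit 439))))) (XT.nd (nat_lit 234) (nat_lit 2052) (nat_lit 0) (XT.nd (nat_lit 78) (nat_lit 684) (nat_lit 0) (XT.lf (nat_lit 0) (nat_lit 1855764522) (nat_lit 836) (nat_lit 3968735787) (nat_lit 76) (nat_lit 4353341997) (nat_lit 329) (nat_lit 5) (nat_lit 340) (nat_lit 5) (nat_lit 330) (nat_lit 5) (nat_lit 587) (nat_lit 535) (nat_lit 438)) (XT.nd (nat_lit 78) (nat_lit 0) (nat_lit 0) (XT.lf (nat_lit 0) (nat_lit 2358932764) (nat_lit 684) (nat_lit 1856018750) (nat_lit 760) (nat_lit 6066166550) (nat_lit 320) (nat_lit 5) (nat_lit 329) (nat_lit 5) (nat_lit 330) (nat_lit 5) (nat_lit 588) (nat_lit 535) (nat_lit 437)) (XT.lf (nat_lit 0) (nat_lit 6639065384) (nat_lit 760) (nat_lit 1561148764) (nat_lit 76) (nat_lit 2185892167) (nat_lit 320) (nat_lit 5) (nat_lit 330) (nat_lit 5) (nat_lit 321) (nat_lit 5) (nat_lit 589) (nat_lit 535) (nat_lit 436))))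 (XT.nd (nat_lit 156) (nat_lit 684) (nat_lit 0) (XT.nd (nat_lit 78) (nat_lit 684) (nat_lit 0) (XT.lf (nat_lit 0) (nat_lit 4952548180) (nat_lit 684) (nat_lit 4180720513) (nat_lit 760) (nat_lit 1359495299) (nat_lit 311) (nat_lit 5) (nat_lit 320) (nat_lit 5) (nat_lit 321) (nat_lit 5) (nat_lit 590) (nat_lit 535) (nat_lit 435)) (XT.lf (nat_lit 0) (nat_lit 994983821) (nat_lit 608) (nat_lit 60995175) (nat_lit 684) (nat_lit 9545552121) (nat_lit 302) (nat_lit 5) (nat_lit 310) (nat_lit 5) (nat_lit 311) (nat_lit 5) (nat_lit 591) (nat_lit 535) (nat_lit 434))) (XT.nd (nat_lit 78) (nat_lit 684) (nat_lit 0) (XT.lf (nat_lit 0) (nat_lit 3543406975) (nat_lit 684) (nat_lit 3039466986) (nat_lit 76) (nat_lit 4128584642) (nat_lit 302) (nat_lit 5) (nat_lit 311) (nat_lit 5) (nat_lit 303) (nat_lit 5) (nat_lit 592) (nat_lit 535) (nat_lit 433)) (XT.lf (nat_lit 0) (nat_lit 3679765630) (nat_lit 684) (nat_lit 2403074009) (nat_lit 760) (nat_lit 4740701543) (nat_lit 293) (nat_lit 5) (nat_lit 302)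 (nat_lit 5) (nat_lit 303) (nat_lit 5) (nat_lit 593) (nat_lit 535) (nat_lit 432)))))) (XT.nd (nat_lit 546) (nat_lit 2660) (nat_lit 0) (XT.nd (nat_lit 234) (nat_lit 1292) (nat_lit 0) (XT.nd (nat_lit 78) (nat_lit 1292) (nat_lit 0) (XT.lf (nat_lit 0) (nat_lit 8683856277) (nat_lit 760) (nat_lit 402359781) (nat_lit 76) (nat_lit 1851435082) (nat_lit 293) (nat_lit 5) (nat_lit 303) (nat_lit 5) (nat_lit 294) (nat_lit 5) (nat_lit 594) (nat_lit 535) (nat_lit 431)) (XT.nd (nat_lit 78) (nat_lit 608) (nat_lit 0) (XT.lf (nat_lit 0) (nat_lit 316220951) (nat_lit 684) (nat_lit 4538688634) (nat_lit 76) (nat_lit 6198356942) (nat_lit 284) (nat_lit 5) (nat_lit 293) (nat_lit 5) (nat_lit 285) (nat_lit 5) (nat_lit 595) (nat_lit 535) (nat_lit 430)) (XT.lf (nat_lit 0) (nat_lit 2393773134) (nat_lit 608) (nat_lit 510692194) (nat_lit 684) (nat_lit 8266492349) (nat_lit 276) (nat_lit 5) (nat_lit 284) (nat_lit 5) (nat_lit 285) (nat_lit 5) (nat_lit 596) (nat_lit 535) (nat_lit 429)))) (XT.nd (nat_lit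 156) (nat_lit 684) (nat_lit 0) (XT.nd (nat_lit 78) (nat_lit 608) (nat_lit 0) (XT.lf (nat_lit 0) (nat_lit 5579513205) (nat_lit 684) (nat_lit 1816697076) (nat_lit 76) (nat_lit 3894093106) (nat_lit 276) (nat_lit 5) (nat_lit 285) (nat_lit 5) (nat_lit 277) (nat_lit 5) (nat_lit 597) (nat_lit 535) (nat_lit 428)) (XT.lf (nat_lit 0) (nat_lit 5322904191) (nat_lit 608) (nat_lit 3002438974) (nat_lit 684) (nat_lit 3086348703) (nat_lit 268) (nat_lit 5) (nat_lit 276) (nat_lit 5) (nat_lit 277) (nat_lit 5) (nat_lit 598) (nat_lit 535) (nat_lit 427))) (XT.nd (nat_lit 78) (nat_lit 76) (nat_lit 0) (XT.lf (nat_lit 0) (nat_lit 1072316128) (nat_lit 608) (nat_lit 10062146318) (nat_lit 684) (nat_lit 400879670) (nat_lit 260) (nat_lit 5) (nat_lit 268) (nat_lit 5) (nat_lit 269) (nat_lit 5) (nat_lit 599) (nat_lit 535) (nat_lit 426)) (XT.lf (nat_lit 0) (nat_lit 2348273107) (nat_lit 684) (nat_lit 3263625208) (nat_lit 76) (nat_lit 6048451981) (nat_lit 259) (nat_lit 5) (nat_lit 268) (nat_lit 5)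 (nat_lit 260) (nat_lit 5) (nat_lit 600) (nat_lit 535) (nat_lit 425))))) (XT.nd (nat_lit 234) (nat_lit 1596) (nat_lit 0) (XT.nd (nat_lit 78) (nat_lit 532) (nat_lit 0) (XT.lf (nat_lit 0) (nat_lit 4104649750) (nat_lit 532) (nat_lit 1049074294) (nat_lit 608) (nat_lit 6633949307) (nat_lit 252) (nat_lit 5) (nat_lit 259) (nat_lit 5) (nat_lit 260) (nat_lit 5) (nat_lit 601) (nat_lit 535) (nat_lit 424)) (XT.nd (nat_lit 78) (nat_lit 532) (nat_lit 0) (XT.lf (nat_lit 0) (nat_lit 8040944207) (nat_lit 608) (nat_lit 302600723) (nat_lit 76) (nat_lit 3573486075) (nat_lit 252) (nat_lit 5) (nat_lit 260) (nat_lit 5) (nat_lit 253) (nat_lit 5) (nat_lit 602) (nat_lit 535) (nat_lit 423)) (XT.lf (nat_lit 0) (nat_lit 7288112873) (nat_lit 532) (nat_lit 3732659179) (nat_lit 608) (nat_lit 1027507809) (nat_lit 245) (nat_lit 5) (nat_lit 252) (nat_lit 5) (nat_lit 253) (nat_lit 5) (nat_lit 603) (nat_lit 535) (nat_lit 422)))) (XT.nd (nat_lit 156) (nat_lit 988) (nat_lit 0) (XT.nd (nat_lit 78) (nat_lit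 0) (nat_lit 0) (XT.lf (nat_lit 0) (nat_lit 1861126826) (nat_lit 608) (nat_lit 9336578496) (nat_lit 76) (nat_lit 984051464) (nat_lit 237) (nat_lit 5) (nat_lit 245) (nat_lit 5) (nat_lit 238) (nat_lit 5) (nat_lit 604) (nat_lit 535) (nat_lit 421)) (XT.lf (nat_lit 0) (nat_lit 4831511165) (nat_lit 608) (nat_lit 1708054963) (nat_lit 76) (nat_lit 5777447817) (nat_lit 237) (nat_lit 5) (nat_lit 245) (nat_lit 5) (nat_lit 238) (nat_lit 5) (nat_lit 605) (nat_lit 535) (nat_lit 420))) (XT.nd (nat_lit 78) (nat_lit 456) (nat_lit 0) (XT.lf (nat_lit 0) (nat_lit 6127708432) (nat_lit 532) (nat_lit 1754603547) (nat_lit 608) (nat_lit 4572245307) (nat_lit 230) (nat_lit 5) (nat_lit 237) (nat_lit 5) (nat_lit 238) (nat_lit 5) (nat_lit 606) (nat_lit 535) (nat_lit 419)) (XT.lf (nat_lit 0) (nat_lit 1522457862) (nat_lit 456) (nat_lit 9494770967) (nat_lit 532) (nat_lit 1577161854) (nat_lit 224) (nat_lit 5) (nat_lit 230) (nat_lit 5) (nat_lit 231) (nat_lit 5) (nat_lit 607) (nat_lit 535) (nat_lit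 418))))))) (XT.nd (nat_lit 1014) (nat_lit 3420) (nat_lit 0) (XT.nd (nat_lit 468) (nat_lit 2280) (nat_lit 0) (XT.nd (nat_lit 234) (nat_lit 532) (nat_lit 0) (XT.nd (nat_lit 78) (nat_lit 988) (nat_lit 0) (XT.lf (nat_lit 0) (nat_lit 1494254982) (nat_lit 532) (nat_lit 3169087428) (nat_lit 76) (nat_lit 8072771309) (nat_lit 223) (nat_lit 5) (nat_lit 230) (nat_lit 5) (nat_lit 224) (nat_lit 5) (nat_lit 608) (nat_lit 535) (nat_lit 417)) (XT.nd (nat_lit 78) (nat_lit 456) (nat_lit 0) (XT.lf (nat_lit 0) (nat_lit 4621720818) (nat_lit 608) (nat_lit 7961661535) (nat_lit 76) (nat_lit 296766707) (nat_lit 216) (nat_lit 5) (nat_lit 224) (nat_lit 5) (nat_lit 217) (nat_lit 5) (nat_lit 609) (nat_lit 535) (nat_lit 416)) (XT.lf (nat_lit 0) (nat_lit 129232550) (nat_lit 456) (nat_lit 7717597619) (nat_lit 532) (nat_lit 5179534153) (nat_lit 210) (nat_lit 5) (nat_lit 216) (nat_lit 5) (nat_lit 217) (nat_lit 5) (nat_lit 610) (nat_lit 535) (nat_lit 415)))) (XT.nd (nat_lit 78) (nat_lit 532) (nat_lit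 0) (XT.lf (nat_lit 0) (nat_lit 8464464691) (nat_lit 456) (nat_lit 2707557645) (nat_lit 532) (nat_lit 2002771018) (nat_lit 210) (nat_lit 5) (nat_lit 216) (nat_lit 5) (nat_lit 217) (nat_lit 5) (nat_lit 611) (nat_lit 535) (nat_lit 414)) (XT.nd (nat_lit 78) (nat_lit 0) (nat_lit 0) (XT.lf (nat_lit 0) (nat_lit 1243175507) (nat_lit 532) (nat_lit 9686698274) (nat_lit 76) (nat_lit 2395719955) (nat_lit 203) (nat_lit 5) (nat_lit 210) (nat_lit 5) (nat_lit 204) (nat_lit 5) (nat_lit 612) (nat_lit 535) (nat_lit 413)) (XT.lf (nat_lit 0) (nat_lit 4559518826) (nat_lit 532) (nat_lit 1316502208) (nat_lit 76) (nat_lit 7602479443) (nat_lit 203) (nat_lit 5) (nat_lit 210) (nat_lit 5) (nat_lit 204) (nat_lit 5) (nat_lit 613) (nat_lit 535) (nat_lit 412))))) (XT.nd (nat_lit 234) (nat_lit 1292) (nat_lit 0) (XT.nd (nat_lit 78) (nat_lit 532) (nat_lit 0) (XT.lf (nat_lit 0) (nat_lit 7291954132) (nat_lit 456) (nat_lit 680442745) (nat_lit 532) (nat_lit 5661465312) (nat_lit 197) (nat_lit 5) (nat_lit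 203) (nat_lit 5) (nat_lit 204) (nat_lit 5) (nat_lit 614) (nat_lit 535) (nat_lit 411)) (XT.nd (nat_lit 78) (nat_lit 76) (nat_lit 0) (XT.lf (nat_lit 0) (nat_lit 2273128357) (nat_lit 456) (nat_lit 9217035779) (nat_lit 532) (nat_lit 2301435345) (nat_lit 191) (nat_lit 5) (nat_lit 197) (nat_lit 5) (nat_lit 198) (nat_lit 5) (nat_lit 615) (nat_lit 535) (nat_lit 410)) (XT.lf (nat_lit 0) (nat_lit 1141426413) (nat_lit 532) (nat_lit 2842274844) (nat_lit 76) (nat_lit 9968037087) (nat_lit 190) (nat_lit 5) (nat_lit 197) (nat_lit 5) (nat_lit 191) (nat_lit 5) (nat_lit 616) (nat_lit 535) (nat_lit 409)))) (XT.nd (nat_lit 156) (nat_lit 456) (nat_lit 0) (XT.nd (nat_lit 78) (nat_lit 456) (nat_lit 0) (XT.lf (nat_lit 0) (nat_lit 4654105171) (nat_lit 456) (nat_lit 8076393250) (nat_lit 76) (nat_lit 1383642712) (nat_lit 185) (nat_lit 5) (nat_lit 191) (nat_lit 5) (nat_lit 186) (nat_lit 5) (nat_lit 617) (nat_lit 535) (nat_lit 408)) (XT.lf (nat_lit 0) (nat_lit 814059545) (nat_lit 456) (nat_lit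 7457344737) (nat_lit 532) (nat_lit 6007701264) (nat_lit 179) (nat_lit 5) (nat_lit 185) (nat_lit 5) (nat_lit 186) (nat_lit 5) (nat_lit 618) (nat_lit 535) (nat_lit 407))) (XT.nd (nat_lit 78) (nat_lit 456) (nat_lit 0) (XT.lf (nat_lit 0) (nat_lit 9967363970) (nat_lit 456) (nat_lit 2031546904) (nat_lit 532) (nat_lit 2447702028) (nat_lit 179) (nat_lit 5) (nat_lit 185) (nat_lit 5) (nat_lit 186) (nat_lit 5) (nat_lit 619) (nat_lit 535) (nat_lit 406)) (XT.lf (nat_lit 0) (nat_lit 1205418262) (nat_lit 456) (nat_lit 9923707663) (nat_lit 76) (nat_lit 3487442790) (nat_lit 173) (nat_lit 5) (nat_lit 179) (nat_lit 5) (nat_lit 174) (nat_lit 5) (nat_lit 620) (nat_lit 535) (nat_lit 405)))))) (XT.nd (nat_lit 546) (nat_lit 1824) (nat_lit 0) (XT.nd (nat_lit 234) (nat_lit 836) (nat_lit 0) (XT.nd (nat_lit 78) (nat_lit 760) (nat_lit 0) (XT.lf (nat_lit 0) (nat_lit 4926553978) (nat_lit 456) (nat_lit 734334636) (nat_lit 76) (nat_lit 9128157724) (nat_lit 173) (nat_lit 5) (nat_lit 179) (nat_lit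 5) (nat_lit 174) (nat_lit 5) (nat_lit 621) (nat_lit 535) (nat_lit 404)) (XT.nd (nat_lit 78) (nat_lit 380) (nat_lit 0) (XT.lf (nat_lit 0) (nat_lit 8729511209) (nat_lit 380) (nat_lit 33578957) (nat_lit 456) (nat_lit 6201064608) (nat_lit 168) (nat_lit 5) (nat_lit 173) (nat_lit 5) (nat_lit 174) (nat_lit 5) (nat_lit 622) (nat_lit 535) (nat_lit 403)) (XT.lf (nat_lit 0) (nat_lit 3231312660) (nat_lit 380) (nat_lit 9492435277) (nat_lit 456) (nat_lit 2418070426) (nat_lit 163) (nat_lit 5) (nat_lit 168) (nat_lit 5) (nat_lit 169) (nat_lit 5) (nat_lit 623) (nat_lit 535) (nat_lit 402)))) (XT.nd (nat_lit 156) (nat_lit 380) (nat_lit 0) (XT.nd (nat_lit 78) (nat_lit 380) (nat_lit 0) (XT.lf (nat_lit 0) (nat_lit 1448477589) (nat_lit 456) (nat_lit 2384907299) (nat_lit 76) (nat_lit 11488928291) (nat_lit 162) (nat_lit 5) (nat_lit 168) (nat_lit 5) (nat_lit 163) (nat_lit 5) (nat_lit 624) (nat_lit 535) (nat_lit 401)) (XT.lf (nat_lit 0) (nat_lit 5405694281) (nat_lit 456) (nat_lit 8129796765)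 (nat_lit 76) (nat_lit 1969693620) (nat_lit 157) (nat_lit 5) (nat_lit 163) (nat_lit 5) (nat_lit 158) (nat_lit 5) (nat_lit 625) (nat_lit 535) (nat_lit 400))) (XT.nd (nat_lit 78) (nat_lit 0) (nat_lit 0) (XT.lf (nat_lit 0) (nat_lit 1644315022) (nat_lit 380) (nat_lit 7834762030) (nat_lit 456) (nat_lit 6211896832) (nat_lit 152) (nat_lit 5) (nat_lit 157) (nat_lit 5) (nat_lit 158) (nat_lit 5) (nat_lit 626) (nat_lit 535) (nat_lit 399)) (XT.lf (nat_lit 0) (nat_lit 11700684347) (nat_lit 380) (nat_lit 1972792463) (nat_lit 456) (nat_lit 2206211818) (nat_lit 152) (nat_lit 5) (nat_lit 157) (nat_lit 5) (nat_lit 158) (nat_lit 5) (nat_lit 627) (nat_lit 535) (nat_lit 398))))) (XT.nd (nat_lit 234) (nat_lit 1064) (nat_lit 0) (XT.nd (nat_lit 78) (nat_lit 304) (nat_lit 0) (XT.lf (nat_lit 0) (nat_lit 1904910812) (nat_lit 456) (nat_lit 10169367138) (nat_lit 76) (nat_lit 3996656842) (nat_lit 146) (nat_lit 5) (nat_lit 152) (nat_lit 5) (nat_lit 147) (nat_lit 5) (nat_lit 628) (nat_lit 535)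 (nat_lit 397)) (XT.nd (nat_lit 78) (nat_lit 304) (nat_lit 0) (XT.lf (nat_lit 0) (nat_lit 6095313247) (nat_lit 456) (nat_lit 76159623) (nat_lit 76) (nat_lit 10093710061) (nat_lit 146) (nat_lit 5) (nat_lit 152) (nat_lit 5) (nat_lit 147) (nat_lit 5) (nat_lit 629) (nat_lit 535) (nat_lit 396)) (XT.lf (nat_lit 0) (nat_lit 10331617079) (nat_lit 304) (nat_lit 90552076) (nat_lit 380) (nat_lit 6040094640) (nat_lit 142) (nat_lit 5) (nat_lit 146) (nat_lit 5) (nat_lit 147) (nat_lit 5) (nat_lit 630) (nat_lit 535) (nat_lit 395)))) (XT.nd (nat_lit 156) (nat_lit 608) (nat_lit 0) (XT.nd (nat_lit 78) (nat_lit 76) (nat_lit 0) (XT.lf (nat_lit 0) (nat_lit 4278858736) (nat_lit 380) (nat_lit 10610329670) (nat_lit 456) (nat_lit 1773026002) (nat_lit 137) (nat_lit 5) (nat_lit 142) (nat_lit 5) (nat_lit 143) (nat_lit 5) (nat_lit 631) (nat_lit 535) (nat_lit 394)) (XT.lf (nat_lit 0) (nat_lit 2573253486) (nat_lit 456) (nat_lit 1926222377) (nat_lit 76) (nat_lit 12365799890) (nat_lit 136) (nat_lit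 5) (nat_lit 142) (nat_lit 5) (nat_lit 137) (nat_lit 5) (nat_lit 632) (nat_lit 535) (nat_lit 393))) (XT.nd (nat_lit 78) (nat_lit 304) (nat_lit 0) (XT.lf (nat_lit 0) (nat_lit 7037640376) (nat_lit 380) (nat_lit 8261418818) (nat_lit 76) (nat_lit 1772006901) (nat_lit 132) (nat_lit 5) (nat_lit 137) (nat_lit 5) (nat_lit 133) (nat_lit 5) (nat_lit 633) (nat_lit 535) (nat_lit 392)) (XT.lf (nat_lit 0) (nat_lit 2485803809) (nat_lit 304) (nat_lit 9150502889) (nat_lit 380) (nat_lit 5643766321) (nat_lit 128) (nat_lit 5) (nat_lit 132) (nat_lit 5) (nat_lit 133) (nat_lit 5) (nat_lit 634) (nat_lit 535) (nat_lit 391))))))))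
noncomputable def xc114 : XT := (XT.nd (nat_lit 73944) (nat_lit 0) (nat_lit 30552) (XT.nd (nat_lit 1014) (nat_lit 1292) (nat_lit 0) (XT.nd (nat_lit 468) (nat_lit 1520) (nat_lit 0) (XT.nd (nat_lit 234) (nat_lit 380) (nat_lit 0) (XT.nd (nat_lit 78) (nat_lit 684) (nat_lit 0) (XT.lf (nat_lit 0) (nat_lit 13537559375) (nat_lit 304) (nat_lit 2830996478) (nat_lit 380) (nat_lit 1123872633) (nat_lit 128) (nat_lit 5) (nat_lit 132) (nat_lit 5) (nat_lit 133) (nat_lit 5) (nat_lit 635) (nat_lit 535) (nat_lit 390)) (XT.nd (nat_lit 78) (nat_lit 304) (nat_lit 0) (XT.lf (nat_lit 0) (nat_lit 3497342922) (nat_lit 380) (nat_lit 10581475358) (nat_lit 76) (nat_lit 3628627652) (nat_lit 123) (nat_lit 5) (nat_lit 128) (nat_lit 5) (nat_lit 124) (nat_lit 5) (nat_lit 636) (nat_lit 535) (nat_lit 389)) (XT.lf (nat_lit 0) (nat_lit 513966848) (nat_lit 304) (nat_lit 7717203338) (nat_lit 380) (nat_lit 9694740803) (nat_lit 119) (nat_lit 5) (nat_lit 123) (nat_lit 5) (nat_lit 124) (nat_lit 5) (nat_lit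 637) (nat_lit 535) (nat_lit 388)))) (XT.nd (nat_lit 78) (nat_lit 380) (nat_lit 0) (XT.lf (nat_lit 0) (nat_lit 11952688323) (nat_lit 304) (nat_lit 1164537571) (nat_lit 380) (nat_lit 5030368966) (nat_lit 119) (nat_lit 5) (nat_lit 123) (nat_lit 5) (nat_lit 124) (nat_lit 5) (nat_lit 638) (nat_lit 535) (nat_lit 387)) (XT.nd (nat_lit 78) (nat_lit 76) (nat_lit 0) (XT.lf (nat_lit 0) (nat_lit 5257752807) (nat_lit 304) (nat_lit 12899974574) (nat_lit 380) (nat_lit 214851073) (nat_lit 115) (nat_lit 5) (nat_lit 119) (nat_lit 5) (nat_lit 120) (nat_lit 5) (nat_lit 639) (nat_lit 535) (nat_lit 386)) (XT.lf (nat_lit 0) (nat_lit 4671719094) (nat_lit 380) (nat_lit 1638148380) (nat_lit 76) (nat_lit 12290857973) (nat_lit 114) (nat_lit 5) (nat_lit 119) (nat_lit 5) (nat_lit 115) (nat_lit 5) (nat_lit 640) (nat_lit 535) (nat_lit 385))))) (XT.nd (nat_lit 234) (nat_lit 912) (nat_lit 0) (XT.nd (nat_lit 78) (nat_lit 304) (nat_lit 0) (XT.lf (nat_lit 0) (nat_lit 9709344699) (nat_lit 380) (nat_lit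 8656721848) (nat_lit 76) (nat_lit 466216920) (nat_lit 110) (nat_lit 5) (nat_lit 115) (nat_lit 5) (nat_lit 111) (nat_lit 5) (nat_lit 641) (nat_lit 535) (nat_lit 384)) (XT.nd (nat_lit 78) (nat_lit 76) (nat_lit 0) (XT.lf (nat_lit 0) (nat_lit 3157544306) (nat_lit 228) (nat_lit 11750637165) (nat_lit 304) (nat_lit 4159082502) (nat_lit 107) (nat_lit 5) (nat_lit 110) (nat_lit 5) (nat_lit 111) (nat_lit 5) (nat_lit 642) (nat_lit 535) (nat_lit 383)) (XT.lf (nat_lit 0) (nat_lit 937803919) (nat_lit 304) (nat_lit 4008132735) (nat_lit 76) (nat_lit 14359978323) (nat_lit 106) (nat_lit 5) (nat_lit 110) (nat_lit 5) (nat_lit 107) (nat_lit 5) (nat_lit 643) (nat_lit 535) (nat_lit 382)))) (XT.nd (nat_lit 156) (nat_lit 380) (nat_lit 0) (XT.nd (nat_lit 78) (nat_lit 228) (nat_lit 0) (XT.lf (nat_lit 0) (nat_lit 6134984066) (nat_lit 380) (nat_lit 11371163500) (nat_lit 76) (nat_lit 2041561151) (nat_lit 102) (nat_lit 5) (nat_lit 107) (nat_lit 5) (nat_lit 103) (nat_lit 5) (nat_lit 644) (nat_lit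 535) (nat_lit 381)) (XT.lf (nat_lit 0) (nat_lit 822126983) (nat_lit 228) (nat_lit 10666590342) (nat_lit 304) (nat_lit 8304569276) (nat_lit 99) (nat_lit 5) (nat_lit 102) (nat_lit 5) (nat_lit 103) (nat_lit 5) (nat_lit 645) (nat_lit 535) (nat_lit 380))) (XT.nd (nat_lit 78) (nat_lit 380) (nat_lit 0) (XT.lf (nat_lit 0) (nat_lit 13392391355) (nat_lit 228) (nat_lit 3620992435) (nat_lit 304) (nat_lit 3029115534) (nat_lit 99) (nat_lit 5) (nat_lit 102) (nat_lit 5) (nat_lit 103) (nat_lit 5) (nat_lit 646) (nat_lit 535) (nat_lit 379)) (XT.lf (nat_lit 0) (nat_lit 2370861997) (nat_lit 380) (nat_lit 14359842938) (nat_lit 76) (nat_lit 3564689212) (nat_lit 94) (nat_lit 5) (nat_lit 99) (nat_lit 5) (nat_lit 95) (nat_lit 5) (nat_lit 647) (nat_lit 535) (nat_lit 378)))))) (XT.nd (nat_lit 546) (nat_lit 228) (nat_lit 0) (XT.nd (nat_lit 234) (nat_lit 608) (nat_lit 0) (XT.nd (nat_lit 78) (nat_lit 456) (nat_lit 0) (XT.lf (nat_lit 0) (nat_lit 7894985210) (nat_lit 380) (nat_lit 1754557448)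 (nat_lit 76) (nat_lit 10902270065) (nat_lit 94) (nat_lit 5) (nat_lit 99) (nat_lit 5) (nat_lit 95) (nat_lit 5) (nat_lit 648) (nat_lit 535) (nat_lit 377)) (XT.nd (nat_lit 78) (nat_lit 228) (nat_lit 0) (XT.lf (nat_lit 0) (nat_lit 11229686990) (nat_lit 228) (nat_lit 2360821073) (nat_lit 304) (nat_lit 7221633680) (nat_lit 91) (nat_lit 5) (nat_lit 94) (nat_lit 5) (nat_lit 95) (nat_lit 5) (nat_lit 649) (nat_lit 535) (nat_lit 376)) (XT.lf (nat_lit 0) (nat_lit 3411201424) (nat_lit 228) (nat_lit 16043736839) (nat_lit 304) (nat_lit 1621639551) (nat_lit 88) (nat_lit 5) (nat_lit 91) (nat_lit 5) (nat_lit 92) (nat_lit 5) (nat_lit 650) (nat_lit 535) (nat_lit 375)))) (XT.nd (nat_lit 156) (nat_lit 304) (nat_lit 0) (XT.nd (nat_lit 78) (nat_lit 228) (nat_lit 0) (XT.lf (nat_lit 0) (nat_lit 4105151252) (nat_lit 304) (nat_lit 4613510355) (nat_lit 76) (nat_lit 12625741396) (nat_lit 87) (nat_lit 5) (nat_lit 91) (nat_lit 5) (nat_lit 88) (nat_lit 5) (nat_lit 651) (nat_lit 535) (nat_lit 374))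 (XT.lf (nat_lit 0) (nat_lit 8783756653) (nat_lit 228) (nat_lit 1186370274) (nat_lit 304) (nat_lit 11646336517) (nat_lit 84) (nat_lit 5) (nat_lit 87) (nat_lit 5) (nat_lit 88) (nat_lit 5) (nat_lit 652) (nat_lit 535) (nat_lit 373))) (XT.nd (nat_lit 78) (nat_lit 76) (nat_lit 0) (XT.lf (nat_lit 0) (nat_lit 563016362) (nat_lit 228) (nat_lit 15454743042) (nat_lit 304) (nat_lit 5874898922) (nat_lit 81) (nat_lit 5) (nat_lit 84) (nat_lit 5) (nat_lit 85) (nat_lit 5) (nat_lit 653) (nat_lit 535) (nat_lit 372)) (XT.lf (nat_lit 0) (nat_lit 94730962) (nat_lit 304) (nat_lit 7800720236) (nat_lit 76) (nat_lit 14277266306) (nat_lit 80) (nat_lit 5) (nat_lit 84) (nat_lit 5) (nat_lit 81) (nat_lit 5) (nat_lit 654) (nat_lit 535) (nat_lit 371))))) (XT.nd (nat_lit 72072) (nat_lit 0) (nat_lit 44612) (XT.nd (nat_lit 71916) (nat_lit 0) (nat_lit 45676) (XT.lf (nat_lit 0) (nat_lit 6019044196) (nat_lit 228) (nat_lit 113804596) (nat_lit 304) (nat_lit 16324197562) (nat_lit 77) (nat_lit 5) (nat_lit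 80) (nat_lit 5) (nat_lit 81) (nat_lit 5) (nat_lit 655) (nat_lit 535) (nat_lit 370)) (XT.nd (nat_lit 78) (nat_lit 0) (nat_lit 0) (XT.lf (nat_lit 0) (nat_lit 391142977) (nat_lit 0) (nat_lit 391142977) (nat_lit 988) (nat_lit 2682409387) (nat_lit 678) (nat_lit 5) (nat_lit 678) (nat_lit 3) (nat_lit 691) (nat_lit 3) (nat_lit 536) (nat_lit 536) (nat_lit 488)) (XT.lf (nat_lit 0) (nat_lit 3483769386) (nat_lit 988) (nat_lit 2709246941) (nat_lit 1064) (nat_lit 767357800) (nat_lit 678) (nat_lit 5) (nat_lit 691) (nat_lit 3) (nat_lit 692) (nat_lit 5) (nat_lit 537) (nat_lit 536) (nat_lit 487)))) (XT.nd (nat_lit 156) (nat_lit 0) (nat_lit 0) (XT.nd (nat_lit 78) (nat_lit 1064) (nat_lit 0) (XT.lf (nat_lit 76) (nat_lit 776305563) (nat_lit 0) (nat_lit 4625629479) (nat_lit 1064) (nat_lit 1590836795) (nat_lit 679) (nat_lit 5) (nat_lit 678) (nat_lit 5) (nat_lit 692) (nat_lit 5) (nat_lit 538) (nat_lit 536) (nat_lit 486)) (XT.lf (nat_lit 0) (nat_lit 297423600) (nat_lit 1064) (nat_lit 2685991399)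 (nat_lit 1140) (nat_lit 4042982548) (nat_lit 664) (nat_lit 5) (nat_lit 678) (nat_lit 5) (nat_lit 679) (nat_lit 5) (nat_lit 539) (nat_lit 536) (nat_lit 485))) (XT.nd (nat_lit 78) (nat_lit 0) (nat_lit 76) (XT.lf (nat_lit 76) (nat_lit 890202386) (nat_lit 0) (nat_lit 1269548087) (nat_lit 1140) (nat_lit 4901588855) (nat_lit 665) (nat_lit 5) (nat_lit 664) (nat_lit 5) (nat_lit 679) (nat_lit 5) (nat_lit 540) (nat_lit 536) (nat_lit 484)) (XT.lf (nat_lit 0) (nat_lit 4033295044) (nat_lit 1064) (nat_lit 2552470164) (nat_lit 1140) (nat_lit 511741116) (nat_lit 665) (nat_lit 5) (nat_lit 679) (nat_lit 5) (nat_lit 680) (nat_lit 5) (nat_lit 541) (nat_lit 536) (nat_lit 483))))))) (XT.nd (nat_lit 1014) (nat_lit 10640) (nat_lit 0) (XT.nd (nat_lit 468) (nat_lit 1216) (nat_lit 0) (XT.nd (nat_lit 234) (nat_lit 1140) (nat_lit 0) (XT.nd (nat_lit 78) (nat_lit 1140) (nat_lit 0) (XT.lf (nat_lit 76) (nat_lit 1118405588) (nat_lit 0) (nat_lit 4795221022) (nat_lit 1140) (nat_lit 1221389415) (nat_lit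 666) (nat_lit 5) (nat_lit 665) (nat_lit 5) (nat_lit 680) (nat_lit 5) (nat_lit 542) (nat_lit 536) (nat_lit 482)) (XT.nd (nat_lit 78) (nat_lit 0) (nat_lit 0) (XT.lf (nat_lit 0) (nat_lit 620975087) (nat_lit 1140) (nat_lit 2306889321) (nat_lit 1216) (nat_lit 4245905104) (nat_lit 650) (nat_lit 5) (nat_lit 665) (nat_lit 5) (nat_lit 666) (nat_lit 5) (nat_lit 543) (nat_lit 536) (nat_lit 481)) (XT.lf (nat_lit 76) (nat_lit 1461768960) (nat_lit 0) (nat_lit 986547937) (nat_lit 1216) (nat_lit 4765535375) (nat_lit 651) (nat_lit 5) (nat_lit 650) (nat_lit 5) (nat_lit 666) (nat_lit 5) (nat_lit 544) (nat_lit 536) (nat_lit 480)))) (XT.nd (nat_lit 78) (nat_lit 1216) (nat_lit 0) (XT.lf (nat_lit 0) (nat_lit 4290048618) (nat_lit 1140) (nat_lit 1951085657) (nat_lit 1216) (nat_lit 1014050806) (nat_lit 651) (nat_lit 5) (nat_lit 666) (nat_lit 5) (nat_lit 667) (nat_lit 5) (nat_lit 545) (nat_lit 536) (nat_lit 479)) (XT.nd (nat_lit 78) (nat_lit 1216) (nat_lit 0) (XT.lf (nat_lit 76) (nat_lit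 1917909226) (nat_lit 0) (nat_lit 4226367041) (nat_lit 1216) (nat_lit 1153560206) (nat_lit 652) (nat_lit 5) (nat_lit 651) (nat_lit 5) (nat_lit 667) (nat_lit 5) (nat_lit 546) (nat_lit 536) (nat_lit 478)) (XT.lf (nat_lit 0) (nat_lit 655387679) (nat_lit 1216) (nat_lit 1481985034) (nat_lit 1292) (nat_lit 5204478075) (nat_lit 635) (nat_lit 5) (nat_lit 651) (nat_lit 5) (nat_lit 652) (nat_lit 5) (nat_lit 547) (nat_lit 536) (nat_lit 477))))) (XT.nd (nat_lit 234) (nat_lit 1292) (nat_lit 0) (XT.nd (nat_lit 78) (nat_lit 0) (nat_lit 0) (XT.lf (nat_lit 0) (nat_lit 2459389129) (nat_lit 1216) (nat_lit 4894879210) (nat_lit 1292) (nat_lit 32842989) (nat_lit 636) (nat_lit 5) (nat_lit 652) (nat_lit 5) (nat_lit 653) (nat_lit 5) (nat_lit 548) (nat_lit 536) (nat_lit 476)) (XT.nd (nat_lit 78) (nat_lit 0) (nat_lit 0) (XT.lf (nat_lit 0) (nat_lit 4282296137) (nat_lit 1216) (nat_lit 908546646) (nat_lit 1292) (nat_lit 2242782544) (nat_lit 636) (nat_lit 5) (nat_lit 652) (nat_lit 5) (nat_lit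 653) (nat_lit 5) (nat_lit 549) (nat_lit 536) (nat_lit 475)) (XT.lf (nat_lit 76) (nat_lit 3172383525) (nat_lit 0) (nat_lit 2949345547) (nat_lit 1292) (nat_lit 1359743845) (nat_lit 637) (nat_lit 5) (nat_lit 636) (nat_lit 5) (nat_lit 653) (nat_lit 5) (nat_lit 550) (nat_lit 536) (nat_lit 474)))) (XT.nd (nat_lit 156) (nat_lit 0) (nat_lit 76) (XT.nd (nat_lit 78) (nat_lit 0) (nat_lit 76) (XT.lf (nat_lit 0) (nat_lit 427500813) (nat_lit 1292) (nat_lit 213082389) (nat_lit 1368) (nat_lit 6890318789) (nat_lit 619) (nat_lit 5) (nat_lit 636) (nat_lit 5) (nat_lit 637) (nat_lit 5) (nat_lit 551) (nat_lit 536) (nat_lit 473)) (XT.lf (nat_lit 0) (nat_lit 2230207487) (nat_lit 1292) (nat_lit 3611368304) (nat_lit 1368) (nat_lit 1739610013) (nat_lit 620) (nat_lit 5) (nat_lit 637) (nat_lit 5) (nat_lit 638) (nat_lit 5) (nat_lit 552) (nat_lit 536) (nat_lit 472))) (XT.nd (nat_lit 78) (nat_lit 0) (nat_lit 0) (XT.lf (nat_lit 76) (nat_lit 582958587) (nat_lit 0) (nat_lit 3456769527) (nat_lit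 1368) (nat_lit 3593336293) (nat_lit 621) (nat_lit 5) (nat_lit 620) (nat_lit 5) (nat_lit 638) (nat_lit 5) (nat_lit 553) (nat_lit 536) (nat_lit 471)) (XT.lf (nat_lit 76) (nat_lit 4883052000) (nat_lit 0) (nat_lit 988497749) (nat_lit 1368) (nat_lit 1814712849) (nat_lit 621) (nat_lit 5) (nat_lit 620) (nat_lit 5) (nat_lit 638) (nat_lit 5) (nat_lit 554) (nat_lit 536) (nat_lit 470)))))) (XT.nd (nat_lit 546) (nat_lit 6612) (nat_lit 0) (XT.nd (nat_lit 234) (nat_lit 2812) (nat_lit 0) (XT.nd (nat_lit 78) (nat_lit 1368) (nat_lit 0) (XT.lf (nat_lit 76) (nat_lit 1511149107) (nat_lit 0) (nat_lit 6211292551) (nat_lit 1368) (nat_lit 18438560) (nat_lit 622) (nat_lit 5) (nat_lit 621) (nat_lit 5) (nat_lit 639) (nat_lit 5) (nat_lit 555) (nat_lit 536) (nat_lit 469)) (XT.nd (nat_lit 78) (nat_lit 0) (nat_lit 0) (XT.lf (nat_lit 0) (nat_lit 1778457215) (nat_lit 1368) (nat_lit 1892546634) (nat_lit 1444) (nat_lit 4125585126) (nat_lit 603) (nat_lit 5) (nat_lit 621) (nat_lit 5) (nat_lit 622)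 (nat_lit 5) (nat_lit 556) (nat_lit 536) (nat_lit 468)) (XT.lf (nat_lit 76) (nat_lit 2537400766) (nat_lit 0) (nat_lit 1053845288) (nat_lit 1444) (nat_lit 4262563278) (nat_lit 604) (nat_lit 5) (nat_lit 603) (nat_lit 5) (nat_lit 622) (nat_lit 5) (nat_lit 557) (nat_lit 536) (nat_lit 467)))) (XT.nd (nat_lit 156) (nat_lit 1520) (nat_lit 0) (XT.nd (nat_lit 78) (nat_lit 1368) (nat_lit 0) (XT.lf (nat_lit 0) (nat_lit 5427885184) (nat_lit 1368) (nat_lit 868627175) (nat_lit 76) (nat_lit 1615913675) (nat_lit 604) (nat_lit 5) (nat_lit 622) (nat_lit 5) (nat_lit 605) (nat_lit 5) (nat_lit 558) (nat_lit 536) (nat_lit 466)) (XT.lf (nat_lit 0) (nat_lit 3682233557) (nat_lit 1368) (nat_lit 3614930257) (nat_lit 1444) (nat_lit 675136876) (nat_lit 586) (nat_lit 5) (nat_lit 604) (nat_lit 5) (nat_lit 605) (nat_lit 5) (nat_lit 559) (nat_lit 536) (nat_lit 465))) (XT.nd (nat_lit 78) (nat_lit 0) (nat_lit 0) (XT.lf (nat_lit 0) (nat_lit 271070662) (nat_lit 1444) (nat_lit 856960009) (nat_lit 1520)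 (nat_lit 6905735263) (nat_lit 566) (nat_lit 5) (nat_lit 585) (nat_lit 5) (nat_lit 586) (nat_lit 5) (nat_lit 560) (nat_lit 536) (nat_lit 464)) (XT.lf (nat_lit 0) (nat_lit 2965756671) (nat_lit 1520) (nat_lit 3159690785) (nat_lit 76) (nat_lit 1970776606) (nat_lit 566) (nat_lit 5) (nat_lit 586) (nat_lit 5) (nat_lit 567) (nat_lit 5) (nat_lit 561) (nat_lit 536) (nat_lit 463))))) (XT.nd (nat_lit 234) (nat_lit 3420) (nat_lit 0) (XT.nd (nat_lit 78) (nat_lit 1672) (nat_lit 0) (XT.lf (nat_lit 0) (nat_lit 1522184071) (nat_lit 1520) (nat_lit 3300127772) (nat_lit 1596) (nat_lit 3337981485) (nat_lit 546) (nat_lit 5) (nat_lit 566) (nat_lit 5) (nat_lit 567) (nat_lit 5) (nat_lit 562) (nat_lit 536) (nat_lit 462)) (XT.nd (nat_lit 78) (nat_lit 1672) (nat_lit 0) (XT.lf (nat_lit 0) (nat_lit 6313229438) (nat_lit 1520) (nat_lit 390967569) (nat_lit 1596) (nat_lit 1521686392) (nat_lit 546) (nat_lit 5) (nat_lit 566) (nat_lit 5) (nat_lit 567) (nat_lit 5) (nat_lit 563) (nat_lit 536) (nat_lit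 461)) (XT.lf (nat_lit 0) (nat_lit 329855642) (nat_lit 1672) (nat_lit 5393710391) (nat_lit 76) (nat_lit 2569114308) (nat_lit 524) (nat_lit 5) (nat_lit 546) (nat_lit 5) (nat_lit 525) (nat_lit 5) (nat_lit 564) (nat_lit 536) (nat_lit 460)))) (XT.nd (nat_lit 156) (nat_lit 1748) (nat_lit 0) (XT.nd (nat_lit 78) (nat_lit 1672) (nat_lit 0) (XT.lf (nat_lit 0) (nat_lit 2181502908) (nat_lit 1672) (nat_lit 568253144) (nat_lit 76) (nat_lit 5611190209) (nat_lit 524) (nat_lit 5) (nat_lit 546) (nat_lit 5) (nat_lit 525) (nat_lit 5) (nat_lit 565) (nat_lit 536) (nat_lit 459)) (XT.lf (nat_lit 0) (nat_lit 4069255184) (nat_lit 1748) (nat_lit 4048641478) (nat_lit 76) (nat_lit 312702537) (nat_lit 502) (nat_lit 5) (nat_lit 525) (nat_lit 5) (nat_lit 503) (nat_lit 5) (nat_lit 566) (nat_lit 536) (nat_lit 458))) (XT.nd (nat_lit 78) (nat_lit 0) (nat_lit 0) (XT.lf (nat_lit 0) (nat_lit 903292403) (nat_lit 1748) (nat_lit 5088402005) (nat_lit 1824) (nat_lit 2510015229) (nat_lit 479) (nat_lit 5)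 (nat_lit 502) (nat_lit 5) (nat_lit 503) (nat_lit 5) (nat_lit 567) (nat_lit 536) (nat_lit 457)) (XT.lf (nat_lit 0) (nat_lit 5981701535) (nat_lit 1748) (nat_lit 1967496992) (nat_lit 1824) (nat_lit 625114452) (nat_lit 479) (nat_lit 5) (nat_lit 502) (nat_lit 5) (nat_lit 503) (nat_lit 5) (nat_lit 568) (nat_lit 536) (nat_lit 456))))))))
noncomputable def xc115 : XT := (XT.nd (nat_lit 2106) (nat_lit 8892) (nat_lit 0) (XT.nd (nat_lit 1014) (nat_lit 6460) (nat_lit 0) (XT.nd (nat_lit 468) (nat_lit 3420) (nat_lit 0) (XT.nd (nat_lit 234) (nat_lit 1900) (nat_lit 0) (XT.nd (nat_lit 78) (nat_lit 1064) (nat_lit 0) (XT.lf (nat_lit 0) (nat_lit 1274688980) (nat_lit 1900) (nat_lit 6146053390) (nat_lit 76) (nat_lit 1227576010) (nat_lit 454) (nat_lit 5) (nat_lit 479) (nat_lit 5) (nat_lit 455) (nat_lit 5) (nat_lit 569) (nat_lit 536) (nat_lit 455)) (XT.nd (nat_lit 78) (nat_lit 1064) (nat_lit 0) (XT.lf (nat_lit 0) (nat_lit 3204946253) (nat_lit 1900) (nat_lit 1034302541) (nat_lit 76) (nat_lit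 4484458737) (nat_lit 454) (nat_lit 5) (nat_lit 479) (nat_lit 5) (nat_lit 455) (nat_lit 5) (nat_lit 570) (nat_lit 536) (nat_lit 454)) (XT.lf (nat_lit 0) (nat_lit 4207667377) (nat_lit 1064) (nat_lit 964320499) (nat_lit 1140) (nat_lit 3628655794) (nat_lit 440) (nat_lit 5) (nat_lit 454) (nat_lit 5) (nat_lit 455) (nat_lit 5) (nat_lit 571) (nat_lit 536) (nat_lit 453)))) (XT.nd (nat_lit 78) (nat_lit 988) (nat_lit 0) (XT.lf (nat_lit 0) (nat_lit 655024655) (nat_lit 912) (nat_lit 6521279818) (nat_lit 988) (nat_lit 1702858109) (nat_lit 428) (nat_lit 5) (nat_lit 440) (nat_lit 5) (nat_lit 441) (nat_lit 5) (nat_lit 572) (nat_lit 536) (nat_lit 452)) (XT.nd (nat_lit 78) (nat_lit 912) (nat_lit 0) (XT.lf (nat_lit 0) (nat_lit 266900400) (nat_lit 988) (nat_lit 2924489046) (nat_lit 76) (nat_lit 5767653626) (nat_lit 427) (nat_lit 5) (nat_lit 440) (nat_lit 5) (nat_lit 428) (nat_lit 5) (nat_lit 573) (nat_lit 536) (nat_lit 451)) (XT.lf (nat_lit 0) (nat_lit 2242883141) (nat_lit 988) (nat_lit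 6566982167) (nat_lit 76) (nat_lit 230640715) (nat_lit 415) (nat_lit 5) (nat_lit 428) (nat_lit 5) (nat_lit 416) (nat_lit 5) (nat_lit 574) (nat_lit 536) (nat_lit 450))))) (XT.nd (nat_lit 234) (nat_lit 1748) (nat_lit 0) (XT.nd (nat_lit 78) (nat_lit 1672) (nat_lit 0) (XT.lf (nat_lit 0) (nat_lit 4271673339) (nat_lit 988) (nat_lit 1152975167) (nat_lit 76) (nat_lit 3698686496) (nat_lit 415) (nat_lit 5) (nat_lit 428) (nat_lit 5) (nat_lit 416) (nat_lit 5) (nat_lit 575) (nat_lit 536) (nat_lit 449)) (XT.nd (nat_lit 78) (nat_lit 836) (nat_lit 0) (XT.lf (nat_lit 0) (nat_lit 4399916022) (nat_lit 836) (nat_lit 1942629655) (nat_lit 912) (nat_lit 2865247233) (nat_lit 404) (nat_lit 5) (nat_lit 415) (nat_lit 5) (nat_lit 416) (nat_lit 5) (nat_lit 576) (nat_lit 536) (nat_lit 448)) (XT.lf (nat_lit 0) (nat_lit 757689337) (nat_lit 836) (nat_lit 7693594290) (nat_lit 912) (nat_lit 842729814) (nat_lit 393) (nat_lit 5) (nat_lit 404) (nat_lit 5) (nat_lit 405) (nat_lit 5) (nat_lit 577) (nat_lit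 536) (nat_lit 447)))) (XT.nd (nat_lit 156) (nat_lit 836) (nat_lit 0) (XT.nd (nat_lit 78) (nat_lit 836) (nat_lit 0) (XT.lf (nat_lit 0) (nat_lit 1223039637) (nat_lit 912) (nat_lit 2930208343) (nat_lit 76) (nat_lit 5228178178) (nat_lit 392) (nat_lit 5) (nat_lit 404) (nat_lit 5) (nat_lit 393) (nat_lit 5) (nat_lit 578) (nat_lit 536) (nat_lit 446)) (XT.lf (nat_lit 0) (nat_lit 2791975020) (nat_lit 836) (nat_lit 518986716) (nat_lit 912) (nat_lit 6159673843) (nat_lit 381) (nat_lit 5) (nat_lit 392) (nat_lit 5) (nat_lit 393) (nat_lit 5) (nat_lit 579) (nat_lit 536) (nat_lit 445))) (XT.nd (nat_lit 78) (nat_lit 836) (nat_lit 0) (XT.lf (nat_lit 0) (nat_lit 5455444992) (nat_lit 912) (nat_lit 941163313) (nat_lit 76) (nat_lit 3164727073) (nat_lit 381) (nat_lit 5) (nat_lit 393) (nat_lit 5) (nat_lit 382) (nat_lit 5) (nat_lit 580) (nat_lit 536) (nat_lit 444)) (XT.lf (nat_lit 0) (nat_lit 4945626709) (nat_lit 836) (nat_lit 2707553101) (nat_lit 912) (nat_lit 2000464321) (nat_lit 370)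 (nat_lit 5) (nat_lit 381) (nat_lit 5) (nat_lit 382) (nat_lit 5) (nat_lit 581) (nat_lit 536) (nat_lit 443)))))) (XT.nd (nat_lit 546) (nat_lit 3344) (nat_lit 0) (XT.nd (nat_lit 234) (nat_lit 1520) (nat_lit 0) (XT.nd (nat_lit 78) (nat_lit 760) (nat_lit 0) (XT.lf (nat_lit 0) (nat_lit 141216423) (nat_lit 836) (nat_lit 8551960864) (nat_lit 76) (nat_lit 1054683290) (nat_lit 359) (nat_lit 5) (nat_lit 370) (nat_lit 5) (nat_lit 360) (nat_lit 5) (nat_lit 582) (nat_lit 536) (nat_lit 442)) (XT.nd (nat_lit 78) (nat_lit 760) (nat_lit 0) (XT.lf (nat_lit 0) (nat_lit 2323973637) (nat_lit 836) (nat_lit 2620349428) (nat_lit 76) (nat_lit 4898875315) (nat_lit 359) (nat_lit 5) (nat_lit 370) (nat_lit 5) (nat_lit 360) (nat_lit 5) (nat_lit 583) (nat_lit 536) (nat_lit 441)) (XT.lf (nat_lit 0) (nat_lit 3448310228) (nat_lit 760) (nat_lit 1100220088) (nat_lit 836) (nat_lit 5391951768) (nat_lit 349) (nat_lit 5) (nat_lit 359) (nat_lit 5) (nat_lit 360) (nat_lit 5) (nat_lit 584) (nat_lit 536) (nat_lit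 440)))) (XT.nd (nat_lit 156) (nat_lit 836) (nat_lit 0) (XT.nd (nat_lit 78) (nat_lit 684) (nat_lit 0) (XT.lf (nat_lit 0) (nat_lit 6829633376) (nat_lit 836) (nat_lit 411024105) (nat_lit 76) (nat_lit 2798814869) (nat_lit 349) (nat_lit 5) (nat_lit 360) (nat_lit 5) (nat_lit 350) (nat_lit 5) (nat_lit 585) (nat_lit 536) (nat_lit 439)) (XT.lf (nat_lit 0) (nat_lit 5834414876) (nat_lit 684) (nat_lit 3343621124) (nat_lit 760) (nat_lit 961974822) (nat_lit 340) (nat_lit 5) (nat_lit 349) (nat_lit 5) (nat_lit 350) (nat_lit 5) (nat_lit 586) (nat_lit 536) (nat_lit 438))) (XT.nd (nat_lit 78) (nat_lit 0) (nat_lit 0) (XT.lf (nat_lit 0) (nat_lit 1309763731) (nat_lit 836) (nat_lit 8288634347) (nat_lit 76) (nat_lit 644063619) (nat_lit 329) (nat_lit 5) (nat_lit 340) (nat_lit 5) (nat_lit 330) (nat_lit 5) (nat_lit 587) (nat_lit 536) (nat_lit 437)) (XT.lf (nat_lit 0) (nat_lit 3642202977) (nat_lit 836) (nat_lit 2005253881) (nat_lit 76) (nat_lit 4698816463) (nat_lit 329) (nat_lit 5) (nat_lit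 340) (nat_lit 5) (nat_lit 330) (nat_lit 5) (nat_lit 588) (nat_lit 536) (nat_lit 436))))) (XT.nd (nat_lit 234) (nat_lit 1900) (nat_lit 0) (XT.nd (nat_lit 78) (nat_lit 760) (nat_lit 0) (XT.lf (nat_lit 0) (nat_lit 4435528195) (nat_lit 684) (nat_lit 1591921379) (nat_lit 760) (nat_lit 4424590236) (nat_lit 320) (nat_lit 5) (nat_lit 329) (nat_lit 5) (nat_lit 330) (nat_lit 5) (nat_lit 589) (nat_lit 536) (nat_lit 435)) (XT.nd (nat_lit 78) (nat_lit 76) (nat_lit 0) (XT.lf (nat_lit 0) (nat_lit 435061310) (nat_lit 684) (nat_lit 8035840221) (nat_lit 760) (nat_lit 2088811858) (nat_lit 311) (nat_lit 5) (nat_lit 320) (nat_lit 5) (nat_lit 321) (nat_lit 5) (nat_lit 590) (nat_lit 536) (nat_lit 434)) (XT.lf (nat_lit 0) (nat_lit 318741190) (nat_lit 760) (nat_lit 3611039259) (nat_lit 76) (nat_lit 6739145339) (nat_lit 310) (nat_lit 5) (nat_lit 320) (nat_lit 5) (nat_lit 311) (nat_lit 5) (nat_lit 591) (nat_lit 536) (nat_lit 433)))) (XT.nd (nat_lit 156) (nat_lit 1292) (nat_lit 0) (XT.nd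 (nat_lit 78) (nat_lit 0) (nat_lit 0) (XT.lf (nat_lit 0) (nat_lit 2746225740) (nat_lit 684) (nat_lit 7749461817) (nat_lit 76) (nat_lit 284365411) (nat_lit 302) (nat_lit 5) (nat_lit 311) (nat_lit 5) (nat_lit 303) (nat_lit 5) (nat_lit 592) (nat_lit 536) (nat_lit 432)) (XT.lf (nat_lit 0) (nat_lit 5251070315) (nat_lit 684) (nat_lit 1091616636) (nat_lit 76) (nat_lit 4550141166) (nat_lit 302) (nat_lit 5) (nat_lit 311) (nat_lit 5) (nat_lit 303) (nat_lit 5) (nat_lit 593) (nat_lit 536) (nat_lit 431))) (XT.nd (nat_lit 78) (nat_lit 608) (nat_lit 0) (XT.lf (nat_lit 0) (nat_lit 5748785898) (nat_lit 684) (nat_lit 2073367333) (nat_lit 760) (nat_lit 3185384311) (nat_lit 293) (nat_lit 5) (nat_lit 302) (nat_lit 5) (nat_lit 303) (nat_lit 5) (nat_lit 594) (nat_lit 536) (nat_lit 430)) (XT.lf (nat_lit 0) (nat_lit 1596260320) (nat_lit 608) (nat_lit 8859979730) (nat_lit 684) (nat_lit 668071031) (nat_lit 285) (nat_lit 5) (nat_lit 293) (nat_lit 5) (nat_lit 294) (nat_lit 5) (nat_lit 595)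 (nat_lit 536) (nat_lit 429))))))) (XT.nd (nat_lit 1092) (nat_lit 4180) (nat_lit 0) (XT.nd (nat_lit 546) (nat_lit 2204) (nat_lit 0) (XT.nd (nat_lit 234) (nat_lit 1216) (nat_lit 0) (XT.nd (nat_lit 78) (nat_lit 1216) (nat_lit 0) (XT.lf (nat_lit 0) (nat_lit 1903064414) (nat_lit 684) (nat_lit 2635675780) (nat_lit 76) (nat_lit 6703866952) (nat_lit 284) (nat_lit 5) (nat_lit 293) (nat_lit 5) (nat_lit 285) (nat_lit 5) (nat_lit 596) (nat_lit 536) (nat_lit 428)) (XT.nd (nat_lit 78) (nat_lit 608) (nat_lit 0) (XT.lf (nat_lit 0) (nat_lit 4422318206) (nat_lit 608) (nat_lit 102624725) (nat_lit 684) (nat_lit 6838074046) (nat_lit 276) (nat_lit 5) (nat_lit 284) (nat_lit 5) (nat_lit 285) (nat_lit 5) (nat_lit 597) (nat_lit 536) (nat_lit 427)) (XT.lf (nat_lit 0) (nat_lit 118437709) (nat_lit 608) (nat_lit 7107850476) (nat_lit 684) (nat_lit 4259007685) (nat_lit 268) (nat_lit 5) (nat_lit 276) (nat_lit 5) (nat_lit 277) (nat_lit 5) (nat_lit 598) (nat_lit 536) (nat_lit 426)))) (XT.nd (nat_lit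 156) (nat_lit 532) (nat_lit 0) (XT.nd (nat_lit 78) (nat_lit 684) (nat_lit 0) (XT.lf (nat_lit 0) (nat_lit 7386317701) (nat_lit 608) (nat_lit 2622567338) (nat_lit 684) (nat_lit 1600592231) (nat_lit 268) (nat_lit 5) (nat_lit 276) (nat_lit 5) (nat_lit 277) (nat_lit 5) (nat_lit 599) (nat_lit 536) (nat_lit 425)) (XT.lf (nat_lit 0) (nat_lit 1109412352) (nat_lit 684) (nat_lit 8677930484) (nat_lit 76) (nat_lit 1948396730) (nat_lit 259) (nat_lit 5) (nat_lit 268) (nat_lit 5) (nat_lit 260) (nat_lit 5) (nat_lit 600) (nat_lit 536) (nat_lit 424))) (XT.nd (nat_lit 78) (nat_lit 532) (nat_lit 0) (XT.lf (nat_lit 0) (nat_lit 3878519800) (nat_lit 684) (nat_lit 1376249484) (nat_lit 76) (nat_lit 6609020872) (nat_lit 259) (nat_lit 5) (nat_lit 268) (nat_lit 5) (nat_lit 260) (nat_lit 5) (nat_lit 601) (nat_lit 536) (nat_lit 423)) (XT.lf (nat_lit 0) (nat_lit 6126544603) (nat_lit 532) (nat_lit 597045688) (nat_lit 608) (nat_lit 5270401162) (nat_lit 252) (nat_lit 5) (nat_lit 259) (nat_lit 5)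 (nat_lit 260) (nat_lit 5) (nat_lit 602) (nat_lit 536) (nat_lit 422))))) (XT.nd (nat_lit 234) (nat_lit 1064) (nat_lit 0) (XT.nd (nat_lit 78) (nat_lit 608) (nat_lit 0) (XT.lf (nat_lit 0) (nat_lit 1640476255) (nat_lit 532) (nat_lit 8012979916) (nat_lit 608) (nat_lit 2472784013) (nat_lit 245) (nat_lit 5) (nat_lit 252) (nat_lit 5) (nat_lit 253) (nat_lit 5) (nat_lit 603) (nat_lit 536) (nat_lit 421)) (XT.nd (nat_lit 78) (nat_lit 532) (nat_lit 0) (XT.lf (nat_lit 0) (nat_lit 400439757) (nat_lit 608) (nat_lit 2914472565) (nat_lit 76) (nat_lit 8945680393) (nat_lit 244) (nat_lit 5) (nat_lit 252) (nat_lit 5) (nat_lit 245) (nat_lit 5) (nat_lit 604) (nat_lit 536) (nat_lit 420)) (XT.lf (nat_lit 0) (nat_lit 3320705117) (nat_lit 608) (nat_lit 7576728540) (nat_lit 76) (nat_lit 1499419198) (nat_lit 237) (nat_lit 5) (nat_lit 245) (nat_lit 5) (nat_lit 238) (nat_lit 5) (nat_lit 605) (nat_lit 536) (nat_lit 419)))) (XT.nd (nat_lit 156) (nat_lit 532) (nat_lit 0) (XT.nd (nat_lit 78) (nat_lit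 0) (nat_lit 0) (XT.lf (nat_lit 0) (nat_lit 168405871) (nat_lit 532) (nat_lit 6155295346) (nat_lit 608) (nat_lit 6211651662) (nat_lit 230) (nat_lit 5) (nat_lit 237) (nat_lit 5) (nat_lit 238) (nat_lit 5) (nat_lit 606) (nat_lit 536) (nat_lit 418)) (XT.lf (nat_lit 0) (nat_lit 8146120511) (nat_lit 532) (nat_lit 1273270821) (nat_lit 608) (nat_lit 3256580056) (nat_lit 230) (nat_lit 5) (nat_lit 237) (nat_lit 5) (nat_lit 238) (nat_lit 5) (nat_lit 607) (nat_lit 536) (nat_lit 417))) (XT.nd (nat_lit 78) (nat_lit 76) (nat_lit 0) (XT.lf (nat_lit 0) (nat_lit 3460456224) (nat_lit 456) (nat_lit 9145174890) (nat_lit 532) (nat_lit 213199581) (nat_lit 224) (nat_lit 5) (nat_lit 230) (nat_lit 5) (nat_lit 231) (nat_lit 5) (nat_lit 608) (nat_lit 536) (nat_lit 416)) (XT.lf (nat_lit 0) (nat_lit 2874339302) (nat_lit 532) (nat_lit 1344296177) (nat_lit 76) (nat_lit 8745113247) (nat_lit 223) (nat_lit 5) (nat_lit 230) (nat_lit 5) (nat_lit 224) (nat_lit 5) (nat_lit 609) (nat_lit 536) (nat_lit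 415)))))) (XT.nd (nat_lit 546) (nat_lit 1748) (nat_lit 0) (XT.nd (nat_lit 234) (nat_lit 1444) (nat_lit 0) (XT.nd (nat_lit 78) (nat_lit 456) (nat_lit 0) (XT.lf (nat_lit 0) (nat_lit 6053563627) (nat_lit 608) (nat_lit 6221849287) (nat_lit 76) (nat_lit 835469309) (nat_lit 216) (nat_lit 5) (nat_lit 224) (nat_lit 5) (nat_lit 217) (nat_lit 5) (nat_lit 610) (nat_lit 536) (nat_lit 414)) (XT.nd (nat_lit 78) (nat_lit 0) (nat_lit 0) (XT.lf (nat_lit 0) (nat_lit 2018368959) (nat_lit 456) (nat_lit 7310792041) (nat_lit 532) (nat_lit 3931142675) (nat_lit 210) (nat_lit 5) (nat_lit 216) (nat_lit 5) (nat_lit 217) (nat_lit 5) (nat_lit 611) (nat_lit 536) (nat_lit 413)) (XT.lf (nat_lit 0) (nat_lit 10483314532) (nat_lit 456) (nat_lit 2211554357) (nat_lit 532) (nat_lit 717353731) (nat_lit 210) (nat_lit 5) (nat_lit 216) (nat_lit 5) (nat_lit 217) (nat_lit 5) (nat_lit 612) (nat_lit 536) (nat_lit 412)))) (XT.nd (nat_lit 156) (nat_lit 456) (nat_lit 0) (XT.nd (nat_lit 78) (nat_lit 456) (nat_lit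 0) (XT.lf (nat_lit 0) (nat_lit 2566158855) (nat_lit 532) (nat_lit 8003366450) (nat_lit 76) (nat_lit 2996542478) (nat_lit 203) (nat_lit 5) (nat_lit 210) (nat_lit 5) (nat_lit 204) (nat_lit 5) (nat_lit 613) (nat_lit 536) (nat_lit 411)) (XT.lf (nat_lit 0) (nat_lit 504038886) (nat_lit 456) (nat_lit 5422609377) (nat_lit 532) (nat_lit 7795829488) (nat_lit 197) (nat_lit 5) (nat_lit 203) (nat_lit 5) (nat_lit 204) (nat_lit 5) (nat_lit 614) (nat_lit 536) (nat_lit 410))) (XT.nd (nat_lit 78) (nat_lit 456) (nat_lit 0) (XT.lf (nat_lit 0) (nat_lit 9265946816) (nat_lit 456) (nat_lit 125479847) (nat_lit 532) (nat_lit 4489848631) (nat_lit 197) (nat_lit 5) (nat_lit 203) (nat_lit 5) (nat_lit 204) (nat_lit 5) (nat_lit 615) (nat_lit 536) (nat_lit 409)) (XT.lf (nat_lit 0) (nat_lit 4156147869) (nat_lit 456) (nat_lit 8814253514) (nat_lit 532) (nat_lit 1071950326) (nat_lit 191) (nat_lit 5) (nat_lit 197) (nat_lit 5) (nat_lit 198) (nat_lit 5) (nat_lit 616) (nat_lit 536) (nat_lit 408))))) (XT.nd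 (nat_lit 234) (nat_lit 836) (nat_lit 0) (XT.nd (nat_lit 78) (nat_lit 836) (nat_lit 0) (XT.lf (nat_lit 0) (nat_lit 2398358013) (nat_lit 532) (nat_lit 1081125022) (nat_lit 76) (nat_lit 10726539692) (nat_lit 190) (nat_lit 5) (nat_lit 197) (nat_lit 5) (nat_lit 191) (nat_lit 5) (nat_lit 617) (nat_lit 536) (nat_lit 407)) (XT.nd (nat_lit 78) (nat_lit 456) (nat_lit 0) (XT.lf (nat_lit 0) (nat_lit 5972612561) (nat_lit 456) (nat_lit 6411181030) (nat_lit 76) (nat_lit 1988054878) (nat_lit 185) (nat_lit 5) (nat_lit 191) (nat_lit 5) (nat_lit 186) (nat_lit 5) (nat_lit 618) (nat_lit 536) (nat_lit 406)) (XT.lf (nat_lit 0) (nat_lit 2645062795) (nat_lit 456) (nat_lit 7004949292) (nat_lit 532) (nat_lit 4890346308) (nat_lit 179) (nat_lit 5) (nat_lit 185) (nat_lit 5) (nat_lit 186) (nat_lit 5) (nat_lit 619) (nat_lit 536) (nat_lit 405)))) (XT.nd (nat_lit 156) (nat_lit 380) (nat_lit 0) (XT.nd (nat_lit 78) (nat_lit 456) (nat_lit 0) (XT.lf (nat_lit 0) (nat_lit 11945850522) (nat_lit 456) (nat_lit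 1482430449) (nat_lit 532) (nat_lit 1283411969) (nat_lit 179) (nat_lit 5) (nat_lit 185) (nat_lit 5) (nat_lit 186) (nat_lit 5) (nat_lit 620) (nat_lit 536) (nat_lit 404)) (XT.lf (nat_lit 0) (nat_lit 2418841879) (nat_lit 456) (nat_lit 8318988697) (nat_lit 76) (nat_lit 4147221328) (nat_lit 173) (nat_lit 5) (nat_lit 179) (nat_lit 5) (nat_lit 174) (nat_lit 5) (nat_lit 621) (nat_lit 536) (nat_lit 403))) (XT.nd (nat_lit 78) (nat_lit 0) (nat_lit 0) (XT.lf (nat_lit 0) (nat_lit 1032354578) (nat_lit 380) (nat_lit 5165428554) (nat_lit 456) (nat_lit 8863529503) (nat_lit 168) (nat_lit 5) (nat_lit 173) (nat_lit 5) (nat_lit 174) (nat_lit 5) (nat_lit 622) (nat_lit 536) (nat_lit 402)) (XT.lf (nat_lit 0) (nat_lit 10096571183) (nat_lit 456) (nat_lit 4583664435) (nat_lit 76) (nat_lit 559978389) (nat_lit 168) (nat_lit 5) (nat_lit 174) (nat_lit 5) (nat_lit 169) (nat_lit 5) (nat_lit 623) (nat_lit 536) (nat_lit 401))))))))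
noncomputable def xc116 : XT := (XT.nd (nat_lit 2106) (nat_lit 1064) (nat_lit 0) (XT.nd (nat_lit 1014) (nat_lit 2812) (nat_lit 0) (XT.nd (nat_lit 468) (nat_lit 1368) (nat_lit 0) (XT.nd (nat_lit 234) (nat_lit 836) (nat_lit 0) (XT.nd (nat_lit 78) (nat_lit 456) (nat_lit 0) (XT.lf (nat_lit 0) (nat_lit 5059707948) (nat_lit 380) (nat_lit 9065693555) (nat_lit 456) (nat_lit 1296251343) (nat_lit 163) (nat_lit 5) (nat_lit 168) (nat_lit 5) (nat_lit 169) (nat_lit 5) (nat_lit 624) (nat_lit 536) (nat_lit 400)) (XT.nd (nat_lit 78) (nat_lit 380) (nat_lit 0) (XT.lf (nat_lit 0) (nat_lit 2609636713) (nat_lit 456) (nat_lit 688317867) (nat_lit 76) (nat_lit 12308105025) (nat_lit 162) (nat_lit 5) (nat_lit 168) (nat_lit 5) (nat_lit 163) (nat_lit 5) (nat_lit 625) (nat_lit 536) (nat_lit 399)) (XT.lf (nat_lit 0) (nat_lit 6639019237) (nat_lit 456) (nat_lit 6541071671) (nat_lit 76) (nat_lit 2612638281) (nat_lit 157) (nat_lit 5) (nat_lit 163) (nat_lit 5) (nat_lit 158) (nat_lit 5) (nat_lit 626)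 (nat_lit 536) (nat_lit 398)))) (XT.nd (nat_lit 78) (nat_lit 456) (nat_lit 0) (XT.lf (nat_lit 0) (nat_lit 3417000503) (nat_lit 380) (nat_lit 7366102129) (nat_lit 456) (nat_lit 5199347979) (nat_lit 152) (nat_lit 5) (nat_lit 157) (nat_lit 5) (nat_lit 158) (nat_lit 5) (nat_lit 627) (nat_lit 536) (nat_lit 397)) (XT.nd (nat_lit 78) (nat_lit 456) (nat_lit 0) (XT.lf (nat_lit 0) (nat_lit 13640383505) (nat_lit 380) (nat_lit 1399155037) (nat_lit 456) (nat_lit 1135839201) (nat_lit 152) (nat_lit 5) (nat_lit 157) (nat_lit 5) (nat_lit 158) (nat_lit 5) (nat_lit 628) (nat_lit 536) (nat_lit 396)) (XT.lf (nat_lit 0) (nat_lit 3036441998) (nat_lit 456) (nat_lit 8645902584) (nat_lit 76) (nat_lit 4688089483) (nat_lit 146) (nat_lit 5) (nat_lit 152) (nat_lit 5) (nat_lit 147) (nat_lit 5) (nat_lit 629) (nat_lit 536) (nat_lit 395))))) (XT.nd (nat_lit 234) (nat_lit 684) (nat_lit 0) (XT.nd (nat_lit 78) (nat_lit 380) (nat_lit 0) (XT.lf (nat_lit 0) (nat_lit 1636775849) (nat_lit 304) (nat_lit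 5663063804) (nat_lit 380) (nat_lit 9268944765) (nat_lit 142) (nat_lit 5) (nat_lit 146) (nat_lit 5) (nat_lit 147) (nat_lit 5) (nat_lit 630) (nat_lit 536) (nat_lit 394)) (XT.nd (nat_lit 78) (nat_lit 380) (nat_lit 0) (XT.lf (nat_lit 0) (nat_lit 11695931397) (nat_lit 380) (nat_lit 4553544554) (nat_lit 76) (nat_lit 520677950) (nat_lit 142) (nat_lit 5) (nat_lit 147) (nat_lit 5) (nat_lit 143) (nat_lit 5) (nat_lit 631) (nat_lit 536) (nat_lit 393)) (XT.lf (nat_lit 0) (nat_lit 6052372934) (nat_lit 380) (nat_lit 10190576625) (nat_lit 456) (nat_lit 731341754) (nat_lit 137) (nat_lit 5) (nat_lit 142) (nat_lit 5) (nat_lit 143) (nat_lit 5) (nat_lit 632) (nat_lit 536) (nat_lit 392)))) (XT.nd (nat_lit 156) (nat_lit 304) (nat_lit 0) (XT.nd (nat_lit 78) (nat_lit 304) (nat_lit 0) (XT.lf (nat_lit 0) (nat_lit 3666892889) (nat_lit 456) (nat_lit 296010679) (nat_lit 76) (nat_lit 13218788234) (nat_lit 136) (nat_lit 5) (nat_lit 142) (nat_lit 5) (nat_lit 137) (nat_lit 5) (nat_lit 633) (nat_lit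 536) (nat_lit 391)) (XT.lf (nat_lit 0) (nat_lit 8214955558) (nat_lit 380) (nat_lit 6752254013) (nat_lit 76) (nat_lit 2424501522) (nat_lit 132) (nat_lit 5) (nat_lit 137) (nat_lit 5) (nat_lit 133) (nat_lit 5) (nat_lit 634) (nat_lit 536) (nat_lit 390))) (XT.nd (nat_lit 78) (nat_lit 0) (nat_lit 0) (XT.lf (nat_lit 0) (nat_lit 4198897323) (nat_lit 304) (nat_lit 8697172881) (nat_lit 380) (nat_lit 4709019336) (nat_lit 128) (nat_lit 5) (nat_lit 132) (nat_lit 5) (nat_lit 133) (nat_lit 5) (nat_lit 635) (nat_lit 536) (nat_lit 389)) (XT.lf (nat_lit 0) (nat_lit 15439072756) (nat_lit 304) (nat_lit 2263753597) (nat_lit 380) (nat_lit 119269388) (nat_lit 128) (nat_lit 5) (nat_lit 132) (nat_lit 5) (nat_lit 133) (nat_lit 5) (nat_lit 636) (nat_lit 536) (nat_lit 388)))))) (XT.nd (nat_lit 546) (nat_lit 1216) (nat_lit 0) (XT.nd (nat_lit 234) (nat_lit 912) (nat_lit 0) (XT.nd (nat_lit 78) (nat_lit 304) (nat_lit 0) (XT.lf (nat_lit 0) (nat_lit 4575715546) (nat_lit 380) (nat_lit 9143603619)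 (nat_lit 76) (nat_lit 4322065525) (nat_lit 123) (nat_lit 5) (nat_lit 128) (nat_lit 5) (nat_lit 124) (nat_lit 5) (nat_lit 637) (nat_lit 536) (nat_lit 387)) (XT.nd (nat_lit 78) (nat_lit 0) (nat_lit 0) (XT.lf (nat_lit 0) (nat_lit 2162895449) (nat_lit 304) (nat_lit 7232190051) (nat_lit 380) (nat_lit 8869317043) (nat_lit 119) (nat_lit 5) (nat_lit 123) (nat_lit 5) (nat_lit 124) (nat_lit 5) (nat_lit 638) (nat_lit 536) (nat_lit 386)) (XT.lf (nat_lit 0) (nat_lit 13798260976) (nat_lit 304) (nat_lit 561007387) (nat_lit 380) (nat_lit 4131644409) (nat_lit 119) (nat_lit 5) (nat_lit 123) (nat_lit 5) (nat_lit 124) (nat_lit 5) (nat_lit 639) (nat_lit 536) (nat_lit 385)))) (XT.nd (nat_lit 156) (nat_lit 532) (nat_lit 0) (XT.nd (nat_lit 78) (nat_lit 0) (nat_lit 0) (XT.lf (nat_lit 0) (nat_lit 765161837) (nat_lit 380) (nat_lit 11751206533) (nat_lit 76) (nat_lit 6204022923) (nat_lit 114) (nat_lit 5) (nat_lit 119) (nat_lit 5) (nat_lit 115) (nat_lit 5) (nat_lit 640) (nat_lit 536) (nat_lit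 384)) (XT.lf (nat_lit 0) (nat_lit 5727345403) (nat_lit 380) (nat_lit 78271375) (nat_lit 76) (nat_lit 13147841622) (nat_lit 114) (nat_lit 5) (nat_lit 119) (nat_lit 5) (nat_lit 115) (nat_lit 5) (nat_lit 641) (nat_lit 536) (nat_lit 383))) (XT.nd (nat_lit 78) (nat_lit 228) (nat_lit 0) (XT.lf (nat_lit 0) (nat_lit 10861210513) (nat_lit 380) (nat_lit 7232666327) (nat_lit 76) (nat_lit 1095861740) (nat_lit 110) (nat_lit 5) (nat_lit 115) (nat_lit 5) (nat_lit 111) (nat_lit 5) (nat_lit 642) (nat_lit 536) (nat_lit 382)) (XT.lf (nat_lit 0) (nat_lit 4807377322) (nat_lit 228) (nat_lit 11348170472) (nat_lit 304) (nat_lit 3274041150) (nat_lit 107) (nat_lit 5) (nat_lit 110) (nat_lit 5) (nat_lit 111) (nat_lit 5) (nat_lit 643) (nat_lit 536) (nat_lit 381))))) (XT.nd (nat_lit 234) (nat_lit 608) (nat_lit 0) (XT.nd (nat_lit 78) (nat_lit 532) (nat_lit 0) (XT.lf (nat_lit 0) (nat_lit 1893348804) (nat_lit 304) (nat_lit 2520240398) (nat_lit 76) (nat_lit 15259673452) (nat_lit 106) (nat_lit 5)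 (nat_lit 110) (nat_lit 5) (nat_lit 107) (nat_lit 5) (nat_lit 644) (nat_lit 536) (nat_lit 380)) (XT.nd (nat_lit 78) (nat_lit 228) (nat_lit 0) (XT.lf (nat_lit 0) (nat_lit 7190303233) (nat_lit 380) (nat_lit 10026328295) (nat_lit 76) (nat_lit 2703344811) (nat_lit 102) (nat_lit 5) (nat_lit 107) (nat_lit 5) (nat_lit 103) (nat_lit 5) (nat_lit 645) (nat_lit 536) (nat_lit 379)) (XT.lf (nat_lit 0) (nat_lit 2400484192) (nat_lit 228) (nat_lit 10242481296) (nat_lit 304) (nat_lit 7527663877) (nat_lit 99) (nat_lit 5) (nat_lit 102) (nat_lit 5) (nat_lit 103) (nat_lit 5) (nat_lit 646) (nat_lit 536) (nat_lit 378)))) (XT.nd (nat_lit 156) (nat_lit 228) (nat_lit 0) (XT.nd (nat_lit 78) (nat_lit 380) (nat_lit 0) (XT.lf (nat_lit 0) (nat_lit 15191528073) (nat_lit 228) (nat_lit 3068470270) (nat_lit 304) (nat_lit 2165191194) (nat_lit 99) (nat_lit 5) (nat_lit 102) (nat_lit 5) (nat_lit 103) (nat_lit 5) (nat_lit 647) (nat_lit 536) (nat_lit 377)) (XT.lf (nat_lit 0) (nat_lit 3326809009) (nat_lit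 380) (nat_lit 13099710273) (nat_lit 76) (nat_lit 4256580591) (nat_lit 94) (nat_lit 5) (nat_lit 99) (nat_lit 5) (nat_lit 95) (nat_lit 5) (nat_lit 648) (nat_lit 536) (nat_lit 376))) (XT.nd (nat_lit 78) (nat_lit 228) (nat_lit 0) (XT.lf (nat_lit 0) (nat_lit 8943600378) (nat_lit 380) (nat_lit 272658868) (nat_lit 76) (nat_lit 11728744480) (nat_lit 94) (nat_lit 5) (nat_lit 99) (nat_lit 5) (nat_lit 95) (nat_lit 5) (nat_lit 649) (nat_lit 536) (nat_lit 375)) (XT.lf (nat_lit 0) (nat_lit 12961290263) (nat_lit 228) (nat_lit 1784062921) (nat_lit 304) (nat_lit 6465340360) (nat_lit 91) (nat_lit 5) (nat_lit 94) (nat_lit 5) (nat_lit 95) (nat_lit 5) (nat_lit 650) (nat_lit 536) (nat_lit 374))))))) (XT.nd (nat_lit 72852) (nat_lit 0) (nat_lit 39900) (XT.nd (nat_lit 72306) (nat_lit 0) (nat_lit 43472) (XT.nd (nat_lit 234) (nat_lit 532) (nat_lit 0) (XT.nd (nat_lit 78) (nat_lit 304) (nat_lit 0) (XT.lf (nat_lit 0) (nat_lit 4990070491) (nat_lit 228) (nat_lit 15733467016) (nat_lit 304) (nat_lit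 756952114) (nat_lit 88) (nat_lit 5) (nat_lit 91) (nat_lit 5) (nat_lit 92) (nat_lit 5) (nat_lit 651) (nat_lit 536) (nat_lit 373)) (XT.nd (nat_lit 78) (nat_lit 228) (nat_lit 0) (XT.lf (nat_lit 0) (nat_lit 5055248724) (nat_lit 304) (nat_lit 3213192239) (nat_lit 76) (nat_lit 13485461626) (nat_lit 87) (nat_lit 5) (nat_lit 91) (nat_lit 5) (nat_lit 88) (nat_lit 5) (nat_lit 652) (nat_lit 536) (nat_lit 372)) (XT.lf (nat_lit 0) (nat_lit 10442200449) (nat_lit 228) (nat_lit 587931082) (nat_lit 304) (nat_lit 11001421116) (nat_lit 84) (nat_lit 5) (nat_lit 87) (nat_lit 5) (nat_lit 88) (nat_lit 5) (nat_lit 653) (nat_lit 536) (nat_lit 371)))) (XT.nd (nat_lit 78) (nat_lit 304) (nat_lit 0) (XT.lf (nat_lit 0) (nat_lit 2060403997) (nat_lit 228) (nat_lit 15135047346) (nat_lit 304) (nat_lit 5117885938) (nat_lit 81) (nat_lit 5) (nat_lit 84) (nat_lit 5) (nat_lit 85) (nat_lit 5) (nat_lit 654) (nat_lit 536) (nat_lit 370)) (XT.nd (nat_lit 78) (nat_lit 228) (nat_lit 0) (XT.lf (nat_lit 0) (nat_lit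 942744790) (nat_lit 304) (nat_lit 6488476195) (nat_lit 76) (nat_lit 15168002075) (nat_lit 80) (nat_lit 5) (nat_lit 84) (nat_lit 5) (nat_lit 81) (nat_lit 5) (nat_lit 655) (nat_lit 536) (nat_lit 369)) (XT.lf (nat_lit 0) (nat_lit 7097773777) (nat_lit 304) (nat_lit 15294626665) (nat_lit 76) (nat_lit 496915587) (nat_lit 77) (nat_lit 5) (nat_lit 81) (nat_lit 5) (nat_lit 78) (nat_lit 5) (nat_lit 656) (nat_lit 536) (nat_lit 368))))) (XT.nd (nat_lit 234) (nat_lit 1064) (nat_lit 0) (XT.nd (nat_lit 78) (nat_lit 1140) (nat_lit 0) (XT.lf (nat_lit 0) (nat_lit 1342054341) (nat_lit 0) (nat_lit 1342054341) (nat_lit 988) (nat_lit 811919153) (nat_lit 678) (nat_lit 5) (nat_lit 678) (nat_lit 3) (nat_lit 691) (nat_lit 3) (nat_lit 537) (nat_lit 537) (nat_lit 486)) (XT.nd (nat_lit 78) (nat_lit 0) (nat_lit 76) (XT.lf (nat_lit 0) (nat_lit 218527124) (nat_lit 1140) (nat_lit 836092896) (nat_lit 1140) (nat_lit 5970601683) (nat_lit 663) (nat_lit 3) (nat_lit 678) (nat_lit 3) (nat_lit 678) (nat_lit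 5) (nat_lit 538) (nat_lit 537) (nat_lit 485)) (XT.lf (nat_lit 0) (nat_lit 2049679116) (nat_lit 1064) (nat_lit 4358392359) (nat_lit 1140) (nat_lit 651297177) (nat_lit 664) (nat_lit 5) (nat_lit 678) (nat_lit 5) (nat_lit 679) (nat_lit 5) (nat_lit 539) (nat_lit 537) (nat_lit 484)))) (XT.nd (nat_lit 156) (nat_lit 1140) (nat_lit 0) (XT.nd (nat_lit 78) (nat_lit 0) (nat_lit 0) (XT.lf (nat_lit 0) (nat_lit 3882834087) (nat_lit 1064) (nat_lit 806507405) (nat_lit 1140) (nat_lit 2405555252) (nat_lit 664) (nat_lit 5) (nat_lit 678) (nat_lit 5) (nat_lit 679) (nat_lit 5) (nat_lit 540) (nat_lit 537) (nat_lit 483)) (XT.lf (nat_lit 76) (nat_lit 2828491809) (nat_lit 0) (nat_lit 2896199223) (nat_lit 1140) (nat_lit 1407009276) (nat_lit 665) (nat_lit 5) (nat_lit 664) (nat_lit 5) (nat_lit 679) (nat_lit 5) (nat_lit 541) (nat_lit 537) (nat_lit 482))) (XT.nd (nat_lit 78) (nat_lit 0) (nat_lit 76) (XT.lf (nat_lit 0) (nat_lit 388013264) (nat_lit 1140) (nat_lit 650333154) (nat_lit 1216) (nat_lit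 6131651378) (nat_lit 649) (nat_lit 5) (nat_lit 664) (nat_lit 5) (nat_lit 665) (nat_lit 5) (nat_lit 542) (nat_lit 537) (nat_lit 481)) (XT.lf (nat_lit 0) (nat_lit 2181022609) (nat_lit 1140) (nat_lit 4133537670) (nat_lit 1216) (nat_lit 894701783) (nat_lit 650) (nat_lit 5) (nat_lit 665) (nat_lit 5) (nat_lit 666) (nat_lit 5) (nat_lit 543) (nat_lit 537) (nat_lit 480)))))) (XT.nd (nat_lit 546) (nat_lit 2432) (nat_lit 0) (XT.nd (nat_lit 234) (nat_lit 0) (nat_lit 76) (XT.nd (nat_lit 78) (nat_lit 1216) (nat_lit 0) (XT.lf (nat_lit 0) (nat_lit 3977022724) (nat_lit 1140) (nat_lit 396834652) (nat_lit 1216) (nat_lit 2876116883) (nat_lit 650) (nat_lit 5) (nat_lit 665) (nat_lit 5) (nat_lit 666) (nat_lit 5) (nat_lit 544) (nat_lit 537) (nat_lit 479)) (XT.nd (nat_lit 78) (nat_lit 1216) (nat_lit 0) (XT.lf (nat_lit 76) (nat_lit 3434327107) (nat_lit 0) (nat_lit 2353640267) (nat_lit 1216) (nat_lit 1503957986) (nat_lit 651) (nat_lit 5) (nat_lit 650) (nat_lit 5) (nat_lit 666) (nat_lit 5)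 (nat_lit 545) (nat_lit 537) (nat_lit 478)) (XT.lf (nat_lit 0) (nat_lit 256280820) (nat_lit 1216) (nat_lit 14864372) (nat_lit 1292) (nat_lit 7064340125) (nat_lit 634) (nat_lit 5) (nat_lit 650) (nat_lit 5) (nat_lit 651) (nat_lit 5) (nat_lit 546) (nat_lit 537) (nat_lit 477)))) (XT.nd (nat_lit 156) (nat_lit 0) (nat_lit 0) (XT.nd (nat_lit 78) (nat_lit 0) (nat_lit 0) (XT.lf (nat_lit 0) (nat_lit 2027402846) (nat_lit 1216) (nat_lit 3471460797) (nat_lit 1292) (nat_lit 1880942532) (nat_lit 635) (nat_lit 5) (nat_lit 651) (nat_lit 5) (nat_lit 652) (nat_lit 5) (nat_lit 547) (nat_lit 537) (nat_lit 476)) (XT.lf (nat_lit 76) (nat_lit 463498765) (nat_lit 0) (nat_lit 3334086915) (nat_lit 1292) (nat_lit 3628159765) (nat_lit 636) (nat_lit 5) (nat_lit 635) (nat_lit 5) (nat_lit 652) (nat_lit 5) (nat_lit 548) (nat_lit 537) (nat_lit 475))) (XT.nd (nat_lit 78) (nat_lit 0) (nat_lit 76) (XT.lf (nat_lit 76) (nat_lit 4498391952) (nat_lit 0) (nat_lit 1087450004) (nat_lit 1292) (nat_lit 1887112813)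 (nat_lit 636) (nat_lit 5) (nat_lit 635) (nat_lit 5) (nat_lit 652) (nat_lit 5) (nat_lit 549) (nat_lit 537) (nat_lit 474)) (XT.lf (nat_lit 76) (nat_lit 1072917080) (nat_lit 0) (nat_lit 6311995576) (nat_lit 1292) (nat_lit 136699213) (nat_lit 637) (nat_lit 5) (nat_lit 636) (nat_lit 5) (nat_lit 653) (nat_lit 5) (nat_lit 550) (nat_lit 537) (nat_lit 473))))) (XT.nd (nat_lit 234) (nat_lit 1292) (nat_lit 0) (XT.nd (nat_lit 78) (nat_lit 0) (nat_lit 0) (XT.lf (nat_lit 0) (nat_lit 1615005880) (nat_lit 1292) (nat_lit 2373780386) (nat_lit 1368) (nat_lit 3582488020) (nat_lit 619) (nat_lit 5) (nat_lit 636) (nat_lit 5) (nat_lit 637) (nat_lit 5) (nat_lit 551) (nat_lit 537) (nat_lit 472)) (XT.nd (nat_lit 78) (nat_lit 0) (nat_lit 76) (XT.lf (nat_lit 76) (nat_lit 1779013405) (nat_lit 0) (nat_lit 1593837618) (nat_lit 1368) (nat_lit 4249606439) (nat_lit 620) (nat_lit 5) (nat_lit 619) (nat_lit 5) (nat_lit 637) (nat_lit 5) (nat_lit 552) (nat_lit 537) (nat_lit 471)) (XT.lf (nat_lit 0) (nat_lit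 5149452402) (nat_lit 1292) (nat_lit 1659641253) (nat_lit 1368) (nat_lit 865902889) (nat_lit 620) (nat_lit 5) (nat_lit 637) (nat_lit 5) (nat_lit 638) (nat_lit 5) (nat_lit 553) (nat_lit 537) (nat_lit 470)))) (XT.nd (nat_lit 156) (nat_lit 0) (nat_lit 76) (XT.nd (nat_lit 78) (nat_lit 1368) (nat_lit 0) (XT.lf (nat_lit 76) (nat_lit 2605256687) (nat_lit 0) (nat_lit 4346595652) (nat_lit 1368) (nat_lit 776932880) (nat_lit 621) (nat_lit 5) (nat_lit 620) (nat_lit 5) (nat_lit 638) (nat_lit 5) (nat_lit 554) (nat_lit 537) (nat_lit 469)) (XT.lf (nat_lit 0) (nat_lit 967769142) (nat_lit 1368) (nat_lit 838603080) (nat_lit 1444) (nat_lit 5977664292) (nat_lit 602) (nat_lit 5) (nat_lit 620) (nat_lit 5) (nat_lit 621) (nat_lit 5) (nat_lit 555) (nat_lit 537) (nat_lit 468))) (XT.nd (nat_lit 78) (nat_lit 0) (nat_lit 0) (XT.lf (nat_lit 0) (nat_lit 2729184491) (nat_lit 1368) (nat_lit 4298499285) (nat_lit 1444) (nat_lit 812765805) (nat_lit 603) (nat_lit 5) (nat_lit 621) (nat_lit 5) (nat_lit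 622) (nat_lit 5) (nat_lit 556) (nat_lit 537) (nat_lit 467)) (XT.lf (nat_lit 76) (nat_lit 86128433) (nat_lit 0) (nat_lit 4422324934) (nat_lit 1444) (nat_lit 3389888866) (nat_lit 604) (nat_lit 5) (nat_lit 603) (nat_lit 5) (nat_lit 622) (nat_lit 5) (nat_lit 557) (nat_lit 537) (nat_lit 466))))))))
noncomputable def xc117 : XT := (XT.nd (nat_lit 2106) (nat_lit 11324) (nat_lit 0) (XT.nd (nat_lit 1014) (nat_lit 7220) (nat_lit 0) (XT.nd (nat_lit 468) (nat_lit 6992) (nat_lit 0) (XT.nd (nat_lit 234) (nat_lit 2964) (nat_lit 0) (XT.nd (nat_lit 78) (nat_lit 1368) (nat_lit 0) (XT.lf (nat_lit 76) (nat_lit 4590286005) (nat_lit 0) (nat_lit 1726831042) (nat_lit 1444) (nat_lit 1640403256) (nat_lit 604) (nat_lit 5) (nat_lit 603) (nat_lit 5) (nat_lit 622) (nat_lit 5) (nat_lit 558) (nat_lit 537) (nat_lit 465)) (XT.nd (nat_lit 78) (nat_lit 0) (nat_lit 0) (XT.lf (nat_lit 0) (nat_lit 121846585) (nat_lit 1444) (nat_lit 6870681221) (nat_lit 76) (nat_lit 1025745746) (nat_lit 585) (nat_lit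 5) (nat_lit 604) (nat_lit 5) (nat_lit 586) (nat_lit 5) (nat_lit 559) (nat_lit 537) (nat_lit 464)) (XT.lf (nat_lit 0) (nat_lit 1897557603) (nat_lit 1444) (nat_lit 2330817382) (nat_lit 76) (nat_lit 3851649932) (nat_lit 585) (nat_lit 5) (nat_lit 604) (nat_lit 5) (nat_lit 586) (nat_lit 5) (nat_lit 560) (nat_lit 537) (nat_lit 463)))) (XT.nd (nat_lit 78) (nat_lit 1520) (nat_lit 0) (XT.lf (nat_lit 0) (nat_lit 2303647196) (nat_lit 1444) (nat_lit 1386738651) (nat_lit 1520) (nat_lit 4452996870) (nat_lit 566) (nat_lit 5) (nat_lit 585) (nat_lit 5) (nat_lit 586) (nat_lit 5) (nat_lit 561) (nat_lit 537) (nat_lit 462)) (XT.nd (nat_lit 78) (nat_lit 1520) (nat_lit 0) (XT.lf (nat_lit 0) (nat_lit 5511803341) (nat_lit 1520) (nat_lit 1182157100) (nat_lit 76) (nat_lit 1514195977) (nat_lit 566) (nat_lit 5) (nat_lit 586) (nat_lit 5) (nat_lit 567) (nat_lit 5) (nat_lit 562) (nat_lit 537) (nat_lit 461)) (XT.lf (nat_lit 0) (nat_lit 3579929414) (nat_lit 1520) (nat_lit 3789963347) (nat_lit 1596)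 (nat_lit 904331293) (nat_lit 546) (nat_lit 5) (nat_lit 566) (nat_lit 5) (nat_lit 567) (nat_lit 5) (nat_lit 563) (nat_lit 537) (nat_lit 460))))) (XT.nd (nat_lit 234) (nat_lit 3648) (nat_lit 0) (XT.nd (nat_lit 78) (nat_lit 1672) (nat_lit 0) (XT.lf (nat_lit 0) (nat_lit 80165344) (nat_lit 1596) (nat_lit 807823215) (nat_lit 1672) (nat_lit 7453976366) (nat_lit 524) (nat_lit 5) (nat_lit 545) (nat_lit 5) (nat_lit 546) (nat_lit 5) (nat_lit 564) (nat_lit 537) (nat_lit 459)) (XT.nd (nat_lit 78) (nat_lit 1672) (nat_lit 0) (XT.lf (nat_lit 0) (nat_lit 2718821897) (nat_lit 1672) (nat_lit 3444540387) (nat_lit 76) (nat_lit 2247286396) (nat_lit 524) (nat_lit 5) (nat_lit 546) (nat_lit 5) (nat_lit 525) (nat_lit 5) (nat_lit 565) (nat_lit 537) (nat_lit 458)) (XT.lf (nat_lit 0) (nat_lit 1456189997) (nat_lit 1672) (nat_lit 3114053542) (nat_lit 1748) (nat_lit 3910786215) (nat_lit 502) (nat_lit 5) (nat_lit 524) (nat_lit 5) (nat_lit 525) (nat_lit 5) (nat_lit 566) (nat_lit 537) (nat_lit 457))))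 (XT.nd (nat_lit 156) (nat_lit 1900) (nat_lit 0) (XT.nd (nat_lit 78) (nat_lit 1748) (nat_lit 0) (XT.lf (nat_lit 0) (nat_lit 6451562747) (nat_lit 1748) (nat_lit 2077942087) (nat_lit 76) (nat_lit 23459254) (nat_lit 502) (nat_lit 5) (nat_lit 525) (nat_lit 5) (nat_lit 503) (nat_lit 5) (nat_lit 567) (nat_lit 537) (nat_lit 456)) (XT.lf (nat_lit 0) (nat_lit 2959532628) (nat_lit 1748) (nat_lit 5421035180) (nat_lit 1824) (nat_lit 245571067) (nat_lit 479) (nat_lit 5) (nat_lit 502) (nat_lit 5) (nat_lit 503) (nat_lit 5) (nat_lit 568) (nat_lit 537) (nat_lit 455))) (XT.nd (nat_lit 78) (nat_lit 1824) (nat_lit 0) (XT.lf (nat_lit 0) (nat_lit 1610243254) (nat_lit 1824) (nat_lit 612136465) (nat_lit 76) (nat_lit 6478496906) (nat_lit 478) (nat_lit 5) (nat_lit 502) (nat_lit 5) (nat_lit 479) (nat_lit 5) (nat_lit 569) (nat_lit 537) (nat_lit 454)) (XT.lf (nat_lit 0) (nat_lit 3507591854) (nat_lit 1900) (nat_lit 4208487402) (nat_lit 76) (nat_lit 1060846075) (nat_lit 454) (nat_lit 5) (nat_lit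 479) (nat_lit 5) (nat_lit 455) (nat_lit 5) (nat_lit 570) (nat_lit 537) (nat_lit 453)))))) (XT.nd (nat_lit 546) (nat_lit 3420) (nat_lit 0) (XT.nd (nat_lit 234) (nat_lit 1748) (nat_lit 0) (XT.nd (nat_lit 78) (nat_lit 988) (nat_lit 0) (XT.lf (nat_lit 0) (nat_lit 977922383) (nat_lit 1064) (nat_lit 4461598678) (nat_lit 1140) (nat_lit 3415044010) (nat_lit 440) (nat_lit 5) (nat_lit 454) (nat_lit 5) (nat_lit 455) (nat_lit 5) (nat_lit 571) (nat_lit 537) (nat_lit 452)) (XT.nd (nat_lit 78) (nat_lit 988) (nat_lit 0) (XT.lf (nat_lit 0) (nat_lit 6298616037) (nat_lit 1064) (nat_lit 1111533751) (nat_lit 1140) (nat_lit 1523609279) (nat_lit 440) (nat_lit 5) (nat_lit 454) (nat_lit 5) (nat_lit 455) (nat_lit 5) (nat_lit 572) (nat_lit 537) (nat_lit 451)) (XT.lf (nat_lit 0) (nat_lit 405279680) (nat_lit 988) (nat_lit 6311949333) (nat_lit 76) (nat_lit 2297158917) (nat_lit 427) (nat_lit 5) (nat_lit 440) (nat_lit 5) (nat_lit 428) (nat_lit 5) (nat_lit 573) (nat_lit 537) (nat_lit 450)))) (XT.nd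 (nat_lit 156) (nat_lit 836) (nat_lit 0) (XT.nd (nat_lit 78) (nat_lit 912) (nat_lit 0) (XT.lf (nat_lit 0) (nat_lit 2350096247) (nat_lit 988) (nat_lit 958082604) (nat_lit 76) (nat_lit 5788296604) (nat_lit 427) (nat_lit 5) (nat_lit 440) (nat_lit 5) (nat_lit 428) (nat_lit 5) (nat_lit 574) (nat_lit 537) (nat_lit 449)) (XT.lf (nat_lit 0) (nat_lit 4337666182) (nat_lit 988) (nat_lit 4645305556) (nat_lit 76) (nat_lit 197158327) (nat_lit 415) (nat_lit 5) (nat_lit 428) (nat_lit 5) (nat_lit 416) (nat_lit 5) (nat_lit 575) (nat_lit 537) (nat_lit 448))) (XT.nd (nat_lit 78) (nat_lit 0) (nat_lit 0) (XT.lf (nat_lit 0) (nat_lit 847846015) (nat_lit 836) (nat_lit 5524496332) (nat_lit 912) (nat_lit 2892970751) (nat_lit 404) (nat_lit 5) (nat_lit 415) (nat_lit 5) (nat_lit 416) (nat_lit 5) (nat_lit 576) (nat_lit 537) (nat_lit 447)) (XT.lf (nat_lit 0) (nat_lit 6487433528) (nat_lit 836) (nat_lit 1965269546) (nat_lit 912) (nat_lit 899399279) (nat_lit 404) (nat_lit 5) (nat_lit 415) (nat_lit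 5) (nat_lit 416) (nat_lit 5) (nat_lit 577) (nat_lit 537) (nat_lit 446))))) (XT.nd (nat_lit 234) (nat_lit 1672) (nat_lit 0) (XT.nd (nat_lit 78) (nat_lit 836) (nat_lit 0) (XT.lf (nat_lit 0) (nat_lit 1122502801) (nat_lit 912) (nat_lit 6649261082) (nat_lit 76) (nat_lit 1668651889) (nat_lit 392) (nat_lit 5) (nat_lit 404) (nat_lit 5) (nat_lit 393) (nat_lit 5) (nat_lit 578) (nat_lit 537) (nat_lit 445)) (XT.nd (nat_lit 78) (nat_lit 836) (nat_lit 0) (XT.lf (nat_lit 0) (nat_lit 3179670634) (nat_lit 912) (nat_lit 976843379) (nat_lit 76) (nat_lit 5373727375) (nat_lit 392) (nat_lit 5) (nat_lit 404) (nat_lit 5) (nat_lit 393) (nat_lit 5) (nat_lit 579) (nat_lit 537) (nat_lit 444)) (XT.lf (nat_lit 0) (nat_lit 4846547011) (nat_lit 836) (nat_lit 437895571) (nat_lit 912) (nat_lit 4337293919) (nat_lit 381) (nat_lit 5) (nat_lit 392) (nat_lit 5) (nat_lit 393) (nat_lit 5) (nat_lit 580) (nat_lit 537) (nat_lit 443)))) (XT.nd (nat_lit 156) (nat_lit 836) (nat_lit 0) (XT.nd (nat_lit 78) (nat_lit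 0) (nat_lit 0) (XT.lf (nat_lit 0) (nat_lit 1050308395) (nat_lit 836) (nat_lit 6391511365) (nat_lit 912) (nat_lit 2273033716) (nat_lit 370) (nat_lit 5) (nat_lit 381) (nat_lit 5) (nat_lit 382) (nat_lit 5) (nat_lit 581) (nat_lit 537) (nat_lit 442)) (XT.lf (nat_lit 0) (nat_lit 7027924235) (nat_lit 836) (nat_lit 2624967769) (nat_lit 912) (nat_lit 156731948) (nat_lit 370) (nat_lit 5) (nat_lit 381) (nat_lit 5) (nat_lit 382) (nat_lit 5) (nat_lit 582) (nat_lit 537) (nat_lit 441))) (XT.nd (nat_lit 78) (nat_lit 0) (nat_lit 0) (XT.lf (nat_lit 0) (nat_lit 1980613772) (nat_lit 836) (nat_lit 6692135628) (nat_lit 76) (nat_lit 1233183055) (nat_lit 359) (nat_lit 5) (nat_lit 370) (nat_lit 5) (nat_lit 360) (nat_lit 5) (nat_lit 583) (nat_lit 537) (nat_lit 440)) (XT.lf (nat_lit 0) (nat_lit 4171014895) (nat_lit 836) (nat_lit 681712835) (nat_lit 76) (nat_lit 5151172526) (nat_lit 359) (nat_lit 5) (nat_lit 370) (nat_lit 5) (nat_lit 360) (nat_lit 5) (nat_lit 584) (nat_lit 537) (nat_lit 439)))))))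 (XT.nd (nat_lit 1092) (nat_lit 5016) (nat_lit 0) (XT.nd (nat_lit 546) (nat_lit 2660) (nat_lit 0) (XT.nd (nat_lit 234) (nat_lit 2128) (nat_lit 0) (XT.nd (nat_lit 78) (nat_lit 760) (nat_lit 0) (XT.lf (nat_lit 0) (nat_lit 5495221044) (nat_lit 760) (nat_lit 922378660) (nat_lit 836) (nat_lit 3685982149) (nat_lit 349) (nat_lit 5) (nat_lit 359) (nat_lit 5) (nat_lit 360) (nat_lit 5) (nat_lit 585) (nat_lit 537) (nat_lit 438)) (XT.nd (nat_lit 78) (nat_lit 76) (nat_lit 0) (XT.lf (nat_lit 0) (nat_lit 1574301635) (nat_lit 684) (nat_lit 7146652007) (nat_lit 760) (nat_lit 1484068604) (nat_lit 340) (nat_lit 5) (nat_lit 349) (nat_lit 5) (nat_lit 350) (nat_lit 5) (nat_lit 586) (nat_lit 537) (nat_lit 437)) (XT.lf (nat_lit 0) (nat_lit 766230819) (nat_lit 760) (nat_lit 2402226822) (nat_lit 76) (nat_lit 7139649917) (nat_lit 339) (nat_lit 5) (nat_lit 349) (nat_lit 5) (nat_lit 340) (nat_lit 5) (nat_lit 587) (nat_lit 537) (nat_lit 436)))) (XT.nd (nat_lit 156) (nat_lit 1368) (nat_lit 0)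 (XT.nd (nat_lit 78) (nat_lit 0) (nat_lit 0) (XT.lf (nat_lit 0) (nat_lit 3050981716) (nat_lit 836) (nat_lit 6451606425) (nat_lit 76) (nat_lit 910285701) (nat_lit 329) (nat_lit 5) (nat_lit 340) (nat_lit 5) (nat_lit 330) (nat_lit 5) (nat_lit 588) (nat_lit 537) (nat_lit 435)) (XT.lf (nat_lit 0) (nat_lit 5396441851) (nat_lit 836) (nat_lit 81828949) (nat_lit 76) (nat_lit 5041166136) (nat_lit 329) (nat_lit 5) (nat_lit 340) (nat_lit 5) (nat_lit 330) (nat_lit 5) (nat_lit 589) (nat_lit 537) (nat_lit 434))) (XT.nd (nat_lit 78) (nat_lit 684) (nat_lit 0) (XT.lf (nat_lit 0) (nat_lit 6474850808) (nat_lit 684) (nat_lit 1334238713) (nat_lit 760) (nat_lit 2818637937) (nat_lit 320) (nat_lit 5) (nat_lit 329) (nat_lit 5) (nat_lit 330) (nat_lit 5) (nat_lit 590) (nat_lit 537) (nat_lit 433)) (XT.lf (nat_lit 0) (nat_lit 2412807935) (nat_lit 684) (nat_lit 7870659425) (nat_lit 760) (nat_lit 454448587) (nat_lit 311) (nat_lit 5) (nat_lit 320) (nat_lit 5) (nat_lit 321) (nat_lit 5) (nat_lit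 591) (nat_lit 537) (nat_lit 432))))) (XT.nd (nat_lit 234) (nat_lit 1292) (nat_lit 0) (XT.nd (nat_lit 78) (nat_lit 1292) (nat_lit 0) (XT.lf (nat_lit 0) (nat_lit 1946838207) (nat_lit 760) (nat_lit 1731147790) (nat_lit 76) (nat_lit 7171760108) (nat_lit 310) (nat_lit 5) (nat_lit 320) (nat_lit 5) (nat_lit 311) (nat_lit 5) (nat_lit 592) (nat_lit 537) (nat_lit 431)) (XT.nd (nat_lit 78) (nat_lit 684) (nat_lit 0) (XT.lf (nat_lit 0) (nat_lit 4405851431) (nat_lit 684) (nat_lit 5935196454) (nat_lit 76) (nat_lit 622390789) (nat_lit 302) (nat_lit 5) (nat_lit 311) (nat_lit 5) (nat_lit 303) (nat_lit 5) (nat_lit 593) (nat_lit 537) (nat_lit 430)) (XT.lf (nat_lit 0) (nat_lit 828052856) (nat_lit 684) (nat_lit 6106651581) (nat_lit 760) (nat_lit 4144289038) (nat_lit 293) (nat_lit 5) (nat_lit 302) (nat_lit 5) (nat_lit 303) (nat_lit 5) (nat_lit 594) (nat_lit 537) (nat_lit 429)))) (XT.nd (nat_lit 156) (nat_lit 608) (nat_lit 0) (XT.nd (nat_lit 78) (nat_lit 684) (nat_lit 0) (XT.lf (nat_lit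 0) (nat_lit 7781701789) (nat_lit 684) (nat_lit 1751735721) (nat_lit 760) (nat_lit 1663037342) (nat_lit 293) (nat_lit 5) (nat_lit 302) (nat_lit 5) (nat_lit 303) (nat_lit 5) (nat_lit 595) (nat_lit 537) (nat_lit 428)) (XT.lf (nat_lit 0) (nat_lit 877033131) (nat_lit 684) (nat_lit 7759494694) (nat_lit 76) (nat_lit 2679255306) (nat_lit 284) (nat_lit 5) (nat_lit 293) (nat_lit 5) (nat_lit 285) (nat_lit 5) (nat_lit 596) (nat_lit 537) (nat_lit 427))) (XT.nd (nat_lit 78) (nat_lit 608) (nat_lit 0) (XT.lf (nat_lit 0) (nat_lit 3460271266) (nat_lit 684) (nat_lit 772023833) (nat_lit 76) (nat_lit 7204671387) (nat_lit 284) (nat_lit 5) (nat_lit 293) (nat_lit 5) (nat_lit 285) (nat_lit 5) (nat_lit 597) (nat_lit 537) (nat_lit 426)) (XT.lf (nat_lit 0) (nat_lit 6119091313) (nat_lit 684) (nat_lit 5147543508) (nat_lit 76) (nat_lit 293461768) (nat_lit 276) (nat_lit 5) (nat_lit 285) (nat_lit 5) (nat_lit 277) (nat_lit 5) (nat_lit 598) (nat_lit 537) (nat_lit 425)))))) (XT.nd (nat_lit 546) (nat_lit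 2584) (nat_lit 0) (XT.nd (nat_lit 234) (nat_lit 1140) (nat_lit 0) (XT.nd (nat_lit 78) (nat_lit 684) (nat_lit 0) (XT.lf (nat_lit 0) (nat_lit 2039390214) (nat_lit 608) (nat_lit 6818712960) (nat_lit 684) (nat_lit 2827047205) (nat_lit 268) (nat_lit 5) (nat_lit 276) (nat_lit 5) (nat_lit 277) (nat_lit 5) (nat_lit 599) (nat_lit 537) (nat_lit 424)) (XT.nd (nat_lit 78) (nat_lit 684) (nat_lit 0) (XT.lf (nat_lit 0) (nat_lit 9415008517) (nat_lit 608) (nat_lit 2252180915) (nat_lit 684) (nat_lit 145211298) (nat_lit 268) (nat_lit 5) (nat_lit 276) (nat_lit 5) (nat_lit 277) (nat_lit 5) (nat_lit 600) (nat_lit 537) (nat_lit 423)) (XT.lf (nat_lit 0) (nat_lit 2585797884) (nat_lit 684) (nat_lit 6937128086) (nat_lit 76) (nat_lit 2418344910) (nat_lit 259) (nat_lit 5) (nat_lit 268) (nat_lit 5) (nat_lit 260) (nat_lit 5) (nat_lit 601) (nat_lit 537) (nat_lit 422)))) (XT.nd (nat_lit 156) (nat_lit 608) (nat_lit 0) (XT.nd (nat_lit 78) (nat_lit 0) (nat_lit 0) (XT.lf (nat_lit 0) (nat_lit 479336629)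 (nat_lit 532) (nat_lit 4905549351) (nat_lit 608) (nat_lit 6687506484) (nat_lit 252) (nat_lit 5) (nat_lit 259) (nat_lit 5) (nat_lit 260) (nat_lit 5) (nat_lit 602) (nat_lit 537) (nat_lit 421)) (XT.lf (nat_lit 0) (nat_lit 8113552482) (nat_lit 532) (nat_lit 154344068) (nat_lit 608) (nat_lit 3937682376) (nat_lit 252) (nat_lit 5) (nat_lit 259) (nat_lit 5) (nat_lit 260) (nat_lit 5) (nat_lit 603) (nat_lit 537) (nat_lit 420))) (XT.nd (nat_lit 78) (nat_lit 76) (nat_lit 0) (XT.lf (nat_lit 0) (nat_lit 3550670272) (nat_lit 532) (nat_lit 7693128850) (nat_lit 608) (nat_lit 1096926598) (nat_lit 245) (nat_lit 5) (nat_lit 252) (nat_lit 5) (nat_lit 253) (nat_lit 5) (nat_lit 604) (nat_lit 537) (nat_lit 419)) (XT.lf (nat_lit 0) (nat_lit 1787487628) (nat_lit 608) (nat_lit 1113772133) (nat_lit 76) (nat_lit 9576873879) (nat_lit 244) (nat_lit 5) (nat_lit 252) (nat_lit 5) (nat_lit 245) (nat_lit 5) (nat_lit 605) (nat_lit 537) (nat_lit 418))))) (XT.nd (nat_lit 234) (nat_lit 1520) (nat_lit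 0) (XT.nd (nat_lit 78) (nat_lit 532) (nat_lit 0) (XT.lf (nat_lit 0) (nat_lit 4754243166) (nat_lit 608) (nat_lit 5857269718) (nat_lit 76) (nat_lit 2005846169) (nat_lit 237) (nat_lit 5) (nat_lit 245) (nat_lit 5) (nat_lit 238) (nat_lit 5) (nat_lit 606) (nat_lit 537) (nat_lit 417)) (XT.nd (nat_lit 78) (nat_lit 0) (nat_lit 0) (XT.lf (nat_lit 0) (nat_lit 2030458214) (nat_lit 532) (nat_lit 5772102433) (nat_lit 608) (nat_lit 4956364934) (nat_lit 230) (nat_lit 5) (nat_lit 237) (nat_lit 5) (nat_lit 238) (nat_lit 5) (nat_lit 607) (nat_lit 537) (nat_lit 416)) (XT.lf (nat_lit 0) (nat_lit 10131282359) (nat_lit 532) (nat_lit 802364846) (nat_lit 608) (nat_lit 1969241302) (nat_lit 230) (nat_lit 5) (nat_lit 237) (nat_lit 5) (nat_lit 238) (nat_lit 5) (nat_lit 608) (nat_lit 537) (nat_lit 415)))) (XT.nd (nat_lit 156) (nat_lit 456) (nat_lit 0) (XT.nd (nat_lit 78) (nat_lit 532) (nat_lit 0) (XT.lf (nat_lit 0) (nat_lit 1109113226) (nat_lit 532) (nat_lit 7692980044) (nat_lit 76) (nat_lit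 4246586133) (nat_lit 223) (nat_lit 5) (nat_lit 230) (nat_lit 5) (nat_lit 224) (nat_lit 5) (nat_lit 609) (nat_lit 537) (nat_lit 414)) (XT.lf (nat_lit 0) (nat_lit 449566991) (nat_lit 532) (nat_lit 3782947322) (nat_lit 608) (nat_lit 8964415574) (nat_lit 216) (nat_lit 5) (nat_lit 223) (nat_lit 5) (nat_lit 224) (nat_lit 5) (nat_lit 610) (nat_lit 537) (nat_lit 413))) (XT.nd (nat_lit 78) (nat_lit 456) (nat_lit 0) (XT.lf (nat_lit 0) (nat_lit 7462032431) (nat_lit 608) (nat_lit 4520983045) (nat_lit 76) (nat_lit 1364257961) (nat_lit 216) (nat_lit 5) (nat_lit 224) (nat_lit 5) (nat_lit 217) (nat_lit 5) (nat_lit 611) (nat_lit 537) (nat_lit 412)) (XT.lf (nat_lit 0) (nat_lit 3872030992) (nat_lit 456) (nat_lit 6917640782) (nat_lit 532) (nat_lit 2710282482) (nat_lit 210) (nat_lit 5) (nat_lit 216) (nat_lit 5) (nat_lit 217) (nat_lit 5) (nat_lit 612) (nat_lit 537) (nat_lit 411))))))))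
noncomputable def xc118 : XT := (XT.nd (nat_lit 2106) (nat_lit 2964) (nat_lit 0) (XT.nd (nat_lit 1014) (nat_lit 3344) (nat_lit 0) (XT.nd (nat_lit 468) (nat_lit 1672) (nat_lit 0) (XT.nd (nat_lit 234) (nat_lit 912) (nat_lit 0) (XT.nd (nat_lit 78) (nat_lit 912) (nat_lit 0) (XT.lf (nat_lit 0) (nat_lit 535189789) (nat_lit 532) (nat_lit 1188212975) (nat_lit 76) (nat_lit 11931939484) (nat_lit 209) (nat_lit 5) (nat_lit 216) (nat_lit 5) (nat_lit 210) (nat_lit 5) (nat_lit 613) (nat_lit 537) (nat_lit 410)) (XT.nd (nat_lit 78) (nat_lit 456) (nat_lit 0) (XT.lf (nat_lit 0) (nat_lit 3865194293) (nat_lit 532) (nat_lit 6359256741) (nat_lit 76) (nat_lit 3587911356) (nat_lit 203) (nat_lit 5) (nat_lit 210) (nat_lit 5) (nat_lit 204) (nat_lit 5) (nat_lit 614) (nat_lit 537) (nat_lit 409)) (XT.lf (nat_lit 0) (nat_lit 2306427116) (nat_lit 456) (nat_lit 4973638277) (nat_lit 532) (nat_lit 6692093149) (nat_lit 197) (nat_lit 5) (nat_lit 203) (nat_lit 5) (nat_lit 204) (nat_lit 5) (nat_lit 615)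 (nat_lit 537) (nat_lit 408)))) (XT.nd (nat_lit 78) (nat_lit 912) (nat_lit 0) (XT.lf (nat_lit 0) (nat_lit 10792643151) (nat_lit 532) (nat_lit 2928904982) (nat_lit 76) (nat_lit 413015220) (nat_lit 197) (nat_lit 5) (nat_lit 204) (nat_lit 5) (nat_lit 198) (nat_lit 5) (nat_lit 616) (nat_lit 537) (nat_lit 407)) (XT.nd (nat_lit 78) (nat_lit 380) (nat_lit 0) (XT.lf (nat_lit 0) (nat_lit 130855636) (nat_lit 532) (nat_lit 8294480558) (nat_lit 76) (nat_lit 5873739448) (nat_lit 190) (nat_lit 5) (nat_lit 197) (nat_lit 5) (nat_lit 191) (nat_lit 5) (nat_lit 617) (nat_lit 537) (nat_lit 406)) (XT.lf (nat_lit 0) (nat_lit 653219917) (nat_lit 380) (nat_lit 2983527738) (nat_lit 456) (nat_lit 10829521409) (nat_lit 185) (nat_lit 5) (nat_lit 190) (nat_lit 5) (nat_lit 191) (nat_lit 5) (nat_lit 618) (nat_lit 537) (nat_lit 405))))) (XT.nd (nat_lit 234) (nat_lit 1216) (nat_lit 0) (XT.nd (nat_lit 78) (nat_lit 456) (nat_lit 0) (XT.lf (nat_lit 0) (nat_lit 7269905340) (nat_lit 456) (nat_lit 4783599108)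 (nat_lit 76) (nat_lit 2582159798) (nat_lit 185) (nat_lit 5) (nat_lit 191) (nat_lit 5) (nat_lit 186) (nat_lit 5) (nat_lit 619) (nat_lit 537) (nat_lit 404)) (XT.nd (nat_lit 78) (nat_lit 0) (nat_lit 0) (XT.lf (nat_lit 0) (nat_lit 4442218240) (nat_lit 456) (nat_lit 6566864559) (nat_lit 532) (nat_lit 3798698235) (nat_lit 179) (nat_lit 5) (nat_lit 185) (nat_lit 5) (nat_lit 186) (nat_lit 5) (nat_lit 620) (nat_lit 537) (nat_lit 403)) (XT.lf (nat_lit 0) (nat_lit 13894820660) (nat_lit 456) (nat_lit 945232276) (nat_lit 532) (nat_lit 142947856) (nat_lit 179) (nat_lit 5) (nat_lit 185) (nat_lit 5) (nat_lit 186) (nat_lit 5) (nat_lit 621) (nat_lit 537) (nat_lit 402)))) (XT.nd (nat_lit 156) (nat_lit 380) (nat_lit 0) (XT.nd (nat_lit 78) (nat_lit 380) (nat_lit 0) (XT.lf (nat_lit 0) (nat_lit 3610351408) (nat_lit 456) (nat_lit 6752195537) (nat_lit 76) (nat_lit 4797283865) (nat_lit 173) (nat_lit 5) (nat_lit 179) (nat_lit 5) (nat_lit 174) (nat_lit 5) (nat_lit 622) (nat_lit 537) (nat_lit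 401)) (XT.lf (nat_lit 0) (nat_lit 2774772150) (nat_lit 380) (nat_lit 4678863846) (nat_lit 456) (nat_lit 7886206637) (nat_lit 168) (nat_lit 5) (nat_lit 173) (nat_lit 5) (nat_lit 174) (nat_lit 5) (nat_lit 623) (nat_lit 537) (nat_lit 400))) (XT.nd (nat_lit 78) (nat_lit 380) (nat_lit 0) (XT.lf (nat_lit 0) (nat_lit 11411960498) (nat_lit 456) (nat_lit 2968830972) (nat_lit 76) (nat_lit 1141900491) (nat_lit 168) (nat_lit 5) (nat_lit 174) (nat_lit 5) (nat_lit 169) (nat_lit 5) (nat_lit 624) (nat_lit 537) (nat_lit 399)) (XT.lf (nat_lit 0) (nat_lit 6856181840) (nat_lit 380) (nat_lit 8654359957) (nat_lit 456) (nat_lit 197435414) (nat_lit 163) (nat_lit 5) (nat_lit 168) (nat_lit 5) (nat_lit 169) (nat_lit 5) (nat_lit 625) (nat_lit 537) (nat_lit 398)))))) (XT.nd (nat_lit 546) (nat_lit 1748) (nat_lit 0) (XT.nd (nat_lit 234) (nat_lit 760) (nat_lit 0) (XT.nd (nat_lit 78) (nat_lit 380) (nat_lit 0) (XT.lf (nat_lit 0) (nat_lit 987420742) (nat_lit 380) (nat_lit 2769044967) (nat_lit 456)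 (nat_lit 12139768492) (nat_lit 157) (nat_lit 5) (nat_lit 162) (nat_lit 5) (nat_lit 163) (nat_lit 5) (nat_lit 626) (nat_lit 537) (nat_lit 397)) (XT.nd (nat_lit 78) (nat_lit 380) (nat_lit 0) (XT.lf (nat_lit 0) (nat_lit 7853317375) (nat_lit 456) (nat_lit 4988578005) (nat_lit 76) (nat_lit 3245005222) (nat_lit 157) (nat_lit 5) (nat_lit 163) (nat_lit 5) (nat_lit 158) (nat_lit 5) (nat_lit 627) (nat_lit 537) (nat_lit 396)) (XT.lf (nat_lit 0) (nat_lit 5157581170) (nat_lit 380) (nat_lit 6912352333) (nat_lit 456) (nat_lit 4210690965) (nat_lit 152) (nat_lit 5) (nat_lit 157) (nat_lit 5) (nat_lit 158) (nat_lit 5) (nat_lit 628) (nat_lit 537) (nat_lit 395)))) (XT.nd (nat_lit 156) (nat_lit 304) (nat_lit 0) (XT.nd (nat_lit 78) (nat_lit 456) (nat_lit 0) (XT.lf (nat_lit 0) (nat_lit 15552642800) (nat_lit 380) (nat_lit 837852021) (nat_lit 456) (nat_lit 87336403) (nat_lit 152) (nat_lit 5) (nat_lit 157) (nat_lit 5) (nat_lit 158) (nat_lit 5) (nat_lit 629) (nat_lit 537) (nat_lit 394)) (XT.lf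 (nat_lit 0) (nat_lit 4148144473) (nat_lit 456) (nat_lit 7159024503) (nat_lit 76) (nat_lit 5369605506) (nat_lit 146) (nat_lit 5) (nat_lit 152) (nat_lit 5) (nat_lit 147) (nat_lit 5) (nat_lit 630) (nat_lit 537) (nat_lit 393))) (XT.nd (nat_lit 78) (nat_lit 0) (nat_lit 0) (XT.lf (nat_lit 0) (nat_lit 3318387788) (nat_lit 304) (nat_lit 5168520567) (nat_lit 380) (nat_lit 8392382479) (nat_lit 142) (nat_lit 5) (nat_lit 146) (nat_lit 5) (nat_lit 147) (nat_lit 5) (nat_lit 631) (nat_lit 537) (nat_lit 392)) (XT.lf (nat_lit 0) (nat_lit 12954377650) (nat_lit 380) (nat_lit 3011478754) (nat_lit 76) (nat_lit 1119163125) (nat_lit 142) (nat_lit 5) (nat_lit 147) (nat_lit 5) (nat_lit 143) (nat_lit 5) (nat_lit 632) (nat_lit 537) (nat_lit 391))))) (XT.nd (nat_lit 234) (nat_lit 988) (nat_lit 0) (XT.nd (nat_lit 78) (nat_lit 304) (nat_lit 0) (XT.lf (nat_lit 0) (nat_lit 285554466) (nat_lit 456) (nat_lit 9499497595) (nat_lit 76) (nat_lit 7508342077) (nat_lit 136) (nat_lit 5) (nat_lit 142) (nat_lit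 5) (nat_lit 137) (nat_lit 5) (nat_lit 633) (nat_lit 537) (nat_lit 390)) (XT.nd (nat_lit 78) (nat_lit 0) (nat_lit 0) (XT.lf (nat_lit 0) (nat_lit 1319309171) (nat_lit 304) (nat_lit 3431192841) (nat_lit 380) (nat_lit 12754574008) (nat_lit 132) (nat_lit 5) (nat_lit 136) (nat_lit 5) (nat_lit 137) (nat_lit 5) (nat_lit 634) (nat_lit 537) (nat_lit 389)) (XT.lf (nat_lit 0) (nat_lit 9375566063) (nat_lit 380) (nat_lit 5277924639) (nat_lit 76) (nat_lit 3066085059) (nat_lit 132) (nat_lit 5) (nat_lit 137) (nat_lit 5) (nat_lit 133) (nat_lit 5) (nat_lit 635) (nat_lit 537) (nat_lit 388)))) (XT.nd (nat_lit 156) (nat_lit 608) (nat_lit 0) (XT.nd (nat_lit 78) (nat_lit 76) (nat_lit 0) (XT.lf (nat_lit 0) (nat_lit 5881661734) (nat_lit 304) (nat_lit 8259486132) (nat_lit 380) (nat_lit 3796257862) (nat_lit 128) (nat_lit 5) (nat_lit 132) (nat_lit 5) (nat_lit 133) (nat_lit 5) (nat_lit 636) (nat_lit 537) (nat_lit 387)) (XT.lf (nat_lit 0) (nat_lit 854191372) (nat_lit 380) (nat_lit 849467767)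 (nat_lit 76) (nat_lit 16455368475) (nat_lit 127) (nat_lit 5) (nat_lit 132) (nat_lit 5) (nat_lit 128) (nat_lit 5) (nat_lit 637) (nat_lit 537) (nat_lit 386))) (XT.nd (nat_lit 78) (nat_lit 304) (nat_lit 0) (XT.lf (nat_lit 0) (nat_lit 5636497222) (nat_lit 380) (nat_lit 7741026590) (nat_lit 76) (nat_lit 5005263199) (nat_lit 123) (nat_lit 5) (nat_lit 128) (nat_lit 5) (nat_lit 124) (nat_lit 5) (nat_lit 638) (nat_lit 537) (nat_lit 385)) (XT.lf (nat_lit 0) (nat_lit 3781171874) (nat_lit 304) (nat_lit 6762303523) (nat_lit 380) (nat_lit 8066966191) (nat_lit 119) (nat_lit 5) (nat_lit 123) (nat_lit 5) (nat_lit 124) (nat_lit 5) (nat_lit 639) (nat_lit 537) (nat_lit 384))))))) (XT.nd (nat_lit 1014) (nat_lit 532) (nat_lit 0) (XT.nd (nat_lit 468) (nat_lit 1444) (nat_lit 0) (XT.nd (nat_lit 234) (nat_lit 304) (nat_lit 0) (XT.nd (nat_lit 78) (nat_lit 684) (nat_lit 0) (XT.lf (nat_lit 0) (nat_lit 15588305239) (nat_lit 380) (nat_lit 3223693881) (nat_lit 76) (nat_lit 29856403) (nat_lit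 119) (nat_lit 5) (nat_lit 124) (nat_lit 5) (nat_lit 120) (nat_lit 5) (nat_lit 640) (nat_lit 537) (nat_lit 383)) (XT.nd (nat_lit 78) (nat_lit 304) (nat_lit 0) (XT.lf (nat_lit 0) (nat_lit 1723790491) (nat_lit 380) (nat_lit 10424818925) (nat_lit 76) (nat_lit 6927286214) (nat_lit 114) (nat_lit 5) (nat_lit 119) (nat_lit 5) (nat_lit 115) (nat_lit 5) (nat_lit 641) (nat_lit 537) (nat_lit 382)) (XT.lf (nat_lit 0) (nat_lit 1470241500) (nat_lit 304) (nat_lit 5306025434) (nat_lit 380) (nat_lit 12537536887) (nat_lit 110) (nat_lit 5) (nat_lit 114) (nat_lit 5) (nat_lit 115) (nat_lit 5) (nat_lit 642) (nat_lit 537) (nat_lit 381)))) (XT.nd (nat_lit 78) (nat_lit 304) (nat_lit 0) (XT.lf (nat_lit 0) (nat_lit 11998925803) (nat_lit 380) (nat_lit 5842150527) (nat_lit 76) (nat_lit 1714011657) (nat_lit 110) (nat_lit 5) (nat_lit 115) (nat_lit 5) (nat_lit 111) (nat_lit 5) (nat_lit 643) (nat_lit 537) (nat_lit 380)) (XT.nd (nat_lit 78) (nat_lit 76) (nat_lit 0) (XT.lf (nat_lit 0) (nat_lit 6428594197)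 (nat_lit 228) (nat_lit 10962408550) (nat_lit 304) (nat_lit 2408896251) (nat_lit 107) (nat_lit 5) (nat_lit 110) (nat_lit 5) (nat_lit 111) (nat_lit 5) (nat_lit 644) (nat_lit 537) (nat_lit 379)) (XT.lf (nat_lit 0) (nat_lit 2831627936) (nat_lit 304) (nat_lit 1063479701) (nat_lit 76) (nat_lit 16153578535) (nat_lit 106) (nat_lit 5) (nat_lit 110) (nat_lit 5) (nat_lit 107) (nat_lit 5) (nat_lit 645) (nat_lit 537) (nat_lit 378))))) (XT.nd (nat_lit 234) (nat_lit 912) (nat_lit 0) (XT.nd (nat_lit 78) (nat_lit 228) (nat_lit 0) (XT.lf (nat_lit 0) (nat_lit 8230514032) (nat_lit 380) (nat_lit 8715649099) (nat_lit 76) (nat_lit 3354251804) (nat_lit 102) (nat_lit 5) (nat_lit 107) (nat_lit 5) (nat_lit 103) (nat_lit 5) (nat_lit 646) (nat_lit 537) (nat_lit 377)) (XT.nd (nat_lit 78) (nat_lit 0) (nat_lit 0) (XT.lf (nat_lit 0) (nat_lit 3949757495) (nat_lit 228) (nat_lit 9834642673) (nat_lit 304) (nat_lit 6771838084) (nat_lit 99) (nat_lit 5) (nat_lit 102) (nat_lit 5) (nat_lit 103) (nat_lit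 5) (nat_lit 647) (nat_lit 537) (nat_lit 376)) (XT.lf (nat_lit 0) (nat_lit 16967185712) (nat_lit 228) (nat_lit 2529164922) (nat_lit 304) (nat_lit 1319888086) (nat_lit 99) (nat_lit 5) (nat_lit 102) (nat_lit 5) (nat_lit 103) (nat_lit 5) (nat_lit 648) (nat_lit 537) (nat_lit 375)))) (XT.nd (nat_lit 156) (nat_lit 304) (nat_lit 0) (XT.nd (nat_lit 78) (nat_lit 228) (nat_lit 0) (XT.lf (nat_lit 0) (nat_lit 4266595644) (nat_lit 380) (nat_lit 11874459647) (nat_lit 76) (nat_lit 4938211236) (nat_lit 94) (nat_lit 5) (nat_lit 99) (nat_lit 5) (nat_lit 95) (nat_lit 5) (nat_lit 649) (nat_lit 537) (nat_lit 374)) (XT.lf (nat_lit 0) (nat_lit 1195652317) (nat_lit 228) (nat_lit 8790710932) (nat_lit 304) (nat_lit 11360232994) (nat_lit 91) (nat_lit 5) (nat_lit 94) (nat_lit 5) (nat_lit 95) (nat_lit 5) (nat_lit 650) (nat_lit 537) (nat_lit 373))) (XT.nd (nat_lit 78) (nat_lit 304) (nat_lit 0) (XT.lf (nat_lit 0) (nat_lit 14669006584) (nat_lit 228) (nat_lit 1219999299) (nat_lit 304) (nat_lit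 5728897461) (nat_lit 91) (nat_lit 5) (nat_lit 94) (nat_lit 5) (nat_lit 95) (nat_lit 5) (nat_lit 651) (nat_lit 537) (nat_lit 372)) (XT.lf (nat_lit 0) (nat_lit 89009905) (nat_lit 304) (nat_lit 15351892699) (nat_lit 76) (nat_lit 6452249543) (nat_lit 87) (nat_lit 5) (nat_lit 91) (nat_lit 5) (nat_lit 88) (nat_lit 5) (nat_lit 652) (nat_lit 537) (nat_lit 371)))))) (XT.nd (nat_lit 72462) (nat_lit 0) (nat_lit 42104) (XT.nd (nat_lit 234) (nat_lit 76) (nat_lit 0) (XT.nd (nat_lit 78) (nat_lit 456) (nat_lit 0) (XT.lf (nat_lit 0) (nat_lit 5990642863) (nat_lit 304) (nat_lit 1842826784) (nat_lit 76) (nat_lit 14338797735) (nat_lit 87) (nat_lit 5) (nat_lit 91) (nat_lit 5) (nat_lit 88) (nat_lit 5) (nat_lit 653) (nat_lit 537) (nat_lit 370)) (XT.nd (nat_lit 78) (nat_lit 228) (nat_lit 0) (XT.lf (nat_lit 0) (nat_lit 12076235407) (nat_lit 228) (nat_lit 1682593) (nat_lit 304) (nat_lit 10377695086) (nat_lit 84) (nat_lit 5) (nat_lit 87) (nat_lit 5) (nat_lit 88) (nat_lit 5) (nat_lit 654)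 (nat_lit 537) (nat_lit 369)) (XT.lf (nat_lit 0) (nat_lit 3530031251) (nat_lit 228) (nat_lit 14833374439) (nat_lit 304) (nat_lit 4379691022) (nat_lit 81) (nat_lit 5) (nat_lit 84) (nat_lit 5) (nat_lit 85) (nat_lit 5) (nat_lit 655) (nat_lit 537) (nat_lit 368)))) (XT.nd (nat_lit 72072) (nat_lit 0) (nat_lit 44308) (XT.nd (nat_lit 71994) (nat_lit 0) (nat_lit 44308) (XT.lf (nat_lit 0) (nat_lit 1774863055) (nat_lit 304) (nat_lit 5207001539) (nat_lit 76) (nat_lit 16053052277) (nat_lit 80) (nat_lit 5) (nat_lit 84) (nat_lit 5) (nat_lit 81) (nat_lit 5) (nat_lit 656) (nat_lit 537) (nat_lit 367)) (XT.lf (nat_lit 0) (nat_lit 1007870180) (nat_lit 1140) (nat_lit 1260729137) (nat_lit 1140) (nat_lit 1260729137) (nat_lit 663) (nat_lit 3) (nat_lit 678) (nat_lit 3) (nat_lit 678) (nat_lit 5) (nat_lit 538) (nat_lit 538) (nat_lit 484))) (XT.nd (nat_lit 78) (nat_lit 0) (nat_lit 0) (XT.lf (nat_lit 76) (nat_lit 985496244) (nat_lit 0) (nat_lit 2822557333) (nat_lit 1140) (nat_lit 3285529929)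 (nat_lit 664) (nat_lit 5) (nat_lit 663) (nat_lit 3) (nat_lit 678) (nat_lit 5) (nat_lit 539) (nat_lit 538) (nat_lit 483)) (XT.lf (nat_lit 76) (nat_lit 4572830697) (nat_lit 0) (nat_lit 1033830801) (nat_lit 1140) (nat_lit 1523143856) (nat_lit 664) (nat_lit 5) (nat_lit 663) (nat_lit 3) (nat_lit 678) (nat_lit 5) (nat_lit 540) (nat_lit 538) (nat_lit 482))))) (XT.nd (nat_lit 234) (nat_lit 1140) (nat_lit 0) (XT.nd (nat_lit 78) (nat_lit 0) (nat_lit 0) (XT.lf (nat_lit 0) (nat_lit 237191602) (nat_lit 1140) (nat_lit 6119728286) (nat_lit 1216) (nat_lit 810475542) (nat_lit 649) (nat_lit 5) (nat_lit 664) (nat_lit 5) (nat_lit 665) (nat_lit 5) (nat_lit 541) (nat_lit 538) (nat_lit 481)) (XT.nd (nat_lit 78) (nat_lit 0) (nat_lit 0) (XT.lf (nat_lit 0) (nat_lit 1991490555) (nat_lit 1140) (nat_lit 2488349992) (nat_lit 1216) (nat_lit 2726117728) (nat_lit 649) (nat_lit 5) (nat_lit 664) (nat_lit 5) (nat_lit 665) (nat_lit 5) (nat_lit 542) (nat_lit 538) (nat_lit 480)) (XT.lf (nat_lit 76)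 (nat_lit 1207004712) (nat_lit 0) (nat_lit 2537603310) (nat_lit 1216) (nat_lit 3501414959) (nat_lit 650) (nat_lit 5) (nat_lit 649) (nat_lit 5) (nat_lit 665) (nat_lit 5) (nat_lit 543) (nat_lit 538) (nat_lit 479)))) (XT.nd (nat_lit 156) (nat_lit 1140) (nat_lit 0) (XT.nd (nat_lit 78) (nat_lit 0) (nat_lit 76) (XT.lf (nat_lit 76) (nat_lit 4985676572) (nat_lit 0) (nat_lit 520412149) (nat_lit 1216) (nat_lit 1781339395) (nat_lit 650) (nat_lit 5) (nat_lit 649) (nat_lit 5) (nat_lit 665) (nat_lit 5) (nat_lit 544) (nat_lit 538) (nat_lit 478)) (XT.lf (nat_lit 76) (nat_lit 1495067856) (nat_lit 0) (nat_lit 5784993273) (nat_lit 1216) (nat_lit 50060033) (nat_lit 651) (nat_lit 5) (nat_lit 650) (nat_lit 5) (nat_lit 666) (nat_lit 5) (nat_lit 545) (nat_lit 538) (nat_lit 477))) (XT.nd (nat_lit 78) (nat_lit 0) (nat_lit 0) (XT.lf (nat_lit 0) (nat_lit 1670301467) (nat_lit 1216) (nat_lit 2014244690) (nat_lit 1292) (nat_lit 3689364756) (nat_lit 634) (nat_lit 5) (nat_lit 650) (nat_lit 5) (nat_lit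 651) (nat_lit 5) (nat_lit 546) (nat_lit 538) (nat_lit 476)) (XT.lf (nat_lit 76) (nat_lit 1882613012) (nat_lit 0) (nat_lit 1512800361) (nat_lit 1292) (nat_lit 4023740957) (nat_lit 635) (nat_lit 5) (nat_lit 634) (nat_lit 5) (nat_lit 651) (nat_lit 5) (nat_lit 547) (nat_lit 538) (nat_lit 475))))))))
noncomputable def xc119 : XT := (XT.nd (nat_lit 2106) (nat_lit 12768) (nat_lit 0) (XT.nd (nat_lit 1014) (nat_lit 11932) (nat_lit 0) (XT.nd (nat_lit 468) (nat_lit 2584) (nat_lit 0) (XT.nd (nat_lit 234) (nat_lit 0) (nat_lit 76) (XT.nd (nat_lit 78) (nat_lit 1292) (nat_lit 0) (XT.lf (nat_lit 0) (nat_lit 5132736105) (nat_lit 1216) (nat_lit 1610454101) (nat_lit 1292) (nat_lit 722562905) (nat_lit 635) (nat_lit 5) (nat_lit 651) (nat_lit 5) (nat_lit 652) (nat_lit 5) (nat_lit 548) (nat_lit 538) (nat_lit 474)) (XT.nd (nat_lit 78) (nat_lit 1292) (nat_lit 0) (XT.lf (nat_lit 76) (nat_lit 2390504416) (nat_lit 0) (nat_lit 4500175564) (nat_lit 1292) (nat_lit 622890969) (nat_lit 636) (nat_lit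 5) (nat_lit 635) (nat_lit 5) (nat_lit 652) (nat_lit 5) (nat_lit 549) (nat_lit 538) (nat_lit 473)) (XT.lf (nat_lit 0) (nat_lit 1078297271) (nat_lit 1292) (nat_lit 1101515703) (nat_lit 1368) (nat_lit 5382959592) (nat_lit 618) (nat_lit 5) (nat_lit 635) (nat_lit 5) (nat_lit 636) (nat_lit 5) (nat_lit 550) (nat_lit 538) (nat_lit 472)))) (XT.nd (nat_lit 78) (nat_lit 0) (nat_lit 0) (XT.lf (nat_lit 0) (nat_lit 2787645153) (nat_lit 1292) (nat_lit 4603738031) (nat_lit 1368) (nat_lit 221847471) (nat_lit 619) (nat_lit 5) (nat_lit 636) (nat_lit 5) (nat_lit 637) (nat_lit 5) (nat_lit 551) (nat_lit 538) (nat_lit 471)) (XT.nd (nat_lit 78) (nat_lit 0) (nat_lit 0) (XT.lf (nat_lit 0) (nat_lit 4515197820) (nat_lit 1292) (nat_lit 486917403) (nat_lit 1368) (nat_lit 2662906549) (nat_lit 619) (nat_lit 5) (nat_lit 636) (nat_lit 5) (nat_lit 637) (nat_lit 5) (nat_lit 552) (nat_lit 538) (nat_lit 470)) (XT.lf (nat_lit 76) (nat_lit 3736206351) (nat_lit 0) (nat_lit 2528236726) (nat_lit 1368) (nat_lit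 1453666950) (nat_lit 620) (nat_lit 5) (nat_lit 619) (nat_lit 5) (nat_lit 637) (nat_lit 5) (nat_lit 553) (nat_lit 538) (nat_lit 469))))) (XT.nd (nat_lit 234) (nat_lit 1368) (nat_lit 0) (XT.nd (nat_lit 78) (nat_lit 0) (nat_lit 0) (XT.lf (nat_lit 0) (nat_lit 241019535) (nat_lit 1368) (nat_lit 7518597191) (nat_lit 1444) (nat_lit 13246779) (nat_lit 602) (nat_lit 5) (nat_lit 620) (nat_lit 5) (nat_lit 621) (nat_lit 5) (nat_lit 554) (nat_lit 538) (nat_lit 468)) (XT.nd (nat_lit 78) (nat_lit 0) (nat_lit 0) (XT.lf (nat_lit 0) (nat_lit 1957627709) (nat_lit 1368) (nat_lit 3251585456) (nat_lit 1444) (nat_lit 2619160767) (nat_lit 602) (nat_lit 5) (nat_lit 620) (nat_lit 5) (nat_lit 621) (nat_lit 5) (nat_lit 555) (nat_lit 538) (nat_lit 467)) (XT.lf (nat_lit 76) (nat_lit 1089570055) (nat_lit 0) (nat_lit 2590614798) (nat_lit 1444) (nat_lit 4205381204) (nat_lit 603) (nat_lit 5) (nat_lit 602) (nat_lit 5) (nat_lit 621) (nat_lit 5) (nat_lit 556) (nat_lit 538) (nat_lit 466)))) (XT.nd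 (nat_lit 156) (nat_lit 1444) (nat_lit 0) (XT.nd (nat_lit 78) (nat_lit 0) (nat_lit 0) (XT.lf (nat_lit 0) (nat_lit 5424815050) (nat_lit 1368) (nat_lit 2408590437) (nat_lit 1444) (nat_lit 110747855) (nat_lit 603) (nat_lit 5) (nat_lit 621) (nat_lit 5) (nat_lit 622) (nat_lit 5) (nat_lit 557) (nat_lit 538) (nat_lit 465)) (XT.lf (nat_lit 76) (nat_lit 2050730633) (nat_lit 0) (nat_lit 5149897754) (nat_lit 1444) (nat_lit 803361852) (nat_lit 604) (nat_lit 5) (nat_lit 603) (nat_lit 5) (nat_lit 622) (nat_lit 5) (nat_lit 558) (nat_lit 538) (nat_lit 464))) (XT.nd (nat_lit 78) (nat_lit 0) (nat_lit 76) (XT.lf (nat_lit 0) (nat_lit 916882992) (nat_lit 1444) (nat_lit 1464926335) (nat_lit 1520) (nat_lit 5683447760) (nat_lit 584) (nat_lit 5) (nat_lit 603) (nat_lit 5) (nat_lit 604) (nat_lit 5) (nat_lit 559) (nat_lit 538) (nat_lit 463)) (XT.lf (nat_lit 0) (nat_lit 2650916444) (nat_lit 1444) (nat_lit 5007526229) (nat_lit 76) (nat_lit 469401047) (nat_lit 585) (nat_lit 5) (nat_lit 604) (nat_lit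 5) (nat_lit 586) (nat_lit 5) (nat_lit 560) (nat_lit 538) (nat_lit 462)))))) (XT.nd (nat_lit 546) (nat_lit 5700) (nat_lit 0) (XT.nd (nat_lit 234) (nat_lit 3344) (nat_lit 0) (XT.nd (nat_lit 78) (nat_lit 2964) (nat_lit 0) (XT.lf (nat_lit 0) (nat_lit 4412599861) (nat_lit 1444) (nat_lit 416091949) (nat_lit 76) (nat_lit 3363134290) (nat_lit 585) (nat_lit 5) (nat_lit 604) (nat_lit 5) (nat_lit 586) (nat_lit 5) (nat_lit 561) (nat_lit 538) (nat_lit 461)) (XT.nd (nat_lit 78) (nat_lit 1520) (nat_lit 0) (XT.lf (nat_lit 0) (nat_lit 4298158356) (nat_lit 1444) (nat_lit 1907206453) (nat_lit 1520) (nat_lit 2051809693) (nat_lit 566) (nat_lit 5) (nat_lit 585) (nat_lit 5) (nat_lit 586) (nat_lit 5) (nat_lit 562) (nat_lit 538) (nat_lit 460)) (XT.lf (nat_lit 0) (nat_lit 765725955) (nat_lit 1520) (nat_lit 7251453774) (nat_lit 1596) (nat_lit 306989516) (nat_lit 546) (nat_lit 5) (nat_lit 566) (nat_lit 5) (nat_lit 567) (nat_lit 5) (nat_lit 563) (nat_lit 538) (nat_lit 459)))) (XT.nd (nat_lit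 156) (nat_lit 1672) (nat_lit 0) (XT.nd (nat_lit 78) (nat_lit 1596) (nat_lit 0) (XT.lf (nat_lit 0) (nat_lit 1461475697) (nat_lit 1596) (nat_lit 2801854713) (nat_lit 76) (nat_lit 4128824101) (nat_lit 545) (nat_lit 5) (nat_lit 566) (nat_lit 5) (nat_lit 546) (nat_lit 5) (nat_lit 564) (nat_lit 538) (nat_lit 458)) (XT.lf (nat_lit 0) (nat_lit 2049076991) (nat_lit 1596) (nat_lit 1194734548) (nat_lit 1672) (nat_lit 5217998201) (nat_lit 524) (nat_lit 5) (nat_lit 545) (nat_lit 5) (nat_lit 546) (nat_lit 5) (nat_lit 565) (nat_lit 538) (nat_lit 457))) (XT.nd (nat_lit 78) (nat_lit 1672) (nat_lit 0) (XT.lf (nat_lit 0) (nat_lit 5063057180) (nat_lit 1672) (nat_lit 1536264517) (nat_lit 76) (nat_lit 1933514132) (nat_lit 524) (nat_lit 5) (nat_lit 546) (nat_lit 5) (nat_lit 525) (nat_lit 5) (nat_lit 566) (nat_lit 538) (nat_lit 456)) (XT.lf (nat_lit 0) (nat_lit 3449472799) (nat_lit 1672) (nat_lit 3469887885) (nat_lit 1748) (nat_lit 1685911255) (nat_lit 502) (nat_lit 5) (nat_lit 524) (nat_lit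 5) (nat_lit 525) (nat_lit 5) (nat_lit 567) (nat_lit 538) (nat_lit 455))))) (XT.nd (nat_lit 234) (nat_lit 2052) (nat_lit 0) (XT.nd (nat_lit 78) (nat_lit 3572) (nat_lit 0) (XT.lf (nat_lit 0) (nat_lit 112842485) (nat_lit 1748) (nat_lit 149951172) (nat_lit 76) (nat_lit 8416729375) (nat_lit 501) (nat_lit 5) (nat_lit 524) (nat_lit 5) (nat_lit 502) (nat_lit 5) (nat_lit 568) (nat_lit 538) (nat_lit 454)) (XT.nd (nat_lit 78) (nat_lit 1824) (nat_lit 0) (XT.lf (nat_lit 0) (nat_lit 1948388455) (nat_lit 1824) (nat_lit 3789893076) (nat_lit 76) (nat_lit 3016289696) (nat_lit 478) (nat_lit 5) (nat_lit 502) (nat_lit 5) (nat_lit 479) (nat_lit 5) (nat_lit 569) (nat_lit 538) (nat_lit 453)) (XT.lf (nat_lit 0) (nat_lit 1342660427) (nat_lit 1824) (nat_lit 2461040252) (nat_lit 1900) (nat_lit 5027761335) (nat_lit 454) (nat_lit 5) (nat_lit 478) (nat_lit 5) (nat_lit 479) (nat_lit 5) (nat_lit 570) (nat_lit 538) (nat_lit 452)))) (XT.nd (nat_lit 156) (nat_lit 988) (nat_lit 0) (XT.nd (nat_lit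 78) (nat_lit 1064) (nat_lit 0) (XT.lf (nat_lit 0) (nat_lit 5699436400) (nat_lit 1900) (nat_lit 2312181318) (nat_lit 76) (nat_lit 898209232) (nat_lit 454) (nat_lit 5) (nat_lit 479) (nat_lit 5) (nat_lit 455) (nat_lit 5) (nat_lit 571) (nat_lit 538) (nat_lit 451)) (XT.lf (nat_lit 0) (nat_lit 2964927216) (nat_lit 1064) (nat_lit 4676249124) (nat_lit 1140) (nat_lit 1348423684) (nat_lit 440) (nat_lit 5) (nat_lit 454) (nat_lit 5) (nat_lit 455) (nat_lit 5) (nat_lit 572) (nat_lit 538) (nat_lit 450))) (XT.nd (nat_lit 78) (nat_lit 912) (nat_lit 0) (XT.lf (nat_lit 0) (nat_lit 531909740) (nat_lit 1140) (nat_lit 721244578) (nat_lit 76) (nat_lit 7817978229) (nat_lit 439) (nat_lit 5) (nat_lit 454) (nat_lit 5) (nat_lit 440) (nat_lit 5) (nat_lit 573) (nat_lit 538) (nat_lit 449)) (XT.lf (nat_lit 0) (nat_lit 2450500803) (nat_lit 988) (nat_lit 4452995944) (nat_lit 76) (nat_lit 2250249061) (nat_lit 427) (nat_lit 5) (nat_lit 440) (nat_lit 5) (nat_lit 428) (nat_lit 5) (nat_lit 574) (nat_lit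 538) (nat_lit 448))))))) (XT.nd (nat_lit 1092) (nat_lit 6080) (nat_lit 0) (XT.nd (nat_lit 546) (nat_lit 3192) (nat_lit 0) (XT.nd (nat_lit 234) (nat_lit 1748) (nat_lit 0) (XT.nd (nat_lit 78) (nat_lit 836) (nat_lit 0) (XT.lf (nat_lit 0) (nat_lit 981900581) (nat_lit 912) (nat_lit 3418744828) (nat_lit 988) (nat_lit 4837504718) (nat_lit 415) (nat_lit 5) (nat_lit 427) (nat_lit 5) (nat_lit 428) (nat_lit 5) (nat_lit 575) (nat_lit 538) (nat_lit 447)) (XT.nd (nat_lit 78) (nat_lit 836) (nat_lit 0) (XT.lf (nat_lit 0) (nat_lit 6394743784) (nat_lit 988) (nat_lit 2764916536) (nat_lit 76) (nat_lit 164485574) (nat_lit 415) (nat_lit 5) (nat_lit 428) (nat_lit 5) (nat_lit 416) (nat_lit 5) (nat_lit 576) (nat_lit 538) (nat_lit 446)) (XT.lf (nat_lit 0) (nat_lit 2825115862) (nat_lit 836) (nat_lit 5619091453) (nat_lit 912) (nat_lit 967346932) (nat_lit 404) (nat_lit 5) (nat_lit 415) (nat_lit 5) (nat_lit 416) (nat_lit 5) (nat_lit 577) (nat_lit 538) (nat_lit 445)))) (XT.nd (nat_lit 156) (nat_lit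 836) (nat_lit 0) (XT.nd (nat_lit 78) (nat_lit 836) (nat_lit 0) (XT.lf (nat_lit 0) (nat_lit 1013732174) (nat_lit 912) (nat_lit 968456943) (nat_lit 76) (nat_lit 7518522765) (nat_lit 403) (nat_lit 5) (nat_lit 415) (nat_lit 5) (nat_lit 404) (nat_lit 5) (nat_lit 578) (nat_lit 538) (nat_lit 444)) (XT.lf (nat_lit 0) (nat_lit 3039237372) (nat_lit 912) (nat_lit 4809727548) (nat_lit 76) (nat_lit 1742206919) (nat_lit 392) (nat_lit 5) (nat_lit 404) (nat_lit 5) (nat_lit 393) (nat_lit 5) (nat_lit 579) (nat_lit 538) (nat_lit 443))) (XT.nd (nat_lit 78) (nat_lit 0) (nat_lit 0) (XT.lf (nat_lit 0) (nat_lit 949920041) (nat_lit 836) (nat_lit 4156653197) (nat_lit 912) (nat_lit 4576843503) (nat_lit 381) (nat_lit 5) (nat_lit 392) (nat_lit 5) (nat_lit 393) (nat_lit 5) (nat_lit 580) (nat_lit 538) (nat_lit 442)) (XT.lf (nat_lit 0) (nat_lit 6864597224) (nat_lit 836) (nat_lit 358734528) (nat_lit 912) (nat_lit 2554015383) (nat_lit 381) (nat_lit 5) (nat_lit 392) (nat_lit 5) (nat_lit 393) (nat_lit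 5) (nat_lit 581) (nat_lit 538) (nat_lit 441))))) (XT.nd (nat_lit 234) (nat_lit 1520) (nat_lit 0) (XT.nd (nat_lit 78) (nat_lit 836) (nat_lit 0) (XT.lf (nat_lit 0) (nat_lit 3015809653) (nat_lit 836) (nat_lit 6385286304) (nat_lit 912) (nat_lit 471688842) (nat_lit 370) (nat_lit 5) (nat_lit 381) (nat_lit 5) (nat_lit 382) (nat_lit 5) (nat_lit 582) (nat_lit 538) (nat_lit 440)) (XT.nd (nat_lit 78) (nat_lit 760) (nat_lit 0) (XT.lf (nat_lit 0) (nat_lit 1629077504) (nat_lit 912) (nat_lit 906030900) (nat_lit 76) (nat_lit 7434840983) (nat_lit 369) (nat_lit 5) (nat_lit 381) (nat_lit 5) (nat_lit 370) (nat_lit 5) (nat_lit 583) (nat_lit 538) (nat_lit 439)) (XT.lf (nat_lit 0) (nat_lit 3785482700) (nat_lit 836) (nat_lit 4873974829) (nat_lit 76) (nat_lit 1409140544) (nat_lit 359) (nat_lit 5) (nat_lit 370) (nat_lit 5) (nat_lit 360) (nat_lit 5) (nat_lit 584) (nat_lit 538) (nat_lit 438)))) (XT.nd (nat_lit 156) (nat_lit 760) (nat_lit 0) (XT.nd (nat_lit 78) (nat_lit 0) (nat_lit 0) (XT.lf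 (nat_lit 0) (nat_lit 1234573494) (nat_lit 760) (nat_lit 4758521146) (nat_lit 836) (nat_lit 4175965435) (nat_lit 349) (nat_lit 5) (nat_lit 359) (nat_lit 5) (nat_lit 360) (nat_lit 5) (nat_lit 585) (nat_lit 538) (nat_lit 437)) (XT.lf (nat_lit 0) (nat_lit 7506264076) (nat_lit 760) (nat_lit 748740660) (nat_lit 836) (nat_lit 2016325538) (nat_lit 349) (nat_lit 5) (nat_lit 359) (nat_lit 5) (nat_lit 360) (nat_lit 5) (nat_lit 586) (nat_lit 538) (nat_lit 436))) (XT.nd (nat_lit 78) (nat_lit 0) (nat_lit 0) (XT.lf (nat_lit 0) (nat_lit 206668161) (nat_lit 760) (nat_lit 6849280922) (nat_lit 76) (nat_lit 3319222238) (nat_lit 339) (nat_lit 5) (nat_lit 349) (nat_lit 5) (nat_lit 340) (nat_lit 5) (nat_lit 587) (nat_lit 538) (nat_lit 435)) (XT.lf (nat_lit 0) (nat_lit 2448776058) (nat_lit 760) (nat_lit 544167601) (nat_lit 76) (nat_lit 7487847682) (nat_lit 339) (nat_lit 5) (nat_lit 349) (nat_lit 5) (nat_lit 340) (nat_lit 5) (nat_lit 588) (nat_lit 538) (nat_lit 434)))))) (XT.nd (nat_lit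 546) (nat_lit 2584) (nat_lit 0) (XT.nd (nat_lit 234) (nat_lit 2052) (nat_lit 0) (XT.nd (nat_lit 78) (nat_lit 684) (nat_lit 0) (XT.lf (nat_lit 0) (nat_lit 4760427638) (nat_lit 836) (nat_lit 4655609132) (nat_lit 76) (nat_lit 1171994693) (nat_lit 329) (nat_lit 5) (nat_lit 340) (nat_lit 5) (nat_lit 330) (nat_lit 5) (nat_lit 589) (nat_lit 538) (nat_lit 433)) (XT.nd (nat_lit 78) (nat_lit 0) (nat_lit 0) (XT.lf (nat_lit 0) (nat_lit 1827790012) (nat_lit 684) (nat_lit 5304552105) (nat_lit 760) (nat_lit 3564795375) (nat_lit 320) (nat_lit 5) (nat_lit 329) (nat_lit 5) (nat_lit 330) (nat_lit 5) (nat_lit 590) (nat_lit 538) (nat_lit 432)) (XT.lf (nat_lit 0) (nat_lit 8479215230) (nat_lit 684) (nat_lit 1082644851) (nat_lit 760) (nat_lit 1246363921) (nat_lit 320) (nat_lit 5) (nat_lit 329) (nat_lit 5) (nat_lit 330) (nat_lit 5) (nat_lit 591) (nat_lit 538) (nat_lit 431)))) (XT.nd (nat_lit 156) (nat_lit 684) (nat_lit 0) (XT.nd (nat_lit 78) (nat_lit 608) (nat_lit 0) (XT.lf (nat_lit 0)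 (nat_lit 1132465537) (nat_lit 760) (nat_lit 6574765036) (nat_lit 76) (nat_lit 3213584081) (nat_lit 310) (nat_lit 5) (nat_lit 320) (nat_lit 5) (nat_lit 311) (nat_lit 5) (nat_lit 592) (nat_lit 538) (nat_lit 430)) (XT.lf (nat_lit 0) (nat_lit 112007609) (nat_lit 608) (nat_lit 3433243333) (nat_lit 684) (nat_lit 7490181616) (nat_lit 302) (nat_lit 5) (nat_lit 310) (nat_lit 5) (nat_lit 311) (nat_lit 5) (nat_lit 593) (nat_lit 538) (nat_lit 429))) (XT.nd (nat_lit 78) (nat_lit 684) (nat_lit 0) (XT.lf (nat_lit 0) (nat_lit 6036357134) (nat_lit 684) (nat_lit 4161114341) (nat_lit 76) (nat_lit 954271583) (nat_lit 302) (nat_lit 5) (nat_lit 311) (nat_lit 5) (nat_lit 303) (nat_lit 5) (nat_lit 594) (nat_lit 538) (nat_lit 428)) (XT.lf (nat_lit 0) (nat_lit 2724947416) (nat_lit 684) (nat_lit 5872805242) (nat_lit 760) (nat_lit 2672219275) (nat_lit 293) (nat_lit 5) (nat_lit 302) (nat_lit 5) (nat_lit 303) (nat_lit 5) (nat_lit 595) (nat_lit 538) (nat_lit 427))))) (XT.nd (nat_lit 234) (nat_lit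 1292) (nat_lit 0) (XT.nd (nat_lit 78) (nat_lit 1292) (nat_lit 0) (XT.lf (nat_lit 0) (nat_lit 9780800043) (nat_lit 684) (nat_lit 1437771052) (nat_lit 760) (nat_lit 171831869) (nat_lit 293) (nat_lit 5) (nat_lit 302) (nat_lit 5) (nat_lit 303) (nat_lit 5) (nat_lit 596) (nat_lit 538) (nat_lit 426)) (XT.nd (nat_lit 78) (nat_lit 608) (nat_lit 0) (XT.lf (nat_lit 0) (nat_lit 2383932190) (nat_lit 684) (nat_lit 6035894920) (nat_lit 76) (nat_lit 3092376782) (nat_lit 284) (nat_lit 5) (nat_lit 293) (nat_lit 5) (nat_lit 285) (nat_lit 5) (nat_lit 597) (nat_lit 538) (nat_lit 425)) (XT.lf (nat_lit 0) (nat_lit 1068499913) (nat_lit 608) (nat_lit 3928069479) (nat_lit 684) (nat_lit 6639688948) (nat_lit 276) (nat_lit 5) (nat_lit 284) (nat_lit 5) (nat_lit 285) (nat_lit 5) (nat_lit 598) (nat_lit 538) (nat_lit 424)))) (XT.nd (nat_lit 156) (nat_lit 684) (nat_lit 0) (XT.nd (nat_lit 78) (nat_lit 608) (nat_lit 0) (XT.lf (nat_lit 0) (nat_lit 7687387363) (nat_lit 684) (nat_lit 3394199104) (nat_lit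 76) (nat_lit 680690218) (nat_lit 276) (nat_lit 5) (nat_lit 285) (nat_lit 5) (nat_lit 277) (nat_lit 5) (nat_lit 599) (nat_lit 538) (nat_lit 423)) (XT.lf (nat_lit 0) (nat_lit 3924260824) (nat_lit 608) (nat_lit 6540540386) (nat_lit 684) (nat_lit 1425359936) (nat_lit 268) (nat_lit 5) (nat_lit 276) (nat_lit 5) (nat_lit 277) (nat_lit 5) (nat_lit 600) (nat_lit 538) (nat_lit 422))) (XT.nd (nat_lit 78) (nat_lit 608) (nat_lit 0) (XT.lf (nat_lit 0) (nat_lit 1264712614) (nat_lit 684) (nat_lit 617606567) (nat_lit 76) (nat_lit 10138033505) (nat_lit 267) (nat_lit 5) (nat_lit 276) (nat_lit 5) (nat_lit 268) (nat_lit 5) (nat_lit 601) (nat_lit 538) (nat_lit 421)) (XT.lf (nat_lit 0) (nat_lit 4035242874) (nat_lit 684) (nat_lit 5235846611) (nat_lit 76) (nat_lit 2880956566) (nat_lit 259) (nat_lit 5) (nat_lit 268) (nat_lit 5) (nat_lit 260) (nat_lit 5) (nat_lit 602) (nat_lit 538) (nat_lit 420))))))))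
noncomputable def xc120 : XT := (XT.nd (nat_lit 2106) (nat_lit 5396) (nat_lit 0) (XT.nd (nat_lit 1014) (nat_lit 3876) (nat_lit 0) (XT.nd (nat_lit 468) (nat_lit 2052) (nat_lit 0) (XT.nd (nat_lit 234) (nat_lit 1064) (nat_lit 0) (XT.nd (nat_lit 78) (nat_lit 608) (nat_lit 0) (XT.lf (nat_lit 0) (nat_lit 2316841977) (nat_lit 532) (nat_lit 4557932363) (nat_lit 608) (nat_lit 5411328369) (nat_lit 252) (nat_lit 5) (nat_lit 259) (nat_lit 5) (nat_lit 260) (nat_lit 5) (nat_lit 603) (nat_lit 538) (nat_lit 419)) (XT.nd (nat_lit 78) (nat_lit 608) (nat_lit 0) (XT.lf (nat_lit 0) (nat_lit 9790158416) (nat_lit 608) (nat_lit 2356411242) (nat_lit 76) (nat_lit 275890817) (nat_lit 252) (nat_lit 5) (nat_lit 260) (nat_lit 5) (nat_lit 253) (nat_lit 5) (nat_lit 604) (nat_lit 538) (nat_lit 418)) (XT.lf (nat_lit 0) (nat_lit 247808080) (nat_lit 608) (nat_lit 7136053042) (nat_lit 76) (nat_lit 5176696039) (nat_lit 244) (nat_lit 5) (nat_lit 252) (nat_lit 5) (nat_lit 245) (nat_lit 5) (nat_lit 605)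 (nat_lit 538) (nat_lit 417)))) (XT.nd (nat_lit 78) (nat_lit 532) (nat_lit 0) (XT.lf (nat_lit 0) (nat_lit 659403661) (nat_lit 532) (nat_lit 2493604312) (nat_lit 608) (nat_lit 9548006279) (nat_lit 237) (nat_lit 5) (nat_lit 244) (nat_lit 5) (nat_lit 245) (nat_lit 5) (nat_lit 606) (nat_lit 538) (nat_lit 416)) (XT.nd (nat_lit 78) (nat_lit 532) (nat_lit 0) (XT.lf (nat_lit 0) (nat_lit 6163364887) (nat_lit 608) (nat_lit 4176074673) (nat_lit 76) (nat_lit 2503900987) (nat_lit 237) (nat_lit 5) (nat_lit 245) (nat_lit 5) (nat_lit 238) (nat_lit 5) (nat_lit 607) (nat_lit 538) (nat_lit 415)) (XT.lf (nat_lit 0) (nat_lit 3857576631) (nat_lit 532) (nat_lit 5400905862) (nat_lit 608) (nat_lit 3729540904) (nat_lit 230) (nat_lit 5) (nat_lit 237) (nat_lit 5) (nat_lit 238) (nat_lit 5) (nat_lit 608) (nat_lit 538) (nat_lit 414))))) (XT.nd (nat_lit 234) (nat_lit 988) (nat_lit 0) (XT.nd (nat_lit 78) (nat_lit 1064) (nat_lit 0) (XT.lf (nat_lit 0) (nat_lit 12085387665) (nat_lit 532) (nat_lit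 341315457) (nat_lit 608) (nat_lit 708673846) (nat_lit 230) (nat_lit 5) (nat_lit 237) (nat_lit 5) (nat_lit 238) (nat_lit 5) (nat_lit 609) (nat_lit 538) (nat_lit 413)) (XT.nd (nat_lit 78) (nat_lit 532) (nat_lit 0) (XT.lf (nat_lit 0) (nat_lit 2403618372) (nat_lit 532) (nat_lit 6067572055) (nat_lit 76) (nat_lit 4812937626) (nat_lit 223) (nat_lit 5) (nat_lit 230) (nat_lit 5) (nat_lit 224) (nat_lit 5) (nat_lit 610) (nat_lit 538) (nat_lit 412)) (XT.lf (nat_lit 0) (nat_lit 2226120212) (nat_lit 532) (nat_lit 3349895945) (nat_lit 608) (nat_lit 7859598355) (nat_lit 216) (nat_lit 5) (nat_lit 223) (nat_lit 5) (nat_lit 224) (nat_lit 5) (nat_lit 611) (nat_lit 538) (nat_lit 411)))) (XT.nd (nat_lit 156) (nat_lit 532) (nat_lit 0) (XT.nd (nat_lit 78) (nat_lit 456) (nat_lit 0) (XT.lf (nat_lit 0) (nat_lit 8848679396) (nat_lit 608) (nat_lit 2856978227) (nat_lit 76) (nat_lit 1883737724) (nat_lit 216) (nat_lit 5) (nat_lit 224) (nat_lit 5) (nat_lit 217) (nat_lit 5) (nat_lit 612) (nat_lit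 538) (nat_lit 410)) (XT.lf (nat_lit 0) (nat_lit 5692353824) (nat_lit 456) (nat_lit 6537570781) (nat_lit 532) (nat_lit 1515465595) (nat_lit 210) (nat_lit 5) (nat_lit 216) (nat_lit 5) (nat_lit 217) (nat_lit 5) (nat_lit 613) (nat_lit 538) (nat_lit 409))) (XT.nd (nat_lit 78) (nat_lit 0) (nat_lit 0) (XT.lf (nat_lit 0) (nat_lit 519677517) (nat_lit 456) (nat_lit 1238062100) (nat_lit 532) (nat_lit 12146401474) (nat_lit 203) (nat_lit 5) (nat_lit 209) (nat_lit 5) (nat_lit 210) (nat_lit 5) (nat_lit 614) (nat_lit 538) (nat_lit 408)) (XT.lf (nat_lit 0) (nat_lit 5141760253) (nat_lit 532) (nat_lit 4752323231) (nat_lit 76) (nat_lit 4170471225) (nat_lit 203) (nat_lit 5) (nat_lit 210) (nat_lit 5) (nat_lit 204) (nat_lit 5) (nat_lit 615) (nat_lit 538) (nat_lit 407)))))) (XT.nd (nat_lit 546) (nat_lit 1596) (nat_lit 0) (XT.nd (nat_lit 234) (nat_lit 1292) (nat_lit 0) (XT.nd (nat_lit 78) (nat_lit 532) (nat_lit 0) (XT.lf (nat_lit 0) (nat_lit 4075265628) (nat_lit 456) (nat_lit 4537333180)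 (nat_lit 532) (nat_lit 5615195942) (nat_lit 197) (nat_lit 5) (nat_lit 203) (nat_lit 5) (nat_lit 204) (nat_lit 5) (nat_lit 616) (nat_lit 538) (nat_lit 406)) (XT.nd (nat_lit 78) (nat_lit 532) (nat_lit 0) (XT.lf (nat_lit 0) (nat_lit 12175565359) (nat_lit 532) (nat_lit 1278621996) (nat_lit 76) (nat_lit 939658896) (nat_lit 197) (nat_lit 5) (nat_lit 204) (nat_lit 5) (nat_lit 198) (nat_lit 5) (nat_lit 617) (nat_lit 538) (nat_lit 405)) (XT.lf (nat_lit 0) (nat_lit 1296395637) (nat_lit 532) (nat_lit 6747232577) (nat_lit 76) (nat_lit 6518106104) (nat_lit 190) (nat_lit 5) (nat_lit 197) (nat_lit 5) (nat_lit 191) (nat_lit 5) (nat_lit 618) (nat_lit 538) (nat_lit 404)))) (XT.nd (nat_lit 156) (nat_lit 912) (nat_lit 0) (XT.nd (nat_lit 78) (nat_lit 0) (nat_lit 0) (XT.lf (nat_lit 0) (nat_lit 2368151266) (nat_lit 380) (nat_lit 2492501469) (nat_lit 456) (nat_lit 9871855189) (nat_lit 185) (nat_lit 5) (nat_lit 190) (nat_lit 5) (nat_lit 191) (nat_lit 5) (nat_lit 619) (nat_lit 538) (nat_lit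 403)) (XT.lf (nat_lit 0) (nat_lit 8547406992) (nat_lit 456) (nat_lit 3191645618) (nat_lit 76) (nat_lit 3166620970) (nat_lit 185) (nat_lit 5) (nat_lit 191) (nat_lit 5) (nat_lit 186) (nat_lit 5) (nat_lit 620) (nat_lit 538) (nat_lit 402))) (XT.nd (nat_lit 78) (nat_lit 456) (nat_lit 0) (XT.lf (nat_lit 0) (nat_lit 6207585278) (nat_lit 456) (nat_lit 6142469711) (nat_lit 532) (nat_lit 2731405188) (nat_lit 179) (nat_lit 5) (nat_lit 185) (nat_lit 5) (nat_lit 186) (nat_lit 5) (nat_lit 621) (nat_lit 538) (nat_lit 401)) (XT.lf (nat_lit 0) (nat_lit 556712463) (nat_lit 380) (nat_lit 409157413) (nat_lit 456) (nat_lit 14294556265) (nat_lit 173) (nat_lit 5) (nat_lit 178) (nat_lit 5) (nat_lit 179) (nat_lit 5) (nat_lit 622) (nat_lit 538) (nat_lit 400))))) (XT.nd (nat_lit 234) (nat_lit 1216) (nat_lit 0) (XT.nd (nat_lit 78) (nat_lit 380) (nat_lit 0) (XT.lf (nat_lit 0) (nat_lit 4781301892) (nat_lit 456) (nat_lit 5221367732) (nat_lit 76) (nat_lit 5438325765) (nat_lit 173) (nat_lit 5)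 (nat_lit 179) (nat_lit 5) (nat_lit 174) (nat_lit 5) (nat_lit 623) (nat_lit 538) (nat_lit 399)) (XT.nd (nat_lit 78) (nat_lit 0) (nat_lit 0) (XT.lf (nat_lit 0) (nat_lit 4485179626) (nat_lit 380) (nat_lit 4205473342) (nat_lit 456) (nat_lit 6934171584) (nat_lit 168) (nat_lit 5) (nat_lit 173) (nat_lit 5) (nat_lit 174) (nat_lit 5) (nat_lit 624) (nat_lit 538) (nat_lit 398)) (XT.lf (nat_lit 0) (nat_lit 12710420672) (nat_lit 456) (nat_lit 1387966577) (nat_lit 76) (nat_lit 1713299184) (nat_lit 168) (nat_lit 5) (nat_lit 174) (nat_lit 5) (nat_lit 169) (nat_lit 5) (nat_lit 625) (nat_lit 538) (nat_lit 397)))) (XT.nd (nat_lit 156) (nat_lit 380) (nat_lit 0) (XT.nd (nat_lit 78) (nat_lit 380) (nat_lit 0) (XT.lf (nat_lit 0) (nat_lit 868144587) (nat_lit 456) (nat_lit 7383842616) (nat_lit 76) (nat_lit 7748785138) (nat_lit 162) (nat_lit 5) (nat_lit 168) (nat_lit 5) (nat_lit 163) (nat_lit 5) (nat_lit 626) (nat_lit 538) (nat_lit 396)) (XT.lf (nat_lit 0) (nat_lit 2640036609) (nat_lit 380)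 (nat_lit 2248128231) (nat_lit 456) (nat_lit 11304810870) (nat_lit 157) (nat_lit 5) (nat_lit 162) (nat_lit 5) (nat_lit 163) (nat_lit 5) (nat_lit 627) (nat_lit 538) (nat_lit 395))) (XT.nd (nat_lit 78) (nat_lit 380) (nat_lit 0) (XT.lf (nat_lit 0) (nat_lit 9049904823) (nat_lit 456) (nat_lit 3470399644) (nat_lit 76) (nat_lit 3867492962) (nat_lit 157) (nat_lit 5) (nat_lit 163) (nat_lit 5) (nat_lit 158) (nat_lit 5) (nat_lit 628) (nat_lit 538) (nat_lit 394)) (XT.lf (nat_lit 0) (nat_lit 6868038308) (nat_lit 380) (nat_lit 6472867892) (nat_lit 456) (nat_lit 3244689508) (nat_lit 152) (nat_lit 5) (nat_lit 157) (nat_lit 5) (nat_lit 158) (nat_lit 5) (nat_lit 629) (nat_lit 538) (nat_lit 393))))))) (XT.nd (nat_lit 1014) (nat_lit 2508) (nat_lit 0) (XT.nd (nat_lit 468) (nat_lit 1368) (nat_lit 0) (XT.nd (nat_lit 234) (nat_lit 760) (nat_lit 0) (XT.nd (nat_lit 78) (nat_lit 304) (nat_lit 0) (XT.lf (nat_lit 0) (nat_lit 654815460) (nat_lit 380) (nat_lit 277640376) (nat_lit 456) (nat_lit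 15854488331) (nat_lit 146) (nat_lit 5) (nat_lit 151) (nat_lit 5) (nat_lit 152) (nat_lit 5) (nat_lit 630) (nat_lit 538) (nat_lit 392)) (XT.nd (nat_lit 78) (nat_lit 304) (nat_lit 0) (XT.lf (nat_lit 0) (nat_lit 5241270410) (nat_lit 456) (nat_lit 5706860766) (nat_lit 76) (nat_lit 6041928636) (nat_lit 146) (nat_lit 5) (nat_lit 152) (nat_lit 5) (nat_lit 147) (nat_lit 5) (nat_lit 631) (nat_lit 538) (nat_lit 391)) (XT.lf (nat_lit 0) (nat_lit 4969604084) (nat_lit 304) (nat_lit 4687688254) (nat_lit 380) (nat_lit 7539525417) (nat_lit 142) (nat_lit 5) (nat_lit 146) (nat_lit 5) (nat_lit 147) (nat_lit 5) (nat_lit 632) (nat_lit 538) (nat_lit 390)))) (XT.nd (nat_lit 78) (nat_lit 760) (nat_lit 0) (XT.lf (nat_lit 0) (nat_lit 14198209172) (nat_lit 380) (nat_lit 1501988325) (nat_lit 76) (nat_lit 1706782466) (nat_lit 142) (nat_lit 5) (nat_lit 147) (nat_lit 5) (nat_lit 143) (nat_lit 5) (nat_lit 633) (nat_lit 538) (nat_lit 389)) (XT.nd (nat_lit 78) (nat_lit 304) (nat_lit 0) (XT.lf (nat_lit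 0) (nat_lit 1273329706) (nat_lit 456) (nat_lit 8117000207) (nat_lit 76) (nat_lit 8229247498) (nat_lit 136) (nat_lit 5) (nat_lit 142) (nat_lit 5) (nat_lit 137) (nat_lit 5) (nat_lit 634) (nat_lit 538) (nat_lit 388)) (XT.lf (nat_lit 0) (nat_lit 2907837383) (nat_lit 304) (nat_lit 2910625122) (nat_lit 380) (nat_lit 12017213549) (nat_lit 132) (nat_lit 5) (nat_lit 136) (nat_lit 5) (nat_lit 137) (nat_lit 5) (nat_lit 635) (nat_lit 538) (nat_lit 387))))) (XT.nd (nat_lit 234) (nat_lit 684) (nat_lit 0) (XT.nd (nat_lit 78) (nat_lit 684) (nat_lit 0) (XT.lf (nat_lit 0) (nat_lit 10520700793) (nat_lit 380) (nat_lit 3836602649) (nat_lit 76) (nat_lit 3697469722) (nat_lit 132) (nat_lit 5) (nat_lit 137) (nat_lit 5) (nat_lit 133) (nat_lit 5) (nat_lit 636) (nat_lit 538) (nat_lit 386)) (XT.nd (nat_lit 78) (nat_lit 380) (nat_lit 0) (XT.lf (nat_lit 0) (nat_lit 7535998606) (nat_lit 304) (nat_lit 7836795996) (nat_lit 380) (nat_lit 2904341938) (nat_lit 128) (nat_lit 5) (nat_lit 132) (nat_lit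 5) (nat_lit 133) (nat_lit 5) (nat_lit 637) (nat_lit 538) (nat_lit 385)) (XT.lf (nat_lit 0) (nat_lit 661271527) (nat_lit 304) (nat_lit 1150716371) (nat_lit 380) (nat_lit 16691366773) (nat_lit 123) (nat_lit 5) (nat_lit 127) (nat_lit 5) (nat_lit 128) (nat_lit 5) (nat_lit 638) (nat_lit 538) (nat_lit 384)))) (XT.nd (nat_lit 156) (nat_lit 380) (nat_lit 0) (XT.nd (nat_lit 78) (nat_lit 304) (nat_lit 0) (XT.lf (nat_lit 0) (nat_lit 6680856698) (nat_lit 380) (nat_lit 6371962940) (nat_lit 76) (nat_lit 5678952049) (nat_lit 123) (nat_lit 5) (nat_lit 128) (nat_lit 5) (nat_lit 124) (nat_lit 5) (nat_lit 639) (nat_lit 538) (nat_lit 383)) (XT.lf (nat_lit 0) (nat_lit 5370653938) (nat_lit 304) (nat_lit 6306882227) (nat_lit 380) (nat_lit 7286612711) (nat_lit 119) (nat_lit 5) (nat_lit 123) (nat_lit 5) (nat_lit 124) (nat_lit 5) (nat_lit 640) (nat_lit 538) (nat_lit 382))) (XT.nd (nat_lit 78) (nat_lit 380) (nat_lit 0) (XT.lf (nat_lit 0) (nat_lit 16808920623) (nat_lit 380) (nat_lit 1789613674)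 (nat_lit 76) (nat_lit 601944373) (nat_lit 119) (nat_lit 5) (nat_lit 124) (nat_lit 5) (nat_lit 120) (nat_lit 5) (nat_lit 641) (nat_lit 538) (nat_lit 381)) (XT.lf (nat_lit 0) (nat_lit 2664961244) (nat_lit 380) (nat_lit 9132535086) (nat_lit 76) (nat_lit 7641747772) (nat_lit 114) (nat_lit 5) (nat_lit 119) (nat_lit 5) (nat_lit 115) (nat_lit 5) (nat_lit 642) (nat_lit 538) (nat_lit 380)))))) (XT.nd (nat_lit 546) (nat_lit 1368) (nat_lit 0) (XT.nd (nat_lit 234) (nat_lit 608) (nat_lit 0) (XT.nd (nat_lit 78) (nat_lit 228) (nat_lit 0) (XT.lf (nat_lit 0) (nat_lit 2990552994) (nat_lit 304) (nat_lit 4819835845) (nat_lit 380) (nat_lit 11871684282) (nat_lit 110) (nat_lit 5) (nat_lit 114) (nat_lit 5) (nat_lit 115) (nat_lit 5) (nat_lit 643) (nat_lit 538) (nat_lit 379)) (XT.nd (nat_lit 78) (nat_lit 228) (nat_lit 0) (XT.lf (nat_lit 0) (nat_lit 13123651608) (nat_lit 380) (nat_lit 4483436900) (nat_lit 76) (nat_lit 2321372130) (nat_lit 110) (nat_lit 5) (nat_lit 115) (nat_lit 5) (nat_lit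 111) (nat_lit 5) (nat_lit 644) (nat_lit 538) (nat_lit 378)) (XT.lf (nat_lit 0) (nat_lit 8023015109) (nat_lit 228) (nat_lit 10592724260) (nat_lit 304) (nat_lit 1562585784) (nat_lit 107) (nat_lit 5) (nat_lit 110) (nat_lit 5) (nat_lit 111) (nat_lit 5) (nat_lit 645) (nat_lit 538) (nat_lit 377)))) (XT.nd (nat_lit 156) (nat_lit 228) (nat_lit 0) (XT.nd (nat_lit 78) (nat_lit 0) (nat_lit 0) (XT.lf (nat_lit 0) (nat_lit 368727058) (nat_lit 304) (nat_lit 3387375511) (nat_lit 380) (nat_lit 16676168292) (nat_lit 102) (nat_lit 5) (nat_lit 106) (nat_lit 5) (nat_lit 107) (nat_lit 5) (nat_lit 646) (nat_lit 538) (nat_lit 376)) (XT.lf (nat_lit 0) (nat_lit 9256720559) (nat_lit 380) (nat_lit 7437438280) (nat_lit 76) (nat_lit 3995000908) (nat_lit 102) (nat_lit 5) (nat_lit 107) (nat_lit 5) (nat_lit 103) (nat_lit 5) (nat_lit 647) (nat_lit 538) (nat_lit 375))) (XT.nd (nat_lit 78) (nat_lit 0) (nat_lit 0) (XT.lf (nat_lit 0) (nat_lit 5471720367) (nat_lit 228) (nat_lit 9442438710) (nat_lit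 304) (nat_lit 6036091580) (nat_lit 99) (nat_lit 5) (nat_lit 102) (nat_lit 5) (nat_lit 103) (nat_lit 5) (nat_lit 648) (nat_lit 538) (nat_lit 374)) (XT.lf (nat_lit 0) (nat_lit 18721203664) (nat_lit 228) (nat_lit 2002398400) (nat_lit 304) (nat_lit 492184607) (nat_lit 99) (nat_lit 5) (nat_lit 102) (nat_lit 5) (nat_lit 103) (nat_lit 5) (nat_lit 649) (nat_lit 538) (nat_lit 373))))) (XT.nd (nat_lit 234) (nat_lit 760) (nat_lit 0) (XT.nd (nat_lit 78) (nat_lit 228) (nat_lit 0) (XT.lf (nat_lit 0) (nat_lit 5191268631) (nat_lit 380) (nat_lit 10682455537) (nat_lit 76) (nat_lit 5610311710) (nat_lit 94) (nat_lit 5) (nat_lit 99) (nat_lit 5) (nat_lit 95) (nat_lit 5) (nat_lit 650) (nat_lit 538) (nat_lit 372)) (XT.nd (nat_lit 78) (nat_lit 0) (nat_lit 0) (XT.lf (nat_lit 0) (nat_lit 2639654105) (nat_lit 228) (nat_lit 8378539974) (nat_lit 304) (nat_lit 10738663432) (nat_lit 91) (nat_lit 5) (nat_lit 94) (nat_lit 5) (nat_lit 95) (nat_lit 5) (nat_lit 651) (nat_lit 538) (nat_lit 371)) (XT.lf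 (nat_lit 0) (nat_lit 16354630580) (nat_lit 228) (nat_lit 667943229) (nat_lit 304) (nat_lit 5011343820) (nat_lit 91) (nat_lit 5) (nat_lit 94) (nat_lit 5) (nat_lit 95) (nat_lit 5) (nat_lit 652) (nat_lit 538) (nat_lit 370)))) (XT.nd (nat_lit 156) (nat_lit 456) (nat_lit 0) (XT.nd (nat_lit 78) (nat_lit 0) (nat_lit 0) (XT.lf (nat_lit 0) (nat_lit 908720656) (nat_lit 304) (nat_lit 14252431240) (nat_lit 76) (nat_lit 7153477746) (nat_lit 87) (nat_lit 5) (nat_lit 91) (nat_lit 5) (nat_lit 88) (nat_lit 5) (nat_lit 653) (nat_lit 538) (nat_lit 369)) (XT.lf (nat_lit 0) (nat_lit 6912348420) (nat_lit 304) (nat_lit 500762425) (nat_lit 76) (nat_lit 15186537622) (nat_lit 87) (nat_lit 5) (nat_lit 91) (nat_lit 5) (nat_lit 88) (nat_lit 5) (nat_lit 654) (nat_lit 538) (nat_lit 368))) (XT.nd (nat_lit 78) (nat_lit 228) (nat_lit 0) (XT.lf (nat_lit 0) (nat_lit 13118260389) (nat_lit 304) (nat_lit 9204909777) (nat_lit 76) (nat_lit 565553610) (nat_lit 84) (nat_lit 5) (nat_lit 88) (nat_lit 5) (nat_lit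 85) (nat_lit 5) (nat_lit 655) (nat_lit 538) (nat_lit 367)) (XT.lf (nat_lit 0) (nat_lit 4973583793) (nat_lit 228) (nat_lit 14549136647) (nat_lit 304) (nat_lit 3659371890) (nat_lit 81) (nat_lit 5) (nat_lit 84) (nat_lit 5) (nat_lit 85) (nat_lit 5) (nat_lit 656) (nat_lit 538) (nat_lit 366))))))))
noncomputable def xc121 : XT := (XT.nd (nat_lit 74022) (nat_lit 0) (nat_lit 18164) (XT.nd (nat_lit 72930) (nat_lit 0) (nat_lit 35340) (XT.nd (nat_lit 72384) (nat_lit 0) (nat_lit 40812) (XT.nd (nat_lit 72150) (nat_lit 0) (nat_lit 43168) (XT.nd (nat_lit 71994) (nat_lit 0) (nat_lit 43168) (XT.lf (nat_lit 0) (nat_lit 2592043678) (nat_lit 304) (nat_lit 3954697721) (nat_lit 76) (nat_lit 16933215745) (nat_lit 80) (nat_lit 5) (nat_lit 84) (nat_lit 5) (nat_lit 81) (nat_lit 5) (nat_lit 657) (nat_lit 538) (nat_lit 365)) (XT.nd (nat_lit 78) (nat_lit 1140) (nat_lit 0) (XT.lf (nat_lit 0) (nat_lit 2782320434) (nat_lit 1140) (nat_lit 391146642) (nat_lit 1140) (nat_lit 391146642) (nat_lit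 663) (nat_lit 3) (nat_lit 678) (nat_lit 3) (nat_lit 678) (nat_lit 5) (nat_lit 539) (nat_lit 539) (nat_lit 482)) (XT.lf (nat_lit 0) (nat_lit 167317701) (nat_lit 1140) (nat_lit 4384080172) (nat_lit 1216) (nat_lit 2614586187) (nat_lit 648) (nat_lit 5) (nat_lit 663) (nat_lit 3) (nat_lit 664) (nat_lit 5) (nat_lit 540) (nat_lit 539) (nat_lit 481)))) (XT.nd (nat_lit 78) (nat_lit 0) (nat_lit 0) (XT.lf (nat_lit 0) (nat_lit 1873245674) (nat_lit 1140) (nat_lit 809389498) (nat_lit 1216) (nat_lit 4521432456) (nat_lit 648) (nat_lit 5) (nat_lit 663) (nat_lit 3) (nat_lit 664) (nat_lit 5) (nat_lit 541) (nat_lit 539) (nat_lit 480)) (XT.nd (nat_lit 78) (nat_lit 0) (nat_lit 76) (XT.lf (nat_lit 76) (nat_lit 2851038234) (nat_lit 0) (nat_lit 736678020) (nat_lit 1216) (nat_lit 3655713388) (nat_lit 649) (nat_lit 5) (nat_lit 648) (nat_lit 5) (nat_lit 664) (nat_lit 5) (nat_lit 542) (nat_lit 539) (nat_lit 479)) (XT.lf (nat_lit 0) (nat_lit 5306808423) (nat_lit 1140) (nat_lit 719965575) (nat_lit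 1216) (nat_lit 1257403406) (nat_lit 649) (nat_lit 5) (nat_lit 664) (nat_lit 5) (nat_lit 665) (nat_lit 5) (nat_lit 543) (nat_lit 539) (nat_lit 478))))) (XT.nd (nat_lit 234) (nat_lit 1216) (nat_lit 0) (XT.nd (nat_lit 78) (nat_lit 1216) (nat_lit 0) (XT.lf (nat_lit 76) (nat_lit 3037334701) (nat_lit 0) (nat_lit 4005155265) (nat_lit 1216) (nat_lit 283611056) (nat_lit 650) (nat_lit 5) (nat_lit 649) (nat_lit 5) (nat_lit 665) (nat_lit 5) (nat_lit 544) (nat_lit 539) (nat_lit 477)) (XT.nd (nat_lit 78) (nat_lit 0) (nat_lit 76) (XT.lf (nat_lit 0) (nat_lit 1387953548) (nat_lit 1216) (nat_lit 522572443) (nat_lit 1292) (nat_lit 5458897063) (nat_lit 633) (nat_lit 5) (nat_lit 649) (nat_lit 5) (nat_lit 650) (nat_lit 5) (nat_lit 545) (nat_lit 539) (nat_lit 476)) (XT.lf (nat_lit 0) (nat_lit 3071392207) (nat_lit 1216) (nat_lit 4078338985) (nat_lit 1292) (nat_lit 264202794) (nat_lit 634) (nat_lit 5) (nat_lit 650) (nat_lit 5) (nat_lit 651) (nat_lit 5) (nat_lit 546) (nat_lit 539) (nat_lit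 475)))) (XT.nd (nat_lit 156) (nat_lit 1292) (nat_lit 0) (XT.nd (nat_lit 78) (nat_lit 0) (nat_lit 0) (XT.lf (nat_lit 0) (nat_lit 4764279815) (nat_lit 1216) (nat_lit 218172853) (nat_lit 1292) (nat_lit 2477371531) (nat_lit 634) (nat_lit 5) (nat_lit 650) (nat_lit 5) (nat_lit 651) (nat_lit 5) (nat_lit 547) (nat_lit 539) (nat_lit 474)) (XT.lf (nat_lit 76) (nat_lit 3744540708) (nat_lit 0) (nat_lit 2731186435) (nat_lit 1292) (nat_lit 1031215610) (nat_lit 635) (nat_lit 5) (nat_lit 634) (nat_lit 5) (nat_lit 651) (nat_lit 5) (nat_lit 548) (nat_lit 539) (nat_lit 473))) (XT.nd (nat_lit 78) (nat_lit 0) (nat_lit 76) (XT.lf (nat_lit 76) (nat_lit 208757157) (nat_lit 0) (nat_lit 412482458) (nat_lit 1368) (nat_lit 6934410330) (nat_lit 618) (nat_lit 5) (nat_lit 617) (nat_lit 5) (nat_lit 635) (nat_lit 5) (nat_lit 549) (nat_lit 539) (nat_lit 472)) (XT.lf (nat_lit 0) (nat_lit 2292501102) (nat_lit 1292) (nat_lit 3339009684) (nat_lit 1368) (nat_lit 1973697175) (nat_lit 618) (nat_lit 5)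 (nat_lit 635) (nat_lit 5) (nat_lit 636) (nat_lit 5) (nat_lit 550) (nat_lit 539) (nat_lit 471)))))) (XT.nd (nat_lit 546) (nat_lit 4256) (nat_lit 0) (XT.nd (nat_lit 234) (nat_lit 1292) (nat_lit 0) (XT.nd (nat_lit 78) (nat_lit 0) (nat_lit 0) (XT.lf (nat_lit 76) (nat_lit 731531555) (nat_lit 0) (nat_lit 3235352991) (nat_lit 1368) (nat_lit 3689482883) (nat_lit 619) (nat_lit 5) (nat_lit 618) (nat_lit 5) (nat_lit 636) (nat_lit 5) (nat_lit 551) (nat_lit 539) (nat_lit 470)) (XT.nd (nat_lit 78) (nat_lit 0) (nat_lit 76) (XT.lf (nat_lit 76) (nat_lit 4904543031) (nat_lit 0) (nat_lit 755418351) (nat_lit 1368) (nat_lit 2048888735) (nat_lit 619) (nat_lit 5) (nat_lit 618) (nat_lit 5) (nat_lit 636) (nat_lit 5) (nat_lit 552) (nat_lit 539) (nat_lit 469)) (XT.lf (nat_lit 76) (nat_lit 1380677952) (nat_lit 0) (nat_lit 5990316189) (nat_lit 1368) (nat_lit 391710491) (nat_lit 620) (nat_lit 5) (nat_lit 619) (nat_lit 5) (nat_lit 637) (nat_lit 5) (nat_lit 553) (nat_lit 539) (nat_lit 468))))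 (XT.nd (nat_lit 156) (nat_lit 0) (nat_lit 76) (XT.nd (nat_lit 78) (nat_lit 0) (nat_lit 0) (XT.lf (nat_lit 0) (nat_lit 1269450908) (nat_lit 1368) (nat_lit 2168308181) (nat_lit 1444) (nat_lit 4379955002) (nat_lit 601) (nat_lit 5) (nat_lit 619) (nat_lit 5) (nat_lit 620) (nat_lit 5) (nat_lit 554) (nat_lit 539) (nat_lit 467)) (XT.lf (nat_lit 76) (nat_lit 2130656798) (nat_lit 0) (nat_lit 806404960) (nat_lit 1444) (nat_lit 4937144600) (nat_lit 602) (nat_lit 5) (nat_lit 601) (nat_lit 5) (nat_lit 620) (nat_lit 5) (nat_lit 555) (nat_lit 539) (nat_lit 466))) (XT.nd (nat_lit 78) (nat_lit 0) (nat_lit 0) (XT.lf (nat_lit 0) (nat_lit 4630099987) (nat_lit 1368) (nat_lit 1423817860) (nat_lit 1444) (nat_lit 1878072874) (nat_lit 602) (nat_lit 5) (nat_lit 620) (nat_lit 5) (nat_lit 621) (nat_lit 5) (nat_lit 556) (nat_lit 539) (nat_lit 465)) (XT.lf (nat_lit 76) (nat_lit 2991708133) (nat_lit 0) (nat_lit 3355974879) (nat_lit 1444) (nat_lit 1643437757) (nat_lit 603) (nat_lit 5) (nat_lit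 602) (nat_lit 5) (nat_lit 621) (nat_lit 5) (nat_lit 557) (nat_lit 539) (nat_lit 464))))) (XT.nd (nat_lit 234) (nat_lit 2888) (nat_lit 0) (XT.nd (nat_lit 78) (nat_lit 0) (nat_lit 76) (XT.lf (nat_lit 0) (nat_lit 23373990) (nat_lit 1444) (nat_lit 561561780) (nat_lit 1520) (nat_lit 7466978496) (nat_lit 583) (nat_lit 5) (nat_lit 602) (nat_lit 5) (nat_lit 603) (nat_lit 5) (nat_lit 558) (nat_lit 539) (nat_lit 463)) (XT.nd (nat_lit 78) (nat_lit 0) (nat_lit 0) (XT.lf (nat_lit 0) (nat_lit 1709111838) (nat_lit 1444) (nat_lit 4146623098) (nat_lit 1520) (nat_lit 2257822991) (nat_lit 584) (nat_lit 5) (nat_lit 603) (nat_lit 5) (nat_lit 604) (nat_lit 5) (nat_lit 559) (nat_lit 539) (nat_lit 462)) (XT.lf (nat_lit 76) (nat_lit 393665011) (nat_lit 0) (nat_lit 3012537034) (nat_lit 1520) (nat_lit 4770683062) (nat_lit 585) (nat_lit 5) (nat_lit 584) (nat_lit 5) (nat_lit 604) (nat_lit 5) (nat_lit 560) (nat_lit 539) (nat_lit 461)))) (XT.nd (nat_lit 156) (nat_lit 1596) (nat_lit 0) (XT.nd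 (nat_lit 78) (nat_lit 1368) (nat_lit 0) (XT.lf (nat_lit 76) (nat_lit 5056277293) (nat_lit 0) (nat_lit 76676002) (nat_lit 1520) (nat_lit 3108614484) (nat_lit 585) (nat_lit 5) (nat_lit 584) (nat_lit 5) (nat_lit 604) (nat_lit 5) (nat_lit 561) (nat_lit 539) (nat_lit 460)) (XT.lf (nat_lit 0) (nat_lit 1480179520) (nat_lit 1444) (nat_lit 5411185283) (nat_lit 1520) (nat_lit 1416240064) (nat_lit 566) (nat_lit 5) (nat_lit 585) (nat_lit 5) (nat_lit 586) (nat_lit 5) (nat_lit 562) (nat_lit 539) (nat_lit 459))) (XT.nd (nat_lit 78) (nat_lit 1520) (nat_lit 0) (XT.lf (nat_lit 0) (nat_lit 296758137) (nat_lit 1520) (nat_lit 2120200645) (nat_lit 76) (nat_lit 5958149968) (nat_lit 565) (nat_lit 5) (nat_lit 585) (nat_lit 5) (nat_lit 566) (nat_lit 5) (nat_lit 563) (nat_lit 539) (nat_lit 458)) (XT.lf (nat_lit 0) (nat_lit 2016267577) (nat_lit 1596) (nat_lit 5766072376) (nat_lit 76) (nat_lit 661614315) (nat_lit 545) (nat_lit 5) (nat_lit 566) (nat_lit 5) (nat_lit 546) (nat_lit 5) (nat_lit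 564) (nat_lit 539) (nat_lit 457))))))) (XT.nd (nat_lit 1092) (nat_lit 6384) (nat_lit 0) (XT.nd (nat_lit 546) (nat_lit 3876) (nat_lit 0) (XT.nd (nat_lit 234) (nat_lit 3648) (nat_lit 0) (XT.nd (nat_lit 78) (nat_lit 3268) (nat_lit 0) (XT.lf (nat_lit 0) (nat_lit 3770401425) (nat_lit 1596) (nat_lit 954453830) (nat_lit 76) (nat_lit 3789319776) (nat_lit 545) (nat_lit 5) (nat_lit 566) (nat_lit 5) (nat_lit 546) (nat_lit 5) (nat_lit 565) (nat_lit 539) (nat_lit 456)) (XT.nd (nat_lit 78) (nat_lit 1672) (nat_lit 0) (XT.lf (nat_lit 0) (nat_lit 3980973890) (nat_lit 1596) (nat_lit 1574987244) (nat_lit 1672) (nat_lit 3029915169) (nat_lit 524) (nat_lit 5) (nat_lit 545) (nat_lit 5) (nat_lit 546) (nat_lit 5) (nat_lit 566) (nat_lit 539) (nat_lit 455)) (XT.lf (nat_lit 0) (nat_lit 337831802) (nat_lit 1672) (nat_lit 7029620784) (nat_lit 1748) (nat_lit 1291757505) (nat_lit 502) (nat_lit 5) (nat_lit 524) (nat_lit 5) (nat_lit 525) (nat_lit 5) (nat_lit 567) (nat_lit 539) (nat_lit 454))))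 (XT.nd (nat_lit 156) (nat_lit 1824) (nat_lit 0) (XT.nd (nat_lit 78) (nat_lit 1748) (nat_lit 0) (XT.lf (nat_lit 0) (nat_lit 487550101) (nat_lit 1748) (nat_lit 3330618066) (nat_lit 76) (nat_lit 4915528750) (nat_lit 501) (nat_lit 5) (nat_lit 524) (nat_lit 5) (nat_lit 502) (nat_lit 5) (nat_lit 568) (nat_lit 539) (nat_lit 453)) (XT.lf (nat_lit 0) (nat_lit 1749536548) (nat_lit 1748) (nat_lit 518712460) (nat_lit 1824) (nat_lit 6541594398) (nat_lit 478) (nat_lit 5) (nat_lit 501) (nat_lit 5) (nat_lit 502) (nat_lit 5) (nat_lit 569) (nat_lit 539) (nat_lit 452))) (XT.nd (nat_lit 78) (nat_lit 1824) (nat_lit 0) (XT.lf (nat_lit 0) (nat_lit 4097684772) (nat_lit 1824) (nat_lit 1954484674) (nat_lit 76) (nat_lit 2835083604) (nat_lit 478) (nat_lit 5) (nat_lit 502) (nat_lit 5) (nat_lit 479) (nat_lit 5) (nat_lit 570) (nat_lit 539) (nat_lit 451)) (XT.lf (nat_lit 0) (nat_lit 3268146175) (nat_lit 1824) (nat_lit 2692905256) (nat_lit 1900) (nat_lit 3005215237) (nat_lit 454) (nat_lit 5) (nat_lit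 478) (nat_lit 5) (nat_lit 479) (nat_lit 5) (nat_lit 571) (nat_lit 539) (nat_lit 450))))) (XT.nd (nat_lit 234) (nat_lit 1824) (nat_lit 0) (XT.nd (nat_lit 78) (nat_lit 2052) (nat_lit 0) (XT.lf (nat_lit 0) (nat_lit 7852729924) (nat_lit 1900) (nat_lit 454853403) (nat_lit 76) (nat_lit 739458919) (nat_lit 454) (nat_lit 5) (nat_lit 479) (nat_lit 5) (nat_lit 455) (nat_lit 5) (nat_lit 572) (nat_lit 539) (nat_lit 449)) (XT.nd (nat_lit 78) (nat_lit 912) (nat_lit 0) (XT.lf (nat_lit 0) (nat_lit 667753365) (nat_lit 1140) (nat_lit 4218088085) (nat_lit 76) (nat_lit 4243039463) (nat_lit 439) (nat_lit 5) (nat_lit 454) (nat_lit 5) (nat_lit 440) (nat_lit 5) (nat_lit 573) (nat_lit 539) (nat_lit 448)) (XT.lf (nat_lit 0) (nat_lit 1160082694) (nat_lit 912) (nat_lit 1375396294) (nat_lit 988) (nat_lit 6677033696) (nat_lit 427) (nat_lit 5) (nat_lit 439) (nat_lit 5) (nat_lit 440) (nat_lit 5) (nat_lit 574) (nat_lit 539) (nat_lit 447)))) (XT.nd (nat_lit 156) (nat_lit 912) (nat_lit 0) (XT.nd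 (nat_lit 78) (nat_lit 912) (nat_lit 0) (XT.lf (nat_lit 0) (nat_lit 4457522669) (nat_lit 988) (nat_lit 2633950927) (nat_lit 76) (nat_lit 2206006604) (nat_lit 427) (nat_lit 5) (nat_lit 440) (nat_lit 5) (nat_lit 428) (nat_lit 5) (nat_lit 575) (nat_lit 539) (nat_lit 446)) (XT.lf (nat_lit 0) (nat_lit 2897090206) (nat_lit 912) (nat_lit 3523494749) (nat_lit 988) (nat_lit 2963512888) (nat_lit 415) (nat_lit 5) (nat_lit 427) (nat_lit 5) (nat_lit 428) (nat_lit 5) (nat_lit 576) (nat_lit 539) (nat_lit 445))) (XT.nd (nat_lit 78) (nat_lit 912) (nat_lit 0) (XT.lf (nat_lit 0) (nat_lit 8416452844) (nat_lit 988) (nat_lit 923545191) (nat_lit 76) (nat_lit 132581207) (nat_lit 415) (nat_lit 5) (nat_lit 428) (nat_lit 5) (nat_lit 416) (nat_lit 5) (nat_lit 577) (nat_lit 539) (nat_lit 444)) (XT.lf (nat_lit 0) (nat_lit 907705365) (nat_lit 912) (nat_lit 4802399145) (nat_lit 76) (nat_lit 3852013219) (nat_lit 403) (nat_lit 5) (nat_lit 415) (nat_lit 5) (nat_lit 404) (nat_lit 5) (nat_lit 578)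 (nat_lit 539) (nat_lit 443)))))) (XT.nd (nat_lit 546) (nat_lit 3040) (nat_lit 0) (XT.nd (nat_lit 234) (nat_lit 1672) (nat_lit 0) (XT.nd (nat_lit 78) (nat_lit 836) (nat_lit 0) (XT.lf (nat_lit 0) (nat_lit 895846376) (nat_lit 836) (nat_lit 1988544095) (nat_lit 912) (nat_lit 6769164685) (nat_lit 392) (nat_lit 5) (nat_lit 403) (nat_lit 5) (nat_lit 404) (nat_lit 5) (nat_lit 579) (nat_lit 539) (nat_lit 442)) (XT.nd (nat_lit 78) (nat_lit 836) (nat_lit 0) (XT.lf (nat_lit 0) (nat_lit 4920749258) (nat_lit 912) (nat_lit 3009998651) (nat_lit 76) (nat_lit 1815672735) (nat_lit 392) (nat_lit 5) (nat_lit 404) (nat_lit 5) (nat_lit 393) (nat_lit 5) (nat_lit 580) (nat_lit 539) (nat_lit 441)) (XT.lf (nat_lit 0) (nat_lit 2852368709) (nat_lit 836) (nat_lit 4153591208) (nat_lit 912) (nat_lit 2835023103) (nat_lit 381) (nat_lit 5) (nat_lit 392) (nat_lit 5) (nat_lit 393) (nat_lit 5) (nat_lit 581) (nat_lit 539) (nat_lit 440)))) (XT.nd (nat_lit 156) (nat_lit 760) (nat_lit 0) (XT.nd (nat_lit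 78) (nat_lit 912) (nat_lit 0) (XT.lf (nat_lit 0) (nat_lit 8848409039) (nat_lit 836) (nat_lit 281404265) (nat_lit 912) (nat_lit 807686603) (nat_lit 381) (nat_lit 5) (nat_lit 392) (nat_lit 5) (nat_lit 393) (nat_lit 5) (nat_lit 582) (nat_lit 539) (nat_lit 439)) (XT.lf (nat_lit 0) (nat_lit 1276998579) (nat_lit 912) (nat_lit 5098574360) (nat_lit 76) (nat_lit 3659545909) (nat_lit 369) (nat_lit 5) (nat_lit 381) (nat_lit 5) (nat_lit 370) (nat_lit 5) (nat_lit 583) (nat_lit 539) (nat_lit 438))) (XT.nd (nat_lit 78) (nat_lit 0) (nat_lit 0) (XT.lf (nat_lit 0) (nat_lit 943533407) (nat_lit 760) (nat_lit 2441713642) (nat_lit 836) (nat_lit 6749484568) (nat_lit 359) (nat_lit 5) (nat_lit 369) (nat_lit 5) (nat_lit 370) (nat_lit 5) (nat_lit 584) (nat_lit 539) (nat_lit 437)) (XT.lf (nat_lit 0) (nat_lit 5557901939) (nat_lit 836) (nat_lit 3095249489) (nat_lit 76) (nat_lit 1582742260) (nat_lit 359) (nat_lit 5) (nat_lit 370) (nat_lit 5) (nat_lit 360) (nat_lit 5) (nat_lit 585) (nat_lit 539)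 (nat_lit 436))))) (XT.nd (nat_lit 234) (nat_lit 1520) (nat_lit 0) (XT.nd (nat_lit 78) (nat_lit 760) (nat_lit 0) (XT.lf (nat_lit 0) (nat_lit 3123126347) (nat_lit 760) (nat_lit 4665372379) (nat_lit 836) (nat_lit 2550292338) (nat_lit 349) (nat_lit 5) (nat_lit 359) (nat_lit 5) (nat_lit 360) (nat_lit 5) (nat_lit 586) (nat_lit 539) (nat_lit 435)) (XT.nd (nat_lit 78) (nat_lit 760) (nat_lit 0) (XT.lf (nat_lit 0) (nat_lit 9483704440) (nat_lit 760) (nat_lit 579088816) (nat_lit 836) (nat_lit 380973220) (nat_lit 349) (nat_lit 5) (nat_lit 359) (nat_lit 5) (nat_lit 360) (nat_lit 5) (nat_lit 587) (nat_lit 539) (nat_lit 434)) (XT.lf (nat_lit 0) (nat_lit 1845331546) (nat_lit 760) (nat_lit 5117537367) (nat_lit 76) (nat_lit 3586983905) (nat_lit 339) (nat_lit 5) (nat_lit 349) (nat_lit 5) (nat_lit 340) (nat_lit 5) (nat_lit 588) (nat_lit 539) (nat_lit 433)))) (XT.nd (nat_lit 156) (nat_lit 760) (nat_lit 0) (XT.nd (nat_lit 78) (nat_lit 0) (nat_lit 0) (XT.lf (nat_lit 0) (nat_lit 1294007615)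 (nat_lit 760) (nat_lit 2814625933) (nat_lit 836) (nat_lit 6549427226) (nat_lit 329) (nat_lit 5) (nat_lit 339) (nat_lit 5) (nat_lit 340) (nat_lit 5) (nat_lit 589) (nat_lit 539) (nat_lit 432)) (XT.lf (nat_lit 0) (nat_lit 6440052077) (nat_lit 836) (nat_lit 2898443132) (nat_lit 76) (nat_lit 1429482336) (nat_lit 329) (nat_lit 5) (nat_lit 340) (nat_lit 5) (nat_lit 330) (nat_lit 5) (nat_lit 590) (nat_lit 539) (nat_lit 431))) (XT.nd (nat_lit 78) (nat_lit 76) (nat_lit 0) (XT.lf (nat_lit 0) (nat_lit 3702451112) (nat_lit 684) (nat_lit 5137820954) (nat_lit 760) (nat_lit 2039378759) (nat_lit 320) (nat_lit 5) (nat_lit 329) (nat_lit 5) (nat_lit 330) (nat_lit 5) (nat_lit 591) (nat_lit 539) (nat_lit 430)) (XT.lf (nat_lit 0) (nat_lit 290255886) (nat_lit 760) (nat_lit 544621354) (nat_lit 76) (nat_lit 10158659898) (nat_lit 319) (nat_lit 5) (nat_lit 329) (nat_lit 5) (nat_lit 320) (nat_lit 5) (nat_lit 592) (nat_lit 539) (nat_lit 429))))))))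
noncomputable def xc122 : XT := (XT.nd (nat_lit 2106) (nat_lit 6308) (nat_lit 0) (XT.nd (nat_lit 1014) (nat_lit 4712) (nat_lit 0) (XT.nd (nat_lit 468) (nat_lit 2432) (nat_lit 0) (XT.nd (nat_lit 234) (nat_lit 1368) (nat_lit 0) (XT.nd (nat_lit 78) (nat_lit 608) (nat_lit 0) (XT.lf (nat_lit 0) (nat_lit 2683299891) (nat_lit 760) (nat_lit 4866741361) (nat_lit 76) (nat_lit 3558509379) (nat_lit 310) (nat_lit 5) (nat_lit 320) (nat_lit 5) (nat_lit 311) (nat_lit 5) (nat_lit 593) (nat_lit 539) (nat_lit 428)) (XT.nd (nat_lit 78) (nat_lit 0) (nat_lit 0) (XT.lf (nat_lit 0) (nat_lit 1941664640) (nat_lit 608) (nat_lit 3184576755) (nat_lit 684) (nat_lit 6099583777) (nat_lit 302) (nat_lit 5) (nat_lit 310) (nat_lit 5) (nat_lit 311) (nat_lit 5) (nat_lit 594) (nat_lit 539) (nat_lit 427)) (XT.lf (nat_lit 0) (nat_lit 7639580120) (nat_lit 684) (nat_lit 2425049774) (nat_lit 76) (nat_lit 1280386020) (nat_lit 302) (nat_lit 5) (nat_lit 311) (nat_lit 5) (nat_lit 303) (nat_lit 5) (nat_lit 595)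 (nat_lit 539) (nat_lit 426)))) (XT.nd (nat_lit 78) (nat_lit 684) (nat_lit 0) (XT.lf (nat_lit 0) (nat_lit 4586764225) (nat_lit 684) (nat_lit 5648105089) (nat_lit 760) (nat_lit 1231088935) (nat_lit 293) (nat_lit 5) (nat_lit 302) (nat_lit 5) (nat_lit 303) (nat_lit 5) (nat_lit 596) (nat_lit 539) (nat_lit 425)) (XT.nd (nat_lit 78) (nat_lit 0) (nat_lit 0) (XT.lf (nat_lit 0) (nat_lit 152546807) (nat_lit 608) (nat_lit 1121525866) (nat_lit 684) (nat_lit 10315114637) (nat_lit 284) (nat_lit 5) (nat_lit 292) (nat_lit 5) (nat_lit 293) (nat_lit 5) (nat_lit 597) (nat_lit 539) (nat_lit 424)) (XT.lf (nat_lit 0) (nat_lit 3863135627) (nat_lit 684) (nat_lit 4350778842) (nat_lit 76) (nat_lit 3499799451) (nat_lit 284) (nat_lit 5) (nat_lit 293) (nat_lit 5) (nat_lit 285) (nat_lit 5) (nat_lit 598) (nat_lit 539) (nat_lit 423))))) (XT.nd (nat_lit 234) (nat_lit 1216) (nat_lit 0) (XT.nd (nat_lit 78) (nat_lit 608) (nat_lit 0) (XT.lf (nat_lit 0) (nat_lit 2883823400) (nat_lit 608) (nat_lit 3627780595)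 (nat_lit 684) (nat_lit 5328975925) (nat_lit 276) (nat_lit 5) (nat_lit 284) (nat_lit 5) (nat_lit 285) (nat_lit 5) (nat_lit 599) (nat_lit 539) (nat_lit 422)) (XT.nd (nat_lit 78) (nat_lit 608) (nat_lit 0) (XT.lf (nat_lit 0) (nat_lit 9230902721) (nat_lit 684) (nat_lit 1677870019) (nat_lit 76) (nat_lit 1060854594) (nat_lit 276) (nat_lit 5) (nat_lit 285) (nat_lit 5) (nat_lit 277) (nat_lit 5) (nat_lit 600) (nat_lit 539) (nat_lit 421)) (XT.lf (nat_lit 0) (nat_lit 5775220864) (nat_lit 608) (nat_lit 6272901719) (nat_lit 684) (nat_lit 52263699) (nat_lit 268) (nat_lit 5) (nat_lit 276) (nat_lit 5) (nat_lit 277) (nat_lit 5) (nat_lit 601) (nat_lit 539) (nat_lit 420)))) (XT.nd (nat_lit 156) (nat_lit 532) (nat_lit 0) (XT.nd (nat_lit 78) (nat_lit 0) (nat_lit 0) (XT.lf (nat_lit 0) (nat_lit 1140839667) (nat_lit 608) (nat_lit 1512673457) (nat_lit 684) (nat_lit 9579882701) (nat_lit 259) (nat_lit 5) (nat_lit 267) (nat_lit 5) (nat_lit 268) (nat_lit 5) (nat_lit 602) (nat_lit 539) (nat_lit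 419)) (XT.lf (nat_lit 0) (nat_lit 5459401242) (nat_lit 684) (nat_lit 3571989883) (nat_lit 76) (nat_lit 3336734825) (nat_lit 259) (nat_lit 5) (nat_lit 268) (nat_lit 5) (nat_lit 260) (nat_lit 5) (nat_lit 603) (nat_lit 539) (nat_lit 418))) (XT.nd (nat_lit 78) (nat_lit 0) (nat_lit 0) (XT.lf (nat_lit 0) (nat_lit 4120117124) (nat_lit 532) (nat_lit 4220671196) (nat_lit 608) (nat_lit 4164375925) (nat_lit 252) (nat_lit 5) (nat_lit 259) (nat_lit 5) (nat_lit 260) (nat_lit 5) (nat_lit 604) (nat_lit 539) (nat_lit 417)) (XT.lf (nat_lit 0) (nat_lit 11291157741) (nat_lit 608) (nat_lit 657640211) (nat_lit 76) (nat_lit 695919428) (nat_lit 252) (nat_lit 5) (nat_lit 260) (nat_lit 5) (nat_lit 253) (nat_lit 5) (nat_lit 605) (nat_lit 539) (nat_lit 416)))))) (XT.nd (nat_lit 546) (nat_lit 1976) (nat_lit 0) (XT.nd (nat_lit 234) (nat_lit 1596) (nat_lit 0) (XT.nd (nat_lit 78) (nat_lit 532) (nat_lit 0) (XT.lf (nat_lit 0) (nat_lit 1552263563) (nat_lit 608) (nat_lit 5527006416) (nat_lit 76)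 (nat_lit 5706423390) (nat_lit 244) (nat_lit 5) (nat_lit 252) (nat_lit 5) (nat_lit 245) (nat_lit 5) (nat_lit 606) (nat_lit 539) (nat_lit 415)) (XT.nd (nat_lit 78) (nat_lit 0) (nat_lit 0) (XT.lf (nat_lit 0) (nat_lit 2412834634) (nat_lit 532) (nat_lit 2088551253) (nat_lit 608) (nat_lit 8427859013) (nat_lit 237) (nat_lit 5) (nat_lit 244) (nat_lit 5) (nat_lit 245) (nat_lit 5) (nat_lit 607) (nat_lit 539) (nat_lit 414)) (XT.lf (nat_lit 0) (nat_lit 7549643390) (nat_lit 608) (nat_lit 2531087479) (nat_lit 76) (nat_lit 2994134615) (nat_lit 237) (nat_lit 5) (nat_lit 245) (nat_lit 5) (nat_lit 238) (nat_lit 5) (nat_lit 608) (nat_lit 539) (nat_lit 413)))) (XT.nd (nat_lit 156) (nat_lit 532) (nat_lit 0) (XT.nd (nat_lit 78) (nat_lit 532) (nat_lit 0) (XT.lf (nat_lit 0) (nat_lit 5651865084) (nat_lit 532) (nat_lit 5041182130) (nat_lit 608) (nat_lit 2529668700) (nat_lit 230) (nat_lit 5) (nat_lit 237) (nat_lit 5) (nat_lit 238) (nat_lit 5) (nat_lit 609) (nat_lit 539) (nat_lit 412)) (XT.lf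 (nat_lit 0) (nat_lit 524655313) (nat_lit 532) (nat_lit 12732067175) (nat_lit 76) (nat_lit 116618495) (nat_lit 223) (nat_lit 5) (nat_lit 230) (nat_lit 5) (nat_lit 224) (nat_lit 5) (nat_lit 610) (nat_lit 539) (nat_lit 411))) (XT.nd (nat_lit 78) (nat_lit 532) (nat_lit 0) (XT.lf (nat_lit 0) (nat_lit 3674607773) (nat_lit 532) (nat_lit 4478747036) (nat_lit 76) (nat_lit 5371922032) (nat_lit 223) (nat_lit 5) (nat_lit 230) (nat_lit 5) (nat_lit 224) (nat_lit 5) (nat_lit 611) (nat_lit 539) (nat_lit 410)) (XT.lf (nat_lit 0) (nat_lit 3969567915) (nat_lit 532) (nat_lit 2927937383) (nat_lit 608) (nat_lit 6782548175) (nat_lit 216) (nat_lit 5) (nat_lit 223) (nat_lit 5) (nat_lit 224) (nat_lit 5) (nat_lit 612) (nat_lit 539) (nat_lit 409))))) (XT.nd (nat_lit 234) (nat_lit 988) (nat_lit 0) (XT.nd (nat_lit 78) (nat_lit 988) (nat_lit 0) (XT.lf (nat_lit 0) (nat_lit 10215009305) (nat_lit 608) (nat_lit 1227819754) (nat_lit 76) (nat_lit 2394494565) (nat_lit 216) (nat_lit 5) (nat_lit 224)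 (nat_lit 5) (nat_lit 217) (nat_lit 5) (nat_lit 613) (nat_lit 539) (nat_lit 408)) (XT.nd (nat_lit 78) (nat_lit 532) (nat_lit 0) (XT.lf (nat_lit 0) (nat_lit 7481404873) (nat_lit 456) (nat_lit 6170030368) (nat_lit 532) (nat_lit 345253439) (nat_lit 210) (nat_lit 5) (nat_lit 216) (nat_lit 5) (nat_lit 217) (nat_lit 5) (nat_lit 614) (nat_lit 539) (nat_lit 407)) (XT.lf (nat_lit 0) (nat_lit 2209964659) (nat_lit 456) (nat_lit 755382238) (nat_lit 532) (nat_lit 11193359646) (nat_lit 203) (nat_lit 5) (nat_lit 209) (nat_lit 5) (nat_lit 210) (nat_lit 5) (nat_lit 615) (nat_lit 539) (nat_lit 406)))) (XT.nd (nat_lit 156) (nat_lit 532) (nat_lit 0) (XT.nd (nat_lit 78) (nat_lit 456) (nat_lit 0) (XT.lf (nat_lit 0) (nat_lit 6397288724) (nat_lit 532) (nat_lit 3180588991) (nat_lit 76) (nat_lit 4744847240) (nat_lit 203) (nat_lit 5) (nat_lit 210) (nat_lit 5) (nat_lit 204) (nat_lit 5) (nat_lit 616) (nat_lit 539) (nat_lit 405)) (XT.lf (nat_lit 0) (nat_lit 5812585982) (nat_lit 456) (nat_lit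 4113106889) (nat_lit 532) (nat_lit 4563775264) (nat_lit 197) (nat_lit 5) (nat_lit 203) (nat_lit 5) (nat_lit 204) (nat_lit 5) (nat_lit 617) (nat_lit 539) (nat_lit 404))) (XT.nd (nat_lit 78) (nat_lit 76) (nat_lit 0) (XT.lf (nat_lit 0) (nat_lit 342805446) (nat_lit 456) (nat_lit 13200247561) (nat_lit 532) (nat_lit 1116126262) (nat_lit 191) (nat_lit 5) (nat_lit 197) (nat_lit 5) (nat_lit 198) (nat_lit 5) (nat_lit 618) (nat_lit 539) (nat_lit 403)) (XT.lf (nat_lit 0) (nat_lit 2440088724) (nat_lit 532) (nat_lit 5235562856) (nat_lit 76) (nat_lit 7154900239) (nat_lit 190) (nat_lit 5) (nat_lit 197) (nat_lit 5) (nat_lit 191) (nat_lit 5) (nat_lit 619) (nat_lit 539) (nat_lit 402))))))) (XT.nd (nat_lit 1014) (nat_lit 2964) (nat_lit 0) (XT.nd (nat_lit 468) (nat_lit 1672) (nat_lit 0) (XT.nd (nat_lit 234) (nat_lit 836) (nat_lit 0) (XT.nd (nat_lit 78) (nat_lit 456) (nat_lit 0) (XT.lf (nat_lit 0) (nat_lit 4051295674) (nat_lit 380) (nat_lit 2013038904) (nat_lit 456) (nat_lit 8940633462)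 (nat_lit 185) (nat_lit 5) (nat_lit 190) (nat_lit 5) (nat_lit 191) (nat_lit 5) (nat_lit 620) (nat_lit 539) (nat_lit 401)) (XT.nd (nat_lit 78) (nat_lit 456) (nat_lit 0) (XT.lf (nat_lit 0) (nat_lit 9806497717) (nat_lit 456) (nat_lit 1633385612) (nat_lit 76) (nat_lit 3742081394) (nat_lit 185) (nat_lit 5) (nat_lit 191) (nat_lit 5) (nat_lit 186) (nat_lit 5) (nat_lit 621) (nat_lit 539) (nat_lit 400)) (XT.lf (nat_lit 0) (nat_lit 7943158239) (nat_lit 456) (nat_lit 5731166722) (nat_lit 532) (nat_lit 1687160731) (nat_lit 179) (nat_lit 5) (nat_lit 185) (nat_lit 5) (nat_lit 186) (nat_lit 5) (nat_lit 622) (nat_lit 539) (nat_lit 399)))) (XT.nd (nat_lit 78) (nat_lit 380) (nat_lit 0) (XT.lf (nat_lit 0) (nat_lit 2059677089) (nat_lit 456) (nat_lit 13361870736) (nat_lit 76) (nat_lit 122540996) (nat_lit 173) (nat_lit 5) (nat_lit 179) (nat_lit 5) (nat_lit 174) (nat_lit 5) (nat_lit 623) (nat_lit 539) (nat_lit 398)) (XT.nd (nat_lit 78) (nat_lit 380) (nat_lit 0) (XT.lf (nat_lit 0) (nat_lit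 5933005837) (nat_lit 456) (nat_lit 3724611200) (nat_lit 76) (nat_lit 6071021753) (nat_lit 173) (nat_lit 5) (nat_lit 179) (nat_lit 5) (nat_lit 174) (nat_lit 5) (nat_lit 624) (nat_lit 539) (nat_lit 397)) (XT.lf (nat_lit 0) (nat_lit 6165533001) (nat_lit 380) (nat_lit 3744631079) (nat_lit 456) (nat_lit 6006189133) (nat_lit 168) (nat_lit 5) (nat_lit 173) (nat_lit 5) (nat_lit 174) (nat_lit 5) (nat_lit 625) (nat_lit 539) (nat_lit 396))))) (XT.nd (nat_lit 234) (nat_lit 836) (nat_lit 0) (XT.nd (nat_lit 78) (nat_lit 456) (nat_lit 0) (XT.lf (nat_lit 0) (nat_lit 162959794) (nat_lit 380) (nat_lit 13831390314) (nat_lit 456) (nat_lit 2112922819) (nat_lit 163) (nat_lit 5) (nat_lit 168) (nat_lit 5) (nat_lit 169) (nat_lit 5) (nat_lit 626) (nat_lit 539) (nat_lit 395)) (XT.nd (nat_lit 78) (nat_lit 380) (nat_lit 0) (XT.lf (nat_lit 0) (nat_lit 1910966457) (nat_lit 456) (nat_lit 5951664467) (nat_lit 76) (nat_lit 8437596921) (nat_lit 162) (nat_lit 5) (nat_lit 168) (nat_lit 5) (nat_lit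 163) (nat_lit 5) (nat_lit 627) (nat_lit 539) (nat_lit 394)) (XT.lf (nat_lit 0) (nat_lit 4262298559) (nat_lit 380) (nat_lit 1739171499) (nat_lit 456) (nat_lit 10495004558) (nat_lit 157) (nat_lit 5) (nat_lit 162) (nat_lit 5) (nat_lit 163) (nat_lit 5) (nat_lit 628) (nat_lit 539) (nat_lit 393)))) (XT.nd (nat_lit 156) (nat_lit 456) (nat_lit 0) (XT.nd (nat_lit 78) (nat_lit 380) (nat_lit 0) (XT.lf (nat_lit 0) (nat_lit 10230058149) (nat_lit 456) (nat_lit 1984684682) (nat_lit 76) (nat_lit 4480778650) (nat_lit 157) (nat_lit 5) (nat_lit 163) (nat_lit 5) (nat_lit 158) (nat_lit 5) (nat_lit 629) (nat_lit 539) (nat_lit 392)) (XT.lf (nat_lit 0) (nat_lit 8550290957) (nat_lit 380) (nat_lit 6047027781) (nat_lit 456) (nat_lit 2300149161) (nat_lit 152) (nat_lit 5) (nat_lit 157) (nat_lit 5) (nat_lit 158) (nat_lit 5) (nat_lit 630) (nat_lit 539) (nat_lit 391))) (XT.nd (nat_lit 78) (nat_lit 0) (nat_lit 0) (XT.lf (nat_lit 0) (nat_lit 1939622205) (nat_lit 456) (nat_lit 14888869637) (nat_lit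 76) (nat_lit 274374886) (nat_lit 146) (nat_lit 5) (nat_lit 152) (nat_lit 5) (nat_lit 147) (nat_lit 5) (nat_lit 631) (nat_lit 539) (nat_lit 390)) (XT.lf (nat_lit 0) (nat_lit 6317033003) (nat_lit 456) (nat_lit 4287602916) (nat_lit 76) (nat_lit 6705761269) (nat_lit 146) (nat_lit 5) (nat_lit 152) (nat_lit 5) (nat_lit 147) (nat_lit 5) (nat_lit 632) (nat_lit 539) (nat_lit 389)))))) (XT.nd (nat_lit 546) (nat_lit 1216) (nat_lit 0) (XT.nd (nat_lit 234) (nat_lit 988) (nat_lit 0) (XT.nd (nat_lit 78) (nat_lit 456) (nat_lit 0) (XT.lf (nat_lit 0) (nat_lit 6592303106) (nat_lit 304) (nat_lit 4219924599) (nat_lit 380) (nat_lit 6709246422) (nat_lit 142) (nat_lit 5) (nat_lit 146) (nat_lit 5) (nat_lit 147) (nat_lit 5) (nat_lit 633) (nat_lit 539) (nat_lit 388)) (XT.nd (nat_lit 78) (nat_lit 456) (nat_lit 0) (XT.lf (nat_lit 0) (nat_lit 15428678516) (nat_lit 380) (nat_lit 23262229) (nat_lit 76) (nat_lit 2284205388) (nat_lit 142) (nat_lit 5) (nat_lit 147) (nat_lit 5) (nat_lit 143) (nat_lit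 5) (nat_lit 634) (nat_lit 539) (nat_lit 387)) (XT.lf (nat_lit 0) (nat_lit 2242725704) (nat_lit 456) (nat_lit 6767914471) (nat_lit 76) (nat_lit 8942408553) (nat_lit 136) (nat_lit 5) (nat_lit 142) (nat_lit 5) (nat_lit 137) (nat_lit 5) (nat_lit 635) (nat_lit 539) (nat_lit 386)))) (XT.nd (nat_lit 156) (nat_lit 684) (nat_lit 0) (XT.nd (nat_lit 78) (nat_lit 0) (nat_lit 0) (XT.lf (nat_lit 0) (nat_lit 4467476281) (nat_lit 304) (nat_lit 2402525077) (nat_lit 380) (nat_lit 11303643998) (nat_lit 132) (nat_lit 5) (nat_lit 136) (nat_lit 5) (nat_lit 137) (nat_lit 5) (nat_lit 636) (nat_lit 539) (nat_lit 385)) (XT.lf (nat_lit 0) (nat_lit 11651552533) (nat_lit 380) (nat_lit 2426521474) (nat_lit 76) (nat_lit 4319345839) (nat_lit 132) (nat_lit 5) (nat_lit 137) (nat_lit 5) (nat_lit 133) (nat_lit 5) (nat_lit 637) (nat_lit 539) (nat_lit 384))) (XT.nd (nat_lit 78) (nat_lit 380) (nat_lit 0) (XT.lf (nat_lit 0) (nat_lit 9163750140) (nat_lit 304) (nat_lit 7428480148) (nat_lit 380) (nat_lit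 2032170145) (nat_lit 128) (nat_lit 5) (nat_lit 132) (nat_lit 5) (nat_lit 133) (nat_lit 5) (nat_lit 638) (nat_lit 539) (nat_lit 383)) (XT.lf (nat_lit 0) (nat_lit 2153969669) (nat_lit 304) (nat_lit 603920688) (nat_lit 380) (nat_lit 16097300435) (nat_lit 123) (nat_lit 5) (nat_lit 127) (nat_lit 5) (nat_lit 128) (nat_lit 5) (nat_lit 639) (nat_lit 539) (nat_lit 382))))) (XT.nd (nat_lit 234) (nat_lit 912) (nat_lit 0) (XT.nd (nat_lit 78) (nat_lit 304) (nat_lit 0) (XT.lf (nat_lit 0) (nat_lit 7709927053) (nat_lit 380) (nat_lit 5034692298) (nat_lit 76) (nat_lit 6343841727) (nat_lit 123) (nat_lit 5) (nat_lit 128) (nat_lit 5) (nat_lit 124) (nat_lit 5) (nat_lit 640) (nat_lit 539) (nat_lit 381)) (XT.nd (nat_lit 78) (nat_lit 0) (nat_lit 0) (XT.lf (nat_lit 0) (nat_lit 6933140669) (nat_lit 304) (nat_lit 5865288838) (nat_lit 380) (nat_lit 6527219241) (nat_lit 119) (nat_lit 5) (nat_lit 123) (nat_lit 5) (nat_lit 124) (nat_lit 5) (nat_lit 641) (nat_lit 539) (nat_lit 380)) (XT.lf (nat_lit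 0) (nat_lit 18018656589) (nat_lit 380) (nat_lit 385042545) (nat_lit 76) (nat_lit 1163282416) (nat_lit 119) (nat_lit 5) (nat_lit 124) (nat_lit 5) (nat_lit 120) (nat_lit 5) (nat_lit 642) (nat_lit 539) (nat_lit 379)))) (XT.nd (nat_lit 156) (nat_lit 228) (nat_lit 0) (XT.nd (nat_lit 78) (nat_lit 304) (nat_lit 0) (XT.lf (nat_lit 0) (nat_lit 3589747341) (nat_lit 380) (nat_lit 7872682695) (nat_lit 76) (nat_lit 8348135047) (nat_lit 114) (nat_lit 5) (nat_lit 119) (nat_lit 5) (nat_lit 115) (nat_lit 5) (nat_lit 643) (nat_lit 539) (nat_lit 378)) (XT.lf (nat_lit 0) (nat_lit 4483376994) (nat_lit 304) (nat_lit 4346922586) (nat_lit 380) (nat_lit 11228107451) (nat_lit 110) (nat_lit 5) (nat_lit 114) (nat_lit 5) (nat_lit 115) (nat_lit 5) (nat_lit 644) (nat_lit 539) (nat_lit 377))) (XT.nd (nat_lit 78) (nat_lit 228) (nat_lit 0) (XT.lf (nat_lit 0) (nat_lit 14236516115) (nat_lit 380) (nat_lit 3154846663) (nat_lit 76) (nat_lit 2918626408) (nat_lit 110) (nat_lit 5) (nat_lit 115) (nat_lit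 5) (nat_lit 111) (nat_lit 5) (nat_lit 645) (nat_lit 539) (nat_lit 376)) (XT.lf (nat_lit 0) (nat_lit 9592403736) (nat_lit 228) (nat_lit 10238515250) (nat_lit 304) (nat_lit 734083183) (nat_lit 107) (nat_lit 5) (nat_lit 110) (nat_lit 5) (nat_lit 111) (nat_lit 5) (nat_lit 646) (nat_lit 539) (nat_lit 375))))))))
noncomputable def xc123 : XT := (XT.nd (nat_lit 74022) (nat_lit 0) (nat_lit 22876) (XT.nd (nat_lit 72930) (nat_lit 0) (nat_lit 39520) (XT.nd (nat_lit 468) (nat_lit 836) (nat_lit 0) (XT.nd (nat_lit 234) (nat_lit 608) (nat_lit 0) (XT.nd (nat_lit 78) (nat_lit 228) (nat_lit 0) (XT.lf (nat_lit 0) (nat_lit 1786993660) (nat_lit 304) (nat_lit 2885233059) (nat_lit 380) (nat_lit 16151838576) (nat_lit 102) (nat_lit 5) (nat_lit 106) (nat_lit 5) (nat_lit 107) (nat_lit 5) (nat_lit 647) (nat_lit 539) (nat_lit 374)) (XT.nd (nat_lit 78) (nat_lit 228) (nat_lit 0) (XT.lf (nat_lit 0) (nat_lit 10269994385) (nat_lit 380) (nat_lit 6190066515) (nat_lit 76) (nat_lit 4626288920) (nat_lit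 102) (nat_lit 5) (nat_lit 107) (nat_lit 5) (nat_lit 103) (nat_lit 5) (nat_lit 648) (nat_lit 539) (nat_lit 373)) (XT.lf (nat_lit 0) (nat_lit 6968090302) (nat_lit 228) (nat_lit 9065258248) (nat_lit 304) (nat_lit 5319459254) (nat_lit 99) (nat_lit 5) (nat_lit 102) (nat_lit 5) (nat_lit 103) (nat_lit 5) (nat_lit 649) (nat_lit 539) (nat_lit 372)))) (XT.nd (nat_lit 78) (nat_lit 532) (nat_lit 0) (XT.lf (nat_lit 0) (nat_lit 314724625) (nat_lit 304) (nat_lit 1170679151) (nat_lit 76) (nat_lit 20138531858) (nat_lit 98) (nat_lit 5) (nat_lit 102) (nat_lit 5) (nat_lit 99) (nat_lit 5) (nat_lit 650) (nat_lit 539) (nat_lit 371)) (XT.nd (nat_lit 78) (nat_lit 228) (nat_lit 0) (XT.lf (nat_lit 0) (nat_lit 6101842442) (nat_lit 380) (nat_lit 9522120313) (nat_lit 76) (nat_lit 6273590847) (nat_lit 94) (nat_lit 5) (nat_lit 99) (nat_lit 5) (nat_lit 95) (nat_lit 5) (nat_lit 651) (nat_lit 539) (nat_lit 370)) (XT.lf (nat_lit 0) (nat_lit 4057392152) (nat_lit 228) (nat_lit 7980957777) (nat_lit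 304) (nat_lit 10137621417) (nat_lit 91) (nat_lit 5) (nat_lit 94) (nat_lit 5) (nat_lit 95) (nat_lit 5) (nat_lit 652) (nat_lit 539) (nat_lit 369))))) (XT.nd (nat_lit 234) (nat_lit 304) (nat_lit 0) (XT.nd (nat_lit 78) (nat_lit 532) (nat_lit 0) (XT.lf (nat_lit 0) (nat_lit 18019904530) (nat_lit 228) (nat_lit 127230529) (nat_lit 304) (nat_lit 4311751791) (nat_lit 91) (nat_lit 5) (nat_lit 94) (nat_lit 5) (nat_lit 95) (nat_lit 5) (nat_lit 653) (nat_lit 539) (nat_lit 368)) (XT.nd (nat_lit 78) (nat_lit 228) (nat_lit 0) (XT.lf (nat_lit 0) (nat_lit 1713064383) (nat_lit 304) (nat_lit 13185596635) (nat_lit 76) (nat_lit 7846511941) (nat_lit 87) (nat_lit 5) (nat_lit 91) (nat_lit 5) (nat_lit 88) (nat_lit 5) (nat_lit 654) (nat_lit 539) (nat_lit 367)) (XT.lf (nat_lit 0) (nat_lit 825423621) (nat_lit 228) (nat_lit 7001285192) (nat_lit 304) (nat_lit 15209384971) (nat_lit 84) (nat_lit 5) (nat_lit 87) (nat_lit 5) (nat_lit 88) (nat_lit 5) (nat_lit 655) (nat_lit 539) (nat_lit 366)))) (XT.nd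 (nat_lit 156) (nat_lit 76) (nat_lit 0) (XT.nd (nat_lit 78) (nat_lit 228) (nat_lit 0) (XT.lf (nat_lit 0) (nat_lit 14148402579) (nat_lit 304) (nat_lit 8060630125) (nat_lit 76) (nat_lit 1122085123) (nat_lit 84) (nat_lit 5) (nat_lit 88) (nat_lit 5) (nat_lit 85) (nat_lit 5) (nat_lit 656) (nat_lit 539) (nat_lit 365)) (XT.lf (nat_lit 0) (nat_lit 6392693989) (nat_lit 228) (nat_lit 14281771360) (nat_lit 304) (nat_lit 2956018620) (nat_lit 81) (nat_lit 5) (nat_lit 84) (nat_lit 5) (nat_lit 85) (nat_lit 5) (nat_lit 657) (nat_lit 539) (nat_lit 364))) (XT.nd (nat_lit 71994) (nat_lit 0) (nat_lit 43168) (XT.lf (nat_lit 0) (nat_lit 3395214195) (nat_lit 304) (nat_lit 2730020195) (nat_lit 76) (nat_lit 17809271854) (nat_lit 80) (nat_lit 5) (nat_lit 84) (nat_lit 5) (nat_lit 81) (nat_lit 5) (nat_lit 658) (nat_lit 539) (nat_lit 363)) (XT.lf (nat_lit 0) (nat_lit 458048010) (nat_lit 0) (nat_lit 458048010) (nat_lit 1140) (nat_lit 2685639164) (nat_lit 648) (nat_lit 5) (nat_lit 648) (nat_lit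 3) (nat_lit 663) (nat_lit 3) (nat_lit 540) (nat_lit 540) (nat_lit 480)))))) (XT.nd (nat_lit 546) (nat_lit 2432) (nat_lit 0) (XT.nd (nat_lit 234) (nat_lit 1216) (nat_lit 0) (XT.nd (nat_lit 78) (nat_lit 0) (nat_lit 0) (XT.lf (nat_lit 0) (nat_lit 3510346973) (nat_lit 1140) (nat_lit 2718195494) (nat_lit 1216) (nat_lit 1013569536) (nat_lit 648) (nat_lit 5) (nat_lit 663) (nat_lit 3) (nat_lit 664) (nat_lit 5) (nat_lit 541) (nat_lit 540) (nat_lit 479)) (XT.nd (nat_lit 78) (nat_lit 0) (nat_lit 0) (XT.lf (nat_lit 76) (nat_lit 905480885) (nat_lit 0) (nat_lit 4285307623) (nat_lit 1216) (nat_lit 2091368639) (nat_lit 649) (nat_lit 5) (nat_lit 648) (nat_lit 5) (nat_lit 664) (nat_lit 5) (nat_lit 542) (nat_lit 540) (nat_lit 478)) (XT.lf (nat_lit 76) (nat_lit 4615931215) (nat_lit 0) (nat_lit 2264626962) (nat_lit 1216) (nat_lit 442935682) (nat_lit 649) (nat_lit 5) (nat_lit 648) (nat_lit 5) (nat_lit 664) (nat_lit 5) (nat_lit 543) (nat_lit 540) (nat_lit 477)))) (XT.nd (nat_lit 156)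 (nat_lit 0) (nat_lit 76) (XT.nd (nat_lit 78) (nat_lit 0) (nat_lit 76) (XT.lf (nat_lit 76) (nat_lit 1017571984) (nat_lit 0) (nat_lit 169289564) (nat_lit 1292) (nat_lit 6179347029) (nat_lit 633) (nat_lit 5) (nat_lit 632) (nat_lit 5) (nat_lit 649) (nat_lit 5) (nat_lit 544) (nat_lit 540) (nat_lit 476)) (XT.lf (nat_lit 0) (nat_lit 2833226306) (nat_lit 1216) (nat_lit 2594803447) (nat_lit 1292) (nat_lit 1981895989) (nat_lit 633) (nat_lit 5) (nat_lit 649) (nat_lit 5) (nat_lit 650) (nat_lit 5) (nat_lit 545) (nat_lit 540) (nat_lit 475))) (XT.nd (nat_lit 78) (nat_lit 0) (nat_lit 0) (XT.lf (nat_lit 76) (nat_lit 1226056035) (nat_lit 0) (nat_lit 3255181248) (nat_lit 1292) (nat_lit 2973910255) (nat_lit 634) (nat_lit 5) (nat_lit 633) (nat_lit 5) (nat_lit 650) (nat_lit 5) (nat_lit 546) (nat_lit 540) (nat_lit 474)) (XT.lf (nat_lit 76) (nat_lit 5135648178) (nat_lit 0) (nat_lit 1004253248) (nat_lit 1292) (nat_lit 1361823059) (nat_lit 634) (nat_lit 5) (nat_lit 633) (nat_lit 5) (nat_lit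 650) (nat_lit 5) (nat_lit 547) (nat_lit 540) (nat_lit 473))))) (XT.nd (nat_lit 234) (nat_lit 1292) (nat_lit 0) (XT.nd (nat_lit 78) (nat_lit 0) (nat_lit 0) (XT.lf (nat_lit 0) (nat_lit 258363141) (nat_lit 1292) (nat_lit 5988331564) (nat_lit 1368) (nat_lit 1302914733) (nat_lit 617) (nat_lit 5) (nat_lit 634) (nat_lit 5) (nat_lit 635) (nat_lit 5) (nat_lit 548) (nat_lit 540) (nat_lit 472)) (XT.nd (nat_lit 78) (nat_lit 0) (nat_lit 0) (XT.lf (nat_lit 0) (nat_lit 1876889034) (nat_lit 1292) (nat_lit 2038319745) (nat_lit 1368) (nat_lit 3683384172) (nat_lit 617) (nat_lit 5) (nat_lit 634) (nat_lit 5) (nat_lit 635) (nat_lit 5) (nat_lit 549) (nat_lit 540) (nat_lit 471)) (XT.lf (nat_lit 76) (nat_lit 1993640629) (nat_lit 0) (nat_lit 1509363639) (nat_lit 1368) (nat_lit 4146051717) (nat_lit 618) (nat_lit 5) (nat_lit 617) (nat_lit 5) (nat_lit 635) (nat_lit 5) (nat_lit 550) (nat_lit 540) (nat_lit 470)))) (XT.nd (nat_lit 156) (nat_lit 1368) (nat_lit 0) (XT.nd (nat_lit 78) (nat_lit 0)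 (nat_lit 0) (XT.lf (nat_lit 0) (nat_lit 5144499891) (nat_lit 1292) (nat_lit 1596492422) (nat_lit 1368) (nat_lit 959882948) (nat_lit 618) (nat_lit 5) (nat_lit 635) (nat_lit 5) (nat_lit 636) (nat_lit 5) (nat_lit 551) (nat_lit 540) (nat_lit 469)) (XT.lf (nat_lit 76) (nat_lit 2543556370) (nat_lit 0) (nat_lit 4265461985) (nat_lit 1368) (nat_lit 944912771) (nat_lit 619) (nat_lit 5) (nat_lit 618) (nat_lit 5) (nat_lit 636) (nat_lit 5) (nat_lit 552) (nat_lit 540) (nat_lit 468))) (XT.nd (nat_lit 78) (nat_lit 0) (nat_lit 76) (XT.lf (nat_lit 0) (nat_lit 664401753) (nat_lit 1368) (nat_lit 1048138963) (nat_lit 1444) (nat_lit 6095924813) (nat_lit 600) (nat_lit 5) (nat_lit 618) (nat_lit 5) (nat_lit 619) (nat_lit 5) (nat_lit 553) (nat_lit 540) (nat_lit 467)) (XT.lf (nat_lit 0) (nat_lit 2284856960) (nat_lit 1368) (nat_lit 4660399932) (nat_lit 1444) (nat_lit 918880503) (nat_lit 601) (nat_lit 5) (nat_lit 619) (nat_lit 5) (nat_lit 620) (nat_lit 5) (nat_lit 554) (nat_lit 540) (nat_lit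 466))))))) (XT.nd (nat_lit 1092) (nat_lit 9120) (nat_lit 0) (XT.nd (nat_lit 546) (nat_lit 6232) (nat_lit 0) (XT.nd (nat_lit 234) (nat_lit 1368) (nat_lit 0) (XT.nd (nat_lit 78) (nat_lit 0) (nat_lit 0) (XT.lf (nat_lit 0) (nat_lit 3921468908) (nat_lit 1368) (nat_lit 401210450) (nat_lit 1444) (nat_lit 3598572141) (nat_lit 601) (nat_lit 5) (nat_lit 619) (nat_lit 5) (nat_lit 620) (nat_lit 5) (nat_lit 555) (nat_lit 540) (nat_lit 465)) (XT.nd (nat_lit 78) (nat_lit 0) (nat_lit 76) (XT.lf (nat_lit 76) (nat_lit 3971822882) (nat_lit 0) (nat_lit 1610783963) (nat_lit 1444) (nat_lit 2397068843) (nat_lit 602) (nat_lit 5) (nat_lit 601) (nat_lit 5) (nat_lit 620) (nat_lit 5) (nat_lit 556) (nat_lit 540) (nat_lit 464)) (XT.lf (nat_lit 76) (nat_lit 371882690) (nat_lit 0) (nat_lit 6884298514) (nat_lit 1444) (nat_lit 783506492) (nat_lit 603) (nat_lit 5) (nat_lit 602) (nat_lit 5) (nat_lit 621) (nat_lit 5) (nat_lit 557) (nat_lit 540) (nat_lit 463)))) (XT.nd (nat_lit 156) (nat_lit 0) (nat_lit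 76) (XT.nd (nat_lit 78) (nat_lit 0) (nat_lit 0) (XT.lf (nat_lit 0) (nat_lit 855624371) (nat_lit 1444) (nat_lit 3247568168) (nat_lit 1520) (nat_lit 3997506759) (nat_lit 583) (nat_lit 5) (nat_lit 602) (nat_lit 5) (nat_lit 603) (nat_lit 5) (nat_lit 558) (nat_lit 540) (nat_lit 462)) (XT.lf (nat_lit 76) (nat_lit 1248432386) (nat_lit 0) (nat_lit 1244245934) (nat_lit 1520) (nat_lit 5670640000) (nat_lit 584) (nat_lit 5) (nat_lit 583) (nat_lit 5) (nat_lit 603) (nat_lit 5) (nat_lit 559) (nat_lit 540) (nat_lit 461))) (XT.nd (nat_lit 78) (nat_lit 0) (nat_lit 0) (XT.lf (nat_lit 0) (nat_lit 4163319034) (nat_lit 1444) (nat_lit 2383744887) (nat_lit 1520) (nat_lit 1680112219) (nat_lit 584) (nat_lit 5) (nat_lit 603) (nat_lit 5) (nat_lit 604) (nat_lit 5) (nat_lit 560) (nat_lit 540) (nat_lit 460)) (XT.lf (nat_lit 76) (nat_lit 2235205493) (nat_lit 0) (nat_lit 3623599467) (nat_lit 1520) (nat_lit 2433680777) (nat_lit 585) (nat_lit 5) (nat_lit 584) (nat_lit 5) (nat_lit 604) (nat_lit 5)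 (nat_lit 561) (nat_lit 540) (nat_lit 459))))) (XT.nd (nat_lit 234) (nat_lit 4864) (nat_lit 0) (XT.nd (nat_lit 78) (nat_lit 1444) (nat_lit 0) (XT.lf (nat_lit 76) (nat_lit 6955115762) (nat_lit 0) (nat_lit 618220985) (nat_lit 1520) (nat_lit 786065258) (nat_lit 585) (nat_lit 5) (nat_lit 584) (nat_lit 5) (nat_lit 604) (nat_lit 5) (nat_lit 562) (nat_lit 540) (nat_lit 458)) (XT.nd (nat_lit 78) (nat_lit 0) (nat_lit 0) (XT.lf (nat_lit 0) (nat_lit 890220052) (nat_lit 1520) (nat_lit 5087528428) (nat_lit 76) (nat_lit 2449646061) (nat_lit 565) (nat_lit 5) (nat_lit 585) (nat_lit 5) (nat_lit 566) (nat_lit 5) (nat_lit 563) (nat_lit 540) (nat_lit 457)) (XT.lf (nat_lit 0) (nat_lit 2573123879) (nat_lit 1520) (nat_lit 332147449) (nat_lit 76) (nat_lit 5591702338) (nat_lit 565) (nat_lit 5) (nat_lit 585) (nat_lit 5) (nat_lit 566) (nat_lit 5) (nat_lit 564) (nat_lit 540) (nat_lit 456)))) (XT.nd (nat_lit 156) (nat_lit 1748) (nat_lit 0) (XT.nd (nat_lit 78) (nat_lit 1596) (nat_lit 0) (XT.lf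 (nat_lit 0) (nat_lit 4291589216) (nat_lit 1596) (nat_lit 4015278159) (nat_lit 76) (nat_lit 261041888) (nat_lit 545) (nat_lit 5) (nat_lit 566) (nat_lit 5) (nat_lit 546) (nat_lit 5) (nat_lit 565) (nat_lit 540) (nat_lit 455)) (XT.lf (nat_lit 0) (nat_lit 867357808) (nat_lit 1596) (nat_lit 5175255938) (nat_lit 1672) (nat_lit 2597688930) (nat_lit 524) (nat_lit 5) (nat_lit 545) (nat_lit 5) (nat_lit 546) (nat_lit 5) (nat_lit 566) (nat_lit 540) (nat_lit 454))) (XT.nd (nat_lit 78) (nat_lit 1748) (nat_lit 0) (XT.lf (nat_lit 0) (nat_lit 5878082180) (nat_lit 1596) (nat_lit 1949007178) (nat_lit 1672) (nat_lit 887088832) (nat_lit 524) (nat_lit 5) (nat_lit 545) (nat_lit 5) (nat_lit 546) (nat_lit 5) (nat_lit 567) (nat_lit 540) (nat_lit 453)) (XT.lf (nat_lit 0) (nat_lit 841478330) (nat_lit 1748) (nat_lit 6599709912) (nat_lit 76) (nat_lit 1348334241) (nat_lit 501) (nat_lit 5) (nat_lit 524) (nat_lit 5) (nat_lit 502) (nat_lit 5) (nat_lit 568) (nat_lit 540) (nat_lit 452)))))) (XT.nd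 (nat_lit 546) (nat_lit 3496) (nat_lit 0) (XT.nd (nat_lit 234) (nat_lit 3876) (nat_lit 0) (XT.nd (nat_lit 78) (nat_lit 1748) (nat_lit 0) (XT.lf (nat_lit 0) (nat_lit 2597095732) (nat_lit 1748) (nat_lit 1554542919) (nat_lit 76) (nat_lit 4714533279) (nat_lit 501) (nat_lit 5) (nat_lit 524) (nat_lit 5) (nat_lit 502) (nat_lit 5) (nat_lit 569) (nat_lit 540) (nat_lit 451)) (XT.nd (nat_lit 78) (nat_lit 0) (nat_lit 0) (XT.lf (nat_lit 0) (nat_lit 3615091843) (nat_lit 1748) (nat_lit 769029570) (nat_lit 1824) (nat_lit 4560309662) (nat_lit 478) (nat_lit 5) (nat_lit 501) (nat_lit 5) (nat_lit 502) (nat_lit 5) (nat_lit 570) (nat_lit 540) (nat_lit 450)) (XT.lf (nat_lit 0) (nat_lit 6208020385) (nat_lit 1824) (nat_lit 156582571) (nat_lit 76) (nat_lit 2659632367) (nat_lit 478) (nat_lit 5) (nat_lit 502) (nat_lit 5) (nat_lit 479) (nat_lit 5) (nat_lit 571) (nat_lit 540) (nat_lit 449)))) (XT.nd (nat_lit 156) (nat_lit 912) (nat_lit 0) (XT.nd (nat_lit 78) (nat_lit 1140) (nat_lit 0) (XT.lf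 (nat_lit 0) (nat_lit 5158415422) (nat_lit 1824) (nat_lit 2922315264) (nat_lit 1900) (nat_lit 1024660829) (nat_lit 454) (nat_lit 5) (nat_lit 478) (nat_lit 5) (nat_lit 479) (nat_lit 5) (nat_lit 572) (nat_lit 540) (nat_lit 448)) (XT.lf (nat_lit 0) (nat_lit 780104831) (nat_lit 1140) (nat_lit 7809693228) (nat_lit 76) (nat_lit 598512796) (nat_lit 439) (nat_lit 5) (nat_lit 454) (nat_lit 5) (nat_lit 440) (nat_lit 5) (nat_lit 573) (nat_lit 540) (nat_lit 447))) (XT.nd (nat_lit 78) (nat_lit 912) (nat_lit 0) (XT.lf (nat_lit 0) (nat_lit 2627578067) (nat_lit 1140) (nat_lit 2458785658) (nat_lit 76) (nat_lit 4185985126) (nat_lit 439) (nat_lit 5) (nat_lit 454) (nat_lit 5) (nat_lit 440) (nat_lit 5) (nat_lit 574) (nat_lit 540) (nat_lit 446)) (XT.lf (nat_lit 0) (nat_lit 3014819167) (nat_lit 912) (nat_lit 1491564503) (nat_lit 988) (nat_lit 4851798614) (nat_lit 427) (nat_lit 5) (nat_lit 439) (nat_lit 5) (nat_lit 440) (nat_lit 5) (nat_lit 575) (nat_lit 540) (nat_lit 445))))) (XT.nd (nat_lit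 234) (nat_lit 1672) (nat_lit 0) (XT.nd (nat_lit 78) (nat_lit 1824) (nat_lit 0) (XT.lf (nat_lit 0) (nat_lit 6428652986) (nat_lit 988) (nat_lit 852619049) (nat_lit 76) (nat_lit 2164344885) (nat_lit 427) (nat_lit 5) (nat_lit 440) (nat_lit 5) (nat_lit 428) (nat_lit 5) (nat_lit 576) (nat_lit 540) (nat_lit 444)) (XT.nd (nat_lit 78) (nat_lit 912) (nat_lit 0) (XT.lf (nat_lit 0) (nat_lit 4776977045) (nat_lit 912) (nat_lit 3628927183) (nat_lit 988) (nat_lit 1128567533) (nat_lit 415) (nat_lit 5) (nat_lit 427) (nat_lit 5) (nat_lit 428) (nat_lit 5) (nat_lit 577) (nat_lit 540) (nat_lit 443)) (XT.lf (nat_lit 0) (nat_lit 775208093) (nat_lit 912) (nat_lit 8737731241) (nat_lit 76) (nat_lit 112301511) (nat_lit 403) (nat_lit 5) (nat_lit 415) (nat_lit 5) (nat_lit 404) (nat_lit 5) (nat_lit 578) (nat_lit 540) (nat_lit 442)))) (XT.nd (nat_lit 156) (nat_lit 836) (nat_lit 0) (XT.nd (nat_lit 78) (nat_lit 836) (nat_lit 0) (XT.lf (nat_lit 0) (nat_lit 2734258712) (nat_lit 912) (nat_lit 3063228233)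 (nat_lit 76) (nat_lit 3919545063) (nat_lit 403) (nat_lit 5) (nat_lit 415) (nat_lit 5) (nat_lit 404) (nat_lit 5) (nat_lit 579) (nat_lit 540) (nat_lit 441)) (XT.lf (nat_lit 0) (nat_lit 2736908389) (nat_lit 836) (nat_lit 1989947389) (nat_lit 912) (nat_lit 5083917980) (nat_lit 392) (nat_lit 5) (nat_lit 403) (nat_lit 5) (nat_lit 404) (nat_lit 5) (nat_lit 580) (nat_lit 540) (nat_lit 440))) (XT.nd (nat_lit 78) (nat_lit 836) (nat_lit 0) (XT.lf (nat_lit 0) (nat_lit 6769190327) (nat_lit 912) (nat_lit 1247896195) (nat_lit 76) (nat_lit 1889108141) (nat_lit 392) (nat_lit 5) (nat_lit 404) (nat_lit 5) (nat_lit 393) (nat_lit 5) (nat_lit 581) (nat_lit 540) (nat_lit 439)) (XT.lf (nat_lit 0) (nat_lit 4719729682) (nat_lit 836) (nat_lit 4153815039) (nat_lit 912) (nat_lit 1129557793) (nat_lit 381) (nat_lit 5) (nat_lit 392) (nat_lit 5) (nat_lit 393) (nat_lit 5) (nat_lit 582) (nat_lit 540) (nat_lit 438))))))))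
noncomputable def xc124 : XT := (XT.nd (nat_lit 2106) (nat_lit 7676) (nat_lit 0) (XT.nd (nat_lit 1014) (nat_lit 4940) (nat_lit 0) (XT.nd (nat_lit 468) (nat_lit 2812) (nat_lit 0) (XT.nd (nat_lit 234) (nat_lit 1520) (nat_lit 0) (XT.nd (nat_lit 78) (nat_lit 760) (nat_lit 0) (XT.lf (nat_lit 0) (nat_lit 701294042) (nat_lit 836) (nat_lit 195179243) (nat_lit 912) (nat_lit 9205548424) (nat_lit 369) (nat_lit 5) (nat_lit 380) (nat_lit 5) (nat_lit 381) (nat_lit 5) (nat_lit 583) (nat_lit 540) (nat_lit 437)) (XT.nd (nat_lit 78) (nat_lit 760) (nat_lit 0) (XT.lf (nat_lit 0) (nat_lit 2986324777) (nat_lit 912) (nat_lit 3381614165) (nat_lit 76) (nat_lit 3834064404) (nat_lit 369) (nat_lit 5) (nat_lit 381) (nat_lit 5) (nat_lit 370) (nat_lit 5) (nat_lit 584) (nat_lit 540) (nat_lit 436)) (XT.lf (nat_lit 0) (nat_lit 2769369102) (nat_lit 760) (nat_lit 2346085713) (nat_lit 836) (nat_lit 5188582009) (nat_lit 359) (nat_lit 5) (nat_lit 369) (nat_lit 5) (nat_lit 370) (nat_lit 5) (nat_lit 585)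 (nat_lit 540) (nat_lit 435)))) (XT.nd (nat_lit 78) (nat_lit 1520) (nat_lit 0) (XT.lf (nat_lit 0) (nat_lit 7299884262) (nat_lit 836) (nat_lit 1353804963) (nat_lit 76) (nat_lit 1754169216) (nat_lit 359) (nat_lit 5) (nat_lit 370) (nat_lit 5) (nat_lit 360) (nat_lit 5) (nat_lit 586) (nat_lit 540) (nat_lit 434)) (XT.nd (nat_lit 78) (nat_lit 760) (nat_lit 0) (XT.lf (nat_lit 0) (nat_lit 4977074249) (nat_lit 760) (nat_lit 4577673301) (nat_lit 836) (nat_lit 958475803) (nat_lit 349) (nat_lit 5) (nat_lit 359) (nat_lit 5) (nat_lit 360) (nat_lit 5) (nat_lit 587) (nat_lit 540) (nat_lit 433)) (XT.lf (nat_lit 0) (nat_lit 811513272) (nat_lit 684) (nat_lit 399746123) (nat_lit 760) (nat_lit 9409409003) (nat_lit 339) (nat_lit 5) (nat_lit 348) (nat_lit 5) (nat_lit 349) (nat_lit 5) (nat_lit 588) (nat_lit 540) (nat_lit 432))))) (XT.nd (nat_lit 234) (nat_lit 2052) (nat_lit 0) (XT.nd (nat_lit 78) (nat_lit 760) (nat_lit 0) (XT.lf (nat_lit 0) (nat_lit 3453297406) (nat_lit 760) (nat_lit 3423723971)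 (nat_lit 76) (nat_lit 3852281082) (nat_lit 339) (nat_lit 5) (nat_lit 349) (nat_lit 5) (nat_lit 340) (nat_lit 5) (nat_lit 589) (nat_lit 540) (nat_lit 431)) (XT.nd (nat_lit 78) (nat_lit 0) (nat_lit 0) (XT.lf (nat_lit 0) (nat_lit 3104235040) (nat_lit 760) (nat_lit 2638410491) (nat_lit 836) (nat_lit 5097415917) (nat_lit 329) (nat_lit 5) (nat_lit 339) (nat_lit 5) (nat_lit 340) (nat_lit 5) (nat_lit 590) (nat_lit 540) (nat_lit 430)) (XT.lf (nat_lit 0) (nat_lit 8091744205) (nat_lit 836) (nat_lit 1177982369) (nat_lit 76) (nat_lit 1683031372) (nat_lit 329) (nat_lit 5) (nat_lit 340) (nat_lit 5) (nat_lit 330) (nat_lit 5) (nat_lit 591) (nat_lit 540) (nat_lit 429)))) (XT.nd (nat_lit 156) (nat_lit 608) (nat_lit 0) (XT.nd (nat_lit 78) (nat_lit 760) (nat_lit 0) (XT.lf (nat_lit 0) (nat_lit 5543229565) (nat_lit 684) (nat_lit 4978349199) (nat_lit 760) (nat_lit 545456104) (nat_lit 320) (nat_lit 5) (nat_lit 329) (nat_lit 5) (nat_lit 330) (nat_lit 5) (nat_lit 592) (nat_lit 540) (nat_lit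 428)) (XT.lf (nat_lit 0) (nat_lit 1212321372) (nat_lit 684) (nat_lit 576495364) (nat_lit 760) (nat_lit 9394621699) (nat_lit 310) (nat_lit 5) (nat_lit 319) (nat_lit 5) (nat_lit 320) (nat_lit 5) (nat_lit 593) (nat_lit 540) (nat_lit 427))) (XT.nd (nat_lit 78) (nat_lit 608) (nat_lit 0) (XT.lf (nat_lit 0) (nat_lit 4205809645) (nat_lit 760) (nat_lit 3195987975) (nat_lit 76) (nat_lit 3899435061) (nat_lit 310) (nat_lit 5) (nat_lit 320) (nat_lit 5) (nat_lit 311) (nat_lit 5) (nat_lit 594) (nat_lit 540) (nat_lit 426)) (XT.lf (nat_lit 0) (nat_lit 3736953986) (nat_lit 608) (nat_lit 2943259212) (nat_lit 684) (nat_lit 4740989647) (nat_lit 302) (nat_lit 5) (nat_lit 310) (nat_lit 5) (nat_lit 311) (nat_lit 5) (nat_lit 595) (nat_lit 540) (nat_lit 425)))))) (XT.nd (nat_lit 546) (nat_lit 2280) (nat_lit 0) (XT.nd (nat_lit 234) (nat_lit 1292) (nat_lit 0) (XT.nd (nat_lit 78) (nat_lit 1368) (nat_lit 0) (XT.lf (nat_lit 0) (nat_lit 9217300444) (nat_lit 684) (nat_lit 724909042) (nat_lit 76)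 (nat_lit 1601100436) (nat_lit 302) (nat_lit 5) (nat_lit 311) (nat_lit 5) (nat_lit 303) (nat_lit 5) (nat_lit 596) (nat_lit 540) (nat_lit 424)) (XT.nd (nat_lit 78) (nat_lit 608) (nat_lit 0) (XT.lf (nat_lit 0) (nat_lit 178456263) (nat_lit 760) (nat_lit 5252543478) (nat_lit 76) (nat_lit 6235983217) (nat_lit 292) (nat_lit 5) (nat_lit 302) (nat_lit 5) (nat_lit 293) (nat_lit 5) (nat_lit 597) (nat_lit 540) (nat_lit 423)) (XT.lf (nat_lit 0) (nat_lit 1900126095) (nat_lit 608) (nat_lit 800654770) (nat_lit 684) (nat_lit 9092064134) (nat_lit 284) (nat_lit 5) (nat_lit 292) (nat_lit 5) (nat_lit 293) (nat_lit 5) (nat_lit 598) (nat_lit 540) (nat_lit 422)))) (XT.nd (nat_lit 156) (nat_lit 684) (nat_lit 0) (XT.nd (nat_lit 78) (nat_lit 608) (nat_lit 0) (XT.lf (nat_lit 0) (nat_lit 5316335282) (nat_lit 684) (nat_lit 2702083177) (nat_lit 76) (nat_lit 3901951470) (nat_lit 284) (nat_lit 5) (nat_lit 293) (nat_lit 5) (nat_lit 285) (nat_lit 5) (nat_lit 599) (nat_lit 540) (nat_lit 421)) (XT.lf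 (nat_lit 0) (nat_lit 4665791957) (nat_lit 608) (nat_lit 3336197152) (nat_lit 684) (nat_lit 4048101769) (nat_lit 276) (nat_lit 5) (nat_lit 284) (nat_lit 5) (nat_lit 285) (nat_lit 5) (nat_lit 600) (nat_lit 540) (nat_lit 420))) (XT.nd (nat_lit 78) (nat_lit 76) (nat_lit 0) (XT.lf (nat_lit 0) (nat_lit 3549024) (nat_lit 608) (nat_lit 10747796035) (nat_lit 684) (nat_lit 1430862671) (nat_lit 268) (nat_lit 5) (nat_lit 276) (nat_lit 5) (nat_lit 277) (nat_lit 5) (nat_lit 601) (nat_lit 540) (nat_lit 419)) (XT.lf (nat_lit 0) (nat_lit 1276899173) (nat_lit 684) (nat_lit 4729914719) (nat_lit 76) (nat_lit 6308904907) (nat_lit 267) (nat_lit 5) (nat_lit 276) (nat_lit 5) (nat_lit 268) (nat_lit 5) (nat_lit 602) (nat_lit 540) (nat_lit 418))))) (XT.nd (nat_lit 234) (nat_lit 1140) (nat_lit 0) (XT.nd (nat_lit 78) (nat_lit 532) (nat_lit 0) (XT.lf (nat_lit 0) (nat_lit 2873739300) (nat_lit 608) (nat_lit 1147387265) (nat_lit 684) (nat_lit 8430556164) (nat_lit 259) (nat_lit 5) (nat_lit 267)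 (nat_lit 5) (nat_lit 268) (nat_lit 5) (nat_lit 603) (nat_lit 540) (nat_lit 417)) (XT.nd (nat_lit 78) (nat_lit 532) (nat_lit 0) (XT.lf (nat_lit 0) (nat_lit 6859874840) (nat_lit 684) (nat_lit 1943531891) (nat_lit 76) (nat_lit 3786167646) (nat_lit 259) (nat_lit 5) (nat_lit 268) (nat_lit 5) (nat_lit 260) (nat_lit 5) (nat_lit 604) (nat_lit 540) (nat_lit 416)) (XT.lf (nat_lit 0) (nat_lit 5891233718) (nat_lit 532) (nat_lit 3893300870) (nat_lit 608) (nat_lit 2945107684) (nat_lit 252) (nat_lit 5) (nat_lit 259) (nat_lit 5) (nat_lit 260) (nat_lit 5) (nat_lit 605) (nat_lit 540) (nat_lit 415)))) (XT.nd (nat_lit 156) (nat_lit 532) (nat_lit 0) (XT.nd (nat_lit 78) (nat_lit 76) (nat_lit 0) (XT.lf (nat_lit 0) (nat_lit 1020697474) (nat_lit 532) (nat_lit 11757424265) (nat_lit 608) (nat_lit 94182223) (nat_lit 245) (nat_lit 5) (nat_lit 252) (nat_lit 5) (nat_lit 253) (nat_lit 5) (nat_lit 606) (nat_lit 540) (nat_lit 414)) (XT.lf (nat_lit 0) (nat_lit 2832347013) (nat_lit 608) (nat_lit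 3953802132) (nat_lit 76) (nat_lit 6230195678) (nat_lit 244) (nat_lit 5) (nat_lit 252) (nat_lit 5) (nat_lit 245) (nat_lit 5) (nat_lit 607) (nat_lit 540) (nat_lit 413))) (XT.nd (nat_lit 78) (nat_lit 0) (nat_lit 0) (XT.lf (nat_lit 0) (nat_lit 4133758473) (nat_lit 532) (nat_lit 1693062430) (nat_lit 608) (nat_lit 7336220699) (nat_lit 237) (nat_lit 5) (nat_lit 244) (nat_lit 5) (nat_lit 245) (nat_lit 5) (nat_lit 608) (nat_lit 540) (nat_lit 412)) (XT.lf (nat_lit 0) (nat_lit 8914603199) (nat_lit 608) (nat_lit 920320639) (nat_lit 76) (nat_lit 3477081138) (nat_lit 237) (nat_lit 5) (nat_lit 245) (nat_lit 5) (nat_lit 238) (nat_lit 5) (nat_lit 609) (nat_lit 540) (nat_lit 411))))))) (XT.nd (nat_lit 1014) (nat_lit 3724) (nat_lit 0) (XT.nd (nat_lit 468) (nat_lit 1824) (nat_lit 0) (XT.nd (nat_lit 234) (nat_lit 1064) (nat_lit 0) (XT.nd (nat_lit 78) (nat_lit 532) (nat_lit 0) (XT.lf (nat_lit 0) (nat_lit 7415360787) (nat_lit 532) (nat_lit 4692426910) (nat_lit 608) (nat_lit 1355288004)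 (nat_lit 230) (nat_lit 5) (nat_lit 237) (nat_lit 5) (nat_lit 238) (nat_lit 5) (nat_lit 610) (nat_lit 540) (nat_lit 410)) (XT.nd (nat_lit 78) (nat_lit 0) (nat_lit 0) (XT.lf (nat_lit 0) (nat_lit 1734086687) (nat_lit 532) (nat_lit 11310064930) (nat_lit 76) (nat_lit 572603467) (nat_lit 223) (nat_lit 5) (nat_lit 230) (nat_lit 5) (nat_lit 224) (nat_lit 5) (nat_lit 611) (nat_lit 540) (nat_lit 409)) (XT.lf (nat_lit 0) (nat_lit 4923529602) (nat_lit 532) (nat_lit 2924553753) (nat_lit 76) (nat_lit 5924117926) (nat_lit 223) (nat_lit 5) (nat_lit 230) (nat_lit 5) (nat_lit 224) (nat_lit 5) (nat_lit 612) (nat_lit 540) (nat_lit 408)))) (XT.nd (nat_lit 78) (nat_lit 532) (nat_lit 0) (XT.lf (nat_lit 0) (nat_lit 5681913233) (nat_lit 532) (nat_lit 2516526425) (nat_lit 608) (nat_lit 5731884118) (nat_lit 216) (nat_lit 5) (nat_lit 223) (nat_lit 5) (nat_lit 224) (nat_lit 5) (nat_lit 613) (nat_lit 540) (nat_lit 407)) (XT.nd (nat_lit 78) (nat_lit 76) (nat_lit 0) (XT.lf (nat_lit 0) (nat_lit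 373337266) (nat_lit 456) (nat_lit 11191568344) (nat_lit 532) (nat_lit 2526182877) (nat_lit 210) (nat_lit 5) (nat_lit 216) (nat_lit 5) (nat_lit 217) (nat_lit 5) (nat_lit 614) (nat_lit 540) (nat_lit 406)) (XT.lf (nat_lit 0) (nat_lit 791230215) (nat_lit 532) (nat_lit 5017948640) (nat_lit 76) (nat_lit 8444646943) (nat_lit 209) (nat_lit 5) (nat_lit 216) (nat_lit 5) (nat_lit 210) (nat_lit 5) (nat_lit 615) (nat_lit 540) (nat_lit 405))))) (XT.nd (nat_lit 234) (nat_lit 912) (nat_lit 0) (XT.nd (nat_lit 78) (nat_lit 456) (nat_lit 0) (XT.lf (nat_lit 0) (nat_lit 3868825228) (nat_lit 456) (nat_lit 282753335) (nat_lit 532) (nat_lit 10267697948) (nat_lit 203) (nat_lit 5) (nat_lit 209) (nat_lit 5) (nat_lit 210) (nat_lit 5) (nat_lit 616) (nat_lit 540) (nat_lit 404)) (XT.nd (nat_lit 78) (nat_lit 456) (nat_lit 0) (XT.lf (nat_lit 0) (nat_lit 7633167280) (nat_lit 532) (nat_lit 1642143193) (nat_lit 76) (nat_lit 5311645945) (nat_lit 203) (nat_lit 5) (nat_lit 210) (nat_lit 5) (nat_lit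 204) (nat_lit 5) (nat_lit 617) (nat_lit 540) (nat_lit 403)) (XT.lf (nat_lit 0) (nat_lit 7520355427) (nat_lit 456) (nat_lit 3700393099) (nat_lit 532) (nat_lit 3536515017) (nat_lit 197) (nat_lit 5) (nat_lit 203) (nat_lit 5) (nat_lit 204) (nat_lit 5) (nat_lit 618) (nat_lit 540) (nat_lit 402)))) (XT.nd (nat_lit 156) (nat_lit 380) (nat_lit 0) (XT.nd (nat_lit 78) (nat_lit 76) (nat_lit 0) (XT.lf (nat_lit 0) (nat_lit 1949365457) (nat_lit 456) (nat_lit 12953126625) (nat_lit 532) (nat_lit 28037331) (nat_lit 191) (nat_lit 5) (nat_lit 197) (nat_lit 5) (nat_lit 198) (nat_lit 5) (nat_lit 619) (nat_lit 540) (nat_lit 401)) (XT.lf (nat_lit 0) (nat_lit 3563251489) (nat_lit 532) (nat_lit 3757599785) (nat_lit 76) (nat_lit 7784764884) (nat_lit 190) (nat_lit 5) (nat_lit 197) (nat_lit 5) (nat_lit 191) (nat_lit 5) (nat_lit 620) (nat_lit 540) (nat_lit 400))) (XT.nd (nat_lit 78) (nat_lit 0) (nat_lit 0) (XT.lf (nat_lit 0) (nat_lit 5704583585) (nat_lit 380) (nat_lit 1544540941) (nat_lit 456)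 (nat_lit 8034614498) (nat_lit 185) (nat_lit 5) (nat_lit 190) (nat_lit 5) (nat_lit 191) (nat_lit 5) (nat_lit 621) (nat_lit 540) (nat_lit 399)) (XT.lf (nat_lit 0) (nat_lit 11048516354) (nat_lit 456) (nat_lit 106948250) (nat_lit 76) (nat_lit 4309164471) (nat_lit 185) (nat_lit 5) (nat_lit 191) (nat_lit 5) (nat_lit 186) (nat_lit 5) (nat_lit 622) (nat_lit 540) (nat_lit 398)))))) (XT.nd (nat_lit 546) (nat_lit 1596) (nat_lit 0) (XT.nd (nat_lit 234) (nat_lit 1216) (nat_lit 0) (XT.nd (nat_lit 78) (nat_lit 456) (nat_lit 0) (XT.lf (nat_lit 0) (nat_lit 9650869207) (nat_lit 456) (nat_lit 5332379461) (nat_lit 532) (nat_lit 664701946) (nat_lit 179) (nat_lit 5) (nat_lit 185) (nat_lit 5) (nat_lit 186) (nat_lit 5) (nat_lit 623) (nat_lit 540) (nat_lit 397)) (XT.nd (nat_lit 78) (nat_lit 0) (nat_lit 0) (XT.lf (nat_lit 0) (nat_lit 3136241128) (nat_lit 456) (nat_lit 12059320027) (nat_lit 76) (nat_lit 638648162) (nat_lit 173) (nat_lit 5) (nat_lit 179) (nat_lit 5) (nat_lit 174) (nat_lit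 5) (nat_lit 624) (nat_lit 540) (nat_lit 396)) (XT.lf (nat_lit 0) (nat_lit 7066735070) (nat_lit 456) (nat_lit 2260095459) (nat_lit 76) (nat_lit 6696026840) (nat_lit 173) (nat_lit 5) (nat_lit 179) (nat_lit 5) (nat_lit 174) (nat_lit 5) (nat_lit 625) (nat_lit 540) (nat_lit 395)))) (XT.nd (nat_lit 156) (nat_lit 456) (nat_lit 0) (XT.nd (nat_lit 78) (nat_lit 380) (nat_lit 0) (XT.lf (nat_lit 0) (nat_lit 7817726573) (nat_lit 380) (nat_lit 3295733109) (nat_lit 456) (nat_lit 5101066968) (nat_lit 168) (nat_lit 5) (nat_lit 173) (nat_lit 5) (nat_lit 174) (nat_lit 5) (nat_lit 626) (nat_lit 540) (nat_lit 394)) (XT.lf (nat_lit 0) (nat_lit 1701686076) (nat_lit 380) (nat_lit 13571239048) (nat_lit 456) (nat_lit 1136468738) (nat_lit 163) (nat_lit 5) (nat_lit 168) (nat_lit 5) (nat_lit 169) (nat_lit 5) (nat_lit 627) (nat_lit 540) (nat_lit 393))) (XT.nd (nat_lit 78) (nat_lit 380) (nat_lit 0) (XT.lf (nat_lit 0) (nat_lit 2934824942) (nat_lit 456) (nat_lit 4552190450) (nat_lit 76) (nat_lit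 9119455434) (nat_lit 162) (nat_lit 5) (nat_lit 168) (nat_lit 5) (nat_lit 163) (nat_lit 5) (nat_lit 628) (nat_lit 540) (nat_lit 392)) (XT.lf (nat_lit 0) (nat_lit 5856061657) (nat_lit 380) (nat_lit 1241544995) (nat_lit 456) (nat_lit 9709227478) (nat_lit 157) (nat_lit 5) (nat_lit 162) (nat_lit 5) (nat_lit 163) (nat_lit 5) (nat_lit 629) (nat_lit 540) (nat_lit 391))))) (XT.nd (nat_lit 234) (nat_lit 760) (nat_lit 0) (XT.nd (nat_lit 78) (nat_lit 836) (nat_lit 0) (XT.lf (nat_lit 0) (nat_lit 11395016126) (nat_lit 456) (nat_lit 529642740) (nat_lit 76) (nat_lit 5085519010) (nat_lit 157) (nat_lit 5) (nat_lit 163) (nat_lit 5) (nat_lit 158) (nat_lit 5) (nat_lit 630) (nat_lit 540) (nat_lit 390)) (XT.nd (nat_lit 78) (nat_lit 456) (nat_lit 0) (XT.lf (nat_lit 0) (nat_lit 10206198624) (nat_lit 380) (nat_lit 5634233745) (nat_lit 456) (nat_lit 1375915564) (nat_lit 152) (nat_lit 5) (nat_lit 157) (nat_lit 5) (nat_lit 158) (nat_lit 5) (nat_lit 631) (nat_lit 540) (nat_lit 389)) (XT.lf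 (nat_lit 0) (nat_lit 2930313850) (nat_lit 456) (nat_lit 13683318533) (nat_lit 76) (nat_lit 812209501) (nat_lit 146) (nat_lit 5) (nat_lit 152) (nat_lit 5) (nat_lit 147) (nat_lit 5) (nat_lit 632) (nat_lit 540) (nat_lit 388)))) (XT.nd (nat_lit 156) (nat_lit 456) (nat_lit 0) (XT.nd (nat_lit 78) (nat_lit 304) (nat_lit 0) (XT.lf (nat_lit 0) (nat_lit 7376608174) (nat_lit 456) (nat_lit 2899503508) (nat_lit 76) (nat_lit 7361785433) (nat_lit 146) (nat_lit 5) (nat_lit 152) (nat_lit 5) (nat_lit 147) (nat_lit 5) (nat_lit 633) (nat_lit 540) (nat_lit 387)) (XT.lf (nat_lit 0) (nat_lit 8188304244) (nat_lit 304) (nat_lit 3764610077) (nat_lit 380) (nat_lit 5900457971) (nat_lit 142) (nat_lit 5) (nat_lit 146) (nat_lit 5) (nat_lit 147) (nat_lit 5) (nat_lit 634) (nat_lit 540) (nat_lit 386))) (XT.nd (nat_lit 78) (nat_lit 76) (nat_lit 0) (XT.lf (nat_lit 0) (nat_lit 1445407956) (nat_lit 380) (nat_lit 15210979889) (nat_lit 456) (nat_lit 1416056851) (nat_lit 137) (nat_lit 5) (nat_lit 142)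 (nat_lit 5) (nat_lit 143) (nat_lit 5) (nat_lit 635) (nat_lit 540) (nat_lit 385)) (XT.lf (nat_lit 0) (nat_lit 3194855693) (nat_lit 456) (nat_lit 5450537523) (nat_lit 76) (nat_lit 9648530950) (nat_lit 136) (nat_lit 5) (nat_lit 142) (nat_lit 5) (nat_lit 137) (nat_lit 5) (nat_lit 636) (nat_lit 540) (nat_lit 384))))))))
noncomputable def xc125 : XT := (XT.nd (nat_lit 74100) (nat_lit 0) (nat_lit 28272) (XT.nd (nat_lit 1014) (nat_lit 1596) (nat_lit 0) (XT.nd (nat_lit 468) (nat_lit 1292) (nat_lit 0) (XT.nd (nat_lit 234) (nat_lit 684) (nat_lit 0) (XT.nd (nat_lit 78) (nat_lit 304) (nat_lit 0) (XT.lf (nat_lit 0) (nat_lit 6000003575) (nat_lit 304) (nat_lit 1906253637) (nat_lit 380) (nat_lit 10612844693) (nat_lit 132) (nat_lit 5) (nat_lit 136) (nat_lit 5) (nat_lit 137) (nat_lit 5) (nat_lit 637) (nat_lit 540) (nat_lit 383)) (XT.nd (nat_lit 78) (nat_lit 304) (nat_lit 0) (XT.lf (nat_lit 0) (nat_lit 12769279589) (nat_lit 380) (nat_lit 1045973445) (nat_lit 76) (nat_lit 4932382816)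 (nat_lit 132) (nat_lit 5) (nat_lit 137) (nat_lit 5) (nat_lit 133) (nat_lit 5) (nat_lit 638) (nat_lit 540) (nat_lit 382)) (XT.lf (nat_lit 0) (nat_lit 10766701769) (nat_lit 304) (nat_lit 7033939632) (nat_lit 380) (nat_lit 1178677992) (nat_lit 128) (nat_lit 5) (nat_lit 132) (nat_lit 5) (nat_lit 133) (nat_lit 5) (nat_lit 639) (nat_lit 540) (nat_lit 381)))) (XT.nd (nat_lit 78) (nat_lit 304) (nat_lit 0) (XT.lf (nat_lit 0) (nat_lit 3619072045) (nat_lit 304) (nat_lit 68315509) (nat_lit 380) (nat_lit 15527384012) (nat_lit 123) (nat_lit 5) (nat_lit 127) (nat_lit 5) (nat_lit 128) (nat_lit 5) (nat_lit 640) (nat_lit 540) (nat_lit 380)) (XT.nd (nat_lit 78) (nat_lit 304) (nat_lit 0) (XT.lf (nat_lit 0) (nat_lit 8724807276) (nat_lit 380) (nat_lit 3727552714) (nat_lit 76) (nat_lit 7000621134) (nat_lit 123) (nat_lit 5) (nat_lit 128) (nat_lit 5) (nat_lit 124) (nat_lit 5) (nat_lit 641) (nat_lit 540) (nat_lit 379)) (XT.lf (nat_lit 0) (nat_lit 8470374851) (nat_lit 304) (nat_lit 5436909270)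 (nat_lit 380) (nat_lit 5787785037) (nat_lit 119) (nat_lit 5) (nat_lit 123) (nat_lit 5) (nat_lit 124) (nat_lit 5) (nat_lit 642) (nat_lit 540) (nat_lit 378))))) (XT.nd (nat_lit 234) (nat_lit 608) (nat_lit 0) (XT.nd (nat_lit 78) (nat_lit 380) (nat_lit 0) (XT.lf (nat_lit 0) (nat_lit 1004867964) (nat_lit 304) (nat_lit 18220322275) (nat_lit 380) (nat_lit 716173568) (nat_lit 115) (nat_lit 5) (nat_lit 119) (nat_lit 5) (nat_lit 120) (nat_lit 5) (nat_lit 643) (nat_lit 540) (nat_lit 377)) (XT.nd (nat_lit 78) (nat_lit 304) (nat_lit 0) (XT.lf (nat_lit 0) (nat_lit 4499188264) (nat_lit 380) (nat_lit 6643647410) (nat_lit 76) (nat_lit 9047154957) (nat_lit 114) (nat_lit 5) (nat_lit 119) (nat_lit 5) (nat_lit 115) (nat_lit 5) (nat_lit 644) (nat_lit 540) (nat_lit 376)) (XT.lf (nat_lit 0) (nat_lit 5950411836) (nat_lit 304) (nat_lit 3886658063) (nat_lit 380) (nat_lit 10605869794) (nat_lit 110) (nat_lit 5) (nat_lit 114) (nat_lit 5) (nat_lit 115) (nat_lit 5) (nat_lit 645) (nat_lit 540)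 (nat_lit 375)))) (XT.nd (nat_lit 156) (nat_lit 304) (nat_lit 0) (XT.nd (nat_lit 78) (nat_lit 304) (nat_lit 0) (XT.lf (nat_lit 0) (nat_lit 15338616173) (nat_lit 380) (nat_lit 1854757346) (nat_lit 76) (nat_lit 3506436495) (nat_lit 110) (nat_lit 5) (nat_lit 115) (nat_lit 5) (nat_lit 111) (nat_lit 5) (nat_lit 646) (nat_lit 540) (nat_lit 374)) (XT.lf (nat_lit 0) (nat_lit 76586369) (nat_lit 304) (nat_lit 9822102691) (nat_lit 76) (nat_lit 11061369426) (nat_lit 106) (nat_lit 5) (nat_lit 110) (nat_lit 5) (nat_lit 107) (nat_lit 5) (nat_lit 647) (nat_lit 540) (nat_lit 373))) (XT.nd (nat_lit 78) (nat_lit 0) (nat_lit 0) (XT.lf (nat_lit 0) (nat_lit 3178838936) (nat_lit 304) (nat_lit 2395177279) (nat_lit 380) (nat_lit 15650333745) (nat_lit 102) (nat_lit 5) (nat_lit 106) (nat_lit 5) (nat_lit 107) (nat_lit 5) (nat_lit 648) (nat_lit 540) (nat_lit 372)) (XT.lf (nat_lit 0) (nat_lit 11271376024) (nat_lit 380) (nat_lit 4971960376) (nat_lit 76) (nat_lit 5248791624) (nat_lit 102) (nat_lit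 5) (nat_lit 107) (nat_lit 5) (nat_lit 103) (nat_lit 5) (nat_lit 649) (nat_lit 540) (nat_lit 371)))))) (XT.nd (nat_lit 546) (nat_lit 228) (nat_lit 0) (XT.nd (nat_lit 234) (nat_lit 760) (nat_lit 0) (XT.nd (nat_lit 78) (nat_lit 380) (nat_lit 0) (XT.lf (nat_lit 0) (nat_lit 8440531239) (nat_lit 228) (nat_lit 8702513782) (nat_lit 304) (nat_lit 4621009763) (nat_lit 99) (nat_lit 5) (nat_lit 102) (nat_lit 5) (nat_lit 103) (nat_lit 5) (nat_lit 650) (nat_lit 540) (nat_lit 370)) (XT.nd (nat_lit 78) (nat_lit 0) (nat_lit 0) (XT.lf (nat_lit 0) (nat_lit 124861274) (nat_lit 304) (nat_lit 975677419) (nat_lit 380) (nat_lit 20940257787) (nat_lit 94) (nat_lit 5) (nat_lit 98) (nat_lit 5) (nat_lit 99) (nat_lit 5) (nat_lit 651) (nat_lit 540) (nat_lit 369)) (XT.lf (nat_lit 0) (nat_lit 6999300703) (nat_lit 380) (nat_lit 8391931870) (nat_lit 76) (nat_lit 6928736736) (nat_lit 94) (nat_lit 5) (nat_lit 99) (nat_lit 5) (nat_lit 95) (nat_lit 5) (nat_lit 652) (nat_lit 540) (nat_lit 368)))) (XT.nd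 (nat_lit 156) (nat_lit 532) (nat_lit 0) (XT.nd (nat_lit 78) (nat_lit 0) (nat_lit 0) (XT.lf (nat_lit 0) (nat_lit 5450482483) (nat_lit 228) (nat_lit 7597369517) (nat_lit 304) (nat_lit 9556237663) (nat_lit 91) (nat_lit 5) (nat_lit 94) (nat_lit 5) (nat_lit 95) (nat_lit 5) (nat_lit 653) (nat_lit 540) (nat_lit 367)) (XT.lf (nat_lit 0) (nat_lit 19266354719) (nat_lit 304) (nat_lit 3229059836) (nat_lit 76) (nat_lit 397498602) (nat_lit 91) (nat_lit 5) (nat_lit 95) (nat_lit 5) (nat_lit 92) (nat_lit 5) (nat_lit 654) (nat_lit 540) (nat_lit 366))) (XT.nd (nat_lit 78) (nat_lit 228) (nat_lit 0) (XT.lf (nat_lit 0) (nat_lit 2502967071) (nat_lit 304) (nat_lit 12149920610) (nat_lit 76) (nat_lit 8532051023) (nat_lit 87) (nat_lit 5) (nat_lit 91) (nat_lit 5) (nat_lit 88) (nat_lit 5) (nat_lit 655) (nat_lit 540) (nat_lit 365)) (XT.lf (nat_lit 0) (nat_lit 2132771446) (nat_lit 228) (nat_lit 6599677432) (nat_lit 304) (nat_lit 14749358267) (nat_lit 84) (nat_lit 5) (nat_lit 87) (nat_lit 5)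 (nat_lit 88) (nat_lit 5) (nat_lit 656) (nat_lit 540) (nat_lit 364))))) (XT.nd (nat_lit 72228) (nat_lit 0) (nat_lit 41876) (XT.nd (nat_lit 78) (nat_lit 228) (nat_lit 0) (XT.lf (nat_lit 0) (nat_lit 15169333897) (nat_lit 304) (nat_lit 6945047410) (nat_lit 76) (nat_lit 1668575692) (nat_lit 84) (nat_lit 5) (nat_lit 88) (nat_lit 5) (nat_lit 85) (nat_lit 5) (nat_lit 657) (nat_lit 540) (nat_lit 363)) (XT.nd (nat_lit 72072) (nat_lit 0) (nat_lit 43092) (XT.lf (nat_lit 0) (nat_lit 7788943217) (nat_lit 228) (nat_lit 14030740101) (nat_lit 304) (nat_lit 2268752307) (nat_lit 81) (nat_lit 5) (nat_lit 84) (nat_lit 5) (nat_lit 85) (nat_lit 5) (nat_lit 658) (nat_lit 540) (nat_lit 362)) (XT.lf (nat_lit 0) (nat_lit 1288424644) (nat_lit 0) (nat_lit 1288424644) (nat_lit 1140) (nat_lit 1063876837) (nat_lit 648) (nat_lit 5) (nat_lit 648) (nat_lit 3) (nat_lit 663) (nat_lit 3) (nat_lit 541) (nat_lit 541) (nat_lit 478)))) (XT.nd (nat_lit 156) (nat_lit 0) (nat_lit 0) (XT.nd (nat_lit 78) (nat_lit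 1216) (nat_lit 0) (XT.lf (nat_lit 0) (nat_lit 6231559266) (nat_lit 0) (nat_lit 562646681) (nat_lit 1140) (nat_lit 528092632) (nat_lit 648) (nat_lit 5) (nat_lit 648) (nat_lit 3) (nat_lit 663) (nat_lit 3) (nat_lit 542) (nat_lit 541) (nat_lit 477)) (XT.lf (nat_lit 0) (nat_lit 1073993892) (nat_lit 1216) (nat_lit 4773357311) (nat_lit 1292) (nat_lit 1516774071) (nat_lit 632) (nat_lit 5) (nat_lit 648) (nat_lit 5) (nat_lit 649) (nat_lit 5) (nat_lit 543) (nat_lit 541) (nat_lit 476))) (XT.nd (nat_lit 78) (nat_lit 0) (nat_lit 0) (XT.lf (nat_lit 0) (nat_lit 2671006121) (nat_lit 1216) (nat_lit 1075444908) (nat_lit 1292) (nat_lit 3660873319) (nat_lit 632) (nat_lit 5) (nat_lit 648) (nat_lit 5) (nat_lit 649) (nat_lit 5) (nat_lit 544) (nat_lit 541) (nat_lit 475)) (XT.lf (nat_lit 76) (nat_lit 2710184489) (nat_lit 0) (nat_lit 1567031673) (nat_lit 1292) (nat_lit 3174630755) (nat_lit 633) (nat_lit 5) (nat_lit 632) (nat_lit 5) (nat_lit 649) (nat_lit 5) (nat_lit 545) (nat_lit 541) (nat_lit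 474))))))) (XT.nd (nat_lit 1092) (nat_lit 9804) (nat_lit 0) (XT.nd (nat_lit 546) (nat_lit 1292) (nat_lit 0) (XT.nd (nat_lit 234) (nat_lit 1292) (nat_lit 0) (XT.nd (nat_lit 78) (nat_lit 1292) (nat_lit 0) (XT.lf (nat_lit 0) (nat_lit 5887502887) (nat_lit 1216) (nat_lit 937876003) (nat_lit 1292) (nat_lit 672446572) (nat_lit 633) (nat_lit 5) (nat_lit 649) (nat_lit 5) (nat_lit 650) (nat_lit 5) (nat_lit 546) (nat_lit 541) (nat_lit 473)) (XT.nd (nat_lit 78) (nat_lit 1292) (nat_lit 0) (XT.lf (nat_lit 76) (nat_lit 2948158408) (nat_lit 0) (nat_lit 4572560792) (nat_lit 1292) (nat_lit 24194387) (nat_lit 634) (nat_lit 5) (nat_lit 633) (nat_lit 5) (nat_lit 650) (nat_lit 5) (nat_lit 547) (nat_lit 541) (nat_lit 472)) (XT.lf (nat_lit 0) (nat_lit 1540656235) (nat_lit 1292) (nat_lit 701064952) (nat_lit 1368) (nat_lit 5351661638) (nat_lit 616) (nat_lit 5) (nat_lit 633) (nat_lit 5) (nat_lit 634) (nat_lit 5) (nat_lit 548) (nat_lit 541) (nat_lit 471)))) (XT.nd (nat_lit 156) (nat_lit 1368)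 (nat_lit 0) (XT.nd (nat_lit 78) (nat_lit 0) (nat_lit 0) (XT.lf (nat_lit 0) (nat_lit 3121308725) (nat_lit 1292) (nat_lit 4350744176) (nat_lit 1368) (nat_lit 171072998) (nat_lit 617) (nat_lit 5) (nat_lit 634) (nat_lit 5) (nat_lit 635) (nat_lit 5) (nat_lit 549) (nat_lit 541) (nat_lit 470)) (XT.lf (nat_lit 0) (nat_lit 4716170266) (nat_lit 1292) (nat_lit 356190043) (nat_lit 1368) (nat_lit 2621855747) (nat_lit 617) (nat_lit 5) (nat_lit 634) (nat_lit 5) (nat_lit 635) (nat_lit 5) (nat_lit 550) (nat_lit 541) (nat_lit 469))) (XT.nd (nat_lit 78) (nat_lit 1368) (nat_lit 0) (XT.lf (nat_lit 76) (nat_lit 3745074695) (nat_lit 0) (nat_lit 2585909554) (nat_lit 1368) (nat_lit 1415586728) (nat_lit 618) (nat_lit 5) (nat_lit 617) (nat_lit 5) (nat_lit 635) (nat_lit 5) (nat_lit 551) (nat_lit 541) (nat_lit 468)) (XT.lf (nat_lit 76) (nat_lit 110917631) (nat_lit 0) (nat_lit 32060552) (nat_lit 1444) (nat_lit 7657631732) (nat_lit 600) (nat_lit 5) (nat_lit 599) (nat_lit 5) (nat_lit 618) (nat_lit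 5) (nat_lit 552) (nat_lit 541) (nat_lit 467))))) (XT.nd (nat_lit 234) (nat_lit 1368) (nat_lit 0) (XT.nd (nat_lit 78) (nat_lit 0) (nat_lit 0) (XT.lf (nat_lit 0) (nat_lit 1722220986) (nat_lit 1368) (nat_lit 3544907429) (nat_lit 1444) (nat_lit 2588248678) (nat_lit 600) (nat_lit 5) (nat_lit 618) (nat_lit 5) (nat_lit 619) (nat_lit 5) (nat_lit 553) (nat_lit 541) (nat_lit 466)) (XT.nd (nat_lit 78) (nat_lit 0) (nat_lit 76) (XT.lf (nat_lit 76) (nat_lit 668506152) (nat_lit 0) (nat_lit 2634496040) (nat_lit 1444) (nat_lit 4608842106) (nat_lit 601) (nat_lit 5) (nat_lit 600) (nat_lit 5) (nat_lit 619) (nat_lit 5) (nat_lit 554) (nat_lit 541) (nat_lit 465)) (XT.lf (nat_lit 0) (nat_lit 4905680552) (nat_lit 1368) (nat_lit 2978643328) (nat_lit 1444) (nat_lit 85315014) (nat_lit 601) (nat_lit 5) (nat_lit 619) (nat_lit 5) (nat_lit 620) (nat_lit 5) (nat_lit 555) (nat_lit 541) (nat_lit 464)))) (XT.nd (nat_lit 156) (nat_lit 0) (nat_lit 76) (XT.nd (nat_lit 78) (nat_lit 1444) (nat_lit 0)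 (XT.lf (nat_lit 76) (nat_lit 1348614031) (nat_lit 0) (nat_lit 5184674129) (nat_lit 1444) (nat_lit 1495447317) (nat_lit 602) (nat_lit 5) (nat_lit 601) (nat_lit 5) (nat_lit 620) (nat_lit 5) (nat_lit 556) (nat_lit 541) (nat_lit 463)) (XT.lf (nat_lit 0) (nat_lit 90141944) (nat_lit 1444) (nat_lit 2309894959) (nat_lit 1520) (nat_lit 5689225440) (nat_lit 582) (nat_lit 5) (nat_lit 601) (nat_lit 5) (nat_lit 602) (nat_lit 5) (nat_lit 557) (nat_lit 541) (nat_lit 462))) (XT.nd (nat_lit 78) (nat_lit 0) (nat_lit 0) (XT.lf (nat_lit 0) (nat_lit 1672035922) (nat_lit 1444) (nat_lit 6011120335) (nat_lit 1520) (nat_lit 467956851) (nat_lit 583) (nat_lit 5) (nat_lit 602) (nat_lit 5) (nat_lit 603) (nat_lit 5) (nat_lit 558) (nat_lit 541) (nat_lit 461)) (XT.lf (nat_lit 0) (nat_lit 3285218427) (nat_lit 1444) (nat_lit 1543056799) (nat_lit 1520) (nat_lit 3385935982) (nat_lit 583) (nat_lit 5) (nat_lit 602) (nat_lit 5) (nat_lit 603) (nat_lit 5) (nat_lit 559) (nat_lit 541) (nat_lit 460))))))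 (XT.nd (nat_lit 546) (nat_lit 6992) (nat_lit 0) (XT.nd (nat_lit 234) (nat_lit 2888) (nat_lit 0) (XT.nd (nat_lit 78) (nat_lit 0) (nat_lit 76) (XT.lf (nat_lit 76) (nat_lit 3031222564) (nat_lit 0) (nat_lit 1887900273) (nat_lit 1520) (nat_lit 3359682534) (nat_lit 584) (nat_lit 5) (nat_lit 583) (nat_lit 5) (nat_lit 603) (nat_lit 5) (nat_lit 560) (nat_lit 541) (nat_lit 459)) (XT.nd (nat_lit 78) (nat_lit 0) (nat_lit 0) (XT.lf (nat_lit 0) (nat_lit 6572637856) (nat_lit 1444) (nat_lit 657284190) (nat_lit 1520) (nat_lit 1115033925) (nat_lit 584) (nat_lit 5) (nat_lit 603) (nat_lit 5) (nat_lit 604) (nat_lit 5) (nat_lit 561) (nat_lit 541) (nat_lit 458)) (XT.lf (nat_lit 76) (nat_lit 4042373252) (nat_lit 0) (nat_lit 4225494459) (nat_lit 1520) (nat_lit 144392122) (nat_lit 585) (nat_lit 5) (nat_lit 584) (nat_lit 5) (nat_lit 604) (nat_lit 5) (nat_lit 562) (nat_lit 541) (nat_lit 457)))) (XT.nd (nat_lit 156) (nat_lit 1444) (nat_lit 0) (XT.nd (nat_lit 78) (nat_lit 0) (nat_lit 76) (XT.lf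 (nat_lit 76) (nat_lit 335428720) (nat_lit 0) (nat_lit 1137536425) (nat_lit 1596) (nat_lit 7008215645) (nat_lit 565) (nat_lit 5) (nat_lit 564) (nat_lit 5) (nat_lit 585) (nat_lit 5) (nat_lit 563) (nat_lit 541) (nat_lit 456)) (XT.lf (nat_lit 0) (nat_lit 3133936786) (nat_lit 1520) (nat_lit 3394713106) (nat_lit 76) (nat_lit 2022550130) (nat_lit 565) (nat_lit 5) (nat_lit 585) (nat_lit 5) (nat_lit 566) (nat_lit 5) (nat_lit 564) (nat_lit 541) (nat_lit 455))) (XT.nd (nat_lit 78) (nat_lit 0) (nat_lit 0) (XT.lf (nat_lit 0) (nat_lit 1439466791) (nat_lit 1520) (nat_lit 3376732531) (nat_lit 1596) (nat_lit 3806661790) (nat_lit 545) (nat_lit 5) (nat_lit 565) (nat_lit 5) (nat_lit 566) (nat_lit 5) (nat_lit 565) (nat_lit 541) (nat_lit 454)) (XT.lf (nat_lit 0) (nat_lit 6393273957) (nat_lit 1520) (nat_lit 133220658) (nat_lit 1596) (nat_lit 2169575902) (nat_lit 545) (nat_lit 5) (nat_lit 565) (nat_lit 5) (nat_lit 566) (nat_lit 5) (nat_lit 566) (nat_lit 541) (nat_lit 453))))) (XT.nd (nat_lit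 234) (nat_lit 3648) (nat_lit 0) (XT.nd (nat_lit 78) (nat_lit 1748) (nat_lit 0) (XT.lf (nat_lit 0) (nat_lit 2666556740) (nat_lit 1596) (nat_lit 5614565164) (nat_lit 1672) (nat_lit 489422473) (nat_lit 524) (nat_lit 5) (nat_lit 545) (nat_lit 5) (nat_lit 546) (nat_lit 5) (nat_lit 567) (nat_lit 541) (nat_lit 452)) (XT.nd (nat_lit 78) (nat_lit 1672) (nat_lit 0) (XT.lf (nat_lit 0) (nat_lit 1197123229) (nat_lit 1672) (nat_lit 1112050478) (nat_lit 76) (nat_lit 6537400773) (nat_lit 523) (nat_lit 5) (nat_lit 545) (nat_lit 5) (nat_lit 524) (nat_lit 5) (nat_lit 568) (nat_lit 541) (nat_lit 451)) (XT.lf (nat_lit 0) (nat_lit 2916930082) (nat_lit 1748) (nat_lit 4925147730) (nat_lit 76) (nat_lit 1081863626) (nat_lit 501) (nat_lit 5) (nat_lit 524) (nat_lit 5) (nat_lit 502) (nat_lit 5) (nat_lit 569) (nat_lit 541) (nat_lit 450)))) (XT.nd (nat_lit 156) (nat_lit 1900) (nat_lit 0) (XT.nd (nat_lit 78) (nat_lit 0) (nat_lit 0) (XT.lf (nat_lit 0) (nat_lit 187965124) (nat_lit 1748) (nat_lit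 4480549961) (nat_lit 1824) (nat_lit 4334395587) (nat_lit 478) (nat_lit 5) (nat_lit 501) (nat_lit 5) (nat_lit 502) (nat_lit 5) (nat_lit 570) (nat_lit 541) (nat_lit 449)) (XT.lf (nat_lit 0) (nat_lit 5446875191) (nat_lit 1748) (nat_lit 1015035749) (nat_lit 1824) (nat_lit 2621415293) (nat_lit 478) (nat_lit 5) (nat_lit 501) (nat_lit 5) (nat_lit 502) (nat_lit 5) (nat_lit 571) (nat_lit 541) (nat_lit 448))) (XT.nd (nat_lit 78) (nat_lit 76) (nat_lit 0) (XT.lf (nat_lit 0) (nat_lit 1627287105) (nat_lit 1824) (nat_lit 6665076491) (nat_lit 1900) (nat_lit 872965207) (nat_lit 454) (nat_lit 5) (nat_lit 478) (nat_lit 5) (nat_lit 479) (nat_lit 5) (nat_lit 572) (nat_lit 541) (nat_lit 447)) (XT.lf (nat_lit 0) (nat_lit 904246442) (nat_lit 1900) (nat_lit 2239182166) (nat_lit 76) (nat_lit 6105312305) (nat_lit 453) (nat_lit 5) (nat_lit 478) (nat_lit 5) (nat_lit 454) (nat_lit 5) (nat_lit 573) (nat_lit 541) (nat_lit 446))))))))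
noncomputable def xc126 : XT := (XT.nd (nat_lit 2106) (nat_lit 8816) (nat_lit 0) (XT.nd (nat_lit 1014) (nat_lit 5700) (nat_lit 0) (XT.nd (nat_lit 468) (nat_lit 3344) (nat_lit 0) (XT.nd (nat_lit 234) (nat_lit 1824) (nat_lit 0) (XT.nd (nat_lit 78) (nat_lit 912) (nat_lit 0) (XT.lf (nat_lit 0) (nat_lit 2704010491) (nat_lit 1140) (nat_lit 6158373182) (nat_lit 76) (nat_lit 471350576) (nat_lit 439) (nat_lit 5) (nat_lit 454) (nat_lit 5) (nat_lit 440) (nat_lit 5) (nat_lit 574) (nat_lit 541) (nat_lit 445)) (XT.nd (nat_lit 78) (nat_lit 912) (nat_lit 0) (XT.lf (nat_lit 0) (nat_lit 4551015475) (nat_lit 1140) (nat_lit 735888911) (nat_lit 76) (nat_lit 4133300440) (nat_lit 439) (nat_lit 5) (nat_lit 454) (nat_lit 5) (nat_lit 440) (nat_lit 5) (nat_lit 575) (nat_lit 541) (nat_lit 444)) (XT.lf (nat_lit 0) (nat_lit 4835529639) (nat_lit 912) (nat_lit 1606613290) (nat_lit 988) (nat_lit 3066120480) (nat_lit 427) (nat_lit 5) (nat_lit 439) (nat_lit 5) (nat_lit 440) (nat_lit 5) (nat_lit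 576) (nat_lit 541) (nat_lit 443)))) (XT.nd (nat_lit 78) (nat_lit 912) (nat_lit 0) (XT.lf (nat_lit 0) (nat_lit 904991716) (nat_lit 912) (nat_lit 7467010428) (nat_lit 988) (nat_lit 1226065036) (nat_lit 415) (nat_lit 5) (nat_lit 427) (nat_lit 5) (nat_lit 428) (nat_lit 5) (nat_lit 577) (nat_lit 541) (nat_lit 442)) (XT.nd (nat_lit 78) (nat_lit 836) (nat_lit 0) (XT.lf (nat_lit 0) (nat_lit 660741126) (nat_lit 988) (nat_lit 3069935580) (nat_lit 76) (nat_lit 5958538228) (nat_lit 414) (nat_lit 5) (nat_lit 427) (nat_lit 5) (nat_lit 415) (nat_lit 5) (nat_lit 578) (nat_lit 541) (nat_lit 441)) (XT.lf (nat_lit 0) (nat_lit 2563652686) (nat_lit 912) (nat_lit 7113251656) (nat_lit 76) (nat_lit 105225561) (nat_lit 403) (nat_lit 5) (nat_lit 415) (nat_lit 5) (nat_lit 404) (nat_lit 5) (nat_lit 579) (nat_lit 541) (nat_lit 440))))) (XT.nd (nat_lit 234) (nat_lit 1672) (nat_lit 0) (XT.nd (nat_lit 78) (nat_lit 1672) (nat_lit 0) (XT.lf (nat_lit 0) (nat_lit 4527120780) (nat_lit 912) (nat_lit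 1360537690) (nat_lit 76) (nat_lit 3988796768) (nat_lit 403) (nat_lit 5) (nat_lit 415) (nat_lit 5) (nat_lit 404) (nat_lit 5) (nat_lit 580) (nat_lit 541) (nat_lit 439)) (XT.nd (nat_lit 78) (nat_lit 836) (nat_lit 0) (XT.lf (nat_lit 0) (nat_lit 4543996697) (nat_lit 836) (nat_lit 1992868610) (nat_lit 912) (nat_lit 3435663622) (nat_lit 392) (nat_lit 5) (nat_lit 403) (nat_lit 5) (nat_lit 404) (nat_lit 5) (nat_lit 581) (nat_lit 541) (nat_lit 438)) (XT.lf (nat_lit 0) (nat_lit 485047572) (nat_lit 836) (nat_lit 8104746250) (nat_lit 912) (nat_lit 1480672441) (nat_lit 381) (nat_lit 5) (nat_lit 392) (nat_lit 5) (nat_lit 393) (nat_lit 5) (nat_lit 582) (nat_lit 541) (nat_lit 437)))) (XT.nd (nat_lit 156) (nat_lit 760) (nat_lit 0) (XT.nd (nat_lit 78) (nat_lit 836) (nat_lit 0) (XT.lf (nat_lit 0) (nat_lit 534486730) (nat_lit 912) (nat_lit 3619187016) (nat_lit 76) (nat_lit 6016067772) (nat_lit 380) (nat_lit 5) (nat_lit 392) (nat_lit 5) (nat_lit 381) (nat_lit 5) (nat_lit 583) (nat_lit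 541) (nat_lit 436)) (XT.lf (nat_lit 0) (nat_lit 2466098123) (nat_lit 836) (nat_lit 98421880) (nat_lit 912) (nat_lit 7706400428) (nat_lit 369) (nat_lit 5) (nat_lit 380) (nat_lit 5) (nat_lit 381) (nat_lit 5) (nat_lit 584) (nat_lit 541) (nat_lit 435))) (XT.nd (nat_lit 78) (nat_lit 760) (nat_lit 0) (XT.lf (nat_lit 0) (nat_lit 4664454027) (nat_lit 912) (nat_lit 1700946100) (nat_lit 76) (nat_lit 4008138595) (nat_lit 369) (nat_lit 5) (nat_lit 381) (nat_lit 5) (nat_lit 370) (nat_lit 5) (nat_lit 585) (nat_lit 541) (nat_lit 434)) (XT.lf (nat_lit 0) (nat_lit 4561554856) (nat_lit 760) (nat_lit 2254154870) (nat_lit 836) (nat_lit 3662314963) (nat_lit 359) (nat_lit 5) (nat_lit 369) (nat_lit 5) (nat_lit 370) (nat_lit 5) (nat_lit 586) (nat_lit 541) (nat_lit 433)))))) (XT.nd (nat_lit 546) (nat_lit 2660) (nat_lit 0) (XT.nd (nat_lit 234) (nat_lit 1520) (nat_lit 0) (XT.nd (nat_lit 78) (nat_lit 760) (nat_lit 0) (XT.lf (nat_lit 0) (nat_lit 357125965) (nat_lit 760) (nat_lit 8658572070)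 (nat_lit 836) (nat_lit 1568789924) (nat_lit 349) (nat_lit 5) (nat_lit 359) (nat_lit 5) (nat_lit 360) (nat_lit 5) (nat_lit 587) (nat_lit 541) (nat_lit 432)) (XT.nd (nat_lit 78) (nat_lit 684) (nat_lit 0) (XT.lf (nat_lit 0) (nat_lit 593497003) (nat_lit 836) (nat_lit 3897769264) (nat_lit 76) (nat_lit 6201055867) (nat_lit 348) (nat_lit 5) (nat_lit 359) (nat_lit 5) (nat_lit 349) (nat_lit 5) (nat_lit 588) (nat_lit 541) (nat_lit 431)) (XT.lf (nat_lit 0) (nat_lit 2559033342) (nat_lit 684) (nat_lit 215456951) (nat_lit 760) (nat_lit 8027687604) (nat_lit 339) (nat_lit 5) (nat_lit 348) (nat_lit 5) (nat_lit 349) (nat_lit 5) (nat_lit 589) (nat_lit 541) (nat_lit 430)))) (XT.nd (nat_lit 156) (nat_lit 760) (nat_lit 0) (XT.nd (nat_lit 78) (nat_lit 760) (nat_lit 0) (XT.lf (nat_lit 0) (nat_lit 5032416439) (nat_lit 760) (nat_lit 1765781551) (nat_lit 76) (nat_lit 4115368129) (nat_lit 339) (nat_lit 5) (nat_lit 349) (nat_lit 5) (nat_lit 340) (nat_lit 5) (nat_lit 590) (nat_lit 541) (nat_lit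 429)) (XT.lf (nat_lit 0) (nat_lit 4881378635) (nat_lit 760) (nat_lit 2467699307) (nat_lit 836) (nat_lit 3677834196) (nat_lit 329) (nat_lit 5) (nat_lit 339) (nat_lit 5) (nat_lit 340) (nat_lit 5) (nat_lit 591) (nat_lit 541) (nat_lit 428))) (XT.nd (nat_lit 78) (nat_lit 76) (nat_lit 0) (XT.lf (nat_lit 0) (nat_lit 514577799) (nat_lit 684) (nat_lit 9206097640) (nat_lit 760) (nat_lit 1421679123) (nat_lit 320) (nat_lit 5) (nat_lit 329) (nat_lit 5) (nat_lit 330) (nat_lit 5) (nat_lit 592) (nat_lit 541) (nat_lit 427)) (XT.lf (nat_lit 0) (nat_lit 906700758) (nat_lit 760) (nat_lit 3913085449) (nat_lit 76) (nat_lit 6439434131) (nat_lit 319) (nat_lit 5) (nat_lit 329) (nat_lit 5) (nat_lit 320) (nat_lit 5) (nat_lit 593) (nat_lit 541) (nat_lit 426))))) (XT.nd (nat_lit 234) (nat_lit 1368) (nat_lit 0) (XT.nd (nat_lit 78) (nat_lit 608) (nat_lit 0) (XT.lf (nat_lit 0) (nat_lit 2942851575) (nat_lit 684) (nat_lit 320044485) (nat_lit 760) (nat_lit 8115335194) (nat_lit 310) (nat_lit 5) (nat_lit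 319) (nat_lit 5) (nat_lit 320) (nat_lit 5) (nat_lit 594) (nat_lit 541) (nat_lit 425)) (XT.nd (nat_lit 78) (nat_lit 608) (nat_lit 0) (XT.lf (nat_lit 0) (nat_lit 5701732600) (nat_lit 760) (nat_lit 1560476542) (nat_lit 76) (nat_lit 4236704321) (nat_lit 310) (nat_lit 5) (nat_lit 320) (nat_lit 5) (nat_lit 311) (nat_lit 5) (nat_lit 595) (nat_lit 541) (nat_lit 424)) (XT.lf (nat_lit 0) (nat_lit 5499943790) (nat_lit 608) (nat_lit 2708959192) (nat_lit 684) (nat_lit 3412716586) (nat_lit 302) (nat_lit 5) (nat_lit 310) (nat_lit 5) (nat_lit 311) (nat_lit 5) (nat_lit 596) (nat_lit 541) (nat_lit 423)))) (XT.nd (nat_lit 156) (nat_lit 608) (nat_lit 0) (XT.nd (nat_lit 78) (nat_lit 76) (nat_lit 0) (XT.lf (nat_lit 0) (nat_lit 953842429) (nat_lit 684) (nat_lit 9823594004) (nat_lit 760) (nat_lit 969120336) (nat_lit 293) (nat_lit 5) (nat_lit 302) (nat_lit 5) (nat_lit 303) (nat_lit 5) (nat_lit 597) (nat_lit 541) (nat_lit 422)) (XT.lf (nat_lit 0) (nat_lit 1544672548) (nat_lit 760) (nat_lit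 3669703614) (nat_lit 76) (nat_lit 6658593981) (nat_lit 292) (nat_lit 5) (nat_lit 302) (nat_lit 5) (nat_lit 293) (nat_lit 5) (nat_lit 598) (nat_lit 541) (nat_lit 421))) (XT.nd (nat_lit 78) (nat_lit 0) (nat_lit 0) (XT.lf (nat_lit 0) (nat_lit 3614914807) (nat_lit 608) (nat_lit 486697072) (nat_lit 684) (nat_lit 7900056133) (nat_lit 284) (nat_lit 5) (nat_lit 292) (nat_lit 5) (nat_lit 293) (nat_lit 5) (nat_lit 599) (nat_lit 541) (nat_lit 420)) (XT.lf (nat_lit 0) (nat_lit 6745169621) (nat_lit 684) (nat_lit 1087813382) (nat_lit 76) (nat_lit 4299248506) (nat_lit 284) (nat_lit 5) (nat_lit 293) (nat_lit 5) (nat_lit 285) (nat_lit 5) (nat_lit 600) (nat_lit 541) (nat_lit 419))))))) (XT.nd (nat_lit 1014) (nat_lit 4180) (nat_lit 0) (XT.nd (nat_lit 468) (nat_lit 2204) (nat_lit 0) (XT.nd (nat_lit 234) (nat_lit 1140) (nat_lit 0) (XT.nd (nat_lit 78) (nat_lit 684) (nat_lit 0) (XT.lf (nat_lit 0) (nat_lit 6416443522) (nat_lit 608) (nat_lit 3052922004) (nat_lit 684) (nat_lit 2795486648)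 (nat_lit 276) (nat_lit 5) (nat_lit 284) (nat_lit 5) (nat_lit 285) (nat_lit 5) (nat_lit 601) (nat_lit 541) (nat_lit 418)) (XT.nd (nat_lit 78) (nat_lit 76) (nat_lit 0) (XT.lf (nat_lit 0) (nat_lit 1673862618) (nat_lit 608) (nat_lit 10587284116) (nat_lit 684) (nat_lit 138717703) (nat_lit 268) (nat_lit 5) (nat_lit 276) (nat_lit 5) (nat_lit 277) (nat_lit 5) (nat_lit 602) (nat_lit 541) (nat_lit 417)) (XT.lf (nat_lit 0) (nat_lit 2580319693) (nat_lit 684) (nat_lit 3169949488) (nat_lit 76) (nat_lit 6786117963) (nat_lit 267) (nat_lit 5) (nat_lit 276) (nat_lit 5) (nat_lit 268) (nat_lit 5) (nat_lit 603) (nat_lit 541) (nat_lit 416)))) (XT.nd (nat_lit 78) (nat_lit 532) (nat_lit 0) (XT.lf (nat_lit 0) (nat_lit 4574892324) (nat_lit 608) (nat_lit 790154637) (nat_lit 684) (nat_lit 7310312817) (nat_lit 259) (nat_lit 5) (nat_lit 267) (nat_lit 5) (nat_lit 268) (nat_lit 5) (nat_lit 604) (nat_lit 541) (nat_lit 415)) (XT.nd (nat_lit 78) (nat_lit 532) (nat_lit 0) (XT.lf (nat_lit 0) (nat_lit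 8238215718) (nat_lit 684) (nat_lit 348513842) (nat_lit 76) (nat_lit 4229728489) (nat_lit 259) (nat_lit 5) (nat_lit 268) (nat_lit 5) (nat_lit 260) (nat_lit 5) (nat_lit 605) (nat_lit 541) (nat_lit 414)) (XT.lf (nat_lit 0) (nat_lit 7632197812) (nat_lit 532) (nat_lit 3575373202) (nat_lit 608) (nat_lit 1752033906) (nat_lit 252) (nat_lit 5) (nat_lit 259) (nat_lit 5) (nat_lit 260) (nat_lit 5) (nat_lit 606) (nat_lit 541) (nat_lit 413))))) (XT.nd (nat_lit 234) (nat_lit 1064) (nat_lit 0) (XT.nd (nat_lit 78) (nat_lit 532) (nat_lit 0) (XT.lf (nat_lit 0) (nat_lit 1129741286) (nat_lit 608) (nat_lit 10437285079) (nat_lit 76) (nat_lit 1538165156) (nat_lit 244) (nat_lit 5) (nat_lit 252) (nat_lit 5) (nat_lit 245) (nat_lit 5) (nat_lit 607) (nat_lit 541) (nat_lit 412)) (XT.nd (nat_lit 78) (nat_lit 532) (nat_lit 0) (XT.lf (nat_lit 0) (nat_lit 4089530457) (nat_lit 608) (nat_lit 2414515610) (nat_lit 76) (nat_lit 6748536443) (nat_lit 244) (nat_lit 5) (nat_lit 252) (nat_lit 5) (nat_lit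 245) (nat_lit 5) (nat_lit 608) (nat_lit 541) (nat_lit 411)) (XT.lf (nat_lit 0) (nat_lit 5824149086) (nat_lit 532) (nat_lit 1306643163) (nat_lit 608) (nat_lit 6271684546) (nat_lit 237) (nat_lit 5) (nat_lit 244) (nat_lit 5) (nat_lit 245) (nat_lit 5) (nat_lit 609) (nat_lit 541) (nat_lit 410)))) (XT.nd (nat_lit 156) (nat_lit 532) (nat_lit 0) (XT.nd (nat_lit 78) (nat_lit 0) (nat_lit 0) (XT.lf (nat_lit 0) (nat_lit 666894230) (nat_lit 532) (nat_lit 9597158077) (nat_lit 608) (nat_lit 3290694195) (nat_lit 230) (nat_lit 5) (nat_lit 237) (nat_lit 5) (nat_lit 238) (nat_lit 5) (nat_lit 610) (nat_lit 541) (nat_lit 409)) (XT.lf (nat_lit 0) (nat_lit 9150037092) (nat_lit 532) (nat_lit 4354154280) (nat_lit 608) (nat_lit 204986931) (nat_lit 230) (nat_lit 5) (nat_lit 237) (nat_lit 5) (nat_lit 238) (nat_lit 5) (nat_lit 611) (nat_lit 541) (nat_lit 408))) (XT.nd (nat_lit 78) (nat_lit 0) (nat_lit 0) (XT.lf (nat_lit 0) (nat_lit 2921150454) (nat_lit 532) (nat_lit 9924728755) (nat_lit 76)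 (nat_lit 1020092254) (nat_lit 223) (nat_lit 5) (nat_lit 230) (nat_lit 5) (nat_lit 224) (nat_lit 5) (nat_lit 612) (nat_lit 541) (nat_lit 407)) (XT.lf (nat_lit 0) (nat_lit 6151786502) (nat_lit 532) (nat_lit 1403106128) (nat_lit 76) (nat_lit 6470087263) (nat_lit 223) (nat_lit 5) (nat_lit 230) (nat_lit 5) (nat_lit 224) (nat_lit 5) (nat_lit 613) (nat_lit 541) (nat_lit 406)))))) (XT.nd (nat_lit 546) (nat_lit 1672) (nat_lit 0) (XT.nd (nat_lit 234) (nat_lit 1444) (nat_lit 0) (XT.nd (nat_lit 78) (nat_lit 532) (nat_lit 0) (XT.lf (nat_lit 0) (nat_lit 7365095864) (nat_lit 532) (nat_lit 2115136745) (nat_lit 608) (nat_lit 4706272838) (nat_lit 216) (nat_lit 5) (nat_lit 223) (nat_lit 5) (nat_lit 224) (nat_lit 5) (nat_lit 614) (nat_lit 541) (nat_lit 405)) (XT.nd (nat_lit 78) (nat_lit 76) (nat_lit 0) (XT.lf (nat_lit 0) (nat_lit 1959386129) (nat_lit 456) (nat_lit 10945848192) (nat_lit 532) (nat_lit 1445428342) (nat_lit 210) (nat_lit 5) (nat_lit 216) (nat_lit 5) (nat_lit 217) (nat_lit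 5) (nat_lit 615) (nat_lit 541) (nat_lit 404)) (XT.lf (nat_lit 0) (nat_lit 1901605090) (nat_lit 532) (nat_lit 3556067708) (nat_lit 76) (nat_lit 9059274130) (nat_lit 209) (nat_lit 5) (nat_lit 216) (nat_lit 5) (nat_lit 210) (nat_lit 5) (nat_lit 616) (nat_lit 541) (nat_lit 403)))) (XT.nd (nat_lit 156) (nat_lit 988) (nat_lit 0) (XT.nd (nat_lit 78) (nat_lit 0) (nat_lit 0) (XT.lf (nat_lit 0) (nat_lit 5318946205) (nat_lit 532) (nat_lit 9188943085) (nat_lit 76) (nat_lit 178022910) (nat_lit 203) (nat_lit 5) (nat_lit 210) (nat_lit 5) (nat_lit 204) (nat_lit 5) (nat_lit 617) (nat_lit 541) (nat_lit 402)) (XT.lf (nat_lit 0) (nat_lit 8850741027) (nat_lit 532) (nat_lit 135138327) (nat_lit 76) (nat_lit 5871456104) (nat_lit 203) (nat_lit 5) (nat_lit 210) (nat_lit 5) (nat_lit 204) (nat_lit 5) (nat_lit 618) (nat_lit 541) (nat_lit 401))) (XT.nd (nat_lit 78) (nat_lit 532) (nat_lit 0) (XT.lf (nat_lit 0) (nat_lit 9200479688) (nat_lit 456) (nat_lit 3298645552) (nat_lit 532) (nat_lit 2532143671)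 (nat_lit 197) (nat_lit 5) (nat_lit 203) (nat_lit 5) (nat_lit 204) (nat_lit 5) (nat_lit 619) (nat_lit 541) (nat_lit 400)) (XT.lf (nat_lit 0) (nat_lit 1025072079) (nat_lit 532) (nat_lit 11688960059) (nat_lit 76) (nat_lit 2493987363) (nat_lit 190) (nat_lit 5) (nat_lit 197) (nat_lit 5) (nat_lit 191) (nat_lit 5) (nat_lit 620) (nat_lit 541) (nat_lit 399))))) (XT.nd (nat_lit 234) (nat_lit 836) (nat_lit 0) (XT.nd (nat_lit 78) (nat_lit 836) (nat_lit 0) (XT.lf (nat_lit 0) (nat_lit 4667158763) (nat_lit 532) (nat_lit 2311534625) (nat_lit 76) (nat_lit 8408325081) (nat_lit 190) (nat_lit 5) (nat_lit 197) (nat_lit 5) (nat_lit 191) (nat_lit 5) (nat_lit 621) (nat_lit 541) (nat_lit 398)) (XT.nd (nat_lit 78) (nat_lit 456) (nat_lit 0) (XT.lf (nat_lit 0) (nat_lit 7329884405) (nat_lit 380) (nat_lit 1086428741) (nat_lit 456) (nat_lit 7152600489) (nat_lit 185) (nat_lit 5) (nat_lit 190) (nat_lit 5) (nat_lit 191) (nat_lit 5) (nat_lit 622) (nat_lit 541) (nat_lit 397)) (XT.lf (nat_lit 0) (nat_lit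 1407941311) (nat_lit 456) (nat_lit 10875962208) (nat_lit 532) (nat_lit 3469674852) (nat_lit 179) (nat_lit 5) (nat_lit 185) (nat_lit 5) (nat_lit 186) (nat_lit 5) (nat_lit 623) (nat_lit 541) (nat_lit 396)))) (XT.nd (nat_lit 156) (nat_lit 380) (nat_lit 0) (XT.nd (nat_lit 78) (nat_lit 380) (nat_lit 0) (XT.lf (nat_lit 0) (nat_lit 332770063) (nat_lit 532) (nat_lit 4610549688) (nat_lit 76) (nat_lit 10997587621) (nat_lit 178) (nat_lit 5) (nat_lit 185) (nat_lit 5) (nat_lit 179) (nat_lit 5) (nat_lit 624) (nat_lit 541) (nat_lit 395)) (XT.lf (nat_lit 0) (nat_lit 4194131751) (nat_lit 456) (nat_lit 10791675089) (nat_lit 76) (nat_lit 1145131568) (nat_lit 173) (nat_lit 5) (nat_lit 179) (nat_lit 5) (nat_lit 174) (nat_lit 5) (nat_lit 625) (nat_lit 541) (nat_lit 394))) (XT.nd (nat_lit 78) (nat_lit 380) (nat_lit 0) (XT.lf (nat_lit 0) (nat_lit 8183722516) (nat_lit 456) (nat_lit 826050959) (nat_lit 76) (nat_lit 7313977224) (nat_lit 173) (nat_lit 5) (nat_lit 179) (nat_lit 5) (nat_lit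 174) (nat_lit 5) (nat_lit 626) (nat_lit 541) (nat_lit 393)) (XT.lf (nat_lit 0) (nat_lit 9443595631) (nat_lit 380) (nat_lit 2858196607) (nat_lit 456) (nat_lit 4217653910) (nat_lit 168) (nat_lit 5) (nat_lit 173) (nat_lit 5) (nat_lit 174) (nat_lit 5) (nat_lit 627) (nat_lit 541) (nat_lit 392))))))))
noncomputable def xc127 : XT := (XT.nd (nat_lit 2106) (nat_lit 532) (nat_lit 0) (XT.nd (nat_lit 1014) (nat_lit 2812) (nat_lit 0) (XT.nd (nat_lit 468) (nat_lit 1368) (nat_lit 0) (XT.nd (nat_lit 234) (nat_lit 836) (nat_lit 0) (XT.nd (nat_lit 78) (nat_lit 456) (nat_lit 0) (XT.lf (nat_lit 0) (nat_lit 3211562825) (nat_lit 380) (nat_lit 13326728543) (nat_lit 456) (nat_lit 180043424) (nat_lit 163) (nat_lit 5) (nat_lit 168) (nat_lit 5) (nat_lit 169) (nat_lit 5) (nat_lit 628) (nat_lit 541) (nat_lit 391)) (XT.nd (nat_lit 78) (nat_lit 380) (nat_lit 0) (XT.lf (nat_lit 0) (nat_lit 3940887027) (nat_lit 456) (nat_lit 3183692442) (nat_lit 76) (nat_lit 9795026563) (nat_lit 162) (nat_lit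 5) (nat_lit 168) (nat_lit 5) (nat_lit 163) (nat_lit 5) (nat_lit 629) (nat_lit 541) (nat_lit 390)) (XT.lf (nat_lit 0) (nat_lit 7423122458) (nat_lit 380) (nat_lit 754640087) (nat_lit 456) (nat_lit 8946398214) (nat_lit 157) (nat_lit 5) (nat_lit 162) (nat_lit 5) (nat_lit 163) (nat_lit 5) (nat_lit 630) (nat_lit 541) (nat_lit 389)))) (XT.nd (nat_lit 78) (nat_lit 456) (nat_lit 0) (XT.lf (nat_lit 0) (nat_lit 908371082) (nat_lit 380) (nat_lit 11643508102) (nat_lit 456) (nat_lit 4779877918) (nat_lit 152) (nat_lit 5) (nat_lit 157) (nat_lit 5) (nat_lit 158) (nat_lit 5) (nat_lit 631) (nat_lit 541) (nat_lit 388)) (XT.nd (nat_lit 78) (nat_lit 456) (nat_lit 0) (XT.lf (nat_lit 0) (nat_lit 11837563896) (nat_lit 380) (nat_lit 5233909393) (nat_lit 456) (nat_lit 470872765) (nat_lit 152) (nat_lit 5) (nat_lit 157) (nat_lit 5) (nat_lit 158) (nat_lit 5) (nat_lit 632) (nat_lit 541) (nat_lit 387)) (XT.lf (nat_lit 0) (nat_lit 3903855922) (nat_lit 456) (nat_lit 12512032486) (nat_lit 76) (nat_lit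 1340129122) (nat_lit 146) (nat_lit 5) (nat_lit 152) (nat_lit 5) (nat_lit 147) (nat_lit 5) (nat_lit 633) (nat_lit 541) (nat_lit 386))))) (XT.nd (nat_lit 234) (nat_lit 684) (nat_lit 0) (XT.nd (nat_lit 78) (nat_lit 684) (nat_lit 0) (XT.lf (nat_lit 0) (nat_lit 8421136215) (nat_lit 456) (nat_lit 1540873560) (nat_lit 76) (nat_lit 8010663720) (nat_lit 146) (nat_lit 5) (nat_lit 152) (nat_lit 5) (nat_lit 147) (nat_lit 5) (nat_lit 634) (nat_lit 541) (nat_lit 385)) (XT.nd (nat_lit 78) (nat_lit 380) (nat_lit 0) (XT.lf (nat_lit 0) (nat_lit 9759370478) (nat_lit 304) (nat_lit 3321146978) (nat_lit 380) (nat_lit 5112110557) (nat_lit 142) (nat_lit 5) (nat_lit 146) (nat_lit 5) (nat_lit 147) (nat_lit 5) (nat_lit 635) (nat_lit 541) (nat_lit 384)) (XT.lf (nat_lit 0) (nat_lit 2886706308) (nat_lit 380) (nat_lit 14986403931) (nat_lit 456) (nat_lit 543071432) (nat_lit 137) (nat_lit 5) (nat_lit 142) (nat_lit 5) (nat_lit 143) (nat_lit 5) (nat_lit 636) (nat_lit 541) (nat_lit 383)))) (XT.nd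 (nat_lit 156) (nat_lit 304) (nat_lit 0) (XT.nd (nat_lit 78) (nat_lit 304) (nat_lit 0) (XT.lf (nat_lit 0) (nat_lit 4130797669) (nat_lit 456) (nat_lit 4163224517) (nat_lit 76) (nat_lit 10348301094) (nat_lit 136) (nat_lit 5) (nat_lit 142) (nat_lit 5) (nat_lit 137) (nat_lit 5) (nat_lit 637) (nat_lit 541) (nat_lit 382)) (XT.lf (nat_lit 0) (nat_lit 7507141063) (nat_lit 304) (nat_lit 1421193452) (nat_lit 380) (nat_lit 9943832667) (nat_lit 132) (nat_lit 5) (nat_lit 136) (nat_lit 5) (nat_lit 137) (nat_lit 5) (nat_lit 638) (nat_lit 541) (nat_lit 381))) (XT.nd (nat_lit 78) (nat_lit 0) (nat_lit 0) (XT.lf (nat_lit 0) (nat_lit 310768470) (nat_lit 304) (nat_lit 13566256607) (nat_lit 380) (nat_lit 5228479314) (nat_lit 128) (nat_lit 5) (nat_lit 132) (nat_lit 5) (nat_lit 133) (nat_lit 5) (nat_lit 639) (nat_lit 541) (nat_lit 380)) (XT.lf (nat_lit 0) (nat_lit 12346584657) (nat_lit 304) (nat_lit 6652597933) (nat_lit 380) (nat_lit 342836370) (nat_lit 128) (nat_lit 5) (nat_lit 132) (nat_lit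 5) (nat_lit 133) (nat_lit 5) (nat_lit 640) (nat_lit 541) (nat_lit 379)))))) (XT.nd (nat_lit 546) (nat_lit 1444) (nat_lit 0) (XT.nd (nat_lit 234) (nat_lit 684) (nat_lit 0) (XT.nd (nat_lit 78) (nat_lit 304) (nat_lit 0) (XT.lf (nat_lit 0) (nat_lit 4604488455) (nat_lit 380) (nat_lit 14526932238) (nat_lit 76) (nat_lit 450744396) (nat_lit 123) (nat_lit 5) (nat_lit 128) (nat_lit 5) (nat_lit 124) (nat_lit 5) (nat_lit 641) (nat_lit 541) (nat_lit 378)) (XT.nd (nat_lit 78) (nat_lit 304) (nat_lit 0) (XT.lf (nat_lit 0) (nat_lit 9726563784) (nat_lit 380) (nat_lit 2448938225) (nat_lit 76) (nat_lit 7649959366) (nat_lit 123) (nat_lit 5) (nat_lit 128) (nat_lit 5) (nat_lit 124) (nat_lit 5) (nat_lit 642) (nat_lit 541) (nat_lit 377)) (XT.lf (nat_lit 0) (nat_lit 9984045486) (nat_lit 304) (nat_lit 5021151737) (nat_lit 380) (nat_lit 5067344477) (nat_lit 119) (nat_lit 5) (nat_lit 123) (nat_lit 5) (nat_lit 124) (nat_lit 5) (nat_lit 643) (nat_lit 541) (nat_lit 376)))) (XT.nd (nat_lit 156)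 (nat_lit 304) (nat_lit 0) (XT.nd (nat_lit 78) (nat_lit 0) (nat_lit 0) (XT.lf (nat_lit 0) (nat_lit 100305104) (nat_lit 380) (nat_lit 17951180008) (nat_lit 76) (nat_lit 2272344207) (nat_lit 114) (nat_lit 5) (nat_lit 119) (nat_lit 5) (nat_lit 115) (nat_lit 5) (nat_lit 644) (nat_lit 541) (nat_lit 375)) (XT.lf (nat_lit 0) (nat_lit 5394291190) (nat_lit 380) (nat_lit 5443870474) (nat_lit 76) (nat_lit 9739494835) (nat_lit 114) (nat_lit 5) (nat_lit 119) (nat_lit 5) (nat_lit 115) (nat_lit 5) (nat_lit 645) (nat_lit 541) (nat_lit 374))) (XT.nd (nat_lit 78) (nat_lit 0) (nat_lit 0) (XT.lf (nat_lit 0) (nat_lit 7393302523) (nat_lit 304) (nat_lit 3438436808) (nat_lit 380) (nat_lit 10004069654) (nat_lit 110) (nat_lit 5) (nat_lit 114) (nat_lit 5) (nat_lit 115) (nat_lit 5) (nat_lit 646) (nat_lit 541) (nat_lit 373)) (XT.lf (nat_lit 0) (nat_lit 16431018770) (nat_lit 380) (nat_lit 581600426) (nat_lit 76) (nat_lit 4085444078) (nat_lit 110) (nat_lit 5) (nat_lit 115) (nat_lit 5) (nat_lit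 111) (nat_lit 5) (nat_lit 647) (nat_lit 541) (nat_lit 372))))) (XT.nd (nat_lit 234) (nat_lit 836) (nat_lit 0) (XT.nd (nat_lit 78) (nat_lit 304) (nat_lit 0) (XT.lf (nat_lit 0) (nat_lit 861981063) (nat_lit 304) (nat_lit 8706466473) (nat_lit 76) (nat_lit 11795105702) (nat_lit 106) (nat_lit 5) (nat_lit 110) (nat_lit 5) (nat_lit 107) (nat_lit 5) (nat_lit 648) (nat_lit 541) (nat_lit 371)) (XT.nd (nat_lit 78) (nat_lit 0) (nat_lit 0) (XT.lf (nat_lit 0) (nat_lit 4545861892) (nat_lit 304) (nat_lit 1916590590) (nat_lit 380) (nat_lit 15170816773) (nat_lit 102) (nat_lit 5) (nat_lit 106) (nat_lit 5) (nat_lit 107) (nat_lit 5) (nat_lit 649) (nat_lit 541) (nat_lit 370)) (XT.lf (nat_lit 0) (nat_lit 12261876354) (nat_lit 380) (nat_lit 3781600017) (nat_lit 76) (nat_lit 5863164732) (nat_lit 102) (nat_lit 5) (nat_lit 107) (nat_lit 5) (nat_lit 103) (nat_lit 5) (nat_lit 650) (nat_lit 541) (nat_lit 369)))) (XT.nd (nat_lit 156) (nat_lit 228) (nat_lit 0) (XT.nd (nat_lit 78) (nat_lit 380)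 (nat_lit 0) (XT.lf (nat_lit 0) (nat_lit 9890655907) (nat_lit 228) (nat_lit 8353640537) (nat_lit 304) (nat_lit 3939844149) (nat_lit 99) (nat_lit 5) (nat_lit 102) (nat_lit 5) (nat_lit 103) (nat_lit 5) (nat_lit 651) (nat_lit 541) (nat_lit 368)) (XT.lf (nat_lit 0) (nat_lit 1410348573) (nat_lit 304) (nat_lit 469001594) (nat_lit 380) (nat_lit 20587099819) (nat_lit 94) (nat_lit 5) (nat_lit 98) (nat_lit 5) (nat_lit 99) (nat_lit 5) (nat_lit 652) (nat_lit 541) (nat_lit 367))) (XT.nd (nat_lit 78) (nat_lit 228) (nat_lit 0) (XT.lf (nat_lit 0) (nat_lit 7884597572) (nat_lit 380) (nat_lit 7290421364) (nat_lit 76) (nat_lit 7576417652) (nat_lit 94) (nat_lit 5) (nat_lit 99) (nat_lit 5) (nat_lit 95) (nat_lit 5) (nat_lit 653) (nat_lit 541) (nat_lit 366)) (XT.lf (nat_lit 0) (nat_lit 6820490295) (nat_lit 228) (nat_lit 7227202897) (nat_lit 304) (nat_lit 8993675197) (nat_lit 91) (nat_lit 5) (nat_lit 94) (nat_lit 5) (nat_lit 95) (nat_lit 5) (nat_lit 654) (nat_lit 541) (nat_lit 365)))))))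 (XT.nd (nat_lit 73164) (nat_lit 0) (nat_lit 36480) (XT.nd (nat_lit 72618) (nat_lit 0) (nat_lit 40356) (XT.nd (nat_lit 234) (nat_lit 0) (nat_lit 0) (XT.nd (nat_lit 78) (nat_lit 532) (nat_lit 0) (XT.lf (nat_lit 0) (nat_lit 20379401483) (nat_lit 304) (nat_lit 2046178956) (nat_lit 76) (nat_lit 910611702) (nat_lit 91) (nat_lit 5) (nat_lit 95) (nat_lit 5) (nat_lit 92) (nat_lit 5) (nat_lit 655) (nat_lit 541) (nat_lit 364)) (XT.nd (nat_lit 78) (nat_lit 228) (nat_lit 0) (XT.lf (nat_lit 0) (nat_lit 3279325336) (nat_lit 304) (nat_lit 11143987884) (nat_lit 76) (nat_lit 9210774361) (nat_lit 87) (nat_lit 5) (nat_lit 91) (nat_lit 5) (nat_lit 88) (nat_lit 5) (nat_lit 656) (nat_lit 541) (nat_lit 363)) (XT.lf (nat_lit 0) (nat_lit 3416141361) (nat_lit 228) (nat_lit 6211069804) (nat_lit 304) (nat_lit 14309806406) (nat_lit 84) (nat_lit 5) (nat_lit 87) (nat_lit 5) (nat_lit 88) (nat_lit 5) (nat_lit 657) (nat_lit 541) (nat_lit 362)))) (XT.nd (nat_lit 72228) (nat_lit 0) (nat_lit 41572)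 (XT.nd (nat_lit 72150) (nat_lit 0) (nat_lit 41572) (XT.lf (nat_lit 0) (nat_lit 16182027828) (nat_lit 304) (nat_lit 5856732559) (nat_lit 76) (nat_lit 2205646617) (nat_lit 84) (nat_lit 5) (nat_lit 88) (nat_lit 5) (nat_lit 85) (nat_lit 5) (nat_lit 658) (nat_lit 541) (nat_lit 361)) (XT.lf (nat_lit 0) (nat_lit 518371116) (nat_lit 1292) (nat_lit 1581670344) (nat_lit 1292) (nat_lit 1581670344) (nat_lit 631) (nat_lit 3) (nat_lit 648) (nat_lit 3) (nat_lit 648) (nat_lit 5) (nat_lit 542) (nat_lit 542) (nat_lit 476))) (XT.nd (nat_lit 78) (nat_lit 0) (nat_lit 76) (XT.lf (nat_lit 76) (nat_lit 486801464) (nat_lit 0) (nat_lit 2101030996) (nat_lit 1292) (nat_lit 4818233035) (nat_lit 632) (nat_lit 5) (nat_lit 631) (nat_lit 3) (nat_lit 648) (nat_lit 5) (nat_lit 543) (nat_lit 542) (nat_lit 475)) (XT.lf (nat_lit 0) (nat_lit 4151233724) (nat_lit 1216) (nat_lit 3218495396) (nat_lit 1292) (nat_lit 80209976) (nat_lit 632) (nat_lit 5) (nat_lit 648) (nat_lit 5) (nat_lit 649) (nat_lit 5)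 (nat_lit 544) (nat_lit 542) (nat_lit 474))))) (XT.nd (nat_lit 234) (nat_lit 0) (nat_lit 76) (XT.nd (nat_lit 78) (nat_lit 1292) (nat_lit 0) (XT.lf (nat_lit 76) (nat_lit 527939887) (nat_lit 0) (nat_lit 5195757184) (nat_lit 1292) (nat_lit 1771441794) (nat_lit 633) (nat_lit 5) (nat_lit 632) (nat_lit 5) (nat_lit 649) (nat_lit 5) (nat_lit 545) (nat_lit 542) (nat_lit 473)) (XT.nd (nat_lit 78) (nat_lit 1292) (nat_lit 0) (XT.lf (nat_lit 76) (nat_lit 4371713308) (nat_lit 0) (nat_lit 2938584068) (nat_lit 1292) (nat_lit 231295983) (nat_lit 633) (nat_lit 5) (nat_lit 632) (nat_lit 5) (nat_lit 649) (nat_lit 5) (nat_lit 546) (nat_lit 542) (nat_lit 472)) (XT.lf (nat_lit 76) (nat_lit 682319319) (nat_lit 0) (nat_lit 605789573) (nat_lit 1368) (nat_lit 6301377885) (nat_lit 616) (nat_lit 5) (nat_lit 615) (nat_lit 5) (nat_lit 633) (nat_lit 5) (nat_lit 547) (nat_lit 542) (nat_lit 471)))) (XT.nd (nat_lit 156) (nat_lit 0) (nat_lit 0) (XT.nd (nat_lit 78) (nat_lit 0) (nat_lit 0) (XT.lf (nat_lit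 0) (nat_lit 2830055180) (nat_lit 1292) (nat_lit 3018614186) (nat_lit 1368) (nat_lit 1789737340) (nat_lit 616) (nat_lit 5) (nat_lit 633) (nat_lit 5) (nat_lit 634) (nat_lit 5) (nat_lit 548) (nat_lit 542) (nat_lit 470)) (XT.lf (nat_lit 76) (nat_lit 934340209) (nat_lit 0) (nat_lit 3441636483) (nat_lit 1368) (nat_lit 3312869758) (nat_lit 617) (nat_lit 5) (nat_lit 616) (nat_lit 5) (nat_lit 634) (nat_lit 5) (nat_lit 549) (nat_lit 542) (nat_lit 469))) (XT.nd (nat_lit 78) (nat_lit 0) (nat_lit 76) (XT.lf (nat_lit 76) (nat_lit 4985801857) (nat_lit 0) (nat_lit 950914314) (nat_lit 1368) (nat_lit 1803904891) (nat_lit 617) (nat_lit 5) (nat_lit 616) (nat_lit 5) (nat_lit 634) (nat_lit 5) (nat_lit 550) (nat_lit 542) (nat_lit 468)) (XT.lf (nat_lit 76) (nat_lit 1309859135) (nat_lit 0) (nat_lit 6202087350) (nat_lit 1368) (nat_lit 281823142) (nat_lit 618) (nat_lit 5) (nat_lit 617) (nat_lit 5) (nat_lit 635) (nat_lit 5) (nat_lit 551) (nat_lit 542) (nat_lit 467)))))) (XT.nd (nat_lit 546)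 (nat_lit 1368) (nat_lit 0) (XT.nd (nat_lit 234) (nat_lit 1292) (nat_lit 0) (XT.nd (nat_lit 78) (nat_lit 0) (nat_lit 0) (XT.lf (nat_lit 0) (nat_lit 1243712074) (nat_lit 1368) (nat_lit 2391296970) (nat_lit 1444) (nat_lit 4213017397) (nat_lit 599) (nat_lit 5) (nat_lit 617) (nat_lit 5) (nat_lit 618) (nat_lit 5) (nat_lit 552) (nat_lit 542) (nat_lit 466)) (XT.nd (nat_lit 78) (nat_lit 0) (nat_lit 76) (XT.lf (nat_lit 76) (nat_lit 1782932222) (nat_lit 0) (nat_lit 990093566) (nat_lit 1444) (nat_lit 5130768270) (nat_lit 600) (nat_lit 5) (nat_lit 599) (nat_lit 5) (nat_lit 618) (nat_lit 5) (nat_lit 553) (nat_lit 542) (nat_lit 465)) (XT.lf (nat_lit 0) (nat_lit 4326245817) (nat_lit 1368) (nat_lit 1920864091) (nat_lit 1444) (nat_lit 1713704400) (nat_lit 600) (nat_lit 5) (nat_lit 618) (nat_lit 5) (nat_lit 619) (nat_lit 5) (nat_lit 554) (nat_lit 542) (nat_lit 464)))) (XT.nd (nat_lit 156) (nat_lit 1368) (nat_lit 0) (XT.nd (nat_lit 78) (nat_lit 0) (nat_lit 0) (XT.lf (nat_lit 76) (nat_lit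 2365666830) (nat_lit 0) (nat_lit 3533524171) (nat_lit 1444) (nat_lit 2120014352) (nat_lit 601) (nat_lit 5) (nat_lit 600) (nat_lit 5) (nat_lit 619) (nat_lit 5) (nat_lit 555) (nat_lit 542) (nat_lit 463)) (XT.lf (nat_lit 76) (nat_lit 6742174491) (nat_lit 0) (nat_lit 741565561) (nat_lit 1444) (nat_lit 595424805) (nat_lit 601) (nat_lit 5) (nat_lit 600) (nat_lit 5) (nat_lit 619) (nat_lit 5) (nat_lit 556) (nat_lit 542) (nat_lit 462))) (XT.nd (nat_lit 78) (nat_lit 0) (nat_lit 0) (XT.lf (nat_lit 0) (nat_lit 948654368) (nat_lit 1444) (nat_lit 5076133705) (nat_lit 1520) (nat_lit 2115382586) (nat_lit 582) (nat_lit 5) (nat_lit 601) (nat_lit 5) (nat_lit 602) (nat_lit 5) (nat_lit 557) (nat_lit 542) (nat_lit 461)) (XT.lf (nat_lit 0) (nat_lit 2497832341) (nat_lit 1444) (nat_lit 662282519) (nat_lit 1520) (nat_lit 5042562533) (nat_lit 582) (nat_lit 5) (nat_lit 601) (nat_lit 5) (nat_lit 602) (nat_lit 5) (nat_lit 558) (nat_lit 542) (nat_lit 460))))) (XT.nd (nat_lit 234) (nat_lit 1368)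 (nat_lit 0) (XT.nd (nat_lit 78) (nat_lit 0) (nat_lit 76) (XT.lf (nat_lit 76) (nat_lit 3868662520) (nat_lit 0) (nat_lit 203312165) (nat_lit 1520) (nat_lit 4194583228) (nat_lit 583) (nat_lit 5) (nat_lit 582) (nat_lit 5) (nat_lit 602) (nat_lit 5) (nat_lit 559) (nat_lit 542) (nat_lit 459)) (XT.nd (nat_lit 78) (nat_lit 0) (nat_lit 0) (XT.lf (nat_lit 76) (nat_lit 128519965) (nat_lit 0) (nat_lit 5542039236) (nat_lit 1520) (nat_lit 2661300861) (nat_lit 584) (nat_lit 5) (nat_lit 583) (nat_lit 5) (nat_lit 603) (nat_lit 5) (nat_lit 560) (nat_lit 542) (nat_lit 458)) (XT.lf (nat_lit 76) (nat_lit 4781410194) (nat_lit 0) (nat_lit 2520400129) (nat_lit 1520) (nat_lit 1096647171) (nat_lit 584) (nat_lit 5) (nat_lit 583) (nat_lit 5) (nat_lit 603) (nat_lit 5) (nat_lit 561) (nat_lit 542) (nat_lit 457)))) (XT.nd (nat_lit 156) (nat_lit 0) (nat_lit 0) (XT.nd (nat_lit 78) (nat_lit 0) (nat_lit 0) (XT.lf (nat_lit 0) (nat_lit 473563052) (nat_lit 1520) (nat_lit 7421320675) (nat_lit 1596) (nat_lit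 571825093) (nat_lit 564) (nat_lit 5) (nat_lit 584) (nat_lit 5) (nat_lit 585) (nat_lit 5) (nat_lit 562) (nat_lit 542) (nat_lit 456)) (XT.lf (nat_lit 0) (nat_lit 2072355862) (nat_lit 1520) (nat_lit 2732606750) (nat_lit 1596) (nat_lit 3730983294) (nat_lit 564) (nat_lit 5) (nat_lit 584) (nat_lit 5) (nat_lit 585) (nat_lit 5) (nat_lit 563) (nat_lit 542) (nat_lit 455))) (XT.nd (nat_lit 78) (nat_lit 0) (nat_lit 76) (XT.lf (nat_lit 76) (nat_lit 2054518346) (nat_lit 0) (nat_lit 1633243842) (nat_lit 1596) (nat_lit 4919115693) (nat_lit 565) (nat_lit 5) (nat_lit 564) (nat_lit 5) (nat_lit 585) (nat_lit 5) (nat_lit 564) (nat_lit 542) (nat_lit 454)) (XT.lf (nat_lit 0) (nat_lit 5336092965) (nat_lit 1520) (nat_lit 1737726658) (nat_lit 76) (nat_lit 1605399391) (nat_lit 565) (nat_lit 5) (nat_lit 585) (nat_lit 5) (nat_lit 566) (nat_lit 5) (nat_lit 565) (nat_lit 542) (nat_lit 453))))))))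
noncomputable def xc128 : XT := (XT.nd (nat_lit 2106) (nat_lit 10032) (nat_lit 0) (XT.nd (nat_lit 1014) (nat_lit 6460) (nat_lit 0) (XT.nd (nat_lit 468) (nat_lit 4864) (nat_lit 0) (XT.nd (nat_lit 234) (nat_lit 3420) (nat_lit 0) (XT.nd (nat_lit 78) (nat_lit 1672) (nat_lit 0) (XT.lf (nat_lit 0) (nat_lit 3181788938) (nat_lit 1520) (nat_lit 3839386668) (nat_lit 1596) (nat_lit 1731758447) (nat_lit 545) (nat_lit 5) (nat_lit 565) (nat_lit 5) (nat_lit 566) (nat_lit 5) (nat_lit 566) (nat_lit 542) (nat_lit 452)) (XT.nd (nat_lit 78) (nat_lit 1672) (nat_lit 0) (XT.lf (nat_lit 0) (nat_lit 8201073565) (nat_lit 1520) (nat_lit 523257117) (nat_lit 1596) (nat_lit 104108030) (nat_lit 545) (nat_lit 5) (nat_lit 565) (nat_lit 5) (nat_lit 566) (nat_lit 5) (nat_lit 567) (nat_lit 542) (nat_lit 451)) (XT.lf (nat_lit 0) (nat_lit 1556441045) (nat_lit 1672) (nat_lit 4482735307) (nat_lit 76) (nat_lit 2865662591) (nat_lit 523) (nat_lit 5) (nat_lit 545) (nat_lit 5) (nat_lit 524) (nat_lit 5) (nat_lit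 568) (nat_lit 542) (nat_lit 450)))) (XT.nd (nat_lit 78) (nat_lit 1748) (nat_lit 0) (XT.lf (nat_lit 0) (nat_lit 579277283) (nat_lit 1672) (nat_lit 2654475666) (nat_lit 1748) (nat_lit 5749304127) (nat_lit 501) (nat_lit 5) (nat_lit 523) (nat_lit 5) (nat_lit 524) (nat_lit 5) (nat_lit 569) (nat_lit 542) (nat_lit 449)) (XT.nd (nat_lit 78) (nat_lit 1748) (nat_lit 0) (XT.lf (nat_lit 0) (nat_lit 4953952061) (nat_lit 1748) (nat_lit 3287245091) (nat_lit 76) (nat_lit 821458126) (nat_lit 501) (nat_lit 5) (nat_lit 524) (nat_lit 5) (nat_lit 502) (nat_lit 5) (nat_lit 570) (nat_lit 542) (nat_lit 448)) (XT.lf (nat_lit 0) (nat_lit 1916706300) (nat_lit 1748) (nat_lit 4796264477) (nat_lit 1824) (nat_lit 2430788830) (nat_lit 478) (nat_lit 5) (nat_lit 501) (nat_lit 5) (nat_lit 502) (nat_lit 5) (nat_lit 571) (nat_lit 542) (nat_lit 447))))) (XT.nd (nat_lit 234) (nat_lit 2964) (nat_lit 0) (XT.nd (nat_lit 78) (nat_lit 1900) (nat_lit 0) (XT.lf (nat_lit 0) (nat_lit 7246971394) (nat_lit 1748)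 (nat_lit 1257006579) (nat_lit 1824) (nat_lit 722574316) (nat_lit 478) (nat_lit 5) (nat_lit 501) (nat_lit 5) (nat_lit 502) (nat_lit 5) (nat_lit 572) (nat_lit 542) (nat_lit 446)) (XT.nd (nat_lit 78) (nat_lit 0) (nat_lit 0) (XT.lf (nat_lit 0) (nat_lit 1018991904) (nat_lit 1900) (nat_lit 5937974623) (nat_lit 76) (nat_lit 2353652958) (nat_lit 453) (nat_lit 5) (nat_lit 478) (nat_lit 5) (nat_lit 454) (nat_lit 5) (nat_lit 573) (nat_lit 542) (nat_lit 445)) (XT.lf (nat_lit 0) (nat_lit 2782859153) (nat_lit 1900) (nat_lit 573135728) (nat_lit 76) (nat_lit 6040337008) (nat_lit 453) (nat_lit 5) (nat_lit 478) (nat_lit 5) (nat_lit 454) (nat_lit 5) (nat_lit 574) (nat_lit 542) (nat_lit 444)))) (XT.nd (nat_lit 156) (nat_lit 988) (nat_lit 0) (XT.nd (nat_lit 78) (nat_lit 912) (nat_lit 0) (XT.lf (nat_lit 0) (nat_lit 4592292511) (nat_lit 1140) (nat_lit 4544214704) (nat_lit 76) (nat_lit 347047794) (nat_lit 439) (nat_lit 5) (nat_lit 454) (nat_lit 5) (nat_lit 440) (nat_lit 5) (nat_lit 575)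 (nat_lit 542) (nat_lit 443)) (XT.lf (nat_lit 0) (nat_lit 965314308) (nat_lit 912) (nat_lit 5481226005) (nat_lit 988) (nat_lit 3125811961) (nat_lit 427) (nat_lit 5) (nat_lit 439) (nat_lit 5) (nat_lit 440) (nat_lit 5) (nat_lit 576) (nat_lit 542) (nat_lit 442))) (XT.nd (nat_lit 78) (nat_lit 988) (nat_lit 0) (XT.lf (nat_lit 0) (nat_lit 6624295297) (nat_lit 912) (nat_lit 1720653953) (nat_lit 988) (nat_lit 1317836867) (nat_lit 427) (nat_lit 5) (nat_lit 439) (nat_lit 5) (nat_lit 440) (nat_lit 5) (nat_lit 577) (nat_lit 542) (nat_lit 441)) (XT.lf (nat_lit 0) (nat_lit 527366912) (nat_lit 988) (nat_lit 7118390795) (nat_lit 76) (nat_lit 2109045226) (nat_lit 414) (nat_lit 5) (nat_lit 427) (nat_lit 5) (nat_lit 415) (nat_lit 5) (nat_lit 578) (nat_lit 542) (nat_lit 440)))))) (XT.nd (nat_lit 546) (nat_lit 3040) (nat_lit 0) (XT.nd (nat_lit 234) (nat_lit 1748) (nat_lit 0) (XT.nd (nat_lit 78) (nat_lit 1672) (nat_lit 0) (XT.lf (nat_lit 0) (nat_lit 2400967306) (nat_lit 988) (nat_lit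 1425033760) (nat_lit 76) (nat_lit 6022304066) (nat_lit 414) (nat_lit 5) (nat_lit 427) (nat_lit 5) (nat_lit 415) (nat_lit 5) (nat_lit 579) (nat_lit 542) (nat_lit 439)) (XT.nd (nat_lit 78) (nat_lit 836) (nat_lit 0) (XT.lf (nat_lit 0) (nat_lit 4319020733) (nat_lit 912) (nat_lit 5526148936) (nat_lit 76) (nat_lit 98370076) (nat_lit 403) (nat_lit 5) (nat_lit 415) (nat_lit 5) (nat_lit 404) (nat_lit 5) (nat_lit 580) (nat_lit 542) (nat_lit 438)) (XT.lf (nat_lit 0) (nat_lit 311799442) (nat_lit 836) (nat_lit 5978569527) (nat_lit 912) (nat_lit 3750013359) (nat_lit 392) (nat_lit 5) (nat_lit 403) (nat_lit 5) (nat_lit 404) (nat_lit 5) (nat_lit 581) (nat_lit 542) (nat_lit 437)))) (XT.nd (nat_lit 156) (nat_lit 836) (nat_lit 0) (XT.nd (nat_lit 78) (nat_lit 912) (nat_lit 0) (XT.lf (nat_lit 0) (nat_lit 6319180879) (nat_lit 836) (nat_lit 1997280262) (nat_lit 912) (nat_lit 1822396198) (nat_lit 392) (nat_lit 5) (nat_lit 403) (nat_lit 5) (nat_lit 404) (nat_lit 5) (nat_lit 582) (nat_lit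 542) (nat_lit 436)) (XT.lf (nat_lit 0) (nat_lit 148271819) (nat_lit 912) (nat_lit 8039504859) (nat_lit 76) (nat_lit 2051380659) (nat_lit 380) (nat_lit 5) (nat_lit 392) (nat_lit 5) (nat_lit 381) (nat_lit 5) (nat_lit 583) (nat_lit 542) (nat_lit 435))) (XT.nd (nat_lit 78) (nat_lit 836) (nat_lit 0) (XT.lf (nat_lit 0) (nat_lit 2151794150) (nat_lit 912) (nat_lit 1997633081) (nat_lit 76) (nat_lit 6191440129) (nat_lit 380) (nat_lit 5) (nat_lit 392) (nat_lit 5) (nat_lit 381) (nat_lit 5) (nat_lit 584) (nat_lit 542) (nat_lit 434)) (XT.lf (nat_lit 0) (nat_lit 4198213434) (nat_lit 836) (nat_lit 3638156) (nat_lit 912) (nat_lit 6242632469) (nat_lit 369) (nat_lit 5) (nat_lit 380) (nat_lit 5) (nat_lit 381) (nat_lit 5) (nat_lit 585) (nat_lit 542) (nat_lit 433))))) (XT.nd (nat_lit 234) (nat_lit 1520) (nat_lit 0) (XT.nd (nat_lit 78) (nat_lit 1520) (nat_lit 0) (XT.lf (nat_lit 0) (nat_lit 6313301311) (nat_lit 912) (nat_lit 54553307) (nat_lit 76) (nat_lit 4181912386) (nat_lit 369) (nat_lit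 5) (nat_lit 381) (nat_lit 5) (nat_lit 370) (nat_lit 5) (nat_lit 586) (nat_lit 542) (nat_lit 432)) (XT.nd (nat_lit 78) (nat_lit 760) (nat_lit 0) (XT.lf (nat_lit 0) (nat_lit 6322142328) (nat_lit 760) (nat_lit 2165777223) (nat_lit 836) (nat_lit 2168818965) (nat_lit 359) (nat_lit 5) (nat_lit 369) (nat_lit 5) (nat_lit 370) (nat_lit 5) (nat_lit 587) (nat_lit 542) (nat_lit 431)) (XT.lf (nat_lit 0) (nat_lit 2052425164) (nat_lit 760) (nat_lit 8661177020) (nat_lit 836) (nat_lit 52097501) (nat_lit 349) (nat_lit 5) (nat_lit 359) (nat_lit 5) (nat_lit 360) (nat_lit 5) (nat_lit 588) (nat_lit 542) (nat_lit 430)))) (XT.nd (nat_lit 156) (nat_lit 760) (nat_lit 0) (XT.nd (nat_lit 78) (nat_lit 684) (nat_lit 0) (XT.lf (nat_lit 0) (nat_lit 2103175795) (nat_lit 836) (nat_lit 2300642661) (nat_lit 76) (nat_lit 6472272616) (nat_lit 348) (nat_lit 5) (nat_lit 359) (nat_lit 5) (nat_lit 349) (nat_lit 5) (nat_lit 589) (nat_lit 542) (nat_lit 429)) (XT.lf (nat_lit 0) (nat_lit 4274275721) (nat_lit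 684) (nat_lit 34948621) (nat_lit 760) (nat_lit 6679293280) (nat_lit 339) (nat_lit 5) (nat_lit 348) (nat_lit 5) (nat_lit 349) (nat_lit 5) (nat_lit 590) (nat_lit 542) (nat_lit 428))) (XT.nd (nat_lit 78) (nat_lit 760) (nat_lit 0) (XT.lf (nat_lit 0) (nat_lit 6584480651) (nat_lit 760) (nat_lit 141719154) (nat_lit 76) (nat_lit 4376492702) (nat_lit 339) (nat_lit 5) (nat_lit 349) (nat_lit 5) (nat_lit 340) (nat_lit 5) (nat_lit 591) (nat_lit 542) (nat_lit 427)) (XT.lf (nat_lit 0) (nat_lit 6627467275) (nat_lit 760) (nat_lit 2302251877) (nat_lit 836) (nat_lit 2288943707) (nat_lit 329) (nat_lit 5) (nat_lit 339) (nat_lit 5) (nat_lit 340) (nat_lit 5) (nat_lit 592) (nat_lit 542) (nat_lit 426))))))) (XT.nd (nat_lit 1014) (nat_lit 4712) (nat_lit 0) (XT.nd (nat_lit 468) (nat_lit 2508) (nat_lit 0) (XT.nd (nat_lit 234) (nat_lit 1368) (nat_lit 0) (XT.nd (nat_lit 78) (nat_lit 760) (nat_lit 0) (XT.lf (nat_lit 0) (nat_lit 2189697956) (nat_lit 684) (nat_lit 9143116128) (nat_lit 760) (nat_lit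 3920979) (nat_lit 320) (nat_lit 5) (nat_lit 329) (nat_lit 5) (nat_lit 330) (nat_lit 5) (nat_lit 593) (nat_lit 542) (nat_lit 425)) (XT.nd (nat_lit 78) (nat_lit 684) (nat_lit 0) (XT.lf (nat_lit 0) (nat_lit 2324074639) (nat_lit 760) (nat_lit 2340459358) (nat_lit 76) (nat_lit 6791778216) (nat_lit 319) (nat_lit 5) (nat_lit 329) (nat_lit 5) (nat_lit 320) (nat_lit 5) (nat_lit 594) (nat_lit 542) (nat_lit 424)) (XT.lf (nat_lit 0) (nat_lit 4641735303) (nat_lit 684) (nat_lit 68870608) (nat_lit 760) (nat_lit 6867435306) (nat_lit 310) (nat_lit 5) (nat_lit 319) (nat_lit 5) (nat_lit 320) (nat_lit 5) (nat_lit 595) (nat_lit 542) (nat_lit 423)))) (XT.nd (nat_lit 78) (nat_lit 760) (nat_lit 0) (XT.lf (nat_lit 0) (nat_lit 42309025) (nat_lit 608) (nat_lit 7130717510) (nat_lit 684) (nat_lit 4528616460) (nat_lit 302) (nat_lit 5) (nat_lit 310) (nat_lit 5) (nat_lit 311) (nat_lit 5) (nat_lit 596) (nat_lit 542) (nat_lit 422)) (XT.nd (nat_lit 78) (nat_lit 760) (nat_lit 0) (XT.lf (nat_lit 0)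 (nat_lit 7232636557) (nat_lit 608) (nat_lit 2481357134) (nat_lit 684) (nat_lit 2113138494) (nat_lit 302) (nat_lit 5) (nat_lit 310) (nat_lit 5) (nat_lit 311) (nat_lit 5) (nat_lit 597) (nat_lit 542) (nat_lit 421)) (XT.lf (nat_lit 0) (nat_lit 360390236) (nat_lit 760) (nat_lit 9347355775) (nat_lit 76) (nat_lit 2247054103) (nat_lit 292) (nat_lit 5) (nat_lit 302) (nat_lit 5) (nat_lit 293) (nat_lit 5) (nat_lit 598) (nat_lit 542) (nat_lit 420))))) (XT.nd (nat_lit 234) (nat_lit 1292) (nat_lit 0) (XT.nd (nat_lit 78) (nat_lit 1216) (nat_lit 0) (XT.lf (nat_lit 0) (nat_lit 2885299909) (nat_lit 760) (nat_lit 2120749806) (nat_lit 76) (nat_lit 7078089485) (nat_lit 292) (nat_lit 5) (nat_lit 302) (nat_lit 5) (nat_lit 293) (nat_lit 5) (nat_lit 599) (nat_lit 542) (nat_lit 419)) (XT.nd (nat_lit 78) (nat_lit 608) (nat_lit 0) (XT.lf (nat_lit 0) (nat_lit 5298887641) (nat_lit 608) (nat_lit 179273389) (nat_lit 684) (nat_lit 6737556213) (nat_lit 284) (nat_lit 5) (nat_lit 292) (nat_lit 5)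 (nat_lit 293) (nat_lit 5) (nat_lit 600) (nat_lit 542) (nat_lit 418)) (XT.lf (nat_lit 0) (nat_lit 500523699) (nat_lit 608) (nat_lit 7653952095) (nat_lit 684) (nat_lit 4194820337) (nat_lit 276) (nat_lit 5) (nat_lit 284) (nat_lit 5) (nat_lit 285) (nat_lit 5) (nat_lit 601) (nat_lit 542) (nat_lit 417)))) (XT.nd (nat_lit 156) (nat_lit 608) (nat_lit 0) (XT.nd (nat_lit 78) (nat_lit 684) (nat_lit 0) (XT.lf (nat_lit 0) (nat_lit 8137751752) (nat_lit 608) (nat_lit 2777572243) (nat_lit 684) (nat_lit 1569603650) (nat_lit 276) (nat_lit 5) (nat_lit 284) (nat_lit 5) (nat_lit 285) (nat_lit 5) (nat_lit 602) (nat_lit 542) (nat_lit 416)) (XT.lf (nat_lit 0) (nat_lit 1113189651) (nat_lit 684) (nat_lit 9317482093) (nat_lit 76) (nat_lit 2192065187) (nat_lit 267) (nat_lit 5) (nat_lit 276) (nat_lit 5) (nat_lit 268) (nat_lit 5) (nat_lit 603) (nat_lit 542) (nat_lit 415))) (XT.nd (nat_lit 78) (nat_lit 608) (nat_lit 0) (XT.lf (nat_lit 0) (nat_lit 3860186886) (nat_lit 684) (nat_lit 1643033671)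 (nat_lit 76) (nat_lit 7259244164) (nat_lit 267) (nat_lit 5) (nat_lit 276) (nat_lit 5) (nat_lit 268) (nat_lit 5) (nat_lit 604) (nat_lit 542) (nat_lit 414)) (XT.lf (nat_lit 0) (nat_lit 6246242380) (nat_lit 608) (nat_lit 440540223) (nat_lit 684) (nat_lit 6217712393) (nat_lit 259) (nat_lit 5) (nat_lit 267) (nat_lit 5) (nat_lit 268) (nat_lit 5) (nat_lit 605) (nat_lit 542) (nat_lit 413)))))) (XT.nd (nat_lit 546) (nat_lit 2432) (nat_lit 0) (XT.nd (nat_lit 234) (nat_lit 1140) (nat_lit 0) (XT.nd (nat_lit 78) (nat_lit 608) (nat_lit 0) (XT.lf (nat_lit 0) (nat_lit 1231104840) (nat_lit 532) (nat_lit 8372816611) (nat_lit 608) (nat_lit 3444765279) (nat_lit 252) (nat_lit 5) (nat_lit 259) (nat_lit 5) (nat_lit 260) (nat_lit 5) (nat_lit 606) (nat_lit 542) (nat_lit 412)) (XT.nd (nat_lit 78) (nat_lit 608) (nat_lit 0) (XT.lf (nat_lit 0) (nat_lit 9344952705) (nat_lit 532) (nat_lit 3266456131) (nat_lit 608) (nat_lit 583714404) (nat_lit 252) (nat_lit 5) (nat_lit 259) (nat_lit 5) (nat_lit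 260) (nat_lit 5) (nat_lit 607) (nat_lit 542) (nat_lit 411)) (XT.lf (nat_lit 0) (nat_lit 2329332685) (nat_lit 608) (nat_lit 9059400815) (nat_lit 76) (nat_lit 1954944980) (nat_lit 244) (nat_lit 5) (nat_lit 252) (nat_lit 5) (nat_lit 245) (nat_lit 5) (nat_lit 608) (nat_lit 542) (nat_lit 410)))) (XT.nd (nat_lit 156) (nat_lit 608) (nat_lit 0) (XT.nd (nat_lit 78) (nat_lit 532) (nat_lit 0) (XT.lf (nat_lit 0) (nat_lit 5325239275) (nat_lit 608) (nat_lit 907286348) (nat_lit 76) (nat_lit 7261954741) (nat_lit 244) (nat_lit 5) (nat_lit 252) (nat_lit 5) (nat_lit 245) (nat_lit 5) (nat_lit 609) (nat_lit 542) (nat_lit 409)) (XT.lf (nat_lit 0) (nat_lit 7485917960) (nat_lit 532) (nat_lit 928815516) (nat_lit 608) (nat_lit 5232892394) (nat_lit 237) (nat_lit 5) (nat_lit 244) (nat_lit 5) (nat_lit 245) (nat_lit 5) (nat_lit 610) (nat_lit 542) (nat_lit 408))) (XT.nd (nat_lit 78) (nat_lit 76) (nat_lit 0) (XT.lf (nat_lit 0) (nat_lit 2235495929) (nat_lit 532) (nat_lit 9365453035) (nat_lit 608)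 (nat_lit 2202187654) (nat_lit 230) (nat_lit 5) (nat_lit 237) (nat_lit 5) (nat_lit 238) (nat_lit 5) (nat_lit 611) (nat_lit 542) (nat_lit 407)) (XT.lf (nat_lit 0) (nat_lit 910499956) (nat_lit 608) (nat_lit 3109286100) (nat_lit 76) (nat_lit 9941196388) (nat_lit 229) (nat_lit 5) (nat_lit 237) (nat_lit 5) (nat_lit 230) (nat_lit 5) (nat_lit 612) (nat_lit 542) (nat_lit 406))))) (XT.nd (nat_lit 234) (nat_lit 1444) (nat_lit 0) (XT.nd (nat_lit 78) (nat_lit 532) (nat_lit 0) (XT.lf (nat_lit 0) (nat_lit 4087207098) (nat_lit 532) (nat_lit 8574263820) (nat_lit 76) (nat_lit 1459598981) (nat_lit 223) (nat_lit 5) (nat_lit 230) (nat_lit 5) (nat_lit 224) (nat_lit 5) (nat_lit 613) (nat_lit 542) (nat_lit 405)) (XT.nd (nat_lit 78) (nat_lit 0) (nat_lit 0) (XT.lf (nat_lit 0) (nat_lit 88581262) (nat_lit 532) (nat_lit 7272731426) (nat_lit 608) (nat_lit 6922370012) (nat_lit 216) (nat_lit 5) (nat_lit 223) (nat_lit 5) (nat_lit 224) (nat_lit 5) (nat_lit 614) (nat_lit 542) (nat_lit 404)) (XT.lf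 (nat_lit 0) (nat_lit 9020994828) (nat_lit 532) (nat_lit 1723260117) (nat_lit 608) (nat_lit 3704426589) (nat_lit 216) (nat_lit 5) (nat_lit 223) (nat_lit 5) (nat_lit 224) (nat_lit 5) (nat_lit 615) (nat_lit 542) (nat_lit 403)))) (XT.nd (nat_lit 156) (nat_lit 912) (nat_lit 0) (XT.nd (nat_lit 78) (nat_lit 76) (nat_lit 0) (XT.lf (nat_lit 0) (nat_lit 3515857701) (nat_lit 456) (nat_lit 10713446896) (nat_lit 532) (nat_lit 386987627) (nat_lit 210) (nat_lit 5) (nat_lit 216) (nat_lit 5) (nat_lit 217) (nat_lit 5) (nat_lit 616) (nat_lit 542) (nat_lit 402)) (XT.lf (nat_lit 0) (nat_lit 2991684742) (nat_lit 532) (nat_lit 2125612837) (nat_lit 76) (nat_lit 9668885457) (nat_lit 209) (nat_lit 5) (nat_lit 216) (nat_lit 5) (nat_lit 210) (nat_lit 5) (nat_lit 617) (nat_lit 542) (nat_lit 401))) (XT.nd (nat_lit 78) (nat_lit 456) (nat_lit 0) (XT.lf (nat_lit 0) (nat_lit 6469354935) (nat_lit 532) (nat_lit 7863067310) (nat_lit 76) (nat_lit 626266937) (nat_lit 203) (nat_lit 5) (nat_lit 210) (nat_lit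 5) (nat_lit 204) (nat_lit 5) (nat_lit 618) (nat_lit 542) (nat_lit 400)) (XT.lf (nat_lit 0) (nat_lit 1360049768) (nat_lit 456) (nat_lit 8700095057) (nat_lit 532) (nat_lit 5073630085) (nat_lit 197) (nat_lit 5) (nat_lit 203) (nat_lit 5) (nat_lit 204) (nat_lit 5) (nat_lit 619) (nat_lit 542) (nat_lit 399))))))))
noncomputable def xc129 : XT := (XT.nd (nat_lit 2106) (nat_lit 2280) (nat_lit 0) (XT.nd (nat_lit 1014) (nat_lit 2888) (nat_lit 0) (XT.nd (nat_lit 468) (nat_lit 1976) (nat_lit 0) (XT.nd (nat_lit 234) (nat_lit 912) (nat_lit 0) (XT.nd (nat_lit 78) (nat_lit 532) (nat_lit 0) (XT.lf (nat_lit 0) (nat_lit 10854805653) (nat_lit 456) (nat_lit 2907337217) (nat_lit 532) (nat_lit 1549432406) (nat_lit 197) (nat_lit 5) (nat_lit 203) (nat_lit 5) (nat_lit 204) (nat_lit 5) (nat_lit 620) (nat_lit 542) (nat_lit 398)) (XT.nd (nat_lit 78) (nat_lit 0) (nat_lit 0) (XT.lf (nat_lit 0) (nat_lit 2057967877) (nat_lit 532) (nat_lit 10431349892) (nat_lit 76) (nat_lit 3002558188) (nat_lit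 190) (nat_lit 5) (nat_lit 197) (nat_lit 5) (nat_lit 191) (nat_lit 5) (nat_lit 621) (nat_lit 542) (nat_lit 397)) (XT.lf (nat_lit 0) (nat_lit 5753045425) (nat_lit 532) (nat_lit 895618877) (nat_lit 76) (nat_lit 9026188717) (nat_lit 190) (nat_lit 5) (nat_lit 197) (nat_lit 5) (nat_lit 191) (nat_lit 5) (nat_lit 622) (nat_lit 542) (nat_lit 396)))) (XT.nd (nat_lit 78) (nat_lit 532) (nat_lit 0) (XT.lf (nat_lit 0) (nat_lit 8929009148) (nat_lit 380) (nat_lit 638142880) (nat_lit 456) (nat_lit 6293435756) (nat_lit 185) (nat_lit 5) (nat_lit 190) (nat_lit 5) (nat_lit 191) (nat_lit 5) (nat_lit 623) (nat_lit 542) (nat_lit 395)) (XT.nd (nat_lit 78) (nat_lit 76) (nat_lit 0) (XT.lf (nat_lit 0) (nat_lit 2895614015) (nat_lit 456) (nat_lit 10609683181) (nat_lit 532) (nat_lit 2543785615) (nat_lit 179) (nat_lit 5) (nat_lit 185) (nat_lit 5) (nat_lit 186) (nat_lit 5) (nat_lit 624) (nat_lit 542) (nat_lit 394)) (XT.lf (nat_lit 0) (nat_lit 1302395486) (nat_lit 532) (nat_lit 3259016594) (nat_lit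 76) (nat_lit 11679003275) (nat_lit 178) (nat_lit 5) (nat_lit 185) (nat_lit 5) (nat_lit 179) (nat_lit 5) (nat_lit 625) (nat_lit 542) (nat_lit 393))))) (XT.nd (nat_lit 234) (nat_lit 1216) (nat_lit 0) (XT.nd (nat_lit 78) (nat_lit 380) (nat_lit 0) (XT.lf (nat_lit 0) (nat_lit 5234536685) (nat_lit 456) (nat_lit 9557267012) (nat_lit 76) (nat_lit 1642573265) (nat_lit 173) (nat_lit 5) (nat_lit 179) (nat_lit 5) (nat_lit 174) (nat_lit 5) (nat_lit 626) (nat_lit 542) (nat_lit 392)) (XT.nd (nat_lit 78) (nat_lit 0) (nat_lit 0) (XT.lf (nat_lit 0) (nat_lit 586931198) (nat_lit 380) (nat_lit 8702043474) (nat_lit 456) (nat_lit 7342370694) (nat_lit 168) (nat_lit 5) (nat_lit 173) (nat_lit 5) (nat_lit 174) (nat_lit 5) (nat_lit 627) (nat_lit 542) (nat_lit 391)) (XT.lf (nat_lit 0) (nat_lit 11044919029) (nat_lit 380) (nat_lit 2431458998) (nat_lit 456) (nat_lit 3354838210) (nat_lit 168) (nat_lit 5) (nat_lit 173) (nat_lit 5) (nat_lit 174) (nat_lit 5) (nat_lit 628) (nat_lit 542) (nat_lit 390))))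 (XT.nd (nat_lit 156) (nat_lit 760) (nat_lit 0) (XT.nd (nat_lit 78) (nat_lit 0) (nat_lit 0) (XT.lf (nat_lit 0) (nat_lit 747554025) (nat_lit 456) (nat_lit 12344791716) (nat_lit 76) (nat_lit 3941757819) (nat_lit 162) (nat_lit 5) (nat_lit 168) (nat_lit 5) (nat_lit 163) (nat_lit 5) (nat_lit 629) (nat_lit 542) (nat_lit 389)) (XT.lf (nat_lit 0) (nat_lit 4930282994) (nat_lit 456) (nat_lit 1844500262) (nat_lit 76) (nat_lit 10464958256) (nat_lit 162) (nat_lit 5) (nat_lit 168) (nat_lit 5) (nat_lit 163) (nat_lit 5) (nat_lit 630) (nat_lit 542) (nat_lit 388))) (XT.nd (nat_lit 78) (nat_lit 380) (nat_lit 0) (XT.lf (nat_lit 0) (nat_lit 8965221555) (nat_lit 380) (nat_lit 277868406) (nat_lit 456) (nat_lit 8205474377) (nat_lit 157) (nat_lit 5) (nat_lit 162) (nat_lit 5) (nat_lit 163) (nat_lit 5) (nat_lit 631) (nat_lit 542) (nat_lit 387)) (XT.lf (nat_lit 0) (nat_lit 2325794680) (nat_lit 380) (nat_lit 11373428238) (nat_lit 456) (nat_lit 3961199878) (nat_lit 152) (nat_lit 5) (nat_lit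 157) (nat_lit 5) (nat_lit 158) (nat_lit 5) (nat_lit 632) (nat_lit 542) (nat_lit 386)))))) (XT.nd (nat_lit 546) (nat_lit 1368) (nat_lit 0) (XT.nd (nat_lit 234) (nat_lit 1064) (nat_lit 0) (XT.nd (nat_lit 78) (nat_lit 380) (nat_lit 0) (XT.lf (nat_lit 0) (nat_lit 410601724) (nat_lit 456) (nat_lit 4432142241) (nat_lit 76) (nat_lit 13032777876) (nat_lit 151) (nat_lit 5) (nat_lit 157) (nat_lit 5) (nat_lit 152) (nat_lit 5) (nat_lit 633) (nat_lit 542) (nat_lit 385)) (XT.nd (nat_lit 78) (nat_lit 0) (nat_lit 0) (XT.lf (nat_lit 0) (nat_lit 4861340764) (nat_lit 456) (nat_lit 11373429981) (nat_lit 76) (nat_lit 1858738154) (nat_lit 146) (nat_lit 5) (nat_lit 152) (nat_lit 5) (nat_lit 147) (nat_lit 5) (nat_lit 634) (nat_lit 542) (nat_lit 384)) (XT.lf (nat_lit 0) (nat_lit 9451723374) (nat_lit 456) (nat_lit 210080096) (nat_lit 76) (nat_lit 8653040181) (nat_lit 146) (nat_lit 5) (nat_lit 152) (nat_lit 5) (nat_lit 147) (nat_lit 5) (nat_lit 635) (nat_lit 542) (nat_lit 383)))) (XT.nd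 (nat_lit 156) (nat_lit 304) (nat_lit 0) (XT.nd (nat_lit 78) (nat_lit 456) (nat_lit 0) (XT.lf (nat_lit 0) (nat_lit 11307210857) (nat_lit 304) (nat_lit 2888958518) (nat_lit 380) (nat_lit 4343191125) (nat_lit 142) (nat_lit 5) (nat_lit 146) (nat_lit 5) (nat_lit 147) (nat_lit 5) (nat_lit 636) (nat_lit 542) (nat_lit 382)) (XT.lf (nat_lit 0) (nat_lit 308278011) (nat_lit 456) (nat_lit 14467523511) (nat_lit 76) (nat_lit 3991639075) (nat_lit 136) (nat_lit 5) (nat_lit 142) (nat_lit 5) (nat_lit 137) (nat_lit 5) (nat_lit 637) (nat_lit 542) (nat_lit 381))) (XT.nd (nat_lit 78) (nat_lit 304) (nat_lit 0) (XT.lf (nat_lit 0) (nat_lit 5051595919) (nat_lit 456) (nat_lit 2904386203) (nat_lit 76) (nat_lit 11042386998) (nat_lit 136) (nat_lit 5) (nat_lit 142) (nat_lit 5) (nat_lit 137) (nat_lit 5) (nat_lit 638) (nat_lit 542) (nat_lit 380)) (XT.lf (nat_lit 0) (nat_lit 8990557064) (nat_lit 304) (nat_lit 946747985) (nat_lit 380) (nat_lit 9295661145) (nat_lit 132) (nat_lit 5) (nat_lit 136)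 (nat_lit 5) (nat_lit 137) (nat_lit 5) (nat_lit 639) (nat_lit 542) (nat_lit 379))))) (XT.nd (nat_lit 234) (nat_lit 684) (nat_lit 0) (XT.nd (nat_lit 78) (nat_lit 380) (nat_lit 0) (XT.lf (nat_lit 0) (nat_lit 1654776832) (nat_lit 304) (nat_lit 13325796944) (nat_lit 380) (nat_lit 4490484996) (nat_lit 128) (nat_lit 5) (nat_lit 132) (nat_lit 5) (nat_lit 133) (nat_lit 5) (nat_lit 640) (nat_lit 542) (nat_lit 378)) (XT.nd (nat_lit 78) (nat_lit 304) (nat_lit 0) (XT.lf (nat_lit 0) (nat_lit 470102530) (nat_lit 380) (nat_lit 5810642926) (nat_lit 76) (nat_lit 13431820942) (nat_lit 127) (nat_lit 5) (nat_lit 132) (nat_lit 5) (nat_lit 128) (nat_lit 5) (nat_lit 641) (nat_lit 542) (nat_lit 377)) (XT.lf (nat_lit 0) (nat_lit 5507617796) (nat_lit 380) (nat_lit 13490837998) (nat_lit 76) (nat_lit 959098313) (nat_lit 123) (nat_lit 5) (nat_lit 128) (nat_lit 5) (nat_lit 124) (nat_lit 5) (nat_lit 642) (nat_lit 542) (nat_lit 376)))) (XT.nd (nat_lit 156) (nat_lit 380) (nat_lit 0) (XT.nd (nat_lit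 78) (nat_lit 304) (nat_lit 0) (XT.lf (nat_lit 0) (nat_lit 10716231895) (nat_lit 380) (nat_lit 1197296514) (nat_lit 76) (nat_lit 8292506622) (nat_lit 123) (nat_lit 5) (nat_lit 128) (nat_lit 5) (nat_lit 124) (nat_lit 5) (nat_lit 643) (nat_lit 542) (nat_lit 375)) (XT.lf (nat_lit 0) (nat_lit 11475790157) (nat_lit 304) (nat_lit 4617445861) (nat_lit 380) (nat_lit 4364965626) (nat_lit 119) (nat_lit 5) (nat_lit 123) (nat_lit 5) (nat_lit 124) (nat_lit 5) (nat_lit 644) (nat_lit 542) (nat_lit 374))) (XT.nd (nat_lit 78) (nat_lit 0) (nat_lit 0) (XT.lf (nat_lit 0) (nat_lit 891643717) (nat_lit 380) (nat_lit 17003684114) (nat_lit 76) (nat_lit 2819160482) (nat_lit 114) (nat_lit 5) (nat_lit 119) (nat_lit 5) (nat_lit 115) (nat_lit 5) (nat_lit 645) (nat_lit 542) (nat_lit 373)) (XT.lf (nat_lit 0) (nat_lit 6276032417) (nat_lit 380) (nat_lit 4271846419) (nat_lit 76) (nat_lit 10425823350) (nat_lit 114) (nat_lit 5) (nat_lit 119) (nat_lit 5) (nat_lit 115) (nat_lit 5) (nat_lit 646) (nat_lit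 542) (nat_lit 372))))))) (XT.nd (nat_lit 73086) (nat_lit 0) (nat_lit 37772) (XT.nd (nat_lit 468) (nat_lit 1140) (nat_lit 0) (XT.nd (nat_lit 234) (nat_lit 532) (nat_lit 0) (XT.nd (nat_lit 78) (nat_lit 304) (nat_lit 0) (XT.lf (nat_lit 0) (nat_lit 8813643055) (nat_lit 304) (nat_lit 3001674578) (nat_lit 380) (nat_lit 9421838920) (nat_lit 110) (nat_lit 5) (nat_lit 114) (nat_lit 5) (nat_lit 115) (nat_lit 5) (nat_lit 647) (nat_lit 542) (nat_lit 371)) (XT.nd (nat_lit 78) (nat_lit 76) (nat_lit 0) (XT.lf (nat_lit 0) (nat_lit 674993610) (nat_lit 228) (nat_lit 16844151334) (nat_lit 304) (nat_lit 3985660322) (nat_lit 107) (nat_lit 5) (nat_lit 110) (nat_lit 5) (nat_lit 111) (nat_lit 5) (nat_lit 648) (nat_lit 542) (nat_lit 370)) (XT.lf (nat_lit 0) (nat_lit 1632645297) (nat_lit 304) (nat_lit 7619467130) (nat_lit 76) (nat_lit 12523615359) (nat_lit 106) (nat_lit 5) (nat_lit 110) (nat_lit 5) (nat_lit 107) (nat_lit 5) (nat_lit 649) (nat_lit 542) (nat_lit 369)))) (XT.nd (nat_lit 78)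 (nat_lit 228) (nat_lit 0) (XT.lf (nat_lit 0) (nat_lit 5889610904) (nat_lit 304) (nat_lit 1448876424) (nat_lit 380) (nat_lit 14712484121) (nat_lit 102) (nat_lit 5) (nat_lit 106) (nat_lit 5) (nat_lit 107) (nat_lit 5) (nat_lit 650) (nat_lit 542) (nat_lit 368)) (XT.nd (nat_lit 78) (nat_lit 228) (nat_lit 0) (XT.lf (nat_lit 0) (nat_lit 13242477981) (nat_lit 380) (nat_lit 2617516939) (nat_lit 76) (nat_lit 6470044785) (nat_lit 102) (nat_lit 5) (nat_lit 107) (nat_lit 5) (nat_lit 103) (nat_lit 5) (nat_lit 651) (nat_lit 542) (nat_lit 367)) (XT.lf (nat_lit 0) (nat_lit 11320028082) (nat_lit 228) (nat_lit 8018095585) (nat_lit 304) (nat_lit 3275094503) (nat_lit 99) (nat_lit 5) (nat_lit 102) (nat_lit 5) (nat_lit 103) (nat_lit 5) (nat_lit 652) (nat_lit 542) (nat_lit 366))))) (XT.nd (nat_lit 234) (nat_lit 532) (nat_lit 0) (XT.nd (nat_lit 78) (nat_lit 228) (nat_lit 0) (XT.lf (nat_lit 0) (nat_lit 2644528116) (nat_lit 380) (nat_lit 20229657526) (nat_lit 76) (nat_lit 27016142) (nat_lit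 94) (nat_lit 5) (nat_lit 99) (nat_lit 5) (nat_lit 95) (nat_lit 5) (nat_lit 653) (nat_lit 542) (nat_lit 365)) (XT.nd (nat_lit 78) (nat_lit 228) (nat_lit 0) (XT.lf (nat_lit 0) (nat_lit 8758659048) (nat_lit 380) (nat_lit 6216171022) (nat_lit 76) (nat_lit 8217282973) (nat_lit 94) (nat_lit 5) (nat_lit 99) (nat_lit 5) (nat_lit 95) (nat_lit 5) (nat_lit 654) (nat_lit 542) (nat_lit 364)) (XT.lf (nat_lit 0) (nat_lit 8168932168) (nat_lit 228) (nat_lit 6869907268) (nat_lit 304) (nat_lit 8449128076) (nat_lit 91) (nat_lit 5) (nat_lit 94) (nat_lit 5) (nat_lit 95) (nat_lit 5) (nat_lit 655) (nat_lit 542) (nat_lit 363)))) (XT.nd (nat_lit 156) (nat_lit 228) (nat_lit 0) (XT.nd (nat_lit 78) (nat_lit 304) (nat_lit 0) (XT.lf (nat_lit 0) (nat_lit 21486450940) (nat_lit 304) (nat_lit 888080931) (nat_lit 76) (nat_lit 1414370965) (nat_lit 91) (nat_lit 5) (nat_lit 95) (nat_lit 5) (nat_lit 92) (nat_lit 5) (nat_lit 656) (nat_lit 542) (nat_lit 362)) (XT.lf (nat_lit 0) (nat_lit 4043007694) (nat_lit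 304) (nat_lit 10166434020) (nat_lit 76) (nat_lit 9883342710) (nat_lit 87) (nat_lit 5) (nat_lit 91) (nat_lit 5) (nat_lit 88) (nat_lit 5) (nat_lit 657) (nat_lit 542) (nat_lit 361))) (XT.nd (nat_lit 78) (nat_lit 0) (nat_lit 0) (XT.lf (nat_lit 0) (nat_lit 4677000220) (nat_lit 228) (nat_lit 5834905601) (nat_lit 304) (nat_lit 13889986553) (nat_lit 84) (nat_lit 5) (nat_lit 87) (nat_lit 5) (nat_lit 88) (nat_lit 5) (nat_lit 658) (nat_lit 542) (nat_lit 360)) (XT.lf (nat_lit 0) (nat_lit 17187432372) (nat_lit 304) (nat_lit 4794305696) (nat_lit 76) (nat_lit 2733899697) (nat_lit 84) (nat_lit 5) (nat_lit 88) (nat_lit 5) (nat_lit 85) (nat_lit 5) (nat_lit 659) (nat_lit 542) (nat_lit 359)))))) (XT.nd (nat_lit 546) (nat_lit 2584) (nat_lit 0) (XT.nd (nat_lit 234) (nat_lit 1216) (nat_lit 0) (XT.nd (nat_lit 78) (nat_lit 0) (nat_lit 0) (XT.lf (nat_lit 0) (nat_lit 2056317831) (nat_lit 1292) (nat_lit 834149941) (nat_lit 1292) (nat_lit 834149941) (nat_lit 631) (nat_lit 3) (nat_lit 648)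 (nat_lit 3) (nat_lit 648) (nat_lit 5) (nat_lit 543) (nat_lit 543) (nat_lit 474)) (XT.nd (nat_lit 78) (nat_lit 0) (nat_lit 0) (XT.lf (nat_lit 76) (nat_lit 2044593090) (nat_lit 0) (nat_lit 3600300538) (nat_lit 1292) (nat_lit 1848840534) (nat_lit 632) (nat_lit 5) (nat_lit 631) (nat_lit 3) (nat_lit 648) (nat_lit 5) (nat_lit 544) (nat_lit 543) (nat_lit 473)) (XT.lf (nat_lit 76) (nat_lit 5834323156) (nat_lit 0) (nat_lit 1345773970) (nat_lit 1292) (nat_lit 359584220) (nat_lit 632) (nat_lit 5) (nat_lit 631) (nat_lit 3) (nat_lit 648) (nat_lit 5) (nat_lit 545) (nat_lit 543) (nat_lit 472)))) (XT.nd (nat_lit 156) (nat_lit 0) (nat_lit 0) (XT.nd (nat_lit 78) (nat_lit 0) (nat_lit 0) (XT.lf (nat_lit 0) (nat_lit 1126034945) (nat_lit 1292) (nat_lit 5480014195) (nat_lit 1368) (nat_lit 980716402) (nat_lit 615) (nat_lit 5) (nat_lit 632) (nat_lit 5) (nat_lit 633) (nat_lit 5) (nat_lit 546) (nat_lit 543) (nat_lit 471)) (XT.lf (nat_lit 0) (nat_lit 2619337100) (nat_lit 1292) (nat_lit 1648611224)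 (nat_lit 1368) (nat_lit 3367144079) (nat_lit 615) (nat_lit 5) (nat_lit 632) (nat_lit 5) (nat_lit 633) (nat_lit 5) (nat_lit 547) (nat_lit 543) (nat_lit 470))) (XT.nd (nat_lit 78) (nat_lit 0) (nat_lit 76) (XT.lf (nat_lit 76) (nat_lit 2268685013) (nat_lit 0) (nat_lit 1851637239) (nat_lit 1368) (nat_lit 3564511353) (nat_lit 616) (nat_lit 5) (nat_lit 615) (nat_lit 5) (nat_lit 633) (nat_lit 5) (nat_lit 548) (nat_lit 543) (nat_lit 469)) (XT.lf (nat_lit 0) (nat_lit 5630225868) (nat_lit 1292) (nat_lit 1473915469) (nat_lit 1368) (nat_lit 631854382) (nat_lit 616) (nat_lit 5) (nat_lit 633) (nat_lit 5) (nat_lit 634) (nat_lit 5) (nat_lit 549) (nat_lit 543) (nat_lit 468))))) (XT.nd (nat_lit 234) (nat_lit 1292) (nat_lit 0) (XT.nd (nat_lit 78) (nat_lit 1368) (nat_lit 0) (XT.lf (nat_lit 76) (nat_lit 2547538336) (nat_lit 0) (nat_lit 4616084617) (nat_lit 1368) (nat_lit 624696196) (nat_lit 617) (nat_lit 5) (nat_lit 616) (nat_lit 5) (nat_lit 634) (nat_lit 5) (nat_lit 550) (nat_lit 543)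 (nat_lit 467)) (XT.nd (nat_lit 78) (nat_lit 0) (nat_lit 76) (XT.lf (nat_lit 0) (nat_lit 849154699) (nat_lit 1368) (nat_lit 1199016297) (nat_lit 1444) (nat_lit 5793911315) (nat_lit 598) (nat_lit 5) (nat_lit 616) (nat_lit 5) (nat_lit 617) (nat_lit 5) (nat_lit 551) (nat_lit 543) (nat_lit 466)) (XT.lf (nat_lit 0) (nat_lit 2332657095) (nat_lit 1368) (nat_lit 4963825764) (nat_lit 1444) (nat_lit 600588262) (nat_lit 599) (nat_lit 5) (nat_lit 617) (nat_lit 5) (nat_lit 618) (nat_lit 5) (nat_lit 552) (nat_lit 543) (nat_lit 465)))) (XT.nd (nat_lit 156) (nat_lit 1368) (nat_lit 0) (XT.nd (nat_lit 78) (nat_lit 0) (nat_lit 0) (XT.lf (nat_lit 0) (nat_lit 3833632018) (nat_lit 1368) (nat_lit 823538046) (nat_lit 1444) (nat_lit 3296237272) (nat_lit 599) (nat_lit 5) (nat_lit 617) (nat_lit 5) (nat_lit 618) (nat_lit 5) (nat_lit 553) (nat_lit 543) (nat_lit 464)) (XT.lf (nat_lit 76) (nat_lit 3423546882) (nat_lit 0) (nat_lit 1930110550) (nat_lit 1444) (nat_lit 2657435831) (nat_lit 600) (nat_lit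 5) (nat_lit 599) (nat_lit 5) (nat_lit 618) (nat_lit 5) (nat_lit 554) (nat_lit 543) (nat_lit 463))) (XT.nd (nat_lit 78) (nat_lit 1444) (nat_lit 0) (XT.lf (nat_lit 0) (nat_lit 6882571204) (nat_lit 1368) (nat_lit 330156530) (nat_lit 1444) (nat_lit 857638953) (nat_lit 600) (nat_lit 5) (nat_lit 618) (nat_lit 5) (nat_lit 619) (nat_lit 5) (nat_lit 555) (nat_lit 543) (nat_lit 462)) (XT.lf (nat_lit 0) (nat_lit 314190970) (nat_lit 1444) (nat_lit 4101369164) (nat_lit 1520) (nat_lit 3715087726) (nat_lit 581) (nat_lit 5) (nat_lit 600) (nat_lit 5) (nat_lit 601) (nat_lit 5) (nat_lit 556) (nat_lit 543) (nat_lit 461))))))))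
noncomputable def xc130 : XT := (XT.nd (nat_lit 2106) (nat_lit 11780) (nat_lit 0) (XT.nd (nat_lit 1014) (nat_lit 9956) (nat_lit 0) (XT.nd (nat_lit 468) (nat_lit 3040) (nat_lit 0) (XT.nd (nat_lit 234) (nat_lit 1368) (nat_lit 0) (XT.nd (nat_lit 78) (nat_lit 0) (nat_lit 76) (XT.lf (nat_lit 76) (nat_lit 262479323) (nat_lit 0) (nat_lit 1540097195) (nat_lit 1520) (nat_lit 6389959165) (nat_lit 582) (nat_lit 5) (nat_lit 581) (nat_lit 5) (nat_lit 601) (nat_lit 5) (nat_lit 557) (nat_lit 543) (nat_lit 460)) (XT.nd (nat_lit 78) (nat_lit 0) (nat_lit 0) (XT.lf (nat_lit 0) (nat_lit 3326340748) (nat_lit 1444) (nat_lit 3517058008) (nat_lit 1520) (nat_lit 1412153555) (nat_lit 582) (nat_lit 5) (nat_lit 601) (nat_lit 5) (nat_lit 602) (nat_lit 5) (nat_lit 558) (nat_lit 543) (nat_lit 459)) (XT.lf (nat_lit 76) (nat_lit 965167798) (nat_lit 0) (nat_lit 3901351712) (nat_lit 1520) (nat_lit 3453594178) (nat_lit 583) (nat_lit 5) (nat_lit 582) (nat_lit 5) (nat_lit 602) (nat_lit 5) (nat_lit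 559) (nat_lit 543) (nat_lit 458)))) (XT.nd (nat_lit 78) (nat_lit 1444) (nat_lit 0) (XT.lf (nat_lit 76) (nat_lit 5563362616) (nat_lit 0) (nat_lit 867673903) (nat_lit 1520) (nat_lit 1955062222) (nat_lit 583) (nat_lit 5) (nat_lit 582) (nat_lit 5) (nat_lit 602) (nat_lit 5) (nat_lit 560) (nat_lit 543) (nat_lit 457)) (XT.nd (nat_lit 78) (nat_lit 1520) (nat_lit 0) (XT.lf (nat_lit 76) (nat_lit 1787524852) (nat_lit 0) (nat_lit 6235960266) (nat_lit 1520) (nat_lit 429988629) (nat_lit 584) (nat_lit 5) (nat_lit 583) (nat_lit 5) (nat_lit 603) (nat_lit 5) (nat_lit 561) (nat_lit 543) (nat_lit 456)) (XT.lf (nat_lit 0) (nat_lit 1106459007) (nat_lit 1520) (nat_lit 2028571501) (nat_lit 1596) (nat_lit 5387109848) (nat_lit 563) (nat_lit 5) (nat_lit 583) (nat_lit 5) (nat_lit 584) (nat_lit 5) (nat_lit 562) (nat_lit 543) (nat_lit 455))))) (XT.nd (nat_lit 234) (nat_lit 3116) (nat_lit 0) (XT.nd (nat_lit 78) (nat_lit 0) (nat_lit 0) (XT.lf (nat_lit 0) (nat_lit 2657254141) (nat_lit 1520) (nat_lit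 5879824221) (nat_lit 1596) (nat_lit 55260469) (nat_lit 564) (nat_lit 5) (nat_lit 584) (nat_lit 5) (nat_lit 585) (nat_lit 5) (nat_lit 563) (nat_lit 543) (nat_lit 454)) (XT.nd (nat_lit 78) (nat_lit 0) (nat_lit 0) (XT.lf (nat_lit 0) (nat_lit 4245391046) (nat_lit 1520) (nat_lit 1130471760) (nat_lit 1596) (nat_lit 3287954798) (nat_lit 564) (nat_lit 5) (nat_lit 584) (nat_lit 5) (nat_lit 585) (nat_lit 5) (nat_lit 564) (nat_lit 543) (nat_lit 453)) (XT.lf (nat_lit 76) (nat_lit 3741495923) (nat_lit 0) (nat_lit 2120499923) (nat_lit 1596) (nat_lit 2874798790) (nat_lit 565) (nat_lit 5) (nat_lit 564) (nat_lit 5) (nat_lit 585) (nat_lit 5) (nat_lit 565) (nat_lit 543) (nat_lit 452)))) (XT.nd (nat_lit 156) (nat_lit 1596) (nat_lit 0) (XT.nd (nat_lit 78) (nat_lit 1596) (nat_lit 0) (XT.lf (nat_lit 0) (nat_lit 7499213752) (nat_lit 1520) (nat_lit 114579701) (nat_lit 76) (nat_lit 1197674870) (nat_lit 565) (nat_lit 5) (nat_lit 585) (nat_lit 5) (nat_lit 566) (nat_lit 5) (nat_lit 566) (nat_lit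 543) (nat_lit 451)) (XT.lf (nat_lit 0) (nat_lit 297166404) (nat_lit 1596) (nat_lit 3996790369) (nat_lit 76) (nat_lit 4593258413) (nat_lit 544) (nat_lit 5) (nat_lit 565) (nat_lit 5) (nat_lit 545) (nat_lit 5) (nat_lit 567) (nat_lit 543) (nat_lit 450))) (XT.nd (nat_lit 78) (nat_lit 0) (nat_lit 0) (XT.lf (nat_lit 0) (nat_lit 1015575928) (nat_lit 1596) (nat_lit 886606112) (nat_lit 1672) (nat_lit 7062504495) (nat_lit 523) (nat_lit 5) (nat_lit 544) (nat_lit 5) (nat_lit 545) (nat_lit 5) (nat_lit 568) (nat_lit 543) (nat_lit 449)) (XT.lf (nat_lit 0) (nat_lit 3557105360) (nat_lit 1672) (nat_lit 2899868988) (nat_lit 76) (nat_lit 2586379342) (nat_lit 523) (nat_lit 5) (nat_lit 545) (nat_lit 5) (nat_lit 524) (nat_lit 5) (nat_lit 569) (nat_lit 543) (nat_lit 448)))))) (XT.nd (nat_lit 546) (nat_lit 3572) (nat_lit 0) (XT.nd (nat_lit 234) (nat_lit 2964) (nat_lit 0) (XT.nd (nat_lit 78) (nat_lit 1748) (nat_lit 0) (XT.lf (nat_lit 0) (nat_lit 2252380426) (nat_lit 1672) (nat_lit 2987752407)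 (nat_lit 1748) (nat_lit 3883563717) (nat_lit 501) (nat_lit 5) (nat_lit 523) (nat_lit 5) (nat_lit 524) (nat_lit 5) (nat_lit 570) (nat_lit 543) (nat_lit 447)) (XT.nd (nat_lit 78) (nat_lit 1748) (nat_lit 0) (XT.lf (nat_lit 0) (nat_lit 6954879792) (nat_lit 1748) (nat_lit 1684011144) (nat_lit 76) (nat_lit 566796581) (nat_lit 501) (nat_lit 5) (nat_lit 524) (nat_lit 5) (nat_lit 502) (nat_lit 5) (nat_lit 571) (nat_lit 543) (nat_lit 446)) (XT.lf (nat_lit 0) (nat_lit 3613039151) (nat_lit 1748) (nat_lit 5109513409) (nat_lit 1824) (nat_lit 566395506) (nat_lit 478) (nat_lit 5) (nat_lit 501) (nat_lit 5) (nat_lit 502) (nat_lit 5) (nat_lit 572) (nat_lit 543) (nat_lit 445)))) (XT.nd (nat_lit 156) (nat_lit 1064) (nat_lit 0) (XT.nd (nat_lit 78) (nat_lit 1824) (nat_lit 0) (XT.lf (nat_lit 0) (nat_lit 1123542033) (nat_lit 1824) (nat_lit 364127513) (nat_lit 76) (nat_lit 7886318176) (nat_lit 477) (nat_lit 5) (nat_lit 501) (nat_lit 5) (nat_lit 478) (nat_lit 5) (nat_lit 573) (nat_lit 543)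 (nat_lit 444)) (XT.lf (nat_lit 0) (nat_lit 2863418588) (nat_lit 1900) (nat_lit 4379449723) (nat_lit 76) (nat_lit 2217312739) (nat_lit 453) (nat_lit 5) (nat_lit 478) (nat_lit 5) (nat_lit 454) (nat_lit 5) (nat_lit 574) (nat_lit 543) (nat_lit 443))) (XT.nd (nat_lit 78) (nat_lit 0) (nat_lit 0) (XT.lf (nat_lit 0) (nat_lit 1073882178) (nat_lit 1064) (nat_lit 3559887734) (nat_lit 1140) (nat_lit 4914416986) (nat_lit 439) (nat_lit 5) (nat_lit 453) (nat_lit 5) (nat_lit 454) (nat_lit 5) (nat_lit 575) (nat_lit 543) (nat_lit 442)) (XT.lf (nat_lit 0) (nat_lit 6447115880) (nat_lit 1140) (nat_lit 2965235540) (nat_lit 76) (nat_lit 225451848) (nat_lit 439) (nat_lit 5) (nat_lit 454) (nat_lit 5) (nat_lit 440) (nat_lit 5) (nat_lit 576) (nat_lit 543) (nat_lit 441))))) (XT.nd (nat_lit 234) (nat_lit 1672) (nat_lit 0) (XT.nd (nat_lit 78) (nat_lit 988) (nat_lit 0) (XT.lf (nat_lit 0) (nat_lit 2643498109) (nat_lit 912) (nat_lit 5671152876) (nat_lit 988) (nat_lit 1414204648) (nat_lit 427)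 (nat_lit 5) (nat_lit 439) (nat_lit 5) (nat_lit 440) (nat_lit 5) (nat_lit 577) (nat_lit 543) (nat_lit 440)) (XT.nd (nat_lit 78) (nat_lit 912) (nat_lit 0) (XT.lf (nat_lit 0) (nat_lit 389960836) (nat_lit 988) (nat_lit 1441217148) (nat_lit 76) (nat_lit 7990554028) (nat_lit 426) (nat_lit 5) (nat_lit 439) (nat_lit 5) (nat_lit 427) (nat_lit 5) (nat_lit 578) (nat_lit 543) (nat_lit 439)) (XT.lf (nat_lit 0) (nat_lit 2231062641) (nat_lit 988) (nat_lit 5587914952) (nat_lit 76) (nat_lit 2096907575) (nat_lit 414) (nat_lit 5) (nat_lit 427) (nat_lit 5) (nat_lit 415) (nat_lit 5) (nat_lit 579) (nat_lit 543) (nat_lit 438)))) (XT.nd (nat_lit 156) (nat_lit 836) (nat_lit 0) (XT.nd (nat_lit 78) (nat_lit 0) (nat_lit 0) (XT.lf (nat_lit 0) (nat_lit 188986965) (nat_lit 836) (nat_lit 3921176118) (nat_lit 912) (nat_lit 5901736725) (nat_lit 403) (nat_lit 5) (nat_lit 414) (nat_lit 5) (nat_lit 415) (nat_lit 5) (nat_lit 580) (nat_lit 543) (nat_lit 437)) (XT.lf (nat_lit 0) (nat_lit 6043324056)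 (nat_lit 912) (nat_lit 3974457620) (nat_lit 76) (nat_lit 91725409) (nat_lit 403) (nat_lit 5) (nat_lit 415) (nat_lit 5) (nat_lit 404) (nat_lit 5) (nat_lit 581) (nat_lit 543) (nat_lit 436))) (XT.nd (nat_lit 78) (nat_lit 0) (nat_lit 0) (XT.lf (nat_lit 0) (nat_lit 1969314106) (nat_lit 836) (nat_lit 6063390212) (nat_lit 912) (nat_lit 2176012943) (nat_lit 392) (nat_lit 5) (nat_lit 403) (nat_lit 5) (nat_lit 404) (nat_lit 5) (nat_lit 582) (nat_lit 543) (nat_lit 435)) (XT.lf (nat_lit 0) (nat_lit 8064465158) (nat_lit 836) (nat_lit 2003156547) (nat_lit 912) (nat_lit 242176785) (nat_lit 392) (nat_lit 5) (nat_lit 403) (nat_lit 5) (nat_lit 404) (nat_lit 5) (nat_lit 583) (nat_lit 543) (nat_lit 434))))))) (XT.nd (nat_lit 1014) (nat_lit 5548) (nat_lit 0) (XT.nd (nat_lit 468) (nat_lit 2888) (nat_lit 0) (XT.nd (nat_lit 234) (nat_lit 1596) (nat_lit 0) (XT.nd (nat_lit 78) (nat_lit 836) (nat_lit 0) (XT.lf (nat_lit 0) (nat_lit 1726352633) (nat_lit 912) (nat_lit 6539571745) (nat_lit 76)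 (nat_lit 2146379842) (nat_lit 380) (nat_lit 5) (nat_lit 392) (nat_lit 5) (nat_lit 381) (nat_lit 5) (nat_lit 584) (nat_lit 543) (nat_lit 433)) (XT.nd (nat_lit 78) (nat_lit 836) (nat_lit 0) (XT.lf (nat_lit 0) (nat_lit 3739060795) (nat_lit 912) (nat_lit 409425731) (nat_lit 76) (nat_lit 6368182236) (nat_lit 380) (nat_lit 5) (nat_lit 392) (nat_lit 5) (nat_lit 381) (nat_lit 5) (nat_lit 585) (nat_lit 543) (nat_lit 432)) (XT.lf (nat_lit 0) (nat_lit 5810921591) (nat_lit 912) (nat_lit 4723709479) (nat_lit 76) (nat_lit 88113257) (nat_lit 369) (nat_lit 5) (nat_lit 381) (nat_lit 5) (nat_lit 370) (nat_lit 5) (nat_lit 586) (nat_lit 543) (nat_lit 431)))) (XT.nd (nat_lit 78) (nat_lit 836) (nat_lit 0) (XT.lf (nat_lit 0) (nat_lit 1580240038) (nat_lit 760) (nat_lit 6364741247) (nat_lit 836) (nat_lit 2785546550) (nat_lit 359) (nat_lit 5) (nat_lit 369) (nat_lit 5) (nat_lit 370) (nat_lit 5) (nat_lit 587) (nat_lit 543) (nat_lit 430)) (XT.nd (nat_lit 78) (nat_lit 836) (nat_lit 0) (XT.lf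 (nat_lit 0) (nat_lit 8053118407) (nat_lit 760) (nat_lit 2080814467) (nat_lit 836) (nat_lit 706291559) (nat_lit 359) (nat_lit 5) (nat_lit 369) (nat_lit 5) (nat_lit 370) (nat_lit 5) (nat_lit 588) (nat_lit 543) (nat_lit 429)) (XT.lf (nat_lit 0) (nat_lit 1415997532) (nat_lit 836) (nat_lit 7244957751) (nat_lit 76) (nat_lit 2290577545) (nat_lit 348) (nat_lit 5) (nat_lit 359) (nat_lit 5) (nat_lit 349) (nat_lit 5) (nat_lit 589) (nat_lit 543) (nat_lit 428))))) (XT.nd (nat_lit 234) (nat_lit 1444) (nat_lit 0) (XT.nd (nat_lit 78) (nat_lit 1444) (nat_lit 0) (XT.lf (nat_lit 0) (nat_lit 3584886419) (nat_lit 836) (nat_lit 736619002) (nat_lit 76) (nat_lit 6743197914) (nat_lit 348) (nat_lit 5) (nat_lit 359) (nat_lit 5) (nat_lit 349) (nat_lit 5) (nat_lit 590) (nat_lit 543) (nat_lit 427)) (XT.nd (nat_lit 78) (nat_lit 760) (nat_lit 0) (XT.lf (nat_lit 0) (nat_lit 5818134130) (nat_lit 760) (nat_lit 5221454088) (nat_lit 76) (nat_lit 140130921) (nat_lit 339) (nat_lit 5) (nat_lit 349) (nat_lit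 5) (nat_lit 340) (nat_lit 5) (nat_lit 591) (nat_lit 543) (nat_lit 426)) (XT.lf (nat_lit 0) (nat_lit 1469663722) (nat_lit 760) (nat_lit 6651104208) (nat_lit 836) (nat_lit 3175774386) (nat_lit 329) (nat_lit 5) (nat_lit 339) (nat_lit 5) (nat_lit 340) (nat_lit 5) (nat_lit 592) (nat_lit 543) (nat_lit 425)))) (XT.nd (nat_lit 156) (nat_lit 684) (nat_lit 0) (XT.nd (nat_lit 78) (nat_lit 760) (nat_lit 0) (XT.lf (nat_lit 0) (nat_lit 8344465935) (nat_lit 760) (nat_lit 2141836499) (nat_lit 836) (nat_lit 929064013) (nat_lit 329) (nat_lit 5) (nat_lit 339) (nat_lit 5) (nat_lit 340) (nat_lit 5) (nat_lit 593) (nat_lit 543) (nat_lit 424)) (XT.lf (nat_lit 0) (nat_lit 1367856843) (nat_lit 760) (nat_lit 7711434431) (nat_lit 76) (nat_lit 2456637311) (nat_lit 319) (nat_lit 5) (nat_lit 329) (nat_lit 5) (nat_lit 320) (nat_lit 5) (nat_lit 594) (nat_lit 543) (nat_lit 423))) (XT.nd (nat_lit 78) (nat_lit 684) (nat_lit 0) (XT.lf (nat_lit 0) (nat_lit 3715461808) (nat_lit 760) (nat_lit 800486729)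 (nat_lit 76) (nat_lit 7142488254) (nat_lit 319) (nat_lit 5) (nat_lit 329) (nat_lit 5) (nat_lit 320) (nat_lit 5) (nat_lit 595) (nat_lit 543) (nat_lit 422)) (XT.lf (nat_lit 0) (nat_lit 6134738978) (nat_lit 760) (nat_lit 5473163967) (nat_lit 76) (nat_lit 174999156) (nat_lit 310) (nat_lit 5) (nat_lit 320) (nat_lit 5) (nat_lit 311) (nat_lit 5) (nat_lit 596) (nat_lit 543) (nat_lit 421)))))) (XT.nd (nat_lit 546) (nat_lit 2964) (nat_lit 0) (XT.nd (nat_lit 234) (nat_lit 1216) (nat_lit 0) (XT.nd (nat_lit 78) (nat_lit 760) (nat_lit 0) (XT.lf (nat_lit 0) (nat_lit 1634031569) (nat_lit 608) (nat_lit 6997075740) (nat_lit 684) (nat_lit 3278176608) (nat_lit 302) (nat_lit 5) (nat_lit 310) (nat_lit 5) (nat_lit 311) (nat_lit 5) (nat_lit 597) (nat_lit 543) (nat_lit 420)) (XT.nd (nat_lit 78) (nat_lit 760) (nat_lit 0) (XT.lf (nat_lit 0) (nat_lit 8936971998) (nat_lit 608) (nat_lit 2260144944) (nat_lit 684) (nat_lit 840683440) (nat_lit 302) (nat_lit 5) (nat_lit 310) (nat_lit 5) (nat_lit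 311) (nat_lit 5) (nat_lit 598) (nat_lit 543) (nat_lit 419)) (XT.lf (nat_lit 0) (nat_lit 1651650894) (nat_lit 760) (nat_lit 7943765753) (nat_lit 76) (nat_lit 2572704621) (nat_lit 292) (nat_lit 5) (nat_lit 302) (nat_lit 5) (nat_lit 293) (nat_lit 5) (nat_lit 599) (nat_lit 543) (nat_lit 418)))) (XT.nd (nat_lit 156) (nat_lit 608) (nat_lit 0) (XT.nd (nat_lit 78) (nat_lit 608) (nat_lit 0) (XT.lf (nat_lit 0) (nat_lit 4201881254) (nat_lit 760) (nat_lit 603814668) (nat_lit 76) (nat_lit 7494856605) (nat_lit 292) (nat_lit 5) (nat_lit 302) (nat_lit 5) (nat_lit 293) (nat_lit 5) (nat_lit 600) (nat_lit 543) (nat_lit 417)) (XT.lf (nat_lit 0) (nat_lit 6832765491) (nat_lit 684) (nat_lit 5481891805) (nat_lit 76) (nat_lit 120383319) (nat_lit 284) (nat_lit 5) (nat_lit 293) (nat_lit 5) (nat_lit 285) (nat_lit 5) (nat_lit 601) (nat_lit 543) (nat_lit 416))) (XT.nd (nat_lit 78) (nat_lit 0) (nat_lit 0) (XT.lf (nat_lit 0) (nat_lit 2072278643) (nat_lit 608) (nat_lit 7477219176) (nat_lit 684)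 (nat_lit 3022057204) (nat_lit 276) (nat_lit 5) (nat_lit 284) (nat_lit 5) (nat_lit 285) (nat_lit 5) (nat_lit 602) (nat_lit 543) (nat_lit 415)) (XT.lf (nat_lit 0) (nat_lit 9831628816) (nat_lit 608) (nat_lit 2509778628) (nat_lit 684) (nat_lit 368976566) (nat_lit 276) (nat_lit 5) (nat_lit 284) (nat_lit 5) (nat_lit 285) (nat_lit 5) (nat_lit 603) (nat_lit 543) (nat_lit 414))))) (XT.nd (nat_lit 234) (nat_lit 1672) (nat_lit 0) (XT.nd (nat_lit 78) (nat_lit 608) (nat_lit 0) (XT.lf (nat_lit 0) (nat_lit 2339630699) (nat_lit 684) (nat_lit 7944699571) (nat_lit 76) (nat_lit 2566694571) (nat_lit 267) (nat_lit 5) (nat_lit 276) (nat_lit 5) (nat_lit 268) (nat_lit 5) (nat_lit 604) (nat_lit 543) (nat_lit 413)) (XT.nd (nat_lit 78) (nat_lit 608) (nat_lit 0) (XT.lf (nat_lit 0) (nat_lit 5117956560) (nat_lit 684) (nat_lit 147333400) (nat_lit 76) (nat_lit 7728731087) (nat_lit 267) (nat_lit 5) (nat_lit 276) (nat_lit 5) (nat_lit 268) (nat_lit 5) (nat_lit 605) (nat_lit 543) (nat_lit 412)) (XT.lf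 (nat_lit 0) (nat_lit 7889671851) (nat_lit 608) (nat_lit 98123129) (nat_lit 684) (nat_lit 5151364333) (nat_lit 259) (nat_lit 5) (nat_lit 267) (nat_lit 5) (nat_lit 268) (nat_lit 5) (nat_lit 606) (nat_lit 543) (nat_lit 411)))) (XT.nd (nat_lit 156) (nat_lit 1064) (nat_lit 0) (XT.nd (nat_lit 78) (nat_lit 76) (nat_lit 0) (XT.lf (nat_lit 0) (nat_lit 2785247464) (nat_lit 532) (nat_lit 8167307714) (nat_lit 608) (nat_lit 2333895702) (nat_lit 252) (nat_lit 5) (nat_lit 259) (nat_lit 5) (nat_lit 260) (nat_lit 5) (nat_lit 607) (nat_lit 543) (nat_lit 410)) (XT.lf (nat_lit 0) (nat_lit 553882735) (nat_lit 608) (nat_lit 2408533488) (nat_lit 76) (nat_lit 10473782108) (nat_lit 251) (nat_lit 5) (nat_lit 259) (nat_lit 5) (nat_lit 252) (nat_lit 5) (nat_lit 608) (nat_lit 543) (nat_lit 409))) (XT.nd (nat_lit 78) (nat_lit 532) (nat_lit 0) (XT.lf (nat_lit 0) (nat_lit 3507211700) (nat_lit 608) (nat_lit 7715569641) (nat_lit 76) (nat_lit 2365070909) (nat_lit 244) (nat_lit 5) (nat_lit 252) (nat_lit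 5) (nat_lit 245) (nat_lit 5) (nat_lit 609) (nat_lit 543) (nat_lit 408)) (XT.lf (nat_lit 0) (nat_lit 577255589) (nat_lit 532) (nat_lit 5967346555) (nat_lit 608) (nat_lit 7197438162) (nat_lit 237) (nat_lit 5) (nat_lit 244) (nat_lit 5) (nat_lit 245) (nat_lit 5) (nat_lit 610) (nat_lit 543) (nat_lit 407))))))))
noncomputable def xc131 : XT := (XT.nd (nat_lit 2106) (nat_lit 4408) (nat_lit 0) (XT.nd (nat_lit 1014) (nat_lit 3268) (nat_lit 0) (XT.nd (nat_lit 468) (nat_lit 2356) (nat_lit 0) (XT.nd (nat_lit 234) (nat_lit 988) (nat_lit 0) (XT.nd (nat_lit 78) (nat_lit 608) (nat_lit 0) (XT.lf (nat_lit 0) (nat_lit 9120916877) (nat_lit 532) (nat_lit 559117595) (nat_lit 608) (nat_lit 4218532708) (nat_lit 237) (nat_lit 5) (nat_lit 244) (nat_lit 5) (nat_lit 245) (nat_lit 5) (nat_lit 611) (nat_lit 543) (nat_lit 406)) (XT.nd (nat_lit 78) (nat_lit 76) (nat_lit 0) (XT.lf (nat_lit 0) (nat_lit 3775076871) (nat_lit 532) (nat_lit 9145564668) (nat_lit 608) (nat_lit 1136734651) (nat_lit 230)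 (nat_lit 5) (nat_lit 237) (nat_lit 5) (nat_lit 238) (nat_lit 5) (nat_lit 612) (nat_lit 543) (nat_lit 405)) (XT.lf (nat_lit 0) (nat_lit 2002185942) (nat_lit 608) (nat_lit 1691579081) (nat_lit 76) (nat_lit 10524900568) (nat_lit 229) (nat_lit 5) (nat_lit 237) (nat_lit 5) (nat_lit 230) (nat_lit 5) (nat_lit 613) (nat_lit 543) (nat_lit 404)))) (XT.nd (nat_lit 78) (nat_lit 532) (nat_lit 0) (XT.lf (nat_lit 0) (nat_lit 5233574111) (nat_lit 532) (nat_lit 7256937572) (nat_lit 76) (nat_lit 1891621488) (nat_lit 223) (nat_lit 5) (nat_lit 230) (nat_lit 5) (nat_lit 224) (nat_lit 5) (nat_lit 614) (nat_lit 543) (nat_lit 403)) (XT.nd (nat_lit 78) (nat_lit 0) (nat_lit 0) (XT.lf (nat_lit 0) (nat_lit 1569369600) (nat_lit 532) (nat_lit 6992520013) (nat_lit 608) (nat_lit 5986335348) (nat_lit 216) (nat_lit 5) (nat_lit 223) (nat_lit 5) (nat_lit 224) (nat_lit 5) (nat_lit 615) (nat_lit 543) (nat_lit 402)) (XT.lf (nat_lit 0) (nat_lit 10651431109) (nat_lit 532) (nat_lit 1340405671) (nat_lit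 608) (nat_lit 2725101333) (nat_lit 216) (nat_lit 5) (nat_lit 223) (nat_lit 5) (nat_lit 224) (nat_lit 5) (nat_lit 616) (nat_lit 543) (nat_lit 401))))) (XT.nd (nat_lit 234) (nat_lit 1368) (nat_lit 0) (XT.nd (nat_lit 78) (nat_lit 456) (nat_lit 0) (XT.lf (nat_lit 0) (nat_lit 641868707) (nat_lit 532) (nat_lit 9847746827) (nat_lit 76) (nat_lit 4398364741) (nat_lit 209) (nat_lit 5) (nat_lit 216) (nat_lit 5) (nat_lit 210) (nat_lit 5) (nat_lit 617) (nat_lit 543) (nat_lit 400)) (XT.nd (nat_lit 78) (nat_lit 456) (nat_lit 0) (XT.lf (nat_lit 0) (nat_lit 4062713697) (nat_lit 532) (nat_lit 724856903) (nat_lit 76) (nat_lit 10274052712) (nat_lit 209) (nat_lit 5) (nat_lit 216) (nat_lit 5) (nat_lit 210) (nat_lit 5) (nat_lit 618) (nat_lit 543) (nat_lit 399)) (XT.lf (nat_lit 0) (nat_lit 7602230889) (nat_lit 532) (nat_lit 6569295749) (nat_lit 76) (nat_lit 1066208239) (nat_lit 203) (nat_lit 5) (nat_lit 210) (nat_lit 5) (nat_lit 204) (nat_lit 5) (nat_lit 619) (nat_lit 543) (nat_lit 398))))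 (XT.nd (nat_lit 156) (nat_lit 912) (nat_lit 0) (XT.nd (nat_lit 78) (nat_lit 0) (nat_lit 0) (XT.lf (nat_lit 0) (nat_lit 2828737402) (nat_lit 456) (nat_lit 8425782010) (nat_lit 532) (nat_lit 4162010394) (nat_lit 197) (nat_lit 5) (nat_lit 203) (nat_lit 5) (nat_lit 204) (nat_lit 5) (nat_lit 620) (nat_lit 543) (nat_lit 397)) (XT.lf (nat_lit 0) (nat_lit 12485123961) (nat_lit 456) (nat_lit 2525959502) (nat_lit 532) (nat_lit 587193316) (nat_lit 197) (nat_lit 5) (nat_lit 203) (nat_lit 5) (nat_lit 204) (nat_lit 5) (nat_lit 621) (nat_lit 543) (nat_lit 396))) (XT.nd (nat_lit 78) (nat_lit 380) (nat_lit 0) (XT.lf (nat_lit 0) (nat_lit 3072209085) (nat_lit 532) (nat_lit 9206499988) (nat_lit 76) (nat_lit 3503488895) (nat_lit 190) (nat_lit 5) (nat_lit 197) (nat_lit 5) (nat_lit 191) (nat_lit 5) (nat_lit 622) (nat_lit 543) (nat_lit 395)) (XT.lf (nat_lit 0) (nat_lit 498374527) (nat_lit 380) (nat_lit 6326969398) (nat_lit 456) (nat_lit 9143808589) (nat_lit 185) (nat_lit 5) (nat_lit 190)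 (nat_lit 5) (nat_lit 191) (nat_lit 5) (nat_lit 623) (nat_lit 543) (nat_lit 394)))))) (XT.nd (nat_lit 546) (nat_lit 1520) (nat_lit 0) (XT.nd (nat_lit 234) (nat_lit 1216) (nat_lit 0) (XT.nd (nat_lit 78) (nat_lit 532) (nat_lit 0) (XT.lf (nat_lit 0) (nat_lit 10503712990) (nat_lit 380) (nat_lit 199142535) (nat_lit 456) (nat_lit 5456005026) (nat_lit 185) (nat_lit 5) (nat_lit 190) (nat_lit 5) (nat_lit 191) (nat_lit 5) (nat_lit 624) (nat_lit 543) (nat_lit 393)) (XT.nd (nat_lit 78) (nat_lit 76) (nat_lit 0) (XT.lf (nat_lit 0) (nat_lit 4356365471) (nat_lit 456) (nat_lit 10356865051) (nat_lit 532) (nat_lit 1638026635) (nat_lit 179) (nat_lit 5) (nat_lit 185) (nat_lit 5) (nat_lit 186) (nat_lit 5) (nat_lit 625) (nat_lit 543) (nat_lit 392)) (XT.lf (nat_lit 0) (nat_lit 2254020118) (nat_lit 532) (nat_lit 1936515181) (nat_lit 76) (nat_lit 12356128036) (nat_lit 178) (nat_lit 5) (nat_lit 185) (nat_lit 5) (nat_lit 179) (nat_lit 5) (nat_lit 626) (nat_lit 543) (nat_lit 391)))) (XT.nd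 (nat_lit 156) (nat_lit 456) (nat_lit 0) (XT.nd (nat_lit 78) (nat_lit 380) (nat_lit 0) (XT.lf (nat_lit 0) (nat_lit 6258606790) (nat_lit 456) (nat_lit 8354485422) (nat_lit 76) (nat_lit 2131536865) (nat_lit 173) (nat_lit 5) (nat_lit 179) (nat_lit 5) (nat_lit 174) (nat_lit 5) (nat_lit 627) (nat_lit 543) (nat_lit 390)) (XT.lf (nat_lit 0) (nat_lit 1983426181) (nat_lit 380) (nat_lit 8401671067) (nat_lit 456) (nat_lit 6560621266) (nat_lit 168) (nat_lit 5) (nat_lit 173) (nat_lit 5) (nat_lit 174) (nat_lit 5) (nat_lit 628) (nat_lit 543) (nat_lit 389))) (XT.nd (nat_lit 78) (nat_lit 456) (nat_lit 0) (XT.lf (nat_lit 0) (nat_lit 12623421683) (nat_lit 380) (nat_lit 2014977123) (nat_lit 456) (nat_lit 2511545913) (nat_lit 168) (nat_lit 5) (nat_lit 173) (nat_lit 5) (nat_lit 174) (nat_lit 5) (nat_lit 629) (nat_lit 543) (nat_lit 388)) (XT.lf (nat_lit 0) (nat_lit 1655228856) (nat_lit 456) (nat_lit 11216328699) (nat_lit 76) (nat_lit 4485329409) (nat_lit 162) (nat_lit 5) (nat_lit 168)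 (nat_lit 5) (nat_lit 163) (nat_lit 5) (nat_lit 630) (nat_lit 543) (nat_lit 387))))) (XT.nd (nat_lit 234) (nat_lit 760) (nat_lit 0) (XT.nd (nat_lit 78) (nat_lit 760) (nat_lit 0) (XT.lf (nat_lit 0) (nat_lit 5904108018) (nat_lit 456) (nat_lit 532999236) (nat_lit 76) (nat_lit 11129881375) (nat_lit 162) (nat_lit 5) (nat_lit 168) (nat_lit 5) (nat_lit 163) (nat_lit 5) (nat_lit 631) (nat_lit 543) (nat_lit 386)) (XT.nd (nat_lit 78) (nat_lit 380) (nat_lit 0) (XT.lf (nat_lit 0) (nat_lit 10295936327) (nat_lit 456) (nat_lit 7297341334) (nat_lit 76) (nat_lit 186855795) (nat_lit 157) (nat_lit 5) (nat_lit 163) (nat_lit 5) (nat_lit 158) (nat_lit 5) (nat_lit 632) (nat_lit 543) (nat_lit 385)) (XT.lf (nat_lit 0) (nat_lit 3717231927) (nat_lit 380) (nat_lit 11117476938) (nat_lit 456) (nat_lit 3161650712) (nat_lit 152) (nat_lit 5) (nat_lit 157) (nat_lit 5) (nat_lit 158) (nat_lit 5) (nat_lit 633) (nat_lit 543) (nat_lit 384)))) (XT.nd (nat_lit 156) (nat_lit 304) (nat_lit 0) (XT.nd (nat_lit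 78) (nat_lit 380) (nat_lit 0) (XT.lf (nat_lit 0) (nat_lit 1269056793) (nat_lit 456) (nat_lit 3190895430) (nat_lit 76) (nat_lit 13756035168) (nat_lit 151) (nat_lit 5) (nat_lit 157) (nat_lit 5) (nat_lit 152) (nat_lit 5) (nat_lit 634) (nat_lit 543) (nat_lit 383)) (XT.lf (nat_lit 0) (nat_lit 5803826828) (nat_lit 456) (nat_lit 10265985899) (nat_lit 76) (nat_lit 2368621923) (nat_lit 146) (nat_lit 5) (nat_lit 152) (nat_lit 5) (nat_lit 147) (nat_lit 5) (nat_lit 635) (nat_lit 543) (nat_lit 382))) (XT.nd (nat_lit 78) (nat_lit 0) (nat_lit 0) (XT.lf (nat_lit 0) (nat_lit 1109000972) (nat_lit 304) (nat_lit 9367642777) (nat_lit 380) (nat_lit 8187740583) (nat_lit 142) (nat_lit 5) (nat_lit 146) (nat_lit 5) (nat_lit 147) (nat_lit 5) (nat_lit 636) (nat_lit 543) (nat_lit 381)) (XT.lf (nat_lit 0) (nat_lit 12833482880) (nat_lit 304) (nat_lit 2467487978) (nat_lit 380) (nat_lit 3592721573) (nat_lit 142) (nat_lit 5) (nat_lit 146) (nat_lit 5) (nat_lit 147) (nat_lit 5) (nat_lit 637) (nat_lit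 543) (nat_lit 380))))))) (XT.nd (nat_lit 1092) (nat_lit 1368) (nat_lit 0) (XT.nd (nat_lit 546) (nat_lit 1292) (nat_lit 0) (XT.nd (nat_lit 234) (nat_lit 988) (nat_lit 0) (XT.nd (nat_lit 78) (nat_lit 304) (nat_lit 0) (XT.lf (nat_lit 0) (nat_lit 1136190921) (nat_lit 456) (nat_lit 13441086919) (nat_lit 76) (nat_lit 4549040368) (nat_lit 136) (nat_lit 5) (nat_lit 142) (nat_lit 5) (nat_lit 137) (nat_lit 5) (nat_lit 638) (nat_lit 543) (nat_lit 379)) (XT.nd (nat_lit 78) (nat_lit 304) (nat_lit 0) (XT.lf (nat_lit 0) (nat_lit 5958262495) (nat_lit 456) (nat_lit 1672486611) (nat_lit 76) (nat_lit 11731439161) (nat_lit 136) (nat_lit 5) (nat_lit 142) (nat_lit 5) (nat_lit 137) (nat_lit 5) (nat_lit 639) (nat_lit 543) (nat_lit 378)) (XT.lf (nat_lit 0) (nat_lit 10451868763) (nat_lit 304) (nat_lit 482340638) (nat_lit 380) (nat_lit 8667418107) (nat_lit 132) (nat_lit 5) (nat_lit 136) (nat_lit 5) (nat_lit 137) (nat_lit 5) (nat_lit 640) (nat_lit 543) (nat_lit 377)))) (XT.nd (nat_lit 156)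 (nat_lit 608) (nat_lit 0) (XT.nd (nat_lit 78) (nat_lit 76) (nat_lit 0) (XT.lf (nat_lit 0) (nat_lit 2973717229) (nat_lit 304) (nat_lit 13100401315) (nat_lit 380) (nat_lit 3770448575) (nat_lit 128) (nat_lit 5) (nat_lit 132) (nat_lit 5) (nat_lit 133) (nat_lit 5) (nat_lit 641) (nat_lit 543) (nat_lit 376)) (XT.lf (nat_lit 0) (nat_lit 1263058349) (nat_lit 380) (nat_lit 4655777716) (nat_lit 76) (nat_lit 14172277751) (nat_lit 127) (nat_lit 5) (nat_lit 132) (nat_lit 5) (nat_lit 128) (nat_lit 5) (nat_lit 642) (nat_lit 543) (nat_lit 375))) (XT.nd (nat_lit 78) (nat_lit 304) (nat_lit 0) (XT.lf (nat_lit 0) (nat_lit 6397316068) (nat_lit 380) (nat_lit 12485536645) (nat_lit 76) (nat_lit 1458229365) (nat_lit 123) (nat_lit 5) (nat_lit 128) (nat_lit 5) (nat_lit 124) (nat_lit 5) (nat_lit 643) (nat_lit 543) (nat_lit 374)) (XT.lf (nat_lit 0) (nat_lit 29257063) (nat_lit 304) (nat_lit 11665750128) (nat_lit 380) (nat_lit 8899827967) (nat_lit 119) (nat_lit 5) (nat_lit 123) (nat_lit 5) (nat_lit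 124) (nat_lit 5) (nat_lit 644) (nat_lit 543) (nat_lit 373))))) (XT.nd (nat_lit 234) (nat_lit 912) (nat_lit 0) (XT.nd (nat_lit 78) (nat_lit 380) (nat_lit 0) (XT.lf (nat_lit 0) (nat_lit 12947197311) (nat_lit 304) (nat_lit 4225241808) (nat_lit 380) (nat_lit 3679748848) (nat_lit 119) (nat_lit 5) (nat_lit 123) (nat_lit 5) (nat_lit 124) (nat_lit 5) (nat_lit 645) (nat_lit 543) (nat_lit 372)) (XT.nd (nat_lit 78) (nat_lit 0) (nat_lit 0) (XT.lf (nat_lit 0) (nat_lit 1668158359) (nat_lit 380) (nat_lit 16087972046) (nat_lit 76) (nat_lit 3357444298) (nat_lit 114) (nat_lit 5) (nat_lit 119) (nat_lit 5) (nat_lit 115) (nat_lit 5) (nat_lit 646) (nat_lit 543) (nat_lit 371)) (XT.lf (nat_lit 0) (nat_lit 7145358720) (nat_lit 380) (nat_lit 3126120847) (nat_lit 76) (nat_lit 11106791392) (nat_lit 114) (nat_lit 5) (nat_lit 119) (nat_lit 5) (nat_lit 115) (nat_lit 5) (nat_lit 647) (nat_lit 543) (nat_lit 370)))) (XT.nd (nat_lit 156) (nat_lit 380) (nat_lit 0) (XT.nd (nat_lit 78) (nat_lit 228)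 (nat_lit 0) (XT.lf (nat_lit 0) (nat_lit 10212978663) (nat_lit 304) (nat_lit 2575807488) (nat_lit 380) (nat_lit 8858341705) (nat_lit 110) (nat_lit 5) (nat_lit 114) (nat_lit 5) (nat_lit 115) (nat_lit 5) (nat_lit 648) (nat_lit 543) (nat_lit 369)) (XT.lf (nat_lit 0) (nat_lit 1915050375) (nat_lit 228) (nat_lit 16688242023) (nat_lit 304) (nat_lit 3316905656) (nat_lit 107) (nat_lit 5) (nat_lit 110) (nat_lit 5) (nat_lit 111) (nat_lit 5) (nat_lit 649) (nat_lit 543) (nat_lit 368))) (XT.nd (nat_lit 78) (nat_lit 304) (nat_lit 0) (XT.lf (nat_lit 0) (nat_lit 2389466420) (nat_lit 304) (nat_lit 6559698963) (nat_lit 76) (nat_lit 13247566657) (nat_lit 106) (nat_lit 5) (nat_lit 110) (nat_lit 5) (nat_lit 107) (nat_lit 5) (nat_lit 650) (nat_lit 543) (nat_lit 367)) (XT.lf (nat_lit 0) (nat_lit 7211585911) (nat_lit 304) (nat_lit 991458357) (nat_lit 380) (nat_lit 14274564458) (nat_lit 102) (nat_lit 5) (nat_lit 106) (nat_lit 5) (nat_lit 107) (nat_lit 5) (nat_lit 651) (nat_lit 543) (nat_lit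 366)))))) (XT.nd (nat_lit 546) (nat_lit 228) (nat_lit 0) (XT.nd (nat_lit 234) (nat_lit 532) (nat_lit 0) (XT.nd (nat_lit 78) (nat_lit 608) (nat_lit 0) (XT.lf (nat_lit 0) (nat_lit 14214136556) (nat_lit 380) (nat_lit 1478291848) (nat_lit 76) (nat_lit 7070050024) (nat_lit 102) (nat_lit 5) (nat_lit 107) (nat_lit 5) (nat_lit 103) (nat_lit 5) (nat_lit 652) (nat_lit 543) (nat_lit 365)) (XT.nd (nat_lit 78) (nat_lit 380) (nat_lit 0) (XT.lf (nat_lit 0) (nat_lit 12730164762) (nat_lit 228) (nat_lit 7695356994) (nat_lit 304) (nat_lit 2625922682) (nat_lit 99) (nat_lit 5) (nat_lit 102) (nat_lit 5) (nat_lit 103) (nat_lit 5) (nat_lit 653) (nat_lit 543) (nat_lit 364)) (XT.lf (nat_lit 0) (nat_lit 3399741743) (nat_lit 380) (nat_lit 19438114628) (nat_lit 76) (nat_lit 507298590) (nat_lit 94) (nat_lit 5) (nat_lit 99) (nat_lit 5) (nat_lit 95) (nat_lit 5) (nat_lit 654) (nat_lit 543) (nat_lit 363)))) (XT.nd (nat_lit 156) (nat_lit 304) (nat_lit 0) (XT.nd (nat_lit 78) (nat_lit 228) (nat_lit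 0) (XT.lf (nat_lit 0) (nat_lit 9622384253) (nat_lit 380) (nat_lit 5167812042) (nat_lit 76) (nat_lit 8851964049) (nat_lit 94) (nat_lit 5) (nat_lit 99) (nat_lit 5) (nat_lit 95) (nat_lit 5) (nat_lit 655) (nat_lit 543) (nat_lit 362)) (XT.lf (nat_lit 0) (nat_lit 9497278196) (nat_lit 228) (nat_lit 6524952774) (nat_lit 304) (nat_lit 7921820148) (nat_lit 91) (nat_lit 5) (nat_lit 94) (nat_lit 5) (nat_lit 95) (nat_lit 5) (nat_lit 656) (nat_lit 543) (nat_lit 361))) (XT.nd (nat_lit 78) (nat_lit 76) (nat_lit 0) (XT.lf (nat_lit 0) (nat_lit 249897027) (nat_lit 228) (nat_lit 22340205916) (nat_lit 304) (nat_lit 1661076499) (nat_lit 88) (nat_lit 5) (nat_lit 91) (nat_lit 5) (nat_lit 92) (nat_lit 5) (nat_lit 657) (nat_lit 543) (nat_lit 360)) (XT.lf (nat_lit 0) (nat_lit 4794855787) (nat_lit 304) (nat_lit 9215943381) (nat_lit 76) (nat_lit 10550399089) (nat_lit 87) (nat_lit 5) (nat_lit 91) (nat_lit 5) (nat_lit 88) (nat_lit 5) (nat_lit 658) (nat_lit 543) (nat_lit 359))))) (XT.nd (nat_lit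 72384) (nat_lit 0) (nat_lit 40280) (XT.nd (nat_lit 72228) (nat_lit 0) (nat_lit 40280) (XT.lf (nat_lit 0) (nat_lit 5916768628) (nat_lit 228) (nat_lit 5470648697) (nat_lit 304) (nat_lit 13489185765) (nat_lit 84) (nat_lit 5) (nat_lit 87) (nat_lit 5) (nat_lit 88) (nat_lit 5) (nat_lit 659) (nat_lit 543) (nat_lit 358)) (XT.nd (nat_lit 78) (nat_lit 1292) (nat_lit 0) (XT.lf (nat_lit 0) (nat_lit 3565705715) (nat_lit 1292) (nat_lit 101934621) (nat_lit 1292) (nat_lit 101934621) (nat_lit 631) (nat_lit 3) (nat_lit 648) (nat_lit 3) (nat_lit 648) (nat_lit 5) (nat_lit 544) (nat_lit 544) (nat_lit 472)) (XT.lf (nat_lit 0) (nat_lit 1046978931) (nat_lit 1292) (nat_lit 4018964007) (nat_lit 1368) (nat_lit 2519422951) (nat_lit 614) (nat_lit 5) (nat_lit 631) (nat_lit 3) (nat_lit 632) (nat_lit 5) (nat_lit 545) (nat_lit 544) (nat_lit 471)))) (XT.nd (nat_lit 156) (nat_lit 0) (nat_lit 76) (XT.nd (nat_lit 78) (nat_lit 0) (nat_lit 0) (XT.lf (nat_lit 0) (nat_lit 2489077018) (nat_lit 1292) (nat_lit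 240107620) (nat_lit 1368) (nat_lit 4903996948) (nat_lit 614) (nat_lit 5) (nat_lit 631) (nat_lit 3) (nat_lit 632) (nat_lit 5) (nat_lit 546) (nat_lit 544) (nat_lit 470)) (XT.lf (nat_lit 76) (nat_lit 3642726973) (nat_lit 0) (nat_lit 304042763) (nat_lit 1368) (nat_lit 3735452951) (nat_lit 615) (nat_lit 5) (nat_lit 614) (nat_lit 5) (nat_lit 632) (nat_lit 5) (nat_lit 547) (nat_lit 544) (nat_lit 469))) (XT.nd (nat_lit 78) (nat_lit 0) (nat_lit 0) (XT.lf (nat_lit 0) (nat_lit 5413135651) (nat_lit 1292) (nat_lit 159923830) (nat_lit 1368) (nat_lit 2159598805) (nat_lit 615) (nat_lit 5) (nat_lit 632) (nat_lit 5) (nat_lit 633) (nat_lit 5) (nat_lit 548) (nat_lit 544) (nat_lit 468)) (XT.lf (nat_lit 76) (nat_lit 3825707413) (nat_lit 0) (nat_lit 3074494546) (nat_lit 1368) (nat_lit 884077158) (nat_lit 616) (nat_lit 5) (nat_lit 615) (nat_lit 5) (nat_lit 633) (nat_lit 5) (nat_lit 549) (nat_lit 544) (nat_lit 467))))))))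
noncomputable def xc132 : XT := (XT.nd (nat_lit 2106) (nat_lit 12388) (nat_lit 0) (XT.nd (nat_lit 1014) (nat_lit 9348) (nat_lit 0) (XT.nd (nat_lit 468) (nat_lit 2660) (nat_lit 0) (XT.nd (nat_lit 234) (nat_lit 0) (nat_lit 76) (XT.nd (nat_lit 78) (nat_lit 0) (nat_lit 76) (XT.lf (nat_lit 76) (nat_lit 32932017) (nat_lit 0) (nat_lit 505685611) (nat_lit 1444) (nat_lit 7298920276) (nat_lit 598) (nat_lit 5) (nat_lit 597) (nat_lit 5) (nat_lit 616) (nat_lit 5) (nat_lit 550) (nat_lit 544) (nat_lit 466)) (XT.nd (nat_lit 78) (nat_lit 0) (nat_lit 0) (XT.lf (nat_lit 0) (nat_lit 1983917703) (nat_lit 1368) (nat_lit 3773858485) (nat_lit 1444) (nat_lit 2133852772) (nat_lit 598) (nat_lit 5) (nat_lit 616) (nat_lit 5) (nat_lit 617) (nat_lit 5) (nat_lit 551) (nat_lit 544) (nat_lit 465)) (XT.lf (nat_lit 76) (nat_lit 318038115) (nat_lit 0) (nat_lit 3111685142) (nat_lit 1444) (nat_lit 4517650271) (nat_lit 599) (nat_lit 5) (nat_lit 598) (nat_lit 5) (nat_lit 617) (nat_lit 5) (nat_lit 552)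 (nat_lit 544) (nat_lit 464)))) (XT.nd (nat_lit 78) (nat_lit 0) (nat_lit 76) (XT.lf (nat_lit 76) (nat_lit 4522773800) (nat_lit 0) (nat_lit 373713521) (nat_lit 1444) (nat_lit 3107908425) (nat_lit 599) (nat_lit 5) (nat_lit 598) (nat_lit 5) (nat_lit 617) (nat_lit 5) (nat_lit 553) (nat_lit 544) (nat_lit 463)) (XT.nd (nat_lit 78) (nat_lit 0) (nat_lit 0) (XT.lf (nat_lit 76) (nat_lit 722314207) (nat_lit 0) (nat_lit 5658122045) (nat_lit 1444) (nat_lit 1682368701) (nat_lit 600) (nat_lit 5) (nat_lit 599) (nat_lit 5) (nat_lit 618) (nat_lit 5) (nat_lit 554) (nat_lit 544) (nat_lit 462)) (XT.lf (nat_lit 76) (nat_lit 5034651437) (nat_lit 0) (nat_lit 2853194798) (nat_lit 1444) (nat_lit 234663935) (nat_lit 600) (nat_lit 5) (nat_lit 599) (nat_lit 5) (nat_lit 618) (nat_lit 5) (nat_lit 555) (nat_lit 544) (nat_lit 461))))) (XT.nd (nat_lit 234) (nat_lit 1444) (nat_lit 0) (XT.nd (nat_lit 78) (nat_lit 0) (nat_lit 0) (XT.lf (nat_lit 0) (nat_lit 1202348470) (nat_lit 1444) (nat_lit 6946348661)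 (nat_lit 1520) (nat_lit 35021566) (nat_lit 581) (nat_lit 5) (nat_lit 600) (nat_lit 5) (nat_lit 601) (nat_lit 5) (nat_lit 556) (nat_lit 544) (nat_lit 460)) (XT.nd (nat_lit 78) (nat_lit 0) (nat_lit 0) (XT.lf (nat_lit 0) (nat_lit 2673651598) (nat_lit 1444) (nat_lit 2596314367) (nat_lit 1520) (nat_lit 2975983820) (nat_lit 581) (nat_lit 5) (nat_lit 600) (nat_lit 5) (nat_lit 601) (nat_lit 5) (nat_lit 557) (nat_lit 544) (nat_lit 459)) (XT.lf (nat_lit 76) (nat_lit 1844369759) (nat_lit 0) (nat_lit 2311530975) (nat_lit 1520) (nat_lit 4153897566) (nat_lit 582) (nat_lit 5) (nat_lit 581) (nat_lit 5) (nat_lit 601) (nat_lit 5) (nat_lit 558) (nat_lit 544) (nat_lit 458)))) (XT.nd (nat_lit 156) (nat_lit 1520) (nat_lit 0) (XT.nd (nat_lit 78) (nat_lit 0) (nat_lit 0) (XT.lf (nat_lit 0) (nat_lit 5659989144) (nat_lit 1444) (nat_lit 1991283855) (nat_lit 1520) (nat_lit 723810041) (nat_lit 582) (nat_lit 5) (nat_lit 601) (nat_lit 5) (nat_lit 602) (nat_lit 5) (nat_lit 559) (nat_lit 544) (nat_lit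 457)) (XT.lf (nat_lit 76) (nat_lit 2570085708) (nat_lit 0) (nat_lit 4626727270) (nat_lit 1520) (nat_lit 1244810502) (nat_lit 583) (nat_lit 5) (nat_lit 582) (nat_lit 5) (nat_lit 602) (nat_lit 5) (nat_lit 560) (nat_lit 544) (nat_lit 456))) (XT.nd (nat_lit 78) (nat_lit 0) (nat_lit 76) (XT.lf (nat_lit 0) (nat_lit 235893360) (nat_lit 1520) (nat_lit 1282206467) (nat_lit 1596) (nat_lit 6991677612) (nat_lit 562) (nat_lit 5) (nat_lit 582) (nat_lit 5) (nat_lit 583) (nat_lit 5) (nat_lit 561) (nat_lit 544) (nat_lit 455)) (XT.lf (nat_lit 0) (nat_lit 1734191943) (nat_lit 1520) (nat_lit 5175288716) (nat_lit 1596) (nat_lit 1669559184) (nat_lit 563) (nat_lit 5) (nat_lit 583) (nat_lit 5) (nat_lit 584) (nat_lit 5) (nat_lit 562) (nat_lit 544) (nat_lit 454)))))) (XT.nd (nat_lit 546) (nat_lit 6384) (nat_lit 0) (XT.nd (nat_lit 234) (nat_lit 3040) (nat_lit 0) (XT.nd (nat_lit 78) (nat_lit 0) (nat_lit 0) (XT.lf (nat_lit 0) (nat_lit 3253125619) (nat_lit 1520) (nat_lit 479798273) (nat_lit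 1596) (nat_lit 4916953063) (nat_lit 563) (nat_lit 5) (nat_lit 583) (nat_lit 5) (nat_lit 584) (nat_lit 5) (nat_lit 563) (nat_lit 544) (nat_lit 453)) (XT.nd (nat_lit 78) (nat_lit 0) (nat_lit 76) (XT.lf (nat_lit 76) (nat_lit 4346031589) (nat_lit 0) (nat_lit 457127833) (nat_lit 1596) (nat_lit 3918959747) (nat_lit 564) (nat_lit 5) (nat_lit 563) (nat_lit 5) (nat_lit 584) (nat_lit 5) (nat_lit 564) (nat_lit 544) (nat_lit 452)) (XT.lf (nat_lit 76) (nat_lit 445209872) (nat_lit 0) (nat_lit 5936795495) (nat_lit 1596) (nat_lit 2413847365) (nat_lit 565) (nat_lit 5) (nat_lit 564) (nat_lit 5) (nat_lit 585) (nat_lit 5) (nat_lit 565) (nat_lit 544) (nat_lit 451)))) (XT.nd (nat_lit 156) (nat_lit 1596) (nat_lit 0) (XT.nd (nat_lit 78) (nat_lit 1520) (nat_lit 0) (XT.lf (nat_lit 76) (nat_lit 5398301244) (nat_lit 0) (nat_lit 2599848796) (nat_lit 1596) (nat_lit 872799171) (nat_lit 565) (nat_lit 5) (nat_lit 564) (nat_lit 5) (nat_lit 585) (nat_lit 5) (nat_lit 566) (nat_lit 544) (nat_lit 450))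 (XT.lf (nat_lit 0) (nat_lit 678666754) (nat_lit 1596) (nat_lit 7455962541) (nat_lit 76) (nat_lit 813054819) (nat_lit 544) (nat_lit 5) (nat_lit 565) (nat_lit 5) (nat_lit 545) (nat_lit 5) (nat_lit 567) (nat_lit 544) (nat_lit 449))) (XT.nd (nat_lit 78) (nat_lit 1596) (nat_lit 0) (XT.lf (nat_lit 0) (nat_lit 2264272219) (nat_lit 1596) (nat_lit 2467432588) (nat_lit 76) (nat_lit 4293840111) (nat_lit 544) (nat_lit 5) (nat_lit 565) (nat_lit 5) (nat_lit 545) (nat_lit 5) (nat_lit 568) (nat_lit 544) (nat_lit 448)) (XT.lf (nat_lit 0) (nat_lit 2634593578) (nat_lit 1596) (nat_lit 1238720285) (nat_lit 1672) (nat_lit 5231817070) (nat_lit 523) (nat_lit 5) (nat_lit 544) (nat_lit 5) (nat_lit 545) (nat_lit 5) (nat_lit 569) (nat_lit 544) (nat_lit 447))))) (XT.nd (nat_lit 234) (nat_lit 4712) (nat_lit 0) (XT.nd (nat_lit 78) (nat_lit 1672) (nat_lit 0) (XT.lf (nat_lit 0) (nat_lit 5521303497) (nat_lit 1672) (nat_lit 1350291373) (nat_lit 76) (nat_lit 2314580881) (nat_lit 523) (nat_lit 5)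 (nat_lit 545) (nat_lit 5) (nat_lit 524) (nat_lit 5) (nat_lit 570) (nat_lit 544) (nat_lit 446)) (XT.nd (nat_lit 78) (nat_lit 0) (nat_lit 0) (XT.lf (nat_lit 0) (nat_lit 3894426879) (nat_lit 1672) (nat_lit 3316814671) (nat_lit 1748) (nat_lit 2057422523) (nat_lit 501) (nat_lit 5) (nat_lit 523) (nat_lit 5) (nat_lit 524) (nat_lit 5) (nat_lit 571) (nat_lit 544) (nat_lit 445)) (XT.lf (nat_lit 0) (nat_lit 8921974975) (nat_lit 1748) (nat_lit 113521001) (nat_lit 76) (nat_lit 317568587) (nat_lit 501) (nat_lit 5) (nat_lit 524) (nat_lit 5) (nat_lit 502) (nat_lit 5) (nat_lit 572) (nat_lit 544) (nat_lit 444)))) (XT.nd (nat_lit 156) (nat_lit 1064) (nat_lit 0) (XT.nd (nat_lit 78) (nat_lit 1824) (nat_lit 0) (XT.lf (nat_lit 0) (nat_lit 1244462952) (nat_lit 1824) (nat_lit 4167774423) (nat_lit 76) (nat_lit 4026102594) (nat_lit 477) (nat_lit 5) (nat_lit 501) (nat_lit 5) (nat_lit 478) (nat_lit 5) (nat_lit 573) (nat_lit 544) (nat_lit 443)) (XT.lf (nat_lit 0) (nat_lit 1230911708) (nat_lit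 1824) (nat_lit 1702121905) (nat_lit 1900) (nat_lit 6592526890) (nat_lit 453) (nat_lit 5) (nat_lit 477) (nat_lit 5) (nat_lit 478) (nat_lit 5) (nat_lit 574) (nat_lit 544) (nat_lit 442))) (XT.nd (nat_lit 78) (nat_lit 1064) (nat_lit 0) (XT.lf (nat_lit 0) (nat_lit 4673903843) (nat_lit 1900) (nat_lit 2854885321) (nat_lit 76) (nat_lit 2085367877) (nat_lit 453) (nat_lit 5) (nat_lit 478) (nat_lit 5) (nat_lit 454) (nat_lit 5) (nat_lit 575) (nat_lit 544) (nat_lit 441)) (XT.lf (nat_lit 0) (nat_lit 2696906945) (nat_lit 1064) (nat_lit 3758776754) (nat_lit 1140) (nat_lit 3248722080) (nat_lit 439) (nat_lit 5) (nat_lit 453) (nat_lit 5) (nat_lit 454) (nat_lit 5) (nat_lit 576) (nat_lit 544) (nat_lit 440))))))) (XT.nd (nat_lit 1014) (nat_lit 6232) (nat_lit 0) (XT.nd (nat_lit 468) (nat_lit 3420) (nat_lit 0) (XT.nd (nat_lit 234) (nat_lit 836) (nat_lit 0) (XT.nd (nat_lit 78) (nat_lit 1900) (nat_lit 0) (XT.lf (nat_lit 0) (nat_lit 8270577150) (nat_lit 1140) (nat_lit 1419519626) (nat_lit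 76) (nat_lit 106415227) (nat_lit 439) (nat_lit 5) (nat_lit 454) (nat_lit 5) (nat_lit 440) (nat_lit 5) (nat_lit 577) (nat_lit 544) (nat_lit 439)) (XT.nd (nat_lit 78) (nat_lit 912) (nat_lit 0) (XT.lf (nat_lit 0) (nat_lit 259297503) (nat_lit 988) (nat_lit 5600722520) (nat_lit 76) (nat_lit 4029791824) (nat_lit 426) (nat_lit 5) (nat_lit 439) (nat_lit 5) (nat_lit 427) (nat_lit 5) (nat_lit 578) (nat_lit 544) (nat_lit 438)) (XT.lf (nat_lit 0) (nat_lit 116760988) (nat_lit 912) (nat_lit 1931627493) (nat_lit 988) (nat_lit 7936617705) (nat_lit 414) (nat_lit 5) (nat_lit 426) (nat_lit 5) (nat_lit 427) (nat_lit 5) (nat_lit 579) (nat_lit 544) (nat_lit 437)))) (XT.nd (nat_lit 78) (nat_lit 836) (nat_lit 0) (XT.lf (nat_lit 0) (nat_lit 3903085268) (nat_lit 988) (nat_lit 4091788151) (nat_lit 76) (nat_lit 2086636427) (nat_lit 414) (nat_lit 5) (nat_lit 427) (nat_lit 5) (nat_lit 415) (nat_lit 5) (nat_lit 580) (nat_lit 544) (nat_lit 436)) (XT.nd (nat_lit 78) (nat_lit 0) (nat_lit 0) (XT.lf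 (nat_lit 0) (nat_lit 1790073613) (nat_lit 836) (nat_lit 4008155051) (nat_lit 912) (nat_lit 4381649738) (nat_lit 403) (nat_lit 5) (nat_lit 414) (nat_lit 5) (nat_lit 415) (nat_lit 5) (nat_lit 581) (nat_lit 544) (nat_lit 435)) (XT.lf (nat_lit 0) (nat_lit 7738510902) (nat_lit 912) (nat_lit 2456278284) (nat_lit 76) (nat_lit 85282265) (nat_lit 403) (nat_lit 5) (nat_lit 415) (nat_lit 5) (nat_lit 404) (nat_lit 5) (nat_lit 582) (nat_lit 544) (nat_lit 434))))) (XT.nd (nat_lit 234) (nat_lit 1672) (nat_lit 0) (XT.nd (nat_lit 78) (nat_lit 912) (nat_lit 0) (XT.lf (nat_lit 0) (nat_lit 3595857899) (nat_lit 836) (nat_lit 6151256722) (nat_lit 912) (nat_lit 634565225) (nat_lit 392) (nat_lit 5) (nat_lit 403) (nat_lit 5) (nat_lit 404) (nat_lit 5) (nat_lit 583) (nat_lit 544) (nat_lit 433)) (XT.nd (nat_lit 78) (nat_lit 836) (nat_lit 0) (XT.lf (nat_lit 0) (nat_lit 1289730018) (nat_lit 912) (nat_lit 712088526) (nat_lit 76) (nat_lit 8483406451) (nat_lit 391) (nat_lit 5) (nat_lit 403) (nat_lit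 5) (nat_lit 392) (nat_lit 5) (nat_lit 584) (nat_lit 544) (nat_lit 432)) (XT.lf (nat_lit 0) (nat_lit 3274831413) (nat_lit 912) (nat_lit 5074127874) (nat_lit 76) (nat_lit 2241183228) (nat_lit 380) (nat_lit 5) (nat_lit 392) (nat_lit 5) (nat_lit 381) (nat_lit 5) (nat_lit 585) (nat_lit 544) (nat_lit 431)))) (XT.nd (nat_lit 156) (nat_lit 836) (nat_lit 0) (XT.nd (nat_lit 78) (nat_lit 0) (nat_lit 0) (XT.lf (nat_lit 0) (nat_lit 1162569637) (nat_lit 836) (nat_lit 4143086947) (nat_lit 912) (nat_lit 5391383033) (nat_lit 369) (nat_lit 5) (nat_lit 380) (nat_lit 5) (nat_lit 381) (nat_lit 5) (nat_lit 586) (nat_lit 544) (nat_lit 430)) (XT.lf (nat_lit 0) (nat_lit 7392977261) (nat_lit 912) (nat_lit 3234694178) (nat_lit 76) (nat_lit 178087275) (nat_lit 369) (nat_lit 5) (nat_lit 381) (nat_lit 5) (nat_lit 370) (nat_lit 5) (nat_lit 587) (nat_lit 544) (nat_lit 429))) (XT.nd (nat_lit 78) (nat_lit 76) (nat_lit 0) (XT.lf (nat_lit 0) (nat_lit 3184916635) (nat_lit 760) (nat_lit 6366273033)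 (nat_lit 836) (nat_lit 1364881221) (nat_lit 359) (nat_lit 5) (nat_lit 369) (nat_lit 5) (nat_lit 370) (nat_lit 5) (nat_lit 588) (nat_lit 544) (nat_lit 428)) (XT.lf (nat_lit 0) (nat_lit 717475443) (nat_lit 836) (nat_lit 1276843577) (nat_lit 76) (nat_lit 9034117945) (nat_lit 358) (nat_lit 5) (nat_lit 369) (nat_lit 5) (nat_lit 359) (nat_lit 5) (nat_lit 589) (nat_lit 544) (nat_lit 427)))))) (XT.nd (nat_lit 546) (nat_lit 2584) (nat_lit 0) (XT.nd (nat_lit 234) (nat_lit 2204) (nat_lit 0) (XT.nd (nat_lit 78) (nat_lit 684) (nat_lit 0) (XT.lf (nat_lit 0) (nat_lit 2855736217) (nat_lit 836) (nat_lit 5811389737) (nat_lit 76) (nat_lit 2475094827) (nat_lit 348) (nat_lit 5) (nat_lit 359) (nat_lit 5) (nat_lit 349) (nat_lit 5) (nat_lit 590) (nat_lit 544) (nat_lit 426)) (XT.nd (nat_lit 78) (nat_lit 0) (nat_lit 0) (XT.lf (nat_lit 0) (nat_lit 806746070) (nat_lit 684) (nat_lit 4238819864) (nat_lit 760) (nat_lit 6212539743) (nat_lit 339) (nat_lit 5) (nat_lit 348) (nat_lit 5) (nat_lit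 349) (nat_lit 5) (nat_lit 591) (nat_lit 544) (nat_lit 425)) (XT.lf (nat_lit 0) (nat_lit 7302198416) (nat_lit 760) (nat_lit 3762214193) (nat_lit 76) (nat_lit 311436990) (nat_lit 339) (nat_lit 5) (nat_lit 349) (nat_lit 5) (nat_lit 340) (nat_lit 5) (nat_lit 592) (nat_lit 544) (nat_lit 424)))) (XT.nd (nat_lit 156) (nat_lit 1368) (nat_lit 0) (XT.nd (nat_lit 78) (nat_lit 76) (nat_lit 0) (XT.lf (nat_lit 0) (nat_lit 3052438677) (nat_lit 760) (nat_lit 6581714120) (nat_lit 836) (nat_lit 1861193239) (nat_lit 329) (nat_lit 5) (nat_lit 339) (nat_lit 5) (nat_lit 340) (nat_lit 5) (nat_lit 593) (nat_lit 544) (nat_lit 423)) (XT.lf (nat_lit 0) (nat_lit 398138783) (nat_lit 836) (nat_lit 1585419419) (nat_lit 76) (nat_lit 9633467966) (nat_lit 328) (nat_lit 5) (nat_lit 339) (nat_lit 5) (nat_lit 329) (nat_lit 5) (nat_lit 594) (nat_lit 544) (nat_lit 422))) (XT.nd (nat_lit 78) (nat_lit 684) (nat_lit 0) (XT.lf (nat_lit 0) (nat_lit 2713748956) (nat_lit 760) (nat_lit 6309994673) (nat_lit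 76) (nat_lit 2716431306) (nat_lit 319) (nat_lit 5) (nat_lit 329) (nat_lit 5) (nat_lit 320) (nat_lit 5) (nat_lit 595) (nat_lit 544) (nat_lit 421)) (XT.lf (nat_lit 0) (nat_lit 718086512) (nat_lit 684) (nat_lit 4369028174) (nat_lit 760) (nat_lit 6778444437) (nat_lit 310) (nat_lit 5) (nat_lit 319) (nat_lit 5) (nat_lit 320) (nat_lit 5) (nat_lit 596) (nat_lit 544) (nat_lit 420))))) (XT.nd (nat_lit 234) (nat_lit 1900) (nat_lit 0) (XT.nd (nat_lit 78) (nat_lit 684) (nat_lit 0) (XT.lf (nat_lit 0) (nat_lit 7536150640) (nat_lit 760) (nat_lit 4043400056) (nat_lit 76) (nat_lit 413337530) (nat_lit 310) (nat_lit 5) (nat_lit 320) (nat_lit 5) (nat_lit 311) (nat_lit 5) (nat_lit 597) (nat_lit 544) (nat_lit 419)) (XT.nd (nat_lit 78) (nat_lit 76) (nat_lit 0) (XT.lf (nat_lit 0) (nat_lit 3195812896) (nat_lit 608) (nat_lit 6871488498) (nat_lit 684) (nat_lit 2054801098) (nat_lit 302) (nat_lit 5) (nat_lit 310) (nat_lit 5) (nat_lit 311) (nat_lit 5) (nat_lit 598) (nat_lit 544) (nat_lit 418))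 (XT.lf (nat_lit 0) (nat_lit 400841645) (nat_lit 684) (nat_lit 1641494028) (nat_lit 76) (nat_lit 10211298263) (nat_lit 301) (nat_lit 5) (nat_lit 310) (nat_lit 5) (nat_lit 302) (nat_lit 5) (nat_lit 599) (nat_lit 544) (nat_lit 417)))) (XT.nd (nat_lit 156) (nat_lit 608) (nat_lit 0) (XT.nd (nat_lit 78) (nat_lit 608) (nat_lit 0) (XT.lf (nat_lit 0) (nat_lit 2918875428) (nat_lit 760) (nat_lit 6573866427) (nat_lit 76) (nat_lit 2893967860) (nat_lit 292) (nat_lit 5) (nat_lit 302) (nat_lit 5) (nat_lit 293) (nat_lit 5) (nat_lit 600) (nat_lit 544) (nat_lit 416)) (XT.lf (nat_lit 0) (nat_lit 894641084) (nat_lit 608) (nat_lit 4607078080) (nat_lit 684) (nat_lit 7020440026) (nat_lit 284) (nat_lit 5) (nat_lit 292) (nat_lit 5) (nat_lit 293) (nat_lit 5) (nat_lit 601) (nat_lit 544) (nat_lit 415))) (XT.nd (nat_lit 78) (nat_lit 608) (nat_lit 0) (XT.lf (nat_lit 0) (nat_lit 8167256710) (nat_lit 684) (nat_lit 4080488552) (nat_lit 76) (nat_lit 411952799) (nat_lit 284) (nat_lit 5) (nat_lit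 293) (nat_lit 5) (nat_lit 285) (nat_lit 5) (nat_lit 602) (nat_lit 544) (nat_lit 414)) (XT.lf (nat_lit 0) (nat_lit 3614824245) (nat_lit 608) (nat_lit 7309758598) (nat_lit 684) (nat_lit 1874636430) (nat_lit 276) (nat_lit 5) (nat_lit 284) (nat_lit 5) (nat_lit 285) (nat_lit 5) (nat_lit 603) (nat_lit 544) (nat_lit 413))))))))
noncomputable def xc133 : XT := (XT.nd (nat_lit 2106) (nat_lit 6080) (nat_lit 0) (XT.nd (nat_lit 1014) (nat_lit 3648) (nat_lit 0) (XT.nd (nat_lit 468) (nat_lit 2660) (nat_lit 0) (XT.nd (nat_lit 234) (nat_lit 608) (nat_lit 0) (XT.nd (nat_lit 78) (nat_lit 1216) (nat_lit 0) (XT.lf (nat_lit 0) (nat_lit 797227519) (nat_lit 684) (nat_lit 1446607688) (nat_lit 76) (nat_lit 10697350752) (nat_lit 275) (nat_lit 5) (nat_lit 284) (nat_lit 5) (nat_lit 276) (nat_lit 5) (nat_lit 604) (nat_lit 544) (nat_lit 412)) (XT.nd (nat_lit 78) (nat_lit 608) (nat_lit 0) (XT.lf (nat_lit 0) (nat_lit 3543840897) (nat_lit 684) (nat_lit 6605004401) (nat_lit 76) (nat_lit 2935971639)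 (nat_lit 267) (nat_lit 5) (nat_lit 276) (nat_lit 5) (nat_lit 268) (nat_lit 5) (nat_lit 605) (nat_lit 544) (nat_lit 411)) (XT.lf (nat_lit 0) (nat_lit 1336452810) (nat_lit 608) (nat_lit 5027263140) (nat_lit 684) (nat_lit 6867239033) (nat_lit 259) (nat_lit 5) (nat_lit 267) (nat_lit 5) (nat_lit 268) (nat_lit 5) (nat_lit 606) (nat_lit 544) (nat_lit 410)))) (XT.nd (nat_lit 78) (nat_lit 608) (nat_lit 0) (XT.lf (nat_lit 0) (nat_lit 9271042857) (nat_lit 684) (nat_lit 3873964066) (nat_lit 76) (nat_lit 234388796) (nat_lit 259) (nat_lit 5) (nat_lit 268) (nat_lit 5) (nat_lit 260) (nat_lit 5) (nat_lit 607) (nat_lit 544) (nat_lit 409)) (XT.nd (nat_lit 78) (nat_lit 76) (nat_lit 0) (XT.lf (nat_lit 0) (nat_lit 4311079794) (nat_lit 532) (nat_lit 7972171333) (nat_lit 608) (nat_lit 1246620442) (nat_lit 252) (nat_lit 5) (nat_lit 259) (nat_lit 5) (nat_lit 260) (nat_lit 5) (nat_lit 608) (nat_lit 544) (nat_lit 408)) (XT.lf (nat_lit 0) (nat_lit 1662098796) (nat_lit 608) (nat_lit 1000749909)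 (nat_lit 76) (nat_lit 11020058321) (nat_lit 251) (nat_lit 5) (nat_lit 259) (nat_lit 5) (nat_lit 252) (nat_lit 5) (nat_lit 609) (nat_lit 544) (nat_lit 407))))) (XT.nd (nat_lit 234) (nat_lit 1596) (nat_lit 0) (XT.nd (nat_lit 78) (nat_lit 532) (nat_lit 0) (XT.lf (nat_lit 0) (nat_lit 4664718834) (nat_lit 608) (nat_lit 6404080197) (nat_lit 76) (nat_lit 2768991924) (nat_lit 244) (nat_lit 5) (nat_lit 252) (nat_lit 5) (nat_lit 245) (nat_lit 5) (nat_lit 610) (nat_lit 544) (nat_lit 406)) (XT.nd (nat_lit 78) (nat_lit 0) (nat_lit 0) (XT.lf (nat_lit 0) (nat_lit 2044958110) (nat_lit 532) (nat_lit 5706032475) (nat_lit 608) (nat_lit 6244310911) (nat_lit 237) (nat_lit 5) (nat_lit 244) (nat_lit 5) (nat_lit 245) (nat_lit 5) (nat_lit 611) (nat_lit 544) (nat_lit 405)) (XT.lf (nat_lit 0) (nat_lit 10730940519) (nat_lit 532) (nat_lit 197102877) (nat_lit 608) (nat_lit 3227338642) (nat_lit 237) (nat_lit 5) (nat_lit 244) (nat_lit 5) (nat_lit 245) (nat_lit 5) (nat_lit 612) (nat_lit 544) (nat_lit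 404)))) (XT.nd (nat_lit 156) (nat_lit 988) (nat_lit 0) (XT.nd (nat_lit 78) (nat_lit 76) (nat_lit 0) (XT.lf (nat_lit 0) (nat_lit 5287401769) (nat_lit 532) (nat_lit 8937090506) (nat_lit 608) (nat_lit 93055699) (nat_lit 230) (nat_lit 5) (nat_lit 237) (nat_lit 5) (nat_lit 238) (nat_lit 5) (nat_lit 613) (nat_lit 544) (nat_lit 403)) (XT.lf (nat_lit 0) (nat_lit 3074021267) (nat_lit 608) (nat_lit 302983962) (nat_lit 76) (nat_lit 11105333462) (nat_lit 229) (nat_lit 5) (nat_lit 237) (nat_lit 5) (nat_lit 230) (nat_lit 5) (nat_lit 614) (nat_lit 544) (nat_lit 402))) (XT.nd (nat_lit 78) (nat_lit 532) (nat_lit 0) (XT.lf (nat_lit 0) (nat_lit 6361527861) (nat_lit 532) (nat_lit 5971077164) (nat_lit 76) (nat_lit 2316642046) (nat_lit 223) (nat_lit 5) (nat_lit 230) (nat_lit 5) (nat_lit 224) (nat_lit 5) (nat_lit 615) (nat_lit 544) (nat_lit 401)) (XT.lf (nat_lit 0) (nat_lit 3022341682) (nat_lit 532) (nat_lit 6723233502) (nat_lit 608) (nat_lit 5073303439) (nat_lit 216) (nat_lit 5) (nat_lit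 223) (nat_lit 5) (nat_lit 224) (nat_lit 5) (nat_lit 616) (nat_lit 544) (nat_lit 400)))))) (XT.nd (nat_lit 546) (nat_lit 1672) (nat_lit 0) (XT.nd (nat_lit 234) (nat_lit 988) (nat_lit 0) (XT.nd (nat_lit 78) (nat_lit 988) (nat_lit 0) (XT.lf (nat_lit 0) (nat_lit 12258170211) (nat_lit 532) (nat_lit 966099166) (nat_lit 608) (nat_lit 1767094912) (nat_lit 216) (nat_lit 5) (nat_lit 223) (nat_lit 5) (nat_lit 224) (nat_lit 5) (nat_lit 617) (nat_lit 544) (nat_lit 399)) (XT.nd (nat_lit 78) (nat_lit 456) (nat_lit 0) (XT.lf (nat_lit 0) (nat_lit 1646073984) (nat_lit 532) (nat_lit 8629732949) (nat_lit 76) (nat_lit 4890047277) (nat_lit 209) (nat_lit 5) (nat_lit 216) (nat_lit 5) (nat_lit 210) (nat_lit 5) (nat_lit 618) (nat_lit 544) (nat_lit 398)) (XT.lf (nat_lit 0) (nat_lit 656480140) (nat_lit 456) (nat_lit 4463679452) (nat_lit 532) (nat_lit 10223115187) (nat_lit 203) (nat_lit 5) (nat_lit 209) (nat_lit 5) (nat_lit 210) (nat_lit 5) (nat_lit 619) (nat_lit 544) (nat_lit 397)))) (XT.nd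 (nat_lit 156) (nat_lit 532) (nat_lit 0) (XT.nd (nat_lit 78) (nat_lit 456) (nat_lit 0) (XT.lf (nat_lit 0) (nat_lit 8718797667) (nat_lit 532) (nat_lit 5305994132) (nat_lit 76) (nat_lit 1498351284) (nat_lit 203) (nat_lit 5) (nat_lit 210) (nat_lit 5) (nat_lit 204) (nat_lit 5) (nat_lit 620) (nat_lit 544) (nat_lit 396)) (XT.lf (nat_lit 0) (nat_lit 4270824106) (nat_lit 456) (nat_lit 8163391319) (nat_lit 532) (nat_lit 3271497918) (nat_lit 197) (nat_lit 5) (nat_lit 203) (nat_lit 5) (nat_lit 204) (nat_lit 5) (nat_lit 621) (nat_lit 544) (nat_lit 395))) (XT.nd (nat_lit 78) (nat_lit 456) (nat_lit 0) (XT.lf (nat_lit 0) (nat_lit 351056949) (nat_lit 532) (nat_lit 1800608778) (nat_lit 76) (nat_lit 13739758768) (nat_lit 196) (nat_lit 5) (nat_lit 203) (nat_lit 5) (nat_lit 197) (nat_lit 5) (nat_lit 622) (nat_lit 544) (nat_lit 394)) (XT.lf (nat_lit 0) (nat_lit 4068949163) (nat_lit 532) (nat_lit 8012816742) (nat_lit 76) (nat_lit 3997318327) (nat_lit 190) (nat_lit 5) (nat_lit 197) (nat_lit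 5) (nat_lit 191) (nat_lit 5) (nat_lit 623) (nat_lit 544) (nat_lit 393))))) (XT.nd (nat_lit 234) (nat_lit 836) (nat_lit 0) (XT.nd (nat_lit 78) (nat_lit 456) (nat_lit 0) (XT.lf (nat_lit 0) (nat_lit 1877090703) (nat_lit 380) (nat_lit 6010603685) (nat_lit 456) (nat_lit 8382273540) (nat_lit 185) (nat_lit 5) (nat_lit 190) (nat_lit 5) (nat_lit 191) (nat_lit 5) (nat_lit 624) (nat_lit 544) (nat_lit 392)) (XT.nd (nat_lit 78) (nat_lit 456) (nat_lit 0) (XT.lf (nat_lit 0) (nat_lit 11826102849) (nat_lit 456) (nat_lit 4409636897) (nat_lit 76) (nat_lit 228064444) (nat_lit 185) (nat_lit 5) (nat_lit 191) (nat_lit 5) (nat_lit 186) (nat_lit 5) (nat_lit 625) (nat_lit 544) (nat_lit 391)) (XT.lf (nat_lit 0) (nat_lit 5791858001) (nat_lit 456) (nat_lit 10117047532) (nat_lit 532) (nat_lit 751299767) (nat_lit 179) (nat_lit 5) (nat_lit 185) (nat_lit 5) (nat_lit 186) (nat_lit 5) (nat_lit 626) (nat_lit 544) (nat_lit 390)))) (XT.nd (nat_lit 156) (nat_lit 380) (nat_lit 0) (XT.nd (nat_lit 78)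 (nat_lit 380) (nat_lit 0) (XT.lf (nat_lit 0) (nat_lit 3188735970) (nat_lit 532) (nat_lit 641449113) (nat_lit 76) (nat_lit 13029571912) (nat_lit 178) (nat_lit 5) (nat_lit 185) (nat_lit 5) (nat_lit 179) (nat_lit 5) (nat_lit 627) (nat_lit 544) (nat_lit 389)) (XT.lf (nat_lit 0) (nat_lit 7267457677) (nat_lit 456) (nat_lit 7181776082) (nat_lit 76) (nat_lit 2612568348) (nat_lit 173) (nat_lit 5) (nat_lit 179) (nat_lit 5) (nat_lit 174) (nat_lit 5) (nat_lit 628) (nat_lit 544) (nat_lit 388))) (XT.nd (nat_lit 78) (nat_lit 0) (nat_lit 0) (XT.lf (nat_lit 0) (nat_lit 3354079286) (nat_lit 380) (nat_lit 8113713258) (nat_lit 456) (nat_lit 5799295396) (nat_lit 168) (nat_lit 5) (nat_lit 173) (nat_lit 5) (nat_lit 174) (nat_lit 5) (nat_lit 629) (nat_lit 544) (nat_lit 387)) (XT.lf (nat_lit 0) (nat_lit 14180776961) (nat_lit 380) (nat_lit 1608226440) (nat_lit 456) (nat_lit 1686739288) (nat_lit 168) (nat_lit 5) (nat_lit 173) (nat_lit 5) (nat_lit 174) (nat_lit 5) (nat_lit 630) (nat_lit 544)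 (nat_lit 386))))))) (XT.nd (nat_lit 1092) (nat_lit 2660) (nat_lit 0) (XT.nd (nat_lit 546) (nat_lit 1444) (nat_lit 0) (XT.nd (nat_lit 234) (nat_lit 1140) (nat_lit 0) (XT.nd (nat_lit 78) (nat_lit 380) (nat_lit 0) (XT.lf (nat_lit 0) (nat_lit 2546391633) (nat_lit 456) (nat_lit 10118703281) (nat_lit 76) (nat_lit 5021726148) (nat_lit 162) (nat_lit 5) (nat_lit 168) (nat_lit 5) (nat_lit 163) (nat_lit 5) (nat_lit 631) (nat_lit 544) (nat_lit 385)) (XT.nd (nat_lit 78) (nat_lit 0) (nat_lit 0) (XT.lf (nat_lit 0) (nat_lit 762370773) (nat_lit 380) (nat_lit 6106002751) (nat_lit 456) (nat_lit 11032989567) (nat_lit 157) (nat_lit 5) (nat_lit 162) (nat_lit 5) (nat_lit 163) (nat_lit 5) (nat_lit 632) (nat_lit 544) (nat_lit 384)) (XT.lf (nat_lit 0) (nat_lit 11337903453) (nat_lit 456) (nat_lit 6142030840) (nat_lit 76) (nat_lit 639040038) (nat_lit 157) (nat_lit 5) (nat_lit 163) (nat_lit 5) (nat_lit 158) (nat_lit 5) (nat_lit 633) (nat_lit 544) (nat_lit 383)))) (XT.nd (nat_lit 156) (nat_lit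 684) (nat_lit 0) (XT.nd (nat_lit 78) (nat_lit 76) (nat_lit 0) (XT.lf (nat_lit 0) (nat_lit 5084272983) (nat_lit 380) (nat_lit 10875178396) (nat_lit 456) (nat_lit 2380234397) (nat_lit 152) (nat_lit 5) (nat_lit 157) (nat_lit 5) (nat_lit 158) (nat_lit 5) (nat_lit 634) (nat_lit 544) (nat_lit 382)) (XT.lf (nat_lit 0) (nat_lit 2111664989) (nat_lit 456) (nat_lit 1976464919) (nat_lit 76) (nat_lit 14475794216) (nat_lit 151) (nat_lit 5) (nat_lit 157) (nat_lit 5) (nat_lit 152) (nat_lit 5) (nat_lit 635) (nat_lit 544) (nat_lit 381))) (XT.nd (nat_lit 78) (nat_lit 304) (nat_lit 0) (XT.lf (nat_lit 0) (nat_lit 6732340168) (nat_lit 456) (nat_lit 9188229221) (nat_lit 76) (nat_lit 2870347500) (nat_lit 146) (nat_lit 5) (nat_lit 152) (nat_lit 5) (nat_lit 147) (nat_lit 5) (nat_lit 636) (nat_lit 544) (nat_lit 380)) (XT.lf (nat_lit 0) (nat_lit 2405816096) (nat_lit 304) (nat_lit 9085142974) (nat_lit 380) (nat_lit 7530580322) (nat_lit 142) (nat_lit 5) (nat_lit 146) (nat_lit 5) (nat_lit 147)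 (nat_lit 5) (nat_lit 637) (nat_lit 544) (nat_lit 379))))) (XT.nd (nat_lit 234) (nat_lit 988) (nat_lit 0) (XT.nd (nat_lit 78) (nat_lit 456) (nat_lit 0) (XT.lf (nat_lit 0) (nat_lit 14339794796) (nat_lit 304) (nat_lit 2056197876) (nat_lit 380) (nat_lit 2859757305) (nat_lit 142) (nat_lit 5) (nat_lit 146) (nat_lit 5) (nat_lit 147) (nat_lit 5) (nat_lit 638) (nat_lit 544) (nat_lit 378)) (XT.nd (nat_lit 78) (nat_lit 0) (nat_lit 0) (XT.lf (nat_lit 0) (nat_lit 1948752639) (nat_lit 456) (nat_lit 12445215210) (nat_lit 76) (nat_lit 5099045120) (nat_lit 136) (nat_lit 5) (nat_lit 142) (nat_lit 5) (nat_lit 137) (nat_lit 5) (nat_lit 639) (nat_lit 544) (nat_lit 377)) (XT.lf (nat_lit 0) (nat_lit 6851778626) (nat_lit 456) (nat_lit 466040807) (nat_lit 76) (nat_lit 12416091419) (nat_lit 136) (nat_lit 5) (nat_lit 142) (nat_lit 5) (nat_lit 137) (nat_lit 5) (nat_lit 640) (nat_lit 544) (nat_lit 376)))) (XT.nd (nat_lit 156) (nat_lit 380) (nat_lit 0) (XT.nd (nat_lit 78) (nat_lit 304) (nat_lit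 0) (XT.lf (nat_lit 0) (nat_lit 11892644467) (nat_lit 304) (nat_lit 27413915) (nat_lit 380) (nat_lit 8058224887) (nat_lit 132) (nat_lit 5) (nat_lit 136) (nat_lit 5) (nat_lit 137) (nat_lit 5) (nat_lit 641) (nat_lit 544) (nat_lit 375)) (XT.lf (nat_lit 0) (nat_lit 4269105511) (nat_lit 304) (nat_lit 12889599299) (nat_lit 380) (nat_lit 3067458738) (nat_lit 128) (nat_lit 5) (nat_lit 132) (nat_lit 5) (nat_lit 133) (nat_lit 5) (nat_lit 642) (nat_lit 544) (nat_lit 374))) (XT.nd (nat_lit 78) (nat_lit 304) (nat_lit 0) (XT.lf (nat_lit 0) (nat_lit 2041446936) (nat_lit 380) (nat_lit 3527172711) (nat_lit 76) (nat_lit 14909222335) (nat_lit 127) (nat_lit 5) (nat_lit 132) (nat_lit 5) (nat_lit 128) (nat_lit 5) (nat_lit 643) (nat_lit 544) (nat_lit 373)) (XT.lf (nat_lit 0) (nat_lit 7274537588) (nat_lit 380) (nat_lit 11509643655) (nat_lit 76) (nat_lit 1948706031) (nat_lit 123) (nat_lit 5) (nat_lit 128) (nat_lit 5) (nat_lit 124) (nat_lit 5) (nat_lit 644) (nat_lit 544) (nat_lit 372))))))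 (XT.nd (nat_lit 546) (nat_lit 1368) (nat_lit 0) (XT.nd (nat_lit 234) (nat_lit 608) (nat_lit 0) (XT.nd (nat_lit 78) (nat_lit 380) (nat_lit 0) (XT.lf (nat_lit 0) (nat_lit 1247382745) (nat_lit 304) (nat_lit 11424013199) (nat_lit 380) (nat_lit 8320455810) (nat_lit 119) (nat_lit 5) (nat_lit 123) (nat_lit 5) (nat_lit 124) (nat_lit 5) (nat_lit 645) (nat_lit 544) (nat_lit 371)) (XT.nd (nat_lit 78) (nat_lit 380) (nat_lit 0) (XT.lf (nat_lit 0) (nat_lit 14399808454) (nat_lit 304) (nat_lit 3844009456) (nat_lit 380) (nat_lit 3010825476) (nat_lit 119) (nat_lit 5) (nat_lit 123) (nat_lit 5) (nat_lit 124) (nat_lit 5) (nat_lit 646) (nat_lit 544) (nat_lit 370)) (XT.lf (nat_lit 0) (nat_lit 2430742756) (nat_lit 380) (nat_lit 15202709429) (nat_lit 76) (nat_lit 3887781002) (nat_lit 114) (nat_lit 5) (nat_lit 119) (nat_lit 5) (nat_lit 115) (nat_lit 5) (nat_lit 647) (nat_lit 544) (nat_lit 369)))) (XT.nd (nat_lit 156) (nat_lit 304) (nat_lit 0) (XT.nd (nat_lit 78) (nat_lit 304) (nat_lit 0)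 (XT.lf (nat_lit 0) (nat_lit 8003188668) (nat_lit 380) (nat_lit 2005288305) (nat_lit 76) (nat_lit 11783032924) (nat_lit 114) (nat_lit 5) (nat_lit 119) (nat_lit 5) (nat_lit 115) (nat_lit 5) (nat_lit 648) (nat_lit 544) (nat_lit 368)) (XT.lf (nat_lit 0) (nat_lit 11592807966) (nat_lit 304) (nat_lit 2160291167) (nat_lit 380) (nat_lit 8312773059) (nat_lit 110) (nat_lit 5) (nat_lit 114) (nat_lit 5) (nat_lit 115) (nat_lit 5) (nat_lit 649) (nat_lit 544) (nat_lit 367))) (XT.nd (nat_lit 78) (nat_lit 76) (nat_lit 0) (XT.lf (nat_lit 0) (nat_lit 3132279577) (nat_lit 228) (nat_lit 16548350253) (nat_lit 304) (nat_lit 2663839817) (nat_lit 107) (nat_lit 5) (nat_lit 110) (nat_lit 5) (nat_lit 111) (nat_lit 5) (nat_lit 650) (nat_lit 544) (nat_lit 366)) (XT.lf (nat_lit 0) (nat_lit 3133303631) (nat_lit 304) (nat_lit 5525804986) (nat_lit 76) (nat_lit 13967611216) (nat_lit 106) (nat_lit 5) (nat_lit 110) (nat_lit 5) (nat_lit 107) (nat_lit 5) (nat_lit 651) (nat_lit 544) (nat_lit 365)))))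 (XT.nd (nat_lit 234) (nat_lit 836) (nat_lit 0) (XT.nd (nat_lit 78) (nat_lit 228) (nat_lit 0) (XT.lf (nat_lit 0) (nat_lit 8513240533) (nat_lit 304) (nat_lit 543779262) (nat_lit 380) (nat_lit 13856317429) (nat_lit 102) (nat_lit 5) (nat_lit 106) (nat_lit 5) (nat_lit 107) (nat_lit 5) (nat_lit 652) (nat_lit 544) (nat_lit 364)) (XT.nd (nat_lit 78) (nat_lit 228) (nat_lit 0) (XT.lf (nat_lit 0) (nat_lit 15177782048) (nat_lit 380) (nat_lit 362552581) (nat_lit 76) (nat_lit 7663781227) (nat_lit 102) (nat_lit 5) (nat_lit 107) (nat_lit 5) (nat_lit 103) (nat_lit 5) (nat_lit 653) (nat_lit 544) (nat_lit 363)) (XT.lf (nat_lit 0) (nat_lit 14122538260) (nat_lit 228) (nat_lit 7384923013) (nat_lit 304) (nat_lit 1991519076) (nat_lit 99) (nat_lit 5) (nat_lit 102) (nat_lit 5) (nat_lit 103) (nat_lit 5) (nat_lit 654) (nat_lit 544) (nat_lit 362)))) (XT.nd (nat_lit 156) (nat_lit 456) (nat_lit 0) (XT.nd (nat_lit 78) (nat_lit 0) (nat_lit 0) (XT.lf (nat_lit 0) (nat_lit 4142787581) (nat_lit 380)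 (nat_lit 18677188293) (nat_lit 76) (nat_lit 978557716) (nat_lit 94) (nat_lit 5) (nat_lit 99) (nat_lit 5) (nat_lit 95) (nat_lit 5) (nat_lit 655) (nat_lit 544) (nat_lit 361)) (XT.lf (nat_lit 0) (nat_lit 10476646648) (nat_lit 380) (nat_lit 4144022569) (nat_lit 76) (nat_lit 9481075050) (nat_lit 94) (nat_lit 5) (nat_lit 99) (nat_lit 5) (nat_lit 95) (nat_lit 5) (nat_lit 656) (nat_lit 544) (nat_lit 360))) (XT.nd (nat_lit 78) (nat_lit 228) (nat_lit 0) (XT.lf (nat_lit 0) (nat_lit 10806954041) (nat_lit 228) (nat_lit 6191829530) (nat_lit 304) (nat_lit 7411003870) (nat_lit 91) (nat_lit 5) (nat_lit 94) (nat_lit 5) (nat_lit 95) (nat_lit 5) (nat_lit 657) (nat_lit 544) (nat_lit 359)) (XT.lf (nat_lit 0) (nat_lit 1377326483) (nat_lit 228) (nat_lit 22318060330) (nat_lit 304) (nat_lit 1027724485) (nat_lit 88) (nat_lit 5) (nat_lit 91) (nat_lit 5) (nat_lit 92) (nat_lit 5) (nat_lit 658) (nat_lit 544) (nat_lit 358))))))))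
noncomputable def xc134 : XT := (XT.nd (nat_lit 74256) (nat_lit 0) (nat_lit 17860) (XT.nd (nat_lit 73164) (nat_lit 0) (nat_lit 34884) (XT.nd (nat_lit 72618) (nat_lit 0) (nat_lit 37696) (XT.nd (nat_lit 72384) (nat_lit 0) (nat_lit 40280) (XT.nd (nat_lit 78) (nat_lit 228) (nat_lit 0) (XT.lf (nat_lit 0) (nat_lit 5535685562) (nat_lit 304) (nat_lit 8291247138) (nat_lit 76) (nat_lit 11212569628) (nat_lit 87) (nat_lit 5) (nat_lit 91) (nat_lit 5) (nat_lit 88) (nat_lit 5) (nat_lit 659) (nat_lit 544) (nat_lit 357)) (XT.nd (nat_lit 72228) (nat_lit 0) (nat_lit 40280) (XT.lf (nat_lit 0) (nat_lit 7136822958) (nat_lit 228) (nat_lit 5117782725) (nat_lit 304) (nat_lit 13106719846) (nat_lit 84) (nat_lit 5) (nat_lit 87) (nat_lit 5) (nat_lit 88) (nat_lit 5) (nat_lit 660) (nat_lit 544) (nat_lit 356)) (XT.lf (nat_lit 0) (nat_lit 611792761) (nat_lit 0) (nat_lit 611792761) (nat_lit 1292) (nat_lit 2592671758) (nat_lit 614) (nat_lit 5) (nat_lit 614) (nat_lit 3) (nat_lit 631) (nat_lit 3)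 (nat_lit 545) (nat_lit 545) (nat_lit 470)))) (XT.nd (nat_lit 78) (nat_lit 0) (nat_lit 0) (XT.lf (nat_lit 0) (nat_lit 3863058305) (nat_lit 1292) (nat_lit 2631719385) (nat_lit 1368) (nat_lit 1186078839) (nat_lit 614) (nat_lit 5) (nat_lit 631) (nat_lit 3) (nat_lit 632) (nat_lit 5) (nat_lit 546) (nat_lit 545) (nat_lit 469)) (XT.nd (nat_lit 78) (nat_lit 0) (nat_lit 0) (XT.lf (nat_lit 76) (nat_lit 1209803987) (nat_lit 0) (nat_lit 4077242553) (nat_lit 1368) (nat_lit 2443527189) (nat_lit 615) (nat_lit 5) (nat_lit 614) (nat_lit 5) (nat_lit 632) (nat_lit 5) (nat_lit 547) (nat_lit 545) (nat_lit 468)) (XT.lf (nat_lit 76) (nat_lit 5144962377) (nat_lit 0) (nat_lit 1576624352) (nat_lit 1368) (nat_lit 1060061084) (nat_lit 615) (nat_lit 5) (nat_lit 614) (nat_lit 5) (nat_lit 632) (nat_lit 5) (nat_lit 548) (nat_lit 545) (nat_lit 467))))) (XT.nd (nat_lit 234) (nat_lit 1292) (nat_lit 0) (XT.nd (nat_lit 78) (nat_lit 0) (nat_lit 0) (XT.lf (nat_lit 0) (nat_lit 326423322) (nat_lit 1368)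 (nat_lit 6519574612) (nat_lit 1444) (nat_lit 988104617) (nat_lit 597) (nat_lit 5) (nat_lit 615) (nat_lit 5) (nat_lit 616) (nat_lit 5) (nat_lit 549) (nat_lit 545) (nat_lit 466)) (XT.nd (nat_lit 78) (nat_lit 0) (nat_lit 0) (XT.lf (nat_lit 0) (nat_lit 1720251668) (nat_lit 1368) (nat_lit 2543966523) (nat_lit 1444) (nat_lit 3623375638) (nat_lit 597) (nat_lit 5) (nat_lit 615) (nat_lit 5) (nat_lit 616) (nat_lit 5) (nat_lit 550) (nat_lit 545) (nat_lit 465)) (XT.lf (nat_lit 76) (nat_lit 1511723498) (nat_lit 0) (nat_lit 1606267073) (nat_lit 1444) (nat_lit 4824647359) (nat_lit 598) (nat_lit 5) (nat_lit 597) (nat_lit 5) (nat_lit 616) (nat_lit 5) (nat_lit 551) (nat_lit 545) (nat_lit 464)))) (XT.nd (nat_lit 156) (nat_lit 1368) (nat_lit 0) (XT.nd (nat_lit 78) (nat_lit 0) (nat_lit 0) (XT.lf (nat_lit 0) (nat_lit 4534890715) (nat_lit 1368) (nat_lit 2342606623) (nat_lit 1444) (nat_lit 1121465054) (nat_lit 598) (nat_lit 5) (nat_lit 616) (nat_lit 5) (nat_lit 617) (nat_lit 5) (nat_lit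 552) (nat_lit 545) (nat_lit 463)) (XT.lf (nat_lit 76) (nat_lit 1821215218) (nat_lit 0) (nat_lit 4148874414) (nat_lit 1444) (nat_lit 2086528031) (nat_lit 599) (nat_lit 5) (nat_lit 598) (nat_lit 5) (nat_lit 617) (nat_lit 5) (nat_lit 553) (nat_lit 545) (nat_lit 462))) (XT.nd (nat_lit 78) (nat_lit 1368) (nat_lit 0) (XT.lf (nat_lit 76) (nat_lit 6080696277) (nat_lit 0) (nat_lit 1337026585) (nat_lit 1444) (nat_lit 698032039) (nat_lit 599) (nat_lit 5) (nat_lit 598) (nat_lit 5) (nat_lit 617) (nat_lit 5) (nat_lit 554) (nat_lit 545) (nat_lit 461)) (XT.lf (nat_lit 0) (nat_lit 702027497) (nat_lit 1444) (nat_lit 5931685267) (nat_lit 1520) (nat_lit 1542407919) (nat_lit 580) (nat_lit 5) (nat_lit 599) (nat_lit 5) (nat_lit 600) (nat_lit 5) (nat_lit 555) (nat_lit 545) (nat_lit 460)))))) (XT.nd (nat_lit 546) (nat_lit 1444) (nat_lit 0) (XT.nd (nat_lit 234) (nat_lit 1368) (nat_lit 0) (XT.nd (nat_lit 78) (nat_lit 0) (nat_lit 0) (XT.lf (nat_lit 0) (nat_lit 2112348384) (nat_lit 1444) (nat_lit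 1633871862) (nat_lit 1520) (nat_lit 4491552385) (nat_lit 580) (nat_lit 5) (nat_lit 599) (nat_lit 5) (nat_lit 600) (nat_lit 5) (nat_lit 556) (nat_lit 545) (nat_lit 459)) (XT.nd (nat_lit 78) (nat_lit 0) (nat_lit 76) (XT.lf (nat_lit 76) (nat_lit 2766585355) (nat_lit 0) (nat_lit 771857583) (nat_lit 1520) (nat_lit 4762466541) (nat_lit 581) (nat_lit 5) (nat_lit 580) (nat_lit 5) (nat_lit 600) (nat_lit 5) (nat_lit 557) (nat_lit 545) (nat_lit 458)) (XT.lf (nat_lit 0) (nat_lit 4988924716) (nat_lit 1444) (nat_lit 1122786810) (nat_lit 1520) (nat_lit 2253683368) (nat_lit 581) (nat_lit 5) (nat_lit 600) (nat_lit 5) (nat_lit 601) (nat_lit 5) (nat_lit 558) (nat_lit 545) (nat_lit 457)))) (XT.nd (nat_lit 156) (nat_lit 1444) (nat_lit 0) (XT.nd (nat_lit 78) (nat_lit 0) (nat_lit 76) (XT.lf (nat_lit 76) (nat_lit 3396675118) (nat_lit 0) (nat_lit 3069633794) (nat_lit 1520) (nat_lit 1964906331) (nat_lit 582) (nat_lit 5) (nat_lit 581) (nat_lit 5) (nat_lit 601) (nat_lit 5) (nat_lit 559) (nat_lit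 545) (nat_lit 456)) (XT.lf (nat_lit 0) (nat_lit 7952275414) (nat_lit 1444) (nat_lit 496973322) (nat_lit 1520) (nat_lit 49525588) (nat_lit 582) (nat_lit 5) (nat_lit 601) (nat_lit 5) (nat_lit 602) (nat_lit 5) (nat_lit 560) (nat_lit 545) (nat_lit 455))) (XT.nd (nat_lit 78) (nat_lit 0) (nat_lit 0) (XT.lf (nat_lit 0) (nat_lit 907634949) (nat_lit 1520) (nat_lit 4427747349) (nat_lit 1596) (nat_lit 3231804973) (nat_lit 562) (nat_lit 5) (nat_lit 582) (nat_lit 5) (nat_lit 583) (nat_lit 5) (nat_lit 561) (nat_lit 545) (nat_lit 454)) (XT.lf (nat_lit 76) (nat_lit 217529200) (nat_lit 0) (nat_lit 2142817145) (nat_lit 1596) (nat_lit 6277016481) (nat_lit 563) (nat_lit 5) (nat_lit 562) (nat_lit 5) (nat_lit 583) (nat_lit 5) (nat_lit 562) (nat_lit 545) (nat_lit 453))))) (XT.nd (nat_lit 234) (nat_lit 1520) (nat_lit 0) (XT.nd (nat_lit 78) (nat_lit 0) (nat_lit 0) (XT.lf (nat_lit 0) (nat_lit 3851755617) (nat_lit 1520) (nat_lit 3720613453) (nat_lit 1596) (nat_lit 1136382738) (nat_lit 563)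 (nat_lit 5) (nat_lit 583) (nat_lit 5) (nat_lit 584) (nat_lit 5) (nat_lit 563) (nat_lit 545) (nat_lit 452)) (XT.nd (nat_lit 78) (nat_lit 0) (nat_lit 0) (XT.lf (nat_lit 76) (nat_lit 1052031815) (nat_lit 0) (nat_lit 4315025858) (nat_lit 1596) (nat_lit 3414632337) (nat_lit 564) (nat_lit 5) (nat_lit 563) (nat_lit 5) (nat_lit 584) (nat_lit 5) (nat_lit 564) (nat_lit 545) (nat_lit 451)) (XT.lf (nat_lit 76) (nat_lit 5950530502) (nat_lit 0) (nat_lit 960544306) (nat_lit 1596) (nat_lit 1945046668) (nat_lit 564) (nat_lit 5) (nat_lit 563) (nat_lit 5) (nat_lit 584) (nat_lit 5) (nat_lit 565) (nat_lit 545) (nat_lit 450)))) (XT.nd (nat_lit 156) (nat_lit 0) (nat_lit 76) (XT.nd (nat_lit 78) (nat_lit 1596) (nat_lit 0) (XT.lf (nat_lit 76) (nat_lit 2005070347) (nat_lit 0) (nat_lit 6483902850) (nat_lit 1596) (nat_lit 443010984) (nat_lit 565) (nat_lit 5) (nat_lit 564) (nat_lit 5) (nat_lit 585) (nat_lit 5) (nat_lit 566) (nat_lit 545) (nat_lit 449)) (XT.lf (nat_lit 0) (nat_lit 1074981773)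 (nat_lit 1596) (nat_lit 1989622309) (nat_lit 1672) (nat_lit 5944617172) (nat_lit 543) (nat_lit 5) (nat_lit 564) (nat_lit 5) (nat_lit 565) (nat_lit 5) (nat_lit 567) (nat_lit 545) (nat_lit 448))) (XT.nd (nat_lit 78) (nat_lit 0) (nat_lit 0) (XT.lf (nat_lit 0) (nat_lit 2614948410) (nat_lit 1596) (nat_lit 6027342980) (nat_lit 76) (nat_lit 445704671) (nat_lit 544) (nat_lit 5) (nat_lit 565) (nat_lit 5) (nat_lit 545) (nat_lit 5) (nat_lit 568) (nat_lit 545) (nat_lit 447)) (XT.lf (nat_lit 0) (nat_lit 4194565820) (nat_lit 1596) (nat_lit 969978482) (nat_lit 76) (nat_lit 4003627458) (nat_lit 544) (nat_lit 5) (nat_lit 565) (nat_lit 5) (nat_lit 545) (nat_lit 5) (nat_lit 569) (nat_lit 545) (nat_lit 446))))))) (XT.nd (nat_lit 1014) (nat_lit 6384) (nat_lit 0) (XT.nd (nat_lit 468) (nat_lit 3800) (nat_lit 0) (XT.nd (nat_lit 234) (nat_lit 3648) (nat_lit 0) (XT.nd (nat_lit 78) (nat_lit 1672) (nat_lit 0) (XT.lf (nat_lit 0) (nat_lit 4223911873) (nat_lit 1596) (nat_lit 1584892277) (nat_lit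 1672) (nat_lit 3441088633) (nat_lit 523) (nat_lit 5) (nat_lit 544) (nat_lit 5) (nat_lit 545) (nat_lit 5) (nat_lit 570) (nat_lit 545) (nat_lit 445)) (XT.nd (nat_lit 78) (nat_lit 0) (nat_lit 0) (XT.lf (nat_lit 0) (nat_lit 170084385) (nat_lit 1672) (nat_lit 7282295839) (nat_lit 1748) (nat_lit 1880929276) (nat_lit 501) (nat_lit 5) (nat_lit 523) (nat_lit 5) (nat_lit 524) (nat_lit 5) (nat_lit 571) (nat_lit 545) (nat_lit 444)) (XT.lf (nat_lit 0) (nat_lit 5507300849) (nat_lit 1672) (nat_lit 3642000653) (nat_lit 1748) (nat_lit 268685864) (nat_lit 501) (nat_lit 5) (nat_lit 523) (nat_lit 5) (nat_lit 524) (nat_lit 5) (nat_lit 572) (nat_lit 545) (nat_lit 443)))) (XT.nd (nat_lit 78) (nat_lit 1824) (nat_lit 0) (XT.lf (nat_lit 0) (nat_lit 1344317527) (nat_lit 1824) (nat_lit 8068433233) (nat_lit 76) (nat_lit 91700395) (nat_lit 477) (nat_lit 5) (nat_lit 501) (nat_lit 5) (nat_lit 478) (nat_lit 5) (nat_lit 573) (nat_lit 545) (nat_lit 442)) (XT.nd (nat_lit 78) (nat_lit 1824) (nat_lit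 0) (XT.lf (nat_lit 0) (nat_lit 3013498137) (nat_lit 1824) (nat_lit 2696053301) (nat_lit 76) (nat_lit 3882509120) (nat_lit 477) (nat_lit 5) (nat_lit 501) (nat_lit 5) (nat_lit 478) (nat_lit 5) (nat_lit 574) (nat_lit 545) (nat_lit 441)) (XT.lf (nat_lit 0) (nat_lit 2800375786) (nat_lit 1824) (nat_lit 1911295650) (nat_lit 1900) (nat_lit 4969840645) (nat_lit 453) (nat_lit 5) (nat_lit 477) (nat_lit 5) (nat_lit 478) (nat_lit 5) (nat_lit 575) (nat_lit 545) (nat_lit 440))))) (XT.nd (nat_lit 234) (nat_lit 1748) (nat_lit 0) (XT.nd (nat_lit 78) (nat_lit 2052) (nat_lit 0) (XT.lf (nat_lit 0) (nat_lit 6452519255) (nat_lit 1900) (nat_lit 1362431513) (nat_lit 76) (nat_lit 1957629717) (nat_lit 453) (nat_lit 5) (nat_lit 478) (nat_lit 5) (nat_lit 454) (nat_lit 5) (nat_lit 576) (nat_lit 545) (nat_lit 439)) (XT.nd (nat_lit 78) (nat_lit 988) (nat_lit 0) (XT.lf (nat_lit 0) (nat_lit 4290202181) (nat_lit 1064) (nat_lit 3956685146) (nat_lit 1140) (nat_lit 1618210895) (nat_lit 439) (nat_lit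 5) (nat_lit 453) (nat_lit 5) (nat_lit 454) (nat_lit 5) (nat_lit 577) (nat_lit 545) (nat_lit 438)) (XT.lf (nat_lit 0) (nat_lit 95286146) (nat_lit 912) (nat_lit 9013523) (nat_lit 988) (nat_lit 9855389986) (nat_lit 426) (nat_lit 5) (nat_lit 438) (nat_lit 5) (nat_lit 439) (nat_lit 5) (nat_lit 578) (nat_lit 545) (nat_lit 437)))) (XT.nd (nat_lit 156) (nat_lit 836) (nat_lit 0) (XT.nd (nat_lit 78) (nat_lit 912) (nat_lit 0) (XT.lf (nat_lit 0) (nat_lit 1882003393) (nat_lit 988) (nat_lit 4158549580) (nat_lit 76) (nat_lit 4014559714) (nat_lit 426) (nat_lit 5) (nat_lit 439) (nat_lit 5) (nat_lit 427) (nat_lit 5) (nat_lit 579) (nat_lit 545) (nat_lit 436)) (XT.lf (nat_lit 0) (nat_lit 1663058682) (nat_lit 912) (nat_lit 2022125860) (nat_lit 988) (nat_lit 6467463047) (nat_lit 414) (nat_lit 5) (nat_lit 426) (nat_lit 5) (nat_lit 427) (nat_lit 5) (nat_lit 580) (nat_lit 545) (nat_lit 435))) (XT.nd (nat_lit 78) (nat_lit 836) (nat_lit 0) (XT.lf (nat_lit 0) (nat_lit 5545354370) (nat_lit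 988) (nat_lit 2628174951) (nat_lit 76) (nat_lit 2078187207) (nat_lit 414) (nat_lit 5) (nat_lit 427) (nat_lit 5) (nat_lit 415) (nat_lit 5) (nat_lit 581) (nat_lit 545) (nat_lit 434)) (XT.lf (nat_lit 0) (nat_lit 3361156621) (nat_lit 836) (nat_lit 4096541346) (nat_lit 912) (nat_lit 2894771275) (nat_lit 403) (nat_lit 5) (nat_lit 414) (nat_lit 5) (nat_lit 415) (nat_lit 5) (nat_lit 582) (nat_lit 545) (nat_lit 433)))))) (XT.nd (nat_lit 546) (nat_lit 2964) (nat_lit 0) (XT.nd (nat_lit 234) (nat_lit 1672) (nat_lit 0) (XT.nd (nat_lit 78) (nat_lit 1748) (nat_lit 0) (XT.lf (nat_lit 0) (nat_lit 9406468707) (nat_lit 912) (nat_lit 969774776) (nat_lit 76) (nat_lit 79031690) (nat_lit 403) (nat_lit 5) (nat_lit 415) (nat_lit 5) (nat_lit 404) (nat_lit 5) (nat_lit 583) (nat_lit 545) (nat_lit 432)) (XT.nd (nat_lit 78) (nat_lit 836) (nat_lit 0) (XT.lf (nat_lit 0) (nat_lit 864674144) (nat_lit 912) (nat_lit 5371701013) (nat_lit 76) (nat_lit 4322824745) (nat_lit 391) (nat_lit 5) (nat_lit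 403) (nat_lit 5) (nat_lit 392) (nat_lit 5) (nat_lit 584) (nat_lit 545) (nat_lit 431)) (XT.lf (nat_lit 0) (nat_lit 799483459) (nat_lit 836) (nat_lit 1995194474) (nat_lit 912) (nat_lit 7870542266) (nat_lit 380) (nat_lit 5) (nat_lit 391) (nat_lit 5) (nat_lit 392) (nat_lit 5) (nat_lit 585) (nat_lit 545) (nat_lit 430)))) (XT.nd (nat_lit 156) (nat_lit 836) (nat_lit 0) (XT.nd (nat_lit 78) (nat_lit 836) (nat_lit 0) (XT.lf (nat_lit 0) (nat_lit 4795491178) (nat_lit 912) (nat_lit 3641358889) (nat_lit 76) (nat_lit 2335868281) (nat_lit 380) (nat_lit 5) (nat_lit 392) (nat_lit 5) (nat_lit 381) (nat_lit 5) (nat_lit 586) (nat_lit 545) (nat_lit 429)) (XT.lf (nat_lit 0) (nat_lit 2709978812) (nat_lit 836) (nat_lit 4138317273) (nat_lit 912) (nat_lit 4033832469) (nat_lit 369) (nat_lit 5) (nat_lit 380) (nat_lit 5) (nat_lit 381) (nat_lit 5) (nat_lit 587) (nat_lit 545) (nat_lit 428))) (XT.nd (nat_lit 78) (nat_lit 836) (nat_lit 0) (XT.lf (nat_lit 0) (nat_lit 8949753797) (nat_lit 912) (nat_lit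 1777387398) (nat_lit 76) (nat_lit 266435404) (nat_lit 369) (nat_lit 5) (nat_lit 381) (nat_lit 5) (nat_lit 370) (nat_lit 5) (nat_lit 588) (nat_lit 545) (nat_lit 427)) (XT.lf (nat_lit 0) (nat_lit 26515546) (nat_lit 836) (nat_lit 6346025506) (nat_lit 76) (nat_lit 4733908989) (nat_lit 358) (nat_lit 5) (nat_lit 369) (nat_lit 5) (nat_lit 359) (nat_lit 5) (nat_lit 589) (nat_lit 545) (nat_lit 426))))) (XT.nd (nat_lit 234) (nat_lit 1520) (nat_lit 0) (XT.nd (nat_lit 78) (nat_lit 684) (nat_lit 0) (XT.lf (nat_lit 0) (nat_lit 200954005) (nat_lit 760) (nat_lit 1905151866) (nat_lit 836) (nat_lit 9115302127) (nat_lit 348) (nat_lit 5) (nat_lit 358) (nat_lit 5) (nat_lit 359) (nat_lit 5) (nat_lit 590) (nat_lit 545) (nat_lit 425)) (XT.nd (nat_lit 78) (nat_lit 684) (nat_lit 0) (XT.lf (nat_lit 0) (nat_lit 4269462565) (nat_lit 836) (nat_lit 4410444166) (nat_lit 76) (nat_lit 2657916342) (nat_lit 348) (nat_lit 5) (nat_lit 359) (nat_lit 5) (nat_lit 349) (nat_lit 5) (nat_lit 591) (nat_lit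 545) (nat_lit 424)) (XT.lf (nat_lit 0) (nat_lit 2330072953) (nat_lit 684) (nat_lit 4156201386) (nat_lit 760) (nat_lit 4970089774) (nat_lit 339) (nat_lit 5) (nat_lit 348) (nat_lit 5) (nat_lit 349) (nat_lit 5) (nat_lit 592) (nat_lit 545) (nat_lit 423)))) (XT.nd (nat_lit 156) (nat_lit 760) (nat_lit 0) (XT.nd (nat_lit 78) (nat_lit 760) (nat_lit 0) (XT.lf (nat_lit 0) (nat_lit 8762834467) (nat_lit 760) (nat_lit 2334508672) (nat_lit 76) (nat_lit 479625987) (nat_lit 339) (nat_lit 5) (nat_lit 349) (nat_lit 5) (nat_lit 340) (nat_lit 5) (nat_lit 593) (nat_lit 545) (nat_lit 422)) (XT.lf (nat_lit 0) (nat_lit 4606549428) (nat_lit 760) (nat_lit 6518796142) (nat_lit 836) (nat_lit 573833641) (nat_lit 329) (nat_lit 5) (nat_lit 339) (nat_lit 5) (nat_lit 340) (nat_lit 5) (nat_lit 594) (nat_lit 545) (nat_lit 421))) (XT.nd (nat_lit 78) (nat_lit 684) (nat_lit 0) (XT.lf (nat_lit 0) (nat_lit 1687681276) (nat_lit 836) (nat_lit 136210504) (nat_lit 76) (nat_lit 9999743785) (nat_lit 328) (nat_lit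 5) (nat_lit 339) (nat_lit 5) (nat_lit 329) (nat_lit 5) (nat_lit 595) (nat_lit 545) (nat_lit 420)) (XT.lf (nat_lit 0) (nat_lit 4035358591) (nat_lit 760) (nat_lit 4940934621) (nat_lit 76) (nat_lit 2973240948) (nat_lit 319) (nat_lit 5) (nat_lit 329) (nat_lit 5) (nat_lit 320) (nat_lit 5) (nat_lit 596) (nat_lit 545) (nat_lit 419))))))))
noncomputable def xc135 : XT := (XT.nd (nat_lit 2106) (nat_lit 6764) (nat_lit 0) (XT.nd (nat_lit 1014) (nat_lit 4256) (nat_lit 0) (XT.nd (nat_lit 468) (nat_lit 2432) (nat_lit 0) (XT.nd (nat_lit 234) (nat_lit 1368) (nat_lit 0) (XT.nd (nat_lit 78) (nat_lit 608) (nat_lit 0) (XT.lf (nat_lit 0) (nat_lit 2217870951) (nat_lit 684) (nat_lit 4223115336) (nat_lit 760) (nat_lit 5636745767) (nat_lit 310) (nat_lit 5) (nat_lit 319) (nat_lit 5) (nat_lit 320) (nat_lit 5) (nat_lit 597) (nat_lit 545) (nat_lit 418)) (XT.nd (nat_lit 78) (nat_lit 608) (nat_lit 0) (XT.lf (nat_lit 0) (nat_lit 8915936399) (nat_lit 760) (nat_lit 2644810935) (nat_lit 76) (nat_lit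 647323611) (nat_lit 310) (nat_lit 5) (nat_lit 320) (nat_lit 5) (nat_lit 311) (nat_lit 5) (nat_lit 598) (nat_lit 545) (nat_lit 417)) (XT.lf (nat_lit 0) (nat_lit 4729453006) (nat_lit 608) (nat_lit 6753700315) (nat_lit 684) (nat_lit 857009150) (nat_lit 302) (nat_lit 5) (nat_lit 310) (nat_lit 5) (nat_lit 311) (nat_lit 5) (nat_lit 599) (nat_lit 545) (nat_lit 416)))) (XT.nd (nat_lit 78) (nat_lit 1292) (nat_lit 0) (XT.lf (nat_lit 0) (nat_lit 1607524880) (nat_lit 684) (nat_lit 217400145) (nat_lit 76) (nat_lit 10649719881) (nat_lit 301) (nat_lit 5) (nat_lit 310) (nat_lit 5) (nat_lit 302) (nat_lit 5) (nat_lit 600) (nat_lit 545) (nat_lit 415)) (XT.nd (nat_lit 78) (nat_lit 608) (nat_lit 0) (XT.lf (nat_lit 0) (nat_lit 4163519292) (nat_lit 760) (nat_lit 5235933296) (nat_lit 76) (nat_lit 3211179346) (nat_lit 292) (nat_lit 5) (nat_lit 302) (nat_lit 5) (nat_lit 293) (nat_lit 5) (nat_lit 601) (nat_lit 545) (nat_lit 414)) (XT.lf (nat_lit 0) (nat_lit 2372277191) (nat_lit 608) (nat_lit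 4411960209) (nat_lit 684) (nat_lit 5964830349) (nat_lit 284) (nat_lit 5) (nat_lit 292) (nat_lit 5) (nat_lit 293) (nat_lit 5) (nat_lit 602) (nat_lit 545) (nat_lit 413))))) (XT.nd (nat_lit 234) (nat_lit 1748) (nat_lit 0) (XT.nd (nat_lit 78) (nat_lit 684) (nat_lit 0) (XT.lf (nat_lit 0) (nat_lit 9481924326) (nat_lit 684) (nat_lit 2709732802) (nat_lit 76) (nat_lit 698125162) (nat_lit 284) (nat_lit 5) (nat_lit 293) (nat_lit 5) (nat_lit 285) (nat_lit 5) (nat_lit 603) (nat_lit 545) (nat_lit 412)) (XT.nd (nat_lit 78) (nat_lit 76) (nat_lit 0) (XT.lf (nat_lit 0) (nat_lit 5129931215) (nat_lit 608) (nat_lit 7151258499) (nat_lit 684) (nat_lit 751169991) (nat_lit 276) (nat_lit 5) (nat_lit 284) (nat_lit 5) (nat_lit 285) (nat_lit 5) (nat_lit 604) (nat_lit 545) (nat_lit 411)) (XT.lf (nat_lit 0) (nat_lit 1936439696) (nat_lit 684) (nat_lit 46013643) (nat_lit 76) (nat_lit 11195012507) (nat_lit 275) (nat_lit 5) (nat_lit 284) (nat_lit 5) (nat_lit 276) (nat_lit 5) (nat_lit 605) (nat_lit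 545) (nat_lit 410)))) (XT.nd (nat_lit 156) (nat_lit 532) (nat_lit 0) (XT.nd (nat_lit 78) (nat_lit 608) (nat_lit 0) (XT.lf (nat_lit 0) (nat_lit 4727191364) (nat_lit 684) (nat_lit 5296707372) (nat_lit 76) (nat_lit 3300288127) (nat_lit 267) (nat_lit 5) (nat_lit 276) (nat_lit 5) (nat_lit 268) (nat_lit 5) (nat_lit 606) (nat_lit 545) (nat_lit 409)) (XT.lf (nat_lit 0) (nat_lit 2794102688) (nat_lit 608) (nat_lit 4796838509) (nat_lit 684) (nat_lit 5882558436) (nat_lit 259) (nat_lit 5) (nat_lit 267) (nat_lit 5) (nat_lit 268) (nat_lit 5) (nat_lit 607) (nat_lit 545) (nat_lit 408))) (XT.nd (nat_lit 78) (nat_lit 532) (nat_lit 0) (XT.lf (nat_lit 0) (nat_lit 10536953717) (nat_lit 684) (nat_lit 2529044920) (nat_lit 76) (nat_lit 559301242) (nat_lit 259) (nat_lit 5) (nat_lit 268) (nat_lit 5) (nat_lit 260) (nat_lit 5) (nat_lit 608) (nat_lit 545) (nat_lit 407)) (XT.lf (nat_lit 0) (nat_lit 5810341932) (nat_lit 532) (nat_lit 7787052538) (nat_lit 608) (nat_lit 181632460) (nat_lit 252)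 (nat_lit 5) (nat_lit 259) (nat_lit 5) (nat_lit 260) (nat_lit 5) (nat_lit 609) (nat_lit 545) (nat_lit 406)))))) (XT.nd (nat_lit 546) (nat_lit 2052) (nat_lit 0) (XT.nd (nat_lit 234) (nat_lit 1064) (nat_lit 0) (XT.nd (nat_lit 78) (nat_lit 532) (nat_lit 0) (XT.lf (nat_lit 0) (nat_lit 383684960) (nat_lit 532) (nat_lit 2368682134) (nat_lit 608) (nat_lit 11182987859) (nat_lit 244) (nat_lit 5) (nat_lit 251) (nat_lit 5) (nat_lit 252) (nat_lit 5) (nat_lit 610) (nat_lit 545) (nat_lit 405)) (XT.nd (nat_lit 78) (nat_lit 532) (nat_lit 0) (XT.lf (nat_lit 0) (nat_lit 5803152484) (nat_lit 608) (nat_lit 5123279798) (nat_lit 76) (nat_lit 3167143386) (nat_lit 244) (nat_lit 5) (nat_lit 252) (nat_lit 5) (nat_lit 245) (nat_lit 5) (nat_lit 611) (nat_lit 545) (nat_lit 404)) (XT.lf (nat_lit 0) (nat_lit 3485470316) (nat_lit 532) (nat_lit 5454273644) (nat_lit 608) (nat_lit 5314721913) (nat_lit 237) (nat_lit 5) (nat_lit 244) (nat_lit 5) (nat_lit 245) (nat_lit 5) (nat_lit 612) (nat_lit 545)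 (nat_lit 403)))) (XT.nd (nat_lit 156) (nat_lit 456) (nat_lit 0) (XT.nd (nat_lit 78) (nat_lit 608) (nat_lit 0) (XT.lf (nat_lit 0) (nat_lit 12161092177) (nat_lit 608) (nat_lit 2101449382) (nat_lit 76) (nat_lit 155592693) (nat_lit 237) (nat_lit 5) (nat_lit 245) (nat_lit 5) (nat_lit 238) (nat_lit 5) (nat_lit 613) (nat_lit 545) (nat_lit 402)) (XT.lf (nat_lit 0) (nat_lit 917888436) (nat_lit 608) (nat_lit 7815596884) (nat_lit 76) (nat_lit 5850131612) (nat_lit 229) (nat_lit 5) (nat_lit 237) (nat_lit 5) (nat_lit 230) (nat_lit 5) (nat_lit 614) (nat_lit 545) (nat_lit 401))) (XT.nd (nat_lit 78) (nat_lit 0) (nat_lit 0) (XT.lf (nat_lit 0) (nat_lit 1072210734) (nat_lit 456) (nat_lit 3061978342) (nat_lit 532) (nat_lit 10617760761) (nat_lit 223) (nat_lit 5) (nat_lit 229) (nat_lit 5) (nat_lit 230) (nat_lit 5) (nat_lit 615) (nat_lit 545) (nat_lit 400)) (XT.lf (nat_lit 0) (nat_lit 7472305387) (nat_lit 532) (nat_lit 4715066991) (nat_lit 76) (nat_lit 2735128027) (nat_lit 223) (nat_lit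 5) (nat_lit 230) (nat_lit 5) (nat_lit 224) (nat_lit 5) (nat_lit 616) (nat_lit 545) (nat_lit 399))))) (XT.nd (nat_lit 234) (nat_lit 988) (nat_lit 0) (XT.nd (nat_lit 78) (nat_lit 532) (nat_lit 0) (XT.lf (nat_lit 0) (nat_lit 4449171340) (nat_lit 532) (nat_lit 6464448547) (nat_lit 608) (nat_lit 4182114168) (nat_lit 216) (nat_lit 5) (nat_lit 223) (nat_lit 5) (nat_lit 224) (nat_lit 5) (nat_lit 617) (nat_lit 545) (nat_lit 398)) (XT.nd (nat_lit 78) (nat_lit 532) (nat_lit 0) (XT.lf (nat_lit 0) (nat_lit 13842924620) (nat_lit 532) (nat_lit 599882301) (nat_lit 608) (nat_lit 829245300) (nat_lit 216) (nat_lit 5) (nat_lit 223) (nat_lit 5) (nat_lit 224) (nat_lit 5) (nat_lit 618) (nat_lit 545) (nat_lit 397)) (XT.lf (nat_lit 0) (nat_lit 2631867343) (nat_lit 532) (nat_lit 7442303758) (nat_lit 76) (nat_lit 5375886709) (nat_lit 209) (nat_lit 5) (nat_lit 216) (nat_lit 5) (nat_lit 210) (nat_lit 5) (nat_lit 619) (nat_lit 545) (nat_lit 396)))) (XT.nd (nat_lit 156) (nat_lit 532) (nat_lit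 0) (XT.nd (nat_lit 78) (nat_lit 0) (nat_lit 0) (XT.lf (nat_lit 0) (nat_lit 2020686068) (nat_lit 456) (nat_lit 4144836916) (nat_lit 532) (nat_lit 9465703138) (nat_lit 203) (nat_lit 5) (nat_lit 209) (nat_lit 5) (nat_lit 210) (nat_lit 5) (nat_lit 620) (nat_lit 545) (nat_lit 395)) (XT.lf (nat_lit 0) (nat_lit 9820242210) (nat_lit 532) (nat_lit 4071583900) (nat_lit 76) (nat_lit 1923184593) (nat_lit 203) (nat_lit 5) (nat_lit 210) (nat_lit 5) (nat_lit 204) (nat_lit 5) (nat_lit 621) (nat_lit 545) (nat_lit 394))) (XT.nd (nat_lit 78) (nat_lit 76) (nat_lit 0) (XT.lf (nat_lit 0) (nat_lit 5687951425) (nat_lit 456) (nat_lit 7912485431) (nat_lit 532) (nat_lit 2400987195) (nat_lit 197) (nat_lit 5) (nat_lit 203) (nat_lit 5) (nat_lit 204) (nat_lit 5) (nat_lit 622) (nat_lit 545) (nat_lit 393)) (XT.lf (nat_lit 0) (nat_lit 1263632647) (nat_lit 532) (nat_lit 518936986) (nat_lit 76) (nat_lit 14408521497) (nat_lit 196) (nat_lit 5) (nat_lit 203) (nat_lit 5) (nat_lit 197) (nat_lit 5) (nat_lit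 623) (nat_lit 545) (nat_lit 392))))))) (XT.nd (nat_lit 1092) (nat_lit 2964) (nat_lit 0) (XT.nd (nat_lit 546) (nat_lit 1672) (nat_lit 0) (XT.nd (nat_lit 234) (nat_lit 1292) (nat_lit 0) (XT.nd (nat_lit 78) (nat_lit 380) (nat_lit 0) (XT.lf (nat_lit 0) (nat_lit 5049305362) (nat_lit 532) (nat_lit 6848761998) (nat_lit 76) (nat_lit 4484569243) (nat_lit 190) (nat_lit 5) (nat_lit 197) (nat_lit 5) (nat_lit 191) (nat_lit 5) (nat_lit 624) (nat_lit 545) (nat_lit 391)) (XT.nd (nat_lit 78) (nat_lit 0) (nat_lit 0) (XT.lf (nat_lit 0) (nat_lit 3230231023) (nat_lit 380) (nat_lit 5705109203) (nat_lit 456) (nat_lit 7642180429) (nat_lit 185) (nat_lit 5) (nat_lit 190) (nat_lit 5) (nat_lit 191) (nat_lit 5) (nat_lit 625) (nat_lit 545) (nat_lit 390)) (XT.lf (nat_lit 0) (nat_lit 12937777769) (nat_lit 456) (nat_lit 3193240254) (nat_lit 76) (nat_lit 644511358) (nat_lit 185) (nat_lit 5) (nat_lit 191) (nat_lit 5) (nat_lit 186) (nat_lit 5) (nat_lit 626) (nat_lit 545) (nat_lit 389)))) (XT.nd (nat_lit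 156) (nat_lit 380) (nat_lit 0) (XT.nd (nat_lit 78) (nat_lit 380) (nat_lit 0) (XT.lf (nat_lit 0) (nat_lit 115916355) (nat_lit 532) (nat_lit 9773095249) (nat_lit 76) (nat_lit 7087007502) (nat_lit 178) (nat_lit 5) (nat_lit 185) (nat_lit 5) (nat_lit 179) (nat_lit 5) (nat_lit 627) (nat_lit 545) (nat_lit 388)) (XT.lf (nat_lit 0) (nat_lit 636067476) (nat_lit 380) (nat_lit 3475662806) (nat_lit 456) (nat_lit 13067992385) (nat_lit 173) (nat_lit 5) (nat_lit 178) (nat_lit 5) (nat_lit 179) (nat_lit 5) (nat_lit 628) (nat_lit 545) (nat_lit 387))) (XT.nd (nat_lit 78) (nat_lit 380) (nat_lit 0) (XT.lf (nat_lit 0) (nat_lit 8262171258) (nat_lit 456) (nat_lit 6037638584) (nat_lit 76) (nat_lit 3086196824) (nat_lit 173) (nat_lit 5) (nat_lit 179) (nat_lit 5) (nat_lit 174) (nat_lit 5) (nat_lit 629) (nat_lit 545) (nat_lit 386)) (XT.lf (nat_lit 0) (nat_lit 4700461700) (nat_lit 380) (nat_lit 7837702988) (nat_lit 456) (nat_lit 5057401359) (nat_lit 168) (nat_lit 5) (nat_lit 173) (nat_lit 5)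 (nat_lit 174) (nat_lit 5) (nat_lit 630) (nat_lit 545) (nat_lit 385))))) (XT.nd (nat_lit 234) (nat_lit 836) (nat_lit 0) (XT.nd (nat_lit 78) (nat_lit 836) (nat_lit 0) (XT.lf (nat_lit 0) (nat_lit 15718608998) (nat_lit 380) (nat_lit 1210700248) (nat_lit 456) (nat_lit 879415304) (nat_lit 168) (nat_lit 5) (nat_lit 173) (nat_lit 5) (nat_lit 174) (nat_lit 5) (nat_lit 631) (nat_lit 545) (nat_lit 384)) (XT.nd (nat_lit 78) (nat_lit 380) (nat_lit 0) (XT.lf (nat_lit 0) (nat_lit 3422058220) (nat_lit 456) (nat_lit 9050458362) (nat_lit 76) (nat_lit 5551505299) (nat_lit 162) (nat_lit 5) (nat_lit 168) (nat_lit 5) (nat_lit 163) (nat_lit 5) (nat_lit 632) (nat_lit 545) (nat_lit 383)) (XT.lf (nat_lit 0) (nat_lit 2039877838) (nat_lit 380) (nat_lit 5782625990) (nat_lit 456) (nat_lit 10420511241) (nat_lit 157) (nat_lit 5) (nat_lit 162) (nat_lit 5) (nat_lit 163) (nat_lit 5) (nat_lit 633) (nat_lit 545) (nat_lit 382)))) (XT.nd (nat_lit 156) (nat_lit 456) (nat_lit 0) (XT.nd (nat_lit 78) (nat_lit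 380) (nat_lit 0) (XT.lf (nat_lit 0) (nat_lit 12368245144) (nat_lit 456) (nat_lit 5014143543) (nat_lit 76) (nat_lit 1082854216) (nat_lit 157) (nat_lit 5) (nat_lit 163) (nat_lit 5) (nat_lit 158) (nat_lit 5) (nat_lit 634) (nat_lit 545) (nat_lit 381)) (XT.lf (nat_lit 0) (nat_lit 6428457884) (nat_lit 380) (nat_lit 10646076733) (nat_lit 456) (nat_lit 1615988518) (nat_lit 152) (nat_lit 5) (nat_lit 157) (nat_lit 5) (nat_lit 158) (nat_lit 5) (nat_lit 635) (nat_lit 545) (nat_lit 380))) (XT.nd (nat_lit 78) (nat_lit 380) (nat_lit 0) (XT.lf (nat_lit 0) (nat_lit 2939391427) (nat_lit 456) (nat_lit 787381742) (nat_lit 76) (nat_lit 15192682596) (nat_lit 151) (nat_lit 5) (nat_lit 157) (nat_lit 5) (nat_lit 152) (nat_lit 5) (nat_lit 636) (nat_lit 545) (nat_lit 379)) (XT.lf (nat_lit 0) (nat_lit 7647875862) (nat_lit 456) (nat_lit 8138740829) (nat_lit 76) (nat_lit 3364464503) (nat_lit 146) (nat_lit 5) (nat_lit 152) (nat_lit 5) (nat_lit 147) (nat_lit 5) (nat_lit 637) (nat_lit 545) (nat_lit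 378)))))) (XT.nd (nat_lit 546) (nat_lit 1520) (nat_lit 0) (XT.nd (nat_lit 234) (nat_lit 684) (nat_lit 0) (XT.nd (nat_lit 78) (nat_lit 456) (nat_lit 0) (XT.lf (nat_lit 0) (nat_lit 3679071887) (nat_lit 304) (nat_lit 8815238127) (nat_lit 380) (nat_lit 6892153988) (nat_lit 142) (nat_lit 5) (nat_lit 146) (nat_lit 5) (nat_lit 147) (nat_lit 5) (nat_lit 638) (nat_lit 545) (nat_lit 377)) (XT.nd (nat_lit 78) (nat_lit 456) (nat_lit 0) (XT.lf (nat_lit 0) (nat_lit 15827707818) (nat_lit 304) (nat_lit 1654569180) (nat_lit 380) (nat_lit 2143385843) (nat_lit 142) (nat_lit 5) (nat_lit 146) (nat_lit 5) (nat_lit 147) (nat_lit 5) (nat_lit 639) (nat_lit 545) (nat_lit 376)) (XT.lf (nat_lit 0) (nat_lit 2746895223) (nat_lit 456) (nat_lit 11478535655) (nat_lit 76) (nat_lit 5642225508) (nat_lit 136) (nat_lit 5) (nat_lit 142) (nat_lit 5) (nat_lit 137) (nat_lit 5) (nat_lit 640) (nat_lit 545) (nat_lit 375)))) (XT.nd (nat_lit 156) (nat_lit 380) (nat_lit 0) (XT.nd (nat_lit 78) (nat_lit 0) (nat_lit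 0) (XT.lf (nat_lit 0) (nat_lit 725907668) (nat_lit 304) (nat_lit 7011901498) (nat_lit 380) (nat_lit 12375767169) (nat_lit 132) (nat_lit 5) (nat_lit 136) (nat_lit 5) (nat_lit 137) (nat_lit 5) (nat_lit 641) (nat_lit 545) (nat_lit 374)) (XT.lf (nat_lit 0) (nat_lit 12898552043) (nat_lit 380) (nat_lit 7051381104) (nat_lit 76) (nat_lit 413081746) (nat_lit 132) (nat_lit 5) (nat_lit 137) (nat_lit 5) (nat_lit 133) (nat_lit 5) (nat_lit 642) (nat_lit 545) (nat_lit 373))) (XT.nd (nat_lit 78) (nat_lit 76) (nat_lit 0) (XT.lf (nat_lit 0) (nat_lit 5542409515) (nat_lit 304) (nat_lit 12692941033) (nat_lit 380) (nat_lit 2380635278) (nat_lit 128) (nat_lit 5) (nat_lit 132) (nat_lit 5) (nat_lit 133) (nat_lit 5) (nat_lit 643) (nat_lit 545) (nat_lit 372)) (XT.lf (nat_lit 0) (nat_lit 2806158439) (nat_lit 380) (nat_lit 2423436505) (nat_lit 76) (nat_lit 15643295891) (nat_lit 127) (nat_lit 5) (nat_lit 132) (nat_lit 5) (nat_lit 128) (nat_lit 5) (nat_lit 644) (nat_lit 545) (nat_lit 371)))))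 (XT.nd (nat_lit 234) (nat_lit 912) (nat_lit 0) (XT.nd (nat_lit 78) (nat_lit 304) (nat_lit 0) (XT.lf (nat_lit 0) (nat_lit 8140208269) (nat_lit 380) (nat_lit 10561824492) (nat_lit 76) (nat_lit 2431078920) (nat_lit 123) (nat_lit 5) (nat_lit 128) (nat_lit 5) (nat_lit 124) (nat_lit 5) (nat_lit 645) (nat_lit 545) (nat_lit 370)) (XT.nd (nat_lit 78) (nat_lit 0) (nat_lit 0) (XT.lf (nat_lit 0) (nat_lit 2442592357) (nat_lit 304) (nat_lit 11195888376) (nat_lit 380) (nat_lit 7758905760) (nat_lit 119) (nat_lit 5) (nat_lit 123) (nat_lit 5) (nat_lit 124) (nat_lit 5) (nat_lit 646) (nat_lit 545) (nat_lit 369)) (XT.lf (nat_lit 0) (nat_lit 15835120268) (nat_lit 304) (nat_lit 3473237600) (nat_lit 380) (nat_lit 2357356529) (nat_lit 119) (nat_lit 5) (nat_lit 123) (nat_lit 5) (nat_lit 124) (nat_lit 5) (nat_lit 647) (nat_lit 545) (nat_lit 368)))) (XT.nd (nat_lit 156) (nat_lit 532) (nat_lit 0) (XT.nd (nat_lit 78) (nat_lit 0) (nat_lit 0) (XT.lf (nat_lit 0) (nat_lit 3180262292) (nat_lit 380)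 (nat_lit 14346611696) (nat_lit 76) (nat_lit 4410738294) (nat_lit 114) (nat_lit 5) (nat_lit 119) (nat_lit 5) (nat_lit 115) (nat_lit 5) (nat_lit 648) (nat_lit 545) (nat_lit 367)) (XT.lf (nat_lit 0) (nat_lit 8850413894) (nat_lit 380) (nat_lit 907990227) (nat_lit 76) (nat_lit 12455165809) (nat_lit 114) (nat_lit 5) (nat_lit 119) (nat_lit 5) (nat_lit 115) (nat_lit 5) (nat_lit 649) (nat_lit 545) (nat_lit 366))) (XT.nd (nat_lit 78) (nat_lit 228) (nat_lit 0) (XT.lf (nat_lit 0) (nat_lit 12954585049) (nat_lit 304) (nat_lit 1754599960) (nat_lit 380) (nat_lit 7784357740) (nat_lit 110) (nat_lit 5) (nat_lit 114) (nat_lit 5) (nat_lit 115) (nat_lit 5) (nat_lit 650) (nat_lit 545) (nat_lit 365)) (XT.lf (nat_lit 0) (nat_lit 4328074144) (nat_lit 228) (nat_lit 16424053311) (nat_lit 304) (nat_lit 2025647994) (nat_lit 107) (nat_lit 5) (nat_lit 110) (nat_lit 5) (nat_lit 111) (nat_lit 5) (nat_lit 651) (nat_lit 545) (nat_lit 364))))))))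
noncomputable def xc136 : XT := (XT.nd (nat_lit 74334) (nat_lit 0) (nat_lit 20596) (XT.nd (nat_lit 73242) (nat_lit 0) (nat_lit 36024) (XT.nd (nat_lit 468) (nat_lit 532) (nat_lit 0) (XT.nd (nat_lit 234) (nat_lit 380) (nat_lit 0) (XT.nd (nat_lit 78) (nat_lit 532) (nat_lit 0) (XT.lf (nat_lit 0) (nat_lit 3864989198) (nat_lit 304) (nat_lit 4516474915) (nat_lit 76) (nat_lit 14684384841) (nat_lit 106) (nat_lit 5) (nat_lit 110) (nat_lit 5) (nat_lit 107) (nat_lit 5) (nat_lit 652) (nat_lit 545) (nat_lit 363)) (XT.nd (nat_lit 78) (nat_lit 228) (nat_lit 0) (XT.lf (nat_lit 0) (nat_lit 9795984106) (nat_lit 304) (nat_lit 105300501) (nat_lit 380) (nat_lit 13457032476) (nat_lit 102) (nat_lit 5) (nat_lit 106) (nat_lit 5) (nat_lit 107) (nat_lit 5) (nat_lit 653) (nat_lit 545) (nat_lit 362)) (XT.lf (nat_lit 0) (nat_lit 740742853) (nat_lit 228) (nat_lit 15398386505) (nat_lit 304) (nat_lit 7515889062) (nat_lit 99) (nat_lit 5) (nat_lit 102) (nat_lit 5) (nat_lit 103) (nat_lit 5) (nat_lit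 654) (nat_lit 545) (nat_lit 361)))) (XT.nd (nat_lit 78) (nat_lit 380) (nat_lit 0) (XT.lf (nat_lit 0) (nat_lit 15498578223) (nat_lit 228) (nat_lit 7086311284) (nat_lit 304) (nat_lit 1371101418) (nat_lit 99) (nat_lit 5) (nat_lit 102) (nat_lit 5) (nat_lit 103) (nat_lit 5) (nat_lit 655) (nat_lit 545) (nat_lit 360)) (XT.nd (nat_lit 78) (nat_lit 0) (nat_lit 0) (XT.lf (nat_lit 0) (nat_lit 4874481283) (nat_lit 380) (nat_lit 17945687242) (nat_lit 76) (nat_lit 1441336438) (nat_lit 94) (nat_lit 5) (nat_lit 99) (nat_lit 5) (nat_lit 95) (nat_lit 5) (nat_lit 656) (nat_lit 545) (nat_lit 359)) (XT.lf (nat_lit 0) (nat_lit 11322295218) (nat_lit 380) (nat_lit 3143525748) (nat_lit 76) (nat_lit 10105213775) (nat_lit 94) (nat_lit 5) (nat_lit 99) (nat_lit 5) (nat_lit 95) (nat_lit 5) (nat_lit 657) (nat_lit 545) (nat_lit 358))))) (XT.nd (nat_lit 72462) (nat_lit 0) (nat_lit 38684) (XT.nd (nat_lit 78) (nat_lit 304) (nat_lit 0) (XT.lf (nat_lit 0) (nat_lit 12099342911) (nat_lit 228) (nat_lit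 5870046840) (nat_lit 304) (nat_lit 6915959163) (nat_lit 91) (nat_lit 5) (nat_lit 94) (nat_lit 5) (nat_lit 95) (nat_lit 5) (nat_lit 658) (nat_lit 545) (nat_lit 357)) (XT.nd (nat_lit 78) (nat_lit 76) (nat_lit 0) (XT.lf (nat_lit 0) (nat_lit 2483719145) (nat_lit 228) (nat_lit 22313681720) (nat_lit 304) (nat_lit 407589293) (nat_lit 88) (nat_lit 5) (nat_lit 91) (nat_lit 5) (nat_lit 92) (nat_lit 5) (nat_lit 659) (nat_lit 545) (nat_lit 356)) (XT.lf (nat_lit 0) (nat_lit 6266288412) (nat_lit 304) (nat_lit 7391121380) (nat_lit 76) (nat_lit 11870464386) (nat_lit 87) (nat_lit 5) (nat_lit 91) (nat_lit 5) (nat_lit 88) (nat_lit 5) (nat_lit 660) (nat_lit 545) (nat_lit 355)))) (XT.nd (nat_lit 156) (nat_lit 1368) (nat_lit 0) (XT.nd (nat_lit 78) (nat_lit 0) (nat_lit 0) (XT.lf (nat_lit 0) (nat_lit 1311343150) (nat_lit 0) (nat_lit 1311343150) (nat_lit 1292) (nat_lit 1242249680) (nat_lit 614) (nat_lit 5) (nat_lit 614) (nat_lit 3) (nat_lit 631) (nat_lit 3) (nat_lit 546) (nat_lit 546)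 (nat_lit 468)) (XT.lf (nat_lit 0) (nat_lit 6505913841) (nat_lit 0) (nat_lit 121797530) (nat_lit 1292) (nat_lit 1152712754) (nat_lit 614) (nat_lit 5) (nat_lit 614) (nat_lit 3) (nat_lit 631) (nat_lit 3) (nat_lit 547) (nat_lit 546) (nat_lit 467))) (XT.nd (nat_lit 78) (nat_lit 0) (nat_lit 0) (XT.lf (nat_lit 0) (nat_lit 201107038) (nat_lit 1368) (nat_lit 5197998218) (nat_lit 1444) (nat_lit 2432897284) (nat_lit 596) (nat_lit 5) (nat_lit 614) (nat_lit 5) (nat_lit 615) (nat_lit 5) (nat_lit 548) (nat_lit 546) (nat_lit 466)) (XT.lf (nat_lit 0) (nat_lit 1541562297) (nat_lit 1368) (nat_lit 1273570814) (nat_lit 1444) (nat_lit 5069830897) (nat_lit 596) (nat_lit 5) (nat_lit 614) (nat_lit 5) (nat_lit 615) (nat_lit 5) (nat_lit 549) (nat_lit 546) (nat_lit 465)))))) (XT.nd (nat_lit 546) (nat_lit 1368) (nat_lit 0) (XT.nd (nat_lit 234) (nat_lit 1292) (nat_lit 0) (XT.nd (nat_lit 78) (nat_lit 0) (nat_lit 76) (XT.lf (nat_lit 76) (nat_lit 2747141269) (nat_lit 0) (nat_lit 145760464) (nat_lit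 1444) (nat_lit 5046405151) (nat_lit 597) (nat_lit 5) (nat_lit 596) (nat_lit 5) (nat_lit 615) (nat_lit 5) (nat_lit 550) (nat_lit 546) (nat_lit 464)) (XT.nd (nat_lit 78) (nat_lit 0) (nat_lit 0) (XT.lf (nat_lit 0) (nat_lit 4263483732) (nat_lit 1368) (nat_lit 1164701870) (nat_lit 1444) (nat_lit 2566710307) (nat_lit 597) (nat_lit 5) (nat_lit 615) (nat_lit 5) (nat_lit 616) (nat_lit 5) (nat_lit 551) (nat_lit 546) (nat_lit 463)) (XT.lf (nat_lit 76) (nat_lit 2962693109) (nat_lit 0) (nat_lit 2686515972) (nat_lit 1444) (nat_lit 2402636537) (nat_lit 598) (nat_lit 5) (nat_lit 597) (nat_lit 5) (nat_lit 616) (nat_lit 5) (nat_lit 552) (nat_lit 546) (nat_lit 462)))) (XT.nd (nat_lit 156) (nat_lit 0) (nat_lit 0) (XT.nd (nat_lit 78) (nat_lit 1444) (nat_lit 0) (XT.lf (nat_lit 0) (nat_lit 7039366554) (nat_lit 1368) (nat_lit 941237848) (nat_lit 1444) (nat_lit 129799033) (nat_lit 598) (nat_lit 5) (nat_lit 616) (nat_lit 5) (nat_lit 617) (nat_lit 5) (nat_lit 553) (nat_lit 546) (nat_lit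 461)) (XT.lf (nat_lit 0) (nat_lit 291431721) (nat_lit 1444) (nat_lit 4875561377) (nat_lit 1520) (nat_lit 3002945278) (nat_lit 579) (nat_lit 5) (nat_lit 598) (nat_lit 5) (nat_lit 599) (nat_lit 5) (nat_lit 554) (nat_lit 546) (nat_lit 460))) (XT.nd (nat_lit 78) (nat_lit 0) (nat_lit 76) (XT.lf (nat_lit 0) (nat_lit 1642225446) (nat_lit 1444) (nat_lit 629243880) (nat_lit 1520) (nat_lit 5959548027) (nat_lit 579) (nat_lit 5) (nat_lit 598) (nat_lit 5) (nat_lit 599) (nat_lit 5) (nat_lit 555) (nat_lit 546) (nat_lit 459)) (XT.lf (nat_lit 0) (nat_lit 3018584112) (nat_lit 1444) (nat_lit 4565818992) (nat_lit 1520) (nat_lit 708947029) (nat_lit 580) (nat_lit 5) (nat_lit 599) (nat_lit 5) (nat_lit 600) (nat_lit 5) (nat_lit 556) (nat_lit 546) (nat_lit 458))))) (XT.nd (nat_lit 234) (nat_lit 1444) (nat_lit 0) (XT.nd (nat_lit 78) (nat_lit 0) (nat_lit 0) (XT.lf (nat_lit 0) (nat_lit 4411964043) (nat_lit 1444) (nat_lit 211157162) (nat_lit 1520) (nat_lit 3734021621) (nat_lit 580) (nat_lit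 5) (nat_lit 599) (nat_lit 5) (nat_lit 600) (nat_lit 5) (nat_lit 557) (nat_lit 546) (nat_lit 457)) (XT.nd (nat_lit 78) (nat_lit 0) (nat_lit 76) (XT.lf (nat_lit 76) (nat_lit 4267734251) (nat_lit 0) (nat_lit 1563971309) (nat_lit 1520) (nat_lit 2590539012) (nat_lit 581) (nat_lit 5) (nat_lit 580) (nat_lit 5) (nat_lit 600) (nat_lit 5) (nat_lit 558) (nat_lit 546) (nat_lit 456)) (XT.lf (nat_lit 76) (nat_lit 325241668) (nat_lit 0) (nat_lit 6939544858) (nat_lit 1520) (nat_lit 1224165952) (nat_lit 582) (nat_lit 5) (nat_lit 581) (nat_lit 5) (nat_lit 601) (nat_lit 5) (nat_lit 559) (nat_lit 546) (nat_lit 455)))) (XT.nd (nat_lit 156) (nat_lit 0) (nat_lit 76) (XT.nd (nat_lit 78) (nat_lit 0) (nat_lit 0) (XT.lf (nat_lit 0) (nat_lit 177281535) (nat_lit 1520) (nat_lit 3636784616) (nat_lit 1596) (nat_lit 4742709870) (nat_lit 561) (nat_lit 5) (nat_lit 581) (nat_lit 5) (nat_lit 582) (nat_lit 5) (nat_lit 560) (nat_lit 546) (nat_lit 454)) (XT.lf (nat_lit 76) (nat_lit 966017988) (nat_lit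 0) (nat_lit 602743046) (nat_lit 1596) (nat_lit 7057468118) (nat_lit 562) (nat_lit 5) (nat_lit 561) (nat_lit 5) (nat_lit 582) (nat_lit 5) (nat_lit 561) (nat_lit 546) (nat_lit 453))) (XT.nd (nat_lit 78) (nat_lit 0) (nat_lit 0) (XT.lf (nat_lit 0) (nat_lit 3002574682) (nat_lit 1520) (nat_lit 3023628901) (nat_lit 1596) (nat_lit 2670580458) (nat_lit 562) (nat_lit 5) (nat_lit 582) (nat_lit 5) (nat_lit 583) (nat_lit 5) (nat_lit 562) (nat_lit 546) (nat_lit 452)) (XT.lf (nat_lit 76) (nat_lit 1704732959) (nat_lit 0) (nat_lit 2748513699) (nat_lit 1596) (nat_lit 4315742465) (nat_lit 563) (nat_lit 5) (nat_lit 562) (nat_lit 5) (nat_lit 583) (nat_lit 5) (nat_lit 563) (nat_lit 546) (nat_lit 451))))))) (XT.nd (nat_lit 1014) (nat_lit 7220) (nat_lit 0) (XT.nd (nat_lit 468) (nat_lit 6840) (nat_lit 0) (XT.nd (nat_lit 234) (nat_lit 1520) (nat_lit 0) (XT.nd (nat_lit 78) (nat_lit 0) (nat_lit 0) (XT.lf (nat_lit 0) (nat_lit 5930789801) (nat_lit 1520) (nat_lit 2297350753) (nat_lit 1596) (nat_lit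 614543275) (nat_lit 563) (nat_lit 5) (nat_lit 583) (nat_lit 5) (nat_lit 584) (nat_lit 5) (nat_lit 564) (nat_lit 546) (nat_lit 450)) (XT.nd (nat_lit 78) (nat_lit 0) (nat_lit 0) (XT.lf (nat_lit 76) (nat_lit 2560894295) (nat_lit 0) (nat_lit 4885908646) (nat_lit 1596) (nat_lit 1470873736) (nat_lit 564) (nat_lit 5) (nat_lit 563) (nat_lit 5) (nat_lit 584) (nat_lit 5) (nat_lit 565) (nat_lit 546) (nat_lit 449)) (XT.lf (nat_lit 76) (nat_lit 7528189978) (nat_lit 0) (nat_lit 1454835850) (nat_lit 1596) (nat_lit 11348339) (nat_lit 564) (nat_lit 5) (nat_lit 563) (nat_lit 5) (nat_lit 584) (nat_lit 5) (nat_lit 566) (nat_lit 546) (nat_lit 448)))) (XT.nd (nat_lit 78) (nat_lit 0) (nat_lit 0) (XT.lf (nat_lit 0) (nat_lit 1469311120) (nat_lit 1596) (nat_lit 5546147195) (nat_lit 1672) (nat_lit 2056731537) (nat_lit 543) (nat_lit 5) (nat_lit 564) (nat_lit 5) (nat_lit 565) (nat_lit 5) (nat_lit 567) (nat_lit 546) (nat_lit 447)) (XT.nd (nat_lit 78) (nat_lit 0) (nat_lit 76) (XT.lf (nat_lit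 0) (nat_lit 2974183323) (nat_lit 1596) (nat_lit 542776453) (nat_lit 1672) (nat_lit 5634707973) (nat_lit 543) (nat_lit 5) (nat_lit 564) (nat_lit 5) (nat_lit 565) (nat_lit 5) (nat_lit 568) (nat_lit 546) (nat_lit 446)) (XT.lf (nat_lit 0) (nat_lit 4515294591) (nat_lit 1596) (nat_lit 4631416547) (nat_lit 76) (nat_lit 85903612) (nat_lit 544) (nat_lit 5) (nat_lit 565) (nat_lit 5) (nat_lit 545) (nat_lit 5) (nat_lit 569) (nat_lit 546) (nat_lit 445))))) (XT.nd (nat_lit 234) (nat_lit 3648) (nat_lit 0) (XT.nd (nat_lit 78) (nat_lit 1672) (nat_lit 0) (XT.lf (nat_lit 0) (nat_lit 503970127) (nat_lit 1596) (nat_lit 5589570110) (nat_lit 1672) (nat_lit 3221516544) (nat_lit 523) (nat_lit 5) (nat_lit 544) (nat_lit 5) (nat_lit 545) (nat_lit 5) (nat_lit 570) (nat_lit 546) (nat_lit 444)) (XT.nd (nat_lit 78) (nat_lit 1672) (nat_lit 0) (XT.lf (nat_lit 0) (nat_lit 5785347457) (nat_lit 1596) (nat_lit 1925507450) (nat_lit 1672) (nat_lit 1688144952) (nat_lit 523) (nat_lit 5) (nat_lit 544) (nat_lit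 5) (nat_lit 545) (nat_lit 5) (nat_lit 571) (nat_lit 546) (nat_lit 443)) (XT.lf (nat_lit 0) (nat_lit 1678373752) (nat_lit 1672) (nat_lit 7681715961) (nat_lit 1748) (nat_lit 124542852) (nat_lit 501) (nat_lit 5) (nat_lit 523) (nat_lit 5) (nat_lit 524) (nat_lit 5) (nat_lit 572) (nat_lit 546) (nat_lit 442)))) (XT.nd (nat_lit 156) (nat_lit 1824) (nat_lit 0) (XT.nd (nat_lit 78) (nat_lit 1748) (nat_lit 0) (XT.lf (nat_lit 0) (nat_lit 1465295848) (nat_lit 1748) (nat_lit 2488510151) (nat_lit 76) (nat_lit 5617698188) (nat_lit 500) (nat_lit 5) (nat_lit 523) (nat_lit 5) (nat_lit 501) (nat_lit 5) (nat_lit 573) (nat_lit 546) (nat_lit 441)) (XT.lf (nat_lit 0) (nat_lit 2954117385) (nat_lit 1748) (nat_lit 127863654) (nat_lit 1824) (nat_lit 6578183506) (nat_lit 477) (nat_lit 5) (nat_lit 500) (nat_lit 5) (nat_lit 501) (nat_lit 5) (nat_lit 574) (nat_lit 546) (nat_lit 440))) (XT.nd (nat_lit 78) (nat_lit 1824) (nat_lit 0) (XT.lf (nat_lit 0) (nat_lit 4750186714) (nat_lit 1824) (nat_lit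 1255283276) (nat_lit 76) (nat_lit 3744746456) (nat_lit 477) (nat_lit 5) (nat_lit 501) (nat_lit 5) (nat_lit 478) (nat_lit 5) (nat_lit 575) (nat_lit 546) (nat_lit 439)) (XT.lf (nat_lit 0) (nat_lit 4341240899) (nat_lit 1824) (nat_lit 2117852308) (nat_lit 1900) (nat_lit 3382831476) (nat_lit 453) (nat_lit 5) (nat_lit 477) (nat_lit 5) (nat_lit 478) (nat_lit 5) (nat_lit 576) (nat_lit 546) (nat_lit 438)))))) (XT.nd (nat_lit 546) (nat_lit 3420) (nat_lit 0) (XT.nd (nat_lit 234) (nat_lit 1748) (nat_lit 0) (XT.nd (nat_lit 78) (nat_lit 988) (nat_lit 0) (XT.lf (nat_lit 0) (nat_lit 101025363) (nat_lit 1064) (nat_lit 8100901599) (nat_lit 1140) (nat_lit 1733547130) (nat_lit 439) (nat_lit 5) (nat_lit 453) (nat_lit 5) (nat_lit 454) (nat_lit 5) (nat_lit 577) (nat_lit 546) (nat_lit 437)) (XT.nd (nat_lit 78) (nat_lit 988) (nat_lit 0) (XT.lf (nat_lit 0) (nat_lit 5855588210) (nat_lit 1064) (nat_lit 4153785839) (nat_lit 1140) (nat_lit 20927260) (nat_lit 439) (nat_lit 5) (nat_lit 453) (nat_lit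 5) (nat_lit 454) (nat_lit 5) (nat_lit 578) (nat_lit 546) (nat_lit 436)) (XT.lf (nat_lit 0) (nat_lit 1588416318) (nat_lit 912) (nat_lit 104391292) (nat_lit 988) (nat_lit 8434205244) (nat_lit 426) (nat_lit 5) (nat_lit 438) (nat_lit 5) (nat_lit 439) (nat_lit 5) (nat_lit 579) (nat_lit 546) (nat_lit 435)))) (XT.nd (nat_lit 156) (nat_lit 836) (nat_lit 0) (XT.nd (nat_lit 78) (nat_lit 912) (nat_lit 0) (XT.lf (nat_lit 0) (nat_lit 3474353130) (nat_lit 988) (nat_lit 2747884171) (nat_lit 76) (nat_lit 4002744079) (nat_lit 426) (nat_lit 5) (nat_lit 439) (nat_lit 5) (nat_lit 427) (nat_lit 5) (nat_lit 580) (nat_lit 546) (nat_lit 434)) (XT.lf (nat_lit 0) (nat_lit 3180328385) (nat_lit 912) (nat_lit 2112420182) (nat_lit 988) (nat_lit 5032138132) (nat_lit 414) (nat_lit 5) (nat_lit 426) (nat_lit 5) (nat_lit 427) (nat_lit 5) (nat_lit 581) (nat_lit 546) (nat_lit 433))) (XT.nd (nat_lit 78) (nat_lit 836) (nat_lit 0) (XT.lf (nat_lit 0) (nat_lit 7159728774) (nat_lit 988) (nat_lit 1195301154)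 (nat_lit 76) (nat_lit 2071517628) (nat_lit 414) (nat_lit 5) (nat_lit 427) (nat_lit 5) (nat_lit 415) (nat_lit 5) (nat_lit 582) (nat_lit 546) (nat_lit 432)) (XT.lf (nat_lit 0) (nat_lit 4904044436) (nat_lit 836) (nat_lit 4186376049) (nat_lit 912) (nat_lit 1439295441) (nat_lit 403) (nat_lit 5) (nat_lit 414) (nat_lit 5) (nat_lit 415) (nat_lit 5) (nat_lit 583) (nat_lit 546) (nat_lit 431))))) (XT.nd (nat_lit 234) (nat_lit 1672) (nat_lit 0) (XT.nd (nat_lit 78) (nat_lit 836) (nat_lit 0) (XT.lf (nat_lit 0) (nat_lit 411659536) (nat_lit 912) (nat_lit 10144509432) (nat_lit 76) (nat_lit 78876158) (nat_lit 391) (nat_lit 5) (nat_lit 403) (nat_lit 5) (nat_lit 392) (nat_lit 5) (nat_lit 584) (nat_lit 546) (nat_lit 430)) (XT.nd (nat_lit 78) (nat_lit 836) (nat_lit 0) (XT.lf (nat_lit 0) (nat_lit 2327028938) (nat_lit 912) (nat_lit 3993518967) (nat_lit 76) (nat_lit 4420811014) (nat_lit 391) (nat_lit 5) (nat_lit 403) (nat_lit 5) (nat_lit 392) (nat_lit 5) (nat_lit 585) (nat_lit 546) (nat_lit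 429)) (XT.lf (nat_lit 0) (nat_lit 2291315405) (nat_lit 836) (nat_lit 1985565010) (nat_lit 912) (nat_lit 6572996682) (nat_lit 380) (nat_lit 5) (nat_lit 391) (nat_lit 5) (nat_lit 392) (nat_lit 5) (nat_lit 586) (nat_lit 546) (nat_lit 428)))) (XT.nd (nat_lit 156) (nat_lit 836) (nat_lit 0) (XT.nd (nat_lit 78) (nat_lit 836) (nat_lit 0) (XT.lf (nat_lit 0) (nat_lit 6290058381) (nat_lit 912) (nat_lit 2239511381) (nat_lit 76) (nat_lit 2430510856) (nat_lit 380) (nat_lit 5) (nat_lit 392) (nat_lit 5) (nat_lit 381) (nat_lit 5) (nat_lit 587) (nat_lit 546) (nat_lit 427)) (XT.lf (nat_lit 0) (nat_lit 4229151267) (nat_lit 836) (nat_lit 4136855040) (nat_lit 912) (nat_lit 2706033316) (nat_lit 369) (nat_lit 5) (nat_lit 380) (nat_lit 5) (nat_lit 381) (nat_lit 5) (nat_lit 588) (nat_lit 546) (nat_lit 426))) (XT.nd (nat_lit 78) (nat_lit 836) (nat_lit 0) (XT.lf (nat_lit 0) (nat_lit 10482955900) (nat_lit 912) (nat_lit 350035623) (nat_lit 76) (nat_lit 353258137) (nat_lit 369) (nat_lit 5) (nat_lit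 381) (nat_lit 5) (nat_lit 370) (nat_lit 5) (nat_lit 589) (nat_lit 546) (nat_lit 425)) (XT.lf (nat_lit 0) (nat_lit 1373100948) (nat_lit 836) (nat_lit 5001672578) (nat_lit 76) (nat_lit 4926774524) (nat_lit 358) (nat_lit 5) (nat_lit 369) (nat_lit 5) (nat_lit 359) (nat_lit 5) (nat_lit 590) (nat_lit 546) (nat_lit 424))))))))
noncomputable def xc137 : XT := (XT.nd (nat_lit 2106) (nat_lit 7220) (nat_lit 0) (XT.nd (nat_lit 1014) (nat_lit 4636) (nat_lit 0) (XT.nd (nat_lit 468) (nat_lit 2660) (nat_lit 0) (XT.nd (nat_lit 234) (nat_lit 1520) (nat_lit 0) (XT.nd (nat_lit 78) (nat_lit 684) (nat_lit 0) (XT.lf (nat_lit 0) (nat_lit 1666567092) (nat_lit 760) (nat_lit 1810812388) (nat_lit 836) (nat_lit 7941765913) (nat_lit 348) (nat_lit 5) (nat_lit 358) (nat_lit 5) (nat_lit 359) (nat_lit 5) (nat_lit 591) (nat_lit 546) (nat_lit 423)) (XT.nd (nat_lit 78) (nat_lit 684) (nat_lit 0) (XT.lf (nat_lit 0) (nat_lit 5658784558) (nat_lit 836) (nat_lit 3040393374) (nat_lit 76) (nat_lit 2839217324)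 (nat_lit 348) (nat_lit 5) (nat_lit 359) (nat_lit 5) (nat_lit 349) (nat_lit 5) (nat_lit 592) (nat_lit 546) (nat_lit 422)) (XT.lf (nat_lit 0) (nat_lit 3825340274) (nat_lit 684) (nat_lit 4078430684) (nat_lit 760) (nat_lit 3755861463) (nat_lit 339) (nat_lit 5) (nat_lit 348) (nat_lit 5) (nat_lit 349) (nat_lit 5) (nat_lit 593) (nat_lit 546) (nat_lit 421)))) (XT.nd (nat_lit 78) (nat_lit 1520) (nat_lit 0) (XT.lf (nat_lit 0) (nat_lit 10201636027) (nat_lit 760) (nat_lit 936610414) (nat_lit 76) (nat_lit 644889649) (nat_lit 339) (nat_lit 5) (nat_lit 349) (nat_lit 5) (nat_lit 340) (nat_lit 5) (nat_lit 594) (nat_lit 546) (nat_lit 420)) (XT.nd (nat_lit 78) (nat_lit 684) (nat_lit 0) (XT.lf (nat_lit 0) (nat_lit 678816840) (nat_lit 836) (nat_lit 5778802447) (nat_lit 76) (nat_lit 5450392919) (nat_lit 328) (nat_lit 5) (nat_lit 339) (nat_lit 5) (nat_lit 329) (nat_lit 5) (nat_lit 595) (nat_lit 546) (nat_lit 419)) (XT.lf (nat_lit 0) (nat_lit 1301546784) (nat_lit 684) (nat_lit 1660153038)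 (nat_lit 760) (nat_lit 9073507490) (nat_lit 319) (nat_lit 5) (nat_lit 328) (nat_lit 5) (nat_lit 329) (nat_lit 5) (nat_lit 596) (nat_lit 546) (nat_lit 418))))) (XT.nd (nat_lit 234) (nat_lit 1976) (nat_lit 0) (XT.nd (nat_lit 78) (nat_lit 684) (nat_lit 0) (XT.lf (nat_lit 0) (nat_lit 5334188270) (nat_lit 760) (nat_lit 3602556135) (nat_lit 76) (nat_lit 3227324198) (nat_lit 319) (nat_lit 5) (nat_lit 329) (nat_lit 5) (nat_lit 320) (nat_lit 5) (nat_lit 597) (nat_lit 546) (nat_lit 417)) (XT.nd (nat_lit 78) (nat_lit 0) (nat_lit 0) (XT.lf (nat_lit 0) (nat_lit 3689970304) (nat_lit 684) (nat_lit 4083343308) (nat_lit 760) (nat_lit 4521810979) (nat_lit 310) (nat_lit 5) (nat_lit 319) (nat_lit 5) (nat_lit 320) (nat_lit 5) (nat_lit 598) (nat_lit 546) (nat_lit 416)) (XT.lf (nat_lit 0) (nat_lit 10275591870) (nat_lit 760) (nat_lit 1275699154) (nat_lit 76) (nat_lit 877224456) (nat_lit 310) (nat_lit 5) (nat_lit 320) (nat_lit 5) (nat_lit 311) (nat_lit 5) (nat_lit 599) (nat_lit 546) (nat_lit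 415)))) (XT.nd (nat_lit 156) (nat_lit 608) (nat_lit 0) (XT.nd (nat_lit 78) (nat_lit 684) (nat_lit 0) (XT.lf (nat_lit 0) (nat_lit 312478431) (nat_lit 684) (nat_lit 6328891467) (nat_lit 76) (nat_lit 5922119424) (nat_lit 301) (nat_lit 5) (nat_lit 310) (nat_lit 5) (nat_lit 302) (nat_lit 5) (nat_lit 600) (nat_lit 546) (nat_lit 414)) (XT.lf (nat_lit 0) (nat_lit 1194264483) (nat_lit 684) (nat_lit 1605285576) (nat_lit 760) (nat_lit 9901305302) (nat_lit 292) (nat_lit 5) (nat_lit 301) (nat_lit 5) (nat_lit 302) (nat_lit 5) (nat_lit 601) (nat_lit 546) (nat_lit 413))) (XT.nd (nat_lit 78) (nat_lit 608) (nat_lit 0) (XT.lf (nat_lit 0) (nat_lit 5386991865) (nat_lit 760) (nat_lit 3928300502) (nat_lit 76) (nat_lit 3524664879) (nat_lit 292) (nat_lit 5) (nat_lit 302) (nat_lit 5) (nat_lit 293) (nat_lit 5) (nat_lit 602) (nat_lit 546) (nat_lit 412)) (XT.lf (nat_lit 0) (nat_lit 3822782409) (nat_lit 608) (nat_lit 4224094614) (nat_lit 684) (nat_lit 4934551333) (nat_lit 284) (nat_lit 5) (nat_lit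 292) (nat_lit 5) (nat_lit 293) (nat_lit 5) (nat_lit 603) (nat_lit 546) (nat_lit 411)))))) (XT.nd (nat_lit 546) (nat_lit 2128) (nat_lit 0) (XT.nd (nat_lit 234) (nat_lit 1216) (nat_lit 0) (XT.nd (nat_lit 78) (nat_lit 1292) (nat_lit 0) (XT.lf (nat_lit 0) (nat_lit 10778178038) (nat_lit 684) (nat_lit 1367959060) (nat_lit 76) (nat_lit 979228483) (nat_lit 284) (nat_lit 5) (nat_lit 293) (nat_lit 5) (nat_lit 285) (nat_lit 5) (nat_lit 604) (nat_lit 546) (nat_lit 410)) (XT.nd (nat_lit 78) (nat_lit 608) (nat_lit 0) (XT.lf (nat_lit 0) (nat_lit 345098144) (nat_lit 684) (nat_lit 6654006151) (nat_lit 76) (nat_lit 6271900300) (nat_lit 275) (nat_lit 5) (nat_lit 284) (nat_lit 5) (nat_lit 276) (nat_lit 5) (nat_lit 605) (nat_lit 546) (nat_lit 409)) (XT.lf (nat_lit 0) (nat_lit 1344718259) (nat_lit 608) (nat_lit 1718830810) (nat_lit 684) (nat_lit 10355623051) (nat_lit 267) (nat_lit 5) (nat_lit 275) (nat_lit 5) (nat_lit 276) (nat_lit 5) (nat_lit 606) (nat_lit 546) (nat_lit 408)))) (XT.nd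 (nat_lit 156) (nat_lit 608) (nat_lit 0) (XT.nd (nat_lit 78) (nat_lit 608) (nat_lit 0) (XT.lf (nat_lit 0) (nat_lit 5891010133) (nat_lit 684) (nat_lit 4018176777) (nat_lit 76) (nat_lit 3660024238) (nat_lit 267) (nat_lit 5) (nat_lit 276) (nat_lit 5) (nat_lit 268) (nat_lit 5) (nat_lit 607) (nat_lit 546) (nat_lit 407)) (XT.lf (nat_lit 0) (nat_lit 4225341163) (nat_lit 608) (nat_lit 4574657350) (nat_lit 684) (nat_lit 4921753839) (nat_lit 259) (nat_lit 5) (nat_lit 267) (nat_lit 5) (nat_lit 268) (nat_lit 5) (nat_lit 608) (nat_lit 546) (nat_lit 406))) (XT.nd (nat_lit 78) (nat_lit 608) (nat_lit 0) (XT.lf (nat_lit 0) (nat_lit 11786226051) (nat_lit 684) (nat_lit 1212460856) (nat_lit 76) (nat_lit 878277224) (nat_lit 259) (nat_lit 5) (nat_lit 268) (nat_lit 5) (nat_lit 260) (nat_lit 5) (nat_lit 609) (nat_lit 546) (nat_lit 405)) (XT.lf (nat_lit 0) (nat_lit 851022699) (nat_lit 608) (nat_lit 6754877628) (nat_lit 76) (nat_lit 6427985717) (nat_lit 251) (nat_lit 5) (nat_lit 259) (nat_lit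 5) (nat_lit 252) (nat_lit 5) (nat_lit 610) (nat_lit 546) (nat_lit 404))))) (XT.nd (nat_lit 234) (nat_lit 1064) (nat_lit 0) (XT.nd (nat_lit 78) (nat_lit 532) (nat_lit 0) (XT.lf (nat_lit 0) (nat_lit 1754310693) (nat_lit 532) (nat_lit 2075539230) (nat_lit 608) (nat_lit 10363696437) (nat_lit 244) (nat_lit 5) (nat_lit 251) (nat_lit 5) (nat_lit 252) (nat_lit 5) (nat_lit 611) (nat_lit 546) (nat_lit 403)) (XT.nd (nat_lit 78) (nat_lit 532) (nat_lit 0) (XT.lf (nat_lit 0) (nat_lit 6923770775) (nat_lit 608) (nat_lit 3871571995) (nat_lit 76) (nat_lit 3559947637) (nat_lit 244) (nat_lit 5) (nat_lit 252) (nat_lit 5) (nat_lit 245) (nat_lit 5) (nat_lit 612) (nat_lit 546) (nat_lit 402)) (XT.lf (nat_lit 0) (nat_lit 4900444085) (nat_lit 532) (nat_lit 5211687183) (nat_lit 608) (nat_lit 4407487694) (nat_lit 237) (nat_lit 5) (nat_lit 244) (nat_lit 5) (nat_lit 245) (nat_lit 5) (nat_lit 613) (nat_lit 546) (nat_lit 401)))) (XT.nd (nat_lit 156) (nat_lit 456) (nat_lit 0) (XT.nd (nat_lit 78)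 (nat_lit 608) (nat_lit 0) (XT.lf (nat_lit 0) (nat_lit 13380662762) (nat_lit 608) (nat_lit 807284934) (nat_lit 76) (nat_lit 498959148) (nat_lit 237) (nat_lit 5) (nat_lit 245) (nat_lit 5) (nat_lit 238) (nat_lit 5) (nat_lit 614) (nat_lit 546) (nat_lit 400)) (XT.lf (nat_lit 0) (nat_lit 1908526479) (nat_lit 608) (nat_lit 6631524372) (nat_lit 76) (nat_lit 6315732147) (nat_lit 229) (nat_lit 5) (nat_lit 237) (nat_lit 5) (nat_lit 230) (nat_lit 5) (nat_lit 615) (nat_lit 546) (nat_lit 399))) (XT.nd (nat_lit 78) (nat_lit 0) (nat_lit 0) (XT.lf (nat_lit 0) (nat_lit 2425221080) (nat_lit 456) (nat_lit 2753513144) (nat_lit 532) (nat_lit 9848957904) (nat_lit 223) (nat_lit 5) (nat_lit 229) (nat_lit 5) (nat_lit 230) (nat_lit 5) (nat_lit 616) (nat_lit 546) (nat_lit 398)) (XT.lf (nat_lit 0) (nat_lit 8567106137) (nat_lit 532) (nat_lit 3487346303) (nat_lit 76) (nat_lit 3147532569) (nat_lit 223) (nat_lit 5) (nat_lit 230) (nat_lit 5) (nat_lit 224) (nat_lit 5) (nat_lit 617) (nat_lit 546)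 (nat_lit 397))))))) (XT.nd (nat_lit 1014) (nat_lit 3420) (nat_lit 0) (XT.nd (nat_lit 468) (nat_lit 1824) (nat_lit 0) (XT.nd (nat_lit 234) (nat_lit 912) (nat_lit 0) (XT.nd (nat_lit 78) (nat_lit 532) (nat_lit 0) (XT.lf (nat_lit 0) (nat_lit 5851479281) (nat_lit 532) (nat_lit 6215758254) (nat_lit 608) (nat_lit 3311647128) (nat_lit 216) (nat_lit 5) (nat_lit 223) (nat_lit 5) (nat_lit 224) (nat_lit 5) (nat_lit 618) (nat_lit 546) (nat_lit 396)) (XT.nd (nat_lit 78) (nat_lit 456) (nat_lit 0) (XT.lf (nat_lit 0) (nat_lit 88396350) (nat_lit 608) (nat_lit 152322506) (nat_lit 76) (nat_lit 15318366629) (nat_lit 215) (nat_lit 5) (nat_lit 223) (nat_lit 5) (nat_lit 216) (nat_lit 5) (nat_lit 619) (nat_lit 546) (nat_lit 395)) (XT.lf (nat_lit 0) (nat_lit 3600375392) (nat_lit 532) (nat_lit 6283937366) (nat_lit 76) (nat_lit 5856374923) (nat_lit 209) (nat_lit 5) (nat_lit 216) (nat_lit 5) (nat_lit 210) (nat_lit 5) (nat_lit 620) (nat_lit 546) (nat_lit 394)))) (XT.nd (nat_lit 78) (nat_lit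 456) (nat_lit 0) (XT.lf (nat_lit 0) (nat_lit 3359712175) (nat_lit 456) (nat_lit 3835465176) (nat_lit 532) (nat_lit 8730493601) (nat_lit 203) (nat_lit 5) (nat_lit 209) (nat_lit 5) (nat_lit 210) (nat_lit 5) (nat_lit 621) (nat_lit 546) (nat_lit 393)) (XT.nd (nat_lit 78) (nat_lit 456) (nat_lit 0) (XT.lf (nat_lit 0) (nat_lit 10907716440) (nat_lit 532) (nat_lit 2864539882) (nat_lit 76) (nat_lit 2341181429) (nat_lit 203) (nat_lit 5) (nat_lit 210) (nat_lit 5) (nat_lit 204) (nat_lit 5) (nat_lit 622) (nat_lit 546) (nat_lit 392)) (XT.lf (nat_lit 0) (nat_lit 7081709337) (nat_lit 456) (nat_lit 7672644296) (nat_lit 532) (nat_lit 1549409976) (nat_lit 197) (nat_lit 5) (nat_lit 203) (nat_lit 5) (nat_lit 204) (nat_lit 5) (nat_lit 623) (nat_lit 546) (nat_lit 391))))) (XT.nd (nat_lit 234) (nat_lit 912) (nat_lit 0) (XT.nd (nat_lit 78) (nat_lit 380) (nat_lit 0) (XT.lf (nat_lit 0) (nat_lit 746997979) (nat_lit 456) (nat_lit 1417148099) (nat_lit 532) (nat_lit 14333213267) (nat_lit 190)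 (nat_lit 5) (nat_lit 196) (nat_lit 5) (nat_lit 197) (nat_lit 5) (nat_lit 624) (nat_lit 546) (nat_lit 390)) (XT.nd (nat_lit 78) (nat_lit 380) (nat_lit 0) (XT.lf (nat_lit 0) (nat_lit 6014360305) (nat_lit 532) (nat_lit 5712850772) (nat_lit 76) (nat_lit 4965749046) (nat_lit 190) (nat_lit 5) (nat_lit 197) (nat_lit 5) (nat_lit 191) (nat_lit 5) (nat_lit 625) (nat_lit 546) (nat_lit 389)) (XT.lf (nat_lit 0) (nat_lit 4559347856) (nat_lit 380) (nat_lit 5410035536) (nat_lit 456) (nat_lit 6922534051) (nat_lit 185) (nat_lit 5) (nat_lit 190) (nat_lit 5) (nat_lit 191) (nat_lit 5) (nat_lit 626) (nat_lit 546) (nat_lit 388)))) (XT.nd (nat_lit 156) (nat_lit 380) (nat_lit 0) (XT.nd (nat_lit 78) (nat_lit 532) (nat_lit 0) (XT.lf (nat_lit 0) (nat_lit 14037702934) (nat_lit 456) (nat_lit 2003174474) (nat_lit 76) (nat_lit 1053293190) (nat_lit 185) (nat_lit 5) (nat_lit 191) (nat_lit 5) (nat_lit 186) (nat_lit 5) (nat_lit 627) (nat_lit 546) (nat_lit 387)) (XT.lf (nat_lit 0) (nat_lit 956558036)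 (nat_lit 532) (nat_lit 8711691043) (nat_lit 76) (nat_lit 7630479748) (nat_lit 178) (nat_lit 5) (nat_lit 185) (nat_lit 5) (nat_lit 179) (nat_lit 5) (nat_lit 628) (nat_lit 546) (nat_lit 386))) (XT.nd (nat_lit 78) (nat_lit 0) (nat_lit 0) (XT.lf (nat_lit 0) (nat_lit 1897386080) (nat_lit 380) (nat_lit 3126571170) (nat_lit 456) (nat_lit 12482716696) (nat_lit 173) (nat_lit 5) (nat_lit 178) (nat_lit 5) (nat_lit 179) (nat_lit 5) (nat_lit 629) (nat_lit 546) (nat_lit 385)) (XT.lf (nat_lit 0) (nat_lit 9243797255) (nat_lit 456) (nat_lit 4920624133) (nat_lit 76) (nat_lit 3552935284) (nat_lit 173) (nat_lit 5) (nat_lit 179) (nat_lit 5) (nat_lit 174) (nat_lit 5) (nat_lit 630) (nat_lit 546) (nat_lit 384)))))) (XT.nd (nat_lit 546) (nat_lit 1368) (nat_lit 0) (XT.nd (nat_lit 234) (nat_lit 1216) (nat_lit 0) (XT.nd (nat_lit 78) (nat_lit 456) (nat_lit 0) (XT.lf (nat_lit 0) (nat_lit 6024094951) (nat_lit 380) (nat_lit 7573191635) (nat_lit 456) (nat_lit 4333981965) (nat_lit 168) (nat_lit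 5) (nat_lit 173) (nat_lit 5) (nat_lit 174) (nat_lit 5) (nat_lit 631) (nat_lit 546) (nat_lit 383)) (XT.nd (nat_lit 78) (nat_lit 456) (nat_lit 0) (XT.lf (nat_lit 0) (nat_lit 17238494921) (nat_lit 380) (nat_lit 821908946) (nat_lit 456) (nat_lit 88604177) (nat_lit 168) (nat_lit 5) (nat_lit 173) (nat_lit 5) (nat_lit 174) (nat_lit 5) (nat_lit 632) (nat_lit 546) (nat_lit 382)) (XT.lf (nat_lit 0) (nat_lit 4283212528) (nat_lit 456) (nat_lit 8010188228) (nat_lit 76) (nat_lit 6075208058) (nat_lit 162) (nat_lit 5) (nat_lit 168) (nat_lit 5) (nat_lit 163) (nat_lit 5) (nat_lit 633) (nat_lit 546) (nat_lit 381)))) (XT.nd (nat_lit 156) (nat_lit 836) (nat_lit 0) (XT.nd (nat_lit 78) (nat_lit 0) (nat_lit 0) (XT.lf (nat_lit 0) (nat_lit 3293919963) (nat_lit 380) (nat_lit 5470080878) (nat_lit 456) (nat_lit 9828135118) (nat_lit 157) (nat_lit 5) (nat_lit 162) (nat_lit 5) (nat_lit 163) (nat_lit 5) (nat_lit 634) (nat_lit 546) (nat_lit 380)) (XT.lf (nat_lit 0) (nat_lit 13387989537) (nat_lit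 456) (nat_lit 3912265789) (nat_lit 76) (nat_lit 1518807127) (nat_lit 157) (nat_lit 5) (nat_lit 163) (nat_lit 5) (nat_lit 158) (nat_lit 5) (nat_lit 635) (nat_lit 546) (nat_lit 379))) (XT.nd (nat_lit 78) (nat_lit 456) (nat_lit 0) (XT.lf (nat_lit 0) (nat_lit 7751278714) (nat_lit 380) (nat_lit 10429735263) (nat_lit 456) (nat_lit 867982868) (nat_lit 152) (nat_lit 5) (nat_lit 157) (nat_lit 5) (nat_lit 158) (nat_lit 5) (nat_lit 636) (nat_lit 546) (nat_lit 378)) (XT.lf (nat_lit 0) (nat_lit 382795003) (nat_lit 380) (nat_lit 3372861094) (nat_lit 456) (nat_lit 15527003705) (nat_lit 146) (nat_lit 5) (nat_lit 151) (nat_lit 5) (nat_lit 152) (nat_lit 5) (nat_lit 637) (nat_lit 546) (nat_lit 377))))) (XT.nd (nat_lit 234) (nat_lit 1064) (nat_lit 0) (XT.nd (nat_lit 78) (nat_lit 304) (nat_lit 0) (XT.lf (nat_lit 0) (nat_lit 8551399404) (nat_lit 456) (nat_lit 7116151386) (nat_lit 76) (nat_lit 3851505863) (nat_lit 146) (nat_lit 5) (nat_lit 152) (nat_lit 5) (nat_lit 147) (nat_lit 5) (nat_lit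 638) (nat_lit 546) (nat_lit 376)) (XT.nd (nat_lit 78) (nat_lit 0) (nat_lit 0) (XT.lf (nat_lit 0) (nat_lit 4930219135) (nat_lit 304) (nat_lit 8557471661) (nat_lit 380) (nat_lit 6271598432) (nat_lit 142) (nat_lit 5) (nat_lit 146) (nat_lit 5) (nat_lit 147) (nat_lit 5) (nat_lit 639) (nat_lit 546) (nat_lit 375)) (XT.lf (nat_lit 0) (nat_lit 17298738260) (nat_lit 304) (nat_lit 1262100535) (nat_lit 380) (nat_lit 1442725486) (nat_lit 142) (nat_lit 5) (nat_lit 146) (nat_lit 5) (nat_lit 147) (nat_lit 5) (nat_lit 640) (nat_lit 546) (nat_lit 374)))) (XT.nd (nat_lit 156) (nat_lit 304) (nat_lit 0) (XT.nd (nat_lit 78) (nat_lit 304) (nat_lit 0) (XT.lf (nat_lit 0) (nat_lit 3531521257) (nat_lit 456) (nat_lit 10539725111) (nat_lit 76) (nat_lit 6179137190) (nat_lit 136) (nat_lit 5) (nat_lit 142) (nat_lit 5) (nat_lit 137) (nat_lit 5) (nat_lit 641) (nat_lit 546) (nat_lit 373)) (XT.lf (nat_lit 0) (nat_lit 1901120359) (nat_lit 304) (nat_lit 6714361509) (nat_lit 380) (nat_lit 11885876102)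 (nat_lit 132) (nat_lit 5) (nat_lit 136) (nat_lit 5) (nat_lit 137) (nat_lit 5) (nat_lit 642) (nat_lit 546) (nat_lit 372))) (XT.nd (nat_lit 78) (nat_lit 304) (nat_lit 0) (XT.lf (nat_lit 0) (nat_lit 13868051382) (nat_lit 380) (nat_lit 6043053742) (nat_lit 76) (nat_lit 844908559) (nat_lit 132) (nat_lit 5) (nat_lit 137) (nat_lit 5) (nat_lit 133) (nat_lit 5) (nat_lit 643) (nat_lit 546) (nat_lit 371)) (XT.lf (nat_lit 0) (nat_lit 6795051143) (nat_lit 304) (nat_lit 12509996459) (nat_lit 380) (nat_lit 1709127804) (nat_lit 128) (nat_lit 5) (nat_lit 132) (nat_lit 5) (nat_lit 133) (nat_lit 5) (nat_lit 644) (nat_lit 546) (nat_lit 370))))))))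
noncomputable def xc138 : XT := (XT.nd (nat_lit 74412) (nat_lit 0) (nat_lit 24016) (XT.nd (nat_lit 1014) (nat_lit 532) (nat_lit 0) (XT.nd (nat_lit 468) (nat_lit 1216) (nat_lit 0) (XT.nd (nat_lit 234) (nat_lit 684) (nat_lit 0) (XT.nd (nat_lit 78) (nat_lit 608) (nat_lit 0) (XT.lf (nat_lit 0) (nat_lit 3558054931) (nat_lit 380) (nat_lit 1343224285) (nat_lit 76) (nat_lit 16375124813) (nat_lit 127) (nat_lit 5) (nat_lit 132) (nat_lit 5) (nat_lit 128) (nat_lit 5) (nat_lit 645) (nat_lit 546) (nat_lit 369)) (XT.nd (nat_lit 78) (nat_lit 304) (nat_lit 0) (XT.lf (nat_lit 0) (nat_lit 8995226899) (nat_lit 380) (nat_lit 9640792588) (nat_lit 76) (nat_lit 2905881552) (nat_lit 123) (nat_lit 5) (nat_lit 128) (nat_lit 5) (nat_lit 124) (nat_lit 5) (nat_lit 646) (nat_lit 546) (nat_lit 368)) (XT.lf (nat_lit 0) (nat_lit 3616263463) (nat_lit 304) (nat_lit 10980931590) (nat_lit 380) (nat_lit 7214392251) (nat_lit 119) (nat_lit 5) (nat_lit 123) (nat_lit 5) (nat_lit 124) (nat_lit 5) (nat_lit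 647) (nat_lit 546) (nat_lit 367)))) (XT.nd (nat_lit 78) (nat_lit 684) (nat_lit 0) (XT.lf (nat_lit 0) (nat_lit 17254586652) (nat_lit 304) (nat_lit 3112433181) (nat_lit 380) (nat_lit 1718531479) (nat_lit 119) (nat_lit 5) (nat_lit 123) (nat_lit 5) (nat_lit 124) (nat_lit 5) (nat_lit 648) (nat_lit 546) (nat_lit 366)) (XT.nd (nat_lit 78) (nat_lit 304) (nat_lit 0) (XT.lf (nat_lit 0) (nat_lit 3917555235) (nat_lit 380) (nat_lit 13518442122) (nat_lit 76) (nat_lit 4926867007) (nat_lit 114) (nat_lit 5) (nat_lit 119) (nat_lit 5) (nat_lit 115) (nat_lit 5) (nat_lit 649) (nat_lit 546) (nat_lit 365)) (XT.lf (nat_lit 0) (nat_lit 169307533) (nat_lit 304) (nat_lit 9519692030) (nat_lit 380) (nat_lit 12955584326) (nat_lit 110) (nat_lit 5) (nat_lit 114) (nat_lit 5) (nat_lit 115) (nat_lit 5) (nat_lit 650) (nat_lit 546) (nat_lit 364))))) (XT.nd (nat_lit 234) (nat_lit 912) (nat_lit 0) (XT.nd (nat_lit 78) (nat_lit 304) (nat_lit 0) (XT.lf (nat_lit 0) (nat_lit 14299721468) (nat_lit 304) (nat_lit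 1358226148) (nat_lit 380) (nat_lit 7272349027) (nat_lit 110) (nat_lit 5) (nat_lit 114) (nat_lit 5) (nat_lit 115) (nat_lit 5) (nat_lit 651) (nat_lit 546) (nat_lit 363)) (XT.nd (nat_lit 78) (nat_lit 76) (nat_lit 0) (XT.lf (nat_lit 0) (nat_lit 5503783047) (nat_lit 228) (nat_lit 16314948884) (nat_lit 304) (nat_lit 1401542903) (nat_lit 107) (nat_lit 5) (nat_lit 110) (nat_lit 5) (nat_lit 111) (nat_lit 5) (nat_lit 652) (nat_lit 546) (nat_lit 362)) (XT.lf (nat_lit 0) (nat_lit 4585329635) (nat_lit 304) (nat_lit 3530443234) (nat_lit 76) (nat_lit 15398508332) (nat_lit 106) (nat_lit 5) (nat_lit 110) (nat_lit 5) (nat_lit 107) (nat_lit 5) (nat_lit 653) (nat_lit 546) (nat_lit 361)))) (XT.nd (nat_lit 156) (nat_lit 380) (nat_lit 0) (XT.nd (nat_lit 78) (nat_lit 228) (nat_lit 0) (XT.lf (nat_lit 0) (nat_lit 10738791647) (nat_lit 380) (nat_lit 12753635703) (nat_lit 76) (nat_lit 320242997) (nat_lit 102) (nat_lit 5) (nat_lit 107) (nat_lit 5) (nat_lit 103) (nat_lit 5) (nat_lit 654) (nat_lit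 546) (nat_lit 360)) (XT.lf (nat_lit 0) (nat_lit 1827703983) (nat_lit 228) (nat_lit 15268795226) (nat_lit 304) (nat_lit 7018904844) (nat_lit 99) (nat_lit 5) (nat_lit 102) (nat_lit 5) (nat_lit 103) (nat_lit 5) (nat_lit 655) (nat_lit 546) (nat_lit 359))) (XT.nd (nat_lit 78) (nat_lit 380) (nat_lit 0) (XT.lf (nat_lit 0) (nat_lit 16859673585) (nat_lit 228) (nat_lit 6799058088) (nat_lit 304) (nat_lit 763913644) (nat_lit 99) (nat_lit 5) (nat_lit 102) (nat_lit 5) (nat_lit 103) (nat_lit 5) (nat_lit 656) (nat_lit 546) (nat_lit 358)) (XT.lf (nat_lit 0) (nat_lit 5595613691) (nat_lit 380) (nat_lit 17242466406) (nat_lit 76) (nat_lit 1896160445) (nat_lit 94) (nat_lit 5) (nat_lit 99) (nat_lit 5) (nat_lit 95) (nat_lit 5) (nat_lit 657) (nat_lit 546) (nat_lit 357)))))) (XT.nd (nat_lit 72852) (nat_lit 0) (nat_lit 37316) (XT.nd (nat_lit 72540) (nat_lit 0) (nat_lit 38608) (XT.nd (nat_lit 78) (nat_lit 532) (nat_lit 0) (XT.lf (nat_lit 0) (nat_lit 12160155615) (nat_lit 380) (nat_lit 2165087852)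 (nat_lit 76) (nat_lit 10724962441) (nat_lit 94) (nat_lit 5) (nat_lit 99) (nat_lit 5) (nat_lit 95) (nat_lit 5) (nat_lit 658) (nat_lit 546) (nat_lit 356)) (XT.nd (nat_lit 78) (nat_lit 304) (nat_lit 0) (XT.lf (nat_lit 0) (nat_lit 13375787468) (nat_lit 228) (nat_lit 5559132437) (nat_lit 304) (nat_lit 6435992318) (nat_lit 91) (nat_lit 5) (nat_lit 94) (nat_lit 5) (nat_lit 95) (nat_lit 5) (nat_lit 659) (nat_lit 546) (nat_lit 355)) (XT.lf (nat_lit 0) (nat_lit 197445888) (nat_lit 304) (nat_lit 22127947460) (nat_lit 76) (nat_lit 3371575895) (nat_lit 87) (nat_lit 5) (nat_lit 91) (nat_lit 5) (nat_lit 88) (nat_lit 5) (nat_lit 660) (nat_lit 546) (nat_lit 354)))) (XT.nd (nat_lit 156) (nat_lit 0) (nat_lit 76) (XT.nd (nat_lit 78) (nat_lit 0) (nat_lit 0) (XT.lf (nat_lit 0) (nat_lit 79670000) (nat_lit 1444) (nat_lit 1917990658) (nat_lit 1444) (nat_lit 1917990658) (nat_lit 595) (nat_lit 3) (nat_lit 614) (nat_lit 3) (nat_lit 614) (nat_lit 5) (nat_lit 547) (nat_lit 547) (nat_lit 466))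 (XT.lf (nat_lit 76) (nat_lit 38425979) (nat_lit 0) (nat_lit 1409607285) (nat_lit 1444) (nat_lit 6435700129) (nat_lit 596) (nat_lit 5) (nat_lit 595) (nat_lit 3) (nat_lit 614) (nat_lit 5) (nat_lit 548) (nat_lit 547) (nat_lit 465))) (XT.nd (nat_lit 78) (nat_lit 0) (nat_lit 0) (XT.lf (nat_lit 0) (nat_lit 2762622957) (nat_lit 1368) (nat_lit 3920754202) (nat_lit 1444) (nat_lit 1253836835) (nat_lit 596) (nat_lit 5) (nat_lit 614) (nat_lit 5) (nat_lit 615) (nat_lit 5) (nat_lit 549) (nat_lit 547) (nat_lit 464)) (XT.lf (nat_lit 76) (nat_lit 55811293) (nat_lit 0) (nat_lit 4024291455) (nat_lit 1444) (nat_lit 3912133101) (nat_lit 597) (nat_lit 5) (nat_lit 596) (nat_lit 5) (nat_lit 615) (nat_lit 5) (nat_lit 550) (nat_lit 547) (nat_lit 463))))) (XT.nd (nat_lit 234) (nat_lit 1368) (nat_lit 0) (XT.nd (nat_lit 78) (nat_lit 0) (nat_lit 76) (XT.lf (nat_lit 76) (nat_lit 4147296949) (nat_lit 0) (nat_lit 1270380011) (nat_lit 1444) (nat_lit 2630809821) (nat_lit 597) (nat_lit 5) (nat_lit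 596) (nat_lit 5) (nat_lit 615) (nat_lit 5) (nat_lit 551) (nat_lit 547) (nat_lit 462)) (XT.nd (nat_lit 78) (nat_lit 0) (nat_lit 0) (XT.lf (nat_lit 76) (nat_lit 189093840) (nat_lit 0) (nat_lit 6572293508) (nat_lit 1444) (nat_lit 1344891156) (nat_lit 598) (nat_lit 5) (nat_lit 597) (nat_lit 5) (nat_lit 616) (nat_lit 5) (nat_lit 552) (nat_lit 547) (nat_lit 461)) (XT.lf (nat_lit 76) (nat_lit 4387513235) (nat_lit 0) (nat_lit 3747669934) (nat_lit 1444) (nat_lit 29982069) (nat_lit 598) (nat_lit 5) (nat_lit 597) (nat_lit 5) (nat_lit 616) (nat_lit 5) (nat_lit 553) (nat_lit 547) (nat_lit 460)))) (XT.nd (nat_lit 156) (nat_lit 0) (nat_lit 76) (XT.nd (nat_lit 78) (nat_lit 0) (nat_lit 76) (XT.lf (nat_lit 76) (nat_lit 423626530) (nat_lit 0) (nat_lit 842234155) (nat_lit 1520) (nat_lit 6959765372) (nat_lit 579) (nat_lit 5) (nat_lit 578) (nat_lit 5) (nat_lit 598) (nat_lit 5) (nat_lit 554) (nat_lit 547) (nat_lit 459)) (XT.lf (nat_lit 0) (nat_lit 2596162528) (nat_lit 1444) (nat_lit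 3559451832) (nat_lit 1520) (nat_lit 2131502098) (nat_lit 579) (nat_lit 5) (nat_lit 598) (nat_lit 5) (nat_lit 599) (nat_lit 5) (nat_lit 555) (nat_lit 547) (nat_lit 458))) (XT.nd (nat_lit 78) (nat_lit 0) (nat_lit 0) (XT.lf (nat_lit 76) (nat_lit 753962310) (nat_lit 0) (nat_lit 3179828527) (nat_lit 1520) (nat_lit 4416434562) (nat_lit 580) (nat_lit 5) (nat_lit 579) (nat_lit 5) (nat_lit 599) (nat_lit 5) (nat_lit 556) (nat_lit 547) (nat_lit 457)) (XT.lf (nat_lit 76) (nat_lit 5183719258) (nat_lit 0) (nat_lit 109051129) (nat_lit 1520) (nat_lit 3121937237) (nat_lit 580) (nat_lit 5) (nat_lit 579) (nat_lit 5) (nat_lit 599) (nat_lit 5) (nat_lit 557) (nat_lit 547) (nat_lit 456))))))) (XT.nd (nat_lit 1014) (nat_lit 10564) (nat_lit 0) (XT.nd (nat_lit 468) (nat_lit 1444) (nat_lit 0) (XT.nd (nat_lit 234) (nat_lit 0) (nat_lit 0) (XT.nd (nat_lit 78) (nat_lit 1444) (nat_lit 0) (XT.lf (nat_lit 76) (nat_lit 1199225236) (nat_lit 0) (nat_lit 5478476567) (nat_lit 1520) (nat_lit 1802805263)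 (nat_lit 581) (nat_lit 5) (nat_lit 580) (nat_lit 5) (nat_lit 600) (nat_lit 5) (nat_lit 558) (nat_lit 547) (nat_lit 455)) (XT.nd (nat_lit 78) (nat_lit 1444) (nat_lit 0) (XT.lf (nat_lit 76) (nat_lit 5742763283) (nat_lit 0) (nat_lit 2341768012) (nat_lit 1520) (nat_lit 463210173) (nat_lit 581) (nat_lit 5) (nat_lit 580) (nat_lit 5) (nat_lit 600) (nat_lit 5) (nat_lit 559) (nat_lit 547) (nat_lit 454)) (XT.lf (nat_lit 0) (nat_lit 880668645) (nat_lit 1520) (nat_lit 6862570432) (nat_lit 1596) (nat_lit 873180299) (nat_lit 561) (nat_lit 5) (nat_lit 581) (nat_lit 5) (nat_lit 582) (nat_lit 5) (nat_lit 560) (nat_lit 547) (nat_lit 453)))) (XT.nd (nat_lit 78) (nat_lit 0) (nat_lit 0) (XT.lf (nat_lit 0) (nat_lit 2252338595) (nat_lit 1520) (nat_lit 2281767823) (nat_lit 1596) (nat_lit 4152163661) (nat_lit 561) (nat_lit 5) (nat_lit 581) (nat_lit 5) (nat_lit 582) (nat_lit 5) (nat_lit 561) (nat_lit 547) (nat_lit 452)) (XT.nd (nat_lit 78) (nat_lit 0) (nat_lit 76) (XT.lf (nat_lit 76) (nat_lit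 2403697725) (nat_lit 0) (nat_lit 1236541017) (nat_lit 1596) (nat_lit 5117505849) (nat_lit 562) (nat_lit 5) (nat_lit 561) (nat_lit 5) (nat_lit 582) (nat_lit 5) (nat_lit 562) (nat_lit 547) (nat_lit 451)) (XT.lf (nat_lit 0) (nat_lit 5058769037) (nat_lit 1520) (nat_lit 1649390412) (nat_lit 1596) (nat_lit 2122434384) (nat_lit 562) (nat_lit 5) (nat_lit 582) (nat_lit 5) (nat_lit 583) (nat_lit 5) (nat_lit 563) (nat_lit 547) (nat_lit 450))))) (XT.nd (nat_lit 234) (nat_lit 0) (nat_lit 0) (XT.nd (nat_lit 78) (nat_lit 1520) (nat_lit 0) (XT.lf (nat_lit 76) (nat_lit 3164099797) (nat_lit 0) (nat_lit 3344468412) (nat_lit 1596) (nat_lit 2396276512) (nat_lit 563) (nat_lit 5) (nat_lit 562) (nat_lit 5) (nat_lit 583) (nat_lit 5) (nat_lit 564) (nat_lit 547) (nat_lit 449)) (XT.nd (nat_lit 78) (nat_lit 1596) (nat_lit 0) (XT.lf (nat_lit 0) (nat_lit 7973664606) (nat_lit 1520) (nat_lit 903779344) (nat_lit 1596) (nat_lit 103413228) (nat_lit 563) (nat_lit 5) (nat_lit 583) (nat_lit 5) (nat_lit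 584) (nat_lit 5) (nat_lit 565) (nat_lit 547) (nat_lit 448)) (XT.lf (nat_lit 0) (nat_lit 427942504) (nat_lit 1596) (nat_lit 5018577946) (nat_lit 1672) (nat_lit 3611345865) (nat_lit 542) (nat_lit 5) (nat_lit 563) (nat_lit 5) (nat_lit 564) (nat_lit 5) (nat_lit 566) (nat_lit 547) (nat_lit 447)))) (XT.nd (nat_lit 156) (nat_lit 0) (nat_lit 76) (XT.nd (nat_lit 78) (nat_lit 0) (nat_lit 76) (XT.lf (nat_lit 0) (nat_lit 1859710944) (nat_lit 1596) (nat_lit 68374681) (nat_lit 1672) (nat_lit 7208570948) (nat_lit 542) (nat_lit 5) (nat_lit 563) (nat_lit 5) (nat_lit 564) (nat_lit 5) (nat_lit 567) (nat_lit 547) (nat_lit 446)) (XT.lf (nat_lit 0) (nat_lit 3339581573) (nat_lit 1596) (nat_lit 4199581607) (nat_lit 1672) (nat_lit 1677472499) (nat_lit 543) (nat_lit 5) (nat_lit 564) (nat_lit 5) (nat_lit 565) (nat_lit 5) (nat_lit 568) (nat_lit 547) (nat_lit 445))) (XT.nd (nat_lit 78) (nat_lit 0) (nat_lit 0) (XT.lf (nat_lit 76) (nat_lit 886910331) (nat_lit 0) (nat_lit 3957303529) (nat_lit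 1672) (nat_lit 4454099554) (nat_lit 544) (nat_lit 5) (nat_lit 543) (nat_lit 5) (nat_lit 565) (nat_lit 5) (nat_lit 569) (nat_lit 547) (nat_lit 444)) (XT.lf (nat_lit 76) (nat_lit 6113319755) (nat_lit 0) (nat_lit 270321118) (nat_lit 1672) (nat_lit 2997892078) (nat_lit 544) (nat_lit 5) (nat_lit 543) (nat_lit 5) (nat_lit 565) (nat_lit 5) (nat_lit 570) (nat_lit 547) (nat_lit 443)))))) (XT.nd (nat_lit 546) (nat_lit 3800) (nat_lit 0) (XT.nd (nat_lit 234) (nat_lit 3572) (nat_lit 0) (XT.nd (nat_lit 78) (nat_lit 1748) (nat_lit 0) (XT.lf (nat_lit 0) (nat_lit 1962046929) (nat_lit 1596) (nat_lit 6004221637) (nat_lit 1672) (nat_lit 1499902313) (nat_lit 523) (nat_lit 5) (nat_lit 544) (nat_lit 5) (nat_lit 545) (nat_lit 5) (nat_lit 571) (nat_lit 547) (nat_lit 442)) (XT.nd (nat_lit 78) (nat_lit 1672) (nat_lit 0) (XT.lf (nat_lit 0) (nat_lit 28734364) (nat_lit 1672) (nat_lit 2232012103) (nat_lit 76) (nat_lit 7291732512) (nat_lit 522) (nat_lit 5) (nat_lit 544) (nat_lit 5) (nat_lit 523)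 (nat_lit 5) (nat_lit 572) (nat_lit 547) (nat_lit 441)) (XT.lf (nat_lit 0) (nat_lit 1576358918) (nat_lit 1748) (nat_lit 6492333006) (nat_lit 76) (nat_lit 1571455166) (nat_lit 500) (nat_lit 5) (nat_lit 523) (nat_lit 5) (nat_lit 501) (nat_lit 5) (nat_lit 573) (nat_lit 547) (nat_lit 440)))) (XT.nd (nat_lit 156) (nat_lit 1824) (nat_lit 0) (XT.nd (nat_lit 78) (nat_lit 1748) (nat_lit 0) (XT.lf (nat_lit 0) (nat_lit 3162961136) (nat_lit 1748) (nat_lit 1097862515) (nat_lit 76) (nat_lit 5468586483) (nat_lit 500) (nat_lit 5) (nat_lit 523) (nat_lit 5) (nat_lit 501) (nat_lit 5) (nat_lit 574) (nat_lit 547) (nat_lit 439)) (XT.lf (nat_lit 0) (nat_lit 4444141139) (nat_lit 1748) (nat_lit 344416584) (nat_lit 1824) (nat_lit 5031757499) (nat_lit 477) (nat_lit 5) (nat_lit 500) (nat_lit 5) (nat_lit 501) (nat_lit 5) (nat_lit 575) (nat_lit 547) (nat_lit 438))) (XT.nd (nat_lit 78) (nat_lit 0) (nat_lit 0) (XT.lf (nat_lit 0) (nat_lit 158338105) (nat_lit 1824) (nat_lit 6299201616) (nat_lit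 1900) (nat_lit 3455283213) (nat_lit 453) (nat_lit 5) (nat_lit 477) (nat_lit 5) (nat_lit 478) (nat_lit 5) (nat_lit 576) (nat_lit 547) (nat_lit 437)) (XT.lf (nat_lit 0) (nat_lit 5855264483) (nat_lit 1824) (nat_lit 2322003611) (nat_lit 1900) (nat_lit 1829567323) (nat_lit 453) (nat_lit 5) (nat_lit 477) (nat_lit 5) (nat_lit 478) (nat_lit 5) (nat_lit 577) (nat_lit 547) (nat_lit 436))))) (XT.nd (nat_lit 234) (nat_lit 1748) (nat_lit 0) (XT.nd (nat_lit 78) (nat_lit 988) (nat_lit 0) (XT.lf (nat_lit 0) (nat_lit 1553616444) (nat_lit 1064) (nat_lit 8378573544) (nat_lit 1140) (nat_lit 170524099) (nat_lit 439) (nat_lit 5) (nat_lit 453) (nat_lit 5) (nat_lit 454) (nat_lit 5) (nat_lit 578) (nat_lit 547) (nat_lit 435)) (XT.nd (nat_lit 78) (nat_lit 912) (nat_lit 0) (XT.lf (nat_lit 0) (nat_lit 1524757608) (nat_lit 1140) (nat_lit 2815258210) (nat_lit 76) (nat_lit 5859838452) (nat_lit 438) (nat_lit 5) (nat_lit 453) (nat_lit 5) (nat_lit 439) (nat_lit 5) (nat_lit 579) (nat_lit 547) (nat_lit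 434)) (XT.lf (nat_lit 0) (nat_lit 3053503030) (nat_lit 912) (nat_lit 197979982) (nat_lit 988) (nat_lit 7047437079) (nat_lit 426) (nat_lit 5) (nat_lit 438) (nat_lit 5) (nat_lit 439) (nat_lit 5) (nat_lit 580) (nat_lit 547) (nat_lit 433)))) (XT.nd (nat_lit 156) (nat_lit 836) (nat_lit 0) (XT.nd (nat_lit 78) (nat_lit 912) (nat_lit 0) (XT.lf (nat_lit 0) (nat_lit 5038178590) (nat_lit 988) (nat_lit 1367012942) (nat_lit 76) (nat_lit 3994268751) (nat_lit 426) (nat_lit 5) (nat_lit 439) (nat_lit 5) (nat_lit 427) (nat_lit 5) (nat_lit 581) (nat_lit 547) (nat_lit 432)) (XT.lf (nat_lit 0) (nat_lit 4670317622) (nat_lit 912) (nat_lit 2202584584) (nat_lit 988) (nat_lit 3628864925) (nat_lit 414) (nat_lit 5) (nat_lit 426) (nat_lit 5) (nat_lit 427) (nat_lit 5) (nat_lit 582) (nat_lit 547) (nat_lit 431))) (XT.nd (nat_lit 78) (nat_lit 0) (nat_lit 0) (XT.lf (nat_lit 0) (nat_lit 211320281) (nat_lit 836) (nat_lit 8538060948) (nat_lit 912) (nat_lit 1856639367) (nat_lit 403) (nat_lit 5) (nat_lit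 414) (nat_lit 5) (nat_lit 415) (nat_lit 5) (nat_lit 583) (nat_lit 547) (nat_lit 430)) (XT.lf (nat_lit 0) (nat_lit 6420488148) (nat_lit 836) (nat_lit 4277700530) (nat_lit 912) (nat_lit 13476141) (nat_lit 403) (nat_lit 5) (nat_lit 414) (nat_lit 5) (nat_lit 415) (nat_lit 5) (nat_lit 584) (nat_lit 547) (nat_lit 429))))))))
noncomputable def xc139 : XT := (XT.nd (nat_lit 2106) (nat_lit 7980) (nat_lit 0) (XT.nd (nat_lit 1014) (nat_lit 5168) (nat_lit 0) (XT.nd (nat_lit 468) (nat_lit 2964) (nat_lit 0) (XT.nd (nat_lit 234) (nat_lit 1672) (nat_lit 0) (XT.nd (nat_lit 78) (nat_lit 836) (nat_lit 0) (XT.lf (nat_lit 0) (nat_lit 1836619503) (nat_lit 912) (nat_lit 8890913281) (nat_lit 76) (nat_lit 91757381) (nat_lit 391) (nat_lit 5) (nat_lit 403) (nat_lit 5) (nat_lit 392) (nat_lit 5) (nat_lit 585) (nat_lit 547) (nat_lit 428)) (XT.nd (nat_lit 78) (nat_lit 836) (nat_lit 0) (XT.lf (nat_lit 0) (nat_lit 3762517337) (nat_lit 912) (nat_lit 2645461563) (nat_lit 76) (nat_lit 4520309293)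 (nat_lit 391) (nat_lit 5) (nat_lit 403) (nat_lit 5) (nat_lit 392) (nat_lit 5) (nat_lit 586) (nat_lit 547) (nat_lit 427)) (XT.lf (nat_lit 0) (nat_lit 3755675235) (nat_lit 836) (nat_lit 1977666398) (nat_lit 912) (nat_lit 5305997918) (nat_lit 380) (nat_lit 5) (nat_lit 391) (nat_lit 5) (nat_lit 392) (nat_lit 5) (nat_lit 587) (nat_lit 547) (nat_lit 426)))) (XT.nd (nat_lit 78) (nat_lit 1672) (nat_lit 0) (XT.lf (nat_lit 0) (nat_lit 7760205357) (nat_lit 912) (nat_lit 866890339) (nat_lit 76) (nat_lit 2525185289) (nat_lit 380) (nat_lit 5) (nat_lit 392) (nat_lit 5) (nat_lit 381) (nat_lit 5) (nat_lit 588) (nat_lit 547) (nat_lit 425)) (XT.nd (nat_lit 78) (nat_lit 836) (nat_lit 0) (XT.lf (nat_lit 0) (nat_lit 5721820488) (nat_lit 836) (nat_lit 4138634261) (nat_lit 912) (nat_lit 1406371011) (nat_lit 369) (nat_lit 5) (nat_lit 380) (nat_lit 5) (nat_lit 381) (nat_lit 5) (nat_lit 589) (nat_lit 547) (nat_lit 424)) (XT.lf (nat_lit 0) (nat_lit 609346038) (nat_lit 836) (nat_lit 10324704726)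 (nat_lit 76) (nat_lit 449563359) (nat_lit 358) (nat_lit 5) (nat_lit 369) (nat_lit 5) (nat_lit 359) (nat_lit 5) (nat_lit 590) (nat_lit 547) (nat_lit 423))))) (XT.nd (nat_lit 234) (nat_lit 2204) (nat_lit 0) (XT.nd (nat_lit 78) (nat_lit 760) (nat_lit 0) (XT.lf (nat_lit 0) (nat_lit 2694349098) (nat_lit 836) (nat_lit 3687563933) (nat_lit 76) (nat_lit 5119684635) (nat_lit 358) (nat_lit 5) (nat_lit 369) (nat_lit 5) (nat_lit 359) (nat_lit 5) (nat_lit 591) (nat_lit 547) (nat_lit 422)) (XT.nd (nat_lit 78) (nat_lit 0) (nat_lit 0) (XT.lf (nat_lit 0) (nat_lit 3104736965) (nat_lit 760) (nat_lit 1719729024) (nat_lit 836) (nat_lit 6797407981) (nat_lit 348) (nat_lit 5) (nat_lit 358) (nat_lit 5) (nat_lit 359) (nat_lit 5) (nat_lit 592) (nat_lit 547) (nat_lit 421)) (XT.lf (nat_lit 0) (nat_lit 7025259693) (nat_lit 836) (nat_lit 1699567568) (nat_lit 76) (nat_lit 3019168391) (nat_lit 348) (nat_lit 5) (nat_lit 359) (nat_lit 5) (nat_lit 349) (nat_lit 5) (nat_lit 593) (nat_lit 547) (nat_lit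 420)))) (XT.nd (nat_lit 156) (nat_lit 760) (nat_lit 0) (XT.nd (nat_lit 78) (nat_lit 760) (nat_lit 0) (XT.lf (nat_lit 0) (nat_lit 5294259479) (nat_lit 684) (nat_lit 4005352308) (nat_lit 760) (nat_lit 2568358443) (nat_lit 339) (nat_lit 5) (nat_lit 348) (nat_lit 5) (nat_lit 349) (nat_lit 5) (nat_lit 594) (nat_lit 547) (nat_lit 419)) (XT.lf (nat_lit 0) (nat_lit 438907024) (nat_lit 760) (nat_lit 11184091281) (nat_lit 836) (nat_lit 371356335) (nat_lit 329) (nat_lit 5) (nat_lit 339) (nat_lit 5) (nat_lit 340) (nat_lit 5) (nat_lit 595) (nat_lit 547) (nat_lit 418))) (XT.nd (nat_lit 78) (nat_lit 684) (nat_lit 0) (XT.lf (nat_lit 0) (nat_lit 1900054368) (nat_lit 836) (nat_lit 4498877046) (nat_lit 76) (nat_lit 5722994022) (nat_lit 328) (nat_lit 5) (nat_lit 339) (nat_lit 5) (nat_lit 329) (nat_lit 5) (nat_lit 596) (nat_lit 547) (nat_lit 417)) (XT.lf (nat_lit 0) (nat_lit 2713898239) (nat_lit 684) (nat_lit 1500018052) (nat_lit 760) (nat_lit 8038043566) (nat_lit 319) (nat_lit 5)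 (nat_lit 328) (nat_lit 5) (nat_lit 329) (nat_lit 5) (nat_lit 597) (nat_lit 547) (nat_lit 416)))))) (XT.nd (nat_lit 546) (nat_lit 2508) (nat_lit 0) (XT.nd (nat_lit 234) (nat_lit 1368) (nat_lit 0) (XT.nd (nat_lit 78) (nat_lit 1292) (nat_lit 0) (XT.lf (nat_lit 0) (nat_lit 6611693361) (nat_lit 760) (nat_lit 2293218197) (nat_lit 76) (nat_lit 3478931842) (nat_lit 319) (nat_lit 5) (nat_lit 329) (nat_lit 5) (nat_lit 320) (nat_lit 5) (nat_lit 598) (nat_lit 547) (nat_lit 415)) (XT.nd (nat_lit 78) (nat_lit 608) (nat_lit 0) (XT.lf (nat_lit 0) (nat_lit 5136070685) (nat_lit 684) (nat_lit 3949483132) (nat_lit 760) (nat_lit 3432249406) (nat_lit 310) (nat_lit 5) (nat_lit 319) (nat_lit 5) (nat_lit 320) (nat_lit 5) (nat_lit 599) (nat_lit 547) (nat_lit 414)) (XT.lf (nat_lit 0) (nat_lit 66448035) (nat_lit 608) (nat_lit 11550551094) (nat_lit 684) (nat_lit 1037282105) (nat_lit 302) (nat_lit 5) (nat_lit 310) (nat_lit 5) (nat_lit 311) (nat_lit 5) (nat_lit 600) (nat_lit 547) (nat_lit 413))))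 (XT.nd (nat_lit 156) (nat_lit 608) (nat_lit 0) (XT.nd (nat_lit 78) (nat_lit 684) (nat_lit 0) (XT.lf (nat_lit 0) (nat_lit 1448258122) (nat_lit 684) (nat_lit 5082577494) (nat_lit 76) (nat_lit 6261249606) (nat_lit 301) (nat_lit 5) (nat_lit 310) (nat_lit 5) (nat_lit 302) (nat_lit 5) (nat_lit 601) (nat_lit 547) (nat_lit 412)) (XT.lf (nat_lit 0) (nat_lit 2582009392) (nat_lit 684) (nat_lit 1389769223) (nat_lit 760) (nat_lit 8960687452) (nat_lit 292) (nat_lit 5) (nat_lit 301) (nat_lit 5) (nat_lit 302) (nat_lit 5) (nat_lit 602) (nat_lit 547) (nat_lit 411))) (XT.nd (nat_lit 78) (nat_lit 608) (nat_lit 0) (XT.lf (nat_lit 0) (nat_lit 6590658448) (nat_lit 760) (nat_lit 2649358381) (nat_lit 76) (nat_lit 3834740977) (nat_lit 292) (nat_lit 5) (nat_lit 302) (nat_lit 5) (nat_lit 293) (nat_lit 5) (nat_lit 603) (nat_lit 547) (nat_lit 410)) (XT.lf (nat_lit 0) (nat_lit 5247815214) (nat_lit 608) (nat_lit 4043193194) (nat_lit 684) (nat_lit 3928306159) (nat_lit 284) (nat_lit 5) (nat_lit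 292) (nat_lit 5) (nat_lit 293) (nat_lit 5) (nat_lit 604) (nat_lit 547) (nat_lit 409))))) (XT.nd (nat_lit 234) (nat_lit 1216) (nat_lit 0) (XT.nd (nat_lit 78) (nat_lit 1292) (nat_lit 0) (XT.lf (nat_lit 0) (nat_lit 12057385608) (nat_lit 684) (nat_lit 53556997) (nat_lit 76) (nat_lit 1255580468) (nat_lit 284) (nat_lit 5) (nat_lit 293) (nat_lit 5) (nat_lit 285) (nat_lit 5) (nat_lit 605) (nat_lit 547) (nat_lit 408)) (XT.nd (nat_lit 78) (nat_lit 608) (nat_lit 0) (XT.lf (nat_lit 0) (nat_lit 1410480280) (nat_lit 684) (nat_lit 5440011809) (nat_lit 76) (nat_lit 6664689042) (nat_lit 275) (nat_lit 5) (nat_lit 284) (nat_lit 5) (nat_lit 276) (nat_lit 5) (nat_lit 606) (nat_lit 547) (nat_lit 407)) (XT.lf (nat_lit 0) (nat_lit 2709824757) (nat_lit 608) (nat_lit 1461409513) (nat_lit 684) (nat_lit 9495320504) (nat_lit 267) (nat_lit 5) (nat_lit 275) (nat_lit 5) (nat_lit 276) (nat_lit 5) (nat_lit 607) (nat_lit 547) (nat_lit 406)))) (XT.nd (nat_lit 156) (nat_lit 608) (nat_lit 0) (XT.nd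 (nat_lit 78) (nat_lit 608) (nat_lit 0) (XT.lf (nat_lit 0) (nat_lit 7036584028) (nat_lit 684) (nat_lit 2767836023) (nat_lit 76) (nat_lit 4015549165) (nat_lit 267) (nat_lit 5) (nat_lit 276) (nat_lit 5) (nat_lit 268) (nat_lit 5) (nat_lit 608) (nat_lit 547) (nat_lit 405)) (XT.lf (nat_lit 0) (nat_lit 5631797642) (nat_lit 608) (nat_lit 4360385474) (nat_lit 684) (nat_lit 3983610903) (nat_lit 259) (nat_lit 5) (nat_lit 267) (nat_lit 5) (nat_lit 268) (nat_lit 5) (nat_lit 609) (nat_lit 547) (nat_lit 404))) (XT.nd (nat_lit 78) (nat_lit 76) (nat_lit 0) (XT.lf (nat_lit 0) (nat_lit 78394363) (nat_lit 532) (nat_lit 12942270944) (nat_lit 608) (nat_lit 1113795491) (nat_lit 252) (nat_lit 5) (nat_lit 259) (nat_lit 5) (nat_lit 260) (nat_lit 5) (nat_lit 610) (nat_lit 547) (nat_lit 403)) (XT.lf (nat_lit 0) (nat_lit 1861755211) (nat_lit 608) (nat_lit 5571272560) (nat_lit 76) (nat_lit 6861596086) (nat_lit 251) (nat_lit 5) (nat_lit 259) (nat_lit 5) (nat_lit 252) (nat_lit 5) (nat_lit 611)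 (nat_lit 547) (nat_lit 402))))))) (XT.nd (nat_lit 1092) (nat_lit 3344) (nat_lit 0) (XT.nd (nat_lit 546) (nat_lit 2508) (nat_lit 0) (XT.nd (nat_lit 234) (nat_lit 1064) (nat_lit 0) (XT.nd (nat_lit 78) (nat_lit 532) (nat_lit 0) (XT.lf (nat_lit 0) (nat_lit 3099423853) (nat_lit 532) (nat_lit 1789756140) (nat_lit 608) (nat_lit 9568518253) (nat_lit 244) (nat_lit 5) (nat_lit 251) (nat_lit 5) (nat_lit 252) (nat_lit 5) (nat_lit 612) (nat_lit 547) (nat_lit 401)) (XT.nd (nat_lit 78) (nat_lit 532) (nat_lit 0) (XT.lf (nat_lit 0) (nat_lit 8027793328) (nat_lit 608) (nat_lit 2647414241) (nat_lit 76) (nat_lit 3947814587) (nat_lit 244) (nat_lit 5) (nat_lit 252) (nat_lit 5) (nat_lit 245) (nat_lit 5) (nat_lit 613) (nat_lit 547) (nat_lit 400)) (XT.lf (nat_lit 0) (nat_lit 6291479074) (nat_lit 532) (nat_lit 4977904842) (nat_lit 608) (nat_lit 3521465343) (nat_lit 237) (nat_lit 5) (nat_lit 244) (nat_lit 5) (nat_lit 245) (nat_lit 5) (nat_lit 614) (nat_lit 547) (nat_lit 399)))) (XT.nd (nat_lit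 156) (nat_lit 456) (nat_lit 0) (XT.nd (nat_lit 78) (nat_lit 76) (nat_lit 0) (XT.lf (nat_lit 0) (nat_lit 467001593) (nat_lit 532) (nat_lit 14122742438) (nat_lit 608) (nat_lit 372010923) (nat_lit 230) (nat_lit 5) (nat_lit 237) (nat_lit 5) (nat_lit 238) (nat_lit 5) (nat_lit 615) (nat_lit 547) (nat_lit 398)) (XT.lf (nat_lit 0) (nat_lit 2881222456) (nat_lit 608) (nat_lit 5475819171) (nat_lit 76) (nat_lit 6777108210) (nat_lit 229) (nat_lit 5) (nat_lit 237) (nat_lit 5) (nat_lit 230) (nat_lit 5) (nat_lit 616) (nat_lit 547) (nat_lit 397))) (XT.nd (nat_lit 78) (nat_lit 0) (nat_lit 0) (XT.lf (nat_lit 0) (nat_lit 3753585297) (nat_lit 456) (nat_lit 2453234728) (nat_lit 532) (nat_lit 9102878555) (nat_lit 223) (nat_lit 5) (nat_lit 229) (nat_lit 5) (nat_lit 230) (nat_lit 5) (nat_lit 617) (nat_lit 547) (nat_lit 396)) (XT.lf (nat_lit 0) (nat_lit 9647093629) (nat_lit 532) (nat_lit 2286406929) (nat_lit 76) (nat_lit 3554295197) (nat_lit 223) (nat_lit 5) (nat_lit 230) (nat_lit 5) (nat_lit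 224) (nat_lit 5) (nat_lit 618) (nat_lit 547) (nat_lit 395))))) (XT.nd (nat_lit 234) (nat_lit 1444) (nat_lit 0) (XT.nd (nat_lit 78) (nat_lit 532) (nat_lit 0) (XT.lf (nat_lit 0) (nat_lit 7230835389) (nat_lit 532) (nat_lit 5976771551) (nat_lit 608) (nat_lit 2460819974) (nat_lit 216) (nat_lit 5) (nat_lit 223) (nat_lit 5) (nat_lit 224) (nat_lit 5) (nat_lit 619) (nat_lit 547) (nat_lit 394)) (XT.nd (nat_lit 78) (nat_lit 0) (nat_lit 0) (XT.lf (nat_lit 0) (nat_lit 985453632) (nat_lit 532) (nat_lit 14744539582) (nat_lit 76) (nat_lit 122315378) (nat_lit 209) (nat_lit 5) (nat_lit 216) (nat_lit 5) (nat_lit 210) (nat_lit 5) (nat_lit 620) (nat_lit 547) (nat_lit 393)) (XT.lf (nat_lit 0) (nat_lit 4552689227) (nat_lit 532) (nat_lit 5153164300) (nat_lit 76) (nat_lit 6331990002) (nat_lit 209) (nat_lit 5) (nat_lit 216) (nat_lit 5) (nat_lit 210) (nat_lit 5) (nat_lit 621) (nat_lit 547) (nat_lit 392)))) (XT.nd (nat_lit 156) (nat_lit 988) (nat_lit 0) (XT.nd (nat_lit 78) (nat_lit 0) (nat_lit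 0) (XT.lf (nat_lit 0) (nat_lit 4675092102) (nat_lit 456) (nat_lit 3535138264) (nat_lit 532) (nat_lit 8016480252) (nat_lit 203) (nat_lit 5) (nat_lit 209) (nat_lit 5) (nat_lit 210) (nat_lit 5) (nat_lit 622) (nat_lit 547) (nat_lit 391)) (XT.lf (nat_lit 0) (nat_lit 11982338844) (nat_lit 532) (nat_lit 1683388065) (nat_lit 76) (nat_lit 2752800467) (nat_lit 203) (nat_lit 5) (nat_lit 210) (nat_lit 5) (nat_lit 204) (nat_lit 5) (nat_lit 623) (nat_lit 547) (nat_lit 390))) (XT.nd (nat_lit 78) (nat_lit 532) (nat_lit 0) (XT.lf (nat_lit 0) (nat_lit 8453638490) (nat_lit 456) (nat_lit 7443464691) (nat_lit 532) (nat_lit 715733658) (nat_lit 197) (nat_lit 5) (nat_lit 203) (nat_lit 5) (nat_lit 204) (nat_lit 5) (nat_lit 624) (nat_lit 547) (nat_lit 389)) (XT.lf (nat_lit 0) (nat_lit 1995452004) (nat_lit 456) (nat_lit 1056578225) (nat_lit 532) (nat_lit 13758337381) (nat_lit 190) (nat_lit 5) (nat_lit 196) (nat_lit 5) (nat_lit 197) (nat_lit 5) (nat_lit 625) (nat_lit 547) (nat_lit 388))))))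 (XT.nd (nat_lit 546) (nat_lit 1672) (nat_lit 0) (XT.nd (nat_lit 234) (nat_lit 1292) (nat_lit 0) (XT.nd (nat_lit 78) (nat_lit 380) (nat_lit 0) (XT.lf (nat_lit 0) (nat_lit 6965163500) (nat_lit 532) (nat_lit 4603649055) (nat_lit 76) (nat_lit 5441350472) (nat_lit 190) (nat_lit 5) (nat_lit 197) (nat_lit 5) (nat_lit 191) (nat_lit 5) (nat_lit 626) (nat_lit 547) (nat_lit 387)) (XT.nd (nat_lit 78) (nat_lit 0) (nat_lit 0) (XT.lf (nat_lit 0) (nat_lit 5865944476) (nat_lit 380) (nat_lit 5124949192) (nat_lit 456) (nat_lit 6222374596) (nat_lit 185) (nat_lit 5) (nat_lit 190) (nat_lit 5) (nat_lit 191) (nat_lit 5) (nat_lit 627) (nat_lit 547) (nat_lit 386)) (XT.lf (nat_lit 0) (nat_lit 15126962962) (nat_lit 456) (nat_lit 837999032) (nat_lit 76) (nat_lit 1454877704) (nat_lit 185) (nat_lit 5) (nat_lit 191) (nat_lit 5) (nat_lit 186) (nat_lit 5) (nat_lit 628) (nat_lit 547) (nat_lit 385)))) (XT.nd (nat_lit 156) (nat_lit 380) (nat_lit 0) (XT.nd (nat_lit 78) (nat_lit 380) (nat_lit 0) (XT.lf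 (nat_lit 0) (nat_lit 1781459433) (nat_lit 532) (nat_lit 7677864396) (nat_lit 76) (nat_lit 8169221693) (nat_lit 178) (nat_lit 5) (nat_lit 185) (nat_lit 5) (nat_lit 179) (nat_lit 5) (nat_lit 629) (nat_lit 547) (nat_lit 384)) (XT.lf (nat_lit 0) (nat_lit 3135446503) (nat_lit 380) (nat_lit 2786752640) (nat_lit 456) (nat_lit 11918611384) (nat_lit 173) (nat_lit 5) (nat_lit 178) (nat_lit 5) (nat_lit 179) (nat_lit 5) (nat_lit 630) (nat_lit 547) (nat_lit 383))) (XT.nd (nat_lit 78) (nat_lit 380) (nat_lit 0) (XT.lf (nat_lit 0) (nat_lit 10213354642) (nat_lit 456) (nat_lit 3829333402) (nat_lit 76) (nat_lit 4013281305) (nat_lit 173) (nat_lit 5) (nat_lit 179) (nat_lit 5) (nat_lit 174) (nat_lit 5) (nat_lit 631) (nat_lit 547) (nat_lit 382)) (XT.lf (nat_lit 0) (nat_lit 7326453069) (nat_lit 380) (nat_lit 7319748305) (nat_lit 456) (nat_lit 3628113141) (nat_lit 168) (nat_lit 5) (nat_lit 173) (nat_lit 5) (nat_lit 174) (nat_lit 5) (nat_lit 632) (nat_lit 547) (nat_lit 381))))) (XT.nd (nat_lit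 234) (nat_lit 836) (nat_lit 0) (XT.nd (nat_lit 78) (nat_lit 380) (nat_lit 0) (XT.lf (nat_lit 0) (nat_lit 243994680) (nat_lit 380) (nat_lit 435216227) (nat_lit 456) (nat_lit 17817382524) (nat_lit 162) (nat_lit 5) (nat_lit 167) (nat_lit 5) (nat_lit 168) (nat_lit 5) (nat_lit 633) (nat_lit 547) (nat_lit 380)) (XT.nd (nat_lit 78) (nat_lit 380) (nat_lit 0) (XT.lf (nat_lit 0) (nat_lit 5130807904) (nat_lit 456) (nat_lit 6996536455) (nat_lit 76) (nat_lit 6593360290) (nat_lit 162) (nat_lit 5) (nat_lit 168) (nat_lit 5) (nat_lit 163) (nat_lit 5) (nat_lit 634) (nat_lit 547) (nat_lit 379)) (XT.lf (nat_lit 0) (nat_lit 4525931166) (nat_lit 380) (nat_lit 5167912299) (nat_lit 456) (nat_lit 9255006983) (nat_lit 157) (nat_lit 5) (nat_lit 162) (nat_lit 5) (nat_lit 163) (nat_lit 5) (nat_lit 635) (nat_lit 547) (nat_lit 378)))) (XT.nd (nat_lit 156) (nat_lit 456) (nat_lit 0) (XT.nd (nat_lit 78) (nat_lit 380) (nat_lit 0) (XT.lf (nat_lit 0) (nat_lit 14398136380) (nat_lit 456) (nat_lit 2835031843)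 (nat_lit 76) (nat_lit 1947391484) (nat_lit 157) (nat_lit 5) (nat_lit 163) (nat_lit 5) (nat_lit 158) (nat_lit 5) (nat_lit 636) (nat_lit 547) (nat_lit 377)) (XT.lf (nat_lit 0) (nat_lit 9054181714) (nat_lit 380) (nat_lit 10225735769) (nat_lit 456) (nat_lit 135318092) (nat_lit 152) (nat_lit 5) (nat_lit 157) (nat_lit 5) (nat_lit 158) (nat_lit 5) (nat_lit 637) (nat_lit 547) (nat_lit 376))) (XT.nd (nat_lit 78) (nat_lit 0) (nat_lit 0) (XT.lf (nat_lit 0) (nat_lit 1540583109) (nat_lit 380) (nat_lit 3023327773) (nat_lit 456) (nat_lit 15089705119) (nat_lit 146) (nat_lit 5) (nat_lit 151) (nat_lit 5) (nat_lit 152) (nat_lit 5) (nat_lit 638) (nat_lit 547) (nat_lit 375)) (XT.lf (nat_lit 0) (nat_lit 9443848022) (nat_lit 456) (nat_lit 6119139293) (nat_lit 76) (nat_lit 4331988565) (nat_lit 146) (nat_lit 5) (nat_lit 152) (nat_lit 5) (nat_lit 147) (nat_lit 5) (nat_lit 639) (nat_lit 547) (nat_lit 374))))))))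
noncomputable def xc140 : XT := (XT.nd (nat_lit 74412) (nat_lit 0) (nat_lit 26676) (XT.nd (nat_lit 1014) (nat_lit 1748) (nat_lit 0) (XT.nd (nat_lit 468) (nat_lit 1368) (nat_lit 0) (XT.nd (nat_lit 234) (nat_lit 608) (nat_lit 0) (XT.nd (nat_lit 78) (nat_lit 456) (nat_lit 0) (XT.lf (nat_lit 0) (nat_lit 6160663013) (nat_lit 304) (nat_lit 8311405380) (nat_lit 380) (nat_lit 5668081308) (nat_lit 142) (nat_lit 5) (nat_lit 146) (nat_lit 5) (nat_lit 147) (nat_lit 5) (nat_lit 640) (nat_lit 547) (nat_lit 373)) (XT.nd (nat_lit 78) (nat_lit 456) (nat_lit 0) (XT.lf (nat_lit 0) (nat_lit 18754359589) (nat_lit 304) (nat_lit 878307532) (nat_lit 380) (nat_lit 756924023) (nat_lit 142) (nat_lit 5) (nat_lit 146) (nat_lit 5) (nat_lit 147) (nat_lit 5) (nat_lit 641) (nat_lit 547) (nat_lit 372)) (XT.lf (nat_lit 0) (nat_lit 4303505134) (nat_lit 456) (nat_lit 9627508025) (nat_lit 76) (nat_lit 6710320060) (nat_lit 136) (nat_lit 5) (nat_lit 142) (nat_lit 5) (nat_lit 137) (nat_lit 5) (nat_lit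 642) (nat_lit 547) (nat_lit 371)))) (XT.nd (nat_lit 78) (nat_lit 304) (nat_lit 0) (XT.lf (nat_lit 0) (nat_lit 3054766120) (nat_lit 304) (nat_lit 6427870174) (nat_lit 380) (nat_lit 11414821604) (nat_lit 132) (nat_lit 5) (nat_lit 136) (nat_lit 5) (nat_lit 137) (nat_lit 5) (nat_lit 643) (nat_lit 547) (nat_lit 370)) (XT.nd (nat_lit 78) (nat_lit 304) (nat_lit 0) (XT.lf (nat_lit 0) (nat_lit 14829311196) (nat_lit 380) (nat_lit 5059190688) (nat_lit 76) (nat_lit 1268924356) (nat_lit 132) (nat_lit 5) (nat_lit 137) (nat_lit 5) (nat_lit 133) (nat_lit 5) (nat_lit 644) (nat_lit 547) (nat_lit 369)) (XT.lf (nat_lit 0) (nat_lit 8028408373) (nat_lit 304) (nat_lit 12340354601) (nat_lit 380) (nat_lit 1052114494) (nat_lit 128) (nat_lit 5) (nat_lit 132) (nat_lit 5) (nat_lit 133) (nat_lit 5) (nat_lit 645) (nat_lit 547) (nat_lit 368))))) (XT.nd (nat_lit 234) (nat_lit 684) (nat_lit 0) (XT.nd (nat_lit 78) (nat_lit 608) (nat_lit 0) (XT.lf (nat_lit 0) (nat_lit 4297971626) (nat_lit 380) (nat_lit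 285235877) (nat_lit 76) (nat_lit 17105321469) (nat_lit 127) (nat_lit 5) (nat_lit 132) (nat_lit 5) (nat_lit 128) (nat_lit 5) (nat_lit 646) (nat_lit 547) (nat_lit 367)) (XT.nd (nat_lit 78) (nat_lit 304) (nat_lit 0) (XT.lf (nat_lit 0) (nat_lit 9840466371) (nat_lit 380) (nat_lit 8745307408) (nat_lit 76) (nat_lit 3373631106) (nat_lit 123) (nat_lit 5) (nat_lit 128) (nat_lit 5) (nat_lit 124) (nat_lit 5) (nat_lit 647) (nat_lit 547) (nat_lit 366)) (XT.lf (nat_lit 0) (nat_lit 4769729889) (nat_lit 304) (nat_lit 10778717701) (nat_lit 380) (nat_lit 6686158351) (nat_lit 119) (nat_lit 5) (nat_lit 123) (nat_lit 5) (nat_lit 124) (nat_lit 5) (nat_lit 648) (nat_lit 547) (nat_lit 365)))) (XT.nd (nat_lit 156) (nat_lit 304) (nat_lit 0) (XT.nd (nat_lit 78) (nat_lit 380) (nat_lit 0) (XT.lf (nat_lit 0) (nat_lit 18659620696) (nat_lit 304) (nat_lit 2761120550) (nat_lit 380) (nat_lit 1093567064) (nat_lit 119) (nat_lit 5) (nat_lit 123) (nat_lit 5) (nat_lit 124) (nat_lit 5) (nat_lit 649) (nat_lit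 547) (nat_lit 364)) (XT.lf (nat_lit 0) (nat_lit 4643433924) (nat_lit 380) (nat_lit 12717009919) (nat_lit 76) (nat_lit 5436701875) (nat_lit 114) (nat_lit 5) (nat_lit 119) (nat_lit 5) (nat_lit 115) (nat_lit 5) (nat_lit 650) (nat_lit 547) (nat_lit 363))) (XT.nd (nat_lit 78) (nat_lit 0) (nat_lit 0) (XT.lf (nat_lit 0) (nat_lit 1237443407) (nat_lit 304) (nat_lit 9287080173) (nat_lit 380) (nat_lit 12560092221) (nat_lit 110) (nat_lit 5) (nat_lit 114) (nat_lit 5) (nat_lit 115) (nat_lit 5) (nat_lit 651) (nat_lit 547) (nat_lit 362)) (XT.lf (nat_lit 0) (nat_lit 15629588175) (nat_lit 304) (nat_lit 970679203) (nat_lit 380) (nat_lit 6776027584) (nat_lit 110) (nat_lit 5) (nat_lit 114) (nat_lit 5) (nat_lit 115) (nat_lit 5) (nat_lit 652) (nat_lit 547) (nat_lit 361)))))) (XT.nd (nat_lit 546) (nat_lit 532) (nat_lit 0) (XT.nd (nat_lit 234) (nat_lit 608) (nat_lit 0) (XT.nd (nat_lit 78) (nat_lit 380) (nat_lit 0) (XT.lf (nat_lit 0) (nat_lit 6660713206) (nat_lit 228) (nat_lit 16220654346)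 (nat_lit 304) (nat_lit 790763639) (nat_lit 107) (nat_lit 5) (nat_lit 110) (nat_lit 5) (nat_lit 111) (nat_lit 5) (nat_lit 653) (nat_lit 547) (nat_lit 360)) (XT.nd (nat_lit 78) (nat_lit 304) (nat_lit 0) (XT.lf (nat_lit 0) (nat_lit 5295106828) (nat_lit 304) (nat_lit 2566487336) (nat_lit 76) (nat_lit 16110588259) (nat_lit 106) (nat_lit 5) (nat_lit 110) (nat_lit 5) (nat_lit 107) (nat_lit 5) (nat_lit 654) (nat_lit 547) (nat_lit 359)) (XT.lf (nat_lit 0) (nat_lit 11568887263) (nat_lit 380) (nat_lit 11971370298) (nat_lit 76) (nat_lit 736337258) (nat_lit 102) (nat_lit 5) (nat_lit 107) (nat_lit 5) (nat_lit 103) (nat_lit 5) (nat_lit 655) (nat_lit 547) (nat_lit 358)))) (XT.nd (nat_lit 156) (nat_lit 380) (nat_lit 0) (XT.nd (nat_lit 78) (nat_lit 0) (nat_lit 0) (XT.lf (nat_lit 0) (nat_lit 2894771590) (nat_lit 228) (nat_lit 15153603071) (nat_lit 304) (nat_lit 6537116467) (nat_lit 99) (nat_lit 5) (nat_lit 102) (nat_lit 5) (nat_lit 103) (nat_lit 5) (nat_lit 656) (nat_lit 547) (nat_lit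 357)) (XT.lf (nat_lit 0) (nat_lit 18207174435) (nat_lit 228) (nat_lit 6522717623) (nat_lit 304) (nat_lit 169224785) (nat_lit 99) (nat_lit 5) (nat_lit 102) (nat_lit 5) (nat_lit 103) (nat_lit 5) (nat_lit 657) (nat_lit 547) (nat_lit 356))) (XT.nd (nat_lit 78) (nat_lit 0) (nat_lit 0) (XT.lf (nat_lit 0) (nat_lit 6306951937) (nat_lit 380) (nat_lit 16566425135) (nat_lit 76) (nat_lit 2343538939) (nat_lit 94) (nat_lit 5) (nat_lit 99) (nat_lit 5) (nat_lit 95) (nat_lit 5) (nat_lit 658) (nat_lit 547) (nat_lit 355)) (XT.lf (nat_lit 0) (nat_lit 12991031249) (nat_lit 380) (nat_lit 1207516471) (nat_lit 76) (nat_lit 11340888439) (nat_lit 94) (nat_lit 5) (nat_lit 99) (nat_lit 5) (nat_lit 95) (nat_lit 5) (nat_lit 659) (nat_lit 547) (nat_lit 354))))) (XT.nd (nat_lit 72540) (nat_lit 0) (nat_lit 38608) (XT.nd (nat_lit 78) (nat_lit 304) (nat_lit 0) (XT.lf (nat_lit 0) (nat_lit 14637591663) (nat_lit 228) (nat_lit 5258631751) (nat_lit 304) (nat_lit 5970434936) (nat_lit 91) (nat_lit 5) (nat_lit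 94) (nat_lit 5) (nat_lit 95) (nat_lit 5) (nat_lit 660) (nat_lit 547) (nat_lit 353)) (XT.nd (nat_lit 72384) (nat_lit 0) (nat_lit 38608) (XT.lf (nat_lit 0) (nat_lit 785530186) (nat_lit 304) (nat_lit 21566037255) (nat_lit 76) (nat_lit 3847639242) (nat_lit 87) (nat_lit 5) (nat_lit 91) (nat_lit 5) (nat_lit 88) (nat_lit 5) (nat_lit 661) (nat_lit 547) (nat_lit 352)) (XT.lf (nat_lit 0) (nat_lit 1359758690) (nat_lit 1444) (nat_lit 1304248193) (nat_lit 1444) (nat_lit 1304248193) (nat_lit 595) (nat_lit 3) (nat_lit 614) (nat_lit 3) (nat_lit 614) (nat_lit 5) (nat_lit 548) (nat_lit 548) (nat_lit 464)))) (XT.nd (nat_lit 156) (nat_lit 0) (nat_lit 76) (XT.nd (nat_lit 78) (nat_lit 0) (nat_lit 76) (XT.lf (nat_lit 76) (nat_lit 1334818761) (nat_lit 0) (nat_lit 2657440730) (nat_lit 1444) (nat_lit 3998570003) (nat_lit 596) (nat_lit 5) (nat_lit 595) (nat_lit 3) (nat_lit 614) (nat_lit 5) (nat_lit 549) (nat_lit 548) (nat_lit 463)) (XT.lf (nat_lit 0) (nat_lit 5276058595) (nat_lit 1368) (nat_lit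 2671599140) (nat_lit 1444) (nat_lit 98868979) (nat_lit 596) (nat_lit 5) (nat_lit 614) (nat_lit 5) (nat_lit 615) (nat_lit 5) (nat_lit 550) (nat_lit 548) (nat_lit 462))) (XT.nd (nat_lit 78) (nat_lit 0) (nat_lit 0) (XT.lf (nat_lit 76) (nat_lit 1375763651) (nat_lit 0) (nat_lit 5204487419) (nat_lit 1444) (nat_lit 1523195927) (nat_lit 597) (nat_lit 5) (nat_lit 596) (nat_lit 5) (nat_lit 615) (nat_lit 5) (nat_lit 551) (nat_lit 548) (nat_lit 461)) (XT.lf (nat_lit 76) (nat_lit 5523219489) (nat_lit 0) (nat_lit 2373934802) (nat_lit 1444) (nat_lit 264622256) (nat_lit 597) (nat_lit 5) (nat_lit 596) (nat_lit 5) (nat_lit 615) (nat_lit 5) (nat_lit 552) (nat_lit 548) (nat_lit 460))))))) (XT.nd (nat_lit 1014) (nat_lit 9272) (nat_lit 0) (XT.nd (nat_lit 468) (nat_lit 1368) (nat_lit 0) (XT.nd (nat_lit 234) (nat_lit 0) (nat_lit 76) (XT.nd (nat_lit 78) (nat_lit 0) (nat_lit 0) (XT.lf (nat_lit 0) (nat_lit 988319130) (nat_lit 1444) (nat_lit 6696458344) (nat_lit 1520) (nat_lit 536714900)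 (nat_lit 578) (nat_lit 5) (nat_lit 597) (nat_lit 5) (nat_lit 598) (nat_lit 5) (nat_lit 553) (nat_lit 548) (nat_lit 459)) (XT.nd (nat_lit 78) (nat_lit 0) (nat_lit 0) (XT.lf (nat_lit 0) (nat_lit 2266012365) (nat_lit 1444) (nat_lit 2509708986) (nat_lit 1520) (nat_lit 3506584660) (nat_lit 578) (nat_lit 5) (nat_lit 597) (nat_lit 5) (nat_lit 598) (nat_lit 5) (nat_lit 554) (nat_lit 548) (nat_lit 458)) (XT.lf (nat_lit 76) (nat_lit 1766559078) (nat_lit 0) (nat_lit 1784452620) (nat_lit 1520) (nat_lit 4793692319) (nat_lit 579) (nat_lit 5) (nat_lit 578) (nat_lit 5) (nat_lit 598) (nat_lit 5) (nat_lit 555) (nat_lit 548) (nat_lit 457)))) (XT.nd (nat_lit 78) (nat_lit 0) (nat_lit 0) (XT.lf (nat_lit 0) (nat_lit 4857718777) (nat_lit 1444) (nat_lit 2271912714) (nat_lit 1520) (nat_lit 1278801416) (nat_lit 579) (nat_lit 5) (nat_lit 598) (nat_lit 5) (nat_lit 599) (nat_lit 5) (nat_lit 556) (nat_lit 548) (nat_lit 456)) (XT.nd (nat_lit 78) (nat_lit 0) (nat_lit 0) (XT.lf (nat_lit 76) (nat_lit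 2118830710) (nat_lit 0) (nat_lit 4068706532) (nat_lit 1520) (nat_lit 2285962606) (nat_lit 580) (nat_lit 5) (nat_lit 579) (nat_lit 5) (nat_lit 599) (nat_lit 5) (nat_lit 557) (nat_lit 548) (nat_lit 455)) (XT.lf (nat_lit 76) (nat_lit 6610716343) (nat_lit 0) (nat_lit 920331597) (nat_lit 1520) (nat_lit 1009081230) (nat_lit 580) (nat_lit 5) (nat_lit 579) (nat_lit 5) (nat_lit 599) (nat_lit 5) (nat_lit 558) (nat_lit 548) (nat_lit 454))))) (XT.nd (nat_lit 234) (nat_lit 0) (nat_lit 76) (XT.nd (nat_lit 78) (nat_lit 0) (nat_lit 0) (XT.lf (nat_lit 0) (nat_lit 293647600) (nat_lit 1520) (nat_lit 6024307650) (nat_lit 1596) (nat_lit 2290017440) (nat_lit 560) (nat_lit 5) (nat_lit 580) (nat_lit 5) (nat_lit 581) (nat_lit 5) (nat_lit 559) (nat_lit 548) (nat_lit 453)) (XT.nd (nat_lit 78) (nat_lit 0) (nat_lit 76) (XT.lf (nat_lit 0) (nat_lit 1600773162) (nat_lit 1520) (nat_lit 1494617280) (nat_lit 1596) (nat_lit 5581814953) (nat_lit 560) (nat_lit 5) (nat_lit 580) (nat_lit 5) (nat_lit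 581) (nat_lit 5) (nat_lit 560) (nat_lit 548) (nat_lit 452)) (XT.lf (nat_lit 0) (nat_lit 2929175576) (nat_lit 1520) (nat_lit 5600064502) (nat_lit 1596) (nat_lit 218682722) (nat_lit 561) (nat_lit 5) (nat_lit 581) (nat_lit 5) (nat_lit 582) (nat_lit 5) (nat_lit 561) (nat_lit 548) (nat_lit 451)))) (XT.nd (nat_lit 156) (nat_lit 0) (nat_lit 76) (XT.nd (nat_lit 78) (nat_lit 0) (nat_lit 0) (XT.lf (nat_lit 0) (nat_lit 4288457482) (nat_lit 1520) (nat_lit 955092062) (nat_lit 1596) (nat_lit 3576421461) (nat_lit 561) (nat_lit 5) (nat_lit 581) (nat_lit 5) (nat_lit 582) (nat_lit 5) (nat_lit 562) (nat_lit 548) (nat_lit 450)) (XT.lf (nat_lit 76) (nat_lit 3815054434) (nat_lit 0) (nat_lit 1858871905) (nat_lit 1596) (nat_lit 3219556437) (nat_lit 562) (nat_lit 5) (nat_lit 561) (nat_lit 5) (nat_lit 582) (nat_lit 5) (nat_lit 563) (nat_lit 548) (nat_lit 449))) (XT.nd (nat_lit 78) (nat_lit 0) (nat_lit 0) (XT.lf (nat_lit 0) (nat_lit 7078574620) (nat_lit 1520) (nat_lit 303378732) (nat_lit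 1596) (nat_lit 1586684605) (nat_lit 562) (nat_lit 5) (nat_lit 582) (nat_lit 5) (nat_lit 583) (nat_lit 5) (nat_lit 564) (nat_lit 548) (nat_lit 448)) (XT.lf (nat_lit 76) (nat_lit 4597308916) (nat_lit 0) (nat_lit 3931335134) (nat_lit 1596) (nat_lit 516308153) (nat_lit 563) (nat_lit 5) (nat_lit 562) (nat_lit 5) (nat_lit 583) (nat_lit 5) (nat_lit 565) (nat_lit 548) (nat_lit 447)))))) (XT.nd (nat_lit 546) (nat_lit 6384) (nat_lit 0) (XT.nd (nat_lit 234) (nat_lit 1444) (nat_lit 0) (XT.nd (nat_lit 78) (nat_lit 0) (nat_lit 76) (XT.lf (nat_lit 76) (nat_lit 459579839) (nat_lit 0) (nat_lit 394145932) (nat_lit 1672) (nat_lit 8269346291) (nat_lit 542) (nat_lit 5) (nat_lit 541) (nat_lit 5) (nat_lit 563) (nat_lit 5) (nat_lit 566) (nat_lit 548) (nat_lit 446)) (XT.nd (nat_lit 78) (nat_lit 0) (nat_lit 0) (XT.lf (nat_lit 0) (nat_lit 2270946881) (nat_lit 1596) (nat_lit 3719872997) (nat_lit 1672) (nat_lit 3211334565) (nat_lit 542) (nat_lit 5) (nat_lit 563) (nat_lit 5) (nat_lit 564) (nat_lit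 5) (nat_lit 567) (nat_lit 548) (nat_lit 445)) (XT.lf (nat_lit 76) (nat_lit 1319203044) (nat_lit 0) (nat_lit 2384743266) (nat_lit 1672) (nat_lit 5579125819) (nat_lit 543) (nat_lit 5) (nat_lit 542) (nat_lit 5) (nat_lit 564) (nat_lit 5) (nat_lit 568) (nat_lit 548) (nat_lit 444)))) (XT.nd (nat_lit 156) (nat_lit 1596) (nat_lit 0) (XT.nd (nat_lit 78) (nat_lit 0) (nat_lit 0) (XT.lf (nat_lit 0) (nat_lit 5175773656) (nat_lit 1596) (nat_lit 2882680763) (nat_lit 1672) (nat_lit 1306952678) (nat_lit 543) (nat_lit 5) (nat_lit 564) (nat_lit 5) (nat_lit 565) (nat_lit 5) (nat_lit 569) (nat_lit 548) (nat_lit 443)) (XT.lf (nat_lit 76) (nat_lit 2296324616) (nat_lit 0) (nat_lit 4388515530) (nat_lit 1672) (nat_lit 2764394807) (nat_lit 544) (nat_lit 5) (nat_lit 543) (nat_lit 5) (nat_lit 565) (nat_lit 5) (nat_lit 570) (nat_lit 548) (nat_lit 442))) (XT.nd (nat_lit 78) (nat_lit 1596) (nat_lit 0) (XT.lf (nat_lit 76) (nat_lit 7599974462) (nat_lit 0) (nat_lit 620890218) (nat_lit 1672) (nat_lit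 1313941353) (nat_lit 544) (nat_lit 5) (nat_lit 543) (nat_lit 5) (nat_lit 565) (nat_lit 5) (nat_lit 571) (nat_lit 548) (nat_lit 441)) (XT.lf (nat_lit 0) (nat_lit 184340132) (nat_lit 1672) (nat_lit 6229828615) (nat_lit 76) (nat_lit 3207480611) (nat_lit 522) (nat_lit 5) (nat_lit 544) (nat_lit 5) (nat_lit 523) (nat_lit 5) (nat_lit 572) (nat_lit 548) (nat_lit 440))))) (XT.nd (nat_lit 234) (nat_lit 2964) (nat_lit 0) (XT.nd (nat_lit 78) (nat_lit 3420) (nat_lit 0) (XT.lf (nat_lit 0) (nat_lit 1690265496) (nat_lit 1672) (nat_lit 889941868) (nat_lit 76) (nat_lit 7129945115) (nat_lit 522) (nat_lit 5) (nat_lit 544) (nat_lit 5) (nat_lit 523) (nat_lit 5) (nat_lit 573) (nat_lit 548) (nat_lit 439)) (XT.nd (nat_lit 78) (nat_lit 1748) (nat_lit 0) (XT.lf (nat_lit 0) (nat_lit 3243532539) (nat_lit 1748) (nat_lit 5210005314) (nat_lit 76) (nat_lit 1346545378) (nat_lit 500) (nat_lit 5) (nat_lit 523) (nat_lit 5) (nat_lit 501) (nat_lit 5) (nat_lit 574) (nat_lit 548) (nat_lit 438)) (XT.lf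 (nat_lit 0) (nat_lit 268182150) (nat_lit 1748) (nat_lit 4563354368) (nat_lit 1824) (nat_lit 5060204639) (nat_lit 477) (nat_lit 5) (nat_lit 500) (nat_lit 5) (nat_lit 501) (nat_lit 5) (nat_lit 575) (nat_lit 548) (nat_lit 437)))) (XT.nd (nat_lit 156) (nat_lit 1140) (nat_lit 0) (XT.nd (nat_lit 78) (nat_lit 1824) (nat_lit 0) (XT.lf (nat_lit 0) (nat_lit 5908400169) (nat_lit 1748) (nat_lit 556990860) (nat_lit 1824) (nat_lit 3519561356) (nat_lit 477) (nat_lit 5) (nat_lit 500) (nat_lit 5) (nat_lit 501) (nat_lit 5) (nat_lit 576) (nat_lit 548) (nat_lit 436)) (XT.lf (nat_lit 0) (nat_lit 1560719344) (nat_lit 1824) (nat_lit 6583807468) (nat_lit 1900) (nat_lit 1935250856) (nat_lit 453) (nat_lit 5) (nat_lit 477) (nat_lit 5) (nat_lit 478) (nat_lit 5) (nat_lit 577) (nat_lit 548) (nat_lit 435))) (XT.nd (nat_lit 78) (nat_lit 1140) (nat_lit 0) (XT.lf (nat_lit 0) (nat_lit 7344148672) (nat_lit 1824) (nat_lit 2523955272) (nat_lit 1900) (nat_lit 308180217) (nat_lit 453) (nat_lit 5) (nat_lit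 477) (nat_lit 5) (nat_lit 478) (nat_lit 5) (nat_lit 578) (nat_lit 548) (nat_lit 434)) (XT.lf (nat_lit 0) (nat_lit 1343859798) (nat_lit 1140) (nat_lit 7304430139) (nat_lit 76) (nat_lit 1626054117) (nat_lit 438) (nat_lit 5) (nat_lit 453) (nat_lit 5) (nat_lit 439) (nat_lit 5) (nat_lit 579) (nat_lit 548) (nat_lit 433))))))))
noncomputable def xc141 : XT := (XT.nd (nat_lit 2106) (nat_lit 8664) (nat_lit 0) (XT.nd (nat_lit 1014) (nat_lit 6232) (nat_lit 0) (XT.nd (nat_lit 468) (nat_lit 3344) (nat_lit 0) (XT.nd (nat_lit 234) (nat_lit 1824) (nat_lit 0) (XT.nd (nat_lit 78) (nat_lit 912) (nat_lit 0) (XT.lf (nat_lit 0) (nat_lit 3041050012) (nat_lit 1140) (nat_lit 1484778906) (nat_lit 76) (nat_lit 5848172537) (nat_lit 438) (nat_lit 5) (nat_lit 453) (nat_lit 5) (nat_lit 439) (nat_lit 5) (nat_lit 580) (nat_lit 548) (nat_lit 432)) (XT.nd (nat_lit 78) (nat_lit 0) (nat_lit 0) (XT.lf (nat_lit 0) (nat_lit 4492233977) (nat_lit 912) (nat_lit 289887356) (nat_lit 988) (nat_lit 5693333657)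 (nat_lit 426) (nat_lit 5) (nat_lit 438) (nat_lit 5) (nat_lit 439) (nat_lit 5) (nat_lit 581) (nat_lit 548) (nat_lit 431)) (XT.lf (nat_lit 0) (nat_lit 6575253579) (nat_lit 988) (nat_lit 14279276) (nat_lit 76) (nat_lit 3989061652) (nat_lit 426) (nat_lit 5) (nat_lit 439) (nat_lit 5) (nat_lit 427) (nat_lit 5) (nat_lit 582) (nat_lit 548) (nat_lit 430)))) (XT.nd (nat_lit 78) (nat_lit 912) (nat_lit 0) (XT.lf (nat_lit 0) (nat_lit 6134718466) (nat_lit 912) (nat_lit 2292691637) (nat_lit 988) (nat_lit 2255925143) (nat_lit 414) (nat_lit 5) (nat_lit 426) (nat_lit 5) (nat_lit 427) (nat_lit 5) (nat_lit 583) (nat_lit 548) (nat_lit 429)) (XT.nd (nat_lit 78) (nat_lit 76) (nat_lit 0) (XT.lf (nat_lit 0) (nat_lit 1606098474) (nat_lit 836) (nat_lit 8716270166) (nat_lit 912) (nat_lit 467688616) (nat_lit 403) (nat_lit 5) (nat_lit 414) (nat_lit 5) (nat_lit 415) (nat_lit 5) (nat_lit 584) (nat_lit 548) (nat_lit 428)) (XT.lf (nat_lit 0) (nat_lit 1366219118) (nat_lit 912) (nat_lit 2995169333)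 (nat_lit 76) (nat_lit 6536796810) (nat_lit 402) (nat_lit 5) (nat_lit 414) (nat_lit 5) (nat_lit 403) (nat_lit 5) (nat_lit 585) (nat_lit 548) (nat_lit 427))))) (XT.nd (nat_lit 234) (nat_lit 1672) (nat_lit 0) (XT.nd (nat_lit 78) (nat_lit 836) (nat_lit 0) (XT.lf (nat_lit 0) (nat_lit 3235065442) (nat_lit 912) (nat_lit 7668802347) (nat_lit 76) (nat_lit 104457292) (nat_lit 391) (nat_lit 5) (nat_lit 403) (nat_lit 5) (nat_lit 392) (nat_lit 5) (nat_lit 586) (nat_lit 548) (nat_lit 426)) (XT.nd (nat_lit 78) (nat_lit 836) (nat_lit 0) (XT.lf (nat_lit 0) (nat_lit 5172780967) (nat_lit 912) (nat_lit 1325891187) (nat_lit 76) (nat_lit 4621367207) (nat_lit 391) (nat_lit 5) (nat_lit 403) (nat_lit 5) (nat_lit 392) (nat_lit 5) (nat_lit 587) (nat_lit 548) (nat_lit 425)) (XT.lf (nat_lit 0) (nat_lit 5194238876) (nat_lit 836) (nat_lit 1971458564) (nat_lit 912) (nat_lit 4067963034) (nat_lit 380) (nat_lit 5) (nat_lit 391) (nat_lit 5) (nat_lit 392) (nat_lit 5) (nat_lit 588) (nat_lit 548) (nat_lit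 424)))) (XT.nd (nat_lit 156) (nat_lit 836) (nat_lit 0) (XT.nd (nat_lit 78) (nat_lit 0) (nat_lit 0) (XT.lf (nat_lit 0) (nat_lit 484497589) (nat_lit 836) (nat_lit 8726200776) (nat_lit 912) (nat_lit 2138612571) (nat_lit 369) (nat_lit 5) (nat_lit 380) (nat_lit 5) (nat_lit 381) (nat_lit 5) (nat_lit 589) (nat_lit 548) (nat_lit 423)) (XT.lf (nat_lit 0) (nat_lit 7189665391) (nat_lit 836) (nat_lit 4143592759) (nat_lit 912) (nat_lit 133284503) (nat_lit 369) (nat_lit 5) (nat_lit 380) (nat_lit 5) (nat_lit 381) (nat_lit 5) (nat_lit 590) (nat_lit 548) (nat_lit 422))) (XT.nd (nat_lit 78) (nat_lit 0) (nat_lit 0) (XT.lf (nat_lit 0) (nat_lit 1889950734) (nat_lit 836) (nat_lit 9144785000) (nat_lit 76) (nat_lit 551078764) (nat_lit 358) (nat_lit 5) (nat_lit 369) (nat_lit 5) (nat_lit 359) (nat_lit 5) (nat_lit 591) (nat_lit 548) (nat_lit 421)) (XT.lf (nat_lit 0) (nat_lit 3991782919) (nat_lit 836) (nat_lit 2402085975) (nat_lit 76) (nat_lit 5312788266) (nat_lit 358) (nat_lit 5) (nat_lit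 369) (nat_lit 5) (nat_lit 359) (nat_lit 5) (nat_lit 592) (nat_lit 548) (nat_lit 420)))))) (XT.nd (nat_lit 546) (nat_lit 3268) (nat_lit 0) (XT.nd (nat_lit 234) (nat_lit 1520) (nat_lit 0) (XT.nd (nat_lit 78) (nat_lit 684) (nat_lit 0) (XT.lf (nat_lit 0) (nat_lit 4517118642) (nat_lit 760) (nat_lit 1631767192) (nat_lit 836) (nat_lit 5680767473) (nat_lit 348) (nat_lit 5) (nat_lit 358) (nat_lit 5) (nat_lit 359) (nat_lit 5) (nat_lit 593) (nat_lit 548) (nat_lit 419)) (XT.nd (nat_lit 78) (nat_lit 684) (nat_lit 0) (XT.lf (nat_lit 0) (nat_lit 8370397186) (nat_lit 836) (nat_lit 386352388) (nat_lit 76) (nat_lit 3197935765) (nat_lit 348) (nat_lit 5) (nat_lit 359) (nat_lit 5) (nat_lit 349) (nat_lit 5) (nat_lit 594) (nat_lit 548) (nat_lit 418)) (XT.lf (nat_lit 0) (nat_lit 6738487999) (nat_lit 684) (nat_lit 3936817495) (nat_lit 760) (nat_lit 1406134446) (nat_lit 339) (nat_lit 5) (nat_lit 348) (nat_lit 5) (nat_lit 349) (nat_lit 5) (nat_lit 595) (nat_lit 548) (nat_lit 417)))) (XT.nd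 (nat_lit 156) (nat_lit 684) (nat_lit 0) (XT.nd (nat_lit 78) (nat_lit 0) (nat_lit 0) (XT.lf (nat_lit 0) (nat_lit 810165911) (nat_lit 836) (nat_lit 10415958579) (nat_lit 76) (nat_lit 984394847) (nat_lit 328) (nat_lit 5) (nat_lit 339) (nat_lit 5) (nat_lit 329) (nat_lit 5) (nat_lit 596) (nat_lit 548) (nat_lit 416)) (XT.lf (nat_lit 0) (nat_lit 3098821692) (nat_lit 836) (nat_lit 3247542158) (nat_lit 76) (nat_lit 5994694621) (nat_lit 328) (nat_lit 5) (nat_lit 339) (nat_lit 5) (nat_lit 329) (nat_lit 5) (nat_lit 597) (nat_lit 548) (nat_lit 415))) (XT.nd (nat_lit 78) (nat_lit 0) (nat_lit 0) (XT.lf (nat_lit 0) (nat_lit 4100664209) (nat_lit 684) (nat_lit 1344187919) (nat_lit 760) (nat_lit 7029125397) (nat_lit 319) (nat_lit 5) (nat_lit 328) (nat_lit 5) (nat_lit 329) (nat_lit 5) (nat_lit 598) (nat_lit 548) (nat_lit 414)) (XT.lf (nat_lit 0) (nat_lit 7869284135) (nat_lit 760) (nat_lit 1011334522) (nat_lit 76) (nat_lit 3728307826) (nat_lit 319) (nat_lit 5) (nat_lit 329) (nat_lit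 5) (nat_lit 320) (nat_lit 5) (nat_lit 599) (nat_lit 548) (nat_lit 413))))) (XT.nd (nat_lit 234) (nat_lit 1900) (nat_lit 0) (XT.nd (nat_lit 78) (nat_lit 684) (nat_lit 0) (XT.lf (nat_lit 0) (nat_lit 6557804954) (nat_lit 684) (nat_lit 3821314931) (nat_lit 760) (nat_lit 2366717355) (nat_lit 310) (nat_lit 5) (nat_lit 319) (nat_lit 5) (nat_lit 320) (nat_lit 5) (nat_lit 600) (nat_lit 548) (nat_lit 412)) (XT.nd (nat_lit 78) (nat_lit 0) (nat_lit 0) (XT.lf (nat_lit 0) (nat_lit 63230950) (nat_lit 684) (nat_lit 11486748090) (nat_lit 76) (nat_lit 1335295908) (nat_lit 301) (nat_lit 5) (nat_lit 310) (nat_lit 5) (nat_lit 302) (nat_lit 5) (nat_lit 601) (nat_lit 548) (nat_lit 411)) (XT.lf (nat_lit 0) (nat_lit 2562892376) (nat_lit 684) (nat_lit 3864648303) (nat_lit 76) (nat_lit 6598592816) (nat_lit 301) (nat_lit 5) (nat_lit 310) (nat_lit 5) (nat_lit 302) (nat_lit 5) (nat_lit 602) (nat_lit 548) (nat_lit 410)))) (XT.nd (nat_lit 156) (nat_lit 1216) (nat_lit 0) (XT.nd (nat_lit 78) (nat_lit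 0) (nat_lit 0) (XT.lf (nat_lit 0) (nat_lit 3944548868) (nat_lit 684) (nat_lit 1179558009) (nat_lit 760) (nat_lit 8045472178) (nat_lit 292) (nat_lit 5) (nat_lit 301) (nat_lit 5) (nat_lit 302) (nat_lit 5) (nat_lit 603) (nat_lit 548) (nat_lit 409)) (XT.lf (nat_lit 0) (nat_lit 7775842193) (nat_lit 760) (nat_lit 1397551112) (nat_lit 76) (nat_lit 4141715306) (nat_lit 292) (nat_lit 5) (nat_lit 302) (nat_lit 5) (nat_lit 293) (nat_lit 5) (nat_lit 604) (nat_lit 548) (nat_lit 408))) (XT.nd (nat_lit 78) (nat_lit 608) (nat_lit 0) (XT.lf (nat_lit 0) (nat_lit 6648981780) (nat_lit 608) (nat_lit 3868978902) (nat_lit 684) (nat_lit 2944842101) (nat_lit 284) (nat_lit 5) (nat_lit 292) (nat_lit 5) (nat_lit 293) (nat_lit 5) (nat_lit 605) (nat_lit 548) (nat_lit 407)) (XT.lf (nat_lit 0) (nat_lit 1251443792) (nat_lit 608) (nat_lit 12077556145) (nat_lit 684) (nat_lit 284170311) (nat_lit 276) (nat_lit 5) (nat_lit 284) (nat_lit 5) (nat_lit 285) (nat_lit 5) (nat_lit 606) (nat_lit 548) (nat_lit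 406))))))) (XT.nd (nat_lit 1092) (nat_lit 4104) (nat_lit 0) (XT.nd (nat_lit 546) (nat_lit 2128) (nat_lit 0) (XT.nd (nat_lit 234) (nat_lit 1748) (nat_lit 0) (XT.nd (nat_lit 78) (nat_lit 608) (nat_lit 0) (XT.lf (nat_lit 0) (nat_lit 2456067983) (nat_lit 684) (nat_lit 4254046123) (nat_lit 76) (nat_lit 7054952003) (nat_lit 275) (nat_lit 5) (nat_lit 284) (nat_lit 5) (nat_lit 276) (nat_lit 5) (nat_lit 607) (nat_lit 548) (nat_lit 405)) (XT.nd (nat_lit 78) (nat_lit 0) (nat_lit 0) (XT.lf (nat_lit 0) (nat_lit 4050268977) (nat_lit 608) (nat_lit 1210170660) (nat_lit 684) (nat_lit 8659260932) (nat_lit 267) (nat_lit 5) (nat_lit 275) (nat_lit 5) (nat_lit 276) (nat_lit 5) (nat_lit 608) (nat_lit 548) (nat_lit 404)) (XT.lf (nat_lit 0) (nat_lit 8165160472) (nat_lit 684) (nat_lit 1544161324) (nat_lit 76) (nat_lit 4367221588) (nat_lit 267) (nat_lit 5) (nat_lit 276) (nat_lit 5) (nat_lit 268) (nat_lit 5) (nat_lit 609) (nat_lit 548) (nat_lit 403)))) (XT.nd (nat_lit 156) (nat_lit 608) (nat_lit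 0) (XT.nd (nat_lit 78) (nat_lit 532) (nat_lit 0) (XT.lf (nat_lit 0) (nat_lit 7015050334) (nat_lit 608) (nat_lit 4153701390) (nat_lit 684) (nat_lit 3066956695) (nat_lit 259) (nat_lit 5) (nat_lit 267) (nat_lit 5) (nat_lit 268) (nat_lit 5) (nat_lit 610) (nat_lit 548) (nat_lit 402)) (XT.lf (nat_lit 0) (nat_lit 1359796605) (nat_lit 532) (nat_lit 12889035743) (nat_lit 608) (nat_lit 148896922) (nat_lit 252) (nat_lit 5) (nat_lit 259) (nat_lit 5) (nat_lit 260) (nat_lit 5) (nat_lit 611) (nat_lit 548) (nat_lit 401))) (XT.nd (nat_lit 78) (nat_lit 532) (nat_lit 0) (XT.lf (nat_lit 0) (nat_lit 2854115322) (nat_lit 608) (nat_lit 4415202220) (nat_lit 76) (nat_lit 7292033173) (nat_lit 251) (nat_lit 5) (nat_lit 259) (nat_lit 5) (nat_lit 252) (nat_lit 5) (nat_lit 612) (nat_lit 548) (nat_lit 400)) (XT.lf (nat_lit 0) (nat_lit 4420569332) (nat_lit 532) (nat_lit 1510966608) (nat_lit 608) (nat_lit 8796362942) (nat_lit 244) (nat_lit 5) (nat_lit 251) (nat_lit 5) (nat_lit 252) (nat_lit 5)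 (nat_lit 613) (nat_lit 548) (nat_lit 399))))) (XT.nd (nat_lit 234) (nat_lit 988) (nat_lit 0) (XT.nd (nat_lit 78) (nat_lit 1140) (nat_lit 0) (XT.lf (nat_lit 0) (nat_lit 9116402959) (nat_lit 608) (nat_lit 1449315625) (nat_lit 76) (nat_lit 4331142271) (nat_lit 244) (nat_lit 5) (nat_lit 252) (nat_lit 5) (nat_lit 245) (nat_lit 5) (nat_lit 614) (nat_lit 548) (nat_lit 398)) (XT.nd (nat_lit 78) (nat_lit 608) (nat_lit 0) (XT.lf (nat_lit 0) (nat_lit 7660124984) (nat_lit 532) (nat_lit 4752572431) (nat_lit 608) (nat_lit 2655550835) (nat_lit 237) (nat_lit 5) (nat_lit 244) (nat_lit 5) (nat_lit 245) (nat_lit 5) (nat_lit 615) (nat_lit 548) (nat_lit 397)) (XT.lf (nat_lit 0) (nat_lit 541726846) (nat_lit 608) (nat_lit 13519110575) (nat_lit 76) (nat_lit 1181820707) (nat_lit 229) (nat_lit 5) (nat_lit 237) (nat_lit 5) (nat_lit 230) (nat_lit 5) (nat_lit 616) (nat_lit 548) (nat_lit 396)))) (XT.nd (nat_lit 156) (nat_lit 532) (nat_lit 0) (XT.nd (nat_lit 78) (nat_lit 456) (nat_lit 0) (XT.lf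 (nat_lit 0) (nat_lit 3837083590) (nat_lit 608) (nat_lit 4347027511) (nat_lit 76) (nat_lit 7234700952) (nat_lit 229) (nat_lit 5) (nat_lit 237) (nat_lit 5) (nat_lit 230) (nat_lit 5) (nat_lit 617) (nat_lit 548) (nat_lit 395)) (XT.lf (nat_lit 0) (nat_lit 5058818282) (nat_lit 456) (nat_lit 2160749367) (nat_lit 532) (nat_lit 8378497729) (nat_lit 223) (nat_lit 5) (nat_lit 229) (nat_lit 5) (nat_lit 230) (nat_lit 5) (nat_lit 618) (nat_lit 548) (nat_lit 394))) (XT.nd (nat_lit 78) (nat_lit 532) (nat_lit 0) (XT.lf (nat_lit 0) (nat_lit 10713397064) (nat_lit 532) (nat_lit 1110791064) (nat_lit 76) (nat_lit 3955842440) (nat_lit 223) (nat_lit 5) (nat_lit 230) (nat_lit 5) (nat_lit 224) (nat_lit 5) (nat_lit 619) (nat_lit 548) (nat_lit 393)) (XT.lf (nat_lit 0) (nat_lit 8588760941) (nat_lit 532) (nat_lit 5747112569) (nat_lit 608) (nat_lit 1628586839) (nat_lit 216) (nat_lit 5) (nat_lit 223) (nat_lit 5) (nat_lit 224) (nat_lit 5) (nat_lit 620) (nat_lit 548) (nat_lit 392)))))) (XT.nd (nat_lit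 546) (nat_lit 2128) (nat_lit 0) (XT.nd (nat_lit 234) (nat_lit 988) (nat_lit 0) (XT.nd (nat_lit 78) (nat_lit 456) (nat_lit 0) (XT.lf (nat_lit 0) (nat_lit 1868208123) (nat_lit 532) (nat_lit 13807614870) (nat_lit 76) (nat_lit 476220098) (nat_lit 209) (nat_lit 5) (nat_lit 216) (nat_lit 5) (nat_lit 210) (nat_lit 5) (nat_lit 621) (nat_lit 548) (nat_lit 391)) (XT.nd (nat_lit 78) (nat_lit 456) (nat_lit 0) (XT.lf (nat_lit 0) (nat_lit 5489865971) (nat_lit 532) (nat_lit 4048565327) (nat_lit 76) (nat_lit 6803196874) (nat_lit 209) (nat_lit 5) (nat_lit 216) (nat_lit 5) (nat_lit 210) (nat_lit 5) (nat_lit 622) (nat_lit 548) (nat_lit 390)) (XT.lf (nat_lit 0) (nat_lit 5968311056) (nat_lit 456) (nat_lit 3243445590) (nat_lit 532) (nat_lit 7322692959) (nat_lit 203) (nat_lit 5) (nat_lit 209) (nat_lit 5) (nat_lit 210) (nat_lit 5) (nat_lit 623) (nat_lit 548) (nat_lit 389)))) (XT.nd (nat_lit 156) (nat_lit 456) (nat_lit 0) (XT.nd (nat_lit 78) (nat_lit 532) (nat_lit 0) (XT.lf (nat_lit 0)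 (nat_lit 13045195998) (nat_lit 532) (nat_lit 526703447) (nat_lit 76) (nat_lit 3158486435) (nat_lit 203) (nat_lit 5) (nat_lit 210) (nat_lit 5) (nat_lit 204) (nat_lit 5) (nat_lit 624) (nat_lit 548) (nat_lit 388)) (XT.lf (nat_lit 0) (nat_lit 99715047) (nat_lit 532) (nat_lit 7124175391) (nat_lit 76) (nat_lit 9704848184) (nat_lit 196) (nat_lit 5) (nat_lit 203) (nat_lit 5) (nat_lit 197) (nat_lit 5) (nat_lit 625) (nat_lit 548) (nat_lit 387))) (XT.nd (nat_lit 78) (nat_lit 0) (nat_lit 0) (XT.lf (nat_lit 0) (nat_lit 3220976255) (nat_lit 456) (nat_lit 703898913) (nat_lit 532) (nat_lit 13205418631) (nat_lit 190) (nat_lit 5) (nat_lit 196) (nat_lit 5) (nat_lit 197) (nat_lit 5) (nat_lit 626) (nat_lit 548) (nat_lit 386)) (XT.lf (nat_lit 0) (nat_lit 7902732812) (nat_lit 532) (nat_lit 3519771697) (nat_lit 76) (nat_lit 5911852266) (nat_lit 190) (nat_lit 5) (nat_lit 197) (nat_lit 5) (nat_lit 191) (nat_lit 5) (nat_lit 627) (nat_lit 548) (nat_lit 385))))) (XT.nd (nat_lit 234) (nat_lit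 1216) (nat_lit 0) (XT.nd (nat_lit 78) (nat_lit 532) (nat_lit 0) (XT.lf (nat_lit 0) (nat_lit 7151477189) (nat_lit 380) (nat_lit 4849432938) (nat_lit 456) (nat_lit 5540776204) (nat_lit 185) (nat_lit 5) (nat_lit 190) (nat_lit 5) (nat_lit 191) (nat_lit 5) (nat_lit 628) (nat_lit 548) (nat_lit 384)) (XT.nd (nat_lit 78) (nat_lit 76) (nat_lit 0) (XT.lf (nat_lit 0) (nat_lit 307714756) (nat_lit 456) (nat_lit 15900896049) (nat_lit 532) (nat_lit 1544001038) (nat_lit 179) (nat_lit 5) (nat_lit 185) (nat_lit 5) (nat_lit 186) (nat_lit 5) (nat_lit 629) (nat_lit 548) (nat_lit 383)) (XT.lf (nat_lit 0) (nat_lit 2591569818) (nat_lit 532) (nat_lit 6670271677) (nat_lit 76) (nat_lit 8703744487) (nat_lit 178) (nat_lit 5) (nat_lit 185) (nat_lit 5) (nat_lit 179) (nat_lit 5) (nat_lit 630) (nat_lit 548) (nat_lit 382)))) (XT.nd (nat_lit 156) (nat_lit 836) (nat_lit 0) (XT.nd (nat_lit 78) (nat_lit 0) (nat_lit 0) (XT.lf (nat_lit 0) (nat_lit 4351666295) (nat_lit 380) (nat_lit 2455761478) (nat_lit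 456) (nat_lit 11374823244) (nat_lit 173) (nat_lit 5) (nat_lit 178) (nat_lit 5) (nat_lit 179) (nat_lit 5) (nat_lit 631) (nat_lit 548) (nat_lit 381)) (XT.lf (nat_lit 0) (nat_lit 11171833040) (nat_lit 456) (nat_lit 2762414483) (nat_lit 76) (nat_lit 4467717746) (nat_lit 173) (nat_lit 5) (nat_lit 179) (nat_lit 5) (nat_lit 174) (nat_lit 5) (nat_lit 632) (nat_lit 548) (nat_lit 380))) (XT.nd (nat_lit 78) (nat_lit 456) (nat_lit 0) (XT.lf (nat_lit 0) (nat_lit 8608964655) (nat_lit 380) (nat_lit 7076959146) (nat_lit 456) (nat_lit 2938902563) (nat_lit 168) (nat_lit 5) (nat_lit 173) (nat_lit 5) (nat_lit 174) (nat_lit 5) (nat_lit 633) (nat_lit 548) (nat_lit 379)) (XT.lf (nat_lit 0) (nat_lit 1387346058) (nat_lit 380) (nat_lit 49882008) (nat_lit 456) (nat_lit 17414371597) (nat_lit 162) (nat_lit 5) (nat_lit 167) (nat_lit 5) (nat_lit 168) (nat_lit 5) (nat_lit 634) (nat_lit 548) (nat_lit 378))))))))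
noncomputable def xc142 : XT := (XT.nd (nat_lit 74490) (nat_lit 0) (nat_lit 31084) (XT.nd (nat_lit 1014) (nat_lit 2432) (nat_lit 0) (XT.nd (nat_lit 468) (nat_lit 1748) (nat_lit 0) (XT.nd (nat_lit 234) (nat_lit 836) (nat_lit 0) (XT.nd (nat_lit 78) (nat_lit 380) (nat_lit 0) (XT.lf (nat_lit 0) (nat_lit 5965768474) (nat_lit 456) (nat_lit 6008193888) (nat_lit 76) (nat_lit 7106473238) (nat_lit 162) (nat_lit 5) (nat_lit 168) (nat_lit 5) (nat_lit 163) (nat_lit 5) (nat_lit 635) (nat_lit 548) (nat_lit 377)) (XT.nd (nat_lit 78) (nat_lit 0) (nat_lit 0) (XT.lf (nat_lit 0) (nat_lit 5737300235) (nat_lit 380) (nat_lit 4875682121) (nat_lit 456) (nat_lit 8700304317) (nat_lit 157) (nat_lit 5) (nat_lit 162) (nat_lit 5) (nat_lit 163) (nat_lit 5) (nat_lit 636) (nat_lit 548) (nat_lit 376)) (XT.lf (nat_lit 0) (nat_lit 15399658367) (nat_lit 456) (nat_lit 1781121885) (nat_lit 76) (nat_lit 2369084618) (nat_lit 157) (nat_lit 5) (nat_lit 163) (nat_lit 5) (nat_lit 158) (nat_lit 5) (nat_lit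 637) (nat_lit 548) (nat_lit 375)))) (XT.nd (nat_lit 78) (nat_lit 380) (nat_lit 0) (XT.lf (nat_lit 0) (nat_lit 575231096) (nat_lit 456) (nat_lit 9454586620) (nat_lit 76) (nat_lit 9759478093) (nat_lit 151) (nat_lit 5) (nat_lit 157) (nat_lit 5) (nat_lit 152) (nat_lit 5) (nat_lit 638) (nat_lit 548) (nat_lit 374)) (XT.nd (nat_lit 78) (nat_lit 0) (nat_lit 0) (XT.lf (nat_lit 0) (nat_lit 2676865943) (nat_lit 380) (nat_lit 2682996037) (nat_lit 456) (nat_lit 14672700049) (nat_lit 146) (nat_lit 5) (nat_lit 151) (nat_lit 5) (nat_lit 152) (nat_lit 5) (nat_lit 639) (nat_lit 548) (nat_lit 373)) (XT.lf (nat_lit 0) (nat_lit 10326131971) (nat_lit 456) (nat_lit 5146428730) (nat_lit 76) (nat_lit 4806414366) (nat_lit 146) (nat_lit 5) (nat_lit 152) (nat_lit 5) (nat_lit 147) (nat_lit 5) (nat_lit 640) (nat_lit 548) (nat_lit 372))))) (XT.nd (nat_lit 234) (nat_lit 988) (nat_lit 0) (XT.nd (nat_lit 78) (nat_lit 456) (nat_lit 0) (XT.lf (nat_lit 0) (nat_lit 7371765061) (nat_lit 304) (nat_lit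 8076618768) (nat_lit 380) (nat_lit 5080799824) (nat_lit 142) (nat_lit 5) (nat_lit 146) (nat_lit 5) (nat_lit 147) (nat_lit 5) (nat_lit 641) (nat_lit 548) (nat_lit 371)) (XT.nd (nat_lit 78) (nat_lit 456) (nat_lit 0) (XT.lf (nat_lit 0) (nat_lit 20196004415) (nat_lit 304) (nat_lit 502721997) (nat_lit 380) (nat_lit 85157493) (nat_lit 142) (nat_lit 5) (nat_lit 146) (nat_lit 5) (nat_lit 147) (nat_lit 5) (nat_lit 642) (nat_lit 548) (nat_lit 370)) (XT.lf (nat_lit 0) (nat_lit 5063694278) (nat_lit 456) (nat_lit 8740654506) (nat_lit 76) (nat_lit 7236298978) (nat_lit 136) (nat_lit 5) (nat_lit 142) (nat_lit 5) (nat_lit 137) (nat_lit 5) (nat_lit 643) (nat_lit 548) (nat_lit 369)))) (XT.nd (nat_lit 156) (nat_lit 684) (nat_lit 0) (XT.nd (nat_lit 78) (nat_lit 0) (nat_lit 0) (XT.lf (nat_lit 0) (nat_lit 4188163782) (nat_lit 304) (nat_lit 6151988357) (nat_lit 380) (nat_lit 10961868497) (nat_lit 132) (nat_lit 5) (nat_lit 136) (nat_lit 5) (nat_lit 137) (nat_lit 5) (nat_lit 644) (nat_lit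 548) (nat_lit 368)) (XT.lf (nat_lit 0) (nat_lit 15783239584) (nat_lit 380) (nat_lit 4098548157) (nat_lit 76) (nat_lit 1685611596) (nat_lit 132) (nat_lit 5) (nat_lit 137) (nat_lit 5) (nat_lit 133) (nat_lit 5) (nat_lit 645) (nat_lit 548) (nat_lit 367))) (XT.nd (nat_lit 78) (nat_lit 380) (nat_lit 0) (XT.lf (nat_lit 0) (nat_lit 9243817186) (nat_lit 304) (nat_lit 12183622875) (nat_lit 380) (nat_lit 408800895) (nat_lit 128) (nat_lit 5) (nat_lit 132) (nat_lit 5) (nat_lit 133) (nat_lit 5) (nat_lit 646) (nat_lit 548) (nat_lit 366)) (XT.lf (nat_lit 0) (nat_lit 761776980) (nat_lit 304) (nat_lit 4269887041) (nat_lit 380) (nat_lit 17077653935) (nat_lit 123) (nat_lit 5) (nat_lit 127) (nat_lit 5) (nat_lit 128) (nat_lit 5) (nat_lit 647) (nat_lit 548) (nat_lit 365)))))) (XT.nd (nat_lit 546) (nat_lit 1216) (nat_lit 0) (XT.nd (nat_lit 234) (nat_lit 912) (nat_lit 0) (XT.nd (nat_lit 78) (nat_lit 304) (nat_lit 0) (XT.lf (nat_lit 0) (nat_lit 10676774865) (nat_lit 380) (nat_lit 7874172580)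 (nat_lit 76) (nat_lit 3834829146) (nat_lit 123) (nat_lit 5) (nat_lit 128) (nat_lit 5) (nat_lit 124) (nat_lit 5) (nat_lit 648) (nat_lit 548) (nat_lit 364)) (XT.nd (nat_lit 78) (nat_lit 0) (nat_lit 0) (XT.lf (nat_lit 0) (nat_lit 5904283614) (nat_lit 304) (nat_lit 10588839806) (nat_lit 380) (nat_lit 6173474611) (nat_lit 119) (nat_lit 5) (nat_lit 123) (nat_lit 5) (nat_lit 124) (nat_lit 5) (nat_lit 649) (nat_lit 548) (nat_lit 363)) (XT.lf (nat_lit 0) (nat_lit 20051596568) (nat_lit 304) (nat_lit 2418840756) (nat_lit 380) (nat_lit 481706143) (nat_lit 119) (nat_lit 5) (nat_lit 123) (nat_lit 5) (nat_lit 124) (nat_lit 5) (nat_lit 650) (nat_lit 548) (nat_lit 362)))) (XT.nd (nat_lit 156) (nat_lit 228) (nat_lit 0) (XT.nd (nat_lit 78) (nat_lit 304) (nat_lit 0) (XT.lf (nat_lit 0) (nat_lit 5358685900) (nat_lit 380) (nat_lit 11941168412) (nat_lit 76) (nat_lit 5940762255) (nat_lit 114) (nat_lit 5) (nat_lit 119) (nat_lit 5) (nat_lit 115) (nat_lit 5) (nat_lit 651) (nat_lit 548) (nat_lit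 361)) (XT.lf (nat_lit 0) (nat_lit 2285596469) (nat_lit 304) (nat_lit 9066241905) (nat_lit 380) (nat_lit 12182109337) (nat_lit 110) (nat_lit 5) (nat_lit 114) (nat_lit 5) (nat_lit 115) (nat_lit 5) (nat_lit 652) (nat_lit 548) (nat_lit 360))) (XT.nd (nat_lit 78) (nat_lit 228) (nat_lit 0) (XT.lf (nat_lit 0) (nat_lit 16945517383) (nat_lit 304) (nat_lit 591485070) (nat_lit 380) (nat_lit 6294700363) (nat_lit 110) (nat_lit 5) (nat_lit 114) (nat_lit 5) (nat_lit 115) (nat_lit 5) (nat_lit 653) (nat_lit 548) (nat_lit 359)) (XT.lf (nat_lit 0) (nat_lit 7800131333) (nat_lit 228) (nat_lit 16140806077) (nat_lit 304) (nat_lit 192574566) (nat_lit 107) (nat_lit 5) (nat_lit 110) (nat_lit 5) (nat_lit 111) (nat_lit 5) (nat_lit 654) (nat_lit 548) (nat_lit 358))))) (XT.nd (nat_lit 234) (nat_lit 608) (nat_lit 0) (XT.nd (nat_lit 78) (nat_lit 532) (nat_lit 0) (XT.lf (nat_lit 0) (nat_lit 5995079130) (nat_lit 304) (nat_lit 1623425730) (nat_lit 76) (nat_lit 16821217710) (nat_lit 106) (nat_lit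 5) (nat_lit 110) (nat_lit 5) (nat_lit 107) (nat_lit 5) (nat_lit 655) (nat_lit 548) (nat_lit 357)) (XT.nd (nat_lit 78) (nat_lit 228) (nat_lit 0) (XT.lf (nat_lit 0) (nat_lit 12391691174) (nat_lit 380) (nat_lit 11213740688) (nat_lit 76) (nat_lit 1144844665) (nat_lit 102) (nat_lit 5) (nat_lit 107) (nat_lit 5) (nat_lit 103) (nat_lit 5) (nat_lit 656) (nat_lit 548) (nat_lit 356)) (XT.lf (nat_lit 0) (nat_lit 3943164452) (nat_lit 228) (nat_lit 15052438243) (nat_lit 304) (nat_lit 6069851805) (nat_lit 99) (nat_lit 5) (nat_lit 102) (nat_lit 5) (nat_lit 103) (nat_lit 5) (nat_lit 657) (nat_lit 548) (nat_lit 355)))) (XT.nd (nat_lit 156) (nat_lit 228) (nat_lit 0) (XT.nd (nat_lit 78) (nat_lit 304) (nat_lit 0) (XT.lf (nat_lit 0) (nat_lit 408246698) (nat_lit 304) (nat_lit 5845875051) (nat_lit 76) (nat_lit 19131407587) (nat_lit 98) (nat_lit 5) (nat_lit 102) (nat_lit 5) (nat_lit 99) (nat_lit 5) (nat_lit 658) (nat_lit 548) (nat_lit 354)) (XT.lf (nat_lit 0) (nat_lit 7009240508) (nat_lit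 380) (nat_lit 15916505464) (nat_lit 76) (nat_lit 2783965355) (nat_lit 94) (nat_lit 5) (nat_lit 99) (nat_lit 5) (nat_lit 95) (nat_lit 5) (nat_lit 659) (nat_lit 548) (nat_lit 353))) (XT.nd (nat_lit 78) (nat_lit 228) (nat_lit 0) (XT.lf (nat_lit 0) (nat_lit 13815704356) (nat_lit 380) (nat_lit 269658787) (nat_lit 76) (nat_lit 11953545068) (nat_lit 94) (nat_lit 5) (nat_lit 99) (nat_lit 5) (nat_lit 95) (nat_lit 5) (nat_lit 660) (nat_lit 548) (nat_lit 352)) (XT.lf (nat_lit 0) (nat_lit 15886022510) (nat_lit 228) (nat_lit 4968107218) (nat_lit 304) (nat_lit 5518642915) (nat_lit 91) (nat_lit 5) (nat_lit 94) (nat_lit 5) (nat_lit 95) (nat_lit 5) (nat_lit 661) (nat_lit 548) (nat_lit 351))))))) (XT.nd (nat_lit 1014) (nat_lit 4484) (nat_lit 0) (XT.nd (nat_lit 468) (nat_lit 1368) (nat_lit 0) (XT.nd (nat_lit 234) (nat_lit 1368) (nat_lit 0) (XT.nd (nat_lit 78) (nat_lit 0) (nat_lit 0) (XT.lf (nat_lit 0) (nat_lit 2615803624) (nat_lit 1444) (nat_lit 703552805) (nat_lit 1444) (nat_lit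 703552805) (nat_lit 595) (nat_lit 3) (nat_lit 614) (nat_lit 3) (nat_lit 614) (nat_lit 5) (nat_lit 549) (nat_lit 549) (nat_lit 462)) (XT.nd (nat_lit 78) (nat_lit 0) (nat_lit 0) (XT.lf (nat_lit 76) (nat_lit 2606828730) (nat_lit 0) (nat_lit 3882870686) (nat_lit 1444) (nat_lit 1612332130) (nat_lit 596) (nat_lit 5) (nat_lit 595) (nat_lit 3) (nat_lit 614) (nat_lit 5) (nat_lit 550) (nat_lit 549) (nat_lit 461)) (XT.lf (nat_lit 76) (nat_lit 6703998538) (nat_lit 0) (nat_lit 1047108681) (nat_lit 1444) (nat_lit 408701985) (nat_lit 596) (nat_lit 5) (nat_lit 595) (nat_lit 3) (nat_lit 614) (nat_lit 5) (nat_lit 551) (nat_lit 549) (nat_lit 460)))) (XT.nd (nat_lit 78) (nat_lit 0) (nat_lit 0) (XT.lf (nat_lit 0) (nat_lit 806991893) (nat_lit 1444) (nat_lit 5553176984) (nat_lit 1520) (nat_lit 1858495808) (nat_lit 577) (nat_lit 5) (nat_lit 596) (nat_lit 5) (nat_lit 597) (nat_lit 5) (nat_lit 552) (nat_lit 549) (nat_lit 459)) (XT.nd (nat_lit 78) (nat_lit 0) (nat_lit 0) (XT.lf (nat_lit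 0) (nat_lit 2028012739) (nat_lit 1444) (nat_lit 1416073148) (nat_lit 1520) (nat_lit 4834830849) (nat_lit 577) (nat_lit 5) (nat_lit 596) (nat_lit 5) (nat_lit 597) (nat_lit 5) (nat_lit 553) (nat_lit 549) (nat_lit 458)) (XT.lf (nat_lit 76) (nat_lit 2824332664) (nat_lit 0) (nat_lit 437764707) (nat_lit 1520) (nat_lit 5078506729) (nat_lit 578) (nat_lit 5) (nat_lit 577) (nat_lit 5) (nat_lit 597) (nat_lit 5) (nat_lit 554) (nat_lit 549) (nat_lit 457))))) (XT.nd (nat_lit 234) (nat_lit 1444) (nat_lit 0) (XT.nd (nat_lit 78) (nat_lit 0) (nat_lit 0) (XT.lf (nat_lit 0) (nat_lit 4518361632) (nat_lit 1444) (nat_lit 1268767544) (nat_lit 1520) (nat_lit 2616449155) (nat_lit 578) (nat_lit 5) (nat_lit 597) (nat_lit 5) (nat_lit 598) (nat_lit 5) (nat_lit 555) (nat_lit 549) (nat_lit 456)) (XT.nd (nat_lit 78) (nat_lit 0) (nat_lit 76) (XT.lf (nat_lit 76) (nat_lit 3084531567) (nat_lit 0) (nat_lit 2709582064) (nat_lit 1520) (nat_lit 2673814186) (nat_lit 579) (nat_lit 5) (nat_lit 578) (nat_lit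 5) (nat_lit 598) (nat_lit 5) (nat_lit 556) (nat_lit 549) (nat_lit 455)) (XT.lf (nat_lit 0) (nat_lit 7078703409) (nat_lit 1444) (nat_lit 1011383883) (nat_lit 1520) (nat_lit 443813503) (nat_lit 579) (nat_lit 5) (nat_lit 598) (nat_lit 5) (nat_lit 599) (nat_lit 5) (nat_lit 557) (nat_lit 549) (nat_lit 454)))) (XT.nd (nat_lit 156) (nat_lit 0) (nat_lit 76) (XT.nd (nat_lit 78) (nat_lit 1520) (nat_lit 0) (XT.lf (nat_lit 76) (nat_lit 3458582520) (nat_lit 0) (nat_lit 4943315413) (nat_lit 1520) (nat_lit 199039944) (nat_lit 580) (nat_lit 5) (nat_lit 579) (nat_lit 5) (nat_lit 599) (nat_lit 5) (nat_lit 558) (nat_lit 549) (nat_lit 453)) (XT.lf (nat_lit 0) (nat_lit 1047639967) (nat_lit 1520) (nat_lit 661749174) (nat_lit 1596) (nat_lit 6960196953) (nat_lit 559) (nat_lit 5) (nat_lit 579) (nat_lit 5) (nat_lit 580) (nat_lit 5) (nat_lit 559) (nat_lit 549) (nat_lit 452))) (XT.nd (nat_lit 78) (nat_lit 0) (nat_lit 0) (XT.lf (nat_lit 0) (nat_lit 2326041094) (nat_lit 1520) (nat_lit 4808134145)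 (nat_lit 1596) (nat_lit 1605219401) (nat_lit 560) (nat_lit 5) (nat_lit 580) (nat_lit 5) (nat_lit 581) (nat_lit 5) (nat_lit 560) (nat_lit 549) (nat_lit 451)) (XT.lf (nat_lit 0) (nat_lit 3619573470) (nat_lit 1520) (nat_lit 214058980) (nat_lit 1596) (nat_lit 4977178324) (nat_lit 560) (nat_lit 5) (nat_lit 580) (nat_lit 5) (nat_lit 581) (nat_lit 5) (nat_lit 561) (nat_lit 549) (nat_lit 450)))))) (XT.nd (nat_lit 546) (nat_lit 3116) (nat_lit 0) (XT.nd (nat_lit 234) (nat_lit 1444) (nat_lit 0) (XT.nd (nat_lit 78) (nat_lit 0) (nat_lit 76) (XT.lf (nat_lit 76) (nat_lit 4514141551) (nat_lit 0) (nat_lit 428430679) (nat_lit 1596) (nat_lit 3941013713) (nat_lit 561) (nat_lit 5) (nat_lit 560) (nat_lit 5) (nat_lit 581) (nat_lit 5) (nat_lit 562) (nat_lit 549) (nat_lit 449)) (XT.nd (nat_lit 78) (nat_lit 0) (nat_lit 0) (XT.lf (nat_lit 76) (nat_lit 349411291) (nat_lit 0) (nat_lit 5940840309) (nat_lit 1596) (nat_lit 2667603177) (nat_lit 562) (nat_lit 5) (nat_lit 561) (nat_lit 5) (nat_lit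 582) (nat_lit 5) (nat_lit 563) (nat_lit 549) (nat_lit 448)) (XT.lf (nat_lit 76) (nat_lit 5201700346) (nat_lit 0) (nat_lit 2470443872) (nat_lit 1596) (nat_lit 1361322104) (nat_lit 562) (nat_lit 5) (nat_lit 561) (nat_lit 5) (nat_lit 582) (nat_lit 5) (nat_lit 564) (nat_lit 549) (nat_lit 447)))) (XT.nd (nat_lit 156) (nat_lit 0) (nat_lit 0) (XT.nd (nat_lit 78) (nat_lit 1596) (nat_lit 0) (XT.lf (nat_lit 76) (nat_lit 1029507121) (nat_lit 0) (nat_lit 8041450687) (nat_lit 1596) (nat_lit 39849104) (nat_lit 563) (nat_lit 5) (nat_lit 562) (nat_lit 5) (nat_lit 583) (nat_lit 5) (nat_lit 565) (nat_lit 549) (nat_lit 446)) (XT.lf (nat_lit 0) (nat_lit 1309001166) (nat_lit 1596) (nat_lit 3191962584) (nat_lit 1672) (nat_lit 4688201025) (nat_lit 541) (nat_lit 5) (nat_lit 562) (nat_lit 5) (nat_lit 563) (nat_lit 5) (nat_lit 566) (nat_lit 549) (nat_lit 445))) (XT.nd (nat_lit 78) (nat_lit 0) (nat_lit 76) (XT.lf (nat_lit 76) (nat_lit 1801161969) (nat_lit 0) (nat_lit 871160237) (nat_lit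 1672) (nat_lit 6597004107) (nat_lit 542) (nat_lit 5) (nat_lit 541) (nat_lit 5) (nat_lit 563) (nat_lit 5) (nat_lit 567) (nat_lit 549) (nat_lit 444)) (XT.lf (nat_lit 0) (nat_lit 4079577591) (nat_lit 1596) (nat_lit 2449521796) (nat_lit 1672) (nat_lit 2821660625) (nat_lit 542) (nat_lit 5) (nat_lit 563) (nat_lit 5) (nat_lit 564) (nat_lit 5) (nat_lit 568) (nat_lit 549) (nat_lit 443))))) (XT.nd (nat_lit 234) (nat_lit 3192) (nat_lit 0) (XT.nd (nat_lit 78) (nat_lit 0) (nat_lit 76) (XT.lf (nat_lit 76) (nat_lit 2681488736) (nat_lit 0) (nat_lit 2833849051) (nat_lit 1672) (nat_lit 3918479644) (nat_lit 543) (nat_lit 5) (nat_lit 542) (nat_lit 5) (nat_lit 564) (nat_lit 5) (nat_lit 569) (nat_lit 549) (nat_lit 442)) (XT.nd (nat_lit 78) (nat_lit 0) (nat_lit 0) (XT.lf (nat_lit 0) (nat_lit 6979981605) (nat_lit 1596) (nat_lit 1593840264) (nat_lit 1672) (nat_lit 944712963) (nat_lit 543) (nat_lit 5) (nat_lit 564) (nat_lit 5) (nat_lit 565) (nat_lit 5) (nat_lit 570) (nat_lit 549) (nat_lit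 441)) (XT.lf (nat_lit 76) (nat_lit 3679886709) (nat_lit 0) (nat_lit 4814680623) (nat_lit 1672) (nat_lit 1109968422) (nat_lit 544) (nat_lit 5) (nat_lit 543) (nat_lit 5) (nat_lit 565) (nat_lit 5) (nat_lit 571) (nat_lit 549) (nat_lit 440)))) (XT.nd (nat_lit 156) (nat_lit 1596) (nat_lit 0) (XT.nd (nat_lit 78) (nat_lit 0) (nat_lit 76) (XT.lf (nat_lit 0) (nat_lit 331563980) (nat_lit 1672) (nat_lit 631278664) (nat_lit 1748) (nat_lit 8729592453) (nat_lit 521) (nat_lit 5) (nat_lit 543) (nat_lit 5) (nat_lit 544) (nat_lit 5) (nat_lit 572) (nat_lit 549) (nat_lit 439)) (XT.lf (nat_lit 0) (nat_lit 1816415606) (nat_lit 1672) (nat_lit 4994905112) (nat_lit 76) (nat_lit 2970039980) (nat_lit 522) (nat_lit 5) (nat_lit 544) (nat_lit 5) (nat_lit 523) (nat_lit 5) (nat_lit 573) (nat_lit 549) (nat_lit 438))) (XT.nd (nat_lit 78) (nat_lit 0) (nat_lit 0) (XT.lf (nat_lit 0) (nat_lit 430771761) (nat_lit 1672) (nat_lit 2892555382) (nat_lit 1748) (nat_lit 6548892403) (nat_lit 500) (nat_lit 5)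 (nat_lit 522) (nat_lit 5) (nat_lit 523) (nat_lit 5) (nat_lit 574) (nat_lit 549) (nat_lit 437)) (XT.lf (nat_lit 0) (nat_lit 4880535487) (nat_lit 1748) (nat_lit 3956867519) (nat_lit 76) (nat_lit 1127091345) (nat_lit 500) (nat_lit 5) (nat_lit 523) (nat_lit 5) (nat_lit 501) (nat_lit 5) (nat_lit 575) (nat_lit 549) (nat_lit 436))))))))
noncomputable def xc143 : XT := (XT.nd (nat_lit 2106) (nat_lit 9272) (nat_lit 0) (XT.nd (nat_lit 1014) (nat_lit 6840) (nat_lit 0) (XT.nd (nat_lit 468) (nat_lit 3572) (nat_lit 0) (XT.nd (nat_lit 234) (nat_lit 1140) (nat_lit 0) (XT.nd (nat_lit 78) (nat_lit 1824) (nat_lit 0) (XT.lf (nat_lit 0) (nat_lit 1621953840) (nat_lit 1748) (nat_lit 4856274342) (nat_lit 1824) (nat_lit 3580201582) (nat_lit 477) (nat_lit 5) (nat_lit 500) (nat_lit 5) (nat_lit 501) (nat_lit 5) (nat_lit 576) (nat_lit 549) (nat_lit 435)) (XT.nd (nat_lit 78) (nat_lit 1824) (nat_lit 0) (XT.lf (nat_lit 0) (nat_lit 7348536846) (nat_lit 1748) (nat_lit 765829586) (nat_lit 1824)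 (nat_lit 2039749494) (nat_lit 477) (nat_lit 5) (nat_lit 500) (nat_lit 5) (nat_lit 501) (nat_lit 5) (nat_lit 577) (nat_lit 549) (nat_lit 434)) (XT.lf (nat_lit 0) (nat_lit 2936815005) (nat_lit 1824) (nat_lit 6867945960) (nat_lit 1900) (nat_lit 446526018) (nat_lit 453) (nat_lit 5) (nat_lit 477) (nat_lit 5) (nat_lit 478) (nat_lit 5) (nat_lit 578) (nat_lit 549) (nat_lit 433)))) (XT.nd (nat_lit 78) (nat_lit 1064) (nat_lit 0) (XT.lf (nat_lit 0) (nat_lit 1167619381) (nat_lit 1900) (nat_lit 1548452539) (nat_lit 76) (nat_lit 7634087977) (nat_lit 452) (nat_lit 5) (nat_lit 477) (nat_lit 5) (nat_lit 453) (nat_lit 5) (nat_lit 579) (nat_lit 549) (nat_lit 432)) (XT.nd (nat_lit 78) (nat_lit 0) (nat_lit 0) (XT.lf (nat_lit 0) (nat_lit 2827400966) (nat_lit 1140) (nat_lit 6090926126) (nat_lit 76) (nat_lit 1532239235) (nat_lit 438) (nat_lit 5) (nat_lit 453) (nat_lit 5) (nat_lit 439) (nat_lit 5) (nat_lit 580) (nat_lit 549) (nat_lit 431)) (XT.lf (nat_lit 0) (nat_lit 4529972946) (nat_lit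 1140) (nat_lit 181540547) (nat_lit 76) (nat_lit 5841277199) (nat_lit 438) (nat_lit 5) (nat_lit 453) (nat_lit 5) (nat_lit 439) (nat_lit 5) (nat_lit 581) (nat_lit 549) (nat_lit 430))))) (XT.nd (nat_lit 234) (nat_lit 1748) (nat_lit 0) (XT.nd (nat_lit 78) (nat_lit 912) (nat_lit 0) (XT.lf (nat_lit 0) (nat_lit 5906243292) (nat_lit 912) (nat_lit 380217758) (nat_lit 988) (nat_lit 4370202865) (nat_lit 426) (nat_lit 5) (nat_lit 438) (nat_lit 5) (nat_lit 439) (nat_lit 5) (nat_lit 582) (nat_lit 549) (nat_lit 429)) (XT.nd (nat_lit 78) (nat_lit 0) (nat_lit 0) (XT.lf (nat_lit 0) (nat_lit 1329353826) (nat_lit 912) (nat_lit 6766573565) (nat_lit 988) (nat_lit 2666331876) (nat_lit 414) (nat_lit 5) (nat_lit 426) (nat_lit 5) (nat_lit 427) (nat_lit 5) (nat_lit 583) (nat_lit 549) (nat_lit 428)) (XT.lf (nat_lit 0) (nat_lit 7575169940) (nat_lit 912) (nat_lit 2382812445) (nat_lit 988) (nat_lit 911657756) (nat_lit 414) (nat_lit 5) (nat_lit 426) (nat_lit 5) (nat_lit 427) (nat_lit 5) (nat_lit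 584) (nat_lit 549) (nat_lit 427)))) (XT.nd (nat_lit 156) (nat_lit 836) (nat_lit 0) (XT.nd (nat_lit 78) (nat_lit 0) (nat_lit 0) (XT.lf (nat_lit 0) (nat_lit 881944015) (nat_lit 912) (nat_lit 8009892030) (nat_lit 76) (nat_lit 2086913088) (nat_lit 402) (nat_lit 5) (nat_lit 414) (nat_lit 5) (nat_lit 403) (nat_lit 5) (nat_lit 585) (nat_lit 549) (nat_lit 426)) (XT.lf (nat_lit 0) (nat_lit 2719749293) (nat_lit 912) (nat_lit 1726985805) (nat_lit 76) (nat_lit 6642775423) (nat_lit 402) (nat_lit 5) (nat_lit 414) (nat_lit 5) (nat_lit 403) (nat_lit 5) (nat_lit 586) (nat_lit 549) (nat_lit 425))) (XT.nd (nat_lit 78) (nat_lit 0) (nat_lit 0) (XT.lf (nat_lit 0) (nat_lit 4608603303) (nat_lit 912) (nat_lit 6476610152) (nat_lit 76) (nat_lit 116989309) (nat_lit 391) (nat_lit 5) (nat_lit 403) (nat_lit 5) (nat_lit 392) (nat_lit 5) (nat_lit 587) (nat_lit 549) (nat_lit 424)) (XT.lf (nat_lit 0) (nat_lit 6559409676) (nat_lit 912) (nat_lit 33224459) (nat_lit 76) (nat_lit 4724032661) (nat_lit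 391) (nat_lit 5) (nat_lit 403) (nat_lit 5) (nat_lit 392) (nat_lit 5) (nat_lit 588) (nat_lit 549) (nat_lit 423)))))) (XT.nd (nat_lit 546) (nat_lit 2888) (nat_lit 0) (XT.nd (nat_lit 234) (nat_lit 2204) (nat_lit 0) (XT.nd (nat_lit 78) (nat_lit 912) (nat_lit 0) (XT.lf (nat_lit 0) (nat_lit 6608629359) (nat_lit 836) (nat_lit 1966903535) (nat_lit 912) (nat_lit 2857362622) (nat_lit 380) (nat_lit 5) (nat_lit 391) (nat_lit 5) (nat_lit 392) (nat_lit 5) (nat_lit 589) (nat_lit 549) (nat_lit 422)) (XT.nd (nat_lit 78) (nat_lit 76) (nat_lit 0) (XT.lf (nat_lit 0) (nat_lit 1821058613) (nat_lit 836) (nat_lit 8824436373) (nat_lit 912) (nat_lit 905684893) (nat_lit 369) (nat_lit 5) (nat_lit 380) (nat_lit 5) (nat_lit 381) (nat_lit 5) (nat_lit 590) (nat_lit 549) (nat_lit 421)) (XT.lf (nat_lit 0) (nat_lit 1100116047) (nat_lit 912) (nat_lit 3044173642) (nat_lit 76) (nat_lit 7526814285) (nat_lit 368) (nat_lit 5) (nat_lit 380) (nat_lit 5) (nat_lit 369) (nat_lit 5) (nat_lit 591) (nat_lit 549)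 (nat_lit 420)))) (XT.nd (nat_lit 156) (nat_lit 1444) (nat_lit 0) (XT.nd (nat_lit 78) (nat_lit 0) (nat_lit 0) (XT.lf (nat_lit 0) (nat_lit 3146913316) (nat_lit 836) (nat_lit 7995103017) (nat_lit 76) (nat_lit 651031651) (nat_lit 358) (nat_lit 5) (nat_lit 369) (nat_lit 5) (nat_lit 359) (nat_lit 5) (nat_lit 592) (nat_lit 549) (nat_lit 419)) (XT.lf (nat_lit 0) (nat_lit 5266876977) (nat_lit 836) (nat_lit 1143678986) (nat_lit 76) (nat_lit 5506231592) (nat_lit 358) (nat_lit 5) (nat_lit 369) (nat_lit 5) (nat_lit 359) (nat_lit 5) (nat_lit 593) (nat_lit 549) (nat_lit 418))) (XT.nd (nat_lit 78) (nat_lit 684) (nat_lit 0) (XT.lf (nat_lit 0) (nat_lit 5905314666) (nat_lit 760) (nat_lit 1546797372) (nat_lit 836) (nat_lit 4590433700) (nat_lit 348) (nat_lit 5) (nat_lit 358) (nat_lit 5) (nat_lit 359) (nat_lit 5) (nat_lit 594) (nat_lit 549) (nat_lit 417)) (XT.lf (nat_lit 0) (nat_lit 912784758) (nat_lit 684) (nat_lit 8788801733) (nat_lit 760) (nat_lit 2468823136) (nat_lit 339) (nat_lit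 5) (nat_lit 348) (nat_lit 5) (nat_lit 349) (nat_lit 5) (nat_lit 595) (nat_lit 549) (nat_lit 416))))) (XT.nd (nat_lit 234) (nat_lit 2052) (nat_lit 0) (XT.nd (nat_lit 78) (nat_lit 836) (nat_lit 0) (XT.lf (nat_lit 0) (nat_lit 8159631586) (nat_lit 684) (nat_lit 3872683930) (nat_lit 760) (nat_lit 267791193) (nat_lit 339) (nat_lit 5) (nat_lit 348) (nat_lit 5) (nat_lit 349) (nat_lit 5) (nat_lit 596) (nat_lit 549) (nat_lit 415)) (XT.nd (nat_lit 78) (nat_lit 0) (nat_lit 0) (XT.lf (nat_lit 0) (nat_lit 1964375343) (nat_lit 836) (nat_lit 9309265566) (nat_lit 76) (nat_lit 1158240312) (nat_lit 328) (nat_lit 5) (nat_lit 339) (nat_lit 5) (nat_lit 329) (nat_lit 5) (nat_lit 597) (nat_lit 549) (nat_lit 414)) (XT.lf (nat_lit 0) (nat_lit 4276490394) (nat_lit 836) (nat_lit 2023265370) (nat_lit 76) (nat_lit 6265723384) (nat_lit 328) (nat_lit 5) (nat_lit 339) (nat_lit 5) (nat_lit 329) (nat_lit 5) (nat_lit 598) (nat_lit 549) (nat_lit 413)))) (XT.nd (nat_lit 156) (nat_lit 684) (nat_lit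 0) (XT.nd (nat_lit 78) (nat_lit 684) (nat_lit 0) (XT.lf (nat_lit 0) (nat_lit 5463423364) (nat_lit 684) (nat_lit 1192457207) (nat_lit 760) (nat_lit 6045448926) (nat_lit 319) (nat_lit 5) (nat_lit 328) (nat_lit 5) (nat_lit 329) (nat_lit 5) (nat_lit 599) (nat_lit 549) (nat_lit 412)) (XT.lf (nat_lit 0) (nat_lit 247879740) (nat_lit 684) (nat_lit 8862057403) (nat_lit 760) (nat_lit 3729419240) (nat_lit 310) (nat_lit 5) (nat_lit 319) (nat_lit 5) (nat_lit 320) (nat_lit 5) (nat_lit 600) (nat_lit 549) (nat_lit 411))) (XT.nd (nat_lit 78) (nat_lit 684) (nat_lit 0) (XT.lf (nat_lit 0) (nat_lit 7956755031) (nat_lit 684) (nat_lit 3698627558) (nat_lit 760) (nat_lit 1323916139) (nat_lit 310) (nat_lit 5) (nat_lit 319) (nat_lit 5) (nat_lit 320) (nat_lit 5) (nat_lit 601) (nat_lit 549) (nat_lit 410)) (XT.lf (nat_lit 0) (nat_lit 1128877031) (nat_lit 684) (nat_lit 10422776443) (nat_lit 76) (nat_lit 1569960863) (nat_lit 301) (nat_lit 5) (nat_lit 310) (nat_lit 5) (nat_lit 302) (nat_lit 5)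 (nat_lit 602) (nat_lit 549) (nat_lit 409))))))) (XT.nd (nat_lit 1092) (nat_lit 4408) (nat_lit 0) (XT.nd (nat_lit 546) (nat_lit 2280) (nat_lit 0) (XT.nd (nat_lit 234) (nat_lit 1900) (nat_lit 0) (XT.nd (nat_lit 78) (nat_lit 684) (nat_lit 0) (XT.lf (nat_lit 0) (nat_lit 3657661461) (nat_lit 684) (nat_lit 2673601458) (nat_lit 76) (nat_lit 6934446082) (nat_lit 301) (nat_lit 5) (nat_lit 310) (nat_lit 5) (nat_lit 302) (nat_lit 5) (nat_lit 603) (nat_lit 549) (nat_lit 408)) (XT.nd (nat_lit 78) (nat_lit 0) (nat_lit 0) (XT.lf (nat_lit 0) (nat_lit 5283435317) (nat_lit 684) (nat_lit 974384657) (nat_lit 760) (nat_lit 7154450611) (nat_lit 292) (nat_lit 5) (nat_lit 301) (nat_lit 5) (nat_lit 302) (nat_lit 5) (nat_lit 604) (nat_lit 549) (nat_lit 407)) (XT.lf (nat_lit 0) (nat_lit 8943825948) (nat_lit 760) (nat_lit 171374457) (nat_lit 76) (nat_lit 4445887087) (nat_lit 292) (nat_lit 5) (nat_lit 302) (nat_lit 5) (nat_lit 293) (nat_lit 5) (nat_lit 605) (nat_lit 549) (nat_lit 406)))) (XT.nd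 (nat_lit 156) (nat_lit 608) (nat_lit 0) (XT.nd (nat_lit 78) (nat_lit 684) (nat_lit 0) (XT.lf (nat_lit 0) (nat_lit 8027838254) (nat_lit 608) (nat_lit 3701185321) (nat_lit 684) (nat_lit 1982948688) (nat_lit 284) (nat_lit 5) (nat_lit 292) (nat_lit 5) (nat_lit 293) (nat_lit 5) (nat_lit 606) (nat_lit 549) (nat_lit 405)) (XT.lf (nat_lit 0) (nat_lit 711377273) (nat_lit 684) (nat_lit 11337700708) (nat_lit 76) (nat_lit 1816375032) (nat_lit 275) (nat_lit 5) (nat_lit 284) (nat_lit 5) (nat_lit 276) (nat_lit 5) (nat_lit 607) (nat_lit 549) (nat_lit 404))) (XT.nd (nat_lit 78) (nat_lit 608) (nat_lit 0) (XT.lf (nat_lit 0) (nat_lit 3483061409) (nat_lit 684) (nat_lit 3094638463) (nat_lit 76) (nat_lit 7443041798) (nat_lit 275) (nat_lit 5) (nat_lit 284) (nat_lit 5) (nat_lit 276) (nat_lit 5) (nat_lit 608) (nat_lit 549) (nat_lit 403)) (XT.lf (nat_lit 0) (nat_lit 5367575515) (nat_lit 608) (nat_lit 964797906) (nat_lit 684) (nat_lit 7846319678) (nat_lit 267) (nat_lit 5) (nat_lit 275) (nat_lit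 5) (nat_lit 276) (nat_lit 5) (nat_lit 609) (nat_lit 549) (nat_lit 402))))) (XT.nd (nat_lit 234) (nat_lit 1064) (nat_lit 0) (XT.nd (nat_lit 78) (nat_lit 1216) (nat_lit 0) (XT.lf (nat_lit 0) (nat_lit 9277949229) (nat_lit 684) (nat_lit 345679480) (nat_lit 76) (nat_lit 4715390163) (nat_lit 267) (nat_lit 5) (nat_lit 276) (nat_lit 5) (nat_lit 268) (nat_lit 5) (nat_lit 610) (nat_lit 549) (nat_lit 401)) (XT.nd (nat_lit 78) (nat_lit 608) (nat_lit 0) (XT.lf (nat_lit 0) (nat_lit 8376628483) (nat_lit 608) (nat_lit 3954295800) (nat_lit 684) (nat_lit 2170657973) (nat_lit 259) (nat_lit 5) (nat_lit 267) (nat_lit 5) (nat_lit 268) (nat_lit 5) (nat_lit 611) (nat_lit 549) (nat_lit 400)) (XT.lf (nat_lit 0) (nat_lit 786514070) (nat_lit 608) (nat_lit 12055062315) (nat_lit 76) (nat_lit 1825337371) (nat_lit 251) (nat_lit 5) (nat_lit 259) (nat_lit 5) (nat_lit 252) (nat_lit 5) (nat_lit 612) (nat_lit 549) (nat_lit 399)))) (XT.nd (nat_lit 156) (nat_lit 532) (nat_lit 0) (XT.nd (nat_lit 78)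 (nat_lit 532) (nat_lit 0) (XT.lf (nat_lit 0) (nat_lit 3829233967) (nat_lit 608) (nat_lit 3285228880) (nat_lit 76) (nat_lit 7719693487) (nat_lit 251) (nat_lit 5) (nat_lit 259) (nat_lit 5) (nat_lit 252) (nat_lit 5) (nat_lit 613) (nat_lit 549) (nat_lit 398)) (XT.lf (nat_lit 0) (nat_lit 5719243121) (nat_lit 532) (nat_lit 1238816991) (nat_lit 608) (nat_lit 8046179402) (nat_lit 244) (nat_lit 5) (nat_lit 251) (nat_lit 5) (nat_lit 252) (nat_lit 5) (nat_lit 614) (nat_lit 549) (nat_lit 397))) (XT.nd (nat_lit 78) (nat_lit 532) (nat_lit 0) (XT.lf (nat_lit 0) (nat_lit 10190747325) (nat_lit 608) (nat_lit 275834714) (nat_lit 76) (nat_lit 4710317396) (nat_lit 244) (nat_lit 5) (nat_lit 252) (nat_lit 5) (nat_lit 245) (nat_lit 5) (nat_lit 615) (nat_lit 549) (nat_lit 396)) (XT.lf (nat_lit 0) (nat_lit 9007883740) (nat_lit 532) (nat_lit 4535349266) (nat_lit 608) (nat_lit 1808677409) (nat_lit 237) (nat_lit 5) (nat_lit 244) (nat_lit 5) (nat_lit 245) (nat_lit 5) (nat_lit 616) (nat_lit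 549) (nat_lit 395)))))) (XT.nd (nat_lit 546) (nat_lit 2280) (nat_lit 0) (XT.nd (nat_lit 234) (nat_lit 1064) (nat_lit 0) (XT.nd (nat_lit 78) (nat_lit 456) (nat_lit 0) (XT.lf (nat_lit 0) (nat_lit 1433185584) (nat_lit 608) (nat_lit 12575465294) (nat_lit 76) (nat_lit 1521192981) (nat_lit 229) (nat_lit 5) (nat_lit 237) (nat_lit 5) (nat_lit 230) (nat_lit 5) (nat_lit 617) (nat_lit 549) (nat_lit 394)) (XT.nd (nat_lit 78) (nat_lit 456) (nat_lit 0) (XT.lf (nat_lit 0) (nat_lit 4777182321) (nat_lit 608) (nat_lit 3243745029) (nat_lit 76) (nat_lit 7688939932) (nat_lit 229) (nat_lit 5) (nat_lit 237) (nat_lit 5) (nat_lit 230) (nat_lit 5) (nat_lit 618) (nat_lit 549) (nat_lit 393)) (XT.lf (nat_lit 0) (nat_lit 6342387266) (nat_lit 456) (nat_lit 1875677103) (nat_lit 532) (nat_lit 7674827395) (nat_lit 223) (nat_lit 5) (nat_lit 229) (nat_lit 5) (nat_lit 230) (nat_lit 5) (nat_lit 619) (nat_lit 549) (nat_lit 392)))) (XT.nd (nat_lit 156) (nat_lit 532) (nat_lit 0) (XT.nd (nat_lit 78) (nat_lit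 0) (nat_lit 0) (XT.lf (nat_lit 0) (nat_lit 41454524) (nat_lit 532) (nat_lit 11725927500) (nat_lit 608) (nat_lit 4311403037) (nat_lit 216) (nat_lit 5) (nat_lit 223) (nat_lit 5) (nat_lit 224) (nat_lit 5) (nat_lit 620) (nat_lit 549) (nat_lit 391)) (XT.lf (nat_lit 0) (nat_lit 9926730744) (nat_lit 532) (nat_lit 5526420051) (nat_lit 608) (nat_lit 813936801) (nat_lit 216) (nat_lit 5) (nat_lit 223) (nat_lit 5) (nat_lit 224) (nat_lit 5) (nat_lit 621) (nat_lit 549) (nat_lit 390))) (XT.nd (nat_lit 78) (nat_lit 0) (nat_lit 0) (XT.lf (nat_lit 0) (nat_lit 2735104599) (nat_lit 532) (nat_lit 12899784561) (nat_lit 76) (nat_lit 823555355) (nat_lit 209) (nat_lit 5) (nat_lit 216) (nat_lit 5) (nat_lit 210) (nat_lit 5) (nat_lit 622) (nat_lit 549) (nat_lit 389)) (XT.lf (nat_lit 0) (nat_lit 6412930264) (nat_lit 532) (nat_lit 2968769373) (nat_lit 76) (nat_lit 7270447923) (nat_lit 209) (nat_lit 5) (nat_lit 216) (nat_lit 5) (nat_lit 210) (nat_lit 5) (nat_lit 623) (nat_lit 549) (nat_lit 388)))))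 (XT.nd (nat_lit 234) (nat_lit 1292) (nat_lit 0) (XT.nd (nat_lit 78) (nat_lit 532) (nat_lit 0) (XT.lf (nat_lit 0) (nat_lit 7240807911) (nat_lit 456) (nat_lit 2959991319) (nat_lit 532) (nat_lit 6648196320) (nat_lit 203) (nat_lit 5) (nat_lit 209) (nat_lit 5) (nat_lit 210) (nat_lit 5) (nat_lit 624) (nat_lit 549) (nat_lit 387)) (XT.nd (nat_lit 78) (nat_lit 76) (nat_lit 0) (XT.lf (nat_lit 0) (nat_lit 614957304) (nat_lit 456) (nat_lit 13486379439) (nat_lit 532) (nat_lit 2947706140) (nat_lit 197) (nat_lit 5) (nat_lit 203) (nat_lit 5) (nat_lit 204) (nat_lit 5) (nat_lit 625) (nat_lit 549) (nat_lit 386)) (XT.lf (nat_lit 0) (nat_lit 890049087) (nat_lit 532) (nat_lit 6119535709) (nat_lit 76) (nat_lit 10241917612) (nat_lit 196) (nat_lit 5) (nat_lit 203) (nat_lit 5) (nat_lit 197) (nat_lit 5) (nat_lit 626) (nat_lit 549) (nat_lit 385)))) (XT.nd (nat_lit 156) (nat_lit 836) (nat_lit 0) (XT.nd (nat_lit 78) (nat_lit 0) (nat_lit 0) (XT.lf (nat_lit 0) (nat_lit 4424972107) (nat_lit 456)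 (nat_lit 358681546) (nat_lit 532) (nat_lit 12673597075) (nat_lit 190) (nat_lit 5) (nat_lit 196) (nat_lit 5) (nat_lit 197) (nat_lit 5) (nat_lit 627) (nat_lit 549) (nat_lit 384)) (XT.lf (nat_lit 0) (nat_lit 8828055866) (nat_lit 532) (nat_lit 2459880376) (nat_lit 76) (nat_lit 6377719823) (nat_lit 190) (nat_lit 5) (nat_lit 197) (nat_lit 5) (nat_lit 191) (nat_lit 5) (nat_lit 628) (nat_lit 549) (nat_lit 383))) (XT.nd (nat_lit 78) (nat_lit 456) (nat_lit 0) (XT.lf (nat_lit 0) (nat_lit 8417357390) (nat_lit 380) (nat_lit 4583085150) (nat_lit 456) (nat_lit 4876845590) (nat_lit 185) (nat_lit 5) (nat_lit 190) (nat_lit 5) (nat_lit 191) (nat_lit 5) (nat_lit 629) (nat_lit 549) (nat_lit 382)) (XT.lf (nat_lit 0) (nat_lit 1442120750) (nat_lit 456) (nat_lit 15844922171) (nat_lit 532) (nat_lit 805495133) (nat_lit 179) (nat_lit 5) (nat_lit 185) (nat_lit 5) (nat_lit 186) (nat_lit 5) (nat_lit 630) (nat_lit 549) (nat_lit 381))))))))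
noncomputable def xc144 : XT := (XT.nd (nat_lit 2106) (nat_lit 836) (nat_lit 0) (XT.nd (nat_lit 1014) (nat_lit 2584) (nat_lit 0) (XT.nd (nat_lit 468) (nat_lit 1976) (nat_lit 0) (XT.nd (nat_lit 234) (nat_lit 836) (nat_lit 0) (XT.nd (nat_lit 78) (nat_lit 380) (nat_lit 0) (XT.lf (nat_lit 0) (nat_lit 3387808361) (nat_lit 532) (nat_lit 5687615973) (nat_lit 76) (nat_lit 9234545982) (nat_lit 178) (nat_lit 5) (nat_lit 185) (nat_lit 5) (nat_lit 179) (nat_lit 5) (nat_lit 631) (nat_lit 549) (nat_lit 380)) (XT.nd (nat_lit 78) (nat_lit 0) (nat_lit 0) (XT.lf (nat_lit 0) (nat_lit 5547418251) (nat_lit 380) (nat_lit 2133167543) (nat_lit 456) (nat_lit 10850531581) (nat_lit 173) (nat_lit 5) (nat_lit 178) (nat_lit 5) (nat_lit 179) (nat_lit 5) (nat_lit 632) (nat_lit 549) (nat_lit 379)) (XT.lf (nat_lit 0) (nat_lit 12120194061) (nat_lit 456) (nat_lit 1718560901) (nat_lit 76) (nat_lit 4916713406) (nat_lit 173) (nat_lit 5) (nat_lit 179) (nat_lit 5) (nat_lit 174) (nat_lit 5) (nat_lit 633)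 (nat_lit 549) (nat_lit 378)))) (XT.nd (nat_lit 78) (nat_lit 456) (nat_lit 0) (XT.lf (nat_lit 0) (nat_lit 9873014886) (nat_lit 380) (nat_lit 6844426699) (nat_lit 456) (nat_lit 2265488342) (nat_lit 168) (nat_lit 5) (nat_lit 173) (nat_lit 5) (nat_lit 174) (nat_lit 5) (nat_lit 634) (nat_lit 549) (nat_lit 377)) (XT.nd (nat_lit 78) (nat_lit 0) (nat_lit 0) (XT.lf (nat_lit 0) (nat_lit 2183627000) (nat_lit 456) (nat_lit 16707058043) (nat_lit 76) (nat_lit 323557983) (nat_lit 162) (nat_lit 5) (nat_lit 168) (nat_lit 5) (nat_lit 163) (nat_lit 5) (nat_lit 635) (nat_lit 549) (nat_lit 376)) (XT.lf (nat_lit 0) (nat_lit 6788990429) (nat_lit 456) (nat_lit 5043896697) (nat_lit 76) (nat_lit 7615044209) (nat_lit 162) (nat_lit 5) (nat_lit 168) (nat_lit 5) (nat_lit 163) (nat_lit 5) (nat_lit 636) (nat_lit 549) (nat_lit 375))))) (XT.nd (nat_lit 234) (nat_lit 1140) (nat_lit 0) (XT.nd (nat_lit 78) (nat_lit 456) (nat_lit 0) (XT.lf (nat_lit 0) (nat_lit 6929372696) (nat_lit 380) (nat_lit 4592968521)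 (nat_lit 456) (nat_lit 8163235043) (nat_lit 157) (nat_lit 5) (nat_lit 162) (nat_lit 5) (nat_lit 163) (nat_lit 5) (nat_lit 637) (nat_lit 549) (nat_lit 374)) (XT.nd (nat_lit 78) (nat_lit 456) (nat_lit 0) (XT.lf (nat_lit 0) (nat_lit 16393502418) (nat_lit 456) (nat_lit 749260092) (nat_lit 76) (nat_lit 2784349148) (nat_lit 157) (nat_lit 5) (nat_lit 163) (nat_lit 5) (nat_lit 158) (nat_lit 5) (nat_lit 638) (nat_lit 549) (nat_lit 373)) (XT.lf (nat_lit 0) (nat_lit 1270554765) (nat_lit 456) (nat_lit 8574097257) (nat_lit 76) (nat_lit 10326721131) (nat_lit 151) (nat_lit 5) (nat_lit 157) (nat_lit 5) (nat_lit 152) (nat_lit 5) (nat_lit 639) (nat_lit 549) (nat_lit 372)))) (XT.nd (nat_lit 156) (nat_lit 760) (nat_lit 0) (XT.nd (nat_lit 78) (nat_lit 0) (nat_lit 0) (XT.lf (nat_lit 0) (nat_lit 3792947640) (nat_lit 380) (nat_lit 2351421152) (nat_lit 456) (nat_lit 14275266725) (nat_lit 146) (nat_lit 5) (nat_lit 151) (nat_lit 5) (nat_lit 152) (nat_lit 5) (nat_lit 640) (nat_lit 549) (nat_lit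 371)) (XT.lf (nat_lit 0) (nat_lit 11199135760) (nat_lit 456) (nat_lit 4196787765) (nat_lit 76) (nat_lit 5275270478) (nat_lit 146) (nat_lit 5) (nat_lit 152) (nat_lit 5) (nat_lit 147) (nat_lit 5) (nat_lit 641) (nat_lit 549) (nat_lit 370))) (XT.nd (nat_lit 78) (nat_lit 456) (nat_lit 0) (XT.lf (nat_lit 0) (nat_lit 8564845102) (nat_lit 304) (nat_lit 7852708314) (nat_lit 380) (nat_lit 4508979536) (nat_lit 142) (nat_lit 5) (nat_lit 146) (nat_lit 5) (nat_lit 147) (nat_lit 5) (nat_lit 642) (nat_lit 549) (nat_lit 369)) (XT.lf (nat_lit 0) (nat_lit 440534684) (nat_lit 380) (nat_lit 128176703) (nat_lit 456) (nat_lit 20617743661) (nat_lit 136) (nat_lit 5) (nat_lit 141) (nat_lit 5) (nat_lit 142) (nat_lit 5) (nat_lit 643) (nat_lit 549) (nat_lit 368)))))) (XT.nd (nat_lit 546) (nat_lit 1292) (nat_lit 0) (XT.nd (nat_lit 234) (nat_lit 988) (nat_lit 0) (XT.nd (nat_lit 78) (nat_lit 304) (nat_lit 0) (XT.lf (nat_lit 0) (nat_lit 5812910341) (nat_lit 456) (nat_lit 7877978477) (nat_lit 76)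 (nat_lit 7757584470) (nat_lit 136) (nat_lit 5) (nat_lit 142) (nat_lit 5) (nat_lit 137) (nat_lit 5) (nat_lit 644) (nat_lit 549) (nat_lit 367)) (XT.nd (nat_lit 78) (nat_lit 0) (nat_lit 0) (XT.lf (nat_lit 0) (nat_lit 5302590591) (nat_lit 304) (nat_lit 5886293771) (nat_lit 380) (nat_lit 10526310078) (nat_lit 132) (nat_lit 5) (nat_lit 136) (nat_lit 5) (nat_lit 137) (nat_lit 5) (nat_lit 645) (nat_lit 549) (nat_lit 366)) (XT.lf (nat_lit 0) (nat_lit 16730721142) (nat_lit 380) (nat_lit 3159924786) (nat_lit 76) (nat_lit 2095437584) (nat_lit 132) (nat_lit 5) (nat_lit 137) (nat_lit 5) (nat_lit 133) (nat_lit 5) (nat_lit 646) (nat_lit 549) (nat_lit 365)))) (XT.nd (nat_lit 156) (nat_lit 304) (nat_lit 0) (XT.nd (nat_lit 78) (nat_lit 304) (nat_lit 0) (XT.lf (nat_lit 0) (nat_lit 218675148) (nat_lit 380) (nat_lit 11819283844) (nat_lit 76) (nat_lit 10222430853) (nat_lit 127) (nat_lit 5) (nat_lit 132) (nat_lit 5) (nat_lit 128) (nat_lit 5) (nat_lit 647) (nat_lit 549) (nat_lit 364))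 (XT.lf (nat_lit 0) (nat_lit 1792568097) (nat_lit 304) (nat_lit 3964149664) (nat_lit 380) (nat_lit 16782272254) (nat_lit 123) (nat_lit 5) (nat_lit 127) (nat_lit 5) (nat_lit 128) (nat_lit 5) (nat_lit 648) (nat_lit 549) (nat_lit 363))) (XT.nd (nat_lit 78) (nat_lit 304) (nat_lit 0) (XT.lf (nat_lit 0) (nat_lit 11504976998) (nat_lit 380) (nat_lit 7026234101) (nat_lit 76) (nat_lit 4289962308) (nat_lit 123) (nat_lit 5) (nat_lit 128) (nat_lit 5) (nat_lit 124) (nat_lit 5) (nat_lit 649) (nat_lit 549) (nat_lit 362)) (XT.lf (nat_lit 0) (nat_lit 7021176599) (nat_lit 304) (nat_lit 10410908557) (nat_lit 380) (nat_lit 5675637964) (nat_lit 119) (nat_lit 5) (nat_lit 123) (nat_lit 5) (nat_lit 124) (nat_lit 5) (nat_lit 650) (nat_lit 549) (nat_lit 361))))) (XT.nd (nat_lit 234) (nat_lit 608) (nat_lit 0) (XT.nd (nat_lit 78) (nat_lit 608) (nat_lit 0) (XT.lf (nat_lit 0) (nat_lit 116238648) (nat_lit 380) (nat_lit 1968132190) (nat_lit 76) (nat_lit 21314832684) (nat_lit 118) (nat_lit 5) (nat_lit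 123) (nat_lit 5) (nat_lit 119) (nat_lit 5) (nat_lit 651) (nat_lit 549) (nat_lit 360)) (XT.nd (nat_lit 78) (nat_lit 304) (nat_lit 0) (XT.lf (nat_lit 0) (nat_lit 6064075014) (nat_lit 380) (nat_lit 11189813287) (nat_lit 76) (nat_lit 6439552840) (nat_lit 114) (nat_lit 5) (nat_lit 119) (nat_lit 5) (nat_lit 115) (nat_lit 5) (nat_lit 652) (nat_lit 549) (nat_lit 359)) (XT.lf (nat_lit 0) (nat_lit 3314972560) (nat_lit 304) (nat_lit 8856774865) (nat_lit 380) (nat_lit 11820998805) (nat_lit 110) (nat_lit 5) (nat_lit 114) (nat_lit 5) (nat_lit 115) (nat_lit 5) (nat_lit 653) (nat_lit 549) (nat_lit 358)))) (XT.nd (nat_lit 156) (nat_lit 304) (nat_lit 0) (XT.nd (nat_lit 78) (nat_lit 304) (nat_lit 0) (XT.lf (nat_lit 0) (nat_lit 18248804360) (nat_lit 304) (nat_lit 220185479) (nat_lit 380) (nat_lit 5827699548) (nat_lit 110) (nat_lit 5) (nat_lit 114) (nat_lit 5) (nat_lit 115) (nat_lit 5) (nat_lit 654) (nat_lit 549) (nat_lit 357)) (XT.lf (nat_lit 0) (nat_lit 388571836) (nat_lit 304) (nat_lit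 15683879445) (nat_lit 76) (nat_lit 8532086341) (nat_lit 106) (nat_lit 5) (nat_lit 110) (nat_lit 5) (nat_lit 107) (nat_lit 5) (nat_lit 655) (nat_lit 549) (nat_lit 356))) (XT.nd (nat_lit 78) (nat_lit 304) (nat_lit 0) (XT.lf (nat_lit 0) (nat_lit 6685982409) (nat_lit 304) (nat_lit 700116321) (nat_lit 76) (nat_lit 17530977018) (nat_lit 106) (nat_lit 5) (nat_lit 110) (nat_lit 5) (nat_lit 107) (nat_lit 5) (nat_lit 656) (nat_lit 549) (nat_lit 355)) (XT.lf (nat_lit 0) (nat_lit 13207985365) (nat_lit 380) (nat_lit 10479675425) (nat_lit 76) (nat_lit 1546231238) (nat_lit 102) (nat_lit 5) (nat_lit 107) (nat_lit 5) (nat_lit 103) (nat_lit 5) (nat_lit 657) (nat_lit 549) (nat_lit 354))))))) (XT.nd (nat_lit 73476) (nat_lit 0) (nat_lit 32680) (XT.nd (nat_lit 72930) (nat_lit 0) (nat_lit 35492) (XT.nd (nat_lit 234) (nat_lit 228) (nat_lit 0) (XT.nd (nat_lit 78) (nat_lit 380) (nat_lit 0) (XT.lf (nat_lit 0) (nat_lit 4974062949) (nat_lit 228) (nat_lit 14964947129) (nat_lit 304) (nat_lit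 5616463191) (nat_lit 99) (nat_lit 5) (nat_lit 102) (nat_lit 5) (nat_lit 103) (nat_lit 5) (nat_lit 658) (nat_lit 549) (nat_lit 353)) (XT.nd (nat_lit 78) (nat_lit 304) (nat_lit 0) (XT.lf (nat_lit 0) (nat_lit 972536371) (nat_lit 304) (nat_lit 5022014474) (nat_lit 76) (nat_lit 19887546961) (nat_lit 98) (nat_lit 5) (nat_lit 102) (nat_lit 5) (nat_lit 99) (nat_lit 5) (nat_lit 659) (nat_lit 549) (nat_lit 352)) (XT.lf (nat_lit 0) (nat_lit 7703202261) (nat_lit 380) (nat_lit 15291690462) (nat_lit 76) (nat_lit 3217918054) (nat_lit 94) (nat_lit 5) (nat_lit 99) (nat_lit 5) (nat_lit 95) (nat_lit 5) (nat_lit 660) (nat_lit 549) (nat_lit 351)))) (XT.nd (nat_lit 72540) (nat_lit 0) (nat_lit 36860) (XT.lf (nat_lit 0) (nat_lit 658232949) (nat_lit 228) (nat_lit 13980977750) (nat_lit 304) (nat_lit 11909512971) (nat_lit 91) (nat_lit 5) (nat_lit 94) (nat_lit 5) (nat_lit 95) (nat_lit 5) (nat_lit 661) (nat_lit 549) (nat_lit 350)) (XT.nd (nat_lit 78) (nat_lit 1444) (nat_lit 0) (XT.lf (nat_lit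 0) (nat_lit 3849251723) (nat_lit 1444) (nat_lit 115182155) (nat_lit 1444) (nat_lit 115182155) (nat_lit 595) (nat_lit 3) (nat_lit 614) (nat_lit 3) (nat_lit 614) (nat_lit 5) (nat_lit 550) (nat_lit 550) (nat_lit 460)) (XT.lf (nat_lit 0) (nat_lit 716344744) (nat_lit 1444) (nat_lit 4366136341) (nat_lit 1520) (nat_lit 3134770059) (nat_lit 576) (nat_lit 5) (nat_lit 595) (nat_lit 3) (nat_lit 596) (nat_lit 5) (nat_lit 551) (nat_lit 550) (nat_lit 459))))) (XT.nd (nat_lit 234) (nat_lit 1368) (nat_lit 0) (XT.nd (nat_lit 78) (nat_lit 0) (nat_lit 76) (XT.lf (nat_lit 0) (nat_lit 1882076251) (nat_lit 1444) (nat_lit 278011583) (nat_lit 1520) (nat_lit 6116859348) (nat_lit 576) (nat_lit 5) (nat_lit 595) (nat_lit 3) (nat_lit 596) (nat_lit 5) (nat_lit 552) (nat_lit 550) (nat_lit 458)) (XT.nd (nat_lit 78) (nat_lit 0) (nat_lit 0) (XT.lf (nat_lit 0) (nat_lit 3072531203) (nat_lit 1444) (nat_lit 4415708575) (nat_lit 1520) (nat_lit 849572327) (nat_lit 577) (nat_lit 5) (nat_lit 596) (nat_lit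 5) (nat_lit 597) (nat_lit 5) (nat_lit 553) (nat_lit 550) (nat_lit 457)) (XT.lf (nat_lit 0) (nat_lit 4273866594) (nat_lit 1444) (nat_lit 220343681) (nat_lit 1520) (nat_lit 3905945703) (nat_lit 577) (nat_lit 5) (nat_lit 596) (nat_lit 5) (nat_lit 597) (nat_lit 5) (nat_lit 554) (nat_lit 550) (nat_lit 456)))) (XT.nd (nat_lit 156) (nat_lit 1444) (nat_lit 0) (XT.nd (nat_lit 78) (nat_lit 0) (nat_lit 76) (XT.lf (nat_lit 76) (nat_lit 4096817280) (nat_lit 0) (nat_lit 1400469653) (nat_lit 1520) (nat_lit 2966501649) (nat_lit 578) (nat_lit 5) (nat_lit 577) (nat_lit 5) (nat_lit 597) (nat_lit 5) (nat_lit 555) (nat_lit 550) (nat_lit 455)) (XT.lf (nat_lit 0) (nat_lit 6730056257) (nat_lit 1444) (nat_lit 53143644) (nat_lit 1520) (nat_lit 1745799285) (nat_lit 578) (nat_lit 5) (nat_lit 597) (nat_lit 5) (nat_lit 598) (nat_lit 5) (nat_lit 556) (nat_lit 550) (nat_lit 454))) (XT.nd (nat_lit 78) (nat_lit 1520) (nat_lit 0) (XT.lf (nat_lit 76) (nat_lit 4379056981) (nat_lit 0) (nat_lit 3618676041)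 (nat_lit 1520) (nat_lit 597578839) (nat_lit 579) (nat_lit 5) (nat_lit 578) (nat_lit 5) (nat_lit 598) (nat_lit 5) (nat_lit 557) (nat_lit 550) (nat_lit 453)) (XT.lf (nat_lit 76) (nat_lit 220167651) (nat_lit 0) (nat_lit 373998126) (nat_lit 1596) (nat_lit 8069214537) (nat_lit 559) (nat_lit 5) (nat_lit 558) (nat_lit 5) (nat_lit 579) (nat_lit 5) (nat_lit 558) (nat_lit 550) (nat_lit 452)))))) (XT.nd (nat_lit 546) (nat_lit 1444) (nat_lit 0) (XT.nd (nat_lit 234) (nat_lit 1444) (nat_lit 0) (XT.nd (nat_lit 78) (nat_lit 0) (nat_lit 0) (XT.lf (nat_lit 0) (nat_lit 1822586866) (nat_lit 1520) (nat_lit 3969796816) (nat_lit 1596) (nat_lit 2939933324) (nat_lit 559) (nat_lit 5) (nat_lit 579) (nat_lit 5) (nat_lit 580) (nat_lit 5) (nat_lit 559) (nat_lit 550) (nat_lit 451)) (XT.nd (nat_lit 78) (nat_lit 0) (nat_lit 76) (XT.lf (nat_lit 76) (nat_lit 581751006) (nat_lit 0) (nat_lit 2473898241) (nat_lit 1596) (nat_lit 5747384406) (nat_lit 560) (nat_lit 5) (nat_lit 559) (nat_lit 5) (nat_lit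 580) (nat_lit 5) (nat_lit 560) (nat_lit 550) (nat_lit 450)) (XT.lf (nat_lit 0) (nat_lit 4320390195) (nat_lit 1520) (nat_lit 3619541293) (nat_lit 1596) (nat_lit 935095428) (nat_lit 560) (nat_lit 5) (nat_lit 580) (nat_lit 5) (nat_lit 581) (nat_lit 5) (nat_lit 561) (nat_lit 550) (nat_lit 449)))) (XT.nd (nat_lit 156) (nat_lit 1520) (nat_lit 0) (XT.nd (nat_lit 78) (nat_lit 0) (nat_lit 0) (XT.lf (nat_lit 76) (nat_lit 1055061410) (nat_lit 0) (nat_lit 4553389256) (nat_lit 1596) (nat_lit 3340051461) (nat_lit 561) (nat_lit 5) (nat_lit 560) (nat_lit 5) (nat_lit 581) (nat_lit 5) (nat_lit 562) (nat_lit 550) (nat_lit 448)) (XT.lf (nat_lit 76) (nat_lit 5855702025) (nat_lit 0) (nat_lit 1066037507) (nat_lit 1596) (nat_lit 2101720490) (nat_lit 561) (nat_lit 5) (nat_lit 560) (nat_lit 5) (nat_lit 581) (nat_lit 5) (nat_lit 563) (nat_lit 550) (nat_lit 447))) (XT.nd (nat_lit 78) (nat_lit 1596) (nat_lit 0) (XT.lf (nat_lit 76) (nat_lit 1641051305) (nat_lit 0) (nat_lit 6622789006) (nat_lit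 1596) (nat_lit 836028318) (nat_lit 562) (nat_lit 5) (nat_lit 561) (nat_lit 5) (nat_lit 582) (nat_lit 5) (nat_lit 564) (nat_lit 550) (nat_lit 446)) (XT.lf (nat_lit 0) (nat_lit 453393661) (nat_lit 1596) (nat_lit 2615506667) (nat_lit 1672) (nat_lit 6108760719) (nat_lit 540) (nat_lit 5) (nat_lit 561) (nat_lit 5) (nat_lit 562) (nat_lit 5) (nat_lit 565) (nat_lit 550) (nat_lit 445))))) (XT.nd (nat_lit 234) (nat_lit 1520) (nat_lit 0) (XT.nd (nat_lit 78) (nat_lit 0) (nat_lit 0) (XT.lf (nat_lit 0) (nat_lit 1752758150) (nat_lit 1596) (nat_lit 6927745895) (nat_lit 1672) (nat_lit 576490109) (nat_lit 541) (nat_lit 5) (nat_lit 562) (nat_lit 5) (nat_lit 563) (nat_lit 5) (nat_lit 566) (nat_lit 550) (nat_lit 444)) (XT.nd (nat_lit 78) (nat_lit 0) (nat_lit 0) (XT.lf (nat_lit 0) (nat_lit 3092898009) (nat_lit 1596) (nat_lit 1966668511) (nat_lit 1672) (nat_lit 4278053928) (nat_lit 541) (nat_lit 5) (nat_lit 562) (nat_lit 5) (nat_lit 563) (nat_lit 5) (nat_lit 567) (nat_lit 550) (nat_lit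 443)) (XT.lf (nat_lit 76) (nat_lit 3117837392) (nat_lit 0) (nat_lit 1339497885) (nat_lit 1672) (nat_lit 4962576341) (nat_lit 542) (nat_lit 5) (nat_lit 541) (nat_lit 5) (nat_lit 563) (nat_lit 5) (nat_lit 568) (nat_lit 550) (nat_lit 442)))) (XT.nd (nat_lit 156) (nat_lit 1596) (nat_lit 0) (XT.nd (nat_lit 78) (nat_lit 0) (nat_lit 0) (XT.lf (nat_lit 0) (nat_lit 5855913252) (nat_lit 1596) (nat_lit 1205981799) (nat_lit 1672) (nat_lit 2441818721) (nat_lit 542) (nat_lit 5) (nat_lit 563) (nat_lit 5) (nat_lit 564) (nat_lit 5) (nat_lit 569) (nat_lit 550) (nat_lit 441)) (XT.lf (nat_lit 76) (nat_lit 4019145453) (nat_lit 0) (nat_lit 3276349678) (nat_lit 1672) (nat_lit 2293438346) (nat_lit 543) (nat_lit 5) (nat_lit 542) (nat_lit 5) (nat_lit 564) (nat_lit 5) (nat_lit 570) (nat_lit 550) (nat_lit 440))) (XT.nd (nat_lit 78) (nat_lit 1672) (nat_lit 0) (XT.lf (nat_lit 0) (nat_lit 8754233751) (nat_lit 1596) (nat_lit 331508963) (nat_lit 1672) (nat_lit 590309674) (nat_lit 543) (nat_lit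 5) (nat_lit 564) (nat_lit 5) (nat_lit 565) (nat_lit 5) (nat_lit 571) (nat_lit 550) (nat_lit 439)) (XT.lf (nat_lit 0) (nat_lit 504452295) (nat_lit 1672) (nat_lit 4728391300) (nat_lit 1748) (nat_lit 4531340587) (nat_lit 521) (nat_lit 5) (nat_lit 543) (nat_lit 5) (nat_lit 544) (nat_lit 5) (nat_lit 572) (nat_lit 550) (nat_lit 438))))))))
noncomputable def xc145 : XT := (XT.nd (nat_lit 2106) (nat_lit 9956) (nat_lit 0) (XT.nd (nat_lit 1014) (nat_lit 6460) (nat_lit 0) (XT.nd (nat_lit 468) (nat_lit 4864) (nat_lit 0) (XT.nd (nat_lit 234) (nat_lit 1748) (nat_lit 0) (XT.nd (nat_lit 78) (nat_lit 1596) (nat_lit 0) (XT.lf (nat_lit 76) (nat_lit 646337241) (nat_lit 0) (nat_lit 1286026530) (nat_lit 1748) (nat_lit 7921885802) (nat_lit 522) (nat_lit 5) (nat_lit 521) (nat_lit 5) (nat_lit 544) (nat_lit 5) (nat_lit 573) (nat_lit 550) (nat_lit 437)) (XT.nd (nat_lit 78) (nat_lit 1672) (nat_lit 0) (XT.lf (nat_lit 0) (nat_lit 3417900272) (nat_lit 1672) (nat_lit 3788074961) (nat_lit 76)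 (nat_lit 2739561654) (nat_lit 522) (nat_lit 5) (nat_lit 544) (nat_lit 5) (nat_lit 523) (nat_lit 5) (nat_lit 574) (nat_lit 550) (nat_lit 436)) (XT.lf (nat_lit 0) (nat_lit 1737518554) (nat_lit 1672) (nat_lit 3195170476) (nat_lit 1748) (nat_lit 5105972002) (nat_lit 500) (nat_lit 5) (nat_lit 522) (nat_lit 5) (nat_lit 523) (nat_lit 5) (nat_lit 575) (nat_lit 550) (nat_lit 435)))) (XT.nd (nat_lit 78) (nat_lit 1748) (nat_lit 0) (XT.lf (nat_lit 0) (nat_lit 6489230681) (nat_lit 1748) (nat_lit 2731374053) (nat_lit 76) (nat_lit 912815660) (nat_lit 500) (nat_lit 5) (nat_lit 523) (nat_lit 5) (nat_lit 501) (nat_lit 5) (nat_lit 576) (nat_lit 550) (nat_lit 434)) (XT.nd (nat_lit 78) (nat_lit 0) (nat_lit 0) (XT.lf (nat_lit 0) (nat_lit 2950440635) (nat_lit 1748) (nat_lit 5147222288) (nat_lit 1824) (nat_lit 2131998664) (nat_lit 477) (nat_lit 5) (nat_lit 500) (nat_lit 5) (nat_lit 501) (nat_lit 5) (nat_lit 577) (nat_lit 550) (nat_lit 433)) (XT.lf (nat_lit 0) (nat_lit 8766142601) (nat_lit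 1748) (nat_lit 971168197) (nat_lit 1824) (nat_lit 590537671) (nat_lit 477) (nat_lit 5) (nat_lit 500) (nat_lit 5) (nat_lit 501) (nat_lit 5) (nat_lit 578) (nat_lit 550) (nat_lit 432))))) (XT.nd (nat_lit 234) (nat_lit 1900) (nat_lit 0) (XT.nd (nat_lit 78) (nat_lit 1064) (nat_lit 0) (XT.lf (nat_lit 0) (nat_lit 999380118) (nat_lit 1900) (nat_lit 6145760437) (nat_lit 76) (nat_lit 3282122715) (nat_lit 452) (nat_lit 5) (nat_lit 477) (nat_lit 5) (nat_lit 453) (nat_lit 5) (nat_lit 579) (nat_lit 550) (nat_lit 431)) (XT.nd (nat_lit 78) (nat_lit 1064) (nat_lit 0) (XT.lf (nat_lit 0) (nat_lit 2611425947) (nat_lit 1900) (nat_lit 293104086) (nat_lit 76) (nat_lit 7624095224) (nat_lit 452) (nat_lit 5) (nat_lit 477) (nat_lit 5) (nat_lit 453) (nat_lit 5) (nat_lit 580) (nat_lit 550) (nat_lit 430)) (XT.lf (nat_lit 0) (nat_lit 4284048920) (nat_lit 1140) (nat_lit 4905946671) (nat_lit 76) (nat_lit 1441453834) (nat_lit 438) (nat_lit 5) (nat_lit 453) (nat_lit 5) (nat_lit 439) (nat_lit 5)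 (nat_lit 581) (nat_lit 550) (nat_lit 429)))) (XT.nd (nat_lit 156) (nat_lit 988) (nat_lit 0) (XT.nd (nat_lit 78) (nat_lit 0) (nat_lit 0) (XT.lf (nat_lit 0) (nat_lit 1110568434) (nat_lit 912) (nat_lit 4889861512) (nat_lit 988) (nat_lit 4735695654) (nat_lit 426) (nat_lit 5) (nat_lit 438) (nat_lit 5) (nat_lit 439) (nat_lit 5) (nat_lit 582) (nat_lit 550) (nat_lit 428)) (XT.lf (nat_lit 0) (nat_lit 7297113866) (nat_lit 912) (nat_lit 469072262) (nat_lit 988) (nat_lit 3076409820) (nat_lit 426) (nat_lit 5) (nat_lit 438) (nat_lit 5) (nat_lit 439) (nat_lit 5) (nat_lit 583) (nat_lit 550) (nat_lit 427))) (XT.nd (nat_lit 78) (nat_lit 76) (nat_lit 0) (XT.lf (nat_lit 0) (nat_lit 2647859632) (nat_lit 912) (nat_lit 6945304032) (nat_lit 988) (nat_lit 1357515484) (nat_lit 414) (nat_lit 5) (nat_lit 426) (nat_lit 5) (nat_lit 427) (nat_lit 5) (nat_lit 584) (nat_lit 550) (nat_lit 426)) (XT.lf (nat_lit 0) (nat_lit 400224655) (nat_lit 988) (nat_lit 2070106356) (nat_lit 76) (nat_lit 8590349955)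 (nat_lit 413) (nat_lit 5) (nat_lit 426) (nat_lit 5) (nat_lit 414) (nat_lit 5) (nat_lit 585) (nat_lit 550) (nat_lit 425)))))) (XT.nd (nat_lit 546) (nat_lit 3040) (nat_lit 0) (XT.nd (nat_lit 234) (nat_lit 1748) (nat_lit 0) (XT.nd (nat_lit 78) (nat_lit 836) (nat_lit 0) (XT.lf (nat_lit 0) (nat_lit 2199784652) (nat_lit 912) (nat_lit 6868043877) (nat_lit 76) (nat_lit 2104379464) (nat_lit 402) (nat_lit 5) (nat_lit 414) (nat_lit 5) (nat_lit 403) (nat_lit 5) (nat_lit 586) (nat_lit 550) (nat_lit 424)) (XT.nd (nat_lit 78) (nat_lit 836) (nat_lit 0) (XT.lf (nat_lit 0) (nat_lit 4048851883) (nat_lit 912) (nat_lit 485009841) (nat_lit 76) (nat_lit 6751834965) (nat_lit 402) (nat_lit 5) (nat_lit 414) (nat_lit 5) (nat_lit 403) (nat_lit 5) (nat_lit 587) (nat_lit 550) (nat_lit 423)) (XT.lf (nat_lit 0) (nat_lit 5958788202) (nat_lit 912) (nat_lit 5312824167) (nat_lit 76) (nat_lit 129366457) (nat_lit 391) (nat_lit 5) (nat_lit 403) (nat_lit 5) (nat_lit 392) (nat_lit 5) (nat_lit 588) (nat_lit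 550) (nat_lit 422)))) (XT.nd (nat_lit 156) (nat_lit 912) (nat_lit 0) (XT.nd (nat_lit 78) (nat_lit 0) (nat_lit 0) (XT.lf (nat_lit 0) (nat_lit 1250470200) (nat_lit 836) (nat_lit 6681592467) (nat_lit 912) (nat_lit 3586002546) (nat_lit 380) (nat_lit 5) (nat_lit 391) (nat_lit 5) (nat_lit 392) (nat_lit 5) (nat_lit 589) (nat_lit 550) (nat_lit 421)) (XT.lf (nat_lit 0) (nat_lit 8000419119) (nat_lit 836) (nat_lit 1963965366) (nat_lit 912) (nat_lit 1672718572) (nat_lit 380) (nat_lit 5) (nat_lit 391) (nat_lit 5) (nat_lit 392) (nat_lit 5) (nat_lit 590) (nat_lit 550) (nat_lit 420))) (XT.nd (nat_lit 78) (nat_lit 0) (nat_lit 0) (XT.lf (nat_lit 0) (nat_lit 298398792) (nat_lit 912) (nat_lit 8627197849) (nat_lit 76) (nat_lit 2832425631) (nat_lit 368) (nat_lit 5) (nat_lit 380) (nat_lit 5) (nat_lit 369) (nat_lit 5) (nat_lit 591) (nat_lit 550) (nat_lit 419)) (XT.lf (nat_lit 0) (nat_lit 2308472877) (nat_lit 912) (nat_lit 1838853262) (nat_lit 76) (nat_lit 7733375245) (nat_lit 368) (nat_lit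 5) (nat_lit 380) (nat_lit 5) (nat_lit 369) (nat_lit 5) (nat_lit 592) (nat_lit 550) (nat_lit 418))))) (XT.nd (nat_lit 234) (nat_lit 1520) (nat_lit 0) (XT.nd (nat_lit 78) (nat_lit 760) (nat_lit 0) (XT.lf (nat_lit 0) (nat_lit 4381673543) (nat_lit 836) (nat_lit 6874173011) (nat_lit 76) (nat_lit 749530286) (nat_lit 358) (nat_lit 5) (nat_lit 369) (nat_lit 5) (nat_lit 359) (nat_lit 5) (nat_lit 593) (nat_lit 550) (nat_lit 417)) (XT.nd (nat_lit 78) (nat_lit 0) (nat_lit 0) (XT.lf (nat_lit 0) (nat_lit 90350103) (nat_lit 760) (nat_lit 6431296084) (nat_lit 836) (nat_lit 5610394695) (nat_lit 348) (nat_lit 5) (nat_lit 358) (nat_lit 5) (nat_lit 359) (nat_lit 5) (nat_lit 594) (nat_lit 550) (nat_lit 416)) (XT.lf (nat_lit 0) (nat_lit 7270877372) (nat_lit 760) (nat_lit 1464694907) (nat_lit 836) (nat_lit 3525044063) (nat_lit 348) (nat_lit 5) (nat_lit 358) (nat_lit 5) (nat_lit 359) (nat_lit 5) (nat_lit 595) (nat_lit 550) (nat_lit 415)))) (XT.nd (nat_lit 156) (nat_lit 760) (nat_lit 0)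 (XT.nd (nat_lit 78) (nat_lit 76) (nat_lit 0) (XT.lf (nat_lit 0) (nat_lit 2192191264) (nat_lit 684) (nat_lit 8824509224) (nat_lit 760) (nat_lit 1374605538) (nat_lit 339) (nat_lit 5) (nat_lit 348) (nat_lit 5) (nat_lit 349) (nat_lit 5) (nat_lit 596) (nat_lit 550) (nat_lit 414)) (XT.lf (nat_lit 0) (nat_lit 836901648) (nat_lit 760) (nat_lit 2970297808) (nat_lit 76) (nat_lit 8716728882) (nat_lit 338) (nat_lit 5) (nat_lit 348) (nat_lit 5) (nat_lit 339) (nat_lit 5) (nat_lit 597) (nat_lit 550) (nat_lit 413))) (XT.nd (nat_lit 78) (nat_lit 0) (nat_lit 0) (XT.lf (nat_lit 0) (nat_lit 3097478799) (nat_lit 836) (nat_lit 8231502218) (nat_lit 76) (nat_lit 1329576560) (nat_lit 328) (nat_lit 5) (nat_lit 339) (nat_lit 5) (nat_lit 329) (nat_lit 5) (nat_lit 598) (nat_lit 550) (nat_lit 412)) (XT.lf (nat_lit 0) (nat_lit 5434388780) (nat_lit 836) (nat_lit 824565325) (nat_lit 76) (nat_lit 6536303971) (nat_lit 328) (nat_lit 5) (nat_lit 339) (nat_lit 5) (nat_lit 329) (nat_lit 5) (nat_lit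 599) (nat_lit 550) (nat_lit 411))))))) (XT.nd (nat_lit 1014) (nat_lit 4712) (nat_lit 0) (XT.nd (nat_lit 468) (nat_lit 2508) (nat_lit 0) (XT.nd (nat_lit 234) (nat_lit 1368) (nat_lit 0) (XT.nd (nat_lit 78) (nat_lit 684) (nat_lit 0) (XT.lf (nat_lit 0) (nat_lit 6803704779) (nat_lit 684) (nat_lit 1044627699) (nat_lit 760) (nat_lit 5085755273) (nat_lit 319) (nat_lit 5) (nat_lit 328) (nat_lit 5) (nat_lit 329) (nat_lit 5) (nat_lit 600) (nat_lit 550) (nat_lit 410)) (XT.nd (nat_lit 78) (nat_lit 0) (nat_lit 0) (XT.lf (nat_lit 0) (nat_lit 1495772608) (nat_lit 684) (nat_lit 8844089069) (nat_lit 760) (nat_lit 2735247268) (nat_lit 310) (nat_lit 5) (nat_lit 319) (nat_lit 5) (nat_lit 320) (nat_lit 5) (nat_lit 601) (nat_lit 550) (nat_lit 409)) (XT.lf (nat_lit 0) (nat_lit 9334454125) (nat_lit 684) (nat_lit 3581218263) (nat_lit 760) (nat_lit 302590191) (nat_lit 310) (nat_lit 5) (nat_lit 319) (nat_lit 5) (nat_lit 320) (nat_lit 5) (nat_lit 602) (nat_lit 550) (nat_lit 408)))) (XT.nd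 (nat_lit 78) (nat_lit 684) (nat_lit 0) (XT.lf (nat_lit 0) (nat_lit 2174504804) (nat_lit 684) (nat_lit 9387761568) (nat_lit 76) (nat_lit 1801243815) (nat_lit 301) (nat_lit 5) (nat_lit 310) (nat_lit 5) (nat_lit 302) (nat_lit 5) (nat_lit 603) (nat_lit 550) (nat_lit 407)) (XT.nd (nat_lit 78) (nat_lit 684) (nat_lit 0) (XT.lf (nat_lit 0) (nat_lit 4733805115) (nat_lit 684) (nat_lit 1507984855) (nat_lit 76) (nat_lit 7269099449) (nat_lit 301) (nat_lit 5) (nat_lit 310) (nat_lit 5) (nat_lit 302) (nat_lit 5) (nat_lit 604) (nat_lit 550) (nat_lit 406)) (XT.lf (nat_lit 0) (nat_lit 6600172335) (nat_lit 684) (nat_lit 773991043) (nat_lit 760) (nat_lit 6286456376) (nat_lit 292) (nat_lit 5) (nat_lit 301) (nat_lit 5) (nat_lit 302) (nat_lit 5) (nat_lit 605) (nat_lit 550) (nat_lit 405))))) (XT.nd (nat_lit 234) (nat_lit 1216) (nat_lit 0) (XT.nd (nat_lit 78) (nat_lit 684) (nat_lit 0) (XT.lf (nat_lit 0) (nat_lit 1044322908) (nat_lit 608) (nat_lit 9058311584) (nat_lit 684) (nat_lit 3710005028)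 (nat_lit 284) (nat_lit 5) (nat_lit 292) (nat_lit 5) (nat_lit 293) (nat_lit 5) (nat_lit 606) (nat_lit 550) (nat_lit 404)) (XT.nd (nat_lit 78) (nat_lit 684) (nat_lit 0) (XT.lf (nat_lit 0) (nat_lit 9385892941) (nat_lit 608) (nat_lit 3539556240) (nat_lit 684) (nat_lit 1041455936) (nat_lit 284) (nat_lit 5) (nat_lit 292) (nat_lit 5) (nat_lit 293) (nat_lit 5) (nat_lit 607) (nat_lit 550) (nat_lit 403)) (XT.lf (nat_lit 0) (nat_lit 1684302923) (nat_lit 684) (nat_lit 10344367877) (nat_lit 76) (nat_lit 2094850331) (nat_lit 275) (nat_lit 5) (nat_lit 284) (nat_lit 5) (nat_lit 276) (nat_lit 5) (nat_lit 608) (nat_lit 550) (nat_lit 402)))) (XT.nd (nat_lit 156) (nat_lit 608) (nat_lit 0) (XT.nd (nat_lit 78) (nat_lit 608) (nat_lit 0) (XT.lf (nat_lit 0) (nat_lit 4492622739) (nat_lit 684) (nat_lit 1960367657) (nat_lit 76) (nat_lit 7829302436) (nat_lit 275) (nat_lit 5) (nat_lit 284) (nat_lit 5) (nat_lit 276) (nat_lit 5) (nat_lit 609) (nat_lit 550) (nat_lit 401)) (XT.lf (nat_lit 0) (nat_lit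 6663221102) (nat_lit 608) (nat_lit 724985668) (nat_lit 684) (nat_lit 7055412092) (nat_lit 267) (nat_lit 5) (nat_lit 275) (nat_lit 5) (nat_lit 276) (nat_lit 5) (nat_lit 610) (nat_lit 550) (nat_lit 400))) (XT.nd (nat_lit 78) (nat_lit 0) (nat_lit 0) (XT.lf (nat_lit 0) (nat_lit 840051685) (nat_lit 608) (nat_lit 9541526567) (nat_lit 684) (nat_lit 4225796478) (nat_lit 259) (nat_lit 5) (nat_lit 267) (nat_lit 5) (nat_lit 268) (nat_lit 5) (nat_lit 611) (nat_lit 550) (nat_lit 399)) (XT.lf (nat_lit 0) (nat_lit 9718014516) (nat_lit 608) (nat_lit 3761871126) (nat_lit 684) (nat_lit 1293619521) (nat_lit 259) (nat_lit 5) (nat_lit 267) (nat_lit 5) (nat_lit 268) (nat_lit 5) (nat_lit 612) (nat_lit 550) (nat_lit 398)))))) (XT.nd (nat_lit 546) (nat_lit 2432) (nat_lit 0) (XT.nd (nat_lit 234) (nat_lit 1140) (nat_lit 0) (XT.nd (nat_lit 78) (nat_lit 532) (nat_lit 0) (XT.lf (nat_lit 0) (nat_lit 1702279978) (nat_lit 608) (nat_lit 11101773969) (nat_lit 76) (nat_lit 2138137894) (nat_lit 251)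 (nat_lit 5) (nat_lit 259) (nat_lit 5) (nat_lit 252) (nat_lit 5) (nat_lit 613) (nat_lit 550) (nat_lit 397)) (XT.nd (nat_lit 78) (nat_lit 532) (nat_lit 0) (XT.lf (nat_lit 0) (nat_lit 4788206516) (nat_lit 608) (nat_lit 2179963269) (nat_lit 76) (nat_lit 8144963608) (nat_lit 251) (nat_lit 5) (nat_lit 259) (nat_lit 5) (nat_lit 252) (nat_lit 5) (nat_lit 614) (nat_lit 550) (nat_lit 396)) (XT.lf (nat_lit 0) (nat_lit 6996894421) (nat_lit 532) (nat_lit 972965737) (nat_lit 608) (nat_lit 7316954201) (nat_lit 244) (nat_lit 5) (nat_lit 251) (nat_lit 5) (nat_lit 252) (nat_lit 5) (nat_lit 615) (nat_lit 550) (nat_lit 395)))) (XT.nd (nat_lit 156) (nat_lit 608) (nat_lit 0) (XT.nd (nat_lit 78) (nat_lit 0) (nat_lit 0) (XT.lf (nat_lit 0) (nat_lit 886043163) (nat_lit 532) (nat_lit 10371650114) (nat_lit 608) (nat_lit 4205425479) (nat_lit 237) (nat_lit 5) (nat_lit 244) (nat_lit 5) (nat_lit 245) (nat_lit 5) (nat_lit 616) (nat_lit 550) (nat_lit 394)) (XT.lf (nat_lit 0) (nat_lit 10336211595)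 (nat_lit 532) (nat_lit 4325907642) (nat_lit 608) (nat_lit 979814007) (nat_lit 237) (nat_lit 5) (nat_lit 244) (nat_lit 5) (nat_lit 245) (nat_lit 5) (nat_lit 617) (nat_lit 550) (nat_lit 393))) (XT.nd (nat_lit 78) (nat_lit 0) (nat_lit 0) (XT.lf (nat_lit 0) (nat_lit 2308277786) (nat_lit 608) (nat_lit 11660089273) (nat_lit 76) (nat_lit 1855092293) (nat_lit 229) (nat_lit 5) (nat_lit 237) (nat_lit 5) (nat_lit 230) (nat_lit 5) (nat_lit 618) (nat_lit 550) (nat_lit 392)) (XT.lf (nat_lit 0) (nat_lit 5702557821) (nat_lit 608) (nat_lit 2164614708) (nat_lit 76) (nat_lit 8140243684) (nat_lit 229) (nat_lit 5) (nat_lit 237) (nat_lit 5) (nat_lit 230) (nat_lit 5) (nat_lit 619) (nat_lit 550) (nat_lit 391))))) (XT.nd (nat_lit 234) (nat_lit 1444) (nat_lit 0) (XT.nd (nat_lit 78) (nat_lit 532) (nat_lit 0) (XT.lf (nat_lit 0) (nat_lit 7605713883) (nat_lit 456) (nat_lit 1597651189) (nat_lit 532) (nat_lit 6990914976) (nat_lit 223) (nat_lit 5) (nat_lit 229) (nat_lit 5) (nat_lit 230) (nat_lit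 5) (nat_lit 620) (nat_lit 550) (nat_lit 390)) (XT.nd (nat_lit 78) (nat_lit 0) (nat_lit 0) (XT.lf (nat_lit 0) (nat_lit 1185611638) (nat_lit 532) (nat_lit 11631392354) (nat_lit 608) (nat_lit 3567021514) (nat_lit 216) (nat_lit 5) (nat_lit 223) (nat_lit 5) (nat_lit 224) (nat_lit 5) (nat_lit 621) (nat_lit 550) (nat_lit 389)) (XT.lf (nat_lit 0) (nat_lit 11246175186) (nat_lit 532) (nat_lit 5314346790) (nat_lit 608) (nat_lit 15892416) (nat_lit 216) (nat_lit 5) (nat_lit 223) (nat_lit 5) (nat_lit 224) (nat_lit 5) (nat_lit 622) (nat_lit 550) (nat_lit 388)))) (XT.nd (nat_lit 156) (nat_lit 912) (nat_lit 0) (XT.nd (nat_lit 78) (nat_lit 0) (nat_lit 0) (XT.lf (nat_lit 0) (nat_lit 3587127254) (nat_lit 532) (nat_lit 12019773134) (nat_lit 76) (nat_lit 1164719709) (nat_lit 209) (nat_lit 5) (nat_lit 216) (nat_lit 5) (nat_lit 210) (nat_lit 5) (nat_lit 623) (nat_lit 550) (nat_lit 387)) (XT.lf (nat_lit 0) (nat_lit 7322875696) (nat_lit 532) (nat_lit 1912451507) (nat_lit 76) (nat_lit 7734183594)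 (nat_lit 209) (nat_lit 5) (nat_lit 216) (nat_lit 5) (nat_lit 210) (nat_lit 5) (nat_lit 624) (nat_lit 550) (nat_lit 386))) (XT.nd (nat_lit 78) (nat_lit 456) (nat_lit 0) (XT.lf (nat_lit 0) (nat_lit 8493977236) (nat_lit 456) (nat_lit 2684393776) (nat_lit 532) (nat_lit 5992088256) (nat_lit 203) (nat_lit 5) (nat_lit 209) (nat_lit 5) (nat_lit 210) (nat_lit 5) (nat_lit 625) (nat_lit 550) (nat_lit 385)) (XT.lf (nat_lit 0) (nat_lit 1741572506) (nat_lit 456) (nat_lit 13409544991) (nat_lit 532) (nat_lit 2223506970) (nat_lit 197) (nat_lit 5) (nat_lit 203) (nat_lit 5) (nat_lit 204) (nat_lit 5) (nat_lit 626) (nat_lit 550) (nat_lit 384))))))))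
noncomputable def xc146 : XT := (XT.nd (nat_lit 2106) (nat_lit 1520) (nat_lit 0) (XT.nd (nat_lit 1014) (nat_lit 2888) (nat_lit 0) (XT.nd (nat_lit 468) (nat_lit 1976) (nat_lit 0) (XT.nd (nat_lit 234) (nat_lit 912) (nat_lit 0) (XT.nd (nat_lit 78) (nat_lit 456) (nat_lit 0) (XT.lf (nat_lit 0) (nat_lit 1665577615) (nat_lit 532) (nat_lit 5139347425) (nat_lit 76) (nat_lit 10776410389) (nat_lit 196) (nat_lit 5) (nat_lit 203) (nat_lit 5) (nat_lit 197) (nat_lit 5) (nat_lit 627) (nat_lit 550) (nat_lit 383)) (XT.nd (nat_lit 78) (nat_lit 0) (nat_lit 0) (XT.lf (nat_lit 0) (nat_lit 5608796738) (nat_lit 456) (nat_lit 20511709) (nat_lit 532) (nat_lit 12162046018) (nat_lit 190) (nat_lit 5) (nat_lit 196) (nat_lit 5) (nat_lit 197) (nat_lit 5) (nat_lit 628) (nat_lit 550) (nat_lit 382)) (XT.lf (nat_lit 0) (nat_lit 9742091415) (nat_lit 532) (nat_lit 1422681642) (nat_lit 76) (nat_lit 6839405814) (nat_lit 190) (nat_lit 5) (nat_lit 197) (nat_lit 5) (nat_lit 191) (nat_lit 5) (nat_lit 629)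 (nat_lit 550) (nat_lit 381)))) (XT.nd (nat_lit 78) (nat_lit 532) (nat_lit 0) (XT.lf (nat_lit 0) (nat_lit 9664953535) (nat_lit 380) (nat_lit 4325519204) (nat_lit 456) (nat_lit 4229720699) (nat_lit 185) (nat_lit 5) (nat_lit 190) (nat_lit 5) (nat_lit 191) (nat_lit 5) (nat_lit 630) (nat_lit 550) (nat_lit 380)) (XT.nd (nat_lit 78) (nat_lit 76) (nat_lit 0) (XT.lf (nat_lit 0) (nat_lit 2555403475) (nat_lit 456) (nat_lit 15802351373) (nat_lit 532) (nat_lit 82095304) (nat_lit 179) (nat_lit 5) (nat_lit 185) (nat_lit 5) (nat_lit 186) (nat_lit 5) (nat_lit 631) (nat_lit 550) (nat_lit 379)) (XT.lf (nat_lit 0) (nat_lit 4171065439) (nat_lit 532) (nat_lit 4728645169) (nat_lit 76) (nat_lit 9762111378) (nat_lit 178) (nat_lit 5) (nat_lit 185) (nat_lit 5) (nat_lit 179) (nat_lit 5) (nat_lit 632) (nat_lit 550) (nat_lit 378))))) (XT.nd (nat_lit 234) (nat_lit 1216) (nat_lit 0) (XT.nd (nat_lit 78) (nat_lit 380) (nat_lit 0) (XT.lf (nat_lit 0) (nat_lit 6724032351) (nat_lit 380) (nat_lit 1818555650)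 (nat_lit 456) (nat_lit 10344946935) (nat_lit 173) (nat_lit 5) (nat_lit 178) (nat_lit 5) (nat_lit 179) (nat_lit 5) (nat_lit 633) (nat_lit 550) (nat_lit 377)) (XT.nd (nat_lit 78) (nat_lit 380) (nat_lit 0) (XT.lf (nat_lit 0) (nat_lit 13059372607) (nat_lit 456) (nat_lit 696509712) (nat_lit 76) (nat_lit 5360723670) (nat_lit 173) (nat_lit 5) (nat_lit 179) (nat_lit 5) (nat_lit 174) (nat_lit 5) (nat_lit 634) (nat_lit 550) (nat_lit 376)) (XT.lf (nat_lit 0) (nat_lit 11119947443) (nat_lit 380) (nat_lit 6621769259) (nat_lit 456) (nat_lit 1607037755) (nat_lit 168) (nat_lit 5) (nat_lit 173) (nat_lit 5) (nat_lit 174) (nat_lit 5) (nat_lit 635) (nat_lit 550) (nat_lit 375)))) (XT.nd (nat_lit 156) (nat_lit 760) (nat_lit 0) (XT.nd (nat_lit 78) (nat_lit 0) (nat_lit 0) (XT.lf (nat_lit 0) (nat_lit 2917404036) (nat_lit 456) (nat_lit 15978002077) (nat_lit 76) (nat_lit 689285521) (nat_lit 162) (nat_lit 5) (nat_lit 168) (nat_lit 5) (nat_lit 163) (nat_lit 5) (nat_lit 636) (nat_lit 550) (nat_lit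 374)) (XT.lf (nat_lit 0) (nat_lit 7601343272) (nat_lit 456) (nat_lit 4102424507) (nat_lit 76) (nat_lit 8119557229) (nat_lit 162) (nat_lit 5) (nat_lit 168) (nat_lit 5) (nat_lit 163) (nat_lit 5) (nat_lit 637) (nat_lit 550) (nat_lit 373))) (XT.nd (nat_lit 78) (nat_lit 380) (nat_lit 0) (XT.lf (nat_lit 0) (nat_lit 8103452707) (nat_lit 380) (nat_lit 4319365335) (nat_lit 456) (nat_lit 7643036307) (nat_lit 157) (nat_lit 5) (nat_lit 162) (nat_lit 5) (nat_lit 163) (nat_lit 5) (nat_lit 638) (nat_lit 550) (nat_lit 372)) (XT.lf (nat_lit 0) (nat_lit 265266237) (nat_lit 380) (nat_lit 17117046970) (nat_lit 456) (nat_lit 2930089676) (nat_lit 152) (nat_lit 5) (nat_lit 157) (nat_lit 5) (nat_lit 158) (nat_lit 5) (nat_lit 639) (nat_lit 550) (nat_lit 371)))))) (XT.nd (nat_lit 546) (nat_lit 1368) (nat_lit 0) (XT.nd (nat_lit 234) (nat_lit 1064) (nat_lit 0) (XT.nd (nat_lit 78) (nat_lit 380) (nat_lit 0) (XT.lf (nat_lit 0) (nat_lit 1953231380) (nat_lit 456) (nat_lit 7717531243) (nat_lit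 76) (nat_lit 10890861740) (nat_lit 151) (nat_lit 5) (nat_lit 157) (nat_lit 5) (nat_lit 152) (nat_lit 5) (nat_lit 640) (nat_lit 550) (nat_lit 370)) (XT.nd (nat_lit 78) (nat_lit 0) (nat_lit 0) (XT.lf (nat_lit 0) (nat_lit 4890091078) (nat_lit 380) (nat_lit 2028173907) (nat_lit 456) (nat_lit 13896712731) (nat_lit 146) (nat_lit 5) (nat_lit 151) (nat_lit 5) (nat_lit 152) (nat_lit 5) (nat_lit 641) (nat_lit 550) (nat_lit 369)) (XT.lf (nat_lit 0) (nat_lit 12063719350) (nat_lit 456) (nat_lit 3269026538) (nat_lit 76) (nat_lit 5739030237) (nat_lit 146) (nat_lit 5) (nat_lit 152) (nat_lit 5) (nat_lit 147) (nat_lit 5) (nat_lit 642) (nat_lit 550) (nat_lit 368)))) (XT.nd (nat_lit 156) (nat_lit 304) (nat_lit 0) (XT.nd (nat_lit 78) (nat_lit 456) (nat_lit 0) (XT.lf (nat_lit 0) (nat_lit 9741183085) (nat_lit 304) (nat_lit 7639286866) (nat_lit 380) (nat_lit 3951873193) (nat_lit 142) (nat_lit 5) (nat_lit 146) (nat_lit 5) (nat_lit 147) (nat_lit 5) (nat_lit 643) (nat_lit 550) (nat_lit 367))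 (XT.lf (nat_lit 0) (nat_lit 1214474192) (nat_lit 456) (nat_lit 20142843724) (nat_lit 76) (nat_lit 240150436) (nat_lit 136) (nat_lit 5) (nat_lit 142) (nat_lit 5) (nat_lit 137) (nat_lit 5) (nat_lit 644) (nat_lit 550) (nat_lit 366))) (XT.nd (nat_lit 78) (nat_lit 304) (nat_lit 0) (XT.lf (nat_lit 0) (nat_lit 6551950341) (nat_lit 456) (nat_lit 7038335894) (nat_lit 76) (nat_lit 8274673407) (nat_lit 136) (nat_lit 5) (nat_lit 142) (nat_lit 5) (nat_lit 137) (nat_lit 5) (nat_lit 645) (nat_lit 550) (nat_lit 365)) (XT.lf (nat_lit 0) (nat_lit 6399284015) (nat_lit 304) (nat_lit 5630380323) (nat_lit 380) (nat_lit 10107467008) (nat_lit 132) (nat_lit 5) (nat_lit 136) (nat_lit 5) (nat_lit 137) (nat_lit 5) (nat_lit 646) (nat_lit 550) (nat_lit 364))))) (XT.nd (nat_lit 234) (nat_lit 684) (nat_lit 0) (XT.nd (nat_lit 78) (nat_lit 684) (nat_lit 0) (XT.lf (nat_lit 0) (nat_lit 17672618116) (nat_lit 380) (nat_lit 2242159870) (nat_lit 76) (nat_lit 2498855137) (nat_lit 132) (nat_lit 5) (nat_lit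 137) (nat_lit 5) (nat_lit 133) (nat_lit 5) (nat_lit 647) (nat_lit 550) (nat_lit 363)) (XT.nd (nat_lit 78) (nat_lit 304) (nat_lit 0) (XT.lf (nat_lit 0) (nat_lit 828761199) (nat_lit 380) (nat_lit 11073084831) (nat_lit 76) (nat_lit 10791611978) (nat_lit 127) (nat_lit 5) (nat_lit 132) (nat_lit 5) (nat_lit 128) (nat_lit 5) (nat_lit 648) (nat_lit 550) (nat_lit 362)) (XT.lf (nat_lit 0) (nat_lit 2804539775) (nat_lit 304) (nat_lit 3667485792) (nat_lit 380) (nat_lit 16505715893) (nat_lit 123) (nat_lit 5) (nat_lit 127) (nat_lit 5) (nat_lit 128) (nat_lit 5) (nat_lit 649) (nat_lit 550) (nat_lit 361)))) (XT.nd (nat_lit 156) (nat_lit 380) (nat_lit 0) (XT.nd (nat_lit 78) (nat_lit 304) (nat_lit 0) (XT.lf (nat_lit 0) (nat_lit 12325874918) (nat_lit 380) (nat_lit 6200378612) (nat_lit 76) (nat_lit 4739502979) (nat_lit 123) (nat_lit 5) (nat_lit 128) (nat_lit 5) (nat_lit 124) (nat_lit 5) (nat_lit 650) (nat_lit 550) (nat_lit 360)) (XT.lf (nat_lit 0) (nat_lit 8121622538) (nat_lit 304)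 (nat_lit 10244551522) (nat_lit 380) (nat_lit 5191970660) (nat_lit 119) (nat_lit 5) (nat_lit 123) (nat_lit 5) (nat_lit 124) (nat_lit 5) (nat_lit 651) (nat_lit 550) (nat_lit 359))) (XT.nd (nat_lit 78) (nat_lit 304) (nat_lit 0) (XT.lf (nat_lit 0) (nat_lit 696355519) (nat_lit 380) (nat_lit 1058594852) (nat_lit 76) (nat_lit 22100658389) (nat_lit 118) (nat_lit 5) (nat_lit 123) (nat_lit 5) (nat_lit 119) (nat_lit 5) (nat_lit 652) (nat_lit 550) (nat_lit 358)) (XT.lf (nat_lit 0) (nat_lit 6760342478) (nat_lit 380) (nat_lit 10461880896) (nat_lit 76) (nat_lit 6933564331) (nat_lit 114) (nat_lit 5) (nat_lit 119) (nat_lit 5) (nat_lit 115) (nat_lit 5) (nat_lit 653) (nat_lit 550) (nat_lit 357))))))) (XT.nd (nat_lit 73554) (nat_lit 0) (nat_lit 33896) (XT.nd (nat_lit 468) (nat_lit 380) (nat_lit 0) (XT.nd (nat_lit 234) (nat_lit 532) (nat_lit 0) (XT.nd (nat_lit 78) (nat_lit 304) (nat_lit 0) (XT.lf (nat_lit 0) (nat_lit 4326739294) (nat_lit 304) (nat_lit 8658293408) (nat_lit 380) (nat_lit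 11476149347) (nat_lit 110) (nat_lit 5) (nat_lit 114) (nat_lit 5) (nat_lit 115) (nat_lit 5) (nat_lit 654) (nat_lit 550) (nat_lit 356)) (XT.nd (nat_lit 78) (nat_lit 304) (nat_lit 0) (XT.lf (nat_lit 0) (nat_lit 19397979183) (nat_lit 380) (nat_lit 5231651572) (nat_lit 76) (nat_lit 141778564) (nat_lit 110) (nat_lit 5) (nat_lit 115) (nat_lit 5) (nat_lit 111) (nat_lit 5) (nat_lit 655) (nat_lit 550) (nat_lit 355)) (XT.lf (nat_lit 0) (nat_lit 956148858) (nat_lit 304) (nat_lit 15060519853) (nat_lit 76) (nat_lit 9068742728) (nat_lit 106) (nat_lit 5) (nat_lit 110) (nat_lit 5) (nat_lit 107) (nat_lit 5) (nat_lit 656) (nat_lit 550) (nat_lit 354)))) (XT.nd (nat_lit 78) (nat_lit 228) (nat_lit 0) (XT.lf (nat_lit 0) (nat_lit 207263553) (nat_lit 304) (nat_lit 7162613202) (nat_lit 380) (nat_lit 18034516600) (nat_lit 102) (nat_lit 5) (nat_lit 106) (nat_lit 5) (nat_lit 107) (nat_lit 5) (nat_lit 657) (nat_lit 550) (nat_lit 353)) (XT.nd (nat_lit 78) (nat_lit 228) (nat_lit 0) (XT.lf (nat_lit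 0) (nat_lit 14018531431) (nat_lit 380) (nat_lit 9768142370) (nat_lit 76) (nat_lit 1940948326) (nat_lit 102) (nat_lit 5) (nat_lit 107) (nat_lit 5) (nat_lit 103) (nat_lit 5) (nat_lit 658) (nat_lit 550) (nat_lit 352)) (XT.lf (nat_lit 0) (nat_lit 5988610728) (nat_lit 228) (nat_lit 14890793670) (nat_lit 304) (nat_lit 5176326431) (nat_lit 99) (nat_lit 5) (nat_lit 102) (nat_lit 5) (nat_lit 103) (nat_lit 5) (nat_lit 659) (nat_lit 550) (nat_lit 351))))) (XT.nd (nat_lit 72774) (nat_lit 0) (nat_lit 36632) (XT.nd (nat_lit 78) (nat_lit 304) (nat_lit 0) (XT.lf (nat_lit 0) (nat_lit 1526516836) (nat_lit 304) (nat_lit 4218208244) (nat_lit 76) (nat_lit 20644305227) (nat_lit 98) (nat_lit 5) (nat_lit 102) (nat_lit 5) (nat_lit 99) (nat_lit 5) (nat_lit 660) (nat_lit 550) (nat_lit 350)) (XT.nd (nat_lit 72618) (nat_lit 0) (nat_lit 36632) (XT.lf (nat_lit 0) (nat_lit 8389539416) (nat_lit 380) (nat_lit 14691002634) (nat_lit 76) (nat_lit 3645860990) (nat_lit 94) (nat_lit 5) (nat_lit 99) (nat_lit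 5) (nat_lit 95) (nat_lit 5) (nat_lit 661) (nat_lit 550) (nat_lit 349)) (XT.lf (nat_lit 0) (nat_lit 458525768) (nat_lit 0) (nat_lit 458525768) (nat_lit 1444) (nat_lit 3221087179) (nat_lit 576) (nat_lit 5) (nat_lit 576) (nat_lit 3) (nat_lit 595) (nat_lit 3) (nat_lit 551) (nat_lit 551) (nat_lit 458)))) (XT.nd (nat_lit 156) (nat_lit 0) (nat_lit 0) (XT.nd (nat_lit 78) (nat_lit 0) (nat_lit 0) (XT.lf (nat_lit 0) (nat_lit 2979186220) (nat_lit 1444) (nat_lit 3272862340) (nat_lit 1520) (nat_lit 2084339430) (nat_lit 576) (nat_lit 5) (nat_lit 595) (nat_lit 3) (nat_lit 596) (nat_lit 5) (nat_lit 552) (nat_lit 551) (nat_lit 457)) (XT.lf (nat_lit 76) (nat_lit 885489308) (nat_lit 0) (nat_lit 3244403712) (nat_lit 1520) (nat_lit 4268156380) (nat_lit 577) (nat_lit 5) (nat_lit 576) (nat_lit 5) (nat_lit 596) (nat_lit 5) (nat_lit 553) (nat_lit 551) (nat_lit 456))) (XT.nd (nat_lit 78) (nat_lit 0) (nat_lit 76) (XT.lf (nat_lit 76) (nat_lit 5156193684) (nat_lit 0) (nat_lit 140754564) (nat_lit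 1520) (nat_lit 3164132124) (nat_lit 577) (nat_lit 5) (nat_lit 576) (nat_lit 5) (nat_lit 596) (nat_lit 5) (nat_lit 554) (nat_lit 551) (nat_lit 455)) (XT.lf (nat_lit 76) (nat_lit 964417494) (nat_lit 0) (nat_lit 5520847432) (nat_lit 1520) (nat_lit 2040151588) (nat_lit 578) (nat_lit 5) (nat_lit 577) (nat_lit 5) (nat_lit 597) (nat_lit 5) (nat_lit 555) (nat_lit 551) (nat_lit 454)))))) (XT.nd (nat_lit 546) (nat_lit 1368) (nat_lit 0) (XT.nd (nat_lit 234) (nat_lit 0) (nat_lit 0) (XT.nd (nat_lit 78) (nat_lit 1444) (nat_lit 0) (XT.lf (nat_lit 76) (nat_lit 5347532906) (nat_lit 0) (nat_lit 2345385669) (nat_lit 1520) (nat_lit 898212291) (nat_lit 578) (nat_lit 5) (nat_lit 577) (nat_lit 5) (nat_lit 597) (nat_lit 5) (nat_lit 556) (nat_lit 551) (nat_lit 453)) (XT.nd (nat_lit 78) (nat_lit 0) (nat_lit 0) (XT.lf (nat_lit 0) (nat_lit 249353262) (nat_lit 1520) (nat_lit 7506340645) (nat_lit 1596) (nat_lit 902708104) (nat_lit 558) (nat_lit 5) (nat_lit 578) (nat_lit 5) (nat_lit 579) (nat_lit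 5) (nat_lit 557) (nat_lit 551) (nat_lit 452)) (XT.lf (nat_lit 0) (nat_lit 1418629081) (nat_lit 1520) (nat_lit 3084606169) (nat_lit 1596) (nat_lit 4223451597) (nat_lit 558) (nat_lit 5) (nat_lit 578) (nat_lit 5) (nat_lit 579) (nat_lit 5) (nat_lit 558) (nat_lit 551) (nat_lit 451)))) (XT.nd (nat_lit 156) (nat_lit 0) (nat_lit 76) (XT.nd (nat_lit 78) (nat_lit 0) (nat_lit 76) (XT.lf (nat_lit 76) (nat_lit 1428613546) (nat_lit 0) (nat_lit 1165807300) (nat_lit 1596) (nat_lit 6202256607) (nat_lit 559) (nat_lit 5) (nat_lit 558) (nat_lit 5) (nat_lit 579) (nat_lit 5) (nat_lit 559) (nat_lit 551) (nat_lit 450)) (XT.lf (nat_lit 0) (nat_lit 3803430140) (nat_lit 1520) (nat_lit 2824579620) (nat_lit 1596) (nat_lit 2239866703) (nat_lit 559) (nat_lit 5) (nat_lit 579) (nat_lit 5) (nat_lit 580) (nat_lit 5) (nat_lit 560) (nat_lit 551) (nat_lit 449))) (XT.nd (nat_lit 78) (nat_lit 0) (nat_lit 76) (XT.lf (nat_lit 76) (nat_lit 1809942493) (nat_lit 0) (nat_lit 3220984644) (nat_lit 1596) (nat_lit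 3909688743) (nat_lit 560) (nat_lit 5) (nat_lit 559) (nat_lit 5) (nat_lit 580) (nat_lit 5) (nat_lit 561) (nat_lit 551) (nat_lit 448)) (XT.lf (nat_lit 0) (nat_lit 6278989733) (nat_lit 1520) (nat_lit 2457065207) (nat_lit 1596) (nat_lit 278837359) (nat_lit 560) (nat_lit 5) (nat_lit 580) (nat_lit 5) (nat_lit 581) (nat_lit 5) (nat_lit 562) (nat_lit 551) (nat_lit 447))))) (XT.nd (nat_lit 234) (nat_lit 0) (nat_lit 0) (XT.nd (nat_lit 78) (nat_lit 1520) (nat_lit 0) (XT.lf (nat_lit 76) (nat_lit 2302905425) (nat_lit 0) (nat_lit 5261161173) (nat_lit 1596) (nat_lit 1526349062) (nat_lit 561) (nat_lit 5) (nat_lit 560) (nat_lit 5) (nat_lit 581) (nat_lit 5) (nat_lit 563) (nat_lit 551) (nat_lit 446)) (XT.nd (nat_lit 78) (nat_lit 1520) (nat_lit 0) (XT.lf (nat_lit 76) (nat_lit 7175505073) (nat_lit 0) (nat_lit 1691970151) (nat_lit 1596) (nat_lit 300124088) (nat_lit 561) (nat_lit 5) (nat_lit 560) (nat_lit 5) (nat_lit 581) (nat_lit 5) (nat_lit 564) (nat_lit 551) (nat_lit 445)) (XT.lf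 (nat_lit 0) (nat_lit 946406779) (nat_lit 1596) (nat_lit 6343751912) (nat_lit 1672) (nat_lit 1955881857) (nat_lit 540) (nat_lit 5) (nat_lit 561) (nat_lit 5) (nat_lit 562) (nat_lit 5) (nat_lit 565) (nat_lit 551) (nat_lit 444)))) (XT.nd (nat_lit 156) (nat_lit 0) (nat_lit 76) (XT.nd (nat_lit 78) (nat_lit 0) (nat_lit 76) (XT.lf (nat_lit 0) (nat_lit 2215374975) (nat_lit 1596) (nat_lit 1433792146) (nat_lit 1672) (nat_lit 5676815592) (nat_lit 540) (nat_lit 5) (nat_lit 561) (nat_lit 5) (nat_lit 562) (nat_lit 5) (nat_lit 566) (nat_lit 551) (nat_lit 443)) (XT.lf (nat_lit 0) (nat_lit 3511065097) (nat_lit 1596) (nat_lit 5802444612) (nat_lit 1672) (nat_lit 93989403) (nat_lit 541) (nat_lit 5) (nat_lit 562) (nat_lit 5) (nat_lit 563) (nat_lit 5) (nat_lit 567) (nat_lit 551) (nat_lit 442))) (XT.nd (nat_lit 78) (nat_lit 0) (nat_lit 0) (XT.lf (nat_lit 0) (nat_lit 4844218502) (nat_lit 1596) (nat_lit 766927175) (nat_lit 1672) (nat_lit 3879271371) (nat_lit 541) (nat_lit 5) (nat_lit 562)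 (nat_lit 5) (nat_lit 563) (nat_lit 5) (nat_lit 568) (nat_lit 551) (nat_lit 441)) (XT.lf (nat_lit 76) (nat_lit 4411117039) (nat_lit 0) (nat_lit 1799692729) (nat_lit 1672) (nat_lit 3364050236) (nat_lit 542) (nat_lit 5) (nat_lit 541) (nat_lit 5) (nat_lit 563) (nat_lit 5) (nat_lit 569) (nat_lit 551) (nat_lit 440))))))))
noncomputable def xc147 : XT := (XT.nd (nat_lit 2106) (nat_lit 10564) (nat_lit 0) (XT.nd (nat_lit 1014) (nat_lit 6840) (nat_lit 0) (XT.nd (nat_lit 468) (nat_lit 6308) (nat_lit 0) (XT.nd (nat_lit 234) (nat_lit 0) (nat_lit 0) (XT.nd (nat_lit 78) (nat_lit 1596) (nat_lit 0) (XT.lf (nat_lit 76) (nat_lit 12401107) (nat_lit 0) (nat_lit 7589646057) (nat_lit 1672) (nat_lit 2059000482) (nat_lit 543) (nat_lit 5) (nat_lit 542) (nat_lit 5) (nat_lit 564) (nat_lit 5) (nat_lit 570) (nat_lit 551) (nat_lit 439)) (XT.nd (nat_lit 78) (nat_lit 1596) (nat_lit 0) (XT.lf (nat_lit 76) (nat_lit 5333694974) (nat_lit 0) (nat_lit 3712718314) (nat_lit 1672) (nat_lit 702041744) (nat_lit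 543) (nat_lit 5) (nat_lit 542) (nat_lit 5) (nat_lit 564) (nat_lit 5) (nat_lit 571) (nat_lit 551) (nat_lit 438)) (XT.lf (nat_lit 0) (nat_lit 659809331) (nat_lit 1672) (nat_lit 8924366622) (nat_lit 1748) (nat_lit 253614068) (nat_lit 521) (nat_lit 5) (nat_lit 543) (nat_lit 5) (nat_lit 544) (nat_lit 5) (nat_lit 572) (nat_lit 551) (nat_lit 437)))) (XT.nd (nat_lit 78) (nat_lit 0) (nat_lit 0) (XT.lf (nat_lit 0) (nat_lit 2073337479) (nat_lit 1672) (nat_lit 3566327117) (nat_lit 1748) (nat_lit 4288479449) (nat_lit 521) (nat_lit 5) (nat_lit 543) (nat_lit 5) (nat_lit 544) (nat_lit 5) (nat_lit 573) (nat_lit 551) (nat_lit 436)) (XT.nd (nat_lit 78) (nat_lit 0) (nat_lit 76) (XT.lf (nat_lit 76) (nat_lit 1907628679) (nat_lit 0) (nat_lit 1599719087) (nat_lit 1748) (nat_lit 6513115066) (nat_lit 522) (nat_lit 5) (nat_lit 521) (nat_lit 5) (nat_lit 544) (nat_lit 5) (nat_lit 574) (nat_lit 551) (nat_lit 435)) (XT.lf (nat_lit 0) (nat_lit 4990637703) (nat_lit 1672) (nat_lit 2607850057) (nat_lit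 76) (nat_lit 2515730121) (nat_lit 522) (nat_lit 5) (nat_lit 544) (nat_lit 5) (nat_lit 523) (nat_lit 5) (nat_lit 575) (nat_lit 551) (nat_lit 434))))) (XT.nd (nat_lit 234) (nat_lit 2964) (nat_lit 0) (XT.nd (nat_lit 78) (nat_lit 1748) (nat_lit 0) (XT.lf (nat_lit 0) (nat_lit 3019992260) (nat_lit 1672) (nat_lit 3494333388) (nat_lit 1748) (nat_lit 3695309580) (nat_lit 500) (nat_lit 5) (nat_lit 522) (nat_lit 5) (nat_lit 523) (nat_lit 5) (nat_lit 576) (nat_lit 551) (nat_lit 433)) (XT.nd (nat_lit 78) (nat_lit 1748) (nat_lit 0) (XT.lf (nat_lit 0) (nat_lit 8071422527) (nat_lit 1748) (nat_lit 1532031123) (nat_lit 76) (nat_lit 703450373) (nat_lit 500) (nat_lit 5) (nat_lit 523) (nat_lit 5) (nat_lit 501) (nat_lit 5) (nat_lit 577) (nat_lit 551) (nat_lit 432)) (XT.lf (nat_lit 0) (nat_lit 4255170054) (nat_lit 1748) (nat_lit 5436462831) (nat_lit 1824) (nat_lit 713847644) (nat_lit 477) (nat_lit 5) (nat_lit 500) (nat_lit 5) (nat_lit 501) (nat_lit 5) (nat_lit 578) (nat_lit 551) (nat_lit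 431)))) (XT.nd (nat_lit 156) (nat_lit 1064) (nat_lit 0) (XT.nd (nat_lit 78) (nat_lit 1824) (nat_lit 0) (XT.lf (nat_lit 0) (nat_lit 818916636) (nat_lit 1824) (nat_lit 348822795) (nat_lit 76) (nat_lit 9338348167) (nat_lit 476) (nat_lit 5) (nat_lit 500) (nat_lit 5) (nat_lit 477) (nat_lit 5) (nat_lit 579) (nat_lit 551) (nat_lit 430)) (XT.lf (nat_lit 0) (nat_lit 2411969856) (nat_lit 1900) (nat_lit 5007580053) (nat_lit 76) (nat_lit 3188280353) (nat_lit 452) (nat_lit 5) (nat_lit 477) (nat_lit 5) (nat_lit 453) (nat_lit 5) (nat_lit 580) (nat_lit 551) (nat_lit 429))) (XT.nd (nat_lit 78) (nat_lit 0) (nat_lit 0) (XT.lf (nat_lit 0) (nat_lit 949859639) (nat_lit 1064) (nat_lit 3085258157) (nat_lit 1140) (nat_lit 6676526945) (nat_lit 438) (nat_lit 5) (nat_lit 452) (nat_lit 5) (nat_lit 453) (nat_lit 5) (nat_lit 581) (nat_lit 551) (nat_lit 428)) (XT.lf (nat_lit 0) (nat_lit 5715462247) (nat_lit 1140) (nat_lit 3748012185) (nat_lit 76) (nat_lit 1353568008) (nat_lit 438) (nat_lit 5)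 (nat_lit 453) (nat_lit 5) (nat_lit 439) (nat_lit 5) (nat_lit 582) (nat_lit 551) (nat_lit 427)))))) (XT.nd (nat_lit 546) (nat_lit 3268) (nat_lit 0) (XT.nd (nat_lit 234) (nat_lit 1748) (nat_lit 0) (XT.nd (nat_lit 78) (nat_lit 912) (nat_lit 0) (XT.lf (nat_lit 0) (nat_lit 2380569713) (nat_lit 912) (nat_lit 5067315751) (nat_lit 988) (nat_lit 3476294761) (nat_lit 426) (nat_lit 5) (nat_lit 438) (nat_lit 5) (nat_lit 439) (nat_lit 5) (nat_lit 583) (nat_lit 551) (nat_lit 426)) (XT.nd (nat_lit 78) (nat_lit 912) (nat_lit 0) (XT.lf (nat_lit 0) (nat_lit 8666379585) (nat_lit 912) (nat_lit 556548814) (nat_lit 988) (nat_lit 1810374481) (nat_lit 426) (nat_lit 5) (nat_lit 438) (nat_lit 5) (nat_lit 439) (nat_lit 5) (nat_lit 584) (nat_lit 551) (nat_lit 425)) (XT.lf (nat_lit 0) (nat_lit 3942568776) (nat_lit 912) (nat_lit 7125923873) (nat_lit 988) (nat_lit 75416438) (nat_lit 414) (nat_lit 5) (nat_lit 426) (nat_lit 5) (nat_lit 427) (nat_lit 5) (nat_lit 585) (nat_lit 551) (nat_lit 424))))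 (XT.nd (nat_lit 156) (nat_lit 836) (nat_lit 0) (XT.nd (nat_lit 78) (nat_lit 836) (nat_lit 0) (XT.lf (nat_lit 0) (nat_lit 1674972594) (nat_lit 988) (nat_lit 877160365) (nat_lit 76) (nat_lit 8704316867) (nat_lit 413) (nat_lit 5) (nat_lit 426) (nat_lit 5) (nat_lit 414) (nat_lit 5) (nat_lit 586) (nat_lit 551) (nat_lit 423)) (XT.lf (nat_lit 0) (nat_lit 3493493683) (nat_lit 912) (nat_lit 5753918792) (nat_lit 76) (nat_lit 2123137674) (nat_lit 402) (nat_lit 5) (nat_lit 414) (nat_lit 5) (nat_lit 403) (nat_lit 5) (nat_lit 587) (nat_lit 551) (nat_lit 422))) (XT.nd (nat_lit 78) (nat_lit 0) (nat_lit 0) (XT.lf (nat_lit 0) (nat_lit 741968027) (nat_lit 836) (nat_lit 4617887397) (nat_lit 912) (nat_lit 6126849045) (nat_lit 391) (nat_lit 5) (nat_lit 402) (nat_lit 5) (nat_lit 403) (nat_lit 5) (nat_lit 588) (nat_lit 551) (nat_lit 421)) (XT.lf (nat_lit 0) (nat_lit 7287126628) (nat_lit 912) (nat_lit 4175983584) (nat_lit 76) (nat_lit 141601385) (nat_lit 391) (nat_lit 5) (nat_lit 403)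 (nat_lit 5) (nat_lit 392) (nat_lit 5) (nat_lit 589) (nat_lit 551) (nat_lit 420))))) (XT.nd (nat_lit 234) (nat_lit 1520) (nat_lit 0) (XT.nd (nat_lit 78) (nat_lit 912) (nat_lit 0) (XT.lf (nat_lit 0) (nat_lit 2510398400) (nat_lit 836) (nat_lit 6773777022) (nat_lit 912) (nat_lit 2440280143) (nat_lit 380) (nat_lit 5) (nat_lit 391) (nat_lit 5) (nat_lit 392) (nat_lit 5) (nat_lit 590) (nat_lit 551) (nat_lit 419)) (XT.nd (nat_lit 78) (nat_lit 912) (nat_lit 0) (XT.lf (nat_lit 0) (nat_lit 9371132203) (nat_lit 836) (nat_lit 1962610071) (nat_lit 912) (nat_lit 512601910) (nat_lit 380) (nat_lit 5) (nat_lit 391) (nat_lit 5) (nat_lit 392) (nat_lit 5) (nat_lit 591) (nat_lit 551) (nat_lit 418)) (XT.lf (nat_lit 0) (nat_lit 1467459423) (nat_lit 912) (nat_lit 7558365480) (nat_lit 76) (nat_lit 2944000294) (nat_lit 368) (nat_lit 5) (nat_lit 380) (nat_lit 5) (nat_lit 369) (nat_lit 5) (nat_lit 592) (nat_lit 551) (nat_lit 417)))) (XT.nd (nat_lit 156) (nat_lit 760) (nat_lit 0) (XT.nd (nat_lit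 78) (nat_lit 760) (nat_lit 0) (XT.lf (nat_lit 0) (nat_lit 3494929252) (nat_lit 912) (nat_lit 658594714) (nat_lit 76) (nat_lit 7941891917) (nat_lit 368) (nat_lit 5) (nat_lit 380) (nat_lit 5) (nat_lit 369) (nat_lit 5) (nat_lit 593) (nat_lit 551) (nat_lit 416)) (XT.lf (nat_lit 0) (nat_lit 5595625699) (nat_lit 836) (nat_lit 5780560674) (nat_lit 76) (nat_lit 846679678) (nat_lit 358) (nat_lit 5) (nat_lit 369) (nat_lit 5) (nat_lit 359) (nat_lit 5) (nat_lit 594) (nat_lit 551) (nat_lit 415))) (XT.nd (nat_lit 78) (nat_lit 0) (nat_lit 0) (XT.lf (nat_lit 0) (nat_lit 1315153588) (nat_lit 760) (nat_lit 6449100033) (nat_lit 836) (nat_lit 4588094441) (nat_lit 348) (nat_lit 5) (nat_lit 358) (nat_lit 5) (nat_lit 359) (nat_lit 5) (nat_lit 595) (nat_lit 551) (nat_lit 414)) (XT.lf (nat_lit 0) (nat_lit 8615311078) (nat_lit 760) (nat_lit 1385339812) (nat_lit 836) (nat_lit 2483282053) (nat_lit 348) (nat_lit 5) (nat_lit 358) (nat_lit 5) (nat_lit 359) (nat_lit 5) (nat_lit 596) (nat_lit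 551) (nat_lit 413))))))) (XT.nd (nat_lit 1092) (nat_lit 5016) (nat_lit 0) (XT.nd (nat_lit 546) (nat_lit 2584) (nat_lit 0) (XT.nd (nat_lit 234) (nat_lit 1444) (nat_lit 0) (XT.nd (nat_lit 78) (nat_lit 836) (nat_lit 0) (XT.lf (nat_lit 0) (nat_lit 3448213877) (nat_lit 684) (nat_lit 8866369897) (nat_lit 760) (nat_lit 302910739) (nat_lit 339) (nat_lit 5) (nat_lit 348) (nat_lit 5) (nat_lit 349) (nat_lit 5) (nat_lit 597) (nat_lit 551) (nat_lit 412)) (XT.nd (nat_lit 78) (nat_lit 760) (nat_lit 0) (XT.lf (nat_lit 0) (nat_lit 1917140539) (nat_lit 760) (nat_lit 1827076537) (nat_lit 76) (nat_lit 9008836527) (nat_lit 338) (nat_lit 5) (nat_lit 348) (nat_lit 5) (nat_lit 339) (nat_lit 5) (nat_lit 598) (nat_lit 551) (nat_lit 411)) (XT.lf (nat_lit 0) (nat_lit 4210770118) (nat_lit 836) (nat_lit 7181264271) (nat_lit 76) (nat_lit 1498585855) (nat_lit 328) (nat_lit 5) (nat_lit 339) (nat_lit 5) (nat_lit 329) (nat_lit 5) (nat_lit 599) (nat_lit 551) (nat_lit 410)))) (XT.nd (nat_lit 156)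 (nat_lit 760) (nat_lit 0) (XT.nd (nat_lit 78) (nat_lit 0) (nat_lit 0) (XT.lf (nat_lit 0) (nat_lit 354641607) (nat_lit 684) (nat_lit 6221464716) (nat_lit 760) (nat_lit 6454316270) (nat_lit 319) (nat_lit 5) (nat_lit 328) (nat_lit 5) (nat_lit 329) (nat_lit 5) (nat_lit 600) (nat_lit 551) (nat_lit 409)) (XT.lf (nat_lit 0) (nat_lit 8122990090) (nat_lit 684) (nat_lit 900508091) (nat_lit 760) (nat_lit 4148828864) (nat_lit 319) (nat_lit 5) (nat_lit 328) (nat_lit 5) (nat_lit 329) (nat_lit 5) (nat_lit 601) (nat_lit 551) (nat_lit 408))) (XT.nd (nat_lit 78) (nat_lit 76) (nat_lit 0) (XT.lf (nat_lit 0) (nat_lit 2720358641) (nat_lit 684) (nat_lit 8833341590) (nat_lit 760) (nat_lit 1762693125) (nat_lit 310) (nat_lit 5) (nat_lit 319) (nat_lit 5) (nat_lit 320) (nat_lit 5) (nat_lit 602) (nat_lit 551) (nat_lit 407)) (XT.lf (nat_lit 0) (nat_lit 689314136) (nat_lit 760) (nat_lit 2774952577) (nat_lit 76) (nat_lit 9998449079) (nat_lit 309) (nat_lit 5) (nat_lit 319) (nat_lit 5) (nat_lit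 310) (nat_lit 5) (nat_lit 603) (nat_lit 551) (nat_lit 406))))) (XT.nd (nat_lit 234) (nat_lit 1292) (nat_lit 0) (XT.nd (nat_lit 78) (nat_lit 684) (nat_lit 0) (XT.lf (nat_lit 0) (nat_lit 3201318846) (nat_lit 684) (nat_lit 8380331867) (nat_lit 76) (nat_lit 2029390696) (nat_lit 301) (nat_lit 5) (nat_lit 310) (nat_lit 5) (nat_lit 302) (nat_lit 5) (nat_lit 604) (nat_lit 551) (nat_lit 405)) (XT.nd (nat_lit 78) (nat_lit 684) (nat_lit 0) (XT.lf (nat_lit 0) (nat_lit 5792524301) (nat_lit 684) (nat_lit 366394619) (nat_lit 76) (nat_lit 7602836345) (nat_lit 301) (nat_lit 5) (nat_lit 310) (nat_lit 5) (nat_lit 302) (nat_lit 5) (nat_lit 605) (nat_lit 551) (nat_lit 404)) (XT.lf (nat_lit 0) (nat_lit 7896216834) (nat_lit 684) (nat_lit 578127816) (nat_lit 760) (nat_lit 5440363850) (nat_lit 292) (nat_lit 5) (nat_lit 301) (nat_lit 5) (nat_lit 302) (nat_lit 5) (nat_lit 606) (nat_lit 551) (nat_lit 403)))) (XT.nd (nat_lit 156) (nat_lit 684) (nat_lit 0) (XT.nd (nat_lit 78) (nat_lit 0) (nat_lit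 0) (XT.lf (nat_lit 0) (nat_lit 2239226936) (nat_lit 608) (nat_lit 9008445671) (nat_lit 684) (nat_lit 2822291672) (nat_lit 284) (nat_lit 5) (nat_lit 292) (nat_lit 5) (nat_lit 293) (nat_lit 5) (nat_lit 607) (nat_lit 551) (nat_lit 402)) (XT.lf (nat_lit 0) (nat_lit 10724608418) (nat_lit 608) (nat_lit 3383845263) (nat_lit 684) (nat_lit 119232647) (nat_lit 284) (nat_lit 5) (nat_lit 292) (nat_lit 5) (nat_lit 293) (nat_lit 5) (nat_lit 608) (nat_lit 551) (nat_lit 401))) (XT.nd (nat_lit 78) (nat_lit 0) (nat_lit 0) (XT.lf (nat_lit 0) (nat_lit 2639459670) (nat_lit 684) (nat_lit 9378545847) (nat_lit 76) (nat_lit 2369492242) (nat_lit 275) (nat_lit 5) (nat_lit 284) (nat_lit 5) (nat_lit 276) (nat_lit 5) (nat_lit 609) (nat_lit 551) (nat_lit 400)) (XT.lf (nat_lit 0) (nat_lit 5485877830) (nat_lit 684) (nat_lit 849859925) (nat_lit 76) (nat_lit 8214069763) (nat_lit 275) (nat_lit 5) (nat_lit 284) (nat_lit 5) (nat_lit 276) (nat_lit 5) (nat_lit 610) (nat_lit 551) (nat_lit 399)))))) (XT.nd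 (nat_lit 546) (nat_lit 2128) (nat_lit 0) (XT.nd (nat_lit 234) (nat_lit 1672) (nat_lit 0) (XT.nd (nat_lit 78) (nat_lit 608) (nat_lit 0) (XT.lf (nat_lit 0) (nat_lit 7938636694) (nat_lit 608) (nat_lit 490438673) (nat_lit 684) (nat_lit 6285491902) (nat_lit 267) (nat_lit 5) (nat_lit 275) (nat_lit 5) (nat_lit 276) (nat_lit 5) (nat_lit 611) (nat_lit 551) (nat_lit 398)) (XT.nd (nat_lit 78) (nat_lit 0) (nat_lit 0) (XT.lf (nat_lit 0) (nat_lit 2007689447) (nat_lit 608) (nat_lit 9466170245) (nat_lit 684) (nat_lit 3407908867) (nat_lit 259) (nat_lit 5) (nat_lit 267) (nat_lit 5) (nat_lit 268) (nat_lit 5) (nat_lit 612) (nat_lit 551) (nat_lit 397)) (XT.lf (nat_lit 0) (nat_lit 11040646108) (nat_lit 608) (nat_lit 3576141046) (nat_lit 684) (nat_lit 434782558) (nat_lit 259) (nat_lit 5) (nat_lit 267) (nat_lit 5) (nat_lit 268) (nat_lit 5) (nat_lit 613) (nat_lit 551) (nat_lit 396)))) (XT.nd (nat_lit 156) (nat_lit 1064) (nat_lit 0) (XT.nd (nat_lit 78) (nat_lit 0) (nat_lit 0) (XT.lf (nat_lit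 0) (nat_lit 2601411724) (nat_lit 608) (nat_lit 10175799459) (nat_lit 76) (nat_lit 2446465604) (nat_lit 251) (nat_lit 5) (nat_lit 259) (nat_lit 5) (nat_lit 252) (nat_lit 5) (nat_lit 614) (nat_lit 551) (nat_lit 395)) (XT.lf (nat_lit 0) (nat_lit 5732094319) (nat_lit 608) (nat_lit 1098062545) (nat_lit 76) (nat_lit 8568220676) (nat_lit 251) (nat_lit 5) (nat_lit 259) (nat_lit 5) (nat_lit 252) (nat_lit 5) (nat_lit 615) (nat_lit 551) (nat_lit 394))) (XT.nd (nat_lit 78) (nat_lit 532) (nat_lit 0) (XT.lf (nat_lit 0) (nat_lit 8254927693) (nat_lit 532) (nat_lit 713082881) (nat_lit 608) (nat_lit 6607710059) (nat_lit 244) (nat_lit 5) (nat_lit 251) (nat_lit 5) (nat_lit 252) (nat_lit 5) (nat_lit 616) (nat_lit 551) (nat_lit 393)) (XT.lf (nat_lit 0) (nat_lit 2029421066) (nat_lit 532) (nat_lit 10284819773) (nat_lit 608) (nat_lit 3441458547) (nat_lit 237) (nat_lit 5) (nat_lit 244) (nat_lit 5) (nat_lit 245) (nat_lit 5) (nat_lit 617) (nat_lit 551) (nat_lit 392))))) (XT.nd (nat_lit 234)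 (nat_lit 1520) (nat_lit 0) (XT.nd (nat_lit 78) (nat_lit 608) (nat_lit 0) (XT.lf (nat_lit 0) (nat_lit 11646521160) (nat_lit 532) (nat_lit 4123932321) (nat_lit 608) (nat_lit 167963776) (nat_lit 237) (nat_lit 5) (nat_lit 244) (nat_lit 5) (nat_lit 245) (nat_lit 5) (nat_lit 618) (nat_lit 551) (nat_lit 391)) (XT.nd (nat_lit 78) (nat_lit 0) (nat_lit 0) (XT.lf (nat_lit 0) (nat_lit 3168003982) (nat_lit 608) (nat_lit 10771717312) (nat_lit 76) (nat_lit 2183885269) (nat_lit 229) (nat_lit 5) (nat_lit 237) (nat_lit 5) (nat_lit 230) (nat_lit 5) (nat_lit 619) (nat_lit 551) (nat_lit 390)) (XT.lf (nat_lit 0) (nat_lit 6614217448) (nat_lit 608) (nat_lit 1108324897) (nat_lit 76) (nat_lit 8589020254) (nat_lit 229) (nat_lit 5) (nat_lit 237) (nat_lit 5) (nat_lit 230) (nat_lit 5) (nat_lit 620) (nat_lit 551) (nat_lit 389)))) (XT.nd (nat_lit 156) (nat_lit 532) (nat_lit 0) (XT.nd (nat_lit 78) (nat_lit 532) (nat_lit 0) (XT.lf (nat_lit 0) (nat_lit 8850176173) (nat_lit 456) (nat_lit 1326317537)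 (nat_lit 532) (nat_lit 6325841920) (nat_lit 223) (nat_lit 5) (nat_lit 229) (nat_lit 5) (nat_lit 230) (nat_lit 5) (nat_lit 621) (nat_lit 551) (nat_lit 388)) (XT.lf (nat_lit 0) (nat_lit 2308255073) (nat_lit 532) (nat_lit 11547744063) (nat_lit 608) (nat_lit 2840005944) (nat_lit 216) (nat_lit 5) (nat_lit 223) (nat_lit 5) (nat_lit 224) (nat_lit 5) (nat_lit 622) (nat_lit 551) (nat_lit 387))) (XT.nd (nat_lit 78) (nat_lit 456) (nat_lit 0) (XT.lf (nat_lit 0) (nat_lit 756439019) (nat_lit 608) (nat_lit 4349043956) (nat_lit 76) (nat_lit 11786967098) (nat_lit 215) (nat_lit 5) (nat_lit 223) (nat_lit 5) (nat_lit 216) (nat_lit 5) (nat_lit 623) (nat_lit 551) (nat_lit 386)) (XT.lf (nat_lit 0) (nat_lit 4425229432) (nat_lit 532) (nat_lit 11166351681) (nat_lit 76) (nat_lit 1500099116) (nat_lit 209) (nat_lit 5) (nat_lit 216) (nat_lit 5) (nat_lit 210) (nat_lit 5) (nat_lit 624) (nat_lit 551) (nat_lit 385))))))))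
noncomputable def xc148 : XT := (XT.nd (nat_lit 2106) (nat_lit 2204) (nat_lit 0) (XT.nd (nat_lit 1014) (nat_lit 2964) (nat_lit 0) (XT.nd (nat_lit 468) (nat_lit 2128) (nat_lit 0) (XT.nd (nat_lit 234) (nat_lit 532) (nat_lit 0) (XT.nd (nat_lit 78) (nat_lit 912) (nat_lit 0) (XT.lf (nat_lit 0) (nat_lit 8220666184) (nat_lit 532) (nat_lit 878331012) (nat_lit 76) (nat_lit 8194832965) (nat_lit 209) (nat_lit 5) (nat_lit 216) (nat_lit 5) (nat_lit 210) (nat_lit 5) (nat_lit 625) (nat_lit 551) (nat_lit 384)) (XT.nd (nat_lit 78) (nat_lit 456) (nat_lit 0) (XT.lf (nat_lit 0) (nat_lit 9729171243) (nat_lit 456) (nat_lit 2416284872) (nat_lit 532) (nat_lit 5353498659) (nat_lit 203) (nat_lit 5) (nat_lit 209) (nat_lit 5) (nat_lit 210) (nat_lit 5) (nat_lit 626) (nat_lit 551) (nat_lit 383)) (XT.lf (nat_lit 0) (nat_lit 2847449761) (nat_lit 456) (nat_lit 13344631282) (nat_lit 532) (nat_lit 1515234613) (nat_lit 197) (nat_lit 5) (nat_lit 203) (nat_lit 5) (nat_lit 204) (nat_lit 5) (nat_lit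 627) (nat_lit 551) (nat_lit 382)))) (XT.nd (nat_lit 78) (nat_lit 456) (nat_lit 0) (XT.lf (nat_lit 0) (nat_lit 2427193229) (nat_lit 532) (nat_lit 4182369861) (nat_lit 76) (nat_lit 11308792138) (nat_lit 196) (nat_lit 5) (nat_lit 203) (nat_lit 5) (nat_lit 197) (nat_lit 5) (nat_lit 628) (nat_lit 551) (nat_lit 381)) (XT.nd (nat_lit 78) (nat_lit 0) (nat_lit 0) (XT.lf (nat_lit 0) (nat_lit 6464772925) (nat_lit 532) (nat_lit 11360978589) (nat_lit 76) (nat_lit 306932446) (nat_lit 190) (nat_lit 5) (nat_lit 197) (nat_lit 5) (nat_lit 191) (nat_lit 5) (nat_lit 629) (nat_lit 551) (nat_lit 380)) (XT.lf (nat_lit 0) (nat_lit 10645770643) (nat_lit 532) (nat_lit 406925026) (nat_lit 76) (nat_lit 7297350788) (nat_lit 190) (nat_lit 5) (nat_lit 197) (nat_lit 5) (nat_lit 191) (nat_lit 5) (nat_lit 630) (nat_lit 551) (nat_lit 379))))) (XT.nd (nat_lit 234) (nat_lit 1216) (nat_lit 0) (XT.nd (nat_lit 78) (nat_lit 532) (nat_lit 0) (XT.lf (nat_lit 0) (nat_lit 10895593050) (nat_lit 380) (nat_lit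 4076362874) (nat_lit 456) (nat_lit 3598569436) (nat_lit 185) (nat_lit 5) (nat_lit 190) (nat_lit 5) (nat_lit 191) (nat_lit 5) (nat_lit 631) (nat_lit 551) (nat_lit 378)) (XT.nd (nat_lit 78) (nat_lit 0) (nat_lit 0) (XT.lf (nat_lit 0) (nat_lit 618832498) (nat_lit 532) (nat_lit 15149902597) (nat_lit 76) (nat_lit 3025856525) (nat_lit 178) (nat_lit 5) (nat_lit 185) (nat_lit 5) (nat_lit 179) (nat_lit 5) (nat_lit 632) (nat_lit 551) (nat_lit 377)) (XT.lf (nat_lit 0) (nat_lit 4942203886) (nat_lit 532) (nat_lit 3792150096) (nat_lit 76) (nat_lit 10286913848) (nat_lit 178) (nat_lit 5) (nat_lit 185) (nat_lit 5) (nat_lit 179) (nat_lit 5) (nat_lit 633) (nat_lit 551) (nat_lit 376)))) (XT.nd (nat_lit 156) (nat_lit 456) (nat_lit 0) (XT.nd (nat_lit 78) (nat_lit 380) (nat_lit 0) (XT.lf (nat_lit 0) (nat_lit 7882797633) (nat_lit 380) (nat_lit 1511524951) (nat_lit 456) (nat_lit 9857309850) (nat_lit 173) (nat_lit 5) (nat_lit 178) (nat_lit 5) (nat_lit 179) (nat_lit 5) (nat_lit 634) (nat_lit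 551) (nat_lit 375)) (XT.lf (nat_lit 0) (nat_lit 309013092) (nat_lit 380) (nat_lit 13683271339) (nat_lit 456) (nat_lit 5493184344) (nat_lit 168) (nat_lit 5) (nat_lit 173) (nat_lit 5) (nat_lit 174) (nat_lit 5) (nat_lit 635) (nat_lit 551) (nat_lit 374))) (XT.nd (nat_lit 78) (nat_lit 456) (nat_lit 0) (XT.lf (nat_lit 0) (nat_lit 12351066365) (nat_lit 380) (nat_lit 6408620280) (nat_lit 456) (nat_lit 962746028) (nat_lit 168) (nat_lit 5) (nat_lit 173) (nat_lit 5) (nat_lit 174) (nat_lit 5) (nat_lit 636) (nat_lit 551) (nat_lit 373)) (XT.lf (nat_lit 0) (nat_lit 3639059014) (nat_lit 456) (nat_lit 15275650232) (nat_lit 76) (nat_lit 1048377247) (nat_lit 162) (nat_lit 5) (nat_lit 168) (nat_lit 5) (nat_lit 163) (nat_lit 5) (nat_lit 637) (nat_lit 551) (nat_lit 372)))))) (XT.nd (nat_lit 546) (nat_lit 1444) (nat_lit 0) (XT.nd (nat_lit 234) (nat_lit 760) (nat_lit 0) (XT.nd (nat_lit 78) (nat_lit 760) (nat_lit 0) (XT.lf (nat_lit 0) (nat_lit 8403671017) (nat_lit 456) (nat_lit 3182598599)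 (nat_lit 76) (nat_lit 8620483683) (nat_lit 162) (nat_lit 5) (nat_lit 168) (nat_lit 5) (nat_lit 163) (nat_lit 5) (nat_lit 638) (nat_lit 551) (nat_lit 371)) (XT.nd (nat_lit 78) (nat_lit 380) (nat_lit 0) (XT.lf (nat_lit 0) (nat_lit 9260804881) (nat_lit 380) (nat_lit 4054481442) (nat_lit 456) (nat_lit 7138973314) (nat_lit 157) (nat_lit 5) (nat_lit 162) (nat_lit 5) (nat_lit 163) (nat_lit 5) (nat_lit 639) (nat_lit 551) (nat_lit 370)) (XT.lf (nat_lit 0) (nat_lit 1269867938) (nat_lit 380) (nat_lit 17100199830) (nat_lit 456) (nat_lit 2335750066) (nat_lit 152) (nat_lit 5) (nat_lit 157) (nat_lit 5) (nat_lit 158) (nat_lit 5) (nat_lit 640) (nat_lit 551) (nat_lit 369)))) (XT.nd (nat_lit 156) (nat_lit 304) (nat_lit 0) (XT.nd (nat_lit 78) (nat_lit 380) (nat_lit 0) (XT.lf (nat_lit 0) (nat_lit 2624039106) (nat_lit 456) (nat_lit 6883754265) (nat_lit 76) (nat_lit 11452398878) (nat_lit 151) (nat_lit 5) (nat_lit 157) (nat_lit 5) (nat_lit 152) (nat_lit 5) (nat_lit 641) (nat_lit 551)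 (nat_lit 368)) (XT.lf (nat_lit 0) (nat_lit 5969519663) (nat_lit 380) (nat_lit 1712839972) (nat_lit 456) (nat_lit 13536373890) (nat_lit 146) (nat_lit 5) (nat_lit 151) (nat_lit 5) (nat_lit 152) (nat_lit 5) (nat_lit 642) (nat_lit 551) (nat_lit 367))) (XT.nd (nat_lit 78) (nat_lit 304) (nat_lit 0) (XT.lf (nat_lit 0) (nat_lit 12920719298) (nat_lit 456) (nat_lit 2361995514) (nat_lit 76) (nat_lit 6198153738) (nat_lit 146) (nat_lit 5) (nat_lit 152) (nat_lit 5) (nat_lit 147) (nat_lit 5) (nat_lit 643) (nat_lit 551) (nat_lit 366)) (XT.lf (nat_lit 0) (nat_lit 10902020858) (nat_lit 304) (nat_lit 7435983008) (nat_lit 380) (nat_lit 3408759626) (nat_lit 142) (nat_lit 5) (nat_lit 146) (nat_lit 5) (nat_lit 147) (nat_lit 5) (nat_lit 644) (nat_lit 551) (nat_lit 365))))) (XT.nd (nat_lit 234) (nat_lit 684) (nat_lit 0) (XT.nd (nat_lit 78) (nat_lit 304) (nat_lit 0) (XT.lf (nat_lit 0) (nat_lit 1849334062) (nat_lit 456) (nat_lit 19568051429) (nat_lit 76) (nat_lit 599793884) (nat_lit 136)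 (nat_lit 5) (nat_lit 142) (nat_lit 5) (nat_lit 137) (nat_lit 5) (nat_lit 645) (nat_lit 551) (nat_lit 364)) (XT.nd (nat_lit 78) (nat_lit 304) (nat_lit 0) (XT.lf (nat_lit 0) (nat_lit 7281587765) (nat_lit 456) (nat_lit 6220623034) (nat_lit 76) (nat_lit 8788049658) (nat_lit 136) (nat_lit 5) (nat_lit 142) (nat_lit 5) (nat_lit 137) (nat_lit 5) (nat_lit 646) (nat_lit 551) (nat_lit 363)) (XT.lf (nat_lit 0) (nat_lit 7479443486) (nat_lit 304) (nat_lit 5383857476) (nat_lit 380) (nat_lit 9704686254) (nat_lit 132) (nat_lit 5) (nat_lit 136) (nat_lit 5) (nat_lit 137) (nat_lit 5) (nat_lit 647) (nat_lit 551) (nat_lit 362)))) (XT.nd (nat_lit 156) (nat_lit 304) (nat_lit 0) (XT.nd (nat_lit 78) (nat_lit 380) (nat_lit 0) (XT.lf (nat_lit 0) (nat_lit 18609771508) (nat_lit 380) (nat_lit 1344131660) (nat_lit 76) (nat_lit 2896303213) (nat_lit 132) (nat_lit 5) (nat_lit 137) (nat_lit 5) (nat_lit 133) (nat_lit 5) (nat_lit 648) (nat_lit 551) (nat_lit 361)) (XT.lf (nat_lit 0) (nat_lit 1427528414)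 (nat_lit 380) (nat_lit 10350116799) (nat_lit 76) (nat_lit 11358013717) (nat_lit 127) (nat_lit 5) (nat_lit 132) (nat_lit 5) (nat_lit 128) (nat_lit 5) (nat_lit 649) (nat_lit 551) (nat_lit 360))) (XT.nd (nat_lit 78) (nat_lit 0) (nat_lit 0) (XT.lf (nat_lit 0) (nat_lit 3798846946) (nat_lit 304) (nat_lit 3379487118) (nat_lit 380) (nat_lit 16247400947) (nat_lit 123) (nat_lit 5) (nat_lit 127) (nat_lit 5) (nat_lit 128) (nat_lit 5) (nat_lit 650) (nat_lit 551) (nat_lit 359)) (XT.lf (nat_lit 0) (nat_lit 13140249376) (nat_lit 380) (nat_lit 5395531733) (nat_lit 76) (nat_lit 5183909942) (nat_lit 123) (nat_lit 5) (nat_lit 128) (nat_lit 5) (nat_lit 124) (nat_lit 5) (nat_lit 651) (nat_lit 551) (nat_lit 358))))))) (XT.nd (nat_lit 73554) (nat_lit 0) (nat_lit 33820) (XT.nd (nat_lit 468) (nat_lit 912) (nat_lit 0) (XT.nd (nat_lit 234) (nat_lit 608) (nat_lit 0) (XT.nd (nat_lit 78) (nat_lit 380) (nat_lit 0) (XT.lf (nat_lit 0) (nat_lit 9206798556) (nat_lit 304) (nat_lit 10089412558) (nat_lit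 380) (nat_lit 4721819239) (nat_lit 119) (nat_lit 5) (nat_lit 123) (nat_lit 5) (nat_lit 124) (nat_lit 5) (nat_lit 652) (nat_lit 551) (nat_lit 357)) (XT.nd (nat_lit 78) (nat_lit 304) (nat_lit 0) (XT.lf (nat_lit 0) (nat_lit 1265638356) (nat_lit 380) (nat_lit 167713710) (nat_lit 76) (nat_lit 22888239657) (nat_lit 118) (nat_lit 5) (nat_lit 123) (nat_lit 5) (nat_lit 119) (nat_lit 5) (nat_lit 653) (nat_lit 551) (nat_lit 356)) (XT.lf (nat_lit 0) (nat_lit 7448207885) (nat_lit 380) (nat_lit 9756346642) (nat_lit 76) (nat_lit 7423274096) (nat_lit 114) (nat_lit 5) (nat_lit 119) (nat_lit 5) (nat_lit 115) (nat_lit 5) (nat_lit 654) (nat_lit 551) (nat_lit 355)))) (XT.nd (nat_lit 78) (nat_lit 304) (nat_lit 0) (XT.lf (nat_lit 0) (nat_lit 5322027717) (nat_lit 304) (nat_lit 8470427986) (nat_lit 380) (nat_lit 11146974301) (nat_lit 110) (nat_lit 5) (nat_lit 114) (nat_lit 5) (nat_lit 115) (nat_lit 5) (nat_lit 655) (nat_lit 551) (nat_lit 354)) (XT.nd (nat_lit 78) (nat_lit 304) (nat_lit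 0) (XT.lf (nat_lit 0) (nat_lit 20325219552) (nat_lit 380) (nat_lit 4436887282) (nat_lit 76) (nat_lit 493924232) (nat_lit 110) (nat_lit 5) (nat_lit 115) (nat_lit 5) (nat_lit 111) (nat_lit 5) (nat_lit 656) (nat_lit 551) (nat_lit 353)) (XT.lf (nat_lit 0) (nat_lit 1513339487) (nat_lit 304) (nat_lit 14461079366) (nat_lit 76) (nat_lit 9601919448) (nat_lit 106) (nat_lit 5) (nat_lit 110) (nat_lit 5) (nat_lit 107) (nat_lit 5) (nat_lit 657) (nat_lit 551) (nat_lit 352))))) (XT.nd (nat_lit 234) (nat_lit 380) (nat_lit 0) (XT.nd (nat_lit 78) (nat_lit 228) (nat_lit 0) (XT.lf (nat_lit 0) (nat_lit 1106134374) (nat_lit 304) (nat_lit 6944466373) (nat_lit 380) (nat_lit 17851194323) (nat_lit 102) (nat_lit 5) (nat_lit 106) (nat_lit 5) (nat_lit 107) (nat_lit 5) (nat_lit 658) (nat_lit 551) (nat_lit 351)) (XT.nd (nat_lit 78) (nat_lit 228) (nat_lit 0) (XT.lf (nat_lit 0) (nat_lit 14824071569) (nat_lit 380) (nat_lit 9078147121) (nat_lit 76) (nat_lit 2329433252) (nat_lit 102) (nat_lit 5) (nat_lit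 107) (nat_lit 5) (nat_lit 103) (nat_lit 5) (nat_lit 659) (nat_lit 551) (nat_lit 350)) (XT.lf (nat_lit 0) (nat_lit 6987916315) (nat_lit 228) (nat_lit 14829658754) (nat_lit 304) (nat_lit 4748839865) (nat_lit 99) (nat_lit 5) (nat_lit 102) (nat_lit 5) (nat_lit 103) (nat_lit 5) (nat_lit 660) (nat_lit 551) (nat_lit 349)))) (XT.nd (nat_lit 72696) (nat_lit 0) (nat_lit 36632) (XT.nd (nat_lit 78) (nat_lit 304) (nat_lit 0) (XT.lf (nat_lit 0) (nat_lit 2070820469) (nat_lit 304) (nat_lit 3433438885) (nat_lit 76) (nat_lit 21402257966) (nat_lit 98) (nat_lit 5) (nat_lit 102) (nat_lit 5) (nat_lit 99) (nat_lit 5) (nat_lit 661) (nat_lit 551) (nat_lit 348)) (XT.lf (nat_lit 0) (nat_lit 9068934500) (nat_lit 380) (nat_lit 14113502389) (nat_lit 76) (nat_lit 4068244353) (nat_lit 94) (nat_lit 5) (nat_lit 99) (nat_lit 5) (nat_lit 95) (nat_lit 5) (nat_lit 662) (nat_lit 551) (nat_lit 347))) (XT.nd (nat_lit 78) (nat_lit 0) (nat_lit 0) (XT.lf (nat_lit 0) (nat_lit 1020597700) (nat_lit 0) (nat_lit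 1020597700) (nat_lit 1444) (nat_lit 2157473423) (nat_lit 576) (nat_lit 5) (nat_lit 576) (nat_lit 3) (nat_lit 595) (nat_lit 3) (nat_lit 552) (nat_lit 552) (nat_lit 456)) (XT.lf (nat_lit 0) (nat_lit 5199971965) (nat_lit 1444) (nat_lit 2203566869) (nat_lit 1520) (nat_lit 1056124229) (nat_lit 576) (nat_lit 5) (nat_lit 595) (nat_lit 3) (nat_lit 596) (nat_lit 5) (nat_lit 553) (nat_lit 552) (nat_lit 455)))))) (XT.nd (nat_lit 546) (nat_lit 1368) (nat_lit 0) (XT.nd (nat_lit 234) (nat_lit 0) (nat_lit 0) (XT.nd (nat_lit 78) (nat_lit 1444) (nat_lit 0) (XT.lf (nat_lit 76) (nat_lit 2030486334) (nat_lit 0) (nat_lit 4308149153) (nat_lit 1520) (nat_lit 2184627845) (nat_lit 577) (nat_lit 5) (nat_lit 576) (nat_lit 5) (nat_lit 596) (nat_lit 5) (nat_lit 554) (nat_lit 552) (nat_lit 454)) (XT.nd (nat_lit 78) (nat_lit 1444) (nat_lit 0) (XT.lf (nat_lit 76) (nat_lit 6364501125) (nat_lit 0) (nat_lit 1122841583) (nat_lit 1520) (nat_lit 1101050391) (nat_lit 577) (nat_lit 5) (nat_lit 576) (nat_lit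 5) (nat_lit 596) (nat_lit 5) (nat_lit 555) (nat_lit 552) (nat_lit 453)) (XT.lf (nat_lit 0) (nat_lit 4881865) (nat_lit 1520) (nat_lit 6525277817) (nat_lit 1596) (nat_lit 2124653257) (nat_lit 557) (nat_lit 5) (nat_lit 577) (nat_lit 5) (nat_lit 578) (nat_lit 5) (nat_lit 556) (nat_lit 552) (nat_lit 452)))) (XT.nd (nat_lit 156) (nat_lit 0) (nat_lit 76) (XT.nd (nat_lit 78) (nat_lit 0) (nat_lit 76) (XT.lf (nat_lit 0) (nat_lit 1114020058) (nat_lit 1520) (nat_lit 2152099685) (nat_lit 1596) (nat_lit 5456382000) (nat_lit 557) (nat_lit 5) (nat_lit 577) (nat_lit 5) (nat_lit 578) (nat_lit 5) (nat_lit 557) (nat_lit 552) (nat_lit 451)) (XT.lf (nat_lit 0) (nat_lit 2234894638) (nat_lit 1520) (nat_lit 6468216150) (nat_lit 1596) (nat_lit 88645144) (nat_lit 558) (nat_lit 5) (nat_lit 578) (nat_lit 5) (nat_lit 579) (nat_lit 5) (nat_lit 558) (nat_lit 552) (nat_lit 450))) (XT.nd (nat_lit 78) (nat_lit 0) (nat_lit 0) (XT.lf (nat_lit 0) (nat_lit 3388721575) (nat_lit 1520) (nat_lit 1981346030)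 (nat_lit 1596) (nat_lit 3492119529) (nat_lit 558) (nat_lit 5) (nat_lit 578) (nat_lit 5) (nat_lit 579) (nat_lit 5) (nat_lit 559) (nat_lit 552) (nat_lit 449)) (XT.lf (nat_lit 76) (nat_lit 2614473919) (nat_lit 0) (nat_lit 1942996199) (nat_lit 1596) (nat_lit 4376722518) (nat_lit 559) (nat_lit 5) (nat_lit 558) (nat_lit 5) (nat_lit 579) (nat_lit 5) (nat_lit 560) (nat_lit 552) (nat_lit 448))))) (XT.nd (nat_lit 234) (nat_lit 1520) (nat_lit 0) (XT.nd (nat_lit 78) (nat_lit 0) (nat_lit 0) (XT.lf (nat_lit 0) (nat_lit 5748387187) (nat_lit 1520) (nat_lit 1704011301) (nat_lit 1596) (nat_lit 1555266413) (nat_lit 559) (nat_lit 5) (nat_lit 579) (nat_lit 5) (nat_lit 580) (nat_lit 5) (nat_lit 561) (nat_lit 552) (nat_lit 447)) (XT.nd (nat_lit 78) (nat_lit 0) (nat_lit 0) (XT.lf (nat_lit 76) (nat_lit 3015457439) (nat_lit 0) (nat_lit 3955923789) (nat_lit 1596) (nat_lit 2111062688) (nat_lit 560) (nat_lit 5) (nat_lit 559) (nat_lit 5) (nat_lit 580) (nat_lit 5) (nat_lit 562) (nat_lit 552)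 (nat_lit 446)) (XT.lf (nat_lit 76) (nat_lit 7837280532) (nat_lit 0) (nat_lit 369178191) (nat_lit 1596) (nat_lit 952509744) (nat_lit 560) (nat_lit 5) (nat_lit 559) (nat_lit 5) (nat_lit 580) (nat_lit 5) (nat_lit 563) (nat_lit 552) (nat_lit 445)))) (XT.nd (nat_lit 156) (nat_lit 0) (nat_lit 76) (XT.nd (nat_lit 78) (nat_lit 0) (nat_lit 0) (XT.lf (nat_lit 0) (nat_lit 247318413) (nat_lit 1596) (nat_lit 5710163105) (nat_lit 1672) (nat_lit 3279092353) (nat_lit 539) (nat_lit 5) (nat_lit 560) (nat_lit 5) (nat_lit 561) (nat_lit 5) (nat_lit 564) (nat_lit 552) (nat_lit 444)) (XT.lf (nat_lit 0) (nat_lit 1446688087) (nat_lit 1596) (nat_lit 850547506) (nat_lit 1672) (nat_lit 7018606175) (nat_lit 539) (nat_lit 5) (nat_lit 560) (nat_lit 5) (nat_lit 561) (nat_lit 5) (nat_lit 565) (nat_lit 552) (nat_lit 443))) (XT.nd (nat_lit 78) (nat_lit 0) (nat_lit 0) (XT.lf (nat_lit 0) (nat_lit 2683877504) (nat_lit 1596) (nat_lit 5260798857) (nat_lit 1672) (nat_lit 1451744257) (nat_lit 540) (nat_lit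 5) (nat_lit 561) (nat_lit 5) (nat_lit 562) (nat_lit 5) (nat_lit 566) (nat_lit 552) (nat_lit 442)) (XT.lf (nat_lit 0) (nat_lit 3944528151) (nat_lit 1596) (nat_lit 276362015) (nat_lit 1672) (nat_lit 5257748731) (nat_lit 540) (nat_lit 5) (nat_lit 561) (nat_lit 5) (nat_lit 562) (nat_lit 5) (nat_lit 567) (nat_lit 552) (nat_lit 441))))))))
noncomputable def xc149 : XT := (XT.nd (nat_lit 2106) (nat_lit 10260) (nat_lit 0) (XT.nd (nat_lit 1014) (nat_lit 7144) (nat_lit 0) (XT.nd (nat_lit 468) (nat_lit 5168) (nat_lit 0) (XT.nd (nat_lit 234) (nat_lit 1520) (nat_lit 0) (XT.nd (nat_lit 78) (nat_lit 0) (nat_lit 76) (XT.lf (nat_lit 76) (nat_lit 4856101568) (nat_lit 0) (nat_lit 384013920) (nat_lit 1672) (nat_lit 4322193733) (nat_lit 541) (nat_lit 5) (nat_lit 540) (nat_lit 5) (nat_lit 562) (nat_lit 5) (nat_lit 568) (nat_lit 552) (nat_lit 440)) (XT.nd (nat_lit 78) (nat_lit 0) (nat_lit 0) (XT.lf (nat_lit 76) (nat_lit 414125537) (nat_lit 0) (nat_lit 6153524757) (nat_lit 1672) (nat_lit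 3079884058) (nat_lit 542) (nat_lit 5) (nat_lit 541) (nat_lit 5) (nat_lit 563) (nat_lit 5) (nat_lit 569) (nat_lit 552) (nat_lit 439)) (XT.lf (nat_lit 76) (nat_lit 5682464043) (nat_lit 0) (nat_lit 2252261829) (nat_lit 1672) (nat_lit 1799480383) (nat_lit 542) (nat_lit 5) (nat_lit 541) (nat_lit 5) (nat_lit 563) (nat_lit 5) (nat_lit 570) (nat_lit 552) (nat_lit 438)))) (XT.nd (nat_lit 78) (nat_lit 1672) (nat_lit 0) (XT.lf (nat_lit 76) (nat_lit 1222616395) (nat_lit 0) (nat_lit 8105009216) (nat_lit 1672) (nat_lit 495018364) (nat_lit 543) (nat_lit 5) (nat_lit 542) (nat_lit 5) (nat_lit 564) (nat_lit 5) (nat_lit 571) (nat_lit 552) (nat_lit 437)) (XT.nd (nat_lit 78) (nat_lit 0) (nat_lit 0) (XT.lf (nat_lit 0) (nat_lit 846358126) (nat_lit 1672) (nat_lit 3291376454) (nat_lit 1748) (nat_lit 5774573655) (nat_lit 520) (nat_lit 5) (nat_lit 542) (nat_lit 5) (nat_lit 543) (nat_lit 5) (nat_lit 572) (nat_lit 552) (nat_lit 436)) (XT.lf (nat_lit 76) (nat_lit 2132516327) (nat_lit 0) (nat_lit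 69169795) (nat_lit 1748) (nat_lit 7802141089) (nat_lit 521) (nat_lit 5) (nat_lit 520) (nat_lit 5) (nat_lit 543) (nat_lit 5) (nat_lit 573) (nat_lit 552) (nat_lit 435))))) (XT.nd (nat_lit 234) (nat_lit 5244) (nat_lit 0) (XT.nd (nat_lit 78) (nat_lit 0) (nat_lit 0) (XT.lf (nat_lit 0) (nat_lit 3613070413) (nat_lit 1672) (nat_lit 2429818202) (nat_lit 1748) (nat_lit 4053710831) (nat_lit 521) (nat_lit 5) (nat_lit 543) (nat_lit 5) (nat_lit 544) (nat_lit 5) (nat_lit 574) (nat_lit 552) (nat_lit 434)) (XT.nd (nat_lit 78) (nat_lit 0) (nat_lit 76) (XT.lf (nat_lit 76) (nat_lit 3145670423) (nat_lit 0) (nat_lit 1908503190) (nat_lit 1748) (nat_lit 5137025529) (nat_lit 522) (nat_lit 5) (nat_lit 521) (nat_lit 5) (nat_lit 544) (nat_lit 5) (nat_lit 575) (nat_lit 552) (nat_lit 433)) (XT.lf (nat_lit 0) (nat_lit 6536412997) (nat_lit 1672) (nat_lit 1452792137) (nat_lit 76) (nat_lit 2298241219) (nat_lit 522) (nat_lit 5) (nat_lit 544) (nat_lit 5) (nat_lit 523) (nat_lit 5) (nat_lit 576) (nat_lit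 552) (nat_lit 432)))) (XT.nd (nat_lit 156) (nat_lit 3648) (nat_lit 0) (XT.nd (nat_lit 78) (nat_lit 0) (nat_lit 0) (XT.lf (nat_lit 0) (nat_lit 4279664822) (nat_lit 1672) (nat_lit 3790344145) (nat_lit 1748) (nat_lit 2315177074) (nat_lit 500) (nat_lit 5) (nat_lit 522) (nat_lit 5) (nat_lit 523) (nat_lit 5) (nat_lit 577) (nat_lit 552) (nat_lit 431)) (XT.lf (nat_lit 0) (nat_lit 9628859466) (nat_lit 1748) (nat_lit 357394533) (nat_lit 76) (nat_lit 498736604) (nat_lit 500) (nat_lit 5) (nat_lit 523) (nat_lit 5) (nat_lit 501) (nat_lit 5) (nat_lit 578) (nat_lit 552) (nat_lit 430))) (XT.nd (nat_lit 78) (nat_lit 1824) (nat_lit 0) (XT.lf (nat_lit 0) (nat_lit 667076998) (nat_lit 1824) (nat_lit 5052700643) (nat_lit 76) (nat_lit 4866067776) (nat_lit 476) (nat_lit 5) (nat_lit 500) (nat_lit 5) (nat_lit 477) (nat_lit 5) (nat_lit 579) (nat_lit 552) (nat_lit 429)) (XT.lf (nat_lit 0) (nat_lit 847361670) (nat_lit 1824) (nat_lit 1351917394) (nat_lit 1900) (nat_lit 8489526850) (nat_lit 452)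 (nat_lit 5) (nat_lit 476) (nat_lit 5) (nat_lit 477) (nat_lit 5) (nat_lit 580) (nat_lit 552) (nat_lit 428)))))) (XT.nd (nat_lit 546) (nat_lit 3344) (nat_lit 0) (XT.nd (nat_lit 234) (nat_lit 2736) (nat_lit 0) (XT.nd (nat_lit 78) (nat_lit 1064) (nat_lit 0) (XT.lf (nat_lit 0) (nat_lit 3798734951) (nat_lit 1900) (nat_lit 3895605941) (nat_lit 76) (nat_lit 3098754134) (nat_lit 452) (nat_lit 5) (nat_lit 477) (nat_lit 5) (nat_lit 453) (nat_lit 5) (nat_lit 581) (nat_lit 552) (nat_lit 427)) (XT.nd (nat_lit 78) (nat_lit 0) (nat_lit 0) (XT.lf (nat_lit 0) (nat_lit 2173008034) (nat_lit 1064) (nat_lit 3262910362) (nat_lit 1140) (nat_lit 5463438326) (nat_lit 438) (nat_lit 5) (nat_lit 452) (nat_lit 5) (nat_lit 453) (nat_lit 5) (nat_lit 582) (nat_lit 552) (nat_lit 426)) (XT.lf (nat_lit 0) (nat_lit 7123247412) (nat_lit 1140) (nat_lit 2615693094) (nat_lit 76) (nat_lit 1268456647) (nat_lit 438) (nat_lit 5) (nat_lit 453) (nat_lit 5) (nat_lit 439) (nat_lit 5) (nat_lit 583) (nat_lit 552)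 (nat_lit 425)))) (XT.nd (nat_lit 156) (nat_lit 1824) (nat_lit 0) (XT.nd (nat_lit 78) (nat_lit 0) (nat_lit 0) (XT.lf (nat_lit 0) (nat_lit 3627517815) (nat_lit 912) (nat_lit 5245225896) (nat_lit 988) (nat_lit 2244287778) (nat_lit 426) (nat_lit 5) (nat_lit 438) (nat_lit 5) (nat_lit 439) (nat_lit 5) (nat_lit 584) (nat_lit 552) (nat_lit 424)) (XT.lf (nat_lit 0) (nat_lit 10015527478) (nat_lit 912) (nat_lit 642742368) (nat_lit 988) (nat_lit 570569345) (nat_lit 426) (nat_lit 5) (nat_lit 438) (nat_lit 5) (nat_lit 439) (nat_lit 5) (nat_lit 585) (nat_lit 552) (nat_lit 423))) (XT.nd (nat_lit 78) (nat_lit 836) (nat_lit 0) (XT.lf (nat_lit 0) (nat_lit 1165989453) (nat_lit 988) (nat_lit 6134722458) (nat_lit 76) (nat_lit 4041139505) (nat_lit 413) (nat_lit 5) (nat_lit 426) (nat_lit 5) (nat_lit 414) (nat_lit 5) (nat_lit 586) (nat_lit 552) (nat_lit 422)) (XT.lf (nat_lit 0) (nat_lit 295590020) (nat_lit 836) (nat_lit 2632355447) (nat_lit 912) (nat_lit 8529138265) (nat_lit 402) (nat_lit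 5) (nat_lit 413) (nat_lit 5) (nat_lit 414) (nat_lit 5) (nat_lit 587) (nat_lit 552) (nat_lit 421))))) (XT.nd (nat_lit 234) (nat_lit 2508) (nat_lit 0) (XT.nd (nat_lit 78) (nat_lit 836) (nat_lit 0) (XT.lf (nat_lit 0) (nat_lit 4764549003) (nat_lit 912) (nat_lit 4666107932) (nat_lit 76) (nat_lit 2143176957) (nat_lit 402) (nat_lit 5) (nat_lit 414) (nat_lit 5) (nat_lit 403) (nat_lit 5) (nat_lit 588) (nat_lit 552) (nat_lit 420)) (XT.nd (nat_lit 78) (nat_lit 0) (nat_lit 0) (XT.lf (nat_lit 0) (nat_lit 1951782879) (nat_lit 836) (nat_lit 4700661017) (nat_lit 912) (nat_lit 5040185313) (nat_lit 391) (nat_lit 5) (nat_lit 402) (nat_lit 5) (nat_lit 403) (nat_lit 5) (nat_lit 589) (nat_lit 552) (nat_lit 419)) (XT.lf (nat_lit 0) (nat_lit 8595078563) (nat_lit 912) (nat_lit 3064677163) (nat_lit 76) (nat_lit 153706384) (nat_lit 391) (nat_lit 5) (nat_lit 403) (nat_lit 5) (nat_lit 392) (nat_lit 5) (nat_lit 590) (nat_lit 552) (nat_lit 418)))) (XT.nd (nat_lit 156) (nat_lit 1596) (nat_lit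 0) (XT.nd (nat_lit 78) (nat_lit 76) (nat_lit 0) (XT.lf (nat_lit 0) (nat_lit 3747571762) (nat_lit 836) (nat_lit 6869414717) (nat_lit 912) (nat_lit 1318918066) (nat_lit 380) (nat_lit 5) (nat_lit 391) (nat_lit 5) (nat_lit 392) (nat_lit 5) (nat_lit 591) (nat_lit 552) (nat_lit 417)) (XT.lf (nat_lit 0) (nat_lit 616180551) (nat_lit 912) (nat_lit 1342490115) (nat_lit 76) (nat_lit 10101930963) (nat_lit 379) (nat_lit 5) (nat_lit 391) (nat_lit 5) (nat_lit 380) (nat_lit 5) (nat_lit 592) (nat_lit 552) (nat_lit 416))) (XT.nd (nat_lit 78) (nat_lit 760) (nat_lit 0) (XT.lf (nat_lit 0) (nat_lit 2614736962) (nat_lit 912) (nat_lit 6516360620) (nat_lit 76) (nat_lit 3055673602) (nat_lit 368) (nat_lit 5) (nat_lit 380) (nat_lit 5) (nat_lit 369) (nat_lit 5) (nat_lit 593) (nat_lit 552) (nat_lit 415)) (XT.lf (nat_lit 0) (nat_lit 504628319) (nat_lit 760) (nat_lit 4159484085) (nat_lit 836) (nat_lit 7651135956) (nat_lit 358) (nat_lit 5) (nat_lit 368) (nat_lit 5) (nat_lit 369) (nat_lit 5) (nat_lit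 594) (nat_lit 552) (nat_lit 414))))))) (XT.nd (nat_lit 1092) (nat_lit 4636) (nat_lit 0) (XT.nd (nat_lit 546) (nat_lit 2660) (nat_lit 0) (XT.nd (nat_lit 234) (nat_lit 2204) (nat_lit 0) (XT.nd (nat_lit 78) (nat_lit 760) (nat_lit 0) (XT.lf (nat_lit 0) (nat_lit 6790120571) (nat_lit 836) (nat_lit 4712881041) (nat_lit 76) (nat_lit 942581731) (nat_lit 358) (nat_lit 5) (nat_lit 369) (nat_lit 5) (nat_lit 359) (nat_lit 5) (nat_lit 595) (nat_lit 552) (nat_lit 413)) (XT.nd (nat_lit 78) (nat_lit 0) (nat_lit 0) (XT.lf (nat_lit 0) (nat_lit 2516962698) (nat_lit 760) (nat_lit 6471563414) (nat_lit 836) (nat_lit 3589402516) (nat_lit 348) (nat_lit 5) (nat_lit 358) (nat_lit 5) (nat_lit 359) (nat_lit 5) (nat_lit 596) (nat_lit 552) (nat_lit 412)) (XT.lf (nat_lit 0) (nat_lit 9940074200) (nat_lit 760) (nat_lit 1308616589) (nat_lit 836) (nat_lit 1463875328) (nat_lit 348) (nat_lit 5) (nat_lit 358) (nat_lit 5) (nat_lit 359) (nat_lit 5) (nat_lit 597) (nat_lit 552) (nat_lit 411)))) (XT.nd (nat_lit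 156) (nat_lit 1444) (nat_lit 0) (XT.nd (nat_lit 78) (nat_lit 0) (nat_lit 0) (XT.lf (nat_lit 0) (nat_lit 737731129) (nat_lit 760) (nat_lit 8171613918) (nat_lit 76) (nat_lit 3939604870) (nat_lit 338) (nat_lit 5) (nat_lit 348) (nat_lit 5) (nat_lit 339) (nat_lit 5) (nat_lit 598) (nat_lit 552) (nat_lit 410)) (XT.lf (nat_lit 0) (nat_lit 2977687174) (nat_lit 760) (nat_lit 707690323) (nat_lit 76) (nat_lit 9302213053) (nat_lit 338) (nat_lit 5) (nat_lit 348) (nat_lit 5) (nat_lit 339) (nat_lit 5) (nat_lit 599) (nat_lit 552) (nat_lit 409))) (XT.nd (nat_lit 78) (nat_lit 684) (nat_lit 0) (XT.lf (nat_lit 0) (nat_lit 5305502382) (nat_lit 836) (nat_lit 6157196369) (nat_lit 76) (nat_lit 1665445081) (nat_lit 328) (nat_lit 5) (nat_lit 339) (nat_lit 5) (nat_lit 329) (nat_lit 5) (nat_lit 600) (nat_lit 552) (nat_lit 408)) (XT.lf (nat_lit 0) (nat_lit 1521745434) (nat_lit 684) (nat_lit 6184117381) (nat_lit 760) (nat_lit 5565126601) (nat_lit 319) (nat_lit 5) (nat_lit 328) (nat_lit 5) (nat_lit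 329) (nat_lit 5) (nat_lit 601) (nat_lit 552) (nat_lit 407))))) (XT.nd (nat_lit 234) (nat_lit 1900) (nat_lit 0) (XT.nd (nat_lit 78) (nat_lit 760) (nat_lit 0) (XT.lf (nat_lit 0) (nat_lit 9422715573) (nat_lit 684) (nat_lit 759913715) (nat_lit 760) (nat_lit 3233495643) (nat_lit 319) (nat_lit 5) (nat_lit 328) (nat_lit 5) (nat_lit 329) (nat_lit 5) (nat_lit 602) (nat_lit 552) (nat_lit 406)) (XT.nd (nat_lit 78) (nat_lit 76) (nat_lit 0) (XT.lf (nat_lit 0) (nat_lit 3923045881) (nat_lit 684) (nat_lit 8829665035) (nat_lit 760) (nat_lit 810577621) (nat_lit 310) (nat_lit 5) (nat_lit 319) (nat_lit 5) (nat_lit 320) (nat_lit 5) (nat_lit 603) (nat_lit 552) (nat_lit 405)) (XT.lf (nat_lit 0) (nat_lit 1658413986) (nat_lit 760) (nat_lit 1691920161) (nat_lit 76) (nat_lit 10362458607) (nat_lit 309) (nat_lit 5) (nat_lit 319) (nat_lit 5) (nat_lit 310) (nat_lit 5) (nat_lit 604) (nat_lit 552) (nat_lit 404)))) (XT.nd (nat_lit 156) (nat_lit 608) (nat_lit 0) (XT.nd (nat_lit 78) (nat_lit 684)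 (nat_lit 0) (XT.lf (nat_lit 0) (nat_lit 4210485501) (nat_lit 684) (nat_lit 7399164059) (nat_lit 76) (nat_lit 2254640184) (nat_lit 301) (nat_lit 5) (nat_lit 310) (nat_lit 5) (nat_lit 302) (nat_lit 5) (nat_lit 605) (nat_lit 552) (nat_lit 403)) (XT.lf (nat_lit 0) (nat_lit 762527631) (nat_lit 684) (nat_lit 6077406107) (nat_lit 760) (nat_lit 7178357132) (nat_lit 292) (nat_lit 5) (nat_lit 301) (nat_lit 5) (nat_lit 302) (nat_lit 5) (nat_lit 606) (nat_lit 552) (nat_lit 402))) (XT.nd (nat_lit 78) (nat_lit 608) (nat_lit 0) (XT.lf (nat_lit 0) (nat_lit 9172981091) (nat_lit 684) (nat_lit 386554033) (nat_lit 760) (nat_lit 4615086494) (nat_lit 292) (nat_lit 5) (nat_lit 301) (nat_lit 5) (nat_lit 302) (nat_lit 5) (nat_lit 607) (nat_lit 552) (nat_lit 401)) (XT.lf (nat_lit 0) (nat_lit 3412440513) (nat_lit 608) (nat_lit 8966553700) (nat_lit 684) (nat_lit 1954176322) (nat_lit 284) (nat_lit 5) (nat_lit 292) (nat_lit 5) (nat_lit 293) (nat_lit 5) (nat_lit 608) (nat_lit 552) (nat_lit 400))))))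 (XT.nd (nat_lit 546) (nat_lit 2128) (nat_lit 0) (XT.nd (nat_lit 234) (nat_lit 1216) (nat_lit 0) (XT.nd (nat_lit 78) (nat_lit 1216) (nat_lit 0) (XT.lf (nat_lit 0) (nat_lit 774522240) (nat_lit 684) (nat_lit 2454095726) (nat_lit 76) (nat_lit 11265683872) (nat_lit 283) (nat_lit 5) (nat_lit 292) (nat_lit 5) (nat_lit 284) (nat_lit 5) (nat_lit 609) (nat_lit 552) (nat_lit 399)) (XT.nd (nat_lit 78) (nat_lit 608) (nat_lit 0) (XT.lf (nat_lit 0) (nat_lit 3577937721) (nat_lit 684) (nat_lit 8438945112) (nat_lit 76) (nat_lit 2640589223) (nat_lit 275) (nat_lit 5) (nat_lit 284) (nat_lit 5) (nat_lit 276) (nat_lit 5) (nat_lit 610) (nat_lit 552) (nat_lit 398)) (XT.lf (nat_lit 0) (nat_lit 241378849) (nat_lit 608) (nat_lit 6224106138) (nat_lit 684) (nat_lit 8357860222) (nat_lit 267) (nat_lit 5) (nat_lit 275) (nat_lit 5) (nat_lit 276) (nat_lit 5) (nat_lit 611) (nat_lit 552) (nat_lit 397)))) (XT.nd (nat_lit 156) (nat_lit 608) (nat_lit 0) (XT.nd (nat_lit 78) (nat_lit 608) (nat_lit 0) (XT.lf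 (nat_lit 0) (nat_lit 9195209476) (nat_lit 608) (nat_lit 260871525) (nat_lit 684) (nat_lit 5535549653) (nat_lit 267) (nat_lit 5) (nat_lit 275) (nat_lit 5) (nat_lit 276) (nat_lit 5) (nat_lit 612) (nat_lit 552) (nat_lit 396)) (XT.lf (nat_lit 0) (nat_lit 3153991572) (nat_lit 608) (nat_lit 9399643157) (nat_lit 684) (nat_lit 2608704934) (nat_lit 259) (nat_lit 5) (nat_lit 267) (nat_lit 5) (nat_lit 268) (nat_lit 5) (nat_lit 613) (nat_lit 552) (nat_lit 395))) (XT.nd (nat_lit 78) (nat_lit 532) (nat_lit 0) (XT.lf (nat_lit 0) (nat_lit 401540538) (nat_lit 684) (nat_lit 2992594963) (nat_lit 76) (nat_lit 11941683096) (nat_lit 258) (nat_lit 5) (nat_lit 267) (nat_lit 5) (nat_lit 259) (nat_lit 5) (nat_lit 614) (nat_lit 552) (nat_lit 394)) (XT.lf (nat_lit 0) (nat_lit 3484933755) (nat_lit 608) (nat_lit 9275884086) (nat_lit 76) (nat_lit 2750647657) (nat_lit 251) (nat_lit 5) (nat_lit 259) (nat_lit 5) (nat_lit 252) (nat_lit 5) (nat_lit 615) (nat_lit 552) (nat_lit 393))))) (XT.nd (nat_lit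 234) (nat_lit 1064) (nat_lit 0) (XT.nd (nat_lit 78) (nat_lit 1064) (nat_lit 0) (XT.lf (nat_lit 0) (nat_lit 6661926202) (nat_lit 608) (nat_lit 38228343) (nat_lit 76) (nat_lit 8989832875) (nat_lit 251) (nat_lit 5) (nat_lit 259) (nat_lit 5) (nat_lit 252) (nat_lit 5) (nat_lit 616) (nat_lit 552) (nat_lit 392)) (XT.nd (nat_lit 78) (nat_lit 532) (nat_lit 0) (XT.lf (nat_lit 0) (nat_lit 9494704625) (nat_lit 532) (nat_lit 458849565) (nat_lit 608) (nat_lit 5917504373) (nat_lit 244) (nat_lit 5) (nat_lit 251) (nat_lit 5) (nat_lit 252) (nat_lit 5) (nat_lit 617) (nat_lit 552) (nat_lit 391)) (XT.lf (nat_lit 0) (nat_lit 3151955892) (nat_lit 532) (nat_lit 10207679430) (nat_lit 608) (nat_lit 2695144080) (nat_lit 237) (nat_lit 5) (nat_lit 244) (nat_lit 5) (nat_lit 245) (nat_lit 5) (nat_lit 618) (nat_lit 552) (nat_lit 390)))) (XT.nd (nat_lit 156) (nat_lit 456) (nat_lit 0) (XT.nd (nat_lit 78) (nat_lit 532) (nat_lit 0) (XT.lf (nat_lit 0) (nat_lit 619603178) (nat_lit 608) (nat_lit 3305359006)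 (nat_lit 76) (nat_lit 12316422311) (nat_lit 236) (nat_lit 5) (nat_lit 244) (nat_lit 5) (nat_lit 237) (nat_lit 5) (nat_lit 619) (nat_lit 552) (nat_lit 389)) (XT.lf (nat_lit 0) (nat_lit 4013333150) (nat_lit 608) (nat_lit 9909129987) (nat_lit 76) (nat_lit 2507927382) (nat_lit 229) (nat_lit 5) (nat_lit 237) (nat_lit 5) (nat_lit 230) (nat_lit 5) (nat_lit 620) (nat_lit 552) (nat_lit 388))) (XT.nd (nat_lit 78) (nat_lit 456) (nat_lit 0) (XT.lf (nat_lit 0) (nat_lit 7513138158) (nat_lit 608) (nat_lit 73607404) (nat_lit 76) (nat_lit 9035667726) (nat_lit 229) (nat_lit 5) (nat_lit 237) (nat_lit 5) (nat_lit 230) (nat_lit 5) (nat_lit 621) (nat_lit 552) (nat_lit 387)) (XT.lf (nat_lit 0) (nat_lit 10077110503) (nat_lit 456) (nat_lit 1061334204) (nat_lit 532) (nat_lit 5678722314) (nat_lit 223) (nat_lit 5) (nat_lit 229) (nat_lit 5) (nat_lit 230) (nat_lit 5) (nat_lit 622) (nat_lit 552) (nat_lit 386))))))))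
noncomputable def xc150 : XT := (XT.nd (nat_lit 2106) (nat_lit 2584) (nat_lit 0) (XT.nd (nat_lit 1014) (nat_lit 3116) (nat_lit 0) (XT.nd (nat_lit 468) (nat_lit 1824) (nat_lit 0) (XT.nd (nat_lit 234) (nat_lit 912) (nat_lit 0) (XT.nd (nat_lit 78) (nat_lit 532) (nat_lit 0) (XT.lf (nat_lit 0) (nat_lit 3410678540) (nat_lit 532) (nat_lit 11474704193) (nat_lit 608) (nat_lit 2129451198) (nat_lit 216) (nat_lit 5) (nat_lit 223) (nat_lit 5) (nat_lit 224) (nat_lit 5) (nat_lit 623) (nat_lit 552) (nat_lit 385)) (XT.nd (nat_lit 78) (nat_lit 456) (nat_lit 0) (XT.lf (nat_lit 0) (nat_lit 1514009827) (nat_lit 608) (nat_lit 3390566562) (nat_lit 76) (nat_lit 12310829653) (nat_lit 215) (nat_lit 5) (nat_lit 223) (nat_lit 5) (nat_lit 216) (nat_lit 5) (nat_lit 624) (nat_lit 552) (nat_lit 384)) (XT.lf (nat_lit 0) (nat_lit 5250334976) (nat_lit 532) (nat_lit 10338336043) (nat_lit 76) (nat_lit 1830067469) (nat_lit 209) (nat_lit 5) (nat_lit 216) (nat_lit 5) (nat_lit 210) (nat_lit 5) (nat_lit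 625) (nat_lit 552) (nat_lit 383)))) (XT.nd (nat_lit 78) (nat_lit 456) (nat_lit 0) (XT.lf (nat_lit 0) (nat_lit 136622302) (nat_lit 456) (nat_lit 8971502046) (nat_lit 532) (nat_lit 8517079042) (nat_lit 203) (nat_lit 5) (nat_lit 209) (nat_lit 5) (nat_lit 210) (nat_lit 5) (nat_lit 626) (nat_lit 552) (nat_lit 382)) (XT.nd (nat_lit 78) (nat_lit 456) (nat_lit 0) (XT.lf (nat_lit 0) (nat_lit 10947701671) (nat_lit 456) (nat_lit 2155309552) (nat_lit 532) (nat_lit 4731588083) (nat_lit 203) (nat_lit 5) (nat_lit 209) (nat_lit 5) (nat_lit 210) (nat_lit 5) (nat_lit 627) (nat_lit 552) (nat_lit 381)) (XT.lf (nat_lit 0) (nat_lit 3933854548) (nat_lit 456) (nat_lit 13291354155) (nat_lit 532) (nat_lit 822026717) (nat_lit 197) (nat_lit 5) (nat_lit 203) (nat_lit 5) (nat_lit 204) (nat_lit 5) (nat_lit 628) (nat_lit 552) (nat_lit 380))))) (XT.nd (nat_lit 234) (nat_lit 912) (nat_lit 0) (XT.nd (nat_lit 78) (nat_lit 836) (nat_lit 0) (XT.lf (nat_lit 0) (nat_lit 3175760221) (nat_lit 532) (nat_lit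 3247404693) (nat_lit 76) (nat_lit 11839517714) (nat_lit 196) (nat_lit 5) (nat_lit 203) (nat_lit 5) (nat_lit 197) (nat_lit 5) (nat_lit 629) (nat_lit 552) (nat_lit 379)) (XT.nd (nat_lit 78) (nat_lit 380) (nat_lit 0) (XT.lf (nat_lit 0) (nat_lit 7289007012) (nat_lit 532) (nat_lit 10564462624) (nat_lit 76) (nat_lit 627930760) (nat_lit 190) (nat_lit 5) (nat_lit 197) (nat_lit 5) (nat_lit 191) (nat_lit 5) (nat_lit 630) (nat_lit 552) (nat_lit 378)) (XT.lf (nat_lit 0) (nat_lit 596420931) (nat_lit 380) (nat_lit 10947449864) (nat_lit 456) (nat_lit 7159435178) (nat_lit 185) (nat_lit 5) (nat_lit 190) (nat_lit 5) (nat_lit 191) (nat_lit 5) (nat_lit 631) (nat_lit 552) (nat_lit 377)))) (XT.nd (nat_lit 156) (nat_lit 380) (nat_lit 0) (XT.nd (nat_lit 78) (nat_lit 532) (nat_lit 0) (XT.lf (nat_lit 0) (nat_lit 12110564161) (nat_lit 380) (nat_lit 3835257765) (nat_lit 456) (nat_lit 2982588425) (nat_lit 185) (nat_lit 5) (nat_lit 190) (nat_lit 5) (nat_lit 191) (nat_lit 5) (nat_lit 632) (nat_lit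 552) (nat_lit 376)) (XT.lf (nat_lit 0) (nat_lit 1305441637) (nat_lit 532) (nat_lit 14442049691) (nat_lit 76) (nat_lit 3409471933) (nat_lit 178) (nat_lit 5) (nat_lit 185) (nat_lit 5) (nat_lit 179) (nat_lit 5) (nat_lit 633) (nat_lit 552) (nat_lit 375))) (XT.nd (nat_lit 78) (nat_lit 380) (nat_lit 0) (XT.lf (nat_lit 0) (nat_lit 5702060207) (nat_lit 532) (nat_lit 2876962747) (nat_lit 76) (nat_lit 10809415142) (nat_lit 178) (nat_lit 5) (nat_lit 185) (nat_lit 5) (nat_lit 179) (nat_lit 5) (nat_lit 634) (nat_lit 552) (nat_lit 374)) (XT.lf (nat_lit 0) (nat_lit 9024964000) (nat_lit 380) (nat_lit 1211688350) (nat_lit 456) (nat_lit 9386889705) (nat_lit 173) (nat_lit 5) (nat_lit 178) (nat_lit 5) (nat_lit 179) (nat_lit 5) (nat_lit 635) (nat_lit 552) (nat_lit 373)))))) (XT.nd (nat_lit 546) (nat_lit 1444) (nat_lit 0) (XT.nd (nat_lit 234) (nat_lit 836) (nat_lit 0) (XT.nd (nat_lit 78) (nat_lit 456) (nat_lit 0) (XT.lf (nat_lit 0) (nat_lit 1304134503) (nat_lit 380) (nat_lit 13618128565)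 (nat_lit 456) (nat_lit 4939878931) (nat_lit 168) (nat_lit 5) (nat_lit 173) (nat_lit 5) (nat_lit 174) (nat_lit 5) (nat_lit 636) (nat_lit 552) (nat_lit 372)) (XT.nd (nat_lit 78) (nat_lit 456) (nat_lit 0) (XT.lf (nat_lit 0) (nat_lit 13567637839) (nat_lit 380) (nat_lit 6204627782) (nat_lit 456) (nat_lit 331835164) (nat_lit 168) (nat_lit 5) (nat_lit 173) (nat_lit 5) (nat_lit 174) (nat_lit 5) (nat_lit 637) (nat_lit 552) (nat_lit 371)) (XT.lf (nat_lit 0) (nat_lit 4349390076) (nat_lit 456) (nat_lit 14598933435) (nat_lit 76) (nat_lit 1401242154) (nat_lit 162) (nat_lit 5) (nat_lit 168) (nat_lit 5) (nat_lit 163) (nat_lit 5) (nat_lit 638) (nat_lit 552) (nat_lit 370)))) (XT.nd (nat_lit 156) (nat_lit 456) (nat_lit 0) (XT.nd (nat_lit 78) (nat_lit 380) (nat_lit 0) (XT.lf (nat_lit 0) (nat_lit 9196793341) (nat_lit 456) (nat_lit 2283280177) (nat_lit 76) (nat_lit 9118282927) (nat_lit 162) (nat_lit 5) (nat_lit 168) (nat_lit 5) (nat_lit 163) (nat_lit 5) (nat_lit 639) (nat_lit 552) (nat_lit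 369)) (XT.lf (nat_lit 0) (nat_lit 10402656041) (nat_lit 380) (nat_lit 3797940161) (nat_lit 456) (nat_lit 6650338210) (nat_lit 157) (nat_lit 5) (nat_lit 162) (nat_lit 5) (nat_lit 163) (nat_lit 5) (nat_lit 640) (nat_lit 552) (nat_lit 368))) (XT.nd (nat_lit 78) (nat_lit 76) (nat_lit 0) (XT.lf (nat_lit 0) (nat_lit 2255757777) (nat_lit 380) (nat_lit 17096963457) (nat_lit 456) (nat_lit 1754878173) (nat_lit 152) (nat_lit 5) (nat_lit 157) (nat_lit 5) (nat_lit 158) (nat_lit 5) (nat_lit 641) (nat_lit 552) (nat_lit 367)) (XT.lf (nat_lit 0) (nat_lit 3283731632) (nat_lit 456) (nat_lit 6071671946) (nat_lit 76) (nat_lit 12011819695) (nat_lit 151) (nat_lit 5) (nat_lit 157) (nat_lit 5) (nat_lit 152) (nat_lit 5) (nat_lit 642) (nat_lit 552) (nat_lit 366))))) (XT.nd (nat_lit 234) (nat_lit 760) (nat_lit 0) (XT.nd (nat_lit 78) (nat_lit 304) (nat_lit 0) (XT.lf (nat_lit 0) (nat_lit 7032419057) (nat_lit 380) (nat_lit 1405019289) (nat_lit 456) (nat_lit 13193613195) (nat_lit 146) (nat_lit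 5) (nat_lit 151) (nat_lit 5) (nat_lit 152) (nat_lit 5) (nat_lit 643) (nat_lit 552) (nat_lit 365)) (XT.nd (nat_lit 78) (nat_lit 304) (nat_lit 0) (XT.lf (nat_lit 0) (nat_lit 13770949872) (nat_lit 456) (nat_lit 1474583795) (nat_lit 76) (nat_lit 6653088455) (nat_lit 146) (nat_lit 5) (nat_lit 152) (nat_lit 5) (nat_lit 147) (nat_lit 5) (nat_lit 644) (nat_lit 552) (nat_lit 364)) (XT.lf (nat_lit 0) (nat_lit 12048563880) (nat_lit 304) (nat_lit 7242440467) (nat_lit 380) (nat_lit 2878942670) (nat_lit 142) (nat_lit 5) (nat_lit 146) (nat_lit 5) (nat_lit 147) (nat_lit 5) (nat_lit 645) (nat_lit 552) (nat_lit 363)))) (XT.nd (nat_lit 156) (nat_lit 304) (nat_lit 0) (XT.nd (nat_lit 78) (nat_lit 0) (nat_lit 0) (XT.lf (nat_lit 0) (nat_lit 2473181936) (nat_lit 456) (nat_lit 19019726598) (nat_lit 76) (nat_lit 952851314) (nat_lit 136) (nat_lit 5) (nat_lit 142) (nat_lit 5) (nat_lit 137) (nat_lit 5) (nat_lit 646) (nat_lit 552) (nat_lit 362)) (XT.lf (nat_lit 0) (nat_lit 8002573632) (nat_lit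 456) (nat_lit 5423774848) (nat_lit 76) (nat_lit 9298184722) (nat_lit 136) (nat_lit 5) (nat_lit 142) (nat_lit 5) (nat_lit 137) (nat_lit 5) (nat_lit 647) (nat_lit 552) (nat_lit 361))) (XT.nd (nat_lit 78) (nat_lit 0) (nat_lit 0) (XT.lf (nat_lit 0) (nat_lit 8544232077) (nat_lit 304) (nat_lit 5146349645) (nat_lit 380) (nat_lit 9317340057) (nat_lit 132) (nat_lit 5) (nat_lit 136) (nat_lit 5) (nat_lit 137) (nat_lit 5) (nat_lit 648) (nat_lit 552) (nat_lit 360)) (XT.lf (nat_lit 0) (nat_lit 19543002146) (nat_lit 380) (nat_lit 464755732) (nat_lit 76) (nat_lit 3288207530) (nat_lit 132) (nat_lit 5) (nat_lit 137) (nat_lit 5) (nat_lit 133) (nat_lit 5) (nat_lit 649) (nat_lit 552) (nat_lit 359))))))) (XT.nd (nat_lit 73632) (nat_lit 0) (nat_lit 33440) (XT.nd (nat_lit 468) (nat_lit 1216) (nat_lit 0) (XT.nd (nat_lit 234) (nat_lit 684) (nat_lit 0) (XT.nd (nat_lit 78) (nat_lit 304) (nat_lit 0) (XT.lf (nat_lit 0) (nat_lit 2015663750) (nat_lit 380) (nat_lit 9649362764) (nat_lit 76) (nat_lit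 11922130450) (nat_lit 127) (nat_lit 5) (nat_lit 132) (nat_lit 5) (nat_lit 128) (nat_lit 5) (nat_lit 650) (nat_lit 552) (nat_lit 358)) (XT.nd (nat_lit 78) (nat_lit 0) (nat_lit 0) (XT.lf (nat_lit 0) (nat_lit 4776608174) (nat_lit 304) (nat_lit 3099760069) (nat_lit 380) (nat_lit 16006769127) (nat_lit 123) (nat_lit 5) (nat_lit 127) (nat_lit 5) (nat_lit 128) (nat_lit 5) (nat_lit 651) (nat_lit 552) (nat_lit 357)) (XT.lf (nat_lit 0) (nat_lit 13948860745) (nat_lit 380) (nat_lit 4610656466) (nat_lit 76) (nat_lit 5623628993) (nat_lit 123) (nat_lit 5) (nat_lit 128) (nat_lit 5) (nat_lit 124) (nat_lit 5) (nat_lit 652) (nat_lit 552) (nat_lit 356)))) (XT.nd (nat_lit 78) (nat_lit 380) (nat_lit 0) (XT.lf (nat_lit 0) (nat_lit 10277846837) (nat_lit 304) (nat_lit 9945151218) (nat_lit 380) (nat_lit 4264553553) (nat_lit 119) (nat_lit 5) (nat_lit 123) (nat_lit 5) (nat_lit 124) (nat_lit 5) (nat_lit 653) (nat_lit 552) (nat_lit 355)) (XT.nd (nat_lit 78) (nat_lit 0) (nat_lit 0) (XT.lf (nat_lit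 0) (nat_lit 714945562) (nat_lit 304) (nat_lit 1114438049) (nat_lit 380) (nat_lit 22967850058) (nat_lit 114) (nat_lit 5) (nat_lit 118) (nat_lit 5) (nat_lit 119) (nat_lit 5) (nat_lit 654) (nat_lit 552) (nat_lit 354)) (XT.lf (nat_lit 0) (nat_lit 8128370195) (nat_lit 380) (nat_lit 9072223409) (nat_lit 76) (nat_lit 7909146806) (nat_lit 114) (nat_lit 5) (nat_lit 119) (nat_lit 5) (nat_lit 115) (nat_lit 5) (nat_lit 655) (nat_lit 552) (nat_lit 353))))) (XT.nd (nat_lit 234) (nat_lit 608) (nat_lit 0) (XT.nd (nat_lit 78) (nat_lit 304) (nat_lit 0) (XT.lf (nat_lit 0) (nat_lit 6301933896) (nat_lit 304) (nat_lit 8292824541) (nat_lit 380) (nat_lit 10832910680) (nat_lit 110) (nat_lit 5) (nat_lit 114) (nat_lit 5) (nat_lit 115) (nat_lit 5) (nat_lit 656) (nat_lit 552) (nat_lit 352)) (XT.nd (nat_lit 78) (nat_lit 304) (nat_lit 0) (XT.lf (nat_lit 0) (nat_lit 21250063799) (nat_lit 380) (nat_lit 3661152400) (nat_lit 76) (nat_lit 839548678) (nat_lit 110) (nat_lit 5) (nat_lit 115) (nat_lit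 5) (nat_lit 111) (nat_lit 5) (nat_lit 657) (nat_lit 552) (nat_lit 351)) (XT.lf (nat_lit 0) (nat_lit 2060780106) (nat_lit 304) (nat_lit 13884623440) (nat_lit 76) (nat_lit 10132098807) (nat_lit 106) (nat_lit 5) (nat_lit 110) (nat_lit 5) (nat_lit 107) (nat_lit 5) (nat_lit 658) (nat_lit 552) (nat_lit 350)))) (XT.nd (nat_lit 156) (nat_lit 304) (nat_lit 0) (XT.nd (nat_lit 78) (nat_lit 0) (nat_lit 0) (XT.lf (nat_lit 0) (nat_lit 1988239327) (nat_lit 304) (nat_lit 6735990176) (nat_lit 380) (nat_lit 17685330273) (nat_lit 102) (nat_lit 5) (nat_lit 106) (nat_lit 5) (nat_lit 107) (nat_lit 5) (nat_lit 659) (nat_lit 552) (nat_lit 349)) (XT.lf (nat_lit 0) (nat_lit 15625329539) (nat_lit 380) (nat_lit 8408731500) (nat_lit 76) (nat_lit 2712109920) (nat_lit 102) (nat_lit 5) (nat_lit 107) (nat_lit 5) (nat_lit 103) (nat_lit 5) (nat_lit 660) (nat_lit 552) (nat_lit 348))) (XT.nd (nat_lit 78) (nat_lit 76) (nat_lit 0) (XT.lf (nat_lit 0) (nat_lit 7973054661) (nat_lit 228) (nat_lit 14781239637)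 (nat_lit 304) (nat_lit 4333423453) (nat_lit 99) (nat_lit 5) (nat_lit 102) (nat_lit 5) (nat_lit 103) (nat_lit 5) (nat_lit 661) (nat_lit 552) (nat_lit 347)) (XT.lf (nat_lit 0) (nat_lit 2606059732) (nat_lit 304) (nat_lit 2666723652) (nat_lit 76) (nat_lit 22161970401) (nat_lit 98) (nat_lit 5) (nat_lit 102) (nat_lit 5) (nat_lit 99) (nat_lit 5) (nat_lit 662) (nat_lit 552) (nat_lit 346)))))) (XT.nd (nat_lit 546) (nat_lit 1368) (nat_lit 0) (XT.nd (nat_lit 234) (nat_lit 1520) (nat_lit 0) (XT.nd (nat_lit 78) (nat_lit 0) (nat_lit 0) (XT.lf (nat_lit 0) (nat_lit 1572441234) (nat_lit 0) (nat_lit 1572441234) (nat_lit 1444) (nat_lit 1116390385) (nat_lit 576) (nat_lit 5) (nat_lit 576) (nat_lit 3) (nat_lit 595) (nat_lit 3) (nat_lit 553) (nat_lit 553) (nat_lit 454)) (XT.nd (nat_lit 78) (nat_lit 0) (nat_lit 0) (XT.lf (nat_lit 0) (nat_lit 7381251316) (nat_lit 1444) (nat_lit 1156949320) (nat_lit 1520) (nat_lit 48890321) (nat_lit 576) (nat_lit 5) (nat_lit 595) (nat_lit 3) (nat_lit 596)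 (nat_lit 5) (nat_lit 554) (nat_lit 553) (nat_lit 453)) (XT.lf (nat_lit 76) (nat_lit 3154609362) (nat_lit 0) (nat_lit 5354382655) (nat_lit 1520) (nat_lit 143649446) (nat_lit 577) (nat_lit 5) (nat_lit 576) (nat_lit 5) (nat_lit 596) (nat_lit 5) (nat_lit 555) (nat_lit 553) (nat_lit 452)))) (XT.nd (nat_lit 156) (nat_lit 0) (nat_lit 76) (XT.nd (nat_lit 78) (nat_lit 0) (nat_lit 76) (XT.lf (nat_lit 0) (nat_lit 908648199) (nat_lit 1520) (nat_lit 1171798314) (nat_lit 1596) (nat_lit 6639313384) (nat_lit 556) (nat_lit 5) (nat_lit 576) (nat_lit 5) (nat_lit 577) (nat_lit 5) (nat_lit 556) (nat_lit 553) (nat_lit 451)) (XT.lf (nat_lit 0) (nat_lit 1983588107) (nat_lit 1520) (nat_lit 5527918855) (nat_lit 1596) (nat_lit 1276627032) (nat_lit 557) (nat_lit 5) (nat_lit 577) (nat_lit 5) (nat_lit 578) (nat_lit 5) (nat_lit 557) (nat_lit 553) (nat_lit 450))) (XT.nd (nat_lit 78) (nat_lit 0) (nat_lit 0) (XT.lf (nat_lit 0) (nat_lit 3076112817) (nat_lit 1520) (nat_lit 1089392151) (nat_lit 1596)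 (nat_lit 4692451513) (nat_lit 557) (nat_lit 5) (nat_lit 577) (nat_lit 5) (nat_lit 578) (nat_lit 5) (nat_lit 558) (nat_lit 553) (nat_lit 449)) (XT.lf (nat_lit 76) (nat_lit 3469092191) (nat_lit 0) (nat_lit 718814332) (nat_lit 1596) (nat_lit 4741323100) (nat_lit 558) (nat_lit 5) (nat_lit 557) (nat_lit 5) (nat_lit 578) (nat_lit 5) (nat_lit 559) (nat_lit 553) (nat_lit 448))))) (XT.nd (nat_lit 234) (nat_lit 1520) (nat_lit 0) (XT.nd (nat_lit 78) (nat_lit 0) (nat_lit 0) (XT.lf (nat_lit 0) (nat_lit 5322816569) (nat_lit 1520) (nat_lit 901257205) (nat_lit 1596) (nat_lit 2777839371) (nat_lit 558) (nat_lit 5) (nat_lit 578) (nat_lit 5) (nat_lit 579) (nat_lit 5) (nat_lit 560) (nat_lit 553) (nat_lit 447)) (XT.nd (nat_lit 78) (nat_lit 0) (nat_lit 76) (XT.lf (nat_lit 76) (nat_lit 3779112593) (nat_lit 0) (nat_lit 2706455077) (nat_lit 1596) (nat_lit 2590382285) (nat_lit 559) (nat_lit 5) (nat_lit 558) (nat_lit 5) (nat_lit 579) (nat_lit 5) (nat_lit 561) (nat_lit 553) (nat_lit 446))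 (XT.lf (nat_lit 0) (nat_lit 7659672159) (nat_lit 1520) (nat_lit 606738286) (nat_lit 1596) (nat_lit 885297517) (nat_lit 559) (nat_lit 5) (nat_lit 579) (nat_lit 5) (nat_lit 580) (nat_lit 5) (nat_lit 562) (nat_lit 553) (nat_lit 445)))) (XT.nd (nat_lit 156) (nat_lit 0) (nat_lit 76) (XT.nd (nat_lit 78) (nat_lit 1596) (nat_lit 0) (XT.lf (nat_lit 76) (nat_lit 4199676715) (nat_lit 0) (nat_lit 4679524629) (nat_lit 1596) (nat_lit 349343313) (nat_lit 560) (nat_lit 5) (nat_lit 559) (nat_lit 5) (nat_lit 580) (nat_lit 5) (nat_lit 563) (nat_lit 553) (nat_lit 444)) (XT.lf (nat_lit 0) (nat_lit 786556383) (nat_lit 1596) (nat_lit 216572619) (nat_lit 1672) (nat_lit 8304064225) (nat_lit 538) (nat_lit 5) (nat_lit 559) (nat_lit 5) (nat_lit 560) (nat_lit 5) (nat_lit 564) (nat_lit 553) (nat_lit 443))) (XT.nd (nat_lit 78) (nat_lit 0) (nat_lit 0) (XT.lf (nat_lit 0) (nat_lit 1966774342) (nat_lit 1596) (nat_lit 4668090836) (nat_lit 1672) (nat_lit 2751980091) (nat_lit 539) (nat_lit 5) (nat_lit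 560) (nat_lit 5) (nat_lit 561) (nat_lit 5) (nat_lit 565) (nat_lit 553) (nat_lit 442)) (XT.lf (nat_lit 76) (nat_lit 269580603) (nat_lit 0) (nat_lit 2888683268) (nat_lit 1672) (nat_lit 6310075335) (nat_lit 540) (nat_lit 5) (nat_lit 539) (nat_lit 5) (nat_lit 561) (nat_lit 5) (nat_lit 566) (nat_lit 553) (nat_lit 441))))))))
noncomputable def xc151 : XT := (XT.nd (nat_lit 2106) (nat_lit 11400) (nat_lit 0) (XT.nd (nat_lit 1014) (nat_lit 7372) (nat_lit 0) (XT.nd (nat_lit 468) (nat_lit 3344) (nat_lit 0) (XT.nd (nat_lit 234) (nat_lit 1520) (nat_lit 0) (XT.nd (nat_lit 78) (nat_lit 0) (nat_lit 0) (XT.lf (nat_lit 0) (nat_lit 4389364540) (nat_lit 1596) (nat_lit 4203165841) (nat_lit 1672) (nat_lit 958619169) (nat_lit 540) (nat_lit 5) (nat_lit 561) (nat_lit 5) (nat_lit 562) (nat_lit 5) (nat_lit 567) (nat_lit 553) (nat_lit 440)) (XT.nd (nat_lit 78) (nat_lit 0) (nat_lit 0) (XT.lf (nat_lit 76) (nat_lit 869563255) (nat_lit 0) (nat_lit 4778922304) (nat_lit 1672) (nat_lit 3987064688)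 (nat_lit 541) (nat_lit 5) (nat_lit 540) (nat_lit 5) (nat_lit 562) (nat_lit 5) (nat_lit 568) (nat_lit 553) (nat_lit 439)) (XT.lf (nat_lit 76) (nat_lit 6085771317) (nat_lit 0) (nat_lit 854167443) (nat_lit 1672) (nat_lit 2781559276) (nat_lit 541) (nat_lit 5) (nat_lit 540) (nat_lit 5) (nat_lit 562) (nat_lit 5) (nat_lit 569) (nat_lit 553) (nat_lit 438)))) (XT.nd (nat_lit 78) (nat_lit 1596) (nat_lit 0) (XT.lf (nat_lit 76) (nat_lit 1582334187) (nat_lit 0) (nat_lit 6685002356) (nat_lit 1672) (nat_lit 1541627957) (nat_lit 542) (nat_lit 5) (nat_lit 541) (nat_lit 5) (nat_lit 563) (nat_lit 5) (nat_lit 570) (nat_lit 553) (nat_lit 437)) (XT.nd (nat_lit 78) (nat_lit 1596) (nat_lit 0) (XT.lf (nat_lit 76) (nat_lit 6933295813) (nat_lit 0) (nat_lit 2697706187) (nat_lit 1672) (nat_lit 266985891) (nat_lit 542) (nat_lit 5) (nat_lit 541) (nat_lit 5) (nat_lit 563) (nat_lit 5) (nat_lit 571) (nat_lit 553) (nat_lit 436)) (XT.lf (nat_lit 0) (nat_lit 1024300577) (nat_lit 1672) (nat_lit 7585387589)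 (nat_lit 1748) (nat_lit 1378877311) (nat_lit 520) (nat_lit 5) (nat_lit 542) (nat_lit 5) (nat_lit 543) (nat_lit 5) (nat_lit 572) (nat_lit 553) (nat_lit 435))))) (XT.nd (nat_lit 234) (nat_lit 3344) (nat_lit 0) (XT.nd (nat_lit 78) (nat_lit 0) (nat_lit 0) (XT.lf (nat_lit 0) (nat_lit 2356027652) (nat_lit 1672) (nat_lit 2197044889) (nat_lit 1748) (nat_lit 5527484858) (nat_lit 520) (nat_lit 5) (nat_lit 542) (nat_lit 5) (nat_lit 543) (nat_lit 5) (nat_lit 573) (nat_lit 553) (nat_lit 434)) (XT.nd (nat_lit 78) (nat_lit 0) (nat_lit 76) (XT.lf (nat_lit 76) (nat_lit 3327693122) (nat_lit 0) (nat_lit 388982593) (nat_lit 1748) (nat_lit 6457669555) (nat_lit 521) (nat_lit 5) (nat_lit 520) (nat_lit 5) (nat_lit 543) (nat_lit 5) (nat_lit 574) (nat_lit 553) (nat_lit 433)) (XT.lf (nat_lit 0) (nat_lit 5125418503) (nat_lit 1672) (nat_lit 1317480833) (nat_lit 1748) (nat_lit 3826693731) (nat_lit 521) (nat_lit 5) (nat_lit 543) (nat_lit 5) (nat_lit 544) (nat_lit 5) (nat_lit 575) (nat_lit 553)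 (nat_lit 432)))) (XT.nd (nat_lit 156) (nat_lit 3420) (nat_lit 0) (XT.nd (nat_lit 78) (nat_lit 0) (nat_lit 76) (XT.lf (nat_lit 76) (nat_lit 4361879844) (nat_lit 0) (nat_lit 2212714893) (nat_lit 1748) (nat_lit 3791907680) (nat_lit 522) (nat_lit 5) (nat_lit 521) (nat_lit 5) (nat_lit 544) (nat_lit 5) (nat_lit 576) (nat_lit 553) (nat_lit 431)) (XT.lf (nat_lit 0) (nat_lit 8056955308) (nat_lit 1672) (nat_lit 321510686) (nat_lit 76) (nat_lit 2086801676) (nat_lit 522) (nat_lit 5) (nat_lit 544) (nat_lit 5) (nat_lit 523) (nat_lit 5) (nat_lit 577) (nat_lit 553) (nat_lit 430))) (XT.nd (nat_lit 78) (nat_lit 1824) (nat_lit 0) (XT.lf (nat_lit 0) (nat_lit 5517961614) (nat_lit 1672) (nat_lit 4083494444) (nat_lit 1748) (nat_lit 963904011) (nat_lit 500) (nat_lit 5) (nat_lit 522) (nat_lit 5) (nat_lit 523) (nat_lit 5) (nat_lit 578) (nat_lit 553) (nat_lit 429)) (XT.lf (nat_lit 0) (nat_lit 494267392) (nat_lit 1824) (nat_lit 9866392137) (nat_lit 76) (nat_lit 306899161) (nat_lit 476) (nat_lit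 5) (nat_lit 500) (nat_lit 5) (nat_lit 477) (nat_lit 5) (nat_lit 579) (nat_lit 553) (nat_lit 428)))))) (XT.nd (nat_lit 546) (nat_lit 3496) (nat_lit 0) (XT.nd (nat_lit 234) (nat_lit 2052) (nat_lit 0) (XT.nd (nat_lit 78) (nat_lit 1824) (nat_lit 0) (XT.lf (nat_lit 0) (nat_lit 2012264090) (nat_lit 1824) (nat_lit 3985080518) (nat_lit 76) (nat_lit 4773459480) (nat_lit 476) (nat_lit 5) (nat_lit 500) (nat_lit 5) (nat_lit 477) (nat_lit 5) (nat_lit 580) (nat_lit 553) (nat_lit 427)) (XT.nd (nat_lit 78) (nat_lit 0) (nat_lit 0) (XT.lf (nat_lit 0) (nat_lit 2025294397) (nat_lit 1824) (nat_lit 1531239069) (nat_lit 1900) (nat_lit 7319664241) (nat_lit 452) (nat_lit 5) (nat_lit 476) (nat_lit 5) (nat_lit 477) (nat_lit 5) (nat_lit 581) (nat_lit 553) (nat_lit 426)) (XT.lf (nat_lit 0) (nat_lit 5161258764) (nat_lit 1900) (nat_lit 2808460665) (nat_lit 76) (nat_lit 3013389899) (nat_lit 452) (nat_lit 5) (nat_lit 477) (nat_lit 5) (nat_lit 453) (nat_lit 5) (nat_lit 582) (nat_lit 553) (nat_lit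 425)))) (XT.nd (nat_lit 156) (nat_lit 988) (nat_lit 0) (XT.nd (nat_lit 78) (nat_lit 0) (nat_lit 0) (XT.lf (nat_lit 0) (nat_lit 3373860739) (nat_lit 1064) (nat_lit 3439613246) (nat_lit 1140) (nat_lit 4278378797) (nat_lit 438) (nat_lit 5) (nat_lit 452) (nat_lit 5) (nat_lit 453) (nat_lit 5) (nat_lit 583) (nat_lit 553) (nat_lit 424)) (XT.lf (nat_lit 0) (nat_lit 8508961035) (nat_lit 1140) (nat_lit 1507607749) (nat_lit 76) (nat_lit 1185999250) (nat_lit 438) (nat_lit 5) (nat_lit 453) (nat_lit 5) (nat_lit 439) (nat_lit 5) (nat_lit 584) (nat_lit 553) (nat_lit 423))) (XT.nd (nat_lit 78) (nat_lit 76) (nat_lit 0) (XT.lf (nat_lit 0) (nat_lit 4852833172) (nat_lit 912) (nat_lit 5423721177) (nat_lit 988) (nat_lit 1038180763) (nat_lit 426) (nat_lit 5) (nat_lit 438) (nat_lit 5) (nat_lit 439) (nat_lit 5) (nat_lit 585) (nat_lit 553) (nat_lit 422)) (XT.lf (nat_lit 0) (nat_lit 636030260) (nat_lit 988) (nat_lit 87446665) (nat_lit 76) (nat_lit 10705701436) (nat_lit 425) (nat_lit 5) (nat_lit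 438) (nat_lit 5) (nat_lit 426) (nat_lit 5) (nat_lit 586) (nat_lit 553) (nat_lit 421))))) (XT.nd (nat_lit 234) (nat_lit 1748) (nat_lit 0) (XT.nd (nat_lit 78) (nat_lit 836) (nat_lit 0) (XT.lf (nat_lit 0) (nat_lit 2382989883) (nat_lit 988) (nat_lit 5094263107) (nat_lit 76) (nat_lit 4067458289) (nat_lit 413) (nat_lit 5) (nat_lit 426) (nat_lit 5) (nat_lit 414) (nat_lit 5) (nat_lit 587) (nat_lit 553) (nat_lit 420)) (XT.nd (nat_lit 78) (nat_lit 0) (nat_lit 0) (XT.lf (nat_lit 0) (nat_lit 1457003293) (nat_lit 836) (nat_lit 2707278503) (nat_lit 912) (nat_lit 7498286540) (nat_lit 402) (nat_lit 5) (nat_lit 413) (nat_lit 5) (nat_lit 414) (nat_lit 5) (nat_lit 588) (nat_lit 553) (nat_lit 419)) (XT.lf (nat_lit 0) (nat_lit 6014381934) (nat_lit 912) (nat_lit 3603250509) (nat_lit 76) (nat_lit 2164487756) (nat_lit 402) (nat_lit 5) (nat_lit 414) (nat_lit 5) (nat_lit 403) (nat_lit 5) (nat_lit 589) (nat_lit 553) (nat_lit 418)))) (XT.nd (nat_lit 156) (nat_lit 912) (nat_lit 0) (XT.nd (nat_lit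 78) (nat_lit 0) (nat_lit 0) (XT.lf (nat_lit 0) (nat_lit 3139391674) (nat_lit 836) (nat_lit 4785462273) (nat_lit 912) (nat_lit 3978743044) (nat_lit 391) (nat_lit 5) (nat_lit 402) (nat_lit 5) (nat_lit 403) (nat_lit 5) (nat_lit 590) (nat_lit 553) (nat_lit 417)) (XT.lf (nat_lit 0) (nat_lit 9884059529) (nat_lit 912) (nat_lit 1977541168) (nat_lit 76) (nat_lit 165693402) (nat_lit 391) (nat_lit 5) (nat_lit 403) (nat_lit 5) (nat_lit 392) (nat_lit 5) (nat_lit 591) (nat_lit 553) (nat_lit 416))) (XT.nd (nat_lit 78) (nat_lit 76) (nat_lit 0) (XT.lf (nat_lit 0) (nat_lit 4963397279) (nat_lit 836) (nat_lit 6968512119) (nat_lit 912) (nat_lit 220567785) (nat_lit 380) (nat_lit 5) (nat_lit 391) (nat_lit 5) (nat_lit 392) (nat_lit 5) (nat_lit 592) (nat_lit 553) (nat_lit 415)) (XT.lf (nat_lit 0) (nat_lit 1716717519) (nat_lit 912) (nat_lit 236283984) (nat_lit 76) (nat_lit 10326957742) (nat_lit 379) (nat_lit 5) (nat_lit 391) (nat_lit 5) (nat_lit 380) (nat_lit 5) (nat_lit 593) (nat_lit 553)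 (nat_lit 414))))))) (XT.nd (nat_lit 1092) (nat_lit 4788) (nat_lit 0) (XT.nd (nat_lit 546) (nat_lit 2736) (nat_lit 0) (XT.nd (nat_lit 234) (nat_lit 2280) (nat_lit 0) (XT.nd (nat_lit 78) (nat_lit 760) (nat_lit 0) (XT.lf (nat_lit 0) (nat_lit 3741549531) (nat_lit 912) (nat_lit 5499847992) (nat_lit 76) (nat_lit 3167530347) (nat_lit 368) (nat_lit 5) (nat_lit 380) (nat_lit 5) (nat_lit 369) (nat_lit 5) (nat_lit 594) (nat_lit 553) (nat_lit 413)) (XT.nd (nat_lit 78) (nat_lit 0) (nat_lit 0) (XT.lf (nat_lit 0) (nat_lit 1654015727) (nat_lit 760) (nat_lit 4164224836) (nat_lit 836) (nat_lit 6722009199) (nat_lit 358) (nat_lit 5) (nat_lit 368) (nat_lit 5) (nat_lit 369) (nat_lit 5) (nat_lit 595) (nat_lit 553) (nat_lit 412)) (XT.lf (nat_lit 0) (nat_lit 7966467348) (nat_lit 836) (nat_lit 3669796441) (nat_lit 76) (nat_lit 1037335385) (nat_lit 358) (nat_lit 5) (nat_lit 369) (nat_lit 5) (nat_lit 359) (nat_lit 5) (nat_lit 596) (nat_lit 553) (nat_lit 411)))) (XT.nd (nat_lit 156) (nat_lit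 1520) (nat_lit 0) (XT.nd (nat_lit 78) (nat_lit 0) (nat_lit 0) (XT.lf (nat_lit 0) (nat_lit 3697161658) (nat_lit 760) (nat_lit 6498612309) (nat_lit 836) (nat_lit 2613080402) (nat_lit 348) (nat_lit 5) (nat_lit 358) (nat_lit 5) (nat_lit 359) (nat_lit 5) (nat_lit 597) (nat_lit 553) (nat_lit 410)) (XT.lf (nat_lit 0) (nat_lit 11246581278) (nat_lit 760) (nat_lit 1234414046) (nat_lit 836) (nat_lit 465593850) (nat_lit 348) (nat_lit 5) (nat_lit 358) (nat_lit 5) (nat_lit 359) (nat_lit 5) (nat_lit 598) (nat_lit 553) (nat_lit 409))) (XT.nd (nat_lit 78) (nat_lit 760) (nat_lit 0) (XT.lf (nat_lit 0) (nat_lit 1754646363) (nat_lit 760) (nat_lit 7201783701) (nat_lit 76) (nat_lit 4129377159) (nat_lit 338) (nat_lit 5) (nat_lit 348) (nat_lit 5) (nat_lit 339) (nat_lit 5) (nat_lit 599) (nat_lit 553) (nat_lit 408)) (XT.lf (nat_lit 0) (nat_lit 394369762) (nat_lit 760) (nat_lit 3627942069) (nat_lit 836) (nat_lit 9205252171) (nat_lit 328) (nat_lit 5) (nat_lit 338) (nat_lit 5) (nat_lit 339)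 (nat_lit 5) (nat_lit 600) (nat_lit 553) (nat_lit 407))))) (XT.nd (nat_lit 234) (nat_lit 2052) (nat_lit 0) (XT.nd (nat_lit 78) (nat_lit 684) (nat_lit 0) (XT.lf (nat_lit 0) (nat_lit 6382889690) (nat_lit 836) (nat_lit 5157990059) (nat_lit 76) (nat_lit 1830325982) (nat_lit 328) (nat_lit 5) (nat_lit 339) (nat_lit 5) (nat_lit 329) (nat_lit 5) (nat_lit 601) (nat_lit 553) (nat_lit 406)) (XT.nd (nat_lit 78) (nat_lit 0) (nat_lit 0) (XT.lf (nat_lit 0) (nat_lit 2667146697) (nat_lit 684) (nat_lit 6152305084) (nat_lit 760) (nat_lit 4697694037) (nat_lit 319) (nat_lit 5) (nat_lit 328) (nat_lit 5) (nat_lit 329) (nat_lit 5) (nat_lit 602) (nat_lit 553) (nat_lit 405)) (XT.lf (nat_lit 0) (nat_lit 10704274154) (nat_lit 684) (nat_lit 622666259) (nat_lit 760) (nat_lit 2338621343) (nat_lit 319) (nat_lit 5) (nat_lit 328) (nat_lit 5) (nat_lit 329) (nat_lit 5) (nat_lit 603) (nat_lit 553) (nat_lit 404)))) (XT.nd (nat_lit 156) (nat_lit 1292) (nat_lit 0) (XT.nd (nat_lit 78) (nat_lit 0) (nat_lit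 0) (XT.lf (nat_lit 0) (nat_lit 120636244) (nat_lit 760) (nat_lit 8711472125) (nat_lit 76) (nat_lit 4983751974) (nat_lit 309) (nat_lit 5) (nat_lit 319) (nat_lit 5) (nat_lit 310) (nat_lit 5) (nat_lit 604) (nat_lit 553) (nat_lit 403)) (XT.lf (nat_lit 0) (nat_lit 2609799844) (nat_lit 760) (nat_lit 631437661) (nat_lit 76) (nat_lit 10727378432) (nat_lit 309) (nat_lit 5) (nat_lit 319) (nat_lit 5) (nat_lit 310) (nat_lit 5) (nat_lit 605) (nat_lit 553) (nat_lit 402))) (XT.nd (nat_lit 78) (nat_lit 684) (nat_lit 0) (XT.lf (nat_lit 0) (nat_lit 5203134540) (nat_lit 684) (nat_lit 6442981207) (nat_lit 76) (nat_lit 2477224023) (nat_lit 301) (nat_lit 5) (nat_lit 310) (nat_lit 5) (nat_lit 302) (nat_lit 5) (nat_lit 606) (nat_lit 553) (nat_lit 401)) (XT.lf (nat_lit 0) (nat_lit 1874680066) (nat_lit 684) (nat_lit 5999800954) (nat_lit 760) (nat_lit 6406155026) (nat_lit 292) (nat_lit 5) (nat_lit 301) (nat_lit 5) (nat_lit 302) (nat_lit 5) (nat_lit 607) (nat_lit 553) (nat_lit 400)))))) (XT.nd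 (nat_lit 546) (nat_lit 2280) (nat_lit 0) (XT.nd (nat_lit 234) (nat_lit 1824) (nat_lit 0) (XT.nd (nat_lit 78) (nat_lit 684) (nat_lit 0) (XT.lf (nat_lit 0) (nat_lit 10431834715) (nat_lit 684) (nat_lit 199036805) (nat_lit 760) (nat_lit 3809575235) (nat_lit 292) (nat_lit 5) (nat_lit 301) (nat_lit 5) (nat_lit 302) (nat_lit 5) (nat_lit 608) (nat_lit 553) (nat_lit 399)) (XT.nd (nat_lit 78) (nat_lit 76) (nat_lit 0) (XT.lf (nat_lit 0) (nat_lit 4565300086) (nat_lit 608) (nat_lit 8932446784) (nat_lit 684) (nat_lit 1104600501) (nat_lit 284) (nat_lit 5) (nat_lit 292) (nat_lit 5) (nat_lit 293) (nat_lit 5) (nat_lit 609) (nat_lit 553) (nat_lit 398)) (XT.lf (nat_lit 0) (nat_lit 1649820939) (nat_lit 684) (nat_lit 1428346690) (nat_lit 76) (nat_lit 11688763414) (nat_lit 283) (nat_lit 5) (nat_lit 292) (nat_lit 5) (nat_lit 284) (nat_lit 5) (nat_lit 610) (nat_lit 553) (nat_lit 397)))) (XT.nd (nat_lit 156) (nat_lit 608) (nat_lit 0) (XT.nd (nat_lit 78) (nat_lit 608) (nat_lit 0) (XT.lf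 (nat_lit 0) (nat_lit 4500792956) (nat_lit 684) (nat_lit 7524321811) (nat_lit 76) (nat_lit 2908421322) (nat_lit 275) (nat_lit 5) (nat_lit 284) (nat_lit 5) (nat_lit 276) (nat_lit 5) (nat_lit 611) (nat_lit 553) (nat_lit 396)) (XT.lf (nat_lit 0) (nat_lit 1322480983) (nat_lit 608) (nat_lit 6113905985) (nat_lit 684) (nat_lit 7666534988) (nat_lit 267) (nat_lit 5) (nat_lit 275) (nat_lit 5) (nat_lit 276) (nat_lit 5) (nat_lit 612) (nat_lit 553) (nat_lit 395))) (XT.nd (nat_lit 78) (nat_lit 608) (nat_lit 0) (XT.lf (nat_lit 0) (nat_lit 10434284800) (nat_lit 608) (nat_lit 36008293) (nat_lit 684) (nat_lit 4804611197) (nat_lit 267) (nat_lit 5) (nat_lit 275) (nat_lit 5) (nat_lit 276) (nat_lit 5) (nat_lit 613) (nat_lit 553) (nat_lit 394)) (XT.lf (nat_lit 0) (nat_lit 4280266651) (nat_lit 608) (nat_lit 9341720514) (nat_lit 684) (nat_lit 1827197649) (nat_lit 259) (nat_lit 5) (nat_lit 267) (nat_lit 5) (nat_lit 268) (nat_lit 5) (nat_lit 614) (nat_lit 553) (nat_lit 393))))) (XT.nd (nat_lit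 234) (nat_lit 1140) (nat_lit 0) (XT.nd (nat_lit 78) (nat_lit 1064) (nat_lit 0) (XT.lf (nat_lit 0) (nat_lit 1216186547) (nat_lit 684) (nat_lit 1999325219) (nat_lit 76) (nat_lit 12410837030) (nat_lit 258) (nat_lit 5) (nat_lit 267) (nat_lit 5) (nat_lit 259) (nat_lit 5) (nat_lit 615) (nat_lit 553) (nat_lit 392)) (XT.nd (nat_lit 78) (nat_lit 532) (nat_lit 0) (XT.lf (nat_lit 0) (nat_lit 4353838309) (nat_lit 608) (nat_lit 8400817990) (nat_lit 76) (nat_lit 3051001576) (nat_lit 251) (nat_lit 5) (nat_lit 259) (nat_lit 5) (nat_lit 252) (nat_lit 5) (nat_lit 616) (nat_lit 553) (nat_lit 391)) (XT.lf (nat_lit 0) (nat_lit 1014095147) (nat_lit 532) (nat_lit 6571188933) (nat_lit 608) (nat_lit 8402648922) (nat_lit 244) (nat_lit 5) (nat_lit 251) (nat_lit 5) (nat_lit 252) (nat_lit 5) (nat_lit 617) (nat_lit 553) (nat_lit 390)))) (XT.nd (nat_lit 156) (nat_lit 608) (nat_lit 0) (XT.nd (nat_lit 78) (nat_lit 532) (nat_lit 0) (XT.lf (nat_lit 0) (nat_lit 10717546024) (nat_lit 532) (nat_lit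 209957570) (nat_lit 608) (nat_lit 5245427811) (nat_lit 244) (nat_lit 5) (nat_lit 251) (nat_lit 5) (nat_lit 252) (nat_lit 5) (nat_lit 618) (nat_lit 553) (nat_lit 389)) (XT.lf (nat_lit 0) (nat_lit 4254928117) (nat_lit 532) (nat_lit 10139979176) (nat_lit 608) (nat_lit 1965556344) (nat_lit 237) (nat_lit 5) (nat_lit 244) (nat_lit 5) (nat_lit 245) (nat_lit 5) (nat_lit 619) (nat_lit 553) (nat_lit 388))) (XT.nd (nat_lit 78) (nat_lit 532) (nat_lit 0) (XT.lf (nat_lit 0) (nat_lit 1390049160) (nat_lit 608) (nat_lit 2341801951) (nat_lit 76) (nat_lit 12819152159) (nat_lit 236) (nat_lit 5) (nat_lit 244) (nat_lit 5) (nat_lit 237) (nat_lit 5) (nat_lit 620) (nat_lit 553) (nat_lit 387)) (XT.lf (nat_lit 0) (nat_lit 4845204089) (nat_lit 608) (nat_lit 9071151811) (nat_lit 76) (nat_lit 2827563447) (nat_lit 229) (nat_lit 5) (nat_lit 237) (nat_lit 5) (nat_lit 230) (nat_lit 5) (nat_lit 621) (nat_lit 553) (nat_lit 386))))))))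
noncomputable def xc152 : XT := (XT.nd (nat_lit 2106) (nat_lit 2812) (nat_lit 0) (XT.nd (nat_lit 1014) (nat_lit 3192) (nat_lit 0) (XT.nd (nat_lit 468) (nat_lit 1900) (nat_lit 0) (XT.nd (nat_lit 234) (nat_lit 988) (nat_lit 0) (XT.nd (nat_lit 78) (nat_lit 532) (nat_lit 0) (XT.lf (nat_lit 0) (nat_lit 953266608) (nat_lit 456) (nat_lit 7453190489) (nat_lit 532) (nat_lit 8533497354) (nat_lit 223) (nat_lit 5) (nat_lit 229) (nat_lit 5) (nat_lit 230) (nat_lit 5) (nat_lit 622) (nat_lit 553) (nat_lit 385)) (XT.nd (nat_lit 78) (nat_lit 532) (nat_lit 0) (XT.lf (nat_lit 0) (nat_lit 11287813428) (nat_lit 456) (nat_lit 802370880) (nat_lit 532) (nat_lit 5048701563) (nat_lit 223) (nat_lit 5) (nat_lit 229) (nat_lit 5) (nat_lit 230) (nat_lit 5) (nat_lit 623) (nat_lit 553) (nat_lit 384)) (XT.lf (nat_lit 0) (nat_lit 4494134676) (nat_lit 532) (nat_lit 11412008012) (nat_lit 608) (nat_lit 1434482682) (nat_lit 216) (nat_lit 5) (nat_lit 223) (nat_lit 5) (nat_lit 224) (nat_lit 5) (nat_lit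 624) (nat_lit 553) (nat_lit 383)))) (XT.nd (nat_lit 78) (nat_lit 912) (nat_lit 0) (XT.lf (nat_lit 0) (nat_lit 2257902121) (nat_lit 608) (nat_lit 2453516039) (nat_lit 76) (nat_lit 12833981283) (nat_lit 215) (nat_lit 5) (nat_lit 223) (nat_lit 5) (nat_lit 216) (nat_lit 5) (nat_lit 625) (nat_lit 553) (nat_lit 382)) (XT.nd (nat_lit 78) (nat_lit 456) (nat_lit 0) (XT.lf (nat_lit 0) (nat_lit 6063339517) (nat_lit 532) (nat_lit 9534585010) (nat_lit 76) (nat_lit 2154987130) (nat_lit 209) (nat_lit 5) (nat_lit 216) (nat_lit 5) (nat_lit 210) (nat_lit 5) (nat_lit 626) (nat_lit 553) (nat_lit 381)) (XT.lf (nat_lit 0) (nat_lit 1143224359) (nat_lit 456) (nat_lit 8847695795) (nat_lit 532) (nat_lit 7972733810) (nat_lit 203) (nat_lit 5) (nat_lit 209) (nat_lit 5) (nat_lit 210) (nat_lit 5) (nat_lit 627) (nat_lit 553) (nat_lit 380))))) (XT.nd (nat_lit 234) (nat_lit 1368) (nat_lit 0) (XT.nd (nat_lit 78) (nat_lit 532) (nat_lit 0) (XT.lf (nat_lit 0) (nat_lit 12150841597) (nat_lit 456) (nat_lit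 1901125260) (nat_lit 532) (nat_lit 4125546499) (nat_lit 203) (nat_lit 5) (nat_lit 209) (nat_lit 5) (nat_lit 210) (nat_lit 5) (nat_lit 628) (nat_lit 553) (nat_lit 379)) (XT.nd (nat_lit 78) (nat_lit 76) (nat_lit 0) (XT.lf (nat_lit 0) (nat_lit 5002012407) (nat_lit 456) (nat_lit 13249444068) (nat_lit 532) (nat_lit 143049540) (nat_lit 197) (nat_lit 5) (nat_lit 203) (nat_lit 5) (nat_lit 204) (nat_lit 5) (nat_lit 629) (nat_lit 553) (nat_lit 378)) (XT.lf (nat_lit 0) (nat_lit 3912115802) (nat_lit 532) (nat_lit 2333294190) (nat_lit 76) (nat_lit 12369031763) (nat_lit 196) (nat_lit 5) (nat_lit 203) (nat_lit 5) (nat_lit 197) (nat_lit 5) (nat_lit 630) (nat_lit 553) (nat_lit 377)))) (XT.nd (nat_lit 156) (nat_lit 532) (nat_lit 0) (XT.nd (nat_lit 78) (nat_lit 380) (nat_lit 0) (XT.lf (nat_lit 0) (nat_lit 8102740465) (nat_lit 532) (nat_lit 9791769237) (nat_lit 76) (nat_lit 943122655) (nat_lit 190) (nat_lit 5) (nat_lit 197) (nat_lit 5) (nat_lit 191) (nat_lit 5) (nat_lit 631) (nat_lit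 553) (nat_lit 376)) (XT.lf (nat_lit 0) (nat_lit 1585858419) (nat_lit 380) (nat_lit 10850092620) (nat_lit 456) (nat_lit 6628160745) (nat_lit 185) (nat_lit 5) (nat_lit 190) (nat_lit 5) (nat_lit 191) (nat_lit 5) (nat_lit 632) (nat_lit 553) (nat_lit 375))) (XT.nd (nat_lit 78) (nat_lit 532) (nat_lit 0) (XT.lf (nat_lit 0) (nat_lit 13311117668) (nat_lit 380) (nat_lit 3601858762) (nat_lit 456) (nat_lit 2381001824) (nat_lit 185) (nat_lit 5) (nat_lit 190) (nat_lit 5) (nat_lit 191) (nat_lit 5) (nat_lit 633) (nat_lit 553) (nat_lit 374)) (XT.lf (nat_lit 0) (nat_lit 1979601688) (nat_lit 532) (nat_lit 13759292302) (nat_lit 76) (nat_lit 3788213349) (nat_lit 178) (nat_lit 5) (nat_lit 185) (nat_lit 5) (nat_lit 179) (nat_lit 5) (nat_lit 634) (nat_lit 553) (nat_lit 373)))))) (XT.nd (nat_lit 546) (nat_lit 1596) (nat_lit 0) (XT.nd (nat_lit 234) (nat_lit 836) (nat_lit 0) (XT.nd (nat_lit 78) (nat_lit 760) (nat_lit 0) (XT.lf (nat_lit 0) (nat_lit 6451445744) (nat_lit 532) (nat_lit 1981954567)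 (nat_lit 76) (nat_lit 11330066167) (nat_lit 178) (nat_lit 5) (nat_lit 185) (nat_lit 5) (nat_lit 179) (nat_lit 5) (nat_lit 635) (nat_lit 553) (nat_lit 372)) (XT.nd (nat_lit 78) (nat_lit 380) (nat_lit 0) (XT.lf (nat_lit 0) (nat_lit 10151743955) (nat_lit 380) (nat_lit 918671924) (nat_lit 456) (nat_lit 8932983571) (nat_lit 173) (nat_lit 5) (nat_lit 178) (nat_lit 5) (nat_lit 179) (nat_lit 5) (nat_lit 636) (nat_lit 553) (nat_lit 371)) (XT.lf (nat_lit 0) (nat_lit 2280756553) (nat_lit 380) (nat_lit 13564839271) (nat_lit 456) (nat_lit 4401259074) (nat_lit 168) (nat_lit 5) (nat_lit 173) (nat_lit 5) (nat_lit 174) (nat_lit 5) (nat_lit 637) (nat_lit 553) (nat_lit 370)))) (XT.nd (nat_lit 156) (nat_lit 380) (nat_lit 0) (XT.nd (nat_lit 78) (nat_lit 380) (nat_lit 0) (XT.lf (nat_lit 0) (nat_lit 282690380) (nat_lit 456) (nat_lit 5724866421) (nat_lit 76) (nat_lit 14486304546) (nat_lit 167) (nat_lit 5) (nat_lit 173) (nat_lit 5) (nat_lit 168) (nat_lit 5) (nat_lit 638) (nat_lit 553)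 (nat_lit 369)) (XT.lf (nat_lit 0) (nat_lit 5049170920) (nat_lit 456) (nat_lit 13946823482) (nat_lit 76) (nat_lit 1748276379) (nat_lit 162) (nat_lit 5) (nat_lit 168) (nat_lit 5) (nat_lit 163) (nat_lit 5) (nat_lit 639) (nat_lit 553) (nat_lit 368))) (XT.nd (nat_lit 78) (nat_lit 380) (nat_lit 0) (XT.lf (nat_lit 0) (nat_lit 9981506701) (nat_lit 456) (nat_lit 1403368700) (nat_lit 76) (nat_lit 9613402882) (nat_lit 162) (nat_lit 5) (nat_lit 168) (nat_lit 5) (nat_lit 163) (nat_lit 5) (nat_lit 640) (nat_lit 553) (nat_lit 367)) (XT.lf (nat_lit 0) (nat_lit 11530196919) (nat_lit 380) (nat_lit 3549378673) (nat_lit 456) (nat_lit 6176449001) (nat_lit 157) (nat_lit 5) (nat_lit 162) (nat_lit 5) (nat_lit 163) (nat_lit 5) (nat_lit 641) (nat_lit 553) (nat_lit 366))))) (XT.nd (nat_lit 234) (nat_lit 760) (nat_lit 0) (XT.nd (nat_lit 78) (nat_lit 456) (nat_lit 0) (XT.lf (nat_lit 0) (nat_lit 3224068319) (nat_lit 380) (nat_lit 17107068462) (nat_lit 456) (nat_lit 1186758807) (nat_lit 152)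 (nat_lit 5) (nat_lit 157) (nat_lit 5) (nat_lit 158) (nat_lit 5) (nat_lit 642) (nat_lit 553) (nat_lit 365)) (XT.nd (nat_lit 78) (nat_lit 380) (nat_lit 0) (XT.lf (nat_lit 0) (nat_lit 3933039237) (nat_lit 456) (nat_lit 5280228218) (nat_lit 76) (nat_lit 12569600149) (nat_lit 151) (nat_lit 5) (nat_lit 157) (nat_lit 5) (nat_lit 152) (nat_lit 5) (nat_lit 643) (nat_lit 553) (nat_lit 364)) (XT.lf (nat_lit 0) (nat_lit 8079938834) (nat_lit 380) (nat_lit 1104325477) (nat_lit 456) (nat_lit 12867819779) (nat_lit 146) (nat_lit 5) (nat_lit 151) (nat_lit 5) (nat_lit 152) (nat_lit 5) (nat_lit 644) (nat_lit 553) (nat_lit 363)))) (XT.nd (nat_lit 156) (nat_lit 456) (nat_lit 0) (XT.nd (nat_lit 78) (nat_lit 304) (nat_lit 0) (XT.lf (nat_lit 0) (nat_lit 14615204113) (nat_lit 456) (nat_lit 605717503) (nat_lit 76) (nat_lit 7104269834) (nat_lit 146) (nat_lit 5) (nat_lit 152) (nat_lit 5) (nat_lit 147) (nat_lit 5) (nat_lit 645) (nat_lit 553) (nat_lit 362)) (XT.lf (nat_lit 0) (nat_lit 13181982875)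 (nat_lit 304) (nat_lit 7058317533) (nat_lit 380) (nat_lit 2361750139) (nat_lit 142) (nat_lit 5) (nat_lit 146) (nat_lit 5) (nat_lit 147) (nat_lit 5) (nat_lit 646) (nat_lit 553) (nat_lit 361))) (XT.nd (nat_lit 78) (nat_lit 0) (nat_lit 0) (XT.lf (nat_lit 0) (nat_lit 3086718233) (nat_lit 456) (nat_lit 18496924417) (nat_lit 76) (nat_lit 1299726056) (nat_lit 136) (nat_lit 5) (nat_lit 142) (nat_lit 5) (nat_lit 137) (nat_lit 5) (nat_lit 647) (nat_lit 553) (nat_lit 360)) (XT.lf (nat_lit 0) (nat_lit 8715637514) (nat_lit 456) (nat_lit 4646763371) (nat_lit 76) (nat_lit 9805538334) (nat_lit 136) (nat_lit 5) (nat_lit 142) (nat_lit 5) (nat_lit 137) (nat_lit 5) (nat_lit 648) (nat_lit 553) (nat_lit 359))))))) (XT.nd (nat_lit 1014) (nat_lit 228) (nat_lit 0) (XT.nd (nat_lit 468) (nat_lit 1292) (nat_lit 0) (XT.nd (nat_lit 234) (nat_lit 608) (nat_lit 0) (XT.nd (nat_lit 78) (nat_lit 380) (nat_lit 0) (XT.lf (nat_lit 0) (nat_lit 9594778120) (nat_lit 304) (nat_lit 4917495611) (nat_lit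 380) (nat_lit 8944824957) (nat_lit 132) (nat_lit 5) (nat_lit 136) (nat_lit 5) (nat_lit 137) (nat_lit 5) (nat_lit 649) (nat_lit 553) (nat_lit 358)) (XT.nd (nat_lit 78) (nat_lit 76) (nat_lit 0) (XT.lf (nat_lit 0) (nat_lit 402292731) (nat_lit 304) (nat_lit 20073430935) (nat_lit 380) (nat_lit 3275300370) (nat_lit 128) (nat_lit 5) (nat_lit 132) (nat_lit 5) (nat_lit 133) (nat_lit 5) (nat_lit 650) (nat_lit 553) (nat_lit 357)) (XT.lf (nat_lit 0) (nat_lit 2593832433) (nat_lit 380) (nat_lit 8969842934) (nat_lit 76) (nat_lit 12484445088) (nat_lit 127) (nat_lit 5) (nat_lit 132) (nat_lit 5) (nat_lit 128) (nat_lit 5) (nat_lit 651) (nat_lit 553) (nat_lit 356)))) (XT.nd (nat_lit 78) (nat_lit 304) (nat_lit 0) (XT.lf (nat_lit 0) (nat_lit 5738907245) (nat_lit 304) (nat_lit 2827925213) (nat_lit 380) (nat_lit 15783286825) (nat_lit 123) (nat_lit 5) (nat_lit 127) (nat_lit 5) (nat_lit 128) (nat_lit 5) (nat_lit 652) (nat_lit 553) (nat_lit 355)) (XT.nd (nat_lit 78) (nat_lit 304) (nat_lit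 0) (XT.lf (nat_lit 0) (nat_lit 14752450015) (nat_lit 380) (nat_lit 3844751659) (nat_lit 76) (nat_lit 6059093549) (nat_lit 123) (nat_lit 5) (nat_lit 128) (nat_lit 5) (nat_lit 124) (nat_lit 5) (nat_lit 653) (nat_lit 553) (nat_lit 354)) (XT.lf (nat_lit 0) (nat_lit 11335876197) (nat_lit 304) (nat_lit 9811442179) (nat_lit 380) (nat_lit 3819565817) (nat_lit 119) (nat_lit 5) (nat_lit 123) (nat_lit 5) (nat_lit 124) (nat_lit 5) (nat_lit 654) (nat_lit 553) (nat_lit 353))))) (XT.nd (nat_lit 234) (nat_lit 608) (nat_lit 0) (XT.nd (nat_lit 78) (nat_lit 304) (nat_lit 0) (XT.lf (nat_lit 0) (nat_lit 1583038159) (nat_lit 304) (nat_lit 801539367) (nat_lit 380) (nat_lit 22898208276) (nat_lit 114) (nat_lit 5) (nat_lit 118) (nat_lit 5) (nat_lit 119) (nat_lit 5) (nat_lit 655) (nat_lit 553) (nat_lit 352)) (XT.nd (nat_lit 78) (nat_lit 304) (nat_lit 0) (XT.lf (nat_lit 0) (nat_lit 8801508679) (nat_lit 380) (nat_lit 8408560067) (nat_lit 76) (nat_lit 8391635035) (nat_lit 114) (nat_lit 5) (nat_lit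 119) (nat_lit 5) (nat_lit 115) (nat_lit 5) (nat_lit 656) (nat_lit 553) (nat_lit 351)) (XT.lf (nat_lit 0) (nat_lit 7267520465) (nat_lit 304) (nat_lit 8125143926) (nat_lit 380) (nat_lit 10533418271) (nat_lit 110) (nat_lit 5) (nat_lit 114) (nat_lit 5) (nat_lit 115) (nat_lit 5) (nat_lit 657) (nat_lit 553) (nat_lit 350)))) (XT.nd (nat_lit 156) (nat_lit 304) (nat_lit 0) (XT.nd (nat_lit 78) (nat_lit 304) (nat_lit 0) (XT.lf (nat_lit 0) (nat_lit 22173277162) (nat_lit 380) (nat_lit 2903471346) (nat_lit 76) (nat_lit 1179048187) (nat_lit 110) (nat_lit 5) (nat_lit 115) (nat_lit 5) (nat_lit 111) (nat_lit 5) (nat_lit 658) (nat_lit 553) (nat_lit 349)) (XT.lf (nat_lit 0) (nat_lit 2599087048) (nat_lit 304) (nat_lit 13330253709) (nat_lit 76) (nat_lit 10659751327) (nat_lit 106) (nat_lit 5) (nat_lit 110) (nat_lit 5) (nat_lit 107) (nat_lit 5) (nat_lit 659) (nat_lit 553) (nat_lit 348))) (XT.nd (nat_lit 78) (nat_lit 0) (nat_lit 0) (XT.lf (nat_lit 0) (nat_lit 2854592221) (nat_lit 304)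 (nat_lit 6536833081) (nat_lit 380) (nat_lit 17536453318) (nat_lit 102) (nat_lit 5) (nat_lit 106) (nat_lit 5) (nat_lit 107) (nat_lit 5) (nat_lit 660) (nat_lit 553) (nat_lit 347)) (XT.lf (nat_lit 0) (nat_lit 16423011579) (nat_lit 380) (nat_lit 7758972102) (nat_lit 76) (nat_lit 3089389415) (nat_lit 102) (nat_lit 5) (nat_lit 107) (nat_lit 5) (nat_lit 103) (nat_lit 5) (nat_lit 661) (nat_lit 553) (nat_lit 346)))))) (XT.nd (nat_lit 73242) (nat_lit 0) (nat_lit 33364) (XT.nd (nat_lit 72930) (nat_lit 0) (nat_lit 34732) (XT.nd (nat_lit 72774) (nat_lit 0) (nat_lit 34656) (XT.lf (nat_lit 0) (nat_lit 8945068637) (nat_lit 228) (nat_lit 14745249384) (nat_lit 304) (nat_lit 3929517904) (nat_lit 99) (nat_lit 5) (nat_lit 102) (nat_lit 5) (nat_lit 103) (nat_lit 5) (nat_lit 662) (nat_lit 553) (nat_lit 345)) (XT.nd (nat_lit 78) (nat_lit 1596) (nat_lit 0) (XT.lf (nat_lit 0) (nat_lit 2114685504) (nat_lit 0) (nat_lit 2114685504) (nat_lit 1444) (nat_lit 96587756) (nat_lit 576) (nat_lit 5)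 (nat_lit 576) (nat_lit 3) (nat_lit 595) (nat_lit 3) (nat_lit 554) (nat_lit 554) (nat_lit 452)) (XT.lf (nat_lit 0) (nat_lit 802437958) (nat_lit 1596) (nat_lit 143206106) (nat_lit 1596) (nat_lit 7772816067) (nat_lit 555) (nat_lit 3) (nat_lit 576) (nat_lit 3) (nat_lit 576) (nat_lit 5) (nat_lit 555) (nat_lit 554) (nat_lit 451)))) (XT.nd (nat_lit 156) (nat_lit 0) (nat_lit 76) (XT.nd (nat_lit 78) (nat_lit 0) (nat_lit 0) (XT.lf (nat_lit 0) (nat_lit 1832840718) (nat_lit 1520) (nat_lit 4539120073) (nat_lit 1596) (nat_lit 2414000665) (nat_lit 556) (nat_lit 5) (nat_lit 576) (nat_lit 5) (nat_lit 577) (nat_lit 5) (nat_lit 556) (nat_lit 554) (nat_lit 450)) (XT.lf (nat_lit 0) (nat_lit 2865489286) (nat_lit 1520) (nat_lit 148252566) (nat_lit 1596) (nat_lit 5841440829) (nat_lit 556) (nat_lit 5) (nat_lit 576) (nat_lit 5) (nat_lit 577) (nat_lit 5) (nat_lit 557) (nat_lit 554) (nat_lit 449))) (XT.nd (nat_lit 78) (nat_lit 0) (nat_lit 0) (XT.lf (nat_lit 0) (nat_lit 3925036690) (nat_lit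 1520) (nat_lit 4554409066) (nat_lit 1596) (nat_lit 446220233) (nat_lit 557) (nat_lit 5) (nat_lit 577) (nat_lit 5) (nat_lit 578) (nat_lit 5) (nat_lit 558) (nat_lit 554) (nat_lit 448)) (XT.lf (nat_lit 0) (nat_lit 5002122152) (nat_lit 1520) (nat_lit 48368067) (nat_lit 1596) (nat_lit 3947144328) (nat_lit 557) (nat_lit 5) (nat_lit 577) (nat_lit 5) (nat_lit 578) (nat_lit 5) (nat_lit 559) (nat_lit 554) (nat_lit 447))))) (XT.nd (nat_lit 234) (nat_lit 1444) (nat_lit 0) (XT.nd (nat_lit 78) (nat_lit 0) (nat_lit 76) (XT.lf (nat_lit 76) (nat_lit 4594293778) (nat_lit 0) (nat_lit 1512154467) (nat_lit 1596) (nat_lit 2964482728) (nat_lit 558) (nat_lit 5) (nat_lit 557) (nat_lit 5) (nat_lit 578) (nat_lit 5) (nat_lit 560) (nat_lit 554) (nat_lit 446)) (XT.nd (nat_lit 78) (nat_lit 0) (nat_lit 0) (XT.lf (nat_lit 76) (nat_lit 159039298) (nat_lit 0) (nat_lit 7065115250) (nat_lit 1596) (nat_lit 1921715333) (nat_lit 559) (nat_lit 5) (nat_lit 558) (nat_lit 5) (nat_lit 579) (nat_lit 5) (nat_lit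 561) (nat_lit 554) (nat_lit 445)) (XT.lf (nat_lit 76) (nat_lit 4923850164) (nat_lit 0) (nat_lit 3457046073) (nat_lit 1596) (nat_lit 841080085) (nat_lit 559) (nat_lit 5) (nat_lit 558) (nat_lit 5) (nat_lit 579) (nat_lit 5) (nat_lit 562) (nat_lit 554) (nat_lit 444)))) (XT.nd (nat_lit 156) (nat_lit 0) (nat_lit 0) (XT.nd (nat_lit 78) (nat_lit 0) (nat_lit 0) (XT.lf (nat_lit 0) (nat_lit 239358806) (nat_lit 1596) (nat_lit 8826772044) (nat_lit 1672) (nat_lit 233810093) (nat_lit 538) (nat_lit 5) (nat_lit 559) (nat_lit 5) (nat_lit 560) (nat_lit 5) (nat_lit 563) (nat_lit 554) (nat_lit 443)) (XT.lf (nat_lit 0) (nat_lit 1359494271) (nat_lit 1596) (nat_lit 4023954257) (nat_lit 1672) (nat_lit 3995320383) (nat_lit 538) (nat_lit 5) (nat_lit 559) (nat_lit 5) (nat_lit 560) (nat_lit 5) (nat_lit 564) (nat_lit 554) (nat_lit 442))) (XT.nd (nat_lit 78) (nat_lit 0) (nat_lit 76) (XT.lf (nat_lit 76) (nat_lit 872079995) (nat_lit 0) (nat_lit 1613468772) (nat_lit 1672) (nat_lit 6973956543) (nat_lit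 539) (nat_lit 5) (nat_lit 538) (nat_lit 5) (nat_lit 560) (nat_lit 5) (nat_lit 565) (nat_lit 554) (nat_lit 441)) (XT.lf (nat_lit 0) (nat_lit 3654042895) (nat_lit 1596) (nat_lit 3650076710) (nat_lit 1672) (nat_lit 2237340617) (nat_lit 539) (nat_lit 5) (nat_lit 560) (nat_lit 5) (nat_lit 561) (nat_lit 5) (nat_lit 566) (nat_lit 554) (nat_lit 440))))))))
noncomputable def xc153 : XT := (XT.nd (nat_lit 2106) (nat_lit 10868) (nat_lit 0) (XT.nd (nat_lit 1014) (nat_lit 9120) (nat_lit 0) (XT.nd (nat_lit 468) (nat_lit 1520) (nat_lit 0) (XT.nd (nat_lit 234) (nat_lit 1520) (nat_lit 0) (XT.nd (nat_lit 78) (nat_lit 0) (nat_lit 76) (XT.lf (nat_lit 76) (nat_lit 1379036474) (nat_lit 0) (nat_lit 3465181644) (nat_lit 1672) (nat_lit 4780872003) (nat_lit 540) (nat_lit 5) (nat_lit 539) (nat_lit 5) (nat_lit 561) (nat_lit 5) (nat_lit 567) (nat_lit 554) (nat_lit 439)) (XT.nd (nat_lit 78) (nat_lit 0) (nat_lit 0) (XT.lf (nat_lit 0) (nat_lit 6064819542) (nat_lit 1596) (nat_lit 3169535008) (nat_lit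 1672) (nat_lit 475907687) (nat_lit 540) (nat_lit 5) (nat_lit 561) (nat_lit 5) (nat_lit 562) (nat_lit 5) (nat_lit 568) (nat_lit 554) (nat_lit 438)) (XT.lf (nat_lit 76) (nat_lit 1997295419) (nat_lit 0) (nat_lit 5327905892) (nat_lit 1672) (nat_lit 2471631147) (nat_lit 541) (nat_lit 5) (nat_lit 540) (nat_lit 5) (nat_lit 562) (nat_lit 5) (nat_lit 569) (nat_lit 554) (nat_lit 437)))) (XT.nd (nat_lit 78) (nat_lit 1596) (nat_lit 0) (XT.lf (nat_lit 76) (nat_lit 7296056252) (nat_lit 0) (nat_lit 1315765637) (nat_lit 1672) (nat_lit 1273293565) (nat_lit 541) (nat_lit 5) (nat_lit 540) (nat_lit 5) (nat_lit 562) (nat_lit 5) (nat_lit 570) (nat_lit 554) (nat_lit 436)) (XT.nd (nat_lit 78) (nat_lit 1672) (nat_lit 0) (XT.lf (nat_lit 76) (nat_lit 2728865665) (nat_lit 0) (nat_lit 7211250561) (nat_lit 1672) (nat_lit 34731007) (nat_lit 542) (nat_lit 5) (nat_lit 541) (nat_lit 5) (nat_lit 563) (nat_lit 5) (nat_lit 571) (nat_lit 554) (nat_lit 435)) (XT.lf (nat_lit 0) (nat_lit 1219051784) (nat_lit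 1672) (nat_lit 1909279183) (nat_lit 1748) (nat_lit 6937753774) (nat_lit 519) (nat_lit 5) (nat_lit 541) (nat_lit 5) (nat_lit 542) (nat_lit 5) (nat_lit 572) (nat_lit 554) (nat_lit 434))))) (XT.nd (nat_lit 234) (nat_lit 1596) (nat_lit 0) (XT.nd (nat_lit 78) (nat_lit 0) (nat_lit 0) (XT.lf (nat_lit 0) (nat_lit 2508259494) (nat_lit 1672) (nat_lit 6599684464) (nat_lit 1748) (nat_lit 1050984004) (nat_lit 520) (nat_lit 5) (nat_lit 542) (nat_lit 5) (nat_lit 543) (nat_lit 5) (nat_lit 573) (nat_lit 554) (nat_lit 433)) (XT.nd (nat_lit 78) (nat_lit 0) (nat_lit 0) (XT.lf (nat_lit 0) (nat_lit 3837925562) (nat_lit 1672) (nat_lit 1125877085) (nat_lit 1748) (nat_lit 5289533718) (nat_lit 520) (nat_lit 5) (nat_lit 542) (nat_lit 5) (nat_lit 543) (nat_lit 5) (nat_lit 574) (nat_lit 554) (nat_lit 432)) (XT.lf (nat_lit 76) (nat_lit 4502019446) (nat_lit 0) (nat_lit 702826645) (nat_lit 1748) (nat_lit 5144575391) (nat_lit 521) (nat_lit 5) (nat_lit 520) (nat_lit 5) (nat_lit 543) (nat_lit 5)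 (nat_lit 575) (nat_lit 554) (nat_lit 431)))) (XT.nd (nat_lit 156) (nat_lit 1672) (nat_lit 0) (XT.nd (nat_lit 78) (nat_lit 0) (nat_lit 0) (XT.lf (nat_lit 0) (nat_lit 6612093235) (nat_lit 1672) (nat_lit 227977187) (nat_lit 1748) (nat_lit 3607099850) (nat_lit 521) (nat_lit 5) (nat_lit 543) (nat_lit 5) (nat_lit 544) (nat_lit 5) (nat_lit 576) (nat_lit 554) (nat_lit 430)) (XT.lf (nat_lit 76) (nat_lit 5557629563) (nat_lit 0) (nat_lit 2512680109) (nat_lit 1748) (nat_lit 2476109578) (nat_lit 522) (nat_lit 5) (nat_lit 521) (nat_lit 5) (nat_lit 544) (nat_lit 5) (nat_lit 577) (nat_lit 554) (nat_lit 429))) (XT.nd (nat_lit 78) (nat_lit 76) (nat_lit 0) (XT.lf (nat_lit 0) (nat_lit 797802403) (nat_lit 1672) (nat_lit 8761317751) (nat_lit 1748) (nat_lit 1088506125) (nat_lit 500) (nat_lit 5) (nat_lit 522) (nat_lit 5) (nat_lit 523) (nat_lit 5) (nat_lit 578) (nat_lit 554) (nat_lit 428)) (XT.lf (nat_lit 0) (nat_lit 355401805) (nat_lit 1748) (nat_lit 4016281299) (nat_lit 76) (nat_lit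 6378476722) (nat_lit 499) (nat_lit 5) (nat_lit 522) (nat_lit 5) (nat_lit 500) (nat_lit 5) (nat_lit 579) (nat_lit 554) (nat_lit 427)))))) (XT.nd (nat_lit 546) (nat_lit 3496) (nat_lit 0) (XT.nd (nat_lit 234) (nat_lit 2052) (nat_lit 0) (XT.nd (nat_lit 78) (nat_lit 1824) (nat_lit 0) (XT.lf (nat_lit 0) (nat_lit 1809883673) (nat_lit 1824) (nat_lit 8917961020) (nat_lit 76) (nat_lit 126831604) (nat_lit 476) (nat_lit 5) (nat_lit 500) (nat_lit 5) (nat_lit 477) (nat_lit 5) (nat_lit 580) (nat_lit 554) (nat_lit 426)) (XT.nd (nat_lit 78) (nat_lit 1824) (nat_lit 0) (XT.lf (nat_lit 0) (nat_lit 3332637736) (nat_lit 1824) (nat_lit 2941489031) (nat_lit 76) (nat_lit 4686374218) (nat_lit 476) (nat_lit 5) (nat_lit 500) (nat_lit 5) (nat_lit 477) (nat_lit 5) (nat_lit 581) (nat_lit 554) (nat_lit 425)) (XT.lf (nat_lit 0) (nat_lit 3181703296) (nat_lit 1824) (nat_lit 1708233831) (nat_lit 1900) (nat_lit 6178424744) (nat_lit 452) (nat_lit 5) (nat_lit 476) (nat_lit 5) (nat_lit 477) (nat_lit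 5) (nat_lit 582) (nat_lit 554) (nat_lit 424)))) (XT.nd (nat_lit 156) (nat_lit 988) (nat_lit 0) (XT.nd (nat_lit 78) (nat_lit 1064) (nat_lit 0) (XT.lf (nat_lit 0) (nat_lit 6501074783) (nat_lit 1900) (nat_lit 1744813082) (nat_lit 76) (nat_lit 2932039744) (nat_lit 452) (nat_lit 5) (nat_lit 477) (nat_lit 5) (nat_lit 453) (nat_lit 5) (nat_lit 583) (nat_lit 554) (nat_lit 423)) (XT.lf (nat_lit 0) (nat_lit 4553787534) (nat_lit 1064) (nat_lit 3615522656) (nat_lit 1140) (nat_lit 3119878423) (nat_lit 438) (nat_lit 5) (nat_lit 452) (nat_lit 5) (nat_lit 453) (nat_lit 5) (nat_lit 584) (nat_lit 554) (nat_lit 422))) (XT.nd (nat_lit 78) (nat_lit 988) (nat_lit 0) (XT.lf (nat_lit 0) (nat_lit 9874112069) (nat_lit 1140) (nat_lit 422420413) (nat_lit 76) (nat_lit 1106079741) (nat_lit 438) (nat_lit 5) (nat_lit 453) (nat_lit 5) (nat_lit 439) (nat_lit 5) (nat_lit 585) (nat_lit 554) (nat_lit 421)) (XT.lf (nat_lit 0) (nat_lit 141589171) (nat_lit 988) (nat_lit 5460389435) (nat_lit 76) (nat_lit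 5915352258) (nat_lit 425) (nat_lit 5) (nat_lit 438) (nat_lit 5) (nat_lit 426) (nat_lit 5) (nat_lit 586) (nat_lit 554) (nat_lit 420))))) (XT.nd (nat_lit 234) (nat_lit 1748) (nat_lit 0) (XT.nd (nat_lit 78) (nat_lit 836) (nat_lit 0) (XT.lf (nat_lit 0) (nat_lit 1026100298) (nat_lit 912) (nat_lit 792690440) (nat_lit 988) (nat_lit 9815468870) (nat_lit 413) (nat_lit 5) (nat_lit 425) (nat_lit 5) (nat_lit 426) (nat_lit 5) (nat_lit 587) (nat_lit 554) (nat_lit 419)) (XT.nd (nat_lit 78) (nat_lit 836) (nat_lit 0) (XT.lf (nat_lit 0) (nat_lit 3577978248) (nat_lit 988) (nat_lit 4078161248) (nat_lit 76) (nat_lit 4096419906) (nat_lit 413) (nat_lit 5) (nat_lit 426) (nat_lit 5) (nat_lit 414) (nat_lit 5) (nat_lit 588) (nat_lit 554) (nat_lit 418)) (XT.lf (nat_lit 0) (nat_lit 2596775301) (nat_lit 836) (nat_lit 2782835019) (nat_lit 912) (nat_lit 6493470945) (nat_lit 402) (nat_lit 5) (nat_lit 413) (nat_lit 5) (nat_lit 414) (nat_lit 5) (nat_lit 589) (nat_lit 554) (nat_lit 417)))) (XT.nd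 (nat_lit 156) (nat_lit 912) (nat_lit 0) (XT.nd (nat_lit 78) (nat_lit 836) (nat_lit 0) (XT.lf (nat_lit 0) (nat_lit 7244379253) (nat_lit 912) (nat_lit 2564031800) (nat_lit 76) (nat_lit 2187061690) (nat_lit 402) (nat_lit 5) (nat_lit 414) (nat_lit 5) (nat_lit 403) (nat_lit 5) (nat_lit 590) (nat_lit 554) (nat_lit 416)) (XT.lf (nat_lit 0) (nat_lit 4306152149) (nat_lit 836) (nat_lit 4872317266) (nat_lit 912) (nat_lit 2941203357) (nat_lit 391) (nat_lit 5) (nat_lit 402) (nat_lit 5) (nat_lit 403) (nat_lit 5) (nat_lit 591) (nat_lit 554) (nat_lit 415))) (XT.nd (nat_lit 78) (nat_lit 912) (nat_lit 0) (XT.lf (nat_lit 0) (nat_lit 11155442560) (nat_lit 912) (nat_lit 913257371) (nat_lit 76) (nat_lit 177574061) (nat_lit 391) (nat_lit 5) (nat_lit 403) (nat_lit 5) (nat_lit 392) (nat_lit 5) (nat_lit 592) (nat_lit 554) (nat_lit 414)) (XT.lf (nat_lit 0) (nat_lit 844847340) (nat_lit 912) (nat_lit 6220561639) (nat_lit 76) (nat_lit 5308721064) (nat_lit 379) (nat_lit 5) (nat_lit 391) (nat_lit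 5) (nat_lit 380) (nat_lit 5) (nat_lit 593) (nat_lit 554) (nat_lit 413))))))) (XT.nd (nat_lit 1092) (nat_lit 4940) (nat_lit 0) (XT.nd (nat_lit 546) (nat_lit 2812) (nat_lit 0) (XT.nd (nat_lit 234) (nat_lit 1520) (nat_lit 0) (XT.nd (nat_lit 78) (nat_lit 760) (nat_lit 0) (XT.lf (nat_lit 0) (nat_lit 859318441) (nat_lit 836) (nat_lit 1943269400) (nat_lit 912) (nat_lit 9701853223) (nat_lit 368) (nat_lit 5) (nat_lit 379) (nat_lit 5) (nat_lit 380) (nat_lit 5) (nat_lit 594) (nat_lit 554) (nat_lit 412)) (XT.nd (nat_lit 78) (nat_lit 760) (nat_lit 0) (XT.lf (nat_lit 0) (nat_lit 4849173514) (nat_lit 912) (nat_lit 4507538300) (nat_lit 76) (nat_lit 3279653804) (nat_lit 368) (nat_lit 5) (nat_lit 380) (nat_lit 5) (nat_lit 369) (nat_lit 5) (nat_lit 595) (nat_lit 554) (nat_lit 411)) (XT.lf (nat_lit 0) (nat_lit 2782150676) (nat_lit 760) (nat_lit 4172106669) (nat_lit 836) (nat_lit 5816321089) (nat_lit 358) (nat_lit 5) (nat_lit 368) (nat_lit 5) (nat_lit 369) (nat_lit 5) (nat_lit 596)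 (nat_lit 554) (nat_lit 410)))) (XT.nd (nat_lit 156) (nat_lit 760) (nat_lit 0) (XT.nd (nat_lit 78) (nat_lit 760) (nat_lit 0) (XT.lf (nat_lit 0) (nat_lit 9125935455) (nat_lit 836) (nat_lit 2650014534) (nat_lit 76) (nat_lit 1131036744) (nat_lit 358) (nat_lit 5) (nat_lit 369) (nat_lit 5) (nat_lit 359) (nat_lit 5) (nat_lit 597) (nat_lit 554) (nat_lit 409)) (XT.lf (nat_lit 0) (nat_lit 4857090768) (nat_lit 760) (nat_lit 6530177815) (nat_lit 836) (nat_lit 1657931242) (nat_lit 348) (nat_lit 5) (nat_lit 358) (nat_lit 5) (nat_lit 359) (nat_lit 5) (nat_lit 598) (nat_lit 554) (nat_lit 408))) (XT.nd (nat_lit 78) (nat_lit 684) (nat_lit 0) (XT.lf (nat_lit 0) (nat_lit 506027055) (nat_lit 836) (nat_lit 653202367) (nat_lit 76) (nat_lit 12026782177) (nat_lit 347) (nat_lit 5) (nat_lit 358) (nat_lit 5) (nat_lit 348) (nat_lit 5) (nat_lit 599) (nat_lit 554) (nat_lit 407)) (XT.lf (nat_lit 0) (nat_lit 2752984784) (nat_lit 760) (nat_lit 6256562844) (nat_lit 76) (nat_lit 4318635398) (nat_lit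 338) (nat_lit 5) (nat_lit 348) (nat_lit 5) (nat_lit 339) (nat_lit 5) (nat_lit 600) (nat_lit 554) (nat_lit 406))))) (XT.nd (nat_lit 234) (nat_lit 1368) (nat_lit 0) (XT.nd (nat_lit 78) (nat_lit 684) (nat_lit 0) (XT.lf (nat_lit 0) (nat_lit 1484347527) (nat_lit 760) (nat_lit 3569794516) (nat_lit 836) (nat_lit 8418871606) (nat_lit 328) (nat_lit 5) (nat_lit 338) (nat_lit 5) (nat_lit 339) (nat_lit 5) (nat_lit 601) (nat_lit 554) (nat_lit 405)) (XT.nd (nat_lit 78) (nat_lit 684) (nat_lit 0) (XT.lf (nat_lit 0) (nat_lit 7444108865) (nat_lit 836) (nat_lit 4182381850) (nat_lit 76) (nat_lit 1993395400) (nat_lit 328) (nat_lit 5) (nat_lit 339) (nat_lit 5) (nat_lit 329) (nat_lit 5) (nat_lit 602) (nat_lit 554) (nat_lit 404)) (XT.lf (nat_lit 0) (nat_lit 3792160483) (nat_lit 684) (nat_lit 6125894587) (nat_lit 760) (nat_lit 3850918297) (nat_lit 319) (nat_lit 5) (nat_lit 328) (nat_lit 5) (nat_lit 329) (nat_lit 5) (nat_lit 603) (nat_lit 554) (nat_lit 403)))) (XT.nd (nat_lit 156) (nat_lit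 608) (nat_lit 0) (XT.nd (nat_lit 78) (nat_lit 760) (nat_lit 0) (XT.lf (nat_lit 0) (nat_lit 11969017335) (nat_lit 684) (nat_lit 488593507) (nat_lit 760) (nat_lit 1463109829) (nat_lit 319) (nat_lit 5) (nat_lit 328) (nat_lit 5) (nat_lit 329) (nat_lit 5) (nat_lit 604) (nat_lit 554) (nat_lit 402)) (XT.lf (nat_lit 0) (nat_lit 1023262280) (nat_lit 760) (nat_lit 7812837937) (nat_lit 76) (nat_lit 5238006085) (nat_lit 309) (nat_lit 5) (nat_lit 319) (nat_lit 5) (nat_lit 310) (nat_lit 5) (nat_lit 605) (nat_lit 554) (nat_lit 401))) (XT.nd (nat_lit 78) (nat_lit 0) (nat_lit 0) (XT.lf (nat_lit 0) (nat_lit 413179598) (nat_lit 608) (nat_lit 3134060949) (nat_lit 684) (nat_lit 10682977147) (nat_lit 301) (nat_lit 5) (nat_lit 309) (nat_lit 5) (nat_lit 310) (nat_lit 5) (nat_lit 606) (nat_lit 554) (nat_lit 400)) (XT.lf (nat_lit 0) (nat_lit 6180360754) (nat_lit 684) (nat_lit 5510550815) (nat_lit 76) (nat_lit 2697367346) (nat_lit 301) (nat_lit 5) (nat_lit 310) (nat_lit 5) (nat_lit 302)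 (nat_lit 5) (nat_lit 607) (nat_lit 554) (nat_lit 399)))))) (XT.nd (nat_lit 546) (nat_lit 2356) (nat_lit 0) (XT.nd (nat_lit 234) (nat_lit 1292) (nat_lit 0) (XT.nd (nat_lit 78) (nat_lit 608) (nat_lit 0) (XT.lf (nat_lit 0) (nat_lit 2966481513) (nat_lit 684) (nat_lit 5928377063) (nat_lit 760) (nat_lit 5654069314) (nat_lit 292) (nat_lit 5) (nat_lit 301) (nat_lit 5) (nat_lit 302) (nat_lit 5) (nat_lit 608) (nat_lit 554) (nat_lit 398)) (XT.nd (nat_lit 78) (nat_lit 608) (nat_lit 0) (XT.lf (nat_lit 0) (nat_lit 11674106552) (nat_lit 684) (nat_lit 15350963) (nat_lit 760) (nat_lit 3022816924) (nat_lit 292) (nat_lit 5) (nat_lit 301) (nat_lit 5) (nat_lit 302) (nat_lit 5) (nat_lit 609) (nat_lit 554) (nat_lit 397)) (XT.lf (nat_lit 0) (nat_lit 5699100092) (nat_lit 608) (nat_lit 8905945788) (nat_lit 684) (nat_lit 272540890) (nat_lit 284) (nat_lit 5) (nat_lit 292) (nat_lit 5) (nat_lit 293) (nat_lit 5) (nat_lit 610) (nat_lit 554) (nat_lit 396)))) (XT.nd (nat_lit 156) (nat_lit 608)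 (nat_lit 0) (XT.nd (nat_lit 78) (nat_lit 608) (nat_lit 0) (XT.lf (nat_lit 0) (nat_lit 2509238210) (nat_lit 684) (nat_lit 423819668) (nat_lit 76) (nat_lit 12112625058) (nat_lit 283) (nat_lit 5) (nat_lit 292) (nat_lit 5) (nat_lit 284) (nat_lit 5) (nat_lit 611) (nat_lit 554) (nat_lit 395)) (XT.lf (nat_lit 0) (nat_lit 5409048416) (nat_lit 684) (nat_lit 6633475873) (nat_lit 76) (nat_lit 3173260563) (nat_lit 275) (nat_lit 5) (nat_lit 284) (nat_lit 5) (nat_lit 276) (nat_lit 5) (nat_lit 612) (nat_lit 554) (nat_lit 394))) (XT.nd (nat_lit 78) (nat_lit 0) (nat_lit 0) (XT.lf (nat_lit 0) (nat_lit 2383412107) (nat_lit 608) (nat_lit 6010614828) (nat_lit 684) (nat_lit 6994719169) (nat_lit 267) (nat_lit 5) (nat_lit 275) (nat_lit 5) (nat_lit 276) (nat_lit 5) (nat_lit 613) (nat_lit 554) (nat_lit 393)) (XT.lf (nat_lit 0) (nat_lit 11473947522) (nat_lit 684) (nat_lit 3908515718) (nat_lit 76) (nat_lit 181999217) (nat_lit 267) (nat_lit 5) (nat_lit 276) (nat_lit 5) (nat_lit 268) (nat_lit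 5) (nat_lit 614) (nat_lit 554) (nat_lit 392))))) (XT.nd (nat_lit 234) (nat_lit 1140) (nat_lit 0) (XT.nd (nat_lit 78) (nat_lit 608) (nat_lit 0) (XT.lf (nat_lit 0) (nat_lit 5387782064) (nat_lit 608) (nat_lit 9292188617) (nat_lit 684) (nat_lit 1062433083) (nat_lit 259) (nat_lit 5) (nat_lit 267) (nat_lit 5) (nat_lit 268) (nat_lit 5) (nat_lit 615) (nat_lit 554) (nat_lit 391)) (XT.nd (nat_lit 78) (nat_lit 532) (nat_lit 0) (XT.lf (nat_lit 0) (nat_lit 2015803624) (nat_lit 684) (nat_lit 1027084076) (nat_lit 76) (nat_lit 12880430425) (nat_lit 258) (nat_lit 5) (nat_lit 267) (nat_lit 5) (nat_lit 259) (nat_lit 5) (nat_lit 616) (nat_lit 554) (nat_lit 390)) (XT.lf (nat_lit 0) (nat_lit 5209086816) (nat_lit 608) (nat_lit 7549434334) (nat_lit 76) (nat_lit 3347835685) (nat_lit 251) (nat_lit 5) (nat_lit 259) (nat_lit 5) (nat_lit 252) (nat_lit 5) (nat_lit 617) (nat_lit 554) (nat_lit 389)))) (XT.nd (nat_lit 156) (nat_lit 608) (nat_lit 0) (XT.nd (nat_lit 78) (nat_lit 0) (nat_lit 0) (XT.lf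 (nat_lit 0) (nat_lit 2047070487) (nat_lit 532) (nat_lit 6449603902) (nat_lit 608) (nat_lit 7795773813) (nat_lit 244) (nat_lit 5) (nat_lit 251) (nat_lit 5) (nat_lit 252) (nat_lit 5) (nat_lit 618) (nat_lit 554) (nat_lit 388)) (XT.lf (nat_lit 0) (nat_lit 11891062560) (nat_lit 608) (nat_lit 4556931860) (nat_lit 76) (nat_lit 33446642) (nat_lit 244) (nat_lit 5) (nat_lit 252) (nat_lit 5) (nat_lit 245) (nat_lit 5) (nat_lit 619) (nat_lit 554) (nat_lit 387))) (XT.nd (nat_lit 78) (nat_lit 76) (nat_lit 0) (XT.lf (nat_lit 0) (nat_lit 5339577917) (nat_lit 532) (nat_lit 10081481332) (nat_lit 608) (nat_lit 1251800749) (nat_lit 237) (nat_lit 5) (nat_lit 244) (nat_lit 5) (nat_lit 245) (nat_lit 5) (nat_lit 620) (nat_lit 554) (nat_lit 386)) (XT.lf (nat_lit 0) (nat_lit 2146467904) (nat_lit 608) (nat_lit 1398956871) (nat_lit 76) (nat_lit 13321980226) (nat_lit 236) (nat_lit 5) (nat_lit 244) (nat_lit 5) (nat_lit 237) (nat_lit 5) (nat_lit 621) (nat_lit 554) (nat_lit 385))))))))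
noncomputable def xc154 : XT := (XT.nd (nat_lit 2106) (nat_lit 2584) (nat_lit 0) (XT.nd (nat_lit 1014) (nat_lit 3724) (nat_lit 0) (XT.nd (nat_lit 468) (nat_lit 1824) (nat_lit 0) (XT.nd (nat_lit 234) (nat_lit 1064) (nat_lit 0) (XT.nd (nat_lit 78) (nat_lit 456) (nat_lit 0) (XT.lf (nat_lit 0) (nat_lit 5664526737) (nat_lit 608) (nat_lit 8256649457) (nat_lit 76) (nat_lit 3143128092) (nat_lit 229) (nat_lit 5) (nat_lit 237) (nat_lit 5) (nat_lit 230) (nat_lit 5) (nat_lit 622) (nat_lit 554) (nat_lit 384)) (XT.nd (nat_lit 78) (nat_lit 0) (nat_lit 0) (XT.lf (nat_lit 0) (nat_lit 1961705190) (nat_lit 456) (nat_lit 7327558213) (nat_lit 532) (nat_lit 7975152402) (nat_lit 223) (nat_lit 5) (nat_lit 229) (nat_lit 5) (nat_lit 230) (nat_lit 5) (nat_lit 623) (nat_lit 554) (nat_lit 383)) (XT.lf (nat_lit 0) (nat_lit 12483543471) (nat_lit 456) (nat_lit 549108410) (nat_lit 532) (nat_lit 4434955105) (nat_lit 223) (nat_lit 5) (nat_lit 229) (nat_lit 5) (nat_lit 230) (nat_lit 5) (nat_lit 624)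 (nat_lit 554) (nat_lit 382)))) (XT.nd (nat_lit 78) (nat_lit 532) (nat_lit 0) (XT.lf (nat_lit 0) (nat_lit 5559836828) (nat_lit 532) (nat_lit 11359404012) (nat_lit 608) (nat_lit 754255055) (nat_lit 216) (nat_lit 5) (nat_lit 223) (nat_lit 5) (nat_lit 224) (nat_lit 5) (nat_lit 625) (nat_lit 554) (nat_lit 381)) (XT.nd (nat_lit 78) (nat_lit 456) (nat_lit 0) (XT.lf (nat_lit 0) (nat_lit 2988961834) (nat_lit 608) (nat_lit 1536744516) (nat_lit 76) (nat_lit 13356842222) (nat_lit 215) (nat_lit 5) (nat_lit 223) (nat_lit 5) (nat_lit 216) (nat_lit 5) (nat_lit 626) (nat_lit 554) (nat_lit 380)) (XT.lf (nat_lit 0) (nat_lit 6865111730) (nat_lit 532) (nat_lit 8753998592) (nat_lit 76) (nat_lit 2475209433) (nat_lit 209) (nat_lit 5) (nat_lit 216) (nat_lit 5) (nat_lit 210) (nat_lit 5) (nat_lit 627) (nat_lit 554) (nat_lit 379))))) (XT.nd (nat_lit 234) (nat_lit 836) (nat_lit 0) (XT.nd (nat_lit 78) (nat_lit 532) (nat_lit 0) (XT.lf (nat_lit 0) (nat_lit 2130976977) (nat_lit 456) (nat_lit 8733188453)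 (nat_lit 532) (nat_lit 7445253834) (nat_lit 203) (nat_lit 5) (nat_lit 209) (nat_lit 5) (nat_lit 210) (nat_lit 5) (nat_lit 628) (nat_lit 554) (nat_lit 378)) (XT.nd (nat_lit 78) (nat_lit 532) (nat_lit 0) (XT.lf (nat_lit 0) (nat_lit 13339827185) (nat_lit 456) (nat_lit 1653401434) (nat_lit 532) (nat_lit 3534592084) (nat_lit 203) (nat_lit 5) (nat_lit 209) (nat_lit 5) (nat_lit 210) (nat_lit 5) (nat_lit 629) (nat_lit 554) (nat_lit 377)) (XT.lf (nat_lit 0) (nat_lit 515650539) (nat_lit 532) (nat_lit 12699534763) (nat_lit 76) (nat_lit 5533999853) (nat_lit 196) (nat_lit 5) (nat_lit 203) (nat_lit 5) (nat_lit 197) (nat_lit 5) (nat_lit 630) (nat_lit 554) (nat_lit 376)))) (XT.nd (nat_lit 156) (nat_lit 380) (nat_lit 0) (XT.nd (nat_lit 78) (nat_lit 456) (nat_lit 0) (XT.lf (nat_lit 0) (nat_lit 4637071283) (nat_lit 532) (nat_lit 1438919515) (nat_lit 76) (nat_lit 12897769276) (nat_lit 196) (nat_lit 5) (nat_lit 203) (nat_lit 5) (nat_lit 197) (nat_lit 5) (nat_lit 631) (nat_lit 554)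 (nat_lit 375)) (XT.lf (nat_lit 0) (nat_lit 8906811147) (nat_lit 532) (nat_lit 9041831229) (nat_lit 76) (nat_lit 1252866769) (nat_lit 190) (nat_lit 5) (nat_lit 197) (nat_lit 5) (nat_lit 191) (nat_lit 5) (nat_lit 632) (nat_lit 554) (nat_lit 374))) (XT.nd (nat_lit 78) (nat_lit 0) (nat_lit 0) (XT.lf (nat_lit 0) (nat_lit 2557126787) (nat_lit 380) (nat_lit 10763070788) (nat_lit 456) (nat_lit 6112451048) (nat_lit 185) (nat_lit 5) (nat_lit 190) (nat_lit 5) (nat_lit 191) (nat_lit 5) (nat_lit 633) (nat_lit 554) (nat_lit 373)) (XT.lf (nat_lit 0) (nat_lit 14498468649) (nat_lit 380) (nat_lit 3375833501) (nat_lit 456) (nat_lit 1793060182) (nat_lit 185) (nat_lit 5) (nat_lit 190) (nat_lit 5) (nat_lit 191) (nat_lit 5) (nat_lit 634) (nat_lit 554) (nat_lit 372)))))) (XT.nd (nat_lit 546) (nat_lit 1976) (nat_lit 0) (XT.nd (nat_lit 234) (nat_lit 836) (nat_lit 0) (XT.nd (nat_lit 78) (nat_lit 380) (nat_lit 0) (XT.lf (nat_lit 0) (nat_lit 2642080323) (nat_lit 532) (nat_lit 13100608114)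 (nat_lit 76) (nat_lit 4162470481) (nat_lit 178) (nat_lit 5) (nat_lit 185) (nat_lit 5) (nat_lit 179) (nat_lit 5) (nat_lit 635) (nat_lit 554) (nat_lit 371)) (XT.nd (nat_lit 78) (nat_lit 380) (nat_lit 0) (XT.lf (nat_lit 0) (nat_lit 7191147797) (nat_lit 532) (nat_lit 1106034802) (nat_lit 76) (nat_lit 11849307555) (nat_lit 178) (nat_lit 5) (nat_lit 185) (nat_lit 5) (nat_lit 179) (nat_lit 5) (nat_lit 636) (nat_lit 554) (nat_lit 370)) (XT.lf (nat_lit 0) (nat_lit 11264314277) (nat_lit 380) (nat_lit 632114381) (nat_lit 456) (nat_lit 8494915130) (nat_lit 173) (nat_lit 5) (nat_lit 178) (nat_lit 5) (nat_lit 179) (nat_lit 5) (nat_lit 637) (nat_lit 554) (nat_lit 369)))) (XT.nd (nat_lit 156) (nat_lit 380) (nat_lit 0) (XT.nd (nat_lit 78) (nat_lit 76) (nat_lit 0) (XT.lf (nat_lit 0) (nat_lit 3240000441) (nat_lit 380) (nat_lit 13523129649) (nat_lit 456) (nat_lit 3876618516) (nat_lit 168) (nat_lit 5) (nat_lit 173) (nat_lit 5) (nat_lit 174) (nat_lit 5) (nat_lit 638) (nat_lit 554) (nat_lit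 368)) (XT.lf (nat_lit 0) (nat_lit 881119206) (nat_lit 456) (nat_lit 4935741873) (nat_lit 76) (nat_lit 15074992255) (nat_lit 167) (nat_lit 5) (nat_lit 173) (nat_lit 5) (nat_lit 168) (nat_lit 5) (nat_lit 639) (nat_lit 554) (nat_lit 367))) (XT.nd (nat_lit 78) (nat_lit 0) (nat_lit 0) (XT.lf (nat_lit 0) (nat_lit 5739151880) (nat_lit 456) (nat_lit 13318331441) (nat_lit 76) (nat_lit 2089863767) (nat_lit 162) (nat_lit 5) (nat_lit 168) (nat_lit 5) (nat_lit 163) (nat_lit 5) (nat_lit 640) (nat_lit 554) (nat_lit 366)) (XT.lf (nat_lit 0) (nat_lit 10758585406) (nat_lit 456) (nat_lit 541800280) (nat_lit 76) (nat_lit 10106280606) (nat_lit 162) (nat_lit 5) (nat_lit 168) (nat_lit 5) (nat_lit 163) (nat_lit 5) (nat_lit 641) (nat_lit 554) (nat_lit 365))))) (XT.nd (nat_lit 234) (nat_lit 1140) (nat_lit 0) (XT.nd (nat_lit 78) (nat_lit 456) (nat_lit 0) (XT.lf (nat_lit 0) (nat_lit 12644583785) (nat_lit 380) (nat_lit 3308447474) (nat_lit 456) (nat_lit 5716648518) (nat_lit 157) (nat_lit 5)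 (nat_lit 162) (nat_lit 5) (nat_lit 163) (nat_lit 5) (nat_lit 642) (nat_lit 554) (nat_lit 364)) (XT.nd (nat_lit 78) (nat_lit 76) (nat_lit 0) (XT.lf (nat_lit 0) (nat_lit 4175896270) (nat_lit 380) (nat_lit 17130261096) (nat_lit 456) (nat_lit 630700702) (nat_lit 152) (nat_lit 5) (nat_lit 157) (nat_lit 5) (nat_lit 158) (nat_lit 5) (nat_lit 643) (nat_lit 554) (nat_lit 363)) (XT.lf (nat_lit 0) (nat_lit 4572669814) (nat_lit 456) (nat_lit 4508403749) (nat_lit 76) (nat_lit 13126205588) (nat_lit 151) (nat_lit 5) (nat_lit 157) (nat_lit 5) (nat_lit 152) (nat_lit 5) (nat_lit 644) (nat_lit 554) (nat_lit 362)))) (XT.nd (nat_lit 156) (nat_lit 456) (nat_lit 0) (XT.nd (nat_lit 78) (nat_lit 304) (nat_lit 0) (XT.lf (nat_lit 0) (nat_lit 9113194085) (nat_lit 380) (nat_lit 810385269) (nat_lit 456) (nat_lit 12558407932) (nat_lit 146) (nat_lit 5) (nat_lit 151) (nat_lit 5) (nat_lit 152) (nat_lit 5) (nat_lit 645) (nat_lit 554) (nat_lit 361)) (XT.lf (nat_lit 0) (nat_lit 248906228) (nat_lit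 304) (nat_lit 15206964709) (nat_lit 380) (nat_lit 7304831704) (nat_lit 142) (nat_lit 5) (nat_lit 146) (nat_lit 5) (nat_lit 147) (nat_lit 5) (nat_lit 646) (nat_lit 554) (nat_lit 360))) (XT.nd (nat_lit 78) (nat_lit 456) (nat_lit 0) (XT.lf (nat_lit 0) (nat_lit 14303415418) (nat_lit 304) (nat_lit 6883286514) (nat_lit 380) (nat_lit 1856532830) (nat_lit 142) (nat_lit 5) (nat_lit 146) (nat_lit 5) (nat_lit 147) (nat_lit 5) (nat_lit 647) (nat_lit 554) (nat_lit 359)) (XT.lf (nat_lit 0) (nat_lit 3690621627) (nat_lit 456) (nat_lit 17998738421) (nat_lit 76) (nat_lit 1640808733) (nat_lit 136) (nat_lit 5) (nat_lit 142) (nat_lit 5) (nat_lit 137) (nat_lit 5) (nat_lit 648) (nat_lit 554) (nat_lit 358))))))) (XT.nd (nat_lit 1014) (nat_lit 0) (nat_lit 0) (XT.nd (nat_lit 468) (nat_lit 1596) (nat_lit 0) (XT.nd (nat_lit 234) (nat_lit 380) (nat_lit 0) (XT.nd (nat_lit 78) (nat_lit 608) (nat_lit 0) (XT.lf (nat_lit 0) (nat_lit 9421488528) (nat_lit 456) (nat_lit 3888596203) (nat_lit 76) (nat_lit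 10310559057) (nat_lit 136) (nat_lit 5) (nat_lit 142) (nat_lit 5) (nat_lit 137) (nat_lit 5) (nat_lit 649) (nat_lit 554) (nat_lit 357)) (XT.nd (nat_lit 78) (nat_lit 304) (nat_lit 0) (XT.lf (nat_lit 0) (nat_lit 10632176760) (nat_lit 304) (nat_lit 4696947958) (nat_lit 380) (nat_lit 8586560844) (nat_lit 132) (nat_lit 5) (nat_lit 136) (nat_lit 5) (nat_lit 137) (nat_lit 5) (nat_lit 650) (nat_lit 554) (nat_lit 356)) (XT.lf (nat_lit 0) (nat_lit 1258707928) (nat_lit 304) (nat_lit 20150348197) (nat_lit 380) (nat_lit 2806489492) (nat_lit 128) (nat_lit 5) (nat_lit 132) (nat_lit 5) (nat_lit 133) (nat_lit 5) (nat_lit 651) (nat_lit 554) (nat_lit 355)))) (XT.nd (nat_lit 78) (nat_lit 304) (nat_lit 0) (XT.lf (nat_lit 0) (nat_lit 3162678909) (nat_lit 380) (nat_lit 8310613222) (nat_lit 76) (nat_lit 13045429673) (nat_lit 127) (nat_lit 5) (nat_lit 132) (nat_lit 5) (nat_lit 128) (nat_lit 5) (nat_lit 652) (nat_lit 554) (nat_lit 354)) (XT.nd (nat_lit 78) (nat_lit 0) (nat_lit 0) (XT.lf (nat_lit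 0) (nat_lit 6686794681) (nat_lit 304) (nat_lit 2563616688) (nat_lit 380) (nat_lit 15576444215) (nat_lit 123) (nat_lit 5) (nat_lit 127) (nat_lit 5) (nat_lit 128) (nat_lit 5) (nat_lit 653) (nat_lit 554) (nat_lit 353)) (XT.lf (nat_lit 0) (nat_lit 15551739744) (nat_lit 380) (nat_lit 3096850521) (nat_lit 76) (nat_lit 6490725224) (nat_lit 123) (nat_lit 5) (nat_lit 128) (nat_lit 5) (nat_lit 124) (nat_lit 5) (nat_lit 654) (nat_lit 554) (nat_lit 352))))) (XT.nd (nat_lit 234) (nat_lit 912) (nat_lit 0) (XT.nd (nat_lit 78) (nat_lit 380) (nat_lit 0) (XT.lf (nat_lit 0) (nat_lit 12381963602) (nat_lit 304) (nat_lit 9687974691) (nat_lit 380) (nat_lit 3386269699) (nat_lit 119) (nat_lit 5) (nat_lit 123) (nat_lit 5) (nat_lit 124) (nat_lit 5) (nat_lit 655) (nat_lit 554) (nat_lit 351)) (XT.nd (nat_lit 78) (nat_lit 0) (nat_lit 0) (XT.lf (nat_lit 0) (nat_lit 2435338759) (nat_lit 304) (nat_lit 495398448) (nat_lit 380) (nat_lit 22847715327) (nat_lit 114) (nat_lit 5) (nat_lit 118) (nat_lit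 5) (nat_lit 119) (nat_lit 5) (nat_lit 656) (nat_lit 554) (nat_lit 350)) (XT.lf (nat_lit 0) (nat_lit 9468283836) (nat_lit 380) (nat_lit 7764440024) (nat_lit 76) (nat_lit 8871179860) (nat_lit 114) (nat_lit 5) (nat_lit 119) (nat_lit 5) (nat_lit 115) (nat_lit 5) (nat_lit 657) (nat_lit 554) (nat_lit 349)))) (XT.nd (nat_lit 156) (nat_lit 608) (nat_lit 0) (XT.nd (nat_lit 78) (nat_lit 0) (nat_lit 0) (XT.lf (nat_lit 0) (nat_lit 8219818096) (nat_lit 304) (nat_lit 7967061352) (nat_lit 380) (nat_lit 10247978772) (nat_lit 110) (nat_lit 5) (nat_lit 114) (nat_lit 5) (nat_lit 115) (nat_lit 5) (nat_lit 658) (nat_lit 554) (nat_lit 348)) (XT.lf (nat_lit 0) (nat_lit 23095608609) (nat_lit 380) (nat_lit 2162901689) (nat_lit 76) (nat_lit 1512806521) (nat_lit 110) (nat_lit 5) (nat_lit 115) (nat_lit 5) (nat_lit 111) (nat_lit 5) (nat_lit 659) (nat_lit 554) (nat_lit 347))) (XT.nd (nat_lit 78) (nat_lit 304) (nat_lit 0) (XT.lf (nat_lit 0) (nat_lit 3128857465) (nat_lit 304) (nat_lit 12797106572)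 (nat_lit 76) (nat_lit 11185336342) (nat_lit 106) (nat_lit 5) (nat_lit 110) (nat_lit 5) (nat_lit 107) (nat_lit 5) (nat_lit 660) (nat_lit 554) (nat_lit 346)) (XT.lf (nat_lit 0) (nat_lit 3706174748) (nat_lit 304) (nat_lit 6346657691) (nat_lit 380) (nat_lit 17404114756) (nat_lit 102) (nat_lit 5) (nat_lit 106) (nat_lit 5) (nat_lit 107) (nat_lit 5) (nat_lit 661) (nat_lit 554) (nat_lit 345)))))) (XT.nd (nat_lit 73320) (nat_lit 0) (nat_lit 33060) (XT.nd (nat_lit 73008) (nat_lit 0) (nat_lit 34504) (XT.nd (nat_lit 72852) (nat_lit 0) (nat_lit 34428) (XT.lf (nat_lit 0) (nat_lit 17217807307) (nat_lit 380) (nat_lit 7127978892) (nat_lit 76) (nat_lit 3461670569) (nat_lit 102) (nat_lit 5) (nat_lit 107) (nat_lit 5) (nat_lit 103) (nat_lit 5) (nat_lit 662) (nat_lit 554) (nat_lit 344)) (XT.nd (nat_lit 78) (nat_lit 0) (nat_lit 0) (XT.lf (nat_lit 0) (nat_lit 891298838) (nat_lit 1596) (nat_lit 1750659926) (nat_lit 1596) (nat_lit 1750659926) (nat_lit 555) (nat_lit 3) (nat_lit 576) (nat_lit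 3) (nat_lit 576) (nat_lit 5) (nat_lit 555) (nat_lit 555) (nat_lit 450)) (XT.lf (nat_lit 76) (nat_lit 853752665) (nat_lit 0) (nat_lit 1908563942) (nat_lit 1596) (nat_lit 6091437077) (nat_lit 556) (nat_lit 5) (nat_lit 555) (nat_lit 3) (nat_lit 576) (nat_lit 5) (nat_lit 556) (nat_lit 555) (nat_lit 449)))) (XT.nd (nat_lit 156) (nat_lit 0) (nat_lit 0) (XT.nd (nat_lit 78) (nat_lit 0) (nat_lit 0) (XT.lf (nat_lit 0) (nat_lit 3770152555) (nat_lit 1520) (nat_lit 3603449814) (nat_lit 1596) (nat_lit 1549870069) (nat_lit 556) (nat_lit 5) (nat_lit 576) (nat_lit 5) (nat_lit 577) (nat_lit 5) (nat_lit 557) (nat_lit 555) (nat_lit 448)) (XT.lf (nat_lit 76) (nat_lit 866472463) (nat_lit 0) (nat_lit 3925339599) (nat_lit 1596) (nat_lit 4202902691) (nat_lit 557) (nat_lit 5) (nat_lit 556) (nat_lit 5) (nat_lit 577) (nat_lit 5) (nat_lit 558) (nat_lit 555) (nat_lit 447))) (XT.nd (nat_lit 78) (nat_lit 0) (nat_lit 76) (XT.lf (nat_lit 76) (nat_lit 5461441894) (nat_lit 0) (nat_lit 372442180)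 (nat_lit 1596) (nat_lit 3233500731) (nat_lit 557) (nat_lit 5) (nat_lit 556) (nat_lit 5) (nat_lit 577) (nat_lit 5) (nat_lit 559) (nat_lit 555) (nat_lit 446)) (XT.lf (nat_lit 76) (nat_lit 985126324) (nat_lit 0) (nat_lit 5915521138) (nat_lit 1596) (nat_lit 2240786226) (nat_lit 558) (nat_lit 5) (nat_lit 557) (nat_lit 5) (nat_lit 578) (nat_lit 5) (nat_lit 560) (nat_lit 555) (nat_lit 445))))) (XT.nd (nat_lit 234) (nat_lit 0) (nat_lit 0) (XT.nd (nat_lit 78) (nat_lit 1520) (nat_lit 0) (XT.lf (nat_lit 76) (nat_lit 5701000629) (nat_lit 0) (nat_lit 2291113288) (nat_lit 1596) (nat_lit 1224784654) (nat_lit 558) (nat_lit 5) (nat_lit 557) (nat_lit 5) (nat_lit 578) (nat_lit 5) (nat_lit 561) (nat_lit 555) (nat_lit 444)) (XT.nd (nat_lit 78) (nat_lit 1596) (nat_lit 0) (XT.lf (nat_lit 76) (nat_lit 1210411574) (nat_lit 0) (nat_lit 7889223334) (nat_lit 1596) (nat_lit 194355674) (nat_lit 559) (nat_lit 5) (nat_lit 558) (nat_lit 5) (nat_lit 579) (nat_lit 5) (nat_lit 562) (nat_lit 555)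 (nat_lit 443)) (XT.lf (nat_lit 0) (nat_lit 861815789) (nat_lit 1596) (nat_lit 3328005398) (nat_lit 1672) (nat_lit 5182366857) (nat_lit 537) (nat_lit 5) (nat_lit 558) (nat_lit 5) (nat_lit 559) (nat_lit 5) (nat_lit 563) (nat_lit 555) (nat_lit 442)))) (XT.nd (nat_lit 156) (nat_lit 0) (nat_lit 76) (XT.nd (nat_lit 78) (nat_lit 0) (nat_lit 76) (XT.lf (nat_lit 76) (nat_lit 1527834593) (nat_lit 0) (nat_lit 396484766) (nat_lit 1672) (nat_lit 7527850378) (nat_lit 538) (nat_lit 5) (nat_lit 537) (nat_lit 5) (nat_lit 559) (nat_lit 5) (nat_lit 564) (nat_lit 555) (nat_lit 441)) (XT.lf (nat_lit 0) (nat_lit 3031389191) (nat_lit 1596) (nat_lit 3044093556) (nat_lit 1672) (nat_lit 3457804150) (nat_lit 538) (nat_lit 5) (nat_lit 559) (nat_lit 5) (nat_lit 560) (nat_lit 5) (nat_lit 565) (nat_lit 555) (nat_lit 440))) (XT.nd (nat_lit 78) (nat_lit 0) (nat_lit 76) (XT.lf (nat_lit 76) (nat_lit 1942885461) (nat_lit 0) (nat_lit 2211669334) (nat_lit 1672) (nat_lit 5461594630) (nat_lit 539) (nat_lit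 5) (nat_lit 538) (nat_lit 5) (nat_lit 560) (nat_lit 5) (nat_lit 566) (nat_lit 555) (nat_lit 439)) (XT.lf (nat_lit 0) (nat_lit 5311065568) (nat_lit 1596) (nat_lit 2654858384) (nat_lit 1672) (nat_lit 1734529688) (nat_lit 539) (nat_lit 5) (nat_lit 560) (nat_lit 5) (nat_lit 561) (nat_lit 5) (nat_lit 567) (nat_lit 555) (nat_lit 438))))))))
noncomputable def xc155 : XT := (XT.nd (nat_lit 2106) (nat_lit 10868) (nat_lit 0) (XT.nd (nat_lit 1014) (nat_lit 9120) (nat_lit 0) (XT.nd (nat_lit 468) (nat_lit 1444) (nat_lit 0) (XT.nd (nat_lit 234) (nat_lit 1596) (nat_lit 0) (XT.nd (nat_lit 78) (nat_lit 0) (nat_lit 76) (XT.lf (nat_lit 76) (nat_lit 2467809302) (nat_lit 0) (nat_lit 4033067275) (nat_lit 1672) (nat_lit 3285365992) (nat_lit 540) (nat_lit 5) (nat_lit 539) (nat_lit 5) (nat_lit 561) (nat_lit 5) (nat_lit 568) (nat_lit 555) (nat_lit 437)) (XT.nd (nat_lit 78) (nat_lit 0) (nat_lit 0) (XT.lf (nat_lit 0) (nat_lit 7712132571) (nat_lit 1596) (nat_lit 2158632984) (nat_lit 1672)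 (nat_lit 3030737) (nat_lit 540) (nat_lit 5) (nat_lit 561) (nat_lit 5) (nat_lit 562) (nat_lit 5) (nat_lit 569) (nat_lit 555) (nat_lit 436)) (XT.lf (nat_lit 76) (nat_lit 3104466336) (nat_lit 0) (nat_lit 5870262877) (nat_lit 1672) (nat_lit 987831518) (nat_lit 541) (nat_lit 5) (nat_lit 540) (nat_lit 5) (nat_lit 562) (nat_lit 5) (nat_lit 570) (nat_lit 555) (nat_lit 435)))) (XT.nd (nat_lit 78) (nat_lit 0) (nat_lit 76) (XT.lf (nat_lit 0) (nat_lit 201728571) (nat_lit 1672) (nat_lit 1566252465) (nat_lit 1748) (nat_lit 8285194129) (nat_lit 518) (nat_lit 5) (nat_lit 540) (nat_lit 5) (nat_lit 541) (nat_lit 5) (nat_lit 571) (nat_lit 555) (nat_lit 434)) (XT.nd (nat_lit 78) (nat_lit 0) (nat_lit 0) (XT.lf (nat_lit 0) (nat_lit 1423672117) (nat_lit 1672) (nat_lit 6299554900) (nat_lit 1748) (nat_lit 2421809730) (nat_lit 519) (nat_lit 5) (nat_lit 541) (nat_lit 5) (nat_lit 542) (nat_lit 5) (nat_lit 572) (nat_lit 555) (nat_lit 433)) (XT.lf (nat_lit 0) (nat_lit 2673465302) (nat_lit 1672)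 (nat_lit 877742911) (nat_lit 1748) (nat_lit 6687460938) (nat_lit 519) (nat_lit 5) (nat_lit 541) (nat_lit 5) (nat_lit 542) (nat_lit 5) (nat_lit 573) (nat_lit 555) (nat_lit 432))))) (XT.nd (nat_lit 234) (nat_lit 1596) (nat_lit 0) (XT.nd (nat_lit 78) (nat_lit 0) (nat_lit 0) (XT.lf (nat_lit 0) (nat_lit 3965069152) (nat_lit 1672) (nat_lit 5638434327) (nat_lit 1748) (nat_lit 730336196) (nat_lit 520) (nat_lit 5) (nat_lit 542) (nat_lit 5) (nat_lit 543) (nat_lit 5) (nat_lit 574) (nat_lit 555) (nat_lit 431)) (XT.nd (nat_lit 78) (nat_lit 0) (nat_lit 0) (XT.lf (nat_lit 0) (nat_lit 5293747278) (nat_lit 1672) (nat_lit 76586954) (nat_lit 1748) (nat_lit 5060356268) (nat_lit 520) (nat_lit 5) (nat_lit 542) (nat_lit 5) (nat_lit 543) (nat_lit 5) (nat_lit 575) (nat_lit 555) (nat_lit 430)) (XT.lf (nat_lit 76) (nat_lit 5656816141) (nat_lit 0) (nat_lit 1011062725) (nat_lit 1748) (nat_lit 3861223575) (nat_lit 521) (nat_lit 5) (nat_lit 520) (nat_lit 5) (nat_lit 543) (nat_lit 5) (nat_lit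 576) (nat_lit 555) (nat_lit 429)))) (XT.nd (nat_lit 156) (nat_lit 1672) (nat_lit 0) (XT.nd (nat_lit 78) (nat_lit 0) (nat_lit 0) (XT.lf (nat_lit 76) (nat_lit 851149568) (nat_lit 0) (nat_lit 7229129253) (nat_lit 1748) (nat_lit 2548989752) (nat_lit 522) (nat_lit 5) (nat_lit 521) (nat_lit 5) (nat_lit 544) (nat_lit 5) (nat_lit 577) (nat_lit 555) (nat_lit 428)) (XT.lf (nat_lit 76) (nat_lit 6734249399) (nat_lit 0) (nat_lit 2808715063) (nat_lit 1748) (nat_lit 1188034446) (nat_lit 522) (nat_lit 5) (nat_lit 521) (nat_lit 5) (nat_lit 544) (nat_lit 5) (nat_lit 578) (nat_lit 555) (nat_lit 427))) (XT.nd (nat_lit 78) (nat_lit 0) (nat_lit 0) (XT.lf (nat_lit 0) (nat_lit 203980604) (nat_lit 1748) (nat_lit 8936002238) (nat_lit 76) (nat_lit 1694627278) (nat_lit 499) (nat_lit 5) (nat_lit 522) (nat_lit 5) (nat_lit 500) (nat_lit 5) (nat_lit 579) (nat_lit 555) (nat_lit 426)) (XT.lf (nat_lit 0) (nat_lit 1636720998) (nat_lit 1748) (nat_lit 3014636861) (nat_lit 76) (nat_lit 6288204324) (nat_lit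 499) (nat_lit 5) (nat_lit 522) (nat_lit 5) (nat_lit 500) (nat_lit 5) (nat_lit 580) (nat_lit 555) (nat_lit 425)))))) (XT.nd (nat_lit 546) (nat_lit 3496) (nat_lit 0) (XT.nd (nat_lit 234) (nat_lit 2052) (nat_lit 0) (XT.nd (nat_lit 78) (nat_lit 1824) (nat_lit 0) (XT.lf (nat_lit 0) (nat_lit 3051169552) (nat_lit 1748) (nat_lit 50265963) (nat_lit 1824) (nat_lit 7945112895) (nat_lit 476) (nat_lit 5) (nat_lit 499) (nat_lit 5) (nat_lit 500) (nat_lit 5) (nat_lit 581) (nat_lit 555) (nat_lit 424)) (XT.nd (nat_lit 78) (nat_lit 1824) (nat_lit 0) (XT.lf (nat_lit 0) (nat_lit 4629709912) (nat_lit 1824) (nat_lit 1920644554) (nat_lit 76) (nat_lit 4604636062) (nat_lit 476) (nat_lit 5) (nat_lit 500) (nat_lit 5) (nat_lit 477) (nat_lit 5) (nat_lit 582) (nat_lit 555) (nat_lit 423)) (XT.lf (nat_lit 0) (nat_lit 4317908499) (nat_lit 1824) (nat_lit 1883084763) (nat_lit 1900) (nat_lit 5064360808) (nat_lit 452) (nat_lit 5) (nat_lit 476) (nat_lit 5) (nat_lit 477) (nat_lit 5) (nat_lit 583) (nat_lit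 555) (nat_lit 422)))) (XT.nd (nat_lit 156) (nat_lit 988) (nat_lit 0) (XT.nd (nat_lit 78) (nat_lit 1064) (nat_lit 0) (XT.lf (nat_lit 0) (nat_lit 7819668793) (nat_lit 1900) (nat_lit 703376398) (nat_lit 76) (nat_lit 2854561784) (nat_lit 452) (nat_lit 5) (nat_lit 477) (nat_lit 5) (nat_lit 453) (nat_lit 5) (nat_lit 584) (nat_lit 555) (nat_lit 421)) (XT.lf (nat_lit 0) (nat_lit 5714115092) (nat_lit 1064) (nat_lit 3790790764) (nat_lit 1140) (nat_lit 1986516717) (nat_lit 438) (nat_lit 5) (nat_lit 452) (nat_lit 5) (nat_lit 453) (nat_lit 5) (nat_lit 585) (nat_lit 555) (nat_lit 420))) (XT.nd (nat_lit 78) (nat_lit 76) (nat_lit 0) (XT.lf (nat_lit 0) (nat_lit 649681365) (nat_lit 912) (nat_lit 10574700708) (nat_lit 988) (nat_lit 383123087) (nat_lit 426) (nat_lit 5) (nat_lit 438) (nat_lit 5) (nat_lit 439) (nat_lit 5) (nat_lit 586) (nat_lit 555) (nat_lit 419)) (XT.lf (nat_lit 0) (nat_lit 1284987376) (nat_lit 988) (nat_lit 4489363491) (nat_lit 76) (nat_lit 5950415755) (nat_lit 425)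 (nat_lit 5) (nat_lit 438) (nat_lit 5) (nat_lit 426) (nat_lit 5) (nat_lit 587) (nat_lit 555) (nat_lit 418))))) (XT.nd (nat_lit 234) (nat_lit 1748) (nat_lit 0) (XT.nd (nat_lit 78) (nat_lit 836) (nat_lit 0) (XT.lf (nat_lit 0) (nat_lit 2119749235) (nat_lit 912) (nat_lit 860587143) (nat_lit 988) (nat_lit 8864007446) (nat_lit 413) (nat_lit 5) (nat_lit 425) (nat_lit 5) (nat_lit 426) (nat_lit 5) (nat_lit 588) (nat_lit 555) (nat_lit 417)) (XT.nd (nat_lit 78) (nat_lit 836) (nat_lit 0) (XT.lf (nat_lit 0) (nat_lit 4752314214) (nat_lit 988) (nat_lit 3085150155) (nat_lit 76) (nat_lit 4127995028) (nat_lit 413) (nat_lit 5) (nat_lit 426) (nat_lit 5) (nat_lit 414) (nat_lit 5) (nat_lit 589) (nat_lit 555) (nat_lit 416)) (XT.lf (nat_lit 0) (nat_lit 3716215557) (nat_lit 836) (nat_lit 2859071252) (nat_lit 912) (nat_lit 5513400605) (nat_lit 402) (nat_lit 5) (nat_lit 413) (nat_lit 5) (nat_lit 414) (nat_lit 5) (nat_lit 590) (nat_lit 555) (nat_lit 415)))) (XT.nd (nat_lit 156) (nat_lit 912)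 (nat_lit 0) (XT.nd (nat_lit 78) (nat_lit 836) (nat_lit 0) (XT.lf (nat_lit 0) (nat_lit 8455885139) (nat_lit 912) (nat_lit 1547181218) (nat_lit 76) (nat_lit 2210891524) (nat_lit 402) (nat_lit 5) (nat_lit 414) (nat_lit 5) (nat_lit 403) (nat_lit 5) (nat_lit 591) (nat_lit 555) (nat_lit 414)) (XT.lf (nat_lit 0) (nat_lit 5453379231) (nat_lit 836) (nat_lit 4961253180) (nat_lit 912) (nat_lit 1926291796) (nat_lit 391) (nat_lit 5) (nat_lit 402) (nat_lit 5) (nat_lit 403) (nat_lit 5) (nat_lit 592) (nat_lit 555) (nat_lit 413))) (XT.nd (nat_lit 78) (nat_lit 76) (nat_lit 0) (XT.lf (nat_lit 0) (nat_lit 131169165) (nat_lit 836) (nat_lit 12280242573) (nat_lit 912) (nat_lit 59042147) (nat_lit 380) (nat_lit 5) (nat_lit 391) (nat_lit 5) (nat_lit 392) (nat_lit 5) (nat_lit 593) (nat_lit 555) (nat_lit 412)) (XT.lf (nat_lit 0) (nat_lit 1887192038) (nat_lit 912) (nat_lit 5277268960) (nat_lit 76) (nat_lit 5436557742) (nat_lit 379) (nat_lit 5) (nat_lit 391) (nat_lit 5) (nat_lit 380) (nat_lit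 5) (nat_lit 594) (nat_lit 555) (nat_lit 411))))))) (XT.nd (nat_lit 1092) (nat_lit 4940) (nat_lit 0) (XT.nd (nat_lit 546) (nat_lit 2812) (nat_lit 0) (XT.nd (nat_lit 234) (nat_lit 1520) (nat_lit 0) (XT.nd (nat_lit 78) (nat_lit 760) (nat_lit 0) (XT.lf (nat_lit 0) (nat_lit 1937184353) (nat_lit 836) (nat_lit 1933682812) (nat_lit 912) (nat_lit 8863334885) (nat_lit 368) (nat_lit 5) (nat_lit 379) (nat_lit 5) (nat_lit 380) (nat_lit 5) (nat_lit 595) (nat_lit 555) (nat_lit 410)) (XT.nd (nat_lit 78) (nat_lit 760) (nat_lit 0) (XT.lf (nat_lit 0) (nat_lit 5938845367) (nat_lit 912) (nat_lit 3538186325) (nat_lit 76) (nat_lit 3392125821) (nat_lit 368) (nat_lit 5) (nat_lit 380) (nat_lit 5) (nat_lit 369) (nat_lit 5) (nat_lit 596) (nat_lit 555) (nat_lit 409)) (XT.lf (nat_lit 0) (nat_lit 3890326018) (nat_lit 760) (nat_lit 4183074116) (nat_lit 836) (nat_lit 4932908667) (nat_lit 358) (nat_lit 5) (nat_lit 368) (nat_lit 5) (nat_lit 369) (nat_lit 5) (nat_lit 597) (nat_lit 555) (nat_lit 408))))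 (XT.nd (nat_lit 156) (nat_lit 760) (nat_lit 0) (XT.nd (nat_lit 78) (nat_lit 760) (nat_lit 0) (XT.lf (nat_lit 0) (nat_lit 10269756317) (nat_lit 836) (nat_lit 1652286416) (nat_lit 76) (nat_lit 1223779211) (nat_lit 358) (nat_lit 5) (nat_lit 369) (nat_lit 5) (nat_lit 359) (nat_lit 5) (nat_lit 598) (nat_lit 555) (nat_lit 407)) (XT.lf (nat_lit 0) (nat_lit 5998048305) (nat_lit 760) (nat_lit 6566195885) (nat_lit 836) (nat_lit 722798086) (nat_lit 348) (nat_lit 5) (nat_lit 358) (nat_lit 5) (nat_lit 359) (nat_lit 5) (nat_lit 599) (nat_lit 555) (nat_lit 406))) (XT.nd (nat_lit 78) (nat_lit 0) (nat_lit 0) (XT.lf (nat_lit 0) (nat_lit 374518476) (nat_lit 684) (nat_lit 1080916094) (nat_lit 760) (nat_lit 11975437567) (nat_lit 338) (nat_lit 5) (nat_lit 347) (nat_lit 5) (nat_lit 348) (nat_lit 5) (nat_lit 600) (nat_lit 555) (nat_lit 405)) (XT.lf (nat_lit 0) (nat_lit 3733885977) (nat_lit 760) (nat_lit 5334734728) (nat_lit 76) (nat_lit 4507536648) (nat_lit 338) (nat_lit 5) (nat_lit 348)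 (nat_lit 5) (nat_lit 339) (nat_lit 5) (nat_lit 601) (nat_lit 555) (nat_lit 404))))) (XT.nd (nat_lit 234) (nat_lit 1368) (nat_lit 0) (XT.nd (nat_lit 78) (nat_lit 684) (nat_lit 0) (XT.lf (nat_lit 0) (nat_lit 2554105960) (nat_lit 760) (nat_lit 3515559500) (nat_lit 836) (nat_lit 7654448569) (nat_lit 328) (nat_lit 5) (nat_lit 338) (nat_lit 5) (nat_lit 339) (nat_lit 5) (nat_lit 602) (nat_lit 555) (nat_lit 403)) (XT.nd (nat_lit 78) (nat_lit 684) (nat_lit 0) (XT.lf (nat_lit 0) (nat_lit 8490301096) (nat_lit 836) (nat_lit 3229151354) (nat_lit 76) (nat_lit 2154815498) (nat_lit 328) (nat_lit 5) (nat_lit 339) (nat_lit 5) (nat_lit 329) (nat_lit 5) (nat_lit 603) (nat_lit 555) (nat_lit 402)) (XT.lf (nat_lit 0) (nat_lit 4898060259) (nat_lit 684) (nat_lit 6104759462) (nat_lit 760) (nat_lit 3023736721) (nat_lit 319) (nat_lit 5) (nat_lit 328) (nat_lit 5) (nat_lit 329) (nat_lit 5) (nat_lit 604) (nat_lit 555) (nat_lit 401)))) (XT.nd (nat_lit 156) (nat_lit 608) (nat_lit 0) (XT.nd (nat_lit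 78) (nat_lit 760) (nat_lit 0) (XT.lf (nat_lit 0) (nat_lit 13218257061) (nat_lit 684) (nat_lit 357529087) (nat_lit 760) (nat_lit 605901494) (nat_lit 319) (nat_lit 5) (nat_lit 328) (nat_lit 5) (nat_lit 329) (nat_lit 5) (nat_lit 605) (nat_lit 555) (nat_lit 400)) (XT.lf (nat_lit 0) (nat_lit 1908984457) (nat_lit 760) (nat_lit 6937891668) (nat_lit 76) (nat_lit 5491342783) (nat_lit 309) (nat_lit 5) (nat_lit 319) (nat_lit 5) (nat_lit 310) (nat_lit 5) (nat_lit 606) (nat_lit 555) (nat_lit 399))) (XT.nd (nat_lit 78) (nat_lit 0) (nat_lit 0) (XT.lf (nat_lit 0) (nat_lit 1445861988) (nat_lit 608) (nat_lit 3027265686) (nat_lit 684) (nat_lit 10024532409) (nat_lit 301) (nat_lit 5) (nat_lit 309) (nat_lit 5) (nat_lit 310) (nat_lit 5) (nat_lit 607) (nat_lit 555) (nat_lit 398)) (XT.lf (nat_lit 0) (nat_lit 7143225488) (nat_lit 684) (nat_lit 4600682999) (nat_lit 76) (nat_lit 2915288975) (nat_lit 301) (nat_lit 5) (nat_lit 310) (nat_lit 5) (nat_lit 302) (nat_lit 5) (nat_lit 608) (nat_lit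 555) (nat_lit 397)))))) (XT.nd (nat_lit 546) (nat_lit 2356) (nat_lit 0) (XT.nd (nat_lit 234) (nat_lit 1216) (nat_lit 0) (XT.nd (nat_lit 78) (nat_lit 684) (nat_lit 0) (XT.lf (nat_lit 0) (nat_lit 4039178930) (nat_lit 684) (nat_lit 5862957763) (nat_lit 760) (nat_lit 4921121469) (nat_lit 292) (nat_lit 5) (nat_lit 301) (nat_lit 5) (nat_lit 302) (nat_lit 5) (nat_lit 609) (nat_lit 555) (nat_lit 396)) (XT.nd (nat_lit 78) (nat_lit 684) (nat_lit 0) (XT.lf (nat_lit 0) (nat_lit 12737434719) (nat_lit 760) (nat_lit 2090181045) (nat_lit 76) (nat_lit 162560924) (nat_lit 292) (nat_lit 5) (nat_lit 302) (nat_lit 5) (nat_lit 293) (nat_lit 5) (nat_lit 610) (nat_lit 555) (nat_lit 395)) (XT.lf (nat_lit 0) (nat_lit 535870724) (nat_lit 684) (nat_lit 8347414294) (nat_lit 76) (nat_lit 6275628087) (nat_lit 283) (nat_lit 5) (nat_lit 292) (nat_lit 5) (nat_lit 284) (nat_lit 5) (nat_lit 611) (nat_lit 555) (nat_lit 394)))) (XT.nd (nat_lit 156) (nat_lit 608) (nat_lit 0) (XT.nd (nat_lit 78) (nat_lit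 0) (nat_lit 0) (XT.lf (nat_lit 0) (nat_lit 568132759) (nat_lit 608) (nat_lit 2789308832) (nat_lit 684) (nat_lit 11973138583) (nat_lit 275) (nat_lit 5) (nat_lit 283) (nat_lit 5) (nat_lit 284) (nat_lit 5) (nat_lit 612) (nat_lit 555) (nat_lit 393)) (XT.lf (nat_lit 0) (nat_lit 6303695744) (nat_lit 684) (nat_lit 5765249220) (nat_lit 76) (nat_lit 3435371309) (nat_lit 275) (nat_lit 5) (nat_lit 284) (nat_lit 5) (nat_lit 276) (nat_lit 5) (nat_lit 613) (nat_lit 555) (nat_lit 392))) (XT.nd (nat_lit 78) (nat_lit 0) (nat_lit 0) (XT.lf (nat_lit 0) (nat_lit 3425391676) (nat_lit 608) (nat_lit 5914016977) (nat_lit 684) (nat_lit 6341508479) (nat_lit 267) (nat_lit 5) (nat_lit 275) (nat_lit 5) (nat_lit 276) (nat_lit 5) (nat_lit 614) (nat_lit 555) (nat_lit 391)) (XT.lf (nat_lit 0) (nat_lit 12467062604) (nat_lit 684) (nat_lit 2997953144) (nat_lit 76) (nat_lit 395410420) (nat_lit 267) (nat_lit 5) (nat_lit 276) (nat_lit 5) (nat_lit 268) (nat_lit 5) (nat_lit 615) (nat_lit 555) (nat_lit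 390))))) (XT.nd (nat_lit 234) (nat_lit 1140) (nat_lit 0) (XT.nd (nat_lit 78) (nat_lit 608) (nat_lit 0) (XT.lf (nat_lit 0) (nat_lit 6477765772) (nat_lit 608) (nat_lit 9250844474) (nat_lit 684) (nat_lit 313489012) (nat_lit 259) (nat_lit 5) (nat_lit 267) (nat_lit 5) (nat_lit 268) (nat_lit 5) (nat_lit 616) (nat_lit 555) (nat_lit 389)) (XT.nd (nat_lit 78) (nat_lit 532) (nat_lit 0) (XT.lf (nat_lit 0) (nat_lit 2801307458) (nat_lit 684) (nat_lit 74704143) (nat_lit 76) (nat_lit 13350819362) (nat_lit 258) (nat_lit 5) (nat_lit 267) (nat_lit 5) (nat_lit 259) (nat_lit 5) (nat_lit 617) (nat_lit 555) (nat_lit 388)) (XT.lf (nat_lit 0) (nat_lit 6051611249) (nat_lit 608) (nat_lit 6720607549) (nat_lit 76) (nat_lit 3641449528) (nat_lit 251) (nat_lit 5) (nat_lit 259) (nat_lit 5) (nat_lit 252) (nat_lit 5) (nat_lit 618) (nat_lit 555) (nat_lit 387)))) (XT.nd (nat_lit 156) (nat_lit 608) (nat_lit 0) (XT.nd (nat_lit 78) (nat_lit 0) (nat_lit 0) (XT.lf (nat_lit 0) (nat_lit 3061381214) (nat_lit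 532) (nat_lit 6335411810) (nat_lit 608) (nat_lit 7206852603) (nat_lit 244) (nat_lit 5) (nat_lit 251) (nat_lit 5) (nat_lit 252) (nat_lit 5) (nat_lit 619) (nat_lit 555) (nat_lit 386)) (XT.lf (nat_lit 0) (nat_lit 12846299557) (nat_lit 608) (nat_lit 3680970553) (nat_lit 76) (nat_lit 269404561) (nat_lit 244) (nat_lit 5) (nat_lit 252) (nat_lit 5) (nat_lit 245) (nat_lit 5) (nat_lit 620) (nat_lit 555) (nat_lit 385))) (XT.nd (nat_lit 78) (nat_lit 76) (nat_lit 0) (XT.lf (nat_lit 0) (nat_lit 6407106920) (nat_lit 532) (nat_lit 10031960029) (nat_lit 608) (nat_lit 553012540) (nat_lit 237) (nat_lit 5) (nat_lit 244) (nat_lit 5) (nat_lit 245) (nat_lit 5) (nat_lit 621) (nat_lit 555) (nat_lit 384)) (XT.lf (nat_lit 0) (nat_lit 2889721908) (nat_lit 608) (nat_lit 475685415) (nat_lit 76) (nat_lit 13825295093) (nat_lit 236) (nat_lit 5) (nat_lit 244) (nat_lit 5) (nat_lit 237) (nat_lit 5) (nat_lit 622) (nat_lit 555) (nat_lit 383))))))))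
noncomputable def xc156 : XT := (XT.nd (nat_lit 2106) (nat_lit 2584) (nat_lit 0) (XT.nd (nat_lit 1014) (nat_lit 3724) (nat_lit 0) (XT.nd (nat_lit 468) (nat_lit 1824) (nat_lit 0) (XT.nd (nat_lit 234) (nat_lit 1064) (nat_lit 0) (XT.nd (nat_lit 78) (nat_lit 456) (nat_lit 0) (XT.lf (nat_lit 0) (nat_lit 6472183444) (nat_lit 608) (nat_lit 7464530052) (nat_lit 76) (nat_lit 3454946225) (nat_lit 229) (nat_lit 5) (nat_lit 237) (nat_lit 5) (nat_lit 230) (nat_lit 5) (nat_lit 623) (nat_lit 555) (nat_lit 382)) (XT.nd (nat_lit 78) (nat_lit 0) (nat_lit 0) (XT.lf (nat_lit 0) (nat_lit 2951893974) (nat_lit 456) (nat_lit 7210080075) (nat_lit 532) (nat_lit 7433949087) (nat_lit 223) (nat_lit 5) (nat_lit 229) (nat_lit 5) (nat_lit 230) (nat_lit 5) (nat_lit 624) (nat_lit 555) (nat_lit 381)) (XT.lf (nat_lit 0) (nat_lit 13665522850) (nat_lit 456) (nat_lit 301238321) (nat_lit 532) (nat_lit 3836687185) (nat_lit 223) (nat_lit 5) (nat_lit 229) (nat_lit 5) (nat_lit 230) (nat_lit 5) (nat_lit 625)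 (nat_lit 555) (nat_lit 380)))) (XT.nd (nat_lit 78) (nat_lit 532) (nat_lit 0) (XT.lf (nat_lit 0) (nat_lit 6608960765) (nat_lit 532) (nat_lit 11316653453) (nat_lit 608) (nat_lit 87950996) (nat_lit 216) (nat_lit 5) (nat_lit 223) (nat_lit 5) (nat_lit 224) (nat_lit 5) (nat_lit 626) (nat_lit 555) (nat_lit 379)) (XT.nd (nat_lit 78) (nat_lit 456) (nat_lit 0) (XT.lf (nat_lit 0) (nat_lit 3708008343) (nat_lit 608) (nat_lit 639142379) (nat_lit 76) (nat_lit 13879824234) (nat_lit 215) (nat_lit 5) (nat_lit 223) (nat_lit 5) (nat_lit 216) (nat_lit 5) (nat_lit 627) (nat_lit 555) (nat_lit 378)) (XT.lf (nat_lit 0) (nat_lit 7656494533) (nat_lit 532) (nat_lit 7995516359) (nat_lit 76) (nat_lit 2791075174) (nat_lit 209) (nat_lit 5) (nat_lit 216) (nat_lit 5) (nat_lit 210) (nat_lit 5) (nat_lit 628) (nat_lit 555) (nat_lit 377))))) (XT.nd (nat_lit 234) (nat_lit 836) (nat_lit 0) (XT.nd (nat_lit 78) (nat_lit 532) (nat_lit 0) (XT.lf (nat_lit 0) (nat_lit 3101016865) (nat_lit 456) (nat_lit 8627708760)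 (nat_lit 532) (nat_lit 6933898768) (nat_lit 203) (nat_lit 5) (nat_lit 209) (nat_lit 5) (nat_lit 210) (nat_lit 5) (nat_lit 629) (nat_lit 555) (nat_lit 376)) (XT.nd (nat_lit 78) (nat_lit 532) (nat_lit 0) (XT.lf (nat_lit 0) (nat_lit 14515859364) (nat_lit 456) (nat_lit 1411819011) (nat_lit 532) (nat_lit 2957970060) (nat_lit 203) (nat_lit 5) (nat_lit 209) (nat_lit 5) (nat_lit 210) (nat_lit 5) (nat_lit 630) (nat_lit 555) (nat_lit 375)) (XT.lf (nat_lit 0) (nat_lit 1159996064) (nat_lit 532) (nat_lit 12030936675) (nat_lit 76) (nat_lit 5920519926) (nat_lit 196) (nat_lit 5) (nat_lit 203) (nat_lit 5) (nat_lit 197) (nat_lit 5) (nat_lit 631) (nat_lit 555) (nat_lit 374)))) (XT.nd (nat_lit 156) (nat_lit 380) (nat_lit 0) (XT.nd (nat_lit 78) (nat_lit 456) (nat_lit 0) (XT.lf (nat_lit 0) (nat_lit 5351413213) (nat_lit 532) (nat_lit 563199098) (nat_lit 76) (nat_lit 13426156108) (nat_lit 196) (nat_lit 5) (nat_lit 203) (nat_lit 5) (nat_lit 197) (nat_lit 5) (nat_lit 632) (nat_lit 555)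 (nat_lit 373)) (XT.lf (nat_lit 0) (nat_lit 9702032984) (nat_lit 532) (nat_lit 8313619993) (nat_lit 76) (nat_lit 1557510476) (nat_lit 190) (nat_lit 5) (nat_lit 197) (nat_lit 5) (nat_lit 191) (nat_lit 5) (nat_lit 633) (nat_lit 555) (nat_lit 372))) (XT.nd (nat_lit 78) (nat_lit 0) (nat_lit 0) (XT.lf (nat_lit 0) (nat_lit 3511336605) (nat_lit 380) (nat_lit 10686114129) (nat_lit 456) (nat_lit 5611600385) (nat_lit 185) (nat_lit 5) (nat_lit 190) (nat_lit 5) (nat_lit 191) (nat_lit 5) (nat_lit 634) (nat_lit 555) (nat_lit 371)) (XT.lf (nat_lit 0) (nat_lit 15673798103) (nat_lit 380) (nat_lit 3156861863) (nat_lit 456) (nat_lit 1218039342) (nat_lit 185) (nat_lit 5) (nat_lit 190) (nat_lit 5) (nat_lit 191) (nat_lit 5) (nat_lit 635) (nat_lit 555) (nat_lit 370)))))) (XT.nd (nat_lit 546) (nat_lit 1596) (nat_lit 0) (XT.nd (nat_lit 234) (nat_lit 1216) (nat_lit 0) (XT.nd (nat_lit 78) (nat_lit 380) (nat_lit 0) (XT.lf (nat_lit 0) (nat_lit 3293621084) (nat_lit 532) (nat_lit 12465013555)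 (nat_lit 76) (nat_lit 4532621914) (nat_lit 178) (nat_lit 5) (nat_lit 185) (nat_lit 5) (nat_lit 179) (nat_lit 5) (nat_lit 636) (nat_lit 555) (nat_lit 369)) (XT.nd (nat_lit 78) (nat_lit 380) (nat_lit 0) (XT.lf (nat_lit 0) (nat_lit 7921930708) (nat_lit 532) (nat_lit 248148908) (nat_lit 76) (nat_lit 12367570200) (nat_lit 178) (nat_lit 5) (nat_lit 185) (nat_lit 5) (nat_lit 179) (nat_lit 5) (nat_lit 637) (nat_lit 555) (nat_lit 368)) (XT.lf (nat_lit 0) (nat_lit 12363817636) (nat_lit 380) (nat_lit 351666530) (nat_lit 456) (nat_lit 8072033625) (nat_lit 173) (nat_lit 5) (nat_lit 178) (nat_lit 5) (nat_lit 179) (nat_lit 5) (nat_lit 638) (nat_lit 555) (nat_lit 367)))) (XT.nd (nat_lit 156) (nat_lit 760) (nat_lit 0) (XT.nd (nat_lit 78) (nat_lit 76) (nat_lit 0) (XT.lf (nat_lit 0) (nat_lit 4182951889) (nat_lit 380) (nat_lit 13492740256) (nat_lit 456) (nat_lit 3365275704) (nat_lit 168) (nat_lit 5) (nat_lit 173) (nat_lit 5) (nat_lit 174) (nat_lit 5) (nat_lit 639) (nat_lit 555) (nat_lit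 366)) (XT.lf (nat_lit 0) (nat_lit 1468498432) (nat_lit 456) (nat_lit 4165923573) (nat_lit 76) (nat_lit 15663844673) (nat_lit 167) (nat_lit 5) (nat_lit 173) (nat_lit 5) (nat_lit 168) (nat_lit 5) (nat_lit 640) (nat_lit 555) (nat_lit 365))) (XT.nd (nat_lit 78) (nat_lit 380) (nat_lit 0) (XT.lf (nat_lit 0) (nat_lit 6420060968) (nat_lit 456) (nat_lit 12712506115) (nat_lit 76) (nat_lit 2426376401) (nat_lit 162) (nat_lit 5) (nat_lit 168) (nat_lit 5) (nat_lit 163) (nat_lit 5) (nat_lit 641) (nat_lit 555) (nat_lit 364)) (XT.lf (nat_lit 0) (nat_lit 306473318) (nat_lit 380) (nat_lit 11224299162) (nat_lit 456) (nat_lit 10292859355) (nat_lit 157) (nat_lit 5) (nat_lit 162) (nat_lit 5) (nat_lit 163) (nat_lit 5) (nat_lit 642) (nat_lit 555) (nat_lit 363))))) (XT.nd (nat_lit 234) (nat_lit 1140) (nat_lit 0) (XT.nd (nat_lit 78) (nat_lit 456) (nat_lit 0) (XT.lf (nat_lit 0) (nat_lit 13746940019) (nat_lit 380) (nat_lit 3074809837) (nat_lit 456) (nat_lit 5270303419) (nat_lit 157) (nat_lit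 5) (nat_lit 162) (nat_lit 5) (nat_lit 163) (nat_lit 5) (nat_lit 643) (nat_lit 555) (nat_lit 362)) (XT.nd (nat_lit 78) (nat_lit 76) (nat_lit 0) (XT.lf (nat_lit 0) (nat_lit 5112304030) (nat_lit 380) (nat_lit 17166302750) (nat_lit 456) (nat_lit 86035514) (nat_lit 152) (nat_lit 5) (nat_lit 157) (nat_lit 5) (nat_lit 158) (nat_lit 5) (nat_lit 644) (nat_lit 555) (nat_lit 361)) (XT.lf (nat_lit 0) (nat_lit 5203309861) (nat_lit 456) (nat_lit 3755214429) (nat_lit 76) (nat_lit 13682091327) (nat_lit 151) (nat_lit 5) (nat_lit 157) (nat_lit 5) (nat_lit 152) (nat_lit 5) (nat_lit 645) (nat_lit 555) (nat_lit 360)))) (XT.nd (nat_lit 156) (nat_lit 456) (nat_lit 0) (XT.nd (nat_lit 78) (nat_lit 304) (nat_lit 0) (XT.lf (nat_lit 0) (nat_lit 10133266957) (nat_lit 380) (nat_lit 522837960) (nat_lit 456) (nat_lit 12264816150) (nat_lit 146) (nat_lit 5) (nat_lit 151) (nat_lit 5) (nat_lit 152) (nat_lit 5) (nat_lit 646) (nat_lit 555) (nat_lit 359)) (XT.lf (nat_lit 0) (nat_lit 1094857770) (nat_lit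 304) (nat_lit 15201106582) (nat_lit 380) (nat_lit 6909308425) (nat_lit 142) (nat_lit 5) (nat_lit 146) (nat_lit 5) (nat_lit 147) (nat_lit 5) (nat_lit 647) (nat_lit 555) (nat_lit 358))) (XT.nd (nat_lit 78) (nat_lit 456) (nat_lit 0) (XT.lf (nat_lit 0) (nat_lit 15413967468) (nat_lit 304) (nat_lit 6717033203) (nat_lit 380) (nat_lit 1362663572) (nat_lit 142) (nat_lit 5) (nat_lit 146) (nat_lit 5) (nat_lit 147) (nat_lit 5) (nat_lit 648) (nat_lit 555) (nat_lit 357)) (XT.lf (nat_lit 0) (nat_lit 4285550004) (nat_lit 456) (nat_lit 17524299037) (nat_lit 76) (nat_lit 1976477805) (nat_lit 136) (nat_lit 5) (nat_lit 142) (nat_lit 5) (nat_lit 137) (nat_lit 5) (nat_lit 649) (nat_lit 555) (nat_lit 356))))))) (XT.nd (nat_lit 1014) (nat_lit 0) (nat_lit 0) (XT.nd (nat_lit 468) (nat_lit 1596) (nat_lit 0) (XT.nd (nat_lit 234) (nat_lit 380) (nat_lit 0) (XT.nd (nat_lit 78) (nat_lit 608) (nat_lit 0) (XT.lf (nat_lit 0) (nat_lit 10120816284) (nat_lit 456) (nat_lit 3148315037) (nat_lit 76) (nat_lit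 10813684844) (nat_lit 136) (nat_lit 5) (nat_lit 142) (nat_lit 5) (nat_lit 137) (nat_lit 5) (nat_lit 650) (nat_lit 555) (nat_lit 355)) (XT.nd (nat_lit 78) (nat_lit 304) (nat_lit 0) (XT.lf (nat_lit 0) (nat_lit 11657491457) (nat_lit 304) (nat_lit 4484372533) (nat_lit 380) (nat_lit 8241990049) (nat_lit 132) (nat_lit 5) (nat_lit 136) (nat_lit 5) (nat_lit 137) (nat_lit 5) (nat_lit 651) (nat_lit 555) (nat_lit 354)) (XT.lf (nat_lit 0) (nat_lit 2099308215) (nat_lit 304) (nat_lit 20241406529) (nat_lit 380) (nat_lit 2349050571) (nat_lit 128) (nat_lit 5) (nat_lit 132) (nat_lit 5) (nat_lit 133) (nat_lit 5) (nat_lit 652) (nat_lit 555) (nat_lit 353)))) (XT.nd (nat_lit 78) (nat_lit 304) (nat_lit 0) (XT.lf (nat_lit 0) (nat_lit 3722827746) (nat_lit 380) (nat_lit 7670763807) (nat_lit 76) (nat_lit 13605545959) (nat_lit 127) (nat_lit 5) (nat_lit 132) (nat_lit 5) (nat_lit 128) (nat_lit 5) (nat_lit 653) (nat_lit 555) (nat_lit 352)) (XT.nd (nat_lit 78) (nat_lit 0) (nat_lit 0) (XT.lf (nat_lit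 0) (nat_lit 7621289217) (nat_lit 304) (nat_lit 2306481651) (nat_lit 380) (nat_lit 15385754388) (nat_lit 123) (nat_lit 5) (nat_lit 127) (nat_lit 5) (nat_lit 128) (nat_lit 5) (nat_lit 654) (nat_lit 555) (nat_lit 351)) (XT.lf (nat_lit 0) (nat_lit 16347434986) (nat_lit 380) (nat_lit 2366019201) (nat_lit 76) (nat_lit 6918934389) (nat_lit 123) (nat_lit 5) (nat_lit 128) (nat_lit 5) (nat_lit 124) (nat_lit 5) (nat_lit 655) (nat_lit 555) (nat_lit 350))))) (XT.nd (nat_lit 234) (nat_lit 912) (nat_lit 0) (XT.nd (nat_lit 78) (nat_lit 380) (nat_lit 0) (XT.lf (nat_lit 0) (nat_lit 13417155623) (nat_lit 304) (nat_lit 9574452051) (nat_lit 380) (nat_lit 2964099442) (nat_lit 119) (nat_lit 5) (nat_lit 123) (nat_lit 5) (nat_lit 124) (nat_lit 5) (nat_lit 656) (nat_lit 555) (nat_lit 349)) (XT.nd (nat_lit 78) (nat_lit 0) (nat_lit 0) (XT.lf (nat_lit 0) (nat_lit 3272818925) (nat_lit 304) (nat_lit 195645031) (nat_lit 380) (nat_lit 22815956527) (nat_lit 114) (nat_lit 5) (nat_lit 118) (nat_lit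 5) (nat_lit 119) (nat_lit 5) (nat_lit 657) (nat_lit 555) (nat_lit 348)) (XT.lf (nat_lit 0) (nat_lit 10129338270) (nat_lit 380) (nat_lit 7138979840) (nat_lit 76) (nat_lit 9348211419) (nat_lit 114) (nat_lit 5) (nat_lit 119) (nat_lit 5) (nat_lit 115) (nat_lit 5) (nat_lit 658) (nat_lit 555) (nat_lit 347)))) (XT.nd (nat_lit 156) (nat_lit 608) (nat_lit 0) (XT.nd (nat_lit 78) (nat_lit 0) (nat_lit 0) (XT.lf (nat_lit 0) (nat_lit 9159826937) (nat_lit 304) (nat_lit 7818265849) (nat_lit 380) (nat_lit 9976094955) (nat_lit 110) (nat_lit 5) (nat_lit 114) (nat_lit 5) (nat_lit 115) (nat_lit 5) (nat_lit 659) (nat_lit 555) (nat_lit 346)) (XT.lf (nat_lit 0) (nat_lit 24017791739) (nat_lit 380) (nat_lit 1438532769) (nat_lit 76) (nat_lit 1841195456) (nat_lit 110) (nat_lit 5) (nat_lit 115) (nat_lit 5) (nat_lit 111) (nat_lit 5) (nat_lit 660) (nat_lit 555) (nat_lit 345))) (XT.nd (nat_lit 78) (nat_lit 304) (nat_lit 0) (XT.lf (nat_lit 0) (nat_lit 3650670175) (nat_lit 304) (nat_lit 12284351846)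 (nat_lit 76) (nat_lit 11709302573) (nat_lit 106) (nat_lit 5) (nat_lit 110) (nat_lit 5) (nat_lit 107) (nat_lit 5) (nat_lit 661) (nat_lit 555) (nat_lit 344)) (XT.lf (nat_lit 0) (nat_lit 4543937885) (nat_lit 304) (nat_lit 6165140200) (nat_lit 380) (nat_lit 17287887528) (nat_lit 102) (nat_lit 5) (nat_lit 106) (nat_lit 5) (nat_lit 107) (nat_lit 5) (nat_lit 662) (nat_lit 555) (nat_lit 343)))))) (XT.nd (nat_lit 73320) (nat_lit 0) (nat_lit 32984) (XT.nd (nat_lit 73008) (nat_lit 0) (nat_lit 34504) (XT.nd (nat_lit 72852) (nat_lit 0) (nat_lit 34428) (XT.lf (nat_lit 0) (nat_lit 18010390573) (nat_lit 380) (nat_lit 6514893859) (nat_lit 76) (nat_lit 3829340509) (nat_lit 102) (nat_lit 5) (nat_lit 107) (nat_lit 5) (nat_lit 103) (nat_lit 5) (nat_lit 663) (nat_lit 555) (nat_lit 342)) (XT.nd (nat_lit 78) (nat_lit 0) (nat_lit 0) (XT.lf (nat_lit 0) (nat_lit 1859265384) (nat_lit 1596) (nat_lit 1301052647) (nat_lit 1596) (nat_lit 1301052647) (nat_lit 555) (nat_lit 3) (nat_lit 576) (nat_lit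 3) (nat_lit 576) (nat_lit 5) (nat_lit 556) (nat_lit 556) (nat_lit 448)) (XT.lf (nat_lit 76) (nat_lit 1833692088) (nat_lit 0) (nat_lit 2853143130) (nat_lit 1596) (nat_lit 4306416773) (nat_lit 556) (nat_lit 5) (nat_lit 555) (nat_lit 3) (nat_lit 576) (nat_lit 5) (nat_lit 557) (nat_lit 556) (nat_lit 447)))) (XT.nd (nat_lit 156) (nat_lit 0) (nat_lit 0) (XT.nd (nat_lit 78) (nat_lit 0) (nat_lit 0) (XT.lf (nat_lit 0) (nat_lit 5672405877) (nat_lit 1520) (nat_lit 2688924556) (nat_lit 1596) (nat_lit 703886876) (nat_lit 556) (nat_lit 5) (nat_lit 576) (nat_lit 5) (nat_lit 577) (nat_lit 5) (nat_lit 558) (nat_lit 556) (nat_lit 446)) (XT.lf (nat_lit 76) (nat_lit 1863905414) (nat_lit 0) (nat_lit 4821136050) (nat_lit 1596) (nat_lit 2453435829) (nat_lit 557) (nat_lit 5) (nat_lit 556) (nat_lit 5) (nat_lit 577) (nat_lit 5) (nat_lit 559) (nat_lit 556) (nat_lit 445))) (XT.nd (nat_lit 78) (nat_lit 0) (nat_lit 76) (XT.lf (nat_lit 76) (nat_lit 6531556518) (nat_lit 0) (nat_lit 1181155395)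 (nat_lit 1596) (nat_lit 1500597299) (nat_lit 557) (nat_lit 5) (nat_lit 556) (nat_lit 5) (nat_lit 577) (nat_lit 5) (nat_lit 560) (nat_lit 556) (nat_lit 444)) (XT.lf (nat_lit 76) (nat_lit 1999751375) (nat_lit 0) (nat_lit 6767866592) (nat_lit 1596) (nat_lit 521888490) (nat_lit 558) (nat_lit 5) (nat_lit 557) (nat_lit 5) (nat_lit 578) (nat_lit 5) (nat_lit 561) (nat_lit 556) (nat_lit 443))))) (XT.nd (nat_lit 234) (nat_lit 0) (nat_lit 76) (XT.nd (nat_lit 78) (nat_lit 0) (nat_lit 76) (XT.lf (nat_lit 0) (nat_lit 473557170) (nat_lit 1596) (nat_lit 2579842754) (nat_lit 1672) (nat_lit 6313699894) (nat_lit 536) (nat_lit 5) (nat_lit 557) (nat_lit 5) (nat_lit 558) (nat_lit 5) (nat_lit 562) (nat_lit 556) (nat_lit 442)) (XT.nd (nat_lit 78) (nat_lit 0) (nat_lit 0) (XT.lf (nat_lit 0) (nat_lit 1479323811) (nat_lit 1596) (nat_lit 7214048546) (nat_lit 1672) (nat_lit 752857890) (nat_lit 537) (nat_lit 5) (nat_lit 558) (nat_lit 5) (nat_lit 559) (nat_lit 5) (nat_lit 563) (nat_lit 556) (nat_lit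 441)) (XT.lf (nat_lit 0) (nat_lit 2521176232) (nat_lit 1596) (nat_lit 2384844997) (nat_lit 1672) (nat_lit 4620604802) (nat_lit 537) (nat_lit 5) (nat_lit 558) (nat_lit 5) (nat_lit 559) (nat_lit 5) (nat_lit 564) (nat_lit 556) (nat_lit 440)))) (XT.nd (nat_lit 156) (nat_lit 0) (nat_lit 76) (XT.nd (nat_lit 78) (nat_lit 0) (nat_lit 76) (XT.lf (nat_lit 76) (nat_lit 2561468896) (nat_lit 0) (nat_lit 1017775111) (nat_lit 1672) (nat_lit 6029480271) (nat_lit 538) (nat_lit 5) (nat_lit 537) (nat_lit 5) (nat_lit 559) (nat_lit 5) (nat_lit 565) (nat_lit 556) (nat_lit 439)) (XT.lf (nat_lit 0) (nat_lit 4672856108) (nat_lit 1596) (nat_lit 2085809927) (nat_lit 1672) (nat_lit 2933512867) (nat_lit 538) (nat_lit 5) (nat_lit 559) (nat_lit 5) (nat_lit 560) (nat_lit 5) (nat_lit 566) (nat_lit 556) (nat_lit 438))) (XT.nd (nat_lit 78) (nat_lit 0) (nat_lit 76) (XT.lf (nat_lit 76) (nat_lit 2994203634) (nat_lit 0) (nat_lit 2799858110) (nat_lit 1672) (nat_lit 3983128480) (nat_lit 539) (nat_lit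 5) (nat_lit 538) (nat_lit 5) (nat_lit 560) (nat_lit 5) (nat_lit 567) (nat_lit 556) (nat_lit 437)) (XT.lf (nat_lit 0) (nat_lit 6939722304) (nat_lit 1596) (nat_lit 1681215970) (nat_lit 1672) (nat_lit 1242924873) (nat_lit 539) (nat_lit 5) (nat_lit 560) (nat_lit 5) (nat_lit 561) (nat_lit 5) (nat_lit 568) (nat_lit 556) (nat_lit 436))))))))
noncomputable def xc157 : XT := (XT.nd (nat_lit 2106) (nat_lit 11400) (nat_lit 0) (XT.nd (nat_lit 1014) (nat_lit 9044) (nat_lit 0) (XT.nd (nat_lit 468) (nat_lit 1520) (nat_lit 0) (XT.nd (nat_lit 234) (nat_lit 0) (nat_lit 0) (XT.nd (nat_lit 78) (nat_lit 1596) (nat_lit 0) (XT.lf (nat_lit 76) (nat_lit 3537150204) (nat_lit 0) (nat_lit 4592950072) (nat_lit 1672) (nat_lit 1821735123) (nat_lit 540) (nat_lit 5) (nat_lit 539) (nat_lit 5) (nat_lit 561) (nat_lit 5) (nat_lit 569) (nat_lit 556) (nat_lit 435)) (XT.nd (nat_lit 78) (nat_lit 1596) (nat_lit 0) (XT.lf (nat_lit 76) (nat_lit 8869472335) (nat_lit 0) (nat_lit 466692517) (nat_lit 1672) (nat_lit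 705566575) (nat_lit 540) (nat_lit 5) (nat_lit 539) (nat_lit 5) (nat_lit 561) (nat_lit 5) (nat_lit 570) (nat_lit 556) (nat_lit 434)) (XT.lf (nat_lit 0) (nat_lit 459993750) (nat_lit 1672) (nat_lit 5943463851) (nat_lit 1748) (nat_lit 3729258473) (nat_lit 518) (nat_lit 5) (nat_lit 540) (nat_lit 5) (nat_lit 541) (nat_lit 5) (nat_lit 571) (nat_lit 556) (nat_lit 433)))) (XT.nd (nat_lit 78) (nat_lit 0) (nat_lit 76) (XT.lf (nat_lit 0) (nat_lit 1631613339) (nat_lit 1672) (nat_lit 572822119) (nat_lit 1748) (nat_lit 8021149571) (nat_lit 518) (nat_lit 5) (nat_lit 540) (nat_lit 5) (nat_lit 541) (nat_lit 5) (nat_lit 572) (nat_lit 556) (nat_lit 432)) (XT.nd (nat_lit 78) (nat_lit 0) (nat_lit 0) (XT.lf (nat_lit 0) (nat_lit 2854138189) (nat_lit 1672) (nat_lit 5376799081) (nat_lit 1748) (nat_lit 2088826404) (nat_lit 519) (nat_lit 5) (nat_lit 541) (nat_lit 5) (nat_lit 542) (nat_lit 5) (nat_lit 573) (nat_lit 556) (nat_lit 431)) (XT.lf (nat_lit 76) (nat_lit 134651461) (nat_lit 0) (nat_lit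 3967659972) (nat_lit 1748) (nat_lit 6313492236) (nat_lit 520) (nat_lit 5) (nat_lit 519) (nat_lit 5) (nat_lit 542) (nat_lit 5) (nat_lit 574) (nat_lit 556) (nat_lit 430))))) (XT.nd (nat_lit 234) (nat_lit 1672) (nat_lit 0) (XT.nd (nat_lit 78) (nat_lit 0) (nat_lit 0) (XT.lf (nat_lit 0) (nat_lit 5396393284) (nat_lit 1672) (nat_lit 4700411177) (nat_lit 1748) (nat_lit 416542798) (nat_lit 520) (nat_lit 5) (nat_lit 542) (nat_lit 5) (nat_lit 543) (nat_lit 5) (nat_lit 575) (nat_lit 556) (nat_lit 429)) (XT.nd (nat_lit 78) (nat_lit 0) (nat_lit 0) (XT.lf (nat_lit 76) (nat_lit 964721882) (nat_lit 0) (nat_lit 5766676454) (nat_lit 1748) (nat_lit 3881144221) (nat_lit 521) (nat_lit 5) (nat_lit 520) (nat_lit 5) (nat_lit 543) (nat_lit 5) (nat_lit 576) (nat_lit 556) (nat_lit 428)) (XT.lf (nat_lit 76) (nat_lit 6793362985) (nat_lit 0) (nat_lit 1314040176) (nat_lit 1748) (nat_lit 2606034240) (nat_lit 521) (nat_lit 5) (nat_lit 520) (nat_lit 5) (nat_lit 543) (nat_lit 5) (nat_lit 577) (nat_lit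 556) (nat_lit 427)))) (XT.nd (nat_lit 156) (nat_lit 0) (nat_lit 76) (XT.nd (nat_lit 78) (nat_lit 1748) (nat_lit 0) (XT.lf (nat_lit 76) (nat_lit 1912748290) (nat_lit 0) (nat_lit 7614673948) (nat_lit 1748) (nat_lit 1288599622) (nat_lit 522) (nat_lit 5) (nat_lit 521) (nat_lit 5) (nat_lit 544) (nat_lit 5) (nat_lit 578) (nat_lit 556) (nat_lit 426)) (XT.lf (nat_lit 0) (nat_lit 72892945) (nat_lit 1748) (nat_lit 3027744631) (nat_lit 1824) (nat_lit 7819646146) (nat_lit 498) (nat_lit 5) (nat_lit 521) (nat_lit 5) (nat_lit 522) (nat_lit 5) (nat_lit 579) (nat_lit 556) (nat_lit 425))) (XT.nd (nat_lit 78) (nat_lit 0) (nat_lit 0) (XT.lf (nat_lit 0) (nat_lit 1457286841) (nat_lit 1748) (nat_lit 8053967318) (nat_lit 76) (nat_lit 1514949302) (nat_lit 499) (nat_lit 5) (nat_lit 522) (nat_lit 5) (nat_lit 500) (nat_lit 5) (nat_lit 580) (nat_lit 556) (nat_lit 424)) (XT.lf (nat_lit 0) (nat_lit 2894187403) (nat_lit 1748) (nat_lit 2034973750) (nat_lit 76) (nat_lit 6204585545) (nat_lit 499)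 (nat_lit 5) (nat_lit 522) (nat_lit 5) (nat_lit 500) (nat_lit 5) (nat_lit 581) (nat_lit 556) (nat_lit 423)))))) (XT.nd (nat_lit 546) (nat_lit 3496) (nat_lit 0) (XT.nd (nat_lit 234) (nat_lit 2052) (nat_lit 0) (XT.nd (nat_lit 78) (nat_lit 1824) (nat_lit 0) (XT.lf (nat_lit 0) (nat_lit 4145306976) (nat_lit 1748) (nat_lit 225582543) (nat_lit 1824) (nat_lit 6872331462) (nat_lit 476) (nat_lit 5) (nat_lit 499) (nat_lit 5) (nat_lit 500) (nat_lit 5) (nat_lit 582) (nat_lit 556) (nat_lit 422)) (XT.nd (nat_lit 78) (nat_lit 1824) (nat_lit 0) (XT.lf (nat_lit 0) (nat_lit 5904944845) (nat_lit 1824) (nat_lit 921308255) (nat_lit 76) (nat_lit 4528076689) (nat_lit 476) (nat_lit 5) (nat_lit 500) (nat_lit 5) (nat_lit 477) (nat_lit 5) (nat_lit 583) (nat_lit 556) (nat_lit 421)) (XT.lf (nat_lit 0) (nat_lit 5435188562) (nat_lit 1824) (nat_lit 2055969695) (nat_lit 1900) (nat_lit 3976074369) (nat_lit 452) (nat_lit 5) (nat_lit 476) (nat_lit 5) (nat_lit 477) (nat_lit 5) (nat_lit 584) (nat_lit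 556) (nat_lit 420)))) (XT.nd (nat_lit 156) (nat_lit 988) (nat_lit 0) (XT.nd (nat_lit 78) (nat_lit 0) (nat_lit 0) (XT.lf (nat_lit 0) (nat_lit 321307706) (nat_lit 1064) (nat_lit 8799259399) (nat_lit 1140) (nat_lit 2461598358) (nat_lit 438) (nat_lit 5) (nat_lit 452) (nat_lit 5) (nat_lit 453) (nat_lit 5) (nat_lit 585) (nat_lit 556) (nat_lit 419)) (XT.lf (nat_lit 0) (nat_lit 6856128850) (nat_lit 1064) (nat_lit 3965566263) (nat_lit 1140) (nat_lit 876920566) (nat_lit 438) (nat_lit 5) (nat_lit 452) (nat_lit 5) (nat_lit 453) (nat_lit 5) (nat_lit 586) (nat_lit 556) (nat_lit 418))) (XT.nd (nat_lit 78) (nat_lit 0) (nat_lit 0) (XT.lf (nat_lit 0) (nat_lit 732542047) (nat_lit 988) (nat_lit 10115390354) (nat_lit 76) (nat_lit 969311980) (nat_lit 425) (nat_lit 5) (nat_lit 438) (nat_lit 5) (nat_lit 426) (nat_lit 5) (nat_lit 587) (nat_lit 556) (nat_lit 417)) (XT.lf (nat_lit 0) (nat_lit 2406963960) (nat_lit 988) (nat_lit 3540863821) (nat_lit 76) (nat_lit 5989412970) (nat_lit 425) (nat_lit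 5) (nat_lit 438) (nat_lit 5) (nat_lit 426) (nat_lit 5) (nat_lit 588) (nat_lit 556) (nat_lit 416))))) (XT.nd (nat_lit 234) (nat_lit 1748) (nat_lit 0) (XT.nd (nat_lit 78) (nat_lit 836) (nat_lit 0) (XT.lf (nat_lit 0) (nat_lit 3193600325) (nat_lit 912) (nat_lit 927820891) (nat_lit 988) (nat_lit 7938086132) (nat_lit 413) (nat_lit 5) (nat_lit 425) (nat_lit 5) (nat_lit 426) (nat_lit 5) (nat_lit 589) (nat_lit 556) (nat_lit 415)) (XT.nd (nat_lit 78) (nat_lit 836) (nat_lit 0) (XT.lf (nat_lit 0) (nat_lit 5907314747) (nat_lit 988) (nat_lit 2114005871) (nat_lit 76) (nat_lit 4162156931) (nat_lit 413) (nat_lit 5) (nat_lit 426) (nat_lit 5) (nat_lit 414) (nat_lit 5) (nat_lit 590) (nat_lit 556) (nat_lit 414)) (XT.lf (nat_lit 0) (nat_lit 4816592108) (nat_lit 836) (nat_lit 2936033081) (nat_lit 912) (nat_lit 4556829172) (nat_lit 402) (nat_lit 5) (nat_lit 413) (nat_lit 5) (nat_lit 414) (nat_lit 5) (nat_lit 591) (nat_lit 556) (nat_lit 413)))) (XT.nd (nat_lit 156) (nat_lit 912) (nat_lit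 0) (XT.nd (nat_lit 78) (nat_lit 836) (nat_lit 0) (XT.lf (nat_lit 0) (nat_lit 9650203054) (nat_lit 912) (nat_lit 551470461) (nat_lit 76) (nat_lit 2235971138) (nat_lit 402) (nat_lit 5) (nat_lit 414) (nat_lit 5) (nat_lit 403) (nat_lit 5) (nat_lit 592) (nat_lit 556) (nat_lit 412)) (XT.lf (nat_lit 0) (nat_lit 6582346891) (nat_lit 836) (nat_lit 5052298283) (nat_lit 912) (nat_lit 932776467) (nat_lit 391) (nat_lit 5) (nat_lit 402) (nat_lit 5) (nat_lit 403) (nat_lit 5) (nat_lit 593) (nat_lit 556) (nat_lit 411))) (XT.nd (nat_lit 78) (nat_lit 0) (nat_lit 0) (XT.lf (nat_lit 0) (nat_lit 945907776) (nat_lit 912) (nat_lit 11538910867) (nat_lit 76) (nat_lit 214862038) (nat_lit 379) (nat_lit 5) (nat_lit 391) (nat_lit 5) (nat_lit 380) (nat_lit 5) (nat_lit 594) (nat_lit 556) (nat_lit 410)) (XT.lf (nat_lit 0) (nat_lit 2910564244) (nat_lit 912) (nat_lit 4356570672) (nat_lit 76) (nat_lit 5566109981) (nat_lit 379) (nat_lit 5) (nat_lit 391) (nat_lit 5) (nat_lit 380) (nat_lit 5) (nat_lit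 595) (nat_lit 556) (nat_lit 409))))))) (XT.nd (nat_lit 1092) (nat_lit 5472) (nat_lit 0) (XT.nd (nat_lit 546) (nat_lit 2812) (nat_lit 0) (XT.nd (nat_lit 234) (nat_lit 1520) (nat_lit 0) (XT.nd (nat_lit 78) (nat_lit 760) (nat_lit 0) (XT.lf (nat_lit 0) (nat_lit 2995420105) (nat_lit 836) (nat_lit 1925785941) (nat_lit 912) (nat_lit 8048141566) (nat_lit 368) (nat_lit 5) (nat_lit 379) (nat_lit 5) (nat_lit 380) (nat_lit 5) (nat_lit 596) (nat_lit 556) (nat_lit 408)) (XT.nd (nat_lit 78) (nat_lit 760) (nat_lit 0) (XT.lf (nat_lit 0) (nat_lit 7011763357) (nat_lit 912) (nat_lit 2590589093) (nat_lit 76) (nat_lit 3505026912) (nat_lit 368) (nat_lit 5) (nat_lit 380) (nat_lit 5) (nat_lit 369) (nat_lit 5) (nat_lit 597) (nat_lit 556) (nat_lit 407)) (XT.lf (nat_lit 0) (nat_lit 4979793754) (nat_lit 760) (nat_lit 4197075193) (nat_lit 836) (nat_lit 4070649073) (nat_lit 358) (nat_lit 5) (nat_lit 368) (nat_lit 5) (nat_lit 369) (nat_lit 5) (nat_lit 598) (nat_lit 556) (nat_lit 406)))) (XT.nd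 (nat_lit 156) (nat_lit 684) (nat_lit 0) (XT.nd (nat_lit 78) (nat_lit 836) (nat_lit 0) (XT.lf (nat_lit 0) (nat_lit 11399125062) (nat_lit 836) (nat_lit 675404801) (nat_lit 76) (nat_lit 1315653616) (nat_lit 358) (nat_lit 5) (nat_lit 369) (nat_lit 5) (nat_lit 359) (nat_lit 5) (nat_lit 599) (nat_lit 556) (nat_lit 405)) (XT.lf (nat_lit 0) (nat_lit 190900811) (nat_lit 836) (nat_lit 6414425330) (nat_lit 76) (nat_lit 6929110500) (nat_lit 347) (nat_lit 5) (nat_lit 358) (nat_lit 5) (nat_lit 348) (nat_lit 5) (nat_lit 600) (nat_lit 556) (nat_lit 404))) (XT.nd (nat_lit 78) (nat_lit 0) (nat_lit 0) (XT.lf (nat_lit 0) (nat_lit 1390889297) (nat_lit 684) (nat_lit 1000680404) (nat_lit 760) (nat_lit 11289708270) (nat_lit 338) (nat_lit 5) (nat_lit 347) (nat_lit 5) (nat_lit 348) (nat_lit 5) (nat_lit 601) (nat_lit 556) (nat_lit 403)) (XT.lf (nat_lit 0) (nat_lit 4698453640) (nat_lit 760) (nat_lit 4435124758) (nat_lit 76) (nat_lit 4696234615) (nat_lit 338) (nat_lit 5) (nat_lit 348) (nat_lit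 5) (nat_lit 339) (nat_lit 5) (nat_lit 602) (nat_lit 556) (nat_lit 402))))) (XT.nd (nat_lit 234) (nat_lit 1368) (nat_lit 0) (XT.nd (nat_lit 78) (nat_lit 684) (nat_lit 0) (XT.lf (nat_lit 0) (nat_lit 3604872318) (nat_lit 760) (nat_lit 3465118186) (nat_lit 836) (nat_lit 6910958850) (nat_lit 328) (nat_lit 5) (nat_lit 338) (nat_lit 5) (nat_lit 339) (nat_lit 5) (nat_lit 603) (nat_lit 556) (nat_lit 401)) (XT.nd (nat_lit 78) (nat_lit 684) (nat_lit 0) (XT.lf (nat_lit 0) (nat_lit 9522573530) (nat_lit 836) (nat_lit 2297119489) (nat_lit 76) (nat_lit 2314743979) (nat_lit 328) (nat_lit 5) (nat_lit 339) (nat_lit 5) (nat_lit 329) (nat_lit 5) (nat_lit 604) (nat_lit 556) (nat_lit 400)) (XT.lf (nat_lit 0) (nat_lit 5986079679) (nat_lit 684) (nat_lit 6088779857) (nat_lit 760) (nat_lit 2215122699) (nat_lit 319) (nat_lit 5) (nat_lit 328) (nat_lit 5) (nat_lit 329) (nat_lit 5) (nat_lit 605) (nat_lit 556) (nat_lit 399)))) (XT.nd (nat_lit 156) (nat_lit 608) (nat_lit 0) (XT.nd (nat_lit 78)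 (nat_lit 0) (nat_lit 0) (XT.lf (nat_lit 0) (nat_lit 3239067) (nat_lit 684) (nat_lit 227740916) (nat_lit 760) (nat_lit 14217540664) (nat_lit 309) (nat_lit 5) (nat_lit 318) (nat_lit 5) (nat_lit 319) (nat_lit 5) (nat_lit 606) (nat_lit 556) (nat_lit 398)) (XT.lf (nat_lit 0) (nat_lit 2778822097) (nat_lit 760) (nat_lit 6085489343) (nat_lit 76) (nat_lit 5743976807) (nat_lit 309) (nat_lit 5) (nat_lit 319) (nat_lit 5) (nat_lit 310) (nat_lit 5) (nat_lit 607) (nat_lit 556) (nat_lit 397))) (XT.nd (nat_lit 78) (nat_lit 0) (nat_lit 0) (XT.lf (nat_lit 0) (nat_lit 2459418594) (nat_lit 608) (nat_lit 2924915496) (nat_lit 684) (nat_lit 9386783649) (nat_lit 301) (nat_lit 5) (nat_lit 309) (nat_lit 5) (nat_lit 310) (nat_lit 5) (nat_lit 608) (nat_lit 556) (nat_lit 396)) (XT.lf (nat_lit 0) (nat_lit 8092758125) (nat_lit 684) (nat_lit 3712228732) (nat_lit 76) (nat_lit 3131201715) (nat_lit 301) (nat_lit 5) (nat_lit 310) (nat_lit 5) (nat_lit 302) (nat_lit 5) (nat_lit 609) (nat_lit 556) (nat_lit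 395)))))) (XT.nd (nat_lit 546) (nat_lit 2888) (nat_lit 0) (XT.nd (nat_lit 234) (nat_lit 1216) (nat_lit 0) (XT.nd (nat_lit 78) (nat_lit 684) (nat_lit 0) (XT.lf (nat_lit 0) (nat_lit 5093979989) (nat_lit 684) (nat_lit 5803374510) (nat_lit 760) (nat_lit 4206367013) (nat_lit 292) (nat_lit 5) (nat_lit 301) (nat_lit 5) (nat_lit 302) (nat_lit 5) (nat_lit 610) (nat_lit 556) (nat_lit 394)) (XT.nd (nat_lit 78) (nat_lit 684) (nat_lit 0) (XT.lf (nat_lit 0) (nat_lit 13774853267) (nat_lit 760) (nat_lit 1162503180) (nat_lit 76) (nat_lit 336913210) (nat_lit 292) (nat_lit 5) (nat_lit 302) (nat_lit 5) (nat_lit 293) (nat_lit 5) (nat_lit 611) (nat_lit 556) (nat_lit 393)) (XT.lf (nat_lit 0) (nat_lit 1325342965) (nat_lit 684) (nat_lit 7540855072) (nat_lit 76) (nat_lit 6580263286) (nat_lit 283) (nat_lit 5) (nat_lit 292) (nat_lit 5) (nat_lit 284) (nat_lit 5) (nat_lit 612) (nat_lit 556) (nat_lit 392)))) (XT.nd (nat_lit 156) (nat_lit 608) (nat_lit 0) (XT.nd (nat_lit 78) (nat_lit 0) (nat_lit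 0) (XT.lf (nat_lit 0) (nat_lit 1546598268) (nat_lit 608) (nat_lit 2647756352) (nat_lit 684) (nat_lit 11427388003) (nat_lit 275) (nat_lit 5) (nat_lit 283) (nat_lit 5) (nat_lit 284) (nat_lit 5) (nat_lit 613) (nat_lit 556) (nat_lit 391)) (XT.lf (nat_lit 0) (nat_lit 7185696572) (nat_lit 684) (nat_lit 4918524053) (nat_lit 76) (nat_lit 3695010621) (nat_lit 275) (nat_lit 5) (nat_lit 284) (nat_lit 5) (nat_lit 276) (nat_lit 5) (nat_lit 614) (nat_lit 556) (nat_lit 390))) (XT.nd (nat_lit 78) (nat_lit 0) (nat_lit 0) (XT.lf (nat_lit 0) (nat_lit 4449600515) (nat_lit 608) (nat_lit 5823906171) (nat_lit 684) (nat_lit 5706030811) (nat_lit 267) (nat_lit 5) (nat_lit 275) (nat_lit 5) (nat_lit 276) (nat_lit 5) (nat_lit 615) (nat_lit 556) (nat_lit 389)) (XT.lf (nat_lit 0) (nat_lit 13450387066) (nat_lit 684) (nat_lit 2107573022) (nat_lit 76) (nat_lit 604944175) (nat_lit 267) (nat_lit 5) (nat_lit 276) (nat_lit 5) (nat_lit 268) (nat_lit 5) (nat_lit 616) (nat_lit 556) (nat_lit 388))))) (XT.nd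 (nat_lit 234) (nat_lit 1672) (nat_lit 0) (XT.nd (nat_lit 78) (nat_lit 532) (nat_lit 0) (XT.lf (nat_lit 0) (nat_lit 415011137) (nat_lit 684) (nat_lit 8799699350) (nat_lit 76) (nat_lit 7133611960) (nat_lit 258) (nat_lit 5) (nat_lit 267) (nat_lit 5) (nat_lit 259) (nat_lit 5) (nat_lit 617) (nat_lit 556) (nat_lit 387)) (XT.nd (nat_lit 78) (nat_lit 0) (nat_lit 0) (XT.lf (nat_lit 0) (nat_lit 870358564) (nat_lit 532) (nat_lit 2708877200) (nat_lit 608) (nat_lit 12957645940) (nat_lit 251) (nat_lit 5) (nat_lit 258) (nat_lit 5) (nat_lit 259) (nat_lit 5) (nat_lit 618) (nat_lit 556) (nat_lit 386)) (XT.lf (nat_lit 0) (nat_lit 6882315423) (nat_lit 608) (nat_lit 5913251657) (nat_lit 76) (nat_lit 3932134275) (nat_lit 251) (nat_lit 5) (nat_lit 259) (nat_lit 5) (nat_lit 252) (nat_lit 5) (nat_lit 619) (nat_lit 556) (nat_lit 385)))) (XT.nd (nat_lit 156) (nat_lit 1140) (nat_lit 0) (XT.nd (nat_lit 78) (nat_lit 0) (nat_lit 0) (XT.lf (nat_lit 0) (nat_lit 4058181039) (nat_lit 532) (nat_lit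 6228379014) (nat_lit 608) (nat_lit 6635075885) (nat_lit 244) (nat_lit 5) (nat_lit 251) (nat_lit 5) (nat_lit 252) (nat_lit 5) (nat_lit 620) (nat_lit 556) (nat_lit 384)) (XT.lf (nat_lit 0) (nat_lit 13792783166) (nat_lit 608) (nat_lit 2825043689) (nat_lit 76) (nat_lit 500945080) (nat_lit 244) (nat_lit 5) (nat_lit 252) (nat_lit 5) (nat_lit 245) (nat_lit 5) (nat_lit 621) (nat_lit 556) (nat_lit 383))) (XT.nd (nat_lit 78) (nat_lit 532) (nat_lit 0) (XT.lf (nat_lit 0) (nat_lit 129917914) (nat_lit 608) (nat_lit 9860411065) (nat_lit 76) (nat_lit 7327890165) (nat_lit 236) (nat_lit 5) (nat_lit 244) (nat_lit 5) (nat_lit 237) (nat_lit 5) (nat_lit 622) (nat_lit 556) (nat_lit 382)) (XT.lf (nat_lit 0) (nat_lit 434815940) (nat_lit 532) (nat_lit 3188653706) (nat_lit 608) (nat_lit 13897485276) (nat_lit 229) (nat_lit 5) (nat_lit 236) (nat_lit 5) (nat_lit 237) (nat_lit 5) (nat_lit 623) (nat_lit 556) (nat_lit 381))))))))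
noncomputable def xc158 : XT := (XT.nd (nat_lit 2106) (nat_lit 2584) (nat_lit 0) (XT.nd (nat_lit 1014) (nat_lit 3724) (nat_lit 0) (XT.nd (nat_lit 468) (nat_lit 1824) (nat_lit 0) (XT.nd (nat_lit 234) (nat_lit 1064) (nat_lit 0) (XT.nd (nat_lit 78) (nat_lit 456) (nat_lit 0) (XT.lf (nat_lit 0) (nat_lit 7269030201) (nat_lit 608) (nat_lit 6693739537) (nat_lit 76) (nat_lit 3763333472) (nat_lit 229) (nat_lit 5) (nat_lit 237) (nat_lit 5) (nat_lit 230) (nat_lit 5) (nat_lit 624) (nat_lit 556) (nat_lit 380)) (XT.nd (nat_lit 78) (nat_lit 0) (nat_lit 0) (XT.lf (nat_lit 0) (nat_lit 3924959805) (nat_lit 456) (nat_lit 7100504954) (nat_lit 532) (nat_lit 6909130988) (nat_lit 223) (nat_lit 5) (nat_lit 229) (nat_lit 5) (nat_lit 230) (nat_lit 5) (nat_lit 625) (nat_lit 556) (nat_lit 379)) (XT.lf (nat_lit 0) (nat_lit 14834939142) (nat_lit 456) (nat_lit 58462379) (nat_lit 532) (nat_lit 3253129673) (nat_lit 223) (nat_lit 5) (nat_lit 229) (nat_lit 5) (nat_lit 230) (nat_lit 5) (nat_lit 626)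 (nat_lit 556) (nat_lit 378)))) (XT.nd (nat_lit 78) (nat_lit 456) (nat_lit 0) (XT.lf (nat_lit 0) (nat_lit 557807009) (nat_lit 608) (nat_lit 10721979741) (nat_lit 76) (nat_lit 7081096136) (nat_lit 215) (nat_lit 5) (nat_lit 223) (nat_lit 5) (nat_lit 216) (nat_lit 5) (nat_lit 627) (nat_lit 556) (nat_lit 377)) (XT.nd (nat_lit 78) (nat_lit 0) (nat_lit 0) (XT.lf (nat_lit 0) (nat_lit 243557645) (nat_lit 456) (nat_lit 4173859324) (nat_lit 532) (nat_lit 14161354799) (nat_lit 209) (nat_lit 5) (nat_lit 215) (nat_lit 5) (nat_lit 216) (nat_lit 5) (nat_lit 628) (nat_lit 556) (nat_lit 376)) (XT.lf (nat_lit 0) (nat_lit 8438306246) (nat_lit 532) (nat_lit 7258115839) (nat_lit 76) (nat_lit 3102915087) (nat_lit 209) (nat_lit 5) (nat_lit 216) (nat_lit 5) (nat_lit 210) (nat_lit 5) (nat_lit 629) (nat_lit 556) (nat_lit 375))))) (XT.nd (nat_lit 234) (nat_lit 836) (nat_lit 0) (XT.nd (nat_lit 78) (nat_lit 532) (nat_lit 0) (XT.lf (nat_lit 0) (nat_lit 4054444688) (nat_lit 456) (nat_lit 8530997786)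 (nat_lit 532) (nat_lit 6437955307) (nat_lit 203) (nat_lit 5) (nat_lit 209) (nat_lit 5) (nat_lit 210) (nat_lit 5) (nat_lit 630) (nat_lit 556) (nat_lit 374)) (XT.nd (nat_lit 78) (nat_lit 532) (nat_lit 0) (XT.lf (nat_lit 0) (nat_lit 15680105459) (nat_lit 456) (nat_lit 1176069950) (nat_lit 532) (nat_lit 2394951582) (nat_lit 203) (nat_lit 5) (nat_lit 209) (nat_lit 5) (nat_lit 210) (nat_lit 5) (nat_lit 631) (nat_lit 556) (nat_lit 373)) (XT.lf (nat_lit 0) (nat_lit 1792608245) (nat_lit 532) (nat_lit 11384791872) (nat_lit 76) (nat_lit 6304059195) (nat_lit 196) (nat_lit 5) (nat_lit 203) (nat_lit 5) (nat_lit 197) (nat_lit 5) (nat_lit 632) (nat_lit 556) (nat_lit 372)))) (XT.nd (nat_lit 156) (nat_lit 380) (nat_lit 0) (XT.nd (nat_lit 78) (nat_lit 0) (nat_lit 0) (XT.lf (nat_lit 0) (nat_lit 298832172) (nat_lit 456) (nat_lit 5759012520) (nat_lit 532) (nat_lit 13657717539) (nat_lit 190) (nat_lit 5) (nat_lit 196) (nat_lit 5) (nat_lit 197) (nat_lit 5) (nat_lit 633) (nat_lit 556) (nat_lit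 371)) (XT.lf (nat_lit 0) (nat_lit 10489197071) (nat_lit 532) (nat_lit 7606143969) (nat_lit 76) (nat_lit 1857390378) (nat_lit 190) (nat_lit 5) (nat_lit 197) (nat_lit 5) (nat_lit 191) (nat_lit 5) (nat_lit 634) (nat_lit 556) (nat_lit 370))) (XT.nd (nat_lit 78) (nat_lit 0) (nat_lit 0) (XT.lf (nat_lit 0) (nat_lit 4449563416) (nat_lit 380) (nat_lit 10618965521) (nat_lit 456) (nat_lit 5124928428) (nat_lit 185) (nat_lit 5) (nat_lit 190) (nat_lit 5) (nat_lit 191) (nat_lit 5) (nat_lit 635) (nat_lit 556) (nat_lit 369)) (XT.lf (nat_lit 0) (nat_lit 16838254534) (nat_lit 380) (nat_lit 2944635482) (nat_lit 456) (nat_lit 655239380) (nat_lit 185) (nat_lit 5) (nat_lit 190) (nat_lit 5) (nat_lit 191) (nat_lit 5) (nat_lit 636) (nat_lit 556) (nat_lit 368)))))) (XT.nd (nat_lit 546) (nat_lit 1596) (nat_lit 0) (XT.nd (nat_lit 234) (nat_lit 1216) (nat_lit 0) (XT.nd (nat_lit 78) (nat_lit 380) (nat_lit 0) (XT.lf (nat_lit 0) (nat_lit 3934944442) (nat_lit 532) (nat_lit 11851562266) (nat_lit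 76) (nat_lit 4899035621) (nat_lit 178) (nat_lit 5) (nat_lit 185) (nat_lit 5) (nat_lit 179) (nat_lit 5) (nat_lit 637) (nat_lit 556) (nat_lit 367)) (XT.nd (nat_lit 78) (nat_lit 0) (nat_lit 0) (XT.lf (nat_lit 0) (nat_lit 600599952) (nat_lit 380) (nat_lit 8047836448) (nat_lit 456) (nat_lit 12288575329) (nat_lit 173) (nat_lit 5) (nat_lit 178) (nat_lit 5) (nat_lit 179) (nat_lit 5) (nat_lit 638) (nat_lit 556) (nat_lit 366)) (XT.lf (nat_lit 0) (nat_lit 13451364147) (nat_lit 380) (nat_lit 76990768) (nat_lit 456) (nat_lit 7663712852) (nat_lit 173) (nat_lit 5) (nat_lit 178) (nat_lit 5) (nat_lit 179) (nat_lit 5) (nat_lit 639) (nat_lit 556) (nat_lit 365)))) (XT.nd (nat_lit 156) (nat_lit 760) (nat_lit 0) (XT.nd (nat_lit 78) (nat_lit 76) (nat_lit 0) (XT.lf (nat_lit 0) (nat_lit 5110662676) (nat_lit 380) (nat_lit 13473425524) (nat_lit 456) (nat_lit 2866572776) (nat_lit 168) (nat_lit 5) (nat_lit 173) (nat_lit 5) (nat_lit 174) (nat_lit 5) (nat_lit 640) (nat_lit 556) (nat_lit 364))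 (XT.lf (nat_lit 0) (nat_lit 2045500890) (nat_lit 456) (nat_lit 3414435106) (nat_lit 76) (nat_lit 16253315890) (nat_lit 167) (nat_lit 5) (nat_lit 173) (nat_lit 5) (nat_lit 168) (nat_lit 5) (nat_lit 641) (nat_lit 556) (nat_lit 363))) (XT.nd (nat_lit 78) (nat_lit 380) (nat_lit 0) (XT.lf (nat_lit 0) (nat_lit 7092604872) (nat_lit 456) (nat_lit 12128432559) (nat_lit 76) (nat_lit 2758175132) (nat_lit 162) (nat_lit 5) (nat_lit 168) (nat_lit 5) (nat_lit 163) (nat_lit 5) (nat_lit 642) (nat_lit 556) (nat_lit 362)) (XT.lf (nat_lit 0) (nat_lit 1145411175) (nat_lit 380) (nat_lit 11154857120) (nat_lit 456) (nat_lit 9949032161) (nat_lit 157) (nat_lit 5) (nat_lit 162) (nat_lit 5) (nat_lit 163) (nat_lit 5) (nat_lit 643) (nat_lit 556) (nat_lit 361))))) (XT.nd (nat_lit 234) (nat_lit 1140) (nat_lit 0) (XT.nd (nat_lit 78) (nat_lit 456) (nat_lit 0) (XT.lf (nat_lit 0) (nat_lit 14838357634) (nat_lit 380) (nat_lit 2848141303) (nat_lit 456) (nat_lit 4836803232) (nat_lit 157) (nat_lit 5)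 (nat_lit 162) (nat_lit 5) (nat_lit 163) (nat_lit 5) (nat_lit 644) (nat_lit 556) (nat_lit 360)) (XT.nd (nat_lit 78) (nat_lit 0) (nat_lit 0) (XT.lf (nat_lit 0) (nat_lit 442009078) (nat_lit 456) (nat_lit 16769994283) (nat_lit 76) (nat_lit 5589346002) (nat_lit 151) (nat_lit 5) (nat_lit 157) (nat_lit 5) (nat_lit 152) (nat_lit 5) (nat_lit 645) (nat_lit 556) (nat_lit 359)) (XT.lf (nat_lit 0) (nat_lit 5825625435) (nat_lit 456) (nat_lit 3019709918) (nat_lit 76) (nat_lit 14237703192) (nat_lit 151) (nat_lit 5) (nat_lit 157) (nat_lit 5) (nat_lit 152) (nat_lit 5) (nat_lit 646) (nat_lit 556) (nat_lit 358)))) (XT.nd (nat_lit 156) (nat_lit 456) (nat_lit 0) (XT.nd (nat_lit 78) (nat_lit 304) (nat_lit 0) (XT.lf (nat_lit 0) (nat_lit 11141208143) (nat_lit 380) (nat_lit 241334881) (nat_lit 456) (nat_lit 11986506224) (nat_lit 146) (nat_lit 5) (nat_lit 151) (nat_lit 5) (nat_lit 152) (nat_lit 5) (nat_lit 647) (nat_lit 556) (nat_lit 357)) (XT.lf (nat_lit 0) (nat_lit 1925072319) (nat_lit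 304) (nat_lit 15207168870) (nat_lit 380) (nat_lit 6526906442) (nat_lit 142) (nat_lit 5) (nat_lit 146) (nat_lit 5) (nat_lit 147) (nat_lit 5) (nat_lit 648) (nat_lit 556) (nat_lit 356))) (XT.nd (nat_lit 78) (nat_lit 456) (nat_lit 0) (XT.lf (nat_lit 0) (nat_lit 16514714851) (nat_lit 304) (nat_lit 6559256374) (nat_lit 380) (nat_lit 879536303) (nat_lit 142) (nat_lit 5) (nat_lit 146) (nat_lit 5) (nat_lit 147) (nat_lit 5) (nat_lit 649) (nat_lit 556) (nat_lit 355)) (XT.lf (nat_lit 0) (nat_lit 4872141382) (nat_lit 456) (nat_lit 17072772185) (nat_lit 76) (nat_lit 2307100112) (nat_lit 136) (nat_lit 5) (nat_lit 142) (nat_lit 5) (nat_lit 137) (nat_lit 5) (nat_lit 650) (nat_lit 556) (nat_lit 354))))))) (XT.nd (nat_lit 73866) (nat_lit 0) (nat_lit 32908) (XT.nd (nat_lit 468) (nat_lit 1596) (nat_lit 0) (XT.nd (nat_lit 234) (nat_lit 380) (nat_lit 0) (XT.nd (nat_lit 78) (nat_lit 608) (nat_lit 0) (XT.lf (nat_lit 0) (nat_lit 10814291804) (nat_lit 456) (nat_lit 2424994246) (nat_lit 76)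 (nat_lit 11315343590) (nat_lit 136) (nat_lit 5) (nat_lit 142) (nat_lit 5) (nat_lit 137) (nat_lit 5) (nat_lit 651) (nat_lit 556) (nat_lit 353)) (XT.nd (nat_lit 78) (nat_lit 304) (nat_lit 0) (XT.lf (nat_lit 0) (nat_lit 12671755437) (nat_lit 304) (nat_lit 4279447926) (nat_lit 380) (nat_lit 7910576476) (nat_lit 132) (nat_lit 5) (nat_lit 136) (nat_lit 5) (nat_lit 137) (nat_lit 5) (nat_lit 652) (nat_lit 556) (nat_lit 352)) (XT.lf (nat_lit 0) (nat_lit 2925056516) (nat_lit 304) (nat_lit 20346399374) (nat_lit 380) (nat_lit 1902405372) (nat_lit 128) (nat_lit 5) (nat_lit 132) (nat_lit 5) (nat_lit 133) (nat_lit 5) (nat_lit 653) (nat_lit 556) (nat_lit 351)))) (XT.nd (nat_lit 78) (nat_lit 304) (nat_lit 0) (XT.lf (nat_lit 0) (nat_lit 4274884511) (nat_lit 380) (nat_lit 7049417761) (nat_lit 76) (nat_lit 14165245971) (nat_lit 127) (nat_lit 5) (nat_lit 132) (nat_lit 5) (nat_lit 128) (nat_lit 5) (nat_lit 654) (nat_lit 556) (nat_lit 350)) (XT.nd (nat_lit 78) (nat_lit 0) (nat_lit 0)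 (XT.lf (nat_lit 0) (nat_lit 8543379209) (nat_lit 304) (nat_lit 2056179746) (nat_lit 380) (nat_lit 15210752530) (nat_lit 123) (nat_lit 5) (nat_lit 127) (nat_lit 5) (nat_lit 128) (nat_lit 5) (nat_lit 655) (nat_lit 556) (nat_lit 349)) (XT.lf (nat_lit 0) (nat_lit 17140224177) (nat_lit 380) (nat_lit 1651355415) (nat_lit 76) (nat_lit 7344120708) (nat_lit 123) (nat_lit 5) (nat_lit 128) (nat_lit 5) (nat_lit 124) (nat_lit 5) (nat_lit 656) (nat_lit 556) (nat_lit 348))))) (XT.nd (nat_lit 234) (nat_lit 912) (nat_lit 0) (XT.nd (nat_lit 78) (nat_lit 380) (nat_lit 0) (XT.lf (nat_lit 0) (nat_lit 14442469852) (nat_lit 304) (nat_lit 9470591098) (nat_lit 380) (nat_lit 2552509026) (nat_lit 119) (nat_lit 5) (nat_lit 123) (nat_lit 5) (nat_lit 124) (nat_lit 5) (nat_lit 657) (nat_lit 556) (nat_lit 347)) (XT.nd (nat_lit 78) (nat_lit 0) (nat_lit 0) (XT.lf (nat_lit 0) (nat_lit 3998977532) (nat_lit 380) (nat_lit 22705097746) (nat_lit 76) (nat_lit 96792602) (nat_lit 114) (nat_lit 5) (nat_lit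 119) (nat_lit 5) (nat_lit 115) (nat_lit 5) (nat_lit 658) (nat_lit 556) (nat_lit 346)) (XT.lf (nat_lit 0) (nat_lit 10785297544) (nat_lit 380) (nat_lit 6531327886) (nat_lit 76) (nat_lit 9823149467) (nat_lit 114) (nat_lit 5) (nat_lit 119) (nat_lit 5) (nat_lit 115) (nat_lit 5) (nat_lit 659) (nat_lit 556) (nat_lit 345)))) (XT.nd (nat_lit 156) (nat_lit 608) (nat_lit 0) (XT.nd (nat_lit 78) (nat_lit 0) (nat_lit 0) (XT.lf (nat_lit 0) (nat_lit 10088517976) (nat_lit 304) (nat_lit 7678459761) (nat_lit 380) (nat_lit 9717289873) (nat_lit 110) (nat_lit 5) (nat_lit 114) (nat_lit 5) (nat_lit 115) (nat_lit 5) (nat_lit 660) (nat_lit 556) (nat_lit 344)) (XT.lf (nat_lit 0) (nat_lit 24940545650) (nat_lit 380) (nat_lit 729484361) (nat_lit 76) (nat_lit 2164575310) (nat_lit 110) (nat_lit 5) (nat_lit 115) (nat_lit 5) (nat_lit 111) (nat_lit 5) (nat_lit 661) (nat_lit 556) (nat_lit 343))) (XT.nd (nat_lit 78) (nat_lit 304) (nat_lit 0) (XT.lf (nat_lit 0) (nat_lit 4165086462) (nat_lit 304) (nat_lit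 11791191460) (nat_lit 76) (nat_lit 12232088686) (nat_lit 106) (nat_lit 5) (nat_lit 110) (nat_lit 5) (nat_lit 107) (nat_lit 5) (nat_lit 662) (nat_lit 556) (nat_lit 342)) (XT.lf (nat_lit 0) (nat_lit 5368803227) (nat_lit 304) (nat_lit 5991969873) (nat_lit 380) (nat_lit 17187365459) (nat_lit 102) (nat_lit 5) (nat_lit 106) (nat_lit 5) (nat_lit 107) (nat_lit 5) (nat_lit 663) (nat_lit 556) (nat_lit 341)))))) (XT.nd (nat_lit 546) (nat_lit 0) (nat_lit 152) (XT.nd (nat_lit 234) (nat_lit 1520) (nat_lit 0) (XT.nd (nat_lit 78) (nat_lit 0) (nat_lit 0) (XT.lf (nat_lit 0) (nat_lit 2809696144) (nat_lit 1596) (nat_lit 861271627) (nat_lit 1596) (nat_lit 861271627) (nat_lit 555) (nat_lit 3) (nat_lit 576) (nat_lit 3) (nat_lit 576) (nat_lit 5) (nat_lit 557) (nat_lit 557) (nat_lit 446)) (XT.nd (nat_lit 78) (nat_lit 0) (nat_lit 0) (XT.lf (nat_lit 76) (nat_lit 2795841103) (nat_lit 0) (nat_lit 3781416977) (nat_lit 1596) (nat_lit 2559741335) (nat_lit 556) (nat_lit 5) (nat_lit 555) (nat_lit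 3) (nat_lit 576) (nat_lit 5) (nat_lit 558) (nat_lit 557) (nat_lit 445)) (XT.lf (nat_lit 76) (nat_lit 7415965130) (nat_lit 0) (nat_lit 126622430) (nat_lit 1596) (nat_lit 1668619137) (nat_lit 556) (nat_lit 5) (nat_lit 555) (nat_lit 3) (nat_lit 576) (nat_lit 5) (nat_lit 559) (nat_lit 557) (nat_lit 444)))) (XT.nd (nat_lit 156) (nat_lit 0) (nat_lit 76) (XT.nd (nat_lit 78) (nat_lit 1596) (nat_lit 0) (XT.lf (nat_lit 76) (nat_lit 2843228410) (nat_lit 0) (nat_lit 5703112075) (nat_lit 1596) (nat_lit 740177637) (nat_lit 557) (nat_lit 5) (nat_lit 556) (nat_lit 5) (nat_lit 577) (nat_lit 5) (nat_lit 560) (nat_lit 557) (nat_lit 443)) (XT.lf (nat_lit 0) (nat_lit 194576415) (nat_lit 1596) (nat_lit 1779046676) (nat_lit 1672) (nat_lit 7389878942) (nat_lit 535) (nat_lit 5) (nat_lit 556) (nat_lit 5) (nat_lit 557) (nat_lit 5) (nat_lit 561) (nat_lit 557) (nat_lit 442))) (XT.nd (nat_lit 78) (nat_lit 0) (nat_lit 0) (XT.lf (nat_lit 0) (nat_lit 1147648412) (nat_lit 1596) (nat_lit 6453405744)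 (nat_lit 1672) (nat_lit 1840685136) (nat_lit 536) (nat_lit 5) (nat_lit 557) (nat_lit 5) (nat_lit 558) (nat_lit 5) (nat_lit 562) (nat_lit 557) (nat_lit 441)) (XT.lf (nat_lit 0) (nat_lit 2123217645) (nat_lit 1596) (nat_lit 1671941348) (nat_lit 1672) (nat_lit 5726315743) (nat_lit 536) (nat_lit 5) (nat_lit 557) (nat_lit 5) (nat_lit 558) (nat_lit 5) (nat_lit 563) (nat_lit 557) (nat_lit 440))))) (XT.nd (nat_lit 234) (nat_lit 0) (nat_lit 76) (XT.nd (nat_lit 78) (nat_lit 0) (nat_lit 0) (XT.lf (nat_lit 0) (nat_lit 3118835903) (nat_lit 1596) (nat_lit 6368407449) (nat_lit 1672) (nat_lit 115552898) (nat_lit 537) (nat_lit 5) (nat_lit 558) (nat_lit 5) (nat_lit 559) (nat_lit 5) (nat_lit 564) (nat_lit 557) (nat_lit 439)) (XT.nd (nat_lit 78) (nat_lit 0) (nat_lit 0) (XT.lf (nat_lit 0) (nat_lit 4149958203) (nat_lit 1596) (nat_lit 1462030066) (nat_lit 1672) (nat_lit 4073446163) (nat_lit 537) (nat_lit 5) (nat_lit 558) (nat_lit 5) (nat_lit 559) (nat_lit 5) (nat_lit 565) (nat_lit 557)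 (nat_lit 438)) (XT.lf (nat_lit 76) (nat_lit 3576825159) (nat_lit 0) (nat_lit 1627673721) (nat_lit 1672) (nat_lit 4565172611) (nat_lit 538) (nat_lit 5) (nat_lit 537) (nat_lit 5) (nat_lit 559) (nat_lit 5) (nat_lit 566) (nat_lit 557) (nat_lit 437)))) (XT.nd (nat_lit 156) (nat_lit 0) (nat_lit 76) (XT.nd (nat_lit 78) (nat_lit 0) (nat_lit 0) (XT.lf (nat_lit 0) (nat_lit 6285766454) (nat_lit 1596) (nat_lit 1147936064) (nat_lit 1672) (nat_lit 2421780042) (nat_lit 538) (nat_lit 5) (nat_lit 559) (nat_lit 5) (nat_lit 560) (nat_lit 5) (nat_lit 567) (nat_lit 557) (nat_lit 436)) (XT.lf (nat_lit 76) (nat_lit 4027233097) (nat_lit 0) (nat_lit 3378688210) (nat_lit 1672) (nat_lit 2536745257) (nat_lit 539) (nat_lit 5) (nat_lit 538) (nat_lit 5) (nat_lit 560) (nat_lit 5) (nat_lit 568) (nat_lit 557) (nat_lit 435))) (XT.nd (nat_lit 78) (nat_lit 0) (nat_lit 0) (XT.lf (nat_lit 0) (nat_lit 8541834152) (nat_lit 1596) (nat_lit 727970257) (nat_lit 1672) (nat_lit 761924655) (nat_lit 539) (nat_lit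 5) (nat_lit 560) (nat_lit 5) (nat_lit 561) (nat_lit 5) (nat_lit 569) (nat_lit 557) (nat_lit 434)) (XT.lf (nat_lit 76) (nat_lit 4588270674) (nat_lit 0) (nat_lit 5145421771) (nat_lit 1672) (nat_lit 388217703) (nat_lit 540) (nat_lit 5) (nat_lit 539) (nat_lit 5) (nat_lit 561) (nat_lit 5) (nat_lit 570) (nat_lit 557) (nat_lit 433))))))))
noncomputable def xc159 : XT := (XT.nd (nat_lit 2106) (nat_lit 10564) (nat_lit 0) (XT.nd (nat_lit 1014) (nat_lit 8208) (nat_lit 0) (XT.nd (nat_lit 468) (nat_lit 3116) (nat_lit 0) (XT.nd (nat_lit 234) (nat_lit 0) (nat_lit 152) (XT.nd (nat_lit 78) (nat_lit 0) (nat_lit 76) (XT.lf (nat_lit 0) (nat_lit 711989656) (nat_lit 1672) (nat_lit 210839961) (nat_lit 1748) (nat_lit 9291248678) (nat_lit 517) (nat_lit 5) (nat_lit 539) (nat_lit 5) (nat_lit 540) (nat_lit 5) (nat_lit 571) (nat_lit 557) (nat_lit 432)) (XT.nd (nat_lit 78) (nat_lit 0) (nat_lit 0) (XT.lf (nat_lit 0) (nat_lit 1867085975) (nat_lit 1672) (nat_lit 5057670975) (nat_lit 1748) (nat_lit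 3382521643) (nat_lit 518) (nat_lit 5) (nat_lit 540) (nat_lit 5) (nat_lit 541) (nat_lit 5) (nat_lit 572) (nat_lit 557) (nat_lit 431)) (XT.lf (nat_lit 76) (nat_lit 406009216) (nat_lit 0) (nat_lit 2631355166) (nat_lit 1748) (nat_lit 7365138644) (nat_lit 519) (nat_lit 5) (nat_lit 518) (nat_lit 5) (nat_lit 541) (nat_lit 5) (nat_lit 573) (nat_lit 557) (nat_lit 430)))) (XT.nd (nat_lit 78) (nat_lit 0) (nat_lit 0) (XT.lf (nat_lit 0) (nat_lit 4258772501) (nat_lit 1672) (nat_lit 4476312266) (nat_lit 1748) (nat_lit 1763994397) (nat_lit 519) (nat_lit 5) (nat_lit 541) (nat_lit 5) (nat_lit 542) (nat_lit 5) (nat_lit 574) (nat_lit 557) (nat_lit 429)) (XT.nd (nat_lit 78) (nat_lit 0) (nat_lit 76) (XT.lf (nat_lit 76) (nat_lit 1138735558) (nat_lit 0) (nat_lit 4373252766) (nat_lit 1748) (nat_lit 5085452575) (nat_lit 520) (nat_lit 5) (nat_lit 519) (nat_lit 5) (nat_lit 542) (nat_lit 5) (nat_lit 575) (nat_lit 557) (nat_lit 428)) (XT.lf (nat_lit 0) (nat_lit 6803843207) (nat_lit 1672) (nat_lit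 3784431093) (nat_lit 1748) (nat_lit 109225709) (nat_lit 520) (nat_lit 5) (nat_lit 542) (nat_lit 5) (nat_lit 543) (nat_lit 5) (nat_lit 576) (nat_lit 557) (nat_lit 427))))) (XT.nd (nat_lit 234) (nat_lit 3344) (nat_lit 0) (XT.nd (nat_lit 78) (nat_lit 0) (nat_lit 0) (XT.lf (nat_lit 76) (nat_lit 1987359968) (nat_lit 0) (nat_lit 6159221941) (nat_lit 1748) (nat_lit 2652479060) (nat_lit 521) (nat_lit 5) (nat_lit 520) (nat_lit 5) (nat_lit 543) (nat_lit 5) (nat_lit 577) (nat_lit 557) (nat_lit 426)) (XT.nd (nat_lit 78) (nat_lit 0) (nat_lit 76) (XT.lf (nat_lit 76) (nat_lit 7912900488) (nat_lit 0) (nat_lit 1612097408) (nat_lit 1748) (nat_lit 1377480370) (nat_lit 521) (nat_lit 5) (nat_lit 520) (nat_lit 5) (nat_lit 543) (nat_lit 5) (nat_lit 578) (nat_lit 557) (nat_lit 425)) (XT.lf (nat_lit 76) (nat_lit 2955016838) (nat_lit 0) (nat_lit 7998572684) (nat_lit 1748) (nat_lit 53923782) (nat_lit 522) (nat_lit 5) (nat_lit 521) (nat_lit 5) (nat_lit 544) (nat_lit 5) (nat_lit 579) (nat_lit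 557) (nat_lit 424)))) (XT.nd (nat_lit 156) (nat_lit 1672) (nat_lit 0) (XT.nd (nat_lit 78) (nat_lit 0) (nat_lit 76) (XT.lf (nat_lit 0) (nat_lit 1293877110) (nat_lit 1748) (nat_lit 2087653531) (nat_lit 1824) (nat_lit 7732656140) (nat_lit 498) (nat_lit 5) (nat_lit 521) (nat_lit 5) (nat_lit 522) (nat_lit 5) (nat_lit 580) (nat_lit 557) (nat_lit 423)) (XT.lf (nat_lit 0) (nat_lit 2687150210) (nat_lit 1748) (nat_lit 7195482107) (nat_lit 76) (nat_lit 1339970969) (nat_lit 499) (nat_lit 5) (nat_lit 522) (nat_lit 5) (nat_lit 500) (nat_lit 5) (nat_lit 581) (nat_lit 557) (nat_lit 422))) (XT.nd (nat_lit 78) (nat_lit 1748) (nat_lit 0) (XT.lf (nat_lit 0) (nat_lit 4129245301) (nat_lit 1748) (nat_lit 1076100130) (nat_lit 76) (nat_lit 6127424983) (nat_lit 499) (nat_lit 5) (nat_lit 522) (nat_lit 5) (nat_lit 500) (nat_lit 5) (nat_lit 582) (nat_lit 557) (nat_lit 421)) (XT.lf (nat_lit 0) (nat_lit 5221210072) (nat_lit 1748) (nat_lit 397636735) (nat_lit 1824) (nat_lit 5825922180) (nat_lit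 476) (nat_lit 5) (nat_lit 499) (nat_lit 5) (nat_lit 500) (nat_lit 5) (nat_lit 583) (nat_lit 557) (nat_lit 420)))))) (XT.nd (nat_lit 546) (nat_lit 3420) (nat_lit 0) (XT.nd (nat_lit 234) (nat_lit 1900) (nat_lit 0) (XT.nd (nat_lit 78) (nat_lit 1064) (nat_lit 0) (XT.lf (nat_lit 0) (nat_lit 58484741) (nat_lit 1824) (nat_lit 7101656075) (nat_lit 1900) (nat_lit 4398430073) (nat_lit 452) (nat_lit 5) (nat_lit 476) (nat_lit 5) (nat_lit 477) (nat_lit 5) (nat_lit 584) (nat_lit 557) (nat_lit 419)) (XT.nd (nat_lit 78) (nat_lit 1064) (nat_lit 0) (XT.lf (nat_lit 0) (nat_lit 6534782272) (nat_lit 1824) (nat_lit 2227061442) (nat_lit 1900) (nat_lit 2912214796) (nat_lit 452) (nat_lit 5) (nat_lit 476) (nat_lit 5) (nat_lit 477) (nat_lit 5) (nat_lit 585) (nat_lit 557) (nat_lit 418)) (XT.lf (nat_lit 0) (nat_lit 1335313720) (nat_lit 1064) (nat_lit 9072263885) (nat_lit 1140) (nat_lit 1384039654) (nat_lit 438) (nat_lit 5) (nat_lit 452) (nat_lit 5) (nat_lit 453) (nat_lit 5) (nat_lit 586) (nat_lit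 557) (nat_lit 417)))) (XT.nd (nat_lit 156) (nat_lit 912) (nat_lit 0) (XT.nd (nat_lit 78) (nat_lit 912) (nat_lit 0) (XT.lf (nat_lit 0) (nat_lit 207480453) (nat_lit 1140) (nat_lit 3931121791) (nat_lit 76) (nat_lit 7772202063) (nat_lit 437) (nat_lit 5) (nat_lit 452) (nat_lit 5) (nat_lit 438) (nat_lit 5) (nat_lit 587) (nat_lit 557) (nat_lit 416)) (XT.lf (nat_lit 0) (nat_lit 1821974100) (nat_lit 988) (nat_lit 9299769789) (nat_lit 76) (nat_lit 910255965) (nat_lit 425) (nat_lit 5) (nat_lit 438) (nat_lit 5) (nat_lit 426) (nat_lit 5) (nat_lit 588) (nat_lit 557) (nat_lit 415))) (XT.nd (nat_lit 78) (nat_lit 912) (nat_lit 0) (XT.lf (nat_lit 0) (nat_lit 3508810310) (nat_lit 988) (nat_lit 2613712105) (nat_lit 76) (nat_lit 6032297058) (nat_lit 425) (nat_lit 5) (nat_lit 438) (nat_lit 5) (nat_lit 426) (nat_lit 5) (nat_lit 589) (nat_lit 557) (nat_lit 414)) (XT.lf (nat_lit 0) (nat_lit 4248875739) (nat_lit 912) (nat_lit 994456898) (nat_lit 988) (nat_lit 7036485050) (nat_lit 413) (nat_lit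 5) (nat_lit 425) (nat_lit 5) (nat_lit 426) (nat_lit 5) (nat_lit 590) (nat_lit 557) (nat_lit 413))))) (XT.nd (nat_lit 234) (nat_lit 1748) (nat_lit 0) (XT.nd (nat_lit 78) (nat_lit 1672) (nat_lit 0) (XT.lf (nat_lit 0) (nat_lit 7044255975) (nat_lit 988) (nat_lit 1163545419) (nat_lit 76) (nat_lit 4198881425) (nat_lit 413) (nat_lit 5) (nat_lit 426) (nat_lit 5) (nat_lit 414) (nat_lit 5) (nat_lit 591) (nat_lit 557) (nat_lit 412)) (XT.nd (nat_lit 78) (nat_lit 836) (nat_lit 0) (XT.lf (nat_lit 0) (nat_lit 5899133331) (nat_lit 836) (nat_lit 3013766050) (nat_lit 912) (nat_lit 3622552986) (nat_lit 402) (nat_lit 5) (nat_lit 413) (nat_lit 5) (nat_lit 414) (nat_lit 5) (nat_lit 592) (nat_lit 557) (nat_lit 411)) (XT.lf (nat_lit 0) (nat_lit 429926836) (nat_lit 836) (nat_lit 10401462087) (nat_lit 912) (nat_lit 1835160038) (nat_lit 391) (nat_lit 5) (nat_lit 402) (nat_lit 5) (nat_lit 403) (nat_lit 5) (nat_lit 593) (nat_lit 557) (nat_lit 410)))) (XT.nd (nat_lit 156) (nat_lit 836) (nat_lit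 0) (XT.nd (nat_lit 78) (nat_lit 836) (nat_lit 0) (XT.lf (nat_lit 0) (nat_lit 40002144) (nat_lit 912) (nat_lit 5105211345) (nat_lit 76) (nat_lit 7654019362) (nat_lit 390) (nat_lit 5) (nat_lit 402) (nat_lit 5) (nat_lit 391) (nat_lit 5) (nat_lit 594) (nat_lit 557) (nat_lit 409)) (XT.lf (nat_lit 0) (nat_lit 1931128251) (nat_lit 912) (nat_lit 10763567841) (nat_lit 76) (nat_lit 239572107) (nat_lit 379) (nat_lit 5) (nat_lit 391) (nat_lit 5) (nat_lit 380) (nat_lit 5) (nat_lit 595) (nat_lit 557) (nat_lit 408))) (XT.nd (nat_lit 78) (nat_lit 836) (nat_lit 0) (XT.lf (nat_lit 0) (nat_lit 3916130743) (nat_lit 912) (nat_lit 3457308710) (nat_lit 76) (nat_lit 5697444758) (nat_lit 379) (nat_lit 5) (nat_lit 391) (nat_lit 5) (nat_lit 380) (nat_lit 5) (nat_lit 596) (nat_lit 557) (nat_lit 407)) (XT.lf (nat_lit 0) (nat_lit 4035232452) (nat_lit 836) (nat_lit 1919539523) (nat_lit 912) (nat_lit 7255182811) (nat_lit 368) (nat_lit 5) (nat_lit 379) (nat_lit 5) (nat_lit 380) (nat_lit 5) (nat_lit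 597) (nat_lit 557) (nat_lit 406))))))) (XT.nd (nat_lit 1092) (nat_lit 4788) (nat_lit 0) (XT.nd (nat_lit 546) (nat_lit 2736) (nat_lit 0) (XT.nd (nat_lit 234) (nat_lit 1520) (nat_lit 0) (XT.nd (nat_lit 78) (nat_lit 1520) (nat_lit 0) (XT.lf (nat_lit 0) (nat_lit 8069089245) (nat_lit 912) (nat_lit 1663584113) (nat_lit 76) (nat_lit 3618436346) (nat_lit 368) (nat_lit 5) (nat_lit 380) (nat_lit 5) (nat_lit 369) (nat_lit 5) (nat_lit 598) (nat_lit 557) (nat_lit 405)) (XT.nd (nat_lit 78) (nat_lit 760) (nat_lit 0) (XT.lf (nat_lit 0) (nat_lit 6051766806) (nat_lit 760) (nat_lit 4214061290) (nat_lit 836) (nat_lit 3228457896) (nat_lit 358) (nat_lit 5) (nat_lit 368) (nat_lit 5) (nat_lit 369) (nat_lit 5) (nat_lit 599) (nat_lit 557) (nat_lit 404)) (XT.lf (nat_lit 0) (nat_lit 285542680) (nat_lit 760) (nat_lit 12231513412) (nat_lit 836) (nat_lit 1123059583) (nat_lit 348) (nat_lit 5) (nat_lit 358) (nat_lit 5) (nat_lit 359) (nat_lit 5) (nat_lit 600) (nat_lit 557) (nat_lit 403)))) (XT.nd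 (nat_lit 156) (nat_lit 760) (nat_lit 0) (XT.nd (nat_lit 78) (nat_lit 684) (nat_lit 0) (XT.lf (nat_lit 0) (nat_lit 1077538550) (nat_lit 836) (nat_lit 5566587560) (nat_lit 76) (nat_lit 7143273182) (nat_lit 347) (nat_lit 5) (nat_lit 358) (nat_lit 5) (nat_lit 348) (nat_lit 5) (nat_lit 601) (nat_lit 557) (nat_lit 402)) (XT.lf (nat_lit 0) (nat_lit 2388411477) (nat_lit 684) (nat_lit 922795114) (nat_lit 760) (nat_lit 10626192508) (nat_lit 338) (nat_lit 5) (nat_lit 347) (nat_lit 5) (nat_lit 348) (nat_lit 5) (nat_lit 602) (nat_lit 557) (nat_lit 401))) (XT.nd (nat_lit 78) (nat_lit 760) (nat_lit 0) (XT.lf (nat_lit 0) (nat_lit 5647757145) (nat_lit 760) (nat_lit 3556598625) (nat_lit 76) (nat_lit 4884879833) (nat_lit 338) (nat_lit 5) (nat_lit 348) (nat_lit 5) (nat_lit 339) (nat_lit 5) (nat_lit 603) (nat_lit 557) (nat_lit 400)) (XT.lf (nat_lit 0) (nat_lit 4637835046) (nat_lit 760) (nat_lit 3418357012) (nat_lit 836) (nat_lit 6187414580) (nat_lit 328) (nat_lit 5) (nat_lit 338) (nat_lit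 5) (nat_lit 339) (nat_lit 5) (nat_lit 604) (nat_lit 557) (nat_lit 399))))) (XT.nd (nat_lit 234) (nat_lit 1292) (nat_lit 0) (XT.nd (nat_lit 78) (nat_lit 1444) (nat_lit 0) (XT.lf (nat_lit 0) (nat_lit 10542000790) (nat_lit 836) (nat_lit 1385146758) (nat_lit 76) (nat_lit 2473334293) (nat_lit 328) (nat_lit 5) (nat_lit 339) (nat_lit 5) (nat_lit 329) (nat_lit 5) (nat_lit 605) (nat_lit 557) (nat_lit 398)) (XT.nd (nat_lit 78) (nat_lit 760) (nat_lit 0) (XT.lf (nat_lit 0) (nat_lit 7057414321) (nat_lit 684) (nat_lit 6077842272) (nat_lit 760) (nat_lit 1424084172) (nat_lit 319) (nat_lit 5) (nat_lit 328) (nat_lit 5) (nat_lit 329) (nat_lit 5) (nat_lit 606) (nat_lit 557) (nat_lit 397)) (XT.lf (nat_lit 0) (nat_lit 959601328) (nat_lit 684) (nat_lit 90428087) (nat_lit 760) (nat_lit 13671112380) (nat_lit 309) (nat_lit 5) (nat_lit 318) (nat_lit 5) (nat_lit 319) (nat_lit 5) (nat_lit 607) (nat_lit 557) (nat_lit 396)))) (XT.nd (nat_lit 156) (nat_lit 684) (nat_lit 0) (XT.nd (nat_lit 78)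 (nat_lit 608) (nat_lit 0) (XT.lf (nat_lit 0) (nat_lit 3633762198) (nat_lit 760) (nat_lit 5254526930) (nat_lit 76) (nat_lit 5996118134) (nat_lit 309) (nat_lit 5) (nat_lit 319) (nat_lit 5) (nat_lit 310) (nat_lit 5) (nat_lit 608) (nat_lit 557) (nat_lit 395)) (XT.lf (nat_lit 0) (nat_lit 3455011587) (nat_lit 608) (nat_lit 2826843734) (nat_lit 684) (nat_lit 8768829771) (nat_lit 301) (nat_lit 5) (nat_lit 309) (nat_lit 5) (nat_lit 310) (nat_lit 5) (nat_lit 609) (nat_lit 557) (nat_lit 394))) (XT.nd (nat_lit 78) (nat_lit 684) (nat_lit 0) (XT.lf (nat_lit 0) (nat_lit 9029957508) (nat_lit 684) (nat_lit 2844078143) (nat_lit 76) (nat_lit 3345312639) (nat_lit 301) (nat_lit 5) (nat_lit 310) (nat_lit 5) (nat_lit 302) (nat_lit 5) (nat_lit 610) (nat_lit 557) (nat_lit 393)) (XT.lf (nat_lit 0) (nat_lit 6132054784) (nat_lit 684) (nat_lit 5749466598) (nat_lit 760) (nat_lit 3508894118) (nat_lit 292) (nat_lit 5) (nat_lit 301) (nat_lit 5) (nat_lit 302) (nat_lit 5) (nat_lit 611) (nat_lit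 557) (nat_lit 392)))))) (XT.nd (nat_lit 546) (nat_lit 2204) (nat_lit 0) (XT.nd (nat_lit 234) (nat_lit 1292) (nat_lit 0) (XT.nd (nat_lit 78) (nat_lit 1292) (nat_lit 0) (XT.lf (nat_lit 0) (nat_lit 14802628161) (nat_lit 760) (nat_lit 253917906) (nat_lit 76) (nat_lit 508108478) (nat_lit 292) (nat_lit 5) (nat_lit 302) (nat_lit 5) (nat_lit 293) (nat_lit 5) (nat_lit 612) (nat_lit 557) (nat_lit 391)) (XT.nd (nat_lit 78) (nat_lit 608) (nat_lit 0) (XT.lf (nat_lit 0) (nat_lit 2100364652) (nat_lit 684) (nat_lit 6755967148) (nat_lit 76) (nat_lit 6884035638) (nat_lit 283) (nat_lit 5) (nat_lit 292) (nat_lit 5) (nat_lit 284) (nat_lit 5) (nat_lit 613) (nat_lit 557) (nat_lit 390)) (XT.lf (nat_lit 0) (nat_lit 2507079304) (nat_lit 608) (nat_lit 2511035724) (nat_lit 684) (nat_lit 10901213202) (nat_lit 275) (nat_lit 5) (nat_lit 283) (nat_lit 5) (nat_lit 284) (nat_lit 5) (nat_lit 614) (nat_lit 557) (nat_lit 389)))) (XT.nd (nat_lit 156) (nat_lit 684) (nat_lit 0) (XT.nd (nat_lit 78) (nat_lit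 608) (nat_lit 0) (XT.lf (nat_lit 0) (nat_lit 8055983852) (nat_lit 684) (nat_lit 4092221185) (nat_lit 76) (nat_lit 3952428602) (nat_lit 275) (nat_lit 5) (nat_lit 284) (nat_lit 5) (nat_lit 276) (nat_lit 5) (nat_lit 615) (nat_lit 557) (nat_lit 388)) (XT.lf (nat_lit 0) (nat_lit 5457182497) (nat_lit 608) (nat_lit 5740085232) (nat_lit 684) (nat_lit 5087444932) (nat_lit 267) (nat_lit 5) (nat_lit 275) (nat_lit 5) (nat_lit 276) (nat_lit 5) (nat_lit 616) (nat_lit 557) (nat_lit 387))) (XT.nd (nat_lit 78) (nat_lit 684) (nat_lit 0) (XT.lf (nat_lit 0) (nat_lit 14424876555) (nat_lit 684) (nat_lit 1236288127) (nat_lit 76) (nat_lit 810839240) (nat_lit 267) (nat_lit 5) (nat_lit 276) (nat_lit 5) (nat_lit 268) (nat_lit 5) (nat_lit 617) (nat_lit 557) (nat_lit 386)) (XT.lf (nat_lit 0) (nat_lit 1125518431) (nat_lit 684) (nat_lit 8058887571) (nat_lit 76) (nat_lit 7476791856) (nat_lit 258) (nat_lit 5) (nat_lit 267) (nat_lit 5) (nat_lit 259) (nat_lit 5) (nat_lit 618) (nat_lit 557) (nat_lit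 385))))) (XT.nd (nat_lit 234) (nat_lit 1140) (nat_lit 0) (XT.nd (nat_lit 78) (nat_lit 532) (nat_lit 0) (XT.lf (nat_lit 0) (nat_lit 1798539885) (nat_lit 532) (nat_lit 2546632249) (nat_lit 608) (nat_lit 12508514193) (nat_lit 251) (nat_lit 5) (nat_lit 258) (nat_lit 5) (nat_lit 259) (nat_lit 5) (nat_lit 619) (nat_lit 557) (nat_lit 384)) (XT.nd (nat_lit 78) (nat_lit 532) (nat_lit 0) (XT.lf (nat_lit 0) (nat_lit 7702076254) (nat_lit 608) (nat_lit 5126318648) (nat_lit 76) (nat_lit 4220173113) (nat_lit 251) (nat_lit 5) (nat_lit 259) (nat_lit 5) (nat_lit 252) (nat_lit 5) (nat_lit 620) (nat_lit 557) (nat_lit 383)) (XT.lf (nat_lit 0) (nat_lit 5038587451) (nat_lit 532) (nat_lit 6128282011) (nat_lit 608) (nat_lit 6079663437) (nat_lit 244) (nat_lit 5) (nat_lit 251) (nat_lit 5) (nat_lit 252) (nat_lit 5) (nat_lit 621) (nat_lit 557) (nat_lit 382)))) (XT.nd (nat_lit 156) (nat_lit 532) (nat_lit 0) (XT.nd (nat_lit 78) (nat_lit 608) (nat_lit 0) (XT.lf (nat_lit 0) (nat_lit 14731420084)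 (nat_lit 608) (nat_lit 1988093703) (nat_lit 76) (nat_lit 728334635) (nat_lit 244) (nat_lit 5) (nat_lit 252) (nat_lit 5) (nat_lit 245) (nat_lit 5) (nat_lit 622) (nat_lit 557) (nat_lit 381)) (XT.lf (nat_lit 0) (nat_lit 792447827) (nat_lit 608) (nat_lit 9161234605) (nat_lit 76) (nat_lit 7697660819) (nat_lit 236) (nat_lit 5) (nat_lit 244) (nat_lit 5) (nat_lit 237) (nat_lit 5) (nat_lit 623) (nat_lit 557) (nat_lit 380))) (XT.nd (nat_lit 78) (nat_lit 0) (nat_lit 0) (XT.lf (nat_lit 0) (nat_lit 1333999671) (nat_lit 532) (nat_lit 3014712722) (nat_lit 608) (nat_lit 13509565332) (nat_lit 229) (nat_lit 5) (nat_lit 236) (nat_lit 5) (nat_lit 237) (nat_lit 5) (nat_lit 624) (nat_lit 557) (nat_lit 379)) (XT.lf (nat_lit 0) (nat_lit 8055897818) (nat_lit 608) (nat_lit 5943261082) (nat_lit 76) (nat_lit 4068596607) (nat_lit 229) (nat_lit 5) (nat_lit 237) (nat_lit 5) (nat_lit 230) (nat_lit 5) (nat_lit 625) (nat_lit 557) (nat_lit 378))))))))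
noncomputable def xc160 : XT := (XT.nd (nat_lit 2106) (nat_lit 2280) (nat_lit 0) (XT.nd (nat_lit 1014) (nat_lit 3192) (nat_lit 0) (XT.nd (nat_lit 468) (nat_lit 1900) (nat_lit 0) (XT.nd (nat_lit 234) (nat_lit 912) (nat_lit 0) (XT.nd (nat_lit 78) (nat_lit 608) (nat_lit 0) (XT.lf (nat_lit 0) (nat_lit 4881994133) (nat_lit 456) (nat_lit 6998592790) (nat_lit 532) (nat_lit 6399969240) (nat_lit 223) (nat_lit 5) (nat_lit 229) (nat_lit 5) (nat_lit 230) (nat_lit 5) (nat_lit 626) (nat_lit 557) (nat_lit 377)) (XT.nd (nat_lit 78) (nat_lit 608) (nat_lit 0) (XT.lf (nat_lit 0) (nat_lit 15814604514) (nat_lit 532) (nat_lit 2505198562) (nat_lit 76) (nat_lit 177153569) (nat_lit 223) (nat_lit 5) (nat_lit 230) (nat_lit 5) (nat_lit 224) (nat_lit 5) (nat_lit 627) (nat_lit 557) (nat_lit 376)) (XT.lf (nat_lit 0) (nat_lit 1190205425) (nat_lit 608) (nat_lit 10061626620) (nat_lit 76) (nat_lit 7463806674) (nat_lit 215) (nat_lit 5) (nat_lit 223) (nat_lit 5) (nat_lit 216) (nat_lit 5) (nat_lit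 628) (nat_lit 557) (nat_lit 375)))) (XT.nd (nat_lit 78) (nat_lit 456) (nat_lit 0) (XT.lf (nat_lit 0) (nat_lit 1117466298) (nat_lit 456) (nat_lit 4003002432) (nat_lit 532) (nat_lit 13817548151) (nat_lit 209) (nat_lit 5) (nat_lit 215) (nat_lit 5) (nat_lit 216) (nat_lit 5) (nat_lit 629) (nat_lit 557) (nat_lit 374)) (XT.nd (nat_lit 78) (nat_lit 456) (nat_lit 0) (XT.lf (nat_lit 0) (nat_lit 9211341712) (nat_lit 532) (nat_lit 6540810983) (nat_lit 76) (nat_lit 3411050292) (nat_lit 209) (nat_lit 5) (nat_lit 216) (nat_lit 5) (nat_lit 210) (nat_lit 5) (nat_lit 630) (nat_lit 557) (nat_lit 373)) (XT.lf (nat_lit 0) (nat_lit 4992326629) (nat_lit 456) (nat_lit 8442808486) (nat_lit 532) (nat_lit 5956736100) (nat_lit 203) (nat_lit 5) (nat_lit 209) (nat_lit 5) (nat_lit 210) (nat_lit 5) (nat_lit 631) (nat_lit 557) (nat_lit 372))))) (XT.nd (nat_lit 234) (nat_lit 912) (nat_lit 0) (XT.nd (nat_lit 78) (nat_lit 988) (nat_lit 0) (XT.lf (nat_lit 0) (nat_lit 16833700752) (nat_lit 456) (nat_lit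 945856785) (nat_lit 532) (nat_lit 1844832660) (nat_lit 203) (nat_lit 5) (nat_lit 209) (nat_lit 5) (nat_lit 210) (nat_lit 5) (nat_lit 632) (nat_lit 557) (nat_lit 371)) (XT.nd (nat_lit 78) (nat_lit 456) (nat_lit 0) (XT.lf (nat_lit 0) (nat_lit 2414208448) (nat_lit 532) (nat_lit 10760158282) (nat_lit 76) (nat_lit 6684973971) (nat_lit 196) (nat_lit 5) (nat_lit 203) (nat_lit 5) (nat_lit 197) (nat_lit 5) (nat_lit 633) (nat_lit 557) (nat_lit 370)) (XT.lf (nat_lit 0) (nat_lit 1151530813) (nat_lit 456) (nat_lit 5607231036) (nat_lit 532) (nat_lit 13339484229) (nat_lit 190) (nat_lit 5) (nat_lit 196) (nat_lit 5) (nat_lit 197) (nat_lit 5) (nat_lit 634) (nat_lit 557) (nat_lit 369)))) (XT.nd (nat_lit 156) (nat_lit 532) (nat_lit 0) (XT.nd (nat_lit 78) (nat_lit 380) (nat_lit 0) (XT.lf (nat_lit 0) (nat_lit 11269072734) (nat_lit 532) (nat_lit 6918447141) (nat_lit 76) (nat_lit 2152832776) (nat_lit 190) (nat_lit 5) (nat_lit 197) (nat_lit 5) (nat_lit 191) (nat_lit 5) (nat_lit 635) (nat_lit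 557) (nat_lit 368)) (XT.lf (nat_lit 0) (nat_lit 5372849262) (nat_lit 380) (nat_lit 10561380500) (nat_lit 456) (nat_lit 4651779203) (nat_lit 185) (nat_lit 5) (nat_lit 190) (nat_lit 5) (nat_lit 191) (nat_lit 5) (nat_lit 636) (nat_lit 557) (nat_lit 367))) (XT.nd (nat_lit 78) (nat_lit 532) (nat_lit 0) (XT.lf (nat_lit 0) (nat_lit 17992955486) (nat_lit 380) (nat_lit 2738857278) (nat_lit 456) (nat_lit 103983586) (nat_lit 185) (nat_lit 5) (nat_lit 190) (nat_lit 5) (nat_lit 191) (nat_lit 5) (nat_lit 637) (nat_lit 557) (nat_lit 366)) (XT.lf (nat_lit 0) (nat_lit 4566748807) (nat_lit 532) (nat_lit 11259343647) (nat_lit 76) (nat_lit 5262069456) (nat_lit 178) (nat_lit 5) (nat_lit 185) (nat_lit 5) (nat_lit 179) (nat_lit 5) (nat_lit 638) (nat_lit 557) (nat_lit 365)))))) (XT.nd (nat_lit 546) (nat_lit 1596) (nat_lit 0) (XT.nd (nat_lit 234) (nat_lit 836) (nat_lit 0) (XT.nd (nat_lit 78) (nat_lit 380) (nat_lit 0) (XT.lf (nat_lit 0) (nat_lit 1436406224) (nat_lit 380) (nat_lit 7932607793)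 (nat_lit 456) (nat_lit 11975757184) (nat_lit 173) (nat_lit 5) (nat_lit 178) (nat_lit 5) (nat_lit 179) (nat_lit 5) (nat_lit 639) (nat_lit 557) (nat_lit 364)) (XT.nd (nat_lit 78) (nat_lit 380) (nat_lit 0) (XT.lf (nat_lit 0) (nat_lit 14337041620) (nat_lit 456) (nat_lit 7078358940) (nat_lit 76) (nat_lit 189718146) (nat_lit 173) (nat_lit 5) (nat_lit 179) (nat_lit 5) (nat_lit 174) (nat_lit 5) (nat_lit 640) (nat_lit 557) (nat_lit 363)) (XT.lf (nat_lit 0) (nat_lit 6024152120) (nat_lit 380) (nat_lit 13464953303) (nat_lit 456) (nat_lit 2379874588) (nat_lit 168) (nat_lit 5) (nat_lit 173) (nat_lit 5) (nat_lit 174) (nat_lit 5) (nat_lit 641) (nat_lit 557) (nat_lit 362)))) (XT.nd (nat_lit 156) (nat_lit 380) (nat_lit 0) (XT.nd (nat_lit 78) (nat_lit 380) (nat_lit 0) (XT.lf (nat_lit 0) (nat_lit 2612778159) (nat_lit 456) (nat_lit 2680333442) (nat_lit 76) (nat_lit 16843851569) (nat_lit 167) (nat_lit 5) (nat_lit 173) (nat_lit 5) (nat_lit 168) (nat_lit 5) (nat_lit 642) (nat_lit 557)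 (nat_lit 361)) (XT.lf (nat_lit 0) (nat_lit 7757469931) (nat_lit 456) (nat_lit 11565230662) (nat_lit 76) (nat_lit 3085610071) (nat_lit 162) (nat_lit 5) (nat_lit 168) (nat_lit 5) (nat_lit 163) (nat_lit 5) (nat_lit 643) (nat_lit 557) (nat_lit 360))) (XT.nd (nat_lit 78) (nat_lit 0) (nat_lit 0) (XT.lf (nat_lit 0) (nat_lit 1968788825) (nat_lit 380) (nat_lit 11095439820) (nat_lit 456) (nat_lit 9619673337) (nat_lit 157) (nat_lit 5) (nat_lit 162) (nat_lit 5) (nat_lit 163) (nat_lit 5) (nat_lit 644) (nat_lit 557) (nat_lit 359)) (XT.lf (nat_lit 0) (nat_lit 15919898734) (nat_lit 380) (nat_lit 2628129185) (nat_lit 456) (nat_lit 4415559427) (nat_lit 157) (nat_lit 5) (nat_lit 162) (nat_lit 5) (nat_lit 163) (nat_lit 5) (nat_lit 645) (nat_lit 557) (nat_lit 358))))) (XT.nd (nat_lit 234) (nat_lit 760) (nat_lit 0) (XT.nd (nat_lit 78) (nat_lit 380) (nat_lit 0) (XT.lf (nat_lit 0) (nat_lit 958936883) (nat_lit 456) (nat_lit 16310679659) (nat_lit 76) (nat_lit 5977574136) (nat_lit 151) (nat_lit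 5) (nat_lit 157) (nat_lit 5) (nat_lit 152) (nat_lit 5) (nat_lit 646) (nat_lit 557) (nat_lit 357)) (XT.nd (nat_lit 78) (nat_lit 380) (nat_lit 0) (XT.lf (nat_lit 0) (nat_lit 6440263066) (nat_lit 456) (nat_lit 2300972245) (nat_lit 76) (nat_lit 14793478053) (nat_lit 151) (nat_lit 5) (nat_lit 157) (nat_lit 5) (nat_lit 152) (nat_lit 5) (nat_lit 647) (nat_lit 557) (nat_lit 356)) (XT.lf (nat_lit 0) (nat_lit 12103800953) (nat_lit 456) (nat_lit 11688725011) (nat_lit 76) (nat_lit 34009138) (nat_lit 146) (nat_lit 5) (nat_lit 152) (nat_lit 5) (nat_lit 147) (nat_lit 5) (nat_lit 648) (nat_lit 557) (nat_lit 355)))) (XT.nd (nat_lit 156) (nat_lit 456) (nat_lit 0) (XT.nd (nat_lit 78) (nat_lit 0) (nat_lit 0) (XT.lf (nat_lit 0) (nat_lit 2740503210) (nat_lit 304) (nat_lit 15224922548) (nat_lit 380) (nat_lit 6157071492) (nat_lit 142) (nat_lit 5) (nat_lit 146) (nat_lit 5) (nat_lit 147) (nat_lit 5) (nat_lit 649) (nat_lit 557) (nat_lit 354)) (XT.lf (nat_lit 0) (nat_lit 17606704682) (nat_lit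 304) (nat_lit 6409667286) (nat_lit 380) (nat_lit 406565187) (nat_lit 142) (nat_lit 5) (nat_lit 146) (nat_lit 5) (nat_lit 147) (nat_lit 5) (nat_lit 650) (nat_lit 557) (nat_lit 353))) (XT.nd (nat_lit 78) (nat_lit 0) (nat_lit 0) (XT.lf (nat_lit 0) (nat_lit 5451014792) (nat_lit 456) (nat_lit 16643357930) (nat_lit 76) (nat_lit 2633031379) (nat_lit 136) (nat_lit 5) (nat_lit 142) (nat_lit 5) (nat_lit 137) (nat_lit 5) (nat_lit 651) (nat_lit 557) (nat_lit 352)) (XT.lf (nat_lit 0) (nat_lit 11502568407) (nat_lit 456) (nat_lit 1717739525) (nat_lit 76) (nat_lit 11815953663) (nat_lit 136) (nat_lit 5) (nat_lit 142) (nat_lit 5) (nat_lit 137) (nat_lit 5) (nat_lit 652) (nat_lit 557) (nat_lit 351))))))) (XT.nd (nat_lit 73944) (nat_lit 0) (nat_lit 31236) (XT.nd (nat_lit 468) (nat_lit 988) (nat_lit 0) (XT.nd (nat_lit 234) (nat_lit 608) (nat_lit 0) (XT.nd (nat_lit 78) (nat_lit 380) (nat_lit 0) (XT.lf (nat_lit 0) (nat_lit 13675973081) (nat_lit 304) (nat_lit 4081864973) (nat_lit 380)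 (nat_lit 7591804754) (nat_lit 132) (nat_lit 5) (nat_lit 136) (nat_lit 5) (nat_lit 137) (nat_lit 5) (nat_lit 653) (nat_lit 557) (nat_lit 350)) (XT.nd (nat_lit 78) (nat_lit 76) (nat_lit 0) (XT.lf (nat_lit 0) (nat_lit 3736885345) (nat_lit 304) (nat_lit 20465135045) (nat_lit 380) (nat_lit 1465995375) (nat_lit 128) (nat_lit 5) (nat_lit 132) (nat_lit 5) (nat_lit 133) (nat_lit 5) (nat_lit 654) (nat_lit 557) (nat_lit 349)) (XT.lf (nat_lit 0) (nat_lit 4819436613) (nat_lit 380) (nat_lit 6445729720) (nat_lit 76) (nat_lit 14724972548) (nat_lit 127) (nat_lit 5) (nat_lit 132) (nat_lit 5) (nat_lit 128) (nat_lit 5) (nat_lit 655) (nat_lit 557) (nat_lit 348)))) (XT.nd (nat_lit 78) (nat_lit 304) (nat_lit 0) (XT.lf (nat_lit 0) (nat_lit 9454024002) (nat_lit 304) (nat_lit 1812382602) (nat_lit 380) (nat_lit 15050995121) (nat_lit 123) (nat_lit 5) (nat_lit 127) (nat_lit 5) (nat_lit 128) (nat_lit 5) (nat_lit 656) (nat_lit 557) (nat_lit 347)) (XT.nd (nat_lit 78) (nat_lit 304) (nat_lit 0)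 (XT.lf (nat_lit 0) (nat_lit 17930779998) (nat_lit 380) (nat_lit 951987127) (nat_lit 76) (nat_lit 7766673664) (nat_lit 123) (nat_lit 5) (nat_lit 128) (nat_lit 5) (nat_lit 124) (nat_lit 5) (nat_lit 657) (nat_lit 557) (nat_lit 346)) (XT.lf (nat_lit 0) (nat_lit 15458896254) (nat_lit 304) (nat_lit 9376121727) (nat_lit 380) (nat_lit 2150971351) (nat_lit 119) (nat_lit 5) (nat_lit 123) (nat_lit 5) (nat_lit 124) (nat_lit 5) (nat_lit 658) (nat_lit 557) (nat_lit 345))))) (XT.nd (nat_lit 234) (nat_lit 304) (nat_lit 0) (XT.nd (nat_lit 78) (nat_lit 304) (nat_lit 0) (XT.lf (nat_lit 0) (nat_lit 4523439933) (nat_lit 380) (nat_lit 22423482495) (nat_lit 76) (nat_lit 381055728) (nat_lit 114) (nat_lit 5) (nat_lit 119) (nat_lit 5) (nat_lit 115) (nat_lit 5) (nat_lit 659) (nat_lit 557) (nat_lit 344)) (XT.nd (nat_lit 78) (nat_lit 304) (nat_lit 0) (XT.lf (nat_lit 0) (nat_lit 11436770996) (nat_lit 380) (nat_lit 5940663066) (nat_lit 76) (nat_lit 10296403902) (nat_lit 114) (nat_lit 5) (nat_lit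 119) (nat_lit 5) (nat_lit 115) (nat_lit 5) (nat_lit 660) (nat_lit 557) (nat_lit 343)) (XT.lf (nat_lit 0) (nat_lit 11006834376) (nat_lit 304) (nat_lit 7547358248) (nat_lit 380) (nat_lit 9471106084) (nat_lit 110) (nat_lit 5) (nat_lit 114) (nat_lit 5) (nat_lit 115) (nat_lit 5) (nat_lit 661) (nat_lit 557) (nat_lit 342)))) (XT.nd (nat_lit 73086) (nat_lit 0) (nat_lit 34124) (XT.nd (nat_lit 78) (nat_lit 304) (nat_lit 0) (XT.lf (nat_lit 0) (nat_lit 25864575782) (nat_lit 380) (nat_lit 34905397) (nat_lit 76) (nat_lit 2483295444) (nat_lit 110) (nat_lit 5) (nat_lit 115) (nat_lit 5) (nat_lit 111) (nat_lit 5) (nat_lit 662) (nat_lit 557) (nat_lit 341)) (XT.lf (nat_lit 0) (nat_lit 4672650863) (nat_lit 304) (nat_lit 11316858214) (nat_lit 76) (nat_lit 12754123830) (nat_lit 106) (nat_lit 5) (nat_lit 110) (nat_lit 5) (nat_lit 107) (nat_lit 5) (nat_lit 663) (nat_lit 557) (nat_lit 340))) (XT.nd (nat_lit 78) (nat_lit 0) (nat_lit 0) (XT.lf (nat_lit 0) (nat_lit 3743673086) (nat_lit 1596)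 (nat_lit 430782648) (nat_lit 1596) (nat_lit 430782648) (nat_lit 555) (nat_lit 3) (nat_lit 576) (nat_lit 3) (nat_lit 576) (nat_lit 5) (nat_lit 558) (nat_lit 558) (nat_lit 444)) (XT.lf (nat_lit 76) (nat_lit 3741295768) (nat_lit 0) (nat_lit 4694426117) (nat_lit 1596) (nat_lit 849302393) (nat_lit 556) (nat_lit 5) (nat_lit 555) (nat_lit 3) (nat_lit 576) (nat_lit 5) (nat_lit 559) (nat_lit 558) (nat_lit 443)))))) (XT.nd (nat_lit 546) (nat_lit 1292) (nat_lit 0) (XT.nd (nat_lit 234) (nat_lit 0) (nat_lit 152) (XT.nd (nat_lit 78) (nat_lit 0) (nat_lit 76) (XT.lf (nat_lit 0) (nat_lit 24771213) (nat_lit 1596) (nat_lit 925179007) (nat_lit 1672) (nat_lit 8411442917) (nat_lit 534) (nat_lit 5) (nat_lit 555) (nat_lit 3) (nat_lit 556) (nat_lit 5) (nat_lit 560) (nat_lit 558) (nat_lit 442)) (XT.nd (nat_lit 78) (nat_lit 0) (nat_lit 0) (XT.lf (nat_lit 0) (nat_lit 926598411) (nat_lit 1596) (nat_lit 5639407254) (nat_lit 1672) (nat_lit 2872740741) (nat_lit 535) (nat_lit 5) (nat_lit 556)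 (nat_lit 5) (nat_lit 557) (nat_lit 5) (nat_lit 561) (nat_lit 558) (nat_lit 441)) (XT.lf (nat_lit 0) (nat_lit 1837367833) (nat_lit 1596) (nat_lit 904974263) (nat_lit 1672) (nat_lit 6775488689) (nat_lit 535) (nat_lit 5) (nat_lit 556) (nat_lit 5) (nat_lit 557) (nat_lit 5) (nat_lit 562) (nat_lit 558) (nat_lit 440)))) (XT.nd (nat_lit 156) (nat_lit 0) (nat_lit 0) (XT.nd (nat_lit 78) (nat_lit 0) (nat_lit 0) (XT.lf (nat_lit 0) (nat_lit 2778630137) (nat_lit 1596) (nat_lit 5641789289) (nat_lit 1672) (nat_lit 1177833987) (nat_lit 536) (nat_lit 5) (nat_lit 557) (nat_lit 5) (nat_lit 558) (nat_lit 5) (nat_lit 563) (nat_lit 558) (nat_lit 439)) (XT.lf (nat_lit 0) (nat_lit 3742180779) (nat_lit 1596) (nat_lit 783140401) (nat_lit 1672) (nat_lit 5154896124) (nat_lit 536) (nat_lit 5) (nat_lit 557) (nat_lit 5) (nat_lit 558) (nat_lit 5) (nat_lit 564) (nat_lit 558) (nat_lit 438))) (XT.nd (nat_lit 78) (nat_lit 0) (nat_lit 76) (XT.lf (nat_lit 76) (nat_lit 4216039914) (nat_lit 0) (nat_lit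 515932725) (nat_lit 1672) (nat_lit 5031710462) (nat_lit 537) (nat_lit 5) (nat_lit 536) (nat_lit 5) (nat_lit 558) (nat_lit 5) (nat_lit 565) (nat_lit 558) (nat_lit 437)) (XT.lf (nat_lit 0) (nat_lit 5750026231) (nat_lit 1596) (nat_lit 558444993) (nat_lit 1672) (nat_lit 3540179663) (nat_lit 537) (nat_lit 5) (nat_lit 558) (nat_lit 5) (nat_lit 559) (nat_lit 5) (nat_lit 566) (nat_lit 558) (nat_lit 436))))) (XT.nd (nat_lit 234) (nat_lit 1520) (nat_lit 0) (XT.nd (nat_lit 78) (nat_lit 0) (nat_lit 76) (XT.lf (nat_lit 76) (nat_lit 4575050324) (nat_lit 0) (nat_lit 2226877625) (nat_lit 1672) (nat_lit 3133122290) (nat_lit 538) (nat_lit 5) (nat_lit 537) (nat_lit 5) (nat_lit 559) (nat_lit 5) (nat_lit 567) (nat_lit 558) (nat_lit 435)) (XT.nd (nat_lit 78) (nat_lit 0) (nat_lit 0) (XT.lf (nat_lit 0) (nat_lit 7871932785) (nat_lit 1596) (nat_lit 229343400) (nat_lit 1672) (nat_lit 1921962007) (nat_lit 538) (nat_lit 5) (nat_lit 559) (nat_lit 5) (nat_lit 560) (nat_lit 5) (nat_lit 568) (nat_lit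 558) (nat_lit 434)) (XT.lf (nat_lit 76) (nat_lit 5043134727) (nat_lit 0) (nat_lit 3948792672) (nat_lit 1672) (nat_lit 1120692588) (nat_lit 539) (nat_lit 5) (nat_lit 538) (nat_lit 5) (nat_lit 560) (nat_lit 5) (nat_lit 569) (nat_lit 558) (nat_lit 433)))) (XT.nd (nat_lit 156) (nat_lit 0) (nat_lit 0) (XT.nd (nat_lit 78) (nat_lit 1672) (nat_lit 0) (XT.lf (nat_lit 76) (nat_lit 208756887) (nat_lit 0) (nat_lit 9911764340) (nat_lit 1672) (nat_lit 83546044) (nat_lit 540) (nat_lit 5) (nat_lit 539) (nat_lit 5) (nat_lit 561) (nat_lit 5) (nat_lit 570) (nat_lit 558) (nat_lit 432)) (XT.lf (nat_lit 0) (nat_lit 1003553337) (nat_lit 1672) (nat_lit 4680769044) (nat_lit 1748) (nat_lit 4612056593) (nat_lit 517) (nat_lit 5) (nat_lit 539) (nat_lit 5) (nat_lit 540) (nat_lit 5) (nat_lit 571) (nat_lit 558) (nat_lit 431))) (XT.nd (nat_lit 78) (nat_lit 0) (nat_lit 76) (XT.lf (nat_lit 76) (nat_lit 736735303) (nat_lit 0) (nat_lit 1361279499) (nat_lit 1748) (nat_lit 8292778023) (nat_lit 518)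 (nat_lit 5) (nat_lit 517) (nat_lit 5) (nat_lit 540) (nat_lit 5) (nat_lit 572) (nat_lit 558) (nat_lit 430)) (XT.lf (nat_lit 0) (nat_lit 3248038180) (nat_lit 1672) (nat_lit 4193174498) (nat_lit 1748) (nat_lit 3045210522) (nat_lit 518) (nat_lit 5) (nat_lit 540) (nat_lit 5) (nat_lit 541) (nat_lit 5) (nat_lit 573) (nat_lit 558) (nat_lit 429))))))))
noncomputable def xc161 : XT := (XT.nd (nat_lit 2106) (nat_lit 10260) (nat_lit 0) (XT.nd (nat_lit 1014) (nat_lit 7144) (nat_lit 0) (XT.nd (nat_lit 468) (nat_lit 5016) (nat_lit 0) (XT.nd (nat_lit 234) (nat_lit 0) (nat_lit 76) (XT.nd (nat_lit 78) (nat_lit 0) (nat_lit 76) (XT.lf (nat_lit 76) (nat_lit 1373426337) (nat_lit 0) (nat_lit 3048178907) (nat_lit 1748) (nat_lit 6162351741) (nat_lit 519) (nat_lit 5) (nat_lit 518) (nat_lit 5) (nat_lit 541) (nat_lit 5) (nat_lit 574) (nat_lit 558) (nat_lit 428)) (XT.nd (nat_lit 78) (nat_lit 0) (nat_lit 0) (XT.lf (nat_lit 0) (nat_lit 5639172429) (nat_lit 1672) (nat_lit 3596958468) (nat_lit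 1748) (nat_lit 1446901605) (nat_lit 519) (nat_lit 5) (nat_lit 541) (nat_lit 5) (nat_lit 542) (nat_lit 5) (nat_lit 575) (nat_lit 558) (nat_lit 427)) (XT.lf (nat_lit 76) (nat_lit 2124016101) (nat_lit 0) (nat_lit 4774289136) (nat_lit 1748) (nat_lit 3885441609) (nat_lit 520) (nat_lit 5) (nat_lit 519) (nat_lit 5) (nat_lit 542) (nat_lit 5) (nat_lit 576) (nat_lit 558) (nat_lit 426)))) (XT.nd (nat_lit 78) (nat_lit 0) (nat_lit 76) (XT.lf (nat_lit 76) (nat_lit 7995711085) (nat_lit 0) (nat_lit 194532050) (nat_lit 1748) (nat_lit 2696081464) (nat_lit 520) (nat_lit 5) (nat_lit 519) (nat_lit 5) (nat_lit 542) (nat_lit 5) (nat_lit 577) (nat_lit 558) (nat_lit 425)) (XT.nd (nat_lit 78) (nat_lit 0) (nat_lit 0) (XT.lf (nat_lit 76) (nat_lit 2991489759) (nat_lit 0) (nat_lit 6548853859) (nat_lit 1748) (nat_lit 1449965352) (nat_lit 521) (nat_lit 5) (nat_lit 520) (nat_lit 5) (nat_lit 543) (nat_lit 5) (nat_lit 578) (nat_lit 558) (nat_lit 424)) (XT.lf (nat_lit 76) (nat_lit 9016631627) (nat_lit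 0) (nat_lit 1905562375) (nat_lit 1748) (nat_lit 174085576) (nat_lit 521) (nat_lit 5) (nat_lit 520) (nat_lit 5) (nat_lit 543) (nat_lit 5) (nat_lit 579) (nat_lit 558) (nat_lit 423))))) (XT.nd (nat_lit 234) (nat_lit 3496) (nat_lit 0) (XT.nd (nat_lit 78) (nat_lit 0) (nat_lit 0) (XT.lf (nat_lit 0) (nat_lit 1141333132) (nat_lit 1748) (nat_lit 7232163802) (nat_lit 1824) (nat_lit 2830151607) (nat_lit 498) (nat_lit 5) (nat_lit 521) (nat_lit 5) (nat_lit 522) (nat_lit 5) (nat_lit 580) (nat_lit 558) (nat_lit 422)) (XT.nd (nat_lit 78) (nat_lit 0) (nat_lit 76) (XT.lf (nat_lit 0) (nat_lit 2491925266) (nat_lit 1748) (nat_lit 1167616913) (nat_lit 1824) (nat_lit 7653377191) (nat_lit 498) (nat_lit 5) (nat_lit 521) (nat_lit 5) (nat_lit 522) (nat_lit 5) (nat_lit 581) (nat_lit 558) (nat_lit 421)) (XT.lf (nat_lit 0) (nat_lit 3894985518) (nat_lit 1748) (nat_lit 6359418127) (nat_lit 76) (nat_lit 1169464239) (nat_lit 499) (nat_lit 5) (nat_lit 522) (nat_lit 5) (nat_lit 500) (nat_lit 5) (nat_lit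 582) (nat_lit 558) (nat_lit 420)))) (XT.nd (nat_lit 156) (nat_lit 1824) (nat_lit 0) (XT.nd (nat_lit 78) (nat_lit 1748) (nat_lit 0) (XT.lf (nat_lit 0) (nat_lit 5343293249) (nat_lit 1748) (nat_lit 136863679) (nat_lit 76) (nat_lit 6056536081) (nat_lit 499) (nat_lit 5) (nat_lit 522) (nat_lit 5) (nat_lit 500) (nat_lit 5) (nat_lit 583) (nat_lit 558) (nat_lit 419)) (XT.lf (nat_lit 0) (nat_lit 6280071948) (nat_lit 1748) (nat_lit 566626131) (nat_lit 1824) (nat_lit 4804555280) (nat_lit 476) (nat_lit 5) (nat_lit 499) (nat_lit 5) (nat_lit 500) (nat_lit 5) (nat_lit 584) (nat_lit 558) (nat_lit 418))) (XT.nd (nat_lit 78) (nat_lit 0) (nat_lit 0) (XT.lf (nat_lit 0) (nat_lit 1031115161) (nat_lit 1824) (nat_lit 7371113073) (nat_lit 1900) (nat_lit 3365436851) (nat_lit 452) (nat_lit 5) (nat_lit 476) (nat_lit 5) (nat_lit 477) (nat_lit 5) (nat_lit 585) (nat_lit 558) (nat_lit 417)) (XT.lf (nat_lit 0) (nat_lit 7617890393) (nat_lit 1824) (nat_lit 2396528040) (nat_lit 1900) (nat_lit 1871476911)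 (nat_lit 452) (nat_lit 5) (nat_lit 476) (nat_lit 5) (nat_lit 477) (nat_lit 5) (nat_lit 586) (nat_lit 558) (nat_lit 416)))))) (XT.nd (nat_lit 546) (nat_lit 3344) (nat_lit 0) (XT.nd (nat_lit 234) (nat_lit 1748) (nat_lit 0) (XT.nd (nat_lit 78) (nat_lit 988) (nat_lit 0) (XT.lf (nat_lit 0) (nat_lit 2330474299) (nat_lit 1064) (nat_lit 9346961083) (nat_lit 1140) (nat_lit 328684430) (nat_lit 438) (nat_lit 5) (nat_lit 452) (nat_lit 5) (nat_lit 453) (nat_lit 5) (nat_lit 587) (nat_lit 558) (nat_lit 415)) (XT.nd (nat_lit 78) (nat_lit 912) (nat_lit 0) (XT.lf (nat_lit 0) (nat_lit 1259504380) (nat_lit 1140) (nat_lit 3046261572) (nat_lit 76) (nat_lit 7822205003) (nat_lit 437) (nat_lit 5) (nat_lit 452) (nat_lit 5) (nat_lit 438) (nat_lit 5) (nat_lit 588) (nat_lit 558) (nat_lit 414)) (XT.lf (nat_lit 0) (nat_lit 2891459731) (nat_lit 988) (nat_lit 8507364211) (nat_lit 76) (nat_lit 853064838) (nat_lit 425) (nat_lit 5) (nat_lit 438) (nat_lit 5) (nat_lit 426) (nat_lit 5) (nat_lit 589)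 (nat_lit 558) (nat_lit 413)))) (XT.nd (nat_lit 156) (nat_lit 836) (nat_lit 0) (XT.nd (nat_lit 78) (nat_lit 912) (nat_lit 0) (XT.lf (nat_lit 0) (nat_lit 4591776858) (nat_lit 988) (nat_lit 1706769707) (nat_lit 76) (nat_lit 6079025110) (nat_lit 425) (nat_lit 5) (nat_lit 438) (nat_lit 5) (nat_lit 426) (nat_lit 5) (nat_lit 590) (nat_lit 558) (nat_lit 412)) (XT.lf (nat_lit 0) (nat_lit 5286759258) (nat_lit 912) (nat_lit 1060558637) (nat_lit 988) (nat_lit 6158027126) (nat_lit 413) (nat_lit 5) (nat_lit 425) (nat_lit 5) (nat_lit 426) (nat_lit 5) (nat_lit 591) (nat_lit 558) (nat_lit 411))) (XT.nd (nat_lit 78) (nat_lit 836) (nat_lit 0) (XT.lf (nat_lit 0) (nat_lit 8164374979) (nat_lit 988) (nat_lit 232625085) (nat_lit 76) (nat_lit 4238146785) (nat_lit 413) (nat_lit 5) (nat_lit 426) (nat_lit 5) (nat_lit 414) (nat_lit 5) (nat_lit 592) (nat_lit 558) (nat_lit 410)) (XT.lf (nat_lit 0) (nat_lit 6965029666) (nat_lit 836) (nat_lit 3092315407) (nat_lit 912) (nat_lit 2709409304) (nat_lit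 402) (nat_lit 5) (nat_lit 413) (nat_lit 5) (nat_lit 414) (nat_lit 5) (nat_lit 593) (nat_lit 558) (nat_lit 409))))) (XT.nd (nat_lit 234) (nat_lit 1596) (nat_lit 0) (XT.nd (nat_lit 78) (nat_lit 912) (nat_lit 0) (XT.lf (nat_lit 0) (nat_lit 1399599993) (nat_lit 836) (nat_lit 10601783169) (nat_lit 912) (nat_lit 899347799) (nat_lit 391) (nat_lit 5) (nat_lit 402) (nat_lit 5) (nat_lit 403) (nat_lit 5) (nat_lit 594) (nat_lit 558) (nat_lit 408)) (XT.nd (nat_lit 78) (nat_lit 836) (nat_lit 0) (XT.lf (nat_lit 0) (nat_lit 981744075) (nat_lit 912) (nat_lit 4252502450) (nat_lit 76) (nat_lit 7802073667) (nat_lit 390) (nat_lit 5) (nat_lit 402) (nat_lit 5) (nat_lit 391) (nat_lit 5) (nat_lit 595) (nat_lit 558) (nat_lit 407)) (XT.lf (nat_lit 0) (nat_lit 2898530438) (nat_lit 912) (nat_lit 10011786870) (nat_lit 76) (nat_lit 263983722) (nat_lit 379) (nat_lit 5) (nat_lit 391) (nat_lit 5) (nat_lit 380) (nat_lit 5) (nat_lit 596) (nat_lit 558) (nat_lit 406)))) (XT.nd (nat_lit 156) (nat_lit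 760) (nat_lit 0) (XT.nd (nat_lit 78) (nat_lit 836) (nat_lit 0) (XT.lf (nat_lit 0) (nat_lit 4905021615) (nat_lit 912) (nat_lit 2578364366) (nat_lit 76) (nat_lit 5830629117) (nat_lit 379) (nat_lit 5) (nat_lit 391) (nat_lit 5) (nat_lit 380) (nat_lit 5) (nat_lit 597) (nat_lit 558) (nat_lit 405)) (XT.lf (nat_lit 0) (nat_lit 5057790181) (nat_lit 836) (nat_lit 1914906345) (nat_lit 912) (nat_lit 6483406820) (nat_lit 368) (nat_lit 5) (nat_lit 379) (nat_lit 5) (nat_lit 380) (nat_lit 5) (nat_lit 598) (nat_lit 558) (nat_lit 404))) (XT.nd (nat_lit 78) (nat_lit 760) (nat_lit 0) (XT.lf (nat_lit 0) (nat_lit 9111949905) (nat_lit 912) (nat_lit 756047682) (nat_lit 76) (nat_lit 3732432230) (nat_lit 368) (nat_lit 5) (nat_lit 380) (nat_lit 5) (nat_lit 369) (nat_lit 5) (nat_lit 599) (nat_lit 558) (nat_lit 403)) (XT.lf (nat_lit 0) (nat_lit 7107420729) (nat_lit 760) (nat_lit 4233987068) (nat_lit 836) (nat_lit 2405287571) (nat_lit 358) (nat_lit 5) (nat_lit 368) (nat_lit 5) (nat_lit 369)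 (nat_lit 5) (nat_lit 600) (nat_lit 558) (nat_lit 402))))))) (XT.nd (nat_lit 1014) (nat_lit 4636) (nat_lit 0) (XT.nd (nat_lit 468) (nat_lit 3344) (nat_lit 0) (XT.nd (nat_lit 234) (nat_lit 760) (nat_lit 0) (XT.nd (nat_lit 78) (nat_lit 760) (nat_lit 0) (XT.lf (nat_lit 0) (nat_lit 1236669593) (nat_lit 760) (nat_lit 12390474691) (nat_lit 836) (nat_lit 268509076) (nat_lit 348) (nat_lit 5) (nat_lit 358) (nat_lit 5) (nat_lit 359) (nat_lit 5) (nat_lit 601) (nat_lit 558) (nat_lit 401)) (XT.nd (nat_lit 78) (nat_lit 684) (nat_lit 0) (XT.lf (nat_lit 0) (nat_lit 1947628078) (nat_lit 836) (nat_lit 4739697207) (nat_lit 76) (nat_lit 7358784236) (nat_lit 347) (nat_lit 5) (nat_lit 358) (nat_lit 5) (nat_lit 348) (nat_lit 5) (nat_lit 602) (nat_lit 558) (nat_lit 400)) (XT.lf (nat_lit 0) (nat_lit 3368229297) (nat_lit 684) (nat_lit 847153653) (nat_lit 760) (nat_lit 9983939418) (nat_lit 338) (nat_lit 5) (nat_lit 347) (nat_lit 5) (nat_lit 348) (nat_lit 5) (nat_lit 603) (nat_lit 558) (nat_lit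 399)))) (XT.nd (nat_lit 78) (nat_lit 760) (nat_lit 0) (XT.lf (nat_lit 0) (nat_lit 6582833042) (nat_lit 760) (nat_lit 2698060636) (nat_lit 76) (nat_lit 5073619841) (nat_lit 338) (nat_lit 5) (nat_lit 348) (nat_lit 5) (nat_lit 339) (nat_lit 5) (nat_lit 604) (nat_lit 558) (nat_lit 398)) (XT.nd (nat_lit 78) (nat_lit 0) (nat_lit 0) (XT.lf (nat_lit 0) (nat_lit 5654145459) (nat_lit 760) (nat_lit 3375167503) (nat_lit 836) (nat_lit 5482862750) (nat_lit 328) (nat_lit 5) (nat_lit 338) (nat_lit 5) (nat_lit 339) (nat_lit 5) (nat_lit 605) (nat_lit 558) (nat_lit 397)) (XT.lf (nat_lit 0) (nat_lit 11549626455) (nat_lit 836) (nat_lit 492131584) (nat_lit 76) (nat_lit 2630735845) (nat_lit 328) (nat_lit 5) (nat_lit 339) (nat_lit 5) (nat_lit 329) (nat_lit 5) (nat_lit 606) (nat_lit 558) (nat_lit 396))))) (XT.nd (nat_lit 234) (nat_lit 1900) (nat_lit 0) (XT.nd (nat_lit 78) (nat_lit 760) (nat_lit 0) (XT.lf (nat_lit 0) (nat_lit 8113223360) (nat_lit 684) (nat_lit 6071839349) (nat_lit 760)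 (nat_lit 649662183) (nat_lit 319) (nat_lit 5) (nat_lit 328) (nat_lit 5) (nat_lit 329) (nat_lit 5) (nat_lit 607) (nat_lit 558) (nat_lit 395)) (XT.nd (nat_lit 78) (nat_lit 0) (nat_lit 0) (XT.lf (nat_lit 0) (nat_lit 1854121004) (nat_lit 760) (nat_lit 13102180063) (nat_lit 76) (nat_lit 43543433) (nat_lit 309) (nat_lit 5) (nat_lit 319) (nat_lit 5) (nat_lit 310) (nat_lit 5) (nat_lit 608) (nat_lit 558) (nat_lit 394)) (XT.lf (nat_lit 0) (nat_lit 4474760835) (nat_lit 760) (nat_lit 4443938690) (nat_lit 76) (nat_lit 6247972245) (nat_lit 309) (nat_lit 5) (nat_lit 319) (nat_lit 5) (nat_lit 310) (nat_lit 5) (nat_lit 609) (nat_lit 558) (nat_lit 393)))) (XT.nd (nat_lit 156) (nat_lit 1292) (nat_lit 0) (XT.nd (nat_lit 78) (nat_lit 0) (nat_lit 0) (XT.lf (nat_lit 0) (nat_lit 4433766394) (nat_lit 608) (nat_lit 2732890343) (nat_lit 684) (nat_lit 8169802724) (nat_lit 301) (nat_lit 5) (nat_lit 309) (nat_lit 5) (nat_lit 310) (nat_lit 5) (nat_lit 610) (nat_lit 558) (nat_lit 392)) (XT.lf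 (nat_lit 0) (nat_lit 9955793317) (nat_lit 684) (nat_lit 1995158896) (nat_lit 76) (nat_lit 3557823361) (nat_lit 301) (nat_lit 5) (nat_lit 310) (nat_lit 5) (nat_lit 302) (nat_lit 5) (nat_lit 611) (nat_lit 558) (nat_lit 391))) (XT.nd (nat_lit 78) (nat_lit 608) (nat_lit 0) (XT.lf (nat_lit 0) (nat_lit 7154537474) (nat_lit 684) (nat_lit 5701080880) (nat_lit 760) (nat_lit 2827822254) (nat_lit 292) (nat_lit 5) (nat_lit 301) (nat_lit 5) (nat_lit 302) (nat_lit 5) (nat_lit 612) (nat_lit 558) (nat_lit 390)) (XT.lf (nat_lit 0) (nat_lit 645115578) (nat_lit 608) (nat_lit 15180819629) (nat_lit 684) (nat_lit 35414526) (nat_lit 284) (nat_lit 5) (nat_lit 292) (nat_lit 5) (nat_lit 293) (nat_lit 5) (nat_lit 613) (nat_lit 558) (nat_lit 389)))))) (XT.nd (nat_lit 546) (nat_lit 2128) (nat_lit 0) (XT.nd (nat_lit 234) (nat_lit 1824) (nat_lit 0) (XT.nd (nat_lit 78) (nat_lit 608) (nat_lit 0) (XT.lf (nat_lit 0) (nat_lit 2861821029) (nat_lit 684) (nat_lit 5991716033) (nat_lit 76) (nat_lit 7187197979)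 (nat_lit 283) (nat_lit 5) (nat_lit 292) (nat_lit 5) (nat_lit 284) (nat_lit 5) (nat_lit 614) (nat_lit 558) (nat_lit 388)) (XT.nd (nat_lit 78) (nat_lit 0) (nat_lit 0) (XT.lf (nat_lit 0) (nat_lit 3450674438) (nat_lit 608) (nat_lit 2378946023) (nat_lit 684) (nat_lit 10393821703) (nat_lit 275) (nat_lit 5) (nat_lit 283) (nat_lit 5) (nat_lit 284) (nat_lit 5) (nat_lit 615) (nat_lit 558) (nat_lit 387)) (XT.lf (nat_lit 0) (nat_lit 8915463150) (nat_lit 684) (nat_lit 3285298454) (nat_lit 76) (nat_lit 4207868724) (nat_lit 275) (nat_lit 5) (nat_lit 284) (nat_lit 5) (nat_lit 276) (nat_lit 5) (nat_lit 616) (nat_lit 558) (nat_lit 386)))) (XT.nd (nat_lit 156) (nat_lit 1216) (nat_lit 0) (XT.nd (nat_lit 78) (nat_lit 0) (nat_lit 0) (XT.lf (nat_lit 0) (nat_lit 6449246150) (nat_lit 608) (nat_lit 5662365731) (nat_lit 684) (nat_lit 4484939223) (nat_lit 267) (nat_lit 5) (nat_lit 275) (nat_lit 5) (nat_lit 276) (nat_lit 5) (nat_lit 617) (nat_lit 558) (nat_lit 385)) (XT.lf (nat_lit 0) (nat_lit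 15391461118) (nat_lit 684) (nat_lit 383047380) (nat_lit 76) (nat_lit 1013326863) (nat_lit 267) (nat_lit 5) (nat_lit 276) (nat_lit 5) (nat_lit 268) (nat_lit 5) (nat_lit 618) (nat_lit 558) (nat_lit 384))) (XT.nd (nat_lit 78) (nat_lit 532) (nat_lit 0) (XT.lf (nat_lit 0) (nat_lit 1822968314) (nat_lit 684) (nat_lit 7338860241) (nat_lit 76) (nat_lit 7819049393) (nat_lit 258) (nat_lit 5) (nat_lit 267) (nat_lit 5) (nat_lit 259) (nat_lit 5) (nat_lit 619) (nat_lit 558) (nat_lit 383)) (XT.lf (nat_lit 0) (nat_lit 2709918362) (nat_lit 532) (nat_lit 2389546348) (nat_lit 608) (nat_lit 12077903368) (nat_lit 251) (nat_lit 5) (nat_lit 258) (nat_lit 5) (nat_lit 259) (nat_lit 5) (nat_lit 620) (nat_lit 558) (nat_lit 382))))) (XT.nd (nat_lit 234) (nat_lit 1596) (nat_lit 0) (XT.nd (nat_lit 78) (nat_lit 532) (nat_lit 0) (XT.lf (nat_lit 0) (nat_lit 8511744963) (nat_lit 608) (nat_lit 4358796922) (nat_lit 76) (nat_lit 4505841619) (nat_lit 251) (nat_lit 5) (nat_lit 259) (nat_lit 5) (nat_lit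 252) (nat_lit 5) (nat_lit 621) (nat_lit 558) (nat_lit 381)) (XT.nd (nat_lit 78) (nat_lit 0) (nat_lit 0) (XT.lf (nat_lit 0) (nat_lit 6003683298) (nat_lit 532) (nat_lit 6034907068) (nat_lit 608) (nat_lit 5539863044) (nat_lit 244) (nat_lit 5) (nat_lit 251) (nat_lit 5) (nat_lit 252) (nat_lit 5) (nat_lit 622) (nat_lit 558) (nat_lit 380)) (XT.lf (nat_lit 0) (nat_lit 15663093137) (nat_lit 608) (nat_lit 1169098503) (nat_lit 76) (nat_lit 951831214) (nat_lit 244) (nat_lit 5) (nat_lit 252) (nat_lit 5) (nat_lit 245) (nat_lit 5) (nat_lit 623) (nat_lit 558) (nat_lit 379)))) (XT.nd (nat_lit 156) (nat_lit 456) (nat_lit 0) (XT.nd (nat_lit 78) (nat_lit 532) (nat_lit 0) (XT.lf (nat_lit 0) (nat_lit 1442602392) (nat_lit 608) (nat_lit 8482882326) (nat_lit 76) (nat_lit 8066159259) (nat_lit 236) (nat_lit 5) (nat_lit 244) (nat_lit 5) (nat_lit 237) (nat_lit 5) (nat_lit 624) (nat_lit 558) (nat_lit 378)) (XT.lf (nat_lit 0) (nat_lit 2216588366) (nat_lit 532) (nat_lit 2846523646) (nat_lit 608)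 (nat_lit 13139743519) (nat_lit 229) (nat_lit 5) (nat_lit 236) (nat_lit 5) (nat_lit 237) (nat_lit 5) (nat_lit 625) (nat_lit 558) (nat_lit 377))) (XT.nd (nat_lit 78) (nat_lit 456) (nat_lit 0) (XT.lf (nat_lit 0) (nat_lit 8833593064) (nat_lit 608) (nat_lit 5212113573) (nat_lit 76) (nat_lit 4371033962) (nat_lit 229) (nat_lit 5) (nat_lit 237) (nat_lit 5) (nat_lit 230) (nat_lit 5) (nat_lit 626) (nat_lit 558) (nat_lit 376)) (XT.lf (nat_lit 0) (nat_lit 5824054557) (nat_lit 456) (nat_lit 6904114181) (nat_lit 532) (nat_lit 5905761428) (nat_lit 223) (nat_lit 5) (nat_lit 229) (nat_lit 5) (nat_lit 230) (nat_lit 5) (nat_lit 627) (nat_lit 558) (nat_lit 375))))))))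
noncomputable def xc162 : XT := (XT.nd (nat_lit 2106) (nat_lit 1900) (nat_lit 0) (XT.nd (nat_lit 1014) (nat_lit 3116) (nat_lit 0) (XT.nd (nat_lit 468) (nat_lit 2280) (nat_lit 0) (XT.nd (nat_lit 234) (nat_lit 456) (nat_lit 0) (XT.nd (nat_lit 78) (nat_lit 1064) (nat_lit 0) (XT.lf (nat_lit 0) (nat_lit 16730398845) (nat_lit 532) (nat_lit 1716934442) (nat_lit 76) (nat_lit 407535468) (nat_lit 223) (nat_lit 5) (nat_lit 230) (nat_lit 5) (nat_lit 224) (nat_lit 5) (nat_lit 628) (nat_lit 558) (nat_lit 374)) (XT.nd (nat_lit 78) (nat_lit 456) (nat_lit 0) (XT.lf (nat_lit 0) (nat_lit 1811128214) (nat_lit 608) (nat_lit 9422035705) (nat_lit 76) (nat_lit 7844809659) (nat_lit 215) (nat_lit 5) (nat_lit 223) (nat_lit 5) (nat_lit 216) (nat_lit 5) (nat_lit 629) (nat_lit 558) (nat_lit 373)) (XT.lf (nat_lit 0) (nat_lit 1975107338) (nat_lit 456) (nat_lit 3838604505) (nat_lit 532) (nat_lit 13491213854) (nat_lit 209) (nat_lit 5) (nat_lit 215) (nat_lit 5) (nat_lit 216) (nat_lit 5) (nat_lit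 630) (nat_lit 558) (nat_lit 372)))) (XT.nd (nat_lit 78) (nat_lit 456) (nat_lit 0) (XT.lf (nat_lit 0) (nat_lit 9976373372) (nat_lit 532) (nat_lit 5842650681) (nat_lit 76) (nat_lit 3715792734) (nat_lit 209) (nat_lit 5) (nat_lit 216) (nat_lit 5) (nat_lit 210) (nat_lit 5) (nat_lit 631) (nat_lit 558) (nat_lit 371)) (XT.nd (nat_lit 78) (nat_lit 0) (nat_lit 0) (XT.lf (nat_lit 0) (nat_lit 5915695890) (nat_lit 456) (nat_lit 8362905279) (nat_lit 532) (nat_lit 5489578711) (nat_lit 203) (nat_lit 5) (nat_lit 209) (nat_lit 5) (nat_lit 210) (nat_lit 5) (nat_lit 632) (nat_lit 558) (nat_lit 370)) (XT.lf (nat_lit 0) (nat_lit 17977749991) (nat_lit 456) (nat_lit 720892178) (nat_lit 532) (nat_lit 1306933125) (nat_lit 203) (nat_lit 5) (nat_lit 209) (nat_lit 5) (nat_lit 210) (nat_lit 5) (nat_lit 633) (nat_lit 558) (nat_lit 369))))) (XT.nd (nat_lit 234) (nat_lit 1292) (nat_lit 0) (XT.nd (nat_lit 78) (nat_lit 456) (nat_lit 0) (XT.lf (nat_lit 0) (nat_lit 3025495345) (nat_lit 532) (nat_lit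 10156129011) (nat_lit 76) (nat_lit 7063611544) (nat_lit 196) (nat_lit 5) (nat_lit 203) (nat_lit 5) (nat_lit 197) (nat_lit 5) (nat_lit 634) (nat_lit 558) (nat_lit 368)) (XT.nd (nat_lit 78) (nat_lit 0) (nat_lit 0) (XT.lf (nat_lit 0) (nat_lit 1988404179) (nat_lit 456) (nat_lit 5462780373) (nat_lit 532) (nat_lit 13037850556) (nat_lit 190) (nat_lit 5) (nat_lit 196) (nat_lit 5) (nat_lit 197) (nat_lit 5) (nat_lit 635) (nat_lit 558) (nat_lit 367)) (XT.lf (nat_lit 0) (nat_lit 12042408554) (nat_lit 532) (nat_lit 6249607599) (nat_lit 76) (nat_lit 2444154129) (nat_lit 190) (nat_lit 5) (nat_lit 197) (nat_lit 5) (nat_lit 191) (nat_lit 5) (nat_lit 636) (nat_lit 558) (nat_lit 366)))) (XT.nd (nat_lit 156) (nat_lit 836) (nat_lit 0) (XT.nd (nat_lit 78) (nat_lit 76) (nat_lit 0) (XT.lf (nat_lit 0) (nat_lit 6282204150) (nat_lit 380) (nat_lit 10513126822) (nat_lit 456) (nat_lit 4191520100) (nat_lit 185) (nat_lit 5) (nat_lit 190) (nat_lit 5) (nat_lit 191) (nat_lit 5) (nat_lit 637) (nat_lit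 558) (nat_lit 365)) (XT.lf (nat_lit 0) (nat_lit 430659279) (nat_lit 456) (nat_lit 2105691775) (nat_lit 76) (nat_lit 18705439780) (nat_lit 184) (nat_lit 5) (nat_lit 190) (nat_lit 5) (nat_lit 185) (nat_lit 5) (nat_lit 638) (nat_lit 558) (nat_lit 364))) (XT.nd (nat_lit 78) (nat_lit 380) (nat_lit 0) (XT.lf (nat_lit 0) (nat_lit 5189711499) (nat_lit 532) (nat_lit 10687481438) (nat_lit 76) (nat_lit 5622071631) (nat_lit 178) (nat_lit 5) (nat_lit 185) (nat_lit 5) (nat_lit 179) (nat_lit 5) (nat_lit 639) (nat_lit 558) (nat_lit 363)) (XT.lf (nat_lit 0) (nat_lit 2256939686) (nat_lit 380) (nat_lit 7825799179) (nat_lit 456) (nat_lit 11678373392) (nat_lit 173) (nat_lit 5) (nat_lit 178) (nat_lit 5) (nat_lit 179) (nat_lit 5) (nat_lit 640) (nat_lit 558) (nat_lit 362)))))) (XT.nd (nat_lit 546) (nat_lit 1444) (nat_lit 0) (XT.nd (nat_lit 234) (nat_lit 1216) (nat_lit 0) (XT.nd (nat_lit 78) (nat_lit 456) (nat_lit 0) (XT.lf (nat_lit 0) (nat_lit 15141496291) (nat_lit 456) (nat_lit 6434988710)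 (nat_lit 76) (nat_lit 450354866) (nat_lit 173) (nat_lit 5) (nat_lit 179) (nat_lit 5) (nat_lit 174) (nat_lit 5) (nat_lit 641) (nat_lit 558) (nat_lit 361)) (XT.nd (nat_lit 78) (nat_lit 76) (nat_lit 0) (XT.lf (nat_lit 0) (nat_lit 6924408510) (nat_lit 380) (nat_lit 13467104415) (nat_lit 456) (nat_lit 1904567770) (nat_lit 168) (nat_lit 5) (nat_lit 173) (nat_lit 5) (nat_lit 174) (nat_lit 5) (nat_lit 642) (nat_lit 558) (nat_lit 360)) (XT.lf (nat_lit 0) (nat_lit 3170961493) (nat_lit 456) (nat_lit 1962707540) (nat_lit 76) (nat_lit 17435889462) (nat_lit 167) (nat_lit 5) (nat_lit 173) (nat_lit 5) (nat_lit 168) (nat_lit 5) (nat_lit 643) (nat_lit 558) (nat_lit 359)))) (XT.nd (nat_lit 156) (nat_lit 456) (nat_lit 0) (XT.nd (nat_lit 78) (nat_lit 380) (nat_lit 0) (XT.lf (nat_lit 0) (nat_lit 8415323061) (nat_lit 456) (nat_lit 11022053779) (nat_lit 76) (nat_lit 3409021078) (nat_lit 162) (nat_lit 5) (nat_lit 168) (nat_lit 5) (nat_lit 163) (nat_lit 5) (nat_lit 644) (nat_lit 558) (nat_lit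 358)) (XT.lf (nat_lit 0) (nat_lit 2777550824) (nat_lit 380) (nat_lit 11045804554) (nat_lit 456) (nat_lit 9304243402) (nat_lit 157) (nat_lit 5) (nat_lit 162) (nat_lit 5) (nat_lit 163) (nat_lit 5) (nat_lit 645) (nat_lit 558) (nat_lit 357))) (XT.nd (nat_lit 78) (nat_lit 456) (nat_lit 0) (XT.lf (nat_lit 0) (nat_lit 16992596928) (nat_lit 380) (nat_lit 2414472100) (nat_lit 456) (nat_lit 4006004536) (nat_lit 157) (nat_lit 5) (nat_lit 162) (nat_lit 5) (nat_lit 163) (nat_lit 5) (nat_lit 646) (nat_lit 558) (nat_lit 356)) (XT.lf (nat_lit 0) (nat_lit 1466473584) (nat_lit 456) (nat_lit 15873038476) (nat_lit 76) (nat_lit 6362832282) (nat_lit 151) (nat_lit 5) (nat_lit 157) (nat_lit 5) (nat_lit 152) (nat_lit 5) (nat_lit 647) (nat_lit 558) (nat_lit 355))))) (XT.nd (nat_lit 234) (nat_lit 760) (nat_lit 0) (XT.nd (nat_lit 78) (nat_lit 684) (nat_lit 0) (XT.lf (nat_lit 0) (nat_lit 7047850643) (nat_lit 456) (nat_lit 1598114458) (nat_lit 76) (nat_lit 15349844343) (nat_lit 151) (nat_lit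 5) (nat_lit 157) (nat_lit 5) (nat_lit 152) (nat_lit 5) (nat_lit 648) (nat_lit 558) (nat_lit 354)) (XT.nd (nat_lit 78) (nat_lit 304) (nat_lit 0) (XT.lf (nat_lit 0) (nat_lit 12821852858) (nat_lit 456) (nat_lit 11170793751) (nat_lit 76) (nat_lit 300877579) (nat_lit 146) (nat_lit 5) (nat_lit 152) (nat_lit 5) (nat_lit 147) (nat_lit 5) (nat_lit 649) (nat_lit 558) (nat_lit 353)) (XT.lf (nat_lit 0) (nat_lit 3542073601) (nat_lit 304) (nat_lit 15254152160) (nat_lit 380) (nat_lit 5799269939) (nat_lit 142) (nat_lit 5) (nat_lit 146) (nat_lit 5) (nat_lit 147) (nat_lit 5) (nat_lit 650) (nat_lit 558) (nat_lit 352)))) (XT.nd (nat_lit 156) (nat_lit 304) (nat_lit 0) (XT.nd (nat_lit 78) (nat_lit 380) (nat_lit 0) (XT.lf (nat_lit 0) (nat_lit 56071082) (nat_lit 380) (nat_lit 6211541873) (nat_lit 76) (nat_lit 18634509395) (nat_lit 141) (nat_lit 5) (nat_lit 146) (nat_lit 5) (nat_lit 142) (nat_lit 5) (nat_lit 651) (nat_lit 558) (nat_lit 351)) (XT.lf (nat_lit 0) (nat_lit 6022771134) (nat_lit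 456) (nat_lit 16235289201) (nat_lit 76) (nat_lit 2954616712) (nat_lit 136) (nat_lit 5) (nat_lit 142) (nat_lit 5) (nat_lit 137) (nat_lit 5) (nat_lit 652) (nat_lit 558) (nat_lit 350))) (XT.nd (nat_lit 78) (nat_lit 304) (nat_lit 0) (XT.lf (nat_lit 0) (nat_lit 12186282565) (nat_lit 456) (nat_lit 1025686582) (nat_lit 76) (nat_lit 12315924409) (nat_lit 136) (nat_lit 5) (nat_lit 142) (nat_lit 5) (nat_lit 137) (nat_lit 5) (nat_lit 653) (nat_lit 558) (nat_lit 349)) (XT.lf (nat_lit 0) (nat_lit 14671121278) (nat_lit 304) (nat_lit 3891326271) (nat_lit 380) (nat_lit 7285179438) (nat_lit 132) (nat_lit 5) (nat_lit 136) (nat_lit 5) (nat_lit 137) (nat_lit 5) (nat_lit 654) (nat_lit 558) (nat_lit 348))))))) (XT.nd (nat_lit 74022) (nat_lit 0) (nat_lit 31084) (XT.nd (nat_lit 468) (nat_lit 532) (nat_lit 0) (XT.nd (nat_lit 234) (nat_lit 684) (nat_lit 0) (XT.nd (nat_lit 78) (nat_lit 380) (nat_lit 0) (XT.lf (nat_lit 0) (nat_lit 4535698117) (nat_lit 304) (nat_lit 20597436288) (nat_lit 380)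 (nat_lit 1039280966) (nat_lit 128) (nat_lit 5) (nat_lit 132) (nat_lit 5) (nat_lit 133) (nat_lit 5) (nat_lit 655) (nat_lit 558) (nat_lit 347)) (XT.nd (nat_lit 78) (nat_lit 304) (nat_lit 0) (XT.lf (nat_lit 0) (nat_lit 5357054116) (nat_lit 380) (nat_lit 5858884611) (nat_lit 76) (nat_lit 15285159868) (nat_lit 127) (nat_lit 5) (nat_lit 132) (nat_lit 5) (nat_lit 128) (nat_lit 5) (nat_lit 656) (nat_lit 558) (nat_lit 346)) (XT.lf (nat_lit 0) (nat_lit 10354155241) (nat_lit 304) (nat_lit 1574773334) (nat_lit 380) (nat_lit 14906059180) (nat_lit 123) (nat_lit 5) (nat_lit 127) (nat_lit 5) (nat_lit 128) (nat_lit 5) (nat_lit 657) (nat_lit 558) (nat_lit 345)))) (XT.nd (nat_lit 78) (nat_lit 684) (nat_lit 0) (XT.lf (nat_lit 0) (nat_lit 18719760205) (nat_lit 380) (nat_lit 267071280) (nat_lit 76) (nat_lit 8186973056) (nat_lit 123) (nat_lit 5) (nat_lit 128) (nat_lit 5) (nat_lit 124) (nat_lit 5) (nat_lit 658) (nat_lit 558) (nat_lit 344)) (XT.nd (nat_lit 78) (nat_lit 380) (nat_lit 0)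 (XT.lf (nat_lit 0) (nat_lit 16467398483) (nat_lit 304) (nat_lit 9290786420) (nat_lit 380) (nat_lit 1758977460) (nat_lit 119) (nat_lit 5) (nat_lit 123) (nat_lit 5) (nat_lit 124) (nat_lit 5) (nat_lit 659) (nat_lit 558) (nat_lit 343)) (XT.lf (nat_lit 0) (nat_lit 5041131772) (nat_lit 380) (nat_lit 22164803735) (nat_lit 76) (nat_lit 660041005) (nat_lit 114) (nat_lit 5) (nat_lit 119) (nat_lit 5) (nat_lit 115) (nat_lit 5) (nat_lit 660) (nat_lit 558) (nat_lit 342))))) (XT.nd (nat_lit 73242) (nat_lit 0) (nat_lit 32452) (XT.nd (nat_lit 78) (nat_lit 532) (nat_lit 0) (XT.lf (nat_lit 0) (nat_lit 12084352534) (nat_lit 380) (nat_lit 5366193572) (nat_lit 76) (nat_lit 10768375276) (nat_lit 114) (nat_lit 5) (nat_lit 119) (nat_lit 5) (nat_lit 115) (nat_lit 5) (nat_lit 661) (nat_lit 558) (nat_lit 341)) (XT.nd (nat_lit 78) (nat_lit 228) (nat_lit 0) (XT.lf (nat_lit 0) (nat_lit 11915692748) (nat_lit 304) (nat_lit 7424688816) (nat_lit 380) (nat_lit 9237104920) (nat_lit 110) (nat_lit 5)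 (nat_lit 114) (nat_lit 5) (nat_lit 115) (nat_lit 5) (nat_lit 662) (nat_lit 558) (nat_lit 340)) (XT.lf (nat_lit 0) (nat_lit 654612623) (nat_lit 228) (nat_lit 26140212292) (nat_lit 304) (nat_lit 2147332308) (nat_lit 107) (nat_lit 5) (nat_lit 110) (nat_lit 5) (nat_lit 111) (nat_lit 5) (nat_lit 663) (nat_lit 558) (nat_lit 339)))) (XT.nd (nat_lit 156) (nat_lit 0) (nat_lit 0) (XT.nd (nat_lit 78) (nat_lit 1596) (nat_lit 0) (XT.lf (nat_lit 0) (nat_lit 4662244183) (nat_lit 1596) (nat_lit 9069185) (nat_lit 1596) (nat_lit 9069185) (nat_lit 555) (nat_lit 3) (nat_lit 576) (nat_lit 3) (nat_lit 576) (nat_lit 5) (nat_lit 559) (nat_lit 559) (nat_lit 442)) (XT.lf (nat_lit 0) (nat_lit 816093489) (nat_lit 1596) (nat_lit 4771609017) (nat_lit 1672) (nat_lit 3849547783) (nat_lit 534) (nat_lit 5) (nat_lit 555) (nat_lit 3) (nat_lit 556) (nat_lit 5) (nat_lit 560) (nat_lit 559) (nat_lit 441))) (XT.nd (nat_lit 78) (nat_lit 0) (nat_lit 76) (XT.lf (nat_lit 0) (nat_lit 1663521933) (nat_lit 1596)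 (nat_lit 83516367) (nat_lit 1672) (nat_lit 7768654302) (nat_lit 534) (nat_lit 5) (nat_lit 555) (nat_lit 3) (nat_lit 556) (nat_lit 5) (nat_lit 561) (nat_lit 559) (nat_lit 440)) (XT.lf (nat_lit 0) (nat_lit 2551894978) (nat_lit 1596) (nat_lit 4860378393) (nat_lit 1672) (nat_lit 2182952583) (nat_lit 535) (nat_lit 5) (nat_lit 556) (nat_lit 5) (nat_lit 557) (nat_lit 5) (nat_lit 562) (nat_lit 559) (nat_lit 439)))))) (XT.nd (nat_lit 546) (nat_lit 1444) (nat_lit 0) (XT.nd (nat_lit 234) (nat_lit 0) (nat_lit 76) (XT.nd (nat_lit 78) (nat_lit 0) (nat_lit 76) (XT.lf (nat_lit 0) (nat_lit 3449374600) (nat_lit 1596) (nat_lit 48743349) (nat_lit 1672) (nat_lit 6178407312) (nat_lit 535) (nat_lit 5) (nat_lit 556) (nat_lit 5) (nat_lit 557) (nat_lit 5) (nat_lit 563) (nat_lit 559) (nat_lit 438)) (XT.nd (nat_lit 78) (nat_lit 0) (nat_lit 0) (XT.lf (nat_lit 0) (nat_lit 4379789781) (nat_lit 1596) (nat_lit 4850468434) (nat_lit 1672) (nat_lit 528894653) (nat_lit 536) (nat_lit 5) (nat_lit 557)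 (nat_lit 5) (nat_lit 558) (nat_lit 5) (nat_lit 564) (nat_lit 559) (nat_lit 437)) (XT.lf (nat_lit 76) (nat_lit 88789358) (nat_lit 0) (nat_lit 5244092929) (nat_lit 1672) (nat_lit 4510471351) (nat_lit 537) (nat_lit 5) (nat_lit 536) (nat_lit 5) (nat_lit 558) (nat_lit 5) (nat_lit 565) (nat_lit 559) (nat_lit 436)))) (XT.nd (nat_lit 156) (nat_lit 0) (nat_lit 76) (XT.nd (nat_lit 78) (nat_lit 0) (nat_lit 76) (XT.lf (nat_lit 76) (nat_lit 5180957028) (nat_lit 0) (nat_lit 1136942491) (nat_lit 1672) (nat_lit 3611083597) (nat_lit 537) (nat_lit 5) (nat_lit 536) (nat_lit 5) (nat_lit 558) (nat_lit 5) (nat_lit 566) (nat_lit 559) (nat_lit 435)) (XT.lf (nat_lit 76) (nat_lit 331334534) (nat_lit 0) (nat_lit 6994002696) (nat_lit 1672) (nat_lit 2690935468) (nat_lit 538) (nat_lit 5) (nat_lit 537) (nat_lit 5) (nat_lit 559) (nat_lit 5) (nat_lit 567) (nat_lit 559) (nat_lit 434))) (XT.nd (nat_lit 78) (nat_lit 0) (nat_lit 76) (XT.lf (nat_lit 76) (nat_lit 5557255544) (nat_lit 0) (nat_lit 2816061881)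 (nat_lit 1672) (nat_lit 1731584646) (nat_lit 538) (nat_lit 5) (nat_lit 537) (nat_lit 5) (nat_lit 559) (nat_lit 5) (nat_lit 568) (nat_lit 559) (nat_lit 433)) (XT.lf (nat_lit 76) (nat_lit 679977557) (nat_lit 0) (nat_lit 8757548659) (nat_lit 1672) (nat_lit 757874277) (nat_lit 539) (nat_lit 5) (nat_lit 538) (nat_lit 5) (nat_lit 560) (nat_lit 5) (nat_lit 569) (nat_lit 559) (nat_lit 432))))) (XT.nd (nat_lit 234) (nat_lit 0) (nat_lit 76) (XT.nd (nat_lit 78) (nat_lit 0) (nat_lit 0) (XT.lf (nat_lit 0) (nat_lit 263225852) (nat_lit 1672) (nat_lit 4245793107) (nat_lit 1748) (nat_lit 5778041103) (nat_lit 516) (nat_lit 5) (nat_lit 538) (nat_lit 5) (nat_lit 539) (nat_lit 5) (nat_lit 570) (nat_lit 559) (nat_lit 431)) (XT.nd (nat_lit 78) (nat_lit 0) (nat_lit 76) (XT.lf (nat_lit 76) (nat_lit 1127116215) (nat_lit 0) (nat_lit 156804513) (nat_lit 1748) (nat_lit 9096747224) (nat_lit 517) (nat_lit 5) (nat_lit 516) (nat_lit 5) (nat_lit 539) (nat_lit 5) (nat_lit 571) (nat_lit 559) (nat_lit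 430)) (XT.lf (nat_lit 0) (nat_lit 2363822422) (nat_lit 1672) (nat_lit 3850727907) (nat_lit 1748) (nat_lit 4260823510) (nat_lit 517) (nat_lit 5) (nat_lit 539) (nat_lit 5) (nat_lit 540) (nat_lit 5) (nat_lit 572) (nat_lit 559) (nat_lit 429)))) (XT.nd (nat_lit 156) (nat_lit 0) (nat_lit 76) (XT.nd (nat_lit 78) (nat_lit 0) (nat_lit 76) (XT.lf (nat_lit 76) (nat_lit 1669049840) (nat_lit 0) (nat_lit 1790802422) (nat_lit 1748) (nat_lit 7112232648) (nat_lit 518) (nat_lit 5) (nat_lit 517) (nat_lit 5) (nat_lit 540) (nat_lit 5) (nat_lit 573) (nat_lit 559) (nat_lit 428)) (XT.lf (nat_lit 0) (nat_lit 4604435396) (nat_lit 1672) (nat_lit 3348885454) (nat_lit 1748) (nat_lit 2716878331) (nat_lit 518) (nat_lit 5) (nat_lit 540) (nat_lit 5) (nat_lit 541) (nat_lit 5) (nat_lit 574) (nat_lit 559) (nat_lit 427))) (XT.nd (nat_lit 78) (nat_lit 0) (nat_lit 76) (XT.lf (nat_lit 76) (nat_lit 2322941131) (nat_lit 0) (nat_lit 3459196923) (nat_lit 1748) (nat_lit 4987934729) (nat_lit 519) (nat_lit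 5) (nat_lit 518) (nat_lit 5) (nat_lit 541) (nat_lit 5) (nat_lit 575) (nat_lit 559) (nat_lit 426)) (XT.lf (nat_lit 0) (nat_lit 6996885211) (nat_lit 1672) (nat_lit 2737640387) (nat_lit 1748) (nat_lit 1137150019) (nat_lit 519) (nat_lit 5) (nat_lit 541) (nat_lit 5) (nat_lit 542) (nat_lit 5) (nat_lit 576) (nat_lit 559) (nat_lit 425))))))))
noncomputable def xc163 : XT := (XT.nd (nat_lit 2106) (nat_lit 10488) (nat_lit 0) (XT.nd (nat_lit 1014) (nat_lit 6840) (nat_lit 0) (XT.nd (nat_lit 468) (nat_lit 4560) (nat_lit 0) (XT.nd (nat_lit 234) (nat_lit 1672) (nat_lit 0) (XT.nd (nat_lit 78) (nat_lit 0) (nat_lit 0) (XT.lf (nat_lit 76) (nat_lit 3091626981) (nat_lit 0) (nat_lit 5171169876) (nat_lit 1748) (nat_lit 2711977799) (nat_lit 520) (nat_lit 5) (nat_lit 519) (nat_lit 5) (nat_lit 542) (nat_lit 5) (nat_lit 577) (nat_lit 559) (nat_lit 424)) (XT.nd (nat_lit 78) (nat_lit 0) (nat_lit 76) (XT.lf (nat_lit 76) (nat_lit 9062616049) (nat_lit 0) (nat_lit 493907943) (nat_lit 1748) (nat_lit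 1523363248) (nat_lit 520) (nat_lit 5) (nat_lit 519) (nat_lit 5) (nat_lit 542) (nat_lit 5) (nat_lit 578) (nat_lit 559) (nat_lit 423)) (XT.lf (nat_lit 76) (nat_lit 3978253994) (nat_lit 0) (nat_lit 6935931935) (nat_lit 1748) (nat_lit 272156423) (nat_lit 521) (nat_lit 5) (nat_lit 520) (nat_lit 5) (nat_lit 543) (nat_lit 5) (nat_lit 579) (nat_lit 559) (nat_lit 422)))) (XT.nd (nat_lit 78) (nat_lit 0) (nat_lit 76) (XT.lf (nat_lit 0) (nat_lit 992389704) (nat_lit 1748) (nat_lit 1195703872) (nat_lit 1824) (nat_lit 9106674353) (nat_lit 497) (nat_lit 5) (nat_lit 520) (nat_lit 5) (nat_lit 521) (nat_lit 5) (nat_lit 580) (nat_lit 559) (nat_lit 421)) (XT.nd (nat_lit 78) (nat_lit 0) (nat_lit 0) (XT.lf (nat_lit 0) (nat_lit 2313346671) (nat_lit 1748) (nat_lit 6433876010) (nat_lit 1824) (nat_lit 2657409470) (nat_lit 498) (nat_lit 5) (nat_lit 521) (nat_lit 5) (nat_lit 522) (nat_lit 5) (nat_lit 581) (nat_lit 559) (nat_lit 420)) (XT.lf (nat_lit 0) (nat_lit 3668417571) (nat_lit 1748) (nat_lit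 266527028) (nat_lit 1824) (nat_lit 7581596529) (nat_lit 498) (nat_lit 5) (nat_lit 521) (nat_lit 5) (nat_lit 522) (nat_lit 5) (nat_lit 582) (nat_lit 559) (nat_lit 419))))) (XT.nd (nat_lit 234) (nat_lit 2964) (nat_lit 0) (XT.nd (nat_lit 78) (nat_lit 1748) (nat_lit 0) (XT.lf (nat_lit 0) (nat_lit 5082162721) (nat_lit 1748) (nat_lit 5544686437) (nat_lit 76) (nat_lit 1003209012) (nat_lit 499) (nat_lit 5) (nat_lit 522) (nat_lit 5) (nat_lit 500) (nat_lit 5) (nat_lit 583) (nat_lit 559) (nat_lit 418)) (XT.nd (nat_lit 78) (nat_lit 0) (nat_lit 0) (XT.lf (nat_lit 0) (nat_lit 794267033) (nat_lit 1748) (nat_lit 5748575943) (nat_lit 1824) (nat_lit 5202630686) (nat_lit 476) (nat_lit 5) (nat_lit 499) (nat_lit 5) (nat_lit 500) (nat_lit 5) (nat_lit 584) (nat_lit 559) (nat_lit 417)) (XT.lf (nat_lit 0) (nat_lit 7323049083) (nat_lit 1748) (nat_lit 732742064) (nat_lit 1824) (nat_lit 3806946517) (nat_lit 476) (nat_lit 5) (nat_lit 499) (nat_lit 5) (nat_lit 500) (nat_lit 5) (nat_lit 585)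 (nat_lit 559) (nat_lit 416)))) (XT.nd (nat_lit 156) (nat_lit 1140) (nat_lit 0) (XT.nd (nat_lit 78) (nat_lit 0) (nat_lit 0) (XT.lf (nat_lit 0) (nat_lit 1985475185) (nat_lit 1824) (nat_lit 7641011186) (nat_lit 1900) (nat_lit 2355312078) (nat_lit 452) (nat_lit 5) (nat_lit 476) (nat_lit 5) (nat_lit 477) (nat_lit 5) (nat_lit 586) (nat_lit 559) (nat_lit 415)) (XT.lf (nat_lit 0) (nat_lit 8685677339) (nat_lit 1824) (nat_lit 2564532965) (nat_lit 1900) (nat_lit 852599086) (nat_lit 452) (nat_lit 5) (nat_lit 476) (nat_lit 5) (nat_lit 477) (nat_lit 5) (nat_lit 587) (nat_lit 559) (nat_lit 414))) (XT.nd (nat_lit 78) (nat_lit 0) (nat_lit 0) (XT.lf (nat_lit 0) (nat_lit 696466613) (nat_lit 1140) (nat_lit 8922390868) (nat_lit 76) (nat_lit 2606791559) (nat_lit 437) (nat_lit 5) (nat_lit 452) (nat_lit 5) (nat_lit 438) (nat_lit 5) (nat_lit 588) (nat_lit 559) (nat_lit 413)) (XT.lf (nat_lit 0) (nat_lit 2291878549) (nat_lit 1140) (nat_lit 2181117354) (nat_lit 76) (nat_lit 7877302408) (nat_lit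 437) (nat_lit 5) (nat_lit 452) (nat_lit 5) (nat_lit 438) (nat_lit 5) (nat_lit 589) (nat_lit 559) (nat_lit 412)))))) (XT.nd (nat_lit 546) (nat_lit 3268) (nat_lit 0) (XT.nd (nat_lit 234) (nat_lit 1748) (nat_lit 0) (XT.nd (nat_lit 78) (nat_lit 912) (nat_lit 0) (XT.lf (nat_lit 0) (nat_lit 3942220633) (nat_lit 988) (nat_lit 7737103025) (nat_lit 76) (nat_lit 797657616) (nat_lit 425) (nat_lit 5) (nat_lit 438) (nat_lit 5) (nat_lit 426) (nat_lit 5) (nat_lit 590) (nat_lit 559) (nat_lit 411)) (XT.nd (nat_lit 78) (nat_lit 912) (nat_lit 0) (XT.lf (nat_lit 0) (nat_lit 5657074854) (nat_lit 988) (nat_lit 818936012) (nat_lit 76) (nat_lit 6129558045) (nat_lit 425) (nat_lit 5) (nat_lit 438) (nat_lit 5) (nat_lit 426) (nat_lit 5) (nat_lit 591) (nat_lit 559) (nat_lit 410)) (XT.lf (nat_lit 0) (nat_lit 6308397946) (nat_lit 912) (nat_lit 1126187918) (nat_lit 988) (nat_lit 5301576341) (nat_lit 413) (nat_lit 5) (nat_lit 425) (nat_lit 5) (nat_lit 426) (nat_lit 5) (nat_lit 592) (nat_lit 559)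 (nat_lit 409)))) (XT.nd (nat_lit 156) (nat_lit 912) (nat_lit 0) (XT.nd (nat_lit 78) (nat_lit 0) (nat_lit 0) (XT.lf (nat_lit 0) (nat_lit 688896244) (nat_lit 836) (nat_lit 8584448045) (nat_lit 912) (nat_lit 3595510210) (nat_lit 402) (nat_lit 5) (nat_lit 413) (nat_lit 5) (nat_lit 414) (nat_lit 5) (nat_lit 593) (nat_lit 559) (nat_lit 408)) (XT.lf (nat_lit 0) (nat_lit 8015435285) (nat_lit 836) (nat_lit 3171726148) (nat_lit 912) (nat_lit 1816274593) (nat_lit 402) (nat_lit 5) (nat_lit 413) (nat_lit 5) (nat_lit 414) (nat_lit 5) (nat_lit 594) (nat_lit 559) (nat_lit 407))) (XT.nd (nat_lit 78) (nat_lit 0) (nat_lit 0) (XT.lf (nat_lit 0) (nat_lit 17188301) (nat_lit 912) (nat_lit 10789106346) (nat_lit 76) (nat_lit 2334043271) (nat_lit 390) (nat_lit 5) (nat_lit 402) (nat_lit 5) (nat_lit 391) (nat_lit 5) (nat_lit 595) (nat_lit 559) (nat_lit 406)) (XT.lf (nat_lit 0) (nat_lit 1905782923) (nat_lit 912) (nat_lit 3419815934) (nat_lit 76) (nat_lit 7953284226) (nat_lit 390) (nat_lit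 5) (nat_lit 402) (nat_lit 5) (nat_lit 391) (nat_lit 5) (nat_lit 596) (nat_lit 559) (nat_lit 405))))) (XT.nd (nat_lit 234) (nat_lit 1596) (nat_lit 0) (XT.nd (nat_lit 78) (nat_lit 836) (nat_lit 0) (XT.lf (nat_lit 0) (nat_lit 3849215024) (nat_lit 912) (nat_lit 9282522099) (nat_lit 76) (nat_lit 288121694) (nat_lit 379) (nat_lit 5) (nat_lit 391) (nat_lit 5) (nat_lit 380) (nat_lit 5) (nat_lit 597) (nat_lit 559) (nat_lit 404)) (XT.nd (nat_lit 78) (nat_lit 836) (nat_lit 0) (XT.lf (nat_lit 0) (nat_lit 5878331829) (nat_lit 912) (nat_lit 1718656646) (nat_lit 76) (nat_lit 5965730226) (nat_lit 379) (nat_lit 5) (nat_lit 391) (nat_lit 5) (nat_lit 380) (nat_lit 5) (nat_lit 598) (nat_lit 559) (nat_lit 403)) (XT.lf (nat_lit 0) (nat_lit 6064225762) (nat_lit 836) (nat_lit 1911851177) (nat_lit 912) (nat_lit 5731798863) (nat_lit 368) (nat_lit 5) (nat_lit 379) (nat_lit 5) (nat_lit 380) (nat_lit 5) (nat_lit 599) (nat_lit 559) (nat_lit 402)))) (XT.nd (nat_lit 156) (nat_lit 836) (nat_lit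 0) (XT.nd (nat_lit 78) (nat_lit 0) (nat_lit 0) (XT.lf (nat_lit 0) (nat_lit 134875669) (nat_lit 760) (nat_lit 10007438911) (nat_lit 836) (nat_lit 3713091632) (nat_lit 358) (nat_lit 5) (nat_lit 368) (nat_lit 5) (nat_lit 369) (nat_lit 5) (nat_lit 600) (nat_lit 559) (nat_lit 401)) (XT.lf (nat_lit 0) (nat_lit 8147895351) (nat_lit 760) (nat_lit 4256810363) (nat_lit 836) (nat_lit 1600125845) (nat_lit 358) (nat_lit 5) (nat_lit 368) (nat_lit 5) (nat_lit 369) (nat_lit 5) (nat_lit 601) (nat_lit 559) (nat_lit 400))) (XT.nd (nat_lit 78) (nat_lit 0) (nat_lit 0) (XT.lf (nat_lit 0) (nat_lit 561613460) (nat_lit 836) (nat_lit 11990559645) (nat_lit 76) (nat_lit 1604725203) (nat_lit 347) (nat_lit 5) (nat_lit 358) (nat_lit 5) (nat_lit 348) (nat_lit 5) (nat_lit 602) (nat_lit 559) (nat_lit 399)) (XT.lf (nat_lit 0) (nat_lit 2802169603) (nat_lit 836) (nat_lit 3932701354) (nat_lit 76) (nat_lit 7575784594) (nat_lit 347) (nat_lit 5) (nat_lit 358) (nat_lit 5) (nat_lit 348) (nat_lit 5) (nat_lit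 603) (nat_lit 559) (nat_lit 398))))))) (XT.nd (nat_lit 1092) (nat_lit 5016) (nat_lit 0) (XT.nd (nat_lit 546) (nat_lit 2584) (nat_lit 0) (XT.nd (nat_lit 234) (nat_lit 1444) (nat_lit 0) (XT.nd (nat_lit 78) (nat_lit 760) (nat_lit 0) (XT.lf (nat_lit 0) (nat_lit 4331450851) (nat_lit 684) (nat_lit 773653278) (nat_lit 760) (nat_lit 9362033298) (nat_lit 338) (nat_lit 5) (nat_lit 347) (nat_lit 5) (nat_lit 348) (nat_lit 5) (nat_lit 604) (nat_lit 559) (nat_lit 397)) (XT.nd (nat_lit 78) (nat_lit 760) (nat_lit 0) (XT.lf (nat_lit 0) (nat_lit 7504686506) (nat_lit 760) (nat_lit 1858452105) (nat_lit 76) (nat_lit 5262599362) (nat_lit 338) (nat_lit 5) (nat_lit 348) (nat_lit 5) (nat_lit 339) (nat_lit 5) (nat_lit 605) (nat_lit 559) (nat_lit 396)) (XT.lf (nat_lit 0) (nat_lit 6654919364) (nat_lit 760) (nat_lit 3335446084) (nat_lit 836) (nat_lit 4796383786) (nat_lit 328) (nat_lit 5) (nat_lit 338) (nat_lit 5) (nat_lit 339) (nat_lit 5) (nat_lit 606) (nat_lit 559) (nat_lit 395)))) (XT.nd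 (nat_lit 156) (nat_lit 684) (nat_lit 0) (XT.nd (nat_lit 78) (nat_lit 76) (nat_lit 0) (XT.lf (nat_lit 0) (nat_lit 388081039) (nat_lit 684) (nat_lit 12160903116) (nat_lit 760) (nat_lit 2401532827) (nat_lit 319) (nat_lit 5) (nat_lit 328) (nat_lit 5) (nat_lit 329) (nat_lit 5) (nat_lit 607) (nat_lit 559) (nat_lit 394)) (XT.lf (nat_lit 0) (nat_lit 107640038) (nat_lit 760) (nat_lit 5962307310) (nat_lit 76) (nat_lit 9046268829) (nat_lit 318) (nat_lit 5) (nat_lit 328) (nat_lit 5) (nat_lit 319) (nat_lit 5) (nat_lit 608) (nat_lit 559) (nat_lit 393))) (XT.nd (nat_lit 78) (nat_lit 0) (nat_lit 0) (XT.lf (nat_lit 0) (nat_lit 2644461653) (nat_lit 760) (nat_lit 12466499372) (nat_lit 76) (nat_lit 173759154) (nat_lit 309) (nat_lit 5) (nat_lit 319) (nat_lit 5) (nat_lit 310) (nat_lit 5) (nat_lit 609) (nat_lit 559) (nat_lit 392)) (XT.lf (nat_lit 0) (nat_lit 5302744512) (nat_lit 760) (nat_lit 3652695609) (nat_lit 76) (nat_lit 6499740368) (nat_lit 309) (nat_lit 5) (nat_lit 319) (nat_lit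 5) (nat_lit 310) (nat_lit 5) (nat_lit 610) (nat_lit 559) (nat_lit 391))))) (XT.nd (nat_lit 234) (nat_lit 1292) (nat_lit 0) (XT.nd (nat_lit 78) (nat_lit 684) (nat_lit 0) (XT.lf (nat_lit 0) (nat_lit 5396773302) (nat_lit 608) (nat_lit 2642901604) (nat_lit 684) (nat_lit 7588866172) (nat_lit 301) (nat_lit 5) (nat_lit 309) (nat_lit 5) (nat_lit 310) (nat_lit 5) (nat_lit 611) (nat_lit 559) (nat_lit 390)) (XT.nd (nat_lit 78) (nat_lit 684) (nat_lit 0) (XT.lf (nat_lit 0) (nat_lit 10871207395) (nat_lit 684) (nat_lit 1164434613) (nat_lit 76) (nat_lit 3768930299) (nat_lit 301) (nat_lit 5) (nat_lit 310) (nat_lit 5) (nat_lit 302) (nat_lit 5) (nat_lit 612) (nat_lit 559) (nat_lit 389)) (XT.lf (nat_lit 0) (nat_lit 8162527872) (nat_lit 684) (nat_lit 5658071500) (nat_lit 760) (nat_lit 2162300896) (nat_lit 292) (nat_lit 5) (nat_lit 301) (nat_lit 5) (nat_lit 302) (nat_lit 5) (nat_lit 613) (nat_lit 559) (nat_lit 388)))) (XT.nd (nat_lit 156) (nat_lit 608) (nat_lit 0) (XT.nd (nat_lit 78)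 (nat_lit 0) (nat_lit 0) (XT.lf (nat_lit 0) (nat_lit 669693180) (nat_lit 684) (nat_lit 14638588561) (nat_lit 76) (nat_lit 856143064) (nat_lit 283) (nat_lit 5) (nat_lit 292) (nat_lit 5) (nat_lit 284) (nat_lit 5) (nat_lit 614) (nat_lit 559) (nat_lit 387)) (XT.lf (nat_lit 0) (nat_lit 3610569450) (nat_lit 684) (nat_lit 5247103546) (nat_lit 76) (nat_lit 7489997714) (nat_lit 283) (nat_lit 5) (nat_lit 292) (nat_lit 5) (nat_lit 284) (nat_lit 5) (nat_lit 615) (nat_lit 559) (nat_lit 386))) (XT.nd (nat_lit 78) (nat_lit 0) (nat_lit 0) (XT.lf (nat_lit 0) (nat_lit 4378447584) (nat_lit 608) (nat_lit 2251293865) (nat_lit 684) (nat_lit 9904451151) (nat_lit 275) (nat_lit 5) (nat_lit 283) (nat_lit 5) (nat_lit 284) (nat_lit 5) (nat_lit 616) (nat_lit 559) (nat_lit 385)) (XT.lf (nat_lit 0) (nat_lit 9765013878) (nat_lit 684) (nat_lit 2496749179) (nat_lit 76) (nat_lit 4461568150) (nat_lit 275) (nat_lit 5) (nat_lit 284) (nat_lit 5) (nat_lit 276) (nat_lit 5) (nat_lit 617) (nat_lit 559) (nat_lit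 384)))))) (XT.nd (nat_lit 546) (nat_lit 2660) (nat_lit 0) (XT.nd (nat_lit 234) (nat_lit 1064) (nat_lit 0) (XT.nd (nat_lit 78) (nat_lit 684) (nat_lit 0) (XT.lf (nat_lit 0) (nat_lit 7426866216) (nat_lit 608) (nat_lit 5590567672) (nat_lit 684) (nat_lit 3897730463) (nat_lit 267) (nat_lit 5) (nat_lit 275) (nat_lit 5) (nat_lit 276) (nat_lit 5) (nat_lit 618) (nat_lit 559) (nat_lit 383)) (XT.nd (nat_lit 78) (nat_lit 76) (nat_lit 0) (XT.lf (nat_lit 0) (nat_lit 459188004) (nat_lit 608) (nat_lit 15894839775) (nat_lit 684) (nat_lit 756424465) (nat_lit 259) (nat_lit 5) (nat_lit 267) (nat_lit 5) (nat_lit 268) (nat_lit 5) (nat_lit 619) (nat_lit 559) (nat_lit 382)) (XT.lf (nat_lit 0) (nat_lit 2508158471) (nat_lit 684) (nat_lit 6638650631) (nat_lit 76) (nat_lit 8160668462) (nat_lit 258) (nat_lit 5) (nat_lit 267) (nat_lit 5) (nat_lit 259) (nat_lit 5) (nat_lit 620) (nat_lit 559) (nat_lit 381)))) (XT.nd (nat_lit 156) (nat_lit 532) (nat_lit 0) (XT.nd (nat_lit 78) (nat_lit 0) (nat_lit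 0) (XT.lf (nat_lit 0) (nat_lit 3605531262) (nat_lit 532) (nat_lit 2237396343) (nat_lit 608) (nat_lit 11665115886) (nat_lit 251) (nat_lit 5) (nat_lit 258) (nat_lit 5) (nat_lit 259) (nat_lit 5) (nat_lit 621) (nat_lit 559) (nat_lit 380)) (XT.lf (nat_lit 0) (nat_lit 9312148244) (nat_lit 608) (nat_lit 3609709790) (nat_lit 76) (nat_lit 4789408129) (nat_lit 251) (nat_lit 5) (nat_lit 259) (nat_lit 5) (nat_lit 252) (nat_lit 5) (nat_lit 622) (nat_lit 559) (nat_lit 379))) (XT.nd (nat_lit 78) (nat_lit 0) (nat_lit 0) (XT.lf (nat_lit 0) (nat_lit 6954518304) (nat_lit 532) (nat_lit 5948049862) (nat_lit 608) (nat_lit 5014949365) (nat_lit 244) (nat_lit 5) (nat_lit 251) (nat_lit 5) (nat_lit 252) (nat_lit 5) (nat_lit 623) (nat_lit 559) (nat_lit 378)) (XT.lf (nat_lit 0) (nat_lit 16588662431) (nat_lit 608) (nat_lit 367069983) (nat_lit 76) (nat_lit 1171684722) (nat_lit 244) (nat_lit 5) (nat_lit 252) (nat_lit 5) (nat_lit 245) (nat_lit 5) (nat_lit 624) (nat_lit 559) (nat_lit 377))))) (XT.nd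 (nat_lit 234) (nat_lit 1520) (nat_lit 0) (XT.nd (nat_lit 78) (nat_lit 532) (nat_lit 0) (XT.lf (nat_lit 0) (nat_lit 2081129188) (nat_lit 608) (nat_lit 7824419086) (nat_lit 76) (nat_lit 8433696615) (nat_lit 236) (nat_lit 5) (nat_lit 244) (nat_lit 5) (nat_lit 237) (nat_lit 5) (nat_lit 625) (nat_lit 559) (nat_lit 376)) (XT.nd (nat_lit 78) (nat_lit 0) (nat_lit 0) (XT.lf (nat_lit 0) (nat_lit 3083592857) (nat_lit 532) (nat_lit 2683843074) (nat_lit 608) (nat_lit 12787377759) (nat_lit 229) (nat_lit 5) (nat_lit 236) (nat_lit 5) (nat_lit 237) (nat_lit 5) (nat_lit 626) (nat_lit 559) (nat_lit 375)) (XT.lf (nat_lit 0) (nat_lit 9602899768) (nat_lit 608) (nat_lit 4499350144) (nat_lit 76) (nat_lit 4670935824) (nat_lit 229) (nat_lit 5) (nat_lit 237) (nat_lit 5) (nat_lit 230) (nat_lit 5) (nat_lit 627) (nat_lit 559) (nat_lit 374)))) (XT.nd (nat_lit 156) (nat_lit 1064) (nat_lit 0) (XT.nd (nat_lit 78) (nat_lit 0) (nat_lit 0) (XT.lf (nat_lit 0) (nat_lit 6752166311) (nat_lit 456) (nat_lit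 6816849998) (nat_lit 532) (nat_lit 5425830523) (nat_lit 223) (nat_lit 5) (nat_lit 229) (nat_lit 5) (nat_lit 230) (nat_lit 5) (nat_lit 628) (nat_lit 559) (nat_lit 373)) (XT.lf (nat_lit 0) (nat_lit 17641229660) (nat_lit 532) (nat_lit 945459893) (nat_lit 76) (nat_lit 633716577) (nat_lit 223) (nat_lit 5) (nat_lit 230) (nat_lit 5) (nat_lit 224) (nat_lit 5) (nat_lit 629) (nat_lit 559) (nat_lit 372))) (XT.nd (nat_lit 78) (nat_lit 456) (nat_lit 0) (XT.lf (nat_lit 0) (nat_lit 2421282613) (nat_lit 608) (nat_lit 8802303170) (nat_lit 76) (nat_lit 8224434467) (nat_lit 215) (nat_lit 5) (nat_lit 223) (nat_lit 5) (nat_lit 216) (nat_lit 5) (nat_lit 630) (nat_lit 559) (nat_lit 371)) (XT.lf (nat_lit 0) (nat_lit 2817465805) (nat_lit 456) (nat_lit 3680411221) (nat_lit 532) (nat_lit 13181755875) (nat_lit 209) (nat_lit 5) (nat_lit 215) (nat_lit 5) (nat_lit 216) (nat_lit 5) (nat_lit 631) (nat_lit 559) (nat_lit 370))))))))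
noncomputable def xc164 : XT := (XT.nd (nat_lit 2106) (nat_lit 988) (nat_lit 0) (XT.nd (nat_lit 1014) (nat_lit 3344) (nat_lit 0) (XT.nd (nat_lit 468) (nat_lit 1748) (nat_lit 0) (XT.nd (nat_lit 234) (nat_lit 988) (nat_lit 0) (XT.nd (nat_lit 78) (nat_lit 456) (nat_lit 0) (XT.lf (nat_lit 0) (nat_lit 10734152306) (nat_lit 532) (nat_lit 5162717342) (nat_lit 76) (nat_lit 4017445610) (nat_lit 209) (nat_lit 5) (nat_lit 216) (nat_lit 5) (nat_lit 210) (nat_lit 5) (nat_lit 632) (nat_lit 559) (nat_lit 369)) (XT.nd (nat_lit 78) (nat_lit 0) (nat_lit 0) (XT.lf (nat_lit 0) (nat_lit 6825554146) (nat_lit 456) (nat_lit 8291063638) (nat_lit 532) (nat_lit 5035844611) (nat_lit 203) (nat_lit 5) (nat_lit 209) (nat_lit 5) (nat_lit 210) (nat_lit 5) (nat_lit 633) (nat_lit 559) (nat_lit 368)) (XT.lf (nat_lit 0) (nat_lit 19113328851) (nat_lit 456) (nat_lit 500898505) (nat_lit 532) (nat_lit 780595636) (nat_lit 203) (nat_lit 5) (nat_lit 209) (nat_lit 5) (nat_lit 210) (nat_lit 5) (nat_lit 634)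 (nat_lit 559) (nat_lit 367)))) (XT.nd (nat_lit 78) (nat_lit 456) (nat_lit 0) (XT.lf (nat_lit 0) (nat_lit 3627145898) (nat_lit 532) (nat_lit 9571830948) (nat_lit 76) (nat_lit 7440310624) (nat_lit 196) (nat_lit 5) (nat_lit 203) (nat_lit 5) (nat_lit 197) (nat_lit 5) (nat_lit 635) (nat_lit 559) (nat_lit 366)) (XT.nd (nat_lit 78) (nat_lit 0) (nat_lit 0) (XT.lf (nat_lit 0) (nat_lit 2810412507) (nat_lit 456) (nat_lit 5325404604) (nat_lit 532) (nat_lit 12752256782) (nat_lit 190) (nat_lit 5) (nat_lit 196) (nat_lit 5) (nat_lit 197) (nat_lit 5) (nat_lit 636) (nat_lit 559) (nat_lit 365)) (XT.lf (nat_lit 0) (nat_lit 12809933354) (nat_lit 532) (nat_lit 5598736156) (nat_lit 76) (nat_lit 2731661487) (nat_lit 190) (nat_lit 5) (nat_lit 197) (nat_lit 5) (nat_lit 191) (nat_lit 5) (nat_lit 637) (nat_lit 559) (nat_lit 364))))) (XT.nd (nat_lit 234) (nat_lit 836) (nat_lit 0) (XT.nd (nat_lit 78) (nat_lit 532) (nat_lit 0) (XT.lf (nat_lit 0) (nat_lit 7178607463) (nat_lit 380) (nat_lit 10473984046)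 (nat_lit 456) (nat_lit 3743540921) (nat_lit 185) (nat_lit 5) (nat_lit 190) (nat_lit 5) (nat_lit 191) (nat_lit 5) (nat_lit 638) (nat_lit 559) (nat_lit 363)) (XT.nd (nat_lit 78) (nat_lit 456) (nat_lit 0) (XT.lf (nat_lit 0) (nat_lit 953816388) (nat_lit 456) (nat_lit 1385293814) (nat_lit 76) (nat_lit 19317198095) (nat_lit 184) (nat_lit 5) (nat_lit 190) (nat_lit 5) (nat_lit 185) (nat_lit 5) (nat_lit 639) (nat_lit 559) (nat_lit 362)) (XT.lf (nat_lit 0) (nat_lit 5804489692) (nat_lit 532) (nat_lit 10135132373) (nat_lit 76) (nat_lit 5979381178) (nat_lit 178) (nat_lit 5) (nat_lit 185) (nat_lit 5) (nat_lit 179) (nat_lit 5) (nat_lit 640) (nat_lit 559) (nat_lit 361)))) (XT.nd (nat_lit 156) (nat_lit 456) (nat_lit 0) (XT.nd (nat_lit 78) (nat_lit 0) (nat_lit 0) (XT.lf (nat_lit 0) (nat_lit 3063137052) (nat_lit 380) (nat_lit 7727162559) (nat_lit 456) (nat_lit 11395890364) (nat_lit 173) (nat_lit 5) (nat_lit 178) (nat_lit 5) (nat_lit 179) (nat_lit 5) (nat_lit 641) (nat_lit 559) (nat_lit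 360)) (XT.lf (nat_lit 0) (nat_lit 15941936597) (nat_lit 456) (nat_lit 5809231151) (nat_lit 76) (nat_lit 706230818) (nat_lit 173) (nat_lit 5) (nat_lit 179) (nat_lit 5) (nat_lit 174) (nat_lit 5) (nat_lit 642) (nat_lit 559) (nat_lit 359))) (XT.nd (nat_lit 78) (nat_lit 76) (nat_lit 0) (XT.lf (nat_lit 0) (nat_lit 7812390478) (nat_lit 380) (nat_lit 13479672229) (nat_lit 456) (nat_lit 1440059827) (nat_lit 168) (nat_lit 5) (nat_lit 173) (nat_lit 5) (nat_lit 174) (nat_lit 5) (nat_lit 643) (nat_lit 559) (nat_lit 358)) (XT.lf (nat_lit 0) (nat_lit 3720662701) (nat_lit 456) (nat_lit 1260677020) (nat_lit 76) (nat_lit 18029859906) (nat_lit 167) (nat_lit 5) (nat_lit 173) (nat_lit 5) (nat_lit 168) (nat_lit 5) (nat_lit 644) (nat_lit 559) (nat_lit 357)))))) (XT.nd (nat_lit 546) (nat_lit 1444) (nat_lit 0) (XT.nd (nat_lit 234) (nat_lit 1140) (nat_lit 0) (XT.nd (nat_lit 78) (nat_lit 380) (nat_lit 0) (XT.lf (nat_lit 0) (nat_lit 9066812654) (nat_lit 456) (nat_lit 10498087419) (nat_lit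 76) (nat_lit 3728738221) (nat_lit 162) (nat_lit 5) (nat_lit 168) (nat_lit 5) (nat_lit 163) (nat_lit 5) (nat_lit 645) (nat_lit 559) (nat_lit 356)) (XT.nd (nat_lit 78) (nat_lit 0) (nat_lit 0) (XT.lf (nat_lit 0) (nat_lit 3572611859) (nat_lit 380) (nat_lit 11005720970) (nat_lit 456) (nat_lit 9002224271) (nat_lit 157) (nat_lit 5) (nat_lit 162) (nat_lit 5) (nat_lit 163) (nat_lit 5) (nat_lit 646) (nat_lit 559) (nat_lit 355)) (XT.lf (nat_lit 0) (nat_lit 18057458688) (nat_lit 380) (nat_lit 2206879507) (nat_lit 456) (nat_lit 3607591293) (nat_lit 157) (nat_lit 5) (nat_lit 162) (nat_lit 5) (nat_lit 163) (nat_lit 5) (nat_lit 647) (nat_lit 559) (nat_lit 354)))) (XT.nd (nat_lit 156) (nat_lit 684) (nat_lit 0) (XT.nd (nat_lit 78) (nat_lit 0) (nat_lit 0) (XT.lf (nat_lit 0) (nat_lit 1965197483) (nat_lit 456) (nat_lit 15456305881) (nat_lit 76) (nat_lit 6745477879) (nat_lit 151) (nat_lit 5) (nat_lit 157) (nat_lit 5) (nat_lit 152) (nat_lit 5) (nat_lit 648) (nat_lit 559) (nat_lit 353))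 (XT.lf (nat_lit 0) (nat_lit 7648998272) (nat_lit 456) (nat_lit 910279331) (nat_lit 76) (nat_lit 15907222554) (nat_lit 151) (nat_lit 5) (nat_lit 157) (nat_lit 5) (nat_lit 152) (nat_lit 5) (nat_lit 649) (nat_lit 559) (nat_lit 352))) (XT.nd (nat_lit 78) (nat_lit 304) (nat_lit 0) (XT.lf (nat_lit 0) (nat_lit 13535783077) (nat_lit 456) (nat_lit 10671693517) (nat_lit 76) (nat_lit 562746975) (nat_lit 146) (nat_lit 5) (nat_lit 152) (nat_lit 5) (nat_lit 147) (nat_lit 5) (nat_lit 650) (nat_lit 559) (nat_lit 351)) (XT.lf (nat_lit 0) (nat_lit 4330677787) (nat_lit 304) (nat_lit 15294655390) (nat_lit 380) (nat_lit 5452987957) (nat_lit 142) (nat_lit 5) (nat_lit 146) (nat_lit 5) (nat_lit 147) (nat_lit 5) (nat_lit 651) (nat_lit 559) (nat_lit 350))))) (XT.nd (nat_lit 234) (nat_lit 988) (nat_lit 0) (XT.nd (nat_lit 78) (nat_lit 380) (nat_lit 0) (XT.lf (nat_lit 0) (nat_lit 504451974) (nat_lit 380) (nat_lit 5626119918) (nat_lit 76) (nat_lit 19260627700) (nat_lit 141) (nat_lit 5) (nat_lit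 146) (nat_lit 5) (nat_lit 142) (nat_lit 5) (nat_lit 652) (nat_lit 559) (nat_lit 349)) (XT.nd (nat_lit 78) (nat_lit 0) (nat_lit 0) (XT.lf (nat_lit 0) (nat_lit 6587993998) (nat_lit 456) (nat_lit 15847830541) (nat_lit 76) (nat_lit 3272191079) (nat_lit 136) (nat_lit 5) (nat_lit 142) (nat_lit 5) (nat_lit 137) (nat_lit 5) (nat_lit 653) (nat_lit 559) (nat_lit 348)) (XT.lf (nat_lit 0) (nat_lit 12866054727) (nat_lit 456) (nat_lit 347999878) (nat_lit 76) (nat_lit 12815656654) (nat_lit 136) (nat_lit 5) (nat_lit 142) (nat_lit 5) (nat_lit 137) (nat_lit 5) (nat_lit 654) (nat_lit 559) (nat_lit 347)))) (XT.nd (nat_lit 156) (nat_lit 380) (nat_lit 0) (XT.nd (nat_lit 78) (nat_lit 304) (nat_lit 0) (XT.lf (nat_lit 0) (nat_lit 15658150716) (nat_lit 304) (nat_lit 3707545721) (nat_lit 380) (nat_lit 6990224232) (nat_lit 132) (nat_lit 5) (nat_lit 136) (nat_lit 5) (nat_lit 137) (nat_lit 5) (nat_lit 655) (nat_lit 559) (nat_lit 346)) (XT.lf (nat_lit 0) (nat_lit 5322370428) (nat_lit 304) (nat_lit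 20743139860) (nat_lit 380) (nat_lit 621740636) (nat_lit 128) (nat_lit 5) (nat_lit 132) (nat_lit 5) (nat_lit 133) (nat_lit 5) (nat_lit 656) (nat_lit 559) (nat_lit 345))) (XT.nd (nat_lit 78) (nat_lit 304) (nat_lit 0) (XT.lf (nat_lit 0) (nat_lit 5888290517) (nat_lit 380) (nat_lit 5288096421) (nat_lit 76) (nat_lit 15846233950) (nat_lit 127) (nat_lit 5) (nat_lit 132) (nat_lit 5) (nat_lit 128) (nat_lit 5) (nat_lit 657) (nat_lit 559) (nat_lit 344)) (XT.lf (nat_lit 0) (nat_lit 11244678136) (nat_lit 304) (nat_lit 1343046079) (nat_lit 380) (nat_lit 14775541530) (nat_lit 123) (nat_lit 5) (nat_lit 127) (nat_lit 5) (nat_lit 128) (nat_lit 5) (nat_lit 658) (nat_lit 559) (nat_lit 343))))))) (XT.nd (nat_lit 74100) (nat_lit 0) (nat_lit 29412) (XT.nd (nat_lit 73554) (nat_lit 0) (nat_lit 32224) (XT.nd (nat_lit 234) (nat_lit 304) (nat_lit 0) (XT.nd (nat_lit 78) (nat_lit 380) (nat_lit 0) (XT.lf (nat_lit 0) (nat_lit 409579135) (nat_lit 304) (nat_lit 19100888558) (nat_lit 380) (nat_lit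 8198469611) (nat_lit 119) (nat_lit 5) (nat_lit 123) (nat_lit 5) (nat_lit 124) (nat_lit 5) (nat_lit 659) (nat_lit 559) (nat_lit 342)) (XT.nd (nat_lit 78) (nat_lit 380) (nat_lit 0) (XT.lf (nat_lit 0) (nat_lit 17468915141) (nat_lit 304) (nat_lit 9214339807) (nat_lit 380) (nat_lit 1376035789) (nat_lit 119) (nat_lit 5) (nat_lit 123) (nat_lit 5) (nat_lit 124) (nat_lit 5) (nat_lit 660) (nat_lit 559) (nat_lit 341)) (XT.lf (nat_lit 0) (nat_lit 5552587857) (nat_lit 380) (nat_lit 21928410834) (nat_lit 76) (nat_lit 934068586) (nat_lit 114) (nat_lit 5) (nat_lit 119) (nat_lit 5) (nat_lit 115) (nat_lit 5) (nat_lit 661) (nat_lit 559) (nat_lit 340)))) (XT.nd (nat_lit 78) (nat_lit 304) (nat_lit 0) (XT.lf (nat_lit 0) (nat_lit 12728621397) (nat_lit 380) (nat_lit 4807155702) (nat_lit 76) (nat_lit 11239455292) (nat_lit 114) (nat_lit 5) (nat_lit 119) (nat_lit 5) (nat_lit 115) (nat_lit 5) (nat_lit 662) (nat_lit 559) (nat_lit 339)) (XT.nd (nat_lit 73164) (nat_lit 0) (nat_lit 32224) (XT.lf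 (nat_lit 0) (nat_lit 12815984386) (nat_lit 304) (nat_lit 7310190860) (nat_lit 380) (nat_lit 9014865775) (nat_lit 110) (nat_lit 5) (nat_lit 114) (nat_lit 5) (nat_lit 115) (nat_lit 5) (nat_lit 663) (nat_lit 559) (nat_lit 338)) (XT.lf (nat_lit 0) (nat_lit 401708023) (nat_lit 0) (nat_lit 401708023) (nat_lit 1596) (nat_lit 3954061425) (nat_lit 534) (nat_lit 5) (nat_lit 534) (nat_lit 3) (nat_lit 555) (nat_lit 3) (nat_lit 560) (nat_lit 560) (nat_lit 440))))) (XT.nd (nat_lit 234) (nat_lit 0) (nat_lit 76) (XT.nd (nat_lit 78) (nat_lit 0) (nat_lit 0) (XT.lf (nat_lit 0) (nat_lit 2438548001) (nat_lit 1596) (nat_lit 4023740982) (nat_lit 1672) (nat_lit 3131423569) (nat_lit 534) (nat_lit 5) (nat_lit 555) (nat_lit 3) (nat_lit 556) (nat_lit 5) (nat_lit 561) (nat_lit 560) (nat_lit 439)) (XT.nd (nat_lit 78) (nat_lit 0) (nat_lit 76) (XT.lf (nat_lit 76) (nat_lit 751433406) (nat_lit 0) (nat_lit 2524877614) (nat_lit 1672) (nat_lit 6397948110) (nat_lit 535) (nat_lit 5) (nat_lit 534) (nat_lit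 5) (nat_lit 556) (nat_lit 5) (nat_lit 562) (nat_lit 560) (nat_lit 438)) (XT.lf (nat_lit 0) (nat_lit 4147304848) (nat_lit 1596) (nat_lit 4100399295) (nat_lit 1672) (nat_lit 1508385017) (nat_lit 535) (nat_lit 5) (nat_lit 556) (nat_lit 5) (nat_lit 557) (nat_lit 5) (nat_lit 563) (nat_lit 560) (nat_lit 437)))) (XT.nd (nat_lit 156) (nat_lit 0) (nat_lit 76) (XT.nd (nat_lit 78) (nat_lit 0) (nat_lit 0) (XT.lf (nat_lit 76) (nat_lit 801168333) (nat_lit 0) (nat_lit 4236485641) (nat_lit 1672) (nat_lit 4801865098) (nat_lit 536) (nat_lit 5) (nat_lit 535) (nat_lit 5) (nat_lit 557) (nat_lit 5) (nat_lit 564) (nat_lit 560) (nat_lit 436)) (XT.lf (nat_lit 76) (nat_lit 5845328542) (nat_lit 0) (nat_lit 108330399) (nat_lit 1672) (nat_lit 3970803619) (nat_lit 536) (nat_lit 5) (nat_lit 535) (nat_lit 5) (nat_lit 557) (nat_lit 5) (nat_lit 565) (nat_lit 560) (nat_lit 435))) (XT.nd (nat_lit 78) (nat_lit 0) (nat_lit 0) (XT.lf (nat_lit 76) (nat_lit 953894866) (nat_lit 0) (nat_lit 5947691563)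 (nat_lit 1672) (nat_lit 3109248352) (nat_lit 537) (nat_lit 5) (nat_lit 536) (nat_lit 5) (nat_lit 558) (nat_lit 5) (nat_lit 566) (nat_lit 560) (nat_lit 434)) (XT.lf (nat_lit 76) (nat_lit 6130977856) (nat_lit 0) (nat_lit 1746658573) (nat_lit 1672) (nat_lit 2221116617) (nat_lit 537) (nat_lit 5) (nat_lit 536) (nat_lit 5) (nat_lit 558) (nat_lit 5) (nat_lit 567) (nat_lit 560) (nat_lit 433)))))) (XT.nd (nat_lit 546) (nat_lit 1444) (nat_lit 0) (XT.nd (nat_lit 234) (nat_lit 0) (nat_lit 0) (XT.nd (nat_lit 78) (nat_lit 1596) (nat_lit 0) (XT.lf (nat_lit 76) (nat_lit 1211200648) (nat_lit 0) (nat_lit 7667850106) (nat_lit 1672) (nat_lit 1309263893) (nat_lit 538) (nat_lit 5) (nat_lit 537) (nat_lit 5) (nat_lit 559) (nat_lit 5) (nat_lit 568) (nat_lit 560) (nat_lit 432)) (XT.nd (nat_lit 78) (nat_lit 1596) (nat_lit 0) (XT.lf (nat_lit 76) (nat_lit 6524517737) (nat_lit 0) (nat_lit 3395880527) (nat_lit 1672) (nat_lit 358872924) (nat_lit 538) (nat_lit 5) (nat_lit 537) (nat_lit 5) (nat_lit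 559) (nat_lit 5) (nat_lit 569) (nat_lit 560) (nat_lit 431)) (XT.lf (nat_lit 0) (nat_lit 601165751) (nat_lit 1672) (nat_lit 8801045642) (nat_lit 1748) (nat_lit 969784979) (nat_lit 516) (nat_lit 5) (nat_lit 538) (nat_lit 5) (nat_lit 539) (nat_lit 5) (nat_lit 570) (nat_lit 560) (nat_lit 430)))) (XT.nd (nat_lit 156) (nat_lit 0) (nat_lit 76) (XT.nd (nat_lit 78) (nat_lit 0) (nat_lit 0) (XT.lf (nat_lit 0) (nat_lit 1605803177) (nat_lit 1672) (nat_lit 3448682775) (nat_lit 1748) (nat_lit 5411440301) (nat_lit 516) (nat_lit 5) (nat_lit 538) (nat_lit 5) (nat_lit 539) (nat_lit 5) (nat_lit 571) (nat_lit 560) (nat_lit 429)) (XT.lf (nat_lit 76) (nat_lit 2025881930) (nat_lit 0) (nat_lit 600497224) (nat_lit 1748) (nat_lit 7935440326) (nat_lit 517) (nat_lit 5) (nat_lit 516) (nat_lit 5) (nat_lit 539) (nat_lit 5) (nat_lit 572) (nat_lit 560) (nat_lit 428))) (XT.nd (nat_lit 78) (nat_lit 0) (nat_lit 0) (XT.lf (nat_lit 0) (nat_lit 3699255367) (nat_lit 1672) (nat_lit 3039952655) (nat_lit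 1748) (nat_lit 3919786410) (nat_lit 517) (nat_lit 5) (nat_lit 539) (nat_lit 5) (nat_lit 540) (nat_lit 5) (nat_lit 573) (nat_lit 560) (nat_lit 427)) (XT.lf (nat_lit 76) (nat_lit 2584379924) (nat_lit 0) (nat_lit 2213294107) (nat_lit 1748) (nat_lit 5960358754) (nat_lit 518) (nat_lit 5) (nat_lit 517) (nat_lit 5) (nat_lit 540) (nat_lit 5) (nat_lit 574) (nat_lit 560) (nat_lit 426))))) (XT.nd (nat_lit 234) (nat_lit 1596) (nat_lit 0) (XT.nd (nat_lit 78) (nat_lit 0) (nat_lit 0) (XT.lf (nat_lit 0) (nat_lit 5937812506) (nat_lit 1672) (nat_lit 2523751923) (nat_lit 1748) (nat_lit 2397094019) (nat_lit 518) (nat_lit 5) (nat_lit 540) (nat_lit 5) (nat_lit 541) (nat_lit 5) (nat_lit 575) (nat_lit 560) (nat_lit 425)) (XT.nd (nat_lit 78) (nat_lit 0) (nat_lit 76) (XT.lf (nat_lit 76) (nat_lit 3255642040) (nat_lit 0) (nat_lit 3864842259) (nat_lit 1748) (nat_lit 3840419252) (nat_lit 519) (nat_lit 5) (nat_lit 518) (nat_lit 5) (nat_lit 541) (nat_lit 5) (nat_lit 576) (nat_lit 560) (nat_lit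 424)) (XT.lf (nat_lit 0) (nat_lit 8333410125) (nat_lit 1672) (nat_lit 1897297799) (nat_lit 1748) (nat_lit 834355131) (nat_lit 519) (nat_lit 5) (nat_lit 541) (nat_lit 5) (nat_lit 542) (nat_lit 5) (nat_lit 577) (nat_lit 560) (nat_lit 423)))) (XT.nd (nat_lit 156) (nat_lit 1672) (nat_lit 0) (XT.nd (nat_lit 78) (nat_lit 0) (nat_lit 0) (XT.lf (nat_lit 76) (nat_lit 4042666131) (nat_lit 0) (nat_lit 5564284698) (nat_lit 1748) (nat_lit 1563629272) (nat_lit 520) (nat_lit 5) (nat_lit 519) (nat_lit 5) (nat_lit 542) (nat_lit 5) (nat_lit 578) (nat_lit 560) (nat_lit 422)) (XT.lf (nat_lit 76) (nat_lit 10115639557) (nat_lit 0) (nat_lit 787797303) (nat_lit 1748) (nat_lit 374822588) (nat_lit 520) (nat_lit 5) (nat_lit 519) (nat_lit 5) (nat_lit 542) (nat_lit 5) (nat_lit 579) (nat_lit 560) (nat_lit 421))) (XT.nd (nat_lit 78) (nat_lit 0) (nat_lit 0) (XT.lf (nat_lit 0) (nat_lit 870774712) (nat_lit 1748) (nat_lit 6444188790) (nat_lit 1824) (nat_lit 4072141452) (nat_lit 497) (nat_lit 5)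 (nat_lit 520) (nat_lit 5) (nat_lit 521) (nat_lit 5) (nat_lit 580) (nat_lit 560) (nat_lit 420)) (XT.lf (nat_lit 0) (nat_lit 2134525239) (nat_lit 1748) (nat_lit 331128758) (nat_lit 1824) (nat_lit 9032459984) (nat_lit 497) (nat_lit 5) (nat_lit 520) (nat_lit 5) (nat_lit 521) (nat_lit 5) (nat_lit 581) (nat_lit 560) (nat_lit 419))))))))
noncomputable def xc165 : XT := (XT.nd (nat_lit 2106) (nat_lit 9348) (nat_lit 0) (XT.nd (nat_lit 1014) (nat_lit 6308) (nat_lit 0) (XT.nd (nat_lit 468) (nat_lit 3800) (nat_lit 0) (XT.nd (nat_lit 234) (nat_lit 3496) (nat_lit 0) (XT.nd (nat_lit 78) (nat_lit 0) (nat_lit 0) (XT.lf (nat_lit 0) (nat_lit 3464176153) (nat_lit 1748) (nat_lit 5656237626) (nat_lit 1824) (nat_lit 2490118243) (nat_lit 498) (nat_lit 5) (nat_lit 521) (nat_lit 5) (nat_lit 522) (nat_lit 5) (nat_lit 582) (nat_lit 560) (nat_lit 418)) (XT.nd (nat_lit 78) (nat_lit 0) (nat_lit 76) (XT.lf (nat_lit 76) (nat_lit 624882886) (nat_lit 0) (nat_lit 4203864650) (nat_lit 1824) (nat_lit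 6896285651) (nat_lit 499) (nat_lit 5) (nat_lit 498) (nat_lit 5) (nat_lit 522) (nat_lit 5) (nat_lit 583) (nat_lit 560) (nat_lit 417)) (XT.lf (nat_lit 0) (nat_lit 6250008871) (nat_lit 1748) (nat_lit 4750236017) (nat_lit 76) (nat_lit 840992808) (nat_lit 499) (nat_lit 5) (nat_lit 522) (nat_lit 5) (nat_lit 500) (nat_lit 5) (nat_lit 584) (nat_lit 560) (nat_lit 416)))) (XT.nd (nat_lit 78) (nat_lit 1824) (nat_lit 0) (XT.lf (nat_lit 0) (nat_lit 1709540311) (nat_lit 1748) (nat_lit 6015295904) (nat_lit 1824) (nat_lit 4234428526) (nat_lit 476) (nat_lit 5) (nat_lit 499) (nat_lit 5) (nat_lit 500) (nat_lit 5) (nat_lit 585) (nat_lit 560) (nat_lit 415)) (XT.nd (nat_lit 78) (nat_lit 1824) (nat_lit 0) (XT.lf (nat_lit 0) (nat_lit 8351262944) (nat_lit 1748) (nat_lit 896169888) (nat_lit 1824) (nat_lit 2831855278) (nat_lit 476) (nat_lit 5) (nat_lit 499) (nat_lit 5) (nat_lit 500) (nat_lit 5) (nat_lit 586) (nat_lit 560) (nat_lit 414)) (XT.lf (nat_lit 0) (nat_lit 2922664236) (nat_lit 1824)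 (nat_lit 7911551375) (nat_lit 1900) (nat_lit 1366822865) (nat_lit 452) (nat_lit 5) (nat_lit 476) (nat_lit 5) (nat_lit 477) (nat_lit 5) (nat_lit 587) (nat_lit 560) (nat_lit 413))))) (XT.nd (nat_lit 234) (nat_lit 2660) (nat_lit 0) (XT.nd (nat_lit 78) (nat_lit 1064) (nat_lit 0) (XT.lf (nat_lit 0) (nat_lit 143728515) (nat_lit 1900) (nat_lit 2586542345) (nat_lit 76) (nat_lit 9594579785) (nat_lit 451) (nat_lit 5) (nat_lit 476) (nat_lit 5) (nat_lit 452) (nat_lit 5) (nat_lit 588) (nat_lit 560) (nat_lit 412)) (XT.nd (nat_lit 78) (nat_lit 0) (nat_lit 0) (XT.lf (nat_lit 0) (nat_lit 1697831319) (nat_lit 1140) (nat_lit 8192927461) (nat_lit 76) (nat_lit 2559567885) (nat_lit 437) (nat_lit 5) (nat_lit 452) (nat_lit 5) (nat_lit 438) (nat_lit 5) (nat_lit 589) (nat_lit 560) (nat_lit 411)) (XT.lf (nat_lit 0) (nat_lit 3305790016) (nat_lit 1140) (nat_lit 1334630657) (nat_lit 76) (nat_lit 7937437178) (nat_lit 437) (nat_lit 5) (nat_lit 452) (nat_lit 5) (nat_lit 438) (nat_lit 5) (nat_lit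 590) (nat_lit 560) (nat_lit 410)))) (XT.nd (nat_lit 156) (nat_lit 836) (nat_lit 0) (XT.nd (nat_lit 78) (nat_lit 912) (nat_lit 0) (XT.lf (nat_lit 0) (nat_lit 4975440004) (nat_lit 988) (nat_lit 6987953821) (nat_lit 76) (nat_lit 743956291) (nat_lit 425) (nat_lit 5) (nat_lit 438) (nat_lit 5) (nat_lit 426) (nat_lit 5) (nat_lit 591) (nat_lit 560) (nat_lit 409)) (XT.lf (nat_lit 0) (nat_lit 51528985) (nat_lit 912) (nat_lit 6654683650) (nat_lit 988) (nat_lit 6132666078) (nat_lit 413) (nat_lit 5) (nat_lit 425) (nat_lit 5) (nat_lit 426) (nat_lit 5) (nat_lit 592) (nat_lit 560) (nat_lit 408))) (XT.nd (nat_lit 78) (nat_lit 836) (nat_lit 0) (XT.lf (nat_lit 0) (nat_lit 7314903759) (nat_lit 912) (nat_lit 1191404976) (nat_lit 988) (nat_lit 4466036042) (nat_lit 413) (nat_lit 5) (nat_lit 425) (nat_lit 5) (nat_lit 426) (nat_lit 5) (nat_lit 593) (nat_lit 560) (nat_lit 407)) (XT.lf (nat_lit 0) (nat_lit 1595914390) (nat_lit 836) (nat_lit 8773357038) (nat_lit 912) (nat_lit 2738672477)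 (nat_lit 402) (nat_lit 5) (nat_lit 413) (nat_lit 5) (nat_lit 414) (nat_lit 5) (nat_lit 594) (nat_lit 560) (nat_lit 406)))))) (XT.nd (nat_lit 546) (nat_lit 2964) (nat_lit 0) (XT.nd (nat_lit 234) (nat_lit 2432) (nat_lit 0) (XT.nd (nat_lit 78) (nat_lit 912) (nat_lit 0) (XT.lf (nat_lit 0) (nat_lit 9051469698) (nat_lit 836) (nat_lit 3252043055) (nat_lit 912) (nat_lit 942062891) (nat_lit 402) (nat_lit 5) (nat_lit 413) (nat_lit 5) (nat_lit 414) (nat_lit 5) (nat_lit 595) (nat_lit 560) (nat_lit 405)) (XT.nd (nat_lit 78) (nat_lit 0) (nat_lit 0) (XT.lf (nat_lit 0) (nat_lit 904202623) (nat_lit 912) (nat_lit 10105146742) (nat_lit 76) (nat_lit 2375987947) (nat_lit 390) (nat_lit 5) (nat_lit 402) (nat_lit 5) (nat_lit 391) (nat_lit 5) (nat_lit 596) (nat_lit 560) (nat_lit 404)) (XT.lf (nat_lit 0) (nat_lit 2813183441) (nat_lit 912) (nat_lit 2606112517) (nat_lit 76) (nat_lit 8107706587) (nat_lit 390) (nat_lit 5) (nat_lit 402) (nat_lit 5) (nat_lit 391) (nat_lit 5) (nat_lit 597) (nat_lit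 560) (nat_lit 403)))) (XT.nd (nat_lit 156) (nat_lit 1596) (nat_lit 0) (XT.nd (nat_lit 78) (nat_lit 0) (nat_lit 0) (XT.lf (nat_lit 0) (nat_lit 4784248130) (nat_lit 912) (nat_lit 8574765671) (nat_lit 76) (nat_lit 312010135) (nat_lit 379) (nat_lit 5) (nat_lit 391) (nat_lit 5) (nat_lit 380) (nat_lit 5) (nat_lit 598) (nat_lit 560) (nat_lit 402)) (XT.lf (nat_lit 0) (nat_lit 6837122785) (nat_lit 912) (nat_lit 877140690) (nat_lit 76) (nat_lit 6102815426) (nat_lit 379) (nat_lit 5) (nat_lit 391) (nat_lit 5) (nat_lit 380) (nat_lit 5) (nat_lit 599) (nat_lit 560) (nat_lit 401))) (XT.nd (nat_lit 78) (nat_lit 760) (nat_lit 0) (XT.lf (nat_lit 0) (nat_lit 7055636938) (nat_lit 836) (nat_lit 1910340704) (nat_lit 912) (nat_lit 4999379772) (nat_lit 368) (nat_lit 5) (nat_lit 379) (nat_lit 5) (nat_lit 380) (nat_lit 5) (nat_lit 600) (nat_lit 560) (nat_lit 400)) (XT.lf (nat_lit 0) (nat_lit 1018285151) (nat_lit 760) (nat_lit 10146944114) (nat_lit 836) (nat_lit 2950816722) (nat_lit 358)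 (nat_lit 5) (nat_lit 368) (nat_lit 5) (nat_lit 369) (nat_lit 5) (nat_lit 601) (nat_lit 560) (nat_lit 399))))) (XT.nd (nat_lit 234) (nat_lit 2128) (nat_lit 0) (XT.nd (nat_lit 78) (nat_lit 836) (nat_lit 0) (XT.lf (nat_lit 0) (nat_lit 9174296364) (nat_lit 760) (nat_lit 4282492085) (nat_lit 836) (nat_lit 811994301) (nat_lit 358) (nat_lit 5) (nat_lit 368) (nat_lit 5) (nat_lit 369) (nat_lit 5) (nat_lit 602) (nat_lit 560) (nat_lit 398)) (XT.nd (nat_lit 78) (nat_lit 0) (nat_lit 0) (XT.lf (nat_lit 0) (nat_lit 1372442752) (nat_lit 836) (nat_lit 11346263194) (nat_lit 76) (nat_lit 1705275269) (nat_lit 347) (nat_lit 5) (nat_lit 358) (nat_lit 5) (nat_lit 348) (nat_lit 5) (nat_lit 603) (nat_lit 560) (nat_lit 397)) (XT.lf (nat_lit 0) (nat_lit 3642131645) (nat_lit 836) (nat_lit 3144583182) (nat_lit 76) (nat_lit 7794413582) (nat_lit 347) (nat_lit 5) (nat_lit 358) (nat_lit 5) (nat_lit 348) (nat_lit 5) (nat_lit 604) (nat_lit 560) (nat_lit 396)))) (XT.nd (nat_lit 156) (nat_lit 1444)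 (nat_lit 0) (XT.nd (nat_lit 78) (nat_lit 0) (nat_lit 0) (XT.lf (nat_lit 0) (nat_lit 5279149619) (nat_lit 684) (nat_lit 702194924) (nat_lit 760) (nat_lit 8759592198) (nat_lit 338) (nat_lit 5) (nat_lit 347) (nat_lit 5) (nat_lit 348) (nat_lit 5) (nat_lit 605) (nat_lit 560) (nat_lit 395)) (XT.lf (nat_lit 0) (nat_lit 8414292735) (nat_lit 760) (nat_lit 1036749806) (nat_lit 76) (nat_lit 5451960465) (nat_lit 338) (nat_lit 5) (nat_lit 348) (nat_lit 5) (nat_lit 339) (nat_lit 5) (nat_lit 606) (nat_lit 560) (nat_lit 394))) (XT.nd (nat_lit 78) (nat_lit 684) (nat_lit 0) (XT.lf (nat_lit 0) (nat_lit 7641238623) (nat_lit 760) (nat_lit 3299093906) (nat_lit 836) (nat_lit 4127090183) (nat_lit 328) (nat_lit 5) (nat_lit 338) (nat_lit 5) (nat_lit 339) (nat_lit 5) (nat_lit 607) (nat_lit 560) (nat_lit 393)) (XT.lf (nat_lit 0) (nat_lit 1257747916) (nat_lit 684) (nat_lit 12283918760) (nat_lit 760) (nat_lit 1692969420) (nat_lit 319) (nat_lit 5) (nat_lit 328) (nat_lit 5) (nat_lit 329) (nat_lit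 5) (nat_lit 608) (nat_lit 560) (nat_lit 392))))))) (XT.nd (nat_lit 1092) (nat_lit 4180) (nat_lit 0) (XT.nd (nat_lit 546) (nat_lit 2432) (nat_lit 0) (XT.nd (nat_lit 234) (nat_lit 1976) (nat_lit 0) (XT.nd (nat_lit 78) (nat_lit 684) (nat_lit 0) (XT.lf (nat_lit 0) (nat_lit 841823423) (nat_lit 760) (nat_lit 5226765054) (nat_lit 76) (nat_lit 9335256464) (nat_lit 318) (nat_lit 5) (nat_lit 328) (nat_lit 5) (nat_lit 319) (nat_lit 5) (nat_lit 609) (nat_lit 560) (nat_lit 391)) (XT.nd (nat_lit 78) (nat_lit 0) (nat_lit 0) (XT.lf (nat_lit 0) (nat_lit 3421359180) (nat_lit 760) (nat_lit 11852964795) (nat_lit 76) (nat_lit 301556570) (nat_lit 309) (nat_lit 5) (nat_lit 319) (nat_lit 5) (nat_lit 310) (nat_lit 5) (nat_lit 610) (nat_lit 560) (nat_lit 390)) (XT.lf (nat_lit 0) (nat_lit 6118611455) (nat_lit 760) (nat_lit 2879803870) (nat_lit 76) (nat_lit 6751619718) (nat_lit 309) (nat_lit 5) (nat_lit 319) (nat_lit 5) (nat_lit 310) (nat_lit 5) (nat_lit 611) (nat_lit 560) (nat_lit 389))))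 (XT.nd (nat_lit 156) (nat_lit 1368) (nat_lit 0) (XT.nd (nat_lit 78) (nat_lit 0) (nat_lit 0) (XT.lf (nat_lit 0) (nat_lit 6345088987) (nat_lit 608) (nat_lit 2556729893) (nat_lit 684) (nat_lit 7025214232) (nat_lit 301) (nat_lit 5) (nat_lit 309) (nat_lit 5) (nat_lit 310) (nat_lit 5) (nat_lit 612) (nat_lit 560) (nat_lit 388)) (XT.lf (nat_lit 0) (nat_lit 11777115022) (nat_lit 684) (nat_lit 350903370) (nat_lit 76) (nat_lit 3978824928) (nat_lit 301) (nat_lit 5) (nat_lit 310) (nat_lit 5) (nat_lit 302) (nat_lit 5) (nat_lit 613) (nat_lit 560) (nat_lit 387))) (XT.nd (nat_lit 78) (nat_lit 684) (nat_lit 0) (XT.lf (nat_lit 0) (nat_lit 9157092971) (nat_lit 684) (nat_lit 5620299637) (nat_lit 760) (nat_lit 1511508273) (nat_lit 292) (nat_lit 5) (nat_lit 301) (nat_lit 5) (nat_lit 302) (nat_lit 5) (nat_lit 614) (nat_lit 560) (nat_lit 386)) (XT.lf (nat_lit 0) (nat_lit 1361039984) (nat_lit 684) (nat_lit 14083863462) (nat_lit 76) (nat_lit 1029202960) (nat_lit 283) (nat_lit 5) (nat_lit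 292) (nat_lit 5) (nat_lit 284) (nat_lit 5) (nat_lit 615) (nat_lit 560) (nat_lit 385))))) (XT.nd (nat_lit 234) (nat_lit 1824) (nat_lit 0) (XT.nd (nat_lit 78) (nat_lit 608) (nat_lit 0) (XT.lf (nat_lit 0) (nat_lit 4347440585) (nat_lit 684) (nat_lit 4521166332) (nat_lit 76) (nat_lit 7792677114) (nat_lit 283) (nat_lit 5) (nat_lit 292) (nat_lit 5) (nat_lit 284) (nat_lit 5) (nat_lit 616) (nat_lit 560) (nat_lit 384)) (XT.nd (nat_lit 78) (nat_lit 0) (nat_lit 0) (XT.lf (nat_lit 0) (nat_lit 5291429509) (nat_lit 608) (nat_lit 2127893099) (nat_lit 684) (nat_lit 9432368139) (nat_lit 275) (nat_lit 5) (nat_lit 283) (nat_lit 5) (nat_lit 284) (nat_lit 5) (nat_lit 617) (nat_lit 560) (nat_lit 383)) (XT.lf (nat_lit 0) (nat_lit 10605490497) (nat_lit 684) (nat_lit 1725600692) (nat_lit 76) (nat_lit 4713758040) (nat_lit 275) (nat_lit 5) (nat_lit 284) (nat_lit 5) (nat_lit 276) (nat_lit 5) (nat_lit 618) (nat_lit 560) (nat_lit 382)))) (XT.nd (nat_lit 156) (nat_lit 608) (nat_lit 0) (XT.nd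 (nat_lit 78) (nat_lit 608) (nat_lit 0) (XT.lf (nat_lit 0) (nat_lit 8391085147) (nat_lit 608) (nat_lit 5524519190) (nat_lit 684) (nat_lit 3325062673) (nat_lit 267) (nat_lit 5) (nat_lit 275) (nat_lit 5) (nat_lit 276) (nat_lit 5) (nat_lit 619) (nat_lit 560) (nat_lit 381)) (XT.lf (nat_lit 0) (nat_lit 1290256271) (nat_lit 608) (nat_lit 16022635886) (nat_lit 684) (nat_lit 127090129) (nat_lit 259) (nat_lit 5) (nat_lit 267) (nat_lit 5) (nat_lit 268) (nat_lit 5) (nat_lit 620) (nat_lit 560) (nat_lit 380))) (XT.nd (nat_lit 78) (nat_lit 532) (nat_lit 0) (XT.lf (nat_lit 0) (nat_lit 3181861423) (nat_lit 684) (nat_lit 5957326360) (nat_lit 76) (nat_lit 8501926892) (nat_lit 258) (nat_lit 5) (nat_lit 267) (nat_lit 5) (nat_lit 259) (nat_lit 5) (nat_lit 621) (nat_lit 560) (nat_lit 379)) (XT.lf (nat_lit 0) (nat_lit 4486383268) (nat_lit 532) (nat_lit 2089967288) (nat_lit 608) (nat_lit 11269481690) (nat_lit 251) (nat_lit 5) (nat_lit 258) (nat_lit 5) (nat_lit 259) (nat_lit 5) (nat_lit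 622) (nat_lit 560) (nat_lit 378)))))) (XT.nd (nat_lit 546) (nat_lit 2052) (nat_lit 0) (XT.nd (nat_lit 234) (nat_lit 1064) (nat_lit 0) (XT.nd (nat_lit 78) (nat_lit 1064) (nat_lit 0) (XT.lf (nat_lit 0) (nat_lit 10104089385) (nat_lit 608) (nat_lit 2878114030) (nat_lit 76) (nat_lit 5071134082) (nat_lit 251) (nat_lit 5) (nat_lit 259) (nat_lit 5) (nat_lit 252) (nat_lit 5) (nat_lit 623) (nat_lit 560) (nat_lit 377)) (XT.nd (nat_lit 78) (nat_lit 532) (nat_lit 0) (XT.lf (nat_lit 0) (nat_lit 7892110535) (nat_lit 532) (nat_lit 5867515139) (nat_lit 608) (nat_lit 4504222843) (nat_lit 244) (nat_lit 5) (nat_lit 251) (nat_lit 5) (nat_lit 252) (nat_lit 5) (nat_lit 624) (nat_lit 560) (nat_lit 376)) (XT.lf (nat_lit 0) (nat_lit 424515002) (nat_lit 532) (nat_lit 17087207697) (nat_lit 608) (nat_lit 966378567) (nat_lit 237) (nat_lit 5) (nat_lit 244) (nat_lit 5) (nat_lit 245) (nat_lit 5) (nat_lit 625) (nat_lit 560) (nat_lit 375)))) (XT.nd (nat_lit 156) (nat_lit 456) (nat_lit 0) (XT.nd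 (nat_lit 78) (nat_lit 532) (nat_lit 0) (XT.lf (nat_lit 0) (nat_lit 2708752107) (nat_lit 608) (nat_lit 7184943523) (nat_lit 76) (nat_lit 8800577171) (nat_lit 236) (nat_lit 5) (nat_lit 244) (nat_lit 5) (nat_lit 237) (nat_lit 5) (nat_lit 626) (nat_lit 560) (nat_lit 374)) (XT.lf (nat_lit 0) (nat_lit 3935992053) (nat_lit 532) (nat_lit 2526436655) (nat_lit 608) (nat_lit 12451852120) (nat_lit 229) (nat_lit 5) (nat_lit 236) (nat_lit 5) (nat_lit 237) (nat_lit 5) (nat_lit 627) (nat_lit 560) (nat_lit 373))) (XT.nd (nat_lit 78) (nat_lit 456) (nat_lit 0) (XT.lf (nat_lit 0) (nat_lit 10364579873) (nat_lit 608) (nat_lit 3804056773) (nat_lit 76) (nat_lit 4968584820) (nat_lit 229) (nat_lit 5) (nat_lit 237) (nat_lit 5) (nat_lit 230) (nat_lit 5) (nat_lit 628) (nat_lit 560) (nat_lit 372)) (XT.lf (nat_lit 0) (nat_lit 7667323693) (nat_lit 456) (nat_lit 6736591009) (nat_lit 532) (nat_lit 4959523860) (nat_lit 223) (nat_lit 5) (nat_lit 229) (nat_lit 5) (nat_lit 230) (nat_lit 5) (nat_lit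 629) (nat_lit 560) (nat_lit 371))))) (XT.nd (nat_lit 234) (nat_lit 988) (nat_lit 0) (XT.nd (nat_lit 78) (nat_lit 1064) (nat_lit 0) (XT.lf (nat_lit 0) (nat_lit 18547901656) (nat_lit 532) (nat_lit 189846564) (nat_lit 76) (nat_lit 855954922) (nat_lit 223) (nat_lit 5) (nat_lit 230) (nat_lit 5) (nat_lit 224) (nat_lit 5) (nat_lit 630) (nat_lit 560) (nat_lit 370)) (XT.nd (nat_lit 78) (nat_lit 456) (nat_lit 0) (XT.lf (nat_lit 0) (nat_lit 3021353627) (nat_lit 608) (nat_lit 8201558337) (nat_lit 76) (nat_lit 8603002948) (nat_lit 215) (nat_lit 5) (nat_lit 223) (nat_lit 5) (nat_lit 216) (nat_lit 5) (nat_lit 631) (nat_lit 560) (nat_lit 369)) (XT.lf (nat_lit 0) (nat_lit 3645495551) (nat_lit 456) (nat_lit 3528178063) (nat_lit 532) (nat_lit 12888602972) (nat_lit 209) (nat_lit 5) (nat_lit 215) (nat_lit 5) (nat_lit 216) (nat_lit 5) (nat_lit 632) (nat_lit 560) (nat_lit 368)))) (XT.nd (nat_lit 156) (nat_lit 532) (nat_lit 0) (XT.nd (nat_lit 78) (nat_lit 456) (nat_lit 0) (XT.lf (nat_lit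 0) (nat_lit 11485409234) (nat_lit 532) (nat_lit 4500125521) (nat_lit 76) (nat_lit 4316303770) (nat_lit 209) (nat_lit 5) (nat_lit 216) (nat_lit 5) (nat_lit 210) (nat_lit 5) (nat_lit 633) (nat_lit 560) (nat_lit 367)) (XT.lf (nat_lit 0) (nat_lit 7722872935) (nat_lit 456) (nat_lit 8227069698) (nat_lit 532) (nat_lit 4594918217) (nat_lit 203) (nat_lit 5) (nat_lit 209) (nat_lit 5) (nat_lit 210) (nat_lit 5) (nat_lit 634) (nat_lit 560) (nat_lit 366))) (XT.nd (nat_lit 78) (nat_lit 532) (nat_lit 0) (XT.lf (nat_lit 0) (nat_lit 20241485336) (nat_lit 456) (nat_lit 285607443) (nat_lit 532) (nat_lit 265184720) (nat_lit 203) (nat_lit 5) (nat_lit 209) (nat_lit 5) (nat_lit 210) (nat_lit 5) (nat_lit 635) (nat_lit 560) (nat_lit 365)) (XT.lf (nat_lit 0) (nat_lit 4219816311) (nat_lit 532) (nat_lit 9006423427) (nat_lit 76) (nat_lit 7815401773) (nat_lit 196) (nat_lit 5) (nat_lit 203) (nat_lit 5) (nat_lit 197) (nat_lit 5) (nat_lit 636) (nat_lit 560) (nat_lit 364))))))))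
noncomputable def xc166 : XT := (XT.nd (nat_lit 75270) (nat_lit 0) (nat_lit 27512) (XT.nd (nat_lit 1014) (nat_lit 2812) (nat_lit 0) (XT.nd (nat_lit 468) (nat_lit 1672) (nat_lit 0) (XT.nd (nat_lit 234) (nat_lit 912) (nat_lit 0) (XT.nd (nat_lit 78) (nat_lit 380) (nat_lit 0) (XT.lf (nat_lit 0) (nat_lit 3618485659) (nat_lit 456) (nat_lit 5194858317) (nat_lit 532) (nat_lit 12482166599) (nat_lit 190) (nat_lit 5) (nat_lit 196) (nat_lit 5) (nat_lit 197) (nat_lit 5) (nat_lit 637) (nat_lit 560) (nat_lit 363)) (XT.nd (nat_lit 78) (nat_lit 380) (nat_lit 0) (XT.lf (nat_lit 0) (nat_lit 13572357155) (nat_lit 532) (nat_lit 4964975012) (nat_lit 76) (nat_lit 3015652922) (nat_lit 190) (nat_lit 5) (nat_lit 197) (nat_lit 5) (nat_lit 191) (nat_lit 5) (nat_lit 638) (nat_lit 560) (nat_lit 362)) (XT.lf (nat_lit 0) (nat_lit 8063009321) (nat_lit 380) (nat_lit 10443743126) (nat_lit 456) (nat_lit 3307252972) (nat_lit 185) (nat_lit 5) (nat_lit 190) (nat_lit 5) (nat_lit 191) (nat_lit 5) (nat_lit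 639) (nat_lit 560) (nat_lit 361)))) (XT.nd (nat_lit 78) (nat_lit 836) (nat_lit 0) (XT.lf (nat_lit 0) (nat_lit 1467456272) (nat_lit 456) (nat_lit 680097155) (nat_lit 76) (nat_lit 19931963355) (nat_lit 184) (nat_lit 5) (nat_lit 190) (nat_lit 5) (nat_lit 185) (nat_lit 5) (nat_lit 640) (nat_lit 560) (nat_lit 360)) (XT.nd (nat_lit 78) (nat_lit 380) (nat_lit 0) (XT.lf (nat_lit 0) (nat_lit 6411721320) (nat_lit 532) (nat_lit 9601484871) (nat_lit 76) (nat_lit 6334328389) (nat_lit 178) (nat_lit 5) (nat_lit 185) (nat_lit 5) (nat_lit 179) (nat_lit 5) (nat_lit 641) (nat_lit 560) (nat_lit 359)) (XT.lf (nat_lit 0) (nat_lit 3855905532) (nat_lit 380) (nat_lit 7636461092) (nat_lit 456) (nat_lit 11127796546) (nat_lit 173) (nat_lit 5) (nat_lit 178) (nat_lit 5) (nat_lit 179) (nat_lit 5) (nat_lit 642) (nat_lit 560) (nat_lit 358))))) (XT.nd (nat_lit 234) (nat_lit 1216) (nat_lit 0) (XT.nd (nat_lit 78) (nat_lit 456) (nat_lit 0) (XT.lf (nat_lit 0) (nat_lit 16739062891) (nat_lit 456) (nat_lit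 5200254938) (nat_lit 76) (nat_lit 957638070) (nat_lit 173) (nat_lit 5) (nat_lit 179) (nat_lit 5) (nat_lit 174) (nat_lit 5) (nat_lit 643) (nat_lit 560) (nat_lit 357)) (XT.nd (nat_lit 78) (nat_lit 76) (nat_lit 0) (XT.lf (nat_lit 0) (nat_lit 8689028328) (nat_lit 380) (nat_lit 13502462258) (nat_lit 456) (nat_lit 985778269) (nat_lit 168) (nat_lit 5) (nat_lit 173) (nat_lit 5) (nat_lit 174) (nat_lit 5) (nat_lit 644) (nat_lit 560) (nat_lit 356)) (XT.lf (nat_lit 0) (nat_lit 4262475012) (nat_lit 456) (nat_lit 573390878) (nat_lit 76) (nat_lit 18626186299) (nat_lit 167) (nat_lit 5) (nat_lit 173) (nat_lit 5) (nat_lit 168) (nat_lit 5) (nat_lit 645) (nat_lit 560) (nat_lit 355)))) (XT.nd (nat_lit 156) (nat_lit 456) (nat_lit 0) (XT.nd (nat_lit 78) (nat_lit 380) (nat_lit 0) (XT.lf (nat_lit 0) (nat_lit 9712569450) (nat_lit 456) (nat_lit 9992547980) (nat_lit 76) (nat_lit 4045082229) (nat_lit 162) (nat_lit 5) (nat_lit 168) (nat_lit 5) (nat_lit 163) (nat_lit 5) (nat_lit 646) (nat_lit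 560) (nat_lit 354)) (XT.lf (nat_lit 0) (nat_lit 4354858039) (nat_lit 380) (nat_lit 10974970649) (nat_lit 456) (nat_lit 8713118430) (nat_lit 157) (nat_lit 5) (nat_lit 162) (nat_lit 5) (nat_lit 163) (nat_lit 5) (nat_lit 647) (nat_lit 560) (nat_lit 353))) (XT.nd (nat_lit 78) (nat_lit 456) (nat_lit 0) (XT.lf (nat_lit 0) (nat_lit 19115464668) (nat_lit 380) (nat_lit 2005071274) (nat_lit 456) (nat_lit 3219791818) (nat_lit 157) (nat_lit 5) (nat_lit 162) (nat_lit 5) (nat_lit 163) (nat_lit 5) (nat_lit 648) (nat_lit 560) (nat_lit 352)) (XT.lf (nat_lit 0) (nat_lit 2455668703) (nat_lit 456) (nat_lit 15059748257) (nat_lit 76) (nat_lit 7125859323) (nat_lit 151) (nat_lit 5) (nat_lit 157) (nat_lit 5) (nat_lit 152) (nat_lit 5) (nat_lit 649) (nat_lit 560) (nat_lit 351)))))) (XT.nd (nat_lit 546) (nat_lit 1368) (nat_lit 0) (XT.nd (nat_lit 234) (nat_lit 760) (nat_lit 0) (XT.nd (nat_lit 78) (nat_lit 684) (nat_lit 0) (XT.lf (nat_lit 0) (nat_lit 8244299090) (nat_lit 456) (nat_lit 236638112)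 (nat_lit 76) (nat_lit 16466025717) (nat_lit 151) (nat_lit 5) (nat_lit 157) (nat_lit 5) (nat_lit 152) (nat_lit 5) (nat_lit 650) (nat_lit 560) (nat_lit 350)) (XT.nd (nat_lit 78) (nat_lit 304) (nat_lit 0) (XT.lf (nat_lit 0) (nat_lit 14246226883) (nat_lit 456) (nat_lit 10190667460) (nat_lit 76) (nat_lit 819918720) (nat_lit 146) (nat_lit 5) (nat_lit 152) (nat_lit 5) (nat_lit 147) (nat_lit 5) (nat_lit 651) (nat_lit 560) (nat_lit 349)) (XT.lf (nat_lit 0) (nat_lit 5107182455) (nat_lit 304) (nat_lit 15346242640) (nat_lit 380) (nat_lit 5117730742) (nat_lit 142) (nat_lit 5) (nat_lit 146) (nat_lit 5) (nat_lit 147) (nat_lit 5) (nat_lit 652) (nat_lit 560) (nat_lit 348)))) (XT.nd (nat_lit 156) (nat_lit 304) (nat_lit 0) (XT.nd (nat_lit 78) (nat_lit 380) (nat_lit 0) (XT.lf (nat_lit 0) (nat_lit 944432855) (nat_lit 380) (nat_lit 5056546207) (nat_lit 76) (nat_lit 19889427448) (nat_lit 141) (nat_lit 5) (nat_lit 146) (nat_lit 5) (nat_lit 142) (nat_lit 5) (nat_lit 653) (nat_lit 560)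 (nat_lit 347)) (XT.lf (nat_lit 0) (nat_lit 7147250457) (nat_lit 456) (nat_lit 15480276920) (nat_lit 76) (nat_lit 3586079760) (nat_lit 136) (nat_lit 5) (nat_lit 142) (nat_lit 5) (nat_lit 137) (nat_lit 5) (nat_lit 654) (nat_lit 560) (nat_lit 346))) (XT.nd (nat_lit 78) (nat_lit 0) (nat_lit 0) (XT.lf (nat_lit 0) (nat_lit 320329768) (nat_lit 304) (nat_lit 13224240141) (nat_lit 380) (nat_lit 12997293204) (nat_lit 132) (nat_lit 5) (nat_lit 136) (nat_lit 5) (nat_lit 137) (nat_lit 5) (nat_lit 655) (nat_lit 560) (nat_lit 345)) (XT.lf (nat_lit 0) (nat_lit 16637987136) (nat_lit 304) (nat_lit 3530248082) (nat_lit 380) (nat_lit 6706481240) (nat_lit 132) (nat_lit 5) (nat_lit 136) (nat_lit 5) (nat_lit 137) (nat_lit 5) (nat_lit 656) (nat_lit 560) (nat_lit 344))))) (XT.nd (nat_lit 234) (nat_lit 684) (nat_lit 0) (XT.nd (nat_lit 78) (nat_lit 380) (nat_lit 0) (XT.lf (nat_lit 0) (nat_lit 6097751274) (nat_lit 304) (nat_lit 20902096127) (nat_lit 380) (nat_lit 212870231) (nat_lit 128)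 (nat_lit 5) (nat_lit 132) (nat_lit 5) (nat_lit 133) (nat_lit 5) (nat_lit 657) (nat_lit 560) (nat_lit 343)) (XT.nd (nat_lit 78) (nat_lit 304) (nat_lit 0) (XT.lf (nat_lit 0) (nat_lit 6413683508) (nat_lit 380) (nat_lit 4732607021) (nat_lit 76) (nat_lit 16408613150) (nat_lit 127) (nat_lit 5) (nat_lit 132) (nat_lit 5) (nat_lit 128) (nat_lit 5) (nat_lit 658) (nat_lit 560) (nat_lit 342)) (XT.lf (nat_lit 0) (nat_lit 12126472690) (nat_lit 304) (nat_lit 1116905538) (nat_lit 380) (nat_lit 14659058095) (nat_lit 123) (nat_lit 5) (nat_lit 127) (nat_lit 5) (nat_lit 128) (nat_lit 5) (nat_lit 659) (nat_lit 560) (nat_lit 341)))) (XT.nd (nat_lit 156) (nat_lit 380) (nat_lit 0) (XT.nd (nat_lit 78) (nat_lit 0) (nat_lit 0) (XT.lf (nat_lit 0) (nat_lit 1076759628) (nat_lit 304) (nat_lit 19225786386) (nat_lit 380) (nat_lit 7952516238) (nat_lit 119) (nat_lit 5) (nat_lit 123) (nat_lit 5) (nat_lit 124) (nat_lit 5) (nat_lit 660) (nat_lit 560) (nat_lit 340)) (XT.lf (nat_lit 0) (nat_lit 18464361003)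 (nat_lit 304) (nat_lit 9146548227) (nat_lit 380) (nat_lit 1001671441) (nat_lit 119) (nat_lit 5) (nat_lit 123) (nat_lit 5) (nat_lit 124) (nat_lit 5) (nat_lit 661) (nat_lit 560) (nat_lit 339))) (XT.nd (nat_lit 78) (nat_lit 0) (nat_lit 0) (XT.lf (nat_lit 0) (nat_lit 6058327666) (nat_lit 380) (nat_lit 21713683226) (nat_lit 76) (nat_lit 1203448497) (nat_lit 114) (nat_lit 5) (nat_lit 119) (nat_lit 5) (nat_lit 115) (nat_lit 5) (nat_lit 662) (nat_lit 560) (nat_lit 338)) (XT.lf (nat_lit 0) (nat_lit 13370142895) (nat_lit 380) (nat_lit 4262812714) (nat_lit 76) (nat_lit 11710027281) (nat_lit 114) (nat_lit 5) (nat_lit 119) (nat_lit 5) (nat_lit 115) (nat_lit 5) (nat_lit 663) (nat_lit 560) (nat_lit 337))))))) (XT.nd (nat_lit 1014) (nat_lit 2964) (nat_lit 0) (XT.nd (nat_lit 468) (nat_lit 1444) (nat_lit 0) (XT.nd (nat_lit 234) (nat_lit 0) (nat_lit 76) (XT.nd (nat_lit 78) (nat_lit 0) (nat_lit 0) (XT.lf (nat_lit 0) (nat_lit 804684258) (nat_lit 0) (nat_lit 804684258) (nat_lit 1596)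 (nat_lit 3227382346) (nat_lit 534) (nat_lit 5) (nat_lit 534) (nat_lit 3) (nat_lit 555) (nat_lit 3) (nat_lit 561) (nat_lit 561) (nat_lit 438)) (XT.nd (nat_lit 78) (nat_lit 0) (nat_lit 0) (XT.lf (nat_lit 0) (nat_lit 4031083515) (nat_lit 1596) (nat_lit 3293661962) (nat_lit 1672) (nat_lit 2429812162) (nat_lit 534) (nat_lit 5) (nat_lit 555) (nat_lit 3) (nat_lit 556) (nat_lit 5) (nat_lit 562) (nat_lit 561) (nat_lit 437)) (XT.lf (nat_lit 76) (nat_lit 1571683323) (nat_lit 0) (nat_lit 3288876609) (nat_lit 1672) (nat_lit 4976659070) (nat_lit 535) (nat_lit 5) (nat_lit 534) (nat_lit 5) (nat_lit 556) (nat_lit 5) (nat_lit 563) (nat_lit 561) (nat_lit 436)))) (XT.nd (nat_lit 78) (nat_lit 0) (nat_lit 0) (XT.lf (nat_lit 0) (nat_lit 5714653069) (nat_lit 1596) (nat_lit 3358506219) (nat_lit 1672) (nat_lit 848215714) (nat_lit 535) (nat_lit 5) (nat_lit 556) (nat_lit 5) (nat_lit 557) (nat_lit 5) (nat_lit 564) (nat_lit 561) (nat_lit 435)) (XT.nd (nat_lit 78) (nat_lit 0) (nat_lit 0) (XT.lf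 (nat_lit 76) (nat_lit 1635672361) (nat_lit 0) (nat_lit 4963345013) (nat_lit 1672) (nat_lit 3407934876) (nat_lit 536) (nat_lit 5) (nat_lit 535) (nat_lit 5) (nat_lit 557) (nat_lit 5) (nat_lit 565) (nat_lit 561) (nat_lit 434)) (XT.lf (nat_lit 76) (nat_lit 6764667133) (nat_lit 0) (nat_lit 740035888) (nat_lit 1672) (nat_lit 2589467217) (nat_lit 536) (nat_lit 5) (nat_lit 535) (nat_lit 5) (nat_lit 557) (nat_lit 5) (nat_lit 566) (nat_lit 561) (nat_lit 433))))) (XT.nd (nat_lit 234) (nat_lit 0) (nat_lit 0) (XT.nd (nat_lit 78) (nat_lit 1596) (nat_lit 0) (XT.lf (nat_lit 76) (nat_lit 1802778340) (nat_lit 0) (nat_lit 6642113268) (nat_lit 1672) (nat_lit 1737915033) (nat_lit 537) (nat_lit 5) (nat_lit 536) (nat_lit 5) (nat_lit 558) (nat_lit 5) (nat_lit 567) (nat_lit 561) (nat_lit 432)) (XT.nd (nat_lit 78) (nat_lit 1596) (nat_lit 0) (XT.lf (nat_lit 76) (nat_lit 7067132292) (nat_lit 0) (nat_lit 2345775934) (nat_lit 1672) (nat_lit 860128864) (nat_lit 537) (nat_lit 5) (nat_lit 536)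 (nat_lit 5) (nat_lit 558) (nat_lit 5) (nat_lit 568) (nat_lit 561) (nat_lit 431)) (XT.lf (nat_lit 0) (nat_lit 43718281) (nat_lit 1672) (nat_lit 8290428207) (nat_lit 1748) (nat_lit 2030743480) (nat_lit 515) (nat_lit 5) (nat_lit 537) (nat_lit 5) (nat_lit 538) (nat_lit 5) (nat_lit 569) (nat_lit 561) (nat_lit 430)))) (XT.nd (nat_lit 156) (nat_lit 0) (nat_lit 76) (XT.nd (nat_lit 78) (nat_lit 0) (nat_lit 76) (XT.lf (nat_lit 0) (nat_lit 973704156) (nat_lit 1672) (nat_lit 2986729280) (nat_lit 1748) (nat_lit 6497642880) (nat_lit 515) (nat_lit 5) (nat_lit 537) (nat_lit 5) (nat_lit 538) (nat_lit 5) (nat_lit 570) (nat_lit 561) (nat_lit 429)) (XT.lf (nat_lit 0) (nat_lit 1924280055) (nat_lit 1672) (nat_lit 8112334992) (nat_lit 1748) (nat_lit 516473204) (nat_lit 516) (nat_lit 5) (nat_lit 538) (nat_lit 5) (nat_lit 539) (nat_lit 5) (nat_lit 571) (nat_lit 561) (nat_lit 428))) (XT.nd (nat_lit 78) (nat_lit 0) (nat_lit 0) (XT.lf (nat_lit 0) (nat_lit 2923302563) (nat_lit 1672) (nat_lit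 2669880388) (nat_lit 1748) (nat_lit 5056230406) (nat_lit 516) (nat_lit 5) (nat_lit 538) (nat_lit 5) (nat_lit 539) (nat_lit 5) (nat_lit 572) (nat_lit 561) (nat_lit 427)) (XT.lf (nat_lit 76) (nat_lit 2908598137) (nat_lit 0) (nat_lit 1035956440) (nat_lit 1748) (nat_lit 6803067009) (nat_lit 517) (nat_lit 5) (nat_lit 516) (nat_lit 5) (nat_lit 539) (nat_lit 5) (nat_lit 573) (nat_lit 561) (nat_lit 426)))))) (XT.nd (nat_lit 546) (nat_lit 1520) (nat_lit 0) (XT.nd (nat_lit 234) (nat_lit 1596) (nat_lit 0) (XT.nd (nat_lit 78) (nat_lit 0) (nat_lit 0) (XT.lf (nat_lit 0) (nat_lit 5011376284) (nat_lit 1672) (nat_lit 2247435858) (nat_lit 1748) (nat_lit 3588480513) (nat_lit 517) (nat_lit 5) (nat_lit 539) (nat_lit 5) (nat_lit 540) (nat_lit 5) (nat_lit 574) (nat_lit 561) (nat_lit 425)) (XT.nd (nat_lit 78) (nat_lit 0) (nat_lit 76) (XT.lf (nat_lit 76) (nat_lit 3483769452) (nat_lit 0) (nat_lit 2629220539) (nat_lit 1748) (nat_lit 4835699583) (nat_lit 518) (nat_lit 5) (nat_lit 517) (nat_lit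 5) (nat_lit 540) (nat_lit 5) (nat_lit 575) (nat_lit 561) (nat_lit 424)) (XT.lf (nat_lit 0) (nat_lit 7249656416) (nat_lit 1672) (nat_lit 1716757489) (nat_lit 1748) (nat_lit 2085441629) (nat_lit 518) (nat_lit 5) (nat_lit 540) (nat_lit 5) (nat_lit 541) (nat_lit 5) (nat_lit 576) (nat_lit 561) (nat_lit 423)))) (XT.nd (nat_lit 156) (nat_lit 1672) (nat_lit 0) (XT.nd (nat_lit 78) (nat_lit 0) (nat_lit 76) (XT.lf (nat_lit 76) (nat_lit 4172583108) (nat_lit 0) (nat_lit 4265535296) (nat_lit 1748) (nat_lit 2718386642) (nat_lit 519) (nat_lit 5) (nat_lit 518) (nat_lit 5) (nat_lit 541) (nat_lit 5) (nat_lit 577) (nat_lit 561) (nat_lit 422)) (XT.lf (nat_lit 0) (nat_lit 9650200598) (nat_lit 1672) (nat_lit 1074906004) (nat_lit 1748) (nat_lit 538145378) (nat_lit 519) (nat_lit 5) (nat_lit 541) (nat_lit 5) (nat_lit 542) (nat_lit 5) (nat_lit 578) (nat_lit 561) (nat_lit 421))) (XT.nd (nat_lit 78) (nat_lit 1748) (nat_lit 0) (XT.lf (nat_lit 76) (nat_lit 4978197088) (nat_lit 0) (nat_lit 5954012745)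 (nat_lit 1748) (nat_lit 439011734) (nat_lit 520) (nat_lit 5) (nat_lit 519) (nat_lit 5) (nat_lit 542) (nat_lit 5) (nat_lit 579) (nat_lit 561) (nat_lit 420)) (XT.lf (nat_lit 0) (nat_lit 741058295) (nat_lit 1748) (nat_lit 330504761) (nat_lit 1824) (nat_lit 10409840411) (nat_lit 496) (nat_lit 5) (nat_lit 519) (nat_lit 5) (nat_lit 520) (nat_lit 5) (nat_lit 580) (nat_lit 561) (nat_lit 419))))) (XT.nd (nat_lit 234) (nat_lit 1596) (nat_lit 0) (XT.nd (nat_lit 78) (nat_lit 0) (nat_lit 0) (XT.lf (nat_lit 0) (nat_lit 1988472305) (nat_lit 1748) (nat_lit 5702004731) (nat_lit 1824) (nat_lit 3902262852) (nat_lit 497) (nat_lit 5) (nat_lit 520) (nat_lit 5) (nat_lit 521) (nat_lit 5) (nat_lit 581) (nat_lit 561) (nat_lit 418)) (XT.nd (nat_lit 78) (nat_lit 0) (nat_lit 76) (XT.lf (nat_lit 76) (nat_lit 523097254) (nat_lit 0) (nat_lit 2736222724) (nat_lit 1824) (nat_lit 8447014666) (nat_lit 498) (nat_lit 5) (nat_lit 497) (nat_lit 5) (nat_lit 521) (nat_lit 5) (nat_lit 582) (nat_lit 561)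 (nat_lit 417)) (XT.lf (nat_lit 0) (nat_lit 4595130716) (nat_lit 1748) (nat_lit 4898239824) (nat_lit 1824) (nat_lit 2328041122) (nat_lit 498) (nat_lit 5) (nat_lit 521) (nat_lit 5) (nat_lit 522) (nat_lit 5) (nat_lit 583) (nat_lit 561) (nat_lit 416)))) (XT.nd (nat_lit 156) (nat_lit 1672) (nat_lit 0) (XT.nd (nat_lit 78) (nat_lit 0) (nat_lit 76) (XT.lf (nat_lit 76) (nat_lit 1502772029) (nat_lit 0) (nat_lit 4469023114) (nat_lit 1824) (nat_lit 5966713590) (nat_lit 499) (nat_lit 5) (nat_lit 498) (nat_lit 5) (nat_lit 522) (nat_lit 5) (nat_lit 584) (nat_lit 561) (nat_lit 415)) (XT.lf (nat_lit 0) (nat_lit 7399809986) (nat_lit 1748) (nat_lit 3975052205) (nat_lit 76) (nat_lit 682610449) (nat_lit 499) (nat_lit 5) (nat_lit 522) (nat_lit 5) (nat_lit 500) (nat_lit 5) (nat_lit 585) (nat_lit 561) (nat_lit 414))) (XT.nd (nat_lit 78) (nat_lit 0) (nat_lit 0) (XT.lf (nat_lit 0) (nat_lit 2608194725) (nat_lit 1748) (nat_lit 6281457687) (nat_lit 1824) (nat_lit 3288499283) (nat_lit 476)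 (nat_lit 5) (nat_lit 499) (nat_lit 5) (nat_lit 500) (nat_lit 5) (nat_lit 586) (nat_lit 561) (nat_lit 413)) (XT.lf (nat_lit 0) (nat_lit 9365801544) (nat_lit 1748) (nat_lit 1057089232) (nat_lit 1824) (nat_lit 1878082762) (nat_lit 476) (nat_lit 5) (nat_lit 499) (nat_lit 5) (nat_lit 500) (nat_lit 5) (nat_lit 587) (nat_lit 561) (nat_lit 412))))))))
noncomputable def xc167 : XT := (XT.nd (nat_lit 2106) (nat_lit 8664) (nat_lit 0) (XT.nd (nat_lit 1014) (nat_lit 6612) (nat_lit 0) (XT.nd (nat_lit 468) (nat_lit 2584) (nat_lit 0) (XT.nd (nat_lit 234) (nat_lit 1824) (nat_lit 0) (XT.nd (nat_lit 78) (nat_lit 1140) (nat_lit 0) (XT.lf (nat_lit 0) (nat_lit 3843746843) (nat_lit 1824) (nat_lit 8182931158) (nat_lit 1900) (nat_lit 398777302) (nat_lit 452) (nat_lit 5) (nat_lit 476) (nat_lit 5) (nat_lit 477) (nat_lit 5) (nat_lit 588) (nat_lit 561) (nat_lit 411)) (XT.nd (nat_lit 78) (nat_lit 1064) (nat_lit 0) (XT.lf (nat_lit 0) (nat_lit 1109669170) (nat_lit 1900) (nat_lit 1779674580) (nat_lit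 76) (nat_lit 9662657639) (nat_lit 451) (nat_lit 5) (nat_lit 476) (nat_lit 5) (nat_lit 452) (nat_lit 5) (nat_lit 589) (nat_lit 561) (nat_lit 410)) (XT.lf (nat_lit 0) (nat_lit 2680880000) (nat_lit 1140) (nat_lit 7484130085) (nat_lit 76) (nat_lit 2515257989) (nat_lit 437) (nat_lit 5) (nat_lit 452) (nat_lit 5) (nat_lit 438) (nat_lit 5) (nat_lit 590) (nat_lit 561) (nat_lit 409)))) (XT.nd (nat_lit 78) (nat_lit 1824) (nat_lit 0) (XT.lf (nat_lit 0) (nat_lit 4302388222) (nat_lit 1140) (nat_lit 505778246) (nat_lit 76) (nat_lit 8002557241) (nat_lit 437) (nat_lit 5) (nat_lit 452) (nat_lit 5) (nat_lit 438) (nat_lit 5) (nat_lit 591) (nat_lit 561) (nat_lit 408)) (XT.nd (nat_lit 78) (nat_lit 912) (nat_lit 0) (XT.lf (nat_lit 0) (nat_lit 5992264221) (nat_lit 988) (nat_lit 6258920833) (nat_lit 76) (nat_lit 691885708) (nat_lit 425) (nat_lit 5) (nat_lit 438) (nat_lit 5) (nat_lit 426) (nat_lit 5) (nat_lit 592) (nat_lit 561) (nat_lit 407)) (XT.lf (nat_lit 0) (nat_lit 915635892) (nat_lit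 912) (nat_lit 6829633499) (nat_lit 988) (nat_lit 5332209766) (nat_lit 413) (nat_lit 5) (nat_lit 425) (nat_lit 5) (nat_lit 426) (nat_lit 5) (nat_lit 593) (nat_lit 561) (nat_lit 406))))) (XT.nd (nat_lit 234) (nat_lit 1748) (nat_lit 0) (XT.nd (nat_lit 78) (nat_lit 836) (nat_lit 0) (XT.lf (nat_lit 0) (nat_lit 8307355096) (nat_lit 912) (nat_lit 1256268543) (nat_lit 988) (nat_lit 3650347318) (nat_lit 413) (nat_lit 5) (nat_lit 425) (nat_lit 5) (nat_lit 426) (nat_lit 5) (nat_lit 594) (nat_lit 561) (nat_lit 405)) (XT.nd (nat_lit 78) (nat_lit 0) (nat_lit 0) (XT.lf (nat_lit 0) (nat_lit 2486387293) (nat_lit 836) (nat_lit 8965375536) (nat_lit 912) (nat_lit 1900762403) (nat_lit 402) (nat_lit 5) (nat_lit 413) (nat_lit 5) (nat_lit 414) (nat_lit 5) (nat_lit 595) (nat_lit 561) (nat_lit 404)) (XT.lf (nat_lit 0) (nat_lit 10074219302) (nat_lit 836) (nat_lit 3333310737) (nat_lit 912) (nat_lit 85724224) (nat_lit 402) (nat_lit 5) (nat_lit 413) (nat_lit 5) (nat_lit 414) (nat_lit 5) (nat_lit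 596) (nat_lit 561) (nat_lit 403)))) (XT.nd (nat_lit 156) (nat_lit 836) (nat_lit 0) (XT.nd (nat_lit 78) (nat_lit 0) (nat_lit 0) (XT.lf (nat_lit 0) (nat_lit 1774526733) (nat_lit 912) (nat_lit 9442446015) (nat_lit 76) (nat_lit 2418955427) (nat_lit 390) (nat_lit 5) (nat_lit 402) (nat_lit 5) (nat_lit 391) (nat_lit 5) (nat_lit 597) (nat_lit 561) (nat_lit 402)) (XT.lf (nat_lit 0) (nat_lit 3704976578) (nat_lit 912) (nat_lit 1810388040) (nat_lit 76) (nat_lit 8265397701) (nat_lit 390) (nat_lit 5) (nat_lit 402) (nat_lit 5) (nat_lit 391) (nat_lit 5) (nat_lit 598) (nat_lit 561) (nat_lit 401))) (XT.nd (nat_lit 78) (nat_lit 0) (nat_lit 0) (XT.lf (nat_lit 0) (nat_lit 5704662817) (nat_lit 912) (nat_lit 7887546192) (nat_lit 76) (nat_lit 335672490) (nat_lit 379) (nat_lit 5) (nat_lit 391) (nat_lit 5) (nat_lit 380) (nat_lit 5) (nat_lit 599) (nat_lit 561) (nat_lit 400)) (XT.lf (nat_lit 0) (nat_lit 7782423794) (nat_lit 912) (nat_lit 52806256) (nat_lit 76) (nat_lit 6241952276) (nat_lit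 379) (nat_lit 5) (nat_lit 391) (nat_lit 5) (nat_lit 380) (nat_lit 5) (nat_lit 600) (nat_lit 561) (nat_lit 399)))))) (XT.nd (nat_lit 546) (nat_lit 3496) (nat_lit 0) (XT.nd (nat_lit 234) (nat_lit 1520) (nat_lit 0) (XT.nd (nat_lit 78) (nat_lit 760) (nat_lit 0) (XT.lf (nat_lit 0) (nat_lit 8033088258) (nat_lit 836) (nat_lit 1910343466) (nat_lit 912) (nat_lit 4285204479) (nat_lit 368) (nat_lit 5) (nat_lit 379) (nat_lit 5) (nat_lit 380) (nat_lit 5) (nat_lit 601) (nat_lit 561) (nat_lit 398)) (XT.nd (nat_lit 78) (nat_lit 0) (nat_lit 0) (XT.lf (nat_lit 0) (nat_lit 1885163703) (nat_lit 760) (nat_lit 10291594285) (nat_lit 836) (nat_lit 2205780056) (nat_lit 358) (nat_lit 5) (nat_lit 368) (nat_lit 5) (nat_lit 369) (nat_lit 5) (nat_lit 602) (nat_lit 561) (nat_lit 397)) (XT.lf (nat_lit 0) (nat_lit 10187696849) (nat_lit 760) (nat_lit 4310996131) (nat_lit 836) (nat_lit 39946931) (nat_lit 358) (nat_lit 5) (nat_lit 368) (nat_lit 5) (nat_lit 369) (nat_lit 5) (nat_lit 603) (nat_lit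 561) (nat_lit 396)))) (XT.nd (nat_lit 156) (nat_lit 684) (nat_lit 0) (XT.nd (nat_lit 78) (nat_lit 0) (nat_lit 0) (XT.lf (nat_lit 0) (nat_lit 2168439303) (nat_lit 836) (nat_lit 10723411792) (nat_lit 76) (nat_lit 1805178124) (nat_lit 347) (nat_lit 5) (nat_lit 358) (nat_lit 5) (nat_lit 348) (nat_lit 5) (nat_lit 604) (nat_lit 561) (nat_lit 395)) (XT.lf (nat_lit 0) (nat_lit 4468452411) (nat_lit 836) (nat_lit 2374360467) (nat_lit 76) (nat_lit 8014809058) (nat_lit 347) (nat_lit 5) (nat_lit 358) (nat_lit 5) (nat_lit 348) (nat_lit 5) (nat_lit 605) (nat_lit 561) (nat_lit 394))) (XT.nd (nat_lit 78) (nat_lit 0) (nat_lit 0) (XT.lf (nat_lit 0) (nat_lit 6212365975) (nat_lit 684) (nat_lit 632683057) (nat_lit 760) (nat_lit 8175766581) (nat_lit 338) (nat_lit 5) (nat_lit 347) (nat_lit 5) (nat_lit 348) (nat_lit 5) (nat_lit 606) (nat_lit 561) (nat_lit 393)) (XT.lf (nat_lit 0) (nat_lit 9312598292) (nat_lit 760) (nat_lit 231964482) (nat_lit 76) (nat_lit 5641842730) (nat_lit 338) (nat_lit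 5) (nat_lit 348) (nat_lit 5) (nat_lit 339) (nat_lit 5) (nat_lit 607) (nat_lit 561) (nat_lit 392))))) (XT.nd (nat_lit 234) (nat_lit 1976) (nat_lit 0) (XT.nd (nat_lit 78) (nat_lit 760) (nat_lit 0) (XT.lf (nat_lit 0) (nat_lit 8614152661) (nat_lit 760) (nat_lit 3266016672) (nat_lit 836) (nat_lit 3474125182) (nat_lit 328) (nat_lit 5) (nat_lit 338) (nat_lit 5) (nat_lit 339) (nat_lit 5) (nat_lit 608) (nat_lit 561) (nat_lit 391)) (XT.nd (nat_lit 78) (nat_lit 76) (nat_lit 0) (XT.lf (nat_lit 0) (nat_lit 2111339299) (nat_lit 684) (nat_lit 12414062324) (nat_lit 760) (nat_lit 999614215) (nat_lit 319) (nat_lit 5) (nat_lit 328) (nat_lit 5) (nat_lit 329) (nat_lit 5) (nat_lit 609) (nat_lit 561) (nat_lit 390)) (XT.lf (nat_lit 0) (nat_lit 1562264836) (nat_lit 760) (nat_lit 4509704428) (nat_lit 76) (nat_lit 9625827663) (nat_lit 318) (nat_lit 5) (nat_lit 328) (nat_lit 5) (nat_lit 319) (nat_lit 5) (nat_lit 610) (nat_lit 561) (nat_lit 389)))) (XT.nd (nat_lit 156) (nat_lit 1292) (nat_lit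 0) (XT.nd (nat_lit 78) (nat_lit 0) (nat_lit 0) (XT.lf (nat_lit 0) (nat_lit 4185680533) (nat_lit 760) (nat_lit 11260665610) (nat_lit 76) (nat_lit 427082351) (nat_lit 309) (nat_lit 5) (nat_lit 319) (nat_lit 5) (nat_lit 310) (nat_lit 5) (nat_lit 611) (nat_lit 561) (nat_lit 388)) (XT.lf (nat_lit 0) (nat_lit 6923232870) (nat_lit 760) (nat_lit 2124303397) (nat_lit 76) (nat_lit 7003803729) (nat_lit 309) (nat_lit 5) (nat_lit 319) (nat_lit 5) (nat_lit 310) (nat_lit 5) (nat_lit 612) (nat_lit 561) (nat_lit 387))) (XT.nd (nat_lit 78) (nat_lit 684) (nat_lit 0) (XT.lf (nat_lit 0) (nat_lit 7279737997) (nat_lit 608) (nat_lit 2474233441) (nat_lit 684) (nat_lit 6478070243) (nat_lit 301) (nat_lit 5) (nat_lit 309) (nat_lit 5) (nat_lit 310) (nat_lit 5) (nat_lit 613) (nat_lit 561) (nat_lit 386)) (XT.lf (nat_lit 0) (nat_lit 452336230) (nat_lit 684) (nat_lit 12225006785) (nat_lit 760) (nat_lit 3738294665) (nat_lit 292) (nat_lit 5) (nat_lit 301) (nat_lit 5) (nat_lit 302) (nat_lit 5) (nat_lit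 614) (nat_lit 561) (nat_lit 385))))))) (XT.nd (nat_lit 1092) (nat_lit 3876) (nat_lit 0) (XT.nd (nat_lit 546) (nat_lit 2204) (nat_lit 0) (XT.nd (nat_lit 234) (nat_lit 1900) (nat_lit 0) (XT.nd (nat_lit 78) (nat_lit 684) (nat_lit 0) (XT.lf (nat_lit 0) (nat_lit 10139268414) (nat_lit 684) (nat_lit 5587633261) (nat_lit 760) (nat_lit 874650163) (nat_lit 292) (nat_lit 5) (nat_lit 301) (nat_lit 5) (nat_lit 302) (nat_lit 5) (nat_lit 615) (nat_lit 561) (nat_lit 384)) (XT.nd (nat_lit 78) (nat_lit 0) (nat_lit 0) (XT.lf (nat_lit 0) (nat_lit 2039887986) (nat_lit 684) (nat_lit 13550953198) (nat_lit 76) (nat_lit 1199668828) (nat_lit 283) (nat_lit 5) (nat_lit 292) (nat_lit 5) (nat_lit 284) (nat_lit 5) (nat_lit 616) (nat_lit 561) (nat_lit 383)) (XT.lf (nat_lit 0) (nat_lit 5073239594) (nat_lit 684) (nat_lit 3812974430) (nat_lit 76) (nat_lit 8095473607) (nat_lit 283) (nat_lit 5) (nat_lit 292) (nat_lit 5) (nat_lit 284) (nat_lit 5) (nat_lit 617) (nat_lit 561) (nat_lit 382)))) (XT.nd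 (nat_lit 156) (nat_lit 1292) (nat_lit 0) (XT.nd (nat_lit 78) (nat_lit 0) (nat_lit 0) (XT.lf (nat_lit 0) (nat_lit 6190619281) (nat_lit 608) (nat_lit 2008564530) (nat_lit 684) (nat_lit 8976867063) (nat_lit 275) (nat_lit 5) (nat_lit 283) (nat_lit 5) (nat_lit 284) (nat_lit 5) (nat_lit 618) (nat_lit 561) (nat_lit 381)) (XT.lf (nat_lit 0) (nat_lit 11437723664) (nat_lit 684) (nat_lit 970912906) (nat_lit 76) (nat_lit 4964663849) (nat_lit 275) (nat_lit 5) (nat_lit 284) (nat_lit 5) (nat_lit 276) (nat_lit 5) (nat_lit 619) (nat_lit 561) (nat_lit 380))) (XT.nd (nat_lit 78) (nat_lit 684) (nat_lit 0) (XT.lf (nat_lit 0) (nat_lit 9342914545) (nat_lit 608) (nat_lit 5464056252) (nat_lit 684) (nat_lit 2766205989) (nat_lit 267) (nat_lit 5) (nat_lit 275) (nat_lit 5) (nat_lit 276) (nat_lit 5) (nat_lit 620) (nat_lit 561) (nat_lit 379)) (XT.lf (nat_lit 0) (nat_lit 483381726) (nat_lit 684) (nat_lit 15673744287) (nat_lit 76) (nat_lit 1619405654) (nat_lit 258) (nat_lit 5) (nat_lit 267) (nat_lit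 5) (nat_lit 259) (nat_lit 5) (nat_lit 621) (nat_lit 561) (nat_lit 378))))) (XT.nd (nat_lit 234) (nat_lit 1672) (nat_lit 0) (XT.nd (nat_lit 78) (nat_lit 532) (nat_lit 0) (XT.lf (nat_lit 0) (nat_lit 3844825625) (nat_lit 684) (nat_lit 5293987993) (nat_lit 76) (nat_lit 8843096784) (nat_lit 258) (nat_lit 5) (nat_lit 267) (nat_lit 5) (nat_lit 259) (nat_lit 5) (nat_lit 622) (nat_lit 561) (nat_lit 377)) (XT.nd (nat_lit 78) (nat_lit 0) (nat_lit 0) (XT.lf (nat_lit 0) (nat_lit 5353447900) (nat_lit 532) (nat_lit 1947052118) (nat_lit 608) (nat_lit 10890357181) (nat_lit 251) (nat_lit 5) (nat_lit 258) (nat_lit 5) (nat_lit 259) (nat_lit 5) (nat_lit 623) (nat_lit 561) (nat_lit 376)) (XT.lf (nat_lit 0) (nat_lit 10888349349) (nat_lit 608) (nat_lit 2163098497) (nat_lit 76) (nat_lit 5351274364) (nat_lit 251) (nat_lit 5) (nat_lit 259) (nat_lit 5) (nat_lit 252) (nat_lit 5) (nat_lit 624) (nat_lit 561) (nat_lit 375)))) (XT.nd (nat_lit 156) (nat_lit 608) (nat_lit 0) (XT.nd (nat_lit 78)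 (nat_lit 532) (nat_lit 0) (XT.lf (nat_lit 0) (nat_lit 8817447810) (nat_lit 532) (nat_lit 5793116384) (nat_lit 608) (nat_lit 4007008656) (nat_lit 244) (nat_lit 5) (nat_lit 251) (nat_lit 5) (nat_lit 252) (nat_lit 5) (nat_lit 625) (nat_lit 561) (nat_lit 374)) (XT.lf (nat_lit 0) (nat_lit 1205690919) (nat_lit 532) (nat_lit 17226960441) (nat_lit 608) (nat_lit 403561068) (nat_lit 237) (nat_lit 5) (nat_lit 244) (nat_lit 5) (nat_lit 245) (nat_lit 5) (nat_lit 626) (nat_lit 561) (nat_lit 373))) (XT.nd (nat_lit 78) (nat_lit 532) (nat_lit 0) (XT.lf (nat_lit 0) (nat_lit 3326172377) (nat_lit 608) (nat_lit 6563586700) (nat_lit 76) (nat_lit 9167098733) (nat_lit 236) (nat_lit 5) (nat_lit 244) (nat_lit 5) (nat_lit 237) (nat_lit 5) (nat_lit 627) (nat_lit 561) (nat_lit 372)) (XT.lf (nat_lit 0) (nat_lit 4774734327) (nat_lit 532) (nat_lit 2374078729) (nat_lit 608) (nat_lit 12132575828) (nat_lit 229) (nat_lit 5) (nat_lit 236) (nat_lit 5) (nat_lit 237) (nat_lit 5) (nat_lit 628) (nat_lit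 561) (nat_lit 371)))))) (XT.nd (nat_lit 546) (nat_lit 1900) (nat_lit 0) (XT.nd (nat_lit 234) (nat_lit 988) (nat_lit 0) (XT.nd (nat_lit 78) (nat_lit 988) (nat_lit 0) (XT.lf (nat_lit 0) (nat_lit 11119374458) (nat_lit 608) (nat_lit 3125350929) (nat_lit 76) (nat_lit 5264256285) (nat_lit 229) (nat_lit 5) (nat_lit 237) (nat_lit 5) (nat_lit 230) (nat_lit 5) (nat_lit 629) (nat_lit 561) (nat_lit 370)) (XT.nd (nat_lit 78) (nat_lit 532) (nat_lit 0) (XT.lf (nat_lit 0) (nat_lit 8570491443) (nat_lit 456) (nat_lit 6663137526) (nat_lit 532) (nat_lit 4506212152) (nat_lit 223) (nat_lit 5) (nat_lit 229) (nat_lit 5) (nat_lit 230) (nat_lit 5) (nat_lit 630) (nat_lit 561) (nat_lit 369)) (XT.lf (nat_lit 0) (nat_lit 558123264) (nat_lit 532) (nat_lit 18896700965) (nat_lit 608) (nat_lit 520000850) (nat_lit 216) (nat_lit 5) (nat_lit 223) (nat_lit 5) (nat_lit 224) (nat_lit 5) (nat_lit 631) (nat_lit 561) (nat_lit 368)))) (XT.nd (nat_lit 156) (nat_lit 456) (nat_lit 0) (XT.nd (nat_lit 78) (nat_lit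 456) (nat_lit 0) (XT.lf (nat_lit 0) (nat_lit 3612005000) (nat_lit 608) (nat_lit 7618962344) (nat_lit 76) (nat_lit 8980829819) (nat_lit 215) (nat_lit 5) (nat_lit 223) (nat_lit 5) (nat_lit 216) (nat_lit 5) (nat_lit 632) (nat_lit 561) (nat_lit 367)) (XT.lf (nat_lit 0) (nat_lit 4460120601) (nat_lit 456) (nat_lit 3381669937) (nat_lit 532) (nat_lit 12611207768) (nat_lit 209) (nat_lit 5) (nat_lit 215) (nat_lit 5) (nat_lit 216) (nat_lit 5) (nat_lit 633) (nat_lit 561) (nat_lit 366))) (XT.nd (nat_lit 78) (nat_lit 456) (nat_lit 0) (XT.lf (nat_lit 0) (nat_lit 12230855483) (nat_lit 532) (nat_lit 3854020604) (nat_lit 76) (nat_lit 4612654112) (nat_lit 209) (nat_lit 5) (nat_lit 216) (nat_lit 5) (nat_lit 210) (nat_lit 5) (nat_lit 634) (nat_lit 561) (nat_lit 365)) (XT.lf (nat_lit 0) (nat_lit 8608595009) (nat_lit 456) (nat_lit 8170719884) (nat_lit 532) (nat_lit 4166205965) (nat_lit 203) (nat_lit 5) (nat_lit 209) (nat_lit 5) (nat_lit 210) (nat_lit 5) (nat_lit 635) (nat_lit 561) (nat_lit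 364))))) (XT.nd (nat_lit 234) (nat_lit 912) (nat_lit 0) (XT.nd (nat_lit 78) (nat_lit 456) (nat_lit 0) (XT.lf (nat_lit 0) (nat_lit 165770999) (nat_lit 456) (nat_lit 72072928) (nat_lit 532) (nat_lit 20960189964) (nat_lit 196) (nat_lit 5) (nat_lit 202) (nat_lit 5) (nat_lit 203) (nat_lit 5) (nat_lit 636) (nat_lit 561) (nat_lit 363)) (XT.nd (nat_lit 78) (nat_lit 456) (nat_lit 0) (XT.lf (nat_lit 0) (nat_lit 4804142947) (nat_lit 532) (nat_lit 8459096937) (nat_lit 76) (nat_lit 8189207826) (nat_lit 196) (nat_lit 5) (nat_lit 203) (nat_lit 5) (nat_lit 197) (nat_lit 5) (nat_lit 637) (nat_lit 561) (nat_lit 362)) (XT.lf (nat_lit 0) (nat_lit 4413524443) (nat_lit 456) (nat_lit 5070906214) (nat_lit 532) (nat_lit 12227066257) (nat_lit 190) (nat_lit 5) (nat_lit 196) (nat_lit 5) (nat_lit 197) (nat_lit 5) (nat_lit 638) (nat_lit 561) (nat_lit 361)))) (XT.nd (nat_lit 156) (nat_lit 532) (nat_lit 0) (XT.nd (nat_lit 78) (nat_lit 380) (nat_lit 0) (XT.lf (nat_lit 0) (nat_lit 14330372093)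 (nat_lit 532) (nat_lit 4347496479) (nat_lit 76) (nat_lit 3296417926) (nat_lit 190) (nat_lit 5) (nat_lit 197) (nat_lit 5) (nat_lit 191) (nat_lit 5) (nat_lit 639) (nat_lit 561) (nat_lit 360)) (XT.lf (nat_lit 0) (nat_lit 8936331897) (nat_lit 380) (nat_lit 10422206031) (nat_lit 456) (nat_lit 2882088183) (nat_lit 185) (nat_lit 5) (nat_lit 190) (nat_lit 5) (nat_lit 191) (nat_lit 5) (nat_lit 640) (nat_lit 561) (nat_lit 359))) (XT.nd (nat_lit 78) (nat_lit 0) (nat_lit 0) (XT.lf (nat_lit 0) (nat_lit 10886718) (nat_lit 456) (nat_lit 1961348414) (nat_lit 532) (nat_lit 20539338008) (nat_lit 178) (nat_lit 5) (nat_lit 184) (nat_lit 5) (nat_lit 185) (nat_lit 5) (nat_lit 641) (nat_lit 561) (nat_lit 358)) (XT.lf (nat_lit 0) (nat_lit 7012025944) (nat_lit 532) (nat_lit 9085757794) (nat_lit 76) (nat_lit 6687235245) (nat_lit 178) (nat_lit 5) (nat_lit 185) (nat_lit 5) (nat_lit 179) (nat_lit 5) (nat_lit 642) (nat_lit 561) (nat_lit 357))))))))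
noncomputable def xc168 : XT := (XT.nd (nat_lit 75348) (nat_lit 0) (nat_lit 22724) (XT.nd (nat_lit 1014) (nat_lit 1672) (nat_lit 0) (XT.nd (nat_lit 468) (nat_lit 1596) (nat_lit 0) (XT.nd (nat_lit 234) (nat_lit 836) (nat_lit 0) (XT.nd (nat_lit 78) (nat_lit 380) (nat_lit 0) (XT.lf (nat_lit 0) (nat_lit 4636124123) (nat_lit 380) (nat_lit 7553468748) (nat_lit 456) (nat_lit 10873601587) (nat_lit 173) (nat_lit 5) (nat_lit 178) (nat_lit 5) (nat_lit 179) (nat_lit 5) (nat_lit 643) (nat_lit 561) (nat_lit 356)) (XT.nd (nat_lit 78) (nat_lit 380) (nat_lit 0) (XT.lf (nat_lit 0) (nat_lit 17533559222) (nat_lit 456) (nat_lit 4607258081) (nat_lit 76) (nat_lit 1204859494) (nat_lit 173) (nat_lit 5) (nat_lit 179) (nat_lit 5) (nat_lit 174) (nat_lit 5) (nat_lit 644) (nat_lit 561) (nat_lit 355)) (XT.lf (nat_lit 0) (nat_lit 9555225311) (nat_lit 380) (nat_lit 13535291765) (nat_lit 456) (nat_lit 541169772) (nat_lit 168) (nat_lit 5) (nat_lit 173) (nat_lit 5) (nat_lit 174) (nat_lit 5) (nat_lit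 645) (nat_lit 561) (nat_lit 354)))) (XT.nd (nat_lit 78) (nat_lit 380) (nat_lit 0) (XT.lf (nat_lit 0) (nat_lit 101302354) (nat_lit 380) (nat_lit 4696329260) (nat_lit 456) (nat_lit 19124640936) (nat_lit 162) (nat_lit 5) (nat_lit 167) (nat_lit 5) (nat_lit 168) (nat_lit 5) (nat_lit 646) (nat_lit 561) (nat_lit 353)) (XT.nd (nat_lit 78) (nat_lit 380) (nat_lit 0) (XT.lf (nat_lit 0) (nat_lit 10353207365) (nat_lit 456) (nat_lit 9504681536) (nat_lit 76) (nat_lit 4358364923) (nat_lit 162) (nat_lit 5) (nat_lit 168) (nat_lit 5) (nat_lit 163) (nat_lit 5) (nat_lit 647) (nat_lit 561) (nat_lit 352)) (XT.lf (nat_lit 0) (nat_lit 5125148148) (nat_lit 380) (nat_lit 10953346706) (nat_lit 456) (nat_lit 8436448151) (nat_lit 157) (nat_lit 5) (nat_lit 162) (nat_lit 5) (nat_lit 163) (nat_lit 5) (nat_lit 648) (nat_lit 561) (nat_lit 351))))) (XT.nd (nat_lit 234) (nat_lit 760) (nat_lit 0) (XT.nd (nat_lit 78) (nat_lit 836) (nat_lit 0) (XT.lf (nat_lit 0) (nat_lit 20167570969) (nat_lit 380) (nat_lit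 1808777252) (nat_lit 456) (nat_lit 2842096824) (nat_lit 157) (nat_lit 5) (nat_lit 162) (nat_lit 5) (nat_lit 163) (nat_lit 5) (nat_lit 649) (nat_lit 561) (nat_lit 350)) (XT.nd (nat_lit 78) (nat_lit 380) (nat_lit 0) (XT.lf (nat_lit 0) (nat_lit 2938429972) (nat_lit 456) (nat_lit 14682662041) (nat_lit 76) (nat_lit 7504316423) (nat_lit 151) (nat_lit 5) (nat_lit 157) (nat_lit 5) (nat_lit 152) (nat_lit 5) (nat_lit 650) (nat_lit 561) (nat_lit 349)) (XT.lf (nat_lit 0) (nat_lit 429240238) (nat_lit 380) (nat_lit 8407876741) (nat_lit 456) (nat_lit 16600206547) (nat_lit 146) (nat_lit 5) (nat_lit 151) (nat_lit 5) (nat_lit 152) (nat_lit 5) (nat_lit 651) (nat_lit 561) (nat_lit 348)))) (XT.nd (nat_lit 156) (nat_lit 456) (nat_lit 0) (XT.nd (nat_lit 78) (nat_lit 304) (nat_lit 0) (XT.lf (nat_lit 0) (nat_lit 14953804386) (nat_lit 456) (nat_lit 9726987607) (nat_lit 76) (nat_lit 1072684651) (nat_lit 146) (nat_lit 5) (nat_lit 152) (nat_lit 5) (nat_lit 147) (nat_lit 5) (nat_lit 652) (nat_lit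 561) (nat_lit 347)) (XT.lf (nat_lit 0) (nat_lit 5872427904) (nat_lit 304) (nat_lit 15408736642) (nat_lit 380) (nat_lit 4793021751) (nat_lit 142) (nat_lit 5) (nat_lit 146) (nat_lit 5) (nat_lit 147) (nat_lit 5) (nat_lit 653) (nat_lit 561) (nat_lit 346))) (XT.nd (nat_lit 78) (nat_lit 380) (nat_lit 0) (XT.lf (nat_lit 0) (nat_lit 1376520129) (nat_lit 380) (nat_lit 4502067644) (nat_lit 76) (nat_lit 20521344404) (nat_lit 141) (nat_lit 5) (nat_lit 146) (nat_lit 5) (nat_lit 142) (nat_lit 5) (nat_lit 654) (nat_lit 561) (nat_lit 345)) (XT.lf (nat_lit 0) (nat_lit 7701091832) (nat_lit 456) (nat_lit 15131952594) (nat_lit 76) (nat_lit 3896598799) (nat_lit 136) (nat_lit 5) (nat_lit 142) (nat_lit 5) (nat_lit 137) (nat_lit 5) (nat_lit 655) (nat_lit 561) (nat_lit 344)))))) (XT.nd (nat_lit 546) (nat_lit 380) (nat_lit 0) (XT.nd (nat_lit 234) (nat_lit 608) (nat_lit 0) (XT.nd (nat_lit 78) (nat_lit 380) (nat_lit 0) (XT.lf (nat_lit 0) (nat_lit 980337741) (nat_lit 304) (nat_lit 13242206753)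 (nat_lit 380) (nat_lit 12841996444) (nat_lit 132) (nat_lit 5) (nat_lit 136) (nat_lit 5) (nat_lit 137) (nat_lit 5) (nat_lit 656) (nat_lit 561) (nat_lit 343)) (XT.nd (nat_lit 78) (nat_lit 380) (nat_lit 0) (XT.lf (nat_lit 0) (nat_lit 17611532544) (nat_lit 304) (nat_lit 3359168543) (nat_lit 380) (nat_lit 6433510252) (nat_lit 132) (nat_lit 5) (nat_lit 136) (nat_lit 5) (nat_lit 137) (nat_lit 5) (nat_lit 657) (nat_lit 561) (nat_lit 342)) (XT.lf (nat_lit 0) (nat_lit 185354523) (nat_lit 380) (nat_lit 20887570333) (nat_lit 76) (nat_lit 6676065886) (nat_lit 127) (nat_lit 5) (nat_lit 132) (nat_lit 5) (nat_lit 128) (nat_lit 5) (nat_lit 658) (nat_lit 561) (nat_lit 341)))) (XT.nd (nat_lit 156) (nat_lit 304) (nat_lit 0) (XT.nd (nat_lit 78) (nat_lit 304) (nat_lit 0) (XT.lf (nat_lit 0) (nat_lit 6933755699) (nat_lit 380) (nat_lit 4191685028) (nat_lit 76) (nat_lit 16972708637) (nat_lit 127) (nat_lit 5) (nat_lit 132) (nat_lit 5) (nat_lit 128) (nat_lit 5) (nat_lit 659) (nat_lit 561)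 (nat_lit 340)) (XT.lf (nat_lit 0) (nat_lit 13000394868) (nat_lit 304) (nat_lit 896066541) (nat_lit 380) (nat_lit 14556243230) (nat_lit 123) (nat_lit 5) (nat_lit 127) (nat_lit 5) (nat_lit 128) (nat_lit 5) (nat_lit 660) (nat_lit 561) (nat_lit 339))) (XT.nd (nat_lit 78) (nat_lit 0) (nat_lit 0) (XT.lf (nat_lit 0) (nat_lit 1731694388) (nat_lit 304) (nat_lit 19363166451) (nat_lit 380) (nat_lit 7717561598) (nat_lit 119) (nat_lit 5) (nat_lit 123) (nat_lit 5) (nat_lit 124) (nat_lit 5) (nat_lit 661) (nat_lit 561) (nat_lit 338)) (XT.lf (nat_lit 0) (nat_lit 19454628191) (nat_lit 304) (nat_lit 9087189326) (nat_lit 380) (nat_lit 635425493) (nat_lit 119) (nat_lit 5) (nat_lit 123) (nat_lit 5) (nat_lit 124) (nat_lit 5) (nat_lit 662) (nat_lit 561) (nat_lit 337))))) (XT.nd (nat_lit 73476) (nat_lit 0) (nat_lit 31920) (XT.nd (nat_lit 73320) (nat_lit 0) (nat_lit 31920) (XT.lf (nat_lit 0) (nat_lit 6558856052) (nat_lit 380) (nat_lit 21520029339) (nat_lit 76) (nat_lit 1468481077) (nat_lit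 114) (nat_lit 5) (nat_lit 119) (nat_lit 5) (nat_lit 115) (nat_lit 5) (nat_lit 663) (nat_lit 561) (nat_lit 336)) (XT.nd (nat_lit 78) (nat_lit 0) (nat_lit 0) (XT.lf (nat_lit 0) (nat_lit 1200383935) (nat_lit 0) (nat_lit 1200383935) (nat_lit 1596) (nat_lit 2517458341) (nat_lit 534) (nat_lit 5) (nat_lit 534) (nat_lit 3) (nat_lit 555) (nat_lit 3) (nat_lit 562) (nat_lit 562) (nat_lit 436)) (XT.lf (nat_lit 0) (nat_lit 5595523481) (nat_lit 1596) (nat_lit 2580456154) (nat_lit 1672) (nat_lit 1743844893) (nat_lit 534) (nat_lit 5) (nat_lit 555) (nat_lit 3) (nat_lit 556) (nat_lit 5) (nat_lit 563) (nat_lit 562) (nat_lit 435)))) (XT.nd (nat_lit 156) (nat_lit 0) (nat_lit 76) (XT.nd (nat_lit 78) (nat_lit 0) (nat_lit 76) (XT.lf (nat_lit 76) (nat_lit 2377070517) (nat_lit 0) (nat_lit 4040449453) (nat_lit 1672) (nat_lit 3587103438) (nat_lit 535) (nat_lit 5) (nat_lit 534) (nat_lit 5) (nat_lit 556) (nat_lit 5) (nat_lit 564) (nat_lit 562) (nat_lit 434)) (XT.lf (nat_lit 0) (nat_lit 7255707112)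 (nat_lit 1596) (nat_lit 2633768363) (nat_lit 1672) (nat_lit 201649653) (nat_lit 535) (nat_lit 5) (nat_lit 556) (nat_lit 5) (nat_lit 557) (nat_lit 5) (nat_lit 565) (nat_lit 562) (nat_lit 433))) (XT.nd (nat_lit 78) (nat_lit 0) (nat_lit 0) (XT.lf (nat_lit 76) (nat_lit 2455083867) (nat_lit 0) (nat_lit 5679806895) (nat_lit 1672) (nat_lit 2043983304) (nat_lit 536) (nat_lit 5) (nat_lit 535) (nat_lit 5) (nat_lit 557) (nat_lit 5) (nat_lit 566) (nat_lit 562) (nat_lit 432)) (XT.lf (nat_lit 76) (nat_lit 7671233083) (nat_lit 0) (nat_lit 1359929726) (nat_lit 1672) (nat_lit 1237226885) (nat_lit 536) (nat_lit 5) (nat_lit 535) (nat_lit 5) (nat_lit 557) (nat_lit 5) (nat_lit 567) (nat_lit 562) (nat_lit 431))))))) (XT.nd (nat_lit 1014) (nat_lit 6308) (nat_lit 0) (XT.nd (nat_lit 468) (nat_lit 1368) (nat_lit 0) (XT.nd (nat_lit 234) (nat_lit 0) (nat_lit 76) (XT.nd (nat_lit 78) (nat_lit 1672) (nat_lit 0) (XT.lf (nat_lit 76) (nat_lit 2636417121) (nat_lit 0) (nat_lit 7328077289) (nat_lit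 1672) (nat_lit 394820309) (nat_lit 537) (nat_lit 5) (nat_lit 536) (nat_lit 5) (nat_lit 558) (nat_lit 5) (nat_lit 568) (nat_lit 562) (nat_lit 430)) (XT.nd (nat_lit 78) (nat_lit 0) (nat_lit 76) (XT.lf (nat_lit 0) (nat_lit 467294755) (nat_lit 1672) (nat_lit 2464537134) (nat_lit 1748) (nat_lit 7519988717) (nat_lit 514) (nat_lit 5) (nat_lit 536) (nat_lit 5) (nat_lit 537) (nat_lit 5) (nat_lit 569) (nat_lit 562) (nat_lit 429)) (XT.lf (nat_lit 0) (nat_lit 1353370807) (nat_lit 1672) (nat_lit 7631979321) (nat_lit 1748) (nat_lit 1560535847) (nat_lit 515) (nat_lit 5) (nat_lit 537) (nat_lit 5) (nat_lit 538) (nat_lit 5) (nat_lit 570) (nat_lit 562) (nat_lit 428)))) (XT.nd (nat_lit 78) (nat_lit 0) (nat_lit 76) (XT.lf (nat_lit 0) (nat_lit 2276294082) (nat_lit 1672) (nat_lit 2238368326) (nat_lit 1748) (nat_lit 6126789363) (nat_lit 515) (nat_lit 5) (nat_lit 537) (nat_lit 5) (nat_lit 538) (nat_lit 5) (nat_lit 571) (nat_lit 562) (nat_lit 427)) (XT.nd (nat_lit 78) (nat_lit 0) (nat_lit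 0) (XT.lf (nat_lit 0) (nat_lit 3222945384) (nat_lit 1672) (nat_lit 7443428709) (nat_lit 1748) (nat_lit 72451001) (nat_lit 516) (nat_lit 5) (nat_lit 538) (nat_lit 5) (nat_lit 539) (nat_lit 5) (nat_lit 572) (nat_lit 562) (nat_lit 426)) (XT.lf (nat_lit 0) (nat_lit 4217238936) (nat_lit 1672) (nat_lit 1908422130) (nat_lit 1748) (nat_lit 4711912203) (nat_lit 516) (nat_lit 5) (nat_lit 538) (nat_lit 5) (nat_lit 539) (nat_lit 5) (nat_lit 573) (nat_lit 562) (nat_lit 425))))) (XT.nd (nat_lit 234) (nat_lit 1520) (nat_lit 0) (XT.nd (nat_lit 78) (nat_lit 0) (nat_lit 76) (XT.lf (nat_lit 76) (nat_lit 3776265071) (nat_lit 0) (nat_lit 1463681788) (nat_lit 1748) (nat_lit 5698180517) (nat_lit 517) (nat_lit 5) (nat_lit 516) (nat_lit 5) (nat_lit 539) (nat_lit 5) (nat_lit 574) (nat_lit 562) (nat_lit 424)) (XT.nd (nat_lit 78) (nat_lit 0) (nat_lit 0) (XT.lf (nat_lit 0) (nat_lit 6301661297) (nat_lit 1672) (nat_lit 1472204020) (nat_lit 1748) (nat_lit 3266457712) (nat_lit 517) (nat_lit 5)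 (nat_lit 539) (nat_lit 5) (nat_lit 540) (nat_lit 5) (nat_lit 575) (nat_lit 562) (nat_lit 423)) (XT.lf (nat_lit 76) (nat_lit 4368229472) (nat_lit 0) (nat_lit 3039033469) (nat_lit 1748) (nat_lit 3736848075) (nat_lit 518) (nat_lit 5) (nat_lit 517) (nat_lit 5) (nat_lit 540) (nat_lit 5) (nat_lit 576) (nat_lit 562) (nat_lit 422)))) (XT.nd (nat_lit 156) (nat_lit 1672) (nat_lit 0) (XT.nd (nat_lit 78) (nat_lit 0) (nat_lit 0) (XT.lf (nat_lit 0) (nat_lit 8541408156) (nat_lit 1672) (nat_lit 926919750) (nat_lit 1748) (nat_lit 1781519675) (nat_lit 518) (nat_lit 5) (nat_lit 540) (nat_lit 5) (nat_lit 541) (nat_lit 5) (nat_lit 577) (nat_lit 562) (nat_lit 421)) (XT.lf (nat_lit 76) (nat_lit 5074785469) (nat_lit 0) (nat_lit 4661684325) (nat_lit 1748) (nat_lit 1620465837) (nat_lit 519) (nat_lit 5) (nat_lit 518) (nat_lit 5) (nat_lit 541) (nat_lit 5) (nat_lit 578) (nat_lit 562) (nat_lit 420))) (XT.nd (nat_lit 78) (nat_lit 1748) (nat_lit 0) (XT.lf (nat_lit 0) (nat_lit 10948666230) (nat_lit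 1672) (nat_lit 269474337) (nat_lit 1748) (nat_lit 248161597) (nat_lit 519) (nat_lit 5) (nat_lit 541) (nat_lit 5) (nat_lit 542) (nat_lit 5) (nat_lit 579) (nat_lit 562) (nat_lit 419)) (XT.lf (nat_lit 0) (nat_lit 654515366) (nat_lit 1748) (nat_lit 5681815588) (nat_lit 1824) (nat_lit 5240342981) (nat_lit 496) (nat_lit 5) (nat_lit 519) (nat_lit 5) (nat_lit 520) (nat_lit 5) (nat_lit 580) (nat_lit 562) (nat_lit 418)))))) (XT.nd (nat_lit 546) (nat_lit 4788) (nat_lit 0) (XT.nd (nat_lit 234) (nat_lit 1520) (nat_lit 0) (XT.nd (nat_lit 78) (nat_lit 0) (nat_lit 76) (XT.lf (nat_lit 76) (nat_lit 489066017) (nat_lit 0) (nat_lit 1344924534) (nat_lit 1824) (nat_lit 9855379233) (nat_lit 497) (nat_lit 5) (nat_lit 496) (nat_lit 5) (nat_lit 520) (nat_lit 5) (nat_lit 581) (nat_lit 562) (nat_lit 417)) (XT.nd (nat_lit 78) (nat_lit 0) (nat_lit 0) (XT.lf (nat_lit 0) (nat_lit 3085798555) (nat_lit 1748) (nat_lit 4978801616) (nat_lit 1824) (nat_lit 3738745799) (nat_lit 497) (nat_lit 5) (nat_lit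 520) (nat_lit 5) (nat_lit 521) (nat_lit 5) (nat_lit 582) (nat_lit 562) (nat_lit 416)) (XT.lf (nat_lit 76) (nat_lit 1365294229) (nat_lit 0) (nat_lit 3001432721) (nat_lit 1824) (nat_lit 7552794310) (nat_lit 498) (nat_lit 5) (nat_lit 497) (nat_lit 5) (nat_lit 521) (nat_lit 5) (nat_lit 583) (nat_lit 562) (nat_lit 415)))) (XT.nd (nat_lit 156) (nat_lit 1672) (nat_lit 0) (XT.nd (nat_lit 78) (nat_lit 0) (nat_lit 0) (XT.lf (nat_lit 0) (nat_lit 5707478389) (nat_lit 1748) (nat_lit 4158908817) (nat_lit 1824) (nat_lit 2170949997) (nat_lit 498) (nat_lit 5) (nat_lit 521) (nat_lit 5) (nat_lit 522) (nat_lit 5) (nat_lit 584) (nat_lit 562) (nat_lit 414)) (XT.lf (nat_lit 76) (nat_lit 2364614747) (nat_lit 0) (nat_lit 4732453145) (nat_lit 1824) (nat_lit 5060002326) (nat_lit 499) (nat_lit 5) (nat_lit 498) (nat_lit 5) (nat_lit 522) (nat_lit 5) (nat_lit 585) (nat_lit 562) (nat_lit 413))) (XT.nd (nat_lit 78) (nat_lit 1748) (nat_lit 0) (XT.lf (nat_lit 0) (nat_lit 8532812854) (nat_lit 1748)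 (nat_lit 3218155198) (nat_lit 76) (nat_lit 527863759) (nat_lit 499) (nat_lit 5) (nat_lit 522) (nat_lit 5) (nat_lit 500) (nat_lit 5) (nat_lit 586) (nat_lit 562) (nat_lit 412)) (XT.lf (nat_lit 0) (nat_lit 3491254052) (nat_lit 1748) (nat_lit 6547278945) (nat_lit 1824) (nat_lit 2363671601) (nat_lit 476) (nat_lit 5) (nat_lit 499) (nat_lit 5) (nat_lit 500) (nat_lit 5) (nat_lit 587) (nat_lit 562) (nat_lit 411))))) (XT.nd (nat_lit 234) (nat_lit 2888) (nat_lit 0) (XT.nd (nat_lit 78) (nat_lit 1900) (nat_lit 0) (XT.lf (nat_lit 0) (nat_lit 10367720940) (nat_lit 1748) (nat_lit 1215674256) (nat_lit 1824) (nat_lit 944470233) (nat_lit 476) (nat_lit 5) (nat_lit 499) (nat_lit 5) (nat_lit 500) (nat_lit 5) (nat_lit 588) (nat_lit 562) (nat_lit 410)) (XT.nd (nat_lit 78) (nat_lit 0) (nat_lit 0) (XT.lf (nat_lit 0) (nat_lit 542764223) (nat_lit 1900) (nat_lit 7908938375) (nat_lit 76) (nat_lit 4203347698) (nat_lit 451) (nat_lit 5) (nat_lit 476) (nat_lit 5) (nat_lit 452) (nat_lit 5) (nat_lit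 589) (nat_lit 562) (nat_lit 409)) (XT.lf (nat_lit 0) (nat_lit 2057531608) (nat_lit 1900) (nat_lit 990009890) (nat_lit 76) (nat_lit 9736904887) (nat_lit 451) (nat_lit 5) (nat_lit 476) (nat_lit 5) (nat_lit 452) (nat_lit 5) (nat_lit 590) (nat_lit 562) (nat_lit 408)))) (XT.nd (nat_lit 156) (nat_lit 912) (nat_lit 0) (XT.nd (nat_lit 78) (nat_lit 912) (nat_lit 0) (XT.lf (nat_lit 0) (nat_lit 3646735254) (nat_lit 1140) (nat_lit 6795043055) (nat_lit 76) (nat_lit 2473770326) (nat_lit 437) (nat_lit 5) (nat_lit 452) (nat_lit 5) (nat_lit 438) (nat_lit 5) (nat_lit 591) (nat_lit 562) (nat_lit 407)) (XT.lf (nat_lit 0) (nat_lit 310501642) (nat_lit 912) (nat_lit 4974300968) (nat_lit 988) (nat_lit 7764129762) (nat_lit 425) (nat_lit 5) (nat_lit 437) (nat_lit 5) (nat_lit 438) (nat_lit 5) (nat_lit 592) (nat_lit 562) (nat_lit 406))) (XT.nd (nat_lit 78) (nat_lit 912) (nat_lit 0) (XT.lf (nat_lit 0) (nat_lit 6993804446) (nat_lit 988) (nat_lit 5549043440) (nat_lit 76) (nat_lit 641373451)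 (nat_lit 425) (nat_lit 5) (nat_lit 438) (nat_lit 5) (nat_lit 426) (nat_lit 5) (nat_lit 593) (nat_lit 562) (nat_lit 405)) (XT.lf (nat_lit 0) (nat_lit 1763510631) (nat_lit 912) (nat_lit 7006457019) (nat_lit 988) (nat_lit 4551589800) (nat_lit 413) (nat_lit 5) (nat_lit 425) (nat_lit 5) (nat_lit 426) (nat_lit 5) (nat_lit 594) (nat_lit 562) (nat_lit 404))))))))
noncomputable def xc169 : XT := (XT.nd (nat_lit 2106) (nat_lit 8360) (nat_lit 0) (XT.nd (nat_lit 1014) (nat_lit 5396) (nat_lit 0) (XT.nd (nat_lit 468) (nat_lit 3116) (nat_lit 0) (XT.nd (nat_lit 234) (nat_lit 1672) (nat_lit 0) (XT.nd (nat_lit 78) (nat_lit 912) (nat_lit 0) (XT.lf (nat_lit 0) (nat_lit 9286798297) (nat_lit 912) (nat_lit 1320835923) (nat_lit 988) (nat_lit 2853487440) (nat_lit 413) (nat_lit 5) (nat_lit 425) (nat_lit 5) (nat_lit 426) (nat_lit 5) (nat_lit 595) (nat_lit 562) (nat_lit 403)) (XT.nd (nat_lit 78) (nat_lit 76) (nat_lit 0) (XT.lf (nat_lit 0) (nat_lit 3361330931) (nat_lit 836) (nat_lit 9160591695)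 (nat_lit 912) (nat_lit 1080758116) (nat_lit 402) (nat_lit 5) (nat_lit 413) (nat_lit 5) (nat_lit 414) (nat_lit 5) (nat_lit 596) (nat_lit 562) (nat_lit 402)) (XT.lf (nat_lit 0) (nat_lit 743871255) (nat_lit 912) (nat_lit 2666710642) (nat_lit 76) (nat_lit 10335875854) (nat_lit 401) (nat_lit 5) (nat_lit 413) (nat_lit 5) (nat_lit 402) (nat_lit 5) (nat_lit 597) (nat_lit 562) (nat_lit 401)))) (XT.nd (nat_lit 78) (nat_lit 836) (nat_lit 0) (XT.lf (nat_lit 0) (nat_lit 2629163806) (nat_lit 912) (nat_lit 8800072653) (nat_lit 76) (nat_lit 2462959029) (nat_lit 390) (nat_lit 5) (nat_lit 402) (nat_lit 5) (nat_lit 391) (nat_lit 5) (nat_lit 598) (nat_lit 562) (nat_lit 400)) (XT.nd (nat_lit 78) (nat_lit 836) (nat_lit 0) (XT.lf (nat_lit 0) (nat_lit 4582160950) (nat_lit 912) (nat_lit 1031671995) (nat_lit 76) (nat_lit 8426415942) (nat_lit 390) (nat_lit 5) (nat_lit 402) (nat_lit 5) (nat_lit 391) (nat_lit 5) (nat_lit 599) (nat_lit 562) (nat_lit 399)) (XT.lf (nat_lit 0) (nat_lit 6611460538)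 (nat_lit 912) (nat_lit 7219927265) (nat_lit 76) (nat_lit 359131569) (nat_lit 379) (nat_lit 5) (nat_lit 391) (nat_lit 5) (nat_lit 380) (nat_lit 5) (nat_lit 600) (nat_lit 562) (nat_lit 398))))) (XT.nd (nat_lit 234) (nat_lit 1520) (nat_lit 0) (XT.nd (nat_lit 78) (nat_lit 760) (nat_lit 0) (XT.lf (nat_lit 0) (nat_lit 765361601) (nat_lit 836) (nat_lit 7954841144) (nat_lit 912) (nat_lit 5622816239) (nat_lit 368) (nat_lit 5) (nat_lit 379) (nat_lit 5) (nat_lit 380) (nat_lit 5) (nat_lit 601) (nat_lit 562) (nat_lit 397)) (XT.nd (nat_lit 78) (nat_lit 760) (nat_lit 0) (XT.lf (nat_lit 0) (nat_lit 8997612559) (nat_lit 836) (nat_lit 1911829793) (nat_lit 912) (nat_lit 3588360618) (nat_lit 368) (nat_lit 5) (nat_lit 379) (nat_lit 5) (nat_lit 380) (nat_lit 5) (nat_lit 602) (nat_lit 562) (nat_lit 396)) (XT.lf (nat_lit 0) (nat_lit 2736508701) (nat_lit 760) (nat_lit 10441400881) (nat_lit 836) (nat_lit 1477065013) (nat_lit 358) (nat_lit 5) (nat_lit 368) (nat_lit 5) (nat_lit 369) (nat_lit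 5) (nat_lit 603) (nat_lit 562) (nat_lit 395)))) (XT.nd (nat_lit 156) (nat_lit 684) (nat_lit 0) (XT.nd (nat_lit 78) (nat_lit 760) (nat_lit 0) (XT.lf (nat_lit 0) (nat_lit 707528549) (nat_lit 836) (nat_lit 3630012860) (nat_lit 76) (nat_lit 10476862312) (nat_lit 357) (nat_lit 5) (nat_lit 368) (nat_lit 5) (nat_lit 358) (nat_lit 5) (nat_lit 604) (nat_lit 562) (nat_lit 394)) (XT.lf (nat_lit 0) (nat_lit 2950512141) (nat_lit 836) (nat_lit 10121101225) (nat_lit 76) (nat_lit 1904524044) (nat_lit 347) (nat_lit 5) (nat_lit 358) (nat_lit 5) (nat_lit 348) (nat_lit 5) (nat_lit 605) (nat_lit 562) (nat_lit 393))) (XT.nd (nat_lit 78) (nat_lit 684) (nat_lit 0) (XT.lf (nat_lit 0) (nat_lit 5282041118) (nat_lit 836) (nat_lit 1621084144) (nat_lit 76) (nat_lit 8237107551) (nat_lit 347) (nat_lit 5) (nat_lit 358) (nat_lit 5) (nat_lit 348) (nat_lit 5) (nat_lit 606) (nat_lit 562) (nat_lit 392)) (XT.lf (nat_lit 0) (nat_lit 7132108645) (nat_lit 684) (nat_lit 565025524) (nat_lit 760) (nat_lit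 7609738026) (nat_lit 338) (nat_lit 5) (nat_lit 347) (nat_lit 5) (nat_lit 348) (nat_lit 5) (nat_lit 607) (nat_lit 562) (nat_lit 391)))))) (XT.nd (nat_lit 546) (nat_lit 2584) (nat_lit 0) (XT.nd (nat_lit 234) (nat_lit 1368) (nat_lit 0) (XT.nd (nat_lit 78) (nat_lit 684) (nat_lit 0) (XT.lf (nat_lit 0) (nat_lit 564260972) (nat_lit 760) (nat_lit 9639924989) (nat_lit 836) (nat_lit 5271785990) (nat_lit 328) (nat_lit 5) (nat_lit 338) (nat_lit 5) (nat_lit 339) (nat_lit 5) (nat_lit 608) (nat_lit 562) (nat_lit 390)) (XT.nd (nat_lit 78) (nat_lit 684) (nat_lit 0) (XT.lf (nat_lit 0) (nat_lit 9574679915) (nat_lit 760) (nat_lit 3236124480) (nat_lit 836) (nat_lit 2836661507) (nat_lit 328) (nat_lit 5) (nat_lit 338) (nat_lit 5) (nat_lit 339) (nat_lit 5) (nat_lit 609) (nat_lit 562) (nat_lit 389)) (XT.lf (nat_lit 0) (nat_lit 2949833314) (nat_lit 684) (nat_lit 12551295116) (nat_lit 760) (nat_lit 320630534) (nat_lit 319) (nat_lit 5) (nat_lit 328) (nat_lit 5) (nat_lit 329) (nat_lit 5) (nat_lit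 610) (nat_lit 562) (nat_lit 388)))) (XT.nd (nat_lit 156) (nat_lit 608) (nat_lit 0) (XT.nd (nat_lit 78) (nat_lit 684) (nat_lit 0) (XT.lf (nat_lit 0) (nat_lit 2269793240) (nat_lit 760) (nat_lit 3810206160) (nat_lit 76) (nat_lit 9918177039) (nat_lit 318) (nat_lit 5) (nat_lit 328) (nat_lit 5) (nat_lit 319) (nat_lit 5) (nat_lit 611) (nat_lit 562) (nat_lit 387)) (XT.lf (nat_lit 0) (nat_lit 4938265895) (nat_lit 760) (nat_lit 10688725441) (nat_lit 76) (nat_lit 550478524) (nat_lit 309) (nat_lit 5) (nat_lit 319) (nat_lit 5) (nat_lit 310) (nat_lit 5) (nat_lit 612) (nat_lit 562) (nat_lit 386))) (XT.nd (nat_lit 78) (nat_lit 608) (nat_lit 0) (XT.lf (nat_lit 0) (nat_lit 7717454146) (nat_lit 760) (nat_lit 1385266445) (nat_lit 76) (nat_lit 7256482281) (nat_lit 309) (nat_lit 5) (nat_lit 319) (nat_lit 5) (nat_lit 310) (nat_lit 5) (nat_lit 613) (nat_lit 562) (nat_lit 385)) (XT.lf (nat_lit 0) (nat_lit 8201714179) (nat_lit 608) (nat_lit 2395276118) (nat_lit 684) (nat_lit 5946685595)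 (nat_lit 301) (nat_lit 5) (nat_lit 309) (nat_lit 5) (nat_lit 310) (nat_lit 5) (nat_lit 614) (nat_lit 562) (nat_lit 384))))) (XT.nd (nat_lit 234) (nat_lit 1216) (nat_lit 0) (XT.nd (nat_lit 78) (nat_lit 684) (nat_lit 0) (XT.lf (nat_lit 0) (nat_lit 1244749214) (nat_lit 684) (nat_lit 12327279108) (nat_lit 760) (nat_lit 3159052445) (nat_lit 292) (nat_lit 5) (nat_lit 301) (nat_lit 5) (nat_lit 302) (nat_lit 5) (nat_lit 615) (nat_lit 562) (nat_lit 383)) (XT.nd (nat_lit 78) (nat_lit 684) (nat_lit 0) (XT.lf (nat_lit 0) (nat_lit 11110059919) (nat_lit 684) (nat_lit 5559946894) (nat_lit 760) (nat_lit 250958741) (nat_lit 292) (nat_lit 5) (nat_lit 301) (nat_lit 5) (nat_lit 302) (nat_lit 5) (nat_lit 616) (nat_lit 562) (nat_lit 382)) (XT.lf (nat_lit 0) (nat_lit 2707009469) (nat_lit 684) (nat_lit 13039016155) (nat_lit 76) (nat_lit 1367723921) (nat_lit 283) (nat_lit 5) (nat_lit 292) (nat_lit 5) (nat_lit 284) (nat_lit 5) (nat_lit 617) (nat_lit 562) (nat_lit 381)))) (XT.nd (nat_lit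 156) (nat_lit 608) (nat_lit 0) (XT.nd (nat_lit 78) (nat_lit 608) (nat_lit 0) (XT.lf (nat_lit 0) (nat_lit 5788747252) (nat_lit 684) (nat_lit 3121629892) (nat_lit 76) (nat_lit 8398620056) (nat_lit 283) (nat_lit 5) (nat_lit 292) (nat_lit 5) (nat_lit 284) (nat_lit 5) (nat_lit 618) (nat_lit 562) (nat_lit 380)) (XT.lf (nat_lit 0) (nat_lit 7076985667) (nat_lit 608) (nat_lit 1893135637) (nat_lit 684) (nat_lit 8537269035) (nat_lit 275) (nat_lit 5) (nat_lit 283) (nat_lit 5) (nat_lit 284) (nat_lit 5) (nat_lit 619) (nat_lit 562) (nat_lit 379))) (XT.nd (nat_lit 78) (nat_lit 608) (nat_lit 0) (XT.lf (nat_lit 0) (nat_lit 12262521349) (nat_lit 684) (nat_lit 231776955) (nat_lit 76) (nat_lit 5214505615) (nat_lit 275) (nat_lit 5) (nat_lit 284) (nat_lit 5) (nat_lit 276) (nat_lit 5) (nat_lit 620) (nat_lit 562) (nat_lit 378)) (XT.lf (nat_lit 0) (nat_lit 10283336557) (nat_lit 608) (nat_lit 5409022382) (nat_lit 684) (nat_lit 2220455581) (nat_lit 267) (nat_lit 5) (nat_lit 275) (nat_lit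 5) (nat_lit 276) (nat_lit 5) (nat_lit 621) (nat_lit 562) (nat_lit 377))))))) (XT.nd (nat_lit 1092) (nat_lit 3952) (nat_lit 0) (XT.nd (nat_lit 546) (nat_lit 2052) (nat_lit 0) (XT.nd (nat_lit 234) (nat_lit 1140) (nat_lit 0) (XT.nd (nat_lit 78) (nat_lit 532) (nat_lit 0) (XT.lf (nat_lit 0) (nat_lit 1080624825) (nat_lit 684) (nat_lit 15220077120) (nat_lit 76) (nat_lit 1819569604) (nat_lit 258) (nat_lit 5) (nat_lit 267) (nat_lit 5) (nat_lit 259) (nat_lit 5) (nat_lit 622) (nat_lit 562) (nat_lit 376)) (XT.nd (nat_lit 78) (nat_lit 532) (nat_lit 0) (XT.lf (nat_lit 0) (nat_lit 4497776514) (nat_lit 684) (nat_lit 4647767701) (nat_lit 76) (nat_lit 9184444835) (nat_lit 258) (nat_lit 5) (nat_lit 267) (nat_lit 5) (nat_lit 259) (nat_lit 5) (nat_lit 623) (nat_lit 562) (nat_lit 375)) (XT.lf (nat_lit 0) (nat_lit 6207668884) (nat_lit 532) (nat_lit 1808451334) (nat_lit 608) (nat_lit 10527124204) (nat_lit 251) (nat_lit 5) (nat_lit 258) (nat_lit 5) (nat_lit 259) (nat_lit 5) (nat_lit 624)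 (nat_lit 562) (nat_lit 374)))) (XT.nd (nat_lit 156) (nat_lit 608) (nat_lit 0) (XT.nd (nat_lit 78) (nat_lit 532) (nat_lit 0) (XT.lf (nat_lit 0) (nat_lit 11665687825) (nat_lit 608) (nat_lit 1463782793) (nat_lit 76) (nat_lit 5630077628) (nat_lit 251) (nat_lit 5) (nat_lit 259) (nat_lit 5) (nat_lit 252) (nat_lit 5) (nat_lit 625) (nat_lit 562) (nat_lit 373)) (XT.lf (nat_lit 0) (nat_lit 9731489061) (nat_lit 532) (nat_lit 5724675503) (nat_lit 608) (nat_lit 3522655707) (nat_lit 244) (nat_lit 5) (nat_lit 251) (nat_lit 5) (nat_lit 252) (nat_lit 5) (nat_lit 626) (nat_lit 562) (nat_lit 372))) (XT.nd (nat_lit 78) (nat_lit 0) (nat_lit 0) (XT.lf (nat_lit 0) (nat_lit 145967545) (nat_lit 608) (nat_lit 17230404748) (nat_lit 76) (nat_lit 1825538966) (nat_lit 236) (nat_lit 5) (nat_lit 244) (nat_lit 5) (nat_lit 237) (nat_lit 5) (nat_lit 627) (nat_lit 562) (nat_lit 371)) (XT.lf (nat_lit 0) (nat_lit 3934069554) (nat_lit 608) (nat_lit 5959510785) (nat_lit 76) (nat_lit 9533552990) (nat_lit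 236) (nat_lit 5) (nat_lit 244) (nat_lit 5) (nat_lit 237) (nat_lit 5) (nat_lit 628) (nat_lit 562) (nat_lit 370))))) (XT.nd (nat_lit 234) (nat_lit 1064) (nat_lit 0) (XT.nd (nat_lit 78) (nat_lit 456) (nat_lit 0) (XT.lf (nat_lit 0) (nat_lit 5600738849) (nat_lit 532) (nat_lit 2226551981) (nat_lit 608) (nat_lit 11828982309) (nat_lit 229) (nat_lit 5) (nat_lit 236) (nat_lit 5) (nat_lit 237) (nat_lit 5) (nat_lit 629) (nat_lit 562) (nat_lit 369)) (XT.nd (nat_lit 78) (nat_lit 456) (nat_lit 0) (XT.lf (nat_lit 0) (nat_lit 11868004728) (nat_lit 608) (nat_lit 2462380267) (nat_lit 76) (nat_lit 5558218620) (nat_lit 229) (nat_lit 5) (nat_lit 237) (nat_lit 5) (nat_lit 230) (nat_lit 5) (nat_lit 630) (nat_lit 562) (nat_lit 368)) (XT.lf (nat_lit 0) (nat_lit 9462606073) (nat_lit 456) (nat_lit 6596299063) (nat_lit 532) (nat_lit 4065288544) (nat_lit 223) (nat_lit 5) (nat_lit 229) (nat_lit 5) (nat_lit 230) (nat_lit 5) (nat_lit 631) (nat_lit 562) (nat_lit 367)))) (XT.nd (nat_lit 156) (nat_lit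 456) (nat_lit 0) (XT.nd (nat_lit 78) (nat_lit 76) (nat_lit 0) (XT.lf (nat_lit 0) (nat_lit 1294333961) (nat_lit 532) (nat_lit 19065963636) (nat_lit 608) (nat_lit 3664885) (nat_lit 216) (nat_lit 5) (nat_lit 223) (nat_lit 5) (nat_lit 224) (nat_lit 5) (nat_lit 632) (nat_lit 562) (nat_lit 366)) (XT.lf (nat_lit 0) (nat_lit 4193880144) (nat_lit 608) (nat_lit 7053706874) (nat_lit 76) (nat_lit 9358223051) (nat_lit 215) (nat_lit 5) (nat_lit 223) (nat_lit 5) (nat_lit 216) (nat_lit 5) (nat_lit 633) (nat_lit 562) (nat_lit 365))) (XT.nd (nat_lit 78) (nat_lit 0) (nat_lit 0) (XT.lf (nat_lit 0) (nat_lit 5262236448) (nat_lit 456) (nat_lit 3240660808) (nat_lit 532) (nat_lit 12349045858) (nat_lit 209) (nat_lit 5) (nat_lit 215) (nat_lit 5) (nat_lit 216) (nat_lit 5) (nat_lit 634) (nat_lit 562) (nat_lit 364)) (XT.lf (nat_lit 0) (nat_lit 12971183919) (nat_lit 532) (nat_lit 3223577537) (nat_lit 76) (nat_lit 4906775963) (nat_lit 209) (nat_lit 5) (nat_lit 216) (nat_lit 5) (nat_lit 210) (nat_lit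 5) (nat_lit 635) (nat_lit 562) (nat_lit 363)))))) (XT.nd (nat_lit 546) (nat_lit 1596) (nat_lit 0) (XT.nd (nat_lit 234) (nat_lit 1368) (nat_lit 0) (XT.nd (nat_lit 78) (nat_lit 532) (nat_lit 0) (XT.lf (nat_lit 0) (nat_lit 9483635629) (nat_lit 456) (nat_lit 8121820549) (nat_lit 532) (nat_lit 3749135412) (nat_lit 203) (nat_lit 5) (nat_lit 209) (nat_lit 5) (nat_lit 210) (nat_lit 5) (nat_lit 636) (nat_lit 562) (nat_lit 362)) (XT.nd (nat_lit 78) (nat_lit 0) (nat_lit 0) (XT.lf (nat_lit 0) (nat_lit 732251258) (nat_lit 532) (nat_lit 20739239710) (nat_lit 76) (nat_lit 140683117) (nat_lit 196) (nat_lit 5) (nat_lit 203) (nat_lit 5) (nat_lit 197) (nat_lit 5) (nat_lit 637) (nat_lit 562) (nat_lit 361)) (XT.lf (nat_lit 0) (nat_lit 5380743214) (nat_lit 532) (nat_lit 7929071879) (nat_lit 76) (nat_lit 8562044287) (nat_lit 196) (nat_lit 5) (nat_lit 203) (nat_lit 5) (nat_lit 197) (nat_lit 5) (nat_lit 638) (nat_lit 562) (nat_lit 360)))) (XT.nd (nat_lit 156) (nat_lit 912) (nat_lit 0)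 (XT.nd (nat_lit 78) (nat_lit 0) (nat_lit 0) (XT.lf (nat_lit 0) (nat_lit 5196401883) (nat_lit 456) (nat_lit 4953322734) (nat_lit 532) (nat_lit 11986463720) (nat_lit 190) (nat_lit 5) (nat_lit 196) (nat_lit 5) (nat_lit 197) (nat_lit 5) (nat_lit 639) (nat_lit 562) (nat_lit 359)) (XT.lf (nat_lit 0) (nat_lit 15084653310) (nat_lit 532) (nat_lit 3745501739) (nat_lit 76) (nat_lit 3574237813) (nat_lit 190) (nat_lit 5) (nat_lit 197) (nat_lit 5) (nat_lit 191) (nat_lit 5) (nat_lit 640) (nat_lit 562) (nat_lit 358))) (XT.nd (nat_lit 78) (nat_lit 532) (nat_lit 0) (XT.lf (nat_lit 0) (nat_lit 9799470673) (nat_lit 380) (nat_lit 10409185372) (nat_lit 456) (nat_lit 2467498258) (nat_lit 185) (nat_lit 5) (nat_lit 190) (nat_lit 5) (nat_lit 191) (nat_lit 5) (nat_lit 641) (nat_lit 562) (nat_lit 357)) (XT.lf (nat_lit 0) (nat_lit 697191259) (nat_lit 456) (nat_lit 1775843386) (nat_lit 532) (nat_lit 20479518465) (nat_lit 178) (nat_lit 5) (nat_lit 184) (nat_lit 5) (nat_lit 185) (nat_lit 5) (nat_lit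 642) (nat_lit 562) (nat_lit 356))))) (XT.nd (nat_lit 234) (nat_lit 1216) (nat_lit 0) (XT.nd (nat_lit 78) (nat_lit 380) (nat_lit 0) (XT.lf (nat_lit 0) (nat_lit 7606005599) (nat_lit 532) (nat_lit 8587199233) (nat_lit 76) (nat_lit 7038415828) (nat_lit 178) (nat_lit 5) (nat_lit 185) (nat_lit 5) (nat_lit 179) (nat_lit 5) (nat_lit 643) (nat_lit 562) (nat_lit 355)) (XT.nd (nat_lit 78) (nat_lit 0) (nat_lit 0) (XT.lf (nat_lit 0) (nat_lit 5404644837) (nat_lit 380) (nat_lit 7477969912) (nat_lit 456) (nat_lit 10632835547) (nat_lit 173) (nat_lit 5) (nat_lit 178) (nat_lit 5) (nat_lit 179) (nat_lit 5) (nat_lit 644) (nat_lit 562) (nat_lit 354)) (XT.lf (nat_lit 0) (nat_lit 18326094183) (nat_lit 456) (nat_lit 4029466722) (nat_lit 76) (nat_lit 1448169162) (nat_lit 173) (nat_lit 5) (nat_lit 179) (nat_lit 5) (nat_lit 174) (nat_lit 5) (nat_lit 645) (nat_lit 562) (nat_lit 353)))) (XT.nd (nat_lit 156) (nat_lit 380) (nat_lit 0) (XT.nd (nat_lit 78) (nat_lit 456) (nat_lit 0) (XT.lf (nat_lit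 0) (nat_lit 10411858861) (nat_lit 380) (nat_lit 13577989394) (nat_lit 456) (nat_lit 105699374) (nat_lit 168) (nat_lit 5) (nat_lit 173) (nat_lit 5) (nat_lit 174) (nat_lit 5) (nat_lit 646) (nat_lit 562) (nat_lit 352)) (XT.lf (nat_lit 0) (nat_lit 770315632) (nat_lit 380) (nat_lit 4559403619) (nat_lit 456) (nat_lit 19062254386) (nat_lit 162) (nat_lit 5) (nat_lit 167) (nat_lit 5) (nat_lit 168) (nat_lit 5) (nat_lit 647) (nat_lit 562) (nat_lit 351))) (XT.nd (nat_lit 78) (nat_lit 380) (nat_lit 0) (XT.lf (nat_lit 0) (nat_lit 10989324306) (nat_lit 456) (nat_lit 9033762667) (nat_lit 76) (nat_lit 4668889632) (nat_lit 162) (nat_lit 5) (nat_lit 168) (nat_lit 5) (nat_lit 163) (nat_lit 5) (nat_lit 648) (nat_lit 562) (nat_lit 350)) (XT.lf (nat_lit 0) (nat_lit 5884314844) (nat_lit 380) (nat_lit 10940653397) (nat_lit 456) (nat_lit 8171754730) (nat_lit 157) (nat_lit 5) (nat_lit 162) (nat_lit 5) (nat_lit 163) (nat_lit 5) (nat_lit 649) (nat_lit 562) (nat_lit 349))))))))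
noncomputable def xc170 : XT := (XT.nd (nat_lit 75348) (nat_lit 0) (nat_lit 20140) (XT.nd (nat_lit 1014) (nat_lit 380) (nat_lit 0) (XT.nd (nat_lit 468) (nat_lit 1672) (nat_lit 0) (XT.nd (nat_lit 234) (nat_lit 380) (nat_lit 0) (XT.nd (nat_lit 78) (nat_lit 836) (nat_lit 0) (XT.lf (nat_lit 0) (nat_lit 21214710362) (nat_lit 380) (nat_lit 1617736873) (nat_lit 456) (nat_lit 2474014855) (nat_lit 157) (nat_lit 5) (nat_lit 162) (nat_lit 5) (nat_lit 163) (nat_lit 5) (nat_lit 650) (nat_lit 562) (nat_lit 348)) (XT.nd (nat_lit 78) (nat_lit 380) (nat_lit 0) (XT.lf (nat_lit 0) (nat_lit 3414007390) (nat_lit 456) (nat_lit 14324372585) (nat_lit 76) (nat_lit 7881180831) (nat_lit 151) (nat_lit 5) (nat_lit 157) (nat_lit 5) (nat_lit 152) (nat_lit 5) (nat_lit 651) (nat_lit 562) (nat_lit 347)) (XT.lf (nat_lit 0) (nat_lit 1085478642) (nat_lit 380) (nat_lit 8341221770) (nat_lit 456) (nat_lit 16511093525) (nat_lit 146) (nat_lit 5) (nat_lit 151) (nat_lit 5) (nat_lit 152) (nat_lit 5) (nat_lit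 652) (nat_lit 562) (nat_lit 346)))) (XT.nd (nat_lit 78) (nat_lit 380) (nat_lit 0) (XT.lf (nat_lit 0) (nat_lit 15659121309) (nat_lit 456) (nat_lit 9279953731) (nat_lit 76) (nat_lit 1321327459) (nat_lit 146) (nat_lit 5) (nat_lit 152) (nat_lit 5) (nat_lit 147) (nat_lit 5) (nat_lit 653) (nat_lit 562) (nat_lit 345)) (XT.nd (nat_lit 78) (nat_lit 76) (nat_lit 0) (XT.lf (nat_lit 0) (nat_lit 6627229211) (nat_lit 304) (nat_lit 15481972071) (nat_lit 380) (nat_lit 4478401982) (nat_lit 142) (nat_lit 5) (nat_lit 146) (nat_lit 5) (nat_lit 147) (nat_lit 5) (nat_lit 654) (nat_lit 562) (nat_lit 344)) (XT.lf (nat_lit 0) (nat_lit 1801204142) (nat_lit 380) (nat_lit 3961957626) (nat_lit 76) (nat_lit 21156808207) (nat_lit 141) (nat_lit 5) (nat_lit 146) (nat_lit 5) (nat_lit 142) (nat_lit 5) (nat_lit 655) (nat_lit 562) (nat_lit 343))))) (XT.nd (nat_lit 234) (nat_lit 988) (nat_lit 0) (XT.nd (nat_lit 78) (nat_lit 304) (nat_lit 0) (XT.lf (nat_lit 0) (nat_lit 8250054429) (nat_lit 456) (nat_lit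 14802210000) (nat_lit 76) (nat_lit 4204055422) (nat_lit 136) (nat_lit 5) (nat_lit 142) (nat_lit 5) (nat_lit 137) (nat_lit 5) (nat_lit 656) (nat_lit 562) (nat_lit 342)) (XT.nd (nat_lit 78) (nat_lit 0) (nat_lit 0) (XT.lf (nat_lit 0) (nat_lit 1628165737) (nat_lit 304) (nat_lit 13270105300) (nat_lit 380) (nat_lit 12699718125) (nat_lit 132) (nat_lit 5) (nat_lit 136) (nat_lit 5) (nat_lit 137) (nat_lit 5) (nat_lit 657) (nat_lit 562) (nat_lit 341)) (XT.lf (nat_lit 0) (nat_lit 18579666372) (nat_lit 304) (nat_lit 3194052318) (nat_lit 380) (nat_lit 6170888058) (nat_lit 132) (nat_lit 5) (nat_lit 136) (nat_lit 5) (nat_lit 137) (nat_lit 5) (nat_lit 658) (nat_lit 562) (nat_lit 340)))) (XT.nd (nat_lit 156) (nat_lit 608) (nat_lit 0) (XT.nd (nat_lit 78) (nat_lit 0) (nat_lit 0) (XT.lf (nat_lit 0) (nat_lit 573177810) (nat_lit 380) (nat_lit 20682209844) (nat_lit 76) (nat_lit 7040884482) (nat_lit 127) (nat_lit 5) (nat_lit 132) (nat_lit 5) (nat_lit 128) (nat_lit 5) (nat_lit 659) (nat_lit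 562) (nat_lit 339)) (XT.lf (nat_lit 0) (nat_lit 7449015319) (nat_lit 380) (nat_lit 3664624713) (nat_lit 76) (nat_lit 17538924847) (nat_lit 127) (nat_lit 5) (nat_lit 132) (nat_lit 5) (nat_lit 128) (nat_lit 5) (nat_lit 660) (nat_lit 562) (nat_lit 338))) (XT.nd (nat_lit 78) (nat_lit 304) (nat_lit 0) (XT.lf (nat_lit 0) (nat_lit 13867277741) (nat_lit 304) (nat_lit 680253627) (nat_lit 380) (nat_lit 14466749077) (nat_lit 123) (nat_lit 5) (nat_lit 127) (nat_lit 5) (nat_lit 128) (nat_lit 5) (nat_lit 661) (nat_lit 562) (nat_lit 337)) (XT.lf (nat_lit 0) (nat_lit 2375132166) (nat_lit 304) (nat_lit 19512890697) (nat_lit 380) (nat_lit 7493207559) (nat_lit 119) (nat_lit 5) (nat_lit 123) (nat_lit 5) (nat_lit 124) (nat_lit 5) (nat_lit 662) (nat_lit 562) (nat_lit 336)))))) (XT.nd (nat_lit 73788) (nat_lit 0) (nat_lit 30324) (XT.nd (nat_lit 73476) (nat_lit 0) (nat_lit 31920) (XT.nd (nat_lit 78) (nat_lit 380) (nat_lit 0) (XT.lf (nat_lit 0) (nat_lit 20440587315) (nat_lit 304) (nat_lit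 9036051658) (nat_lit 380) (nat_lit 276854325) (nat_lit 119) (nat_lit 5) (nat_lit 123) (nat_lit 5) (nat_lit 124) (nat_lit 5) (nat_lit 663) (nat_lit 562) (nat_lit 335)) (XT.nd (nat_lit 73320) (nat_lit 0) (nat_lit 31920) (XT.lf (nat_lit 0) (nat_lit 7054663925) (nat_lit 380) (nat_lit 21346885566) (nat_lit 76) (nat_lit 1729457398) (nat_lit 114) (nat_lit 5) (nat_lit 119) (nat_lit 5) (nat_lit 115) (nat_lit 5) (nat_lit 664) (nat_lit 562) (nat_lit 334)) (XT.lf (nat_lit 0) (nat_lit 1589257043) (nat_lit 0) (nat_lit 1589257043) (nat_lit 1596) (nat_lit 1823409534) (nat_lit 534) (nat_lit 5) (nat_lit 534) (nat_lit 3) (nat_lit 555) (nat_lit 3) (nat_lit 563) (nat_lit 563) (nat_lit 434)))) (XT.nd (nat_lit 156) (nat_lit 0) (nat_lit 0) (XT.nd (nat_lit 78) (nat_lit 0) (nat_lit 0) (XT.lf (nat_lit 0) (nat_lit 7133633773) (nat_lit 1596) (nat_lit 1883238819) (nat_lit 1672) (nat_lit 1072682275) (nat_lit 534) (nat_lit 5) (nat_lit 555) (nat_lit 3) (nat_lit 556) (nat_lit 5) (nat_lit 564) (nat_lit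 563) (nat_lit 433)) (XT.lf (nat_lit 76) (nat_lit 3168511895) (nat_lit 0) (nat_lit 4780423486) (nat_lit 1672) (nat_lit 2227579827) (nat_lit 535) (nat_lit 5) (nat_lit 534) (nat_lit 5) (nat_lit 556) (nat_lit 5) (nat_lit 565) (nat_lit 563) (nat_lit 432))) (XT.nd (nat_lit 78) (nat_lit 0) (nat_lit 76) (XT.lf (nat_lit 76) (nat_lit 8337197833) (nat_lit 0) (nat_lit 437824178) (nat_lit 1672) (nat_lit 1490304969) (nat_lit 535) (nat_lit 5) (nat_lit 534) (nat_lit 5) (nat_lit 556) (nat_lit 5) (nat_lit 566) (nat_lit 563) (nat_lit 431)) (XT.lf (nat_lit 76) (nat_lit 3260335159) (nat_lit 0) (nat_lit 6386631582) (nat_lit 1672) (nat_lit 708363287) (nat_lit 536) (nat_lit 5) (nat_lit 535) (nat_lit 5) (nat_lit 557) (nat_lit 5) (nat_lit 567) (nat_lit 563) (nat_lit 430))))) (XT.nd (nat_lit 234) (nat_lit 0) (nat_lit 152) (XT.nd (nat_lit 78) (nat_lit 0) (nat_lit 76) (XT.lf (nat_lit 0) (nat_lit 86389991) (nat_lit 1672) (nat_lit 1881755222) (nat_lit 1748) (nat_lit 8479011182) (nat_lit 513)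 (nat_lit 5) (nat_lit 535) (nat_lit 5) (nat_lit 536) (nat_lit 5) (nat_lit 568) (nat_lit 563) (nat_lit 429)) (XT.nd (nat_lit 78) (nat_lit 0) (nat_lit 0) (XT.lf (nat_lit 0) (nat_lit 909545219) (nat_lit 1672) (nat_lit 7090633451) (nat_lit 1748) (nat_lit 2540108803) (nat_lit 514) (nat_lit 5) (nat_lit 536) (nat_lit 5) (nat_lit 537) (nat_lit 5) (nat_lit 569) (nat_lit 563) (nat_lit 428)) (XT.lf (nat_lit 0) (nat_lit 1757993819) (nat_lit 1672) (nat_lit 1745095137) (nat_lit 1748) (nat_lit 7132017244) (nat_lit 514) (nat_lit 5) (nat_lit 536) (nat_lit 5) (nat_lit 537) (nat_lit 5) (nat_lit 570) (nat_lit 563) (nat_lit 427)))) (XT.nd (nat_lit 156) (nat_lit 0) (nat_lit 0) (XT.nd (nat_lit 78) (nat_lit 0) (nat_lit 0) (XT.lf (nat_lit 0) (nat_lit 2638394932) (nat_lit 1672) (nat_lit 6992368378) (nat_lit 1748) (nat_lit 1100759922) (nat_lit 515) (nat_lit 5) (nat_lit 537) (nat_lit 5) (nat_lit 538) (nat_lit 5) (nat_lit 571) (nat_lit 563) (nat_lit 426)) (XT.lf (nat_lit 0) (nat_lit 3555110855)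 (nat_lit 1672) (nat_lit 1506419487) (nat_lit 1748) (nat_lit 5767965697) (nat_lit 515) (nat_lit 5) (nat_lit 537) (nat_lit 5) (nat_lit 538) (nat_lit 5) (nat_lit 572) (nat_lit 563) (nat_lit 425))) (XT.nd (nat_lit 78) (nat_lit 0) (nat_lit 76) (XT.lf (nat_lit 76) (nat_lit 4133406451) (nat_lit 0) (nat_lit 367630152) (nat_lit 1748) (nat_lit 6428175730) (nat_lit 516) (nat_lit 5) (nat_lit 515) (nat_lit 5) (nat_lit 538) (nat_lit 5) (nat_lit 573) (nat_lit 563) (nat_lit 424)) (XT.lf (nat_lit 0) (nat_lit 5489079217) (nat_lit 1672) (nat_lit 1163376554) (nat_lit 1748) (nat_lit 4378004723) (nat_lit 516) (nat_lit 5) (nat_lit 538) (nat_lit 5) (nat_lit 539) (nat_lit 5) (nat_lit 574) (nat_lit 563) (nat_lit 423))))))) (XT.nd (nat_lit 1014) (nat_lit 8816) (nat_lit 0) (XT.nd (nat_lit 468) (nat_lit 0) (nat_lit 76) (XT.nd (nat_lit 234) (nat_lit 1596) (nat_lit 0) (XT.nd (nat_lit 78) (nat_lit 0) (nat_lit 76) (XT.lf (nat_lit 76) (nat_lit 4629851668) (nat_lit 0) (nat_lit 1884157096) (nat_lit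 1748) (nat_lit 4619383812) (nat_lit 517) (nat_lit 5) (nat_lit 516) (nat_lit 5) (nat_lit 539) (nat_lit 5) (nat_lit 575) (nat_lit 563) (nat_lit 422)) (XT.nd (nat_lit 78) (nat_lit 0) (nat_lit 0) (XT.lf (nat_lit 0) (nat_lit 7571540627) (nat_lit 1672) (nat_lit 713316156) (nat_lit 1748) (nat_lit 2953285894) (nat_lit 517) (nat_lit 5) (nat_lit 539) (nat_lit 5) (nat_lit 540) (nat_lit 5) (nat_lit 576) (nat_lit 563) (nat_lit 421)) (XT.lf (nat_lit 76) (nat_lit 5238739612) (nat_lit 0) (nat_lit 3443171037) (nat_lit 1748) (nat_lit 2662444801) (nat_lit 518) (nat_lit 5) (nat_lit 517) (nat_lit 5) (nat_lit 540) (nat_lit 5) (nat_lit 577) (nat_lit 563) (nat_lit 420)))) (XT.nd (nat_lit 78) (nat_lit 1748) (nat_lit 0) (XT.lf (nat_lit 0) (nat_lit 9814464897) (nat_lit 1672) (nat_lit 153288894) (nat_lit 1748) (nat_lit 1484940547) (nat_lit 518) (nat_lit 5) (nat_lit 540) (nat_lit 5) (nat_lit 541) (nat_lit 5) (nat_lit 578) (nat_lit 563) (nat_lit 419)) (XT.nd (nat_lit 78) (nat_lit 1748) (nat_lit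 0) (XT.lf (nat_lit 76) (nat_lit 5963238789) (nat_lit 0) (nat_lit 5053686104) (nat_lit 1748) (nat_lit 545331384) (nat_lit 519) (nat_lit 5) (nat_lit 518) (nat_lit 5) (nat_lit 541) (nat_lit 5) (nat_lit 579) (nat_lit 563) (nat_lit 418)) (XT.lf (nat_lit 76) (nat_lit 522966775) (nat_lit 0) (nat_lit 29274767) (nat_lit 1824) (nat_lit 11121889585) (nat_lit 496) (nat_lit 5) (nat_lit 495) (nat_lit 5) (nat_lit 519) (nat_lit 5) (nat_lit 580) (nat_lit 563) (nat_lit 417))))) (XT.nd (nat_lit 234) (nat_lit 0) (nat_lit 76) (XT.nd (nat_lit 78) (nat_lit 0) (nat_lit 0) (XT.lf (nat_lit 0) (nat_lit 1721464250) (nat_lit 1748) (nat_lit 4991759072) (nat_lit 1824) (nat_lit 5073809340) (nat_lit 496) (nat_lit 5) (nat_lit 519) (nat_lit 5) (nat_lit 520) (nat_lit 5) (nat_lit 581) (nat_lit 563) (nat_lit 416)) (XT.nd (nat_lit 78) (nat_lit 0) (nat_lit 76) (XT.lf (nat_lit 76) (nat_lit 1297252713) (nat_lit 0) (nat_lit 1611796109) (nat_lit 1824) (nat_lit 8993245121) (nat_lit 497) (nat_lit 5) (nat_lit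 496) (nat_lit 5) (nat_lit 520) (nat_lit 5) (nat_lit 582) (nat_lit 563) (nat_lit 415)) (XT.lf (nat_lit 0) (nat_lit 4164005111) (nat_lit 1748) (nat_lit 4273645614) (nat_lit 1824) (nat_lit 3581338563) (nat_lit 497) (nat_lit 5) (nat_lit 520) (nat_lit 5) (nat_lit 521) (nat_lit 5) (nat_lit 583) (nat_lit 563) (nat_lit 414)))) (XT.nd (nat_lit 156) (nat_lit 0) (nat_lit 76) (XT.nd (nat_lit 78) (nat_lit 0) (nat_lit 76) (XT.lf (nat_lit 76) (nat_lit 2192037858) (nat_lit 0) (nat_lit 3263773507) (nat_lit 1824) (nat_lit 6681973371) (nat_lit 498) (nat_lit 5) (nat_lit 497) (nat_lit 5) (nat_lit 521) (nat_lit 5) (nat_lit 584) (nat_lit 563) (nat_lit 413)) (XT.lf (nat_lit 0) (nat_lit 6802447890) (nat_lit 1748) (nat_lit 3437304407) (nat_lit 1824) (nat_lit 2018625103) (nat_lit 498) (nat_lit 5) (nat_lit 521) (nat_lit 5) (nat_lit 522) (nat_lit 5) (nat_lit 585) (nat_lit 563) (nat_lit 412))) (XT.nd (nat_lit 78) (nat_lit 0) (nat_lit 76) (XT.lf (nat_lit 76) (nat_lit 3211395007) (nat_lit 0)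 (nat_lit 4994393220) (nat_lit 1824) (nat_lit 4174999436) (nat_lit 499) (nat_lit 5) (nat_lit 498) (nat_lit 5) (nat_lit 522) (nat_lit 5) (nat_lit 586) (nat_lit 563) (nat_lit 411)) (XT.lf (nat_lit 0) (nat_lit 9650226770) (nat_lit 1748) (nat_lit 2478598607) (nat_lit 76) (nat_lit 376561270) (nat_lit 499) (nat_lit 5) (nat_lit 522) (nat_lit 5) (nat_lit 500) (nat_lit 5) (nat_lit 587) (nat_lit 563) (nat_lit 410)))))) (XT.nd (nat_lit 546) (nat_lit 3496) (nat_lit 0) (XT.nd (nat_lit 234) (nat_lit 1976) (nat_lit 0) (XT.nd (nat_lit 78) (nat_lit 1900) (nat_lit 0) (XT.lf (nat_lit 0) (nat_lit 4359709883) (nat_lit 1748) (nat_lit 6812972798) (nat_lit 1824) (nat_lit 1458813480) (nat_lit 476) (nat_lit 5) (nat_lit 499) (nat_lit 5) (nat_lit 500) (nat_lit 5) (nat_lit 588) (nat_lit 563) (nat_lit 409)) (XT.nd (nat_lit 78) (nat_lit 1900) (nat_lit 0) (XT.lf (nat_lit 0) (nat_lit 11358046682) (nat_lit 1748) (nat_lit 1372093892) (nat_lit 1824) (nat_lit 29897331) (nat_lit 476) (nat_lit 5) (nat_lit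 499) (nat_lit 5) (nat_lit 500) (nat_lit 5) (nat_lit 589) (nat_lit 563) (nat_lit 408)) (XT.lf (nat_lit 0) (nat_lit 1461138189) (nat_lit 1900) (nat_lit 7258040493) (nat_lit 76) (nat_lit 4170742197) (nat_lit 451) (nat_lit 5) (nat_lit 476) (nat_lit 5) (nat_lit 452) (nat_lit 5) (nat_lit 590) (nat_lit 563) (nat_lit 407)))) (XT.nd (nat_lit 156) (nat_lit 912) (nat_lit 0) (XT.nd (nat_lit 78) (nat_lit 1064) (nat_lit 0) (XT.lf (nat_lit 0) (nat_lit 2988406437) (nat_lit 1900) (nat_lit 216597687) (nat_lit 76) (nat_lit 9817258225) (nat_lit 451) (nat_lit 5) (nat_lit 476) (nat_lit 5) (nat_lit 452) (nat_lit 5) (nat_lit 591) (nat_lit 563) (nat_lit 406)) (XT.lf (nat_lit 0) (nat_lit 4596484313) (nat_lit 1140) (nat_lit 6124744731) (nat_lit 76) (nat_lit 2435017336) (nat_lit 437) (nat_lit 5) (nat_lit 452) (nat_lit 5) (nat_lit 438) (nat_lit 5) (nat_lit 592) (nat_lit 563) (nat_lit 405))) (XT.nd (nat_lit 78) (nat_lit 0) (nat_lit 0) (XT.lf (nat_lit 0) (nat_lit 1117606918) (nat_lit 912) (nat_lit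 5137713602) (nat_lit 988) (nat_lit 7037218629) (nat_lit 425) (nat_lit 5) (nat_lit 437) (nat_lit 5) (nat_lit 438) (nat_lit 5) (nat_lit 593) (nat_lit 563) (nat_lit 404)) (XT.lf (nat_lit 0) (nat_lit 7981138186) (nat_lit 988) (nat_lit 4857394734) (nat_lit 76) (nat_lit 592349738) (nat_lit 425) (nat_lit 5) (nat_lit 438) (nat_lit 5) (nat_lit 426) (nat_lit 5) (nat_lit 594) (nat_lit 563) (nat_lit 403))))) (XT.nd (nat_lit 234) (nat_lit 1748) (nat_lit 0) (XT.nd (nat_lit 78) (nat_lit 836) (nat_lit 0) (XT.lf (nat_lit 0) (nat_lit 2596129961) (nat_lit 912) (nat_lit 7185254797) (nat_lit 988) (nat_lit 3789810984) (nat_lit 413) (nat_lit 5) (nat_lit 425) (nat_lit 5) (nat_lit 426) (nat_lit 5) (nat_lit 595) (nat_lit 563) (nat_lit 402)) (XT.nd (nat_lit 78) (nat_lit 836) (nat_lit 0) (XT.lf (nat_lit 0) (nat_lit 10254249084) (nat_lit 912) (nat_lit 1385163070) (nat_lit 988) (nat_lit 2074468354) (nat_lit 413) (nat_lit 5) (nat_lit 425) (nat_lit 5) (nat_lit 426) (nat_lit 5) (nat_lit 596) (nat_lit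 563) (nat_lit 401)) (XT.lf (nat_lit 0) (nat_lit 4221729303) (nat_lit 836) (nat_lit 9359094425) (nat_lit 912) (nat_lit 277671688) (nat_lit 402) (nat_lit 5) (nat_lit 413) (nat_lit 5) (nat_lit 414) (nat_lit 5) (nat_lit 597) (nat_lit 563) (nat_lit 400)))) (XT.nd (nat_lit 156) (nat_lit 836) (nat_lit 0) (XT.nd (nat_lit 78) (nat_lit 836) (nat_lit 0) (XT.lf (nat_lit 0) (nat_lit 1556675622) (nat_lit 912) (nat_lit 1931754478) (nat_lit 76) (nat_lit 10516931286) (nat_lit 401) (nat_lit 5) (nat_lit 413) (nat_lit 5) (nat_lit 402) (nat_lit 5) (nat_lit 598) (nat_lit 563) (nat_lit 399)) (XT.lf (nat_lit 0) (nat_lit 3469085161) (nat_lit 912) (nat_lit 8177129198) (nat_lit 76) (nat_lit 2508012608) (nat_lit 390) (nat_lit 5) (nat_lit 402) (nat_lit 5) (nat_lit 391) (nat_lit 5) (nat_lit 599) (nat_lit 563) (nat_lit 398))) (XT.nd (nat_lit 78) (nat_lit 836) (nat_lit 0) (XT.lf (nat_lit 0) (nat_lit 5445704247) (nat_lit 912) (nat_lit 269026113) (nat_lit 76) (nat_lit 8590821122) (nat_lit 390)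 (nat_lit 5) (nat_lit 402) (nat_lit 5) (nat_lit 391) (nat_lit 5) (nat_lit 600) (nat_lit 563) (nat_lit 397)) (XT.lf (nat_lit 0) (nat_lit 7505612532) (nat_lit 912) (nat_lit 6571006076) (nat_lit 76) (nat_lit 382409576) (nat_lit 379) (nat_lit 5) (nat_lit 391) (nat_lit 5) (nat_lit 380) (nat_lit 5) (nat_lit 601) (nat_lit 563) (nat_lit 396))))))))
noncomputable def xc171 : XT := (XT.nd (nat_lit 2106) (nat_lit 7220) (nat_lit 0) (XT.nd (nat_lit 1014) (nat_lit 5548) (nat_lit 0) (XT.nd (nat_lit 468) (nat_lit 2888) (nat_lit 0) (XT.nd (nat_lit 234) (nat_lit 836) (nat_lit 0) (XT.nd (nat_lit 78) (nat_lit 760) (nat_lit 0) (XT.lf (nat_lit 0) (nat_lit 1568769358) (nat_lit 836) (nat_lit 8077937435) (nat_lit 912) (nat_lit 4968068690) (nat_lit 368) (nat_lit 5) (nat_lit 379) (nat_lit 5) (nat_lit 380) (nat_lit 5) (nat_lit 602) (nat_lit 563) (nat_lit 395)) (XT.nd (nat_lit 78) (nat_lit 760) (nat_lit 0) (XT.lf (nat_lit 0) (nat_lit 9950212383) (nat_lit 836) (nat_lit 1914771749) (nat_lit 912)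 (nat_lit 2907967170) (nat_lit 368) (nat_lit 5) (nat_lit 379) (nat_lit 5) (nat_lit 380) (nat_lit 5) (nat_lit 603) (nat_lit 563) (nat_lit 394)) (XT.lf (nat_lit 0) (nat_lit 3573285899) (nat_lit 760) (nat_lit 10596379140) (nat_lit 836) (nat_lit 763785626) (nat_lit 358) (nat_lit 5) (nat_lit 368) (nat_lit 5) (nat_lit 369) (nat_lit 5) (nat_lit 604) (nat_lit 563) (nat_lit 393)))) (XT.nd (nat_lit 78) (nat_lit 760) (nat_lit 0) (XT.lf (nat_lit 0) (nat_lit 1440383493) (nat_lit 836) (nat_lit 2926291978) (nat_lit 76) (nat_lit 10729585069) (nat_lit 357) (nat_lit 5) (nat_lit 368) (nat_lit 5) (nat_lit 358) (nat_lit 5) (nat_lit 605) (nat_lit 563) (nat_lit 392)) (XT.nd (nat_lit 78) (nat_lit 0) (nat_lit 0) (XT.lf (nat_lit 0) (nat_lit 3719541657) (nat_lit 836) (nat_lit 9538460963) (nat_lit 76) (nat_lit 2003401105) (nat_lit 347) (nat_lit 5) (nat_lit 358) (nat_lit 5) (nat_lit 348) (nat_lit 5) (nat_lit 606) (nat_lit 563) (nat_lit 391)) (XT.lf (nat_lit 0) (nat_lit 6083779267) (nat_lit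 836) (nat_lit 883836919) (nat_lit 76) (nat_lit 8461444388) (nat_lit 347) (nat_lit 5) (nat_lit 358) (nat_lit 5) (nat_lit 348) (nat_lit 5) (nat_lit 607) (nat_lit 563) (nat_lit 390))))) (XT.nd (nat_lit 234) (nat_lit 1444) (nat_lit 0) (XT.nd (nat_lit 78) (nat_lit 760) (nat_lit 0) (XT.lf (nat_lit 0) (nat_lit 8039356115) (nat_lit 684) (nat_lit 499133422) (nat_lit 760) (nat_lit 7060717977) (nat_lit 338) (nat_lit 5) (nat_lit 347) (nat_lit 5) (nat_lit 348) (nat_lit 5) (nat_lit 608) (nat_lit 563) (nat_lit 389)) (XT.nd (nat_lit 78) (nat_lit 0) (nat_lit 0) (XT.lf (nat_lit 0) (nat_lit 1348334623) (nat_lit 760) (nat_lit 9739377875) (nat_lit 836) (nat_lit 4684137221) (nat_lit 328) (nat_lit 5) (nat_lit 338) (nat_lit 5) (nat_lit 339) (nat_lit 5) (nat_lit 609) (nat_lit 563) (nat_lit 388)) (XT.lf (nat_lit 0) (nat_lit 10523809230) (nat_lit 760) (nat_lit 3209331662) (nat_lit 836) (nat_lit 2213900140) (nat_lit 328) (nat_lit 5) (nat_lit 338) (nat_lit 5) (nat_lit 339) (nat_lit 5) (nat_lit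 610) (nat_lit 563) (nat_lit 387)))) (XT.nd (nat_lit 156) (nat_lit 684) (nat_lit 0) (XT.nd (nat_lit 78) (nat_lit 0) (nat_lit 0) (XT.lf (nat_lit 0) (nat_lit 340268738) (nat_lit 760) (nat_lit 12353032591) (nat_lit 76) (nat_lit 3431625061) (nat_lit 318) (nat_lit 5) (nat_lit 328) (nat_lit 5) (nat_lit 319) (nat_lit 5) (nat_lit 611) (nat_lit 563) (nat_lit 386)) (XT.lf (nat_lit 0) (nat_lit 2965211314) (nat_lit 760) (nat_lit 3127382644) (nat_lit 76) (nat_lit 10212496773) (nat_lit 318) (nat_lit 5) (nat_lit 328) (nat_lit 5) (nat_lit 319) (nat_lit 5) (nat_lit 612) (nat_lit 563) (nat_lit 385))) (XT.nd (nat_lit 78) (nat_lit 0) (nat_lit 0) (XT.lf (nat_lit 0) (nat_lit 5679929858) (nat_lit 760) (nat_lit 10136300911) (nat_lit 76) (nat_lit 671882680) (nat_lit 309) (nat_lit 5) (nat_lit 319) (nat_lit 5) (nat_lit 310) (nat_lit 5) (nat_lit 613) (nat_lit 563) (nat_lit 384)) (XT.lf (nat_lit 0) (nat_lit 8502096018) (nat_lit 760) (nat_lit 661796245) (nat_lit 76) (nat_lit 7509841912) (nat_lit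 309) (nat_lit 5) (nat_lit 319) (nat_lit 5) (nat_lit 310) (nat_lit 5) (nat_lit 614) (nat_lit 563) (nat_lit 383)))))) (XT.nd (nat_lit 546) (nat_lit 2356) (nat_lit 0) (XT.nd (nat_lit 234) (nat_lit 1824) (nat_lit 0) (XT.nd (nat_lit 78) (nat_lit 760) (nat_lit 0) (XT.lf (nat_lit 0) (nat_lit 9111982047) (nat_lit 608) (nat_lit 2319727206) (nat_lit 684) (nat_lit 5430338594) (nat_lit 301) (nat_lit 5) (nat_lit 309) (nat_lit 5) (nat_lit 310) (nat_lit 5) (nat_lit 615) (nat_lit 563) (nat_lit 382)) (XT.nd (nat_lit 78) (nat_lit 76) (nat_lit 0) (XT.lf (nat_lit 0) (nat_lit 2022591391) (nat_lit 684) (nat_lit 12437119757) (nat_lit 760) (nat_lit 2593621313) (nat_lit 292) (nat_lit 5) (nat_lit 301) (nat_lit 5) (nat_lit 302) (nat_lit 5) (nat_lit 616) (nat_lit 563) (nat_lit 381)) (XT.lf (nat_lit 0) (nat_lit 355583024) (nat_lit 760) (nat_lit 5179152214) (nat_lit 76) (nat_lit 11712475466) (nat_lit 291) (nat_lit 5) (nat_lit 301) (nat_lit 5) (nat_lit 292) (nat_lit 5) (nat_lit 617) (nat_lit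 563) (nat_lit 380)))) (XT.nd (nat_lit 156) (nat_lit 1216) (nat_lit 0) (XT.nd (nat_lit 78) (nat_lit 0) (nat_lit 0) (XT.lf (nat_lit 0) (nat_lit 3363152469) (nat_lit 684) (nat_lit 12547243511) (nat_lit 76) (nat_lit 1533546024) (nat_lit 283) (nat_lit 5) (nat_lit 292) (nat_lit 5) (nat_lit 284) (nat_lit 5) (nat_lit 618) (nat_lit 563) (nat_lit 379)) (XT.lf (nat_lit 0) (nat_lit 6494721031) (nat_lit 684) (nat_lit 2446265463) (nat_lit 76) (nat_lit 8702345029) (nat_lit 283) (nat_lit 5) (nat_lit 292) (nat_lit 5) (nat_lit 284) (nat_lit 5) (nat_lit 619) (nat_lit 563) (nat_lit 378))) (XT.nd (nat_lit 78) (nat_lit 608) (nat_lit 0) (XT.lf (nat_lit 0) (nat_lit 7951468479) (nat_lit 608) (nat_lit 1781440311) (nat_lit 684) (nat_lit 8112920827) (nat_lit 275) (nat_lit 5) (nat_lit 283) (nat_lit 5) (nat_lit 284) (nat_lit 5) (nat_lit 620) (nat_lit 563) (nat_lit 377)) (XT.lf (nat_lit 0) (nat_lit 499233669) (nat_lit 608) (nat_lit 12584677590) (nat_lit 684) (nat_lit 4967505922) (nat_lit 267)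 (nat_lit 5) (nat_lit 275) (nat_lit 5) (nat_lit 276) (nat_lit 5) (nat_lit 621) (nat_lit 563) (nat_lit 376))))) (XT.nd (nat_lit 234) (nat_lit 1672) (nat_lit 0) (XT.nd (nat_lit 78) (nat_lit 684) (nat_lit 0) (XT.lf (nat_lit 0) (nat_lit 11213305212) (nat_lit 608) (nat_lit 5359268385) (nat_lit 684) (nat_lit 1687130622) (nat_lit 267) (nat_lit 5) (nat_lit 275) (nat_lit 5) (nat_lit 276) (nat_lit 5) (nat_lit 622) (nat_lit 563) (nat_lit 375)) (XT.nd (nat_lit 78) (nat_lit 0) (nat_lit 0) (XT.lf (nat_lit 0) (nat_lit 1666996514) (nat_lit 684) (nat_lit 14787125670) (nat_lit 76) (nat_lit 2017221894) (nat_lit 258) (nat_lit 5) (nat_lit 267) (nat_lit 5) (nat_lit 259) (nat_lit 5) (nat_lit 623) (nat_lit 563) (nat_lit 374)) (XT.lf (nat_lit 0) (nat_lit 5141417528) (nat_lit 684) (nat_lit 4017827965) (nat_lit 76) (nat_lit 9526232651) (nat_lit 258) (nat_lit 5) (nat_lit 267) (nat_lit 5) (nat_lit 259) (nat_lit 5) (nat_lit 624) (nat_lit 563) (nat_lit 373)))) (XT.nd (nat_lit 156) (nat_lit 1140)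 (nat_lit 0) (XT.nd (nat_lit 78) (nat_lit 0) (nat_lit 0) (XT.lf (nat_lit 0) (nat_lit 7049961463) (nat_lit 532) (nat_lit 1673972700) (nat_lit 608) (nat_lit 10179189062) (nat_lit 251) (nat_lit 5) (nat_lit 258) (nat_lit 5) (nat_lit 259) (nat_lit 5) (nat_lit 625) (nat_lit 563) (nat_lit 372)) (XT.lf (nat_lit 0) (nat_lit 12436844228) (nat_lit 608) (nat_lit 779315970) (nat_lit 76) (nat_lit 5907786618) (nat_lit 251) (nat_lit 5) (nat_lit 259) (nat_lit 5) (nat_lit 252) (nat_lit 5) (nat_lit 626) (nat_lit 563) (nat_lit 371))) (XT.nd (nat_lit 78) (nat_lit 608) (nat_lit 0) (XT.lf (nat_lit 0) (nat_lit 10635165647) (nat_lit 532) (nat_lit 5662022522) (nat_lit 608) (nat_lit 3050535655) (nat_lit 244) (nat_lit 5) (nat_lit 251) (nat_lit 5) (nat_lit 252) (nat_lit 5) (nat_lit 627) (nat_lit 563) (nat_lit 370)) (XT.lf (nat_lit 0) (nat_lit 679645453) (nat_lit 608) (nat_lit 16854083776) (nat_lit 76) (nat_lit 2041571591) (nat_lit 236) (nat_lit 5) (nat_lit 244) (nat_lit 5) (nat_lit 237) (nat_lit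 5) (nat_lit 628) (nat_lit 563) (nat_lit 369))))))) (XT.nd (nat_lit 1092) (nat_lit 3344) (nat_lit 0) (XT.nd (nat_lit 546) (nat_lit 1824) (nat_lit 0) (XT.nd (nat_lit 234) (nat_lit 1520) (nat_lit 0) (XT.nd (nat_lit 78) (nat_lit 532) (nat_lit 0) (XT.lf (nat_lit 0) (nat_lit 4533102472) (nat_lit 608) (nat_lit 5371907798) (nat_lit 76) (nat_lit 9900225860) (nat_lit 236) (nat_lit 5) (nat_lit 244) (nat_lit 5) (nat_lit 237) (nat_lit 5) (nat_lit 629) (nat_lit 563) (nat_lit 368)) (XT.nd (nat_lit 78) (nat_lit 0) (nat_lit 0) (XT.lf (nat_lit 0) (nat_lit 6414896874) (nat_lit 532) (nat_lit 2083647108) (nat_lit 608) (nat_lit 11540528281) (nat_lit 229) (nat_lit 5) (nat_lit 236) (nat_lit 5) (nat_lit 237) (nat_lit 5) (nat_lit 630) (nat_lit 563) (nat_lit 367)) (XT.lf (nat_lit 0) (nat_lit 12611172954) (nat_lit 608) (nat_lit 1814321373) (nat_lit 76) (nat_lit 5850733636) (nat_lit 229) (nat_lit 5) (nat_lit 237) (nat_lit 5) (nat_lit 230) (nat_lit 5) (nat_lit 631) (nat_lit 563) (nat_lit 366))))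 (XT.nd (nat_lit 156) (nat_lit 456) (nat_lit 0) (XT.nd (nat_lit 78) (nat_lit 608) (nat_lit 0) (XT.lf (nat_lit 0) (nat_lit 10344577151) (nat_lit 456) (nat_lit 6535894004) (nat_lit 532) (nat_lit 3636167698) (nat_lit 223) (nat_lit 5) (nat_lit 229) (nat_lit 5) (nat_lit 230) (nat_lit 5) (nat_lit 632) (nat_lit 563) (nat_lit 365)) (XT.lf (nat_lit 0) (nat_lit 495953044) (nat_lit 608) (nat_lit 18747433373) (nat_lit 76) (nat_lit 1517833215) (nat_lit 215) (nat_lit 5) (nat_lit 223) (nat_lit 5) (nat_lit 216) (nat_lit 5) (nat_lit 633) (nat_lit 563) (nat_lit 364))) (XT.nd (nat_lit 78) (nat_lit 456) (nat_lit 0) (XT.lf (nat_lit 0) (nat_lit 4767603042) (nat_lit 608) (nat_lit 6505012926) (nat_lit 76) (nat_lit 9735484241) (nat_lit 215) (nat_lit 5) (nat_lit 223) (nat_lit 5) (nat_lit 216) (nat_lit 5) (nat_lit 634) (nat_lit 563) (nat_lit 363)) (XT.lf (nat_lit 0) (nat_lit 6052711315) (nat_lit 456) (nat_lit 3104933339) (nat_lit 532) (nat_lit 12101614947) (nat_lit 209) (nat_lit 5) (nat_lit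 215) (nat_lit 5) (nat_lit 216) (nat_lit 5) (nat_lit 635) (nat_lit 563) (nat_lit 362))))) (XT.nd (nat_lit 234) (nat_lit 836) (nat_lit 0) (XT.nd (nat_lit 78) (nat_lit 988) (nat_lit 0) (XT.lf (nat_lit 0) (nat_lit 13707069849) (nat_lit 532) (nat_lit 2607999607) (nat_lit 76) (nat_lit 5198941441) (nat_lit 209) (nat_lit 5) (nat_lit 216) (nat_lit 5) (nat_lit 210) (nat_lit 5) (nat_lit 636) (nat_lit 563) (nat_lit 361)) (XT.nd (nat_lit 78) (nat_lit 532) (nat_lit 0) (XT.lf (nat_lit 0) (nat_lit 10348883811) (nat_lit 456) (nat_lit 8080187628) (nat_lit 532) (nat_lit 3343154384) (nat_lit 203) (nat_lit 5) (nat_lit 209) (nat_lit 5) (nat_lit 210) (nat_lit 5) (nat_lit 637) (nat_lit 563) (nat_lit 360)) (XT.lf (nat_lit 0) (nat_lit 1217991780) (nat_lit 532) (nat_lit 20468527448) (nat_lit 76) (nat_lit 348450019) (nat_lit 196) (nat_lit 5) (nat_lit 203) (nat_lit 5) (nat_lit 197) (nat_lit 5) (nat_lit 638) (nat_lit 563) (nat_lit 359)))) (XT.nd (nat_lit 156) (nat_lit 380) (nat_lit 0) (XT.nd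 (nat_lit 78) (nat_lit 456) (nat_lit 0) (XT.lf (nat_lit 0) (nat_lit 5950216409) (nat_lit 532) (nat_lit 7415597379) (nat_lit 76) (nat_lit 8934219721) (nat_lit 196) (nat_lit 5) (nat_lit 203) (nat_lit 5) (nat_lit 197) (nat_lit 5) (nat_lit 639) (nat_lit 563) (nat_lit 358)) (XT.lf (nat_lit 0) (nat_lit 5967964437) (nat_lit 456) (nat_lit 4841891684) (nat_lit 532) (nat_lit 11759887860) (nat_lit 190) (nat_lit 5) (nat_lit 196) (nat_lit 5) (nat_lit 197) (nat_lit 5) (nat_lit 640) (nat_lit 563) (nat_lit 357))) (XT.nd (nat_lit 78) (nat_lit 380) (nat_lit 0) (XT.lf (nat_lit 0) (nat_lit 15835859808) (nat_lit 532) (nat_lit 3158219666) (nat_lit 76) (nat_lit 3849386091) (nat_lit 190) (nat_lit 5) (nat_lit 197) (nat_lit 5) (nat_lit 191) (nat_lit 5) (nat_lit 641) (nat_lit 563) (nat_lit 356)) (XT.lf (nat_lit 0) (nat_lit 10653295668) (nat_lit 380) (nat_lit 10404504046) (nat_lit 456) (nat_lit 2062953867) (nat_lit 185) (nat_lit 5) (nat_lit 190) (nat_lit 5) (nat_lit 191) (nat_lit 5) (nat_lit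 642) (nat_lit 563) (nat_lit 355)))))) (XT.nd (nat_lit 546) (nat_lit 1596) (nat_lit 0) (XT.nd (nat_lit 234) (nat_lit 836) (nat_lit 0) (XT.nd (nat_lit 78) (nat_lit 380) (nat_lit 0) (XT.lf (nat_lit 0) (nat_lit 1370580304) (nat_lit 456) (nat_lit 1595354874) (nat_lit 532) (nat_lit 20436776747) (nat_lit 178) (nat_lit 5) (nat_lit 184) (nat_lit 5) (nat_lit 185) (nat_lit 5) (nat_lit 643) (nat_lit 563) (nat_lit 354)) (XT.nd (nat_lit 78) (nat_lit 380) (nat_lit 0) (XT.lf (nat_lit 0) (nat_lit 8194245604) (nat_lit 532) (nat_lit 8105085359) (nat_lit 76) (nat_lit 7388176722) (nat_lit 178) (nat_lit 5) (nat_lit 185) (nat_lit 5) (nat_lit 179) (nat_lit 5) (nat_lit 644) (nat_lit 563) (nat_lit 353)) (XT.lf (nat_lit 0) (nat_lit 6162293897) (nat_lit 380) (nat_lit 7409759020) (nat_lit 456) (nat_lit 10405048129) (nat_lit 173) (nat_lit 5) (nat_lit 178) (nat_lit 5) (nat_lit 179) (nat_lit 5) (nat_lit 645) (nat_lit 563) (nat_lit 352)))) (XT.nd (nat_lit 156) (nat_lit 380) (nat_lit 0) (XT.nd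 (nat_lit 78) (nat_lit 456) (nat_lit 0) (XT.lf (nat_lit 0) (nat_lit 19117321734) (nat_lit 456) (nat_lit 3466133987) (nat_lit 76) (nat_lit 1687832736) (nat_lit 173) (nat_lit 5) (nat_lit 179) (nat_lit 5) (nat_lit 174) (nat_lit 5) (nat_lit 646) (nat_lit 563) (nat_lit 351)) (XT.lf (nat_lit 0) (nat_lit 316938355) (nat_lit 456) (nat_lit 13311329633) (nat_lit 76) (nat_lit 10940716600) (nat_lit 167) (nat_lit 5) (nat_lit 173) (nat_lit 5) (nat_lit 168) (nat_lit 5) (nat_lit 647) (nat_lit 563) (nat_lit 350))) (XT.nd (nat_lit 78) (nat_lit 0) (nat_lit 0) (XT.lf (nat_lit 0) (nat_lit 1426809249) (nat_lit 380) (nat_lit 4428703738) (nat_lit 456) (nat_lit 19015895314) (nat_lit 162) (nat_lit 5) (nat_lit 167) (nat_lit 5) (nat_lit 168) (nat_lit 5) (nat_lit 648) (nat_lit 563) (nat_lit 349)) (XT.lf (nat_lit 0) (nat_lit 11621502943) (nat_lit 456) (nat_lit 8579093342) (nat_lit 76) (nat_lit 4976951594) (nat_lit 162) (nat_lit 5) (nat_lit 168) (nat_lit 5) (nat_lit 163) (nat_lit 5) (nat_lit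 649) (nat_lit 563) (nat_lit 348))))) (XT.nd (nat_lit 234) (nat_lit 760) (nat_lit 0) (XT.nd (nat_lit 78) (nat_lit 456) (nat_lit 0) (XT.lf (nat_lit 0) (nat_lit 6633165820) (nat_lit 380) (nat_lit 10936705756) (nat_lit 456) (nat_lit 7918597761) (nat_lit 157) (nat_lit 5) (nat_lit 162) (nat_lit 5) (nat_lit 163) (nat_lit 5) (nat_lit 650) (nat_lit 563) (nat_lit 347)) (XT.nd (nat_lit 78) (nat_lit 456) (nat_lit 0) (XT.lf (nat_lit 0) (nat_lit 22257793471) (nat_lit 380) (nat_lit 1431698758) (nat_lit 456) (nat_lit 2115071560) (nat_lit 157) (nat_lit 5) (nat_lit 162) (nat_lit 5) (nat_lit 163) (nat_lit 5) (nat_lit 651) (nat_lit 563) (nat_lit 346)) (XT.lf (nat_lit 0) (nat_lit 3882911162) (nat_lit 456) (nat_lit 13984233070) (nat_lit 76) (nat_lit 8256776457) (nat_lit 151) (nat_lit 5) (nat_lit 157) (nat_lit 5) (nat_lit 152) (nat_lit 5) (nat_lit 652) (nat_lit 563) (nat_lit 345)))) (XT.nd (nat_lit 156) (nat_lit 380) (nat_lit 0) (XT.nd (nat_lit 78) (nat_lit 0) (nat_lit 0) (XT.lf (nat_lit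 0) (nat_lit 1729692637) (nat_lit 380) (nat_lit 8282351754) (nat_lit 456) (nat_lit 16436550735) (nat_lit 146) (nat_lit 5) (nat_lit 151) (nat_lit 5) (nat_lit 152) (nat_lit 5) (nat_lit 653) (nat_lit 563) (nat_lit 344)) (XT.lf (nat_lit 0) (nat_lit 16362769744) (nat_lit 456) (nat_lit 8848892263) (nat_lit 76) (nat_lit 1566121094) (nat_lit 146) (nat_lit 5) (nat_lit 152) (nat_lit 5) (nat_lit 147) (nat_lit 5) (nat_lit 654) (nat_lit 563) (nat_lit 343))) (XT.nd (nat_lit 78) (nat_lit 76) (nat_lit 0) (XT.lf (nat_lit 0) (nat_lit 7372377360) (nat_lit 304) (nat_lit 15565795189) (nat_lit 380) (nat_lit 4173429263) (nat_lit 142) (nat_lit 5) (nat_lit 146) (nat_lit 5) (nat_lit 147) (nat_lit 5) (nat_lit 655) (nat_lit 563) (nat_lit 342)) (XT.lf (nat_lit 0) (nat_lit 2218959877) (nat_lit 380) (nat_lit 3435514954) (nat_lit 76) (nat_lit 21796242829) (nat_lit 141) (nat_lit 5) (nat_lit 146) (nat_lit 5) (nat_lit 142) (nat_lit 5) (nat_lit 656) (nat_lit 563) (nat_lit 341))))))))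
noncomputable def xc172 : XT := (XT.nd (nat_lit 75426) (nat_lit 0) (nat_lit 16720) (XT.nd (nat_lit 74334) (nat_lit 0) (nat_lit 28652) (XT.nd (nat_lit 468) (nat_lit 380) (nat_lit 0) (XT.nd (nat_lit 234) (nat_lit 684) (nat_lit 0) (XT.nd (nat_lit 78) (nat_lit 304) (nat_lit 0) (XT.lf (nat_lit 0) (nat_lit 8794660246) (nat_lit 456) (nat_lit 14490428704) (nat_lit 76) (nat_lit 4508748456) (nat_lit 136) (nat_lit 5) (nat_lit 142) (nat_lit 5) (nat_lit 137) (nat_lit 5) (nat_lit 657) (nat_lit 563) (nat_lit 340)) (XT.nd (nat_lit 78) (nat_lit 0) (nat_lit 0) (XT.lf (nat_lit 0) (nat_lit 2264555696) (nat_lit 304) (nat_lit 13307762704) (nat_lit 380) (nat_lit 12570092489) (nat_lit 132) (nat_lit 5) (nat_lit 136) (nat_lit 5) (nat_lit 137) (nat_lit 5) (nat_lit 658) (nat_lit 563) (nat_lit 339)) (XT.lf (nat_lit 0) (nat_lit 19543246605) (nat_lit 304) (nat_lit 3034654244) (nat_lit 380) (nat_lit 5918207780) (nat_lit 132) (nat_lit 5) (nat_lit 136) (nat_lit 5) (nat_lit 137) (nat_lit 5) (nat_lit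 659) (nat_lit 563) (nat_lit 338)))) (XT.nd (nat_lit 78) (nat_lit 304) (nat_lit 0) (XT.lf (nat_lit 0) (nat_lit 953841863) (nat_lit 380) (nat_lit 20496938340) (nat_lit 76) (nat_lit 7404017895) (nat_lit 127) (nat_lit 5) (nat_lit 132) (nat_lit 5) (nat_lit 128) (nat_lit 5) (nat_lit 660) (nat_lit 563) (nat_lit 337)) (XT.nd (nat_lit 78) (nat_lit 304) (nat_lit 0) (XT.lf (nat_lit 0) (nat_lit 7959956897) (nat_lit 380) (nat_lit 3150744951) (nat_lit 76) (nat_lit 18107659935) (nat_lit 127) (nat_lit 5) (nat_lit 132) (nat_lit 5) (nat_lit 128) (nat_lit 5) (nat_lit 661) (nat_lit 563) (nat_lit 336)) (XT.lf (nat_lit 0) (nat_lit 14727932577) (nat_lit 304) (nat_lit 469200641) (nat_lit 380) (nat_lit 14390244941) (nat_lit 123) (nat_lit 5) (nat_lit 127) (nat_lit 5) (nat_lit 128) (nat_lit 5) (nat_lit 662) (nat_lit 563) (nat_lit 335))))) (XT.nd (nat_lit 73554) (nat_lit 0) (nat_lit 30020) (XT.nd (nat_lit 78) (nat_lit 76) (nat_lit 0) (XT.lf (nat_lit 0) (nat_lit 3007798103) (nat_lit 304) (nat_lit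 19674833359) (nat_lit 380) (nat_lit 7279072026) (nat_lit 119) (nat_lit 5) (nat_lit 123) (nat_lit 5) (nat_lit 124) (nat_lit 5) (nat_lit 663) (nat_lit 563) (nat_lit 334)) (XT.nd (nat_lit 73398) (nat_lit 0) (nat_lit 31616) (XT.lf (nat_lit 0) (nat_lit 73494323) (nat_lit 380) (nat_lit 8918946799) (nat_lit 76) (nat_lit 21349101056) (nat_lit 118) (nat_lit 5) (nat_lit 123) (nat_lit 5) (nat_lit 119) (nat_lit 5) (nat_lit 664) (nat_lit 563) (nat_lit 333)) (XT.lf (nat_lit 0) (nat_lit 1971739443) (nat_lit 0) (nat_lit 1971739443) (nat_lit 1596) (nat_lit 1144385631) (nat_lit 534) (nat_lit 5) (nat_lit 534) (nat_lit 3) (nat_lit 555) (nat_lit 3) (nat_lit 564) (nat_lit 564) (nat_lit 432)))) (XT.nd (nat_lit 156) (nat_lit 1596) (nat_lit 0) (XT.nd (nat_lit 78) (nat_lit 0) (nat_lit 0) (XT.lf (nat_lit 0) (nat_lit 8647125194) (nat_lit 1596) (nat_lit 1201154982) (nat_lit 1672) (nat_lit 415512779) (nat_lit 534) (nat_lit 5) (nat_lit 555) (nat_lit 3) (nat_lit 556) (nat_lit 5) (nat_lit 565)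 (nat_lit 564) (nat_lit 431)) (XT.lf (nat_lit 76) (nat_lit 3946895559) (nat_lit 0) (nat_lit 5509600818) (nat_lit 1672) (nat_lit 896443534) (nat_lit 535) (nat_lit 5) (nat_lit 534) (nat_lit 5) (nat_lit 556) (nat_lit 5) (nat_lit 566) (nat_lit 564) (nat_lit 430))) (XT.nd (nat_lit 78) (nat_lit 1596) (nat_lit 0) (XT.lf (nat_lit 76) (nat_lit 9204935345) (nat_lit 0) (nat_lit 1067726605) (nat_lit 1672) (nat_lit 171397451) (nat_lit 535) (nat_lit 5) (nat_lit 534) (nat_lit 5) (nat_lit 556) (nat_lit 5) (nat_lit 567) (nat_lit 564) (nat_lit 429)) (XT.lf (nat_lit 0) (nat_lit 592642067) (nat_lit 1672) (nat_lit 6487937967) (nat_lit 1748) (nat_lit 3455710259) (nat_lit 513) (nat_lit 5) (nat_lit 535) (nat_lit 5) (nat_lit 536) (nat_lit 5) (nat_lit 568) (nat_lit 564) (nat_lit 428)))))) (XT.nd (nat_lit 546) (nat_lit 1368) (nat_lit 0) (XT.nd (nat_lit 234) (nat_lit 0) (nat_lit 152) (XT.nd (nat_lit 78) (nat_lit 0) (nat_lit 76) (XT.lf (nat_lit 0) (nat_lit 1368212402) (nat_lit 1672) (nat_lit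 1189718118) (nat_lit 1748) (nat_lit 8072443356) (nat_lit 513) (nat_lit 5) (nat_lit 535) (nat_lit 5) (nat_lit 536) (nat_lit 5) (nat_lit 569) (nat_lit 564) (nat_lit 427)) (XT.nd (nat_lit 78) (nat_lit 0) (nat_lit 0) (XT.lf (nat_lit 0) (nat_lit 2183964721) (nat_lit 1672) (nat_lit 6478786570) (nat_lit 1748) (nat_lit 2063096031) (nat_lit 514) (nat_lit 5) (nat_lit 536) (nat_lit 5) (nat_lit 537) (nat_lit 5) (nat_lit 570) (nat_lit 564) (nat_lit 426)) (XT.lf (nat_lit 0) (nat_lit 3024750360) (nat_lit 1672) (nat_lit 1041115128) (nat_lit 1748) (nat_lit 6757191953) (nat_lit 514) (nat_lit 5) (nat_lit 536) (nat_lit 5) (nat_lit 537) (nat_lit 5) (nat_lit 571) (nat_lit 564) (nat_lit 425)))) (XT.nd (nat_lit 156) (nat_lit 0) (nat_lit 0) (XT.nd (nat_lit 78) (nat_lit 0) (nat_lit 0) (XT.lf (nat_lit 0) (nat_lit 3900271547) (nat_lit 1672) (nat_lit 6370729270) (nat_lit 1748) (nat_lit 650854088) (nat_lit 515) (nat_lit 5) (nat_lit 537) (nat_lit 5) (nat_lit 538) (nat_lit 5) (nat_lit 572) (nat_lit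 564) (nat_lit 424)) (XT.lf (nat_lit 0) (nat_lit 4811613775) (nat_lit 1672) (nat_lit 789992509) (nat_lit 1748) (nat_lit 5420657333) (nat_lit 515) (nat_lit 5) (nat_lit 537) (nat_lit 5) (nat_lit 538) (nat_lit 5) (nat_lit 573) (nat_lit 564) (nat_lit 423))) (XT.nd (nat_lit 78) (nat_lit 0) (nat_lit 76) (XT.lf (nat_lit 76) (nat_lit 4957718399) (nat_lit 0) (nat_lit 800311731) (nat_lit 1748) (nat_lit 5366314905) (nat_lit 516) (nat_lit 5) (nat_lit 515) (nat_lit 5) (nat_lit 538) (nat_lit 5) (nat_lit 574) (nat_lit 564) (nat_lit 422)) (XT.lf (nat_lit 0) (nat_lit 6740244407) (nat_lit 1672) (nat_lit 433843220) (nat_lit 1748) (nat_lit 4054044514) (nat_lit 516) (nat_lit 5) (nat_lit 538) (nat_lit 5) (nat_lit 539) (nat_lit 5) (nat_lit 575) (nat_lit 564) (nat_lit 421))))) (XT.nd (nat_lit 234) (nat_lit 1596) (nat_lit 0) (XT.nd (nat_lit 78) (nat_lit 0) (nat_lit 76) (XT.lf (nat_lit 76) (nat_lit 5470296928) (nat_lit 0) (nat_lit 2297851072) (nat_lit 1748) (nat_lit 3565327510) (nat_lit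 517) (nat_lit 5) (nat_lit 516) (nat_lit 5) (nat_lit 539) (nat_lit 5) (nat_lit 576) (nat_lit 564) (nat_lit 420)) (XT.nd (nat_lit 78) (nat_lit 0) (nat_lit 0) (XT.lf (nat_lit 76) (nat_lit 30538087) (nat_lit 0) (nat_lit 8792060792) (nat_lit 1748) (nat_lit 2618208479) (nat_lit 518) (nat_lit 5) (nat_lit 517) (nat_lit 5) (nat_lit 540) (nat_lit 5) (nat_lit 577) (nat_lit 564) (nat_lit 419)) (XT.lf (nat_lit 76) (nat_lit 6096249458) (nat_lit 0) (nat_lit 3842058391) (nat_lit 1748) (nat_lit 1611175979) (nat_lit 518) (nat_lit 5) (nat_lit 517) (nat_lit 5) (nat_lit 540) (nat_lit 5) (nat_lit 578) (nat_lit 564) (nat_lit 418)))) (XT.nd (nat_lit 156) (nat_lit 0) (nat_lit 0) (XT.nd (nat_lit 78) (nat_lit 1748) (nat_lit 0) (XT.lf (nat_lit 76) (nat_lit 613094525) (nat_lit 0) (nat_lit 10461067984) (nat_lit 1748) (nat_lit 586216027) (nat_lit 519) (nat_lit 5) (nat_lit 518) (nat_lit 5) (nat_lit 541) (nat_lit 5) (nat_lit 579) (nat_lit 564) (nat_lit 417)) (XT.lf (nat_lit 0) (nat_lit 501632056)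 (nat_lit 1748) (nat_lit 4936928117) (nat_lit 1824) (nat_lit 6333904381) (nat_lit 495) (nat_lit 5) (nat_lit 518) (nat_lit 5) (nat_lit 519) (nat_lit 5) (nat_lit 580) (nat_lit 564) (nat_lit 416))) (XT.nd (nat_lit 78) (nat_lit 0) (nat_lit 76) (XT.lf (nat_lit 76) (nat_lit 1298815561) (nat_lit 0) (nat_lit 299415627) (nat_lit 1824) (nat_lit 10288587999) (nat_lit 496) (nat_lit 5) (nat_lit 495) (nat_lit 5) (nat_lit 519) (nat_lit 5) (nat_lit 581) (nat_lit 564) (nat_lit 415)) (XT.lf (nat_lit 0) (nat_lit 2768829500) (nat_lit 1748) (nat_lit 4319109797) (nat_lit 1824) (nat_lit 4914481510) (nat_lit 496) (nat_lit 5) (nat_lit 519) (nat_lit 5) (nat_lit 520) (nat_lit 5) (nat_lit 582) (nat_lit 564) (nat_lit 414))))))) (XT.nd (nat_lit 1014) (nat_lit 6612) (nat_lit 0) (XT.nd (nat_lit 468) (nat_lit 5396) (nat_lit 0) (XT.nd (nat_lit 234) (nat_lit 0) (nat_lit 152) (XT.nd (nat_lit 78) (nat_lit 0) (nat_lit 76) (XT.lf (nat_lit 76) (nat_lit 2090600089) (nat_lit 0) (nat_lit 1874686669) (nat_lit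 1824) (nat_lit 8154999974) (nat_lit 497) (nat_lit 5) (nat_lit 496) (nat_lit 5) (nat_lit 520) (nat_lit 5) (nat_lit 583) (nat_lit 564) (nat_lit 413)) (XT.nd (nat_lit 78) (nat_lit 0) (nat_lit 0) (XT.lf (nat_lit 0) (nat_lit 5224304229) (nat_lit 1748) (nat_lit 3585635217) (nat_lit 1824) (nat_lit 3429799098) (nat_lit 497) (nat_lit 5) (nat_lit 520) (nat_lit 5) (nat_lit 521) (nat_lit 5) (nat_lit 584) (nat_lit 564) (nat_lit 412)) (XT.lf (nat_lit 76) (nat_lit 3004273219) (nat_lit 0) (nat_lit 3523505082) (nat_lit 1824) (nat_lit 5833416735) (nat_lit 498) (nat_lit 5) (nat_lit 497) (nat_lit 5) (nat_lit 521) (nat_lit 5) (nat_lit 585) (nat_lit 564) (nat_lit 411)))) (XT.nd (nat_lit 78) (nat_lit 0) (nat_lit 0) (XT.lf (nat_lit 0) (nat_lit 7881230348) (nat_lit 1748) (nat_lit 2732518597) (nat_lit 1824) (nat_lit 1870854686) (nat_lit 498) (nat_lit 5) (nat_lit 521) (nat_lit 5) (nat_lit 522) (nat_lit 5) (nat_lit 586) (nat_lit 564) (nat_lit 410)) (XT.nd (nat_lit 78) (nat_lit 0) (nat_lit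 76) (XT.lf (nat_lit 76) (nat_lit 4044065780) (nat_lit 0) (nat_lit 5255075982) (nat_lit 1824) (nat_lit 3310591950) (nat_lit 499) (nat_lit 5) (nat_lit 498) (nat_lit 5) (nat_lit 522) (nat_lit 5) (nat_lit 587) (nat_lit 564) (nat_lit 409)) (XT.lf (nat_lit 0) (nat_lit 10753225210) (nat_lit 1748) (nat_lit 1755468066) (nat_lit 76) (nat_lit 228517942) (nat_lit 499) (nat_lit 5) (nat_lit 522) (nat_lit 5) (nat_lit 500) (nat_lit 5) (nat_lit 588) (nat_lit 564) (nat_lit 408))))) (XT.nd (nat_lit 234) (nat_lit 1976) (nat_lit 0) (XT.nd (nat_lit 78) (nat_lit 1900) (nat_lit 0) (XT.lf (nat_lit 0) (nat_lit 5214523025) (nat_lit 1748) (nat_lit 7078748088) (nat_lit 1824) (nat_lit 572830625) (nat_lit 476) (nat_lit 5) (nat_lit 499) (nat_lit 5) (nat_lit 500) (nat_lit 5) (nat_lit 589) (nat_lit 564) (nat_lit 407)) (XT.nd (nat_lit 78) (nat_lit 1824) (nat_lit 0) (XT.lf (nat_lit 0) (nat_lit 855352367) (nat_lit 1824) (nat_lit 665419846) (nat_lit 76) (nat_lit 11476682976) (nat_lit 475) (nat_lit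 5) (nat_lit 499) (nat_lit 5) (nat_lit 476) (nat_lit 5) (nat_lit 590) (nat_lit 564) (nat_lit 406)) (XT.lf (nat_lit 0) (nat_lit 2362639577) (nat_lit 1900) (nat_lit 6625542087) (nat_lit 76) (nat_lit 4142015119) (nat_lit 451) (nat_lit 5) (nat_lit 476) (nat_lit 5) (nat_lit 452) (nat_lit 5) (nat_lit 591) (nat_lit 564) (nat_lit 405)))) (XT.nd (nat_lit 156) (nat_lit 912) (nat_lit 0) (XT.nd (nat_lit 78) (nat_lit 0) (nat_lit 0) (XT.lf (nat_lit 0) (nat_lit 548677358) (nat_lit 1064) (nat_lit 3358234707) (nat_lit 1140) (nat_lit 9358545349) (nat_lit 437) (nat_lit 5) (nat_lit 451) (nat_lit 5) (nat_lit 452) (nat_lit 5) (nat_lit 592) (nat_lit 564) (nat_lit 404)) (XT.lf (nat_lit 0) (nat_lit 5531180583) (nat_lit 1140) (nat_lit 5472346137) (nat_lit 76) (nat_lit 2398915302) (nat_lit 437) (nat_lit 5) (nat_lit 452) (nat_lit 5) (nat_lit 438) (nat_lit 5) (nat_lit 593) (nat_lit 564) (nat_lit 403))) (XT.nd (nat_lit 78) (nat_lit 0) (nat_lit 0) (XT.lf (nat_lit 0) (nat_lit 1909754561) (nat_lit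 912) (nat_lit 5301912142) (nat_lit 988) (nat_lit 6330025932) (nat_lit 425) (nat_lit 5) (nat_lit 437) (nat_lit 5) (nat_lit 438) (nat_lit 5) (nat_lit 594) (nat_lit 564) (nat_lit 402)) (XT.lf (nat_lit 0) (nat_lit 8955310788) (nat_lit 988) (nat_lit 4183080138) (nat_lit 76) (nat_lit 544747307) (nat_lit 425) (nat_lit 5) (nat_lit 438) (nat_lit 5) (nat_lit 426) (nat_lit 5) (nat_lit 595) (nat_lit 564) (nat_lit 401)))))) (XT.nd (nat_lit 546) (nat_lit 3116) (nat_lit 0) (XT.nd (nat_lit 234) (nat_lit 1672) (nat_lit 0) (XT.nd (nat_lit 78) (nat_lit 912) (nat_lit 0) (XT.lf (nat_lit 0) (nat_lit 3414439639) (nat_lit 912) (nat_lit 7366126979) (nat_lit 988) (nat_lit 3045912267) (nat_lit 413) (nat_lit 5) (nat_lit 425) (nat_lit 5) (nat_lit 426) (nat_lit 5) (nat_lit 596) (nat_lit 564) (nat_lit 400)) (XT.nd (nat_lit 78) (nat_lit 912) (nat_lit 0) (XT.lf (nat_lit 0) (nat_lit 11210693947) (nat_lit 912) (nat_lit 1449304652) (nat_lit 988) (nat_lit 1312335234) (nat_lit 413) (nat_lit 5) (nat_lit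 425) (nat_lit 5) (nat_lit 426) (nat_lit 5) (nat_lit 597) (nat_lit 564) (nat_lit 399)) (XT.lf (nat_lit 0) (nat_lit 502770741) (nat_lit 912) (nat_lit 9054828847) (nat_lit 76) (nat_lit 4562391220) (nat_lit 401) (nat_lit 5) (nat_lit 413) (nat_lit 5) (nat_lit 402) (nat_lit 5) (nat_lit 598) (nat_lit 564) (nat_lit 398)))) (XT.nd (nat_lit 156) (nat_lit 836) (nat_lit 0) (XT.nd (nat_lit 78) (nat_lit 836) (nat_lit 0) (XT.lf (nat_lit 0) (nat_lit 2354751601) (nat_lit 912) (nat_lit 1212709467) (nat_lit 76) (nat_lit 10702604316) (nat_lit 401) (nat_lit 5) (nat_lit 413) (nat_lit 5) (nat_lit 402) (nat_lit 5) (nat_lit 599) (nat_lit 564) (nat_lit 397)) (XT.lf (nat_lit 0) (nat_lit 4295231646) (nat_lit 912) (nat_lit 7572750879) (nat_lit 76) (nat_lit 2554130568) (nat_lit 390) (nat_lit 5) (nat_lit 402) (nat_lit 5) (nat_lit 391) (nat_lit 5) (nat_lit 600) (nat_lit 564) (nat_lit 396))) (XT.nd (nat_lit 78) (nat_lit 0) (nat_lit 0) (XT.lf (nat_lit 0) (nat_lit 484815436) (nat_lit 836) (nat_lit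 5814876896) (nat_lit 912) (nat_lit 8277006820) (nat_lit 379) (nat_lit 5) (nat_lit 390) (nat_lit 5) (nat_lit 391) (nat_lit 5) (nat_lit 601) (nat_lit 564) (nat_lit 395)) (XT.lf (nat_lit 0) (nat_lit 8388061177) (nat_lit 912) (nat_lit 5939912037) (nat_lit 76) (nat_lit 405528140) (nat_lit 379) (nat_lit 5) (nat_lit 391) (nat_lit 5) (nat_lit 380) (nat_lit 5) (nat_lit 602) (nat_lit 564) (nat_lit 394))))) (XT.nd (nat_lit 234) (nat_lit 1520) (nat_lit 0) (XT.nd (nat_lit 78) (nat_lit 760) (nat_lit 0) (XT.lf (nat_lit 0) (nat_lit 2357642366) (nat_lit 836) (nat_lit 8204893596) (nat_lit 912) (nat_lit 4330017652) (nat_lit 368) (nat_lit 5) (nat_lit 379) (nat_lit 5) (nat_lit 380) (nat_lit 5) (nat_lit 603) (nat_lit 564) (nat_lit 393)) (XT.nd (nat_lit 78) (nat_lit 760) (nat_lit 0) (XT.lf (nat_lit 0) (nat_lit 10891861357) (nat_lit 836) (nat_lit 1919143079) (nat_lit 912) (nat_lit 2243173169) (nat_lit 368) (nat_lit 5) (nat_lit 379) (nat_lit 5) (nat_lit 380) (nat_lit 5) (nat_lit 604) (nat_lit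 564) (nat_lit 392)) (XT.lf (nat_lit 0) (nat_lit 4396430801) (nat_lit 760) (nat_lit 10756548015) (nat_lit 836) (nat_lit 65085284) (nat_lit 358) (nat_lit 5) (nat_lit 368) (nat_lit 5) (nat_lit 369) (nat_lit 5) (nat_lit 605) (nat_lit 564) (nat_lit 391)))) (XT.nd (nat_lit 156) (nat_lit 684) (nat_lit 0) (XT.nd (nat_lit 78) (nat_lit 760) (nat_lit 0) (XT.lf (nat_lit 0) (nat_lit 2159987369) (nat_lit 836) (nat_lit 2238642174) (nat_lit 76) (nat_lit 10985685335) (nat_lit 357) (nat_lit 5) (nat_lit 368) (nat_lit 5) (nat_lit 358) (nat_lit 5) (nat_lit 606) (nat_lit 564) (nat_lit 390)) (XT.lf (nat_lit 0) (nat_lit 4476380850) (nat_lit 836) (nat_lit 8974652822) (nat_lit 76) (nat_lit 2101895290) (nat_lit 347) (nat_lit 5) (nat_lit 358) (nat_lit 5) (nat_lit 348) (nat_lit 5) (nat_lit 607) (nat_lit 564) (nat_lit 389))) (XT.nd (nat_lit 78) (nat_lit 684) (nat_lit 0) (XT.lf (nat_lit 0) (nat_lit 6874521872) (nat_lit 836) (nat_lit 161731931) (nat_lit 76) (nat_lit 8687953828) (nat_lit 347)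 (nat_lit 5) (nat_lit 358) (nat_lit 5) (nat_lit 348) (nat_lit 5) (nat_lit 608) (nat_lit 564) (nat_lit 388)) (XT.lf (nat_lit 0) (nat_lit 8935057978) (nat_lit 684) (nat_lit 434920961) (nat_lit 760) (nat_lit 6527946554) (nat_lit 338) (nat_lit 5) (nat_lit 347) (nat_lit 5) (nat_lit 348) (nat_lit 5) (nat_lit 609) (nat_lit 564) (nat_lit 387))))))))
noncomputable def xc173 : XT := (XT.nd (nat_lit 2106) (nat_lit 6840) (nat_lit 0) (XT.nd (nat_lit 1014) (nat_lit 4408) (nat_lit 0) (XT.nd (nat_lit 468) (nat_lit 2584) (nat_lit 0) (XT.nd (nat_lit 234) (nat_lit 1292) (nat_lit 0) (XT.nd (nat_lit 78) (nat_lit 760) (nat_lit 0) (XT.lf (nat_lit 0) (nat_lit 2118081431) (nat_lit 760) (nat_lit 9844444543) (nat_lit 836) (nat_lit 4111648792) (nat_lit 328) (nat_lit 5) (nat_lit 338) (nat_lit 5) (nat_lit 339) (nat_lit 5) (nat_lit 610) (nat_lit 564) (nat_lit 386)) (XT.nd (nat_lit 78) (nat_lit 760) (nat_lit 0) (XT.lf (nat_lit 0) (nat_lit 11462501214) (nat_lit 760) (nat_lit 3185556639) (nat_lit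 836) (nat_lit 1605069150) (nat_lit 328) (nat_lit 5) (nat_lit 338) (nat_lit 5) (nat_lit 339) (nat_lit 5) (nat_lit 611) (nat_lit 564) (nat_lit 385)) (XT.lf (nat_lit 0) (nat_lit 984350789) (nat_lit 760) (nat_lit 11855948498) (nat_lit 76) (nat_lit 3594332261) (nat_lit 318) (nat_lit 5) (nat_lit 328) (nat_lit 5) (nat_lit 319) (nat_lit 5) (nat_lit 612) (nat_lit 564) (nat_lit 384)))) (XT.nd (nat_lit 78) (nat_lit 1292) (nat_lit 0) (XT.lf (nat_lit 0) (nat_lit 3649296596) (nat_lit 760) (nat_lit 2460376626) (nat_lit 76) (nat_lit 10508976806) (nat_lit 318) (nat_lit 5) (nat_lit 328) (nat_lit 5) (nat_lit 319) (nat_lit 5) (nat_lit 613) (nat_lit 564) (nat_lit 383)) (XT.nd (nat_lit 78) (nat_lit 608) (nat_lit 0) (XT.lf (nat_lit 0) (nat_lit 6411462563) (nat_lit 760) (nat_lit 9602580332) (nat_lit 76) (nat_lit 791428163) (nat_lit 309) (nat_lit 5) (nat_lit 319) (nat_lit 5) (nat_lit 310) (nat_lit 5) (nat_lit 614) (nat_lit 564) (nat_lit 382)) (XT.lf (nat_lit 0) (nat_lit 47598560) (nat_lit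 608) (nat_lit 9230666172) (nat_lit 684) (nat_lit 7716776514) (nat_lit 301) (nat_lit 5) (nat_lit 309) (nat_lit 5) (nat_lit 310) (nat_lit 5) (nat_lit 615) (nat_lit 564) (nat_lit 381))))) (XT.nd (nat_lit 234) (nat_lit 1824) (nat_lit 0) (XT.nd (nat_lit 78) (nat_lit 760) (nat_lit 0) (XT.lf (nat_lit 0) (nat_lit 10011478113) (nat_lit 608) (nat_lit 2247461203) (nat_lit 684) (nat_lit 4928333378) (nat_lit 301) (nat_lit 5) (nat_lit 309) (nat_lit 5) (nat_lit 310) (nat_lit 5) (nat_lit 616) (nat_lit 564) (nat_lit 380)) (XT.nd (nat_lit 78) (nat_lit 76) (nat_lit 0) (XT.lf (nat_lit 0) (nat_lit 2786752554) (nat_lit 684) (nat_lit 12554465638) (nat_lit 760) (nat_lit 2041291336) (nat_lit 292) (nat_lit 5) (nat_lit 301) (nat_lit 5) (nat_lit 302) (nat_lit 5) (nat_lit 617) (nat_lit 564) (nat_lit 379)) (XT.lf (nat_lit 0) (nat_lit 947281136) (nat_lit 760) (nat_lit 4565405812) (nat_lit 76) (nat_lit 12067734597) (nat_lit 291) (nat_lit 5) (nat_lit 301) (nat_lit 5) (nat_lit 292) (nat_lit 5)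 (nat_lit 618) (nat_lit 564) (nat_lit 378)))) (XT.nd (nat_lit 156) (nat_lit 1216) (nat_lit 0) (XT.nd (nat_lit 78) (nat_lit 0) (nat_lit 0) (XT.lf (nat_lit 0) (nat_lit 4009041825) (nat_lit 684) (nat_lit 12074857963) (nat_lit 76) (nat_lit 1697307702) (nat_lit 283) (nat_lit 5) (nat_lit 292) (nat_lit 5) (nat_lit 284) (nat_lit 5) (nat_lit 619) (nat_lit 564) (nat_lit 377)) (XT.lf (nat_lit 0) (nat_lit 7191896145) (nat_lit 684) (nat_lit 1786043304) (nat_lit 76) (nat_lit 9006873065) (nat_lit 283) (nat_lit 5) (nat_lit 292) (nat_lit 5) (nat_lit 284) (nat_lit 5) (nat_lit 620) (nat_lit 564) (nat_lit 376))) (XT.nd (nat_lit 78) (nat_lit 608) (nat_lit 0) (XT.lf (nat_lit 0) (nat_lit 8814979873) (nat_lit 608) (nat_lit 1673318599) (nat_lit 684) (nat_lit 7703193865) (nat_lit 275) (nat_lit 5) (nat_lit 283) (nat_lit 5) (nat_lit 284) (nat_lit 5) (nat_lit 621) (nat_lit 564) (nat_lit 375)) (XT.lf (nat_lit 0) (nat_lit 1219318267) (nat_lit 608) (nat_lit 12681533451) (nat_lit 684) (nat_lit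 4500450089) (nat_lit 267) (nat_lit 5) (nat_lit 275) (nat_lit 5) (nat_lit 276) (nat_lit 5) (nat_lit 622) (nat_lit 564) (nat_lit 374)))))) (XT.nd (nat_lit 546) (nat_lit 2052) (nat_lit 0) (XT.nd (nat_lit 234) (nat_lit 1672) (nat_lit 0) (XT.nd (nat_lit 78) (nat_lit 684) (nat_lit 0) (XT.lf (nat_lit 0) (nat_lit 12133747713) (nat_lit 608) (nat_lit 5314652096) (nat_lit 684) (nat_lit 1165573282) (nat_lit 267) (nat_lit 5) (nat_lit 275) (nat_lit 5) (nat_lit 276) (nat_lit 5) (nat_lit 623) (nat_lit 564) (nat_lit 373)) (XT.nd (nat_lit 78) (nat_lit 0) (nat_lit 0) (XT.lf (nat_lit 0) (nat_lit 2243165350) (nat_lit 684) (nat_lit 14374147507) (nat_lit 76) (nat_lit 2212565271) (nat_lit 258) (nat_lit 5) (nat_lit 267) (nat_lit 5) (nat_lit 259) (nat_lit 5) (nat_lit 624) (nat_lit 564) (nat_lit 372)) (XT.lf (nat_lit 0) (nat_lit 5776431080) (nat_lit 684) (nat_lit 3403360331) (nat_lit 76) (nat_lit 9868717049) (nat_lit 258) (nat_lit 5) (nat_lit 267) (nat_lit 5) (nat_lit 259) (nat_lit 5) (nat_lit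 625) (nat_lit 564) (nat_lit 371)))) (XT.nd (nat_lit 156) (nat_lit 1140) (nat_lit 0) (XT.nd (nat_lit 78) (nat_lit 0) (nat_lit 0) (XT.lf (nat_lit 0) (nat_lit 7881213673) (nat_lit 532) (nat_lit 1543430950) (nat_lit 608) (nat_lit 9845981585) (nat_lit 251) (nat_lit 5) (nat_lit 258) (nat_lit 5) (nat_lit 259) (nat_lit 5) (nat_lit 626) (nat_lit 564) (nat_lit 370)) (XT.lf (nat_lit 0) (nat_lit 13202538673) (nat_lit 608) (nat_lit 108875301) (nat_lit 76) (nat_lit 6184638464) (nat_lit 251) (nat_lit 5) (nat_lit 259) (nat_lit 5) (nat_lit 252) (nat_lit 5) (nat_lit 627) (nat_lit 564) (nat_lit 369))) (XT.nd (nat_lit 78) (nat_lit 608) (nat_lit 0) (XT.lf (nat_lit 0) (nat_lit 11529382612) (nat_lit 532) (nat_lit 5604995296) (nat_lit 608) (nat_lit 2590041980) (nat_lit 244) (nat_lit 5) (nat_lit 251) (nat_lit 5) (nat_lit 252) (nat_lit 5) (nat_lit 628) (nat_lit 564) (nat_lit 368)) (XT.lf (nat_lit 0) (nat_lit 1203386919) (nat_lit 608) (nat_lit 16498230938) (nat_lit 76) (nat_lit 2254953816)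 (nat_lit 236) (nat_lit 5) (nat_lit 244) (nat_lit 5) (nat_lit 237) (nat_lit 5) (nat_lit 629) (nat_lit 564) (nat_lit 367))))) (XT.nd (nat_lit 234) (nat_lit 1520) (nat_lit 0) (XT.nd (nat_lit 78) (nat_lit 532) (nat_lit 0) (XT.lf (nat_lit 0) (nat_lit 5123910165) (nat_lit 608) (nat_lit 4799998392) (nat_lit 76) (nat_lit 10267397822) (nat_lit 236) (nat_lit 5) (nat_lit 244) (nat_lit 5) (nat_lit 237) (nat_lit 5) (nat_lit 630) (nat_lit 564) (nat_lit 366)) (XT.nd (nat_lit 78) (nat_lit 0) (nat_lit 0) (XT.lf (nat_lit 0) (nat_lit 7218072982) (nat_lit 532) (nat_lit 1945162503) (nat_lit 608) (nat_lit 11266692869) (nat_lit 229) (nat_lit 5) (nat_lit 236) (nat_lit 5) (nat_lit 237) (nat_lit 5) (nat_lit 631) (nat_lit 564) (nat_lit 365)) (XT.lf (nat_lit 0) (nat_lit 13349563399) (nat_lit 608) (nat_lit 1180378563) (nat_lit 76) (nat_lit 6142056886) (nat_lit 229) (nat_lit 5) (nat_lit 237) (nat_lit 5) (nat_lit 230) (nat_lit 5) (nat_lit 632) (nat_lit 564) (nat_lit 364)))) (XT.nd (nat_lit 156)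 (nat_lit 456) (nat_lit 0) (XT.nd (nat_lit 78) (nat_lit 608) (nat_lit 0) (XT.lf (nat_lit 0) (nat_lit 11217288528) (nat_lit 456) (nat_lit 6481749293) (nat_lit 532) (nat_lit 3218284923) (nat_lit 223) (nat_lit 5) (nat_lit 229) (nat_lit 5) (nat_lit 230) (nat_lit 5) (nat_lit 633) (nat_lit 564) (nat_lit 363)) (XT.lf (nat_lit 0) (nat_lit 986112590) (nat_lit 608) (nat_lit 18446138819) (nat_lit 76) (nat_lit 1734559221) (nat_lit 215) (nat_lit 5) (nat_lit 223) (nat_lit 5) (nat_lit 216) (nat_lit 5) (nat_lit 634) (nat_lit 564) (nat_lit 362))) (XT.nd (nat_lit 78) (nat_lit 456) (nat_lit 0) (XT.lf (nat_lit 0) (nat_lit 5333779108) (nat_lit 608) (nat_lit 5972129634) (nat_lit 76) (nat_lit 10112908966) (nat_lit 215) (nat_lit 5) (nat_lit 223) (nat_lit 5) (nat_lit 216) (nat_lit 5) (nat_lit 635) (nat_lit 564) (nat_lit 361)) (XT.lf (nat_lit 0) (nat_lit 6832387358) (nat_lit 456) (nat_lit 2974278560) (nat_lit 532) (nat_lit 11868434031) (nat_lit 209) (nat_lit 5) (nat_lit 215) (nat_lit 5)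 (nat_lit 216) (nat_lit 5) (nat_lit 636) (nat_lit 564) (nat_lit 360))))))) (XT.nd (nat_lit 1092) (nat_lit 3268) (nat_lit 0) (XT.nd (nat_lit 546) (nat_lit 1748) (nat_lit 0) (XT.nd (nat_lit 234) (nat_lit 836) (nat_lit 0) (XT.nd (nat_lit 78) (nat_lit 988) (nat_lit 0) (XT.lf (nat_lit 0) (nat_lit 14439171888) (nat_lit 532) (nat_lit 2006517269) (nat_lit 76) (nat_lit 5489415808) (nat_lit 209) (nat_lit 5) (nat_lit 216) (nat_lit 5) (nat_lit 210) (nat_lit 5) (nat_lit 637) (nat_lit 564) (nat_lit 359)) (XT.nd (nat_lit 78) (nat_lit 532) (nat_lit 0) (XT.lf (nat_lit 0) (nat_lit 11205203539) (nat_lit 456) (nat_lit 8045646309) (nat_lit 532) (nat_lit 2947730142) (nat_lit 203) (nat_lit 5) (nat_lit 209) (nat_lit 5) (nat_lit 210) (nat_lit 5) (nat_lit 638) (nat_lit 564) (nat_lit 358)) (XT.lf (nat_lit 0) (nat_lit 1695153901) (nat_lit 532) (nat_lit 20219019628) (nat_lit 76) (nat_lit 552413675) (nat_lit 196) (nat_lit 5) (nat_lit 203) (nat_lit 5) (nat_lit 197) (nat_lit 5) (nat_lit 639) (nat_lit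 564) (nat_lit 357)))) (XT.nd (nat_lit 156) (nat_lit 380) (nat_lit 0) (XT.nd (nat_lit 78) (nat_lit 456) (nat_lit 0) (XT.lf (nat_lit 0) (nat_lit 6513144546) (nat_lit 532) (nat_lit 6917950141) (nat_lit 76) (nat_lit 9306036131) (nat_lit 196) (nat_lit 5) (nat_lit 203) (nat_lit 5) (nat_lit 197) (nat_lit 5) (nat_lit 640) (nat_lit 564) (nat_lit 356)) (XT.lf (nat_lit 0) (nat_lit 6729033180) (nat_lit 456) (nat_lit 4736405887) (nat_lit 532) (nat_lit 11546887679) (nat_lit 190) (nat_lit 5) (nat_lit 196) (nat_lit 5) (nat_lit 197) (nat_lit 5) (nat_lit 641) (nat_lit 564) (nat_lit 355))) (XT.nd (nat_lit 78) (nat_lit 380) (nat_lit 0) (XT.lf (nat_lit 0) (nat_lit 16584635282) (nat_lit 532) (nat_lit 2584905678) (nat_lit 76) (nat_lit 4122128832) (nat_lit 190) (nat_lit 5) (nat_lit 197) (nat_lit 5) (nat_lit 191) (nat_lit 5) (nat_lit 642) (nat_lit 564) (nat_lit 354)) (XT.lf (nat_lit 0) (nat_lit 11498652605) (nat_lit 380) (nat_lit 10407994903) (nat_lit 456) (nat_lit 1667943859) (nat_lit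 185) (nat_lit 5) (nat_lit 190) (nat_lit 5) (nat_lit 191) (nat_lit 5) (nat_lit 643) (nat_lit 564) (nat_lit 353))))) (XT.nd (nat_lit 234) (nat_lit 836) (nat_lit 0) (XT.nd (nat_lit 78) (nat_lit 380) (nat_lit 0) (XT.lf (nat_lit 0) (nat_lit 2031830068) (nat_lit 456) (nat_lit 1419644345) (nat_lit 532) (nat_lit 20410744800) (nat_lit 178) (nat_lit 5) (nat_lit 184) (nat_lit 5) (nat_lit 185) (nat_lit 5) (nat_lit 644) (nat_lit 564) (nat_lit 352)) (XT.nd (nat_lit 78) (nat_lit 380) (nat_lit 0) (XT.lf (nat_lit 0) (nat_lit 8777315342) (nat_lit 532) (nat_lit 7638719304) (nat_lit 76) (nat_lit 7736817398) (nat_lit 178) (nat_lit 5) (nat_lit 185) (nat_lit 5) (nat_lit 179) (nat_lit 5) (nat_lit 645) (nat_lit 564) (nat_lit 351)) (XT.lf (nat_lit 0) (nat_lit 6909872880) (nat_lit 380) (nat_lit 7348640195) (nat_lit 456) (nat_lit 10189807945) (nat_lit 173) (nat_lit 5) (nat_lit 178) (nat_lit 5) (nat_lit 179) (nat_lit 5) (nat_lit 646) (nat_lit 564) (nat_lit 350)))) (XT.nd (nat_lit 156) (nat_lit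 380) (nat_lit 0) (XT.nd (nat_lit 78) (nat_lit 456) (nat_lit 0) (XT.lf (nat_lit 0) (nat_lit 19907881998) (nat_lit 456) (nat_lit 2916538876) (nat_lit 76) (nat_lit 1924107836) (nat_lit 173) (nat_lit 5) (nat_lit 179) (nat_lit 5) (nat_lit 174) (nat_lit 5) (nat_lit 647) (nat_lit 564) (nat_lit 349)) (XT.lf (nat_lit 0) (nat_lit 730176128) (nat_lit 456) (nat_lit 12957282374) (nat_lit 76) (nat_lit 11364747382) (nat_lit 167) (nat_lit 5) (nat_lit 173) (nat_lit 5) (nat_lit 168) (nat_lit 5) (nat_lit 648) (nat_lit 564) (nat_lit 348))) (XT.nd (nat_lit 78) (nat_lit 0) (nat_lit 0) (XT.lf (nat_lit 0) (nat_lit 2071538536) (nat_lit 380) (nat_lit 4304006039) (nat_lit 456) (nat_lit 18985213450) (nat_lit 162) (nat_lit 5) (nat_lit 167) (nat_lit 5) (nat_lit 168) (nat_lit 5) (nat_lit 649) (nat_lit 564) (nat_lit 347)) (XT.lf (nat_lit 0) (nat_lit 12250311463) (nat_lit 456) (nat_lit 8140001835) (nat_lit 76) (nat_lit 5282838348) (nat_lit 162) (nat_lit 5) (nat_lit 168) (nat_lit 5) (nat_lit 163)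 (nat_lit 5) (nat_lit 650) (nat_lit 564) (nat_lit 346)))))) (XT.nd (nat_lit 546) (nat_lit 1672) (nat_lit 0) (XT.nd (nat_lit 234) (nat_lit 760) (nat_lit 0) (XT.nd (nat_lit 78) (nat_lit 456) (nat_lit 0) (XT.lf (nat_lit 0) (nat_lit 7372484923) (nat_lit 380) (nat_lit 10941329231) (nat_lit 456) (nat_lit 7676554430) (nat_lit 157) (nat_lit 5) (nat_lit 162) (nat_lit 5) (nat_lit 163) (nat_lit 5) (nat_lit 651) (nat_lit 564) (nat_lit 345)) (XT.nd (nat_lit 78) (nat_lit 456) (nat_lit 0) (XT.lf (nat_lit 0) (nat_lit 23297709915) (nat_lit 380) (nat_lit 1250420341) (nat_lit 456) (nat_lit 1764808985) (nat_lit 157) (nat_lit 5) (nat_lit 162) (nat_lit 5) (nat_lit 163) (nat_lit 5) (nat_lit 652) (nat_lit 564) (nat_lit 344)) (XT.lf (nat_lit 0) (nat_lit 4345636306) (nat_lit 456) (nat_lit 13661623453) (nat_lit 76) (nat_lit 8631419878) (nat_lit 151) (nat_lit 5) (nat_lit 157) (nat_lit 5) (nat_lit 152) (nat_lit 5) (nat_lit 653) (nat_lit 564) (nat_lit 343)))) (XT.nd (nat_lit 156) (nat_lit 380)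 (nat_lit 0) (XT.nd (nat_lit 78) (nat_lit 0) (nat_lit 0) (XT.lf (nat_lit 0) (nat_lit 2362618305) (nat_lit 380) (nat_lit 8231068330) (nat_lit 456) (nat_lit 16376234594) (nat_lit 146) (nat_lit 5) (nat_lit 151) (nat_lit 5) (nat_lit 152) (nat_lit 5) (nat_lit 654) (nat_lit 564) (nat_lit 342)) (XT.lf (nat_lit 0) (nat_lit 17065328877) (nat_lit 456) (nat_lit 8433155247) (nat_lit 76) (nat_lit 1807331141) (nat_lit 146) (nat_lit 5) (nat_lit 152) (nat_lit 5) (nat_lit 147) (nat_lit 5) (nat_lit 655) (nat_lit 564) (nat_lit 341))) (XT.nd (nat_lit 78) (nat_lit 76) (nat_lit 0) (XT.lf (nat_lit 0) (nat_lit 8108640329) (nat_lit 304) (nat_lit 15660063492) (nat_lit 380) (nat_lit 3877677589) (nat_lit 142) (nat_lit 5) (nat_lit 146) (nat_lit 5) (nat_lit 147) (nat_lit 5) (nat_lit 656) (nat_lit 564) (nat_lit 340)) (XT.lf (nat_lit 0) (nat_lit 2630247622) (nat_lit 380) (nat_lit 2922062791) (nat_lit 76) (nat_lit 22440067011) (nat_lit 141) (nat_lit 5) (nat_lit 146) (nat_lit 5) (nat_lit 142) (nat_lit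 5) (nat_lit 657) (nat_lit 564) (nat_lit 339))))) (XT.nd (nat_lit 234) (nat_lit 988) (nat_lit 0) (XT.nd (nat_lit 78) (nat_lit 304) (nat_lit 0) (XT.lf (nat_lit 0) (nat_lit 9335417665) (nat_lit 456) (nat_lit 14196014387) (nat_lit 76) (nat_lit 4810968721) (nat_lit 136) (nat_lit 5) (nat_lit 142) (nat_lit 5) (nat_lit 137) (nat_lit 5) (nat_lit 658) (nat_lit 564) (nat_lit 338)) (XT.nd (nat_lit 78) (nat_lit 0) (nat_lit 0) (XT.lf (nat_lit 0) (nat_lit 2890226129) (nat_lit 304) (nat_lit 13355016860) (nat_lit 380) (nat_lit 12452770771) (nat_lit 132) (nat_lit 5) (nat_lit 136) (nat_lit 5) (nat_lit 137) (nat_lit 5) (nat_lit 659) (nat_lit 564) (nat_lit 337)) (XT.lf (nat_lit 0) (nat_lit 20503110870) (nat_lit 304) (nat_lit 2880738409) (nat_lit 380) (nat_lit 5675078242) (nat_lit 132) (nat_lit 5) (nat_lit 136) (nat_lit 5) (nat_lit 137) (nat_lit 5) (nat_lit 660) (nat_lit 564) (nat_lit 336)))) (XT.nd (nat_lit 156) (nat_lit 608) (nat_lit 0) (XT.nd (nat_lit 78) (nat_lit 0) (nat_lit 0)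 (XT.lf (nat_lit 0) (nat_lit 1327782691) (nat_lit 380) (nat_lit 20331218032) (nat_lit 76) (nat_lit 7765781185) (nat_lit 127) (nat_lit 5) (nat_lit 132) (nat_lit 5) (nat_lit 128) (nat_lit 5) (nat_lit 661) (nat_lit 564) (nat_lit 335)) (XT.lf (nat_lit 0) (nat_lit 8467061909) (nat_lit 380) (nat_lit 2649388209) (nat_lit 76) (nat_lit 18679306204) (nat_lit 127) (nat_lit 5) (nat_lit 132) (nat_lit 5) (nat_lit 128) (nat_lit 5) (nat_lit 662) (nat_lit 564) (nat_lit 334))) (XT.nd (nat_lit 78) (nat_lit 304) (nat_lit 0) (XT.lf (nat_lit 0) (nat_lit 15583149899) (nat_lit 304) (nat_lit 262650342) (nat_lit 380) (nat_lit 14326416701) (nat_lit 123) (nat_lit 5) (nat_lit 127) (nat_lit 5) (nat_lit 128) (nat_lit 5) (nat_lit 663) (nat_lit 564) (nat_lit 333)) (XT.lf (nat_lit 0) (nat_lit 3630394755) (nat_lit 304) (nat_lit 19848880630) (nat_lit 380) (nat_lit 7074788333) (nat_lit 119) (nat_lit 5) (nat_lit 123) (nat_lit 5) (nat_lit 124) (nat_lit 5) (nat_lit 664) (nat_lit 564) (nat_lit 332))))))))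
noncomputable def xc174 : XT := (XT.nd (nat_lit 2106) (nat_lit 12084) (nat_lit 0) (XT.nd (nat_lit 1014) (nat_lit 4636) (nat_lit 0) (XT.nd (nat_lit 468) (nat_lit 0) (nat_lit 152) (XT.nd (nat_lit 234) (nat_lit 0) (nat_lit 0) (XT.nd (nat_lit 78) (nat_lit 1672) (nat_lit 0) (XT.lf (nat_lit 0) (nat_lit 2348253490) (nat_lit 0) (nat_lit 2348253490) (nat_lit 1596) (nat_lit 479564680) (nat_lit 534) (nat_lit 5) (nat_lit 534) (nat_lit 3) (nat_lit 555) (nat_lit 3) (nat_lit 565) (nat_lit 565) (nat_lit 430)) (XT.nd (nat_lit 78) (nat_lit 1672) (nat_lit 0) (XT.lf (nat_lit 0) (nat_lit 9907674529) (nat_lit 0) (nat_lit 231484300) (nat_lit 1596) (nat_lit 303396832) (nat_lit 534) (nat_lit 5) (nat_lit 534) (nat_lit 3) (nat_lit 555) (nat_lit 3) (nat_lit 566) (nat_lit 565) (nat_lit 429)) (XT.lf (nat_lit 0) (nat_lit 402546219) (nat_lit 1672) (nat_lit 5823511929) (nat_lit 1748) (nat_lit 4307834536) (nat_lit 512) (nat_lit 5) (nat_lit 534) (nat_lit 5) (nat_lit 535) (nat_lit 5) (nat_lit 567)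 (nat_lit 565) (nat_lit 428)))) (XT.nd (nat_lit 78) (nat_lit 0) (nat_lit 76) (XT.lf (nat_lit 0) (nat_lit 1106807138) (nat_lit 1672) (nat_lit 571872829) (nat_lit 1748) (nat_lit 8948572775) (nat_lit 512) (nat_lit 5) (nat_lit 534) (nat_lit 5) (nat_lit 535) (nat_lit 5) (nat_lit 568) (nat_lit 565) (nat_lit 427)) (XT.nd (nat_lit 78) (nat_lit 0) (nat_lit 0) (XT.lf (nat_lit 0) (nat_lit 1859489624) (nat_lit 1672) (nat_lit 5902331816) (nat_lit 1748) (nat_lit 2959973436) (nat_lit 513) (nat_lit 5) (nat_lit 535) (nat_lit 5) (nat_lit 536) (nat_lit 5) (nat_lit 569) (nat_lit 565) (nat_lit 426)) (XT.lf (nat_lit 0) (nat_lit 2625963627) (nat_lit 1672) (nat_lit 512174333) (nat_lit 1748) (nat_lit 7680116706) (nat_lit 513) (nat_lit 5) (nat_lit 535) (nat_lit 5) (nat_lit 536) (nat_lit 5) (nat_lit 570) (nat_lit 565) (nat_lit 425))))) (XT.nd (nat_lit 234) (nat_lit 0) (nat_lit 76) (XT.nd (nat_lit 78) (nat_lit 0) (nat_lit 0) (XT.lf (nat_lit 0) (nat_lit 3435091726) (nat_lit 1672) (nat_lit 5883968271)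 (nat_lit 1748) (nat_lit 1597038701) (nat_lit 514) (nat_lit 5) (nat_lit 536) (nat_lit 5) (nat_lit 537) (nat_lit 5) (nat_lit 571) (nat_lit 565) (nat_lit 424)) (XT.nd (nat_lit 78) (nat_lit 0) (nat_lit 76) (XT.lf (nat_lit 0) (nat_lit 4269017632) (nat_lit 1672) (nat_lit 351747205) (nat_lit 1748) (nat_lit 6394963978) (nat_lit 514) (nat_lit 5) (nat_lit 536) (nat_lit 5) (nat_lit 537) (nat_lit 5) (nat_lit 572) (nat_lit 565) (nat_lit 423)) (XT.lf (nat_lit 0) (nat_lit 5140434529) (nat_lit 1672) (nat_lit 5766226828) (nat_lit 1748) (nat_lit 210275407) (nat_lit 515) (nat_lit 5) (nat_lit 537) (nat_lit 5) (nat_lit 538) (nat_lit 5) (nat_lit 573) (nat_lit 565) (nat_lit 422)))) (XT.nd (nat_lit 156) (nat_lit 0) (nat_lit 76) (XT.nd (nat_lit 78) (nat_lit 0) (nat_lit 0) (XT.lf (nat_lit 0) (nat_lit 6047216199) (nat_lit 1672) (nat_lit 88226646) (nat_lit 1748) (nat_lit 5084368751) (nat_lit 515) (nat_lit 5) (nat_lit 537) (nat_lit 5) (nat_lit 538) (nat_lit 5) (nat_lit 574) (nat_lit 565) (nat_lit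 421)) (XT.lf (nat_lit 76) (nat_lit 5769717654) (nat_lit 0) (nat_lit 1225130898) (nat_lit 1748) (nat_lit 4329442492) (nat_lit 516) (nat_lit 5) (nat_lit 515) (nat_lit 5) (nat_lit 538) (nat_lit 5) (nat_lit 575) (nat_lit 565) (nat_lit 420))) (XT.nd (nat_lit 78) (nat_lit 0) (nat_lit 0) (XT.lf (nat_lit 76) (nat_lit 284783591) (nat_lit 0) (nat_lit 7689176996) (nat_lit 1748) (nat_lit 3456650348) (nat_lit 517) (nat_lit 5) (nat_lit 516) (nat_lit 5) (nat_lit 539) (nat_lit 5) (nat_lit 576) (nat_lit 565) (nat_lit 419)) (XT.lf (nat_lit 76) (nat_lit 6298511236) (nat_lit 0) (nat_lit 2705217969) (nat_lit 1748) (nat_lit 2534707899) (nat_lit 517) (nat_lit 5) (nat_lit 516) (nat_lit 5) (nat_lit 539) (nat_lit 5) (nat_lit 577) (nat_lit 565) (nat_lit 418)))))) (XT.nd (nat_lit 546) (nat_lit 3344) (nat_lit 0) (XT.nd (nat_lit 234) (nat_lit 0) (nat_lit 0) (XT.nd (nat_lit 78) (nat_lit 1672) (nat_lit 0) (XT.lf (nat_lit 76) (nat_lit 769124392) (nat_lit 0) (nat_lit 9291454883) (nat_lit 1748)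 (nat_lit 1587712140) (nat_lit 518) (nat_lit 5) (nat_lit 517) (nat_lit 5) (nat_lit 540) (nat_lit 5) (nat_lit 578) (nat_lit 565) (nat_lit 417)) (XT.nd (nat_lit 78) (nat_lit 1672) (nat_lit 0) (XT.lf (nat_lit 76) (nat_lit 6941679882) (nat_lit 0) (nat_lit 4236108260) (nat_lit 1748) (nat_lit 581771549) (nat_lit 518) (nat_lit 5) (nat_lit 517) (nat_lit 5) (nat_lit 540) (nat_lit 5) (nat_lit 579) (nat_lit 565) (nat_lit 416)) (XT.lf (nat_lit 0) (nat_lit 439877146) (nat_lit 1748) (nat_lit 10508996237) (nat_lit 1824) (nat_lit 924095196) (nat_lit 495) (nat_lit 5) (nat_lit 518) (nat_lit 5) (nat_lit 519) (nat_lit 5) (nat_lit 580) (nat_lit 565) (nat_lit 415)))) (XT.nd (nat_lit 156) (nat_lit 0) (nat_lit 76) (XT.nd (nat_lit 78) (nat_lit 0) (nat_lit 0) (XT.lf (nat_lit 0) (nat_lit 1521444501) (nat_lit 1748) (nat_lit 4295126258) (nat_lit 1824) (nat_lit 6171053700) (nat_lit 495) (nat_lit 5) (nat_lit 518) (nat_lit 5) (nat_lit 519) (nat_lit 5) (nat_lit 581) (nat_lit 565) (nat_lit 414))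 (XT.lf (nat_lit 76) (nat_lit 2060460318) (nat_lit 0) (nat_lit 564492141) (nat_lit 1824) (nat_lit 9479616027) (nat_lit 496) (nat_lit 5) (nat_lit 495) (nat_lit 5) (nat_lit 519) (nat_lit 5) (nat_lit 582) (nat_lit 565) (nat_lit 413))) (XT.nd (nat_lit 78) (nat_lit 0) (nat_lit 0) (XT.lf (nat_lit 0) (nat_lit 3797808516) (nat_lit 1748) (nat_lit 3663004049) (nat_lit 1824) (nat_lit 4762094460) (nat_lit 496) (nat_lit 5) (nat_lit 519) (nat_lit 5) (nat_lit 520) (nat_lit 5) (nat_lit 583) (nat_lit 565) (nat_lit 412)) (XT.lf (nat_lit 76) (nat_lit 2870015245) (nat_lit 0) (nat_lit 2133878440) (nat_lit 1824) (nat_lit 7339524377) (nat_lit 497) (nat_lit 5) (nat_lit 496) (nat_lit 5) (nat_lit 520) (nat_lit 5) (nat_lit 584) (nat_lit 565) (nat_lit 411))))) (XT.nd (nat_lit 234) (nat_lit 3496) (nat_lit 0) (XT.nd (nat_lit 78) (nat_lit 0) (nat_lit 0) (XT.lf (nat_lit 0) (nat_lit 6267870491) (nat_lit 1748) (nat_lit 2913899912) (nat_lit 1824) (nat_lit 3283894661) (nat_lit 497) (nat_lit 5) (nat_lit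 520) (nat_lit 5) (nat_lit 521) (nat_lit 5) (nat_lit 585) (nat_lit 565) (nat_lit 410)) (XT.nd (nat_lit 78) (nat_lit 0) (nat_lit 76) (XT.lf (nat_lit 76) (nat_lit 3802915587) (nat_lit 0) (nat_lit 3780880321) (nat_lit 1824) (nat_lit 5006028838) (nat_lit 498) (nat_lit 5) (nat_lit 497) (nat_lit 5) (nat_lit 521) (nat_lit 5) (nat_lit 586) (nat_lit 565) (nat_lit 409)) (XT.lf (nat_lit 0) (nat_lit 8944980964) (nat_lit 1748) (nat_lit 2043674257) (nat_lit 1824) (nat_lit 1727434678) (nat_lit 498) (nat_lit 5) (nat_lit 521) (nat_lit 5) (nat_lit 522) (nat_lit 5) (nat_lit 587) (nat_lit 565) (nat_lit 408)))) (XT.nd (nat_lit 156) (nat_lit 3572) (nat_lit 0) (XT.nd (nat_lit 78) (nat_lit 0) (nat_lit 76) (XT.lf (nat_lit 76) (nat_lit 4863550394) (nat_lit 0) (nat_lit 5514728538) (nat_lit 1824) (nat_lit 2465704717) (nat_lit 499) (nat_lit 5) (nat_lit 498) (nat_lit 5) (nat_lit 522) (nat_lit 5) (nat_lit 588) (nat_lit 565) (nat_lit 407)) (XT.lf (nat_lit 0) (nat_lit 11842947447) (nat_lit 1748)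 (nat_lit 1047879894) (nat_lit 76) (nat_lit 83554898) (nat_lit 499) (nat_lit 5) (nat_lit 522) (nat_lit 5) (nat_lit 500) (nat_lit 5) (nat_lit 589) (nat_lit 565) (nat_lit 406))) (XT.nd (nat_lit 78) (nat_lit 1824) (nat_lit 0) (XT.lf (nat_lit 0) (nat_lit 291461769) (nat_lit 1824) (nat_lit 7051391995) (nat_lit 76) (nat_lit 5763207219) (nat_lit 475) (nat_lit 5) (nat_lit 499) (nat_lit 5) (nat_lit 476) (nat_lit 5) (nat_lit 590) (nat_lit 565) (nat_lit 405)) (XT.lf (nat_lit 0) (nat_lit 56746101) (nat_lit 1824) (nat_lit 1667146427) (nat_lit 1900) (nat_lit 11516407671) (nat_lit 451) (nat_lit 5) (nat_lit 475) (nat_lit 5) (nat_lit 476) (nat_lit 5) (nat_lit 591) (nat_lit 565) (nat_lit 404))))))) (XT.nd (nat_lit 1014) (nat_lit 5776) (nat_lit 0) (XT.nd (nat_lit 468) (nat_lit 3420) (nat_lit 0) (XT.nd (nat_lit 234) (nat_lit 1824) (nat_lit 0) (XT.nd (nat_lit 78) (nat_lit 1064) (nat_lit 0) (XT.lf (nat_lit 0) (nat_lit 3248299351) (nat_lit 1900) (nat_lit 6010591167) (nat_lit 76) (nat_lit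 4117068108) (nat_lit 451) (nat_lit 5) (nat_lit 476) (nat_lit 5) (nat_lit 452) (nat_lit 5) (nat_lit 592) (nat_lit 565) (nat_lit 403)) (XT.nd (nat_lit 78) (nat_lit 0) (nat_lit 0) (XT.lf (nat_lit 0) (nat_lit 1302195154) (nat_lit 1064) (nat_lit 3509643871) (nat_lit 1140) (nat_lit 8702319259) (nat_lit 437) (nat_lit 5) (nat_lit 451) (nat_lit 5) (nat_lit 452) (nat_lit 5) (nat_lit 593) (nat_lit 565) (nat_lit 402)) (XT.lf (nat_lit 0) (nat_lit 6451845124) (nat_lit 1140) (nat_lit 4836989630) (nat_lit 76) (nat_lit 2365384208) (nat_lit 437) (nat_lit 5) (nat_lit 452) (nat_lit 5) (nat_lit 438) (nat_lit 5) (nat_lit 594) (nat_lit 565) (nat_lit 401)))) (XT.nd (nat_lit 78) (nat_lit 912) (nat_lit 0) (XT.lf (nat_lit 0) (nat_lit 2687853059) (nat_lit 912) (nat_lit 5467008696) (nat_lit 988) (nat_lit 5641615810) (nat_lit 425) (nat_lit 5) (nat_lit 437) (nat_lit 5) (nat_lit 438) (nat_lit 5) (nat_lit 595) (nat_lit 565) (nat_lit 400)) (XT.nd (nat_lit 78) (nat_lit 912) (nat_lit 0) (XT.lf (nat_lit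 0) (nat_lit 9917336878) (nat_lit 988) (nat_lit 3525236080) (nat_lit 76) (nat_lit 498501320) (nat_lit 425) (nat_lit 5) (nat_lit 438) (nat_lit 5) (nat_lit 426) (nat_lit 5) (nat_lit 596) (nat_lit 565) (nat_lit 399)) (XT.lf (nat_lit 0) (nat_lit 4219355767) (nat_lit 912) (nat_lit 7549173362) (nat_lit 988) (nat_lit 2318965329) (nat_lit 413) (nat_lit 5) (nat_lit 425) (nat_lit 5) (nat_lit 426) (nat_lit 5) (nat_lit 597) (nat_lit 565) (nat_lit 398))))) (XT.nd (nat_lit 234) (nat_lit 2508) (nat_lit 0) (XT.nd (nat_lit 78) (nat_lit 912) (nat_lit 0) (XT.lf (nat_lit 0) (nat_lit 12157091488) (nat_lit 912) (nat_lit 1513314121) (nat_lit 988) (nat_lit 566165092) (nat_lit 413) (nat_lit 5) (nat_lit 425) (nat_lit 5) (nat_lit 426) (nat_lit 5) (nat_lit 598) (nat_lit 565) (nat_lit 397)) (XT.nd (nat_lit 78) (nat_lit 0) (nat_lit 0) (XT.lf (nat_lit 0) (nat_lit 1264730534) (nat_lit 912) (nat_lit 8493101796) (nat_lit 76) (nat_lit 4629457088) (nat_lit 401) (nat_lit 5) (nat_lit 413) (nat_lit 5)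 (nat_lit 402) (nat_lit 5) (nat_lit 599) (nat_lit 565) (nat_lit 396)) (XT.lf (nat_lit 0) (nat_lit 3139007788) (nat_lit 912) (nat_lit 508705197) (nat_lit 76) (nat_lit 10892948603) (nat_lit 401) (nat_lit 5) (nat_lit 413) (nat_lit 5) (nat_lit 402) (nat_lit 5) (nat_lit 600) (nat_lit 565) (nat_lit 395)))) (XT.nd (nat_lit 156) (nat_lit 836) (nat_lit 0) (XT.nd (nat_lit 78) (nat_lit 836) (nat_lit 0) (XT.lf (nat_lit 0) (nat_lit 5108514962) (nat_lit 912) (nat_lit 6986104297) (nat_lit 76) (nat_lit 2601327854) (nat_lit 390) (nat_lit 5) (nat_lit 402) (nat_lit 5) (nat_lit 391) (nat_lit 5) (nat_lit 601) (nat_lit 565) (nat_lit 394)) (XT.lf (nat_lit 0) (nat_lit 1227757412) (nat_lit 836) (nat_lit 5915805840) (nat_lit 912) (nat_lit 7710252864) (nat_lit 379) (nat_lit 5) (nat_lit 390) (nat_lit 5) (nat_lit 391) (nat_lit 5) (nat_lit 602) (nat_lit 565) (nat_lit 393))) (XT.nd (nat_lit 78) (nat_lit 836) (nat_lit 0) (XT.lf (nat_lit 0) (nat_lit 9259721279) (nat_lit 912) (nat_lit 5325805470)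 (nat_lit 76) (nat_lit 428508342) (nat_lit 379) (nat_lit 5) (nat_lit 391) (nat_lit 5) (nat_lit 380) (nat_lit 5) (nat_lit 603) (nat_lit 565) (nat_lit 392)) (XT.lf (nat_lit 0) (nat_lit 3132878278) (nat_lit 836) (nat_lit 8335732541) (nat_lit 912) (nat_lit 3707840216) (nat_lit 368) (nat_lit 5) (nat_lit 379) (nat_lit 5) (nat_lit 380) (nat_lit 5) (nat_lit 604) (nat_lit 565) (nat_lit 391)))))) (XT.nd (nat_lit 546) (nat_lit 2736) (nat_lit 0) (XT.nd (nat_lit 234) (nat_lit 2204) (nat_lit 0) (XT.nd (nat_lit 78) (nat_lit 836) (nat_lit 0) (XT.lf (nat_lit 0) (nat_lit 11823505511) (nat_lit 836) (nat_lit 1924919150) (nat_lit 912) (nat_lit 1593156446) (nat_lit 368) (nat_lit 5) (nat_lit 379) (nat_lit 5) (nat_lit 380) (nat_lit 5) (nat_lit 605) (nat_lit 565) (nat_lit 390)) (XT.nd (nat_lit 78) (nat_lit 0) (nat_lit 0) (XT.lf (nat_lit 0) (nat_lit 611734869) (nat_lit 836) (nat_lit 10306090189) (nat_lit 76) (nat_lit 4591010050) (nat_lit 357) (nat_lit 5) (nat_lit 368) (nat_lit 5) (nat_lit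 358) (nat_lit 5) (nat_lit 606) (nat_lit 565) (nat_lit 389)) (XT.lf (nat_lit 0) (nat_lit 2867158864) (nat_lit 836) (nat_lit 1566214284) (nat_lit 76) (nat_lit 11245295778) (nat_lit 357) (nat_lit 5) (nat_lit 368) (nat_lit 5) (nat_lit 358) (nat_lit 5) (nat_lit 607) (nat_lit 565) (nat_lit 388)))) (XT.nd (nat_lit 156) (nat_lit 760) (nat_lit 0) (XT.nd (nat_lit 78) (nat_lit 684) (nat_lit 0) (XT.lf (nat_lit 0) (nat_lit 5221856525) (nat_lit 836) (nat_lit 8428869676) (nat_lit 76) (nat_lit 2200090600) (nat_lit 347) (nat_lit 5) (nat_lit 358) (nat_lit 5) (nat_lit 348) (nat_lit 5) (nat_lit 608) (nat_lit 565) (nat_lit 387)) (XT.lf (nat_lit 0) (nat_lit 553345759) (nat_lit 684) (nat_lit 7105345570) (nat_lit 760) (nat_lit 8367016112) (nat_lit 338) (nat_lit 5) (nat_lit 347) (nat_lit 5) (nat_lit 348) (nat_lit 5) (nat_lit 609) (nat_lit 565) (nat_lit 386))) (XT.nd (nat_lit 78) (nat_lit 760) (nat_lit 0) (XT.lf (nat_lit 0) (nat_lit 9820136244) (nat_lit 684) (nat_lit 372305339) (nat_lit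 760) (nat_lit 6010691391) (nat_lit 338) (nat_lit 5) (nat_lit 347) (nat_lit 5) (nat_lit 348) (nat_lit 5) (nat_lit 610) (nat_lit 565) (nat_lit 385)) (XT.lf (nat_lit 0) (nat_lit 2874380117) (nat_lit 760) (nat_lit 9955096516) (nat_lit 836) (nat_lit 3553578833) (nat_lit 328) (nat_lit 5) (nat_lit 338) (nat_lit 5) (nat_lit 339) (nat_lit 5) (nat_lit 611) (nat_lit 565) (nat_lit 384))))) (XT.nd (nat_lit 234) (nat_lit 1976) (nat_lit 0) (XT.nd (nat_lit 78) (nat_lit 760) (nat_lit 0) (XT.lf (nat_lit 0) (nat_lit 12391689530) (nat_lit 760) (nat_lit 3164721773) (nat_lit 836) (nat_lit 1009422557) (nat_lit 328) (nat_lit 5) (nat_lit 338) (nat_lit 5) (nat_lit 339) (nat_lit 5) (nat_lit 612) (nat_lit 565) (nat_lit 383)) (XT.nd (nat_lit 78) (nat_lit 0) (nat_lit 0) (XT.lf (nat_lit 0) (nat_lit 1616568250) (nat_lit 760) (nat_lit 11377818771) (nat_lit 76) (nat_lit 3756640571) (nat_lit 318) (nat_lit 5) (nat_lit 328) (nat_lit 5) (nat_lit 319) (nat_lit 5) (nat_lit 613) (nat_lit 565) (nat_lit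 382)) (XT.lf (nat_lit 0) (nat_lit 4322802573) (nat_lit 760) (nat_lit 1808359945) (nat_lit 76) (nat_lit 10807805032) (nat_lit 318) (nat_lit 5) (nat_lit 328) (nat_lit 5) (nat_lit 319) (nat_lit 5) (nat_lit 614) (nat_lit 565) (nat_lit 381)))) (XT.nd (nat_lit 156) (nat_lit 684) (nat_lit 0) (XT.nd (nat_lit 78) (nat_lit 608) (nat_lit 0) (XT.lf (nat_lit 0) (nat_lit 7133630787) (nat_lit 760) (nat_lit 9086782461) (nat_lit 76) (nat_lit 909244259) (nat_lit 309) (nat_lit 5) (nat_lit 319) (nat_lit 5) (nat_lit 310) (nat_lit 5) (nat_lit 615) (nat_lit 565) (nat_lit 380)) (XT.lf (nat_lit 0) (nat_lit 751743105) (nat_lit 608) (nat_lit 9298945625) (nat_lit 684) (nat_lit 7272472840) (nat_lit 301) (nat_lit 5) (nat_lit 309) (nat_lit 5) (nat_lit 310) (nat_lit 5) (nat_lit 616) (nat_lit 565) (nat_lit 379))) (XT.nd (nat_lit 78) (nat_lit 684) (nat_lit 0) (XT.lf (nat_lit 0) (nat_lit 10901112159) (nat_lit 608) (nat_lit 2178357613) (nat_lit 684) (nat_lit 4439998866) (nat_lit 301) (nat_lit 5)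 (nat_lit 309) (nat_lit 5) (nat_lit 310) (nat_lit 5) (nat_lit 617) (nat_lit 565) (nat_lit 378)) (XT.lf (nat_lit 0) (nat_lit 3538094425) (nat_lit 684) (nat_lit 12679260723) (nat_lit 760) (nat_lit 1501376674) (nat_lit 292) (nat_lit 5) (nat_lit 301) (nat_lit 5) (nat_lit 302) (nat_lit 5) (nat_lit 618) (nat_lit 565) (nat_lit 377))))))))
noncomputable def xc175 : XT := (XT.nd (nat_lit 2106) (nat_lit 4180) (nat_lit 0) (XT.nd (nat_lit 1014) (nat_lit 4408) (nat_lit 0) (XT.nd (nat_lit 468) (nat_lit 2356) (nat_lit 0) (XT.nd (nat_lit 234) (nat_lit 1216) (nat_lit 0) (XT.nd (nat_lit 78) (nat_lit 608) (nat_lit 0) (XT.lf (nat_lit 0) (nat_lit 1528113006) (nat_lit 760) (nat_lit 3967239258) (nat_lit 76) (nat_lit 12425399960) (nat_lit 291) (nat_lit 5) (nat_lit 301) (nat_lit 5) (nat_lit 292) (nat_lit 5) (nat_lit 619) (nat_lit 565) (nat_lit 376)) (XT.nd (nat_lit 78) (nat_lit 0) (nat_lit 0) (XT.lf (nat_lit 0) (nat_lit 4645380204) (nat_lit 684) (nat_lit 11621112506) (nat_lit 76) (nat_lit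 1859176537) (nat_lit 283) (nat_lit 5) (nat_lit 292) (nat_lit 5) (nat_lit 284) (nat_lit 5) (nat_lit 620) (nat_lit 565) (nat_lit 375)) (XT.lf (nat_lit 0) (nat_lit 7880986560) (nat_lit 684) (nat_lit 1140153761) (nat_lit 76) (nat_lit 9312424920) (nat_lit 283) (nat_lit 5) (nat_lit 292) (nat_lit 5) (nat_lit 284) (nat_lit 5) (nat_lit 621) (nat_lit 565) (nat_lit 374)))) (XT.nd (nat_lit 78) (nat_lit 608) (nat_lit 0) (XT.lf (nat_lit 0) (nat_lit 9668405600) (nat_lit 608) (nat_lit 1568616461) (nat_lit 684) (nat_lit 7307483252) (nat_lit 275) (nat_lit 5) (nat_lit 283) (nat_lit 5) (nat_lit 284) (nat_lit 5) (nat_lit 622) (nat_lit 565) (nat_lit 373)) (XT.nd (nat_lit 78) (nat_lit 0) (nat_lit 0) (XT.lf (nat_lit 0) (nat_lit 1926230512) (nat_lit 608) (nat_lit 12786338966) (nat_lit 684) (nat_lit 4046047372) (nat_lit 267) (nat_lit 5) (nat_lit 275) (nat_lit 5) (nat_lit 276) (nat_lit 5) (nat_lit 623) (nat_lit 565) (nat_lit 372)) (XT.lf (nat_lit 0) (nat_lit 13045565686) (nat_lit 608) (nat_lit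 5275038124) (nat_lit 684) (nat_lit 655147769) (nat_lit 267) (nat_lit 5) (nat_lit 275) (nat_lit 5) (nat_lit 276) (nat_lit 5) (nat_lit 624) (nat_lit 565) (nat_lit 371))))) (XT.nd (nat_lit 234) (nat_lit 1140) (nat_lit 0) (XT.nd (nat_lit 78) (nat_lit 532) (nat_lit 0) (XT.lf (nat_lit 0) (nat_lit 2809778854) (nat_lit 684) (nat_lit 13980430268) (nat_lit 76) (nat_lit 2405796719) (nat_lit 258) (nat_lit 5) (nat_lit 267) (nat_lit 5) (nat_lit 259) (nat_lit 5) (nat_lit 625) (nat_lit 565) (nat_lit 370)) (XT.nd (nat_lit 78) (nat_lit 532) (nat_lit 0) (XT.lf (nat_lit 0) (nat_lit 6403479502) (nat_lit 684) (nat_lit 2803584215) (nat_lit 76) (nat_lit 10212150353) (nat_lit 258) (nat_lit 5) (nat_lit 267) (nat_lit 5) (nat_lit 259) (nat_lit 5) (nat_lit 626) (nat_lit 565) (nat_lit 369)) (XT.lf (nat_lit 0) (nat_lit 8702287563) (nat_lit 532) (nat_lit 1416647509) (nat_lit 608) (nat_lit 9526954217) (nat_lit 251) (nat_lit 5) (nat_lit 258) (nat_lit 5) (nat_lit 259) (nat_lit 5) (nat_lit 627) (nat_lit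 565) (nat_lit 368)))) (XT.nd (nat_lit 156) (nat_lit 608) (nat_lit 0) (XT.nd (nat_lit 78) (nat_lit 0) (nat_lit 0) (XT.lf (nat_lit 0) (nat_lit 555621998) (nat_lit 532) (nat_lit 13411458382) (nat_lit 608) (nat_lit 5908850452) (nat_lit 244) (nat_lit 5) (nat_lit 251) (nat_lit 5) (nat_lit 252) (nat_lit 5) (nat_lit 628) (nat_lit 565) (nat_lit 367)) (XT.lf (nat_lit 0) (nat_lit 12415019912) (nat_lit 532) (nat_lit 5553439227) (nat_lit 608) (nat_lit 2140589082) (nat_lit 244) (nat_lit 5) (nat_lit 251) (nat_lit 5) (nat_lit 252) (nat_lit 5) (nat_lit 629) (nat_lit 565) (nat_lit 366))) (XT.nd (nat_lit 78) (nat_lit 0) (nat_lit 0) (XT.lf (nat_lit 0) (nat_lit 1717793523) (nat_lit 608) (nat_lit 16162168536) (nat_lit 76) (nat_lit 2465903329) (nat_lit 236) (nat_lit 5) (nat_lit 244) (nat_lit 5) (nat_lit 237) (nat_lit 5) (nat_lit 630) (nat_lit 565) (nat_lit 365)) (XT.lf (nat_lit 0) (nat_lit 5707112747) (nat_lit 608) (nat_lit 4243030691) (nat_lit 76) (nat_lit 10635344245) (nat_lit 236)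 (nat_lit 5) (nat_lit 244) (nat_lit 5) (nat_lit 237) (nat_lit 5) (nat_lit 631) (nat_lit 565) (nat_lit 364)))))) (XT.nd (nat_lit 546) (nat_lit 2356) (nat_lit 0) (XT.nd (nat_lit 234) (nat_lit 1064) (nat_lit 0) (XT.nd (nat_lit 78) (nat_lit 456) (nat_lit 0) (XT.lf (nat_lit 0) (nat_lit 8011106270) (nat_lit 532) (nat_lit 1810903943) (nat_lit 608) (nat_lit 11006976767) (nat_lit 229) (nat_lit 5) (nat_lit 236) (nat_lit 5) (nat_lit 237) (nat_lit 5) (nat_lit 632) (nat_lit 565) (nat_lit 363)) (XT.nd (nat_lit 78) (nat_lit 456) (nat_lit 0) (XT.lf (nat_lit 0) (nat_lit 14083843195) (nat_lit 608) (nat_lit 559782715) (nat_lit 76) (nat_lit 6432437986) (nat_lit 229) (nat_lit 5) (nat_lit 237) (nat_lit 5) (nat_lit 230) (nat_lit 5) (nat_lit 633) (nat_lit 565) (nat_lit 362)) (XT.lf (nat_lit 0) (nat_lit 12081599538) (nat_lit 456) (nat_lit 6433700127) (nat_lit 532) (nat_lit 2811095327) (nat_lit 223) (nat_lit 5) (nat_lit 229) (nat_lit 5) (nat_lit 230) (nat_lit 5) (nat_lit 634) (nat_lit 565)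 (nat_lit 361)))) (XT.nd (nat_lit 156) (nat_lit 456) (nat_lit 0) (XT.nd (nat_lit 78) (nat_lit 0) (nat_lit 0) (XT.lf (nat_lit 0) (nat_lit 1467427003) (nat_lit 608) (nat_lit 18165077722) (nat_lit 76) (nat_lit 1948382798) (nat_lit 215) (nat_lit 5) (nat_lit 223) (nat_lit 5) (nat_lit 216) (nat_lit 5) (nat_lit 635) (nat_lit 565) (nat_lit 360)) (XT.lf (nat_lit 0) (nat_lit 5892996025) (nat_lit 608) (nat_lit 5454333135) (nat_lit 76) (nat_lit 10490787138) (nat_lit 215) (nat_lit 5) (nat_lit 223) (nat_lit 5) (nat_lit 216) (nat_lit 5) (nat_lit 636) (nat_lit 565) (nat_lit 359))) (XT.nd (nat_lit 78) (nat_lit 0) (nat_lit 0) (XT.lf (nat_lit 0) (nat_lit 7602081835) (nat_lit 456) (nat_lit 2848495537) (nat_lit 532) (nat_lit 11649042606) (nat_lit 209) (nat_lit 5) (nat_lit 215) (nat_lit 5) (nat_lit 216) (nat_lit 5) (nat_lit 637) (nat_lit 565) (nat_lit 358)) (XT.lf (nat_lit 0) (nat_lit 15168132797) (nat_lit 532) (nat_lit 1418387013) (nat_lit 76) (nat_lit 5778457814) (nat_lit 209) (nat_lit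 5) (nat_lit 216) (nat_lit 5) (nat_lit 210) (nat_lit 5) (nat_lit 638) (nat_lit 565) (nat_lit 357))))) (XT.nd (nat_lit 234) (nat_lit 1368) (nat_lit 0) (XT.nd (nat_lit 78) (nat_lit 532) (nat_lit 0) (XT.lf (nat_lit 0) (nat_lit 12053434918) (nat_lit 456) (nat_lit 8018030717) (nat_lit 532) (nat_lit 2562348597) (nat_lit 203) (nat_lit 5) (nat_lit 209) (nat_lit 5) (nat_lit 210) (nat_lit 5) (nat_lit 639) (nat_lit 565) (nat_lit 356)) (XT.nd (nat_lit 78) (nat_lit 0) (nat_lit 0) (XT.lf (nat_lit 0) (nat_lit 2164276399) (nat_lit 532) (nat_lit 19990106701) (nat_lit 76) (nat_lit 752807061) (nat_lit 196) (nat_lit 5) (nat_lit 203) (nat_lit 5) (nat_lit 197) (nat_lit 5) (nat_lit 640) (nat_lit 565) (nat_lit 355)) (XT.lf (nat_lit 0) (nat_lit 7070093143) (nat_lit 532) (nat_lit 6435433341) (nat_lit 76) (nat_lit 9677789317) (nat_lit 196) (nat_lit 5) (nat_lit 203) (nat_lit 5) (nat_lit 197) (nat_lit 5) (nat_lit 641) (nat_lit 565) (nat_lit 354)))) (XT.nd (nat_lit 156) (nat_lit 912) (nat_lit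 0) (XT.nd (nat_lit 78) (nat_lit 0) (nat_lit 0) (XT.lf (nat_lit 0) (nat_lit 7480404937) (nat_lit 456) (nat_lit 4636666847) (nat_lit 532) (nat_lit 11347031567) (nat_lit 190) (nat_lit 5) (nat_lit 196) (nat_lit 5) (nat_lit 197) (nat_lit 5) (nat_lit 642) (nat_lit 565) (nat_lit 353)) (XT.lf (nat_lit 0) (nat_lit 17331608916) (nat_lit 532) (nat_lit 2024840641) (nat_lit 76) (nat_lit 4392725022) (nat_lit 190) (nat_lit 5) (nat_lit 197) (nat_lit 5) (nat_lit 191) (nat_lit 5) (nat_lit 643) (nat_lit 565) (nat_lit 352))) (XT.nd (nat_lit 78) (nat_lit 532) (nat_lit 0) (XT.lf (nat_lit 0) (nat_lit 12336364050) (nat_lit 380) (nat_lit 10419500413) (nat_lit 456) (nat_lit 1281974511) (nat_lit 185) (nat_lit 5) (nat_lit 190) (nat_lit 5) (nat_lit 191) (nat_lit 5) (nat_lit 644) (nat_lit 565) (nat_lit 351)) (XT.lf (nat_lit 0) (nat_lit 2681692119) (nat_lit 456) (nat_lit 1248481650) (nat_lit 532) (nat_lit 20401074766) (nat_lit 178) (nat_lit 5) (nat_lit 184) (nat_lit 5) (nat_lit 185) (nat_lit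 5) (nat_lit 645) (nat_lit 565) (nat_lit 350))))))) (XT.nd (nat_lit 1092) (nat_lit 988) (nat_lit 0) (XT.nd (nat_lit 546) (nat_lit 1596) (nat_lit 0) (XT.nd (nat_lit 234) (nat_lit 1216) (nat_lit 0) (XT.nd (nat_lit 78) (nat_lit 380) (nat_lit 0) (XT.lf (nat_lit 0) (nat_lit 9355769017) (nat_lit 532) (nat_lit 7187430098) (nat_lit 76) (nat_lit 8084630584) (nat_lit 178) (nat_lit 5) (nat_lit 185) (nat_lit 5) (nat_lit 179) (nat_lit 5) (nat_lit 646) (nat_lit 565) (nat_lit 349)) (XT.nd (nat_lit 78) (nat_lit 0) (nat_lit 0) (XT.lf (nat_lit 0) (nat_lit 7648159828) (nat_lit 380) (nat_lit 7294426912) (nat_lit 456) (nat_lit 9986701810) (nat_lit 173) (nat_lit 5) (nat_lit 178) (nat_lit 5) (nat_lit 179) (nat_lit 5) (nat_lit 647) (nat_lit 565) (nat_lit 348)) (XT.lf (nat_lit 0) (nat_lit 20698402027) (nat_lit 456) (nat_lit 2379985196) (nat_lit 76) (nat_lit 2157244400) (nat_lit 173) (nat_lit 5) (nat_lit 179) (nat_lit 5) (nat_lit 174) (nat_lit 5) (nat_lit 648) (nat_lit 565) (nat_lit 347))))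 (XT.nd (nat_lit 156) (nat_lit 380) (nat_lit 0) (XT.nd (nat_lit 78) (nat_lit 380) (nat_lit 0) (XT.lf (nat_lit 0) (nat_lit 1135878272) (nat_lit 456) (nat_lit 12620240160) (nat_lit 76) (nat_lit 11789289975) (nat_lit 167) (nat_lit 5) (nat_lit 173) (nat_lit 5) (nat_lit 168) (nat_lit 5) (nat_lit 649) (nat_lit 565) (nat_lit 346)) (XT.lf (nat_lit 0) (nat_lit 2705234880) (nat_lit 380) (nat_lit 4185095988) (nat_lit 456) (nat_lit 18969877572) (nat_lit 162) (nat_lit 5) (nat_lit 167) (nat_lit 5) (nat_lit 168) (nat_lit 5) (nat_lit 650) (nat_lit 565) (nat_lit 345))) (XT.nd (nat_lit 78) (nat_lit 380) (nat_lit 0) (XT.lf (nat_lit 0) (nat_lit 12876304295) (nat_lit 456) (nat_lit 7715841689) (nat_lit 76) (nat_lit 5586830103) (nat_lit 162) (nat_lit 5) (nat_lit 168) (nat_lit 5) (nat_lit 163) (nat_lit 5) (nat_lit 651) (nat_lit 565) (nat_lit 344)) (XT.lf (nat_lit 0) (nat_lit 8103033224) (nat_lit 380) (nat_lit 10954359352) (nat_lit 456) (nat_lit 7445218845) (nat_lit 157) (nat_lit 5) (nat_lit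 162) (nat_lit 5) (nat_lit 163) (nat_lit 5) (nat_lit 652) (nat_lit 565) (nat_lit 343))))) (XT.nd (nat_lit 234) (nat_lit 760) (nat_lit 0) (XT.nd (nat_lit 78) (nat_lit 836) (nat_lit 0) (XT.lf (nat_lit 0) (nat_lit 24335329410) (nat_lit 380) (nat_lit 1073667510) (nat_lit 456) (nat_lit 1422784897) (nat_lit 157) (nat_lit 5) (nat_lit 162) (nat_lit 5) (nat_lit 163) (nat_lit 5) (nat_lit 653) (nat_lit 565) (nat_lit 342)) (XT.nd (nat_lit 78) (nat_lit 380) (nat_lit 0) (XT.lf (nat_lit 0) (nat_lit 4802663335) (nat_lit 456) (nat_lit 13355949465) (nat_lit 76) (nat_lit 9005420720) (nat_lit 151) (nat_lit 5) (nat_lit 157) (nat_lit 5) (nat_lit 152) (nat_lit 5) (nat_lit 654) (nat_lit 565) (nat_lit 341)) (XT.lf (nat_lit 0) (nat_lit 2984968534) (nat_lit 380) (nat_lit 8187182910) (nat_lit 456) (nat_lit 16329819306) (nat_lit 146) (nat_lit 5) (nat_lit 151) (nat_lit 5) (nat_lit 152) (nat_lit 5) (nat_lit 655) (nat_lit 565) (nat_lit 340)))) (XT.nd (nat_lit 156) (nat_lit 456) (nat_lit 0) (XT.nd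 (nat_lit 78) (nat_lit 304) (nat_lit 0) (XT.lf (nat_lit 0) (nat_lit 17767365690) (nat_lit 456) (nat_lit 8032119331) (nat_lit 76) (nat_lit 2045215197) (nat_lit 146) (nat_lit 5) (nat_lit 152) (nat_lit 5) (nat_lit 147) (nat_lit 5) (nat_lit 656) (nat_lit 565) (nat_lit 339)) (XT.lf (nat_lit 0) (nat_lit 8836764137) (nat_lit 304) (nat_lit 15764645384) (nat_lit 380) (nat_lit 3590736465) (nat_lit 142) (nat_lit 5) (nat_lit 146) (nat_lit 5) (nat_lit 147) (nat_lit 5) (nat_lit 657) (nat_lit 565) (nat_lit 338))) (XT.nd (nat_lit 78) (nat_lit 380) (nat_lit 0) (XT.lf (nat_lit 0) (nat_lit 3035513615) (nat_lit 380) (nat_lit 2420947663) (nat_lit 76) (nat_lit 23088694692) (nat_lit 141) (nat_lit 5) (nat_lit 146) (nat_lit 5) (nat_lit 142) (nat_lit 5) (nat_lit 658) (nat_lit 565) (nat_lit 337)) (XT.lf (nat_lit 0) (nat_lit 9872822111) (nat_lit 456) (nat_lit 13918397870) (nat_lit 76) (nat_lit 5110999414) (nat_lit 136) (nat_lit 5) (nat_lit 142) (nat_lit 5) (nat_lit 137) (nat_lit 5) (nat_lit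 659) (nat_lit 565) (nat_lit 336)))))) (XT.nd (nat_lit 74022) (nat_lit 0) (nat_lit 29564) (XT.nd (nat_lit 234) (nat_lit 304) (nat_lit 0) (XT.nd (nat_lit 78) (nat_lit 380) (nat_lit 0) (XT.lf (nat_lit 0) (nat_lit 3505873135) (nat_lit 304) (nat_lit 13411716295) (nat_lit 380) (nat_lit 12347420605) (nat_lit 132) (nat_lit 5) (nat_lit 136) (nat_lit 5) (nat_lit 137) (nat_lit 5) (nat_lit 660) (nat_lit 565) (nat_lit 335)) (XT.nd (nat_lit 78) (nat_lit 380) (nat_lit 0) (XT.lf (nat_lit 0) (nat_lit 21460077483) (nat_lit 304) (nat_lit 2732077784) (nat_lit 380) (nat_lit 5441123354) (nat_lit 132) (nat_lit 5) (nat_lit 136) (nat_lit 5) (nat_lit 137) (nat_lit 5) (nat_lit 661) (nat_lit 565) (nat_lit 334)) (XT.lf (nat_lit 0) (nat_lit 1695422535) (nat_lit 380) (nat_lit 20184536861) (nat_lit 76) (nat_lit 8126482172) (nat_lit 127) (nat_lit 5) (nat_lit 132) (nat_lit 5) (nat_lit 128) (nat_lit 5) (nat_lit 662) (nat_lit 565) (nat_lit 333)))) (XT.nd (nat_lit 73632) (nat_lit 0) (nat_lit 29488)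 (XT.nd (nat_lit 78) (nat_lit 304) (nat_lit 0) (XT.lf (nat_lit 0) (nat_lit 8970799412) (nat_lit 380) (nat_lit 2159919570) (nat_lit 76) (nat_lit 19254250528) (nat_lit 127) (nat_lit 5) (nat_lit 132) (nat_lit 5) (nat_lit 128) (nat_lit 5) (nat_lit 663) (nat_lit 565) (nat_lit 332)) (XT.lf (nat_lit 0) (nat_lit 16433700508) (nat_lit 304) (nat_lit 60354029) (nat_lit 380) (nat_lit 14274966240) (nat_lit 123) (nat_lit 5) (nat_lit 127) (nat_lit 5) (nat_lit 128) (nat_lit 5) (nat_lit 664) (nat_lit 565) (nat_lit 331))) (XT.nd (nat_lit 78) (nat_lit 0) (nat_lit 0) (XT.lf (nat_lit 0) (nat_lit 169594304) (nat_lit 1748) (nat_lit 2548476247) (nat_lit 1748) (nat_lit 2548476247) (nat_lit 511) (nat_lit 3) (nat_lit 534) (nat_lit 3) (nat_lit 534) (nat_lit 5) (nat_lit 566) (nat_lit 566) (nat_lit 428)) (XT.lf (nat_lit 76) (nat_lit 110273539) (nat_lit 0) (nat_lit 864124405) (nat_lit 1748) (nat_lit 9651329181) (nat_lit 512) (nat_lit 5) (nat_lit 511) (nat_lit 3) (nat_lit 534) (nat_lit 5) (nat_lit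 567) (nat_lit 566) (nat_lit 427))))) (XT.nd (nat_lit 234) (nat_lit 0) (nat_lit 76) (XT.nd (nat_lit 78) (nat_lit 0) (nat_lit 0) (XT.lf (nat_lit 0) (nat_lit 1664851724) (nat_lit 1672) (nat_lit 5262630574) (nat_lit 1748) (nat_lit 3791881821) (nat_lit 512) (nat_lit 5) (nat_lit 534) (nat_lit 5) (nat_lit 535) (nat_lit 5) (nat_lit 568) (nat_lit 566) (nat_lit 426)) (XT.nd (nat_lit 78) (nat_lit 0) (nat_lit 76) (XT.lf (nat_lit 76) (nat_lit 81833160) (nat_lit 0) (nat_lit 2277302789) (nat_lit 1748) (nat_lit 8455939046) (nat_lit 513) (nat_lit 5) (nat_lit 512) (nat_lit 5) (nat_lit 535) (nat_lit 5) (nat_lit 569) (nat_lit 566) (nat_lit 425)) (XT.lf (nat_lit 0) (nat_lit 3102941159) (nat_lit 1672) (nat_lit 5332792034) (nat_lit 1748) (nat_lit 2476255730) (nat_lit 513) (nat_lit 5) (nat_lit 535) (nat_lit 5) (nat_lit 536) (nat_lit 5) (nat_lit 570) (nat_lit 566) (nat_lit 424)))) (XT.nd (nat_lit 156) (nat_lit 0) (nat_lit 76) (XT.nd (nat_lit 78) (nat_lit 0) (nat_lit 76) (XT.lf (nat_lit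 76) (nat_lit 153702345) (nat_lit 0) (nat_lit 3708388042) (nat_lit 1748) (nat_lit 7148742892) (nat_lit 514) (nat_lit 5) (nat_lit 513) (nat_lit 5) (nat_lit 536) (nat_lit 5) (nat_lit 571) (nat_lit 566) (nat_lit 423)) (XT.lf (nat_lit 0) (nat_lit 4664354604) (nat_lit 1672) (nat_lit 5305382709) (nat_lit 1748) (nat_lit 1141360049) (nat_lit 514) (nat_lit 5) (nat_lit 536) (nat_lit 5) (nat_lit 537) (nat_lit 5) (nat_lit 572) (nat_lit 566) (nat_lit 422))) (XT.nd (nat_lit 78) (nat_lit 0) (nat_lit 0) (XT.lf (nat_lit 76) (nat_lit 328134061) (nat_lit 0) (nat_lit 5166199332) (nat_lit 1748) (nat_lit 5718801400) (nat_lit 515) (nat_lit 5) (nat_lit 514) (nat_lit 5) (nat_lit 537) (nat_lit 5) (nat_lit 573) (nat_lit 566) (nat_lit 421)) (XT.lf (nat_lit 76) (nat_lit 6137285216) (nat_lit 0) (nat_lit 224444805) (nat_lit 1748) (nat_lit 4955068007) (nat_lit 515) (nat_lit 5) (nat_lit 514) (nat_lit 5) (nat_lit 537) (nat_lit 5) (nat_lit 574) (nat_lit 566) (nat_lit 420))))))))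
noncomputable def xc176 : XT := (XT.nd (nat_lit 2106) (nat_lit 10564) (nat_lit 0) (XT.nd (nat_lit 1014) (nat_lit 7904) (nat_lit 0) (XT.nd (nat_lit 468) (nat_lit 0) (nat_lit 76) (XT.nd (nat_lit 234) (nat_lit 1596) (nat_lit 0) (XT.nd (nat_lit 78) (nat_lit 0) (nat_lit 0) (XT.lf (nat_lit 76) (nat_lit 607680420) (nat_lit 0) (nat_lit 6659552584) (nat_lit 1748) (nat_lit 4154887751) (nat_lit 516) (nat_lit 5) (nat_lit 515) (nat_lit 5) (nat_lit 538) (nat_lit 5) (nat_lit 575) (nat_lit 566) (nat_lit 419)) (XT.nd (nat_lit 78) (nat_lit 0) (nat_lit 76) (XT.lf (nat_lit 76) (nat_lit 6570276257) (nat_lit 0) (nat_lit 1642571745) (nat_lit 1748) (nat_lit 3316263261) (nat_lit 516) (nat_lit 5) (nat_lit 515) (nat_lit 5) (nat_lit 538) (nat_lit 5) (nat_lit 576) (nat_lit 566) (nat_lit 418)) (XT.lf (nat_lit 76) (nat_lit 995193350) (nat_lit 0) (nat_lit 8197283943) (nat_lit 1748) (nat_lit 2445463589) (nat_lit 517) (nat_lit 5) (nat_lit 516) (nat_lit 5) (nat_lit 539) (nat_lit 5) (nat_lit 577)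 (nat_lit 566) (nat_lit 417)))) (XT.nd (nat_lit 78) (nat_lit 1672) (nat_lit 0) (XT.lf (nat_lit 76) (nat_lit 7115377624) (nat_lit 0) (nat_lit 3106698218) (nat_lit 1748) (nat_lit 1526265032) (nat_lit 517) (nat_lit 5) (nat_lit 516) (nat_lit 5) (nat_lit 539) (nat_lit 5) (nat_lit 578) (nat_lit 566) (nat_lit 416)) (XT.nd (nat_lit 78) (nat_lit 1748) (nat_lit 0) (XT.lf (nat_lit 76) (nat_lit 1493825933) (nat_lit 0) (nat_lit 9788272903) (nat_lit 1748) (nat_lit 578654668) (nat_lit 518) (nat_lit 5) (nat_lit 517) (nat_lit 5) (nat_lit 540) (nat_lit 5) (nat_lit 579) (nat_lit 566) (nat_lit 415)) (XT.lf (nat_lit 0) (nat_lit 421396524) (nat_lit 1748) (nat_lit 4201497209) (nat_lit 1824) (nat_lit 7351700000) (nat_lit 494) (nat_lit 5) (nat_lit 517) (nat_lit 5) (nat_lit 518) (nat_lit 5) (nat_lit 580) (nat_lit 566) (nat_lit 414))))) (XT.nd (nat_lit 234) (nat_lit 0) (nat_lit 76) (XT.nd (nat_lit 78) (nat_lit 0) (nat_lit 0) (XT.lf (nat_lit 0) (nat_lit 1438654888) (nat_lit 1748) (nat_lit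 9993156140) (nat_lit 1824) (nat_lit 658725366) (nat_lit 495) (nat_lit 5) (nat_lit 518) (nat_lit 5) (nat_lit 519) (nat_lit 5) (nat_lit 581) (nat_lit 566) (nat_lit 413)) (XT.nd (nat_lit 78) (nat_lit 0) (nat_lit 0) (XT.lf (nat_lit 0) (nat_lit 2522442214) (nat_lit 1748) (nat_lit 3669244448) (nat_lit 1824) (nat_lit 6016188761) (nat_lit 495) (nat_lit 5) (nat_lit 518) (nat_lit 5) (nat_lit 519) (nat_lit 5) (nat_lit 582) (nat_lit 566) (nat_lit 412)) (XT.lf (nat_lit 76) (nat_lit 2808771067) (nat_lit 0) (nat_lit 824809475) (nat_lit 1824) (nat_lit 8693868352) (nat_lit 496) (nat_lit 5) (nat_lit 495) (nat_lit 5) (nat_lit 519) (nat_lit 5) (nat_lit 583) (nat_lit 566) (nat_lit 411)))) (XT.nd (nat_lit 156) (nat_lit 0) (nat_lit 76) (XT.nd (nat_lit 78) (nat_lit 0) (nat_lit 0) (XT.lf (nat_lit 0) (nat_lit 4809560943) (nat_lit 1748) (nat_lit 3022607898) (nat_lit 1824) (nat_lit 4616393751) (nat_lit 496) (nat_lit 5) (nat_lit 519) (nat_lit 5) (nat_lit 520) (nat_lit 5) (nat_lit 584) (nat_lit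 566) (nat_lit 410)) (XT.lf (nat_lit 76) (nat_lit 3636376675) (nat_lit 0) (nat_lit 2389645241) (nat_lit 1824) (nat_lit 6545738552) (nat_lit 497) (nat_lit 5) (nat_lit 496) (nat_lit 5) (nat_lit 520) (nat_lit 5) (nat_lit 585) (nat_lit 566) (nat_lit 409))) (XT.nd (nat_lit 78) (nat_lit 0) (nat_lit 0) (XT.lf (nat_lit 0) (nat_lit 7295842450) (nat_lit 1748) (nat_lit 2257598893) (nat_lit 1824) (nat_lit 3143401448) (nat_lit 497) (nat_lit 5) (nat_lit 520) (nat_lit 5) (nat_lit 521) (nat_lit 5) (nat_lit 586) (nat_lit 566) (nat_lit 408)) (XT.lf (nat_lit 76) (nat_lit 4588851739) (nat_lit 0) (nat_lit 4036145310) (nat_lit 1824) (nat_lit 4198752038) (nat_lit 498) (nat_lit 5) (nat_lit 497) (nat_lit 5) (nat_lit 521) (nat_lit 5) (nat_lit 587) (nat_lit 566) (nat_lit 407)))))) (XT.nd (nat_lit 546) (nat_lit 3572) (nat_lit 0) (XT.nd (nat_lit 234) (nat_lit 4636) (nat_lit 0) (XT.nd (nat_lit 78) (nat_lit 0) (nat_lit 0) (XT.lf (nat_lit 0) (nat_lit 9994820616) (nat_lit 1748) (nat_lit 1369923836)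 (nat_lit 1824) (nat_lit 1588168396) (nat_lit 498) (nat_lit 5) (nat_lit 521) (nat_lit 5) (nat_lit 522) (nat_lit 5) (nat_lit 588) (nat_lit 566) (nat_lit 406)) (XT.nd (nat_lit 78) (nat_lit 0) (nat_lit 0) (XT.lf (nat_lit 76) (nat_lit 5670743835) (nat_lit 0) (nat_lit 5773572739) (nat_lit 1824) (nat_lit 1639298827) (nat_lit 499) (nat_lit 5) (nat_lit 498) (nat_lit 5) (nat_lit 522) (nat_lit 5) (nat_lit 589) (nat_lit 566) (nat_lit 405)) (XT.lf (nat_lit 76) (nat_lit 12861606689) (nat_lit 0) (nat_lit 59278287) (nat_lit 1824) (nat_lit 296086394) (nat_lit 499) (nat_lit 5) (nat_lit 498) (nat_lit 5) (nat_lit 522) (nat_lit 5) (nat_lit 590) (nat_lit 566) (nat_lit 404)))) (XT.nd (nat_lit 156) (nat_lit 1064) (nat_lit 0) (XT.nd (nat_lit 78) (nat_lit 1824) (nat_lit 0) (XT.lf (nat_lit 0) (nat_lit 1131668142) (nat_lit 1824) (nat_lit 6472096198) (nat_lit 76) (nat_lit 5747656367) (nat_lit 475) (nat_lit 5) (nat_lit 499) (nat_lit 5) (nat_lit 476) (nat_lit 5) (nat_lit 591) (nat_lit 566) (nat_lit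 403)) (XT.lf (nat_lit 0) (nat_lit 773465689) (nat_lit 1824) (nat_lit 1807567542) (nat_lit 1900) (nat_lit 10907547211) (nat_lit 451) (nat_lit 5) (nat_lit 475) (nat_lit 5) (nat_lit 476) (nat_lit 5) (nat_lit 592) (nat_lit 566) (nat_lit 402))) (XT.nd (nat_lit 78) (nat_lit 1064) (nat_lit 0) (XT.lf (nat_lit 0) (nat_lit 4119115956) (nat_lit 1900) (nat_lit 5412366080) (nat_lit 76) (nat_lit 4095807669) (nat_lit 451) (nat_lit 5) (nat_lit 476) (nat_lit 5) (nat_lit 452) (nat_lit 5) (nat_lit 593) (nat_lit 566) (nat_lit 401)) (XT.lf (nat_lit 0) (nat_lit 2041949409) (nat_lit 1064) (nat_lit 3660809903) (nat_lit 1140) (nat_lit 8065718780) (nat_lit 437) (nat_lit 5) (nat_lit 451) (nat_lit 5) (nat_lit 452) (nat_lit 5) (nat_lit 594) (nat_lit 566) (nat_lit 400))))) (XT.nd (nat_lit 234) (nat_lit 2660) (nat_lit 0) (XT.nd (nat_lit 78) (nat_lit 912) (nat_lit 0) (XT.lf (nat_lit 0) (nat_lit 7359468080) (nat_lit 1140) (nat_lit 4217847618) (nat_lit 76) (nat_lit 2334347601) (nat_lit 437) (nat_lit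 5) (nat_lit 452) (nat_lit 5) (nat_lit 438) (nat_lit 5) (nat_lit 595) (nat_lit 566) (nat_lit 399)) (XT.nd (nat_lit 78) (nat_lit 0) (nat_lit 0) (XT.lf (nat_lit 0) (nat_lit 3452782176) (nat_lit 912) (nat_lit 5633113875) (nat_lit 988) (nat_lit 4971085342) (nat_lit 425) (nat_lit 5) (nat_lit 437) (nat_lit 5) (nat_lit 438) (nat_lit 5) (nat_lit 596) (nat_lit 566) (nat_lit 398)) (XT.lf (nat_lit 0) (nat_lit 10868201758) (nat_lit 988) (nat_lit 2883028708) (nat_lit 76) (nat_lit 453549267) (nat_lit 425) (nat_lit 5) (nat_lit 438) (nat_lit 5) (nat_lit 426) (nat_lit 5) (nat_lit 597) (nat_lit 566) (nat_lit 397)))) (XT.nd (nat_lit 156) (nat_lit 1672) (nat_lit 0) (XT.nd (nat_lit 78) (nat_lit 76) (nat_lit 0) (XT.lf (nat_lit 0) (nat_lit 5011766080) (nat_lit 912) (nat_lit 7734493472) (nat_lit 988) (nat_lit 1608073218) (nat_lit 413) (nat_lit 5) (nat_lit 425) (nat_lit 5) (nat_lit 426) (nat_lit 5) (nat_lit 598) (nat_lit 566) (nat_lit 396)) (XT.lf (nat_lit 0) (nat_lit 162771418) (nat_lit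 988) (nat_lit 1413380078) (nat_lit 76) (nat_lit 12930510007) (nat_lit 412) (nat_lit 5) (nat_lit 425) (nat_lit 5) (nat_lit 413) (nat_lit 5) (nat_lit 599) (nat_lit 566) (nat_lit 395))) (XT.nd (nat_lit 78) (nat_lit 836) (nat_lit 0) (XT.lf (nat_lit 0) (nat_lit 2012732160) (nat_lit 912) (nat_lit 7948984950) (nat_lit 76) (nat_lit 4698803289) (nat_lit 401) (nat_lit 5) (nat_lit 413) (nat_lit 5) (nat_lit 402) (nat_lit 5) (nat_lit 600) (nat_lit 566) (nat_lit 394)) (XT.lf (nat_lit 0) (nat_lit 183506718) (nat_lit 836) (nat_lit 3728008962) (nat_lit 912) (nat_lit 10905705107) (nat_lit 390) (nat_lit 5) (nat_lit 401) (nat_lit 5) (nat_lit 402) (nat_lit 5) (nat_lit 601) (nat_lit 566) (nat_lit 393))))))) (XT.nd (nat_lit 1014) (nat_lit 5092) (nat_lit 0) (XT.nd (nat_lit 468) (nat_lit 2964) (nat_lit 0) (XT.nd (nat_lit 234) (nat_lit 1672) (nat_lit 0) (XT.nd (nat_lit 78) (nat_lit 836) (nat_lit 0) (XT.lf (nat_lit 0) (nat_lit 5909818944) (nat_lit 912) (nat_lit 6416386169) (nat_lit 76) (nat_lit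 2649619957) (nat_lit 390) (nat_lit 5) (nat_lit 402) (nat_lit 5) (nat_lit 391) (nat_lit 5) (nat_lit 602) (nat_lit 566) (nat_lit 392)) (XT.nd (nat_lit 78) (nat_lit 0) (nat_lit 0) (XT.lf (nat_lit 0) (nat_lit 1957085405) (nat_lit 836) (nat_lit 6019350144) (nat_lit 912) (nat_lit 7160599700) (nat_lit 379) (nat_lit 5) (nat_lit 390) (nat_lit 5) (nat_lit 391) (nat_lit 5) (nat_lit 603) (nat_lit 566) (nat_lit 391)) (XT.lf (nat_lit 0) (nat_lit 10121481332) (nat_lit 912) (nat_lit 4727876359) (nat_lit 76) (nat_lit 451370742) (nat_lit 379) (nat_lit 5) (nat_lit 391) (nat_lit 5) (nat_lit 380) (nat_lit 5) (nat_lit 604) (nat_lit 566) (nat_lit 390)))) (XT.nd (nat_lit 78) (nat_lit 836) (nat_lit 0) (XT.lf (nat_lit 0) (nat_lit 3895346556) (nat_lit 836) (nat_lit 8470479750) (nat_lit 912) (nat_lit 3100741937) (nat_lit 368) (nat_lit 5) (nat_lit 379) (nat_lit 5) (nat_lit 380) (nat_lit 5) (nat_lit 605) (nat_lit 566) (nat_lit 389)) (XT.nd (nat_lit 78) (nat_lit 836) (nat_lit 0) (XT.lf (nat_lit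 0) (nat_lit 12746064555) (nat_lit 836) (nat_lit 1932076903) (nat_lit 912) (nat_lit 957122434) (nat_lit 368) (nat_lit 5) (nat_lit 379) (nat_lit 5) (nat_lit 380) (nat_lit 5) (nat_lit 606) (nat_lit 566) (nat_lit 388)) (XT.lf (nat_lit 0) (nat_lit 1274922261) (nat_lit 836) (nat_lit 9809074018) (nat_lit 76) (nat_lit 4721944699) (nat_lit 357) (nat_lit 5) (nat_lit 368) (nat_lit 5) (nat_lit 358) (nat_lit 5) (nat_lit 607) (nat_lit 566) (nat_lit 387))))) (XT.nd (nat_lit 234) (nat_lit 1520) (nat_lit 0) (XT.nd (nat_lit 78) (nat_lit 1444) (nat_lit 0) (XT.lf (nat_lit 0) (nat_lit 3562690957) (nat_lit 836) (nat_lit 908187615) (nat_lit 76) (nat_lit 11508549191) (nat_lit 357) (nat_lit 5) (nat_lit 368) (nat_lit 5) (nat_lit 358) (nat_lit 5) (nat_lit 608) (nat_lit 566) (nat_lit 386)) (XT.nd (nat_lit 78) (nat_lit 684) (nat_lit 0) (XT.lf (nat_lit 0) (nat_lit 5956770451) (nat_lit 836) (nat_lit 7900334226) (nat_lit 76) (nat_lit 2298069156) (nat_lit 347) (nat_lit 5) (nat_lit 358) (nat_lit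 5) (nat_lit 348) (nat_lit 5) (nat_lit 609) (nat_lit 566) (nat_lit 385)) (XT.lf (nat_lit 0) (nat_lit 1256939248) (nat_lit 684) (nat_lit 7177536754) (nat_lit 760) (nat_lit 7899244577) (nat_lit 338) (nat_lit 5) (nat_lit 347) (nat_lit 5) (nat_lit 348) (nat_lit 5) (nat_lit 610) (nat_lit 566) (nat_lit 384)))) (XT.nd (nat_lit 156) (nat_lit 760) (nat_lit 0) (XT.nd (nat_lit 78) (nat_lit 760) (nat_lit 0) (XT.lf (nat_lit 0) (nat_lit 10695486591) (nat_lit 684) (nat_lit 311206615) (nat_lit 760) (nat_lit 5508246535) (nat_lit 338) (nat_lit 5) (nat_lit 347) (nat_lit 5) (nat_lit 348) (nat_lit 5) (nat_lit 611) (nat_lit 566) (nat_lit 383)) (XT.lf (nat_lit 0) (nat_lit 3618081731) (nat_lit 760) (nat_lit 10071310212) (nat_lit 836) (nat_lit 3009211218) (nat_lit 328) (nat_lit 5) (nat_lit 338) (nat_lit 5) (nat_lit 339) (nat_lit 5) (nat_lit 612) (nat_lit 566) (nat_lit 382))) (XT.nd (nat_lit 78) (nat_lit 760) (nat_lit 0) (XT.lf (nat_lit 0) (nat_lit 13312282156) (nat_lit 760) (nat_lit 3146753235)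 (nat_lit 836) (nat_lit 426239252) (nat_lit 328) (nat_lit 5) (nat_lit 338) (nat_lit 5) (nat_lit 339) (nat_lit 5) (nat_lit 613) (nat_lit 566) (nat_lit 381)) (XT.lf (nat_lit 0) (nat_lit 2237644758) (nat_lit 760) (nat_lit 10917900428) (nat_lit 76) (nat_lit 3918683862) (nat_lit 318) (nat_lit 5) (nat_lit 328) (nat_lit 5) (nat_lit 319) (nat_lit 5) (nat_lit 614) (nat_lit 566) (nat_lit 380)))))) (XT.nd (nat_lit 546) (nat_lit 2432) (nat_lit 0) (XT.nd (nat_lit 234) (nat_lit 1368) (nat_lit 0) (XT.nd (nat_lit 78) (nat_lit 1292) (nat_lit 0) (XT.lf (nat_lit 0) (nat_lit 4986459744) (nat_lit 760) (nat_lit 1170532322) (nat_lit 76) (nat_lit 11109167486) (nat_lit 318) (nat_lit 5) (nat_lit 328) (nat_lit 5) (nat_lit 319) (nat_lit 5) (nat_lit 615) (nat_lit 566) (nat_lit 379)) (XT.nd (nat_lit 78) (nat_lit 608) (nat_lit 0) (XT.lf (nat_lit 0) (nat_lit 7847179002) (nat_lit 760) (nat_lit 8588155290) (nat_lit 76) (nat_lit 1025456376) (nat_lit 309) (nat_lit 5) (nat_lit 319) (nat_lit 5) (nat_lit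 310) (nat_lit 5) (nat_lit 616) (nat_lit 566) (nat_lit 378)) (XT.lf (nat_lit 0) (nat_lit 1442664716) (nat_lit 608) (nat_lit 9373108053) (nat_lit 684) (nat_lit 6842528983) (nat_lit 301) (nat_lit 5) (nat_lit 309) (nat_lit 5) (nat_lit 310) (nat_lit 5) (nat_lit 617) (nat_lit 566) (nat_lit 377)))) (XT.nd (nat_lit 156) (nat_lit 684) (nat_lit 0) (XT.nd (nat_lit 78) (nat_lit 684) (nat_lit 0) (XT.lf (nat_lit 0) (nat_lit 11781768470) (nat_lit 608) (nat_lit 2112300761) (nat_lit 684) (nat_lit 3964687751) (nat_lit 301) (nat_lit 5) (nat_lit 309) (nat_lit 5) (nat_lit 310) (nat_lit 5) (nat_lit 618) (nat_lit 566) (nat_lit 376)) (XT.lf (nat_lit 0) (nat_lit 4277451872) (nat_lit 684) (nat_lit 12811455869) (nat_lit 760) (nat_lit 973214581) (nat_lit 292) (nat_lit 5) (nat_lit 301) (nat_lit 5) (nat_lit 302) (nat_lit 5) (nat_lit 619) (nat_lit 566) (nat_lit 375))) (XT.nd (nat_lit 78) (nat_lit 608) (nat_lit 0) (XT.lf (nat_lit 0) (nat_lit 2098742785) (nat_lit 760) (nat_lit 3383882515) (nat_lit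 76) (nat_lit 12785702145) (nat_lit 291) (nat_lit 5) (nat_lit 301) (nat_lit 5) (nat_lit 292) (nat_lit 5) (nat_lit 620) (nat_lit 566) (nat_lit 374)) (XT.lf (nat_lit 0) (nat_lit 5272849075) (nat_lit 684) (nat_lit 11185289257) (nat_lit 76) (nat_lit 2019315355) (nat_lit 283) (nat_lit 5) (nat_lit 292) (nat_lit 5) (nat_lit 284) (nat_lit 5) (nat_lit 621) (nat_lit 566) (nat_lit 373))))) (XT.nd (nat_lit 234) (nat_lit 1216) (nat_lit 0) (XT.nd (nat_lit 78) (nat_lit 1216) (nat_lit 0) (XT.lf (nat_lit 0) (nat_lit 8562685965) (nat_lit 684) (nat_lit 507814191) (nat_lit 76) (nat_lit 9619217818) (nat_lit 283) (nat_lit 5) (nat_lit 292) (nat_lit 5) (nat_lit 284) (nat_lit 5) (nat_lit 622) (nat_lit 566) (nat_lit 372)) (XT.nd (nat_lit 78) (nat_lit 608) (nat_lit 0) (XT.lf (nat_lit 0) (nat_lit 10512606209) (nat_lit 608) (nat_lit 1467185532) (nat_lit 684) (nat_lit 6925206841) (nat_lit 275) (nat_lit 5) (nat_lit 283) (nat_lit 5) (nat_lit 284) (nat_lit 5) (nat_lit 623) (nat_lit 566) (nat_lit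 371)) (XT.lf (nat_lit 0) (nat_lit 2620777690) (nat_lit 608) (nat_lit 12899019654) (nat_lit 684) (nat_lit 3603696772) (nat_lit 267) (nat_lit 5) (nat_lit 275) (nat_lit 5) (nat_lit 276) (nat_lit 5) (nat_lit 624) (nat_lit 566) (nat_lit 370)))) (XT.nd (nat_lit 156) (nat_lit 532) (nat_lit 0) (XT.nd (nat_lit 78) (nat_lit 684) (nat_lit 0) (XT.lf (nat_lit 0) (nat_lit 13949636380) (nat_lit 608) (nat_lit 5240297620) (nat_lit 684) (nat_lit 155239402) (nat_lit 267) (nat_lit 5) (nat_lit 275) (nat_lit 5) (nat_lit 276) (nat_lit 5) (nat_lit 625) (nat_lit 566) (nat_lit 369)) (XT.lf (nat_lit 0) (nat_lit 3367464432) (nat_lit 684) (nat_lit 13605290517) (nat_lit 76) (nat_lit 2597107715) (nat_lit 258) (nat_lit 5) (nat_lit 267) (nat_lit 5) (nat_lit 259) (nat_lit 5) (nat_lit 626) (nat_lit 566) (nat_lit 368))) (XT.nd (nat_lit 78) (nat_lit 532) (nat_lit 0) (XT.lf (nat_lit 0) (nat_lit 7023205956) (nat_lit 684) (nat_lit 2217745747) (nat_lit 76) (nat_lit 10556780676) (nat_lit 258) (nat_lit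 5) (nat_lit 267) (nat_lit 5) (nat_lit 259) (nat_lit 5) (nat_lit 627) (nat_lit 566) (nat_lit 367)) (XT.lf (nat_lit 0) (nat_lit 9514020374) (nat_lit 532) (nat_lit 1293450220) (nat_lit 608) (nat_lit 9221581152) (nat_lit 251) (nat_lit 5) (nat_lit 258) (nat_lit 5) (nat_lit 259) (nat_lit 5) (nat_lit 628) (nat_lit 566) (nat_lit 366))))))))
noncomputable def xc177 : XT := (XT.nd (nat_lit 2106) (nat_lit 1824) (nat_lit 0) (XT.nd (nat_lit 1014) (nat_lit 3420) (nat_lit 0) (XT.nd (nat_lit 468) (nat_lit 2052) (nat_lit 0) (XT.nd (nat_lit 234) (nat_lit 988) (nat_lit 0) (XT.nd (nat_lit 78) (nat_lit 608) (nat_lit 0) (XT.lf (nat_lit 0) (nat_lit 1208939975) (nat_lit 532) (nat_lit 13519240516) (nat_lit 608) (nat_lit 5535602228) (nat_lit 244) (nat_lit 5) (nat_lit 251) (nat_lit 5) (nat_lit 252) (nat_lit 5) (nat_lit 629) (nat_lit 566) (nat_lit 365)) (XT.nd (nat_lit 78) (nat_lit 608) (nat_lit 0) (XT.lf (nat_lit 0) (nat_lit 13292933581) (nat_lit 532) (nat_lit 5507206998) (nat_lit 608) (nat_lit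 1701611419) (nat_lit 244) (nat_lit 5) (nat_lit 251) (nat_lit 5) (nat_lit 252) (nat_lit 5) (nat_lit 630) (nat_lit 566) (nat_lit 364)) (XT.lf (nat_lit 0) (nat_lit 2223447804) (nat_lit 608) (nat_lit 15845247526) (nat_lit 76) (nat_lit 2674631657) (nat_lit 236) (nat_lit 5) (nat_lit 244) (nat_lit 5) (nat_lit 237) (nat_lit 5) (nat_lit 631) (nat_lit 566) (nat_lit 363)))) (XT.nd (nat_lit 78) (nat_lit 988) (nat_lit 0) (XT.lf (nat_lit 0) (nat_lit 6283312267) (nat_lit 608) (nat_lit 3700279167) (nat_lit 76) (nat_lit 11004335700) (nat_lit 236) (nat_lit 5) (nat_lit 244) (nat_lit 5) (nat_lit 237) (nat_lit 5) (nat_lit 632) (nat_lit 566) (nat_lit 362)) (XT.nd (nat_lit 78) (nat_lit 456) (nat_lit 0) (XT.lf (nat_lit 0) (nat_lit 8794811506) (nat_lit 532) (nat_lit 1680684296) (nat_lit 608) (nat_lit 10760901425) (nat_lit 229) (nat_lit 5) (nat_lit 236) (nat_lit 5) (nat_lit 237) (nat_lit 5) (nat_lit 633) (nat_lit 566) (nat_lit 361)) (XT.lf (nat_lit 0) (nat_lit 48850529) (nat_lit 456) (nat_lit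 14766129846) (nat_lit 532) (nat_lit 6673587568) (nat_lit 223) (nat_lit 5) (nat_lit 229) (nat_lit 5) (nat_lit 230) (nat_lit 5) (nat_lit 634) (nat_lit 566) (nat_lit 360))))) (XT.nd (nat_lit 234) (nat_lit 1444) (nat_lit 0) (XT.nd (nat_lit 78) (nat_lit 608) (nat_lit 0) (XT.lf (nat_lit 0) (nat_lit 12938346138) (nat_lit 456) (nat_lit 6391589671) (nat_lit 532) (nat_lit 2414073005) (nat_lit 223) (nat_lit 5) (nat_lit 229) (nat_lit 5) (nat_lit 230) (nat_lit 5) (nat_lit 635) (nat_lit 566) (nat_lit 359)) (XT.nd (nat_lit 78) (nat_lit 0) (nat_lit 0) (XT.lf (nat_lit 0) (nat_lit 1940443519) (nat_lit 608) (nat_lit 17903635070) (nat_lit 76) (nat_lit 2159526918) (nat_lit 215) (nat_lit 5) (nat_lit 223) (nat_lit 5) (nat_lit 216) (nat_lit 5) (nat_lit 636) (nat_lit 566) (nat_lit 358)) (XT.lf (nat_lit 0) (nat_lit 6445824548) (nat_lit 608) (nat_lit 4950925477) (nat_lit 76) (nat_lit 10869403336) (nat_lit 215) (nat_lit 5) (nat_lit 223) (nat_lit 5) (nat_lit 216) (nat_lit 5) (nat_lit 637)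 (nat_lit 566) (nat_lit 357)))) (XT.nd (nat_lit 156) (nat_lit 988) (nat_lit 0) (XT.nd (nat_lit 78) (nat_lit 0) (nat_lit 0) (XT.lf (nat_lit 0) (nat_lit 8362588224) (nat_lit 456) (nat_lit 2727391059) (nat_lit 532) (nat_lit 11442999904) (nat_lit 209) (nat_lit 5) (nat_lit 215) (nat_lit 5) (nat_lit 216) (nat_lit 5) (nat_lit 638) (nat_lit 566) (nat_lit 356)) (XT.lf (nat_lit 0) (nat_lit 15894580297) (nat_lit 532) (nat_lit 842890277) (nat_lit 76) (nat_lit 6066320020) (nat_lit 209) (nat_lit 5) (nat_lit 216) (nat_lit 5) (nat_lit 210) (nat_lit 5) (nat_lit 639) (nat_lit 566) (nat_lit 355))) (XT.nd (nat_lit 78) (nat_lit 532) (nat_lit 0) (XT.lf (nat_lit 0) (nat_lit 12894395301) (nat_lit 456) (nat_lit 7997183604) (nat_lit 532) (nat_lit 2186513535) (nat_lit 203) (nat_lit 5) (nat_lit 209) (nat_lit 5) (nat_lit 210) (nat_lit 5) (nat_lit 640) (nat_lit 566) (nat_lit 354)) (XT.lf (nat_lit 0) (nat_lit 2625881247) (nat_lit 532) (nat_lit 19781207067) (nat_lit 76) (nat_lit 949855814) (nat_lit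 196) (nat_lit 5) (nat_lit 203) (nat_lit 5) (nat_lit 197) (nat_lit 5) (nat_lit 641) (nat_lit 566) (nat_lit 353)))))) (XT.nd (nat_lit 546) (nat_lit 1672) (nat_lit 0) (XT.nd (nat_lit 234) (nat_lit 1292) (nat_lit 0) (XT.nd (nat_lit 78) (nat_lit 456) (nat_lit 0) (XT.lf (nat_lit 0) (nat_lit 7621611986) (nat_lit 532) (nat_lit 5967375568) (nat_lit 76) (nat_lit 10049769232) (nat_lit 196) (nat_lit 5) (nat_lit 203) (nat_lit 5) (nat_lit 197) (nat_lit 5) (nat_lit 642) (nat_lit 566) (nat_lit 352)) (XT.nd (nat_lit 78) (nat_lit 0) (nat_lit 0) (XT.lf (nat_lit 0) (nat_lit 8222853380) (nat_lit 456) (nat_lit 4542484424) (nat_lit 532) (nat_lit 11159906583) (nat_lit 190) (nat_lit 5) (nat_lit 196) (nat_lit 5) (nat_lit 197) (nat_lit 5) (nat_lit 643) (nat_lit 566) (nat_lit 351)) (XT.lf (nat_lit 0) (nat_lit 18077396157) (nat_lit 532) (nat_lit 1477329812) (nat_lit 76) (nat_lit 4661426902) (nat_lit 190) (nat_lit 5) (nat_lit 197) (nat_lit 5) (nat_lit 191) (nat_lit 5) (nat_lit 644) (nat_lit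 566) (nat_lit 350)))) (XT.nd (nat_lit 156) (nat_lit 380) (nat_lit 0) (XT.nd (nat_lit 78) (nat_lit 532) (nat_lit 0) (XT.lf (nat_lit 0) (nat_lit 13167230501) (nat_lit 380) (nat_lit 10438872364) (nat_lit 456) (nat_lit 904568802) (nat_lit 185) (nat_lit 5) (nat_lit 190) (nat_lit 5) (nat_lit 191) (nat_lit 5) (nat_lit 645) (nat_lit 566) (nat_lit 349)) (XT.lf (nat_lit 0) (nat_lit 3320894444) (nat_lit 456) (nat_lit 1081644689) (nat_lit 532) (nat_lit 20407438312) (nat_lit 178) (nat_lit 5) (nat_lit 184) (nat_lit 5) (nat_lit 185) (nat_lit 5) (nat_lit 646) (nat_lit 566) (nat_lit 348))) (XT.nd (nat_lit 78) (nat_lit 380) (nat_lit 0) (XT.lf (nat_lit 0) (nat_lit 9930146382) (nat_lit 532) (nat_lit 6750571633) (nat_lit 76) (nat_lit 8431902624) (nat_lit 178) (nat_lit 5) (nat_lit 185) (nat_lit 5) (nat_lit 179) (nat_lit 5) (nat_lit 647) (nat_lit 566) (nat_lit 347)) (XT.lf (nat_lit 0) (nat_lit 8377910308) (nat_lit 380) (nat_lit 7246941664) (nat_lit 456) (nat_lit 9795334064) (nat_lit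 173) (nat_lit 5) (nat_lit 178) (nat_lit 5) (nat_lit 179) (nat_lit 5) (nat_lit 648) (nat_lit 566) (nat_lit 346))))) (XT.nd (nat_lit 234) (nat_lit 836) (nat_lit 0) (XT.nd (nat_lit 78) (nat_lit 836) (nat_lit 0) (XT.lf (nat_lit 0) (nat_lit 21489496546) (nat_lit 456) (nat_lit 1855800530) (nat_lit 76) (nat_lit 2387485027) (nat_lit 173) (nat_lit 5) (nat_lit 179) (nat_lit 5) (nat_lit 174) (nat_lit 5) (nat_lit 649) (nat_lit 566) (nat_lit 345)) (XT.nd (nat_lit 78) (nat_lit 380) (nat_lit 0) (XT.lf (nat_lit 0) (nat_lit 1534507623) (nat_lit 456) (nat_lit 12299607803) (nat_lit 76) (nat_lit 12214664054) (nat_lit 167) (nat_lit 5) (nat_lit 173) (nat_lit 5) (nat_lit 168) (nat_lit 5) (nat_lit 650) (nat_lit 566) (nat_lit 344)) (XT.lf (nat_lit 0) (nat_lit 3328606756) (nat_lit 380) (nat_lit 4071767755) (nat_lit 456) (nat_lit 18969574866) (nat_lit 162) (nat_lit 5) (nat_lit 167) (nat_lit 5) (nat_lit 168) (nat_lit 5) (nat_lit 651) (nat_lit 566) (nat_lit 343)))) (XT.nd (nat_lit 156) (nat_lit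 456) (nat_lit 0) (XT.nd (nat_lit 78) (nat_lit 380) (nat_lit 0) (XT.lf (nat_lit 0) (nat_lit 13500022809) (nat_lit 456) (nat_lit 7305990719) (nat_lit 76) (nat_lit 5889200104) (nat_lit 162) (nat_lit 5) (nat_lit 168) (nat_lit 5) (nat_lit 163) (nat_lit 5) (nat_lit 652) (nat_lit 566) (nat_lit 342)) (XT.lf (nat_lit 0) (nat_lit 8825550062) (nat_lit 380) (nat_lit 10975641404) (nat_lit 456) (nat_lit 7224201391) (nat_lit 157) (nat_lit 5) (nat_lit 162) (nat_lit 5) (nat_lit 163) (nat_lit 5) (nat_lit 653) (nat_lit 566) (nat_lit 341))) (XT.nd (nat_lit 78) (nat_lit 456) (nat_lit 0) (XT.lf (nat_lit 0) (nat_lit 25371502835) (nat_lit 380) (nat_lit 901214257) (nat_lit 456) (nat_lit 1088572133) (nat_lit 157) (nat_lit 5) (nat_lit 162) (nat_lit 5) (nat_lit 163) (nat_lit 5) (nat_lit 654) (nat_lit 566) (nat_lit 340)) (XT.lf (nat_lit 0) (nat_lit 5254458915) (nat_lit 456) (nat_lit 13066641640) (nat_lit 76) (nat_lit 9379082042) (nat_lit 151) (nat_lit 5) (nat_lit 157) (nat_lit 5) (nat_lit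 152) (nat_lit 5) (nat_lit 655) (nat_lit 566) (nat_lit 339))))))) (XT.nd (nat_lit 74568) (nat_lit 0) (nat_lit 27892) (XT.nd (nat_lit 468) (nat_lit 380) (nat_lit 0) (XT.nd (nat_lit 234) (nat_lit 760) (nat_lit 0) (XT.nd (nat_lit 78) (nat_lit 304) (nat_lit 0) (XT.lf (nat_lit 0) (nat_lit 3597434016) (nat_lit 380) (nat_lit 8150516355) (nat_lit 456) (nat_lit 16296996257) (nat_lit 146) (nat_lit 5) (nat_lit 151) (nat_lit 5) (nat_lit 152) (nat_lit 5) (nat_lit 656) (nat_lit 566) (nat_lit 338)) (XT.nd (nat_lit 78) (nat_lit 304) (nat_lit 0) (XT.lf (nat_lit 0) (nat_lit 18469435646) (nat_lit 456) (nat_lit 7645184803) (nat_lit 76) (nat_lit 2280023224) (nat_lit 146) (nat_lit 5) (nat_lit 152) (nat_lit 5) (nat_lit 147) (nat_lit 5) (nat_lit 657) (nat_lit 566) (nat_lit 337)) (XT.lf (nat_lit 0) (nat_lit 9557473854) (nat_lit 304) (nat_lit 15879419859) (nat_lit 380) (nat_lit 3312210292) (nat_lit 142) (nat_lit 5) (nat_lit 146) (nat_lit 5) (nat_lit 147) (nat_lit 5) (nat_lit 658) (nat_lit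 566) (nat_lit 336)))) (XT.nd (nat_lit 78) (nat_lit 684) (nat_lit 0) (XT.lf (nat_lit 0) (nat_lit 3435190670) (nat_lit 380) (nat_lit 1931538489) (nat_lit 76) (nat_lit 23742535426) (nat_lit 141) (nat_lit 5) (nat_lit 146) (nat_lit 5) (nat_lit 142) (nat_lit 5) (nat_lit 659) (nat_lit 566) (nat_lit 335)) (XT.nd (nat_lit 78) (nat_lit 304) (nat_lit 0) (XT.lf (nat_lit 0) (nat_lit 10407356688) (nat_lit 456) (nat_lit 13657034182) (nat_lit 76) (nat_lit 5409116479) (nat_lit 136) (nat_lit 5) (nat_lit 142) (nat_lit 5) (nat_lit 137) (nat_lit 5) (nat_lit 660) (nat_lit 566) (nat_lit 334)) (XT.lf (nat_lit 0) (nat_lit 4112171377) (nat_lit 304) (nat_lit 13477719843) (nat_lit 380) (nat_lit 12253725436) (nat_lit 132) (nat_lit 5) (nat_lit 136) (nat_lit 5) (nat_lit 137) (nat_lit 5) (nat_lit 661) (nat_lit 566) (nat_lit 333))))) (XT.nd (nat_lit 73788) (nat_lit 0) (nat_lit 29184) (XT.nd (nat_lit 78) (nat_lit 380) (nat_lit 0) (XT.lf (nat_lit 0) (nat_lit 22414946464) (nat_lit 304) (nat_lit 2588453871)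 (nat_lit 380) (nat_lit 5215981526) (nat_lit 132) (nat_lit 5) (nat_lit 136) (nat_lit 5) (nat_lit 137) (nat_lit 5) (nat_lit 662) (nat_lit 566) (nat_lit 332)) (XT.nd (nat_lit 78) (nat_lit 0) (nat_lit 0) (XT.lf (nat_lit 0) (nat_lit 2057170461) (nat_lit 380) (nat_lit 20056407596) (nat_lit 76) (nat_lit 8486421815) (nat_lit 127) (nat_lit 5) (nat_lit 132) (nat_lit 5) (nat_lit 128) (nat_lit 5) (nat_lit 663) (nat_lit 566) (nat_lit 331)) (XT.lf (nat_lit 0) (nat_lit 9471626650) (nat_lit 380) (nat_lit 1681725801) (nat_lit 76) (nat_lit 19832874754) (nat_lit 127) (nat_lit 5) (nat_lit 132) (nat_lit 5) (nat_lit 128) (nat_lit 5) (nat_lit 664) (nat_lit 566) (nat_lit 330)))) (XT.nd (nat_lit 156) (nat_lit 0) (nat_lit 76) (XT.nd (nat_lit 78) (nat_lit 0) (nat_lit 0) (XT.lf (nat_lit 0) (nat_lit 799990141) (nat_lit 1748) (nat_lit 2279643425) (nat_lit 1748) (nat_lit 2279643425) (nat_lit 511) (nat_lit 3) (nat_lit 534) (nat_lit 3) (nat_lit 534) (nat_lit 5) (nat_lit 567) (nat_lit 567) (nat_lit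 426)) (XT.lf (nat_lit 76) (nat_lit 747875778) (nat_lit 0) (nat_lit 1479555054) (nat_lit 1748) (nat_lit 8586020989) (nat_lit 512) (nat_lit 5) (nat_lit 511) (nat_lit 3) (nat_lit 534) (nat_lit 5) (nat_lit 568) (nat_lit 567) (nat_lit 425))) (XT.nd (nat_lit 78) (nat_lit 0) (nat_lit 0) (XT.lf (nat_lit 0) (nat_lit 2903699105) (nat_lit 1672) (nat_lit 4716833979) (nat_lit 1748) (nat_lit 3288990693) (nat_lit 512) (nat_lit 5) (nat_lit 534) (nat_lit 5) (nat_lit 535) (nat_lit 5) (nat_lit 569) (nat_lit 567) (nat_lit 424)) (XT.lf (nat_lit 76) (nat_lit 730235811) (nat_lit 0) (nat_lit 2862194196) (nat_lit 1748) (nat_lit 7415109931) (nat_lit 513) (nat_lit 5) (nat_lit 512) (nat_lit 5) (nat_lit 535) (nat_lit 5) (nat_lit 570) (nat_lit 567) (nat_lit 423)))))) (XT.nd (nat_lit 546) (nat_lit 1444) (nat_lit 0) (XT.nd (nat_lit 234) (nat_lit 0) (nat_lit 76) (XT.nd (nat_lit 78) (nat_lit 0) (nat_lit 0) (XT.lf (nat_lit 0) (nat_lit 4324421110) (nat_lit 1672) (nat_lit 4778561274) (nat_lit 1748)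 (nat_lit 2003945805) (nat_lit 513) (nat_lit 5) (nat_lit 535) (nat_lit 5) (nat_lit 536) (nat_lit 5) (nat_lit 571) (nat_lit 567) (nat_lit 422)) (XT.nd (nat_lit 78) (nat_lit 0) (nat_lit 76) (XT.lf (nat_lit 76) (nat_lit 813315054) (nat_lit 0) (nat_lit 4266967206) (nat_lit 1748) (nat_lit 6127838793) (nat_lit 514) (nat_lit 5) (nat_lit 513) (nat_lit 5) (nat_lit 536) (nat_lit 5) (nat_lit 572) (nat_lit 567) (nat_lit 421)) (XT.lf (nat_lit 0) (nat_lit 5873136740) (nat_lit 1672) (nat_lit 4742262252) (nat_lit 1748) (nat_lit 695502681) (nat_lit 514) (nat_lit 5) (nat_lit 536) (nat_lit 5) (nat_lit 537) (nat_lit 5) (nat_lit 573) (nat_lit 567) (nat_lit 420)))) (XT.nd (nat_lit 156) (nat_lit 0) (nat_lit 76) (XT.nd (nat_lit 78) (nat_lit 0) (nat_lit 0) (XT.lf (nat_lit 76) (nat_lit 999522037) (nat_lit 0) (nat_lit 5702637103) (nat_lit 1748) (nat_lit 4713173944) (nat_lit 515) (nat_lit 5) (nat_lit 514) (nat_lit 5) (nat_lit 537) (nat_lit 5) (nat_lit 574) (nat_lit 567) (nat_lit 419)) (XT.lf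 (nat_lit 76) (nat_lit 6911820426) (nat_lit 0) (nat_lit 653555058) (nat_lit 1748) (nat_lit 3956126736) (nat_lit 515) (nat_lit 5) (nat_lit 514) (nat_lit 5) (nat_lit 537) (nat_lit 5) (nat_lit 575) (nat_lit 567) (nat_lit 418))) (XT.nd (nat_lit 78) (nat_lit 0) (nat_lit 0) (XT.lf (nat_lit 76) (nat_lit 1291563685) (nat_lit 0) (nat_lit 7177977193) (nat_lit 1748) (nat_lit 3159781505) (nat_lit 516) (nat_lit 5) (nat_lit 515) (nat_lit 5) (nat_lit 538) (nat_lit 5) (nat_lit 576) (nat_lit 567) (nat_lit 417)) (XT.lf (nat_lit 76) (nat_lit 7360240270) (nat_lit 0) (nat_lit 2053103138) (nat_lit 1748) (nat_lit 2325525780) (nat_lit 516) (nat_lit 5) (nat_lit 515) (nat_lit 5) (nat_lit 538) (nat_lit 5) (nat_lit 577) (nat_lit 567) (nat_lit 416))))) (XT.nd (nat_lit 234) (nat_lit 0) (nat_lit 0) (XT.nd (nat_lit 78) (nat_lit 1672) (nat_lit 0) (XT.lf (nat_lit 76) (nat_lit 1692446397) (nat_lit 0) (nat_lit 8701794219) (nat_lit 1748) (nat_lit 1456003228) (nat_lit 517) (nat_lit 5) (nat_lit 516)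 (nat_lit 5) (nat_lit 539) (nat_lit 5) (nat_lit 578) (nat_lit 567) (nat_lit 415)) (XT.nd (nat_lit 78) (nat_lit 1672) (nat_lit 0) (XT.lf (nat_lit 76) (nat_lit 7921753001) (nat_lit 0) (nat_lit 3502719043) (nat_lit 1748) (nat_lit 538780889) (nat_lit 517) (nat_lit 5) (nat_lit 516) (nat_lit 5) (nat_lit 539) (nat_lit 5) (nat_lit 579) (nat_lit 567) (nat_lit 414)) (XT.lf (nat_lit 0) (nat_lit 404788539) (nat_lit 1748) (nat_lit 9875446322) (nat_lit 1824) (nat_lit 1797972899) (nat_lit 494) (nat_lit 5) (nat_lit 517) (nat_lit 5) (nat_lit 518) (nat_lit 5) (nat_lit 580) (nat_lit 567) (nat_lit 413)))) (XT.nd (nat_lit 156) (nat_lit 0) (nat_lit 76) (XT.nd (nat_lit 78) (nat_lit 0) (nat_lit 76) (XT.lf (nat_lit 0) (nat_lit 1397741472) (nat_lit 1748) (nat_lit 3604166710) (nat_lit 1824) (nat_lit 7192728936) (nat_lit 494) (nat_lit 5) (nat_lit 517) (nat_lit 5) (nat_lit 518) (nat_lit 5) (nat_lit 581) (nat_lit 567) (nat_lit 412)) (XT.lf (nat_lit 0) (nat_lit 2418966048) (nat_lit 1748) (nat_lit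 9495191483) (nat_lit 1824) (nat_lit 399070449) (nat_lit 495) (nat_lit 5) (nat_lit 518) (nat_lit 5) (nat_lit 519) (nat_lit 5) (nat_lit 582) (nat_lit 567) (nat_lit 411))) (XT.nd (nat_lit 78) (nat_lit 0) (nat_lit 0) (XT.lf (nat_lit 0) (nat_lit 3505771511) (nat_lit 1748) (nat_lit 3058484455) (nat_lit 1824) (nat_lit 5869032708) (nat_lit 495) (nat_lit 5) (nat_lit 518) (nat_lit 5) (nat_lit 519) (nat_lit 5) (nat_lit 583) (nat_lit 567) (nat_lit 410)) (XT.lf (nat_lit 76) (nat_lit 3544590417) (nat_lit 0) (nat_lit 1080663114) (nat_lit 1824) (nat_lit 7930279364) (nat_lit 496) (nat_lit 5) (nat_lit 495) (nat_lit 5) (nat_lit 519) (nat_lit 5) (nat_lit 584) (nat_lit 567) (nat_lit 409))))))))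
noncomputable def xc178 : XT := (XT.nd (nat_lit 2106) (nat_lit 9348) (nat_lit 0) (XT.nd (nat_lit 1014) (nat_lit 6612) (nat_lit 0) (XT.nd (nat_lit 468) (nat_lit 5396) (nat_lit 0) (XT.nd (nat_lit 234) (nat_lit 0) (nat_lit 76) (XT.nd (nat_lit 78) (nat_lit 0) (nat_lit 0) (XT.lf (nat_lit 0) (nat_lit 5805210310) (nat_lit 1748) (nat_lit 2397115966) (nat_lit 1824) (nat_lit 4477135122) (nat_lit 496) (nat_lit 5) (nat_lit 519) (nat_lit 5) (nat_lit 520) (nat_lit 5) (nat_lit 585) (nat_lit 567) (nat_lit 408)) (XT.nd (nat_lit 78) (nat_lit 0) (nat_lit 76) (XT.lf (nat_lit 76) (nat_lit 4390535509) (nat_lit 0) (nat_lit 2642252863) (nat_lit 1824) (nat_lit 5772600734) (nat_lit 497) (nat_lit 5) (nat_lit 496) (nat_lit 5) (nat_lit 520) (nat_lit 5) (nat_lit 586) (nat_lit 567) (nat_lit 407)) (XT.lf (nat_lit 0) (nat_lit 8309324226) (nat_lit 1748) (nat_lit 1615919828) (nat_lit 1824) (nat_lit 3008104246) (nat_lit 497) (nat_lit 5) (nat_lit 520) (nat_lit 5) (nat_lit 521) (nat_lit 5) (nat_lit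 587) (nat_lit 567) (nat_lit 406)))) (XT.nd (nat_lit 78) (nat_lit 0) (nat_lit 76) (XT.lf (nat_lit 76) (nat_lit 5362941191) (nat_lit 0) (nat_lit 4289539673) (nat_lit 1824) (nat_lit 3410565047) (nat_lit 498) (nat_lit 5) (nat_lit 497) (nat_lit 5) (nat_lit 521) (nat_lit 5) (nat_lit 588) (nat_lit 567) (nat_lit 405)) (XT.nd (nat_lit 78) (nat_lit 0) (nat_lit 0) (XT.lf (nat_lit 0) (nat_lit 11031837397) (nat_lit 1748) (nat_lit 710448124) (nat_lit 1824) (nat_lit 1452866235) (nat_lit 498) (nat_lit 5) (nat_lit 521) (nat_lit 5) (nat_lit 522) (nat_lit 5) (nat_lit 589) (nat_lit 567) (nat_lit 404)) (XT.lf (nat_lit 76) (nat_lit 6466513992) (nat_lit 0) (nat_lit 6031825462) (nat_lit 1824) (nat_lit 830370093) (nat_lit 499) (nat_lit 5) (nat_lit 498) (nat_lit 5) (nat_lit 522) (nat_lit 5) (nat_lit 590) (nat_lit 567) (nat_lit 403))))) (XT.nd (nat_lit 234) (nat_lit 1976) (nat_lit 0) (XT.nd (nat_lit 78) (nat_lit 1748) (nat_lit 0) (XT.lf (nat_lit 76) (nat_lit 323604037) (nat_lit 0) (nat_lit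 194837499) (nat_lit 1900) (nat_lit 12946506202) (nat_lit 475) (nat_lit 5) (nat_lit 474) (nat_lit 5) (nat_lit 499) (nat_lit 5) (nat_lit 591) (nat_lit 567) (nat_lit 402)) (XT.nd (nat_lit 78) (nat_lit 1824) (nat_lit 0) (XT.lf (nat_lit 0) (nat_lit 1956278762) (nat_lit 1824) (nat_lit 5909185530) (nat_lit 76) (nat_lit 5736874203) (nat_lit 475) (nat_lit 5) (nat_lit 499) (nat_lit 5) (nat_lit 476) (nat_lit 5) (nat_lit 592) (nat_lit 567) (nat_lit 401)) (XT.lf (nat_lit 0) (nat_lit 1476732643) (nat_lit 1824) (nat_lit 1946639104) (nat_lit 1900) (nat_lit 10319096260) (nat_lit 451) (nat_lit 5) (nat_lit 475) (nat_lit 5) (nat_lit 476) (nat_lit 5) (nat_lit 593) (nat_lit 567) (nat_lit 400)))) (XT.nd (nat_lit 156) (nat_lit 912) (nat_lit 0) (XT.nd (nat_lit 78) (nat_lit 1064) (nat_lit 0) (XT.lf (nat_lit 0) (nat_lit 4976056731) (nat_lit 1900) (nat_lit 4830074273) (nat_lit 76) (nat_lit 4078145005) (nat_lit 451) (nat_lit 5) (nat_lit 476) (nat_lit 5) (nat_lit 452) (nat_lit 5) (nat_lit 594)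 (nat_lit 567) (nat_lit 399)) (XT.lf (nat_lit 0) (nat_lit 2768784506) (nat_lit 1064) (nat_lit 3811854970) (nat_lit 1140) (nat_lit 7447864698) (nat_lit 437) (nat_lit 5) (nat_lit 451) (nat_lit 5) (nat_lit 452) (nat_lit 5) (nat_lit 595) (nat_lit 567) (nat_lit 398))) (XT.nd (nat_lit 78) (nat_lit 912) (nat_lit 0) (XT.lf (nat_lit 0) (nat_lit 8255010050) (nat_lit 1140) (nat_lit 3614121329) (nat_lit 76) (nat_lit 2305732466) (nat_lit 437) (nat_lit 5) (nat_lit 452) (nat_lit 5) (nat_lit 438) (nat_lit 5) (nat_lit 596) (nat_lit 567) (nat_lit 397)) (XT.lf (nat_lit 0) (nat_lit 4205394198) (nat_lit 912) (nat_lit 5800336903) (nat_lit 988) (nat_lit 4317563197) (nat_lit 425) (nat_lit 5) (nat_lit 437) (nat_lit 5) (nat_lit 438) (nat_lit 5) (nat_lit 597) (nat_lit 567) (nat_lit 396)))))) (XT.nd (nat_lit 546) (nat_lit 3116) (nat_lit 0) (XT.nd (nat_lit 234) (nat_lit 2508) (nat_lit 0) (XT.nd (nat_lit 78) (nat_lit 988) (nat_lit 0) (XT.lf (nat_lit 0) (nat_lit 11808862739) (nat_lit 988) (nat_lit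 2255652668) (nat_lit 76) (nat_lit 409830863) (nat_lit 425) (nat_lit 5) (nat_lit 438) (nat_lit 5) (nat_lit 426) (nat_lit 5) (nat_lit 598) (nat_lit 567) (nat_lit 395)) (XT.nd (nat_lit 78) (nat_lit 76) (nat_lit 0) (XT.lf (nat_lit 0) (nat_lit 5792531196) (nat_lit 912) (nat_lit 7922186651) (nat_lit 988) (nat_lit 912369036) (nat_lit 413) (nat_lit 5) (nat_lit 425) (nat_lit 5) (nat_lit 426) (nat_lit 5) (nat_lit 599) (nat_lit 567) (nat_lit 394)) (XT.lf (nat_lit 0) (nat_lit 870261706) (nat_lit 988) (nat_lit 765043219) (nat_lit 76) (nat_lit 13147345634) (nat_lit 412) (nat_lit 5) (nat_lit 425) (nat_lit 5) (nat_lit 413) (nat_lit 5) (nat_lit 600) (nat_lit 567) (nat_lit 393)))) (XT.nd (nat_lit 156) (nat_lit 836) (nat_lit 0) (XT.nd (nat_lit 78) (nat_lit 836) (nat_lit 0) (XT.lf (nat_lit 0) (nat_lit 2747630224) (nat_lit 912) (nat_lit 7421710438) (nat_lit 76) (nat_lit 4770438966) (nat_lit 401) (nat_lit 5) (nat_lit 413) (nat_lit 5) (nat_lit 402) (nat_lit 5) (nat_lit 601) (nat_lit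 567) (nat_lit 392)) (XT.lf (nat_lit 0) (nat_lit 868916233) (nat_lit 836) (nat_lit 3806279026) (nat_lit 912) (nat_lit 10424603790) (nat_lit 390) (nat_lit 5) (nat_lit 401) (nat_lit 5) (nat_lit 402) (nat_lit 5) (nat_lit 602) (nat_lit 567) (nat_lit 391))) (XT.nd (nat_lit 78) (nat_lit 836) (nat_lit 0) (XT.lf (nat_lit 0) (nat_lit 6700000792) (nat_lit 912) (nat_lit 5862822107) (nat_lit 76) (nat_lit 2699022916) (nat_lit 390) (nat_lit 5) (nat_lit 402) (nat_lit 5) (nat_lit 391) (nat_lit 5) (nat_lit 603) (nat_lit 567) (nat_lit 390)) (XT.lf (nat_lit 0) (nat_lit 2673632769) (nat_lit 836) (nat_lit 6125538941) (nat_lit 912) (nat_lit 6627285146) (nat_lit 379) (nat_lit 5) (nat_lit 390) (nat_lit 5) (nat_lit 391) (nat_lit 5) (nat_lit 604) (nat_lit 567) (nat_lit 389))))) (XT.nd (nat_lit 234) (nat_lit 2280) (nat_lit 0) (XT.nd (nat_lit 78) (nat_lit 836) (nat_lit 0) (XT.lf (nat_lit 0) (nat_lit 10974204719) (nat_lit 912) (nat_lit 4145343132) (nat_lit 76) (nat_lit 474135405) (nat_lit 379)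 (nat_lit 5) (nat_lit 391) (nat_lit 5) (nat_lit 380) (nat_lit 5) (nat_lit 605) (nat_lit 567) (nat_lit 388)) (XT.nd (nat_lit 78) (nat_lit 0) (nat_lit 0) (XT.lf (nat_lit 0) (nat_lit 4645889697) (nat_lit 836) (nat_lit 8609163237) (nat_lit 912) (nat_lit 2507955657) (nat_lit 368) (nat_lit 5) (nat_lit 379) (nat_lit 5) (nat_lit 380) (nat_lit 5) (nat_lit 606) (nat_lit 567) (nat_lit 387)) (XT.lf (nat_lit 0) (nat_lit 13660433110) (nat_lit 836) (nat_lit 1940594807) (nat_lit 912) (nat_lit 334303002) (nat_lit 368) (nat_lit 5) (nat_lit 379) (nat_lit 5) (nat_lit 380) (nat_lit 5) (nat_lit 607) (nat_lit 567) (nat_lit 386)))) (XT.nd (nat_lit 156) (nat_lit 1444) (nat_lit 0) (XT.nd (nat_lit 78) (nat_lit 0) (nat_lit 0) (XT.lf (nat_lit 0) (nat_lit 1926096113) (nat_lit 836) (nat_lit 9329421229) (nat_lit 76) (nat_lit 4853979179) (nat_lit 357) (nat_lit 5) (nat_lit 368) (nat_lit 5) (nat_lit 358) (nat_lit 5) (nat_lit 608) (nat_lit 567) (nat_lit 385)) (XT.lf (nat_lit 0) (nat_lit 4247352039)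 (nat_lit 836) (nat_lit 263768750) (nat_lit 76) (nat_lit 11775578593) (nat_lit 357) (nat_lit 5) (nat_lit 368) (nat_lit 5) (nat_lit 358) (nat_lit 5) (nat_lit 609) (nat_lit 567) (nat_lit 384))) (XT.nd (nat_lit 78) (nat_lit 684) (nat_lit 0) (XT.lf (nat_lit 0) (nat_lit 6681900474) (nat_lit 836) (nat_lit 7388297809) (nat_lit 76) (nat_lit 2395911300) (nat_lit 347) (nat_lit 5) (nat_lit 358) (nat_lit 5) (nat_lit 348) (nat_lit 5) (nat_lit 610) (nat_lit 567) (nat_lit 383)) (XT.lf (nat_lit 0) (nat_lit 1947712957) (nat_lit 684) (nat_lit 7253886674) (nat_lit 760) (nat_lit 7446779779) (nat_lit 338) (nat_lit 5) (nat_lit 347) (nat_lit 5) (nat_lit 348) (nat_lit 5) (nat_lit 611) (nat_lit 567) (nat_lit 382))))))) (XT.nd (nat_lit 1014) (nat_lit 4560) (nat_lit 0) (XT.nd (nat_lit 468) (nat_lit 2584) (nat_lit 0) (XT.nd (nat_lit 234) (nat_lit 1368) (nat_lit 0) (XT.nd (nat_lit 78) (nat_lit 836) (nat_lit 0) (XT.lf (nat_lit 0) (nat_lit 11561979582) (nat_lit 684) (nat_lit 251547596) (nat_lit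 760) (nat_lit 5019931378) (nat_lit 338) (nat_lit 5) (nat_lit 347) (nat_lit 5) (nat_lit 348) (nat_lit 5) (nat_lit 612) (nat_lit 567) (nat_lit 381)) (XT.nd (nat_lit 78) (nat_lit 76) (nat_lit 0) (XT.lf (nat_lit 0) (nat_lit 4350010851) (nat_lit 760) (nat_lit 10193066834) (nat_lit 836) (nat_lit 2477854505) (nat_lit 328) (nat_lit 5) (nat_lit 338) (nat_lit 5) (nat_lit 339) (nat_lit 5) (nat_lit 613) (nat_lit 567) (nat_lit 380)) (XT.lf (nat_lit 0) (nat_lit 143274021) (nat_lit 836) (nat_lit 2987345400) (nat_lit 76) (nat_lit 14080927122) (nat_lit 327) (nat_lit 5) (nat_lit 338) (nat_lit 5) (nat_lit 328) (nat_lit 5) (nat_lit 614) (nat_lit 567) (nat_lit 379)))) (XT.nd (nat_lit 78) (nat_lit 684) (nat_lit 0) (XT.lf (nat_lit 0) (nat_lit 2848281104) (nat_lit 760) (nat_lit 10475479199) (nat_lit 76) (nat_lit 4080593180) (nat_lit 318) (nat_lit 5) (nat_lit 328) (nat_lit 5) (nat_lit 319) (nat_lit 5) (nat_lit 615) (nat_lit 567) (nat_lit 378)) (XT.nd (nat_lit 78) (nat_lit 684) (nat_lit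 0) (XT.lf (nat_lit 0) (nat_lit 5640976636) (nat_lit 760) (nat_lit 546120187) (nat_lit 76) (nat_lit 11413248522) (nat_lit 318) (nat_lit 5) (nat_lit 328) (nat_lit 5) (nat_lit 319) (nat_lit 5) (nat_lit 616) (nat_lit 567) (nat_lit 377)) (XT.lf (nat_lit 0) (nat_lit 8552830385) (nat_lit 760) (nat_lit 8105974893) (nat_lit 76) (nat_lit 1140186219) (nat_lit 309) (nat_lit 5) (nat_lit 319) (nat_lit 5) (nat_lit 310) (nat_lit 5) (nat_lit 617) (nat_lit 567) (nat_lit 376))))) (XT.nd (nat_lit 234) (nat_lit 1292) (nat_lit 0) (XT.nd (nat_lit 78) (nat_lit 684) (nat_lit 0) (XT.lf (nat_lit 0) (nat_lit 2121159253) (nat_lit 608) (nat_lit 9453095701) (nat_lit 684) (nat_lit 6426329473) (nat_lit 301) (nat_lit 5) (nat_lit 309) (nat_lit 5) (nat_lit 310) (nat_lit 5) (nat_lit 618) (nat_lit 567) (nat_lit 375)) (XT.nd (nat_lit 78) (nat_lit 684) (nat_lit 0) (XT.lf (nat_lit 0) (nat_lit 12654307018) (nat_lit 608) (nat_lit 2049179606) (nat_lit 684) (nat_lit 3501775535) (nat_lit 301) (nat_lit 5) (nat_lit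 309) (nat_lit 5) (nat_lit 310) (nat_lit 5) (nat_lit 619) (nat_lit 567) (nat_lit 374)) (XT.lf (nat_lit 0) (nat_lit 5005634089) (nat_lit 684) (nat_lit 12951008642) (nat_lit 760) (nat_lit 456164429) (nat_lit 292) (nat_lit 5) (nat_lit 301) (nat_lit 5) (nat_lit 302) (nat_lit 5) (nat_lit 620) (nat_lit 567) (nat_lit 373)))) (XT.nd (nat_lit 156) (nat_lit 608) (nat_lit 0) (XT.nd (nat_lit 78) (nat_lit 608) (nat_lit 0) (XT.lf (nat_lit 0) (nat_lit 2659813680) (nat_lit 760) (nat_lit 2814592146) (nat_lit 76) (nat_lit 13148869269) (nat_lit 291) (nat_lit 5) (nat_lit 301) (nat_lit 5) (nat_lit 292) (nat_lit 5) (nat_lit 621) (nat_lit 567) (nat_lit 372)) (XT.lf (nat_lit 0) (nat_lit 5892109659) (nat_lit 684) (nat_lit 10766698331) (nat_lit 76) (nat_lit 2177882446) (nat_lit 283) (nat_lit 5) (nat_lit 292) (nat_lit 5) (nat_lit 284) (nat_lit 5) (nat_lit 622) (nat_lit 567) (nat_lit 371))) (XT.nd (nat_lit 78) (nat_lit 0) (nat_lit 0) (XT.lf (nat_lit 0) (nat_lit 113217044) (nat_lit 608) (nat_lit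 9125186742) (nat_lit 684) (nat_lit 9814983723) (nat_lit 275) (nat_lit 5) (nat_lit 283) (nat_lit 5) (nat_lit 284) (nat_lit 5) (nat_lit 623) (nat_lit 567) (nat_lit 370)) (XT.lf (nat_lit 0) (nat_lit 11348418211) (nat_lit 608) (nat_lit 1368882896) (nat_lit 684) (nat_lit 6555804330) (nat_lit 275) (nat_lit 5) (nat_lit 283) (nat_lit 5) (nat_lit 284) (nat_lit 5) (nat_lit 624) (nat_lit 567) (nat_lit 369)))))) (XT.nd (nat_lit 546) (nat_lit 2204) (nat_lit 0) (XT.nd (nat_lit 234) (nat_lit 1064) (nat_lit 0) (XT.nd (nat_lit 78) (nat_lit 684) (nat_lit 0) (XT.lf (nat_lit 0) (nat_lit 3303741656) (nat_lit 608) (nat_lit 13019508609) (nat_lit 684) (nat_lit 3172818431) (nat_lit 267) (nat_lit 5) (nat_lit 275) (nat_lit 5) (nat_lit 276) (nat_lit 5) (nat_lit 625) (nat_lit 567) (nat_lit 368)) (XT.nd (nat_lit 78) (nat_lit 608) (nat_lit 0) (XT.lf (nat_lit 0) (nat_lit 330356017) (nat_lit 684) (nat_lit 4877735164) (nat_lit 76) (nat_lit 14514240944) (nat_lit 266) (nat_lit 5) (nat_lit 275) (nat_lit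 5) (nat_lit 267) (nat_lit 5) (nat_lit 626) (nat_lit 567) (nat_lit 367)) (XT.lf (nat_lit 0) (nat_lit 3916830254) (nat_lit 684) (nat_lit 13248072649) (nat_lit 76) (nat_lit 2786684493) (nat_lit 258) (nat_lit 5) (nat_lit 267) (nat_lit 5) (nat_lit 259) (nat_lit 5) (nat_lit 627) (nat_lit 567) (nat_lit 366)))) (XT.nd (nat_lit 156) (nat_lit 532) (nat_lit 0) (XT.nd (nat_lit 78) (nat_lit 532) (nat_lit 0) (XT.lf (nat_lit 0) (nat_lit 7636235304) (nat_lit 684) (nat_lit 1645116663) (nat_lit 76) (nat_lit 10902852194) (nat_lit 258) (nat_lit 5) (nat_lit 267) (nat_lit 5) (nat_lit 259) (nat_lit 5) (nat_lit 628) (nat_lit 567) (nat_lit 365)) (XT.lf (nat_lit 0) (nat_lit 10317225675) (nat_lit 532) (nat_lit 1173673089) (nat_lit 608) (nat_lit 8929357499) (nat_lit 251) (nat_lit 5) (nat_lit 258) (nat_lit 5) (nat_lit 259) (nat_lit 5) (nat_lit 629) (nat_lit 567) (nat_lit 364))) (XT.nd (nat_lit 78) (nat_lit 0) (nat_lit 0) (XT.lf (nat_lit 0) (nat_lit 1850386687) (nat_lit 532) (nat_lit 13635408646)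 (nat_lit 608) (nat_lit 5173971680) (nat_lit 244) (nat_lit 5) (nat_lit 251) (nat_lit 5) (nat_lit 252) (nat_lit 5) (nat_lit 630) (nat_lit 567) (nat_lit 363)) (XT.lf (nat_lit 0) (nat_lit 14163956873) (nat_lit 532) (nat_lit 5466158314) (nat_lit 608) (nat_lit 1272562675) (nat_lit 244) (nat_lit 5) (nat_lit 251) (nat_lit 5) (nat_lit 252) (nat_lit 5) (nat_lit 631) (nat_lit 567) (nat_lit 362))))) (XT.nd (nat_lit 234) (nat_lit 1064) (nat_lit 0) (XT.nd (nat_lit 78) (nat_lit 532) (nat_lit 0) (XT.lf (nat_lit 0) (nat_lit 2720914079) (nat_lit 608) (nat_lit 15546846459) (nat_lit 76) (nat_lit 2881344457) (nat_lit 236) (nat_lit 5) (nat_lit 244) (nat_lit 5) (nat_lit 237) (nat_lit 5) (nat_lit 632) (nat_lit 567) (nat_lit 361)) (XT.nd (nat_lit 78) (nat_lit 532) (nat_lit 0) (XT.lf (nat_lit 0) (nat_lit 6853093531) (nat_lit 608) (nat_lit 3171043557) (nat_lit 76) (nat_lit 11374638263) (nat_lit 236) (nat_lit 5) (nat_lit 244) (nat_lit 5) (nat_lit 237) (nat_lit 5) (nat_lit 633) (nat_lit 567)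 (nat_lit 360)) (XT.lf (nat_lit 0) (nat_lit 9569980237) (nat_lit 532) (nat_lit 1554323236) (nat_lit 608) (nat_lit 10528008267) (nat_lit 229) (nat_lit 5) (nat_lit 236) (nat_lit 5) (nat_lit 237) (nat_lit 5) (nat_lit 634) (nat_lit 567) (nat_lit 359)))) (XT.nd (nat_lit 156) (nat_lit 608) (nat_lit 0) (XT.nd (nat_lit 78) (nat_lit 0) (nat_lit 0) (XT.lf (nat_lit 0) (nat_lit 652881077) (nat_lit 456) (nat_lit 14894016699) (nat_lit 532) (nat_lit 6362702233) (nat_lit 223) (nat_lit 5) (nat_lit 229) (nat_lit 5) (nat_lit 230) (nat_lit 5) (nat_lit 635) (nat_lit 567) (nat_lit 358)) (XT.lf (nat_lit 0) (nat_lit 13788342019) (nat_lit 456) (nat_lit 6355268773) (nat_lit 532) (nat_lit 2026710263) (nat_lit 223) (nat_lit 5) (nat_lit 229) (nat_lit 5) (nat_lit 230) (nat_lit 5) (nat_lit 636) (nat_lit 567) (nat_lit 357))) (XT.nd (nat_lit 78) (nat_lit 0) (nat_lit 0) (XT.lf (nat_lit 0) (nat_lit 2405692196) (nat_lit 608) (nat_lit 17661223143) (nat_lit 76) (nat_lit 2368208098) (nat_lit 215) (nat_lit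 5) (nat_lit 223) (nat_lit 5) (nat_lit 216) (nat_lit 5) (nat_lit 637) (nat_lit 567) (nat_lit 356)) (XT.lf (nat_lit 0) (nat_lit 6992819282) (nat_lit 608) (nat_lit 4461233567) (nat_lit 76) (nat_lit 11249037130) (nat_lit 215) (nat_lit 5) (nat_lit 223) (nat_lit 5) (nat_lit 216) (nat_lit 5) (nat_lit 638) (nat_lit 567) (nat_lit 355))))))))
noncomputable def xc179 : XT := (XT.nd (nat_lit 75738) (nat_lit 0) (nat_lit 23560) (XT.nd (nat_lit 1014) (nat_lit 3040) (nat_lit 0) (XT.nd (nat_lit 468) (nat_lit 1748) (nat_lit 0) (XT.nd (nat_lit 234) (nat_lit 988) (nat_lit 0) (XT.nd (nat_lit 78) (nat_lit 456) (nat_lit 0) (XT.lf (nat_lit 0) (nat_lit 9114677314) (nat_lit 456) (nat_lit 2610779337) (nat_lit 532) (nat_lit 11249884167) (nat_lit 209) (nat_lit 5) (nat_lit 215) (nat_lit 5) (nat_lit 216) (nat_lit 5) (nat_lit 639) (nat_lit 567) (nat_lit 354)) (XT.nd (nat_lit 78) (nat_lit 456) (nat_lit 0) (XT.lf (nat_lit 0) (nat_lit 16619127847) (nat_lit 532) (nat_lit 279332399) (nat_lit 76) (nat_lit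 6353249122) (nat_lit 209) (nat_lit 5) (nat_lit 216) (nat_lit 5) (nat_lit 210) (nat_lit 5) (nat_lit 640) (nat_lit 567) (nat_lit 353)) (XT.lf (nat_lit 0) (nat_lit 13728880366) (nat_lit 456) (nat_lit 7982956067) (nat_lit 532) (nat_lit 1819745887) (nat_lit 203) (nat_lit 5) (nat_lit 209) (nat_lit 5) (nat_lit 210) (nat_lit 5) (nat_lit 641) (nat_lit 567) (nat_lit 352)))) (XT.nd (nat_lit 78) (nat_lit 456) (nat_lit 0) (XT.lf (nat_lit 0) (nat_lit 3080474343) (nat_lit 532) (nat_lit 19591766072) (nat_lit 76) (nat_lit 1143778547) (nat_lit 196) (nat_lit 5) (nat_lit 203) (nat_lit 5) (nat_lit 197) (nat_lit 5) (nat_lit 642) (nat_lit 567) (nat_lit 351)) (XT.nd (nat_lit 78) (nat_lit 456) (nat_lit 0) (XT.lf (nat_lit 0) (nat_lit 8168235864) (nat_lit 532) (nat_lit 5513129809) (nat_lit 76) (nat_lit 10422260320) (nat_lit 196) (nat_lit 5) (nat_lit 203) (nat_lit 5) (nat_lit 197) (nat_lit 5) (nat_lit 643) (nat_lit 567) (nat_lit 350)) (XT.lf (nat_lit 0) (nat_lit 8957130079) (nat_lit 456)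 (nat_lit 4453676519) (nat_lit 532) (nat_lit 10985117772) (nat_lit 190) (nat_lit 5) (nat_lit 196) (nat_lit 5) (nat_lit 197) (nat_lit 5) (nat_lit 644) (nat_lit 567) (nat_lit 349))))) (XT.nd (nat_lit 234) (nat_lit 836) (nat_lit 0) (XT.nd (nat_lit 78) (nat_lit 912) (nat_lit 0) (XT.lf (nat_lit 0) (nat_lit 18822599466) (nat_lit 532) (nat_lit 941701820) (nat_lit 76) (nat_lit 4928480295) (nat_lit 190) (nat_lit 5) (nat_lit 197) (nat_lit 5) (nat_lit 191) (nat_lit 5) (nat_lit 645) (nat_lit 567) (nat_lit 348)) (XT.nd (nat_lit 78) (nat_lit 532) (nat_lit 0) (XT.lf (nat_lit 0) (nat_lit 13992031445) (nat_lit 380) (nat_lit 10465971555) (nat_lit 456) (nat_lit 535265715) (nat_lit 185) (nat_lit 5) (nat_lit 190) (nat_lit 5) (nat_lit 191) (nat_lit 5) (nat_lit 646) (nat_lit 567) (nat_lit 347)) (XT.lf (nat_lit 0) (nat_lit 3950142479) (nat_lit 456) (nat_lit 918919071) (nat_lit 532) (nat_lit 20429525997) (nat_lit 178) (nat_lit 5) (nat_lit 184) (nat_lit 5) (nat_lit 185) (nat_lit 5) (nat_lit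 647) (nat_lit 567) (nat_lit 346)))) (XT.nd (nat_lit 156) (nat_lit 456) (nat_lit 0) (XT.nd (nat_lit 78) (nat_lit 380) (nat_lit 0) (XT.lf (nat_lit 0) (nat_lit 10500973439) (nat_lit 532) (nat_lit 6327521679) (nat_lit 76) (nat_lit 8778913829) (nat_lit 178) (nat_lit 5) (nat_lit 185) (nat_lit 5) (nat_lit 179) (nat_lit 5) (nat_lit 648) (nat_lit 567) (nat_lit 345)) (XT.lf (nat_lit 0) (nat_lit 9099858444) (nat_lit 380) (nat_lit 7206015651) (nat_lit 456) (nat_lit 9615325922) (nat_lit 173) (nat_lit 5) (nat_lit 178) (nat_lit 5) (nat_lit 179) (nat_lit 5) (nat_lit 649) (nat_lit 567) (nat_lit 344))) (XT.nd (nat_lit 78) (nat_lit 456) (nat_lit 0) (XT.lf (nat_lit 0) (nat_lit 22281768675) (nat_lit 456) (nat_lit 1343335254) (nat_lit 76) (nat_lit 2615065312) (nat_lit 173) (nat_lit 5) (nat_lit 179) (nat_lit 5) (nat_lit 174) (nat_lit 5) (nat_lit 650) (nat_lit 567) (nat_lit 343)) (XT.lf (nat_lit 0) (nat_lit 1926512449) (nat_lit 456) (nat_lit 11994814530) (nat_lit 76) (nat_lit 12641183670)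 (nat_lit 167) (nat_lit 5) (nat_lit 173) (nat_lit 5) (nat_lit 168) (nat_lit 5) (nat_lit 651) (nat_lit 567) (nat_lit 342)))))) (XT.nd (nat_lit 546) (nat_lit 1444) (nat_lit 0) (XT.nd (nat_lit 234) (nat_lit 836) (nat_lit 0) (XT.nd (nat_lit 78) (nat_lit 380) (nat_lit 0) (XT.lf (nat_lit 0) (nat_lit 3942340732) (nat_lit 380) (nat_lit 3963823879) (nat_lit 456) (nat_lit 18984010330) (nat_lit 162) (nat_lit 5) (nat_lit 167) (nat_lit 5) (nat_lit 168) (nat_lit 5) (nat_lit 652) (nat_lit 567) (nat_lit 341)) (XT.nd (nat_lit 78) (nat_lit 380) (nat_lit 0) (XT.lf (nat_lit 0) (nat_lit 14121995995) (nat_lit 456) (nat_lit 6909850053) (nat_lit 76) (nat_lit 6190214977) (nat_lit 162) (nat_lit 5) (nat_lit 168) (nat_lit 5) (nat_lit 163) (nat_lit 5) (nat_lit 653) (nat_lit 567) (nat_lit 340)) (XT.lf (nat_lit 0) (nat_lit 9540754040) (nat_lit 380) (nat_lit 11005030111) (nat_lit 456) (nat_lit 7013128104) (nat_lit 157) (nat_lit 5) (nat_lit 162) (nat_lit 5) (nat_lit 163) (nat_lit 5) (nat_lit 654)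 (nat_lit 567) (nat_lit 339)))) (XT.nd (nat_lit 156) (nat_lit 380) (nat_lit 0) (XT.nd (nat_lit 78) (nat_lit 456) (nat_lit 0) (XT.lf (nat_lit 0) (nat_lit 26407063261) (nat_lit 380) (nat_lit 732842345) (nat_lit 456) (nat_lit 761757973) (nat_lit 157) (nat_lit 5) (nat_lit 162) (nat_lit 5) (nat_lit 163) (nat_lit 5) (nat_lit 655) (nat_lit 567) (nat_lit 338)) (XT.lf (nat_lit 0) (nat_lit 5701476499) (nat_lit 456) (nat_lit 12793154390) (nat_lit 76) (nat_lit 9752700694) (nat_lit 151) (nat_lit 5) (nat_lit 157) (nat_lit 5) (nat_lit 152) (nat_lit 5) (nat_lit 656) (nat_lit 567) (nat_lit 337))) (XT.nd (nat_lit 78) (nat_lit 0) (nat_lit 0) (XT.lf (nat_lit 0) (nat_lit 4200684226) (nat_lit 380) (nat_lit 8120898642) (nat_lit 456) (nat_lit 16277473442) (nat_lit 146) (nat_lit 5) (nat_lit 151) (nat_lit 5) (nat_lit 152) (nat_lit 5) (nat_lit 657) (nat_lit 567) (nat_lit 336)) (XT.lf (nat_lit 0) (nat_lit 19172083337) (nat_lit 456) (nat_lit 7271774664) (nat_lit 76) (nat_lit 2511997893) (nat_lit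 146) (nat_lit 5) (nat_lit 152) (nat_lit 5) (nat_lit 147) (nat_lit 5) (nat_lit 658) (nat_lit 567) (nat_lit 335))))) (XT.nd (nat_lit 234) (nat_lit 684) (nat_lit 0) (XT.nd (nat_lit 78) (nat_lit 456) (nat_lit 0) (XT.lf (nat_lit 0) (nat_lit 10271474575) (nat_lit 304) (nat_lit 16004276198) (nat_lit 380) (nat_lit 3041717760) (nat_lit 142) (nat_lit 5) (nat_lit 146) (nat_lit 5) (nat_lit 147) (nat_lit 5) (nat_lit 659) (nat_lit 567) (nat_lit 334)) (XT.nd (nat_lit 78) (nat_lit 380) (nat_lit 0) (XT.lf (nat_lit 0) (nat_lit 3829698773) (nat_lit 380) (nat_lit 1453225653) (nat_lit 76) (nat_lit 24401994786) (nat_lit 141) (nat_lit 5) (nat_lit 146) (nat_lit 5) (nat_lit 142) (nat_lit 5) (nat_lit 660) (nat_lit 567) (nat_lit 333)) (XT.lf (nat_lit 0) (nat_lit 10939492803) (nat_lit 456) (nat_lit 13411401657) (nat_lit 76) (nat_lit 5705588963) (nat_lit 136) (nat_lit 5) (nat_lit 142) (nat_lit 5) (nat_lit 137) (nat_lit 5) (nat_lit 661) (nat_lit 567) (nat_lit 332)))) (XT.nd (nat_lit 156) (nat_lit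 380) (nat_lit 0) (XT.nd (nat_lit 78) (nat_lit 0) (nat_lit 0) (XT.lf (nat_lit 0) (nat_lit 4709775032) (nat_lit 304) (nat_lit 13552896330) (nat_lit 380) (nat_lit 12171383969) (nat_lit 132) (nat_lit 5) (nat_lit 136) (nat_lit 5) (nat_lit 137) (nat_lit 5) (nat_lit 662) (nat_lit 567) (nat_lit 331)) (XT.lf (nat_lit 0) (nat_lit 23368500517) (nat_lit 304) (nat_lit 2449656369) (nat_lit 380) (nat_lit 4999305102) (nat_lit 132) (nat_lit 5) (nat_lit 136) (nat_lit 5) (nat_lit 137) (nat_lit 5) (nat_lit 663) (nat_lit 567) (nat_lit 330))) (XT.nd (nat_lit 73710) (nat_lit 0) (nat_lit 29184) (XT.lf (nat_lit 0) (nat_lit 2413422939) (nat_lit 380) (nat_lit 19946366963) (nat_lit 76) (nat_lit 8845894580) (nat_lit 127) (nat_lit 5) (nat_lit 132) (nat_lit 5) (nat_lit 128) (nat_lit 5) (nat_lit 664) (nat_lit 567) (nat_lit 329)) (XT.lf (nat_lit 0) (nat_lit 1418646567) (nat_lit 1748) (nat_lit 2017852262) (nat_lit 1748) (nat_lit 2017852262) (nat_lit 511) (nat_lit 3) (nat_lit 534) (nat_lit 3) (nat_lit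 534) (nat_lit 5) (nat_lit 568) (nat_lit 568) (nat_lit 424))))))) (XT.nd (nat_lit 1092) (nat_lit 4256) (nat_lit 0) (XT.nd (nat_lit 546) (nat_lit 1368) (nat_lit 0) (XT.nd (nat_lit 234) (nat_lit 0) (nat_lit 152) (XT.nd (nat_lit 78) (nat_lit 0) (nat_lit 76) (XT.lf (nat_lit 76) (nat_lit 1373556830) (nat_lit 0) (nat_lit 2084067493) (nat_lit 1748) (nat_lit 7548269305) (nat_lit 512) (nat_lit 5) (nat_lit 511) (nat_lit 3) (nat_lit 534) (nat_lit 5) (nat_lit 569) (nat_lit 568) (nat_lit 423)) (XT.nd (nat_lit 78) (nat_lit 0) (nat_lit 0) (XT.lf (nat_lit 0) (nat_lit 4120510445) (nat_lit 1672) (nat_lit 4185402487) (nat_lit 1748) (nat_lit 2798514485) (nat_lit 512) (nat_lit 5) (nat_lit 534) (nat_lit 5) (nat_lit 535) (nat_lit 5) (nat_lit 570) (nat_lit 568) (nat_lit 422)) (XT.lf (nat_lit 76) (nat_lit 1366491803) (nat_lit 0) (nat_lit 3437839994) (nat_lit 1748) (nat_lit 6400447986) (nat_lit 513) (nat_lit 5) (nat_lit 512) (nat_lit 5) (nat_lit 535) (nat_lit 5) (nat_lit 571) (nat_lit 568)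 (nat_lit 421)))) (XT.nd (nat_lit 156) (nat_lit 0) (nat_lit 76) (XT.nd (nat_lit 78) (nat_lit 0) (nat_lit 0) (XT.lf (nat_lit 0) (nat_lit 5525308925) (nat_lit 1672) (nat_lit 4238908932) (nat_lit 1748) (nat_lit 1542453173) (nat_lit 513) (nat_lit 5) (nat_lit 535) (nat_lit 5) (nat_lit 536) (nat_lit 5) (nat_lit 572) (nat_lit 568) (nat_lit 420)) (XT.lf (nat_lit 76) (nat_lit 1460625821) (nat_lit 0) (nat_lit 4817907668) (nat_lit 1748) (nat_lit 5131711450) (nat_lit 514) (nat_lit 5) (nat_lit 513) (nat_lit 5) (nat_lit 536) (nat_lit 5) (nat_lit 573) (nat_lit 568) (nat_lit 419))) (XT.nd (nat_lit 78) (nat_lit 0) (nat_lit 0) (XT.lf (nat_lit 0) (nat_lit 7062778487) (nat_lit 1672) (nat_lit 4193866329) (nat_lit 1748) (nat_lit 258927759) (nat_lit 514) (nat_lit 5) (nat_lit 536) (nat_lit 5) (nat_lit 537) (nat_lit 5) (nat_lit 574) (nat_lit 568) (nat_lit 418)) (XT.lf (nat_lit 76) (nat_lit 1658521797) (nat_lit 0) (nat_lit 6232985292) (nat_lit 1748) (nat_lit 3730925039) (nat_lit 515) (nat_lit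 5) (nat_lit 514) (nat_lit 5) (nat_lit 537) (nat_lit 5) (nat_lit 575) (nat_lit 568) (nat_lit 417))))) (XT.nd (nat_lit 234) (nat_lit 1596) (nat_lit 0) (XT.nd (nat_lit 78) (nat_lit 0) (nat_lit 76) (XT.lf (nat_lit 76) (nat_lit 7676536558) (nat_lit 0) (nat_lit 1074758951) (nat_lit 1748) (nat_lit 2979844973) (nat_lit 515) (nat_lit 5) (nat_lit 514) (nat_lit 5) (nat_lit 537) (nat_lit 5) (nat_lit 576) (nat_lit 568) (nat_lit 416)) (XT.nd (nat_lit 78) (nat_lit 0) (nat_lit 0) (XT.lf (nat_lit 76) (nat_lit 1963040535) (nat_lit 0) (nat_lit 7691811206) (nat_lit 1748) (nat_lit 2186641110) (nat_lit 516) (nat_lit 5) (nat_lit 515) (nat_lit 5) (nat_lit 538) (nat_lit 5) (nat_lit 577) (nat_lit 568) (nat_lit 415)) (XT.lf (nat_lit 76) (nat_lit 8140430934) (nat_lit 0) (nat_lit 2457179387) (nat_lit 1748) (nat_lit 1356020585) (nat_lit 516) (nat_lit 5) (nat_lit 515) (nat_lit 5) (nat_lit 538) (nat_lit 5) (nat_lit 578) (nat_lit 568) (nat_lit 414)))) (XT.nd (nat_lit 156) (nat_lit 0) (nat_lit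 76) (XT.nd (nat_lit 78) (nat_lit 1748) (nat_lit 0) (XT.lf (nat_lit 76) (nat_lit 2377342211) (nat_lit 0) (nat_lit 9203170163) (nat_lit 1748) (nat_lit 487074818) (nat_lit 517) (nat_lit 5) (nat_lit 516) (nat_lit 5) (nat_lit 539) (nat_lit 5) (nat_lit 579) (nat_lit 568) (nat_lit 413)) (XT.lf (nat_lit 0) (nat_lit 423296995) (nat_lit 1748) (nat_lit 3467557509) (nat_lit 1824) (nat_lit 8292331780) (nat_lit 493) (nat_lit 5) (nat_lit 516) (nat_lit 5) (nat_lit 517) (nat_lit 5) (nat_lit 580) (nat_lit 568) (nat_lit 412))) (XT.nd (nat_lit 78) (nat_lit 0) (nat_lit 0) (XT.lf (nat_lit 0) (nat_lit 1361822562) (nat_lit 1748) (nat_lit 9404954814) (nat_lit 1824) (nat_lit 1533927392) (nat_lit 494) (nat_lit 5) (nat_lit 517) (nat_lit 5) (nat_lit 518) (nat_lit 5) (nat_lit 581) (nat_lit 568) (nat_lit 411)) (XT.lf (nat_lit 0) (nat_lit 2356027922) (nat_lit 1748) (nat_lit 3021347658) (nat_lit 1824) (nat_lit 7042461001) (nat_lit 494) (nat_lit 5) (nat_lit 517) (nat_lit 5) (nat_lit 518) (nat_lit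 5) (nat_lit 582) (nat_lit 568) (nat_lit 410)))))) (XT.nd (nat_lit 546) (nat_lit 4408) (nat_lit 0) (XT.nd (nat_lit 234) (nat_lit 0) (nat_lit 76) (XT.nd (nat_lit 78) (nat_lit 0) (nat_lit 0) (XT.lf (nat_lit 0) (nat_lit 3381934048) (nat_lit 1748) (nat_lit 9014365037) (nat_lit 1824) (nat_lit 144816732) (nat_lit 495) (nat_lit 5) (nat_lit 518) (nat_lit 5) (nat_lit 519) (nat_lit 5) (nat_lit 583) (nat_lit 568) (nat_lit 409)) (XT.nd (nat_lit 78) (nat_lit 0) (nat_lit 0) (XT.lf (nat_lit 0) (nat_lit 4472542509) (nat_lit 1748) (nat_lit 2462075442) (nat_lit 1824) (nat_lit 5729320102) (nat_lit 495) (nat_lit 5) (nat_lit 518) (nat_lit 5) (nat_lit 519) (nat_lit 5) (nat_lit 584) (nat_lit 568) (nat_lit 408)) (XT.lf (nat_lit 76) (nat_lit 4268734752) (nat_lit 0) (nat_lit 1332339285) (nat_lit 1824) (nat_lit 7187821558) (nat_lit 496) (nat_lit 5) (nat_lit 495) (nat_lit 5) (nat_lit 519) (nat_lit 5) (nat_lit 585) (nat_lit 568) (nat_lit 407)))) (XT.nd (nat_lit 156) (nat_lit 0) (nat_lit 76)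 (XT.nd (nat_lit 78) (nat_lit 0) (nat_lit 0) (XT.lf (nat_lit 0) (nat_lit 6785845609) (nat_lit 1748) (nat_lit 1785750240) (nat_lit 1824) (nat_lit 4344084107) (nat_lit 496) (nat_lit 5) (nat_lit 519) (nat_lit 5) (nat_lit 520) (nat_lit 5) (nat_lit 586) (nat_lit 568) (nat_lit 406)) (XT.lf (nat_lit 76) (nat_lit 5133316711) (nat_lit 0) (nat_lit 2891959433) (nat_lit 1824) (nat_lit 5019105624) (nat_lit 497) (nat_lit 5) (nat_lit 496) (nat_lit 5) (nat_lit 520) (nat_lit 5) (nat_lit 587) (nat_lit 568) (nat_lit 405))) (XT.nd (nat_lit 78) (nat_lit 0) (nat_lit 0) (XT.lf (nat_lit 0) (nat_lit 9309387033) (nat_lit 1748) (nat_lit 988077668) (nat_lit 1824) (nat_lit 2877796097) (nat_lit 497) (nat_lit 5) (nat_lit 520) (nat_lit 5) (nat_lit 521) (nat_lit 5) (nat_lit 588) (nat_lit 568) (nat_lit 404)) (XT.lf (nat_lit 76) (nat_lit 6126017410) (nat_lit 0) (nat_lit 4541296880) (nat_lit 1824) (nat_lit 2640481432) (nat_lit 498) (nat_lit 5) (nat_lit 497) (nat_lit 5) (nat_lit 521) (nat_lit 5) (nat_lit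 589) (nat_lit 568) (nat_lit 403))))) (XT.nd (nat_lit 234) (nat_lit 2812) (nat_lit 0) (XT.nd (nat_lit 78) (nat_lit 1824) (nat_lit 0) (XT.lf (nat_lit 0) (nat_lit 12057088110) (nat_lit 1748) (nat_lit 64455060) (nat_lit 1824) (nat_lit 1321345390) (nat_lit 498) (nat_lit 5) (nat_lit 521) (nat_lit 5) (nat_lit 522) (nat_lit 5) (nat_lit 590) (nat_lit 568) (nat_lit 402)) (XT.nd (nat_lit 78) (nat_lit 1824) (nat_lit 0) (XT.lf (nat_lit 76) (nat_lit 7251702864) (nat_lit 0) (nat_lit 6289698868) (nat_lit 1824) (nat_lit 37947592) (nat_lit 499) (nat_lit 5) (nat_lit 498) (nat_lit 5) (nat_lit 522) (nat_lit 5) (nat_lit 591) (nat_lit 568) (nat_lit 401)) (XT.lf (nat_lit 76) (nat_lit 992231231) (nat_lit 0) (nat_lit 323642334) (nat_lit 1900) (nat_lit 12402562175) (nat_lit 475) (nat_lit 5) (nat_lit 474) (nat_lit 5) (nat_lit 499) (nat_lit 5) (nat_lit 592) (nat_lit 568) (nat_lit 400)))) (XT.nd (nat_lit 156) (nat_lit 1064) (nat_lit 0) (XT.nd (nat_lit 78) (nat_lit 1824) (nat_lit 0) (XT.lf (nat_lit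 0) (nat_lit 2766239840) (nat_lit 1824) (nat_lit 5361901543) (nat_lit 76) (nat_lit 5730758850) (nat_lit 475) (nat_lit 5) (nat_lit 499) (nat_lit 5) (nat_lit 476) (nat_lit 5) (nat_lit 593) (nat_lit 568) (nat_lit 399)) (XT.lf (nat_lit 0) (nat_lit 2167356917) (nat_lit 1824) (nat_lit 2084495579) (nat_lit 1900) (nat_lit 9750197624) (nat_lit 451) (nat_lit 5) (nat_lit 475) (nat_lit 5) (nat_lit 476) (nat_lit 5) (nat_lit 594) (nat_lit 568) (nat_lit 398))) (XT.nd (nat_lit 78) (nat_lit 1064) (nat_lit 0) (XT.lf (nat_lit 0) (nat_lit 5820059272) (nat_lit 1900) (nat_lit 4262951105) (nat_lit 76) (nat_lit 4063995855) (nat_lit 451) (nat_lit 5) (nat_lit 476) (nat_lit 5) (nat_lit 452) (nat_lit 5) (nat_lit 595) (nat_lit 568) (nat_lit 397)) (XT.lf (nat_lit 0) (nat_lit 3483518240) (nat_lit 1064) (nat_lit 3962898747) (nat_lit 1140) (nat_lit 6847909594) (nat_lit 437) (nat_lit 5) (nat_lit 451) (nat_lit 5) (nat_lit 452) (nat_lit 5) (nat_lit 596) (nat_lit 568) (nat_lit 396))))))))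
noncomputable def xc180 : XT := (XT.nd (nat_lit 2106) (nat_lit 8360) (nat_lit 0) (XT.nd (nat_lit 1014) (nat_lit 5624) (nat_lit 0) (XT.nd (nat_lit 468) (nat_lit 3344) (nat_lit 0) (XT.nd (nat_lit 234) (nat_lit 1824) (nat_lit 0) (XT.nd (nat_lit 78) (nat_lit 912) (nat_lit 0) (XT.lf (nat_lit 0) (nat_lit 9139403415) (nat_lit 1140) (nat_lit 3025039624) (nat_lit 76) (nat_lit 2279469100) (nat_lit 437) (nat_lit 5) (nat_lit 452) (nat_lit 5) (nat_lit 438) (nat_lit 5) (nat_lit 597) (nat_lit 568) (nat_lit 395)) (XT.nd (nat_lit 78) (nat_lit 0) (nat_lit 0) (XT.lf (nat_lit 0) (nat_lit 4946515133) (nat_lit 912) (nat_lit 5968785731) (nat_lit 988) (nat_lit 3680208336) (nat_lit 425) (nat_lit 5) (nat_lit 437) (nat_lit 5) (nat_lit 438) (nat_lit 5) (nat_lit 598) (nat_lit 568) (nat_lit 394)) (XT.lf (nat_lit 0) (nat_lit 12740250437) (nat_lit 988) (nat_lit 1642329915) (nat_lit 76) (nat_lit 367287968) (nat_lit 425) (nat_lit 5) (nat_lit 438) (nat_lit 5) (nat_lit 426) (nat_lit 5) (nat_lit 599)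 (nat_lit 568) (nat_lit 393)))) (XT.nd (nat_lit 78) (nat_lit 912) (nat_lit 0) (XT.lf (nat_lit 0) (nat_lit 6562485812) (nat_lit 912) (nat_lit 8112352135) (nat_lit 988) (nat_lit 231014681) (nat_lit 413) (nat_lit 5) (nat_lit 425) (nat_lit 5) (nat_lit 426) (nat_lit 5) (nat_lit 600) (nat_lit 568) (nat_lit 392)) (XT.nd (nat_lit 78) (nat_lit 836) (nat_lit 0) (XT.lf (nat_lit 0) (nat_lit 1564555502) (nat_lit 988) (nat_lit 130012998) (nat_lit 76) (nat_lit 13370140130) (nat_lit 412) (nat_lit 5) (nat_lit 425) (nat_lit 5) (nat_lit 413) (nat_lit 5) (nat_lit 601) (nat_lit 568) (nat_lit 391)) (XT.lf (nat_lit 0) (nat_lit 3470252399) (nat_lit 912) (nat_lit 6910538522) (nat_lit 76) (nat_lit 4844374860) (nat_lit 401) (nat_lit 5) (nat_lit 413) (nat_lit 5) (nat_lit 402) (nat_lit 5) (nat_lit 602) (nat_lit 568) (nat_lit 390))))) (XT.nd (nat_lit 234) (nat_lit 1672) (nat_lit 0) (XT.nd (nat_lit 78) (nat_lit 836) (nat_lit 0) (XT.lf (nat_lit 0) (nat_lit 1541561168) (nat_lit 836) (nat_lit 3885970432)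 (nat_lit 912) (nat_lit 9961031833) (nat_lit 390) (nat_lit 5) (nat_lit 401) (nat_lit 5) (nat_lit 402) (nat_lit 5) (nat_lit 603) (nat_lit 568) (nat_lit 389)) (XT.nd (nat_lit 78) (nat_lit 836) (nat_lit 0) (XT.lf (nat_lit 0) (nat_lit 7479892263) (nat_lit 912) (nat_lit 5324665452) (nat_lit 76) (nat_lit 2749553317) (nat_lit 390) (nat_lit 5) (nat_lit 402) (nat_lit 5) (nat_lit 391) (nat_lit 5) (nat_lit 604) (nat_lit 568) (nat_lit 388)) (XT.lf (nat_lit 0) (nat_lit 3378206593) (nat_lit 836) (nat_lit 6234402849) (nat_lit 912) (nat_lit 6109574652) (nat_lit 379) (nat_lit 5) (nat_lit 390) (nat_lit 5) (nat_lit 391) (nat_lit 5) (nat_lit 605) (nat_lit 568) (nat_lit 387)))) (XT.nd (nat_lit 156) (nat_lit 836) (nat_lit 0) (XT.nd (nat_lit 78) (nat_lit 836) (nat_lit 0) (XT.lf (nat_lit 0) (nat_lit 11818730873) (nat_lit 912) (nat_lit 3577451500) (nat_lit 76) (nat_lit 496821928) (nat_lit 379) (nat_lit 5) (nat_lit 391) (nat_lit 5) (nat_lit 380) (nat_lit 5) (nat_lit 606) (nat_lit 568) (nat_lit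 386)) (XT.lf (nat_lit 0) (nat_lit 5385324416) (nat_lit 836) (nat_lit 8751813527) (nat_lit 912) (nat_lit 1928740377) (nat_lit 368) (nat_lit 5) (nat_lit 379) (nat_lit 5) (nat_lit 380) (nat_lit 5) (nat_lit 607) (nat_lit 568) (nat_lit 385))) (XT.nd (nat_lit 78) (nat_lit 760) (nat_lit 0) (XT.lf (nat_lit 0) (nat_lit 272424280) (nat_lit 912) (nat_lit 1676200414) (nat_lit 76) (nat_lit 14293229505) (nat_lit 367) (nat_lit 5) (nat_lit 379) (nat_lit 5) (nat_lit 368) (nat_lit 5) (nat_lit 608) (nat_lit 568) (nat_lit 384)) (XT.lf (nat_lit 0) (nat_lit 2565997704) (nat_lit 836) (nat_lit 8866418852) (nat_lit 76) (nat_lit 4987194466) (nat_lit 357) (nat_lit 5) (nat_lit 368) (nat_lit 5) (nat_lit 358) (nat_lit 5) (nat_lit 609) (nat_lit 568) (nat_lit 383)))))) (XT.nd (nat_lit 546) (nat_lit 2660) (nat_lit 0) (XT.nd (nat_lit 234) (nat_lit 1520) (nat_lit 0) (XT.nd (nat_lit 78) (nat_lit 684) (nat_lit 0) (XT.lf (nat_lit 0) (nat_lit 372697597) (nat_lit 760) (nat_lit 4551609192) (nat_lit 836)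 (nat_lit 11676239527) (nat_lit 347) (nat_lit 5) (nat_lit 357) (nat_lit 5) (nat_lit 358) (nat_lit 5) (nat_lit 610) (nat_lit 568) (nat_lit 382)) (XT.nd (nat_lit 78) (nat_lit 684) (nat_lit 0) (XT.lf (nat_lit 0) (nat_lit 7398001587) (nat_lit 836) (nat_lit 6892039253) (nat_lit 76) (nat_lit 2493695693) (nat_lit 347) (nat_lit 5) (nat_lit 358) (nat_lit 5) (nat_lit 348) (nat_lit 5) (nat_lit 611) (nat_lit 568) (nat_lit 381)) (XT.lf (nat_lit 0) (nat_lit 2626454725) (nat_lit 684) (nat_lit 7334373083) (nat_lit 760) (nat_lit 7008970191) (nat_lit 338) (nat_lit 5) (nat_lit 347) (nat_lit 5) (nat_lit 348) (nat_lit 5) (nat_lit 612) (nat_lit 568) (nat_lit 380)))) (XT.nd (nat_lit 156) (nat_lit 760) (nat_lit 0) (XT.nd (nat_lit 78) (nat_lit 760) (nat_lit 0) (XT.lf (nat_lit 0) (nat_lit 12420461829) (nat_lit 684) (nat_lit 193253719) (nat_lit 760) (nat_lit 4545089630) (nat_lit 338) (nat_lit 5) (nat_lit 347) (nat_lit 5) (nat_lit 348) (nat_lit 5) (nat_lit 613) (nat_lit 568) (nat_lit 379))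 (XT.lf (nat_lit 0) (nat_lit 5070966744) (nat_lit 760) (nat_lit 10320352256) (nat_lit 836) (nat_lit 1958840913) (nat_lit 328) (nat_lit 5) (nat_lit 338) (nat_lit 5) (nat_lit 339) (nat_lit 5) (nat_lit 614) (nat_lit 568) (nat_lit 378))) (XT.nd (nat_lit 78) (nat_lit 684) (nat_lit 0) (XT.lf (nat_lit 0) (nat_lit 696251046) (nat_lit 836) (nat_lit 2418214798) (nat_lit 76) (nat_lit 14430267755) (nat_lit 327) (nat_lit 5) (nat_lit 338) (nat_lit 5) (nat_lit 328) (nat_lit 5) (nat_lit 615) (nat_lit 568) (nat_lit 377)) (XT.lf (nat_lit 0) (nat_lit 3449156233) (nat_lit 760) (nat_lit 10049868409) (nat_lit 76) (nat_lit 4242496894) (nat_lit 318) (nat_lit 5) (nat_lit 328) (nat_lit 5) (nat_lit 319) (nat_lit 5) (nat_lit 616) (nat_lit 568) (nat_lit 376))))) (XT.nd (nat_lit 234) (nat_lit 1368) (nat_lit 0) (XT.nd (nat_lit 78) (nat_lit 608) (nat_lit 0) (XT.lf (nat_lit 0) (nat_lit 66496556) (nat_lit 684) (nat_lit 6220975967) (nat_lit 760) (nat_lit 11654166176) (nat_lit 309) (nat_lit 5) (nat_lit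 318) (nat_lit 5) (nat_lit 319) (nat_lit 5) (nat_lit 617) (nat_lit 568) (nat_lit 375)) (XT.nd (nat_lit 78) (nat_lit 608) (nat_lit 0) (XT.lf (nat_lit 0) (nat_lit 9251287804) (nat_lit 760) (nat_lit 7639544312) (nat_lit 76) (nat_lit 1253551954) (nat_lit 309) (nat_lit 5) (nat_lit 319) (nat_lit 5) (nat_lit 310) (nat_lit 5) (nat_lit 618) (nat_lit 568) (nat_lit 374)) (XT.lf (nat_lit 0) (nat_lit 2787997320) (nat_lit 608) (nat_lit 9538856467) (nat_lit 684) (nat_lit 6023281581) (nat_lit 301) (nat_lit 5) (nat_lit 309) (nat_lit 5) (nat_lit 310) (nat_lit 5) (nat_lit 619) (nat_lit 568) (nat_lit 373)))) (XT.nd (nat_lit 156) (nat_lit 608) (nat_lit 0) (XT.nd (nat_lit 78) (nat_lit 760) (nat_lit 0) (XT.lf (nat_lit 0) (nat_lit 13519564611) (nat_lit 608) (nat_lit 1988887563) (nat_lit 684) (nat_lit 3050659594) (nat_lit 301) (nat_lit 5) (nat_lit 309) (nat_lit 5) (nat_lit 310) (nat_lit 5) (nat_lit 620) (nat_lit 568) (nat_lit 372)) (XT.lf (nat_lit 0) (nat_lit 49732300) (nat_lit 760) (nat_lit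 13047817125) (nat_lit 76) (nat_lit 5673359690) (nat_lit 291) (nat_lit 5) (nat_lit 301) (nat_lit 5) (nat_lit 292) (nat_lit 5) (nat_lit 621) (nat_lit 568) (nat_lit 371))) (XT.nd (nat_lit 78) (nat_lit 608) (nat_lit 0) (XT.lf (nat_lit 0) (nat_lit 3211948862) (nat_lit 760) (nat_lit 2258650213) (nat_lit 76) (nat_lit 13515127202) (nat_lit 291) (nat_lit 5) (nat_lit 301) (nat_lit 5) (nat_lit 292) (nat_lit 5) (nat_lit 622) (nat_lit 568) (nat_lit 370)) (XT.lf (nat_lit 0) (nat_lit 6503803834) (nat_lit 684) (nat_lit 10364676751) (nat_lit 76) (nat_lit 2335031775) (nat_lit 283) (nat_lit 5) (nat_lit 292) (nat_lit 5) (nat_lit 284) (nat_lit 5) (nat_lit 623) (nat_lit 568) (nat_lit 369))))))) (XT.nd (nat_lit 1014) (nat_lit 3800) (nat_lit 0) (XT.nd (nat_lit 468) (nat_lit 2660) (nat_lit 0) (XT.nd (nat_lit 234) (nat_lit 684) (nat_lit 0) (XT.nd (nat_lit 78) (nat_lit 608) (nat_lit 0) (XT.lf (nat_lit 0) (nat_lit 728775382) (nat_lit 608) (nat_lit 9182547000) (nat_lit 684) (nat_lit 9513335704)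 (nat_lit 275) (nat_lit 5) (nat_lit 283) (nat_lit 5) (nat_lit 284) (nat_lit 5) (nat_lit 624) (nat_lit 568) (nat_lit 368)) (XT.nd (nat_lit 78) (nat_lit 608) (nat_lit 0) (XT.lf (nat_lit 0) (nat_lit 12176655200) (nat_lit 608) (nat_lit 1273570871) (nat_lit 684) (nat_lit 6198736403) (nat_lit 275) (nat_lit 5) (nat_lit 283) (nat_lit 5) (nat_lit 284) (nat_lit 5) (nat_lit 625) (nat_lit 568) (nat_lit 367)) (XT.lf (nat_lit 0) (nat_lit 3975879937) (nat_lit 608) (nat_lit 13147746303) (nat_lit 684) (nat_lit 2752852774) (nat_lit 267) (nat_lit 5) (nat_lit 275) (nat_lit 5) (nat_lit 276) (nat_lit 5) (nat_lit 626) (nat_lit 568) (nat_lit 366)))) (XT.nd (nat_lit 78) (nat_lit 608) (nat_lit 0) (XT.lf (nat_lit 0) (nat_lit 804690451) (nat_lit 684) (nat_lit 4374862605) (nat_lit 76) (nat_lit 14927839605) (nat_lit 266) (nat_lit 5) (nat_lit 275) (nat_lit 5) (nat_lit 267) (nat_lit 5) (nat_lit 627) (nat_lit 568) (nat_lit 365)) (XT.nd (nat_lit 78) (nat_lit 0) (nat_lit 0) (XT.lf (nat_lit 0) (nat_lit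 4458466103) (nat_lit 684) (nat_lit 12908147828) (nat_lit 76) (nat_lit 2974708286) (nat_lit 258) (nat_lit 5) (nat_lit 267) (nat_lit 5) (nat_lit 259) (nat_lit 5) (nat_lit 628) (nat_lit 568) (nat_lit 364)) (XT.lf (nat_lit 0) (nat_lit 8243174955) (nat_lit 684) (nat_lit 1084993238) (nat_lit 76) (nat_lit 11250605417) (nat_lit 258) (nat_lit 5) (nat_lit 267) (nat_lit 5) (nat_lit 259) (nat_lit 5) (nat_lit 629) (nat_lit 568) (nat_lit 363))))) (XT.nd (nat_lit 234) (nat_lit 1596) (nat_lit 0) (XT.nd (nat_lit 78) (nat_lit 532) (nat_lit 0) (XT.lf (nat_lit 0) (nat_lit 11112694462) (nat_lit 532) (nat_lit 1057156033) (nat_lit 608) (nat_lit 8649798479) (nat_lit 251) (nat_lit 5) (nat_lit 258) (nat_lit 5) (nat_lit 259) (nat_lit 5) (nat_lit 630) (nat_lit 568) (nat_lit 362)) (XT.nd (nat_lit 78) (nat_lit 0) (nat_lit 0) (XT.lf (nat_lit 0) (nat_lit 2480693068) (nat_lit 532) (nat_lit 13759888560) (nat_lit 608) (nat_lit 4823450160) (nat_lit 244) (nat_lit 5) (nat_lit 251) (nat_lit 5) (nat_lit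 252) (nat_lit 5) (nat_lit 631) (nat_lit 568) (nat_lit 361)) (XT.lf (nat_lit 0) (nat_lit 15028901351) (nat_lit 532) (nat_lit 5430159658) (nat_lit 608) (nat_lit 852914954) (nat_lit 244) (nat_lit 5) (nat_lit 251) (nat_lit 5) (nat_lit 252) (nat_lit 5) (nat_lit 632) (nat_lit 568) (nat_lit 360)))) (XT.nd (nat_lit 156) (nat_lit 988) (nat_lit 0) (XT.nd (nat_lit 78) (nat_lit 0) (nat_lit 0) (XT.lf (nat_lit 0) (nat_lit 3210739241) (nat_lit 608) (nat_lit 15266370453) (nat_lit 76) (nat_lit 3086241787) (nat_lit 236) (nat_lit 5) (nat_lit 244) (nat_lit 5) (nat_lit 237) (nat_lit 5) (nat_lit 633) (nat_lit 568) (nat_lit 359)) (XT.lf (nat_lit 0) (nat_lit 7417024892) (nat_lit 608) (nat_lit 2654647826) (nat_lit 76) (nat_lit 11746513814) (nat_lit 236) (nat_lit 5) (nat_lit 244) (nat_lit 5) (nat_lit 237) (nat_lit 5) (nat_lit 634) (nat_lit 568) (nat_lit 358))) (XT.nd (nat_lit 78) (nat_lit 456) (nat_lit 0) (XT.lf (nat_lit 0) (nat_lit 10337381862) (nat_lit 532) (nat_lit 1431646969) (nat_lit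 608) (nat_lit 10307857950) (nat_lit 229) (nat_lit 5) (nat_lit 236) (nat_lit 5) (nat_lit 237) (nat_lit 5) (nat_lit 635) (nat_lit 568) (nat_lit 357)) (XT.lf (nat_lit 0) (nat_lit 1245574933) (nat_lit 456) (nat_lit 15030963022) (nat_lit 532) (nat_lit 6062854119) (nat_lit 223) (nat_lit 5) (nat_lit 229) (nat_lit 5) (nat_lit 230) (nat_lit 5) (nat_lit 636) (nat_lit 568) (nat_lit 356)))))) (XT.nd (nat_lit 546) (nat_lit 1748) (nat_lit 0) (XT.nd (nat_lit 234) (nat_lit 1444) (nat_lit 0) (XT.nd (nat_lit 78) (nat_lit 608) (nat_lit 0) (XT.lf (nat_lit 0) (nat_lit 14632379677) (nat_lit 456) (nat_lit 6324595707) (nat_lit 532) (nat_lit 1648516861) (nat_lit 223) (nat_lit 5) (nat_lit 229) (nat_lit 5) (nat_lit 230) (nat_lit 5) (nat_lit 637) (nat_lit 568) (nat_lit 355)) (XT.nd (nat_lit 78) (nat_lit 0) (nat_lit 0) (XT.lf (nat_lit 0) (nat_lit 2863686670) (nat_lit 608) (nat_lit 17437280527) (nat_lit 76) (nat_lit 2574636698) (nat_lit 215) (nat_lit 5) (nat_lit 223) (nat_lit 5) (nat_lit 216)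 (nat_lit 5) (nat_lit 638) (nat_lit 568) (nat_lit 354)) (XT.lf (nat_lit 0) (nat_lit 7534519422) (nat_lit 608) (nat_lit 3984608161) (nat_lit 76) (nat_lit 11629963400) (nat_lit 215) (nat_lit 5) (nat_lit 223) (nat_lit 5) (nat_lit 216) (nat_lit 5) (nat_lit 639) (nat_lit 568) (nat_lit 353)))) (XT.nd (nat_lit 156) (nat_lit 532) (nat_lit 0) (XT.nd (nat_lit 78) (nat_lit 456) (nat_lit 0) (XT.lf (nat_lit 0) (nat_lit 9859098239) (nat_lit 456) (nat_lit 2498481714) (nat_lit 532) (nat_lit 11069291948) (nat_lit 209) (nat_lit 5) (nat_lit 215) (nat_lit 5) (nat_lit 216) (nat_lit 5) (nat_lit 640) (nat_lit 568) (nat_lit 352)) (XT.lf (nat_lit 0) (nat_lit 276585860) (nat_lit 456) (nat_lit 17067585320) (nat_lit 532) (nat_lit 6364696169) (nat_lit 203) (nat_lit 5) (nat_lit 209) (nat_lit 5) (nat_lit 210) (nat_lit 5) (nat_lit 641) (nat_lit 568) (nat_lit 351))) (XT.nd (nat_lit 78) (nat_lit 532) (nat_lit 0) (XT.lf (nat_lit 0) (nat_lit 14557665162) (nat_lit 456) (nat_lit 7975207259) (nat_lit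 532) (nat_lit 1461583021) (nat_lit 203) (nat_lit 5) (nat_lit 209) (nat_lit 5) (nat_lit 210) (nat_lit 5) (nat_lit 642) (nat_lit 568) (nat_lit 350)) (XT.lf (nat_lit 0) (nat_lit 3528546220) (nat_lit 532) (nat_lit 19421255049) (nat_lit 76) (nat_lit 1334787159) (nat_lit 196) (nat_lit 5) (nat_lit 203) (nat_lit 5) (nat_lit 197) (nat_lit 5) (nat_lit 643) (nat_lit 568) (nat_lit 349))))) (XT.nd (nat_lit 234) (nat_lit 1292) (nat_lit 0) (XT.nd (nat_lit 78) (nat_lit 456) (nat_lit 0) (XT.lf (nat_lit 0) (nat_lit 8710485278) (nat_lit 532) (nat_lit 5072072460) (nat_lit 76) (nat_lit 10795541841) (nat_lit 196) (nat_lit 5) (nat_lit 203) (nat_lit 5) (nat_lit 197) (nat_lit 5) (nat_lit 644) (nat_lit 568) (nat_lit 348)) (XT.nd (nat_lit 78) (nat_lit 0) (nat_lit 0) (XT.lf (nat_lit 0) (nat_lit 9683965521) (nat_lit 456) (nat_lit 4370068779) (nat_lit 532) (nat_lit 10822287503) (nat_lit 190) (nat_lit 5) (nat_lit 196) (nat_lit 5) (nat_lit 197) (nat_lit 5) (nat_lit 645) (nat_lit 568) (nat_lit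 347)) (XT.lf (nat_lit 0) (nat_lit 19567809035) (nat_lit 532) (nat_lit 417307687) (nat_lit 76) (nat_lit 5194124924) (nat_lit 190) (nat_lit 5) (nat_lit 197) (nat_lit 5) (nat_lit 191) (nat_lit 5) (nat_lit 646) (nat_lit 568) (nat_lit 346)))) (XT.nd (nat_lit 156) (nat_lit 380) (nat_lit 0) (XT.nd (nat_lit 78) (nat_lit 532) (nat_lit 0) (XT.lf (nat_lit 0) (nat_lit 14811526375) (nat_lit 380) (nat_lit 10500667518) (nat_lit 456) (nat_lit 173619565) (nat_lit 185) (nat_lit 5) (nat_lit 190) (nat_lit 5) (nat_lit 191) (nat_lit 5) (nat_lit 647) (nat_lit 568) (nat_lit 345)) (XT.lf (nat_lit 0) (nat_lit 4570120093) (nat_lit 456) (nat_lit 760097807) (nat_lit 532) (nat_lit 20467046658) (nat_lit 178) (nat_lit 5) (nat_lit 184) (nat_lit 5) (nat_lit 185) (nat_lit 5) (nat_lit 648) (nat_lit 568) (nat_lit 344))) (XT.nd (nat_lit 78) (nat_lit 380) (nat_lit 0) (XT.lf (nat_lit 0) (nat_lit 11068763120) (nat_lit 532) (nat_lit 5917680929) (nat_lit 76) (nat_lit 9125938812) (nat_lit 178) (nat_lit 5)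 (nat_lit 185) (nat_lit 5) (nat_lit 179) (nat_lit 5) (nat_lit 649) (nat_lit 568) (nat_lit 343)) (XT.lf (nat_lit 0) (nat_lit 9814717907) (nat_lit 380) (nat_lit 7171488476) (nat_lit 456) (nat_lit 9446314849) (nat_lit 173) (nat_lit 5) (nat_lit 178) (nat_lit 5) (nat_lit 179) (nat_lit 5) (nat_lit 650) (nat_lit 568) (nat_lit 342))))))))
noncomputable def xc181 : XT := (XT.nd (nat_lit 75816) (nat_lit 0) (nat_lit 17860) (XT.nd (nat_lit 1014) (nat_lit 0) (nat_lit 0) (XT.nd (nat_lit 468) (nat_lit 1900) (nat_lit 0) (XT.nd (nat_lit 234) (nat_lit 380) (nat_lit 0) (XT.nd (nat_lit 78) (nat_lit 836) (nat_lit 0) (XT.lf (nat_lit 0) (nat_lit 23075810621) (nat_lit 456) (nat_lit 841961585) (nat_lit 76) (nat_lit 2840214161) (nat_lit 173) (nat_lit 5) (nat_lit 179) (nat_lit 5) (nat_lit 174) (nat_lit 5) (nat_lit 651) (nat_lit 568) (nat_lit 341)) (XT.nd (nat_lit 78) (nat_lit 380) (nat_lit 0) (XT.lf (nat_lit 0) (nat_lit 2312327081) (nat_lit 456) (nat_lit 11705313061) (nat_lit 76) (nat_lit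 13069157608) (nat_lit 167) (nat_lit 5) (nat_lit 173) (nat_lit 5) (nat_lit 168) (nat_lit 5) (nat_lit 652) (nat_lit 568) (nat_lit 340)) (XT.lf (nat_lit 0) (nat_lit 4547102427) (nat_lit 380) (nat_lit 3861074951) (nat_lit 456) (nat_lit 19012906191) (nat_lit 162) (nat_lit 5) (nat_lit 167) (nat_lit 5) (nat_lit 168) (nat_lit 5) (nat_lit 653) (nat_lit 568) (nat_lit 339)))) (XT.nd (nat_lit 78) (nat_lit 380) (nat_lit 0) (XT.lf (nat_lit 0) (nat_lit 14742741115) (nat_lit 456) (nat_lit 6526843210) (nat_lit 76) (nat_lit 6490135071) (nat_lit 162) (nat_lit 5) (nat_lit 168) (nat_lit 5) (nat_lit 163) (nat_lit 5) (nat_lit 654) (nat_lit 568) (nat_lit 338)) (XT.nd (nat_lit 78) (nat_lit 0) (nat_lit 0) (XT.lf (nat_lit 0) (nat_lit 10249343993) (nat_lit 380) (nat_lit 11042389344) (nat_lit 456) (nat_lit 6811640075) (nat_lit 157) (nat_lit 5) (nat_lit 162) (nat_lit 5) (nat_lit 163) (nat_lit 5) (nat_lit 655) (nat_lit 568) (nat_lit 337)) (XT.lf (nat_lit 0) (nat_lit 27442826950) (nat_lit 380)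 (nat_lit 568340986) (nat_lit 456) (nat_lit 441943533) (nat_lit 157) (nat_lit 5) (nat_lit 162) (nat_lit 5) (nat_lit 163) (nat_lit 5) (nat_lit 656) (nat_lit 568) (nat_lit 336))))) (XT.nd (nat_lit 234) (nat_lit 1064) (nat_lit 0) (XT.nd (nat_lit 78) (nat_lit 380) (nat_lit 0) (XT.lf (nat_lit 0) (nat_lit 6144156939) (nat_lit 456) (nat_lit 12534965111) (nat_lit 76) (nat_lit 10126567676) (nat_lit 151) (nat_lit 5) (nat_lit 157) (nat_lit 5) (nat_lit 152) (nat_lit 5) (nat_lit 657) (nat_lit 568) (nat_lit 335)) (XT.nd (nat_lit 78) (nat_lit 0) (nat_lit 0) (XT.lf (nat_lit 0) (nat_lit 4795368354) (nat_lit 380) (nat_lit 8098168556) (nat_lit 456) (nat_lit 16270974910) (nat_lit 146) (nat_lit 5) (nat_lit 151) (nat_lit 5) (nat_lit 152) (nat_lit 5) (nat_lit 658) (nat_lit 568) (nat_lit 334)) (XT.lf (nat_lit 0) (nat_lit 19875843130) (nat_lit 456) (nat_lit 6911333730) (nat_lit 76) (nat_lit 2741374919) (nat_lit 146) (nat_lit 5) (nat_lit 152) (nat_lit 5) (nat_lit 147) (nat_lit 5) (nat_lit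 659) (nat_lit 568) (nat_lit 333)))) (XT.nd (nat_lit 156) (nat_lit 684) (nat_lit 0) (XT.nd (nat_lit 78) (nat_lit 76) (nat_lit 0) (XT.lf (nat_lit 0) (nat_lit 10979452360) (nat_lit 304) (nat_lit 16139113684) (nat_lit 380) (nat_lit 2778891275) (nat_lit 142) (nat_lit 5) (nat_lit 146) (nat_lit 5) (nat_lit 147) (nat_lit 5) (nat_lit 660) (nat_lit 568) (nat_lit 332)) (XT.lf (nat_lit 0) (nat_lit 4219445660) (nat_lit 380) (nat_lit 985420110) (nat_lit 76) (nat_lit 25067474754) (nat_lit 141) (nat_lit 5) (nat_lit 146) (nat_lit 5) (nat_lit 142) (nat_lit 5) (nat_lit 661) (nat_lit 568) (nat_lit 331))) (XT.nd (nat_lit 78) (nat_lit 304) (nat_lit 0) (XT.lf (nat_lit 0) (nat_lit 11469690753) (nat_lit 456) (nat_lit 13181001078) (nat_lit 76) (nat_lit 6000679360) (nat_lit 136) (nat_lit 5) (nat_lit 142) (nat_lit 5) (nat_lit 137) (nat_lit 5) (nat_lit 662) (nat_lit 568) (nat_lit 330)) (XT.lf (nat_lit 0) (nat_lit 5299318693) (nat_lit 304) (nat_lit 13637124277) (nat_lit 380) (nat_lit 12100109634)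 (nat_lit 132) (nat_lit 5) (nat_lit 136) (nat_lit 5) (nat_lit 137) (nat_lit 5) (nat_lit 663) (nat_lit 568) (nat_lit 329)))))) (XT.nd (nat_lit 74256) (nat_lit 0) (nat_lit 27436) (XT.nd (nat_lit 73944) (nat_lit 0) (nat_lit 28880) (XT.nd (nat_lit 73788) (nat_lit 0) (nat_lit 28804) (XT.lf (nat_lit 0) (nat_lit 24321505980) (nat_lit 304) (nat_lit 2315482850) (nat_lit 380) (nat_lit 4790759818) (nat_lit 132) (nat_lit 5) (nat_lit 136) (nat_lit 5) (nat_lit 137) (nat_lit 5) (nat_lit 664) (nat_lit 568) (nat_lit 328)) (XT.nd (nat_lit 78) (nat_lit 0) (nat_lit 0) (XT.lf (nat_lit 0) (nat_lit 2026274231) (nat_lit 1748) (nat_lit 1762761372) (nat_lit 1748) (nat_lit 1762761372) (nat_lit 511) (nat_lit 3) (nat_lit 534) (nat_lit 3) (nat_lit 534) (nat_lit 5) (nat_lit 569) (nat_lit 569) (nat_lit 422)) (XT.lf (nat_lit 76) (nat_lit 1988036365) (nat_lit 0) (nat_lit 2678345285) (nat_lit 1748) (nat_lit 6536727864) (nat_lit 512) (nat_lit 5) (nat_lit 511) (nat_lit 3) (nat_lit 534) (nat_lit 5)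 (nat_lit 570) (nat_lit 569) (nat_lit 421)))) (XT.nd (nat_lit 156) (nat_lit 0) (nat_lit 76) (XT.nd (nat_lit 78) (nat_lit 0) (nat_lit 0) (XT.lf (nat_lit 0) (nat_lit 5316662828) (nat_lit 1672) (nat_lit 3667641706) (nat_lit 1748) (nat_lit 2319828853) (nat_lit 512) (nat_lit 5) (nat_lit 534) (nat_lit 5) (nat_lit 535) (nat_lit 5) (nat_lit 571) (nat_lit 569) (nat_lit 420)) (XT.lf (nat_lit 76) (nat_lit 1991333438) (nat_lit 0) (nat_lit 4004868529) (nat_lit 1748) (nat_lit 5410652117) (nat_lit 513) (nat_lit 5) (nat_lit 512) (nat_lit 5) (nat_lit 535) (nat_lit 5) (nat_lit 572) (nat_lit 569) (nat_lit 419))) (XT.nd (nat_lit 78) (nat_lit 0) (nat_lit 0) (XT.lf (nat_lit 0) (nat_lit 6706941010) (nat_lit 1672) (nat_lit 3713130048) (nat_lit 1748) (nat_lit 1091207323) (nat_lit 513) (nat_lit 5) (nat_lit 535) (nat_lit 5) (nat_lit 536) (nat_lit 5) (nat_lit 573) (nat_lit 569) (nat_lit 418)) (XT.lf (nat_lit 76) (nat_lit 2096378577) (nat_lit 0) (nat_lit 5361787080) (nat_lit 1748) (nat_lit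 4159101429) (nat_lit 514) (nat_lit 5) (nat_lit 513) (nat_lit 5) (nat_lit 536) (nat_lit 5) (nat_lit 574) (nat_lit 569) (nat_lit 417))))) (XT.nd (nat_lit 234) (nat_lit 1520) (nat_lit 0) (XT.nd (nat_lit 78) (nat_lit 0) (nat_lit 76) (XT.lf (nat_lit 76) (nat_lit 8064559958) (nat_lit 0) (nat_lit 171130184) (nat_lit 1748) (nat_lit 3489461232) (nat_lit 514) (nat_lit 5) (nat_lit 513) (nat_lit 5) (nat_lit 536) (nat_lit 5) (nat_lit 575) (nat_lit 569) (nat_lit 416)) (XT.nd (nat_lit 78) (nat_lit 0) (nat_lit 0) (XT.lf (nat_lit 76) (nat_lit 2305888041) (nat_lit 0) (nat_lit 6757775187) (nat_lit 1748) (nat_lit 2770833444) (nat_lit 515) (nat_lit 5) (nat_lit 514) (nat_lit 5) (nat_lit 537) (nat_lit 5) (nat_lit 576) (nat_lit 569) (nat_lit 415)) (XT.lf (nat_lit 76) (nat_lit 8432220043) (nat_lit 0) (nat_lit 1488538629) (nat_lit 1748) (nat_lit 2025020210) (nat_lit 515) (nat_lit 5) (nat_lit 514) (nat_lit 5) (nat_lit 537) (nat_lit 5) (nat_lit 577) (nat_lit 569) (nat_lit 414)))) (XT.nd (nat_lit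 156) (nat_lit 1672) (nat_lit 0) (XT.nd (nat_lit 78) (nat_lit 0) (nat_lit 0) (XT.lf (nat_lit 76) (nat_lit 2622875717) (nat_lit 0) (nat_lit 8201543690) (nat_lit 1748) (nat_lit 1234280097) (nat_lit 516) (nat_lit 5) (nat_lit 515) (nat_lit 5) (nat_lit 538) (nat_lit 5) (nat_lit 578) (nat_lit 569) (nat_lit 413)) (XT.lf (nat_lit 76) (nat_lit 8911645799) (nat_lit 0) (nat_lit 2855240876) (nat_lit 1748) (nat_lit 406578414) (nat_lit 516) (nat_lit 5) (nat_lit 515) (nat_lit 5) (nat_lit 538) (nat_lit 5) (nat_lit 579) (nat_lit 569) (nat_lit 412))) (XT.nd (nat_lit 78) (nat_lit 0) (nat_lit 0) (XT.lf (nat_lit 0) (nat_lit 456411255) (nat_lit 1748) (nat_lit 9242388597) (nat_lit 1824) (nat_lit 2591180982) (nat_lit 493) (nat_lit 5) (nat_lit 516) (nat_lit 5) (nat_lit 517) (nat_lit 5) (nat_lit 580) (nat_lit 569) (nat_lit 411)) (XT.lf (nat_lit 0) (nat_lit 1359911695) (nat_lit 1748) (nat_lit 2910991381) (nat_lit 1824) (nat_lit 8137297311) (nat_lit 493) (nat_lit 5) (nat_lit 516) (nat_lit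 5) (nat_lit 517) (nat_lit 5) (nat_lit 581) (nat_lit 569) (nat_lit 410))))))) (XT.nd (nat_lit 1092) (nat_lit 6384) (nat_lit 0) (XT.nd (nat_lit 546) (nat_lit 3268) (nat_lit 0) (XT.nd (nat_lit 234) (nat_lit 0) (nat_lit 76) (XT.nd (nat_lit 78) (nat_lit 0) (nat_lit 0) (XT.lf (nat_lit 0) (nat_lit 2301148837) (nat_lit 1748) (nat_lit 8950992747) (nat_lit 1824) (nat_lit 1276250534) (nat_lit 494) (nat_lit 5) (nat_lit 517) (nat_lit 5) (nat_lit 518) (nat_lit 5) (nat_lit 582) (nat_lit 569) (nat_lit 409)) (XT.nd (nat_lit 78) (nat_lit 0) (nat_lit 0) (XT.lf (nat_lit 0) (nat_lit 3297354190) (nat_lit 1748) (nat_lit 2452302883) (nat_lit 1824) (nat_lit 6900608842) (nat_lit 494) (nat_lit 5) (nat_lit 517) (nat_lit 5) (nat_lit 518) (nat_lit 5) (nat_lit 583) (nat_lit 569) (nat_lit 408)) (XT.lf (nat_lit 76) (nat_lit 4223607496) (nat_lit 0) (nat_lit 105725761) (nat_lit 1824) (nat_lit 8444928016) (nat_lit 495) (nat_lit 5) (nat_lit 494) (nat_lit 5) (nat_lit 518) (nat_lit 5) (nat_lit 584)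 (nat_lit 569) (nat_lit 407)))) (XT.nd (nat_lit 156) (nat_lit 0) (nat_lit 76) (XT.nd (nat_lit 78) (nat_lit 0) (nat_lit 0) (XT.lf (nat_lit 0) (nat_lit 5423830699) (nat_lit 1748) (nat_lit 1879272832) (nat_lit 1824) (nat_lit 5596796488) (nat_lit 495) (nat_lit 5) (nat_lit 518) (nat_lit 5) (nat_lit 519) (nat_lit 5) (nat_lit 585) (nat_lit 569) (nat_lit 406)) (XT.lf (nat_lit 76) (nat_lit 4981995382) (nat_lit 0) (nat_lit 1580115356) (nat_lit 1824) (nat_lit 6465503985) (nat_lit 496) (nat_lit 5) (nat_lit 495) (nat_lit 5) (nat_lit 519) (nat_lit 5) (nat_lit 586) (nat_lit 569) (nat_lit 405))) (XT.nd (nat_lit 78) (nat_lit 0) (nat_lit 0) (XT.lf (nat_lit 0) (nat_lit 7752522817) (nat_lit 1748) (nat_lit 1187758934) (nat_lit 1824) (nat_lit 4217015657) (nat_lit 496) (nat_lit 5) (nat_lit 519) (nat_lit 5) (nat_lit 520) (nat_lit 5) (nat_lit 587) (nat_lit 569) (nat_lit 404)) (XT.lf (nat_lit 76) (nat_lit 5865520235) (nat_lit 0) (nat_lit 3139015761) (nat_lit 1824) (nat_lit 4284282888) (nat_lit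 497) (nat_lit 5) (nat_lit 496) (nat_lit 5) (nat_lit 520) (nat_lit 5) (nat_lit 588) (nat_lit 569) (nat_lit 403))))) (XT.nd (nat_lit 234) (nat_lit 3496) (nat_lit 0) (XT.nd (nat_lit 78) (nat_lit 0) (nat_lit 0) (XT.lf (nat_lit 0) (nat_lit 10297070663) (nat_lit 1748) (nat_lit 373313504) (nat_lit 1824) (nat_lit 2752277977) (nat_lit 497) (nat_lit 5) (nat_lit 520) (nat_lit 5) (nat_lit 521) (nat_lit 5) (nat_lit 589) (nat_lit 569) (nat_lit 402)) (XT.nd (nat_lit 78) (nat_lit 0) (nat_lit 76) (XT.lf (nat_lit 76) (nat_lit 6878888965) (nat_lit 0) (nat_lit 4791644552) (nat_lit 1824) (nat_lit 1887548157) (nat_lit 498) (nat_lit 5) (nat_lit 497) (nat_lit 5) (nat_lit 521) (nat_lit 5) (nat_lit 590) (nat_lit 569) (nat_lit 401)) (XT.lf (nat_lit 76) (nat_lit 576380753) (nat_lit 0) (nat_lit 12498961189) (nat_lit 1824) (nat_lit 620791066) (nat_lit 499) (nat_lit 5) (nat_lit 498) (nat_lit 5) (nat_lit 522) (nat_lit 5) (nat_lit 591) (nat_lit 569) (nat_lit 400)))) (XT.nd (nat_lit 156) (nat_lit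 1748) (nat_lit 0) (XT.nd (nat_lit 78) (nat_lit 0) (nat_lit 0) (XT.lf (nat_lit 0) (nat_lit 729216832) (nat_lit 1824) (nat_lit 5813290405) (nat_lit 1900) (nat_lit 7293017464) (nat_lit 474) (nat_lit 5) (nat_lit 498) (nat_lit 5) (nat_lit 499) (nat_lit 5) (nat_lit 592) (nat_lit 569) (nat_lit 399)) (XT.lf (nat_lit 76) (nat_lit 1648518679) (nat_lit 0) (nat_lit 450172933) (nat_lit 1900) (nat_lit 11878915850) (nat_lit 475) (nat_lit 5) (nat_lit 474) (nat_lit 5) (nat_lit 499) (nat_lit 5) (nat_lit 593) (nat_lit 569) (nat_lit 398))) (XT.nd (nat_lit 78) (nat_lit 1824) (nat_lit 0) (XT.lf (nat_lit 0) (nat_lit 3562467658) (nat_lit 1824) (nat_lit 4829512798) (nat_lit 76) (nat_lit 5729214053) (nat_lit 475) (nat_lit 5) (nat_lit 499) (nat_lit 5) (nat_lit 476) (nat_lit 5) (nat_lit 594) (nat_lit 569) (nat_lit 397)) (XT.lf (nat_lit 0) (nat_lit 2846122760) (nat_lit 1824) (nat_lit 2221267856) (nat_lit 1900) (nat_lit 9200026104) (nat_lit 451) (nat_lit 5) (nat_lit 475) (nat_lit 5) (nat_lit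 476) (nat_lit 5) (nat_lit 595) (nat_lit 569) (nat_lit 396)))))) (XT.nd (nat_lit 546) (nat_lit 2584) (nat_lit 0) (XT.nd (nat_lit 234) (nat_lit 2736) (nat_lit 0) (XT.nd (nat_lit 78) (nat_lit 1064) (nat_lit 0) (XT.lf (nat_lit 0) (nat_lit 6652032744) (nat_lit 1900) (nat_lit 3710258711) (nat_lit 76) (nat_lit 4053280338) (nat_lit 451) (nat_lit 5) (nat_lit 476) (nat_lit 5) (nat_lit 452) (nat_lit 5) (nat_lit 596) (nat_lit 569) (nat_lit 395)) (XT.nd (nat_lit 78) (nat_lit 0) (nat_lit 0) (XT.lf (nat_lit 0) (nat_lit 4186942972) (nat_lit 1064) (nat_lit 4114058566) (nat_lit 1140) (nat_lit 6265036570) (nat_lit 437) (nat_lit 5) (nat_lit 451) (nat_lit 5) (nat_lit 452) (nat_lit 5) (nat_lit 597) (nat_lit 569) (nat_lit 394)) (XT.lf (nat_lit 0) (nat_lit 10013553618) (nat_lit 1140) (nat_lit 2449857861) (nat_lit 76) (nat_lit 2255490994) (nat_lit 437) (nat_lit 5) (nat_lit 452) (nat_lit 5) (nat_lit 438) (nat_lit 5) (nat_lit 598) (nat_lit 569) (nat_lit 393)))) (XT.nd (nat_lit 156) (nat_lit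 1824) (nat_lit 0) (XT.nd (nat_lit 78) (nat_lit 0) (nat_lit 0) (XT.lf (nat_lit 0) (nat_lit 5676945870) (nat_lit 912) (nat_lit 6138567146) (nat_lit 988) (nat_lit 3058208769) (nat_lit 425) (nat_lit 5) (nat_lit 437) (nat_lit 5) (nat_lit 438) (nat_lit 5) (nat_lit 599) (nat_lit 569) (nat_lit 392)) (XT.lf (nat_lit 0) (nat_lit 13663270021) (nat_lit 988) (nat_lit 1042308571) (nat_lit 76) (nat_lit 325864492) (nat_lit 425) (nat_lit 5) (nat_lit 438) (nat_lit 5) (nat_lit 426) (nat_lit 5) (nat_lit 600) (nat_lit 569) (nat_lit 391))) (XT.nd (nat_lit 78) (nat_lit 836) (nat_lit 0) (XT.lf (nat_lit 0) (nat_lit 431071657) (nat_lit 988) (nat_lit 7871124758) (nat_lit 76) (nat_lit 6888475491) (nat_lit 412) (nat_lit 5) (nat_lit 425) (nat_lit 5) (nat_lit 413) (nat_lit 5) (nat_lit 601) (nat_lit 569) (nat_lit 390)) (XT.lf (nat_lit 0) (nat_lit 499009274) (nat_lit 836) (nat_lit 1750681392) (nat_lit 912) (nat_lit 13103180308) (nat_lit 401) (nat_lit 5) (nat_lit 412) (nat_lit 5) (nat_lit 413)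 (nat_lit 5) (nat_lit 602) (nat_lit 569) (nat_lit 389))))) (XT.nd (nat_lit 234) (nat_lit 1748) (nat_lit 0) (XT.nd (nat_lit 78) (nat_lit 836) (nat_lit 0) (XT.lf (nat_lit 0) (nat_lit 4181400594) (nat_lit 912) (nat_lit 6414756478) (nat_lit 76) (nat_lit 4920623291) (nat_lit 401) (nat_lit 5) (nat_lit 413) (nat_lit 5) (nat_lit 402) (nat_lit 5) (nat_lit 603) (nat_lit 569) (nat_lit 388)) (XT.nd (nat_lit 78) (nat_lit 0) (nat_lit 0) (XT.lf (nat_lit 0) (nat_lit 2202214201) (nat_lit 836) (nat_lit 3967117201) (nat_lit 912) (nat_lit 9514285502) (nat_lit 390) (nat_lit 5) (nat_lit 401) (nat_lit 5) (nat_lit 402) (nat_lit 5) (nat_lit 604) (nat_lit 569) (nat_lit 387)) (XT.lf (nat_lit 0) (nat_lit 8250300811) (nat_lit 912) (nat_lit 4801196153) (nat_lit 76) (nat_lit 2801228295) (nat_lit 390) (nat_lit 5) (nat_lit 402) (nat_lit 5) (nat_lit 391) (nat_lit 5) (nat_lit 605) (nat_lit 569) (nat_lit 386)))) (XT.nd (nat_lit 156) (nat_lit 912) (nat_lit 0) (XT.nd (nat_lit 78) (nat_lit 0) (nat_lit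 0) (XT.lf (nat_lit 0) (nat_lit 4071588841) (nat_lit 836) (nat_lit 6345973959) (nat_lit 912) (nat_lit 5606760188) (nat_lit 379) (nat_lit 5) (nat_lit 390) (nat_lit 5) (nat_lit 391) (nat_lit 5) (nat_lit 606) (nat_lit 569) (nat_lit 385)) (XT.lf (nat_lit 0) (nat_lit 12655876406) (nat_lit 912) (nat_lit 3023473335) (nat_lit 76) (nat_lit 519449460) (nat_lit 379) (nat_lit 5) (nat_lit 391) (nat_lit 5) (nat_lit 380) (nat_lit 5) (nat_lit 607) (nat_lit 569) (nat_lit 384))) (XT.nd (nat_lit 78) (nat_lit 76) (nat_lit 0) (XT.lf (nat_lit 0) (nat_lit 6114442790) (nat_lit 836) (nat_lit 8898463624) (nat_lit 912) (nat_lit 1362380166) (nat_lit 368) (nat_lit 5) (nat_lit 379) (nat_lit 5) (nat_lit 380) (nat_lit 5) (nat_lit 608) (nat_lit 569) (nat_lit 383)) (XT.lf (nat_lit 0) (nat_lit 863168047) (nat_lit 912) (nat_lit 1092671920) (nat_lit 76) (nat_lit 14599098513) (nat_lit 367) (nat_lit 5) (nat_lit 379) (nat_lit 5) (nat_lit 368) (nat_lit 5) (nat_lit 609) (nat_lit 569) (nat_lit 382))))))))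
noncomputable def xc182 : XT := (XT.nd (nat_lit 2106) (nat_lit 7068) (nat_lit 0) (XT.nd (nat_lit 1014) (nat_lit 4712) (nat_lit 0) (XT.nd (nat_lit 468) (nat_lit 2812) (nat_lit 0) (XT.nd (nat_lit 234) (nat_lit 1444) (nat_lit 0) (XT.nd (nat_lit 78) (nat_lit 760) (nat_lit 0) (XT.lf (nat_lit 0) (nat_lit 3195345022) (nat_lit 836) (nat_lit 8419380830) (nat_lit 76) (nat_lit 5121670865) (nat_lit 357) (nat_lit 5) (nat_lit 368) (nat_lit 5) (nat_lit 358) (nat_lit 5) (nat_lit 610) (nat_lit 569) (nat_lit 381)) (XT.nd (nat_lit 78) (nat_lit 0) (nat_lit 0) (XT.lf (nat_lit 0) (nat_lit 1000410274) (nat_lit 760) (nat_lit 4593103275) (nat_lit 836) (nat_lit 11327584204) (nat_lit 347) (nat_lit 5) (nat_lit 357) (nat_lit 5) (nat_lit 358) (nat_lit 5) (nat_lit 611) (nat_lit 569) (nat_lit 380)) (XT.lf (nat_lit 0) (nat_lit 8105806971) (nat_lit 836) (nat_lit 6410863783) (nat_lit 76) (nat_lit 2591499411) (nat_lit 347) (nat_lit 5) (nat_lit 358) (nat_lit 5) (nat_lit 348) (nat_lit 5) (nat_lit 612)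 (nat_lit 569) (nat_lit 379)))) (XT.nd (nat_lit 78) (nat_lit 760) (nat_lit 0) (XT.lf (nat_lit 0) (nat_lit 3293927599) (nat_lit 684) (nat_lit 7418977380) (nat_lit 760) (nat_lit 6585188442) (nat_lit 338) (nat_lit 5) (nat_lit 347) (nat_lit 5) (nat_lit 348) (nat_lit 5) (nat_lit 613) (nat_lit 569) (nat_lit 378)) (XT.nd (nat_lit 78) (nat_lit 760) (nat_lit 0) (XT.lf (nat_lit 0) (nat_lit 13271757124) (nat_lit 684) (nat_lit 136252946) (nat_lit 760) (nat_lit 4083088331) (nat_lit 338) (nat_lit 5) (nat_lit 347) (nat_lit 5) (nat_lit 348) (nat_lit 5) (nat_lit 614) (nat_lit 569) (nat_lit 377)) (XT.lf (nat_lit 0) (nat_lit 5781724483) (nat_lit 760) (nat_lit 10453156921) (nat_lit 836) (nat_lit 1451525341) (nat_lit 328) (nat_lit 5) (nat_lit 338) (nat_lit 5) (nat_lit 339) (nat_lit 5) (nat_lit 615) (nat_lit 569) (nat_lit 376))))) (XT.nd (nat_lit 234) (nat_lit 1368) (nat_lit 0) (XT.nd (nat_lit 78) (nat_lit 1368) (nat_lit 0) (XT.lf (nat_lit 0) (nat_lit 1238926110) (nat_lit 836) (nat_lit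 1862121665) (nat_lit 76) (nat_lit 14783965469) (nat_lit 327) (nat_lit 5) (nat_lit 338) (nat_lit 5) (nat_lit 328) (nat_lit 5) (nat_lit 616) (nat_lit 569) (nat_lit 375)) (XT.nd (nat_lit 78) (nat_lit 684) (nat_lit 0) (XT.lf (nat_lit 0) (nat_lit 4040928196) (nat_lit 760) (nat_lit 9640407901) (nat_lit 76) (nat_lit 4404520851) (nat_lit 318) (nat_lit 5) (nat_lit 328) (nat_lit 5) (nat_lit 319) (nat_lit 5) (nat_lit 617) (nat_lit 569) (nat_lit 374)) (XT.lf (nat_lit 0) (nat_lit 674268193) (nat_lit 684) (nat_lit 6255429278) (nat_lit 760) (nat_lit 11360406018) (nat_lit 309) (nat_lit 5) (nat_lit 318) (nat_lit 5) (nat_lit 319) (nat_lit 5) (nat_lit 618) (nat_lit 569) (nat_lit 373)))) (XT.nd (nat_lit 156) (nat_lit 760) (nat_lit 0) (XT.nd (nat_lit 78) (nat_lit 608) (nat_lit 0) (XT.lf (nat_lit 0) (nat_lit 9943234754) (nat_lit 760) (nat_lit 7188192484) (nat_lit 76) (nat_lit 1365668370) (nat_lit 309) (nat_lit 5) (nat_lit 319) (nat_lit 5) (nat_lit 310) (nat_lit 5) (nat_lit 619) (nat_lit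 569) (nat_lit 372)) (XT.lf (nat_lit 0) (nat_lit 3443925357) (nat_lit 608) (nat_lit 9630343758) (nat_lit 684) (nat_lit 5632814416) (nat_lit 301) (nat_lit 5) (nat_lit 309) (nat_lit 5) (nat_lit 310) (nat_lit 5) (nat_lit 620) (nat_lit 569) (nat_lit 371))) (XT.nd (nat_lit 78) (nat_lit 760) (nat_lit 0) (XT.lf (nat_lit 0) (nat_lit 14378355992) (nat_lit 608) (nat_lit 1931322336) (nat_lit 684) (nat_lit 2610758279) (nat_lit 301) (nat_lit 5) (nat_lit 309) (nat_lit 5) (nat_lit 310) (nat_lit 5) (nat_lit 621) (nat_lit 569) (nat_lit 370)) (XT.lf (nat_lit 0) (nat_lit 539882737) (nat_lit 760) (nat_lit 12708544276) (nat_lit 76) (nat_lit 5888082322) (nat_lit 291) (nat_lit 5) (nat_lit 301) (nat_lit 5) (nat_lit 292) (nat_lit 5) (nat_lit 622) (nat_lit 569) (nat_lit 369)))))) (XT.nd (nat_lit 546) (nat_lit 2204) (nat_lit 0) (XT.nd (nat_lit 234) (nat_lit 1292) (nat_lit 0) (XT.nd (nat_lit 78) (nat_lit 1216) (nat_lit 0) (XT.lf (nat_lit 0) (nat_lit 3755752341) (nat_lit 760) (nat_lit 1715363225)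 (nat_lit 76) (nat_lit 13884699783) (nat_lit 291) (nat_lit 5) (nat_lit 301) (nat_lit 5) (nat_lit 292) (nat_lit 5) (nat_lit 623) (nat_lit 569) (nat_lit 368)) (XT.nd (nat_lit 78) (nat_lit 608) (nat_lit 0) (XT.lf (nat_lit 0) (nat_lit 7108555018) (nat_lit 684) (nat_lit 9978587407) (nat_lit 76) (nat_lit 2490913187) (nat_lit 283) (nat_lit 5) (nat_lit 292) (nat_lit 5) (nat_lit 284) (nat_lit 5) (nat_lit 624) (nat_lit 569) (nat_lit 367)) (XT.lf (nat_lit 0) (nat_lit 1332829934) (nat_lit 608) (nat_lit 9245913937) (nat_lit 684) (nat_lit 9224990640) (nat_lit 275) (nat_lit 5) (nat_lit 283) (nat_lit 5) (nat_lit 284) (nat_lit 5) (nat_lit 625) (nat_lit 569) (nat_lit 366)))) (XT.nd (nat_lit 156) (nat_lit 684) (nat_lit 0) (XT.nd (nat_lit 78) (nat_lit 608) (nat_lit 0) (XT.lf (nat_lit 0) (nat_lit 12998108935) (nat_lit 608) (nat_lit 1181116796) (nat_lit 684) (nat_lit 5853483898) (nat_lit 275) (nat_lit 5) (nat_lit 283) (nat_lit 5) (nat_lit 284) (nat_lit 5) (nat_lit 626) (nat_lit 569)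 (nat_lit 365)) (XT.lf (nat_lit 0) (nat_lit 4637926802) (nat_lit 608) (nat_lit 13283680393) (nat_lit 684) (nat_lit 2343259670) (nat_lit 267) (nat_lit 5) (nat_lit 275) (nat_lit 5) (nat_lit 276) (nat_lit 5) (nat_lit 627) (nat_lit 569) (nat_lit 364))) (XT.nd (nat_lit 78) (nat_lit 608) (nat_lit 0) (XT.lf (nat_lit 0) (nat_lit 1270349151) (nat_lit 684) (nat_lit 3885247917) (nat_lit 76) (nat_lit 15344921813) (nat_lit 266) (nat_lit 5) (nat_lit 275) (nat_lit 5) (nat_lit 267) (nat_lit 5) (nat_lit 628) (nat_lit 569) (nat_lit 363)) (XT.lf (nat_lit 0) (nat_lit 4992944194) (nat_lit 684) (nat_lit 12584912983) (nat_lit 76) (nat_lit 3161355568) (nat_lit 258) (nat_lit 5) (nat_lit 267) (nat_lit 5) (nat_lit 259) (nat_lit 5) (nat_lit 629) (nat_lit 569) (nat_lit 362))))) (XT.nd (nat_lit 234) (nat_lit 1140) (nat_lit 0) (XT.nd (nat_lit 78) (nat_lit 1064) (nat_lit 0) (XT.lf (nat_lit 0) (nat_lit 8844615679) (nat_lit 684) (nat_lit 536695257) (nat_lit 76) (nat_lit 11600277444) (nat_lit 258)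 (nat_lit 5) (nat_lit 267) (nat_lit 5) (nat_lit 259) (nat_lit 5) (nat_lit 630) (nat_lit 569) (nat_lit 361)) (XT.nd (nat_lit 78) (nat_lit 532) (nat_lit 0) (XT.lf (nat_lit 0) (nat_lit 11901196211) (nat_lit 532) (nat_lit 943744638) (nat_lit 608) (nat_lit 8382438652) (nat_lit 251) (nat_lit 5) (nat_lit 258) (nat_lit 5) (nat_lit 259) (nat_lit 5) (nat_lit 631) (nat_lit 569) (nat_lit 360)) (XT.lf (nat_lit 0) (nat_lit 3100567067) (nat_lit 532) (nat_lit 13892613956) (nat_lit 608) (nat_lit 4483547620) (nat_lit 244) (nat_lit 5) (nat_lit 251) (nat_lit 5) (nat_lit 252) (nat_lit 5) (nat_lit 632) (nat_lit 569) (nat_lit 359)))) (XT.nd (nat_lit 156) (nat_lit 532) (nat_lit 0) (XT.nd (nat_lit 78) (nat_lit 608) (nat_lit 0) (XT.lf (nat_lit 0) (nat_lit 15888557944) (nat_lit 532) (nat_lit 5399084053) (nat_lit 608) (nat_lit 442158015) (nat_lit 244) (nat_lit 5) (nat_lit 251) (nat_lit 5) (nat_lit 252) (nat_lit 5) (nat_lit 633) (nat_lit 569) (nat_lit 358)) (XT.lf (nat_lit 0) (nat_lit 3693453527)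 (nat_lit 608) (nat_lit 15003250212) (nat_lit 76) (nat_lit 3289518373) (nat_lit 236) (nat_lit 5) (nat_lit 244) (nat_lit 5) (nat_lit 237) (nat_lit 5) (nat_lit 634) (nat_lit 569) (nat_lit 357))) (XT.nd (nat_lit 78) (nat_lit 532) (nat_lit 0) (XT.lf (nat_lit 0) (nat_lit 7975659019) (nat_lit 608) (nat_lit 2150439165) (nat_lit 76) (nat_lit 12120220316) (nat_lit 236) (nat_lit 5) (nat_lit 244) (nat_lit 5) (nat_lit 237) (nat_lit 5) (nat_lit 635) (nat_lit 569) (nat_lit 356)) (XT.lf (nat_lit 0) (nat_lit 11097764658) (nat_lit 532) (nat_lit 1312487971) (nat_lit 608) (nat_lit 10100029639) (nat_lit 229) (nat_lit 5) (nat_lit 236) (nat_lit 5) (nat_lit 237) (nat_lit 5) (nat_lit 636) (nat_lit 569) (nat_lit 355))))))) (XT.nd (nat_lit 1014) (nat_lit 3192) (nat_lit 0) (XT.nd (nat_lit 468) (nat_lit 1900) (nat_lit 0) (XT.nd (nat_lit 234) (nat_lit 912) (nat_lit 0) (XT.nd (nat_lit 78) (nat_lit 608) (nat_lit 0) (XT.lf (nat_lit 0) (nat_lit 1827614684) (nat_lit 456) (nat_lit 15176897536) (nat_lit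 532) (nat_lit 5773593940) (nat_lit 223) (nat_lit 5) (nat_lit 229) (nat_lit 5) (nat_lit 230) (nat_lit 5) (nat_lit 637) (nat_lit 569) (nat_lit 354)) (XT.nd (nat_lit 78) (nat_lit 608) (nat_lit 0) (XT.lf (nat_lit 0) (nat_lit 15471231440) (nat_lit 456) (nat_lit 6299435909) (nat_lit 532) (nat_lit 1279019295) (nat_lit 223) (nat_lit 5) (nat_lit 229) (nat_lit 5) (nat_lit 230) (nat_lit 5) (nat_lit 638) (nat_lit 569) (nat_lit 353)) (XT.lf (nat_lit 0) (nat_lit 3314924868) (nat_lit 608) (nat_lit 17231271161) (nat_lit 76) (nat_lit 2779017204) (nat_lit 215) (nat_lit 5) (nat_lit 223) (nat_lit 5) (nat_lit 216) (nat_lit 5) (nat_lit 639) (nat_lit 569) (nat_lit 352)))) (XT.nd (nat_lit 78) (nat_lit 912) (nat_lit 0) (XT.lf (nat_lit 0) (nat_lit 8071449482) (nat_lit 608) (nat_lit 3520422896) (nat_lit 76) (nat_lit 12012452641) (nat_lit 215) (nat_lit 5) (nat_lit 223) (nat_lit 5) (nat_lit 216) (nat_lit 5) (nat_lit 640) (nat_lit 569) (nat_lit 351)) (XT.nd (nat_lit 78) (nat_lit 456) (nat_lit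 0) (XT.lf (nat_lit 0) (nat_lit 10596579491) (nat_lit 456) (nat_lit 2390326387) (nat_lit 532) (nat_lit 10900837434) (nat_lit 209) (nat_lit 5) (nat_lit 215) (nat_lit 5) (nat_lit 216) (nat_lit 5) (nat_lit 641) (nat_lit 569) (nat_lit 350)) (XT.lf (nat_lit 0) (nat_lit 825457958) (nat_lit 456) (nat_lit 17244811605) (nat_lit 532) (nat_lit 6105168736) (nat_lit 203) (nat_lit 5) (nat_lit 209) (nat_lit 5) (nat_lit 210) (nat_lit 5) (nat_lit 642) (nat_lit 569) (nat_lit 349))))) (XT.nd (nat_lit 234) (nat_lit 1368) (nat_lit 0) (XT.nd (nat_lit 78) (nat_lit 532) (nat_lit 0) (XT.lf (nat_lit 0) (nat_lit 15381505113) (nat_lit 456) (nat_lit 7973804128) (nat_lit 532) (nat_lit 1111578057) (nat_lit 203) (nat_lit 5) (nat_lit 209) (nat_lit 5) (nat_lit 210) (nat_lit 5) (nat_lit 643) (nat_lit 569) (nat_lit 348)) (XT.nd (nat_lit 78) (nat_lit 0) (nat_lit 0) (XT.lf (nat_lit 0) (nat_lit 3970572729) (nat_lit 532) (nat_lit 19269170400) (nat_lit 76) (nat_lit 1523087133) (nat_lit 196) (nat_lit 5)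 (nat_lit 203) (nat_lit 5) (nat_lit 197) (nat_lit 5) (nat_lit 644) (nat_lit 569) (nat_lit 347)) (XT.lf (nat_lit 0) (nat_lit 9248867125) (nat_lit 532) (nat_lit 4643602389) (nat_lit 76) (nat_lit 11169888198) (nat_lit 196) (nat_lit 5) (nat_lit 203) (nat_lit 5) (nat_lit 197) (nat_lit 5) (nat_lit 645) (nat_lit 569) (nat_lit 346)))) (XT.nd (nat_lit 156) (nat_lit 532) (nat_lit 0) (XT.nd (nat_lit 78) (nat_lit 380) (nat_lit 0) (XT.lf (nat_lit 0) (nat_lit 10404070091) (nat_lit 456) (nat_lit 4291494308) (nat_lit 532) (nat_lit 10671054837) (nat_lit 190) (nat_lit 5) (nat_lit 196) (nat_lit 5) (nat_lit 197) (nat_lit 5) (nat_lit 646) (nat_lit 569) (nat_lit 345)) (XT.lf (nat_lit 0) (nat_lit 97762287) (nat_lit 380) (nat_lit 20216475940) (nat_lit 456) (nat_lit 5361467170) (nat_lit 185) (nat_lit 5) (nat_lit 190) (nat_lit 5) (nat_lit 191) (nat_lit 5) (nat_lit 647) (nat_lit 569) (nat_lit 344))) (XT.nd (nat_lit 78) (nat_lit 456) (nat_lit 0) (XT.lf (nat_lit 0) (nat_lit 178429412) (nat_lit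 456) (nat_lit 10363211475) (nat_lit 76) (nat_lit 15446829001) (nat_lit 184) (nat_lit 5) (nat_lit 190) (nat_lit 5) (nat_lit 185) (nat_lit 5) (nat_lit 648) (nat_lit 569) (nat_lit 343)) (XT.lf (nat_lit 0) (nat_lit 5181490550) (nat_lit 456) (nat_lit 604980996) (nat_lit 532) (nat_lit 20519726827) (nat_lit 178) (nat_lit 5) (nat_lit 184) (nat_lit 5) (nat_lit 185) (nat_lit 5) (nat_lit 649) (nat_lit 569) (nat_lit 342)))))) (XT.nd (nat_lit 546) (nat_lit 1596) (nat_lit 0) (XT.nd (nat_lit 234) (nat_lit 1216) (nat_lit 0) (XT.nd (nat_lit 78) (nat_lit 380) (nat_lit 0) (XT.lf (nat_lit 0) (nat_lit 11634015942) (nat_lit 532) (nat_lit 5520472088) (nat_lit 76) (nat_lit 9473246810) (nat_lit 178) (nat_lit 5) (nat_lit 185) (nat_lit 5) (nat_lit 179) (nat_lit 5) (nat_lit 650) (nat_lit 569) (nat_lit 341)) (XT.nd (nat_lit 78) (nat_lit 0) (nat_lit 0) (XT.lf (nat_lit 0) (nat_lit 10523182867) (nat_lit 380) (nat_lit 7143207858) (nat_lit 456) (nat_lit 9287953956) (nat_lit 173) (nat_lit 5) (nat_lit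 178) (nat_lit 5) (nat_lit 179) (nat_lit 5) (nat_lit 651) (nat_lit 569) (nat_lit 340)) (XT.lf (nat_lit 0) (nat_lit 23872204354) (nat_lit 456) (nat_lit 351072659) (nat_lit 76) (nat_lit 3063154106) (nat_lit 173) (nat_lit 5) (nat_lit 179) (nat_lit 5) (nat_lit 174) (nat_lit 5) (nat_lit 652) (nat_lit 569) (nat_lit 339)))) (XT.nd (nat_lit 156) (nat_lit 380) (nat_lit 0) (XT.nd (nat_lit 78) (nat_lit 380) (nat_lit 0) (XT.lf (nat_lit 0) (nat_lit 2692372531) (nat_lit 456) (nat_lit 11430578723) (nat_lit 76) (nat_lit 13498889726) (nat_lit 167) (nat_lit 5) (nat_lit 173) (nat_lit 5) (nat_lit 168) (nat_lit 5) (nat_lit 653) (nat_lit 569) (nat_lit 338)) (XT.lf (nat_lit 0) (nat_lit 5143537439) (nat_lit 380) (nat_lit 3763339313) (nat_lit 456) (nat_lit 19056001352) (nat_lit 162) (nat_lit 5) (nat_lit 167) (nat_lit 5) (nat_lit 168) (nat_lit 5) (nat_lit 654) (nat_lit 569) (nat_lit 337))) (XT.nd (nat_lit 78) (nat_lit 380) (nat_lit 0) (XT.lf (nat_lit 0) (nat_lit 15362764334) (nat_lit 456)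 (nat_lit 6156415210) (nat_lit 76) (nat_lit 6789214775) (nat_lit 162) (nat_lit 5) (nat_lit 168) (nat_lit 5) (nat_lit 163) (nat_lit 5) (nat_lit 655) (nat_lit 569) (nat_lit 336)) (XT.lf (nat_lit 0) (nat_lit 10951999915) (nat_lit 380) (nat_lit 11087591831) (nat_lit 456) (nat_lit 6619392877) (nat_lit 157) (nat_lit 5) (nat_lit 162) (nat_lit 5) (nat_lit 163) (nat_lit 5) (nat_lit 656) (nat_lit 569) (nat_lit 335))))) (XT.nd (nat_lit 234) (nat_lit 760) (nat_lit 0) (XT.nd (nat_lit 78) (nat_lit 836) (nat_lit 0) (XT.lf (nat_lit 0) (nat_lit 28479594315) (nat_lit 380) (nat_lit 407506532) (nat_lit 456) (nat_lit 128743188) (nat_lit 157) (nat_lit 5) (nat_lit 162) (nat_lit 5) (nat_lit 163) (nat_lit 5) (nat_lit 657) (nat_lit 569) (nat_lit 334)) (XT.nd (nat_lit 78) (nat_lit 380) (nat_lit 0) (XT.lf (nat_lit 0) (nat_lit 6582929071) (nat_lit 456) (nat_lit 12291573326) (nat_lit 76) (nat_lit 10500968472) (nat_lit 151) (nat_lit 5) (nat_lit 157) (nat_lit 5) (nat_lit 152) (nat_lit 5) (nat_lit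 658) (nat_lit 569) (nat_lit 333)) (XT.lf (nat_lit 0) (nat_lit 5382116209) (nat_lit 380) (nat_lit 8082173393) (nat_lit 456) (nat_lit 16277240235) (nat_lit 146) (nat_lit 5) (nat_lit 151) (nat_lit 5) (nat_lit 152) (nat_lit 5) (nat_lit 659) (nat_lit 569) (nat_lit 332)))) (XT.nd (nat_lit 156) (nat_lit 456) (nat_lit 0) (XT.nd (nat_lit 78) (nat_lit 304) (nat_lit 0) (XT.lf (nat_lit 0) (nat_lit 20581239776) (nat_lit 456) (nat_lit 6563327776) (nat_lit 76) (nat_lit 2968383374) (nat_lit 146) (nat_lit 5) (nat_lit 152) (nat_lit 5) (nat_lit 147) (nat_lit 5) (nat_lit 660) (nat_lit 569) (nat_lit 331)) (XT.lf (nat_lit 0) (nat_lit 11682075137) (nat_lit 304) (nat_lit 16283841328) (nat_lit 380) (nat_lit 2523376405) (nat_lit 142) (nat_lit 5) (nat_lit 146) (nat_lit 5) (nat_lit 147) (nat_lit 5) (nat_lit 661) (nat_lit 569) (nat_lit 330))) (XT.nd (nat_lit 78) (nat_lit 380) (nat_lit 0) (XT.lf (nat_lit 0) (nat_lit 4604827376) (nat_lit 380) (nat_lit 527552527) (nat_lit 76) (nat_lit 25739374107)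 (nat_lit 141) (nat_lit 5) (nat_lit 146) (nat_lit 5) (nat_lit 142) (nat_lit 5) (nat_lit 662) (nat_lit 569) (nat_lit 329)) (XT.lf (nat_lit 0) (nat_lit 11998400306) (nat_lit 456) (nat_lit 12965354844) (nat_lit 76) (nat_lit 6294643945) (nat_lit 136) (nat_lit 5) (nat_lit 142) (nat_lit 5) (nat_lit 137) (nat_lit 5) (nat_lit 663) (nat_lit 569) (nat_lit 328))))))))
noncomputable def xc183 : XT := (XT.nd (nat_lit 75894) (nat_lit 0) (nat_lit 12084) (XT.nd (nat_lit 74802) (nat_lit 0) (nat_lit 25992) (XT.nd (nat_lit 74256) (nat_lit 0) (nat_lit 27360) (XT.nd (nat_lit 74022) (nat_lit 0) (nat_lit 28880) (XT.nd (nat_lit 73866) (nat_lit 0) (nat_lit 28804) (XT.lf (nat_lit 0) (nat_lit 5881418255) (nat_lit 304) (nat_lit 13730291619) (nat_lit 380) (nat_lit 12039630075) (nat_lit 132) (nat_lit 5) (nat_lit 136) (nat_lit 5) (nat_lit 137) (nat_lit 5) (nat_lit 664) (nat_lit 569) (nat_lit 327)) (XT.nd (nat_lit 78) (nat_lit 0) (nat_lit 0) (XT.lf (nat_lit 0) (nat_lit 2623561280) (nat_lit 1748)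 (nat_lit 1514041267) (nat_lit 1748) (nat_lit 1514041267) (nat_lit 511) (nat_lit 3) (nat_lit 534) (nat_lit 3) (nat_lit 534) (nat_lit 5) (nat_lit 570) (nat_lit 570) (nat_lit 420)) (XT.lf (nat_lit 76) (nat_lit 2592011239) (nat_lit 0) (nat_lit 3263050640) (nat_lit 1748) (nat_lit 5550097151) (nat_lit 512) (nat_lit 5) (nat_lit 511) (nat_lit 3) (nat_lit 534) (nat_lit 5) (nat_lit 571) (nat_lit 570) (nat_lit 419)))) (XT.nd (nat_lit 78) (nat_lit 0) (nat_lit 0) (XT.lf (nat_lit 0) (nat_lit 6493490292) (nat_lit 1672) (nat_lit 3162881476) (nat_lit 1748) (nat_lit 1852330849) (nat_lit 512) (nat_lit 5) (nat_lit 534) (nat_lit 5) (nat_lit 535) (nat_lit 5) (nat_lit 572) (nat_lit 570) (nat_lit 418)) (XT.nd (nat_lit 78) (nat_lit 0) (nat_lit 76) (XT.lf (nat_lit 76) (nat_lit 2605469795) (nat_lit 0) (nat_lit 4563889137) (nat_lit 1748) (nat_lit 4444466054) (nat_lit 513) (nat_lit 5) (nat_lit 512) (nat_lit 5) (nat_lit 535) (nat_lit 5) (nat_lit 573) (nat_lit 570) (nat_lit 417)) (XT.lf (nat_lit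 0) (nat_lit 7870612612) (nat_lit 1672) (nat_lit 3200544261) (nat_lit 1748) (nat_lit 649656889) (nat_lit 513) (nat_lit 5) (nat_lit 535) (nat_lit 5) (nat_lit 536) (nat_lit 5) (nat_lit 574) (nat_lit 570) (nat_lit 416))))) (XT.nd (nat_lit 234) (nat_lit 1596) (nat_lit 0) (XT.nd (nat_lit 78) (nat_lit 0) (nat_lit 0) (XT.lf (nat_lit 76) (nat_lit 2721293692) (nat_lit 0) (nat_lit 5899166285) (nat_lit 1748) (nat_lit 3208792251) (nat_lit 514) (nat_lit 5) (nat_lit 513) (nat_lit 5) (nat_lit 536) (nat_lit 5) (nat_lit 575) (nat_lit 570) (nat_lit 415)) (XT.nd (nat_lit 78) (nat_lit 0) (nat_lit 76) (XT.lf (nat_lit 76) (nat_lit 8797407572) (nat_lit 0) (nat_lit 596262065) (nat_lit 1748) (nat_lit 2546023784) (nat_lit 514) (nat_lit 5) (nat_lit 513) (nat_lit 5) (nat_lit 536) (nat_lit 5) (nat_lit 576) (nat_lit 570) (nat_lit 414)) (XT.lf (nat_lit 76) (nat_lit 2942351638) (nat_lit 0) (nat_lit 7277523336) (nat_lit 1748) (nat_lit 1831719071) (nat_lit 515) (nat_lit 5) (nat_lit 514) (nat_lit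 5) (nat_lit 537) (nat_lit 5) (nat_lit 577) (nat_lit 570) (nat_lit 413)))) (XT.nd (nat_lit 156) (nat_lit 1672) (nat_lit 0) (XT.nd (nat_lit 78) (nat_lit 0) (nat_lit 76) (XT.lf (nat_lit 76) (nat_lit 9179634871) (nat_lit 0) (nat_lit 1895361014) (nat_lit 1748) (nat_lit 1090490181) (nat_lit 515) (nat_lit 5) (nat_lit 514) (nat_lit 5) (nat_lit 537) (nat_lit 5) (nat_lit 578) (nat_lit 570) (nat_lit 412)) (XT.lf (nat_lit 76) (nat_lit 3271809944) (nat_lit 0) (nat_lit 8707650939) (nat_lit 1748) (nat_lit 301551402) (nat_lit 516) (nat_lit 5) (nat_lit 515) (nat_lit 5) (nat_lit 538) (nat_lit 5) (nat_lit 579) (nat_lit 570) (nat_lit 411))) (XT.nd (nat_lit 78) (nat_lit 0) (nat_lit 76) (XT.lf (nat_lit 0) (nat_lit 517060029) (nat_lit 1748) (nat_lit 2727184914) (nat_lit 1824) (nat_lit 9154130031) (nat_lit 492) (nat_lit 5) (nat_lit 515) (nat_lit 5) (nat_lit 516) (nat_lit 5) (nat_lit 580) (nat_lit 570) (nat_lit 410)) (XT.lf (nat_lit 0) (nat_lit 1375489245) (nat_lit 1748) (nat_lit 8813591978)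 (nat_lit 1824) (nat_lit 2328415283) (nat_lit 493) (nat_lit 5) (nat_lit 516) (nat_lit 5) (nat_lit 517) (nat_lit 5) (nat_lit 581) (nat_lit 570) (nat_lit 409)))))) (XT.nd (nat_lit 546) (nat_lit 1444) (nat_lit 0) (XT.nd (nat_lit 234) (nat_lit 0) (nat_lit 76) (XT.nd (nat_lit 78) (nat_lit 0) (nat_lit 76) (XT.lf (nat_lit 0) (nat_lit 2279217541) (nat_lit 1748) (nat_lit 2367599062) (nat_lit 1824) (nat_lit 7991622356) (nat_lit 493) (nat_lit 5) (nat_lit 516) (nat_lit 5) (nat_lit 517) (nat_lit 5) (nat_lit 582) (nat_lit 570) (nat_lit 408)) (XT.nd (nat_lit 78) (nat_lit 0) (nat_lit 0) (XT.lf (nat_lit 0) (nat_lit 3223844078) (nat_lit 1748) (nat_lit 8512883457) (nat_lit 1824) (nat_lit 1024617330) (nat_lit 494) (nat_lit 5) (nat_lit 517) (nat_lit 5) (nat_lit 518) (nat_lit 5) (nat_lit 583) (nat_lit 570) (nat_lit 407)) (XT.lf (nat_lit 0) (nat_lit 4222783885) (nat_lit 1748) (nat_lit 1896320367) (nat_lit 1824) (nat_lit 6766897279) (nat_lit 494) (nat_lit 5) (nat_lit 517) (nat_lit 5) (nat_lit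 518) (nat_lit 5) (nat_lit 584) (nat_lit 570) (nat_lit 406)))) (XT.nd (nat_lit 156) (nat_lit 0) (nat_lit 76) (XT.nd (nat_lit 78) (nat_lit 0) (nat_lit 76) (XT.lf (nat_lit 76) (nat_lit 4909127769) (nat_lit 0) (nat_lit 353324568) (nat_lit 1824) (nat_lit 7750285034) (nat_lit 495) (nat_lit 5) (nat_lit 494) (nat_lit 5) (nat_lit 518) (nat_lit 5) (nat_lit 585) (nat_lit 570) (nat_lit 405)) (XT.lf (nat_lit 0) (nat_lit 6360678458) (nat_lit 1748) (nat_lit 1309357212) (nat_lit 1824) (nat_lit 5471217986) (nat_lit 495) (nat_lit 5) (nat_lit 518) (nat_lit 5) (nat_lit 519) (nat_lit 5) (nat_lit 586) (nat_lit 570) (nat_lit 404))) (XT.nd (nat_lit 78) (nat_lit 0) (nat_lit 76) (XT.lf (nat_lit 76) (nat_lit 5685139648) (nat_lit 0) (nat_lit 1824260229) (nat_lit 1824) (nat_lit 5762370770) (nat_lit 496) (nat_lit 5) (nat_lit 495) (nat_lit 5) (nat_lit 519) (nat_lit 5) (nat_lit 587) (nat_lit 570) (nat_lit 403)) (XT.lf (nat_lit 0) (nat_lit 8706266368) (nat_lit 1748) (nat_lit 602415391) (nat_lit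 1824) (nat_lit 4095713782) (nat_lit 496) (nat_lit 5) (nat_lit 519) (nat_lit 5) (nat_lit 520) (nat_lit 5) (nat_lit 588) (nat_lit 570) (nat_lit 402))))) (XT.nd (nat_lit 234) (nat_lit 1672) (nat_lit 0) (XT.nd (nat_lit 78) (nat_lit 0) (nat_lit 76) (XT.lf (nat_lit 76) (nat_lit 6587922134) (nat_lit 0) (nat_lit 3383665684) (nat_lit 1824) (nat_lit 3567195719) (nat_lit 497) (nat_lit 5) (nat_lit 496) (nat_lit 5) (nat_lit 520) (nat_lit 5) (nat_lit 589) (nat_lit 570) (nat_lit 401)) (XT.nd (nat_lit 78) (nat_lit 0) (nat_lit 0) (XT.lf (nat_lit 76) (nat_lit 232151241) (nat_lit 0) (nat_lit 11042740941) (nat_lit 1824) (nat_lit 2400714520) (nat_lit 498) (nat_lit 5) (nat_lit 497) (nat_lit 5) (nat_lit 521) (nat_lit 5) (nat_lit 590) (nat_lit 570) (nat_lit 400)) (XT.lf (nat_lit 76) (nat_lit 7622340645) (nat_lit 0) (nat_lit 5040804755) (nat_lit 1824) (nat_lit 1150844196) (nat_lit 498) (nat_lit 5) (nat_lit 497) (nat_lit 5) (nat_lit 521) (nat_lit 5) (nat_lit 591) (nat_lit 570) (nat_lit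 399)))) (XT.nd (nat_lit 156) (nat_lit 0) (nat_lit 0) (XT.nd (nat_lit 78) (nat_lit 0) (nat_lit 0) (XT.lf (nat_lit 0) (nat_lit 127466101) (nat_lit 1824) (nat_lit 12749940340) (nat_lit 1900) (nat_lit 1077617102) (nat_lit 474) (nat_lit 5) (nat_lit 498) (nat_lit 5) (nat_lit 499) (nat_lit 5) (nat_lit 592) (nat_lit 570) (nat_lit 398)) (XT.lf (nat_lit 0) (nat_lit 1481417215) (nat_lit 1824) (nat_lit 5313776055) (nat_lit 1900) (nat_lit 7302223936) (nat_lit 474) (nat_lit 5) (nat_lit 498) (nat_lit 5) (nat_lit 499) (nat_lit 5) (nat_lit 593) (nat_lit 570) (nat_lit 397))) (XT.nd (nat_lit 78) (nat_lit 0) (nat_lit 76) (XT.lf (nat_lit 76) (nat_lit 2293218025) (nat_lit 0) (nat_lit 574572155) (nat_lit 1900) (nat_lit 11374762555) (nat_lit 475) (nat_lit 5) (nat_lit 474) (nat_lit 5) (nat_lit 499) (nat_lit 5) (nat_lit 594) (nat_lit 570) (nat_lit 396)) (XT.lf (nat_lit 0) (nat_lit 4345849864) (nat_lit 1824) (nat_lit 4311313766) (nat_lit 76) (nat_lit 5732148994) (nat_lit 475) (nat_lit 5)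 (nat_lit 499) (nat_lit 5) (nat_lit 476) (nat_lit 5) (nat_lit 595) (nat_lit 570) (nat_lit 395))))))) (XT.nd (nat_lit 1092) (nat_lit 5852) (nat_lit 0) (XT.nd (nat_lit 546) (nat_lit 3344) (nat_lit 0) (XT.nd (nat_lit 234) (nat_lit 1900) (nat_lit 0) (XT.nd (nat_lit 78) (nat_lit 1064) (nat_lit 0) (XT.lf (nat_lit 0) (nat_lit 3513789837) (nat_lit 1824) (nat_lit 2357083415) (nat_lit 1900) (nat_lit 8667787225) (nat_lit 451) (nat_lit 5) (nat_lit 475) (nat_lit 5) (nat_lit 476) (nat_lit 5) (nat_lit 596) (nat_lit 570) (nat_lit 394)) (XT.nd (nat_lit 78) (nat_lit 1064) (nat_lit 0) (XT.lf (nat_lit 0) (nat_lit 7472859142) (nat_lit 1900) (nat_lit 3171284900) (nat_lit 76) (nat_lit 4045922805) (nat_lit 451) (nat_lit 5) (nat_lit 476) (nat_lit 5) (nat_lit 452) (nat_lit 5) (nat_lit 597) (nat_lit 570) (nat_lit 393)) (XT.lf (nat_lit 0) (nat_lit 4879826745) (nat_lit 1064) (nat_lit 4265449545) (nat_lit 1140) (nat_lit 5698458009) (nat_lit 437) (nat_lit 5) (nat_lit 451) (nat_lit 5) (nat_lit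 452) (nat_lit 5) (nat_lit 598) (nat_lit 570) (nat_lit 392)))) (XT.nd (nat_lit 156) (nat_lit 988) (nat_lit 0) (XT.nd (nat_lit 78) (nat_lit 912) (nat_lit 0) (XT.lf (nat_lit 0) (nat_lit 10878340390) (nat_lit 1140) (nat_lit 1887856791) (nat_lit 76) (nat_lit 2233734715) (nat_lit 437) (nat_lit 5) (nat_lit 452) (nat_lit 5) (nat_lit 438) (nat_lit 5) (nat_lit 599) (nat_lit 570) (nat_lit 391)) (XT.lf (nat_lit 0) (nat_lit 6397463289) (nat_lit 912) (nat_lit 6309786874) (nat_lit 988) (nat_lit 2450780351) (nat_lit 425) (nat_lit 5) (nat_lit 437) (nat_lit 5) (nat_lit 438) (nat_lit 5) (nat_lit 600) (nat_lit 570) (nat_lit 390))) (XT.nd (nat_lit 78) (nat_lit 988) (nat_lit 0) (XT.lf (nat_lit 0) (nat_lit 14578802410) (nat_lit 988) (nat_lit 454861833) (nat_lit 76) (nat_lit 285506315) (nat_lit 425) (nat_lit 5) (nat_lit 438) (nat_lit 5) (nat_lit 426) (nat_lit 5) (nat_lit 601) (nat_lit 570) (nat_lit 389)) (XT.lf (nat_lit 0) (nat_lit 1077540300) (nat_lit 988) (nat_lit 7415725747) (nat_lit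 76) (nat_lit 6988408482) (nat_lit 412) (nat_lit 5) (nat_lit 425) (nat_lit 5) (nat_lit 413) (nat_lit 5) (nat_lit 602) (nat_lit 570) (nat_lit 388))))) (XT.nd (nat_lit 234) (nat_lit 1672) (nat_lit 0) (XT.nd (nat_lit 78) (nat_lit 836) (nat_lit 0) (XT.lf (nat_lit 0) (nat_lit 1117779245) (nat_lit 836) (nat_lit 1806198303) (nat_lit 912) (nat_lit 12723312170) (nat_lit 401) (nat_lit 5) (nat_lit 412) (nat_lit 5) (nat_lit 413) (nat_lit 5) (nat_lit 603) (nat_lit 570) (nat_lit 387)) (XT.nd (nat_lit 78) (nat_lit 836) (nat_lit 0) (XT.lf (nat_lit 0) (nat_lit 4881852084) (nat_lit 912) (nat_lit 5933677507) (nat_lit 76) (nat_lit 4999198130) (nat_lit 401) (nat_lit 5) (nat_lit 413) (nat_lit 5) (nat_lit 402) (nat_lit 5) (nat_lit 604) (nat_lit 570) (nat_lit 386)) (XT.lf (nat_lit 0) (nat_lit 2851623545) (nat_lit 836) (nat_lit 4049753816) (nat_lit 912) (nat_lit 9083687930) (nat_lit 390) (nat_lit 5) (nat_lit 401) (nat_lit 5) (nat_lit 402) (nat_lit 5) (nat_lit 605) (nat_lit 570) (nat_lit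 385)))) (XT.nd (nat_lit 156) (nat_lit 836) (nat_lit 0) (XT.nd (nat_lit 78) (nat_lit 836) (nat_lit 0) (XT.lf (nat_lit 0) (nat_lit 9012010693) (nat_lit 912) (nat_lit 4291719685) (nat_lit 76) (nat_lit 2854065541) (nat_lit 390) (nat_lit 5) (nat_lit 402) (nat_lit 5) (nat_lit 391) (nat_lit 5) (nat_lit 606) (nat_lit 570) (nat_lit 384)) (XT.lf (nat_lit 0) (nat_lit 4754537455) (nat_lit 836) (nat_lit 6460285838) (nat_lit 912) (nat_lit 5118159178) (nat_lit 379) (nat_lit 5) (nat_lit 390) (nat_lit 5) (nat_lit 391) (nat_lit 5) (nat_lit 607) (nat_lit 570) (nat_lit 383))) (XT.nd (nat_lit 78) (nat_lit 836) (nat_lit 0) (XT.lf (nat_lit 0) (nat_lit 13486436183) (nat_lit 912) (nat_lit 2482705589) (nat_lit 76) (nat_lit 542036733) (nat_lit 379) (nat_lit 5) (nat_lit 391) (nat_lit 5) (nat_lit 380) (nat_lit 5) (nat_lit 608) (nat_lit 570) (nat_lit 382)) (XT.lf (nat_lit 0) (nat_lit 6834013350) (nat_lit 836) (nat_lit 9049148992) (nat_lit 912) (nat_lit 808183115) (nat_lit 368) (nat_lit 5) (nat_lit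 379) (nat_lit 5) (nat_lit 380) (nat_lit 5) (nat_lit 609) (nat_lit 570) (nat_lit 381)))))) (XT.nd (nat_lit 546) (nat_lit 2812) (nat_lit 0) (XT.nd (nat_lit 234) (nat_lit 1444) (nat_lit 0) (XT.nd (nat_lit 78) (nat_lit 1520) (nat_lit 0) (XT.lf (nat_lit 0) (nat_lit 1442998960) (nat_lit 912) (nat_lit 521433756) (nat_lit 76) (nat_lit 14910308105) (nat_lit 367) (nat_lit 5) (nat_lit 379) (nat_lit 5) (nat_lit 368) (nat_lit 5) (nat_lit 610) (nat_lit 570) (nat_lit 380)) (XT.nd (nat_lit 78) (nat_lit 760) (nat_lit 0) (XT.lf (nat_lit 0) (nat_lit 3814833778) (nat_lit 836) (nat_lit 7987646956) (nat_lit 76) (nat_lit 5257488087) (nat_lit 357) (nat_lit 5) (nat_lit 368) (nat_lit 5) (nat_lit 358) (nat_lit 5) (nat_lit 611) (nat_lit 570) (nat_lit 379)) (XT.lf (nat_lit 0) (nat_lit 1616591803) (nat_lit 760) (nat_lit 4637350865) (nat_lit 836) (nat_lit 10994562538) (nat_lit 347) (nat_lit 5) (nat_lit 357) (nat_lit 5) (nat_lit 358) (nat_lit 5) (nat_lit 612) (nat_lit 570) (nat_lit 378)))) (XT.nd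 (nat_lit 156) (nat_lit 760) (nat_lit 0) (XT.nd (nat_lit 78) (nat_lit 684) (nat_lit 0) (XT.lf (nat_lit 0) (nat_lit 8806028984) (nat_lit 836) (nat_lit 5944101959) (nat_lit 76) (nat_lit 2689398030) (nat_lit 347) (nat_lit 5) (nat_lit 358) (nat_lit 5) (nat_lit 348) (nat_lit 5) (nat_lit 613) (nat_lit 570) (nat_lit 377)) (XT.lf (nat_lit 0) (nat_lit 3950870914) (nat_lit 684) (nat_lit 7507684527) (nat_lit 760) (nat_lit 6174830356) (nat_lit 338) (nat_lit 5) (nat_lit 347) (nat_lit 5) (nat_lit 348) (nat_lit 5) (nat_lit 614) (nat_lit 570) (nat_lit 376))) (XT.nd (nat_lit 78) (nat_lit 760) (nat_lit 0) (XT.lf (nat_lit 0) (nat_lit 14116667524) (nat_lit 684) (nat_lit 80475652) (nat_lit 760) (nat_lit 3633316907) (nat_lit 338) (nat_lit 5) (nat_lit 347) (nat_lit 5) (nat_lit 348) (nat_lit 5) (nat_lit 615) (nat_lit 570) (nat_lit 375)) (XT.lf (nat_lit 0) (nat_lit 6483036025) (nat_lit 760) (nat_lit 10591475751) (nat_lit 836) (nat_lit 955284424) (nat_lit 328) (nat_lit 5) (nat_lit 338) (nat_lit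 5) (nat_lit 339) (nat_lit 5) (nat_lit 616) (nat_lit 570) (nat_lit 374))))) (XT.nd (nat_lit 234) (nat_lit 1368) (nat_lit 0) (XT.nd (nat_lit 78) (nat_lit 1368) (nat_lit 0) (XT.lf (nat_lit 0) (nat_lit 1771922666) (nat_lit 836) (nat_lit 1318378488) (nat_lit 76) (nat_lit 15142209521) (nat_lit 327) (nat_lit 5) (nat_lit 338) (nat_lit 5) (nat_lit 328) (nat_lit 5) (nat_lit 617) (nat_lit 570) (nat_lit 373)) (XT.nd (nat_lit 78) (nat_lit 684) (nat_lit 0) (XT.lf (nat_lit 0) (nat_lit 4624235070) (nat_lit 760) (nat_lit 9246463006) (nat_lit 76) (nat_lit 4566788526) (nat_lit 318) (nat_lit 5) (nat_lit 328) (nat_lit 5) (nat_lit 319) (nat_lit 5) (nat_lit 618) (nat_lit 570) (nat_lit 372)) (XT.lf (nat_lit 0) (nat_lit 1270646392) (nat_lit 684) (nat_lit 6294065154) (nat_lit 760) (nat_lit 11081228633) (nat_lit 309) (nat_lit 5) (nat_lit 318) (nat_lit 5) (nat_lit 319) (nat_lit 5) (nat_lit 619) (nat_lit 570) (nat_lit 371)))) (XT.nd (nat_lit 156) (nat_lit 760) (nat_lit 0) (XT.nd (nat_lit 78)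 (nat_lit 608) (nat_lit 0) (XT.lf (nat_lit 0) (nat_lit 10629336276) (nat_lit 760) (nat_lit 6751273218) (nat_lit 76) (nat_lit 1476647037) (nat_lit 309) (nat_lit 5) (nat_lit 319) (nat_lit 5) (nat_lit 310) (nat_lit 5) (nat_lit 620) (nat_lit 570) (nat_lit 370)) (XT.lf (nat_lit 0) (nat_lit 4089666696) (nat_lit 608) (nat_lit 9727516341) (nat_lit 684) (nat_lit 5254378051) (nat_lit 301) (nat_lit 5) (nat_lit 309) (nat_lit 5) (nat_lit 310) (nat_lit 5) (nat_lit 621) (nat_lit 570) (nat_lit 369))) (XT.nd (nat_lit 78) (nat_lit 760) (nat_lit 0) (XT.lf (nat_lit 0) (nat_lit 15231474908) (nat_lit 608) (nat_lit 1876385751) (nat_lit 684) (nat_lit 2181510060) (nat_lit 301) (nat_lit 5) (nat_lit 309) (nat_lit 5) (nat_lit 310) (nat_lit 5) (nat_lit 622) (nat_lit 570) (nat_lit 368)) (XT.lf (nat_lit 0) (nat_lit 1020841668) (nat_lit 760) (nat_lit 12385793601) (nat_lit 76) (nat_lit 6103167535) (nat_lit 291) (nat_lit 5) (nat_lit 301) (nat_lit 5) (nat_lit 292) (nat_lit 5) (nat_lit 623) (nat_lit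 570) (nat_lit 367))))))))
noncomputable def xc184 : XT := (XT.nd (nat_lit 2106) (nat_lit 3192) (nat_lit 0) (XT.nd (nat_lit 1014) (nat_lit 4408) (nat_lit 0) (XT.nd (nat_lit 468) (nat_lit 2280) (nat_lit 0) (XT.nd (nat_lit 234) (nat_lit 684) (nat_lit 0) (XT.nd (nat_lit 78) (nat_lit 1216) (nat_lit 0) (XT.lf (nat_lit 0) (nat_lit 4291809815) (nat_lit 760) (nat_lit 1184061117) (nat_lit 76) (nat_lit 14257809040) (nat_lit 291) (nat_lit 5) (nat_lit 301) (nat_lit 5) (nat_lit 292) (nat_lit 5) (nat_lit 624) (nat_lit 570) (nat_lit 366)) (XT.nd (nat_lit 78) (nat_lit 608) (nat_lit 0) (XT.lf (nat_lit 0) (nat_lit 7706969012) (nat_lit 684) (nat_lit 9607818056) (nat_lit 76) (nat_lit 2645672605) (nat_lit 283) (nat_lit 5) (nat_lit 292) (nat_lit 5) (nat_lit 284) (nat_lit 5) (nat_lit 625) (nat_lit 570) (nat_lit 365)) (XT.lf (nat_lit 0) (nat_lit 1926075387) (nat_lit 608) (nat_lit 9315218987) (nat_lit 684) (nat_lit 8949463753) (nat_lit 275) (nat_lit 5) (nat_lit 283) (nat_lit 5) (nat_lit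 284) (nat_lit 5) (nat_lit 626) (nat_lit 570) (nat_lit 364)))) (XT.nd (nat_lit 78) (nat_lit 684) (nat_lit 0) (XT.lf (nat_lit 0) (nat_lit 13813550383) (nat_lit 608) (nat_lit 1091392829) (nat_lit 684) (nat_lit 5519547007) (nat_lit 275) (nat_lit 5) (nat_lit 283) (nat_lit 5) (nat_lit 284) (nat_lit 5) (nat_lit 627) (nat_lit 570) (nat_lit 363)) (XT.nd (nat_lit 78) (nat_lit 76) (nat_lit 0) (XT.lf (nat_lit 0) (nat_lit 5290594283) (nat_lit 608) (nat_lit 13427265539) (nat_lit 684) (nat_lit 1943517636) (nat_lit 267) (nat_lit 5) (nat_lit 275) (nat_lit 5) (nat_lit 276) (nat_lit 5) (nat_lit 628) (nat_lit 570) (nat_lit 362)) (XT.lf (nat_lit 0) (nat_lit 1727863873) (nat_lit 684) (nat_lit 3408250896) (nat_lit 76) (nat_lit 15765743178) (nat_lit 266) (nat_lit 5) (nat_lit 275) (nat_lit 5) (nat_lit 267) (nat_lit 5) (nat_lit 629) (nat_lit 570) (nat_lit 361))))) (XT.nd (nat_lit 234) (nat_lit 1140) (nat_lit 0) (XT.nd (nat_lit 78) (nat_lit 532) (nat_lit 0) (XT.lf (nat_lit 0) (nat_lit 5520819965)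 (nat_lit 684) (nat_lit 12277789825) (nat_lit 76) (nat_lit 3346798286) (nat_lit 258) (nat_lit 5) (nat_lit 267) (nat_lit 5) (nat_lit 259) (nat_lit 5) (nat_lit 630) (nat_lit 570) (nat_lit 360)) (XT.nd (nat_lit 78) (nat_lit 0) (nat_lit 0) (XT.lf (nat_lit 0) (nat_lit 440751) (nat_lit 532) (nat_lit 9440694501) (nat_lit 608) (nat_lit 11951664325) (nat_lit 251) (nat_lit 5) (nat_lit 258) (nat_lit 5) (nat_lit 259) (nat_lit 5) (nat_lit 631) (nat_lit 570) (nat_lit 359)) (XT.lf (nat_lit 0) (nat_lit 12683479900) (nat_lit 532) (nat_lit 833289931) (nat_lit 608) (nat_lit 8126831181) (nat_lit 251) (nat_lit 5) (nat_lit 258) (nat_lit 5) (nat_lit 259) (nat_lit 5) (nat_lit 632) (nat_lit 570) (nat_lit 358)))) (XT.nd (nat_lit 156) (nat_lit 608) (nat_lit 0) (XT.nd (nat_lit 78) (nat_lit 0) (nat_lit 0) (XT.lf (nat_lit 0) (nat_lit 3710694650) (nat_lit 532) (nat_lit 14033526237) (nat_lit 608) (nat_lit 4153791868) (nat_lit 244) (nat_lit 5) (nat_lit 251) (nat_lit 5) (nat_lit 252) (nat_lit 5)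 (nat_lit 633) (nat_lit 570) (nat_lit 357)) (XT.lf (nat_lit 0) (nat_lit 16743697967) (nat_lit 532) (nat_lit 5372810833) (nat_lit 608) (nat_lit 39798523) (nat_lit 244) (nat_lit 5) (nat_lit 251) (nat_lit 5) (nat_lit 252) (nat_lit 5) (nat_lit 634) (nat_lit 570) (nat_lit 356))) (XT.nd (nat_lit 78) (nat_lit 0) (nat_lit 0) (XT.lf (nat_lit 0) (nat_lit 4169571253) (nat_lit 608) (nat_lit 14756941082) (nat_lit 76) (nat_lit 3491363863) (nat_lit 236) (nat_lit 5) (nat_lit 244) (nat_lit 5) (nat_lit 237) (nat_lit 5) (nat_lit 635) (nat_lit 570) (nat_lit 355)) (XT.lf (nat_lit 0) (nat_lit 8529533626) (nat_lit 608) (nat_lit 1657787031) (nat_lit 76) (nat_lit 12496012098) (nat_lit 236) (nat_lit 5) (nat_lit 244) (nat_lit 5) (nat_lit 237) (nat_lit 5) (nat_lit 636) (nat_lit 570) (nat_lit 354)))))) (XT.nd (nat_lit 546) (nat_lit 1900) (nat_lit 0) (XT.nd (nat_lit 234) (nat_lit 1520) (nat_lit 0) (XT.nd (nat_lit 78) (nat_lit 456) (nat_lit 0) (XT.lf (nat_lit 0) (nat_lit 11851856783) (nat_lit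 532) (nat_lit 1196684734) (nat_lit 608) (nat_lit 9904120323) (nat_lit 229) (nat_lit 5) (nat_lit 236) (nat_lit 5) (nat_lit 237) (nat_lit 5) (nat_lit 637) (nat_lit 570) (nat_lit 353)) (XT.nd (nat_lit 78) (nat_lit 0) (nat_lit 0) (XT.lf (nat_lit 0) (nat_lit 2399661262) (nat_lit 456) (nat_lit 15331757337) (nat_lit 532) (nat_lit 5494489442) (nat_lit 223) (nat_lit 5) (nat_lit 229) (nat_lit 5) (nat_lit 230) (nat_lit 5) (nat_lit 638) (nat_lit 570) (nat_lit 352)) (XT.lf (nat_lit 0) (nat_lit 16305650465) (nat_lit 456) (nat_lit 6279661736) (nat_lit 532) (nat_lit 917760096) (nat_lit 223) (nat_lit 5) (nat_lit 229) (nat_lit 5) (nat_lit 230) (nat_lit 5) (nat_lit 639) (nat_lit 570) (nat_lit 351)))) (XT.nd (nat_lit 156) (nat_lit 912) (nat_lit 0) (XT.nd (nat_lit 78) (nat_lit 0) (nat_lit 0) (XT.lf (nat_lit 0) (nat_lit 3759889711) (nat_lit 608) (nat_lit 17042683419) (nat_lit 76) (nat_lit 2981548502) (nat_lit 215) (nat_lit 5) (nat_lit 223) (nat_lit 5) (nat_lit 216) (nat_lit 5) (nat_lit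 640) (nat_lit 570) (nat_lit 350)) (XT.lf (nat_lit 0) (nat_lit 8604119986) (nat_lit 608) (nat_lit 3068073349) (nat_lit 76) (nat_lit 12396771256) (nat_lit 215) (nat_lit 5) (nat_lit 223) (nat_lit 5) (nat_lit 216) (nat_lit 5) (nat_lit 641) (nat_lit 570) (nat_lit 349))) (XT.nd (nat_lit 78) (nat_lit 456) (nat_lit 0) (XT.lf (nat_lit 0) (nat_lit 11327829889) (nat_lit 456) (nat_lit 2286148138) (nat_lit 532) (nat_lit 10744151806) (nat_lit 209) (nat_lit 5) (nat_lit 215) (nat_lit 5) (nat_lit 216) (nat_lit 5) (nat_lit 642) (nat_lit 570) (nat_lit 348)) (XT.lf (nat_lit 0) (nat_lit 1364208929) (nat_lit 456) (nat_lit 17431955607) (nat_lit 532) (nat_lit 5855471498) (nat_lit 203) (nat_lit 5) (nat_lit 209) (nat_lit 5) (nat_lit 210) (nat_lit 5) (nat_lit 643) (nat_lit 570) (nat_lit 347))))) (XT.nd (nat_lit 234) (nat_lit 1368) (nat_lit 0) (XT.nd (nat_lit 78) (nat_lit 532) (nat_lit 0) (XT.lf (nat_lit 0) (nat_lit 16201136992) (nat_lit 456) (nat_lit 7978621161) (nat_lit 532) (nat_lit 769299214)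 (nat_lit 203) (nat_lit 5) (nat_lit 209) (nat_lit 5) (nat_lit 210) (nat_lit 5) (nat_lit 644) (nat_lit 570) (nat_lit 346)) (XT.nd (nat_lit 78) (nat_lit 0) (nat_lit 0) (XT.lf (nat_lit 0) (nat_lit 4407015696) (nat_lit 532) (nat_lit 19135032710) (nat_lit 76) (nat_lit 1708877817) (nat_lit 196) (nat_lit 5) (nat_lit 203) (nat_lit 5) (nat_lit 197) (nat_lit 5) (nat_lit 645) (nat_lit 570) (nat_lit 345)) (XT.lf (nat_lit 0) (nat_lit 9783875362) (nat_lit 532) (nat_lit 4227140027) (nat_lit 76) (nat_lit 11545569238) (nat_lit 196) (nat_lit 5) (nat_lit 203) (nat_lit 5) (nat_lit 197) (nat_lit 5) (nat_lit 646) (nat_lit 570) (nat_lit 344)))) (XT.nd (nat_lit 156) (nat_lit 532) (nat_lit 0) (XT.nd (nat_lit 78) (nat_lit 380) (nat_lit 0) (XT.lf (nat_lit 0) (nat_lit 11118135018) (nat_lit 456) (nat_lit 4217793392) (nat_lit 532) (nat_lit 10531074918) (nat_lit 190) (nat_lit 5) (nat_lit 196) (nat_lit 5) (nat_lit 197) (nat_lit 5) (nat_lit 647) (nat_lit 570) (nat_lit 343)) (XT.lf (nat_lit 0) (nat_lit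 608245833) (nat_lit 380) (nat_lit 20456253865) (nat_lit 456) (nat_lit 5117821413) (nat_lit 185) (nat_lit 5) (nat_lit 190) (nat_lit 5) (nat_lit 191) (nat_lit 5) (nat_lit 648) (nat_lit 570) (nat_lit 342))) (XT.nd (nat_lit 78) (nat_lit 456) (nat_lit 0) (XT.lf (nat_lit 0) (nat_lit 521481638) (nat_lit 456) (nat_lit 10067388861) (nat_lit 76) (nat_lit 15912560986) (nat_lit 184) (nat_lit 5) (nat_lit 190) (nat_lit 5) (nat_lit 185) (nat_lit 5) (nat_lit 649) (nat_lit 570) (nat_lit 341)) (XT.lf (nat_lit 0) (nat_lit 5784897423) (nat_lit 456) (nat_lit 453375534) (nat_lit 532) (nat_lit 20587310172) (nat_lit 178) (nat_lit 5) (nat_lit 184) (nat_lit 5) (nat_lit 185) (nat_lit 5) (nat_lit 650) (nat_lit 570) (nat_lit 340))))))) (XT.nd (nat_lit 1014) (nat_lit 380) (nat_lit 0) (XT.nd (nat_lit 468) (nat_lit 1596) (nat_lit 0) (XT.nd (nat_lit 234) (nat_lit 456) (nat_lit 0) (XT.nd (nat_lit 78) (nat_lit 760) (nat_lit 0) (XT.lf (nat_lit 0) (nat_lit 12197220635) (nat_lit 532) (nat_lit 5135338989)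 (nat_lit 76) (nat_lit 9821102001) (nat_lit 178) (nat_lit 5) (nat_lit 185) (nat_lit 5) (nat_lit 179) (nat_lit 5) (nat_lit 651) (nat_lit 570) (nat_lit 339)) (XT.nd (nat_lit 78) (nat_lit 380) (nat_lit 0) (XT.lf (nat_lit 0) (nat_lit 11225928917) (nat_lit 380) (nat_lit 7121029350) (nat_lit 456) (nat_lit 9139911430) (nat_lit 173) (nat_lit 5) (nat_lit 178) (nat_lit 5) (nat_lit 179) (nat_lit 5) (nat_lit 652) (nat_lit 570) (nat_lit 338)) (XT.lf (nat_lit 0) (nat_lit 131644887) (nat_lit 380) (nat_lit 24540732098) (nat_lit 456) (nat_lit 3153311439) (nat_lit 168) (nat_lit 5) (nat_lit 173) (nat_lit 5) (nat_lit 174) (nat_lit 5) (nat_lit 653) (nat_lit 570) (nat_lit 337)))) (XT.nd (nat_lit 78) (nat_lit 380) (nat_lit 0) (XT.lf (nat_lit 0) (nat_lit 3067057071) (nat_lit 456) (nat_lit 11170108599) (nat_lit 76) (nat_lit 13930679291) (nat_lit 167) (nat_lit 5) (nat_lit 173) (nat_lit 5) (nat_lit 168) (nat_lit 5) (nat_lit 654) (nat_lit 570) (nat_lit 336)) (XT.nd (nat_lit 78) (nat_lit 0)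 (nat_lit 0) (XT.lf (nat_lit 0) (nat_lit 5732272244) (nat_lit 380) (nat_lit 3670442761) (nat_lit 456) (nat_lit 19113050866) (nat_lit 162) (nat_lit 5) (nat_lit 167) (nat_lit 5) (nat_lit 168) (nat_lit 5) (nat_lit 655) (nat_lit 570) (nat_lit 335)) (XT.lf (nat_lit 0) (nat_lit 15982561332) (nat_lit 456) (nat_lit 5798031726) (nat_lit 76) (nat_lit 7087702841) (nat_lit 162) (nat_lit 5) (nat_lit 168) (nat_lit 5) (nat_lit 163) (nat_lit 5) (nat_lit 656) (nat_lit 570) (nat_lit 334))))) (XT.nd (nat_lit 234) (nat_lit 760) (nat_lit 0) (XT.nd (nat_lit 78) (nat_lit 456) (nat_lit 0) (XT.lf (nat_lit 0) (nat_lit 11649383861) (nat_lit 380) (nat_lit 11140518890) (nat_lit 456) (nat_lit 6436056014) (nat_lit 157) (nat_lit 5) (nat_lit 162) (nat_lit 5) (nat_lit 163) (nat_lit 5) (nat_lit 657) (nat_lit 570) (nat_lit 333)) (XT.nd (nat_lit 78) (nat_lit 380) (nat_lit 0) (XT.lf (nat_lit 0) (nat_lit 175878652) (nat_lit 456) (nat_lit 73083283) (nat_lit 76) (nat_lit 29341091965) (nat_lit 156) (nat_lit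 5) (nat_lit 162) (nat_lit 5) (nat_lit 157) (nat_lit 5) (nat_lit 658) (nat_lit 570) (nat_lit 332)) (XT.lf (nat_lit 0) (nat_lit 7018210292) (nat_lit 456) (nat_lit 12062499864) (nat_lit 76) (nat_lit 10876183384) (nat_lit 151) (nat_lit 5) (nat_lit 157) (nat_lit 5) (nat_lit 152) (nat_lit 5) (nat_lit 659) (nat_lit 570) (nat_lit 331)))) (XT.nd (nat_lit 156) (nat_lit 380) (nat_lit 0) (XT.nd (nat_lit 78) (nat_lit 0) (nat_lit 0) (XT.lf (nat_lit 0) (nat_lit 5961539087) (nat_lit 380) (nat_lit 8072768674) (nat_lit 456) (nat_lit 16296024013) (nat_lit 146) (nat_lit 5) (nat_lit 151) (nat_lit 5) (nat_lit 152) (nat_lit 5) (nat_lit 660) (nat_lit 570) (nat_lit 330)) (XT.lf (nat_lit 0) (nat_lit 21288789007) (nat_lit 456) (nat_lit 6227242708) (nat_lit 76) (nat_lit 3193246001) (nat_lit 146) (nat_lit 5) (nat_lit 152) (nat_lit 5) (nat_lit 147) (nat_lit 5) (nat_lit 661) (nat_lit 570) (nat_lit 329))) (XT.nd (nat_lit 78) (nat_lit 76) (nat_lit 0) (XT.lf (nat_lit 0) (nat_lit 12379993582) (nat_lit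 304) (nat_lit 16438377603) (nat_lit 380) (nat_lit 2274831346) (nat_lit 142) (nat_lit 5) (nat_lit 146) (nat_lit 5) (nat_lit 147) (nat_lit 5) (nat_lit 662) (nat_lit 570) (nat_lit 328)) (XT.lf (nat_lit 0) (nat_lit 4986228809) (nat_lit 380) (nat_lit 79072449) (nat_lit 76) (nat_lit 26418088788) (nat_lit 141) (nat_lit 5) (nat_lit 146) (nat_lit 5) (nat_lit 142) (nat_lit 5) (nat_lit 663) (nat_lit 570) (nat_lit 327)))))) (XT.nd (nat_lit 74412) (nat_lit 0) (nat_lit 27056) (XT.nd (nat_lit 74100) (nat_lit 0) (nat_lit 28576) (XT.nd (nat_lit 73944) (nat_lit 0) (nat_lit 28500) (XT.lf (nat_lit 0) (nat_lit 12526061255) (nat_lit 456) (nat_lit 12764006178) (nat_lit 76) (nat_lit 6587733092) (nat_lit 136) (nat_lit 5) (nat_lit 142) (nat_lit 5) (nat_lit 137) (nat_lit 5) (nat_lit 664) (nat_lit 570) (nat_lit 326)) (XT.nd (nat_lit 78) (nat_lit 0) (nat_lit 0) (XT.lf (nat_lit 0) (nat_lit 3211174340) (nat_lit 1748) (nat_lit 1271373869) (nat_lit 1748) (nat_lit 1271373869) (nat_lit 511) (nat_lit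 3) (nat_lit 534) (nat_lit 3) (nat_lit 534) (nat_lit 5) (nat_lit 571) (nat_lit 571) (nat_lit 418)) (XT.lf (nat_lit 76) (nat_lit 3186156487) (nat_lit 0) (nat_lit 3838825348) (nat_lit 1748) (nat_lit 4587122479) (nat_lit 512) (nat_lit 5) (nat_lit 511) (nat_lit 3) (nat_lit 534) (nat_lit 5) (nat_lit 572) (nat_lit 571) (nat_lit 417)))) (XT.nd (nat_lit 156) (nat_lit 0) (nat_lit 76) (XT.nd (nat_lit 78) (nat_lit 0) (nat_lit 0) (XT.lf (nat_lit 0) (nat_lit 7652285711) (nat_lit 1672) (nat_lit 2670474877) (nat_lit 1748) (nat_lit 1395438038) (nat_lit 512) (nat_lit 5) (nat_lit 534) (nat_lit 5) (nat_lit 535) (nat_lit 5) (nat_lit 573) (nat_lit 571) (nat_lit 416)) (XT.lf (nat_lit 76) (nat_lit 3209587734) (nat_lit 0) (nat_lit 5115492983) (nat_lit 1748) (nat_lit 3500676497) (nat_lit 513) (nat_lit 5) (nat_lit 512) (nat_lit 5) (nat_lit 535) (nat_lit 5) (nat_lit 574) (nat_lit 571) (nat_lit 415))) (XT.nd (nat_lit 78) (nat_lit 0) (nat_lit 0) (XT.lf (nat_lit 0) (nat_lit 9017579633) (nat_lit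 1672) (nat_lit 2700494796) (nat_lit 1748) (nat_lit 217268845) (nat_lit 513) (nat_lit 5) (nat_lit 535) (nat_lit 5) (nat_lit 536) (nat_lit 5) (nat_lit 575) (nat_lit 571) (nat_lit 414)) (XT.lf (nat_lit 76) (nat_lit 3336068992) (nat_lit 0) (nat_lit 6430590079) (nat_lit 1748) (nat_lit 2279608613) (nat_lit 514) (nat_lit 5) (nat_lit 513) (nat_lit 5) (nat_lit 536) (nat_lit 5) (nat_lit 576) (nat_lit 571) (nat_lit 413))))) (XT.nd (nat_lit 234) (nat_lit 1596) (nat_lit 0) (XT.nd (nat_lit 78) (nat_lit 0) (nat_lit 76) (XT.lf (nat_lit 76) (nat_lit 9522717906) (nat_lit 0) (nat_lit 1013521099) (nat_lit 1748) (nat_lit 1623062413) (nat_lit 514) (nat_lit 5) (nat_lit 513) (nat_lit 5) (nat_lit 536) (nat_lit 5) (nat_lit 577) (nat_lit 571) (nat_lit 412)) (XT.nd (nat_lit 78) (nat_lit 0) (nat_lit 0) (XT.lf (nat_lit 76) (nat_lit 3568620659) (nat_lit 0) (nat_lit 7792732247) (nat_lit 1748) (nat_lit 912441263) (nat_lit 515) (nat_lit 5) (nat_lit 514) (nat_lit 5) (nat_lit 537) (nat_lit 5) (nat_lit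 578) (nat_lit 571) (nat_lit 411)) (XT.lf (nat_lit 76) (nat_lit 9919523635) (nat_lit 0) (nat_lit 2295678474) (nat_lit 1748) (nat_lit 175131171) (nat_lit 515) (nat_lit 5) (nat_lit 514) (nat_lit 5) (nat_lit 537) (nat_lit 5) (nat_lit 579) (nat_lit 571) (nat_lit 410)))) (XT.nd (nat_lit 156) (nat_lit 0) (nat_lit 76) (XT.nd (nat_lit 78) (nat_lit 0) (nat_lit 0) (XT.lf (nat_lit 0) (nat_lit 604619230) (nat_lit 1748) (nat_lit 8601920546) (nat_lit 1824) (nat_lit 3301884393) (nat_lit 492) (nat_lit 5) (nat_lit 515) (nat_lit 5) (nat_lit 516) (nat_lit 5) (nat_lit 580) (nat_lit 571) (nat_lit 409)) (XT.lf (nat_lit 0) (nat_lit 1417761683) (nat_lit 1748) (nat_lit 2207739579) (nat_lit 1824) (nat_lit 9002950718) (nat_lit 492) (nat_lit 5) (nat_lit 515) (nat_lit 5) (nat_lit 516) (nat_lit 5) (nat_lit 581) (nat_lit 571) (nat_lit 408))) (XT.nd (nat_lit 78) (nat_lit 0) (nat_lit 0) (XT.lf (nat_lit 0) (nat_lit 2277614336) (nat_lit 1748) (nat_lit 8400047988) (nat_lit 1824) (nat_lit 2072610157)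 (nat_lit 493) (nat_lit 5) (nat_lit 516) (nat_lit 5) (nat_lit 517) (nat_lit 5) (nat_lit 582) (nat_lit 571) (nat_lit 407)) (XT.lf (nat_lit 0) (nat_lit 3182267878) (nat_lit 1748) (nat_lit 1836700229) (nat_lit 1824) (nat_lit 7855010262) (nat_lit 493) (nat_lit 5) (nat_lit 516) (nat_lit 5) (nat_lit 517) (nat_lit 5) (nat_lit 583) (nat_lit 571) (nat_lit 406))))))))
noncomputable def xc185 : XT := (XT.nd (nat_lit 2106) (nat_lit 10564) (nat_lit 0) (XT.nd (nat_lit 1014) (nat_lit 8056) (nat_lit 0) (XT.nd (nat_lit 468) (nat_lit 1520) (nat_lit 0) (XT.nd (nat_lit 234) (nat_lit 0) (nat_lit 76) (XT.nd (nat_lit 78) (nat_lit 0) (nat_lit 0) (XT.lf (nat_lit 0) (nat_lit 4130950972) (nat_lit 1748) (nat_lit 8089975857) (nat_lit 1824) (nat_lit 778713854) (nat_lit 494) (nat_lit 5) (nat_lit 517) (nat_lit 5) (nat_lit 518) (nat_lit 5) (nat_lit 584) (nat_lit 571) (nat_lit 405)) (XT.nd (nat_lit 78) (nat_lit 0) (nat_lit 0) (XT.lf (nat_lit 0) (nat_lit 5133347418) (nat_lit 1748) (nat_lit 1352712197)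 (nat_lit 1824) (nat_lit 6641062850) (nat_lit 494) (nat_lit 5) (nat_lit 517) (nat_lit 5) (nat_lit 518) (nat_lit 5) (nat_lit 585) (nat_lit 571) (nat_lit 404)) (XT.lf (nat_lit 76) (nat_lit 5585019016) (nat_lit 0) (nat_lit 596342897) (nat_lit 1824) (nat_lit 7075281562) (nat_lit 495) (nat_lit 5) (nat_lit 494) (nat_lit 5) (nat_lit 518) (nat_lit 5) (nat_lit 586) (nat_lit 571) (nat_lit 403)))) (XT.nd (nat_lit 78) (nat_lit 0) (nat_lit 0) (XT.lf (nat_lit 0) (nat_lit 7284096511) (nat_lit 1748) (nat_lit 751633287) (nat_lit 1824) (nat_lit 5352350888) (nat_lit 495) (nat_lit 5) (nat_lit 518) (nat_lit 5) (nat_lit 519) (nat_lit 5) (nat_lit 587) (nat_lit 571) (nat_lit 402)) (XT.nd (nat_lit 78) (nat_lit 0) (nat_lit 76) (XT.lf (nat_lit 76) (nat_lit 6378911990) (nat_lit 0) (nat_lit 2065034712) (nat_lit 1824) (nat_lit 5077499678) (nat_lit 496) (nat_lit 5) (nat_lit 495) (nat_lit 5) (nat_lit 519) (nat_lit 5) (nat_lit 588) (nat_lit 571) (nat_lit 401)) (XT.lf (nat_lit 0) (nat_lit 9648070564)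 (nat_lit 1748) (nat_lit 29017022) (nat_lit 1824) (nat_lit 3979971206) (nat_lit 496) (nat_lit 5) (nat_lit 519) (nat_lit 5) (nat_lit 520) (nat_lit 5) (nat_lit 589) (nat_lit 571) (nat_lit 400))))) (XT.nd (nat_lit 234) (nat_lit 1672) (nat_lit 0) (XT.nd (nat_lit 78) (nat_lit 0) (nat_lit 76) (XT.lf (nat_lit 76) (nat_lit 7301275630) (nat_lit 0) (nat_lit 3626146387) (nat_lit 1824) (nat_lit 2866939455) (nat_lit 497) (nat_lit 5) (nat_lit 496) (nat_lit 5) (nat_lit 520) (nat_lit 5) (nat_lit 590) (nat_lit 571) (nat_lit 399)) (XT.nd (nat_lit 78) (nat_lit 0) (nat_lit 0) (XT.lf (nat_lit 76) (nat_lit 830788287) (nat_lit 0) (nat_lit 11413916653) (nat_lit 1824) (nat_lit 1689459277) (nat_lit 498) (nat_lit 5) (nat_lit 497) (nat_lit 5) (nat_lit 521) (nat_lit 5) (nat_lit 591) (nat_lit 571) (nat_lit 398)) (XT.lf (nat_lit 76) (nat_lit 8357134536) (nat_lit 0) (nat_lit 5288994276) (nat_lit 1824) (nat_lit 429479184) (nat_lit 498) (nat_lit 5) (nat_lit 497) (nat_lit 5) (nat_lit 521) (nat_lit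 5) (nat_lit 592) (nat_lit 571) (nat_lit 397)))) (XT.nd (nat_lit 156) (nat_lit 0) (nat_lit 0) (XT.nd (nat_lit 78) (nat_lit 0) (nat_lit 0) (XT.lf (nat_lit 0) (nat_lit 853168409) (nat_lit 1824) (nat_lit 12401233109) (nat_lit 1900) (nat_lit 965195055) (nat_lit 474) (nat_lit 5) (nat_lit 498) (nat_lit 5) (nat_lit 499) (nat_lit 5) (nat_lit 593) (nat_lit 571) (nat_lit 396)) (XT.lf (nat_lit 0) (nat_lit 2220019075) (nat_lit 1824) (nat_lit 4828182912) (nat_lit 1900) (nat_lit 7316920975) (nat_lit 474) (nat_lit 5) (nat_lit 498) (nat_lit 5) (nat_lit 499) (nat_lit 5) (nat_lit 594) (nat_lit 571) (nat_lit 395))) (XT.nd (nat_lit 78) (nat_lit 0) (nat_lit 76) (XT.lf (nat_lit 76) (nat_lit 2927057177) (nat_lit 0) (nat_lit 696978404) (nat_lit 1900) (nat_lit 10889328537) (nat_lit 475) (nat_lit 5) (nat_lit 474) (nat_lit 5) (nat_lit 499) (nat_lit 5) (nat_lit 595) (nat_lit 571) (nat_lit 394)) (XT.lf (nat_lit 0) (nat_lit 5117246728) (nat_lit 1824) (nat_lit 3806623770) (nat_lit 76) (nat_lit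 5739478113) (nat_lit 475) (nat_lit 5) (nat_lit 499) (nat_lit 5) (nat_lit 476) (nat_lit 5) (nat_lit 596) (nat_lit 571) (nat_lit 393)))))) (XT.nd (nat_lit 546) (nat_lit 3344) (nat_lit 0) (XT.nd (nat_lit 234) (nat_lit 1900) (nat_lit 0) (XT.nd (nat_lit 78) (nat_lit 1064) (nat_lit 0) (XT.lf (nat_lit 0) (nat_lit 4171094297) (nat_lit 1824) (nat_lit 2492066491) (nat_lit 1900) (nat_lit 8152716018) (nat_lit 451) (nat_lit 5) (nat_lit 475) (nat_lit 5) (nat_lit 476) (nat_lit 5) (nat_lit 597) (nat_lit 571) (nat_lit 392)) (XT.nd (nat_lit 78) (nat_lit 1064) (nat_lit 0) (XT.lf (nat_lit 0) (nat_lit 8283394509) (nat_lit 1900) (nat_lit 2645342100) (nat_lit 76) (nat_lit 4041851700) (nat_lit 451) (nat_lit 5) (nat_lit 476) (nat_lit 5) (nat_lit 452) (nat_lit 5) (nat_lit 598) (nat_lit 571) (nat_lit 391)) (XT.lf (nat_lit 0) (nat_lit 5562914353) (nat_lit 1064) (nat_lit 4417184726) (nat_lit 1140) (nat_lit 5147414392) (nat_lit 437) (nat_lit 5) (nat_lit 451) (nat_lit 5) (nat_lit 452) (nat_lit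 5) (nat_lit 599) (nat_lit 571) (nat_lit 390)))) (XT.nd (nat_lit 156) (nat_lit 988) (nat_lit 0) (XT.nd (nat_lit 78) (nat_lit 912) (nat_lit 0) (XT.lf (nat_lit 0) (nat_lit 11734618943) (nat_lit 1140) (nat_lit 1338341506) (nat_lit 76) (nat_lit 2214139804) (nat_lit 437) (nat_lit 5) (nat_lit 452) (nat_lit 5) (nat_lit 438) (nat_lit 5) (nat_lit 600) (nat_lit 571) (nat_lit 389)) (XT.lf (nat_lit 0) (nat_lit 7108821342) (nat_lit 912) (nat_lit 6482549687) (nat_lit 988) (nat_lit 1857165630) (nat_lit 425) (nat_lit 5) (nat_lit 437) (nat_lit 5) (nat_lit 438) (nat_lit 5) (nat_lit 601) (nat_lit 571) (nat_lit 388))) (XT.nd (nat_lit 78) (nat_lit 76) (nat_lit 0) (XT.lf (nat_lit 0) (nat_lit 122317296) (nat_lit 912) (nat_lit 15366182304) (nat_lit 988) (nat_lit 124638074) (nat_lit 413) (nat_lit 5) (nat_lit 425) (nat_lit 5) (nat_lit 426) (nat_lit 5) (nat_lit 602) (nat_lit 571) (nat_lit 387)) (XT.lf (nat_lit 0) (nat_lit 1712169932) (nat_lit 988) (nat_lit 6975015362) (nat_lit 76) (nat_lit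 7091809371) (nat_lit 412) (nat_lit 5) (nat_lit 425) (nat_lit 5) (nat_lit 413) (nat_lit 5) (nat_lit 603) (nat_lit 571) (nat_lit 386))))) (XT.nd (nat_lit 234) (nat_lit 1672) (nat_lit 0) (XT.nd (nat_lit 78) (nat_lit 836) (nat_lit 0) (XT.lf (nat_lit 0) (nat_lit 1725284567) (nat_lit 836) (nat_lit 1862029384) (nat_lit 912) (nat_lit 12360773660) (nat_lit 401) (nat_lit 5) (nat_lit 412) (nat_lit 5) (nat_lit 413) (nat_lit 5) (nat_lit 604) (nat_lit 571) (nat_lit 385)) (XT.nd (nat_lit 78) (nat_lit 836) (nat_lit 0) (XT.lf (nat_lit 0) (nat_lit 5572360597) (nat_lit 912) (nat_lit 5466639696) (nat_lit 76) (nat_lit 5080114786) (nat_lit 401) (nat_lit 5) (nat_lit 413) (nat_lit 5) (nat_lit 402) (nat_lit 5) (nat_lit 605) (nat_lit 571) (nat_lit 384)) (XT.lf (nat_lit 0) (nat_lit 3490514014) (nat_lit 836) (nat_lit 4133915243) (nat_lit 912) (nat_lit 8668588061) (nat_lit 390) (nat_lit 5) (nat_lit 401) (nat_lit 5) (nat_lit 402) (nat_lit 5) (nat_lit 606) (nat_lit 571) (nat_lit 383)))) (XT.nd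 (nat_lit 156) (nat_lit 836) (nat_lit 0) (XT.nd (nat_lit 78) (nat_lit 836) (nat_lit 0) (XT.lf (nat_lit 0) (nat_lit 9765784035) (nat_lit 912) (nat_lit 3795566005) (nat_lit 76) (nat_lit 2908083299) (nat_lit 390) (nat_lit 5) (nat_lit 402) (nat_lit 5) (nat_lit 391) (nat_lit 5) (nat_lit 607) (nat_lit 571) (nat_lit 382)) (XT.lf (nat_lit 0) (nat_lit 5427787408) (nat_lit 836) (nat_lit 6577373524) (nat_lit 912) (nat_lit 4643113467) (nat_lit 379) (nat_lit 5) (nat_lit 390) (nat_lit 5) (nat_lit 391) (nat_lit 5) (nat_lit 608) (nat_lit 571) (nat_lit 381))) (XT.nd (nat_lit 78) (nat_lit 836) (nat_lit 0) (XT.lf (nat_lit 0) (nat_lit 14311184369) (nat_lit 912) (nat_lit 1954469262) (nat_lit 76) (nat_lit 564602076) (nat_lit 379) (nat_lit 5) (nat_lit 391) (nat_lit 5) (nat_lit 380) (nat_lit 5) (nat_lit 609) (nat_lit 571) (nat_lit 380)) (XT.lf (nat_lit 0) (nat_lit 7544782145) (nat_lit 836) (nat_lit 9203907535) (nat_lit 912) (nat_lit 265480328) (nat_lit 368) (nat_lit 5) (nat_lit 379) (nat_lit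 5) (nat_lit 380) (nat_lit 5) (nat_lit 610) (nat_lit 571) (nat_lit 379))))))) (XT.nd (nat_lit 1092) (nat_lit 4712) (nat_lit 0) (XT.nd (nat_lit 546) (nat_lit 2812) (nat_lit 0) (XT.nd (nat_lit 234) (nat_lit 1444) (nat_lit 0) (XT.nd (nat_lit 78) (nat_lit 760) (nat_lit 0) (XT.lf (nat_lit 0) (nat_lit 38706340) (nat_lit 760) (nat_lit 1974126274) (nat_lit 836) (nat_lit 15188540224) (nat_lit 357) (nat_lit 5) (nat_lit 367) (nat_lit 5) (nat_lit 368) (nat_lit 5) (nat_lit 611) (nat_lit 571) (nat_lit 378)) (XT.nd (nat_lit 78) (nat_lit 760) (nat_lit 0) (XT.lf (nat_lit 0) (nat_lit 4425138390) (nat_lit 836) (nat_lit 7570581853) (nat_lit 76) (nat_lit 5394725319) (nat_lit 357) (nat_lit 5) (nat_lit 368) (nat_lit 5) (nat_lit 358) (nat_lit 5) (nat_lit 612) (nat_lit 571) (nat_lit 377)) (XT.lf (nat_lit 0) (nat_lit 2221946825) (nat_lit 760) (nat_lit 4684332334) (nat_lit 836) (nat_lit 10676609353) (nat_lit 347) (nat_lit 5) (nat_lit 357) (nat_lit 5) (nat_lit 358) (nat_lit 5) (nat_lit 613)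 (nat_lit 571) (nat_lit 376)))) (XT.nd (nat_lit 156) (nat_lit 760) (nat_lit 0) (XT.nd (nat_lit 78) (nat_lit 684) (nat_lit 0) (XT.lf (nat_lit 0) (nat_lit 9499360131) (nat_lit 836) (nat_lit 5491108663) (nat_lit 76) (nat_lit 2787465720) (nat_lit 347) (nat_lit 5) (nat_lit 358) (nat_lit 5) (nat_lit 348) (nat_lit 5) (nat_lit 614) (nat_lit 571) (nat_lit 375)) (XT.lf (nat_lit 0) (nat_lit 4598001331) (nat_lit 684) (nat_lit 7600482970) (nat_lit 760) (nat_lit 5777314031) (nat_lit 338) (nat_lit 5) (nat_lit 347) (nat_lit 5) (nat_lit 348) (nat_lit 5) (nat_lit 615) (nat_lit 571) (nat_lit 374))) (XT.nd (nat_lit 78) (nat_lit 760) (nat_lit 0) (XT.lf (nat_lit 0) (nat_lit 14955974402) (nat_lit 684) (nat_lit 25854529) (nat_lit 760) (nat_lit 3195186253) (nat_lit 338) (nat_lit 5) (nat_lit 347) (nat_lit 5) (nat_lit 348) (nat_lit 5) (nat_lit 616) (nat_lit 571) (nat_lit 373)) (XT.lf (nat_lit 0) (nat_lit 7175631243) (nat_lit 760) (nat_lit 10735308044) (nat_lit 836) (nat_lit 469515618) (nat_lit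 328) (nat_lit 5) (nat_lit 338) (nat_lit 5) (nat_lit 339) (nat_lit 5) (nat_lit 617) (nat_lit 571) (nat_lit 372))))) (XT.nd (nat_lit 234) (nat_lit 1368) (nat_lit 0) (XT.nd (nat_lit 78) (nat_lit 1368) (nat_lit 0) (XT.lf (nat_lit 0) (nat_lit 2295844428) (nat_lit 836) (nat_lit 786320827) (nat_lit 76) (nat_lit 15505188990) (nat_lit 327) (nat_lit 5) (nat_lit 338) (nat_lit 5) (nat_lit 328) (nat_lit 5) (nat_lit 618) (nat_lit 571) (nat_lit 371)) (XT.nd (nat_lit 78) (nat_lit 684) (nat_lit 0) (XT.lf (nat_lit 0) (nat_lit 5199695848) (nat_lit 760) (nat_lit 8867423550) (nat_lit 76) (nat_lit 4729421161) (nat_lit 318) (nat_lit 5) (nat_lit 328) (nat_lit 5) (nat_lit 319) (nat_lit 5) (nat_lit 619) (nat_lit 571) (nat_lit 370)) (XT.lf (nat_lit 0) (nat_lit 1856317716) (nat_lit 684) (nat_lit 6336831587) (nat_lit 760) (nat_lit 10816131265) (nat_lit 309) (nat_lit 5) (nat_lit 318) (nat_lit 5) (nat_lit 319) (nat_lit 5) (nat_lit 620) (nat_lit 571) (nat_lit 369)))) (XT.nd (nat_lit 156) (nat_lit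 760) (nat_lit 0) (XT.nd (nat_lit 78) (nat_lit 608) (nat_lit 0) (XT.lf (nat_lit 0) (nat_lit 11310239829) (nat_lit 760) (nat_lit 6328164200) (nat_lit 76) (nat_lit 1586596451) (nat_lit 309) (nat_lit 5) (nat_lit 319) (nat_lit 5) (nat_lit 310) (nat_lit 5) (nat_lit 621) (nat_lit 571) (nat_lit 368)) (XT.lf (nat_lit 0) (nat_lit 4725922576) (nat_lit 608) (nat_lit 9830338205) (nat_lit 684) (nat_lit 4887442686) (nat_lit 301) (nat_lit 5) (nat_lit 309) (nat_lit 5) (nat_lit 310) (nat_lit 5) (nat_lit 622) (nat_lit 571) (nat_lit 367))) (XT.nd (nat_lit 78) (nat_lit 760) (nat_lit 0) (XT.lf (nat_lit 0) (nat_lit 16079695137) (nat_lit 608) (nat_lit 1823983601) (nat_lit 684) (nat_lit 1762372685) (nat_lit 301) (nat_lit 5) (nat_lit 309) (nat_lit 5) (nat_lit 310) (nat_lit 5) (nat_lit 623) (nat_lit 571) (nat_lit 366)) (XT.lf (nat_lit 0) (nat_lit 1493162843) (nat_lit 760) (nat_lit 12078990479) (nat_lit 76) (nat_lit 6318775259) (nat_lit 291) (nat_lit 5) (nat_lit 301) (nat_lit 5) (nat_lit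 292) (nat_lit 5) (nat_lit 624) (nat_lit 571) (nat_lit 365)))))) (XT.nd (nat_lit 546) (nat_lit 2204) (nat_lit 0) (XT.nd (nat_lit 234) (nat_lit 1292) (nat_lit 0) (XT.nd (nat_lit 78) (nat_lit 1216) (nat_lit 0) (XT.lf (nat_lit 0) (nat_lit 4820689483) (nat_lit 760) (nat_lit 664096267) (nat_lit 76) (nat_lit 14634675391) (nat_lit 291) (nat_lit 5) (nat_lit 301) (nat_lit 5) (nat_lit 292) (nat_lit 5) (nat_lit 625) (nat_lit 571) (nat_lit 364)) (XT.nd (nat_lit 78) (nat_lit 608) (nat_lit 0) (XT.lf (nat_lit 0) (nat_lit 8299634820) (nat_lit 684) (nat_lit 9251780359) (nat_lit 76) (nat_lit 2799452219) (nat_lit 283) (nat_lit 5) (nat_lit 292) (nat_lit 5) (nat_lit 284) (nat_lit 5) (nat_lit 626) (nat_lit 571) (nat_lit 363)) (XT.lf (nat_lit 0) (nat_lit 2509184414) (nat_lit 608) (nat_lit 9390399541) (nat_lit 684) (nat_lit 8686289726) (nat_lit 275) (nat_lit 5) (nat_lit 283) (nat_lit 5) (nat_lit 284) (nat_lit 5) (nat_lit 627) (nat_lit 571) (nat_lit 362)))) (XT.nd (nat_lit 156) (nat_lit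 684) (nat_lit 0) (XT.nd (nat_lit 78) (nat_lit 608) (nat_lit 0) (XT.lf (nat_lit 0) (nat_lit 14623730723) (nat_lit 608) (nat_lit 1004275758) (nat_lit 684) (nat_lit 5196444514) (nat_lit 275) (nat_lit 5) (nat_lit 283) (nat_lit 5) (nat_lit 284) (nat_lit 5) (nat_lit 628) (nat_lit 571) (nat_lit 361)) (XT.lf (nat_lit 0) (nat_lit 5934573167) (nat_lit 608) (nat_lit 13578463232) (nat_lit 684) (nat_lit 1553123064) (nat_lit 267) (nat_lit 5) (nat_lit 275) (nat_lit 5) (nat_lit 276) (nat_lit 5) (nat_lit 629) (nat_lit 571) (nat_lit 360))) (XT.nd (nat_lit 78) (nat_lit 608) (nat_lit 0) (XT.lf (nat_lit 0) (nat_lit 2177749619) (nat_lit 684) (nat_lit 2943253688) (nat_lit 76) (nat_lit 16190557204) (nat_lit 266) (nat_lit 5) (nat_lit 275) (nat_lit 5) (nat_lit 267) (nat_lit 5) (nat_lit 630) (nat_lit 571) (nat_lit 359)) (XT.lf (nat_lit 0) (nat_lit 6042632834) (nat_lit 684) (nat_lit 11986223921) (nat_lit 76) (nat_lit 3531204077) (nat_lit 258) (nat_lit 5) (nat_lit 267) (nat_lit 5) (nat_lit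 259) (nat_lit 5) (nat_lit 631) (nat_lit 571) (nat_lit 358))))) (XT.nd (nat_lit 234) (nat_lit 1140) (nat_lit 0) (XT.nd (nat_lit 78) (nat_lit 532) (nat_lit 0) (XT.lf (nat_lit 0) (nat_lit 534037571) (nat_lit 532) (nat_lit 9502714666) (nat_lit 608) (nat_lit 11775740509) (nat_lit 251) (nat_lit 5) (nat_lit 258) (nat_lit 5) (nat_lit 259) (nat_lit 5) (nat_lit 632) (nat_lit 571) (nat_lit 357)) (XT.nd (nat_lit 78) (nat_lit 532) (nat_lit 0) (XT.lf (nat_lit 0) (nat_lit 13460274993) (nat_lit 532) (nat_lit 725648156) (nat_lit 608) (nat_lit 7882547116) (nat_lit 251) (nat_lit 5) (nat_lit 258) (nat_lit 5) (nat_lit 259) (nat_lit 5) (nat_lit 633) (nat_lit 571) (nat_lit 356)) (XT.lf (nat_lit 0) (nat_lit 4311740763) (nat_lit 532) (nat_lit 14182574310) (nat_lit 608) (nat_lit 3833727851) (nat_lit 244) (nat_lit 5) (nat_lit 251) (nat_lit 5) (nat_lit 252) (nat_lit 5) (nat_lit 634) (nat_lit 571) (nat_lit 355)))) (XT.nd (nat_lit 156) (nat_lit 532) (nat_lit 0) (XT.nd (nat_lit 78) (nat_lit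 532) (nat_lit 0) (XT.lf (nat_lit 0) (nat_lit 349989480) (nat_lit 608) (nat_lit 4998887336) (nat_lit 76) (nat_lit 17242736008) (nat_lit 243) (nat_lit 5) (nat_lit 251) (nat_lit 5) (nat_lit 244) (nat_lit 5) (nat_lit 635) (nat_lit 571) (nat_lit 354)) (XT.lf (nat_lit 0) (nat_lit 4639591527) (nat_lit 608) (nat_lit 14526922142) (nat_lit 76) (nat_lit 3691963077) (nat_lit 236) (nat_lit 5) (nat_lit 244) (nat_lit 5) (nat_lit 237) (nat_lit 5) (nat_lit 636) (nat_lit 571) (nat_lit 353))) (XT.nd (nat_lit 78) (nat_lit 532) (nat_lit 0) (XT.lf (nat_lit 0) (nat_lit 9079172190) (nat_lit 608) (nat_lit 1176082222) (nat_lit 76) (nat_lit 12874140121) (nat_lit 236) (nat_lit 5) (nat_lit 244) (nat_lit 5) (nat_lit 237) (nat_lit 5) (nat_lit 637) (nat_lit 571) (nat_lit 352)) (XT.lf (nat_lit 0) (nat_lit 12600367228) (nat_lit 532) (nat_lit 1084081523) (nat_lit 608) (nat_lit 9719744147) (nat_lit 229) (nat_lit 5) (nat_lit 236) (nat_lit 5) (nat_lit 237) (nat_lit 5) (nat_lit 638) (nat_lit 571) (nat_lit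 351))))))))
noncomputable def xc186 : XT := (XT.nd (nat_lit 76050) (nat_lit 0) (nat_lit 23940) (XT.nd (nat_lit 1014) (nat_lit 3192) (nat_lit 0) (XT.nd (nat_lit 468) (nat_lit 1900) (nat_lit 0) (XT.nd (nat_lit 234) (nat_lit 912) (nat_lit 0) (XT.nd (nat_lit 78) (nat_lit 608) (nat_lit 0) (XT.lf (nat_lit 0) (nat_lit 2962354875) (nat_lit 456) (nat_lit 15495487688) (nat_lit 532) (nat_lit 5225124736) (nat_lit 223) (nat_lit 5) (nat_lit 229) (nat_lit 5) (nat_lit 230) (nat_lit 5) (nat_lit 639) (nat_lit 571) (nat_lit 350)) (XT.nd (nat_lit 78) (nat_lit 608) (nat_lit 0) (XT.lf (nat_lit 0) (nat_lit 17136371698) (nat_lit 456) (nat_lit 6265152230) (nat_lit 532) (nat_lit 564297166) (nat_lit 223) (nat_lit 5) (nat_lit 229) (nat_lit 5) (nat_lit 230) (nat_lit 5) (nat_lit 640) (nat_lit 571) (nat_lit 349)) (XT.lf (nat_lit 0) (nat_lit 4199049774) (nat_lit 608) (nat_lit 16871029239) (nat_lit 76) (nat_lit 3182424141) (nat_lit 215) (nat_lit 5) (nat_lit 223) (nat_lit 5) (nat_lit 216) (nat_lit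 5) (nat_lit 641) (nat_lit 571) (nat_lit 348)))) (XT.nd (nat_lit 78) (nat_lit 912) (nat_lit 0) (XT.lf (nat_lit 0) (nat_lit 9133028140) (nat_lit 608) (nat_lit 2626976141) (nat_lit 76) (nat_lit 12783181847) (nat_lit 215) (nat_lit 5) (nat_lit 223) (nat_lit 5) (nat_lit 216) (nat_lit 5) (nat_lit 642) (nat_lit 571) (nat_lit 347)) (XT.nd (nat_lit 78) (nat_lit 456) (nat_lit 0) (XT.lf (nat_lit 0) (nat_lit 12053539512) (nat_lit 456) (nat_lit 2185788079) (nat_lit 532) (nat_lit 10598882616) (nat_lit 209) (nat_lit 5) (nat_lit 215) (nat_lit 5) (nat_lit 216) (nat_lit 5) (nat_lit 643) (nat_lit 571) (nat_lit 346)) (XT.lf (nat_lit 0) (nat_lit 1893455634) (nat_lit 456) (nat_lit 17628968199) (nat_lit 532) (nat_lit 5615217787) (nat_lit 203) (nat_lit 5) (nat_lit 209) (nat_lit 5) (nat_lit 210) (nat_lit 5) (nat_lit 644) (nat_lit 571) (nat_lit 345))))) (XT.nd (nat_lit 234) (nat_lit 1368) (nat_lit 0) (XT.nd (nat_lit 78) (nat_lit 532) (nat_lit 0) (XT.lf (nat_lit 0) (nat_lit 17017279855) (nat_lit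 456) (nat_lit 7989540134) (nat_lit 532) (nat_lit 434329178) (nat_lit 203) (nat_lit 5) (nat_lit 209) (nat_lit 5) (nat_lit 210) (nat_lit 5) (nat_lit 645) (nat_lit 571) (nat_lit 344)) (XT.nd (nat_lit 78) (nat_lit 0) (nat_lit 0) (XT.lf (nat_lit 0) (nat_lit 4838323553) (nat_lit 532) (nat_lit 19018385904) (nat_lit 76) (nat_lit 1892352703) (nat_lit 196) (nat_lit 5) (nat_lit 203) (nat_lit 5) (nat_lit 197) (nat_lit 5) (nat_lit 646) (nat_lit 571) (nat_lit 343)) (XT.lf (nat_lit 0) (nat_lit 10315991636) (nat_lit 532) (nat_lit 3822126494) (nat_lit 76) (nat_lit 11922850554) (nat_lit 196) (nat_lit 5) (nat_lit 203) (nat_lit 5) (nat_lit 197) (nat_lit 5) (nat_lit 647) (nat_lit 571) (nat_lit 342)))) (XT.nd (nat_lit 156) (nat_lit 532) (nat_lit 0) (XT.nd (nat_lit 78) (nat_lit 380) (nat_lit 0) (XT.lf (nat_lit 0) (nat_lit 11826833287) (nat_lit 456) (nat_lit 4148813234) (nat_lit 532) (nat_lit 10402018394) (nat_lit 190) (nat_lit 5) (nat_lit 196) (nat_lit 5) (nat_lit 197) (nat_lit 5) (nat_lit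 648) (nat_lit 571) (nat_lit 341)) (XT.lf (nat_lit 0) (nat_lit 1109192276) (nat_lit 380) (nat_lit 20707217087) (nat_lit 456) (nat_lit 4882927649) (nat_lit 185) (nat_lit 5) (nat_lit 190) (nat_lit 5) (nat_lit 191) (nat_lit 5) (nat_lit 649) (nat_lit 571) (nat_lit 340))) (XT.nd (nat_lit 78) (nat_lit 456) (nat_lit 0) (XT.lf (nat_lit 0) (nat_lit 858212345) (nat_lit 456) (nat_lit 9785185270) (nat_lit 76) (nat_lit 16381519055) (nat_lit 184) (nat_lit 5) (nat_lit 190) (nat_lit 5) (nat_lit 185) (nat_lit 5) (nat_lit 650) (nat_lit 571) (nat_lit 339)) (XT.lf (nat_lit 0) (nat_lit 6380965481) (nat_lit 456) (nat_lit 305094831) (nat_lit 532) (nat_lit 20669556960) (nat_lit 178) (nat_lit 5) (nat_lit 184) (nat_lit 5) (nat_lit 185) (nat_lit 5) (nat_lit 651) (nat_lit 571) (nat_lit 338)))))) (XT.nd (nat_lit 546) (nat_lit 1596) (nat_lit 0) (XT.nd (nat_lit 234) (nat_lit 836) (nat_lit 0) (XT.nd (nat_lit 78) (nat_lit 760) (nat_lit 0) (XT.lf (nat_lit 0) (nat_lit 12758854758) (nat_lit 532) (nat_lit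 4761745748) (nat_lit 76) (nat_lit 10169763810) (nat_lit 178) (nat_lit 5) (nat_lit 185) (nat_lit 5) (nat_lit 179) (nat_lit 5) (nat_lit 652) (nat_lit 571) (nat_lit 337)) (XT.nd (nat_lit 78) (nat_lit 380) (nat_lit 0) (XT.lf (nat_lit 0) (nat_lit 11923613963) (nat_lit 380) (nat_lit 7104816080) (nat_lit 456) (nat_lit 9001869976) (nat_lit 173) (nat_lit 5) (nat_lit 178) (nat_lit 5) (nat_lit 179) (nat_lit 5) (nat_lit 653) (nat_lit 571) (nat_lit 336)) (XT.lf (nat_lit 0) (nat_lit 609573712) (nat_lit 380) (nat_lit 24868711815) (nat_lit 456) (nat_lit 2897651349) (nat_lit 168) (nat_lit 5) (nat_lit 173) (nat_lit 5) (nat_lit 174) (nat_lit 5) (nat_lit 654) (nat_lit 571) (nat_lit 335)))) (XT.nd (nat_lit 156) (nat_lit 380) (nat_lit 0) (XT.nd (nat_lit 78) (nat_lit 380) (nat_lit 0) (XT.lf (nat_lit 0) (nat_lit 3436776807) (nat_lit 456) (nat_lit 10923420710) (nat_lit 76) (nat_lit 14364821299) (nat_lit 167) (nat_lit 5) (nat_lit 173) (nat_lit 5) (nat_lit 168) (nat_lit 5) (nat_lit 655)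 (nat_lit 571) (nat_lit 334)) (XT.lf (nat_lit 0) (nat_lit 6313915051) (nat_lit 380) (nat_lit 3582218265) (nat_lit 456) (nat_lit 19183825423) (nat_lit 162) (nat_lit 5) (nat_lit 167) (nat_lit 5) (nat_lit 168) (nat_lit 5) (nat_lit 656) (nat_lit 571) (nat_lit 333))) (XT.nd (nat_lit 78) (nat_lit 380) (nat_lit 0) (XT.lf (nat_lit 0) (nat_lit 16602617895) (nat_lit 456) (nat_lit 5451178262) (nat_lit 76) (nat_lit 7385842682) (nat_lit 162) (nat_lit 5) (nat_lit 168) (nat_lit 5) (nat_lit 163) (nat_lit 5) (nat_lit 657) (nat_lit 571) (nat_lit 332)) (XT.lf (nat_lit 0) (nat_lit 12342140807) (nat_lit 380) (nat_lit 11201060161) (nat_lit 456) (nat_lit 6261312389) (nat_lit 157) (nat_lit 5) (nat_lit 162) (nat_lit 5) (nat_lit 163) (nat_lit 5) (nat_lit 658) (nat_lit 571) (nat_lit 331))))) (XT.nd (nat_lit 234) (nat_lit 760) (nat_lit 0) (XT.nd (nat_lit 78) (nat_lit 380) (nat_lit 0) (XT.lf (nat_lit 0) (nat_lit 385176868) (nat_lit 380) (nat_lit 90332681) (nat_lit 456) (nat_lit 29700409150)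 (nat_lit 151) (nat_lit 5) (nat_lit 156) (nat_lit 5) (nat_lit 157) (nat_lit 5) (nat_lit 659) (nat_lit 571) (nat_lit 330)) (XT.nd (nat_lit 78) (nat_lit 380) (nat_lit 0) (XT.lf (nat_lit 0) (nat_lit 7450407100) (nat_lit 456) (nat_lit 11847286070) (nat_lit 76) (nat_lit 11252487850) (nat_lit 151) (nat_lit 5) (nat_lit 157) (nat_lit 5) (nat_lit 152) (nat_lit 5) (nat_lit 660) (nat_lit 571) (nat_lit 329)) (XT.lf (nat_lit 0) (nat_lit 6534230608) (nat_lit 380) (nat_lit 8069817870) (nat_lit 456) (nat_lit 16327095371) (nat_lit 146) (nat_lit 5) (nat_lit 151) (nat_lit 5) (nat_lit 152) (nat_lit 5) (nat_lit 661) (nat_lit 571) (nat_lit 328)))) (XT.nd (nat_lit 156) (nat_lit 456) (nat_lit 0) (XT.nd (nat_lit 78) (nat_lit 304) (nat_lit 0) (XT.lf (nat_lit 0) (nat_lit 21998998117) (nat_lit 456) (nat_lit 5902583772) (nat_lit 76) (nat_lit 3416179511) (nat_lit 146) (nat_lit 5) (nat_lit 152) (nat_lit 5) (nat_lit 147) (nat_lit 5) (nat_lit 662) (nat_lit 571) (nat_lit 327)) (XT.lf (nat_lit 0)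 (nat_lit 13073841955) (nat_lit 304) (nat_lit 16602650199) (nat_lit 380) (nat_lit 2032926410) (nat_lit 142) (nat_lit 5) (nat_lit 146) (nat_lit 5) (nat_lit 147) (nat_lit 5) (nat_lit 663) (nat_lit 571) (nat_lit 326))) (XT.nd (nat_lit 74022) (nat_lit 0) (nat_lit 28500) (XT.lf (nat_lit 0) (nat_lit 365344044) (nat_lit 380) (nat_lit 5001052221) (nat_lit 456) (nat_lit 26741040281) (nat_lit 136) (nat_lit 5) (nat_lit 141) (nat_lit 5) (nat_lit 142) (nat_lit 5) (nat_lit 664) (nat_lit 571) (nat_lit 325)) (XT.lf (nat_lit 0) (nat_lit 3789759452) (nat_lit 1748) (nat_lit 1034452035) (nat_lit 1748) (nat_lit 1034452035) (nat_lit 511) (nat_lit 3) (nat_lit 534) (nat_lit 3) (nat_lit 534) (nat_lit 5) (nat_lit 572) (nat_lit 572) (nat_lit 416))))))) (XT.nd (nat_lit 1014) (nat_lit 3040) (nat_lit 0) (XT.nd (nat_lit 468) (nat_lit 1520) (nat_lit 0) (XT.nd (nat_lit 234) (nat_lit 0) (nat_lit 76) (XT.nd (nat_lit 78) (nat_lit 0) (nat_lit 76) (XT.lf (nat_lit 76) (nat_lit 3771126275) (nat_lit 0)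 (nat_lit 4406291681) (nat_lit 1748) (nat_lit 3646592135) (nat_lit 512) (nat_lit 5) (nat_lit 511) (nat_lit 3) (nat_lit 534) (nat_lit 5) (nat_lit 573) (nat_lit 572) (nat_lit 415)) (XT.nd (nat_lit 78) (nat_lit 0) (nat_lit 0) (XT.lf (nat_lit 0) (nat_lit 8794302603) (nat_lit 1672) (nat_lit 2189797265) (nat_lit 1748) (nat_lit 948587641) (nat_lit 512) (nat_lit 5) (nat_lit 534) (nat_lit 5) (nat_lit 535) (nat_lit 5) (nat_lit 574) (nat_lit 572) (nat_lit 414)) (XT.lf (nat_lit 76) (nat_lit 3804352867) (nat_lit 0) (nat_lit 5660253884) (nat_lit 1748) (nat_lit 2578111328) (nat_lit 513) (nat_lit 5) (nat_lit 512) (nat_lit 5) (nat_lit 535) (nat_lit 5) (nat_lit 575) (nat_lit 572) (nat_lit 413)))) (XT.nd (nat_lit 78) (nat_lit 0) (nat_lit 76) (XT.lf (nat_lit 76) (nat_lit 9941202575) (nat_lit 0) (nat_lit 209216172) (nat_lit 1748) (nat_lit 2004489692) (nat_lit 513) (nat_lit 5) (nat_lit 512) (nat_lit 5) (nat_lit 535) (nat_lit 5) (nat_lit 576) (nat_lit 572) (nat_lit 412)) (XT.nd (nat_lit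 78) (nat_lit 0) (nat_lit 0) (XT.lf (nat_lit 76) (nat_lit 3941380747) (nat_lit 0) (nat_lit 6956587952) (nat_lit 1748) (nat_lit 1370414662) (nat_lit 514) (nat_lit 5) (nat_lit 513) (nat_lit 5) (nat_lit 536) (nat_lit 5) (nat_lit 577) (nat_lit 572) (nat_lit 411)) (XT.lf (nat_lit 76) (nat_lit 10241202043) (nat_lit 0) (nat_lit 1423385708) (nat_lit 1748) (nat_lit 719458835) (nat_lit 514) (nat_lit 5) (nat_lit 513) (nat_lit 5) (nat_lit 536) (nat_lit 5) (nat_lit 578) (nat_lit 572) (nat_lit 410))))) (XT.nd (nat_lit 234) (nat_lit 0) (nat_lit 76) (XT.nd (nat_lit 78) (nat_lit 1748) (nat_lit 0) (XT.lf (nat_lit 76) (nat_lit 4185381372) (nat_lit 0) (nat_lit 8303891048) (nat_lit 1748) (nat_lit 11897135) (nat_lit 515) (nat_lit 5) (nat_lit 514) (nat_lit 5) (nat_lit 537) (nat_lit 5) (nat_lit 579) (nat_lit 572) (nat_lit 409)) (XT.nd (nat_lit 78) (nat_lit 0) (nat_lit 76) (XT.lf (nat_lit 0) (nat_lit 712672567) (nat_lit 1748) (nat_lit 1972474476) (nat_lit 1824) (nat_lit 9935153545) (nat_lit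 491) (nat_lit 5) (nat_lit 514) (nat_lit 5) (nat_lit 515) (nat_lit 5) (nat_lit 580) (nat_lit 572) (nat_lit 408)) (XT.lf (nat_lit 0) (nat_lit 1489614020) (nat_lit 1748) (nat_lit 8211224610) (nat_lit 1824) (nat_lit 3040214323) (nat_lit 492) (nat_lit 5) (nat_lit 515) (nat_lit 5) (nat_lit 516) (nat_lit 5) (nat_lit 581) (nat_lit 572) (nat_lit 407)))) (XT.nd (nat_lit 156) (nat_lit 0) (nat_lit 76) (XT.nd (nat_lit 78) (nat_lit 0) (nat_lit 76) (XT.lf (nat_lit 0) (nat_lit 2301903589) (nat_lit 1748) (nat_lit 1700194032) (nat_lit 1824) (nat_lit 8861727617) (nat_lit 492) (nat_lit 5) (nat_lit 515) (nat_lit 5) (nat_lit 516) (nat_lit 5) (nat_lit 582) (nat_lit 572) (nat_lit 406)) (XT.lf (nat_lit 0) (nat_lit 3163819551) (nat_lit 1748) (nat_lit 8001136384) (nat_lit 1824) (nat_lit 1823430457) (nat_lit 493) (nat_lit 5) (nat_lit 516) (nat_lit 5) (nat_lit 517) (nat_lit 5) (nat_lit 583) (nat_lit 572) (nat_lit 405))) (XT.nd (nat_lit 78) (nat_lit 0) (nat_lit 76) (XT.lf (nat_lit 0) (nat_lit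 4070082773) (nat_lit 1748) (nat_lit 1317637603) (nat_lit 1824) (nat_lit 7727177229) (nat_lit 493) (nat_lit 5) (nat_lit 516) (nat_lit 5) (nat_lit 517) (nat_lit 5) (nat_lit 584) (nat_lit 572) (nat_lit 404)) (XT.lf (nat_lit 0) (nat_lit 5023479653) (nat_lit 1748) (nat_lit 7681643436) (nat_lit 1824) (nat_lit 538236782) (nat_lit 494) (nat_lit 5) (nat_lit 517) (nat_lit 5) (nat_lit 518) (nat_lit 5) (nat_lit 585) (nat_lit 572) (nat_lit 403)))))) (XT.nd (nat_lit 546) (nat_lit 3268) (nat_lit 0) (XT.nd (nat_lit 234) (nat_lit 0) (nat_lit 76) (XT.nd (nat_lit 78) (nat_lit 0) (nat_lit 0) (XT.lf (nat_lit 0) (nat_lit 6030043446) (nat_lit 1748) (nat_lit 820813560) (nat_lit 1824) (nat_lit 6522853373) (nat_lit 494) (nat_lit 5) (nat_lit 517) (nat_lit 5) (nat_lit 518) (nat_lit 5) (nat_lit 586) (nat_lit 572) (nat_lit 402)) (XT.nd (nat_lit 78) (nat_lit 0) (nat_lit 76) (XT.lf (nat_lit 76) (nat_lit 6251994955) (nat_lit 0) (nat_lit 835059295) (nat_lit 1824) (nat_lit 6419008289) (nat_lit 495)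 (nat_lit 5) (nat_lit 494) (nat_lit 5) (nat_lit 518) (nat_lit 5) (nat_lit 587) (nat_lit 572) (nat_lit 401)) (XT.lf (nat_lit 0) (nat_lit 8195065335) (nat_lit 1748) (nat_lit 205428863) (nat_lit 1824) (nat_lit 5239971283) (nat_lit 495) (nat_lit 5) (nat_lit 518) (nat_lit 5) (nat_lit 519) (nat_lit 5) (nat_lit 588) (nat_lit 572) (nat_lit 400)))) (XT.nd (nat_lit 156) (nat_lit 0) (nat_lit 76) (XT.nd (nat_lit 78) (nat_lit 0) (nat_lit 76) (XT.lf (nat_lit 76) (nat_lit 7064034971) (nat_lit 0) (nat_lit 2302691884) (nat_lit 1824) (nat_lit 4410000741) (nat_lit 496) (nat_lit 5) (nat_lit 495) (nat_lit 5) (nat_lit 519) (nat_lit 5) (nat_lit 589) (nat_lit 572) (nat_lit 399)) (XT.lf (nat_lit 76) (nat_lit 540200532) (nat_lit 0) (nat_lit 10042207746) (nat_lit 1824) (nat_lit 3332895843) (nat_lit 497) (nat_lit 5) (nat_lit 496) (nat_lit 5) (nat_lit 520) (nat_lit 5) (nat_lit 590) (nat_lit 572) (nat_lit 398))) (XT.nd (nat_lit 78) (nat_lit 0) (nat_lit 76) (XT.lf (nat_lit 76) (nat_lit 8006312151)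 (nat_lit 0) (nat_lit 3866688720) (nat_lit 1824) (nat_lit 2182640240) (nat_lit 497) (nat_lit 5) (nat_lit 496) (nat_lit 5) (nat_lit 520) (nat_lit 5) (nat_lit 591) (nat_lit 572) (nat_lit 397)) (XT.lf (nat_lit 76) (nat_lit 1418332561) (nat_lit 0) (nat_lit 11786678737) (nat_lit 1824) (nat_lit 993462290) (nat_lit 498) (nat_lit 5) (nat_lit 497) (nat_lit 5) (nat_lit 521) (nat_lit 5) (nat_lit 592) (nat_lit 572) (nat_lit 396))))) (XT.nd (nat_lit 234) (nat_lit 1672) (nat_lit 0) (XT.nd (nat_lit 78) (nat_lit 0) (nat_lit 76) (XT.lf (nat_lit 0) (nat_lit 273769617) (nat_lit 1824) (nat_lit 5260818141) (nat_lit 1900) (nat_lit 8808404303) (nat_lit 473) (nat_lit 5) (nat_lit 497) (nat_lit 5) (nat_lit 498) (nat_lit 5) (nat_lit 593) (nat_lit 572) (nat_lit 395)) (XT.nd (nat_lit 78) (nat_lit 0) (nat_lit 0) (XT.lf (nat_lit 0) (nat_lit 1565303851) (nat_lit 1824) (nat_lit 12068994375) (nat_lit 1900) (nat_lit 855726956) (nat_lit 474) (nat_lit 5) (nat_lit 498) (nat_lit 5) (nat_lit 499) (nat_lit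 5) (nat_lit 594) (nat_lit 572) (nat_lit 394)) (XT.lf (nat_lit 0) (nat_lit 2945862666) (nat_lit 1824) (nat_lit 4355860888) (nat_lit 1900) (nat_lit 7337012335) (nat_lit 474) (nat_lit 5) (nat_lit 498) (nat_lit 5) (nat_lit 499) (nat_lit 5) (nat_lit 595) (nat_lit 572) (nat_lit 393)))) (XT.nd (nat_lit 156) (nat_lit 1748) (nat_lit 0) (XT.nd (nat_lit 78) (nat_lit 0) (nat_lit 76) (XT.lf (nat_lit 76) (nat_lit 3550741334) (nat_lit 0) (nat_lit 817525820) (nat_lit 1900) (nat_lit 10421869751) (nat_lit 475) (nat_lit 5) (nat_lit 474) (nat_lit 5) (nat_lit 499) (nat_lit 5) (nat_lit 596) (nat_lit 572) (nat_lit 392)) (XT.lf (nat_lit 0) (nat_lit 5877492342) (nat_lit 1824) (nat_lit 3314785974) (nat_lit 76) (nat_lit 5751120943) (nat_lit 475) (nat_lit 5) (nat_lit 499) (nat_lit 5) (nat_lit 476) (nat_lit 5) (nat_lit 597) (nat_lit 572) (nat_lit 391))) (XT.nd (nat_lit 78) (nat_lit 0) (nat_lit 0) (XT.lf (nat_lit 0) (nat_lit 4818749809) (nat_lit 1824) (nat_lit 2626338241) (nat_lit 1900) (nat_lit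 7654075845) (nat_lit 451) (nat_lit 5) (nat_lit 475) (nat_lit 5) (nat_lit 476) (nat_lit 5) (nat_lit 598) (nat_lit 572) (nat_lit 390)) (XT.lf (nat_lit 0) (nat_lit 9084470112) (nat_lit 1900) (nat_lit 2131766341) (nat_lit 76) (nat_lit 4040999420) (nat_lit 451) (nat_lit 5) (nat_lit 476) (nat_lit 5) (nat_lit 452) (nat_lit 5) (nat_lit 599) (nat_lit 572) (nat_lit 389))))))))
noncomputable def xc187 : XT := (XT.nd (nat_lit 2106) (nat_lit 8968) (nat_lit 0) (XT.nd (nat_lit 1014) (nat_lit 5016) (nat_lit 0) (XT.nd (nat_lit 468) (nat_lit 3344) (nat_lit 0) (XT.nd (nat_lit 234) (nat_lit 1824) (nat_lit 0) (XT.nd (nat_lit 78) (nat_lit 912) (nat_lit 0) (XT.lf (nat_lit 0) (nat_lit 6236928382) (nat_lit 1064) (nat_lit 4569375200) (nat_lit 1140) (nat_lit 4611173160) (nat_lit 437) (nat_lit 5) (nat_lit 451) (nat_lit 5) (nat_lit 452) (nat_lit 5) (nat_lit 600) (nat_lit 572) (nat_lit 388)) (XT.nd (nat_lit 78) (nat_lit 912) (nat_lit 0) (XT.lf (nat_lit 0) (nat_lit 12583221112) (nat_lit 1140)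 (nat_lit 800640418) (nat_lit 76) (nat_lit 2196648661) (nat_lit 437) (nat_lit 5) (nat_lit 452) (nat_lit 5) (nat_lit 438) (nat_lit 5) (nat_lit 601) (nat_lit 572) (nat_lit 387)) (XT.lf (nat_lit 0) (nat_lit 7811752081) (nat_lit 912) (nat_lit 6656959499) (nat_lit 988) (nat_lit 1276632734) (nat_lit 425) (nat_lit 5) (nat_lit 437) (nat_lit 5) (nat_lit 438) (nat_lit 5) (nat_lit 602) (nat_lit 572) (nat_lit 386)))) (XT.nd (nat_lit 78) (nat_lit 836) (nat_lit 0) (XT.lf (nat_lit 0) (nat_lit 475594179) (nat_lit 988) (nat_lit 15222335977) (nat_lit 76) (nat_lit 215414864) (nat_lit 412) (nat_lit 5) (nat_lit 425) (nat_lit 5) (nat_lit 413) (nat_lit 5) (nat_lit 603) (nat_lit 572) (nat_lit 385)) (XT.nd (nat_lit 78) (nat_lit 836) (nat_lit 0) (XT.lf (nat_lit 0) (nat_lit 2335685558) (nat_lit 988) (nat_lit 6548363323) (nat_lit 76) (nat_lit 7198690464) (nat_lit 412) (nat_lit 5) (nat_lit 425) (nat_lit 5) (nat_lit 413) (nat_lit 5) (nat_lit 604) (nat_lit 572) (nat_lit 384)) (XT.lf (nat_lit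 0) (nat_lit 2322217917) (nat_lit 836) (nat_lit 1918211836) (nat_lit 912) (nat_lit 12014943427) (nat_lit 401) (nat_lit 5) (nat_lit 412) (nat_lit 5) (nat_lit 413) (nat_lit 5) (nat_lit 605) (nat_lit 572) (nat_lit 383))))) (XT.nd (nat_lit 234) (nat_lit 2508) (nat_lit 0) (XT.nd (nat_lit 78) (nat_lit 836) (nat_lit 0) (XT.lf (nat_lit 0) (nat_lit 6253657359) (nat_lit 912) (nat_lit 5013005014) (nat_lit 76) (nat_lit 5163390181) (nat_lit 401) (nat_lit 5) (nat_lit 413) (nat_lit 5) (nat_lit 402) (nat_lit 5) (nat_lit 606) (nat_lit 572) (nat_lit 382)) (XT.nd (nat_lit 78) (nat_lit 0) (nat_lit 0) (XT.lf (nat_lit 0) (nat_lit 4119588036) (nat_lit 836) (nat_lit 4219636946) (nat_lit 912) (nat_lit 8268359642) (nat_lit 390) (nat_lit 5) (nat_lit 401) (nat_lit 5) (nat_lit 402) (nat_lit 5) (nat_lit 607) (nat_lit 572) (nat_lit 381)) (XT.lf (nat_lit 0) (nat_lit 10512361853) (nat_lit 912) (nat_lit 3312088558) (nat_lit 76) (nat_lit 2963300374) (nat_lit 390) (nat_lit 5) (nat_lit 402) (nat_lit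 5) (nat_lit 391) (nat_lit 5) (nat_lit 608) (nat_lit 572) (nat_lit 380)))) (XT.nd (nat_lit 156) (nat_lit 1672) (nat_lit 0) (XT.nd (nat_lit 78) (nat_lit 0) (nat_lit 0) (XT.lf (nat_lit 0) (nat_lit 6092051735) (nat_lit 836) (nat_lit 6697273521) (nat_lit 912) (nat_lit 4180988333) (nat_lit 379) (nat_lit 5) (nat_lit 390) (nat_lit 5) (nat_lit 391) (nat_lit 5) (nat_lit 609) (nat_lit 572) (nat_lit 379)) (XT.lf (nat_lit 0) (nat_lit 15130875436) (nat_lit 912) (nat_lit 1438108398) (nat_lit 76) (nat_lit 587163446) (nat_lit 379) (nat_lit 5) (nat_lit 391) (nat_lit 5) (nat_lit 380) (nat_lit 5) (nat_lit 610) (nat_lit 572) (nat_lit 378))) (XT.nd (nat_lit 78) (nat_lit 760) (nat_lit 0) (XT.lf (nat_lit 0) (nat_lit 262881493) (nat_lit 912) (nat_lit 9098134009) (nat_lit 76) (nat_lit 7982828193) (nat_lit 367) (nat_lit 5) (nat_lit 379) (nat_lit 5) (nat_lit 368) (nat_lit 5) (nat_lit 611) (nat_lit 572) (nat_lit 377)) (XT.lf (nat_lit 0) (nat_lit 594687065) (nat_lit 760) (nat_lit 1981732431)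 (nat_lit 836) (nat_lit 14958472550) (nat_lit 357) (nat_lit 5) (nat_lit 367) (nat_lit 5) (nat_lit 368) (nat_lit 5) (nat_lit 612) (nat_lit 572) (nat_lit 376)))))) (XT.nd (nat_lit 546) (nat_lit 2736) (nat_lit 0) (XT.nd (nat_lit 234) (nat_lit 1520) (nat_lit 0) (XT.nd (nat_lit 78) (nat_lit 760) (nat_lit 0) (XT.lf (nat_lit 0) (nat_lit 5026912914) (nat_lit 836) (nat_lit 7167573996) (nat_lit 76) (nat_lit 5533461301) (nat_lit 357) (nat_lit 5) (nat_lit 368) (nat_lit 5) (nat_lit 358) (nat_lit 5) (nat_lit 613) (nat_lit 572) (nat_lit 375)) (XT.nd (nat_lit 78) (nat_lit 0) (nat_lit 0) (XT.lf (nat_lit 0) (nat_lit 2817157759) (nat_lit 760) (nat_lit 4734030565) (nat_lit 836) (nat_lit 10373182260) (nat_lit 347) (nat_lit 5) (nat_lit 357) (nat_lit 5) (nat_lit 358) (nat_lit 5) (nat_lit 614) (nat_lit 572) (nat_lit 374)) (XT.lf (nat_lit 0) (nat_lit 10186473985) (nat_lit 836) (nat_lit 5051262116) (nat_lit 76) (nat_lit 2885775328) (nat_lit 347) (nat_lit 5) (nat_lit 358) (nat_lit 5) (nat_lit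 348) (nat_lit 5) (nat_lit 615) (nat_lit 572) (nat_lit 373)))) (XT.nd (nat_lit 156) (nat_lit 836) (nat_lit 0) (XT.nd (nat_lit 78) (nat_lit 0) (nat_lit 0) (XT.lf (nat_lit 0) (nat_lit 5236013836) (nat_lit 684) (nat_lit 7697364555) (nat_lit 760) (nat_lit 5392078947) (nat_lit 338) (nat_lit 5) (nat_lit 347) (nat_lit 5) (nat_lit 348) (nat_lit 5) (nat_lit 616) (nat_lit 572) (nat_lit 372)) (XT.lf (nat_lit 0) (nat_lit 15762943634) (nat_lit 760) (nat_lit 2740632032) (nat_lit 76) (nat_lit 27312541) (nat_lit 338) (nat_lit 5) (nat_lit 348) (nat_lit 5) (nat_lit 339) (nat_lit 5) (nat_lit 617) (nat_lit 572) (nat_lit 371))) (XT.nd (nat_lit 78) (nat_lit 0) (nat_lit 0) (XT.lf (nat_lit 0) (nat_lit 6280210) (nat_lit 836) (nat_lit 10878335044) (nat_lit 76) (nat_lit 7853896579) (nat_lit 327) (nat_lit 5) (nat_lit 338) (nat_lit 5) (nat_lit 328) (nat_lit 5) (nat_lit 618) (nat_lit 572) (nat_lit 370)) (XT.lf (nat_lit 0) (nat_lit 2811276223) (nat_lit 836) (nat_lit 265306344) (nat_lit 76) (nat_lit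 15873092921) (nat_lit 327) (nat_lit 5) (nat_lit 338) (nat_lit 5) (nat_lit 328) (nat_lit 5) (nat_lit 619) (nat_lit 572) (nat_lit 369))))) (XT.nd (nat_lit 234) (nat_lit 1368) (nat_lit 0) (XT.nd (nat_lit 78) (nat_lit 684) (nat_lit 0) (XT.lf (nat_lit 0) (nat_lit 5767911292) (nat_lit 760) (nat_lit 8502702897) (nat_lit 76) (nat_lit 4892537905) (nat_lit 318) (nat_lit 5) (nat_lit 328) (nat_lit 5) (nat_lit 319) (nat_lit 5) (nat_lit 620) (nat_lit 572) (nat_lit 368)) (XT.nd (nat_lit 78) (nat_lit 0) (nat_lit 0) (XT.lf (nat_lit 0) (nat_lit 2431946950) (nat_lit 684) (nat_lit 6383680801) (nat_lit 760) (nat_lit 10564631957) (nat_lit 309) (nat_lit 5) (nat_lit 318) (nat_lit 5) (nat_lit 319) (nat_lit 5) (nat_lit 621) (nat_lit 572) (nat_lit 367)) (XT.lf (nat_lit 0) (nat_lit 11986576139) (nat_lit 760) (nat_lit 5918266043) (nat_lit 76) (nat_lit 1695622184) (nat_lit 309) (nat_lit 5) (nat_lit 319) (nat_lit 5) (nat_lit 310) (nat_lit 5) (nat_lit 622) (nat_lit 572) (nat_lit 366)))) (XT.nd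 (nat_lit 156) (nat_lit 760) (nat_lit 0) (XT.nd (nat_lit 78) (nat_lit 0) (nat_lit 0) (XT.lf (nat_lit 0) (nat_lit 5353373116) (nat_lit 608) (nat_lit 9938778435) (nat_lit 684) (nat_lit 4531497838) (nat_lit 301) (nat_lit 5) (nat_lit 309) (nat_lit 5) (nat_lit 310) (nat_lit 5) (nat_lit 623) (nat_lit 572) (nat_lit 365)) (XT.lf (nat_lit 0) (nat_lit 16923771480) (nat_lit 608) (nat_lit 1774025494) (nat_lit 684) (nat_lit 1352822393) (nat_lit 301) (nat_lit 5) (nat_lit 309) (nat_lit 5) (nat_lit 310) (nat_lit 5) (nat_lit 624) (nat_lit 572) (nat_lit 364))) (XT.nd (nat_lit 78) (nat_lit 0) (nat_lit 0) (XT.lf (nat_lit 0) (nat_lit 1957382444) (nat_lit 760) (nat_lit 11787583944) (nat_lit 76) (nat_lit 6535062696) (nat_lit 291) (nat_lit 5) (nat_lit 301) (nat_lit 5) (nat_lit 292) (nat_lit 5) (nat_lit 625) (nat_lit 572) (nat_lit 363)) (XT.lf (nat_lit 0) (nat_lit 5342942826) (nat_lit 760) (nat_lit 154842560) (nat_lit 76) (nat_lit 15015517851) (nat_lit 291) (nat_lit 5) (nat_lit 301) (nat_lit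 5) (nat_lit 292) (nat_lit 5) (nat_lit 626) (nat_lit 572) (nat_lit 362))))))) (XT.nd (nat_lit 1092) (nat_lit 3800) (nat_lit 0) (XT.nd (nat_lit 546) (nat_lit 2128) (nat_lit 0) (XT.nd (nat_lit 234) (nat_lit 1824) (nat_lit 0) (XT.nd (nat_lit 78) (nat_lit 608) (nat_lit 0) (XT.lf (nat_lit 0) (nat_lit 8887125427) (nat_lit 684) (nat_lit 8909908951) (nat_lit 76) (nat_lit 2952390668) (nat_lit 283) (nat_lit 5) (nat_lit 292) (nat_lit 5) (nat_lit 284) (nat_lit 5) (nat_lit 627) (nat_lit 572) (nat_lit 361)) (XT.nd (nat_lit 78) (nat_lit 0) (nat_lit 0) (XT.lf (nat_lit 0) (nat_lit 3082808624) (nat_lit 608) (nat_lit 9471398780) (nat_lit 684) (nat_lit 8435021959) (nat_lit 275) (nat_lit 5) (nat_lit 283) (nat_lit 5) (nat_lit 284) (nat_lit 5) (nat_lit 628) (nat_lit 572) (nat_lit 360)) (XT.lf (nat_lit 0) (nat_lit 15429382319) (nat_lit 608) (nat_lit 919646811) (nat_lit 684) (nat_lit 4883713050) (nat_lit 275) (nat_lit 5) (nat_lit 283) (nat_lit 5) (nat_lit 284) (nat_lit 5) (nat_lit 629)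 (nat_lit 572) (nat_lit 359)))) (XT.nd (nat_lit 156) (nat_lit 1140) (nat_lit 0) (XT.nd (nat_lit 78) (nat_lit 76) (nat_lit 0) (XT.lf (nat_lit 0) (nat_lit 6570533948) (nat_lit 608) (nat_lit 13737241629) (nat_lit 684) (nat_lit 1171589480) (nat_lit 267) (nat_lit 5) (nat_lit 275) (nat_lit 5) (nat_lit 276) (nat_lit 5) (nat_lit 630) (nat_lit 572) (nat_lit 358)) (XT.lf (nat_lit 0) (nat_lit 2620505369) (nat_lit 684) (nat_lit 2489659875) (nat_lit 76) (nat_lit 16619615525) (nat_lit 266) (nat_lit 5) (nat_lit 275) (nat_lit 5) (nat_lit 267) (nat_lit 5) (nat_lit 631) (nat_lit 572) (nat_lit 357))) (XT.nd (nat_lit 78) (nat_lit 532) (nat_lit 0) (XT.lf (nat_lit 0) (nat_lit 6558906934) (nat_lit 684) (nat_lit 11709683790) (nat_lit 76) (nat_lit 3714736488) (nat_lit 258) (nat_lit 5) (nat_lit 267) (nat_lit 5) (nat_lit 259) (nat_lit 5) (nat_lit 632) (nat_lit 572) (nat_lit 356)) (XT.lf (nat_lit 0) (nat_lit 1057586455) (nat_lit 532) (nat_lit 9570898789) (nat_lit 608) (nat_lit 11612411508)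 (nat_lit 251) (nat_lit 5) (nat_lit 258) (nat_lit 5) (nat_lit 259) (nat_lit 5) (nat_lit 633) (nat_lit 572) (nat_lit 355))))) (XT.nd (nat_lit 234) (nat_lit 1520) (nat_lit 0) (XT.nd (nat_lit 78) (nat_lit 608) (nat_lit 0) (XT.lf (nat_lit 0) (nat_lit 14232292387) (nat_lit 532) (nat_lit 620680560) (nat_lit 608) (nat_lit 7649174713) (nat_lit 251) (nat_lit 5) (nat_lit 258) (nat_lit 5) (nat_lit 259) (nat_lit 5) (nat_lit 634) (nat_lit 572) (nat_lit 354)) (XT.nd (nat_lit 78) (nat_lit 76) (nat_lit 0) (XT.lf (nat_lit 0) (nat_lit 4904350261) (nat_lit 532) (nat_lit 14339714404) (nat_lit 608) (nat_lit 3522916965) (nat_lit 244) (nat_lit 5) (nat_lit 251) (nat_lit 5) (nat_lit 252) (nat_lit 5) (nat_lit 635) (nat_lit 572) (nat_lit 353)) (XT.lf (nat_lit 0) (nat_lit 731894663) (nat_lit 608) (nat_lit 4597413100) (nat_lit 76) (nat_lit 17706615290) (nat_lit 243) (nat_lit 5) (nat_lit 251) (nat_lit 5) (nat_lit 244) (nat_lit 5) (nat_lit 636) (nat_lit 572) (nat_lit 352)))) (XT.nd (nat_lit 156)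 (nat_lit 988) (nat_lit 0) (XT.nd (nat_lit 78) (nat_lit 0) (nat_lit 0) (XT.lf (nat_lit 0) (nat_lit 5103998938) (nat_lit 608) (nat_lit 14312695340) (nat_lit 76) (nat_lit 3891496242) (nat_lit 236) (nat_lit 5) (nat_lit 244) (nat_lit 5) (nat_lit 237) (nat_lit 5) (nat_lit 637) (nat_lit 572) (nat_lit 351)) (XT.lf (nat_lit 0) (nat_lit 9625084634) (nat_lit 608) (nat_lit 704735979) (nat_lit 76) (nat_lit 13254852240) (nat_lit 236) (nat_lit 5) (nat_lit 244) (nat_lit 5) (nat_lit 237) (nat_lit 5) (nat_lit 638) (nat_lit 572) (nat_lit 350))) (XT.nd (nat_lit 78) (nat_lit 456) (nat_lit 0) (XT.lf (nat_lit 0) (nat_lit 13343986751) (nat_lit 532) (nat_lit 974528142) (nat_lit 608) (nat_lit 9546531780) (nat_lit 229) (nat_lit 5) (nat_lit 236) (nat_lit 5) (nat_lit 237) (nat_lit 5) (nat_lit 639) (nat_lit 572) (nat_lit 349)) (XT.lf (nat_lit 0) (nat_lit 3516315917) (nat_lit 456) (nat_lit 15668041814) (nat_lit 532) (nat_lit 4965099651) (nat_lit 223) (nat_lit 5) (nat_lit 229) (nat_lit 5) (nat_lit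 230) (nat_lit 5) (nat_lit 640) (nat_lit 572) (nat_lit 348)))))) (XT.nd (nat_lit 546) (nat_lit 1748) (nat_lit 0) (XT.nd (nat_lit 234) (nat_lit 1444) (nat_lit 0) (XT.nd (nat_lit 78) (nat_lit 608) (nat_lit 0) (XT.lf (nat_lit 0) (nat_lit 17964112803) (nat_lit 456) (nat_lit 6255792894) (nat_lit 532) (nat_lit 218203129) (nat_lit 223) (nat_lit 5) (nat_lit 229) (nat_lit 5) (nat_lit 230) (nat_lit 5) (nat_lit 641) (nat_lit 572) (nat_lit 347)) (XT.nd (nat_lit 78) (nat_lit 0) (nat_lit 0) (XT.lf (nat_lit 0) (nat_lit 4632859941) (nat_lit 608) (nat_lit 16715843280) (nat_lit 76) (nat_lit 3381832591) (nat_lit 215) (nat_lit 5) (nat_lit 223) (nat_lit 5) (nat_lit 216) (nat_lit 5) (nat_lit 642) (nat_lit 572) (nat_lit 346)) (XT.lf (nat_lit 0) (nat_lit 9658658478) (nat_lit 608) (nat_lit 2196568072) (nat_lit 76) (nat_lit 13171943491) (nat_lit 215) (nat_lit 5) (nat_lit 223) (nat_lit 5) (nat_lit 216) (nat_lit 5) (nat_lit 643) (nat_lit 572) (nat_lit 345)))) (XT.nd (nat_lit 156) (nat_lit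 532) (nat_lit 0) (XT.nd (nat_lit 78) (nat_lit 456) (nat_lit 0) (XT.lf (nat_lit 0) (nat_lit 12774380608) (nat_lit 456) (nat_lit 2089093400) (nat_lit 532) (nat_lit 10464693192) (nat_lit 209) (nat_lit 5) (nat_lit 215) (nat_lit 5) (nat_lit 216) (nat_lit 5) (nat_lit 644) (nat_lit 572) (nat_lit 344)) (XT.lf (nat_lit 0) (nat_lit 2413795455) (nat_lit 456) (nat_lit 17835808886) (nat_lit 532) (nat_lit 5384035848) (nat_lit 203) (nat_lit 5) (nat_lit 209) (nat_lit 5) (nat_lit 210) (nat_lit 5) (nat_lit 645) (nat_lit 572) (nat_lit 343))) (XT.nd (nat_lit 78) (nat_lit 532) (nat_lit 0) (XT.lf (nat_lit 0) (nat_lit 17830635951) (nat_lit 456) (nat_lit 8006449880) (nat_lit 532) (nat_lit 106264492) (nat_lit 203) (nat_lit 5) (nat_lit 209) (nat_lit 5) (nat_lit 210) (nat_lit 5) (nat_lit 646) (nat_lit 572) (nat_lit 342)) (XT.lf (nat_lit 0) (nat_lit 5264931953) (nat_lit 532) (nat_lit 18918796432) (nat_lit 76) (nat_lit 2073699689) (nat_lit 196) (nat_lit 5) (nat_lit 203) (nat_lit 5) (nat_lit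 197) (nat_lit 5) (nat_lit 647) (nat_lit 572) (nat_lit 341))))) (XT.nd (nat_lit 234) (nat_lit 912) (nat_lit 0) (XT.nd (nat_lit 78) (nat_lit 836) (nat_lit 0) (XT.lf (nat_lit 0) (nat_lit 10845685909) (nat_lit 532) (nat_lit 3428022759) (nat_lit 76) (nat_lit 12301993773) (nat_lit 196) (nat_lit 5) (nat_lit 203) (nat_lit 5) (nat_lit 197) (nat_lit 5) (nat_lit 648) (nat_lit 572) (nat_lit 340)) (XT.nd (nat_lit 78) (nat_lit 380) (nat_lit 0) (XT.lf (nat_lit 0) (nat_lit 12530820519) (nat_lit 456) (nat_lit 4084407697) (nat_lit 532) (nat_lit 10283570850) (nat_lit 190) (nat_lit 5) (nat_lit 196) (nat_lit 5) (nat_lit 197) (nat_lit 5) (nat_lit 649) (nat_lit 572) (nat_lit 339)) (XT.lf (nat_lit 0) (nat_lit 1601177666) (nat_lit 380) (nat_lit 20969341191) (nat_lit 456) (nat_lit 4656431845) (nat_lit 185) (nat_lit 5) (nat_lit 190) (nat_lit 5) (nat_lit 191) (nat_lit 5) (nat_lit 650) (nat_lit 572) (nat_lit 338)))) (XT.nd (nat_lit 156) (nat_lit 380) (nat_lit 0) (XT.nd (nat_lit 78) (nat_lit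 456) (nat_lit 0) (XT.lf (nat_lit 0) (nat_lit 1189006998) (nat_lit 456) (nat_lit 9516114496) (nat_lit 76) (nat_lit 16854004154) (nat_lit 184) (nat_lit 5) (nat_lit 190) (nat_lit 5) (nat_lit 185) (nat_lit 5) (nat_lit 651) (nat_lit 572) (nat_lit 337)) (XT.lf (nat_lit 0) (nat_lit 6970301543) (nat_lit 456) (nat_lit 159958536) (nat_lit 532) (nat_lit 20766243547) (nat_lit 178) (nat_lit 5) (nat_lit 184) (nat_lit 5) (nat_lit 185) (nat_lit 5) (nat_lit 652) (nat_lit 572) (nat_lit 336))) (XT.nd (nat_lit 78) (nat_lit 380) (nat_lit 0) (XT.lf (nat_lit 0) (nat_lit 13319385285) (nat_lit 532) (nat_lit 4399175953) (nat_lit 76) (nat_lit 10519487199) (nat_lit 178) (nat_lit 5) (nat_lit 185) (nat_lit 5) (nat_lit 179) (nat_lit 5) (nat_lit 653) (nat_lit 572) (nat_lit 335)) (XT.lf (nat_lit 0) (nat_lit 12616879079) (nat_lit 380) (nat_lit 7094438491) (nat_lit 456) (nat_lit 8873526290) (nat_lit 173) (nat_lit 5) (nat_lit 178) (nat_lit 5) (nat_lit 179) (nat_lit 5) (nat_lit 654) (nat_lit 572)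 (nat_lit 334))))))))
noncomputable def xc188 : XT := (XT.nd (nat_lit 76128) (nat_lit 0) (nat_lit 15580) (XT.nd (nat_lit 75036) (nat_lit 0) (nat_lit 26448) (XT.nd (nat_lit 468) (nat_lit 684) (nat_lit 0) (XT.nd (nat_lit 234) (nat_lit 836) (nat_lit 0) (XT.nd (nat_lit 78) (nat_lit 456) (nat_lit 0) (XT.lf (nat_lit 0) (nat_lit 1078604793) (nat_lit 380) (nat_lit 25209574204) (nat_lit 456) (nat_lit 2649254588) (nat_lit 168) (nat_lit 5) (nat_lit 173) (nat_lit 5) (nat_lit 174) (nat_lit 5) (nat_lit 655) (nat_lit 572) (nat_lit 333)) (XT.nd (nat_lit 78) (nat_lit 380) (nat_lit 0) (XT.lf (nat_lit 0) (nat_lit 3801916220) (nat_lit 456) (nat_lit 10690053234) (nat_lit 76) (nat_lit 14801606790) (nat_lit 167) (nat_lit 5) (nat_lit 173) (nat_lit 5) (nat_lit 168) (nat_lit 5) (nat_lit 656) (nat_lit 572) (nat_lit 332)) (XT.lf (nat_lit 0) (nat_lit 6889056638) (nat_lit 380) (nat_lit 3498505700) (nat_lit 456) (nat_lit 19268110870) (nat_lit 162) (nat_lit 5) (nat_lit 167) (nat_lit 5) (nat_lit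 168) (nat_lit 5) (nat_lit 657) (nat_lit 572) (nat_lit 331)))) (XT.nd (nat_lit 78) (nat_lit 836) (nat_lit 0) (XT.lf (nat_lit 0) (nat_lit 17223410483) (nat_lit 456) (nat_lit 5115359364) (nat_lit 76) (nat_lit 7683872670) (nat_lit 162) (nat_lit 5) (nat_lit 168) (nat_lit 5) (nat_lit 163) (nat_lit 5) (nat_lit 658) (nat_lit 572) (nat_lit 330)) (XT.nd (nat_lit 78) (nat_lit 456) (nat_lit 0) (XT.lf (nat_lit 0) (nat_lit 13030899491) (nat_lit 380) (nat_lit 11269113365) (nat_lit 456) (nat_lit 6094857797) (nat_lit 157) (nat_lit 5) (nat_lit 162) (nat_lit 5) (nat_lit 163) (nat_lit 5) (nat_lit 659) (nat_lit 572) (nat_lit 329)) (XT.lf (nat_lit 0) (nat_lit 770531905) (nat_lit 456) (nat_lit 29938444917) (nat_lit 76) (nat_lit 64736538) (nat_lit 151) (nat_lit 5) (nat_lit 157) (nat_lit 5) (nat_lit 152) (nat_lit 5) (nat_lit 660) (nat_lit 572) (nat_lit 328))))) (XT.nd (nat_lit 234) (nat_lit 304) (nat_lit 0) (XT.nd (nat_lit 78) (nat_lit 380) (nat_lit 0) (XT.lf (nat_lit 0) (nat_lit 7879915628)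 (nat_lit 456) (nat_lit 11645493046) (nat_lit 76) (nat_lit 11630152754) (nat_lit 151) (nat_lit 5) (nat_lit 157) (nat_lit 5) (nat_lit 152) (nat_lit 5) (nat_lit 661) (nat_lit 572) (nat_lit 327)) (XT.nd (nat_lit 78) (nat_lit 0) (nat_lit 0) (XT.lf (nat_lit 0) (nat_lit 7100767527) (nat_lit 380) (nat_lit 8073192142) (nat_lit 456) (nat_lit 16370237507) (nat_lit 146) (nat_lit 5) (nat_lit 151) (nat_lit 5) (nat_lit 152) (nat_lit 5) (nat_lit 662) (nat_lit 572) (nat_lit 326)) (XT.lf (nat_lit 0) (nat_lit 22712366516) (nat_lit 456) (nat_lit 5588874787) (nat_lit 76) (nat_lit 3637394863) (nat_lit 146) (nat_lit 5) (nat_lit 152) (nat_lit 5) (nat_lit 147) (nat_lit 5) (nat_lit 663) (nat_lit 572) (nat_lit 325)))) (XT.nd (nat_lit 74178) (nat_lit 0) (nat_lit 28044) (XT.nd (nat_lit 74100) (nat_lit 0) (nat_lit 28044) (XT.lf (nat_lit 0) (nat_lit 13764238924) (nat_lit 304) (nat_lit 16776595787) (nat_lit 380) (nat_lit 1797343527) (nat_lit 142) (nat_lit 5) (nat_lit 146) (nat_lit 5) (nat_lit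 147) (nat_lit 5) (nat_lit 664) (nat_lit 572) (nat_lit 324)) (XT.lf (nat_lit 0) (nat_lit 4359942977) (nat_lit 1748) (nat_lit 802979107) (nat_lit 1748) (nat_lit 802979107) (nat_lit 511) (nat_lit 3) (nat_lit 534) (nat_lit 3) (nat_lit 534) (nat_lit 5) (nat_lit 573) (nat_lit 573) (nat_lit 414))) (XT.nd (nat_lit 78) (nat_lit 0) (nat_lit 76) (XT.lf (nat_lit 76) (nat_lit 4347554816) (nat_lit 0) (nat_lit 4966053257) (nat_lit 1748) (nat_lit 2727335594) (nat_lit 512) (nat_lit 5) (nat_lit 511) (nat_lit 3) (nat_lit 534) (nat_lit 5) (nat_lit 574) (nat_lit 573) (nat_lit 413)) (XT.lf (nat_lit 0) (nat_lit 9920756877) (nat_lit 1672) (nat_lit 1720245355) (nat_lit 1748) (nat_lit 511235713) (nat_lit 512) (nat_lit 5) (nat_lit 534) (nat_lit 5) (nat_lit 535) (nat_lit 5) (nat_lit 575) (nat_lit 573) (nat_lit 412)))))) (XT.nd (nat_lit 546) (nat_lit 0) (nat_lit 152) (XT.nd (nat_lit 234) (nat_lit 1672) (nat_lit 0) (XT.nd (nat_lit 78) (nat_lit 0) (nat_lit 0) (XT.lf (nat_lit 76) (nat_lit 4390410492)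 (nat_lit 0) (nat_lit 6198729091) (nat_lit 1748) (nat_lit 1675637896) (nat_lit 513) (nat_lit 5) (nat_lit 512) (nat_lit 5) (nat_lit 535) (nat_lit 5) (nat_lit 576) (nat_lit 573) (nat_lit 411)) (XT.nd (nat_lit 78) (nat_lit 0) (nat_lit 76) (XT.lf (nat_lit 76) (nat_lit 10639997771) (nat_lit 0) (nat_lit 630331994) (nat_lit 1748) (nat_lit 1109250409) (nat_lit 513) (nat_lit 5) (nat_lit 512) (nat_lit 5) (nat_lit 535) (nat_lit 5) (nat_lit 577) (nat_lit 573) (nat_lit 410)) (XT.lf (nat_lit 76) (nat_lit 4537884616) (nat_lit 0) (nat_lit 7477674796) (nat_lit 1748) (nat_lit 480112340) (nat_lit 514) (nat_lit 5) (nat_lit 513) (nat_lit 5) (nat_lit 536) (nat_lit 5) (nat_lit 578) (nat_lit 573) (nat_lit 409)))) (XT.nd (nat_lit 156) (nat_lit 0) (nat_lit 76) (XT.nd (nat_lit 78) (nat_lit 0) (nat_lit 76) (XT.lf (nat_lit 0) (nat_lit 163692884) (nat_lit 1748) (nat_lit 1661527842) (nat_lit 1824) (nat_lit 10788760474) (nat_lit 490) (nat_lit 5) (nat_lit 513) (nat_lit 5) (nat_lit 514) (nat_lit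 5) (nat_lit 579) (nat_lit 573) (nat_lit 408)) (XT.lf (nat_lit 0) (nat_lit 859556966) (nat_lit 1748) (nat_lit 7946151086) (nat_lit 1824) (nat_lit 3927974162) (nat_lit 491) (nat_lit 5) (nat_lit 514) (nat_lit 5) (nat_lit 515) (nat_lit 5) (nat_lit 580) (nat_lit 573) (nat_lit 407))) (XT.nd (nat_lit 78) (nat_lit 0) (nat_lit 76) (XT.lf (nat_lit 0) (nat_lit 1581370028) (nat_lit 1748) (nat_lit 1486557229) (nat_lit 1824) (nat_lit 9787610414) (nat_lit 491) (nat_lit 5) (nat_lit 514) (nat_lit 5) (nat_lit 515) (nat_lit 5) (nat_lit 581) (nat_lit 573) (nat_lit 406)) (XT.lf (nat_lit 0) (nat_lit 2358412842) (nat_lit 1748) (nat_lit 7834566417) (nat_lit 1824) (nat_lit 2786036143) (nat_lit 492) (nat_lit 5) (nat_lit 515) (nat_lit 5) (nat_lit 516) (nat_lit 5) (nat_lit 582) (nat_lit 573) (nat_lit 405))))) (XT.nd (nat_lit 234) (nat_lit 0) (nat_lit 152) (XT.nd (nat_lit 78) (nat_lit 0) (nat_lit 76) (XT.lf (nat_lit 0) (nat_lit 3170497093) (nat_lit 1748) (nat_lit 1203920770) (nat_lit 1824)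 (nat_lit 8730155830) (nat_lit 492) (nat_lit 5) (nat_lit 515) (nat_lit 5) (nat_lit 516) (nat_lit 5) (nat_lit 583) (nat_lit 573) (nat_lit 404)) (XT.nd (nat_lit 78) (nat_lit 0) (nat_lit 0) (XT.lf (nat_lit 0) (nat_lit 4035105292) (nat_lit 1748) (nat_lit 7616260455) (nat_lit 1824) (nat_lit 1580552754) (nat_lit 493) (nat_lit 5) (nat_lit 516) (nat_lit 5) (nat_lit 517) (nat_lit 5) (nat_lit 584) (nat_lit 573) (nat_lit 403)) (XT.lf (nat_lit 0) (nat_lit 4943650458) (nat_lit 1748) (nat_lit 809775985) (nat_lit 1824) (nat_lit 7607851840) (nat_lit 493) (nat_lit 5) (nat_lit 516) (nat_lit 5) (nat_lit 517) (nat_lit 5) (nat_lit 585) (nat_lit 573) (nat_lit 402)))) (XT.nd (nat_lit 156) (nat_lit 0) (nat_lit 0) (XT.nd (nat_lit 78) (nat_lit 0) (nat_lit 0) (XT.lf (nat_lit 0) (nat_lit 5902409128) (nat_lit 1748) (nat_lit 7287283284) (nat_lit 1824) (nat_lit 302892955) (nat_lit 494) (nat_lit 5) (nat_lit 517) (nat_lit 5) (nat_lit 518) (nat_lit 5) (nat_lit 586) (nat_lit 573) (nat_lit 401)) (XT.lf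 (nat_lit 0) (nat_lit 6913840278) (nat_lit 1748) (nat_lit 299981772) (nat_lit 1824) (nat_lit 6412027536) (nat_lit 494) (nat_lit 5) (nat_lit 517) (nat_lit 5) (nat_lit 518) (nat_lit 5) (nat_lit 587) (nat_lit 573) (nat_lit 400))) (XT.nd (nat_lit 78) (nat_lit 0) (nat_lit 76) (XT.lf (nat_lit 76) (nat_lit 6910748387) (nat_lit 0) (nat_lit 1069743507) (nat_lit 1824) (nat_lit 5780588277) (nat_lit 495) (nat_lit 5) (nat_lit 494) (nat_lit 5) (nat_lit 518) (nat_lit 5) (nat_lit 588) (nat_lit 573) (nat_lit 399)) (XT.lf (nat_lit 76) (nat_lit 334290408) (nat_lit 0) (nat_lit 8762416538) (nat_lit 1824) (nat_lit 4801744716) (nat_lit 496) (nat_lit 5) (nat_lit 495) (nat_lit 5) (nat_lit 519) (nat_lit 5) (nat_lit 589) (nat_lit 573) (nat_lit 398))))))) (XT.nd (nat_lit 1014) (nat_lit 6840) (nat_lit 0) (XT.nd (nat_lit 468) (nat_lit 2736) (nat_lit 0) (XT.nd (nat_lit 234) (nat_lit 1672) (nat_lit 0) (XT.nd (nat_lit 78) (nat_lit 0) (nat_lit 76) (XT.lf (nat_lit 76) (nat_lit 7741210270) (nat_lit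 0) (nat_lit 2537477437) (nat_lit 1824) (nat_lit 3759014933) (nat_lit 496) (nat_lit 5) (nat_lit 495) (nat_lit 5) (nat_lit 519) (nat_lit 5) (nat_lit 590) (nat_lit 573) (nat_lit 397)) (XT.nd (nat_lit 78) (nat_lit 0) (nat_lit 0) (XT.lf (nat_lit 76) (nat_lit 1099054551) (nat_lit 0) (nat_lit 10407776808) (nat_lit 1824) (nat_lit 2672457678) (nat_lit 497) (nat_lit 5) (nat_lit 496) (nat_lit 5) (nat_lit 520) (nat_lit 5) (nat_lit 591) (nat_lit 573) (nat_lit 396)) (XT.lf (nat_lit 76) (nat_lit 8703742324) (nat_lit 0) (nat_lit 4105517501) (nat_lit 1824) (nat_lit 1513453748) (nat_lit 497) (nat_lit 5) (nat_lit 496) (nat_lit 5) (nat_lit 520) (nat_lit 5) (nat_lit 592) (nat_lit 573) (nat_lit 395)))) (XT.nd (nat_lit 78) (nat_lit 1824) (nat_lit 0) (XT.lf (nat_lit 76) (nat_lit 1995457871) (nat_lit 0) (nat_lit 12161285582) (nat_lit 1824) (nat_lit 311883850) (nat_lit 498) (nat_lit 5) (nat_lit 497) (nat_lit 5) (nat_lit 521) (nat_lit 5) (nat_lit 593) (nat_lit 573) (nat_lit 394)) (XT.nd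 (nat_lit 78) (nat_lit 0) (nat_lit 76) (XT.lf (nat_lit 0) (nat_lit 957919591) (nat_lit 1824) (nat_lit 4818955924) (nat_lit 1900) (nat_lit 8839342229) (nat_lit 473) (nat_lit 5) (nat_lit 497) (nat_lit 5) (nat_lit 498) (nat_lit 5) (nat_lit 594) (nat_lit 573) (nat_lit 393)) (XT.lf (nat_lit 0) (nat_lit 2264691507) (nat_lit 1824) (nat_lit 11752643202) (nat_lit 1900) (nat_lit 749069868) (nat_lit 474) (nat_lit 5) (nat_lit 498) (nat_lit 5) (nat_lit 499) (nat_lit 5) (nat_lit 595) (nat_lit 573) (nat_lit 392))))) (XT.nd (nat_lit 234) (nat_lit 2812) (nat_lit 0) (XT.nd (nat_lit 78) (nat_lit 0) (nat_lit 0) (XT.lf (nat_lit 0) (nat_lit 3659761859) (nat_lit 1824) (nat_lit 3896182947) (nat_lit 1900) (nat_lit 7362407850) (nat_lit 474) (nat_lit 5) (nat_lit 498) (nat_lit 5) (nat_lit 499) (nat_lit 5) (nat_lit 596) (nat_lit 573) (nat_lit 391)) (XT.nd (nat_lit 78) (nat_lit 0) (nat_lit 76) (XT.lf (nat_lit 76) (nat_lit 4164953982) (nat_lit 0) (nat_lit 936344472) (nat_lit 1900) (nat_lit 9971670701)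 (nat_lit 475) (nat_lit 5) (nat_lit 474) (nat_lit 5) (nat_lit 499) (nat_lit 5) (nat_lit 597) (nat_lit 573) (nat_lit 390)) (XT.lf (nat_lit 0) (nat_lit 6627395783) (nat_lit 1824) (nat_lit 2835166399) (nat_lit 76) (nat_lit 5767001943) (nat_lit 475) (nat_lit 5) (nat_lit 499) (nat_lit 5) (nat_lit 476) (nat_lit 5) (nat_lit 598) (nat_lit 573) (nat_lit 389)))) (XT.nd (nat_lit 156) (nat_lit 1064) (nat_lit 0) (XT.nd (nat_lit 78) (nat_lit 0) (nat_lit 0) (XT.lf (nat_lit 0) (nat_lit 5457448551) (nat_lit 1824) (nat_lit 2760016889) (nat_lit 1900) (nat_lit 7171157271) (nat_lit 451) (nat_lit 5) (nat_lit 475) (nat_lit 5) (nat_lit 476) (nat_lit 5) (nat_lit 599) (nat_lit 573) (nat_lit 388)) (XT.lf (nat_lit 0) (nat_lit 9876893570) (nat_lit 1900) (nat_lit 1629916277) (nat_lit 76) (nat_lit 4043302191) (nat_lit 451) (nat_lit 5) (nat_lit 476) (nat_lit 5) (nat_lit 452) (nat_lit 5) (nat_lit 600) (nat_lit 573) (nat_lit 387))) (XT.nd (nat_lit 78) (nat_lit 0) (nat_lit 0) (XT.lf (nat_lit 0) (nat_lit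 6902570199) (nat_lit 1064) (nat_lit 4722130235) (nat_lit 1140) (nat_lit 4089027612) (nat_lit 437) (nat_lit 5) (nat_lit 451) (nat_lit 5) (nat_lit 452) (nat_lit 5) (nat_lit 601) (nat_lit 573) (nat_lit 386)) (XT.lf (nat_lit 0) (nat_lit 13424956459) (nat_lit 1140) (nat_lit 274104286) (nat_lit 76) (nat_lit 2181206452) (nat_lit 437) (nat_lit 5) (nat_lit 452) (nat_lit 5) (nat_lit 438) (nat_lit 5) (nat_lit 602) (nat_lit 573) (nat_lit 385)))))) (XT.nd (nat_lit 546) (nat_lit 3268) (nat_lit 0) (XT.nd (nat_lit 234) (nat_lit 1672) (nat_lit 0) (XT.nd (nat_lit 78) (nat_lit 988) (nat_lit 0) (XT.lf (nat_lit 0) (nat_lit 8506966663) (nat_lit 912) (nat_lit 6833119469) (nat_lit 988) (nat_lit 708474299) (nat_lit 425) (nat_lit 5) (nat_lit 437) (nat_lit 5) (nat_lit 438) (nat_lit 5) (nat_lit 603) (nat_lit 573) (nat_lit 384)) (XT.nd (nat_lit 78) (nat_lit 0) (nat_lit 0) (XT.lf (nat_lit 0) (nat_lit 1062823933) (nat_lit 988) (nat_lit 14971731377) (nat_lit 76) (nat_lit 185453461) (nat_lit 412)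 (nat_lit 5) (nat_lit 425) (nat_lit 5) (nat_lit 413) (nat_lit 5) (nat_lit 604) (nat_lit 573) (nat_lit 383)) (XT.lf (nat_lit 0) (nat_lit 2948789338) (nat_lit 988) (nat_lit 6135162630) (nat_lit 76) (nat_lit 7309066527) (nat_lit 412) (nat_lit 5) (nat_lit 425) (nat_lit 5) (nat_lit 413) (nat_lit 5) (nat_lit 605) (nat_lit 573) (nat_lit 382)))) (XT.nd (nat_lit 156) (nat_lit 836) (nat_lit 0) (XT.nd (nat_lit 78) (nat_lit 0) (nat_lit 0) (XT.lf (nat_lit 0) (nat_lit 2909250183) (nat_lit 836) (nat_lit 1974782402) (nat_lit 912) (nat_lit 11685225276) (nat_lit 401) (nat_lit 5) (nat_lit 412) (nat_lit 5) (nat_lit 413) (nat_lit 5) (nat_lit 606) (nat_lit 573) (nat_lit 381)) (XT.lf (nat_lit 0) (nat_lit 6926452103) (nat_lit 912) (nat_lit 4572158352) (nat_lit 76) (nat_lit 5249042740) (nat_lit 401) (nat_lit 5) (nat_lit 413) (nat_lit 5) (nat_lit 402) (nat_lit 5) (nat_lit 607) (nat_lit 573) (nat_lit 380))) (XT.nd (nat_lit 78) (nat_lit 0) (nat_lit 0) (XT.lf (nat_lit 0) (nat_lit 4739526647)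 (nat_lit 836) (nat_lit 4306954904) (nat_lit 912) (nat_lit 7882400248) (nat_lit 390) (nat_lit 5) (nat_lit 401) (nat_lit 5) (nat_lit 402) (nat_lit 5) (nat_lit 608) (nat_lit 573) (nat_lit 379)) (XT.lf (nat_lit 0) (nat_lit 11252465047) (nat_lit 912) (nat_lit 2840663309) (nat_lit 76) (nat_lit 3019736133) (nat_lit 390) (nat_lit 5) (nat_lit 402) (nat_lit 5) (nat_lit 391) (nat_lit 5) (nat_lit 609) (nat_lit 573) (nat_lit 378))))) (XT.nd (nat_lit 234) (nat_lit 1520) (nat_lit 0) (XT.nd (nat_lit 78) (nat_lit 912) (nat_lit 0) (XT.lf (nat_lit 0) (nat_lit 6748022506) (nat_lit 836) (nat_lit 6820023803) (nat_lit 912) (nat_lit 3731171533) (nat_lit 379) (nat_lit 5) (nat_lit 390) (nat_lit 5) (nat_lit 391) (nat_lit 5) (nat_lit 610) (nat_lit 573) (nat_lit 377)) (XT.nd (nat_lit 78) (nat_lit 912) (nat_lit 0) (XT.lf (nat_lit 0) (nat_lit 15946245137) (nat_lit 912) (nat_lit 932989127) (nat_lit 76) (nat_lit 609738441) (nat_lit 379) (nat_lit 5) (nat_lit 391) (nat_lit 5) (nat_lit 380) (nat_lit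 5) (nat_lit 611) (nat_lit 573) (nat_lit 376)) (XT.lf (nat_lit 0) (nat_lit 777673887) (nat_lit 912) (nat_lit 8742915353) (nat_lit 76) (nat_lit 8159899806) (nat_lit 367) (nat_lit 5) (nat_lit 379) (nat_lit 5) (nat_lit 368) (nat_lit 5) (nat_lit 612) (nat_lit 573) (nat_lit 375)))) (XT.nd (nat_lit 156) (nat_lit 760) (nat_lit 0) (XT.nd (nat_lit 78) (nat_lit 0) (nat_lit 0) (XT.lf (nat_lit 0) (nat_lit 1140228056) (nat_lit 760) (nat_lit 1990728509) (nat_lit 836) (nat_lit 14744533122) (nat_lit 357) (nat_lit 5) (nat_lit 367) (nat_lit 5) (nat_lit 368) (nat_lit 5) (nat_lit 613) (nat_lit 573) (nat_lit 374)) (XT.lf (nat_lit 0) (nat_lit 5620791961) (nat_lit 836) (nat_lit 6778034767) (nat_lit 76) (nat_lit 5673774390) (nat_lit 357) (nat_lit 5) (nat_lit 368) (nat_lit 5) (nat_lit 358) (nat_lit 5) (nat_lit 614) (nat_lit 573) (nat_lit 373))) (XT.nd (nat_lit 78) (nat_lit 0) (nat_lit 0) (XT.lf (nat_lit 0) (nat_lit 3402885764) (nat_lit 760) (nat_lit 4786430885) (nat_lit 836) (nat_lit 10083760784)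 (nat_lit 347) (nat_lit 5) (nat_lit 357) (nat_lit 5) (nat_lit 358) (nat_lit 5) (nat_lit 615) (nat_lit 573) (nat_lit 372)) (XT.lf (nat_lit 0) (nat_lit 10868026081) (nat_lit 836) (nat_lit 4623962945) (nat_lit 76) (nat_lit 2984398461) (nat_lit 347) (nat_lit 5) (nat_lit 358) (nat_lit 5) (nat_lit 348) (nat_lit 5) (nat_lit 616) (nat_lit 573) (nat_lit 371))))))))
noncomputable def xc189 : XT := (XT.nd (nat_lit 2106) (nat_lit 5244) (nat_lit 0) (XT.nd (nat_lit 1014) (nat_lit 4560) (nat_lit 0) (XT.nd (nat_lit 468) (nat_lit 2584) (nat_lit 0) (XT.nd (nat_lit 234) (nat_lit 1368) (nat_lit 0) (XT.nd (nat_lit 78) (nat_lit 836) (nat_lit 0) (XT.lf (nat_lit 0) (nat_lit 5865582707) (nat_lit 684) (nat_lit 7798324463) (nat_lit 760) (nat_lit 5018585112) (nat_lit 338) (nat_lit 5) (nat_lit 347) (nat_lit 5) (nat_lit 348) (nat_lit 5) (nat_lit 617) (nat_lit 573) (nat_lit 370)) (XT.nd (nat_lit 78) (nat_lit 836) (nat_lit 0) (XT.lf (nat_lit 0) (nat_lit 16541148821) (nat_lit 760) (nat_lit 2271936076)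 (nat_lit 76) (nat_lit 79125894) (nat_lit 338) (nat_lit 5) (nat_lit 348) (nat_lit 5) (nat_lit 339) (nat_lit 5) (nat_lit 618) (nat_lit 573) (nat_lit 369)) (XT.lf (nat_lit 0) (nat_lit 466714546) (nat_lit 836) (nat_lit 10569685178) (nat_lit 76) (nat_lit 8067641326) (nat_lit 327) (nat_lit 5) (nat_lit 338) (nat_lit 5) (nat_lit 328) (nat_lit 5) (nat_lit 619) (nat_lit 573) (nat_lit 368)))) (XT.nd (nat_lit 78) (nat_lit 684) (nat_lit 0) (XT.lf (nat_lit 0) (nat_lit 248545847) (nat_lit 684) (nat_lit 3071852695) (nat_lit 760) (nat_lit 15999178358) (nat_lit 318) (nat_lit 5) (nat_lit 327) (nat_lit 5) (nat_lit 328) (nat_lit 5) (nat_lit 620) (nat_lit 573) (nat_lit 367)) (XT.nd (nat_lit 78) (nat_lit 684) (nat_lit 0) (XT.lf (nat_lit 0) (nat_lit 6329464757) (nat_lit 760) (nat_lit 8151737036) (nat_lit 76) (nat_lit 5056255946) (nat_lit 318) (nat_lit 5) (nat_lit 328) (nat_lit 5) (nat_lit 319) (nat_lit 5) (nat_lit 621) (nat_lit 573) (nat_lit 366)) (XT.lf (nat_lit 0) (nat_lit 2998178046)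 (nat_lit 684) (nat_lit 6434569125) (nat_lit 760) (nat_lit 10326268758) (nat_lit 309) (nat_lit 5) (nat_lit 318) (nat_lit 5) (nat_lit 319) (nat_lit 5) (nat_lit 622) (nat_lit 573) (nat_lit 365))))) (XT.nd (nat_lit 234) (nat_lit 1976) (nat_lit 0) (XT.nd (nat_lit 78) (nat_lit 608) (nat_lit 0) (XT.lf (nat_lit 0) (nat_lit 12658960020) (nat_lit 760) (nat_lit 5521001375) (nat_lit 76) (nat_lit 1803827019) (nat_lit 309) (nat_lit 5) (nat_lit 319) (nat_lit 5) (nat_lit 310) (nat_lit 5) (nat_lit 623) (nat_lit 573) (nat_lit 364)) (XT.nd (nat_lit 78) (nat_lit 0) (nat_lit 0) (XT.lf (nat_lit 0) (nat_lit 5972678265) (nat_lit 608) (nat_lit 10052811083) (nat_lit 684) (nat_lit 4186051573) (nat_lit 301) (nat_lit 5) (nat_lit 309) (nat_lit 5) (nat_lit 310) (nat_lit 5) (nat_lit 624) (nat_lit 573) (nat_lit 363)) (XT.lf (nat_lit 0) (nat_lit 17764440720) (nat_lit 608) (nat_lit 1726424709) (nat_lit 684) (nat_lit 952353133) (nat_lit 301) (nat_lit 5) (nat_lit 309) (nat_lit 5) (nat_lit 310) (nat_lit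 5) (nat_lit 625) (nat_lit 573) (nat_lit 362)))) (XT.nd (nat_lit 156) (nat_lit 608) (nat_lit 0) (XT.nd (nat_lit 78) (nat_lit 608) (nat_lit 0) (XT.lf (nat_lit 0) (nat_lit 2414019851) (nat_lit 760) (nat_lit 11511045787) (nat_lit 76) (nat_lit 6752184491) (nat_lit 291) (nat_lit 5) (nat_lit 301) (nat_lit 5) (nat_lit 292) (nat_lit 5) (nat_lit 626) (nat_lit 573) (nat_lit 361)) (XT.lf (nat_lit 0) (nat_lit 348881164) (nat_lit 608) (nat_lit 5512489371) (nat_lit 684) (nat_lit 15053938233) (nat_lit 283) (nat_lit 5) (nat_lit 291) (nat_lit 5) (nat_lit 292) (nat_lit 5) (nat_lit 627) (nat_lit 573) (nat_lit 360))) (XT.nd (nat_lit 78) (nat_lit 608) (nat_lit 0) (XT.lf (nat_lit 0) (nat_lit 9469998569) (nat_lit 684) (nat_lit 8581660557) (nat_lit 76) (nat_lit 3104623223) (nat_lit 283) (nat_lit 5) (nat_lit 292) (nat_lit 5) (nat_lit 284) (nat_lit 5) (nat_lit 628) (nat_lit 573) (nat_lit 359)) (XT.lf (nat_lit 0) (nat_lit 3647579484) (nat_lit 608) (nat_lit 9558165517) (nat_lit 684) (nat_lit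 8195231854) (nat_lit 275) (nat_lit 5) (nat_lit 283) (nat_lit 5) (nat_lit 284) (nat_lit 5) (nat_lit 629) (nat_lit 573) (nat_lit 358)))))) (XT.nd (nat_lit 546) (nat_lit 2204) (nat_lit 0) (XT.nd (nat_lit 234) (nat_lit 1672) (nat_lit 0) (XT.nd (nat_lit 78) (nat_lit 684) (nat_lit 0) (XT.lf (nat_lit 0) (nat_lit 16231219660) (nat_lit 608) (nat_lit 837391474) (nat_lit 684) (nat_lit 4580906385) (nat_lit 275) (nat_lit 5) (nat_lit 283) (nat_lit 5) (nat_lit 284) (nat_lit 5) (nat_lit 630) (nat_lit 573) (nat_lit 357)) (XT.nd (nat_lit 78) (nat_lit 76) (nat_lit 0) (XT.lf (nat_lit 0) (nat_lit 7199127746) (nat_lit 608) (nat_lit 13903575401) (nat_lit 684) (nat_lit 798446833) (nat_lit 267) (nat_lit 5) (nat_lit 275) (nat_lit 5) (nat_lit 276) (nat_lit 5) (nat_lit 631) (nat_lit 573) (nat_lit 356)) (XT.lf (nat_lit 0) (nat_lit 3056614783) (nat_lit 684) (nat_lit 2046893589) (nat_lit 76) (nat_lit 17053168136) (nat_lit 266) (nat_lit 5) (nat_lit 275) (nat_lit 5) (nat_lit 267) (nat_lit 5) (nat_lit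 632) (nat_lit 573) (nat_lit 355)))) (XT.nd (nat_lit 156) (nat_lit 532) (nat_lit 0) (XT.nd (nat_lit 78) (nat_lit 532) (nat_lit 0) (XT.lf (nat_lit 0) (nat_lit 7070151820) (nat_lit 684) (nat_lit 11447660039) (nat_lit 76) (nat_lit 3897555179) (nat_lit 258) (nat_lit 5) (nat_lit 267) (nat_lit 5) (nat_lit 259) (nat_lit 5) (nat_lit 633) (nat_lit 573) (nat_lit 354)) (XT.lf (nat_lit 0) (nat_lit 1571691022) (nat_lit 532) (nat_lit 9645178961) (nat_lit 608) (nat_lit 11461303517) (nat_lit 251) (nat_lit 5) (nat_lit 258) (nat_lit 5) (nat_lit 259) (nat_lit 5) (nat_lit 634) (nat_lit 573) (nat_lit 353))) (XT.nd (nat_lit 78) (nat_lit 532) (nat_lit 0) (XT.lf (nat_lit 0) (nat_lit 15000225331) (nat_lit 532) (nat_lit 518253187) (nat_lit 608) (nat_lit 7426318775) (nat_lit 251) (nat_lit 5) (nat_lit 258) (nat_lit 5) (nat_lit 259) (nat_lit 5) (nat_lit 635) (nat_lit 573) (nat_lit 352)) (XT.lf (nat_lit 0) (nat_lit 5489148803) (nat_lit 532) (nat_lit 14504909892) (nat_lit 608) (nat_lit 3220936394)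 (nat_lit 244) (nat_lit 5) (nat_lit 251) (nat_lit 5) (nat_lit 252) (nat_lit 5) (nat_lit 636) (nat_lit 573) (nat_lit 351))))) (XT.nd (nat_lit 234) (nat_lit 1596) (nat_lit 0) (XT.nd (nat_lit 78) (nat_lit 532) (nat_lit 0) (XT.lf (nat_lit 0) (nat_lit 1106879917) (nat_lit 608) (nat_lit 4207381372) (nat_lit 76) (nat_lit 18175150289) (nat_lit 243) (nat_lit 5) (nat_lit 251) (nat_lit 5) (nat_lit 244) (nat_lit 5) (nat_lit 637) (nat_lit 573) (nat_lit 350)) (XT.nd (nat_lit 78) (nat_lit 0) (nat_lit 0) (XT.lf (nat_lit 0) (nat_lit 5563264211) (nat_lit 608) (nat_lit 14113784651) (nat_lit 76) (nat_lit 4090139223) (nat_lit 236) (nat_lit 5) (nat_lit 244) (nat_lit 5) (nat_lit 237) (nat_lit 5) (nat_lit 638) (nat_lit 573) (nat_lit 349)) (XT.lf (nat_lit 0) (nat_lit 10167767988) (nat_lit 608) (nat_lit 243179134) (nat_lit 76) (nat_lit 13638393458) (nat_lit 236) (nat_lit 5) (nat_lit 244) (nat_lit 5) (nat_lit 237) (nat_lit 5) (nat_lit 639) (nat_lit 573) (nat_lit 348)))) (XT.nd (nat_lit 156)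 (nat_lit 608) (nat_lit 0) (XT.nd (nat_lit 78) (nat_lit 456) (nat_lit 0) (XT.lf (nat_lit 0) (nat_lit 14083388764) (nat_lit 532) (nat_lit 867879709) (nat_lit 608) (nat_lit 9384129804) (nat_lit 229) (nat_lit 5) (nat_lit 236) (nat_lit 5) (nat_lit 237) (nat_lit 5) (nat_lit 640) (nat_lit 573) (nat_lit 347)) (XT.lf (nat_lit 0) (nat_lit 4062145835) (nat_lit 456) (nat_lit 15849380708) (nat_lit 532) (nat_lit 4714029114) (nat_lit 223) (nat_lit 5) (nat_lit 229) (nat_lit 5) (nat_lit 230) (nat_lit 5) (nat_lit 641) (nat_lit 573) (nat_lit 346))) (XT.nd (nat_lit 78) (nat_lit 532) (nat_lit 0) (XT.lf (nat_lit 0) (nat_lit 119349200) (nat_lit 532) (nat_lit 6131325379) (nat_lit 76) (nat_lit 18669424962) (nat_lit 222) (nat_lit 5) (nat_lit 229) (nat_lit 5) (nat_lit 223) (nat_lit 5) (nat_lit 642) (nat_lit 573) (nat_lit 345)) (XT.lf (nat_lit 0) (nat_lit 5061762017) (nat_lit 608) (nat_lit 16576682114) (nat_lit 76) (nat_lit 3579957484) (nat_lit 215) (nat_lit 5) (nat_lit 223) (nat_lit 5) (nat_lit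 216) (nat_lit 5) (nat_lit 643) (nat_lit 573) (nat_lit 344))))))) (XT.nd (nat_lit 1092) (nat_lit 1596) (nat_lit 0) (XT.nd (nat_lit 546) (nat_lit 1748) (nat_lit 0) (XT.nd (nat_lit 234) (nat_lit 988) (nat_lit 0) (XT.nd (nat_lit 78) (nat_lit 912) (nat_lit 0) (XT.lf (nat_lit 0) (nat_lit 10181483489) (nat_lit 608) (nat_lit 1776305285) (nat_lit 76) (nat_lit 13563312009) (nat_lit 215) (nat_lit 5) (nat_lit 223) (nat_lit 5) (nat_lit 216) (nat_lit 5) (nat_lit 644) (nat_lit 573) (nat_lit 343)) (XT.nd (nat_lit 78) (nat_lit 456) (nat_lit 0) (XT.lf (nat_lit 0) (nat_lit 13491008459) (nat_lit 456) (nat_lit 1995917136) (nat_lit 532) (nat_lit 10341262069) (nat_lit 209) (nat_lit 5) (nat_lit 215) (nat_lit 5) (nat_lit 216) (nat_lit 5) (nat_lit 645) (nat_lit 573) (nat_lit 342)) (XT.lf (nat_lit 0) (nat_lit 2925807148) (nat_lit 456) (nat_lit 18052445597) (nat_lit 532) (nat_lit 5161568262) (nat_lit 203) (nat_lit 5) (nat_lit 209) (nat_lit 5) (nat_lit 210) (nat_lit 5) (nat_lit 646) (nat_lit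 573) (nat_lit 341)))) (XT.nd (nat_lit 156) (nat_lit 456) (nat_lit 0) (XT.nd (nat_lit 78) (nat_lit 456) (nat_lit 0) (XT.lf (nat_lit 0) (nat_lit 212461523) (nat_lit 532) (nat_lit 7815358816) (nat_lit 76) (nat_lit 18428004343) (nat_lit 202) (nat_lit 5) (nat_lit 209) (nat_lit 5) (nat_lit 203) (nat_lit 5) (nat_lit 647) (nat_lit 573) (nat_lit 340)) (XT.lf (nat_lit 0) (nat_lit 5687264357) (nat_lit 532) (nat_lit 18835852493) (nat_lit 76) (nat_lit 2253101338) (nat_lit 196) (nat_lit 5) (nat_lit 203) (nat_lit 5) (nat_lit 197) (nat_lit 5) (nat_lit 648) (nat_lit 573) (nat_lit 339))) (XT.nd (nat_lit 78) (nat_lit 456) (nat_lit 0) (XT.lf (nat_lit 0) (nat_lit 11373417044) (nat_lit 532) (nat_lit 3044308835) (nat_lit 76) (nat_lit 12683256839) (nat_lit 196) (nat_lit 5) (nat_lit 203) (nat_lit 5) (nat_lit 197) (nat_lit 5) (nat_lit 649) (nat_lit 573) (nat_lit 338)) (XT.lf (nat_lit 0) (nat_lit 13230735819) (nat_lit 456) (nat_lit 4024437064) (nat_lit 532) (nat_lit 10175432279) (nat_lit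 190) (nat_lit 5) (nat_lit 196) (nat_lit 5) (nat_lit 197) (nat_lit 5) (nat_lit 650) (nat_lit 573) (nat_lit 337))))) (XT.nd (nat_lit 234) (nat_lit 836) (nat_lit 0) (XT.nd (nat_lit 78) (nat_lit 532) (nat_lit 0) (XT.lf (nat_lit 0) (nat_lit 2084759797) (nat_lit 380) (nat_lit 21242610909) (nat_lit 456) (nat_lit 4437993434) (nat_lit 185) (nat_lit 5) (nat_lit 190) (nat_lit 5) (nat_lit 191) (nat_lit 5) (nat_lit 651) (nat_lit 573) (nat_lit 336)) (XT.nd (nat_lit 78) (nat_lit 456) (nat_lit 0) (XT.lf (nat_lit 0) (nat_lit 1514238893) (nat_lit 456) (nat_lit 9259710065) (nat_lit 76) (nat_lit 17330314070) (nat_lit 184) (nat_lit 5) (nat_lit 190) (nat_lit 5) (nat_lit 185) (nat_lit 5) (nat_lit 652) (nat_lit 573) (nat_lit 335)) (XT.lf (nat_lit 0) (nat_lit 7553495303) (nat_lit 456) (nat_lit 17792279) (nat_lit 532) (nat_lit 20877161890) (nat_lit 178) (nat_lit 5) (nat_lit 184) (nat_lit 5) (nat_lit 185) (nat_lit 5) (nat_lit 653) (nat_lit 573) (nat_lit 334)))) (XT.nd (nat_lit 156) (nat_lit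 456) (nat_lit 0) (XT.nd (nat_lit 78) (nat_lit 380) (nat_lit 0) (XT.lf (nat_lit 0) (nat_lit 13879269176) (nat_lit 532) (nat_lit 4047131877) (nat_lit 76) (nat_lit 10870522957) (nat_lit 178) (nat_lit 5) (nat_lit 185) (nat_lit 5) (nat_lit 179) (nat_lit 5) (nat_lit 654) (nat_lit 573) (nat_lit 333)) (XT.lf (nat_lit 0) (nat_lit 13306349337) (nat_lit 380) (nat_lit 7089774098) (nat_lit 456) (nat_lit 8754590543) (nat_lit 173) (nat_lit 5) (nat_lit 178) (nat_lit 5) (nat_lit 179) (nat_lit 5) (nat_lit 655) (nat_lit 573) (nat_lit 332))) (XT.nd (nat_lit 78) (nat_lit 76) (nat_lit 0) (XT.lf (nat_lit 0) (nat_lit 1539276857) (nat_lit 380) (nat_lit 25563331388) (nat_lit 456) (nat_lit 2407785828) (nat_lit 168) (nat_lit 5) (nat_lit 173) (nat_lit 5) (nat_lit 174) (nat_lit 5) (nat_lit 656) (nat_lit 573) (nat_lit 331)) (XT.lf (nat_lit 0) (nat_lit 4162848698) (nat_lit 456) (nat_lit 10469563747) (nat_lit 76) (nat_lit 15241323147) (nat_lit 167) (nat_lit 5) (nat_lit 173) (nat_lit 5) (nat_lit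 168) (nat_lit 5) (nat_lit 657) (nat_lit 573) (nat_lit 330)))))) (XT.nd (nat_lit 74646) (nat_lit 0) (nat_lit 26144) (XT.nd (nat_lit 234) (nat_lit 836) (nat_lit 0) (XT.nd (nat_lit 78) (nat_lit 380) (nat_lit 0) (XT.lf (nat_lit 0) (nat_lit 7458271148) (nat_lit 380) (nat_lit 3419151582) (nat_lit 456) (nat_lit 19365707745) (nat_lit 162) (nat_lit 5) (nat_lit 167) (nat_lit 5) (nat_lit 168) (nat_lit 5) (nat_lit 658) (nat_lit 573) (nat_lit 329)) (XT.nd (nat_lit 78) (nat_lit 380) (nat_lit 0) (XT.lf (nat_lit 0) (nat_lit 17845406789) (nat_lit 456) (nat_lit 4790097864) (nat_lit 76) (nat_lit 7982026415) (nat_lit 162) (nat_lit 5) (nat_lit 168) (nat_lit 5) (nat_lit 163) (nat_lit 5) (nat_lit 659) (nat_lit 573) (nat_lit 328)) (XT.lf (nat_lit 0) (nat_lit 13716273217) (nat_lit 380) (nat_lit 11344584060) (nat_lit 456) (nat_lit 5936400437) (nat_lit 157) (nat_lit 5) (nat_lit 162) (nat_lit 5) (nat_lit 163) (nat_lit 5) (nat_lit 660) (nat_lit 573) (nat_lit 327)))) (XT.nd (nat_lit 156) (nat_lit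 380) (nat_lit 0) (XT.nd (nat_lit 78) (nat_lit 0) (nat_lit 0) (XT.lf (nat_lit 0) (nat_lit 1060942921) (nat_lit 456) (nat_lit 30107077791) (nat_lit 76) (nat_lit 215653961) (nat_lit 151) (nat_lit 5) (nat_lit 157) (nat_lit 5) (nat_lit 152) (nat_lit 5) (nat_lit 661) (nat_lit 573) (nat_lit 326)) (XT.lf (nat_lit 0) (nat_lit 8307122155) (nat_lit 456) (nat_lit 11456700922) (nat_lit 76) (nat_lit 12009444723) (nat_lit 151) (nat_lit 5) (nat_lit 157) (nat_lit 5) (nat_lit 152) (nat_lit 5) (nat_lit 662) (nat_lit 573) (nat_lit 325))) (XT.nd (nat_lit 78) (nat_lit 0) (nat_lit 0) (XT.lf (nat_lit 0) (nat_lit 7661710507) (nat_lit 380) (nat_lit 8082770090) (nat_lit 456) (nat_lit 16425247244) (nat_lit 146) (nat_lit 5) (nat_lit 151) (nat_lit 5) (nat_lit 152) (nat_lit 5) (nat_lit 663) (nat_lit 573) (nat_lit 324)) (XT.lf (nat_lit 0) (nat_lit 23429386277) (nat_lit 456) (nat_lit 5285657416) (nat_lit 76) (nat_lit 3857097549) (nat_lit 146) (nat_lit 5) (nat_lit 152) (nat_lit 5) (nat_lit 147)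 (nat_lit 5) (nat_lit 664) (nat_lit 573) (nat_lit 323))))) (XT.nd (nat_lit 234) (nat_lit 1596) (nat_lit 0) (XT.nd (nat_lit 78) (nat_lit 0) (nat_lit 0) (XT.lf (nat_lit 0) (nat_lit 4922332471) (nat_lit 1748) (nat_lit 576668478) (nat_lit 1748) (nat_lit 576668478) (nat_lit 511) (nat_lit 3) (nat_lit 534) (nat_lit 3) (nat_lit 534) (nat_lit 5) (nat_lit 574) (nat_lit 574) (nat_lit 412)) (XT.nd (nat_lit 78) (nat_lit 0) (nat_lit 76) (XT.lf (nat_lit 76) (nat_lit 4916057253) (nat_lit 0) (nat_lit 5518695874) (nat_lit 1748) (nat_lit 1828221806) (nat_lit 512) (nat_lit 5) (nat_lit 511) (nat_lit 3) (nat_lit 534) (nat_lit 5) (nat_lit 575) (nat_lit 574) (nat_lit 411)) (XT.lf (nat_lit 0) (nat_lit 11032828513) (nat_lit 1672) (nat_lit 1261236329) (nat_lit 1748) (nat_lit 82856351) (nat_lit 512) (nat_lit 5) (nat_lit 534) (nat_lit 5) (nat_lit 535) (nat_lit 5) (nat_lit 576) (nat_lit 574) (nat_lit 410)))) (XT.nd (nat_lit 156) (nat_lit 1672) (nat_lit 0) (XT.nd (nat_lit 78) (nat_lit 0) (nat_lit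 0) (XT.lf (nat_lit 76) (nat_lit 4968386490) (nat_lit 0) (nat_lit 6731460044) (nat_lit 1748) (nat_lit 792161363) (nat_lit 513) (nat_lit 5) (nat_lit 512) (nat_lit 5) (nat_lit 535) (nat_lit 5) (nat_lit 577) (nat_lit 574) (nat_lit 409)) (XT.lf (nat_lit 76) (nat_lit 11333354383) (nat_lit 0) (nat_lit 1043680174) (nat_lit 1748) (nat_lit 232426308) (nat_lit 513) (nat_lit 5) (nat_lit 512) (nat_lit 5) (nat_lit 535) (nat_lit 5) (nat_lit 578) (nat_lit 574) (nat_lit 408))) (XT.nd (nat_lit 78) (nat_lit 0) (nat_lit 0) (XT.lf (nat_lit 0) (nat_lit 387214330) (nat_lit 1748) (nat_lit 7604538854) (nat_lit 1824) (nat_lit 4736403821) (nat_lit 490) (nat_lit 5) (nat_lit 513) (nat_lit 5) (nat_lit 514) (nat_lit 5) (nat_lit 579) (nat_lit 574) (nat_lit 407)) (XT.lf (nat_lit 0) (nat_lit 1020404216) (nat_lit 1748) (nat_lit 1195518718) (nat_lit 1824) (nat_lit 10633189091) (nat_lit 490) (nat_lit 5) (nat_lit 513) (nat_lit 5) (nat_lit 514) (nat_lit 5) (nat_lit 580) (nat_lit 574) (nat_lit 406))))))))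
noncomputable def xc190 : XT := (XT.nd (nat_lit 2106) (nat_lit 10868) (nat_lit 0) (XT.nd (nat_lit 1014) (nat_lit 6840) (nat_lit 0) (XT.nd (nat_lit 468) (nat_lit 0) (nat_lit 228) (XT.nd (nat_lit 234) (nat_lit 0) (nat_lit 76) (XT.nd (nat_lit 78) (nat_lit 0) (nat_lit 0) (XT.lf (nat_lit 0) (nat_lit 1714438311) (nat_lit 1748) (nat_lit 7590008679) (nat_lit 1824) (nat_lit 3667076584) (nat_lit 491) (nat_lit 5) (nat_lit 514) (nat_lit 5) (nat_lit 515) (nat_lit 5) (nat_lit 581) (nat_lit 574) (nat_lit 405)) (XT.nd (nat_lit 78) (nat_lit 0) (nat_lit 76) (XT.lf (nat_lit 0) (nat_lit 2434262336) (nat_lit 1748) (nat_lit 1011322267) (nat_lit 1824) (nat_lit 9650561582) (nat_lit 491) (nat_lit 5) (nat_lit 514) (nat_lit 5) (nat_lit 515) (nat_lit 5) (nat_lit 582) (nat_lit 574) (nat_lit 404)) (XT.lf (nat_lit 0) (nat_lit 3212007994) (nat_lit 1748) (nat_lit 7471378194) (nat_lit 1824) (nat_lit 2539005553) (nat_lit 492) (nat_lit 5) (nat_lit 515) (nat_lit 5) (nat_lit 516) (nat_lit 5) (nat_lit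 583) (nat_lit 574) (nat_lit 403)))) (XT.nd (nat_lit 78) (nat_lit 0) (nat_lit 76) (XT.lf (nat_lit 0) (nat_lit 4024521638) (nat_lit 1748) (nat_lit 718313350) (nat_lit 1824) (nat_lit 8607943934) (nat_lit 492) (nat_lit 5) (nat_lit 515) (nat_lit 5) (nat_lit 516) (nat_lit 5) (nat_lit 584) (nat_lit 574) (nat_lit 402)) (XT.nd (nat_lit 78) (nat_lit 0) (nat_lit 0) (XT.lf (nat_lit 0) (nat_lit 4892440760) (nat_lit 1748) (nat_lit 7244846086) (nat_lit 1824) (nat_lit 1343664855) (nat_lit 493) (nat_lit 5) (nat_lit 516) (nat_lit 5) (nat_lit 517) (nat_lit 5) (nat_lit 585) (nat_lit 574) (nat_lit 401)) (XT.lf (nat_lit 0) (nat_lit 5803928725) (nat_lit 1748) (nat_lit 312501330) (nat_lit 1824) (nat_lit 7496774608) (nat_lit 493) (nat_lit 5) (nat_lit 516) (nat_lit 5) (nat_lit 517) (nat_lit 5) (nat_lit 586) (nat_lit 574) (nat_lit 400))))) (XT.nd (nat_lit 234) (nat_lit 0) (nat_lit 76) (XT.nd (nat_lit 78) (nat_lit 0) (nat_lit 0) (XT.lf (nat_lit 0) (nat_lit 6768688647) (nat_lit 1748) (nat_lit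 6906315167) (nat_lit 1824) (nat_lit 72398947) (nat_lit 494) (nat_lit 5) (nat_lit 517) (nat_lit 5) (nat_lit 518) (nat_lit 5) (nat_lit 587) (nat_lit 574) (nat_lit 399)) (XT.nd (nat_lit 78) (nat_lit 0) (nat_lit 0) (XT.lf (nat_lit 76) (nat_lit 213200821) (nat_lit 0) (nat_lit 7573860637) (nat_lit 1824) (nat_lit 6096537911) (nat_lit 495) (nat_lit 5) (nat_lit 494) (nat_lit 5) (nat_lit 518) (nat_lit 5) (nat_lit 588) (nat_lit 574) (nat_lit 398)) (XT.lf (nat_lit 76) (nat_lit 7561952140) (nat_lit 0) (nat_lit 1300656857) (nat_lit 1824) (nat_lit 5159175651) (nat_lit 495) (nat_lit 5) (nat_lit 494) (nat_lit 5) (nat_lit 518) (nat_lit 5) (nat_lit 589) (nat_lit 574) (nat_lit 397)))) (XT.nd (nat_lit 156) (nat_lit 0) (nat_lit 76) (XT.nd (nat_lit 78) (nat_lit 0) (nat_lit 0) (XT.lf (nat_lit 76) (nat_lit 866363079) (nat_lit 0) (nat_lit 9122695963) (nat_lit 1824) (nat_lit 4173087627) (nat_lit 496) (nat_lit 5) (nat_lit 495) (nat_lit 5) (nat_lit 519) (nat_lit 5) (nat_lit 590) (nat_lit 574)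 (nat_lit 396)) (XT.lf (nat_lit 76) (nat_lit 8411119634) (nat_lit 0) (nat_lit 2769630019) (nat_lit 1824) (nat_lit 3123712895) (nat_lit 496) (nat_lit 5) (nat_lit 495) (nat_lit 5) (nat_lit 519) (nat_lit 5) (nat_lit 591) (nat_lit 574) (nat_lit 395))) (XT.nd (nat_lit 78) (nat_lit 0) (nat_lit 0) (XT.lf (nat_lit 76) (nat_lit 1647804201) (nat_lit 0) (nat_lit 10774260782) (nat_lit 1824) (nat_lit 2027044776) (nat_lit 497) (nat_lit 5) (nat_lit 496) (nat_lit 5) (nat_lit 520) (nat_lit 5) (nat_lit 592) (nat_lit 574) (nat_lit 394)) (XT.lf (nat_lit 76) (nat_lit 9394256934) (nat_lit 0) (nat_lit 4342851811) (nat_lit 1824) (nat_lit 858563945) (nat_lit 497) (nat_lit 5) (nat_lit 496) (nat_lit 5) (nat_lit 520) (nat_lit 5) (nat_lit 593) (nat_lit 574) (nat_lit 393)))))) (XT.nd (nat_lit 546) (nat_lit 3800) (nat_lit 0) (XT.nd (nat_lit 234) (nat_lit 1672) (nat_lit 0) (XT.nd (nat_lit 78) (nat_lit 0) (nat_lit 0) (XT.lf (nat_lit 0) (nat_lit 351417930) (nat_lit 1824) (nat_lit 12184215816) (nat_lit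 1900) (nat_lit 2209040590) (nat_lit 473) (nat_lit 5) (nat_lit 497) (nat_lit 5) (nat_lit 498) (nat_lit 5) (nat_lit 594) (nat_lit 574) (nat_lit 392)) (XT.nd (nat_lit 78) (nat_lit 0) (nat_lit 76) (XT.lf (nat_lit 0) (nat_lit 1629398803) (nat_lit 1824) (nat_lit 4389500190) (nat_lit 1900) (nat_lit 8876538378) (nat_lit 473) (nat_lit 5) (nat_lit 497) (nat_lit 5) (nat_lit 498) (nat_lit 5) (nat_lit 595) (nat_lit 574) (nat_lit 391)) (XT.lf (nat_lit 0) (nat_lit 2952124494) (nat_lit 1824) (nat_lit 11451622381) (nat_lit 1900) (nat_lit 645085842) (nat_lit 474) (nat_lit 5) (nat_lit 498) (nat_lit 5) (nat_lit 499) (nat_lit 5) (nat_lit 596) (nat_lit 574) (nat_lit 390)))) (XT.nd (nat_lit 156) (nat_lit 1748) (nat_lit 0) (XT.nd (nat_lit 78) (nat_lit 0) (nat_lit 0) (XT.lf (nat_lit 0) (nat_lit 4362505289) (nat_lit 1824) (nat_lit 3448544171) (nat_lit 1900) (nat_lit 7393023239) (nat_lit 474) (nat_lit 5) (nat_lit 498) (nat_lit 5) (nat_lit 499) (nat_lit 5) (nat_lit 597) (nat_lit 574) (nat_lit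 389)) (XT.lf (nat_lit 76) (nat_lit 4770357850) (nat_lit 0) (nat_lit 1053560535) (nat_lit 1900) (nat_lit 9538043327) (nat_lit 475) (nat_lit 5) (nat_lit 474) (nat_lit 5) (nat_lit 499) (nat_lit 5) (nat_lit 598) (nat_lit 574) (nat_lit 388))) (XT.nd (nat_lit 78) (nat_lit 1824) (nat_lit 0) (XT.lf (nat_lit 0) (nat_lit 7367742232) (nat_lit 1824) (nat_lit 2367152989) (nat_lit 76) (nat_lit 5787050344) (nat_lit 475) (nat_lit 5) (nat_lit 499) (nat_lit 5) (nat_lit 476) (nat_lit 5) (nat_lit 599) (nat_lit 574) (nat_lit 387)) (XT.lf (nat_lit 0) (nat_lit 6087862176) (nat_lit 1824) (nat_lit 2893217884) (nat_lit 1900) (nat_lit 6703276985) (nat_lit 451) (nat_lit 5) (nat_lit 475) (nat_lit 5) (nat_lit 476) (nat_lit 5) (nat_lit 600) (nat_lit 574) (nat_lit 386))))) (XT.nd (nat_lit 234) (nat_lit 1824) (nat_lit 0) (XT.nd (nat_lit 78) (nat_lit 1976) (nat_lit 0) (XT.lf (nat_lit 0) (nat_lit 10661449951) (nat_lit 1900) (nat_lit 1139172243) (nat_lit 76) (nat_lit 4048699937) (nat_lit 451) (nat_lit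 5) (nat_lit 476) (nat_lit 5) (nat_lit 452) (nat_lit 5) (nat_lit 601) (nat_lit 574) (nat_lit 385)) (XT.nd (nat_lit 78) (nat_lit 912) (nat_lit 0) (XT.lf (nat_lit 0) (nat_lit 7560520921) (nat_lit 1064) (nat_lit 4875557395) (nat_lit 1140) (nat_lit 3580295850) (nat_lit 437) (nat_lit 5) (nat_lit 451) (nat_lit 5) (nat_lit 452) (nat_lit 5) (nat_lit 602) (nat_lit 574) (nat_lit 384)) (XT.lf (nat_lit 0) (nat_lit 245109384) (nat_lit 912) (nat_lit 14017095367) (nat_lit 988) (nat_lit 1924243039) (nat_lit 425) (nat_lit 5) (nat_lit 437) (nat_lit 5) (nat_lit 438) (nat_lit 5) (nat_lit 603) (nat_lit 574) (nat_lit 383)))) (XT.nd (nat_lit 156) (nat_lit 836) (nat_lit 0) (XT.nd (nat_lit 78) (nat_lit 988) (nat_lit 0) (XT.lf (nat_lit 0) (nat_lit 9195156303) (nat_lit 912) (nat_lit 7011132089) (nat_lit 988) (nat_lit 152006445) (nat_lit 425) (nat_lit 5) (nat_lit 437) (nat_lit 5) (nat_lit 438) (nat_lit 5) (nat_lit 604) (nat_lit 574) (nat_lit 382)) (XT.lf (nat_lit 0) (nat_lit 1639364792) (nat_lit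 988) (nat_lit 14737668005) (nat_lit 76) (nat_lit 156223564) (nat_lit 412) (nat_lit 5) (nat_lit 425) (nat_lit 5) (nat_lit 413) (nat_lit 5) (nat_lit 605) (nat_lit 574) (nat_lit 381))) (XT.nd (nat_lit 78) (nat_lit 836) (nat_lit 0) (XT.lf (nat_lit 0) (nat_lit 3552161576) (nat_lit 988) (nat_lit 5734828627) (nat_lit 76) (nat_lit 7422954753) (nat_lit 412) (nat_lit 5) (nat_lit 425) (nat_lit 5) (nat_lit 413) (nat_lit 5) (nat_lit 606) (nat_lit 574) (nat_lit 380)) (XT.lf (nat_lit 0) (nat_lit 3487031407) (nat_lit 836) (nat_lit 2031777405) (nat_lit 912) (nat_lit 11371047219) (nat_lit 401) (nat_lit 5) (nat_lit 412) (nat_lit 5) (nat_lit 413) (nat_lit 5) (nat_lit 607) (nat_lit 574) (nat_lit 379))))))) (XT.nd (nat_lit 1014) (nat_lit 5244) (nat_lit 0) (XT.nd (nat_lit 468) (nat_lit 3040) (nat_lit 0) (XT.nd (nat_lit 234) (nat_lit 1748) (nat_lit 0) (XT.nd (nat_lit 78) (nat_lit 836) (nat_lit 0) (XT.lf (nat_lit 0) (nat_lit 7591434044) (nat_lit 912) (nat_lit 4143506591) (nat_lit 76) (nat_lit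 5337092372) (nat_lit 401) (nat_lit 5) (nat_lit 413) (nat_lit 5) (nat_lit 402) (nat_lit 5) (nat_lit 608) (nat_lit 574) (nat_lit 378)) (XT.nd (nat_lit 78) (nat_lit 0) (nat_lit 0) (XT.lf (nat_lit 0) (nat_lit 5350990430) (nat_lit 836) (nat_lit 4395905631) (nat_lit 912) (nat_lit 7510130350) (nat_lit 390) (nat_lit 5) (nat_lit 401) (nat_lit 5) (nat_lit 402) (nat_lit 5) (nat_lit 609) (nat_lit 574) (nat_lit 377)) (XT.lf (nat_lit 0) (nat_lit 11986795352) (nat_lit 912) (nat_lit 2380687821) (nat_lit 76) (nat_lit 3077410508) (nat_lit 390) (nat_lit 5) (nat_lit 402) (nat_lit 5) (nat_lit 391) (nat_lit 5) (nat_lit 610) (nat_lit 574) (nat_lit 376)))) (XT.nd (nat_lit 78) (nat_lit 912) (nat_lit 0) (XT.lf (nat_lit 0) (nat_lit 7396371784) (nat_lit 836) (nat_lit 6945663814) (nat_lit 912) (nat_lit 3293072390) (nat_lit 379) (nat_lit 5) (nat_lit 390) (nat_lit 5) (nat_lit 391) (nat_lit 5) (nat_lit 611) (nat_lit 574) (nat_lit 375)) (XT.nd (nat_lit 78) (nat_lit 912) (nat_lit 0) (XT.lf (nat_lit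 0) (nat_lit 16758011439) (nat_lit 912) (nat_lit 438498738) (nat_lit 76) (nat_lit 632344328) (nat_lit 379) (nat_lit 5) (nat_lit 391) (nat_lit 5) (nat_lit 380) (nat_lit 5) (nat_lit 612) (nat_lit 574) (nat_lit 374)) (XT.lf (nat_lit 0) (nat_lit 1282976273) (nat_lit 912) (nat_lit 8401451729) (nat_lit 76) (nat_lit 8339836605) (nat_lit 367) (nat_lit 5) (nat_lit 379) (nat_lit 5) (nat_lit 368) (nat_lit 5) (nat_lit 613) (nat_lit 574) (nat_lit 373))))) (XT.nd (nat_lit 234) (nat_lit 1520) (nat_lit 0) (XT.nd (nat_lit 78) (nat_lit 760) (nat_lit 0) (XT.lf (nat_lit 0) (nat_lit 1675957693) (nat_lit 760) (nat_lit 2001094242) (nat_lit 836) (nat_lit 14546239549) (nat_lit 357) (nat_lit 5) (nat_lit 367) (nat_lit 5) (nat_lit 368) (nat_lit 5) (nat_lit 614) (nat_lit 574) (nat_lit 372)) (XT.nd (nat_lit 78) (nat_lit 760) (nat_lit 0) (XT.lf (nat_lit 0) (nat_lit 6207391565) (nat_lit 836) (nat_lit 6401397548) (nat_lit 76) (nat_lit 5815742633) (nat_lit 357) (nat_lit 5) (nat_lit 368) (nat_lit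 5) (nat_lit 358) (nat_lit 5) (nat_lit 615) (nat_lit 574) (nat_lit 371)) (XT.lf (nat_lit 0) (nat_lit 3979771670) (nat_lit 760) (nat_lit 4841521006) (nat_lit 836) (nat_lit 9807845533) (nat_lit 347) (nat_lit 5) (nat_lit 357) (nat_lit 5) (nat_lit 358) (nat_lit 5) (nat_lit 616) (nat_lit 574) (nat_lit 370)))) (XT.nd (nat_lit 156) (nat_lit 836) (nat_lit 0) (XT.nd (nat_lit 78) (nat_lit 684) (nat_lit 0) (XT.lf (nat_lit 0) (nat_lit 11544654786) (nat_lit 836) (nat_lit 4208633272) (nat_lit 76) (nat_lit 3083405563) (nat_lit 347) (nat_lit 5) (nat_lit 358) (nat_lit 5) (nat_lit 348) (nat_lit 5) (nat_lit 617) (nat_lit 574) (nat_lit 369)) (XT.lf (nat_lit 0) (nat_lit 6487362445) (nat_lit 684) (nat_lit 7903361133) (nat_lit 760) (nat_lit 4656312241) (nat_lit 338) (nat_lit 5) (nat_lit 347) (nat_lit 5) (nat_lit 348) (nat_lit 5) (nat_lit 618) (nat_lit 574) (nat_lit 368))) (XT.nd (nat_lit 78) (nat_lit 836) (nat_lit 0) (XT.lf (nat_lit 0) (nat_lit 17316941342) (nat_lit 760) (nat_lit 1814194678)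 (nat_lit 76) (nat_lit 129984751) (nat_lit 338) (nat_lit 5) (nat_lit 348) (nat_lit 5) (nat_lit 339) (nat_lit 5) (nat_lit 619) (nat_lit 574) (nat_lit 367)) (XT.lf (nat_lit 0) (nat_lit 918483220) (nat_lit 836) (nat_lit 10275295944) (nat_lit 76) (nat_lit 8283460526) (nat_lit 327) (nat_lit 5) (nat_lit 338) (nat_lit 5) (nat_lit 328) (nat_lit 5) (nat_lit 620) (nat_lit 574) (nat_lit 366)))))) (XT.nd (nat_lit 546) (nat_lit 2508) (nat_lit 0) (XT.nd (nat_lit 234) (nat_lit 1368) (nat_lit 0) (XT.nd (nat_lit 78) (nat_lit 684) (nat_lit 0) (XT.lf (nat_lit 0) (nat_lit 755972181) (nat_lit 684) (nat_lit 3067855803) (nat_lit 760) (nat_lit 15873367188) (nat_lit 318) (nat_lit 5) (nat_lit 327) (nat_lit 5) (nat_lit 328) (nat_lit 5) (nat_lit 621) (nat_lit 574) (nat_lit 365)) (XT.nd (nat_lit 78) (nat_lit 684) (nat_lit 0) (XT.lf (nat_lit 0) (nat_lit 6884922986) (nat_lit 760) (nat_lit 7813983696) (nat_lit 76) (nat_lit 5220690641) (nat_lit 318) (nat_lit 5) (nat_lit 328) (nat_lit 5) (nat_lit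 319) (nat_lit 5) (nat_lit 622) (nat_lit 574) (nat_lit 364)) (XT.lf (nat_lit 0) (nat_lit 3555635029) (nat_lit 684) (nat_lit 6489456882) (nat_lit 760) (nat_lit 10100598980) (nat_lit 309) (nat_lit 5) (nat_lit 318) (nat_lit 5) (nat_lit 319) (nat_lit 5) (nat_lit 623) (nat_lit 574) (nat_lit 363)))) (XT.nd (nat_lit 156) (nat_lit 760) (nat_lit 0) (XT.nd (nat_lit 78) (nat_lit 608) (nat_lit 0) (XT.lf (nat_lit 0) (nat_lit 13327991161) (nat_lit 760) (nat_lit 5135813954) (nat_lit 76) (nat_lit 1911311086) (nat_lit 309) (nat_lit 5) (nat_lit 319) (nat_lit 5) (nat_lit 310) (nat_lit 5) (nat_lit 624) (nat_lit 574) (nat_lit 362)) (XT.lf (nat_lit 0) (nat_lit 6584478703) (nat_lit 608) (nat_lit 10172415055) (nat_lit 684) (nat_lit 3850629753) (nat_lit 301) (nat_lit 5) (nat_lit 309) (nat_lit 5) (nat_lit 310) (nat_lit 5) (nat_lit 625) (nat_lit 574) (nat_lit 361))) (XT.nd (nat_lit 78) (nat_lit 760) (nat_lit 0) (XT.lf (nat_lit 0) (nat_lit 18602422547) (nat_lit 608) (nat_lit 1681098056) (nat_lit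 684) (nat_lit 560475832) (nat_lit 301) (nat_lit 5) (nat_lit 309) (nat_lit 5) (nat_lit 310) (nat_lit 5) (nat_lit 626) (nat_lit 574) (nat_lit 360)) (XT.lf (nat_lit 0) (nat_lit 2863578370) (nat_lit 760) (nat_lit 11248869706) (nat_lit 76) (nat_lit 6970292908) (nat_lit 291) (nat_lit 5) (nat_lit 301) (nat_lit 5) (nat_lit 292) (nat_lit 5) (nat_lit 627) (nat_lit 574) (nat_lit 359))))) (XT.nd (nat_lit 234) (nat_lit 1292) (nat_lit 0) (XT.nd (nat_lit 78) (nat_lit 608) (nat_lit 0) (XT.lf (nat_lit 0) (nat_lit 845016330) (nat_lit 608) (nat_lit 5530167474) (nat_lit 684) (nat_lit 14950471397) (nat_lit 283) (nat_lit 5) (nat_lit 291) (nat_lit 5) (nat_lit 292) (nat_lit 5) (nat_lit 628) (nat_lit 574) (nat_lit 358)) (XT.nd (nat_lit 78) (nat_lit 608) (nat_lit 0) (XT.lf (nat_lit 0) (nat_lit 10048797458) (nat_lit 684) (nat_lit 8266513132) (nat_lit 76) (nat_lit 3256281952) (nat_lit 283) (nat_lit 5) (nat_lit 292) (nat_lit 5) (nat_lit 284) (nat_lit 5) (nat_lit 629) (nat_lit 574) (nat_lit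 357)) (XT.lf (nat_lit 0) (nat_lit 4204109206) (nat_lit 608) (nat_lit 9650654050) (nat_lit 684) (nat_lit 7966508133) (nat_lit 275) (nat_lit 5) (nat_lit 283) (nat_lit 5) (nat_lit 284) (nat_lit 5) (nat_lit 630) (nat_lit 574) (nat_lit 356)))) (XT.nd (nat_lit 156) (nat_lit 684) (nat_lit 0) (XT.nd (nat_lit 78) (nat_lit 608) (nat_lit 0) (XT.lf (nat_lit 0) (nat_lit 17029940260) (nat_lit 608) (nat_lit 757399326) (nat_lit 684) (nat_lit 4287594750) (nat_lit 275) (nat_lit 5) (nat_lit 283) (nat_lit 5) (nat_lit 284) (nat_lit 5) (nat_lit 631) (nat_lit 574) (nat_lit 355)) (XT.lf (nat_lit 0) (nat_lit 7820987194) (nat_lit 608) (nat_lit 14077445582) (nat_lit 684) (nat_lit 433240801) (nat_lit 267) (nat_lit 5) (nat_lit 275) (nat_lit 5) (nat_lit 276) (nat_lit 5) (nat_lit 632) (nat_lit 574) (nat_lit 354))) (XT.nd (nat_lit 78) (nat_lit 608) (nat_lit 0) (XT.lf (nat_lit 0) (nat_lit 3486546873) (nat_lit 684) (nat_lit 1614398662) (nat_lit 76) (nat_lit 17491463622) (nat_lit 266) (nat_lit 5)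 (nat_lit 275) (nat_lit 5) (nat_lit 267) (nat_lit 5) (nat_lit 633) (nat_lit 574) (nat_lit 353)) (XT.lf (nat_lit 0) (nat_lit 7576863148) (nat_lit 684) (nat_lit 11199664542) (nat_lit 76) (nat_lit 4079816126) (nat_lit 258) (nat_lit 5) (nat_lit 267) (nat_lit 5) (nat_lit 259) (nat_lit 5) (nat_lit 634) (nat_lit 574) (nat_lit 352))))))))
noncomputable def xc191 : XT := (XT.nd (nat_lit 2106) (nat_lit 836) (nat_lit 0) (XT.nd (nat_lit 1014) (nat_lit 3496) (nat_lit 0) (XT.nd (nat_lit 468) (nat_lit 1976) (nat_lit 0) (XT.nd (nat_lit 234) (nat_lit 1140) (nat_lit 0) (XT.nd (nat_lit 78) (nat_lit 532) (nat_lit 0) (XT.lf (nat_lit 0) (nat_lit 2076935721) (nat_lit 532) (nat_lit 9725493341) (nat_lit 608) (nat_lit 11322059556) (nat_lit 251) (nat_lit 5) (nat_lit 258) (nat_lit 5) (nat_lit 259) (nat_lit 5) (nat_lit 635) (nat_lit 574) (nat_lit 351)) (XT.nd (nat_lit 78) (nat_lit 532) (nat_lit 0) (XT.lf (nat_lit 0) (nat_lit 15764750306) (nat_lit 532) (nat_lit 418236683) (nat_lit 608) (nat_lit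 7213600022) (nat_lit 251) (nat_lit 5) (nat_lit 258) (nat_lit 5) (nat_lit 259) (nat_lit 5) (nat_lit 636) (nat_lit 574) (nat_lit 350)) (XT.lf (nat_lit 0) (nat_lit 6066743713) (nat_lit 532) (nat_lit 14678131120) (nat_lit 608) (nat_lit 2927378468) (nat_lit 244) (nat_lit 5) (nat_lit 251) (nat_lit 5) (nat_lit 252) (nat_lit 5) (nat_lit 637) (nat_lit 574) (nat_lit 349)))) (XT.nd (nat_lit 78) (nat_lit 1064) (nat_lit 0) (XT.lf (nat_lit 0) (nat_lit 1475372148) (nat_lit 608) (nat_lit 3828264880) (nat_lit 76) (nat_lit 18648613591) (nat_lit 243) (nat_lit 5) (nat_lit 251) (nat_lit 5) (nat_lit 244) (nat_lit 5) (nat_lit 638) (nat_lit 574) (nat_lit 348)) (XT.nd (nat_lit 78) (nat_lit 532) (nat_lit 0) (XT.lf (nat_lit 0) (nat_lit 6017844850) (nat_lit 608) (nat_lit 13929735281) (nat_lit 76) (nat_lit 4288063745) (nat_lit 236) (nat_lit 5) (nat_lit 244) (nat_lit 5) (nat_lit 237) (nat_lit 5) (nat_lit 639) (nat_lit 574) (nat_lit 347)) (XT.lf (nat_lit 0) (nat_lit 211918060) (nat_lit 532)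 (nat_lit 10497164880) (nat_lit 608) (nat_lit 13814464020) (nat_lit 229) (nat_lit 5) (nat_lit 236) (nat_lit 5) (nat_lit 237) (nat_lit 5) (nat_lit 640) (nat_lit 574) (nat_lit 346))))) (XT.nd (nat_lit 234) (nat_lit 1444) (nat_lit 0) (XT.nd (nat_lit 78) (nat_lit 532) (nat_lit 0) (XT.lf (nat_lit 0) (nat_lit 14819230201) (nat_lit 532) (nat_lit 763996439) (nat_lit 608) (nat_lit 9232200124) (nat_lit 229) (nat_lit 5) (nat_lit 236) (nat_lit 5) (nat_lit 237) (nat_lit 5) (nat_lit 641) (nat_lit 574) (nat_lit 345)) (XT.nd (nat_lit 78) (nat_lit 76) (nat_lit 0) (XT.lf (nat_lit 0) (nat_lit 4600427966) (nat_lit 456) (nat_lit 16039472954) (nat_lit 532) (nat_lit 4471542558) (nat_lit 223) (nat_lit 5) (nat_lit 229) (nat_lit 5) (nat_lit 230) (nat_lit 5) (nat_lit 642) (nat_lit 574) (nat_lit 344)) (XT.lf (nat_lit 0) (nat_lit 447569886) (nat_lit 532) (nat_lit 5801524444) (nat_lit 76) (nat_lit 19162870905) (nat_lit 222) (nat_lit 5) (nat_lit 229) (nat_lit 5) (nat_lit 223) (nat_lit 5) (nat_lit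 643) (nat_lit 574) (nat_lit 343)))) (XT.nd (nat_lit 156) (nat_lit 912) (nat_lit 0) (XT.nd (nat_lit 78) (nat_lit 0) (nat_lit 0) (XT.lf (nat_lit 0) (nat_lit 5486185337) (nat_lit 608) (nat_lit 16453123454) (nat_lit 76) (nat_lit 3776977858) (nat_lit 215) (nat_lit 5) (nat_lit 223) (nat_lit 5) (nat_lit 216) (nat_lit 5) (nat_lit 644) (nat_lit 574) (nat_lit 342)) (XT.lf (nat_lit 0) (nat_lit 10701964217) (nat_lit 608) (nat_lit 1365662467) (nat_lit 76) (nat_lit 13957540234) (nat_lit 215) (nat_lit 5) (nat_lit 223) (nat_lit 5) (nat_lit 216) (nat_lit 5) (nat_lit 645) (nat_lit 574) (nat_lit 341))) (XT.nd (nat_lit 78) (nat_lit 456) (nat_lit 0) (XT.lf (nat_lit 0) (nat_lit 14204062231) (nat_lit 456) (nat_lit 1906117936) (nat_lit 532) (nat_lit 10228282440) (nat_lit 209) (nat_lit 5) (nat_lit 215) (nat_lit 5) (nat_lit 216) (nat_lit 5) (nat_lit 646) (nat_lit 574) (nat_lit 340)) (XT.lf (nat_lit 0) (nat_lit 3430051649) (nat_lit 456) (nat_lit 18278854499) (nat_lit 532) (nat_lit 4947471385)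 (nat_lit 203) (nat_lit 5) (nat_lit 209) (nat_lit 5) (nat_lit 210) (nat_lit 5) (nat_lit 647) (nat_lit 574) (nat_lit 339)))))) (XT.nd (nat_lit 546) (nat_lit 1596) (nat_lit 0) (XT.nd (nat_lit 234) (nat_lit 1368) (nat_lit 0) (XT.nd (nat_lit 78) (nat_lit 456) (nat_lit 0) (XT.lf (nat_lit 0) (nat_lit 523736660) (nat_lit 532) (nat_lit 7530579770) (nat_lit 76) (nat_lit 18924466803) (nat_lit 202) (nat_lit 5) (nat_lit 209) (nat_lit 5) (nat_lit 203) (nat_lit 5) (nat_lit 648) (nat_lit 574) (nat_lit 338)) (XT.nd (nat_lit 78) (nat_lit 0) (nat_lit 0) (XT.lf (nat_lit 0) (nat_lit 6105732601) (nat_lit 532) (nat_lit 18769163289) (nat_lit 76) (nat_lit 2430735120) (nat_lit 196) (nat_lit 5) (nat_lit 203) (nat_lit 5) (nat_lit 197) (nat_lit 5) (nat_lit 649) (nat_lit 574) (nat_lit 337)) (XT.lf (nat_lit 0) (nat_lit 11899633382) (nat_lit 532) (nat_lit 2670482997) (nat_lit 76) (nat_lit 13066894286) (nat_lit 196) (nat_lit 5) (nat_lit 203) (nat_lit 5) (nat_lit 197) (nat_lit 5) (nat_lit 650)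 (nat_lit 574) (nat_lit 336)))) (XT.nd (nat_lit 156) (nat_lit 532) (nat_lit 0) (XT.nd (nat_lit 78) (nat_lit 380) (nat_lit 0) (XT.lf (nat_lit 0) (nat_lit 13927202603) (nat_lit 456) (nat_lit 3968767802) (nat_lit 532) (nat_lit 10077316561) (nat_lit 190) (nat_lit 5) (nat_lit 196) (nat_lit 5) (nat_lit 197) (nat_lit 5) (nat_lit 651) (nat_lit 574) (nat_lit 335)) (XT.lf (nat_lit 0) (nat_lit 2560479001) (nat_lit 380) (nat_lit 21527019926) (nat_lit 456) (nat_lit 4227284783) (nat_lit 185) (nat_lit 5) (nat_lit 190) (nat_lit 5) (nat_lit 191) (nat_lit 5) (nat_lit 652) (nat_lit 574) (nat_lit 334))) (XT.nd (nat_lit 78) (nat_lit 456) (nat_lit 0) (XT.lf (nat_lit 0) (nat_lit 1834269687) (nat_lit 456) (nat_lit 9015524490) (nat_lit 76) (nat_lit 17810743721) (nat_lit 184) (nat_lit 5) (nat_lit 190) (nat_lit 5) (nat_lit 185) (nat_lit 5) (nat_lit 653) (nat_lit 574) (nat_lit 333)) (XT.lf (nat_lit 0) (nat_lit 8010336863) (nat_lit 532) (nat_lit 20881335821) (nat_lit 76) (nat_lit 119978139)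 (nat_lit 178) (nat_lit 5) (nat_lit 185) (nat_lit 5) (nat_lit 179) (nat_lit 5) (nat_lit 654) (nat_lit 574) (nat_lit 332))))) (XT.nd (nat_lit 234) (nat_lit 836) (nat_lit 0) (XT.nd (nat_lit 78) (nat_lit 760) (nat_lit 0) (XT.lf (nat_lit 0) (nat_lit 14438953931) (nat_lit 532) (nat_lit 3705133728) (nat_lit 76) (nat_lit 11223117974) (nat_lit 178) (nat_lit 5) (nat_lit 185) (nat_lit 5) (nat_lit 179) (nat_lit 5) (nat_lit 655) (nat_lit 574) (nat_lit 331)) (XT.nd (nat_lit 78) (nat_lit 380) (nat_lit 0) (XT.lf (nat_lit 0) (nat_lit 13992634606) (nat_lit 380) (nat_lit 7090707255) (nat_lit 456) (nat_lit 8644785898) (nat_lit 173) (nat_lit 5) (nat_lit 178) (nat_lit 5) (nat_lit 179) (nat_lit 5) (nat_lit 656) (nat_lit 574) (nat_lit 330)) (XT.lf (nat_lit 0) (nat_lit 1992111576) (nat_lit 380) (nat_lit 25930005262) (nat_lit 456) (nat_lit 2172921695) (nat_lit 168) (nat_lit 5) (nat_lit 173) (nat_lit 5) (nat_lit 174) (nat_lit 5) (nat_lit 657) (nat_lit 574) (nat_lit 329)))) (XT.nd (nat_lit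 156) (nat_lit 380) (nat_lit 0) (XT.nd (nat_lit 78) (nat_lit 380) (nat_lit 0) (XT.lf (nat_lit 0) (nat_lit 4519937039) (nat_lit 456) (nat_lit 10261528501) (nat_lit 76) (nat_lit 15684254398) (nat_lit 167) (nat_lit 5) (nat_lit 173) (nat_lit 5) (nat_lit 168) (nat_lit 5) (nat_lit 658) (nat_lit 574) (nat_lit 328)) (XT.lf (nat_lit 0) (nat_lit 8022116865) (nat_lit 380) (nat_lit 3344008824) (nat_lit 456) (nat_lit 19476430837) (nat_lit 162) (nat_lit 5) (nat_lit 167) (nat_lit 5) (nat_lit 168) (nat_lit 5) (nat_lit 659) (nat_lit 574) (nat_lit 327))) (XT.nd (nat_lit 78) (nat_lit 380) (nat_lit 0) (XT.lf (nat_lit 0) (nat_lit 18469066266) (nat_lit 456) (nat_lit 4474934146) (nat_lit 76) (nat_lit 8280533045) (nat_lit 162) (nat_lit 5) (nat_lit 168) (nat_lit 5) (nat_lit 163) (nat_lit 5) (nat_lit 660) (nat_lit 574) (nat_lit 326)) (XT.lf (nat_lit 0) (nat_lit 14398860634) (nat_lit 380) (nat_lit 11427385419) (nat_lit 456) (nat_lit 5785660436) (nat_lit 157) (nat_lit 5) (nat_lit 162) (nat_lit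 5) (nat_lit 163) (nat_lit 5) (nat_lit 661) (nat_lit 574) (nat_lit 325))))))) (XT.nd (nat_lit 75270) (nat_lit 0) (nat_lit 24852) (XT.nd (nat_lit 74724) (nat_lit 0) (nat_lit 26068) (XT.nd (nat_lit 74412) (nat_lit 0) (nat_lit 26068) (XT.nd (nat_lit 78) (nat_lit 380) (nat_lit 0) (XT.lf (nat_lit 0) (nat_lit 1346483559) (nat_lit 456) (nat_lit 30295786027) (nat_lit 76) (nat_lit 363779702) (nat_lit 151) (nat_lit 5) (nat_lit 157) (nat_lit 5) (nat_lit 152) (nat_lit 5) (nat_lit 662) (nat_lit 574) (nat_lit 324)) (XT.nd (nat_lit 78) (nat_lit 380) (nat_lit 0) (XT.lf (nat_lit 0) (nat_lit 8732403597) (nat_lit 456) (nat_lit 11280508157) (nat_lit 76) (nat_lit 12390626422) (nat_lit 151) (nat_lit 5) (nat_lit 157) (nat_lit 5) (nat_lit 152) (nat_lit 5) (nat_lit 663) (nat_lit 574) (nat_lit 323)) (XT.lf (nat_lit 0) (nat_lit 8217604877) (nat_lit 380) (nat_lit 8098437510) (nat_lit 456) (nat_lit 16491934606) (nat_lit 146) (nat_lit 5) (nat_lit 151) (nat_lit 5) (nat_lit 152) (nat_lit 5) (nat_lit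 664) (nat_lit 574) (nat_lit 322)))) (XT.nd (nat_lit 156) (nat_lit 1672) (nat_lit 0) (XT.nd (nat_lit 78) (nat_lit 0) (nat_lit 0) (XT.lf (nat_lit 0) (nat_lit 5477517524) (nat_lit 1748) (nat_lit 355243167) (nat_lit 1748) (nat_lit 355243167) (nat_lit 511) (nat_lit 3) (nat_lit 534) (nat_lit 3) (nat_lit 534) (nat_lit 5) (nat_lit 575) (nat_lit 575) (nat_lit 410)) (XT.lf (nat_lit 76) (nat_lit 5477230514) (nat_lit 0) (nat_lit 6064788315) (nat_lit 1748) (nat_lit 948157543) (nat_lit 512) (nat_lit 5) (nat_lit 511) (nat_lit 3) (nat_lit 534) (nat_lit 5) (nat_lit 576) (nat_lit 575) (nat_lit 409))) (XT.nd (nat_lit 78) (nat_lit 1672) (nat_lit 0) (XT.lf (nat_lit 76) (nat_lit 11792342275) (nat_lit 0) (nat_lit 341538405) (nat_lit 1748) (nat_lit 472886075) (nat_lit 512) (nat_lit 5) (nat_lit 511) (nat_lit 3) (nat_lit 534) (nat_lit 5) (nat_lit 577) (nat_lit 575) (nat_lit 408)) (XT.lf (nat_lit 0) (nat_lit 72414537) (nat_lit 1748) (nat_lit 7186072631) (nat_lit 1824) (nat_lit 5465987719)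 (nat_lit 489) (nat_lit 5) (nat_lit 512) (nat_lit 5) (nat_lit 513) (nat_lit 5) (nat_lit 578) (nat_lit 575) (nat_lit 407))))) (XT.nd (nat_lit 234) (nat_lit 0) (nat_lit 152) (XT.nd (nat_lit 78) (nat_lit 0) (nat_lit 76) (XT.lf (nat_lit 0) (nat_lit 618801113) (nat_lit 1748) (nat_lit 826780440) (nat_lit 1824) (nat_lit 11398963930) (nat_lit 489) (nat_lit 5) (nat_lit 512) (nat_lit 5) (nat_lit 513) (nat_lit 5) (nat_lit 579) (nat_lit 575) (nat_lit 406)) (XT.nd (nat_lit 78) (nat_lit 0) (nat_lit 0) (XT.lf (nat_lit 0) (nat_lit 1231662023) (nat_lit 1748) (nat_lit 7267178963) (nat_lit 1824) (nat_lit 4467066611) (nat_lit 490) (nat_lit 5) (nat_lit 513) (nat_lit 5) (nat_lit 514) (nat_lit 5) (nat_lit 580) (nat_lit 575) (nat_lit 405)) (XT.lf (nat_lit 0) (nat_lit 1861109757) (nat_lit 1748) (nat_lit 739575497) (nat_lit 1824) (nat_lit 10488926122) (nat_lit 490) (nat_lit 5) (nat_lit 513) (nat_lit 5) (nat_lit 514) (nat_lit 5) (nat_lit 581) (nat_lit 575) (nat_lit 404)))) (XT.nd (nat_lit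 156) (nat_lit 0) (nat_lit 76) (XT.nd (nat_lit 78) (nat_lit 0) (nat_lit 0) (XT.lf (nat_lit 0) (nat_lit 2553888751) (nat_lit 1748) (nat_lit 7246744043) (nat_lit 1824) (nat_lit 3414142586) (nat_lit 491) (nat_lit 5) (nat_lit 514) (nat_lit 5) (nat_lit 515) (nat_lit 5) (nat_lit 582) (nat_lit 575) (nat_lit 403)) (XT.lf (nat_lit 0) (nat_lit 3272321774) (nat_lit 1748) (nat_lit 546191055) (nat_lit 1824) (nat_lit 9523694843) (nat_lit 491) (nat_lit 5) (nat_lit 514) (nat_lit 5) (nat_lit 515) (nat_lit 5) (nat_lit 583) (nat_lit 575) (nat_lit 402))) (XT.nd (nat_lit 78) (nat_lit 0) (nat_lit 0) (XT.lf (nat_lit 0) (nat_lit 4051360509) (nat_lit 1748) (nat_lit 7121113763) (nat_lit 1824) (nat_lit 2298790554) (nat_lit 492) (nat_lit 5) (nat_lit 515) (nat_lit 5) (nat_lit 516) (nat_lit 5) (nat_lit 584) (nat_lit 575) (nat_lit 401)) (XT.lf (nat_lit 0) (nat_lit 4864926145) (nat_lit 1748) (nat_lit 242785504) (nat_lit 1824) (nat_lit 8494813489) (nat_lit 492) (nat_lit 5) (nat_lit 515) (nat_lit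 5) (nat_lit 516) (nat_lit 5) (nat_lit 585) (nat_lit 575) (nat_lit 400)))))) (XT.nd (nat_lit 546) (nat_lit 1520) (nat_lit 0) (XT.nd (nat_lit 234) (nat_lit 0) (nat_lit 76) (XT.nd (nat_lit 78) (nat_lit 0) (nat_lit 0) (XT.lf (nat_lit 0) (nat_lit 5736765318) (nat_lit 1748) (nat_lit 6886340875) (nat_lit 1824) (nat_lit 1112465339) (nat_lit 493) (nat_lit 5) (nat_lit 516) (nat_lit 5) (nat_lit 517) (nat_lit 5) (nat_lit 586) (nat_lit 575) (nat_lit 399)) (XT.nd (nat_lit 78) (nat_lit 0) (nat_lit 0) (XT.lf (nat_lit 76) (nat_lit 177102881) (nat_lit 0) (nat_lit 6475893251) (nat_lit 1824) (nat_lit 7217744527) (nat_lit 494) (nat_lit 5) (nat_lit 493) (nat_lit 5) (nat_lit 517) (nat_lit 5) (nat_lit 587) (nat_lit 575) (nat_lit 398)) (XT.lf (nat_lit 76) (nat_lit 7468689483) (nat_lit 0) (nat_lit 155559534) (nat_lit 1824) (nat_lit 6383631086) (nat_lit 494) (nat_lit 5) (nat_lit 493) (nat_lit 5) (nat_lit 517) (nat_lit 5) (nat_lit 588) (nat_lit 575) (nat_lit 397)))) (XT.nd (nat_lit 156) (nat_lit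 0) (nat_lit 76) (XT.nd (nat_lit 78) (nat_lit 0) (nat_lit 0) (XT.lf (nat_lit 76) (nat_lit 720395019) (nat_lit 0) (nat_lit 7930748124) (nat_lit 1824) (nat_lit 5495895736) (nat_lit 495) (nat_lit 5) (nat_lit 494) (nat_lit 5) (nat_lit 518) (nat_lit 5) (nat_lit 589) (nat_lit 575) (nat_lit 396)) (XT.lf (nat_lit 76) (nat_lit 8206259989) (nat_lit 0) (nat_lit 1528052616) (nat_lit 1824) (nat_lit 4553954327) (nat_lit 495) (nat_lit 5) (nat_lit 494) (nat_lit 5) (nat_lit 518) (nat_lit 5) (nat_lit 590) (nat_lit 575) (nat_lit 395))) (XT.nd (nat_lit 78) (nat_lit 0) (nat_lit 0) (XT.lf (nat_lit 76) (nat_lit 1388675790) (nat_lit 0) (nat_lit 9482995993) (nat_lit 1824) (nat_lit 3559998069) (nat_lit 496) (nat_lit 5) (nat_lit 495) (nat_lit 5) (nat_lit 519) (nat_lit 5) (nat_lit 591) (nat_lit 575) (nat_lit 394)) (XT.lf (nat_lit 76) (nat_lit 9074425801) (nat_lit 0) (nat_lit 2999381552) (nat_lit 1824) (nat_lit 2503293711) (nat_lit 496) (nat_lit 5) (nat_lit 495) (nat_lit 5) (nat_lit 519) (nat_lit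 5) (nat_lit 592) (nat_lit 575) (nat_lit 393))))) (XT.nd (nat_lit 234) (nat_lit 0) (nat_lit 0) (XT.nd (nat_lit 78) (nat_lit 1748) (nat_lit 0) (XT.lf (nat_lit 76) (nat_lit 2187073779) (nat_lit 0) (nat_lit 11141926350) (nat_lit 1824) (nat_lit 1395861282) (nat_lit 497) (nat_lit 5) (nat_lit 496) (nat_lit 5) (nat_lit 520) (nat_lit 5) (nat_lit 593) (nat_lit 575) (nat_lit 392)) (XT.nd (nat_lit 78) (nat_lit 1748) (nat_lit 0) (XT.lf (nat_lit 76) (nat_lit 10078527851) (nat_lit 0) (nat_lit 4578905270) (nat_lit 1824) (nat_lit 217181901) (nat_lit 497) (nat_lit 5) (nat_lit 496) (nat_lit 5) (nat_lit 520) (nat_lit 5) (nat_lit 594) (nat_lit 575) (nat_lit 391)) (XT.lf (nat_lit 0) (nat_lit 997976505) (nat_lit 1824) (nat_lit 11912375767) (nat_lit 1900) (nat_lit 2116367778) (nat_lit 473) (nat_lit 5) (nat_lit 497) (nat_lit 5) (nat_lit 498) (nat_lit 5) (nat_lit 595) (nat_lit 575) (nat_lit 390)))) (XT.nd (nat_lit 156) (nat_lit 0) (nat_lit 76) (XT.nd (nat_lit 78) (nat_lit 0) (nat_lit 76)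 (XT.lf (nat_lit 0) (nat_lit 2288977187) (nat_lit 1824) (nat_lit 3971874150) (nat_lit 1900) (nat_lit 8919898926) (nat_lit 473) (nat_lit 5) (nat_lit 497) (nat_lit 5) (nat_lit 498) (nat_lit 5) (nat_lit 596) (nat_lit 575) (nat_lit 389)) (XT.lf (nat_lit 0) (nat_lit 3628371094) (nat_lit 1824) (nat_lit 11165397539) (nat_lit 1900) (nat_lit 543641708) (nat_lit 474) (nat_lit 5) (nat_lit 498) (nat_lit 5) (nat_lit 499) (nat_lit 5) (nat_lit 597) (nat_lit 575) (nat_lit 388))) (XT.nd (nat_lit 78) (nat_lit 0) (nat_lit 0) (XT.lf (nat_lit 0) (nat_lit 5054857464) (nat_lit 1824) (nat_lit 3012360848) (nat_lit 1900) (nat_lit 7428779928) (nat_lit 474) (nat_lit 5) (nat_lit 498) (nat_lit 5) (nat_lit 499) (nat_lit 5) (nat_lit 598) (nat_lit 575) (nat_lit 387)) (XT.lf (nat_lit 76) (nat_lit 5367595830) (nat_lit 0) (nat_lit 1169296464) (nat_lit 1900) (nat_lit 9120325927) (nat_lit 475) (nat_lit 5) (nat_lit 474) (nat_lit 5) (nat_lit 499) (nat_lit 5) (nat_lit 599) (nat_lit 575) (nat_lit 386))))))))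
noncomputable def xc192 : XT := (XT.nd (nat_lit 2106) (nat_lit 8816) (nat_lit 0) (XT.nd (nat_lit 1014) (nat_lit 5928) (nat_lit 0) (XT.nd (nat_lit 468) (nat_lit 3420) (nat_lit 0) (XT.nd (nat_lit 234) (nat_lit 2052) (nat_lit 0) (XT.nd (nat_lit 78) (nat_lit 1824) (nat_lit 0) (XT.lf (nat_lit 0) (nat_lit 8099294053) (nat_lit 1824) (nat_lit 1910154702) (nat_lit 76) (nat_lit 5811200005) (nat_lit 475) (nat_lit 5) (nat_lit 499) (nat_lit 5) (nat_lit 476) (nat_lit 5) (nat_lit 600) (nat_lit 575) (nat_lit 385)) (XT.nd (nat_lit 78) (nat_lit 0) (nat_lit 0) (XT.lf (nat_lit 0) (nat_lit 6710642732) (nat_lit 1824) (nat_lit 3026054038) (nat_lit 1900) (nat_lit 6249776750) (nat_lit 451) (nat_lit 5) (nat_lit 475) (nat_lit 5) (nat_lit 476) (nat_lit 5) (nat_lit 601) (nat_lit 575) (nat_lit 384)) (XT.lf (nat_lit 0) (nat_lit 11438902814) (nat_lit 1900) (nat_lit 658935350) (nat_lit 76) (nat_lit 4057136163) (nat_lit 451) (nat_lit 5) (nat_lit 476) (nat_lit 5) (nat_lit 452) (nat_lit 5) (nat_lit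 602) (nat_lit 575) (nat_lit 383)))) (XT.nd (nat_lit 78) (nat_lit 988) (nat_lit 0) (XT.lf (nat_lit 0) (nat_lit 8211442333) (nat_lit 1064) (nat_lit 5029762656) (nat_lit 1140) (nat_lit 3084319765) (nat_lit 437) (nat_lit 5) (nat_lit 451) (nat_lit 5) (nat_lit 452) (nat_lit 5) (nat_lit 603) (nat_lit 575) (nat_lit 382)) (XT.nd (nat_lit 78) (nat_lit 76) (nat_lit 0) (XT.lf (nat_lit 0) (nat_lit 757904030) (nat_lit 912) (nat_lit 14337976716) (nat_lit 988) (nat_lit 1403279526) (nat_lit 425) (nat_lit 5) (nat_lit 437) (nat_lit 5) (nat_lit 438) (nat_lit 5) (nat_lit 604) (nat_lit 575) (nat_lit 381)) (XT.lf (nat_lit 0) (nat_lit 388272288) (nat_lit 988) (nat_lit 6800221481) (nat_lit 76) (nat_lit 9486115411) (nat_lit 424) (nat_lit 5) (nat_lit 437) (nat_lit 5) (nat_lit 425) (nat_lit 5) (nat_lit 605) (nat_lit 575) (nat_lit 380))))) (XT.nd (nat_lit 234) (nat_lit 1672) (nat_lit 0) (XT.nd (nat_lit 78) (nat_lit 836) (nat_lit 0) (XT.lf (nat_lit 0) (nat_lit 2205874100) (nat_lit 988) (nat_lit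 14519639742) (nat_lit 76) (nat_lit 127688129) (nat_lit 412) (nat_lit 5) (nat_lit 425) (nat_lit 5) (nat_lit 413) (nat_lit 5) (nat_lit 606) (nat_lit 575) (nat_lit 379)) (XT.nd (nat_lit 78) (nat_lit 836) (nat_lit 0) (XT.lf (nat_lit 0) (nat_lit 4146461682) (nat_lit 988) (nat_lit 5346798119) (nat_lit 76) (nat_lit 7540374725) (nat_lit 412) (nat_lit 5) (nat_lit 425) (nat_lit 5) (nat_lit 413) (nat_lit 5) (nat_lit 607) (nat_lit 575) (nat_lit 378)) (XT.lf (nat_lit 0) (nat_lit 4056191701) (nat_lit 836) (nat_lit 2089232786) (nat_lit 912) (nat_lit 11071860547) (nat_lit 401) (nat_lit 5) (nat_lit 412) (nat_lit 5) (nat_lit 413) (nat_lit 5) (nat_lit 608) (nat_lit 575) (nat_lit 377)))) (XT.nd (nat_lit 156) (nat_lit 836) (nat_lit 0) (XT.nd (nat_lit 78) (nat_lit 836) (nat_lit 0) (XT.lf (nat_lit 0) (nat_lit 8249272817) (nat_lit 912) (nat_lit 3726477715) (nat_lit 76) (nat_lit 5427560456) (nat_lit 401) (nat_lit 5) (nat_lit 413) (nat_lit 5) (nat_lit 402) (nat_lit 5) (nat_lit 609) (nat_lit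 575) (nat_lit 376)) (XT.lf (nat_lit 0) (nat_lit 5954620437) (nat_lit 836) (nat_lit 4486526193) (nat_lit 912) (nat_lit 7150992412) (nat_lit 390) (nat_lit 5) (nat_lit 401) (nat_lit 5) (nat_lit 402) (nat_lit 5) (nat_lit 610) (nat_lit 575) (nat_lit 375))) (XT.nd (nat_lit 78) (nat_lit 836) (nat_lit 0) (XT.lf (nat_lit 0) (nat_lit 12716036261) (nat_lit 912) (nat_lit 1931580361) (nat_lit 76) (nat_lit 3136344006) (nat_lit 390) (nat_lit 5) (nat_lit 402) (nat_lit 5) (nat_lit 391) (nat_lit 5) (nat_lit 611) (nat_lit 575) (nat_lit 374)) (XT.lf (nat_lit 0) (nat_lit 8037752534) (nat_lit 836) (nat_lit 7074234467) (nat_lit 912) (nat_lit 2866120906) (nat_lit 379) (nat_lit 5) (nat_lit 390) (nat_lit 5) (nat_lit 391) (nat_lit 5) (nat_lit 612) (nat_lit 575) (nat_lit 373)))))) (XT.nd (nat_lit 546) (nat_lit 2812) (nat_lit 0) (XT.nd (nat_lit 234) (nat_lit 1444) (nat_lit 0) (XT.nd (nat_lit 78) (nat_lit 836) (nat_lit 0) (XT.lf (nat_lit 0) (nat_lit 46565932) (nat_lit 836) (nat_lit 17520611839)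 (nat_lit 912) (nat_lit 608734460) (nat_lit 368) (nat_lit 5) (nat_lit 379) (nat_lit 5) (nat_lit 380) (nat_lit 5) (nat_lit 613) (nat_lit 575) (nat_lit 372)) (XT.nd (nat_lit 78) (nat_lit 760) (nat_lit 0) (XT.lf (nat_lit 0) (nat_lit 1779367161) (nat_lit 912) (nat_lit 8073208242) (nat_lit 76) (nat_lit 8522722151) (nat_lit 367) (nat_lit 5) (nat_lit 379) (nat_lit 5) (nat_lit 368) (nat_lit 5) (nat_lit 614) (nat_lit 575) (nat_lit 371)) (XT.lf (nat_lit 0) (nat_lit 2202484417) (nat_lit 760) (nat_lit 2012810823) (nat_lit 836) (nat_lit 14363131049) (nat_lit 357) (nat_lit 5) (nat_lit 367) (nat_lit 5) (nat_lit 368) (nat_lit 5) (nat_lit 615) (nat_lit 575) (nat_lit 370)))) (XT.nd (nat_lit 156) (nat_lit 684) (nat_lit 0) (XT.nd (nat_lit 78) (nat_lit 760) (nat_lit 0) (XT.lf (nat_lit 0) (nat_lit 6787310028) (nat_lit 836) (nat_lit 6037116854) (nat_lit 76) (nat_lit 5959443833) (nat_lit 357) (nat_lit 5) (nat_lit 368) (nat_lit 5) (nat_lit 358) (nat_lit 5) (nat_lit 616) (nat_lit 575) (nat_lit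 369)) (XT.lf (nat_lit 0) (nat_lit 4548436875) (nat_lit 760) (nat_lit 4899290972) (nat_lit 836) (nat_lit 9544957397) (nat_lit 347) (nat_lit 5) (nat_lit 357) (nat_lit 5) (nat_lit 358) (nat_lit 5) (nat_lit 617) (nat_lit 575) (nat_lit 368))) (XT.nd (nat_lit 78) (nat_lit 684) (nat_lit 0) (XT.lf (nat_lit 0) (nat_lit 12216982120) (nat_lit 836) (nat_lit 3804715844) (nat_lit 76) (nat_lit 3182865997) (nat_lit 347) (nat_lit 5) (nat_lit 358) (nat_lit 5) (nat_lit 348) (nat_lit 5) (nat_lit 618) (nat_lit 575) (nat_lit 367)) (XT.lf (nat_lit 0) (nat_lit 7101988668) (nat_lit 684) (nat_lit 8012476204) (nat_lit 760) (nat_lit 4304758965) (nat_lit 338) (nat_lit 5) (nat_lit 347) (nat_lit 5) (nat_lit 348) (nat_lit 5) (nat_lit 619) (nat_lit 575) (nat_lit 366))))) (XT.nd (nat_lit 234) (nat_lit 1292) (nat_lit 0) (XT.nd (nat_lit 78) (nat_lit 1520) (nat_lit 0) (XT.lf (nat_lit 0) (nat_lit 18090971004) (nat_lit 760) (nat_lit 1366837550) (nat_lit 76) (nat_lit 179947324) (nat_lit 338) (nat_lit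 5) (nat_lit 348) (nat_lit 5) (nat_lit 339) (nat_lit 5) (nat_lit 620) (nat_lit 575) (nat_lit 365)) (XT.nd (nat_lit 78) (nat_lit 684) (nat_lit 0) (XT.lf (nat_lit 0) (nat_lit 1362107000) (nat_lit 836) (nat_lit 9994659094) (nat_lit 76) (nat_lit 8501481115) (nat_lit 327) (nat_lit 5) (nat_lit 338) (nat_lit 5) (nat_lit 328) (nat_lit 5) (nat_lit 621) (nat_lit 575) (nat_lit 364)) (XT.lf (nat_lit 0) (nat_lit 1254036086) (nat_lit 684) (nat_lit 3066319854) (nat_lit 760) (nat_lit 15762350547) (nat_lit 318) (nat_lit 5) (nat_lit 327) (nat_lit 5) (nat_lit 328) (nat_lit 5) (nat_lit 622) (nat_lit 575) (nat_lit 363)))) (XT.nd (nat_lit 156) (nat_lit 608) (nat_lit 0) (XT.nd (nat_lit 78) (nat_lit 684) (nat_lit 0) (XT.lf (nat_lit 0) (nat_lit 7434836877) (nat_lit 760) (nat_lit 7488921500) (nat_lit 76) (nat_lit 5385955641) (nat_lit 318) (nat_lit 5) (nat_lit 328) (nat_lit 5) (nat_lit 319) (nat_lit 5) (nat_lit 623) (nat_lit 575) (nat_lit 362)) (XT.lf (nat_lit 0) (nat_lit 4104922876) (nat_lit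 684) (nat_lit 6548308279) (nat_lit 760) (nat_lit 9887198470) (nat_lit 309) (nat_lit 5) (nat_lit 318) (nat_lit 5) (nat_lit 319) (nat_lit 5) (nat_lit 624) (nat_lit 575) (nat_lit 361))) (XT.nd (nat_lit 78) (nat_lit 608) (nat_lit 0) (XT.lf (nat_lit 0) (nat_lit 13994254887) (nat_lit 760) (nat_lit 4762167827) (nat_lit 76) (nat_lit 2018171994) (nat_lit 309) (nat_lit 5) (nat_lit 319) (nat_lit 5) (nat_lit 310) (nat_lit 5) (nat_lit 625) (nat_lit 575) (nat_lit 360)) (XT.lf (nat_lit 0) (nat_lit 7189396721) (nat_lit 608) (nat_lit 10297573996) (nat_lit 684) (nat_lit 3524775326) (nat_lit 301) (nat_lit 5) (nat_lit 309) (nat_lit 5) (nat_lit 310) (nat_lit 5) (nat_lit 626) (nat_lit 575) (nat_lit 359))))))) (XT.nd (nat_lit 1014) (nat_lit 4408) (nat_lit 0) (XT.nd (nat_lit 468) (nat_lit 2432) (nat_lit 0) (XT.nd (nat_lit 234) (nat_lit 608) (nat_lit 0) (XT.nd (nat_lit 78) (nat_lit 1368) (nat_lit 0) (XT.lf (nat_lit 0) (nat_lit 19438420453) (nat_lit 608) (nat_lit 1637965743) (nat_lit 684)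 (nat_lit 176717679) (nat_lit 301) (nat_lit 5) (nat_lit 309) (nat_lit 5) (nat_lit 310) (nat_lit 5) (nat_lit 627) (nat_lit 575) (nat_lit 358)) (XT.nd (nat_lit 78) (nat_lit 608) (nat_lit 0) (XT.lf (nat_lit 0) (nat_lit 3306545941) (nat_lit 760) (nat_lit 11000570479) (nat_lit 76) (nat_lit 7189537988) (nat_lit 291) (nat_lit 5) (nat_lit 301) (nat_lit 5) (nat_lit 292) (nat_lit 5) (nat_lit 628) (nat_lit 575) (nat_lit 357)) (XT.lf (nat_lit 0) (nat_lit 1332079616) (nat_lit 608) (nat_lit 5551793811) (nat_lit 684) (nat_lit 14860644222) (nat_lit 283) (nat_lit 5) (nat_lit 291) (nat_lit 5) (nat_lit 292) (nat_lit 5) (nat_lit 629) (nat_lit 575) (nat_lit 356)))) (XT.nd (nat_lit 78) (nat_lit 608) (nat_lit 0) (XT.lf (nat_lit 0) (nat_lit 10624051490) (nat_lit 684) (nat_lit 7963965044) (nat_lit 76) (nat_lit 3407495888) (nat_lit 283) (nat_lit 5) (nat_lit 292) (nat_lit 5) (nat_lit 284) (nat_lit 5) (nat_lit 630) (nat_lit 575) (nat_lit 355)) (XT.nd (nat_lit 78) (nat_lit 0) (nat_lit 0) (XT.lf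 (nat_lit 0) (nat_lit 4752991593) (nat_lit 608) (nat_lit 9748824016) (nat_lit 684) (nat_lit 7748456175) (nat_lit 275) (nat_lit 5) (nat_lit 283) (nat_lit 5) (nat_lit 284) (nat_lit 5) (nat_lit 631) (nat_lit 575) (nat_lit 354)) (XT.lf (nat_lit 0) (nat_lit 17826225540) (nat_lit 608) (nat_lit 679563866) (nat_lit 684) (nat_lit 4003364173) (nat_lit 275) (nat_lit 5) (nat_lit 283) (nat_lit 5) (nat_lit 284) (nat_lit 5) (nat_lit 632) (nat_lit 575) (nat_lit 353))))) (XT.nd (nat_lit 234) (nat_lit 1140) (nat_lit 0) (XT.nd (nat_lit 78) (nat_lit 684) (nat_lit 0) (XT.lf (nat_lit 0) (nat_lit 8436727289) (nat_lit 608) (nat_lit 14258839432) (nat_lit 684) (nat_lit 75532137) (nat_lit 267) (nat_lit 5) (nat_lit 275) (nat_lit 5) (nat_lit 276) (nat_lit 5) (nat_lit 633) (nat_lit 575) (nat_lit 352)) (XT.nd (nat_lit 78) (nat_lit 608) (nat_lit 0) (XT.lf (nat_lit 0) (nat_lit 3910756659) (nat_lit 684) (nat_lit 1191637809) (nat_lit 76) (nat_lit 17934749375) (nat_lit 266) (nat_lit 5) (nat_lit 275)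 (nat_lit 5) (nat_lit 267) (nat_lit 5) (nat_lit 634) (nat_lit 575) (nat_lit 351)) (XT.lf (nat_lit 0) (nat_lit 8079523337) (nat_lit 684) (nat_lit 10965229633) (nat_lit 76) (nat_lit 4261671813) (nat_lit 258) (nat_lit 5) (nat_lit 267) (nat_lit 5) (nat_lit 259) (nat_lit 5) (nat_lit 635) (nat_lit 575) (nat_lit 350)))) (XT.nd (nat_lit 156) (nat_lit 608) (nat_lit 0) (XT.nd (nat_lit 78) (nat_lit 0) (nat_lit 0) (XT.lf (nat_lit 0) (nat_lit 2573886660) (nat_lit 532) (nat_lit 9811785984) (nat_lit 608) (nat_lit 11194338856) (nat_lit 251) (nat_lit 5) (nat_lit 258) (nat_lit 5) (nat_lit 259) (nat_lit 5) (nat_lit 636) (nat_lit 575) (nat_lit 349)) (XT.lf (nat_lit 0) (nat_lit 16526527886) (nat_lit 532) (nat_lit 320506099) (nat_lit 608) (nat_lit 7010654482) (nat_lit 251) (nat_lit 5) (nat_lit 258) (nat_lit 5) (nat_lit 259) (nat_lit 5) (nat_lit 637) (nat_lit 575) (nat_lit 348))) (XT.nd (nat_lit 78) (nat_lit 76) (nat_lit 0) (XT.lf (nat_lit 0) (nat_lit 6637724814) (nat_lit 532) (nat_lit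 14859355247) (nat_lit 608) (nat_lit 2641850053) (nat_lit 244) (nat_lit 5) (nat_lit 251) (nat_lit 5) (nat_lit 252) (nat_lit 5) (nat_lit 638) (nat_lit 575) (nat_lit 347)) (XT.lf (nat_lit 0) (nat_lit 1837784851) (nat_lit 608) (nat_lit 3459555168) (nat_lit 76) (nat_lit 19127276267) (nat_lit 243) (nat_lit 5) (nat_lit 251) (nat_lit 5) (nat_lit 244) (nat_lit 5) (nat_lit 639) (nat_lit 575) (nat_lit 346)))))) (XT.nd (nat_lit 546) (nat_lit 2280) (nat_lit 0) (XT.nd (nat_lit 234) (nat_lit 1064) (nat_lit 0) (XT.nd (nat_lit 78) (nat_lit 532) (nat_lit 0) (XT.lf (nat_lit 0) (nat_lit 6468185747) (nat_lit 608) (nat_lit 13760112894) (nat_lit 76) (nat_lit 4485437609) (nat_lit 236) (nat_lit 5) (nat_lit 244) (nat_lit 5) (nat_lit 237) (nat_lit 5) (nat_lit 640) (nat_lit 575) (nat_lit 345)) (XT.nd (nat_lit 78) (nat_lit 0) (nat_lit 0) (XT.lf (nat_lit 0) (nat_lit 661424717) (nat_lit 532) (nat_lit 10588244585) (nat_lit 608) (nat_lit 13757800088) (nat_lit 229) (nat_lit 5) (nat_lit 236) (nat_lit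 5) (nat_lit 237) (nat_lit 5) (nat_lit 641) (nat_lit 575) (nat_lit 344)) (XT.lf (nat_lit 0) (nat_lit 15552152350) (nat_lit 532) (nat_lit 662743433) (nat_lit 608) (nat_lit 9090419409) (nat_lit 229) (nat_lit 5) (nat_lit 236) (nat_lit 5) (nat_lit 237) (nat_lit 5) (nat_lit 642) (nat_lit 575) (nat_lit 343)))) (XT.nd (nat_lit 156) (nat_lit 532) (nat_lit 0) (XT.nd (nat_lit 78) (nat_lit 76) (nat_lit 0) (XT.lf (nat_lit 0) (nat_lit 5131728351) (nat_lit 456) (nat_lit 16238294546) (nat_lit 532) (nat_lit 4237283350) (nat_lit 223) (nat_lit 5) (nat_lit 229) (nat_lit 5) (nat_lit 230) (nat_lit 5) (nat_lit 643) (nat_lit 575) (nat_lit 342)) (XT.lf (nat_lit 0) (nat_lit 769702466) (nat_lit 532) (nat_lit 5482695800) (nat_lit 76) (nat_lit 19661523790) (nat_lit 222) (nat_lit 5) (nat_lit 229) (nat_lit 5) (nat_lit 223) (nat_lit 5) (nat_lit 644) (nat_lit 575) (nat_lit 341))) (XT.nd (nat_lit 78) (nat_lit 0) (nat_lit 0) (XT.lf (nat_lit 0) (nat_lit 5906547336) (nat_lit 608) (nat_lit 16344765409)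 (nat_lit 76) (nat_lit 3973068380) (nat_lit 215) (nat_lit 5) (nat_lit 223) (nat_lit 5) (nat_lit 216) (nat_lit 5) (nat_lit 645) (nat_lit 575) (nat_lit 340)) (XT.lf (nat_lit 0) (nat_lit 11220550847) (nat_lit 608) (nat_lit 964132075) (nat_lit 76) (nat_lit 14354878259) (nat_lit 215) (nat_lit 5) (nat_lit 223) (nat_lit 5) (nat_lit 216) (nat_lit 5) (nat_lit 646) (nat_lit 575) (nat_lit 339))))) (XT.nd (nat_lit 234) (nat_lit 1292) (nat_lit 0) (XT.nd (nat_lit 78) (nat_lit 532) (nat_lit 0) (XT.lf (nat_lit 0) (nat_lit 14914165776) (nat_lit 456) (nat_lit 1819559841) (nat_lit 532) (nat_lit 10125461631) (nat_lit 209) (nat_lit 5) (nat_lit 215) (nat_lit 5) (nat_lit 216) (nat_lit 5) (nat_lit 647) (nat_lit 575) (nat_lit 338)) (XT.nd (nat_lit 78) (nat_lit 76) (nat_lit 0) (XT.lf (nat_lit 0) (nat_lit 3927072864) (nat_lit 456) (nat_lit 18515019815) (nat_lit 532) (nat_lit 4741414812) (nat_lit 203) (nat_lit 5) (nat_lit 209) (nat_lit 5) (nat_lit 210) (nat_lit 5) (nat_lit 648) (nat_lit 575)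 (nat_lit 337)) (XT.lf (nat_lit 0) (nat_lit 829315111) (nat_lit 532) (nat_lit 7257233058) (nat_lit 76) (nat_lit 19425891908) (nat_lit 202) (nat_lit 5) (nat_lit 209) (nat_lit 5) (nat_lit 203) (nat_lit 5) (nat_lit 649) (nat_lit 575) (nat_lit 336)))) (XT.nd (nat_lit 156) (nat_lit 836) (nat_lit 0) (XT.nd (nat_lit 78) (nat_lit 0) (nat_lit 0) (XT.lf (nat_lit 0) (nat_lit 6520737447) (nat_lit 532) (nat_lit 18718358305) (nat_lit 76) (nat_lit 2606773656) (nat_lit 196) (nat_lit 5) (nat_lit 203) (nat_lit 5) (nat_lit 197) (nat_lit 5) (nat_lit 650) (nat_lit 575) (nat_lit 335)) (XT.lf (nat_lit 0) (nat_lit 12424773299) (nat_lit 532) (nat_lit 2306061040) (nat_lit 76) (nat_lit 13453157498) (nat_lit 196) (nat_lit 5) (nat_lit 203) (nat_lit 5) (nat_lit 197) (nat_lit 5) (nat_lit 651) (nat_lit 575) (nat_lit 334))) (XT.nd (nat_lit 78) (nat_lit 380) (nat_lit 0) (XT.lf (nat_lit 0) (nat_lit 14620829380) (nat_lit 456) (nat_lit 3917272336) (nat_lit 532) (nat_lit 9988950970) (nat_lit 190) (nat_lit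 5) (nat_lit 196) (nat_lit 5) (nat_lit 197) (nat_lit 5) (nat_lit 652) (nat_lit 575) (nat_lit 333)) (XT.lf (nat_lit 0) (nat_lit 3028858907) (nat_lit 380) (nat_lit 21822570704) (nat_lit 456) (nat_lit 4023990686) (nat_lit 185) (nat_lit 5) (nat_lit 190) (nat_lit 5) (nat_lit 191) (nat_lit 5) (nat_lit 653) (nat_lit 575) (nat_lit 332))))))))
noncomputable def xc193 : XT := (XT.nd (nat_lit 76362) (nat_lit 0) (nat_lit 14896) (XT.nd (nat_lit 75270) (nat_lit 0) (nat_lit 25612) (XT.nd (nat_lit 468) (nat_lit 1216) (nat_lit 0) (XT.nd (nat_lit 234) (nat_lit 836) (nat_lit 0) (XT.nd (nat_lit 78) (nat_lit 456) (nat_lit 0) (XT.lf (nat_lit 0) (nat_lit 2149449906) (nat_lit 456) (nat_lit 8783128542) (nat_lit 76) (nat_lit 18295585439) (nat_lit 184) (nat_lit 5) (nat_lit 190) (nat_lit 5) (nat_lit 185) (nat_lit 5) (nat_lit 654) (nat_lit 575) (nat_lit 331)) (XT.nd (nat_lit 78) (nat_lit 0) (nat_lit 0) (XT.lf (nat_lit 0) (nat_lit 8447111611) (nat_lit 532) (nat_lit 20884314706) (nat_lit 76)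 (nat_lit 254911582) (nat_lit 178) (nat_lit 5) (nat_lit 185) (nat_lit 5) (nat_lit 179) (nat_lit 5) (nat_lit 655) (nat_lit 575) (nat_lit 330)) (XT.lf (nat_lit 0) (nat_lit 14998878118) (nat_lit 532) (nat_lit 3372718921) (nat_lit 76) (nat_lit 11577515510) (nat_lit 178) (nat_lit 5) (nat_lit 185) (nat_lit 5) (nat_lit 179) (nat_lit 5) (nat_lit 656) (nat_lit 575) (nat_lit 329)))) (XT.nd (nat_lit 78) (nat_lit 456) (nat_lit 0) (XT.lf (nat_lit 0) (nat_lit 14676330322) (nat_lit 380) (nat_lit 7097128931) (nat_lit 456) (nat_lit 8543848037) (nat_lit 173) (nat_lit 5) (nat_lit 178) (nat_lit 5) (nat_lit 179) (nat_lit 5) (nat_lit 657) (nat_lit 575) (nat_lit 328)) (XT.nd (nat_lit 78) (nat_lit 76) (nat_lit 0) (XT.lf (nat_lit 0) (nat_lit 2437614305) (nat_lit 380) (nat_lit 26309627327) (nat_lit 456) (nat_lit 1944350284) (nat_lit 168) (nat_lit 5) (nat_lit 173) (nat_lit 5) (nat_lit 174) (nat_lit 5) (nat_lit 658) (nat_lit 575) (nat_lit 327)) (XT.lf (nat_lit 0) (nat_lit 4873533940) (nat_lit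 456) (nat_lit 10065541731) (nat_lit 76) (nat_lit 16130681497) (nat_lit 167) (nat_lit 5) (nat_lit 173) (nat_lit 5) (nat_lit 168) (nat_lit 5) (nat_lit 659) (nat_lit 575) (nat_lit 326))))) (XT.nd (nat_lit 234) (nat_lit 456) (nat_lit 0) (XT.nd (nat_lit 78) (nat_lit 380) (nat_lit 0) (XT.lf (nat_lit 0) (nat_lit 8581136954) (nat_lit 380) (nat_lit 3272936492) (nat_lit 456) (nat_lit 19600108759) (nat_lit 162) (nat_lit 5) (nat_lit 167) (nat_lit 5) (nat_lit 168) (nat_lit 5) (nat_lit 660) (nat_lit 575) (nat_lit 325)) (XT.nd (nat_lit 78) (nat_lit 380) (nat_lit 0) (XT.lf (nat_lit 0) (nat_lit 19094840653) (nat_lit 456) (nat_lit 4169425453) (nat_lit 76) (nat_lit 8579617467) (nat_lit 162) (nat_lit 5) (nat_lit 168) (nat_lit 5) (nat_lit 163) (nat_lit 5) (nat_lit 661) (nat_lit 575) (nat_lit 324)) (XT.lf (nat_lit 0) (nat_lit 15079246491) (nat_lit 380) (nat_lit 11517438007) (nat_lit 456) (nat_lit 5642369407) (nat_lit 157) (nat_lit 5) (nat_lit 162) (nat_lit 5) (nat_lit 163) (nat_lit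 5) (nat_lit 662) (nat_lit 575) (nat_lit 323)))) (XT.nd (nat_lit 74412) (nat_lit 0) (nat_lit 27360) (XT.nd (nat_lit 78) (nat_lit 0) (nat_lit 0) (XT.lf (nat_lit 0) (nat_lit 1627471072) (nat_lit 456) (nat_lit 30504322549) (nat_lit 76) (nat_lit 509283536) (nat_lit 151) (nat_lit 5) (nat_lit 157) (nat_lit 5) (nat_lit 152) (nat_lit 5) (nat_lit 663) (nat_lit 575) (nat_lit 322)) (XT.lf (nat_lit 0) (nat_lit 9156127985) (nat_lit 456) (nat_lit 11116530870) (nat_lit 76) (nat_lit 12773956833) (nat_lit 151) (nat_lit 5) (nat_lit 157) (nat_lit 5) (nat_lit 152) (nat_lit 5) (nat_lit 664) (nat_lit 575) (nat_lit 321))) (XT.nd (nat_lit 78) (nat_lit 0) (nat_lit 0) (XT.lf (nat_lit 0) (nat_lit 6026070569) (nat_lit 1748) (nat_lit 138435419) (nat_lit 1748) (nat_lit 138435419) (nat_lit 511) (nat_lit 3) (nat_lit 534) (nat_lit 3) (nat_lit 534) (nat_lit 5) (nat_lit 576) (nat_lit 576) (nat_lit 408)) (XT.lf (nat_lit 76) (nat_lit 6031654129) (nat_lit 0) (nat_lit 6604883124) (nat_lit 1748) (nat_lit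 86085803) (nat_lit 512) (nat_lit 5) (nat_lit 511) (nat_lit 3) (nat_lit 534) (nat_lit 5) (nat_lit 577) (nat_lit 576) (nat_lit 407)))))) (XT.nd (nat_lit 546) (nat_lit 0) (nat_lit 304) (XT.nd (nat_lit 234) (nat_lit 0) (nat_lit 152) (XT.nd (nat_lit 78) (nat_lit 0) (nat_lit 76) (XT.lf (nat_lit 0) (nat_lit 376413560) (nat_lit 1748) (nat_lit 380016975) (nat_lit 1824) (nat_lit 12085405513) (nat_lit 488) (nat_lit 5) (nat_lit 511) (nat_lit 3) (nat_lit 512) (nat_lit 5) (nat_lit 578) (nat_lit 576) (nat_lit 406)) (XT.nd (nat_lit 78) (nat_lit 0) (nat_lit 0) (XT.lf (nat_lit 0) (nat_lit 909908582) (nat_lit 1748) (nat_lit 6865765726) (nat_lit 1824) (nat_lit 5186490682) (nat_lit 489) (nat_lit 5) (nat_lit 512) (nat_lit 5) (nat_lit 513) (nat_lit 5) (nat_lit 579) (nat_lit 576) (nat_lit 405)) (XT.lf (nat_lit 0) (nat_lit 1450829836) (nat_lit 1748) (nat_lit 388386287) (nat_lit 1824) (nat_lit 11245750276) (nat_lit 489) (nat_lit 5) (nat_lit 512) (nat_lit 5) (nat_lit 513) (nat_lit 5) (nat_lit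 580) (nat_lit 576) (nat_lit 404)))) (XT.nd (nat_lit 156) (nat_lit 0) (nat_lit 76) (XT.nd (nat_lit 78) (nat_lit 0) (nat_lit 0) (XT.lf (nat_lit 0) (nat_lit 2060508456) (nat_lit 1748) (nat_lit 6942077841) (nat_lit 1824) (nat_lit 4206479756) (nat_lit 490) (nat_lit 5) (nat_lit 513) (nat_lit 5) (nat_lit 514) (nat_lit 5) (nat_lit 581) (nat_lit 576) (nat_lit 403)) (XT.lf (nat_lit 0) (nat_lit 2686776259) (nat_lit 1748) (nat_lit 293146711) (nat_lit 1824) (nat_lit 10355637794) (nat_lit 490) (nat_lit 5) (nat_lit 513) (nat_lit 5) (nat_lit 514) (nat_lit 5) (nat_lit 582) (nat_lit 576) (nat_lit 402))) (XT.nd (nat_lit 78) (nat_lit 0) (nat_lit 0) (XT.lf (nat_lit 0) (nat_lit 3378862792) (nat_lit 1748) (nat_lit 6915838083) (nat_lit 1824) (nat_lit 3168819585) (nat_lit 491) (nat_lit 5) (nat_lit 514) (nat_lit 5) (nat_lit 515) (nat_lit 5) (nat_lit 583) (nat_lit 576) (nat_lit 401)) (XT.lf (nat_lit 0) (nat_lit 4096490038) (nat_lit 1748) (nat_lit 90604249) (nat_lit 1824) (nat_lit 9406712021)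 (nat_lit 491) (nat_lit 5) (nat_lit 514) (nat_lit 5) (nat_lit 515) (nat_lit 5) (nat_lit 584) (nat_lit 576) (nat_lit 400))))) (XT.nd (nat_lit 234) (nat_lit 0) (nat_lit 76) (XT.nd (nat_lit 78) (nat_lit 0) (nat_lit 0) (XT.lf (nat_lit 0) (nat_lit 4877401517) (nat_lit 1748) (nat_lit 6783247692) (nat_lit 1824) (nat_lit 2065070949) (nat_lit 492) (nat_lit 5) (nat_lit 515) (nat_lit 5) (nat_lit 516) (nat_lit 5) (nat_lit 585) (nat_lit 576) (nat_lit 399)) (XT.nd (nat_lit 78) (nat_lit 0) (nat_lit 76) (XT.lf (nat_lit 76) (nat_lit 226196317) (nat_lit 0) (nat_lit 5467902651) (nat_lit 1824) (nat_lit 8165770865) (nat_lit 493) (nat_lit 5) (nat_lit 492) (nat_lit 5) (nat_lit 516) (nat_lit 5) (nat_lit 586) (nat_lit 576) (nat_lit 398)) (XT.lf (nat_lit 0) (nat_lit 6568989804) (nat_lit 1748) (nat_lit 6540213279) (nat_lit 1824) (nat_lit 886663115) (nat_lit 493) (nat_lit 5) (nat_lit 516) (nat_lit 5) (nat_lit 517) (nat_lit 5) (nat_lit 587) (nat_lit 576) (nat_lit 397)))) (XT.nd (nat_lit 156)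 (nat_lit 0) (nat_lit 76) (XT.nd (nat_lit 78) (nat_lit 0) (nat_lit 0) (XT.lf (nat_lit 76) (nat_lit 661316099) (nat_lit 0) (nat_lit 6831281555) (nat_lit 1824) (nat_lit 6641361317) (nat_lit 494) (nat_lit 5) (nat_lit 493) (nat_lit 5) (nat_lit 517) (nat_lit 5) (nat_lit 588) (nat_lit 576) (nat_lit 396)) (XT.lf (nat_lit 76) (nat_lit 8089309509) (nat_lit 0) (nat_lit 380112331) (nat_lit 1824) (nat_lit 5804697727) (nat_lit 494) (nat_lit 5) (nat_lit 493) (nat_lit 5) (nat_lit 517) (nat_lit 5) (nat_lit 589) (nat_lit 576) (nat_lit 395))) (XT.nd (nat_lit 78) (nat_lit 0) (nat_lit 0) (XT.lf (nat_lit 76) (nat_lit 1218203709) (nat_lit 0) (nat_lit 8286797029) (nat_lit 1824) (nat_lit 4911299105) (nat_lit 495) (nat_lit 5) (nat_lit 494) (nat_lit 5) (nat_lit 518) (nat_lit 5) (nat_lit 590) (nat_lit 576) (nat_lit 394)) (XT.lf (nat_lit 76) (nat_lit 8844307532) (nat_lit 0) (nat_lit 1752176357) (nat_lit 1824) (nat_lit 3964136801) (nat_lit 495) (nat_lit 5) (nat_lit 494) (nat_lit 5) (nat_lit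 518) (nat_lit 5) (nat_lit 591) (nat_lit 576) (nat_lit 393))))))) (XT.nd (nat_lit 1014) (nat_lit 6840) (nat_lit 0) (XT.nd (nat_lit 468) (nat_lit 2660) (nat_lit 0) (XT.nd (nat_lit 234) (nat_lit 1748) (nat_lit 0) (XT.nd (nat_lit 78) (nat_lit 0) (nat_lit 0) (XT.lf (nat_lit 76) (nat_lit 1901825556) (nat_lit 0) (nat_lit 9843596043) (nat_lit 1824) (nat_lit 2961694656) (nat_lit 496) (nat_lit 5) (nat_lit 495) (nat_lit 5) (nat_lit 519) (nat_lit 5) (nat_lit 592) (nat_lit 576) (nat_lit 392)) (XT.nd (nat_lit 78) (nat_lit 0) (nat_lit 76) (XT.lf (nat_lit 76) (nat_lit 9731773385) (nat_lit 0) (nat_lit 3226957546) (nat_lit 1824) (nat_lit 1896983728) (nat_lit 496) (nat_lit 5) (nat_lit 495) (nat_lit 5) (nat_lit 519) (nat_lit 5) (nat_lit 593) (nat_lit 576) (nat_lit 391)) (XT.lf (nat_lit 76) (nat_lit 2717467978) (nat_lit 0) (nat_lit 11511035881) (nat_lit 1824) (nat_lit 778137995) (nat_lit 497) (nat_lit 5) (nat_lit 496) (nat_lit 5) (nat_lit 520) (nat_lit 5) (nat_lit 594) (nat_lit 576)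 (nat_lit 390)))) (XT.nd (nat_lit 78) (nat_lit 0) (nat_lit 76) (XT.lf (nat_lit 0) (nat_lit 406059044) (nat_lit 1824) (nat_lit 4405102406) (nat_lit 1900) (nat_lit 10348425007) (nat_lit 472) (nat_lit 5) (nat_lit 496) (nat_lit 5) (nat_lit 497) (nat_lit 5) (nat_lit 595) (nat_lit 576) (nat_lit 389)) (XT.nd (nat_lit 78) (nat_lit 0) (nat_lit 0) (XT.lf (nat_lit 0) (nat_lit 1632632513) (nat_lit 1824) (nat_lit 11655117357) (nat_lit 1900) (nat_lit 2027155703) (nat_lit 473) (nat_lit 5) (nat_lit 497) (nat_lit 5) (nat_lit 498) (nat_lit 5) (nat_lit 596) (nat_lit 576) (nat_lit 388)) (XT.lf (nat_lit 0) (nat_lit 2937400337) (nat_lit 1824) (nat_lit 3565521509) (nat_lit 1900) (nat_lit 8969336678) (nat_lit 473) (nat_lit 5) (nat_lit 497) (nat_lit 5) (nat_lit 498) (nat_lit 5) (nat_lit 597) (nat_lit 576) (nat_lit 387))))) (XT.nd (nat_lit 234) (nat_lit 2812) (nat_lit 0) (XT.nd (nat_lit 78) (nat_lit 0) (nat_lit 0) (XT.lf (nat_lit 0) (nat_lit 4294175839) (nat_lit 1824) (nat_lit 10893456268)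 (nat_lit 1900) (nat_lit 444608880) (nat_lit 474) (nat_lit 5) (nat_lit 498) (nat_lit 5) (nat_lit 499) (nat_lit 5) (nat_lit 598) (nat_lit 576) (nat_lit 386)) (XT.nd (nat_lit 78) (nat_lit 0) (nat_lit 0) (XT.lf (nat_lit 0) (nat_lit 5737559832) (nat_lit 1824) (nat_lit 2587069613) (nat_lit 1900) (nat_lit 7469604877) (nat_lit 474) (nat_lit 5) (nat_lit 498) (nat_lit 5) (nat_lit 499) (nat_lit 5) (nat_lit 599) (nat_lit 576) (nat_lit 385)) (XT.lf (nat_lit 76) (nat_lit 5957291867) (nat_lit 0) (nat_lit 1283671165) (nat_lit 1900) (nat_lit 8717882131) (nat_lit 475) (nat_lit 5) (nat_lit 474) (nat_lit 5) (nat_lit 499) (nat_lit 5) (nat_lit 600) (nat_lit 576) (nat_lit 384)))) (XT.nd (nat_lit 156) (nat_lit 1064) (nat_lit 0) (XT.nd (nat_lit 78) (nat_lit 1824) (nat_lit 0) (XT.lf (nat_lit 0) (nat_lit 8822791829) (nat_lit 1824) (nat_lit 1463600637) (nat_lit 76) (nat_lit 5839389262) (nat_lit 475) (nat_lit 5) (nat_lit 499) (nat_lit 5) (nat_lit 476) (nat_lit 5) (nat_lit 601) (nat_lit 576)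 (nat_lit 383)) (XT.lf (nat_lit 0) (nat_lit 7326423553) (nat_lit 1824) (nat_lit 3158635669) (nat_lit 1900) (nat_lit 5810022406) (nat_lit 451) (nat_lit 5) (nat_lit 475) (nat_lit 5) (nat_lit 476) (nat_lit 5) (nat_lit 602) (nat_lit 576) (nat_lit 382))) (XT.nd (nat_lit 78) (nat_lit 1064) (nat_lit 0) (XT.lf (nat_lit 0) (nat_lit 12209995235) (nat_lit 1900) (nat_lit 188626612) (nat_lit 76) (nat_lit 4068557844) (nat_lit 451) (nat_lit 5) (nat_lit 476) (nat_lit 5) (nat_lit 452) (nat_lit 5) (nat_lit 603) (nat_lit 576) (nat_lit 381)) (XT.lf (nat_lit 0) (nat_lit 8855977787) (nat_lit 1064) (nat_lit 5184850521) (nat_lit 1140) (nat_lit 2600464060) (nat_lit 437) (nat_lit 5) (nat_lit 451) (nat_lit 5) (nat_lit 452) (nat_lit 5) (nat_lit 604) (nat_lit 576) (nat_lit 380)))))) (XT.nd (nat_lit 546) (nat_lit 3268) (nat_lit 0) (XT.nd (nat_lit 234) (nat_lit 1672) (nat_lit 0) (XT.nd (nat_lit 78) (nat_lit 988) (nat_lit 0) (XT.lf (nat_lit 0) (nat_lit 1261232485) (nat_lit 912) (nat_lit 14663701496)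 (nat_lit 988) (nat_lit 893620806) (nat_lit 425) (nat_lit 5) (nat_lit 437) (nat_lit 5) (nat_lit 438) (nat_lit 5) (nat_lit 605) (nat_lit 576) (nat_lit 379)) (XT.nd (nat_lit 78) (nat_lit 912) (nat_lit 0) (XT.lf (nat_lit 0) (nat_lit 916304361) (nat_lit 988) (nat_lit 6450669242) (nat_lit 76) (nat_lit 9630678236) (nat_lit 424) (nat_lit 5) (nat_lit 437) (nat_lit 5) (nat_lit 425) (nat_lit 5) (nat_lit 606) (nat_lit 576) (nat_lit 378)) (XT.lf (nat_lit 0) (nat_lit 2762988518) (nat_lit 988) (nat_lit 14317162850) (nat_lit 76) (nat_lit 99811378) (nat_lit 412) (nat_lit 5) (nat_lit 425) (nat_lit 5) (nat_lit 413) (nat_lit 5) (nat_lit 607) (nat_lit 576) (nat_lit 377)))) (XT.nd (nat_lit 156) (nat_lit 836) (nat_lit 0) (XT.nd (nat_lit 78) (nat_lit 836) (nat_lit 0) (XT.lf (nat_lit 0) (nat_lit 4732329088) (nat_lit 988) (nat_lit 4970528506) (nat_lit 76) (nat_lit 7661348382) (nat_lit 412) (nat_lit 5) (nat_lit 425) (nat_lit 5) (nat_lit 413) (nat_lit 5) (nat_lit 608) (nat_lit 576) (nat_lit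 376)) (XT.lf (nat_lit 0) (nat_lit 4617342127) (nat_lit 836) (nat_lit 2147184141) (nat_lit 912) (nat_lit 10787138958) (nat_lit 401) (nat_lit 5) (nat_lit 412) (nat_lit 5) (nat_lit 413) (nat_lit 5) (nat_lit 609) (nat_lit 576) (nat_lit 375))) (XT.nd (nat_lit 78) (nat_lit 836) (nat_lit 0) (XT.lf (nat_lit 0) (nat_lit 8900619377) (nat_lit 912) (nat_lit 3320519950) (nat_lit 76) (nat_lit 5520469832) (nat_lit 401) (nat_lit 5) (nat_lit 413) (nat_lit 5) (nat_lit 402) (nat_lit 5) (nat_lit 610) (nat_lit 576) (nat_lit 374)) (XT.lf (nat_lit 0) (nat_lit 6551039065) (nat_lit 836) (nat_lit 4578854228) (nat_lit 912) (nat_lit 6804450029) (nat_lit 390) (nat_lit 5) (nat_lit 401) (nat_lit 5) (nat_lit 402) (nat_lit 5) (nat_lit 611) (nat_lit 576) (nat_lit 373))))) (XT.nd (nat_lit 234) (nat_lit 1596) (nat_lit 0) (XT.nd (nat_lit 78) (nat_lit 1672) (nat_lit 0) (XT.lf (nat_lit 0) (nat_lit 13440853913) (nat_lit 912) (nat_lit 1492779041) (nat_lit 76) (nat_lit 3196557706) (nat_lit 390) (nat_lit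 5) (nat_lit 402) (nat_lit 5) (nat_lit 391) (nat_lit 5) (nat_lit 612) (nat_lit 576) (nat_lit 372)) (XT.nd (nat_lit 78) (nat_lit 836) (nat_lit 0) (XT.lf (nat_lit 0) (nat_lit 8672799505) (nat_lit 836) (nat_lit 7205778150) (nat_lit 912) (nat_lit 2449766919) (nat_lit 379) (nat_lit 5) (nat_lit 390) (nat_lit 5) (nat_lit 391) (nat_lit 5) (nat_lit 613) (nat_lit 576) (nat_lit 371)) (XT.lf (nat_lit 0) (nat_lit 527868849) (nat_lit 836) (nat_lit 17849080640) (nat_lit 912) (nat_lit 153274704) (nat_lit 368) (nat_lit 5) (nat_lit 379) (nat_lit 5) (nat_lit 380) (nat_lit 5) (nat_lit 614) (nat_lit 576) (nat_lit 370)))) (XT.nd (nat_lit 156) (nat_lit 760) (nat_lit 0) (XT.nd (nat_lit 78) (nat_lit 760) (nat_lit 0) (XT.lf (nat_lit 0) (nat_lit 2267406793) (nat_lit 912) (nat_lit 7757670753) (nat_lit 76) (nat_lit 8708640660) (nat_lit 367) (nat_lit 5) (nat_lit 379) (nat_lit 5) (nat_lit 368) (nat_lit 5) (nat_lit 615) (nat_lit 576) (nat_lit 369)) (XT.lf (nat_lit 0) (nat_lit 2720397591) (nat_lit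 760) (nat_lit 2025860866) (nat_lit 836) (nat_lit 14194767669) (nat_lit 357) (nat_lit 5) (nat_lit 367) (nat_lit 5) (nat_lit 368) (nat_lit 5) (nat_lit 616) (nat_lit 576) (nat_lit 368))) (XT.nd (nat_lit 78) (nat_lit 760) (nat_lit 0) (XT.lf (nat_lit 0) (nat_lit 7361128731) (nat_lit 836) (nat_lit 5684667492) (nat_lit 76) (nat_lit 6104955611) (nat_lit 357) (nat_lit 5) (nat_lit 368) (nat_lit 5) (nat_lit 358) (nat_lit 5) (nat_lit 617) (nat_lit 576) (nat_lit 367)) (XT.lf (nat_lit 0) (nat_lit 5109484209) (nat_lit 760) (nat_lit 4959733102) (nat_lit 836) (nat_lit 9294636777) (nat_lit 347) (nat_lit 5) (nat_lit 357) (nat_lit 5) (nat_lit 358) (nat_lit 5) (nat_lit 618) (nat_lit 576) (nat_lit 366))))))))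
noncomputable def xc194 : XT := (XT.nd (nat_lit 2106) (nat_lit 5396) (nat_lit 0) (XT.nd (nat_lit 1014) (nat_lit 4636) (nat_lit 0) (XT.nd (nat_lit 468) (nat_lit 2660) (nat_lit 0) (XT.nd (nat_lit 234) (nat_lit 1520) (nat_lit 0) (XT.nd (nat_lit 78) (nat_lit 684) (nat_lit 0) (XT.lf (nat_lit 0) (nat_lit 12885614573) (nat_lit 836) (nat_lit 3411673202) (nat_lit 76) (nat_lit 3282848118) (nat_lit 347) (nat_lit 5) (nat_lit 358) (nat_lit 5) (nat_lit 348) (nat_lit 5) (nat_lit 619) (nat_lit 576) (nat_lit 365)) (XT.nd (nat_lit 78) (nat_lit 0) (nat_lit 0) (XT.lf (nat_lit 0) (nat_lit 7710078974) (nat_lit 684) (nat_lit 8125674448) (nat_lit 760) (nat_lit 3963442071) (nat_lit 338) (nat_lit 5) (nat_lit 347) (nat_lit 5) (nat_lit 348) (nat_lit 5) (nat_lit 620) (nat_lit 576) (nat_lit 364)) (XT.lf (nat_lit 0) (nat_lit 18863873503) (nat_lit 760) (nat_lit 929313649) (nat_lit 76) (nat_lit 229069990) (nat_lit 338) (nat_lit 5) (nat_lit 348) (nat_lit 5) (nat_lit 339) (nat_lit 5) (nat_lit 621)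 (nat_lit 576) (nat_lit 363)))) (XT.nd (nat_lit 78) (nat_lit 684) (nat_lit 0) (XT.lf (nat_lit 0) (nat_lit 1798090121) (nat_lit 836) (nat_lit 9727287023) (nat_lit 76) (nat_lit 8721829248) (nat_lit 327) (nat_lit 5) (nat_lit 338) (nat_lit 5) (nat_lit 328) (nat_lit 5) (nat_lit 622) (nat_lit 576) (nat_lit 362)) (XT.nd (nat_lit 78) (nat_lit 0) (nat_lit 0) (XT.lf (nat_lit 0) (nat_lit 1743307947) (nat_lit 684) (nat_lit 3067195400) (nat_lit 760) (nat_lit 15665752128) (nat_lit 318) (nat_lit 5) (nat_lit 327) (nat_lit 5) (nat_lit 328) (nat_lit 5) (nat_lit 623) (nat_lit 576) (nat_lit 361)) (XT.lf (nat_lit 0) (nat_lit 7979742218) (nat_lit 760) (nat_lit 7176049152) (nat_lit 76) (nat_lit 5552163016) (nat_lit 318) (nat_lit 5) (nat_lit 328) (nat_lit 5) (nat_lit 319) (nat_lit 5) (nat_lit 624) (nat_lit 576) (nat_lit 360))))) (XT.nd (nat_lit 234) (nat_lit 1368) (nat_lit 0) (XT.nd (nat_lit 78) (nat_lit 608) (nat_lit 0) (XT.lf (nat_lit 0) (nat_lit 4646628356) (nat_lit 684) (nat_lit 6611091303)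 (nat_lit 760) (nat_lit 9685660924) (nat_lit 309) (nat_lit 5) (nat_lit 318) (nat_lit 5) (nat_lit 319) (nat_lit 5) (nat_lit 625) (nat_lit 576) (nat_lit 359)) (XT.nd (nat_lit 78) (nat_lit 608) (nat_lit 0) (XT.lf (nat_lit 0) (nat_lit 14658322897) (nat_lit 760) (nat_lit 4399546509) (nat_lit 76) (nat_lit 2124504951) (nat_lit 309) (nat_lit 5) (nat_lit 319) (nat_lit 5) (nat_lit 310) (nat_lit 5) (nat_lit 626) (nat_lit 576) (nat_lit 358)) (XT.lf (nat_lit 0) (nat_lit 7788037061) (nat_lit 608) (nat_lit 10428276187) (nat_lit 684) (nat_lit 3208047627) (nat_lit 301) (nat_lit 5) (nat_lit 309) (nat_lit 5) (nat_lit 310) (nat_lit 5) (nat_lit 627) (nat_lit 576) (nat_lit 357)))) (XT.nd (nat_lit 156) (nat_lit 608) (nat_lit 0) (XT.nd (nat_lit 78) (nat_lit 684) (nat_lit 0) (XT.lf (nat_lit 0) (nat_lit 196763674) (nat_lit 684) (nat_lit 1398867183) (nat_lit 76) (nat_lit 20075038531) (nat_lit 300) (nat_lit 5) (nat_lit 309) (nat_lit 5) (nat_lit 301) (nat_lit 5) (nat_lit 628) (nat_lit 576)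 (nat_lit 356)) (XT.lf (nat_lit 0) (nat_lit 3743395818) (nat_lit 760) (nat_lit 10765683175) (nat_lit 76) (nat_lit 7410067716) (nat_lit 291) (nat_lit 5) (nat_lit 301) (nat_lit 5) (nat_lit 292) (nat_lit 5) (nat_lit 629) (nat_lit 576) (nat_lit 355))) (XT.nd (nat_lit 78) (nat_lit 0) (nat_lit 0) (XT.lf (nat_lit 0) (nat_lit 1810627167) (nat_lit 608) (nat_lit 5577307760) (nat_lit 684) (nat_lit 14784119503) (nat_lit 283) (nat_lit 5) (nat_lit 291) (nat_lit 5) (nat_lit 292) (nat_lit 5) (nat_lit 630) (nat_lit 576) (nat_lit 354)) (XT.lf (nat_lit 0) (nat_lit 11196276928) (nat_lit 684) (nat_lit 7673534281) (nat_lit 76) (nat_lit 3558391190) (nat_lit 283) (nat_lit 5) (nat_lit 292) (nat_lit 5) (nat_lit 284) (nat_lit 5) (nat_lit 631) (nat_lit 576) (nat_lit 353)))))) (XT.nd (nat_lit 546) (nat_lit 2204) (nat_lit 0) (XT.nd (nat_lit 234) (nat_lit 1140) (nat_lit 0) (XT.nd (nat_lit 78) (nat_lit 684) (nat_lit 0) (XT.lf (nat_lit 0) (nat_lit 5294802870) (nat_lit 608) (nat_lit 9852640254)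 (nat_lit 684) (nat_lit 7540697385) (nat_lit 275) (nat_lit 5) (nat_lit 283) (nat_lit 5) (nat_lit 284) (nat_lit 5) (nat_lit 632) (nat_lit 576) (nat_lit 352)) (XT.nd (nat_lit 78) (nat_lit 684) (nat_lit 0) (XT.lf (nat_lit 0) (nat_lit 18620741663) (nat_lit 608) (nat_lit 603782357) (nat_lit 684) (nat_lit 3727815856) (nat_lit 275) (nat_lit 5) (nat_lit 283) (nat_lit 5) (nat_lit 284) (nat_lit 5) (nat_lit 633) (nat_lit 576) (nat_lit 351)) (XT.lf (nat_lit 0) (nat_lit 271495932) (nat_lit 684) (nat_lit 14174432488) (nat_lit 76) (nat_lit 8773628404) (nat_lit 266) (nat_lit 5) (nat_lit 275) (nat_lit 5) (nat_lit 267) (nat_lit 5) (nat_lit 634) (nat_lit 576) (nat_lit 350)))) (XT.nd (nat_lit 156) (nat_lit 532) (nat_lit 0) (XT.nd (nat_lit 78) (nat_lit 608) (nat_lit 0) (XT.lf (nat_lit 0) (nat_lit 4329685795) (nat_lit 684) (nat_lit 778091840) (nat_lit 76) (nat_lit 18383271815) (nat_lit 266) (nat_lit 5) (nat_lit 275) (nat_lit 5) (nat_lit 267) (nat_lit 5) (nat_lit 635) (nat_lit 576) (nat_lit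 349)) (XT.lf (nat_lit 0) (nat_lit 8578602198) (nat_lit 684) (nat_lit 10743907352) (nat_lit 76) (nat_lit 4443271421) (nat_lit 258) (nat_lit 5) (nat_lit 267) (nat_lit 5) (nat_lit 259) (nat_lit 5) (nat_lit 636) (nat_lit 576) (nat_lit 348))) (XT.nd (nat_lit 78) (nat_lit 0) (nat_lit 0) (XT.lf (nat_lit 0) (nat_lit 3063092405) (nat_lit 532) (nat_lit 9904006687) (nat_lit 608) (nat_lit 11077816280) (nat_lit 251) (nat_lit 5) (nat_lit 258) (nat_lit 5) (nat_lit 259) (nat_lit 5) (nat_lit 637) (nat_lit 576) (nat_lit 347)) (XT.lf (nat_lit 0) (nat_lit 17286203554) (nat_lit 532) (nat_lit 224940714) (nat_lit 608) (nat_lit 6817132912) (nat_lit 251) (nat_lit 5) (nat_lit 258) (nat_lit 5) (nat_lit 259) (nat_lit 5) (nat_lit 638) (nat_lit 576) (nat_lit 346))))) (XT.nd (nat_lit 234) (nat_lit 1064) (nat_lit 0) (XT.nd (nat_lit 78) (nat_lit 608) (nat_lit 0) (XT.lf (nat_lit 0) (nat_lit 7202665226) (nat_lit 532) (nat_lit 15048566098) (nat_lit 608) (nat_lit 2363971960) (nat_lit 244) (nat_lit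 5) (nat_lit 251) (nat_lit 5) (nat_lit 252) (nat_lit 5) (nat_lit 639) (nat_lit 576) (nat_lit 345)) (XT.nd (nat_lit 78) (nat_lit 532) (nat_lit 0) (XT.lf (nat_lit 0) (nat_lit 2194518692) (nat_lit 608) (nat_lit 3100761833) (nat_lit 76) (nat_lit 19611408110) (nat_lit 243) (nat_lit 5) (nat_lit 251) (nat_lit 5) (nat_lit 244) (nat_lit 5) (nat_lit 640) (nat_lit 576) (nat_lit 344)) (XT.lf (nat_lit 0) (nat_lit 6914719781) (nat_lit 608) (nat_lit 13604502876) (nat_lit 76) (nat_lit 4682424897) (nat_lit 236) (nat_lit 5) (nat_lit 244) (nat_lit 5) (nat_lit 237) (nat_lit 5) (nat_lit 641) (nat_lit 576) (nat_lit 343)))) (XT.nd (nat_lit 156) (nat_lit 532) (nat_lit 0) (XT.nd (nat_lit 78) (nat_lit 0) (nat_lit 0) (XT.lf (nat_lit 0) (nat_lit 1102631197) (nat_lit 532) (nat_lit 10685761502) (nat_lit 608) (nat_lit 13712931857) (nat_lit 229) (nat_lit 5) (nat_lit 236) (nat_lit 5) (nat_lit 237) (nat_lit 5) (nat_lit 642) (nat_lit 576) (nat_lit 342)) (XT.lf (nat_lit 0) (nat_lit 16282781657) (nat_lit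 532) (nat_lit 563990484) (nat_lit 608) (nat_lit 8958478549) (nat_lit 229) (nat_lit 5) (nat_lit 236) (nat_lit 5) (nat_lit 237) (nat_lit 5) (nat_lit 643) (nat_lit 576) (nat_lit 341))) (XT.nd (nat_lit 78) (nat_lit 76) (nat_lit 0) (XT.lf (nat_lit 0) (nat_lit 5656596506) (nat_lit 456) (nat_lit 16445828730) (nat_lit 532) (nat_lit 4010908237) (nat_lit 223) (nat_lit 5) (nat_lit 229) (nat_lit 5) (nat_lit 230) (nat_lit 5) (nat_lit 644) (nat_lit 576) (nat_lit 340)) (XT.lf (nat_lit 0) (nat_lit 1086116491) (nat_lit 532) (nat_lit 5174376692) (nat_lit 76) (nat_lit 20165668786) (nat_lit 222) (nat_lit 5) (nat_lit 229) (nat_lit 5) (nat_lit 223) (nat_lit 5) (nat_lit 645) (nat_lit 576) (nat_lit 339))))))) (XT.nd (nat_lit 1014) (nat_lit 1672) (nat_lit 0) (XT.nd (nat_lit 468) (nat_lit 1748) (nat_lit 0) (XT.nd (nat_lit 234) (nat_lit 988) (nat_lit 0) (XT.nd (nat_lit 78) (nat_lit 456) (nat_lit 0) (XT.lf (nat_lit 0) (nat_lit 6323254111) (nat_lit 608) (nat_lit 16251225776) (nat_lit 76) (nat_lit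 4168399572) (nat_lit 215) (nat_lit 5) (nat_lit 223) (nat_lit 5) (nat_lit 216) (nat_lit 5) (nat_lit 646) (nat_lit 576) (nat_lit 338)) (XT.nd (nat_lit 78) (nat_lit 456) (nat_lit 0) (XT.lf (nat_lit 0) (nat_lit 11737683264) (nat_lit 608) (nat_lit 571223597) (nat_lit 76) (nat_lit 14755573691) (nat_lit 215) (nat_lit 5) (nat_lit 223) (nat_lit 5) (nat_lit 216) (nat_lit 5) (nat_lit 647) (nat_lit 576) (nat_lit 337)) (XT.lf (nat_lit 0) (nat_lit 15621928428) (nat_lit 456) (nat_lit 1736112079) (nat_lit 532) (nat_lit 10032520597) (nat_lit 209) (nat_lit 5) (nat_lit 215) (nat_lit 5) (nat_lit 216) (nat_lit 5) (nat_lit 648) (nat_lit 576) (nat_lit 336)))) (XT.nd (nat_lit 78) (nat_lit 532) (nat_lit 0) (XT.lf (nat_lit 0) (nat_lit 4417398426) (nat_lit 456) (nat_lit 18760933654) (nat_lit 532) (nat_lit 4543080863) (nat_lit 203) (nat_lit 5) (nat_lit 209) (nat_lit 5) (nat_lit 210) (nat_lit 5) (nat_lit 649) (nat_lit 576) (nat_lit 335)) (XT.nd (nat_lit 78) (nat_lit 456) (nat_lit 0) (XT.lf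 (nat_lit 0) (nat_lit 1129545893) (nat_lit 532) (nat_lit 6994882230) (nat_lit 76) (nat_lit 19932571768) (nat_lit 202) (nat_lit 5) (nat_lit 209) (nat_lit 5) (nat_lit 203) (nat_lit 5) (nat_lit 650) (nat_lit 576) (nat_lit 334)) (XT.lf (nat_lit 0) (nat_lit 6932669106) (nat_lit 532) (nat_lit 18683086631) (nat_lit 76) (nat_lit 2781384939) (nat_lit 196) (nat_lit 5) (nat_lit 203) (nat_lit 5) (nat_lit 197) (nat_lit 5) (nat_lit 651) (nat_lit 576) (nat_lit 333))))) (XT.nd (nat_lit 234) (nat_lit 912) (nat_lit 0) (XT.nd (nat_lit 78) (nat_lit 836) (nat_lit 0) (XT.lf (nat_lit 0) (nat_lit 12949265736) (nat_lit 532) (nat_lit 1950575555) (nat_lit 76) (nat_lit 13842294972) (nat_lit 196) (nat_lit 5) (nat_lit 203) (nat_lit 5) (nat_lit 197) (nat_lit 5) (nat_lit 652) (nat_lit 576) (nat_lit 332)) (XT.nd (nat_lit 78) (nat_lit 380) (nat_lit 0) (XT.lf (nat_lit 0) (nat_lit 15312210524) (nat_lit 456) (nat_lit 3869828835) (nat_lit 532) (nat_lit 9910075700) (nat_lit 190) (nat_lit 5) (nat_lit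 196) (nat_lit 5) (nat_lit 197) (nat_lit 5) (nat_lit 653) (nat_lit 576) (nat_lit 331)) (XT.lf (nat_lit 0) (nat_lit 3490407180) (nat_lit 380) (nat_lit 22129274309) (nat_lit 456) (nat_lit 3827807878) (nat_lit 185) (nat_lit 5) (nat_lit 190) (nat_lit 5) (nat_lit 191) (nat_lit 5) (nat_lit 654) (nat_lit 576) (nat_lit 330)))) (XT.nd (nat_lit 156) (nat_lit 380) (nat_lit 0) (XT.nd (nat_lit 78) (nat_lit 456) (nat_lit 0) (XT.lf (nat_lit 0) (nat_lit 2460119435) (nat_lit 456) (nat_lit 8562110570) (nat_lit 76) (nat_lit 18785129255) (nat_lit 184) (nat_lit 5) (nat_lit 190) (nat_lit 5) (nat_lit 185) (nat_lit 5) (nat_lit 655) (nat_lit 576) (nat_lit 329)) (XT.lf (nat_lit 0) (nat_lit 8881882381) (nat_lit 532) (nat_lit 20903454451) (nat_lit 76) (nat_lit 387397242) (nat_lit 178) (nat_lit 5) (nat_lit 185) (nat_lit 5) (nat_lit 179) (nat_lit 5) (nat_lit 656) (nat_lit 576) (nat_lit 328))) (XT.nd (nat_lit 78) (nat_lit 380) (nat_lit 0) (XT.lf (nat_lit 0) (nat_lit 15559471894) (nat_lit 532)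 (nat_lit 3049441388) (nat_lit 76) (nat_lit 11933955455) (nat_lit 178) (nat_lit 5) (nat_lit 185) (nat_lit 5) (nat_lit 179) (nat_lit 5) (nat_lit 657) (nat_lit 576) (nat_lit 327)) (XT.lf (nat_lit 0) (nat_lit 15358018236) (nat_lit 380) (nat_lit 7108936495) (nat_lit 456) (nat_lit 8451524710) (nat_lit 173) (nat_lit 5) (nat_lit 178) (nat_lit 5) (nat_lit 179) (nat_lit 5) (nat_lit 658) (nat_lit 576) (nat_lit 326)))))) (XT.nd (nat_lit 74880) (nat_lit 0) (nat_lit 25612) (XT.nd (nat_lit 234) (nat_lit 836) (nat_lit 0) (XT.nd (nat_lit 78) (nat_lit 456) (nat_lit 0) (XT.lf (nat_lit 0) (nat_lit 2876274797) (nat_lit 380) (nat_lit 26702238519) (nat_lit 456) (nat_lit 1721770696) (nat_lit 168) (nat_lit 5) (nat_lit 173) (nat_lit 5) (nat_lit 174) (nat_lit 5) (nat_lit 659) (nat_lit 576) (nat_lit 325)) (XT.nd (nat_lit 78) (nat_lit 380) (nat_lit 0) (XT.lf (nat_lit 0) (nat_lit 5223982475) (nat_lit 456) (nat_lit 9881214984) (nat_lit 76) (nat_lit 16580882604) (nat_lit 167) (nat_lit 5) (nat_lit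 173) (nat_lit 5) (nat_lit 168) (nat_lit 5) (nat_lit 660) (nat_lit 576) (nat_lit 324)) (XT.lf (nat_lit 0) (nat_lit 9135860186) (nat_lit 380) (nat_lit 3205799577) (nat_lit 456) (nat_lit 19736583546) (nat_lit 162) (nat_lit 5) (nat_lit 167) (nat_lit 5) (nat_lit 168) (nat_lit 5) (nat_lit 661) (nat_lit 576) (nat_lit 323)))) (XT.nd (nat_lit 156) (nat_lit 456) (nat_lit 0) (XT.nd (nat_lit 78) (nat_lit 380) (nat_lit 0) (XT.lf (nat_lit 0) (nat_lit 19723174472) (nat_lit 456) (nat_lit 3873145203) (nat_lit 76) (nat_lit 8879500629) (nat_lit 162) (nat_lit 5) (nat_lit 168) (nat_lit 5) (nat_lit 163) (nat_lit 5) (nat_lit 662) (nat_lit 576) (nat_lit 322)) (XT.lf (nat_lit 0) (nat_lit 15758002358) (nat_lit 380) (nat_lit 11614669581) (nat_lit 456) (nat_lit 5506270008) (nat_lit 157) (nat_lit 5) (nat_lit 162) (nat_lit 5) (nat_lit 163) (nat_lit 5) (nat_lit 663) (nat_lit 576) (nat_lit 321))) (XT.nd (nat_lit 74412) (nat_lit 0) (nat_lit 25612) (XT.lf (nat_lit 0) (nat_lit 1904212960) (nat_lit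 456) (nat_lit 30732460519) (nat_lit 76) (nat_lit 652329876) (nat_lit 151) (nat_lit 5) (nat_lit 157) (nat_lit 5) (nat_lit 152) (nat_lit 5) (nat_lit 664) (nat_lit 576) (nat_lit 320)) (XT.lf (nat_lit 0) (nat_lit 73526751) (nat_lit 0) (nat_lit 73526751) (nat_lit 1748) (nat_lit 6273428220) (nat_lit 488) (nat_lit 5) (nat_lit 488) (nat_lit 3) (nat_lit 511) (nat_lit 3) (nat_lit 577) (nat_lit 577) (nat_lit 406))))) (XT.nd (nat_lit 234) (nat_lit 0) (nat_lit 76) (XT.nd (nat_lit 78) (nat_lit 0) (nat_lit 0) (XT.lf (nat_lit 0) (nat_lit 749061084) (nat_lit 1748) (nat_lit 6385429673) (nat_lit 1824) (nat_lit 5825803343) (nat_lit 488) (nat_lit 5) (nat_lit 511) (nat_lit 3) (nat_lit 512) (nat_lit 5) (nat_lit 578) (nat_lit 577) (nat_lit 405)) (XT.nd (nat_lit 78) (nat_lit 0) (nat_lit 76) (XT.lf (nat_lit 76) (nat_lit 43133216) (nat_lit 0) (nat_lit 1160419049) (nat_lit 1824) (nat_lit 11878651355) (nat_lit 489) (nat_lit 5) (nat_lit 488) (nat_lit 5) (nat_lit 512) (nat_lit 5) (nat_lit 579)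 (nat_lit 577) (nat_lit 404)) (XT.lf (nat_lit 0) (nat_lit 1731687832) (nat_lit 1748) (nat_lit 6557071470) (nat_lit 1824) (nat_lit 4916501934) (nat_lit 489) (nat_lit 5) (nat_lit 512) (nat_lit 5) (nat_lit 513) (nat_lit 5) (nat_lit 580) (nat_lit 577) (nat_lit 403)))) (XT.nd (nat_lit 156) (nat_lit 0) (nat_lit 76) (XT.nd (nat_lit 78) (nat_lit 0) (nat_lit 76) (XT.lf (nat_lit 76) (nat_lit 41656605) (nat_lit 0) (nat_lit 2226284876) (nat_lit 1824) (nat_lit 11062888392) (nat_lit 490) (nat_lit 5) (nat_lit 489) (nat_lit 5) (nat_lit 513) (nat_lit 5) (nat_lit 581) (nat_lit 577) (nat_lit 402)) (XT.lf (nat_lit 0) (nat_lit 2874703240) (nat_lit 1748) (nat_lit 6628742638) (nat_lit 1824) (nat_lit 3954269301) (nat_lit 490) (nat_lit 5) (nat_lit 513) (nat_lit 5) (nat_lit 514) (nat_lit 5) (nat_lit 582) (nat_lit 577) (nat_lit 401))) (XT.nd (nat_lit 78) (nat_lit 0) (nat_lit 76) (XT.lf (nat_lit 76) (nat_lit 146218586) (nat_lit 0) (nat_lit 3353070600) (nat_lit 1824) (nat_lit 10087736165) (nat_lit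 491) (nat_lit 5) (nat_lit 490) (nat_lit 5) (nat_lit 514) (nat_lit 5) (nat_lit 583) (nat_lit 577) (nat_lit 400)) (XT.lf (nat_lit 0) (nat_lit 4190284977) (nat_lit 1748) (nat_lit 6596791484) (nat_lit 1824) (nat_lit 2930767821) (nat_lit 491) (nat_lit 5) (nat_lit 514) (nat_lit 5) (nat_lit 515) (nat_lit 5) (nat_lit 584) (nat_lit 577) (nat_lit 399))))))))
noncomputable def xc195 : XT := (XT.nd (nat_lit 2106) (nat_lit 11400) (nat_lit 0) (XT.nd (nat_lit 1014) (nat_lit 5396) (nat_lit 0) (XT.nd (nat_lit 468) (nat_lit 1444) (nat_lit 0) (XT.nd (nat_lit 234) (nat_lit 0) (nat_lit 152) (XT.nd (nat_lit 78) (nat_lit 0) (nat_lit 76) (XT.lf (nat_lit 76) (nat_lit 360709892) (nat_lit 0) (nat_lit 4549311650) (nat_lit 1824) (nat_lit 8940960537) (nat_lit 492) (nat_lit 5) (nat_lit 491) (nat_lit 5) (nat_lit 515) (nat_lit 5) (nat_lit 585) (nat_lit 577) (nat_lit 398)) (XT.nd (nat_lit 78) (nat_lit 0) (nat_lit 0) (XT.lf (nat_lit 0) (nat_lit 5691033552) (nat_lit 1748) (nat_lit 6457274482) (nat_lit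 1824) (nat_lit 1837537866) (nat_lit 492) (nat_lit 5) (nat_lit 515) (nat_lit 5) (nat_lit 516) (nat_lit 5) (nat_lit 586) (nat_lit 577) (nat_lit 397)) (XT.lf (nat_lit 76) (nat_lit 689321315) (nat_lit 0) (nat_lit 5823680317) (nat_lit 1824) (nat_lit 7609899517) (nat_lit 493) (nat_lit 5) (nat_lit 492) (nat_lit 5) (nat_lit 516) (nat_lit 5) (nat_lit 587) (nat_lit 577) (nat_lit 396)))) (XT.nd (nat_lit 78) (nat_lit 0) (nat_lit 0) (XT.lf (nat_lit 0) (nat_lit 7389997800) (nat_lit 1748) (nat_lit 6205951787) (nat_lit 1824) (nat_lit 665976989) (nat_lit 493) (nat_lit 5) (nat_lit 516) (nat_lit 5) (nat_lit 517) (nat_lit 5) (nat_lit 588) (nat_lit 577) (nat_lit 395)) (XT.nd (nat_lit 78) (nat_lit 0) (nat_lit 0) (XT.lf (nat_lit 76) (nat_lit 1136548535) (nat_lit 0) (nat_lit 7185006801) (nat_lit 1824) (nat_lit 6081437582) (nat_lit 494) (nat_lit 5) (nat_lit 493) (nat_lit 5) (nat_lit 517) (nat_lit 5) (nat_lit 589) (nat_lit 577) (nat_lit 394)) (XT.lf (nat_lit 76) (nat_lit 8704042870) (nat_lit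 0) (nat_lit 600557338) (nat_lit 1824) (nat_lit 5241624072) (nat_lit 494) (nat_lit 5) (nat_lit 493) (nat_lit 5) (nat_lit 517) (nat_lit 5) (nat_lit 590) (nat_lit 577) (nat_lit 393))))) (XT.nd (nat_lit 234) (nat_lit 1672) (nat_lit 0) (XT.nd (nat_lit 78) (nat_lit 0) (nat_lit 0) (XT.lf (nat_lit 76) (nat_lit 1707197531) (nat_lit 0) (nat_lit 8642300312) (nat_lit 1824) (nat_lit 4341979388) (nat_lit 495) (nat_lit 5) (nat_lit 494) (nat_lit 5) (nat_lit 518) (nat_lit 5) (nat_lit 591) (nat_lit 577) (nat_lit 392)) (XT.nd (nat_lit 78) (nat_lit 0) (nat_lit 76) (XT.lf (nat_lit 76) (nat_lit 9476713043) (nat_lit 0) (nat_lit 1973266298) (nat_lit 1824) (nat_lit 3388962969) (nat_lit 495) (nat_lit 5) (nat_lit 494) (nat_lit 5) (nat_lit 518) (nat_lit 5) (nat_lit 592) (nat_lit 577) (nat_lit 391)) (XT.lf (nat_lit 76) (nat_lit 2406390565) (nat_lit 0) (nat_lit 10204770280) (nat_lit 1824) (nat_lit 2377422807) (nat_lit 496) (nat_lit 5) (nat_lit 495) (nat_lit 5) (nat_lit 519) (nat_lit 5) (nat_lit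 593) (nat_lit 577) (nat_lit 390)))) (XT.nd (nat_lit 156) (nat_lit 1748) (nat_lit 0) (XT.nd (nat_lit 78) (nat_lit 0) (nat_lit 76) (XT.lf (nat_lit 76) (nat_lit 10383789734) (nat_lit 0) (nat_lit 3452577399) (nat_lit 1824) (nat_lit 1304035420) (nat_lit 496) (nat_lit 5) (nat_lit 495) (nat_lit 5) (nat_lit 519) (nat_lit 5) (nat_lit 594) (nat_lit 577) (nat_lit 389)) (XT.lf (nat_lit 76) (nat_lit 3239572743) (nat_lit 0) (nat_lit 11881847720) (nat_lit 1824) (nat_lit 173131249) (nat_lit 497) (nat_lit 5) (nat_lit 496) (nat_lit 5) (nat_lit 520) (nat_lit 5) (nat_lit 595) (nat_lit 577) (nat_lit 388))) (XT.nd (nat_lit 78) (nat_lit 0) (nat_lit 76) (XT.lf (nat_lit 0) (nat_lit 1014602406) (nat_lit 1824) (nat_lit 4026587557) (nat_lit 1900) (nat_lit 10409525908) (nat_lit 472) (nat_lit 5) (nat_lit 496) (nat_lit 5) (nat_lit 497) (nat_lit 5) (nat_lit 596) (nat_lit 577) (nat_lit 387)) (XT.lf (nat_lit 0) (nat_lit 2256112228) (nat_lit 1824) (nat_lit 11411954877) (nat_lit 1900) (nat_lit 1941267223)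 (nat_lit 473) (nat_lit 5) (nat_lit 497) (nat_lit 5) (nat_lit 498) (nat_lit 5) (nat_lit 597) (nat_lit 577) (nat_lit 386)))))) (XT.nd (nat_lit 546) (nat_lit 2736) (nat_lit 0) (XT.nd (nat_lit 234) (nat_lit 2736) (nat_lit 0) (XT.nd (nat_lit 78) (nat_lit 0) (nat_lit 76) (XT.lf (nat_lit 0) (nat_lit 3575390565) (nat_lit 1824) (nat_lit 3169905639) (nat_lit 1900) (nat_lit 9024770869) (nat_lit 473) (nat_lit 5) (nat_lit 497) (nat_lit 5) (nat_lit 498) (nat_lit 5) (nat_lit 598) (nat_lit 577) (nat_lit 385)) (XT.nd (nat_lit 78) (nat_lit 0) (nat_lit 0) (XT.lf (nat_lit 0) (nat_lit 4950260550) (nat_lit 1824) (nat_lit 10635307303) (nat_lit 1900) (nat_lit 347863166) (nat_lit 474) (nat_lit 5) (nat_lit 498) (nat_lit 5) (nat_lit 499) (nat_lit 5) (nat_lit 599) (nat_lit 577) (nat_lit 384)) (XT.lf (nat_lit 0) (nat_lit 6411331807) (nat_lit 1824) (nat_lit 2172126603) (nat_lit 1900) (nat_lit 7515430415) (nat_lit 474) (nat_lit 5) (nat_lit 498) (nat_lit 5) (nat_lit 499) (nat_lit 5) (nat_lit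 600) (nat_lit 577) (nat_lit 383)))) (XT.nd (nat_lit 156) (nat_lit 2812) (nat_lit 0) (XT.nd (nat_lit 78) (nat_lit 0) (nat_lit 76) (XT.lf (nat_lit 76) (nat_lit 6540051815) (nat_lit 0) (nat_lit 1396800155) (nat_lit 1900) (nat_lit 8330099911) (nat_lit 475) (nat_lit 5) (nat_lit 474) (nat_lit 5) (nat_lit 499) (nat_lit 5) (nat_lit 601) (nat_lit 577) (nat_lit 382)) (XT.lf (nat_lit 0) (nat_lit 9538955369) (nat_lit 1824) (nat_lit 1026939203) (nat_lit 76) (nat_lit 5871560800) (nat_lit 475) (nat_lit 5) (nat_lit 499) (nat_lit 5) (nat_lit 476) (nat_lit 5) (nat_lit 602) (nat_lit 577) (nat_lit 381))) (XT.nd (nat_lit 78) (nat_lit 1064) (nat_lit 0) (XT.lf (nat_lit 0) (nat_lit 7935820119) (nat_lit 1824) (nat_lit 3291070733) (nat_lit 1900) (nat_lit 5383402901) (nat_lit 451) (nat_lit 5) (nat_lit 475) (nat_lit 5) (nat_lit 476) (nat_lit 5) (nat_lit 603) (nat_lit 577) (nat_lit 380)) (XT.lf (nat_lit 0) (nat_lit 275932802) (nat_lit 1064) (nat_lit 12701309513) (nat_lit 1140) (nat_lit 3808774048)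 (nat_lit 437) (nat_lit 5) (nat_lit 451) (nat_lit 5) (nat_lit 452) (nat_lit 5) (nat_lit 604) (nat_lit 577) (nat_lit 379))))) (XT.nd (nat_lit 234) (nat_lit 1748) (nat_lit 0) (XT.nd (nat_lit 78) (nat_lit 988) (nat_lit 0) (XT.lf (nat_lit 0) (nat_lit 9494753058) (nat_lit 1064) (nat_lit 5340924129) (nat_lit 1140) (nat_lit 2128115305) (nat_lit 437) (nat_lit 5) (nat_lit 451) (nat_lit 5) (nat_lit 452) (nat_lit 5) (nat_lit 605) (nat_lit 577) (nat_lit 378)) (XT.nd (nat_lit 78) (nat_lit 76) (nat_lit 0) (XT.lf (nat_lit 0) (nat_lit 1755671259) (nat_lit 912) (nat_lit 14994427703) (nat_lit 988) (nat_lit 394649402) (nat_lit 425) (nat_lit 5) (nat_lit 437) (nat_lit 5) (nat_lit 438) (nat_lit 5) (nat_lit 606) (nat_lit 577) (nat_lit 377)) (XT.lf (nat_lit 0) (nat_lit 1434694488) (nat_lit 988) (nat_lit 6112980715) (nat_lit 76) (nat_lit 9779885915) (nat_lit 424) (nat_lit 5) (nat_lit 437) (nat_lit 5) (nat_lit 425) (nat_lit 5) (nat_lit 607) (nat_lit 577) (nat_lit 376)))) (XT.nd (nat_lit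 156) (nat_lit 836) (nat_lit 0) (XT.nd (nat_lit 78) (nat_lit 0) (nat_lit 0) (XT.lf (nat_lit 0) (nat_lit 3311324927) (nat_lit 988) (nat_lit 14129775150) (nat_lit 76) (nat_lit 72558746) (nat_lit 412) (nat_lit 5) (nat_lit 425) (nat_lit 5) (nat_lit 413) (nat_lit 5) (nat_lit 608) (nat_lit 577) (nat_lit 375)) (XT.lf (nat_lit 0) (nat_lit 5310384140) (nat_lit 988) (nat_lit 4605496962) (nat_lit 76) (nat_lit 7785899997) (nat_lit 412) (nat_lit 5) (nat_lit 425) (nat_lit 5) (nat_lit 413) (nat_lit 5) (nat_lit 609) (nat_lit 577) (nat_lit 374))) (XT.nd (nat_lit 78) (nat_lit 0) (nat_lit 0) (XT.lf (nat_lit 0) (nat_lit 5171075543) (nat_lit 836) (nat_lit 2205666750) (nat_lit 912) (nat_lit 10516377700) (nat_lit 401) (nat_lit 5) (nat_lit 412) (nat_lit 5) (nat_lit 413) (nat_lit 5) (nat_lit 610) (nat_lit 577) (nat_lit 373)) (XT.lf (nat_lit 0) (nat_lit 9546106873) (nat_lit 912) (nat_lit 2925100937) (nat_lit 76) (nat_lit 5615844788) (nat_lit 401) (nat_lit 5) (nat_lit 413) (nat_lit 5) (nat_lit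 402) (nat_lit 5) (nat_lit 611) (nat_lit 577) (nat_lit 372))))))) (XT.nd (nat_lit 1092) (nat_lit 5092) (nat_lit 0) (XT.nd (nat_lit 546) (nat_lit 2964) (nat_lit 0) (XT.nd (nat_lit 234) (nat_lit 1672) (nat_lit 0) (XT.nd (nat_lit 78) (nat_lit 836) (nat_lit 0) (XT.lf (nat_lit 0) (nat_lit 7140850906) (nat_lit 836) (nat_lit 4672927958) (nat_lit 912) (nat_lit 6469987096) (nat_lit 390) (nat_lit 5) (nat_lit 401) (nat_lit 5) (nat_lit 402) (nat_lit 5) (nat_lit 612) (nat_lit 577) (nat_lit 371)) (XT.nd (nat_lit 78) (nat_lit 836) (nat_lit 0) (XT.lf (nat_lit 0) (nat_lit 14161897948) (nat_lit 912) (nat_lit 1063740998) (nat_lit 76) (nat_lit 3258073270) (nat_lit 390) (nat_lit 5) (nat_lit 402) (nat_lit 5) (nat_lit 391) (nat_lit 5) (nat_lit 613) (nat_lit 577) (nat_lit 370)) (XT.lf (nat_lit 0) (nat_lit 9302130083) (nat_lit 836) (nat_lit 7340338728) (nat_lit 912) (nat_lit 2043479285) (nat_lit 379) (nat_lit 5) (nat_lit 390) (nat_lit 5) (nat_lit 391) (nat_lit 5) (nat_lit 614) (nat_lit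 577) (nat_lit 369)))) (XT.nd (nat_lit 156) (nat_lit 760) (nat_lit 0) (XT.nd (nat_lit 78) (nat_lit 0) (nat_lit 0) (XT.lf (nat_lit 0) (nat_lit 289290906) (nat_lit 912) (nat_lit 17893738707) (nat_lit 76) (nat_lit 708912210) (nat_lit 367) (nat_lit 5) (nat_lit 379) (nat_lit 5) (nat_lit 368) (nat_lit 5) (nat_lit 615) (nat_lit 577) (nat_lit 368)) (XT.lf (nat_lit 0) (nat_lit 2747637944) (nat_lit 912) (nat_lit 7454345069) (nat_lit 76) (nat_lit 8897677050) (nat_lit 367) (nat_lit 5) (nat_lit 379) (nat_lit 5) (nat_lit 368) (nat_lit 5) (nat_lit 616) (nat_lit 577) (nat_lit 367))) (XT.nd (nat_lit 78) (nat_lit 0) (nat_lit 0) (XT.lf (nat_lit 0) (nat_lit 3230268332) (nat_lit 760) (nat_lit 2040228358) (nat_lit 836) (nat_lit 14040729535) (nat_lit 357) (nat_lit 5) (nat_lit 367) (nat_lit 5) (nat_lit 368) (nat_lit 5) (nat_lit 617) (nat_lit 577) (nat_lit 366)) (XT.lf (nat_lit 0) (nat_lit 7929412918) (nat_lit 836) (nat_lit 5343543752) (nat_lit 76) (nat_lit 6252355475) (nat_lit 357) (nat_lit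 5) (nat_lit 368) (nat_lit 5) (nat_lit 358) (nat_lit 5) (nat_lit 618) (nat_lit 577) (nat_lit 365))))) (XT.nd (nat_lit 234) (nat_lit 1520) (nat_lit 0) (XT.nd (nat_lit 78) (nat_lit 684) (nat_lit 0) (XT.lf (nat_lit 0) (nat_lit 5663498765) (nat_lit 760) (nat_lit 5022841942) (nat_lit 836) (nat_lit 9056442846) (nat_lit 347) (nat_lit 5) (nat_lit 357) (nat_lit 5) (nat_lit 358) (nat_lit 5) (nat_lit 619) (nat_lit 577) (nat_lit 364)) (XT.nd (nat_lit 78) (nat_lit 684) (nat_lit 0) (XT.lf (nat_lit 0) (nat_lit 13551143867) (nat_lit 836) (nat_lit 3028986866) (nat_lit 76) (nat_lit 3383419345) (nat_lit 347) (nat_lit 5) (nat_lit 358) (nat_lit 5) (nat_lit 348) (nat_lit 5) (nat_lit 620) (nat_lit 577) (nat_lit 363)) (XT.lf (nat_lit 0) (nat_lit 8312233775) (nat_lit 684) (nat_lit 8242963715) (nat_lit 760) (nat_lit 3631895771) (nat_lit 338) (nat_lit 5) (nat_lit 347) (nat_lit 5) (nat_lit 348) (nat_lit 5) (nat_lit 621) (nat_lit 577) (nat_lit 362)))) (XT.nd (nat_lit 156) (nat_lit 684) (nat_lit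 0) (XT.nd (nat_lit 78) (nat_lit 836) (nat_lit 0) (XT.lf (nat_lit 0) (nat_lit 19636271194) (nat_lit 760) (nat_lit 501090375) (nat_lit 76) (nat_lit 277407368) (nat_lit 338) (nat_lit 5) (nat_lit 348) (nat_lit 5) (nat_lit 339) (nat_lit 5) (nat_lit 622) (nat_lit 577) (nat_lit 361)) (XT.lf (nat_lit 0) (nat_lit 2226920994) (nat_lit 836) (nat_lit 9472711990) (nat_lit 76) (nat_lit 8944630414) (nat_lit 327) (nat_lit 5) (nat_lit 338) (nat_lit 5) (nat_lit 328) (nat_lit 5) (nat_lit 623) (nat_lit 577) (nat_lit 360))) (XT.nd (nat_lit 78) (nat_lit 0) (nat_lit 0) (XT.lf (nat_lit 0) (nat_lit 2224340138) (nat_lit 684) (nat_lit 3070435838) (nat_lit 760) (nat_lit 15583214201) (nat_lit 318) (nat_lit 5) (nat_lit 327) (nat_lit 5) (nat_lit 328) (nat_lit 5) (nat_lit 624) (nat_lit 577) (nat_lit 359)) (XT.lf (nat_lit 0) (nat_lit 8520160403) (nat_lit 760) (nat_lit 6874884651) (nat_lit 76) (nat_lit 5719423367) (nat_lit 318) (nat_lit 5) (nat_lit 328) (nat_lit 5) (nat_lit 319) (nat_lit 5) (nat_lit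 625) (nat_lit 577) (nat_lit 358)))))) (XT.nd (nat_lit 546) (nat_lit 2432) (nat_lit 0) (XT.nd (nat_lit 234) (nat_lit 1368) (nat_lit 0) (XT.nd (nat_lit 78) (nat_lit 608) (nat_lit 0) (XT.lf (nat_lit 0) (nat_lit 5181320845) (nat_lit 684) (nat_lit 6677777622) (nat_lit 760) (nat_lit 9495597214) (nat_lit 309) (nat_lit 5) (nat_lit 318) (nat_lit 5) (nat_lit 319) (nat_lit 5) (nat_lit 626) (nat_lit 577) (nat_lit 357)) (XT.nd (nat_lit 78) (nat_lit 608) (nat_lit 0) (XT.lf (nat_lit 0) (nat_lit 15320753977) (nat_lit 760) (nat_lit 4047452209) (nat_lit 76) (nat_lit 2230402891) (nat_lit 309) (nat_lit 5) (nat_lit 319) (nat_lit 5) (nat_lit 310) (nat_lit 5) (nat_lit 627) (nat_lit 577) (nat_lit 356)) (XT.lf (nat_lit 0) (nat_lit 8380987736) (nat_lit 608) (nat_lit 10564514444) (nat_lit 684) (nat_lit 2900021723) (nat_lit 301) (nat_lit 5) (nat_lit 309) (nat_lit 5) (nat_lit 310) (nat_lit 5) (nat_lit 628) (nat_lit 577) (nat_lit 355)))) (XT.nd (nat_lit 156) (nat_lit 608) (nat_lit 0) (XT.nd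 (nat_lit 78) (nat_lit 684) (nat_lit 0) (XT.lf (nat_lit 0) (nat_lit 560802437) (nat_lit 684) (nat_lit 993415468) (nat_lit 76) (nat_lit 20542636910) (nat_lit 300) (nat_lit 5) (nat_lit 309) (nat_lit 5) (nat_lit 301) (nat_lit 5) (nat_lit 629) (nat_lit 577) (nat_lit 354)) (XT.lf (nat_lit 0) (nat_lit 4174587223) (nat_lit 760) (nat_lit 10543762397) (nat_lit 76) (nat_lit 7632028170) (nat_lit 291) (nat_lit 5) (nat_lit 301) (nat_lit 5) (nat_lit 292) (nat_lit 5) (nat_lit 630) (nat_lit 577) (nat_lit 353))) (XT.nd (nat_lit 78) (nat_lit 0) (nat_lit 0) (XT.lf (nat_lit 0) (nat_lit 2281197610) (nat_lit 608) (nat_lit 5606652909) (nat_lit 684) (nat_lit 14720576977) (nat_lit 283) (nat_lit 5) (nat_lit 291) (nat_lit 5) (nat_lit 292) (nat_lit 5) (nat_lit 631) (nat_lit 577) (nat_lit 352)) (XT.lf (nat_lit 0) (nat_lit 11765977562) (nat_lit 684) (nat_lit 7394757693) (nat_lit 76) (nat_lit 3709091294) (nat_lit 283) (nat_lit 5) (nat_lit 292) (nat_lit 5) (nat_lit 284) (nat_lit 5) (nat_lit 632)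 (nat_lit 577) (nat_lit 351))))) (XT.nd (nat_lit 234) (nat_lit 1140) (nat_lit 0) (XT.nd (nat_lit 78) (nat_lit 684) (nat_lit 0) (XT.lf (nat_lit 0) (nat_lit 5830102469) (nat_lit 608) (nat_lit 9962072681) (nat_lit 684) (nat_lit 7342868587) (nat_lit 275) (nat_lit 5) (nat_lit 283) (nat_lit 5) (nat_lit 284) (nat_lit 5) (nat_lit 633) (nat_lit 577) (nat_lit 350)) (XT.nd (nat_lit 78) (nat_lit 684) (nat_lit 0) (XT.lf (nat_lit 0) (nat_lit 19414140361) (nat_lit 608) (nat_lit 529955673) (nat_lit 684) (nat_lit 3460565559) (nat_lit 275) (nat_lit 5) (nat_lit 283) (nat_lit 5) (nat_lit 284) (nat_lit 5) (nat_lit 634) (nat_lit 577) (nat_lit 349)) (XT.lf (nat_lit 0) (nat_lit 610959187) (nat_lit 684) (nat_lit 14029118465) (nat_lit 76) (nat_lit 9037167101) (nat_lit 266) (nat_lit 5) (nat_lit 275) (nat_lit 5) (nat_lit 267) (nat_lit 5) (nat_lit 635) (nat_lit 577) (nat_lit 348)))) (XT.nd (nat_lit 156) (nat_lit 532) (nat_lit 0) (XT.nd (nat_lit 78) (nat_lit 608) (nat_lit 0) (XT.lf (nat_lit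 0) (nat_lit 4743763174) (nat_lit 684) (nat_lit 373258900) (nat_lit 76) (nat_lit 18837276594) (nat_lit 266) (nat_lit 5) (nat_lit 275) (nat_lit 5) (nat_lit 267) (nat_lit 5) (nat_lit 636) (nat_lit 577) (nat_lit 347)) (XT.lf (nat_lit 0) (nat_lit 9074557551) (nat_lit 684) (nat_lit 10535268704) (nat_lit 76) (nat_lit 4624761005) (nat_lit 258) (nat_lit 5) (nat_lit 267) (nat_lit 5) (nat_lit 259) (nat_lit 5) (nat_lit 637) (nat_lit 577) (nat_lit 346))) (XT.nd (nat_lit 78) (nat_lit 0) (nat_lit 0) (XT.lf (nat_lit 0) (nat_lit 3545084754) (nat_lit 532) (nat_lit 10002110833) (nat_lit 608) (nat_lit 10972181762) (nat_lit 251) (nat_lit 5) (nat_lit 258) (nat_lit 5) (nat_lit 259) (nat_lit 5) (nat_lit 638) (nat_lit 577) (nat_lit 345)) (XT.lf (nat_lit 0) (nat_lit 18044408508) (nat_lit 532) (nat_lit 131423855) (nat_lit 608) (nat_lit 6632700234) (nat_lit 251) (nat_lit 5) (nat_lit 258) (nat_lit 5) (nat_lit 259) (nat_lit 5) (nat_lit 639) (nat_lit 577) (nat_lit 344))))))))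
noncomputable def xc196 : XT := (XT.nd (nat_lit 76518) (nat_lit 0) (nat_lit 21280) (XT.nd (nat_lit 1014) (nat_lit 2964) (nat_lit 0) (XT.nd (nat_lit 468) (nat_lit 2052) (nat_lit 0) (XT.nd (nat_lit 234) (nat_lit 988) (nat_lit 0) (XT.nd (nat_lit 78) (nat_lit 608) (nat_lit 0) (XT.lf (nat_lit 0) (nat_lit 7762122141) (nat_lit 532) (nat_lit 15245754015) (nat_lit 608) (nat_lit 2093378376) (nat_lit 244) (nat_lit 5) (nat_lit 251) (nat_lit 5) (nat_lit 252) (nat_lit 5) (nat_lit 640) (nat_lit 577) (nat_lit 343)) (XT.nd (nat_lit 78) (nat_lit 532) (nat_lit 0) (XT.lf (nat_lit 0) (nat_lit 2545962068) (nat_lit 608) (nat_lit 2751411789) (nat_lit 76) (nat_lit 20101277869) (nat_lit 243) (nat_lit 5) (nat_lit 251) (nat_lit 5) (nat_lit 244) (nat_lit 5) (nat_lit 641) (nat_lit 577) (nat_lit 342)) (XT.lf (nat_lit 0) (nat_lit 7357868387) (nat_lit 608) (nat_lit 13462509622) (nat_lit 76) (nat_lit 4879186175) (nat_lit 236) (nat_lit 5) (nat_lit 244) (nat_lit 5) (nat_lit 237) (nat_lit 5) (nat_lit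 642) (nat_lit 577) (nat_lit 341)))) (XT.nd (nat_lit 78) (nat_lit 456) (nat_lit 0) (XT.lf (nat_lit 0) (nat_lit 1536042899) (nat_lit 532) (nat_lit 10789665145) (nat_lit 608) (nat_lit 13679593192) (nat_lit 229) (nat_lit 5) (nat_lit 236) (nat_lit 5) (nat_lit 237) (nat_lit 5) (nat_lit 643) (nat_lit 577) (nat_lit 340)) (XT.nd (nat_lit 78) (nat_lit 456) (nat_lit 0) (XT.lf (nat_lit 0) (nat_lit 17011730504) (nat_lit 532) (nat_lit 467611875) (nat_lit 608) (nat_lit 8836082138) (nat_lit 229) (nat_lit 5) (nat_lit 236) (nat_lit 5) (nat_lit 237) (nat_lit 5) (nat_lit 644) (nat_lit 577) (nat_lit 339)) (XT.lf (nat_lit 0) (nat_lit 6175566180) (nat_lit 456) (nat_lit 16662065849) (nat_lit 532) (nat_lit 3792086821) (nat_lit 223) (nat_lit 5) (nat_lit 229) (nat_lit 5) (nat_lit 230) (nat_lit 5) (nat_lit 645) (nat_lit 577) (nat_lit 338))))) (XT.nd (nat_lit 234) (nat_lit 1444) (nat_lit 0) (XT.nd (nat_lit 78) (nat_lit 532) (nat_lit 0) (XT.lf (nat_lit 0) (nat_lit 1397169824) (nat_lit 532)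 (nat_lit 4876121605) (nat_lit 76) (nat_lit 20675589737) (nat_lit 222) (nat_lit 5) (nat_lit 229) (nat_lit 5) (nat_lit 223) (nat_lit 5) (nat_lit 646) (nat_lit 577) (nat_lit 337)) (XT.nd (nat_lit 78) (nat_lit 0) (nat_lit 0) (XT.lf (nat_lit 0) (nat_lit 6736700959) (nat_lit 608) (nat_lit 16172141350) (nat_lit 76) (nat_lit 4363138022) (nat_lit 215) (nat_lit 5) (nat_lit 223) (nat_lit 5) (nat_lit 216) (nat_lit 5) (nat_lit 647) (nat_lit 577) (nat_lit 336)) (XT.lf (nat_lit 0) (nat_lit 12253791602) (nat_lit 608) (nat_lit 186462833) (nat_lit 76) (nat_lit 15159871889) (nat_lit 215) (nat_lit 5) (nat_lit 223) (nat_lit 5) (nat_lit 216) (nat_lit 5) (nat_lit 648) (nat_lit 577) (nat_lit 335)))) (XT.nd (nat_lit 156) (nat_lit 532) (nat_lit 0) (XT.nd (nat_lit 78) (nat_lit 456) (nat_lit 0) (XT.lf (nat_lit 0) (nat_lit 16327945750) (nat_lit 456) (nat_lit 1655648855) (nat_lit 532) (nat_lit 9949193436) (nat_lit 209) (nat_lit 5) (nat_lit 215) (nat_lit 5) (nat_lit 216) (nat_lit 5) (nat_lit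 649) (nat_lit 577) (nat_lit 334)) (XT.lf (nat_lit 0) (nat_lit 4901540420) (nat_lit 456) (nat_lit 19016595851) (nat_lit 532) (nat_lit 4352164083) (nat_lit 203) (nat_lit 5) (nat_lit 209) (nat_lit 5) (nat_lit 210) (nat_lit 5) (nat_lit 650) (nat_lit 577) (nat_lit 333))) (XT.nd (nat_lit 78) (nat_lit 456) (nat_lit 0) (XT.lf (nat_lit 0) (nat_lit 1424767030) (nat_lit 532) (nat_lit 6743107932) (nat_lit 76) (nat_lit 20444796851) (nat_lit 202) (nat_lit 5) (nat_lit 209) (nat_lit 5) (nat_lit 203) (nat_lit 5) (nat_lit 651) (nat_lit 577) (nat_lit 332)) (XT.lf (nat_lit 0) (nat_lit 7341907754) (nat_lit 532) (nat_lit 18663016299) (nat_lit 76) (nat_lit 2954732563) (nat_lit 196) (nat_lit 5) (nat_lit 203) (nat_lit 5) (nat_lit 197) (nat_lit 5) (nat_lit 652) (nat_lit 577) (nat_lit 331)))))) (XT.nd (nat_lit 546) (nat_lit 1216) (nat_lit 0) (XT.nd (nat_lit 234) (nat_lit 912) (nat_lit 0) (XT.nd (nat_lit 78) (nat_lit 836) (nat_lit 0) (XT.lf (nat_lit 0) (nat_lit 13473530723) (nat_lit 532)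 (nat_lit 1603575237) (nat_lit 76) (nat_lit 14234552563) (nat_lit 196) (nat_lit 5) (nat_lit 203) (nat_lit 5) (nat_lit 197) (nat_lit 5) (nat_lit 653) (nat_lit 577) (nat_lit 330)) (XT.nd (nat_lit 78) (nat_lit 380) (nat_lit 0) (XT.lf (nat_lit 0) (nat_lit 16001927011) (nat_lit 456) (nat_lit 3826321001) (nat_lit 532) (nat_lit 9840443411) (nat_lit 190) (nat_lit 5) (nat_lit 196) (nat_lit 5) (nat_lit 197) (nat_lit 5) (nat_lit 654) (nat_lit 577) (nat_lit 329)) (XT.lf (nat_lit 0) (nat_lit 3945616222) (nat_lit 380) (nat_lit 22447150252) (nat_lit 456) (nat_lit 3638444560) (nat_lit 185) (nat_lit 5) (nat_lit 190) (nat_lit 5) (nat_lit 191) (nat_lit 5) (nat_lit 655) (nat_lit 577) (nat_lit 328)))) (XT.nd (nat_lit 156) (nat_lit 380) (nat_lit 0) (XT.nd (nat_lit 78) (nat_lit 456) (nat_lit 0) (XT.lf (nat_lit 0) (nat_lit 2766607994) (nat_lit 456) (nat_lit 8352075827) (nat_lit 76) (nat_lit 19279663162) (nat_lit 184) (nat_lit 5) (nat_lit 190) (nat_lit 5) (nat_lit 185) (nat_lit 5) (nat_lit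 656) (nat_lit 577) (nat_lit 327)) (XT.lf (nat_lit 0) (nat_lit 9315026121) (nat_lit 532) (nat_lit 20938453038) (nat_lit 76) (nat_lit 517586005) (nat_lit 178) (nat_lit 5) (nat_lit 185) (nat_lit 5) (nat_lit 179) (nat_lit 5) (nat_lit 657) (nat_lit 577) (nat_lit 326))) (XT.nd (nat_lit 78) (nat_lit 380) (nat_lit 0) (XT.lf (nat_lit 0) (nat_lit 16121157501) (nat_lit 532) (nat_lit 2734870900) (nat_lit 76) (nat_lit 12292674583) (nat_lit 178) (nat_lit 5) (nat_lit 185) (nat_lit 5) (nat_lit 179) (nat_lit 5) (nat_lit 658) (nat_lit 577) (nat_lit 325)) (XT.lf (nat_lit 0) (nat_lit 16038267131) (nat_lit 380) (nat_lit 7126033512) (nat_lit 456) (nat_lit 8367575305) (nat_lit 173) (nat_lit 5) (nat_lit 178) (nat_lit 5) (nat_lit 179) (nat_lit 5) (nat_lit 659) (nat_lit 577) (nat_lit 324))))) (XT.nd (nat_lit 234) (nat_lit 380) (nat_lit 0) (XT.nd (nat_lit 78) (nat_lit 456) (nat_lit 0) (XT.lf (nat_lit 0) (nat_lit 3308567888) (nat_lit 380) (nat_lit 27107889062) (nat_lit 456) (nat_lit 1504892582)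 (nat_lit 168) (nat_lit 5) (nat_lit 173) (nat_lit 5) (nat_lit 174) (nat_lit 5) (nat_lit 660) (nat_lit 577) (nat_lit 323)) (XT.nd (nat_lit 78) (nat_lit 380) (nat_lit 0) (XT.lf (nat_lit 0) (nat_lit 5571616541) (nat_lit 456) (nat_lit 9708176479) (nat_lit 76) (nat_lit 17035133356) (nat_lit 167) (nat_lit 5) (nat_lit 173) (nat_lit 5) (nat_lit 168) (nat_lit 5) (nat_lit 661) (nat_lit 577) (nat_lit 322)) (XT.lf (nat_lit 0) (nat_lit 9686801623) (nat_lit 380) (nat_lit 3142468774) (nat_lit 456) (nat_lit 19885710269) (nat_lit 162) (nat_lit 5) (nat_lit 167) (nat_lit 5) (nat_lit 168) (nat_lit 5) (nat_lit 662) (nat_lit 577) (nat_lit 321)))) (XT.nd (nat_lit 74568) (nat_lit 0) (nat_lit 25156) (XT.nd (nat_lit 78) (nat_lit 380) (nat_lit 0) (XT.lf (nat_lit 0) (nat_lit 20354505519) (nat_lit 456) (nat_lit 3585682349) (nat_lit 76) (nat_lit 9180399765) (nat_lit 162) (nat_lit 5) (nat_lit 168) (nat_lit 5) (nat_lit 163) (nat_lit 5) (nat_lit 663) (nat_lit 577) (nat_lit 320)) (XT.lf (nat_lit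 0) (nat_lit 16435687336) (nat_lit 380) (nat_lit 11719014890) (nat_lit 456) (nat_lit 5377115527) (nat_lit 157) (nat_lit 5) (nat_lit 162) (nat_lit 5) (nat_lit 163) (nat_lit 5) (nat_lit 664) (nat_lit 577) (nat_lit 319))) (XT.nd (nat_lit 78) (nat_lit 0) (nat_lit 0) (XT.lf (nat_lit 0) (nat_lit 280497003) (nat_lit 0) (nat_lit 280497003) (nat_lit 1748) (nat_lit 5979638892) (nat_lit 488) (nat_lit 5) (nat_lit 488) (nat_lit 3) (nat_lit 511) (nat_lit 3) (nat_lit 578) (nat_lit 578) (nat_lit 404)) (XT.lf (nat_lit 0) (nat_lit 1567307389) (nat_lit 1748) (nat_lit 6091388431) (nat_lit 1824) (nat_lit 5544663428) (nat_lit 488) (nat_lit 5) (nat_lit 511) (nat_lit 3) (nat_lit 512) (nat_lit 5) (nat_lit 579) (nat_lit 578) (nat_lit 403))))))) (XT.nd (nat_lit 1014) (nat_lit 3876) (nat_lit 0) (XT.nd (nat_lit 468) (nat_lit 0) (nat_lit 228) (XT.nd (nat_lit 234) (nat_lit 0) (nat_lit 152) (XT.nd (nat_lit 78) (nat_lit 0) (nat_lit 76) (XT.lf (nat_lit 76) (nat_lit 462971046) (nat_lit 0) (nat_lit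 1554887317) (nat_lit 1824) (nat_lit 11310110675) (nat_lit 489) (nat_lit 5) (nat_lit 488) (nat_lit 5) (nat_lit 512) (nat_lit 5) (nat_lit 580) (nat_lit 578) (nat_lit 402)) (XT.nd (nat_lit 78) (nat_lit 0) (nat_lit 0) (XT.lf (nat_lit 0) (nat_lit 2538698635) (nat_lit 1748) (nat_lit 6259522424) (nat_lit 1824) (nat_lit 4655625358) (nat_lit 489) (nat_lit 5) (nat_lit 512) (nat_lit 5) (nat_lit 513) (nat_lit 5) (nat_lit 581) (nat_lit 578) (nat_lit 401)) (XT.lf (nat_lit 76) (nat_lit 468359881) (nat_lit 0) (nat_lit 2604937859) (nat_lit 1824) (nat_lit 10508877700) (nat_lit 490) (nat_lit 5) (nat_lit 489) (nat_lit 5) (nat_lit 513) (nat_lit 5) (nat_lit 582) (nat_lit 578) (nat_lit 400)))) (XT.nd (nat_lit 78) (nat_lit 0) (nat_lit 0) (XT.lf (nat_lit 0) (nat_lit 3675165984) (nat_lit 1748) (nat_lit 6326699305) (nat_lit 1824) (nat_lit 3710075132) (nat_lit 490) (nat_lit 5) (nat_lit 513) (nat_lit 5) (nat_lit 514) (nat_lit 5) (nat_lit 583) (nat_lit 578) (nat_lit 399)) (XT.nd (nat_lit 78)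 (nat_lit 0) (nat_lit 76) (XT.lf (nat_lit 76) (nat_lit 580901813) (nat_lit 0) (nat_lit 3719577087) (nat_lit 1824) (nat_lit 9543594557) (nat_lit 491) (nat_lit 5) (nat_lit 490) (nat_lit 5) (nat_lit 514) (nat_lit 5) (nat_lit 584) (nat_lit 578) (nat_lit 398)) (XT.lf (nat_lit 0) (nat_lit 4989051202) (nat_lit 1748) (nat_lit 6289123930) (nat_lit 1824) (nat_lit 2699659844) (nat_lit 491) (nat_lit 5) (nat_lit 514) (nat_lit 5) (nat_lit 515) (nat_lit 5) (nat_lit 585) (nat_lit 578) (nat_lit 397))))) (XT.nd (nat_lit 234) (nat_lit 0) (nat_lit 152) (XT.nd (nat_lit 78) (nat_lit 0) (nat_lit 76) (XT.lf (nat_lit 76) (nat_lit 804635346) (nat_lit 0) (nat_lit 4907363736) (nat_lit 1824) (nat_lit 8401861427) (nat_lit 492) (nat_lit 5) (nat_lit 491) (nat_lit 5) (nat_lit 515) (nat_lit 5) (nat_lit 586) (nat_lit 578) (nat_lit 396)) (XT.nd (nat_lit 78) (nat_lit 0) (nat_lit 0) (XT.lf (nat_lit 0) (nat_lit 6493131813) (nat_lit 1748) (nat_lit 6142707780) (nat_lit 1824) (nat_lit 1615893293) (nat_lit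 492) (nat_lit 5) (nat_lit 515) (nat_lit 5) (nat_lit 516) (nat_lit 5) (nat_lit 587) (nat_lit 578) (nat_lit 395)) (XT.lf (nat_lit 76) (nat_lit 1143900773) (nat_lit 0) (nat_lit 6177004762) (nat_lit 1824) (nat_lit 7070837640) (nat_lit 493) (nat_lit 5) (nat_lit 492) (nat_lit 5) (nat_lit 516) (nat_lit 5) (nat_lit 588) (nat_lit 578) (nat_lit 394)))) (XT.nd (nat_lit 156) (nat_lit 0) (nat_lit 0) (XT.nd (nat_lit 78) (nat_lit 0) (nat_lit 0) (XT.lf (nat_lit 0) (nat_lit 8200646853) (nat_lit 1748) (nat_lit 5883064136) (nat_lit 1824) (nat_lit 450135257) (nat_lit 493) (nat_lit 5) (nat_lit 516) (nat_lit 5) (nat_lit 517) (nat_lit 5) (nat_lit 589) (nat_lit 578) (nat_lit 393)) (XT.lf (nat_lit 76) (nat_lit 1603345360) (nat_lit 0) (nat_lit 7537376309) (nat_lit 1824) (nat_lit 5537215736) (nat_lit 494) (nat_lit 5) (nat_lit 493) (nat_lit 5) (nat_lit 517) (nat_lit 5) (nat_lit 590) (nat_lit 578) (nat_lit 392))) (XT.nd (nat_lit 78) (nat_lit 0) (nat_lit 76) (XT.lf (nat_lit 76) (nat_lit 9313482407)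 (nat_lit 0) (nat_lit 817146300) (nat_lit 1824) (nat_lit 4693661850) (nat_lit 494) (nat_lit 5) (nat_lit 493) (nat_lit 5) (nat_lit 517) (nat_lit 5) (nat_lit 591) (nat_lit 578) (nat_lit 391)) (XT.lf (nat_lit 76) (nat_lit 2187929091) (nat_lit 0) (nat_lit 8997544763) (nat_lit 1824) (nat_lit 3787194890) (nat_lit 495) (nat_lit 5) (nat_lit 494) (nat_lit 5) (nat_lit 518) (nat_lit 5) (nat_lit 592) (nat_lit 578) (nat_lit 390)))))) (XT.nd (nat_lit 546) (nat_lit 2660) (nat_lit 0) (XT.nd (nat_lit 234) (nat_lit 1672) (nat_lit 0) (XT.nd (nat_lit 78) (nat_lit 0) (nat_lit 76) (XT.lf (nat_lit 76) (nat_lit 10104078293) (nat_lit 0) (nat_lit 2191553629) (nat_lit 1824) (nat_lit 2827699006) (nat_lit 495) (nat_lit 5) (nat_lit 494) (nat_lit 5) (nat_lit 518) (nat_lit 5) (nat_lit 593) (nat_lit 578) (nat_lit 389)) (XT.nd (nat_lit 78) (nat_lit 0) (nat_lit 0) (XT.lf (nat_lit 76) (nat_lit 2902931004) (nat_lit 0) (nat_lit 10566787943) (nat_lit 1824) (nat_lit 1806453633) (nat_lit 496) (nat_lit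 5) (nat_lit 495) (nat_lit 5) (nat_lit 519) (nat_lit 5) (nat_lit 594) (nat_lit 578) (nat_lit 388)) (XT.lf (nat_lit 76) (nat_lit 11031085752) (nat_lit 0) (nat_lit 3676454689) (nat_lit 1824) (nat_lit 723726295) (nat_lit 496) (nat_lit 5) (nat_lit 495) (nat_lit 5) (nat_lit 519) (nat_lit 5) (nat_lit 595) (nat_lit 578) (nat_lit 387)))) (XT.nd (nat_lit 156) (nat_lit 0) (nat_lit 76) (XT.nd (nat_lit 78) (nat_lit 0) (nat_lit 0) (XT.lf (nat_lit 0) (nat_lit 414371382) (nat_lit 1824) (nat_lit 11837464440) (nat_lit 1900) (nat_lit 3336804058) (nat_lit 472) (nat_lit 5) (nat_lit 496) (nat_lit 5) (nat_lit 497) (nat_lit 5) (nat_lit 596) (nat_lit 578) (nat_lit 386)) (XT.lf (nat_lit 0) (nat_lit 1612001510) (nat_lit 1824) (nat_lit 3658621715) (nat_lit 1900) (nat_lit 10477513044) (nat_lit 472) (nat_lit 5) (nat_lit 496) (nat_lit 5) (nat_lit 497) (nat_lit 5) (nat_lit 597) (nat_lit 578) (nat_lit 385))) (XT.nd (nat_lit 78) (nat_lit 0) (nat_lit 0) (XT.lf (nat_lit 0) (nat_lit 2869119003) (nat_lit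 1824) (nat_lit 11182423092) (nat_lit 1900) (nat_lit 1858570466) (nat_lit 473) (nat_lit 5) (nat_lit 497) (nat_lit 5) (nat_lit 498) (nat_lit 5) (nat_lit 598) (nat_lit 578) (nat_lit 384)) (XT.lf (nat_lit 0) (nat_lit 4203647915) (nat_lit 1824) (nat_lit 2784508768) (nat_lit 1900) (nat_lit 9086126971) (nat_lit 473) (nat_lit 5) (nat_lit 497) (nat_lit 5) (nat_lit 498) (nat_lit 5) (nat_lit 599) (nat_lit 578) (nat_lit 383))))) (XT.nd (nat_lit 234) (nat_lit 2812) (nat_lit 0) (XT.nd (nat_lit 78) (nat_lit 0) (nat_lit 0) (XT.lf (nat_lit 0) (nat_lit 5597325348) (nat_lit 1824) (nat_lit 10390479721) (nat_lit 1900) (nat_lit 253284586) (nat_lit 474) (nat_lit 5) (nat_lit 498) (nat_lit 5) (nat_lit 499) (nat_lit 5) (nat_lit 600) (nat_lit 578) (nat_lit 382)) (XT.nd (nat_lit 78) (nat_lit 0) (nat_lit 0) (XT.lf (nat_lit 0) (nat_lit 7076871764) (nat_lit 1824) (nat_lit 1767006656) (nat_lit 1900) (nat_lit 7566194078) (nat_lit 474) (nat_lit 5) (nat_lit 498) (nat_lit 5) (nat_lit 499) (nat_lit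 5) (nat_lit 601) (nat_lit 578) (nat_lit 381)) (XT.lf (nat_lit 76) (nat_lit 7116464260) (nat_lit 0) (nat_lit 1508795719) (nat_lit 1900) (nat_lit 7956390621) (nat_lit 475) (nat_lit 5) (nat_lit 474) (nat_lit 5) (nat_lit 499) (nat_lit 5) (nat_lit 602) (nat_lit 578) (nat_lit 380)))) (XT.nd (nat_lit 156) (nat_lit 1064) (nat_lit 0) (XT.nd (nat_lit 78) (nat_lit 1824) (nat_lit 0) (XT.lf (nat_lit 0) (nat_lit 10248484673) (nat_lit 1824) (nat_lit 599637304) (nat_lit 76) (nat_lit 5907661522) (nat_lit 475) (nat_lit 5) (nat_lit 499) (nat_lit 5) (nat_lit 476) (nat_lit 5) (nat_lit 603) (nat_lit 578) (nat_lit 379)) (XT.lf (nat_lit 0) (nat_lit 8539430885) (nat_lit 1824) (nat_lit 3423464957) (nat_lit 1900) (nat_lit 4969329366) (nat_lit 451) (nat_lit 5) (nat_lit 475) (nat_lit 5) (nat_lit 476) (nat_lit 5) (nat_lit 604) (nat_lit 578) (nat_lit 378))) (XT.nd (nat_lit 78) (nat_lit 0) (nat_lit 0) (XT.lf (nat_lit 0) (nat_lit 734055101) (nat_lit 1064) (nat_lit 13006685308) (nat_lit 1140) (nat_lit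 3370873024) (nat_lit 437) (nat_lit 5) (nat_lit 451) (nat_lit 5) (nat_lit 452) (nat_lit 5) (nat_lit 605) (nat_lit 578) (nat_lit 377)) (XT.lf (nat_lit 0) (nat_lit 10128377181) (nat_lit 1064) (nat_lit 5498085362) (nat_lit 1140) (nat_lit 1666681037) (nat_lit 437) (nat_lit 5) (nat_lit 451) (nat_lit 5) (nat_lit 452) (nat_lit 5) (nat_lit 606) (nat_lit 578) (nat_lit 376))))))))
noncomputable def xc197 : XT := (XT.nd (nat_lit 2106) (nat_lit 8740) (nat_lit 0) (XT.nd (nat_lit 1014) (nat_lit 5624) (nat_lit 0) (XT.nd (nat_lit 468) (nat_lit 3344) (nat_lit 0) (XT.nd (nat_lit 234) (nat_lit 836) (nat_lit 0) (XT.nd (nat_lit 78) (nat_lit 912) (nat_lit 0) (XT.lf (nat_lit 0) (nat_lit 92995888) (nat_lit 988) (nat_lit 15236694181) (nat_lit 76) (nat_lit 2148158712) (nat_lit 424) (nat_lit 5) (nat_lit 437) (nat_lit 5) (nat_lit 425) (nat_lit 5) (nat_lit 607) (nat_lit 578) (nat_lit 375)) (XT.nd (nat_lit 78) (nat_lit 912) (nat_lit 0) (XT.lf (nat_lit 0) (nat_lit 1944034322) (nat_lit 988) (nat_lit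 5786661021) (nat_lit 76) (nat_lit 9933763251) (nat_lit 424) (nat_lit 5) (nat_lit 437) (nat_lit 5) (nat_lit 425) (nat_lit 5) (nat_lit 608) (nat_lit 578) (nat_lit 374)) (XT.lf (nat_lit 0) (nat_lit 3851481298) (nat_lit 988) (nat_lit 13957035247) (nat_lit 76) (nat_lit 45896830) (nat_lit 412) (nat_lit 5) (nat_lit 425) (nat_lit 5) (nat_lit 413) (nat_lit 5) (nat_lit 609) (nat_lit 578) (nat_lit 373)))) (XT.nd (nat_lit 78) (nat_lit 836) (nat_lit 0) (XT.lf (nat_lit 0) (nat_lit 5881228953) (nat_lit 988) (nat_lit 4251199640) (nat_lit 76) (nat_lit 7914056144) (nat_lit 412) (nat_lit 5) (nat_lit 425) (nat_lit 5) (nat_lit 413) (nat_lit 5) (nat_lit 610) (nat_lit 578) (nat_lit 372)) (XT.nd (nat_lit 78) (nat_lit 0) (nat_lit 0) (XT.lf (nat_lit 0) (nat_lit 5717967425) (nat_lit 836) (nat_lit 2264715616) (nat_lit 912) (nat_lit 10259092762) (nat_lit 401) (nat_lit 5) (nat_lit 412) (nat_lit 5) (nat_lit 413) (nat_lit 5) (nat_lit 611) (nat_lit 578) (nat_lit 371)) (XT.lf (nat_lit 0) (nat_lit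 10186351492) (nat_lit 912) (nat_lit 2539706943) (nat_lit 76) (nat_lit 5713711047) (nat_lit 401) (nat_lit 5) (nat_lit 413) (nat_lit 5) (nat_lit 402) (nat_lit 5) (nat_lit 612) (nat_lit 578) (nat_lit 370))))) (XT.nd (nat_lit 234) (nat_lit 1672) (nat_lit 0) (XT.nd (nat_lit 78) (nat_lit 836) (nat_lit 0) (XT.lf (nat_lit 0) (nat_lit 7724643568) (nat_lit 836) (nat_lit 4768786216) (nat_lit 912) (nat_lit 6147107011) (nat_lit 390) (nat_lit 5) (nat_lit 401) (nat_lit 5) (nat_lit 402) (nat_lit 5) (nat_lit 613) (nat_lit 578) (nat_lit 369)) (XT.nd (nat_lit 78) (nat_lit 836) (nat_lit 0) (XT.lf (nat_lit 0) (nat_lit 14879802340) (nat_lit 912) (nat_lit 643941592) (nat_lit 76) (nat_lit 3320912945) (nat_lit 390) (nat_lit 5) (nat_lit 402) (nat_lit 5) (nat_lit 391) (nat_lit 5) (nat_lit 614) (nat_lit 578) (nat_lit 368)) (XT.lf (nat_lit 0) (nat_lit 9926345106) (nat_lit 836) (nat_lit 7477961549) (nat_lit 912) (nat_lit 1646745090) (nat_lit 379) (nat_lit 5) (nat_lit 390) (nat_lit 5) (nat_lit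 391) (nat_lit 5) (nat_lit 615) (nat_lit 578) (nat_lit 367)))) (XT.nd (nat_lit 156) (nat_lit 760) (nat_lit 0) (XT.nd (nat_lit 78) (nat_lit 0) (nat_lit 0) (XT.lf (nat_lit 0) (nat_lit 721432622) (nat_lit 912) (nat_lit 17802124168) (nat_lit 76) (nat_lit 737662589) (nat_lit 367) (nat_lit 5) (nat_lit 379) (nat_lit 5) (nat_lit 368) (nat_lit 5) (nat_lit 616) (nat_lit 578) (nat_lit 366)) (XT.lf (nat_lit 0) (nat_lit 3220586681) (nat_lit 912) (nat_lit 7162756174) (nat_lit 76) (nat_lit 9089916998) (nat_lit 367) (nat_lit 5) (nat_lit 379) (nat_lit 5) (nat_lit 368) (nat_lit 5) (nat_lit 617) (nat_lit 578) (nat_lit 365))) (XT.nd (nat_lit 78) (nat_lit 0) (nat_lit 0) (XT.lf (nat_lit 0) (nat_lit 3732650312) (nat_lit 760) (nat_lit 2055898626) (nat_lit 836) (nat_lit 13900616129) (nat_lit 357) (nat_lit 5) (nat_lit 367) (nat_lit 5) (nat_lit 368) (nat_lit 5) (nat_lit 618) (nat_lit 578) (nat_lit 364)) (XT.lf (nat_lit 0) (nat_lit 8492712454) (nat_lit 836) (nat_lit 5013258639) (nat_lit 76)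 (nat_lit 6401720877) (nat_lit 357) (nat_lit 5) (nat_lit 368) (nat_lit 5) (nat_lit 358) (nat_lit 5) (nat_lit 619) (nat_lit 578) (nat_lit 363)))))) (XT.nd (nat_lit 546) (nat_lit 2660) (nat_lit 0) (XT.nd (nat_lit 234) (nat_lit 1520) (nat_lit 0) (XT.nd (nat_lit 78) (nat_lit 684) (nat_lit 0) (XT.lf (nat_lit 0) (nat_lit 6211048702) (nat_lit 760) (nat_lit 5088614215) (nat_lit 836) (nat_lit 8829952839) (nat_lit 347) (nat_lit 5) (nat_lit 357) (nat_lit 5) (nat_lit 358) (nat_lit 5) (nat_lit 620) (nat_lit 578) (nat_lit 362)) (XT.nd (nat_lit 78) (nat_lit 684) (nat_lit 0) (XT.lf (nat_lit 0) (nat_lit 14214147716) (nat_lit 836) (nat_lit 2656156569) (nat_lit 76) (nat_lit 3484646233) (nat_lit 347) (nat_lit 5) (nat_lit 358) (nat_lit 5) (nat_lit 348) (nat_lit 5) (nat_lit 621) (nat_lit 578) (nat_lit 361)) (XT.lf (nat_lit 0) (nat_lit 8909037103) (nat_lit 684) (nat_lit 8364354880) (nat_lit 760) (nat_lit 3309670998) (nat_lit 338) (nat_lit 5) (nat_lit 347) (nat_lit 5) (nat_lit 348) (nat_lit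 5) (nat_lit 622) (nat_lit 578) (nat_lit 360)))) (XT.nd (nat_lit 156) (nat_lit 684) (nat_lit 0) (XT.nd (nat_lit 78) (nat_lit 836) (nat_lit 0) (XT.lf (nat_lit 0) (nat_lit 20408773840) (nat_lit 760) (nat_lit 81652796) (nat_lit 76) (nat_lit 325012396) (nat_lit 338) (nat_lit 5) (nat_lit 348) (nat_lit 5) (nat_lit 339) (nat_lit 5) (nat_lit 623) (nat_lit 578) (nat_lit 359)) (XT.lf (nat_lit 0) (nat_lit 2649072899) (nat_lit 836) (nat_lit 9230485364) (nat_lit 76) (nat_lit 9170009548) (nat_lit 327) (nat_lit 5) (nat_lit 338) (nat_lit 5) (nat_lit 328) (nat_lit 5) (nat_lit 624) (nat_lit 578) (nat_lit 358))) (XT.nd (nat_lit 78) (nat_lit 0) (nat_lit 0) (XT.lf (nat_lit 0) (nat_lit 2697667802) (nat_lit 684) (nat_lit 3075997312) (nat_lit 760) (nat_lit 15514396969) (nat_lit 318) (nat_lit 5) (nat_lit 327) (nat_lit 5) (nat_lit 328) (nat_lit 5) (nat_lit 625) (nat_lit 578) (nat_lit 357)) (XT.lf (nat_lit 0) (nat_lit 9056599117) (nat_lit 760) (nat_lit 6584964539) (nat_lit 76) (nat_lit 5887845948)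 (nat_lit 318) (nat_lit 5) (nat_lit 328) (nat_lit 5) (nat_lit 319) (nat_lit 5) (nat_lit 626) (nat_lit 578) (nat_lit 356))))) (XT.nd (nat_lit 234) (nat_lit 1368) (nat_lit 0) (XT.nd (nat_lit 78) (nat_lit 608) (nat_lit 0) (XT.lf (nat_lit 0) (nat_lit 5709553108) (nat_lit 684) (nat_lit 6748342490) (nat_lit 760) (nat_lit 9316634757) (nat_lit 309) (nat_lit 5) (nat_lit 318) (nat_lit 5) (nat_lit 319) (nat_lit 5) (nat_lit 627) (nat_lit 578) (nat_lit 355)) (XT.nd (nat_lit 78) (nat_lit 608) (nat_lit 0) (XT.lf (nat_lit 0) (nat_lit 15982094683) (nat_lit 760) (nat_lit 3705405068) (nat_lit 76) (nat_lit 2335956585) (nat_lit 309) (nat_lit 5) (nat_lit 319) (nat_lit 5) (nat_lit 310) (nat_lit 5) (nat_lit 628) (nat_lit 578) (nat_lit 354)) (XT.lf (nat_lit 0) (nat_lit 8968820806) (nat_lit 608) (nat_lit 10706286022) (nat_lit 684) (nat_lit 2600287770) (nat_lit 301) (nat_lit 5) (nat_lit 309) (nat_lit 5) (nat_lit 310) (nat_lit 5) (nat_lit 629) (nat_lit 578) (nat_lit 353)))) (XT.nd (nat_lit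 156) (nat_lit 608) (nat_lit 0) (XT.nd (nat_lit 78) (nat_lit 684) (nat_lit 0) (XT.lf (nat_lit 0) (nat_lit 918138718) (nat_lit 684) (nat_lit 596685298) (nat_lit 76) (nat_lit 21017020606) (nat_lit 300) (nat_lit 5) (nat_lit 309) (nat_lit 5) (nat_lit 301) (nat_lit 5) (nat_lit 630) (nat_lit 578) (nat_lit 352)) (XT.lf (nat_lit 0) (nat_lit 4600565981) (nat_lit 760) (nat_lit 10334381549) (nat_lit 76) (nat_lit 7855563678) (nat_lit 291) (nat_lit 5) (nat_lit 301) (nat_lit 5) (nat_lit 292) (nat_lit 5) (nat_lit 631) (nat_lit 578) (nat_lit 351))) (XT.nd (nat_lit 78) (nat_lit 0) (nat_lit 0) (XT.lf (nat_lit 0) (nat_lit 2744312815) (nat_lit 608) (nat_lit 5639776926) (nat_lit 684) (nat_lit 14669712741) (nat_lit 283) (nat_lit 5) (nat_lit 291) (nat_lit 5) (nat_lit 292) (nat_lit 5) (nat_lit 632) (nat_lit 578) (nat_lit 350)) (XT.lf (nat_lit 0) (nat_lit 12333645340) (nat_lit 684) (nat_lit 7127190261) (nat_lit 76) (nat_lit 3859717064) (nat_lit 283) (nat_lit 5) (nat_lit 292) (nat_lit 5)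 (nat_lit 284) (nat_lit 5) (nat_lit 633) (nat_lit 578) (nat_lit 349))))))) (XT.nd (nat_lit 1092) (nat_lit 4104) (nat_lit 0) (XT.nd (nat_lit 546) (nat_lit 2204) (nat_lit 0) (XT.nd (nat_lit 234) (nat_lit 1140) (nat_lit 0) (XT.nd (nat_lit 78) (nat_lit 684) (nat_lit 0) (XT.lf (nat_lit 0) (nat_lit 6359433798) (nat_lit 608) (nat_lit 10077096163) (nat_lit 684) (nat_lit 7154621435) (nat_lit 275) (nat_lit 5) (nat_lit 283) (nat_lit 5) (nat_lit 284) (nat_lit 5) (nat_lit 634) (nat_lit 578) (nat_lit 348)) (XT.nd (nat_lit 78) (nat_lit 684) (nat_lit 0) (XT.lf (nat_lit 0) (nat_lit 20207059717) (nat_lit 608) (nat_lit 457988147) (nat_lit 684) (nat_lit 3201243024) (nat_lit 275) (nat_lit 5) (nat_lit 283) (nat_lit 5) (nat_lit 284) (nat_lit 5) (nat_lit 635) (nat_lit 578) (nat_lit 347)) (XT.lf (nat_lit 0) (nat_lit 944240786) (nat_lit 684) (nat_lit 13897549093) (nat_lit 76) (nat_lit 9302556857) (nat_lit 266) (nat_lit 5) (nat_lit 275) (nat_lit 5) (nat_lit 267) (nat_lit 5) (nat_lit 636)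 (nat_lit 578) (nat_lit 346)))) (XT.nd (nat_lit 156) (nat_lit 532) (nat_lit 0) (XT.nd (nat_lit 78) (nat_lit 0) (nat_lit 0) (XT.lf (nat_lit 0) (nat_lit 23656516) (nat_lit 608) (nat_lit 5129902589) (nat_lit 684) (nat_lit 19273505884) (nat_lit 258) (nat_lit 5) (nat_lit 266) (nat_lit 5) (nat_lit 267) (nat_lit 5) (nat_lit 637) (nat_lit 578) (nat_lit 345)) (XT.lf (nat_lit 0) (nat_lit 9567835812) (nat_lit 684) (nat_lit 10338902956) (nat_lit 76) (nat_lit 4806283672) (nat_lit 258) (nat_lit 5) (nat_lit 267) (nat_lit 5) (nat_lit 259) (nat_lit 5) (nat_lit 638) (nat_lit 578) (nat_lit 344))) (XT.nd (nat_lit 78) (nat_lit 0) (nat_lit 0) (XT.lf (nat_lit 0) (nat_lit 4020379472) (nat_lit 532) (nat_lit 10106059252) (nat_lit 608) (nat_lit 10877139774) (nat_lit 251) (nat_lit 5) (nat_lit 258) (nat_lit 5) (nat_lit 259) (nat_lit 5) (nat_lit 639) (nat_lit 578) (nat_lit 343)) (XT.lf (nat_lit 0) (nat_lit 18801760425) (nat_lit 532) (nat_lit 39842726) (nat_lit 608) (nat_lit 6457034999) (nat_lit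 251) (nat_lit 5) (nat_lit 258) (nat_lit 5) (nat_lit 259) (nat_lit 5) (nat_lit 640) (nat_lit 578) (nat_lit 342))))) (XT.nd (nat_lit 234) (nat_lit 1064) (nat_lit 0) (XT.nd (nat_lit 78) (nat_lit 608) (nat_lit 0) (XT.lf (nat_lit 0) (nat_lit 8316637566) (nat_lit 532) (nat_lit 15450915726) (nat_lit 608) (nat_lit 1829716316) (nat_lit 244) (nat_lit 5) (nat_lit 251) (nat_lit 5) (nat_lit 252) (nat_lit 5) (nat_lit 641) (nat_lit 578) (nat_lit 341)) (XT.nd (nat_lit 78) (nat_lit 532) (nat_lit 0) (XT.lf (nat_lit 0) (nat_lit 2892491653) (nat_lit 608) (nat_lit 2411048559) (nat_lit 76) (nat_lit 20597153480) (nat_lit 243) (nat_lit 5) (nat_lit 251) (nat_lit 5) (nat_lit 244) (nat_lit 5) (nat_lit 642) (nat_lit 578) (nat_lit 340)) (XT.lf (nat_lit 0) (nat_lit 7798042103) (nat_lit 608) (nat_lit 13333755864) (nat_lit 76) (nat_lit 5075878684) (nat_lit 236) (nat_lit 5) (nat_lit 244) (nat_lit 5) (nat_lit 237) (nat_lit 5) (nat_lit 643) (nat_lit 578) (nat_lit 339)))) (XT.nd (nat_lit 156) (nat_lit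 532) (nat_lit 0) (XT.nd (nat_lit 78) (nat_lit 0) (nat_lit 0) (XT.lf (nat_lit 0) (nat_lit 1962149261) (nat_lit 532) (nat_lit 10899910979) (nat_lit 608) (nat_lit 13657532132) (nat_lit 229) (nat_lit 5) (nat_lit 236) (nat_lit 5) (nat_lit 237) (nat_lit 5) (nat_lit 644) (nat_lit 578) (nat_lit 338)) (XT.lf (nat_lit 0) (nat_lit 17739597961) (nat_lit 532) (nat_lit 373486202) (nat_lit 608) (nat_lit 8722947973) (nat_lit 229) (nat_lit 5) (nat_lit 236) (nat_lit 5) (nat_lit 237) (nat_lit 5) (nat_lit 645) (nat_lit 578) (nat_lit 337))) (XT.nd (nat_lit 78) (nat_lit 76) (nat_lit 0) (XT.lf (nat_lit 0) (nat_lit 6689156073) (nat_lit 456) (nat_lit 16887003190) (nat_lit 532) (nat_lit 3580501048) (nat_lit 223) (nat_lit 5) (nat_lit 229) (nat_lit 5) (nat_lit 230) (nat_lit 5) (nat_lit 646) (nat_lit 578) (nat_lit 336)) (XT.lf (nat_lit 0) (nat_lit 1703209148) (nat_lit 532) (nat_lit 4587501572) (nat_lit 76) (nat_lit 21191569404) (nat_lit 222) (nat_lit 5) (nat_lit 229) (nat_lit 5) (nat_lit 223)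 (nat_lit 5) (nat_lit 647) (nat_lit 578) (nat_lit 335)))))) (XT.nd (nat_lit 546) (nat_lit 2128) (nat_lit 0) (XT.nd (nat_lit 234) (nat_lit 988) (nat_lit 0) (XT.nd (nat_lit 78) (nat_lit 456) (nat_lit 0) (XT.lf (nat_lit 0) (nat_lit 7147272892) (nat_lit 608) (nat_lit 16107167279) (nat_lit 76) (nat_lit 4557446589) (nat_lit 215) (nat_lit 5) (nat_lit 223) (nat_lit 5) (nat_lit 216) (nat_lit 5) (nat_lit 648) (nat_lit 578) (nat_lit 334)) (XT.nd (nat_lit 78) (nat_lit 0) (nat_lit 0) (XT.lf (nat_lit 0) (nat_lit 193141880) (nat_lit 456) (nat_lit 12577408885) (nat_lit 532) (nat_lit 15376128320) (nat_lit 209) (nat_lit 5) (nat_lit 215) (nat_lit 5) (nat_lit 216) (nat_lit 5) (nat_lit 649) (nat_lit 578) (nat_lit 333)) (XT.lf (nat_lit 0) (nat_lit 17032800277) (nat_lit 456) (nat_lit 1578049158) (nat_lit 532) (nat_lit 9875226927) (nat_lit 209) (nat_lit 5) (nat_lit 215) (nat_lit 5) (nat_lit 216) (nat_lit 5) (nat_lit 650) (nat_lit 578) (nat_lit 332)))) (XT.nd (nat_lit 156) (nat_lit 456)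 (nat_lit 0) (XT.nd (nat_lit 78) (nat_lit 76) (nat_lit 0) (XT.lf (nat_lit 0) (nat_lit 5379996090) (nat_lit 456) (nat_lit 19282013816) (nat_lit 532) (nat_lit 4168370765) (nat_lit 203) (nat_lit 5) (nat_lit 209) (nat_lit 5) (nat_lit 210) (nat_lit 5) (nat_lit 651) (nat_lit 578) (nat_lit 331)) (XT.lf (nat_lit 0) (nat_lit 1715306026) (nat_lit 532) (nat_lit 6501507247) (nat_lit 76) (nat_lit 20962856232) (nat_lit 202) (nat_lit 5) (nat_lit 209) (nat_lit 5) (nat_lit 203) (nat_lit 5) (nat_lit 652) (nat_lit 578) (nat_lit 330))) (XT.nd (nat_lit 78) (nat_lit 0) (nat_lit 0) (XT.lf (nat_lit 0) (nat_lit 7748824019) (nat_lit 532) (nat_lit 18657833656) (nat_lit 76) (nat_lit 3126975932) (nat_lit 196) (nat_lit 5) (nat_lit 203) (nat_lit 5) (nat_lit 197) (nat_lit 5) (nat_lit 653) (nat_lit 578) (nat_lit 329)) (XT.lf (nat_lit 0) (nat_lit 13997979876) (nat_lit 532) (nat_lit 1264624224) (nat_lit 76) (nat_lit 14630173729) (nat_lit 196) (nat_lit 5) (nat_lit 203) (nat_lit 5) (nat_lit 197) (nat_lit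 5) (nat_lit 654) (nat_lit 578) (nat_lit 328))))) (XT.nd (nat_lit 234) (nat_lit 1216) (nat_lit 0) (XT.nd (nat_lit 78) (nat_lit 456) (nat_lit 0) (XT.lf (nat_lit 0) (nat_lit 16690547132) (nat_lit 456) (nat_lit 3786637876) (nat_lit 532) (nat_lit 9779818789) (nat_lit 190) (nat_lit 5) (nat_lit 196) (nat_lit 5) (nat_lit 197) (nat_lit 5) (nat_lit 655) (nat_lit 578) (nat_lit 327)) (XT.nd (nat_lit 78) (nat_lit 76) (nat_lit 0) (XT.lf (nat_lit 0) (nat_lit 4394963858) (nat_lit 380) (nat_lit 22776226337) (nat_lit 456) (nat_lit 3455619953) (nat_lit 185) (nat_lit 5) (nat_lit 190) (nat_lit 5) (nat_lit 191) (nat_lit 5) (nat_lit 656) (nat_lit 578) (nat_lit 326)) (XT.lf (nat_lit 0) (nat_lit 3069235589) (nat_lit 456) (nat_lit 8152645839) (nat_lit 76) (nat_lit 19779473382) (nat_lit 184) (nat_lit 5) (nat_lit 190) (nat_lit 5) (nat_lit 185) (nat_lit 5) (nat_lit 657) (nat_lit 578) (nat_lit 325)))) (XT.nd (nat_lit 156) (nat_lit 760) (nat_lit 0) (XT.nd (nat_lit 78) (nat_lit 0) (nat_lit 0)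 (XT.lf (nat_lit 0) (nat_lit 9746911122) (nat_lit 532) (nat_lit 20989026691) (nat_lit 76) (nat_lit 645624018) (nat_lit 178) (nat_lit 5) (nat_lit 185) (nat_lit 5) (nat_lit 179) (nat_lit 5) (nat_lit 658) (nat_lit 578) (nat_lit 324)) (XT.lf (nat_lit 0) (nat_lit 16684349748) (nat_lit 532) (nat_lit 2428592428) (nat_lit 76) (nat_lit 12653906793) (nat_lit 178) (nat_lit 5) (nat_lit 185) (nat_lit 5) (nat_lit 179) (nat_lit 5) (nat_lit 659) (nat_lit 578) (nat_lit 323))) (XT.nd (nat_lit 78) (nat_lit 380) (nat_lit 0) (XT.lf (nat_lit 0) (nat_lit 16717633522) (nat_lit 380) (nat_lit 7148329544) (nat_lit 456) (nat_lit 8291770429) (nat_lit 173) (nat_lit 5) (nat_lit 178) (nat_lit 5) (nat_lit 179) (nat_lit 5) (nat_lit 660) (nat_lit 578) (nat_lit 322)) (XT.lf (nat_lit 0) (nat_lit 3734954158) (nat_lit 380) (nat_lit 27526638321) (nat_lit 456) (nat_lit 1293435717) (nat_lit 168) (nat_lit 5) (nat_lit 173) (nat_lit 5) (nat_lit 174) (nat_lit 5) (nat_lit 661) (nat_lit 578) (nat_lit 321))))))))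
noncomputable def xc198 : XT := (XT.nd (nat_lit 76596) (nat_lit 0) (nat_lit 11172) (XT.nd (nat_lit 75504) (nat_lit 0) (nat_lit 23560) (XT.nd (nat_lit 74958) (nat_lit 0) (nat_lit 24852) (XT.nd (nat_lit 74724) (nat_lit 0) (nat_lit 24776) (XT.nd (nat_lit 78) (nat_lit 380) (nat_lit 0) (XT.lf (nat_lit 0) (nat_lit 5916761307) (nat_lit 456) (nat_lit 9546070493) (nat_lit 76) (nat_lit 17493707130) (nat_lit 167) (nat_lit 5) (nat_lit 173) (nat_lit 5) (nat_lit 168) (nat_lit 5) (nat_lit 662) (nat_lit 578) (nat_lit 320)) (XT.nd (nat_lit 78) (nat_lit 0) (nat_lit 0) (XT.lf (nat_lit 0) (nat_lit 10234463293) (nat_lit 380) (nat_lit 3082820270) (nat_lit 456) (nat_lit 20047356665) (nat_lit 162) (nat_lit 5) (nat_lit 167) (nat_lit 5) (nat_lit 168) (nat_lit 5) (nat_lit 663) (nat_lit 578) (nat_lit 319)) (XT.lf (nat_lit 0) (nat_lit 20989265331) (nat_lit 456) (nat_lit 3306640749) (nat_lit 76) (nat_lit 9482528641) (nat_lit 162) (nat_lit 5) (nat_lit 168) (nat_lit 5) (nat_lit 163) (nat_lit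 5) (nat_lit 664) (nat_lit 578) (nat_lit 318)))) (XT.nd (nat_lit 78) (nat_lit 0) (nat_lit 0) (XT.lf (nat_lit 0) (nat_lit 483626855) (nat_lit 0) (nat_lit 483626855) (nat_lit 1748) (nat_lit 5696254073) (nat_lit 488) (nat_lit 5) (nat_lit 488) (nat_lit 3) (nat_lit 511) (nat_lit 3) (nat_lit 579) (nat_lit 579) (nat_lit 402)) (XT.nd (nat_lit 78) (nat_lit 0) (nat_lit 0) (XT.lf (nat_lit 0) (nat_lit 2370726858) (nat_lit 1748) (nat_lit 5807843424) (nat_lit 1824) (nat_lit 5273342181) (nat_lit 488) (nat_lit 5) (nat_lit 511) (nat_lit 3) (nat_lit 512) (nat_lit 5) (nat_lit 580) (nat_lit 579) (nat_lit 401)) (XT.lf (nat_lit 76) (nat_lit 874936316) (nat_lit 0) (nat_lit 1942828476) (nat_lit 1824) (nat_lit 10761501560) (nat_lit 489) (nat_lit 5) (nat_lit 488) (nat_lit 5) (nat_lit 512) (nat_lit 5) (nat_lit 581) (nat_lit 579) (nat_lit 400))))) (XT.nd (nat_lit 234) (nat_lit 0) (nat_lit 76) (XT.nd (nat_lit 78) (nat_lit 0) (nat_lit 0) (XT.lf (nat_lit 0) (nat_lit 3331857311) (nat_lit 1748)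 (nat_lit 5972668970) (nat_lit 1824) (nat_lit 4403479682) (nat_lit 489) (nat_lit 5) (nat_lit 512) (nat_lit 5) (nat_lit 513) (nat_lit 5) (nat_lit 582) (nat_lit 579) (nat_lit 399)) (XT.nd (nat_lit 78) (nat_lit 0) (nat_lit 76) (XT.lf (nat_lit 76) (nat_lit 887060165) (nat_lit 0) (nat_lit 2978189333) (nat_lit 1824) (nat_lit 9973891414) (nat_lit 490) (nat_lit 5) (nat_lit 489) (nat_lit 5) (nat_lit 513) (nat_lit 5) (nat_lit 583) (nat_lit 579) (nat_lit 398)) (XT.lf (nat_lit 0) (nat_lit 4462787605) (nat_lit 1748) (nat_lit 6035491859) (nat_lit 1824) (nat_lit 3473550418) (nat_lit 490) (nat_lit 5) (nat_lit 513) (nat_lit 5) (nat_lit 514) (nat_lit 5) (nat_lit 584) (nat_lit 579) (nat_lit 397)))) (XT.nd (nat_lit 156) (nat_lit 0) (nat_lit 76) (XT.nd (nat_lit 78) (nat_lit 0) (nat_lit 76) (XT.lf (nat_lit 76) (nat_lit 1007512982) (nat_lit 0) (nat_lit 4081785888) (nat_lit 1824) (nat_lit 9017534180) (nat_lit 491) (nat_lit 5) (nat_lit 490) (nat_lit 5) (nat_lit 514) (nat_lit 5) (nat_lit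 585) (nat_lit 579) (nat_lit 396)) (XT.lf (nat_lit 0) (nat_lit 5776029962) (nat_lit 1748) (nat_lit 5992373360) (nat_lit 1824) (nat_lit 2475180018) (nat_lit 491) (nat_lit 5) (nat_lit 514) (nat_lit 5) (nat_lit 515) (nat_lit 5) (nat_lit 586) (nat_lit 579) (nat_lit 395))) (XT.nd (nat_lit 78) (nat_lit 0) (nat_lit 76) (XT.lf (nat_lit 76) (nat_lit 1240481279) (nat_lit 0) (nat_lit 5262206373) (nat_lit 1824) (nat_lit 7879857978) (nat_lit 492) (nat_lit 5) (nat_lit 491) (nat_lit 5) (nat_lit 515) (nat_lit 5) (nat_lit 587) (nat_lit 579) (nat_lit 394)) (XT.lf (nat_lit 0) (nat_lit 7284545381) (nat_lit 1748) (nat_lit 5839079629) (nat_lit 1824) (nat_lit 1399849634) (nat_lit 492) (nat_lit 5) (nat_lit 515) (nat_lit 5) (nat_lit 516) (nat_lit 5) (nat_lit 588) (nat_lit 579) (nat_lit 393)))))) (XT.nd (nat_lit 546) (nat_lit 1520) (nat_lit 0) (XT.nd (nat_lit 234) (nat_lit 0) (nat_lit 76) (XT.nd (nat_lit 78) (nat_lit 0) (nat_lit 76) (XT.lf (nat_lit 76) (nat_lit 1590455290) (nat_lit 0) (nat_lit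 6528198490) (nat_lit 1824) (nat_lit 6547836989) (nat_lit 493) (nat_lit 5) (nat_lit 492) (nat_lit 5) (nat_lit 516) (nat_lit 5) (nat_lit 589) (nat_lit 579) (nat_lit 392)) (XT.nd (nat_lit 78) (nat_lit 0) (nat_lit 0) (XT.lf (nat_lit 0) (nat_lit 9001769648) (nat_lit 1748) (nat_lit 5571076546) (nat_lit 1824) (nat_lit 238875301) (nat_lit 493) (nat_lit 5) (nat_lit 516) (nat_lit 5) (nat_lit 517) (nat_lit 5) (nat_lit 590) (nat_lit 579) (nat_lit 391)) (XT.lf (nat_lit 76) (nat_lit 2062234502) (nat_lit 0) (nat_lit 7888690321) (nat_lit 1824) (nat_lit 5007965243) (nat_lit 494) (nat_lit 5) (nat_lit 493) (nat_lit 5) (nat_lit 517) (nat_lit 5) (nat_lit 591) (nat_lit 579) (nat_lit 390)))) (XT.nd (nat_lit 156) (nat_lit 0) (nat_lit 76) (XT.nd (nat_lit 78) (nat_lit 0) (nat_lit 76) (XT.lf (nat_lit 76) (nat_lit 9918205227) (nat_lit 0) (nat_lit 1030123036) (nat_lit 1824) (nat_lit 4160089198) (nat_lit 494) (nat_lit 5) (nat_lit 493) (nat_lit 5) (nat_lit 517) (nat_lit 5) (nat_lit 592) (nat_lit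 579) (nat_lit 389)) (XT.lf (nat_lit 76) (nat_lit 2660933740) (nat_lit 0) (nat_lit 9352811349) (nat_lit 1824) (nat_lit 3246229746) (nat_lit 495) (nat_lit 5) (nat_lit 494) (nat_lit 5) (nat_lit 518) (nat_lit 5) (nat_lit 593) (nat_lit 579) (nat_lit 388))) (XT.nd (nat_lit 78) (nat_lit 0) (nat_lit 76) (XT.lf (nat_lit 76) (nat_lit 10726989337) (nat_lit 0) (nat_lit 2407262830) (nat_lit 1824) (nat_lit 2279636280) (nat_lit 495) (nat_lit 5) (nat_lit 494) (nat_lit 5) (nat_lit 518) (nat_lit 5) (nat_lit 594) (nat_lit 579) (nat_lit 387)) (XT.lf (nat_lit 76) (nat_lit 3391989843) (nat_lit 0) (nat_lit 10929913645) (nat_lit 1824) (nat_lit 1248082869) (nat_lit 496) (nat_lit 5) (nat_lit 495) (nat_lit 5) (nat_lit 519) (nat_lit 5) (nat_lit 595) (nat_lit 579) (nat_lit 386))))) (XT.nd (nat_lit 234) (nat_lit 0) (nat_lit 76) (XT.nd (nat_lit 78) (nat_lit 1748) (nat_lit 0) (XT.lf (nat_lit 76) (nat_lit 11674256701) (nat_lit 0) (nat_lit 3898797453) (nat_lit 1824) (nat_lit 155357844) (nat_lit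 496) (nat_lit 5) (nat_lit 495) (nat_lit 5) (nat_lit 519) (nat_lit 5) (nat_lit 596) (nat_lit 579) (nat_lit 385)) (XT.nd (nat_lit 78) (nat_lit 0) (nat_lit 0) (XT.lf (nat_lit 0) (nat_lit 988450041) (nat_lit 1824) (nat_lit 11634510205) (nat_lit 1900) (nat_lit 3266085842) (nat_lit 472) (nat_lit 5) (nat_lit 496) (nat_lit 5) (nat_lit 497) (nat_lit 5) (nat_lit 597) (nat_lit 579) (nat_lit 384)) (XT.lf (nat_lit 0) (nat_lit 2198938826) (nat_lit 1824) (nat_lit 3300712264) (nat_lit 1900) (nat_lit 10552304190) (nat_lit 472) (nat_lit 5) (nat_lit 496) (nat_lit 5) (nat_lit 497) (nat_lit 5) (nat_lit 598) (nat_lit 579) (nat_lit 383)))) (XT.nd (nat_lit 156) (nat_lit 0) (nat_lit 76) (XT.nd (nat_lit 78) (nat_lit 0) (nat_lit 0) (XT.lf (nat_lit 0) (nat_lit 3472334265) (nat_lit 1824) (nat_lit 10966076472) (nat_lit 1900) (nat_lit 1778938625) (nat_lit 473) (nat_lit 5) (nat_lit 497) (nat_lit 5) (nat_lit 498) (nat_lit 5) (nat_lit 599) (nat_lit 579) (nat_lit 382)) (XT.lf (nat_lit 0) (nat_lit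 4822851150) (nat_lit 1824) (nat_lit 2408831217) (nat_lit 1900) (nat_lit 9153336520) (nat_lit 473) (nat_lit 5) (nat_lit 497) (nat_lit 5) (nat_lit 498) (nat_lit 5) (nat_lit 600) (nat_lit 579) (nat_lit 381))) (XT.nd (nat_lit 78) (nat_lit 0) (nat_lit 0) (XT.lf (nat_lit 0) (nat_lit 6236049620) (nat_lit 1824) (nat_lit 10158522180) (nat_lit 1900) (nat_lit 160757195) (nat_lit 474) (nat_lit 5) (nat_lit 498) (nat_lit 5) (nat_lit 499) (nat_lit 5) (nat_lit 601) (nat_lit 579) (nat_lit 380)) (XT.lf (nat_lit 0) (nat_lit 7734857989) (nat_lit 1824) (nat_lit 1371202539) (nat_lit 1900) (nat_lit 7621838467) (nat_lit 474) (nat_lit 5) (nat_lit 498) (nat_lit 5) (nat_lit 499) (nat_lit 5) (nat_lit 602) (nat_lit 579) (nat_lit 379))))))) (XT.nd (nat_lit 1014) (nat_lit 6156) (nat_lit 0) (XT.nd (nat_lit 468) (nat_lit 2584) (nat_lit 0) (XT.nd (nat_lit 234) (nat_lit 2052) (nat_lit 0) (XT.nd (nat_lit 78) (nat_lit 1748) (nat_lit 0) (XT.lf (nat_lit 76) (nat_lit 7687101321) (nat_lit 0) (nat_lit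 1619767059) (nat_lit 1900) (nat_lit 7596188092) (nat_lit 475) (nat_lit 5) (nat_lit 474) (nat_lit 5) (nat_lit 499) (nat_lit 5) (nat_lit 603) (nat_lit 579) (nat_lit 378)) (XT.nd (nat_lit 78) (nat_lit 1824) (nat_lit 0) (XT.lf (nat_lit 0) (nat_lit 10952060860) (nat_lit 1824) (nat_lit 181179566) (nat_lit 76) (nat_lit 5947642420) (nat_lit 475) (nat_lit 5) (nat_lit 499) (nat_lit 5) (nat_lit 476) (nat_lit 5) (nat_lit 604) (nat_lit 579) (nat_lit 377)) (XT.lf (nat_lit 0) (nat_lit 9137838075) (nat_lit 1824) (nat_lit 3555921963) (nat_lit 1900) (nat_lit 4567234222) (nat_lit 451) (nat_lit 5) (nat_lit 475) (nat_lit 5) (nat_lit 476) (nat_lit 5) (nat_lit 605) (nat_lit 579) (nat_lit 376)))) (XT.nd (nat_lit 78) (nat_lit 988) (nat_lit 0) (XT.lf (nat_lit 0) (nat_lit 1183764695) (nat_lit 1064) (nat_lit 13316174651) (nat_lit 1140) (nat_lit 2944176195) (nat_lit 437) (nat_lit 5) (nat_lit 451) (nat_lit 5) (nat_lit 452) (nat_lit 5) (nat_lit 606) (nat_lit 579) (nat_lit 375)) (XT.nd (nat_lit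 78) (nat_lit 988) (nat_lit 0) (XT.lf (nat_lit 0) (nat_lit 10757443246) (nat_lit 1064) (nat_lit 5656434949) (nat_lit 1140) (nat_lit 1215588884) (nat_lit 437) (nat_lit 5) (nat_lit 451) (nat_lit 5) (nat_lit 452) (nat_lit 5) (nat_lit 607) (nat_lit 579) (nat_lit 374)) (XT.lf (nat_lit 0) (nat_lit 566077320) (nat_lit 988) (nat_lit 15101644430) (nat_lit 76) (nat_lit 2150219551) (nat_lit 424) (nat_lit 5) (nat_lit 437) (nat_lit 5) (nat_lit 425) (nat_lit 5) (nat_lit 608) (nat_lit 579) (nat_lit 373))))) (XT.nd (nat_lit 234) (nat_lit 1672) (nat_lit 0) (XT.nd (nat_lit 78) (nat_lit 912) (nat_lit 0) (XT.lf (nat_lit 0) (nat_lit 2444896885) (nat_lit 988) (nat_lit 5471233815) (nat_lit 76) (nat_lit 10092338187) (nat_lit 424) (nat_lit 5) (nat_lit 437) (nat_lit 5) (nat_lit 425) (nat_lit 5) (nat_lit 609) (nat_lit 579) (nat_lit 372)) (XT.nd (nat_lit 78) (nat_lit 0) (nat_lit 0) (XT.lf (nat_lit 0) (nat_lit 4384037522) (nat_lit 988) (nat_lit 13798521775) (nat_lit 76) (nat_lit 19793341) (nat_lit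 412) (nat_lit 5) (nat_lit 425) (nat_lit 5) (nat_lit 413) (nat_lit 5) (nat_lit 610) (nat_lit 579) (nat_lit 371)) (XT.lf (nat_lit 0) (nat_lit 6445448236) (nat_lit 988) (nat_lit 3907150910) (nat_lit 76) (nat_lit 8045845673) (nat_lit 412) (nat_lit 5) (nat_lit 425) (nat_lit 5) (nat_lit 413) (nat_lit 5) (nat_lit 611) (nat_lit 579) (nat_lit 370)))) (XT.nd (nat_lit 156) (nat_lit 836) (nat_lit 0) (XT.nd (nat_lit 78) (nat_lit 0) (nat_lit 0) (XT.lf (nat_lit 0) (nat_lit 6258576650) (nat_lit 836) (nat_lit 2324365494) (nat_lit 912) (nat_lit 10014820088) (nat_lit 401) (nat_lit 5) (nat_lit 412) (nat_lit 5) (nat_lit 413) (nat_lit 5) (nat_lit 612) (nat_lit 579) (nat_lit 369)) (XT.lf (nat_lit 0) (nat_lit 10821953263) (nat_lit 912) (nat_lit 2163842093) (nat_lit 76) (nat_lit 5814095768) (nat_lit 401) (nat_lit 5) (nat_lit 413) (nat_lit 5) (nat_lit 402) (nat_lit 5) (nat_lit 613) (nat_lit 579) (nat_lit 368))) (XT.nd (nat_lit 78) (nat_lit 0) (nat_lit 0) (XT.lf (nat_lit 0) (nat_lit 8302988462)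 (nat_lit 836) (nat_lit 4866468455) (nat_lit 912) (nat_lit 5835331900) (nat_lit 390) (nat_lit 5) (nat_lit 401) (nat_lit 5) (nat_lit 402) (nat_lit 5) (nat_lit 614) (nat_lit 579) (nat_lit 367)) (XT.lf (nat_lit 0) (nat_lit 15595186193) (nat_lit 912) (nat_lit 232873648) (nat_lit 76) (nat_lit 3385099572) (nat_lit 390) (nat_lit 5) (nat_lit 402) (nat_lit 5) (nat_lit 391) (nat_lit 5) (nat_lit 615) (nat_lit 579) (nat_lit 366)))))) (XT.nd (nat_lit 546) (nat_lit 2888) (nat_lit 0) (XT.nd (nat_lit 234) (nat_lit 1520) (nat_lit 0) (XT.nd (nat_lit 78) (nat_lit 912) (nat_lit 0) (XT.lf (nat_lit 0) (nat_lit 10546029660) (nat_lit 836) (nat_lit 7618693451) (nat_lit 912) (nat_lit 1259068900) (nat_lit 379) (nat_lit 5) (nat_lit 390) (nat_lit 5) (nat_lit 391) (nat_lit 5) (nat_lit 616) (nat_lit 579) (nat_lit 365)) (XT.nd (nat_lit 78) (nat_lit 0) (nat_lit 0) (XT.lf (nat_lit 0) (nat_lit 1145661252) (nat_lit 912) (nat_lit 17726131557) (nat_lit 76) (nat_lit 766422121) (nat_lit 367) (nat_lit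 5) (nat_lit 379) (nat_lit 5) (nat_lit 368) (nat_lit 5) (nat_lit 617) (nat_lit 579) (nat_lit 364)) (XT.lf (nat_lit 0) (nat_lit 3686763099) (nat_lit 912) (nat_lit 6882447479) (nat_lit 76) (nat_lit 9285446986) (nat_lit 367) (nat_lit 5) (nat_lit 379) (nat_lit 5) (nat_lit 368) (nat_lit 5) (nat_lit 618) (nat_lit 579) (nat_lit 363)))) (XT.nd (nat_lit 156) (nat_lit 760) (nat_lit 0) (XT.nd (nat_lit 78) (nat_lit 0) (nat_lit 0) (XT.lf (nat_lit 0) (nat_lit 4228080533) (nat_lit 760) (nat_lit 2072858295) (nat_lit 836) (nat_lit 13774045602) (nat_lit 357) (nat_lit 5) (nat_lit 367) (nat_lit 5) (nat_lit 368) (nat_lit 5) (nat_lit 619) (nat_lit 579) (nat_lit 362)) (XT.lf (nat_lit 0) (nat_lit 9051562548) (nat_lit 836) (nat_lit 4693343124) (nat_lit 76) (nat_lit 6553129278) (nat_lit 357) (nat_lit 5) (nat_lit 368) (nat_lit 5) (nat_lit 358) (nat_lit 5) (nat_lit 620) (nat_lit 579) (nat_lit 361))) (XT.nd (nat_lit 78) (nat_lit 0) (nat_lit 0) (XT.lf (nat_lit 0) (nat_lit 6752686017) (nat_lit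 760) (nat_lit 5157048777) (nat_lit 836) (nat_lit 8614761368) (nat_lit 347) (nat_lit 5) (nat_lit 357) (nat_lit 5) (nat_lit 358) (nat_lit 5) (nat_lit 621) (nat_lit 579) (nat_lit 360)) (XT.lf (nat_lit 0) (nat_lit 14875190543) (nat_lit 836) (nat_lit 2292699506) (nat_lit 76) (nat_lit 3586594542) (nat_lit 347) (nat_lit 5) (nat_lit 358) (nat_lit 5) (nat_lit 348) (nat_lit 5) (nat_lit 622) (nat_lit 579) (nat_lit 359))))) (XT.nd (nat_lit 234) (nat_lit 1368) (nat_lit 0) (XT.nd (nat_lit 78) (nat_lit 836) (nat_lit 0) (XT.lf (nat_lit 0) (nat_lit 9501057380) (nat_lit 684) (nat_lit 8489861787) (nat_lit 760) (nat_lit 2996334729) (nat_lit 338) (nat_lit 5) (nat_lit 347) (nat_lit 5) (nat_lit 348) (nat_lit 5) (nat_lit 623) (nat_lit 579) (nat_lit 358)) (XT.nd (nat_lit 78) (nat_lit 76) (nat_lit 0) (XT.lf (nat_lit 0) (nat_lit 333875946) (nat_lit 760) (nat_lit 20850271124) (nat_lit 836) (nat_lit 40228201) (nat_lit 328) (nat_lit 5) (nat_lit 338) (nat_lit 5) (nat_lit 339) (nat_lit 5) (nat_lit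 624) (nat_lit 579) (nat_lit 357)) (XT.lf (nat_lit 0) (nat_lit 3065004651) (nat_lit 836) (nat_lit 9000176899) (nat_lit 76) (nat_lit 9398091137) (nat_lit 327) (nat_lit 5) (nat_lit 338) (nat_lit 5) (nat_lit 328) (nat_lit 5) (nat_lit 625) (nat_lit 579) (nat_lit 356)))) (XT.nd (nat_lit 156) (nat_lit 684) (nat_lit 0) (XT.nd (nat_lit 78) (nat_lit 0) (nat_lit 0) (XT.lf (nat_lit 0) (nat_lit 3163809605) (nat_lit 684) (nat_lit 3083838633) (nat_lit 760) (nat_lit 15458977953) (nat_lit 318) (nat_lit 5) (nat_lit 327) (nat_lit 5) (nat_lit 328) (nat_lit 5) (nat_lit 626) (nat_lit 579) (nat_lit 355)) (XT.lf (nat_lit 0) (nat_lit 9589553000) (nat_lit 760) (nat_lit 6305843179) (nat_lit 76) (nat_lit 6057538770) (nat_lit 318) (nat_lit 5) (nat_lit 328) (nat_lit 5) (nat_lit 319) (nat_lit 5) (nat_lit 627) (nat_lit 579) (nat_lit 354))) (XT.nd (nat_lit 78) (nat_lit 0) (nat_lit 0) (XT.lf (nat_lit 0) (nat_lit 6231862053) (nat_lit 684) (nat_lit 6822764662) (nat_lit 760) (nat_lit 9148416892) (nat_lit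 309) (nat_lit 5) (nat_lit 318) (nat_lit 5) (nat_lit 319) (nat_lit 5) (nat_lit 628) (nat_lit 579) (nat_lit 353)) (XT.lf (nat_lit 0) (nat_lit 16642880009) (nat_lit 760) (nat_lit 3372942442) (nat_lit 76) (nat_lit 2441254760) (nat_lit 309) (nat_lit 5) (nat_lit 319) (nat_lit 5) (nat_lit 310) (nat_lit 5) (nat_lit 629) (nat_lit 579) (nat_lit 352))))))))
noncomputable def xc199 : XT := (XT.nd (nat_lit 2106) (nat_lit 2128) (nat_lit 0) (XT.nd (nat_lit 1014) (nat_lit 4104) (nat_lit 0) (XT.nd (nat_lit 468) (nat_lit 2356) (nat_lit 0) (XT.nd (nat_lit 234) (nat_lit 1216) (nat_lit 0) (XT.nd (nat_lit 78) (nat_lit 760) (nat_lit 0) (XT.lf (nat_lit 0) (nat_lit 9552093142) (nat_lit 608) (nat_lit 10853592528) (nat_lit 684) (nat_lit 2308450400) (nat_lit 301) (nat_lit 5) (nat_lit 309) (nat_lit 5) (nat_lit 310) (nat_lit 5) (nat_lit 630) (nat_lit 579) (nat_lit 351)) (XT.nd (nat_lit 78) (nat_lit 684) (nat_lit 0) (XT.lf (nat_lit 0) (nat_lit 1269181453) (nat_lit 684) (nat_lit 208197551) (nat_lit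 76) (nat_lit 21498424991) (nat_lit 300) (nat_lit 5) (nat_lit 309) (nat_lit 5) (nat_lit 301) (nat_lit 5) (nat_lit 631) (nat_lit 579) (nat_lit 350)) (XT.lf (nat_lit 0) (nat_lit 5021765126) (nat_lit 760) (nat_lit 10137132140) (nat_lit 76) (nat_lit 8080816959) (nat_lit 291) (nat_lit 5) (nat_lit 301) (nat_lit 5) (nat_lit 292) (nat_lit 5) (nat_lit 632) (nat_lit 579) (nat_lit 349)))) (XT.nd (nat_lit 78) (nat_lit 608) (nat_lit 0) (XT.lf (nat_lit 0) (nat_lit 3200478630) (nat_lit 608) (nat_lit 5676631441) (nat_lit 684) (nat_lit 14631238699) (nat_lit 283) (nat_lit 5) (nat_lit 291) (nat_lit 5) (nat_lit 292) (nat_lit 5) (nat_lit 633) (nat_lit 579) (nat_lit 348)) (XT.nd (nat_lit 78) (nat_lit 608) (nat_lit 0) (XT.lf (nat_lit 0) (nat_lit 12899760986) (nat_lit 684) (nat_lit 6870404399) (nat_lit 76) (nat_lit 4010386938) (nat_lit 283) (nat_lit 5) (nat_lit 292) (nat_lit 5) (nat_lit 284) (nat_lit 5) (nat_lit 634) (nat_lit 579) (nat_lit 347)) (XT.lf (nat_lit 0) (nat_lit 6883324972)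 (nat_lit 608) (nat_lit 10197690400) (nat_lit 684) (nat_lit 6975621857) (nat_lit 275) (nat_lit 5) (nat_lit 283) (nat_lit 5) (nat_lit 284) (nat_lit 5) (nat_lit 635) (nat_lit 579) (nat_lit 346))))) (XT.nd (nat_lit 234) (nat_lit 1064) (nat_lit 0) (XT.nd (nat_lit 78) (nat_lit 1292) (nat_lit 0) (XT.lf (nat_lit 0) (nat_lit 21000124929) (nat_lit 608) (nat_lit 387787434) (nat_lit 684) (nat_lit 2949491408) (nat_lit 275) (nat_lit 5) (nat_lit 283) (nat_lit 5) (nat_lit 284) (nat_lit 5) (nat_lit 636) (nat_lit 579) (nat_lit 345)) (XT.nd (nat_lit 78) (nat_lit 608) (nat_lit 0) (XT.lf (nat_lit 0) (nat_lit 1271720771) (nat_lit 684) (nat_lit 13779352687) (nat_lit 76) (nat_lit 9569967485) (nat_lit 266) (nat_lit 5) (nat_lit 275) (nat_lit 5) (nat_lit 267) (nat_lit 5) (nat_lit 637) (nat_lit 579) (nat_lit 344)) (XT.lf (nat_lit 0) (nat_lit 417670801) (nat_lit 608) (nat_lit 5144058901) (nat_lit 684) (nat_lit 19347754184) (nat_lit 258) (nat_lit 5) (nat_lit 266) (nat_lit 5) (nat_lit 267) (nat_lit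 5) (nat_lit 638) (nat_lit 579) (nat_lit 343)))) (XT.nd (nat_lit 156) (nat_lit 532) (nat_lit 0) (XT.nd (nat_lit 78) (nat_lit 532) (nat_lit 0) (XT.lf (nat_lit 0) (nat_lit 10058872564) (nat_lit 684) (nat_lit 10154416961) (nat_lit 76) (nat_lit 4987979748) (nat_lit 258) (nat_lit 5) (nat_lit 267) (nat_lit 5) (nat_lit 259) (nat_lit 5) (nat_lit 639) (nat_lit 579) (nat_lit 342)) (XT.lf (nat_lit 0) (nat_lit 4489477009) (nat_lit 532) (nat_lit 10215818079) (nat_lit 608) (nat_lit 10792408805) (nat_lit 251) (nat_lit 5) (nat_lit 258) (nat_lit 5) (nat_lit 259) (nat_lit 5) (nat_lit 640) (nat_lit 579) (nat_lit 341))) (XT.nd (nat_lit 78) (nat_lit 532) (nat_lit 0) (XT.lf (nat_lit 0) (nat_lit 19509276520) (nat_lit 608) (nat_lit 6240241181) (nat_lit 76) (nat_lit 49257148) (nat_lit 251) (nat_lit 5) (nat_lit 259) (nat_lit 5) (nat_lit 252) (nat_lit 5) (nat_lit 641) (nat_lit 579) (nat_lit 340)) (XT.lf (nat_lit 0) (nat_lit 8866739042) (nat_lit 532) (nat_lit 15664054217) (nat_lit 608) (nat_lit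 1572645103) (nat_lit 244) (nat_lit 5) (nat_lit 251) (nat_lit 5) (nat_lit 252) (nat_lit 5) (nat_lit 642) (nat_lit 579) (nat_lit 339)))))) (XT.nd (nat_lit 546) (nat_lit 1900) (nat_lit 0) (XT.nd (nat_lit 234) (nat_lit 1064) (nat_lit 0) (XT.nd (nat_lit 78) (nat_lit 1064) (nat_lit 0) (XT.lf (nat_lit 0) (nat_lit 3234472920) (nat_lit 608) (nat_lit 2079231597) (nat_lit 76) (nat_lit 21099302292) (nat_lit 243) (nat_lit 5) (nat_lit 251) (nat_lit 5) (nat_lit 244) (nat_lit 5) (nat_lit 643) (nat_lit 579) (nat_lit 338)) (XT.nd (nat_lit 78) (nat_lit 532) (nat_lit 0) (XT.lf (nat_lit 0) (nat_lit 8235641112) (nat_lit 608) (nat_lit 13217882008) (nat_lit 76) (nat_lit 5272656527) (nat_lit 236) (nat_lit 5) (nat_lit 244) (nat_lit 5) (nat_lit 237) (nat_lit 5) (nat_lit 644) (nat_lit 579) (nat_lit 337)) (XT.lf (nat_lit 0) (nat_lit 2381424450) (nat_lit 532) (nat_lit 11016460267) (nat_lit 608) (nat_lit 13646510415) (nat_lit 229) (nat_lit 5) (nat_lit 236) (nat_lit 5) (nat_lit 237) (nat_lit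 5) (nat_lit 645) (nat_lit 579) (nat_lit 336)))) (XT.nd (nat_lit 156) (nat_lit 608) (nat_lit 0) (XT.nd (nat_lit 78) (nat_lit 456) (nat_lit 0) (XT.lf (nat_lit 0) (nat_lit 18466970512) (nat_lit 532) (nat_lit 281496189) (nat_lit 608) (nat_lit 8618806579) (nat_lit 229) (nat_lit 5) (nat_lit 236) (nat_lit 5) (nat_lit 237) (nat_lit 5) (nat_lit 646) (nat_lit 579) (nat_lit 335)) (XT.lf (nat_lit 0) (nat_lit 7197870537) (nat_lit 456) (nat_lit 17120644854) (nat_lit 532) (nat_lit 3375844720) (nat_lit 223) (nat_lit 5) (nat_lit 229) (nat_lit 5) (nat_lit 230) (nat_lit 5) (nat_lit 647) (nat_lit 579) (nat_lit 334))) (XT.nd (nat_lit 78) (nat_lit 532) (nat_lit 0) (XT.lf (nat_lit 0) (nat_lit 2004570454) (nat_lit 532) (nat_lit 4308103520) (nat_lit 76) (nat_lit 21713889712) (nat_lit 222) (nat_lit 5) (nat_lit 229) (nat_lit 5) (nat_lit 223) (nat_lit 5) (nat_lit 648) (nat_lit 579) (nat_lit 333)) (XT.lf (nat_lit 0) (nat_lit 7555345141) (nat_lit 608) (nat_lit 16055976428) (nat_lit 76) (nat_lit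 4751484609) (nat_lit 215) (nat_lit 5) (nat_lit 223) (nat_lit 5) (nat_lit 216) (nat_lit 5) (nat_lit 649) (nat_lit 579) (nat_lit 332))))) (XT.nd (nat_lit 234) (nat_lit 988) (nat_lit 0) (XT.nd (nat_lit 78) (nat_lit 456) (nat_lit 0) (XT.lf (nat_lit 0) (nat_lit 567882768) (nat_lit 456) (nat_lit 12720415226) (nat_lit 532) (nat_lit 15416052478) (nat_lit 209) (nat_lit 5) (nat_lit 215) (nat_lit 5) (nat_lit 216) (nat_lit 5) (nat_lit 650) (nat_lit 579) (nat_lit 331)) (XT.nd (nat_lit 78) (nat_lit 456) (nat_lit 0) (XT.lf (nat_lit 0) (nat_lit 17737062214) (nat_lit 456) (nat_lit 1503196575) (nat_lit 532) (nat_lit 9810380084) (nat_lit 209) (nat_lit 5) (nat_lit 215) (nat_lit 5) (nat_lit 216) (nat_lit 5) (nat_lit 651) (nat_lit 579) (nat_lit 330)) (XT.lf (nat_lit 0) (nat_lit 5853248513) (nat_lit 456) (nat_lit 19557202389) (nat_lit 532) (nat_lit 3991418496) (nat_lit 203) (nat_lit 5) (nat_lit 209) (nat_lit 5) (nat_lit 210) (nat_lit 5) (nat_lit 652) (nat_lit 579) (nat_lit 329)))) (XT.nd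 (nat_lit 156) (nat_lit 456) (nat_lit 0) (XT.nd (nat_lit 78) (nat_lit 456) (nat_lit 0) (XT.lf (nat_lit 0) (nat_lit 2001480328) (nat_lit 532) (nat_lit 6269693059) (nat_lit 76) (nat_lit 21487037851) (nat_lit 202) (nat_lit 5) (nat_lit 209) (nat_lit 5) (nat_lit 203) (nat_lit 5) (nat_lit 653) (nat_lit 579) (nat_lit 328)) (XT.lf (nat_lit 0) (nat_lit 8153779459) (nat_lit 532) (nat_lit 18667242762) (nat_lit 76) (nat_lit 3298270465) (nat_lit 196) (nat_lit 5) (nat_lit 203) (nat_lit 5) (nat_lit 197) (nat_lit 5) (nat_lit 654) (nat_lit 579) (nat_lit 327))) (XT.nd (nat_lit 78) (nat_lit 456) (nat_lit 0) (XT.lf (nat_lit 0) (nat_lit 14523016886) (nat_lit 532) (nat_lit 933301446) (nat_lit 76) (nat_lit 15029399767) (nat_lit 196) (nat_lit 5) (nat_lit 203) (nat_lit 5) (nat_lit 197) (nat_lit 5) (nat_lit 655) (nat_lit 579) (nat_lit 326)) (XT.lf (nat_lit 0) (nat_lit 17378627184) (nat_lit 456) (nat_lit 3750673647) (nat_lit 532) (nat_lit 9727978131) (nat_lit 190) (nat_lit 5) (nat_lit 196)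 (nat_lit 5) (nat_lit 197) (nat_lit 5) (nat_lit 656) (nat_lit 579) (nat_lit 325))))))) (XT.nd (nat_lit 75660) (nat_lit 0) (nat_lit 23484) (XT.nd (nat_lit 546) (nat_lit 380) (nat_lit 0) (XT.nd (nat_lit 234) (nat_lit 836) (nat_lit 0) (XT.nd (nat_lit 78) (nat_lit 532) (nat_lit 0) (XT.lf (nat_lit 0) (nat_lit 4838913992) (nat_lit 380) (nat_lit 23116538523) (nat_lit 456) (nat_lit 3279063861) (nat_lit 185) (nat_lit 5) (nat_lit 190) (nat_lit 5) (nat_lit 191) (nat_lit 5) (nat_lit 657) (nat_lit 579) (nat_lit 324)) (XT.nd (nat_lit 78) (nat_lit 456) (nat_lit 0) (XT.lf (nat_lit 0) (nat_lit 3368312952) (nat_lit 456) (nat_lit 7963457785) (nat_lit 76) (nat_lit 20284844623) (nat_lit 184) (nat_lit 5) (nat_lit 190) (nat_lit 5) (nat_lit 185) (nat_lit 5) (nat_lit 658) (nat_lit 579) (nat_lit 323)) (XT.lf (nat_lit 0) (nat_lit 10177897479) (nat_lit 532) (nat_lit 21054909294) (nat_lit 76) (nat_lit 771652889) (nat_lit 178) (nat_lit 5) (nat_lit 185) (nat_lit 5) (nat_lit 179) (nat_lit 5) (nat_lit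 659) (nat_lit 579) (nat_lit 322)))) (XT.nd (nat_lit 156) (nat_lit 456) (nat_lit 0) (XT.nd (nat_lit 78) (nat_lit 380) (nat_lit 0) (XT.lf (nat_lit 0) (nat_lit 17249456482) (nat_lit 532) (nat_lit 2130205521) (nat_lit 76) (nat_lit 13017883351) (nat_lit 178) (nat_lit 5) (nat_lit 185) (nat_lit 5) (nat_lit 179) (nat_lit 5) (nat_lit 660) (nat_lit 579) (nat_lit 321)) (XT.lf (nat_lit 0) (nat_lit 17396662325) (nat_lit 380) (nat_lit 7175739966) (nat_lit 456) (nat_lit 8223891515) (nat_lit 173) (nat_lit 5) (nat_lit 178) (nat_lit 5) (nat_lit 179) (nat_lit 5) (nat_lit 661) (nat_lit 579) (nat_lit 320))) (XT.nd (nat_lit 78) (nat_lit 76) (nat_lit 0) (XT.lf (nat_lit 0) (nat_lit 4155880570) (nat_lit 380) (nat_lit 27958554668) (nat_lit 456) (nat_lit 1087129578) (nat_lit 168) (nat_lit 5) (nat_lit 173) (nat_lit 5) (nat_lit 174) (nat_lit 5) (nat_lit 662) (nat_lit 579) (nat_lit 319)) (XT.lf (nat_lit 0) (nat_lit 6259733629) (nat_lit 456) (nat_lit 9394556766) (nat_lit 76) (nat_lit 17956875300)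 (nat_lit 167) (nat_lit 5) (nat_lit 173) (nat_lit 5) (nat_lit 168) (nat_lit 5) (nat_lit 663) (nat_lit 579) (nat_lit 318))))) (XT.nd (nat_lit 74802) (nat_lit 0) (nat_lit 24776) (XT.nd (nat_lit 74646) (nat_lit 0) (nat_lit 24776) (XT.lf (nat_lit 0) (nat_lit 10779334833) (nat_lit 380) (nat_lit 3026735538) (nat_lit 456) (nat_lit 20221402790) (nat_lit 162) (nat_lit 5) (nat_lit 167) (nat_lit 5) (nat_lit 168) (nat_lit 5) (nat_lit 664) (nat_lit 579) (nat_lit 317)) (XT.nd (nat_lit 78) (nat_lit 0) (nat_lit 0) (XT.lf (nat_lit 0) (nat_lit 683149365) (nat_lit 0) (nat_lit 683149365) (nat_lit 1748) (nat_lit 5422849668) (nat_lit 488) (nat_lit 5) (nat_lit 488) (nat_lit 3) (nat_lit 511) (nat_lit 3) (nat_lit 580) (nat_lit 580) (nat_lit 400)) (XT.lf (nat_lit 0) (nat_lit 3160234168) (nat_lit 1748) (nat_lit 5534368636) (nat_lit 1824) (nat_lit 5011436365) (nat_lit 488) (nat_lit 5) (nat_lit 511) (nat_lit 3) (nat_lit 512) (nat_lit 5) (nat_lit 581) (nat_lit 580) (nat_lit 399)))) (XT.nd (nat_lit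 156) (nat_lit 0) (nat_lit 76) (XT.nd (nat_lit 78) (nat_lit 0) (nat_lit 76) (XT.lf (nat_lit 76) (nat_lit 1279503333) (nat_lit 0) (nat_lit 2324671794) (nat_lit 1824) (nat_lit 10232007131) (nat_lit 489) (nat_lit 5) (nat_lit 488) (nat_lit 5) (nat_lit 512) (nat_lit 5) (nat_lit 582) (nat_lit 580) (nat_lit 398)) (XT.lf (nat_lit 0) (nat_lit 4112051458) (nat_lit 1748) (nat_lit 5696078615) (nat_lit 1824) (nat_lit 4159697888) (nat_lit 489) (nat_lit 5) (nat_lit 512) (nat_lit 5) (nat_lit 513) (nat_lit 5) (nat_lit 583) (nat_lit 580) (nat_lit 397))) (XT.nd (nat_lit 78) (nat_lit 0) (nat_lit 76) (XT.lf (nat_lit 76) (nat_lit 1298239552) (nat_lit 0) (nat_lit 3346435085) (nat_lit 1824) (nat_lit 9457141022) (nat_lit 490) (nat_lit 5) (nat_lit 489) (nat_lit 5) (nat_lit 513) (nat_lit 5) (nat_lit 584) (nat_lit 580) (nat_lit 396)) (XT.lf (nat_lit 0) (nat_lit 5238431573) (nat_lit 1748) (nat_lit 5754681673) (nat_lit 1824) (nat_lit 3244361088) (nat_lit 490) (nat_lit 5) (nat_lit 513) (nat_lit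 5) (nat_lit 514) (nat_lit 5) (nat_lit 585) (nat_lit 580) (nat_lit 395)))))) (XT.nd (nat_lit 546) (nat_lit 1444) (nat_lit 0) (XT.nd (nat_lit 234) (nat_lit 0) (nat_lit 152) (XT.nd (nat_lit 78) (nat_lit 0) (nat_lit 76) (XT.lf (nat_lit 76) (nat_lit 1426541686) (nat_lit 0) (nat_lit 4440062569) (nat_lit 1824) (nat_lit 8508791950) (nat_lit 491) (nat_lit 5) (nat_lit 490) (nat_lit 5) (nat_lit 514) (nat_lit 5) (nat_lit 586) (nat_lit 580) (nat_lit 394)) (XT.nd (nat_lit 78) (nat_lit 0) (nat_lit 0) (XT.lf (nat_lit 0) (nat_lit 6552063572) (nat_lit 1748) (nat_lit 5706095252) (nat_lit 1824) (nat_lit 2257024042) (nat_lit 491) (nat_lit 5) (nat_lit 514) (nat_lit 5) (nat_lit 515) (nat_lit 5) (nat_lit 587) (nat_lit 580) (nat_lit 393)) (XT.lf (nat_lit 76) (nat_lit 1668744601) (nat_lit 0) (nat_lit 5614178068) (nat_lit 1824) (nat_lit 7374209581) (nat_lit 492) (nat_lit 5) (nat_lit 491) (nat_lit 5) (nat_lit 515) (nat_lit 5) (nat_lit 588) (nat_lit 580) (nat_lit 392)))) (XT.nd (nat_lit 156)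 (nat_lit 0) (nat_lit 76) (XT.nd (nat_lit 78) (nat_lit 0) (nat_lit 0) (XT.lf (nat_lit 0) (nat_lit 8066098392) (nat_lit 1748) (nat_lit 5545939743) (nat_lit 1824) (nat_lit 1189129282) (nat_lit 492) (nat_lit 5) (nat_lit 515) (nat_lit 5) (nat_lit 516) (nat_lit 5) (nat_lit 589) (nat_lit 580) (nat_lit 391)) (XT.lf (nat_lit 76) (nat_lit 2029489023) (nat_lit 0) (nat_lit 6877576024) (nat_lit 1824) (nat_lit 6040176462) (nat_lit 493) (nat_lit 5) (nat_lit 492) (nat_lit 5) (nat_lit 516) (nat_lit 5) (nat_lit 590) (nat_lit 580) (nat_lit 390))) (XT.nd (nat_lit 78) (nat_lit 0) (nat_lit 0) (XT.lf (nat_lit 0) (nat_lit 9794175147) (nat_lit 1748) (nat_lit 5269532994) (nat_lit 1824) (nat_lit 31943214) (nat_lit 493) (nat_lit 5) (nat_lit 516) (nat_lit 5) (nat_lit 517) (nat_lit 5) (nat_lit 591) (nat_lit 580) (nat_lit 389)) (XT.lf (nat_lit 76) (nat_lit 2513727400) (nat_lit 0) (nat_lit 8239242372) (nat_lit 1824) (nat_lit 4492981519) (nat_lit 494) (nat_lit 5) (nat_lit 493) (nat_lit 5) (nat_lit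 517) (nat_lit 5) (nat_lit 592) (nat_lit 580) (nat_lit 388))))) (XT.nd (nat_lit 234) (nat_lit 1672) (nat_lit 0) (XT.nd (nat_lit 78) (nat_lit 0) (nat_lit 76) (XT.lf (nat_lit 76) (nat_lit 10518773457) (nat_lit 0) (nat_lit 1239723776) (nat_lit 1824) (nat_lit 3640209581) (nat_lit 494) (nat_lit 5) (nat_lit 493) (nat_lit 5) (nat_lit 517) (nat_lit 5) (nat_lit 593) (nat_lit 580) (nat_lit 387)) (XT.nd (nat_lit 78) (nat_lit 0) (nat_lit 0) (XT.lf (nat_lit 76) (nat_lit 3126730335) (nat_lit 0) (nat_lit 9708375545) (nat_lit 1824) (nat_lit 2718392864) (nat_lit 495) (nat_lit 5) (nat_lit 494) (nat_lit 5) (nat_lit 518) (nat_lit 5) (nat_lit 594) (nat_lit 580) (nat_lit 386)) (XT.lf (nat_lit 76) (nat_lit 11346017280) (nat_lit 0) (nat_lit 2620611977) (nat_lit 1824) (nat_lit 1744090302) (nat_lit 495) (nat_lit 5) (nat_lit 494) (nat_lit 5) (nat_lit 518) (nat_lit 5) (nat_lit 595) (nat_lit 580) (nat_lit 385)))) (XT.nd (nat_lit 156) (nat_lit 0) (nat_lit 76) (XT.nd (nat_lit 78) (nat_lit 1824)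 (nat_lit 0) (XT.lf (nat_lit 76) (nat_lit 3874093596) (nat_lit 0) (nat_lit 11294407673) (nat_lit 1824) (nat_lit 701629843) (nat_lit 496) (nat_lit 5) (nat_lit 495) (nat_lit 5) (nat_lit 519) (nat_lit 5) (nat_lit 596) (nat_lit 580) (nat_lit 384)) (XT.lf (nat_lit 0) (nat_lit 396476508) (nat_lit 1824) (nat_lit 3720671381) (nat_lit 1900) (nat_lit 11914745894) (nat_lit 471) (nat_lit 5) (nat_lit 495) (nat_lit 5) (nat_lit 496) (nat_lit 5) (nat_lit 597) (nat_lit 580) (nat_lit 383))) (XT.nd (nat_lit 78) (nat_lit 0) (nat_lit 0) (XT.lf (nat_lit 0) (nat_lit 1552039910) (nat_lit 1824) (nat_lit 11444571110) (nat_lit 1900) (nat_lit 3199290780) (nat_lit 472) (nat_lit 5) (nat_lit 496) (nat_lit 5) (nat_lit 497) (nat_lit 5) (nat_lit 598) (nat_lit 580) (nat_lit 382)) (XT.lf (nat_lit 0) (nat_lit 2776075316) (nat_lit 1824) (nat_lit 2952384059) (nat_lit 1900) (nat_lit 10633824021) (nat_lit 472) (nat_lit 5) (nat_lit 496) (nat_lit 5) (nat_lit 497) (nat_lit 5) (nat_lit 599) (nat_lit 580) (nat_lit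 381))))))))
noncomputable def xc200 : XT := (XT.nd (nat_lit 2106) (nat_lit 9424) (nat_lit 0) (XT.nd (nat_lit 1014) (nat_lit 6460) (nat_lit 0) (XT.nd (nat_lit 468) (nat_lit 2964) (nat_lit 0) (XT.nd (nat_lit 234) (nat_lit 1672) (nat_lit 0) (XT.nd (nat_lit 78) (nat_lit 0) (nat_lit 0) (XT.lf (nat_lit 0) (nat_lit 4066418475) (nat_lit 1824) (nat_lit 10762488465) (nat_lit 1900) (nat_lit 1702249760) (nat_lit 473) (nat_lit 5) (nat_lit 497) (nat_lit 5) (nat_lit 498) (nat_lit 5) (nat_lit 600) (nat_lit 580) (nat_lit 380)) (XT.nd (nat_lit 78) (nat_lit 0) (nat_lit 76) (XT.lf (nat_lit 0) (nat_lit 5433658688) (nat_lit 1824) (nat_lit 2042390649) (nat_lit 1900) (nat_lit 9226336939) (nat_lit 473) (nat_lit 5) (nat_lit 497) (nat_lit 5) (nat_lit 498) (nat_lit 5) (nat_lit 601) (nat_lit 580) (nat_lit 379)) (XT.lf (nat_lit 0) (nat_lit 6867092956) (nat_lit 1824) (nat_lit 9939002182) (nat_lit 1900) (nat_lit 70168914) (nat_lit 474) (nat_lit 5) (nat_lit 498) (nat_lit 5) (nat_lit 499) (nat_lit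 5) (nat_lit 602) (nat_lit 580) (nat_lit 378)))) (XT.nd (nat_lit 78) (nat_lit 1748) (nat_lit 0) (XT.lf (nat_lit 0) (nat_lit 8385949603) (nat_lit 1824) (nat_lit 984224196) (nat_lit 1900) (nat_lit 7682311094) (nat_lit 474) (nat_lit 5) (nat_lit 498) (nat_lit 5) (nat_lit 499) (nat_lit 5) (nat_lit 603) (nat_lit 580) (nat_lit 377)) (XT.nd (nat_lit 78) (nat_lit 1748) (nat_lit 0) (XT.lf (nat_lit 76) (nat_lit 8252519410) (nat_lit 0) (nat_lit 1729820441) (nat_lit 1900) (nat_lit 7248947742) (nat_lit 475) (nat_lit 5) (nat_lit 474) (nat_lit 5) (nat_lit 499) (nat_lit 5) (nat_lit 604) (nat_lit 580) (nat_lit 376)) (XT.lf (nat_lit 0) (nat_lit 231974800) (nat_lit 1824) (nat_lit 11419878407) (nat_lit 1900) (nat_lit 5760989797) (nat_lit 451) (nat_lit 5) (nat_lit 475) (nat_lit 5) (nat_lit 476) (nat_lit 5) (nat_lit 605) (nat_lit 580) (nat_lit 375))))) (XT.nd (nat_lit 234) (nat_lit 1900) (nat_lit 0) (XT.nd (nat_lit 78) (nat_lit 1064) (nat_lit 0) (XT.lf (nat_lit 0) (nat_lit 9731608459)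 (nat_lit 1824) (nat_lit 3688543388) (nat_lit 1900) (nat_lit 4176570323) (nat_lit 451) (nat_lit 5) (nat_lit 475) (nat_lit 5) (nat_lit 476) (nat_lit 5) (nat_lit 606) (nat_lit 580) (nat_lit 374)) (XT.nd (nat_lit 78) (nat_lit 0) (nat_lit 0) (XT.lf (nat_lit 0) (nat_lit 1625575794) (nat_lit 1064) (nat_lit 13629937242) (nat_lit 1140) (nat_lit 2528132491) (nat_lit 437) (nat_lit 5) (nat_lit 451) (nat_lit 5) (nat_lit 452) (nat_lit 5) (nat_lit 607) (nat_lit 580) (nat_lit 373)) (XT.lf (nat_lit 0) (nat_lit 11382529175) (nat_lit 1064) (nat_lit 5816072567) (nat_lit 1140) (nat_lit 774285732) (nat_lit 437) (nat_lit 5) (nat_lit 451) (nat_lit 5) (nat_lit 452) (nat_lit 5) (nat_lit 608) (nat_lit 580) (nat_lit 372)))) (XT.nd (nat_lit 156) (nat_lit 912) (nat_lit 0) (XT.nd (nat_lit 78) (nat_lit 0) (nat_lit 0) (XT.lf (nat_lit 0) (nat_lit 1030322274) (nat_lit 988) (nat_lit 14980971018) (nat_lit 76) (nat_lit 2153909893) (nat_lit 424) (nat_lit 5) (nat_lit 437) (nat_lit 5) (nat_lit 425) (nat_lit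 5) (nat_lit 609) (nat_lit 580) (nat_lit 371)) (XT.lf (nat_lit 0) (nat_lit 2937837379) (nat_lit 988) (nat_lit 5166240550) (nat_lit 76) (nat_lit 10255641766) (nat_lit 424) (nat_lit 5) (nat_lit 437) (nat_lit 5) (nat_lit 425) (nat_lit 5) (nat_lit 610) (nat_lit 580) (nat_lit 370))) (XT.nd (nat_lit 78) (nat_lit 0) (nat_lit 0) (XT.lf (nat_lit 0) (nat_lit 4903734470) (nat_lit 912) (nat_lit 5859793) (nat_lit 988) (nat_lit 13648010930) (nat_lit 412) (nat_lit 5) (nat_lit 424) (nat_lit 5) (nat_lit 425) (nat_lit 5) (nat_lit 611) (nat_lit 580) (nat_lit 369)) (XT.lf (nat_lit 0) (nat_lit 7003610088) (nat_lit 988) (nat_lit 3572882622) (nat_lit 76) (nat_lit 8181299694) (nat_lit 412) (nat_lit 5) (nat_lit 425) (nat_lit 5) (nat_lit 413) (nat_lit 5) (nat_lit 612) (nat_lit 580) (nat_lit 368)))))) (XT.nd (nat_lit 546) (nat_lit 3040) (nat_lit 0) (XT.nd (nat_lit 234) (nat_lit 1748) (nat_lit 0) (XT.nd (nat_lit 78) (nat_lit 836) (nat_lit 0) (XT.lf (nat_lit 0) (nat_lit 6793446256) (nat_lit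 836) (nat_lit 2384650925) (nat_lit 912) (nat_lit 9783114827) (nat_lit 401) (nat_lit 5) (nat_lit 412) (nat_lit 5) (nat_lit 413) (nat_lit 5) (nat_lit 613) (nat_lit 580) (nat_lit 367)) (XT.nd (nat_lit 78) (nat_lit 836) (nat_lit 0) (XT.lf (nat_lit 0) (nat_lit 11453496847) (nat_lit 912) (nat_lit 1797027634) (nat_lit 76) (nat_lit 5917027530) (nat_lit 401) (nat_lit 5) (nat_lit 413) (nat_lit 5) (nat_lit 402) (nat_lit 5) (nat_lit 614) (nat_lit 580) (nat_lit 366)) (XT.lf (nat_lit 0) (nat_lit 8876441563) (nat_lit 836) (nat_lit 4966014775) (nat_lit 912) (nat_lit 5534201888) (nat_lit 390) (nat_lit 5) (nat_lit 401) (nat_lit 5) (nat_lit 402) (nat_lit 5) (nat_lit 615) (nat_lit 580) (nat_lit 365)))) (XT.nd (nat_lit 156) (nat_lit 912) (nat_lit 0) (XT.nd (nat_lit 78) (nat_lit 0) (nat_lit 0) (XT.lf (nat_lit 0) (nat_lit 172211873) (nat_lit 836) (nat_lit 16137560753) (nat_lit 912) (nat_lit 3279562828) (nat_lit 379) (nat_lit 5) (nat_lit 390) (nat_lit 5) (nat_lit 391) (nat_lit 5) (nat_lit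 616) (nat_lit 580) (nat_lit 364)) (XT.lf (nat_lit 0) (nat_lit 11161753841) (nat_lit 836) (nat_lit 7762582767) (nat_lit 912) (nat_lit 879972028) (nat_lit 379) (nat_lit 5) (nat_lit 390) (nat_lit 5) (nat_lit 391) (nat_lit 5) (nat_lit 617) (nat_lit 580) (nat_lit 363))) (XT.nd (nat_lit 78) (nat_lit 0) (nat_lit 0) (XT.lf (nat_lit 0) (nat_lit 1562461423) (nat_lit 912) (nat_lit 17665395543) (nat_lit 76) (nat_lit 795212964) (nat_lit 367) (nat_lit 5) (nat_lit 379) (nat_lit 5) (nat_lit 368) (nat_lit 5) (nat_lit 618) (nat_lit 580) (nat_lit 362)) (XT.lf (nat_lit 0) (nat_lit 4146662033) (nat_lit 912) (nat_lit 6612980110) (nat_lit 76) (nat_lit 9484354357) (nat_lit 367) (nat_lit 5) (nat_lit 379) (nat_lit 5) (nat_lit 368) (nat_lit 5) (nat_lit 619) (nat_lit 580) (nat_lit 361))))) (XT.nd (nat_lit 234) (nat_lit 1520) (nat_lit 0) (XT.nd (nat_lit 78) (nat_lit 760) (nat_lit 0) (XT.lf (nat_lit 0) (nat_lit 4717080066) (nat_lit 760) (nat_lit 2091095253) (nat_lit 836) (nat_lit 13660654110)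 (nat_lit 357) (nat_lit 5) (nat_lit 367) (nat_lit 5) (nat_lit 368) (nat_lit 5) (nat_lit 620) (nat_lit 580) (nat_lit 360)) (XT.nd (nat_lit 78) (nat_lit 760) (nat_lit 0) (XT.lf (nat_lit 0) (nat_lit 9606484462) (nat_lit 836) (nat_lit 4383345427) (nat_lit 76) (nat_lit 6706658207) (nat_lit 357) (nat_lit 5) (nat_lit 368) (nat_lit 5) (nat_lit 358) (nat_lit 5) (nat_lit 621) (nat_lit 580) (nat_lit 359)) (XT.lf (nat_lit 0) (nat_lit 7288947294) (nat_lit 760) (nat_lit 5228146576) (nat_lit 836) (nat_lit 8410479772) (nat_lit 347) (nat_lit 5) (nat_lit 357) (nat_lit 5) (nat_lit 358) (nat_lit 5) (nat_lit 622) (nat_lit 580) (nat_lit 358)))) (XT.nd (nat_lit 156) (nat_lit 836) (nat_lit 0) (XT.nd (nat_lit 78) (nat_lit 684) (nat_lit 0) (XT.lf (nat_lit 0) (nat_lit 15534824181) (nat_lit 836) (nat_lit 1938149619) (nat_lit 76) (nat_lit 3689329301) (nat_lit 347) (nat_lit 5) (nat_lit 358) (nat_lit 5) (nat_lit 348) (nat_lit 5) (nat_lit 623) (nat_lit 580) (nat_lit 357)) (XT.lf (nat_lit 0) (nat_lit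 10088848170) (nat_lit 684) (nat_lit 8619501208) (nat_lit 760) (nat_lit 2691469335) (nat_lit 338) (nat_lit 5) (nat_lit 347) (nat_lit 5) (nat_lit 348) (nat_lit 5) (nat_lit 624) (nat_lit 580) (nat_lit 356))) (XT.nd (nat_lit 78) (nat_lit 0) (nat_lit 0) (XT.lf (nat_lit 0) (nat_lit 315339007) (nat_lit 836) (nat_lit 20901260378) (nat_lit 76) (nat_lit 425125111) (nat_lit 327) (nat_lit 5) (nat_lit 338) (nat_lit 5) (nat_lit 328) (nat_lit 5) (nat_lit 625) (nat_lit 580) (nat_lit 355)) (XT.lf (nat_lit 0) (nat_lit 3475161235) (nat_lit 836) (nat_lit 8781374042) (nat_lit 76) (nat_lit 9628999324) (nat_lit 327) (nat_lit 5) (nat_lit 338) (nat_lit 5) (nat_lit 328) (nat_lit 5) (nat_lit 626) (nat_lit 580) (nat_lit 354))))))) (XT.nd (nat_lit 1014) (nat_lit 4180) (nat_lit 0) (XT.nd (nat_lit 468) (nat_lit 2508) (nat_lit 0) (XT.nd (nat_lit 234) (nat_lit 1368) (nat_lit 0) (XT.nd (nat_lit 78) (nat_lit 684) (nat_lit 0) (XT.lf (nat_lit 0) (nat_lit 3623268465) (nat_lit 684) (nat_lit 3093921187)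 (nat_lit 760) (nat_lit 15416651403) (nat_lit 318) (nat_lit 5) (nat_lit 327) (nat_lit 5) (nat_lit 328) (nat_lit 5) (nat_lit 627) (nat_lit 580) (nat_lit 353)) (XT.nd (nat_lit 78) (nat_lit 684) (nat_lit 0) (XT.lf (nat_lit 0) (nat_lit 10119504288) (nat_lit 760) (nat_lit 6037092059) (nat_lit 76) (nat_lit 6228608713) (nat_lit 318) (nat_lit 5) (nat_lit 328) (nat_lit 5) (nat_lit 319) (nat_lit 5) (nat_lit 628) (nat_lit 580) (nat_lit 352)) (XT.lf (nat_lit 0) (nat_lit 6748769463) (nat_lit 684) (nat_lit 6901026300) (nat_lit 760) (nat_lit 8990602301) (nat_lit 309) (nat_lit 5) (nat_lit 318) (nat_lit 5) (nat_lit 319) (nat_lit 5) (nat_lit 629) (nat_lit 580) (nat_lit 351)))) (XT.nd (nat_lit 78) (nat_lit 1368) (nat_lit 0) (XT.lf (nat_lit 0) (nat_lit 17303634026) (nat_lit 760) (nat_lit 3049618200) (nat_lit 76) (nat_lit 2546384204) (nat_lit 309) (nat_lit 5) (nat_lit 319) (nat_lit 5) (nat_lit 310) (nat_lit 5) (nat_lit 630) (nat_lit 580) (nat_lit 350)) (XT.nd (nat_lit 78) (nat_lit 760)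 (nat_lit 0) (XT.lf (nat_lit 0) (nat_lit 10131347154) (nat_lit 608) (nat_lit 11006439836) (nat_lit 684) (nat_lit 2024128131) (nat_lit 301) (nat_lit 5) (nat_lit 309) (nat_lit 5) (nat_lit 310) (nat_lit 5) (nat_lit 631) (nat_lit 580) (nat_lit 349)) (XT.lf (nat_lit 0) (nat_lit 174803679) (nat_lit 684) (nat_lit 1440657938) (nat_lit 760) (nat_lit 21813417538) (nat_lit 291) (nat_lit 5) (nat_lit 300) (nat_lit 5) (nat_lit 301) (nat_lit 5) (nat_lit 632) (nat_lit 580) (nat_lit 348))))) (XT.nd (nat_lit 234) (nat_lit 1900) (nat_lit 0) (XT.nd (nat_lit 78) (nat_lit 608) (nat_lit 0) (XT.lf (nat_lit 0) (nat_lit 5438605489) (nat_lit 760) (nat_lit 9951623112) (nat_lit 76) (nat_lit 8307929268) (nat_lit 291) (nat_lit 5) (nat_lit 301) (nat_lit 5) (nat_lit 292) (nat_lit 5) (nat_lit 633) (nat_lit 580) (nat_lit 347)) (XT.nd (nat_lit 78) (nat_lit 0) (nat_lit 0) (XT.lf (nat_lit 0) (nat_lit 3650185587) (nat_lit 608) (nat_lit 5717171929) (nat_lit 684) (nat_lit 14604882028) (nat_lit 283) (nat_lit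 5) (nat_lit 291) (nat_lit 5) (nat_lit 292) (nat_lit 5) (nat_lit 634) (nat_lit 580) (nat_lit 346)) (XT.lf (nat_lit 0) (nat_lit 13464794595) (nat_lit 684) (nat_lit 6623989278) (nat_lit 76) (nat_lit 4161217065) (nat_lit 283) (nat_lit 5) (nat_lit 292) (nat_lit 5) (nat_lit 284) (nat_lit 5) (nat_lit 635) (nat_lit 580) (nat_lit 345)))) (XT.nd (nat_lit 156) (nat_lit 1292) (nat_lit 0) (XT.nd (nat_lit 78) (nat_lit 0) (nat_lit 0) (XT.lf (nat_lit 0) (nat_lit 7402289528) (nat_lit 608) (nat_lit 10323839820) (nat_lit 684) (nat_lit 6805549513) (nat_lit 275) (nat_lit 5) (nat_lit 283) (nat_lit 5) (nat_lit 284) (nat_lit 5) (nat_lit 636) (nat_lit 580) (nat_lit 344)) (XT.lf (nat_lit 0) (nat_lit 21793949052) (nat_lit 608) (nat_lit 319264370) (nat_lit 684) (nat_lit 2704966744) (nat_lit 275) (nat_lit 5) (nat_lit 283) (nat_lit 5) (nat_lit 284) (nat_lit 5) (nat_lit 637) (nat_lit 580) (nat_lit 343))) (XT.nd (nat_lit 78) (nat_lit 608) (nat_lit 0) (XT.lf (nat_lit 0) (nat_lit 1593767230) (nat_lit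 684) (nat_lit 13674175240) (nat_lit 76) (nat_lit 9839567038) (nat_lit 266) (nat_lit 5) (nat_lit 275) (nat_lit 5) (nat_lit 267) (nat_lit 5) (nat_lit 638) (nat_lit 580) (nat_lit 342)) (XT.lf (nat_lit 0) (nat_lit 804283688) (nat_lit 608) (nat_lit 5161932639) (nat_lit 684) (nat_lit 19435572573) (nat_lit 258) (nat_lit 5) (nat_lit 266) (nat_lit 5) (nat_lit 267) (nat_lit 5) (nat_lit 639) (nat_lit 580) (nat_lit 341)))))) (XT.nd (nat_lit 546) (nat_lit 1976) (nat_lit 0) (XT.nd (nat_lit 234) (nat_lit 1672) (nat_lit 0) (XT.nd (nat_lit 78) (nat_lit 532) (nat_lit 0) (XT.lf (nat_lit 0) (nat_lit 10548093111) (nat_lit 684) (nat_lit 9981434506) (nat_lit 76) (nat_lit 5169986943) (nat_lit 258) (nat_lit 5) (nat_lit 267) (nat_lit 5) (nat_lit 259) (nat_lit 5) (nat_lit 640) (nat_lit 580) (nat_lit 340)) (XT.nd (nat_lit 78) (nat_lit 0) (nat_lit 0) (XT.lf (nat_lit 0) (nat_lit 4952863194) (nat_lit 532) (nat_lit 10331358625) (nat_lit 608) (nat_lit 10717720876) (nat_lit 251) (nat_lit 5) (nat_lit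 258) (nat_lit 5) (nat_lit 259) (nat_lit 5) (nat_lit 641) (nat_lit 580) (nat_lit 339)) (XT.lf (nat_lit 0) (nat_lit 20179263247) (nat_lit 608) (nat_lit 5993736663) (nat_lit 76) (nat_lit 136135923) (nat_lit 251) (nat_lit 5) (nat_lit 259) (nat_lit 5) (nat_lit 252) (nat_lit 5) (nat_lit 642) (nat_lit 580) (nat_lit 338)))) (XT.nd (nat_lit 156) (nat_lit 1064) (nat_lit 0) (XT.nd (nat_lit 78) (nat_lit 76) (nat_lit 0) (XT.lf (nat_lit 0) (nat_lit 9412940341) (nat_lit 532) (nat_lit 15885178607) (nat_lit 608) (nat_lit 1321835857) (nat_lit 244) (nat_lit 5) (nat_lit 251) (nat_lit 5) (nat_lit 252) (nat_lit 5) (nat_lit 643) (nat_lit 580) (nat_lit 337)) (XT.lf (nat_lit 0) (nat_lit 3572260643) (nat_lit 608) (nat_lit 1755535632) (nat_lit 76) (nat_lit 21607991282) (nat_lit 243) (nat_lit 5) (nat_lit 251) (nat_lit 5) (nat_lit 244) (nat_lit 5) (nat_lit 644) (nat_lit 580) (nat_lit 336))) (XT.nd (nat_lit 78) (nat_lit 532) (nat_lit 0) (XT.lf (nat_lit 0) (nat_lit 8671055748) (nat_lit 608)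 (nat_lit 13114545519) (nat_lit 76) (nat_lit 5469670855) (nat_lit 236) (nat_lit 5) (nat_lit 244) (nat_lit 5) (nat_lit 237) (nat_lit 5) (nat_lit 645) (nat_lit 580) (nat_lit 335)) (XT.lf (nat_lit 0) (nat_lit 2794328028) (nat_lit 532) (nat_lit 11139279926) (nat_lit 608) (nat_lit 13646303022) (nat_lit 229) (nat_lit 5) (nat_lit 236) (nat_lit 5) (nat_lit 237) (nat_lit 5) (nat_lit 646) (nat_lit 580) (nat_lit 334))))) (XT.nd (nat_lit 234) (nat_lit 1444) (nat_lit 0) (XT.nd (nat_lit 78) (nat_lit 532) (nat_lit 0) (XT.lf (nat_lit 0) (nat_lit 19194422755) (nat_lit 532) (nat_lit 191528518) (nat_lit 608) (nat_lit 8523400749) (nat_lit 229) (nat_lit 5) (nat_lit 236) (nat_lit 5) (nat_lit 237) (nat_lit 5) (nat_lit 647) (nat_lit 580) (nat_lit 333)) (XT.nd (nat_lit 78) (nat_lit 76) (nat_lit 0) (XT.lf (nat_lit 0) (nat_lit 7702200250) (nat_lit 456) (nat_lit 17363001619) (nat_lit 532) (nat_lit 3177823025) (nat_lit 223) (nat_lit 5) (nat_lit 229) (nat_lit 5) (nat_lit 230) (nat_lit 5) (nat_lit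 648) (nat_lit 580) (nat_lit 332)) (XT.lf (nat_lit 0) (nat_lit 2301579514) (nat_lit 532) (nat_lit 4037529640) (nat_lit 76) (nat_lit 22242831981) (nat_lit 222) (nat_lit 5) (nat_lit 229) (nat_lit 5) (nat_lit 223) (nat_lit 5) (nat_lit 649) (nat_lit 580) (nat_lit 331)))) (XT.nd (nat_lit 156) (nat_lit 456) (nat_lit 0) (XT.nd (nat_lit 78) (nat_lit 456) (nat_lit 0) (XT.lf (nat_lit 0) (nat_lit 7961283639) (nat_lit 608) (nat_lit 16018258782) (nat_lit 76) (nat_lit 4945408080) (nat_lit 215) (nat_lit 5) (nat_lit 223) (nat_lit 5) (nat_lit 216) (nat_lit 5) (nat_lit 650) (nat_lit 580) (nat_lit 330)) (XT.lf (nat_lit 0) (nat_lit 935716828) (nat_lit 456) (nat_lit 12870496505) (nat_lit 532) (nat_lit 15467166290) (nat_lit 209) (nat_lit 5) (nat_lit 215) (nat_lit 5) (nat_lit 216) (nat_lit 5) (nat_lit 651) (nat_lit 580) (nat_lit 329))) (XT.nd (nat_lit 78) (nat_lit 456) (nat_lit 0) (XT.lf (nat_lit 0) (nat_lit 18441290129) (nat_lit 456) (nat_lit 1430979109) (nat_lit 532) (nat_lit 9754423728)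 (nat_lit 209) (nat_lit 5) (nat_lit 215) (nat_lit 5) (nat_lit 216) (nat_lit 5) (nat_lit 652) (nat_lit 580) (nat_lit 328)) (XT.lf (nat_lit 0) (nat_lit 6321767251) (nat_lit 456) (nat_lit 19842183707) (nat_lit 532) (nat_lit 3821035713) (nat_lit 203) (nat_lit 5) (nat_lit 209) (nat_lit 5) (nat_lit 210) (nat_lit 5) (nat_lit 653) (nat_lit 580) (nat_lit 327))))))))
noncomputable def xc201 : XT := (XT.nd (nat_lit 76752) (nat_lit 0) (nat_lit 13680) (XT.nd (nat_lit 75660) (nat_lit 0) (nat_lit 24396) (XT.nd (nat_lit 468) (nat_lit 1292) (nat_lit 0) (XT.nd (nat_lit 234) (nat_lit 912) (nat_lit 0) (XT.nd (nat_lit 78) (nat_lit 456) (nat_lit 0) (XT.lf (nat_lit 0) (nat_lit 2283597767) (nat_lit 532) (nat_lit 6047293444) (nat_lit 76) (nat_lit 22017628757) (nat_lit 202) (nat_lit 5) (nat_lit 209) (nat_lit 5) (nat_lit 203) (nat_lit 5) (nat_lit 654) (nat_lit 580) (nat_lit 326)) (XT.nd (nat_lit 78) (nat_lit 0) (nat_lit 0) (XT.lf (nat_lit 0) (nat_lit 8557127021) (nat_lit 532) (nat_lit 18690964811)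 (nat_lit 76) (nat_lit 3468767799) (nat_lit 196) (nat_lit 5) (nat_lit 203) (nat_lit 5) (nat_lit 197) (nat_lit 5) (nat_lit 655) (nat_lit 580) (nat_lit 325)) (XT.lf (nat_lit 0) (nat_lit 15049037981) (nat_lit 532) (nat_lit 609200018) (nat_lit 76) (nat_lit 15432470041) (nat_lit 196) (nat_lit 5) (nat_lit 203) (nat_lit 5) (nat_lit 197) (nat_lit 5) (nat_lit 656) (nat_lit 580) (nat_lit 324)))) (XT.nd (nat_lit 78) (nat_lit 456) (nat_lit 0) (XT.lf (nat_lit 0) (nat_lit 18066712135) (nat_lit 456) (nat_lit 3718327464) (nat_lit 532) (nat_lit 9684708941) (nat_lit 190) (nat_lit 5) (nat_lit 196) (nat_lit 5) (nat_lit 197) (nat_lit 5) (nat_lit 657) (nat_lit 580) (nat_lit 323)) (XT.nd (nat_lit 78) (nat_lit 76) (nat_lit 0) (XT.lf (nat_lit 0) (nat_lit 5277917240) (nat_lit 380) (nat_lit 23468130788) (nat_lit 456) (nat_lit 3108516254) (nat_lit 185) (nat_lit 5) (nat_lit 190) (nat_lit 5) (nat_lit 191) (nat_lit 5) (nat_lit 658) (nat_lit 580) (nat_lit 322)) (XT.lf (nat_lit 0) (nat_lit 3664141968)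 (nat_lit 456) (nat_lit 7784163917) (nat_lit 76) (nat_lit 20796060329) (nat_lit 184) (nat_lit 5) (nat_lit 190) (nat_lit 5) (nat_lit 185) (nat_lit 5) (nat_lit 659) (nat_lit 580) (nat_lit 321))))) (XT.nd (nat_lit 234) (nat_lit 456) (nat_lit 0) (XT.nd (nat_lit 78) (nat_lit 380) (nat_lit 0) (XT.lf (nat_lit 0) (nat_lit 10608337526) (nat_lit 532) (nat_lit 21135851837) (nat_lit 76) (nat_lit 895809890) (nat_lit 178) (nat_lit 5) (nat_lit 185) (nat_lit 5) (nat_lit 179) (nat_lit 5) (nat_lit 660) (nat_lit 580) (nat_lit 320)) (XT.nd (nat_lit 78) (nat_lit 380) (nat_lit 0) (XT.lf (nat_lit 0) (nat_lit 17816879041) (nat_lit 532) (nat_lit 1839323707) (nat_lit 76) (nat_lit 13384833119) (nat_lit 178) (nat_lit 5) (nat_lit 185) (nat_lit 5) (nat_lit 179) (nat_lit 5) (nat_lit 661) (nat_lit 580) (nat_lit 319)) (XT.lf (nat_lit 0) (nat_lit 18075887509) (nat_lit 380) (nat_lit 7208185783) (nat_lit 456) (nat_lit 8163730434) (nat_lit 173) (nat_lit 5) (nat_lit 178) (nat_lit 5) (nat_lit 179) (nat_lit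 5) (nat_lit 662) (nat_lit 580) (nat_lit 318)))) (XT.nd (nat_lit 74802) (nat_lit 0) (nat_lit 24396) (XT.nd (nat_lit 78) (nat_lit 76) (nat_lit 0) (XT.lf (nat_lit 0) (nat_lit 4571781080) (nat_lit 380) (nat_lit 28403715362) (nat_lit 456) (nat_lit 885712950) (nat_lit 168) (nat_lit 5) (nat_lit 173) (nat_lit 5) (nat_lit 174) (nat_lit 5) (nat_lit 663) (nat_lit 580) (nat_lit 317)) (XT.lf (nat_lit 0) (nat_lit 6600842465) (nat_lit 456) (nat_lit 9253309938) (nat_lit 76) (nat_lit 18424907489) (nat_lit 167) (nat_lit 5) (nat_lit 173) (nat_lit 5) (nat_lit 168) (nat_lit 5) (nat_lit 664) (nat_lit 580) (nat_lit 316))) (XT.nd (nat_lit 78) (nat_lit 0) (nat_lit 0) (XT.lf (nat_lit 0) (nat_lit 879290220) (nat_lit 0) (nat_lit 879290220) (nat_lit 1748) (nat_lit 5159017652) (nat_lit 488) (nat_lit 5) (nat_lit 488) (nat_lit 3) (nat_lit 511) (nat_lit 3) (nat_lit 581) (nat_lit 581) (nat_lit 398)) (XT.lf (nat_lit 0) (nat_lit 3936715258) (nat_lit 1748) (nat_lit 5270554225) (nat_lit 1824) (nat_lit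 4758557960) (nat_lit 488) (nat_lit 5) (nat_lit 511) (nat_lit 3) (nat_lit 512) (nat_lit 5) (nat_lit 582) (nat_lit 581) (nat_lit 397)))))) (XT.nd (nat_lit 546) (nat_lit 0) (nat_lit 304) (XT.nd (nat_lit 234) (nat_lit 0) (nat_lit 152) (XT.nd (nat_lit 78) (nat_lit 0) (nat_lit 76) (XT.lf (nat_lit 76) (nat_lit 1677131356) (nat_lit 0) (nat_lit 2700833385) (nat_lit 1824) (nat_lit 9720841371) (nat_lit 489) (nat_lit 5) (nat_lit 488) (nat_lit 5) (nat_lit 512) (nat_lit 5) (nat_lit 583) (nat_lit 581) (nat_lit 396)) (XT.nd (nat_lit 78) (nat_lit 0) (nat_lit 0) (XT.lf (nat_lit 0) (nat_lit 4880141201) (nat_lit 1748) (nat_lit 5429335313) (nat_lit 1824) (nat_lit 3923926652) (nat_lit 489) (nat_lit 5) (nat_lit 512) (nat_lit 5) (nat_lit 513) (nat_lit 5) (nat_lit 584) (nat_lit 581) (nat_lit 395)) (XT.lf (nat_lit 76) (nat_lit 1702364843) (nat_lit 0) (nat_lit 3710059254) (nat_lit 1824) (nat_lit 8957867637) (nat_lit 490) (nat_lit 5) (nat_lit 489) (nat_lit 5) (nat_lit 513) (nat_lit 5) (nat_lit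 585) (nat_lit 581) (nat_lit 394)))) (XT.nd (nat_lit 156) (nat_lit 0) (nat_lit 76) (XT.nd (nat_lit 78) (nat_lit 0) (nat_lit 0) (XT.lf (nat_lit 0) (nat_lit 6002935130) (nat_lit 1748) (nat_lit 5483846796) (nat_lit 1824) (nat_lit 3022185316) (nat_lit 490) (nat_lit 5) (nat_lit 513) (nat_lit 5) (nat_lit 514) (nat_lit 5) (nat_lit 586) (nat_lit 581) (nat_lit 393)) (XT.lf (nat_lit 76) (nat_lit 1838462027) (nat_lit 0) (nat_lit 4794762479) (nat_lit 1824) (nat_lit 8016633193) (nat_lit 491) (nat_lit 5) (nat_lit 490) (nat_lit 5) (nat_lit 514) (nat_lit 5) (nat_lit 587) (nat_lit 581) (nat_lit 392))) (XT.nd (nat_lit 78) (nat_lit 0) (nat_lit 0) (XT.lf (nat_lit 0) (nat_lit 7317969329) (nat_lit 1748) (nat_lit 5429861933) (nat_lit 1824) (nat_lit 2044898494) (nat_lit 491) (nat_lit 5) (nat_lit 514) (nat_lit 5) (nat_lit 515) (nat_lit 5) (nat_lit 588) (nat_lit 581) (nat_lit 391)) (XT.lf (nat_lit 76) (nat_lit 2089906590) (nat_lit 0) (nat_lit 5963608464) (nat_lit 1824) (nat_lit 6884202849)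 (nat_lit 492) (nat_lit 5) (nat_lit 491) (nat_lit 5) (nat_lit 515) (nat_lit 5) (nat_lit 589) (nat_lit 581) (nat_lit 390))))) (XT.nd (nat_lit 234) (nat_lit 0) (nat_lit 76) (XT.nd (nat_lit 78) (nat_lit 0) (nat_lit 0) (XT.lf (nat_lit 0) (nat_lit 8838591162) (nat_lit 1748) (nat_lit 5262854810) (nat_lit 1824) (nat_lit 983464209) (nat_lit 492) (nat_lit 5) (nat_lit 515) (nat_lit 5) (nat_lit 516) (nat_lit 5) (nat_lit 590) (nat_lit 581) (nat_lit 389)) (XT.nd (nat_lit 78) (nat_lit 0) (nat_lit 0) (XT.lf (nat_lit 76) (nat_lit 2461490402) (nat_lit 0) (nat_lit 7225444311) (nat_lit 1824) (nat_lit 5547161011) (nat_lit 493) (nat_lit 5) (nat_lit 492) (nat_lit 5) (nat_lit 516) (nat_lit 5) (nat_lit 591) (nat_lit 581) (nat_lit 388)) (XT.lf (nat_lit 76) (nat_lit 10406596233) (nat_lit 0) (nat_lit 173177831) (nat_lit 1824) (nat_lit 4805941062) (nat_lit 493) (nat_lit 5) (nat_lit 492) (nat_lit 5) (nat_lit 516) (nat_lit 5) (nat_lit 592) (nat_lit 581) (nat_lit 387)))) (XT.nd (nat_lit 156)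 (nat_lit 0) (nat_lit 76) (XT.nd (nat_lit 78) (nat_lit 0) (nat_lit 0) (XT.lf (nat_lit 76) (nat_lit 2958319718) (nat_lit 0) (nat_lit 8589319650) (nat_lit 1824) (nat_lit 3991584874) (nat_lit 494) (nat_lit 5) (nat_lit 493) (nat_lit 5) (nat_lit 517) (nat_lit 5) (nat_lit 593) (nat_lit 581) (nat_lit 386)) (XT.lf (nat_lit 76) (nat_lit 11115734975) (nat_lit 0) (nat_lit 1446177497) (nat_lit 1824) (nat_lit 3133350757) (nat_lit 494) (nat_lit 5) (nat_lit 493) (nat_lit 5) (nat_lit 517) (nat_lit 5) (nat_lit 594) (nat_lit 581) (nat_lit 385))) (XT.nd (nat_lit 78) (nat_lit 0) (nat_lit 0) (XT.lf (nat_lit 76) (nat_lit 3585821958) (nat_lit 0) (nat_lit 10064507655) (nat_lit 1824) (nat_lit 2203016895) (nat_lit 495) (nat_lit 5) (nat_lit 494) (nat_lit 5) (nat_lit 518) (nat_lit 5) (nat_lit 595) (nat_lit 581) (nat_lit 384)) (XT.lf (nat_lit 76) (nat_lit 11961719014) (nat_lit 0) (nat_lit 2831813040) (nat_lit 1824) (nat_lit 1220399729) (nat_lit 495) (nat_lit 5) (nat_lit 494) (nat_lit 5) (nat_lit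 518) (nat_lit 5) (nat_lit 596) (nat_lit 581) (nat_lit 383))))))) (XT.nd (nat_lit 1014) (nat_lit 6840) (nat_lit 0) (XT.nd (nat_lit 468) (nat_lit 2584) (nat_lit 0) (XT.nd (nat_lit 234) (nat_lit 0) (nat_lit 76) (XT.nd (nat_lit 78) (nat_lit 1824) (nat_lit 0) (XT.lf (nat_lit 76) (nat_lit 4349753049) (nat_lit 0) (nat_lit 11660526271) (nat_lit 1824) (nat_lit 166436485) (nat_lit 496) (nat_lit 5) (nat_lit 495) (nat_lit 5) (nat_lit 519) (nat_lit 5) (nat_lit 597) (nat_lit 581) (nat_lit 382)) (XT.nd (nat_lit 78) (nat_lit 0) (nat_lit 76) (XT.lf (nat_lit 0) (nat_lit 935800899) (nat_lit 1824) (nat_lit 3397604837) (nat_lit 1900) (nat_lit 12008450189) (nat_lit 471) (nat_lit 5) (nat_lit 495) (nat_lit 5) (nat_lit 496) (nat_lit 5) (nat_lit 598) (nat_lit 581) (nat_lit 381)) (XT.lf (nat_lit 0) (nat_lit 2105784349) (nat_lit 1824) (nat_lit 11267244444) (nat_lit 1900) (nat_lit 3136290073) (nat_lit 472) (nat_lit 5) (nat_lit 496) (nat_lit 5) (nat_lit 497) (nat_lit 5) (nat_lit 599) (nat_lit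 581) (nat_lit 380)))) (XT.nd (nat_lit 78) (nat_lit 0) (nat_lit 76) (XT.lf (nat_lit 0) (nat_lit 3344051372) (nat_lit 1824) (nat_lit 2613178712) (nat_lit 1900) (nat_lit 10722003910) (nat_lit 472) (nat_lit 5) (nat_lit 496) (nat_lit 5) (nat_lit 497) (nat_lit 5) (nat_lit 600) (nat_lit 581) (nat_lit 379)) (XT.nd (nat_lit 78) (nat_lit 0) (nat_lit 0) (XT.lf (nat_lit 0) (nat_lit 4652012056) (nat_lit 1824) (nat_lit 10571250791) (nat_lit 1900) (nat_lit 1628386607) (nat_lit 473) (nat_lit 5) (nat_lit 497) (nat_lit 5) (nat_lit 498) (nat_lit 5) (nat_lit 601) (nat_lit 581) (nat_lit 378)) (XT.lf (nat_lit 0) (nat_lit 6036709519) (nat_lit 1824) (nat_lit 1684721360) (nat_lit 1900) (nat_lit 9305071376) (nat_lit 473) (nat_lit 5) (nat_lit 497) (nat_lit 5) (nat_lit 498) (nat_lit 5) (nat_lit 602) (nat_lit 581) (nat_lit 377))))) (XT.nd (nat_lit 234) (nat_lit 2736) (nat_lit 0) (XT.nd (nat_lit 78) (nat_lit 0) (nat_lit 76) (XT.lf (nat_lit 76) (nat_lit 7472382674) (nat_lit 0) (nat_lit 18835663)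 (nat_lit 1900) (nat_lit 9712791999) (nat_lit 474) (nat_lit 5) (nat_lit 473) (nat_lit 5) (nat_lit 498) (nat_lit 5) (nat_lit 603) (nat_lit 581) (nat_lit 376)) (XT.nd (nat_lit 78) (nat_lit 0) (nat_lit 0) (XT.lf (nat_lit 0) (nat_lit 9030787447) (nat_lit 1824) (nat_lit 605598036) (nat_lit 1900) (nat_lit 7747564254) (nat_lit 474) (nat_lit 5) (nat_lit 498) (nat_lit 5) (nat_lit 499) (nat_lit 5) (nat_lit 604) (nat_lit 581) (nat_lit 375)) (XT.lf (nat_lit 76) (nat_lit 8813259977) (nat_lit 0) (nat_lit 1839059335) (nat_lit 1900) (nat_lit 6914145737) (nat_lit 475) (nat_lit 5) (nat_lit 474) (nat_lit 5) (nat_lit 499) (nat_lit 5) (nat_lit 605) (nat_lit 581) (nat_lit 374)))) (XT.nd (nat_lit 156) (nat_lit 1064) (nat_lit 0) (XT.nd (nat_lit 78) (nat_lit 0) (nat_lit 0) (XT.lf (nat_lit 0) (nat_lit 639568827) (nat_lit 1824) (nat_lit 11708573019) (nat_lit 1900) (nat_lit 5403652157) (nat_lit 451) (nat_lit 5) (nat_lit 475) (nat_lit 5) (nat_lit 476) (nat_lit 5) (nat_lit 606) (nat_lit 581)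 (nat_lit 373)) (XT.lf (nat_lit 0) (nat_lit 10321294091) (nat_lit 1824) (nat_lit 3821429005) (nat_lit 1900) (nat_lit 3796810126) (nat_lit 451) (nat_lit 5) (nat_lit 475) (nat_lit 5) (nat_lit 476) (nat_lit 5) (nat_lit 607) (nat_lit 581) (nat_lit 372))) (XT.nd (nat_lit 78) (nat_lit 0) (nat_lit 0) (XT.lf (nat_lit 0) (nat_lit 2059986392) (nat_lit 1064) (nat_lit 13948132967) (nat_lit 1140) (nat_lit 2122209915) (nat_lit 437) (nat_lit 5) (nat_lit 451) (nat_lit 5) (nat_lit 452) (nat_lit 5) (nat_lit 608) (nat_lit 581) (nat_lit 371)) (XT.lf (nat_lit 0) (nat_lit 12004198467) (nat_lit 1064) (nat_lit 5977096940) (nat_lit 1140) (nat_lit 342236912) (nat_lit 437) (nat_lit 5) (nat_lit 451) (nat_lit 5) (nat_lit 452) (nat_lit 5) (nat_lit 609) (nat_lit 581) (nat_lit 370)))))) (XT.nd (nat_lit 546) (nat_lit 3268) (nat_lit 0) (XT.nd (nat_lit 234) (nat_lit 1672) (nat_lit 0) (XT.nd (nat_lit 78) (nat_lit 912) (nat_lit 0) (XT.lf (nat_lit 0) (nat_lit 1486264560) (nat_lit 988) (nat_lit 14874298338)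 (nat_lit 76) (nat_lit 2159200656) (nat_lit 424) (nat_lit 5) (nat_lit 437) (nat_lit 5) (nat_lit 425) (nat_lit 5) (nat_lit 610) (nat_lit 581) (nat_lit 369)) (XT.nd (nat_lit 78) (nat_lit 912) (nat_lit 0) (XT.lf (nat_lit 0) (nat_lit 3423393970) (nat_lit 988) (nat_lit 4871239773) (nat_lit 76) (nat_lit 10423708096) (nat_lit 424) (nat_lit 5) (nat_lit 437) (nat_lit 5) (nat_lit 425) (nat_lit 5) (nat_lit 611) (nat_lit 581) (nat_lit 368)) (XT.lf (nat_lit 0) (nat_lit 5397514184) (nat_lit 912) (nat_lit 31272363) (nat_lit 988) (nat_lit 13491515200) (nat_lit 412) (nat_lit 5) (nat_lit 424) (nat_lit 5) (nat_lit 425) (nat_lit 5) (nat_lit 612) (nat_lit 581) (nat_lit 367)))) (XT.nd (nat_lit 156) (nat_lit 836) (nat_lit 0) (XT.nd (nat_lit 78) (nat_lit 836) (nat_lit 0) (XT.lf (nat_lit 0) (nat_lit 7556266764) (nat_lit 988) (nat_lit 3247943402) (nat_lit 76) (nat_lit 8320451551) (nat_lit 412) (nat_lit 5) (nat_lit 425) (nat_lit 5) (nat_lit 413) (nat_lit 5) (nat_lit 613) (nat_lit 581) (nat_lit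 366)) (XT.lf (nat_lit 0) (nat_lit 7323104180) (nat_lit 836) (nat_lit 2445606268) (nat_lit 912) (nat_lit 9563550613) (nat_lit 401) (nat_lit 5) (nat_lit 412) (nat_lit 5) (nat_lit 413) (nat_lit 5) (nat_lit 614) (nat_lit 581) (nat_lit 365))) (XT.nd (nat_lit 78) (nat_lit 836) (nat_lit 0) (XT.lf (nat_lit 0) (nat_lit 12081552288) (nat_lit 912) (nat_lit 1438801230) (nat_lit 76) (nat_lit 6022536329) (nat_lit 401) (nat_lit 5) (nat_lit 413) (nat_lit 5) (nat_lit 402) (nat_lit 5) (nat_lit 615) (nat_lit 581) (nat_lit 364)) (XT.lf (nat_lit 0) (nat_lit 9445544147) (nat_lit 836) (nat_lit 5067465933) (nat_lit 912) (nat_lit 5243274381) (nat_lit 390) (nat_lit 5) (nat_lit 401) (nat_lit 5) (nat_lit 402) (nat_lit 5) (nat_lit 616) (nat_lit 581) (nat_lit 363))))) (XT.nd (nat_lit 234) (nat_lit 1520) (nat_lit 0) (XT.nd (nat_lit 78) (nat_lit 912) (nat_lit 0) (XT.lf (nat_lit 0) (nat_lit 572522373) (nat_lit 836) (nat_lit 16451993779) (nat_lit 912) (nat_lit 2948802859) (nat_lit 379) (nat_lit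 5) (nat_lit 390) (nat_lit 5) (nat_lit 391) (nat_lit 5) (nat_lit 617) (nat_lit 581) (nat_lit 362)) (XT.nd (nat_lit 78) (nat_lit 912) (nat_lit 0) (XT.lf (nat_lit 0) (nat_lit 11774073488) (nat_lit 836) (nat_lit 7909679334) (nat_lit 912) (nat_lit 508991835) (nat_lit 379) (nat_lit 5) (nat_lit 390) (nat_lit 5) (nat_lit 391) (nat_lit 5) (nat_lit 618) (nat_lit 581) (nat_lit 361)) (XT.lf (nat_lit 0) (nat_lit 1972302487) (nat_lit 912) (nat_lit 17619569808) (nat_lit 76) (nat_lit 824056861) (nat_lit 367) (nat_lit 5) (nat_lit 379) (nat_lit 5) (nat_lit 368) (nat_lit 5) (nat_lit 619) (nat_lit 581) (nat_lit 360)))) (XT.nd (nat_lit 156) (nat_lit 760) (nat_lit 0) (XT.nd (nat_lit 78) (nat_lit 760) (nat_lit 0) (XT.lf (nat_lit 0) (nat_lit 4600763740) (nat_lit 912) (nat_lit 6353932216) (nat_lit 76) (nat_lit 9686727364) (nat_lit 367) (nat_lit 5) (nat_lit 379) (nat_lit 5) (nat_lit 368) (nat_lit 5) (nat_lit 620) (nat_lit 581) (nat_lit 359)) (XT.lf (nat_lit 0) (nat_lit 5200154772) (nat_lit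 760) (nat_lit 2110598620) (nat_lit 836) (nat_lit 13560095177) (nat_lit 357) (nat_lit 5) (nat_lit 367) (nat_lit 5) (nat_lit 368) (nat_lit 5) (nat_lit 621) (nat_lit 581) (nat_lit 358))) (XT.nd (nat_lit 78) (nat_lit 760) (nat_lit 0) (XT.lf (nat_lit 0) (nat_lit 10157986184) (nat_lit 836) (nat_lit 4082830329) (nat_lit 76) (nat_lit 6862385319) (nat_lit 357) (nat_lit 5) (nat_lit 368) (nat_lit 5) (nat_lit 358) (nat_lit 5) (nat_lit 622) (nat_lit 581) (nat_lit 357)) (XT.lf (nat_lit 0) (nat_lit 7820354417) (nat_lit 760) (nat_lit 5301910606) (nat_lit 836) (nat_lit 8216735481) (nat_lit 347) (nat_lit 5) (nat_lit 357) (nat_lit 5) (nat_lit 358) (nat_lit 5) (nat_lit 623) (nat_lit 581) (nat_lit 356))))))))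
noncomputable def xc202 : XT := (XT.nd (nat_lit 2106) (nat_lit 4104) (nat_lit 0) (XT.nd (nat_lit 1014) (nat_lit 4636) (nat_lit 0) (XT.nd (nat_lit 468) (nat_lit 2660) (nat_lit 0) (XT.nd (nat_lit 234) (nat_lit 684) (nat_lit 0) (XT.nd (nat_lit 78) (nat_lit 1520) (nat_lit 0) (XT.lf (nat_lit 0) (nat_lit 16193588550) (nat_lit 836) (nat_lit 1592056904) (nat_lit 76) (nat_lit 3792914875) (nat_lit 347) (nat_lit 5) (nat_lit 358) (nat_lit 5) (nat_lit 348) (nat_lit 5) (nat_lit 624) (nat_lit 581) (nat_lit 355)) (XT.nd (nat_lit 78) (nat_lit 836) (nat_lit 0) (XT.lf (nat_lit 0) (nat_lit 10672948895) (nat_lit 684) (nat_lit 8753292795) (nat_lit 760) (nat_lit 2394671954) (nat_lit 338) (nat_lit 5) (nat_lit 347) (nat_lit 5) (nat_lit 348) (nat_lit 5) (nat_lit 625) (nat_lit 581) (nat_lit 354)) (XT.lf (nat_lit 0) (nat_lit 663661955) (nat_lit 836) (nat_lit 20928298925) (nat_lit 76) (nat_lit 475731891) (nat_lit 327) (nat_lit 5) (nat_lit 338) (nat_lit 5) (nat_lit 328) (nat_lit 5) (nat_lit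 626) (nat_lit 581) (nat_lit 353)))) (XT.nd (nat_lit 78) (nat_lit 684) (nat_lit 0) (XT.lf (nat_lit 0) (nat_lit 3879974428) (nat_lit 836) (nat_lit 8573681268) (nat_lit 76) (nat_lit 9862858015) (nat_lit 327) (nat_lit 5) (nat_lit 338) (nat_lit 5) (nat_lit 328) (nat_lit 5) (nat_lit 627) (nat_lit 581) (nat_lit 352)) (XT.nd (nat_lit 78) (nat_lit 0) (nat_lit 0) (XT.lf (nat_lit 0) (nat_lit 4076532246) (nat_lit 684) (nat_lit 3106208858) (nat_lit 760) (nat_lit 15387127734) (nat_lit 318) (nat_lit 5) (nat_lit 327) (nat_lit 5) (nat_lit 328) (nat_lit 5) (nat_lit 628) (nat_lit 581) (nat_lit 351)) (XT.lf (nat_lit 0) (nat_lit 10646923428) (nat_lit 760) (nat_lit 5778299121) (nat_lit 76) (nat_lit 6401161634) (nat_lit 318) (nat_lit 5) (nat_lit 328) (nat_lit 5) (nat_lit 319) (nat_lit 5) (nat_lit 629) (nat_lit 581) (nat_lit 350))))) (XT.nd (nat_lit 234) (nat_lit 1368) (nat_lit 0) (XT.nd (nat_lit 78) (nat_lit 608) (nat_lit 0) (XT.lf (nat_lit 0) (nat_lit 7260782692) (nat_lit 684) (nat_lit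 6983112901) (nat_lit 760) (nat_lit 8842864434) (nat_lit 309) (nat_lit 5) (nat_lit 318) (nat_lit 5) (nat_lit 319) (nat_lit 5) (nat_lit 630) (nat_lit 581) (nat_lit 349)) (XT.nd (nat_lit 78) (nat_lit 608) (nat_lit 0) (XT.lf (nat_lit 0) (nat_lit 17964870506) (nat_lit 760) (nat_lit 2735002057) (nat_lit 76) (nat_lit 2651429869) (nat_lit 309) (nat_lit 5) (nat_lit 319) (nat_lit 5) (nat_lit 310) (nat_lit 5) (nat_lit 631) (nat_lit 581) (nat_lit 348)) (XT.lf (nat_lit 0) (nat_lit 10707111495) (nat_lit 608) (nat_lit 11164838007) (nat_lit 684) (nat_lit 1746952795) (nat_lit 301) (nat_lit 5) (nat_lit 309) (nat_lit 5) (nat_lit 310) (nat_lit 5) (nat_lit 632) (nat_lit 581) (nat_lit 347)))) (XT.nd (nat_lit 156) (nat_lit 608) (nat_lit 0) (XT.nd (nat_lit 78) (nat_lit 0) (nat_lit 0) (XT.lf (nat_lit 0) (nat_lit 553143422) (nat_lit 684) (nat_lit 1404406021) (nat_lit 760) (nat_lit 21933689625) (nat_lit 291) (nat_lit 5) (nat_lit 300) (nat_lit 5) (nat_lit 301) (nat_lit 5) (nat_lit 633) (nat_lit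 581) (nat_lit 346)) (XT.lf (nat_lit 0) (nat_lit 5851496266) (nat_lit 760) (nat_lit 9777480188) (nat_lit 76) (nat_lit 8537040535) (nat_lit 291) (nat_lit 5) (nat_lit 301) (nat_lit 5) (nat_lit 292) (nat_lit 5) (nat_lit 634) (nat_lit 581) (nat_lit 345))) (XT.nd (nat_lit 78) (nat_lit 0) (nat_lit 0) (XT.lf (nat_lit 0) (nat_lit 4093909584) (nat_lit 608) (nat_lit 5761357600) (nat_lit 684) (nat_lit 14590384661) (nat_lit 283) (nat_lit 5) (nat_lit 291) (nat_lit 5) (nat_lit 292) (nat_lit 5) (nat_lit 635) (nat_lit 581) (nat_lit 344)) (XT.lf (nat_lit 0) (nat_lit 14029206201) (nat_lit 684) (nat_lit 6387550177) (nat_lit 76) (nat_lit 4312321441) (nat_lit 283) (nat_lit 5) (nat_lit 292) (nat_lit 5) (nat_lit 284) (nat_lit 5) (nat_lit 636) (nat_lit 581) (nat_lit 343)))))) (XT.nd (nat_lit 546) (nat_lit 2204) (nat_lit 0) (XT.nd (nat_lit 234) (nat_lit 1140) (nat_lit 0) (XT.nd (nat_lit 78) (nat_lit 684) (nat_lit 0) (XT.lf (nat_lit 0) (nat_lit 7916827107) (nat_lit 608) (nat_lit 10455533467)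 (nat_lit 684) (nat_lit 6644097277) (nat_lit 275) (nat_lit 5) (nat_lit 283) (nat_lit 5) (nat_lit 284) (nat_lit 5) (nat_lit 637) (nat_lit 581) (nat_lit 342)) (XT.nd (nat_lit 78) (nat_lit 684) (nat_lit 0) (XT.lf (nat_lit 0) (nat_lit 22589133707) (nat_lit 608) (nat_lit 252332844) (nat_lit 684) (nat_lit 2467337426) (nat_lit 275) (nat_lit 5) (nat_lit 283) (nat_lit 5) (nat_lit 284) (nat_lit 5) (nat_lit 638) (nat_lit 581) (nat_lit 341)) (XT.lf (nat_lit 0) (nat_lit 1910736811) (nat_lit 684) (nat_lit 13581679793) (nat_lit 76) (nat_lit 10111521972) (nat_lit 266) (nat_lit 5) (nat_lit 275) (nat_lit 5) (nat_lit 267) (nat_lit 5) (nat_lit 639) (nat_lit 581) (nat_lit 340)))) (XT.nd (nat_lit 156) (nat_lit 532) (nat_lit 0) (XT.nd (nat_lit 78) (nat_lit 0) (nat_lit 0) (XT.lf (nat_lit 0) (nat_lit 1183940558) (nat_lit 608) (nat_lit 5183464795) (nat_lit 684) (nat_lit 19536763171) (nat_lit 258) (nat_lit 5) (nat_lit 266) (nat_lit 5) (nat_lit 267) (nat_lit 5) (nat_lit 640) (nat_lit 581)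 (nat_lit 339)) (XT.lf (nat_lit 0) (nat_lit 11035913004) (nat_lit 684) (nat_lit 9819595690) (nat_lit 76) (nat_lit 5352440507) (nat_lit 258) (nat_lit 5) (nat_lit 267) (nat_lit 5) (nat_lit 259) (nat_lit 5) (nat_lit 641) (nat_lit 581) (nat_lit 338))) (XT.nd (nat_lit 78) (nat_lit 0) (nat_lit 0) (XT.lf (nat_lit 0) (nat_lit 5411009889) (nat_lit 532) (nat_lit 10452657255) (nat_lit 608) (nat_lit 10652821059) (nat_lit 251) (nat_lit 5) (nat_lit 258) (nat_lit 5) (nat_lit 259) (nat_lit 5) (nat_lit 642) (nat_lit 581) (nat_lit 337)) (XT.lf (nat_lit 0) (nat_lit 20851784686) (nat_lit 608) (nat_lit 5756720448) (nat_lit 76) (nat_lit 221416920) (nat_lit 251) (nat_lit 5) (nat_lit 259) (nat_lit 5) (nat_lit 252) (nat_lit 5) (nat_lit 643) (nat_lit 581) (nat_lit 336))))) (XT.nd (nat_lit 234) (nat_lit 1064) (nat_lit 0) (XT.nd (nat_lit 78) (nat_lit 608) (nat_lit 0) (XT.lf (nat_lit 0) (nat_lit 9955742129) (nat_lit 532) (nat_lit 16114304043) (nat_lit 608) (nat_lit 1076971008) (nat_lit 244)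 (nat_lit 5) (nat_lit 251) (nat_lit 5) (nat_lit 252) (nat_lit 5) (nat_lit 644) (nat_lit 581) (nat_lit 335)) (XT.nd (nat_lit 78) (nat_lit 532) (nat_lit 0) (XT.lf (nat_lit 0) (nat_lit 3906199382) (nat_lit 608) (nat_lit 1439550038) (nat_lit 76) (nat_lit 22123487270) (nat_lit 243) (nat_lit 5) (nat_lit 251) (nat_lit 5) (nat_lit 244) (nat_lit 5) (nat_lit 645) (nat_lit 581) (nat_lit 334)) (XT.lf (nat_lit 0) (nat_lit 9104666996) (nat_lit 608) (nat_lit 13023420310) (nat_lit 76) (nat_lit 5667070037) (nat_lit 236) (nat_lit 5) (nat_lit 244) (nat_lit 5) (nat_lit 237) (nat_lit 5) (nat_lit 646) (nat_lit 581) (nat_lit 333)))) (XT.nd (nat_lit 156) (nat_lit 532) (nat_lit 0) (XT.nd (nat_lit 78) (nat_lit 0) (nat_lit 0) (XT.lf (nat_lit 0) (nat_lit 3201305601) (nat_lit 532) (nat_lit 11268342393) (nat_lit 608) (nat_lit 13656697747) (nat_lit 229) (nat_lit 5) (nat_lit 236) (nat_lit 5) (nat_lit 237) (nat_lit 5) (nat_lit 647) (nat_lit 581) (nat_lit 332)) (XT.lf (nat_lit 0) (nat_lit 19922518085)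 (nat_lit 532) (nat_lit 103473665) (nat_lit 608) (nat_lit 8436485102) (nat_lit 229) (nat_lit 5) (nat_lit 236) (nat_lit 5) (nat_lit 237) (nat_lit 5) (nat_lit 648) (nat_lit 581) (nat_lit 331))) (XT.nd (nat_lit 78) (nat_lit 76) (nat_lit 0) (XT.lf (nat_lit 0) (nat_lit 8202622861) (nat_lit 456) (nat_lit 17614090820) (nat_lit 532) (nat_lit 2986152082) (nat_lit 223) (nat_lit 5) (nat_lit 229) (nat_lit 5) (nat_lit 230) (nat_lit 5) (nat_lit 649) (nat_lit 581) (nat_lit 330)) (XT.lf (nat_lit 0) (nat_lit 2594552329) (nat_lit 532) (nat_lit 3775396774) (nat_lit 76) (nat_lit 22778677159) (nat_lit 222) (nat_lit 5) (nat_lit 229) (nat_lit 5) (nat_lit 223) (nat_lit 5) (nat_lit 650) (nat_lit 581) (nat_lit 329))))))) (XT.nd (nat_lit 1014) (nat_lit 380) (nat_lit 0) (XT.nd (nat_lit 468) (nat_lit 1748) (nat_lit 0) (XT.nd (nat_lit 234) (nat_lit 988) (nat_lit 0) (XT.nd (nat_lit 78) (nat_lit 456) (nat_lit 0) (XT.lf (nat_lit 0) (nat_lit 8365445485) (nat_lit 608) (nat_lit 15993720868) (nat_lit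 76) (nat_lit 5139369855) (nat_lit 215) (nat_lit 5) (nat_lit 223) (nat_lit 5) (nat_lit 216) (nat_lit 5) (nat_lit 651) (nat_lit 581) (nat_lit 328)) (XT.nd (nat_lit 78) (nat_lit 0) (nat_lit 0) (XT.lf (nat_lit 0) (nat_lit 1297065155) (nat_lit 456) (nat_lit 13027630555) (nat_lit 532) (nat_lit 15529290050) (nat_lit 209) (nat_lit 5) (nat_lit 215) (nat_lit 5) (nat_lit 216) (nat_lit 5) (nat_lit 652) (nat_lit 581) (nat_lit 327)) (XT.lf (nat_lit 0) (nat_lit 19146031609) (nat_lit 456) (nat_lit 1361289005) (nat_lit 532) (nat_lit 9707140079) (nat_lit 209) (nat_lit 5) (nat_lit 215) (nat_lit 5) (nat_lit 216) (nat_lit 5) (nat_lit 653) (nat_lit 581) (nat_lit 326)))) (XT.nd (nat_lit 78) (nat_lit 532) (nat_lit 0) (XT.lf (nat_lit 0) (nat_lit 6786008986) (nat_lit 456) (nat_lit 20136987080) (nat_lit 532) (nat_lit 3656961277) (nat_lit 203) (nat_lit 5) (nat_lit 209) (nat_lit 5) (nat_lit 210) (nat_lit 5) (nat_lit 654) (nat_lit 581) (nat_lit 325)) (XT.nd (nat_lit 78) (nat_lit 456) (nat_lit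 0) (XT.lf (nat_lit 0) (nat_lit 2561956989) (nat_lit 532) (nat_lit 5833951081) (nat_lit 76) (nat_lit 22554915346) (nat_lit 202) (nat_lit 5) (nat_lit 209) (nat_lit 5) (nat_lit 203) (nat_lit 5) (nat_lit 655) (nat_lit 581) (nat_lit 324)) (XT.lf (nat_lit 0) (nat_lit 8959211480) (nat_lit 532) (nat_lit 18728737581) (nat_lit 76) (nat_lit 3638615978) (nat_lit 196) (nat_lit 5) (nat_lit 203) (nat_lit 5) (nat_lit 197) (nat_lit 5) (nat_lit 656) (nat_lit 581) (nat_lit 323))))) (XT.nd (nat_lit 234) (nat_lit 912) (nat_lit 0) (XT.nd (nat_lit 78) (nat_lit 836) (nat_lit 0) (XT.lf (nat_lit 0) (nat_lit 15576432386) (nat_lit 532) (nat_lit 291926640) (nat_lit 76) (nat_lit 15839622210) (nat_lit 196) (nat_lit 5) (nat_lit 203) (nat_lit 5) (nat_lit 197) (nat_lit 5) (nat_lit 657) (nat_lit 581) (nat_lit 322)) (XT.nd (nat_lit 78) (nat_lit 380) (nat_lit 0) (XT.lf (nat_lit 0) (nat_lit 18755336274) (nat_lit 456) (nat_lit 3689503263) (nat_lit 532) (nat_lit 9649809548) (nat_lit 190) (nat_lit 5)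 (nat_lit 196) (nat_lit 5) (nat_lit 197) (nat_lit 5) (nat_lit 658) (nat_lit 581) (nat_lit 321)) (XT.lf (nat_lit 0) (nat_lit 5712411540) (nat_lit 380) (nat_lit 23831055009) (nat_lit 456) (nat_lit 2943726867) (nat_lit 185) (nat_lit 5) (nat_lit 190) (nat_lit 5) (nat_lit 191) (nat_lit 5) (nat_lit 659) (nat_lit 581) (nat_lit 320)))) (XT.nd (nat_lit 156) (nat_lit 380) (nat_lit 0) (XT.nd (nat_lit 78) (nat_lit 456) (nat_lit 0) (XT.lf (nat_lit 0) (nat_lit 3957016076) (nat_lit 456) (nat_lit 7614430986) (nat_lit 76) (nat_lit 21313402924) (nat_lit 184) (nat_lit 5) (nat_lit 190) (nat_lit 5) (nat_lit 185) (nat_lit 5) (nat_lit 660) (nat_lit 581) (nat_lit 319)) (XT.lf (nat_lit 0) (nat_lit 11038576265) (nat_lit 532) (nat_lit 21231621889) (nat_lit 76) (nat_lit 1018228148) (nat_lit 178) (nat_lit 5) (nat_lit 185) (nat_lit 5) (nat_lit 179) (nat_lit 5) (nat_lit 661) (nat_lit 581) (nat_lit 318))) (XT.nd (nat_lit 78) (nat_lit 380) (nat_lit 0) (XT.lf (nat_lit 0) (nat_lit 18387012689) (nat_lit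 532) (nat_lit 1555573922) (nat_lit 76) (nat_lit 13754982781) (nat_lit 178) (nat_lit 5) (nat_lit 185) (nat_lit 5) (nat_lit 179) (nat_lit 5) (nat_lit 662) (nat_lit 581) (nat_lit 317)) (XT.lf (nat_lit 0) (nat_lit 18755832728) (nat_lit 380) (nat_lit 7245593461) (nat_lit 456) (nat_lit 8111089134) (nat_lit 173) (nat_lit 5) (nat_lit 178) (nat_lit 5) (nat_lit 179) (nat_lit 5) (nat_lit 663) (nat_lit 581) (nat_lit 316)))))) (XT.nd (nat_lit 75270) (nat_lit 0) (nat_lit 24472) (XT.nd (nat_lit 74958) (nat_lit 0) (nat_lit 24320) (XT.nd (nat_lit 74802) (nat_lit 0) (nat_lit 24320) (XT.lf (nat_lit 0) (nat_lit 4983077236) (nat_lit 380) (nat_lit 28862206432) (nat_lit 456) (nat_lit 688933533) (nat_lit 168) (nat_lit 5) (nat_lit 173) (nat_lit 5) (nat_lit 174) (nat_lit 5) (nat_lit 664) (nat_lit 581) (nat_lit 315)) (XT.nd (nat_lit 78) (nat_lit 0) (nat_lit 0) (XT.lf (nat_lit 0) (nat_lit 1072268054) (nat_lit 0) (nat_lit 1072268054) (nat_lit 1748) (nat_lit 4904365431) (nat_lit 488) (nat_lit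 5) (nat_lit 488) (nat_lit 3) (nat_lit 511) (nat_lit 3) (nat_lit 582) (nat_lit 582) (nat_lit 396)) (XT.lf (nat_lit 0) (nat_lit 4701028577) (nat_lit 1748) (nat_lit 5016005886) (nat_lit 1824) (nat_lit 4514333568) (nat_lit 488) (nat_lit 5) (nat_lit 511) (nat_lit 3) (nat_lit 512) (nat_lit 5) (nat_lit 583) (nat_lit 582) (nat_lit 395)))) (XT.nd (nat_lit 156) (nat_lit 0) (nat_lit 76) (XT.nd (nat_lit 78) (nat_lit 0) (nat_lit 76) (XT.lf (nat_lit 76) (nat_lit 2068265252) (nat_lit 0) (nat_lit 3071716791) (nat_lit 1824) (nat_lit 9227247912) (nat_lit 489) (nat_lit 5) (nat_lit 488) (nat_lit 5) (nat_lit 512) (nat_lit 5) (nat_lit 584) (nat_lit 582) (nat_lit 394)) (XT.lf (nat_lit 0) (nat_lit 5636960396) (nat_lit 1748) (nat_lit 5172038826) (nat_lit 1824) (nat_lit 3695825798) (nat_lit 489) (nat_lit 5) (nat_lit 512) (nat_lit 5) (nat_lit 513) (nat_lit 5) (nat_lit 585) (nat_lit 582) (nat_lit 393))) (XT.nd (nat_lit 78) (nat_lit 0) (nat_lit 76) (XT.lf (nat_lit 76) (nat_lit 2099888207)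 (nat_lit 0) (nat_lit 4069434861) (nat_lit 1824) (nat_lit 8475340825) (nat_lit 490) (nat_lit 5) (nat_lit 489) (nat_lit 5) (nat_lit 513) (nat_lit 5) (nat_lit 586) (nat_lit 582) (nat_lit 392)) (XT.lf (nat_lit 0) (nat_lit 6757110447) (nat_lit 1748) (nat_lit 5222581295) (nat_lit 1824) (nat_lit 2806713035) (nat_lit 490) (nat_lit 5) (nat_lit 513) (nat_lit 5) (nat_lit 514) (nat_lit 5) (nat_lit 587) (nat_lit 582) (nat_lit 391))))) (XT.nd (nat_lit 234) (nat_lit 0) (nat_lit 152) (XT.nd (nat_lit 78) (nat_lit 0) (nat_lit 76) (XT.lf (nat_lit 76) (nat_lit 2243733294) (nat_lit 0) (nat_lit 5146231217) (nat_lit 1824) (nat_lit 7540350520) (nat_lit 491) (nat_lit 5) (nat_lit 490) (nat_lit 5) (nat_lit 514) (nat_lit 5) (nat_lit 588) (nat_lit 582) (nat_lit 390)) (XT.nd (nat_lit 78) (nat_lit 0) (nat_lit 0) (XT.lf (nat_lit 0) (nat_lit 8074540639) (nat_lit 1748) (nat_lit 5163261917) (nat_lit 1824) (nat_lit 1838520389) (nat_lit 491) (nat_lit 5) (nat_lit 514) (nat_lit 5) (nat_lit 515) (nat_lit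 5) (nat_lit 589) (nat_lit 582) (nat_lit 389)) (XT.lf (nat_lit 76) (nat_lit 2504433575) (nat_lit 0) (nat_lit 6310818768) (nat_lit 1824) (nat_lit 6409150532) (nat_lit 492) (nat_lit 5) (nat_lit 491) (nat_lit 5) (nat_lit 515) (nat_lit 5) (nat_lit 590) (nat_lit 582) (nat_lit 388)))) (XT.nd (nat_lit 156) (nat_lit 0) (nat_lit 0) (XT.nd (nat_lit 78) (nat_lit 0) (nat_lit 0) (XT.lf (nat_lit 0) (nat_lit 9602801281) (nat_lit 1748) (nat_lit 4989407823) (nat_lit 1824) (nat_lit 782595566) (nat_lit 492) (nat_lit 5) (nat_lit 515) (nat_lit 5) (nat_lit 516) (nat_lit 5) (nat_lit 591) (nat_lit 582) (nat_lit 387)) (XT.lf (nat_lit 76) (nat_lit 2886932819) (nat_lit 0) (nat_lit 7572103108) (nat_lit 1824) (nat_lit 5068120591) (nat_lit 493) (nat_lit 5) (nat_lit 492) (nat_lit 5) (nat_lit 516) (nat_lit 5) (nat_lit 592) (nat_lit 582) (nat_lit 386))) (XT.nd (nat_lit 78) (nat_lit 0) (nat_lit 76) (XT.lf (nat_lit 76) (nat_lit 10983564049) (nat_lit 0) (nat_lit 374827574) (nat_lit 1824) (nat_lit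 4323644549) (nat_lit 493) (nat_lit 5) (nat_lit 492) (nat_lit 5) (nat_lit 516) (nat_lit 5) (nat_lit 593) (nat_lit 582) (nat_lit 385)) (XT.lf (nat_lit 76) (nat_lit 3396492042) (nat_lit 0) (nat_lit 8939203343) (nat_lit 1824) (nat_lit 3503119498) (nat_lit 494) (nat_lit 5) (nat_lit 493) (nat_lit 5) (nat_lit 517) (nat_lit 5) (nat_lit 594) (nat_lit 582) (nat_lit 384))))))))
noncomputable def xc203 : XT := (XT.nd (nat_lit 2106) (nat_lit 10488) (nat_lit 0) (XT.nd (nat_lit 1014) (nat_lit 6384) (nat_lit 0) (XT.nd (nat_lit 468) (nat_lit 1520) (nat_lit 0) (XT.nd (nat_lit 234) (nat_lit 1672) (nat_lit 0) (XT.nd (nat_lit 78) (nat_lit 0) (nat_lit 76) (XT.lf (nat_lit 76) (nat_lit 11709624116) (nat_lit 0) (nat_lit 1649706243) (nat_lit 1824) (nat_lit 2638863779) (nat_lit 494) (nat_lit 5) (nat_lit 493) (nat_lit 5) (nat_lit 517) (nat_lit 5) (nat_lit 595) (nat_lit 582) (nat_lit 383)) (XT.nd (nat_lit 78) (nat_lit 0) (nat_lit 0) (XT.lf (nat_lit 76) (nat_lit 4038696621) (nat_lit 0) (nat_lit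 10421473125) (nat_lit 1824) (nat_lit 1699457253) (nat_lit 495) (nat_lit 5) (nat_lit 494) (nat_lit 5) (nat_lit 518) (nat_lit 5) (nat_lit 596) (nat_lit 582) (nat_lit 382)) (XT.lf (nat_lit 76) (nat_lit 12574637928) (nat_lit 0) (nat_lit 3041072160) (nat_lit 1824) (nat_lit 707925391) (nat_lit 495) (nat_lit 5) (nat_lit 494) (nat_lit 5) (nat_lit 518) (nat_lit 5) (nat_lit 597) (nat_lit 582) (nat_lit 381)))) (XT.nd (nat_lit 78) (nat_lit 0) (nat_lit 0) (XT.lf (nat_lit 0) (nat_lit 353436639) (nat_lit 1824) (nat_lit 11672713537) (nat_lit 1900) (nat_lit 4463655585) (nat_lit 471) (nat_lit 5) (nat_lit 495) (nat_lit 5) (nat_lit 496) (nat_lit 5) (nat_lit 598) (nat_lit 582) (nat_lit 380)) (XT.nd (nat_lit 78) (nat_lit 0) (nat_lit 76) (XT.lf (nat_lit 0) (nat_lit 1465277067) (nat_lit 1824) (nat_lit 3083511594) (nat_lit 1900) (nat_lit 12109643201) (nat_lit 471) (nat_lit 5) (nat_lit 495) (nat_lit 5) (nat_lit 496) (nat_lit 5) (nat_lit 599) (nat_lit 582) (nat_lit 379)) (XT.lf (nat_lit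 0) (nat_lit 2650306458) (nat_lit 1824) (nat_lit 11102145188) (nat_lit 1900) (nat_lit 3076960393) (nat_lit 472) (nat_lit 5) (nat_lit 496) (nat_lit 5) (nat_lit 497) (nat_lit 5) (nat_lit 600) (nat_lit 582) (nat_lit 378))))) (XT.nd (nat_lit 234) (nat_lit 1596) (nat_lit 0) (XT.nd (nat_lit 78) (nat_lit 0) (nat_lit 76) (XT.lf (nat_lit 0) (nat_lit 3903487715) (nat_lit 1824) (nat_lit 2282653909) (nat_lit 1900) (nat_lit 10816781751) (nat_lit 472) (nat_lit 5) (nat_lit 496) (nat_lit 5) (nat_lit 497) (nat_lit 5) (nat_lit 601) (nat_lit 582) (nat_lit 377)) (XT.nd (nat_lit 78) (nat_lit 0) (nat_lit 0) (XT.lf (nat_lit 0) (nat_lit 5229736275) (nat_lit 1824) (nat_lit 10391972766) (nat_lit 1900) (nat_lit 1557236396) (nat_lit 473) (nat_lit 5) (nat_lit 497) (nat_lit 5) (nat_lit 498) (nat_lit 5) (nat_lit 602) (nat_lit 582) (nat_lit 376)) (XT.lf (nat_lit 0) (nat_lit 6632624081) (nat_lit 1824) (nat_lit 1335373590) (nat_lit 1900) (nat_lit 9389488545) (nat_lit 473) (nat_lit 5) (nat_lit 497)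 (nat_lit 5) (nat_lit 498) (nat_lit 5) (nat_lit 603) (nat_lit 582) (nat_lit 375)))) (XT.nd (nat_lit 156) (nat_lit 1672) (nat_lit 0) (XT.nd (nat_lit 78) (nat_lit 0) (nat_lit 76) (XT.lf (nat_lit 76) (nat_lit 8002352510) (nat_lit 0) (nat_lit 107023905) (nat_lit 1900) (nat_lit 9429305810) (nat_lit 474) (nat_lit 5) (nat_lit 473) (nat_lit 5) (nat_lit 498) (nat_lit 5) (nat_lit 604) (nat_lit 582) (nat_lit 374)) (XT.lf (nat_lit 0) (nat_lit 9669994941) (nat_lit 1824) (nat_lit 234866241) (nat_lit 1900) (nat_lit 7817554888) (nat_lit 474) (nat_lit 5) (nat_lit 498) (nat_lit 5) (nat_lit 499) (nat_lit 5) (nat_lit 605) (nat_lit 582) (nat_lit 373))) (XT.nd (nat_lit 78) (nat_lit 1748) (nat_lit 0) (XT.lf (nat_lit 76) (nat_lit 9369850224) (nat_lit 0) (nat_lit 1947584547) (nat_lit 1900) (nat_lit 6591278170) (nat_lit 475) (nat_lit 5) (nat_lit 474) (nat_lit 5) (nat_lit 499) (nat_lit 5) (nat_lit 606) (nat_lit 582) (nat_lit 372)) (XT.lf (nat_lit 0) (nat_lit 1039667520) (nat_lit 1824) (nat_lit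 12000700117) (nat_lit 1900) (nat_lit 5057517746) (nat_lit 451) (nat_lit 5) (nat_lit 475) (nat_lit 5) (nat_lit 476) (nat_lit 5) (nat_lit 607) (nat_lit 582) (nat_lit 371)))))) (XT.nd (nat_lit 546) (nat_lit 3420) (nat_lit 0) (XT.nd (nat_lit 234) (nat_lit 1824) (nat_lit 0) (XT.nd (nat_lit 78) (nat_lit 1140) (nat_lit 0) (XT.lf (nat_lit 0) (nat_lit 10907433028) (nat_lit 1824) (nat_lit 3954676838) (nat_lit 1900) (nat_lit 3427444902) (nat_lit 451) (nat_lit 5) (nat_lit 475) (nat_lit 5) (nat_lit 476) (nat_lit 5) (nat_lit 608) (nat_lit 582) (nat_lit 370)) (XT.nd (nat_lit 78) (nat_lit 76) (nat_lit 0) (XT.lf (nat_lit 0) (nat_lit 2487478972) (nat_lit 1064) (nat_lit 14270922020) (nat_lit 1140) (nat_lit 1725894766) (nat_lit 437) (nat_lit 5) (nat_lit 451) (nat_lit 5) (nat_lit 452) (nat_lit 5) (nat_lit 609) (nat_lit 582) (nat_lit 369)) (XT.lf (nat_lit 0) (nat_lit 80011264) (nat_lit 1140) (nat_lit 6059057748) (nat_lit 76) (nat_lit 12542452736) (nat_lit 436) (nat_lit 5) (nat_lit 451)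 (nat_lit 5) (nat_lit 437) (nat_lit 5) (nat_lit 610) (nat_lit 582) (nat_lit 368)))) (XT.nd (nat_lit 156) (nat_lit 912) (nat_lit 0) (XT.nd (nat_lit 78) (nat_lit 0) (nat_lit 0) (XT.lf (nat_lit 0) (nat_lit 1934421070) (nat_lit 988) (nat_lit 14781269023) (nat_lit 76) (nat_lit 2166064565) (nat_lit 424) (nat_lit 5) (nat_lit 437) (nat_lit 5) (nat_lit 425) (nat_lit 5) (nat_lit 611) (nat_lit 582) (nat_lit 367)) (XT.lf (nat_lit 0) (nat_lit 3902088535) (nat_lit 988) (nat_lit 4585806448) (nat_lit 76) (nat_lit 10596574313) (nat_lit 424) (nat_lit 5) (nat_lit 437) (nat_lit 5) (nat_lit 425) (nat_lit 5) (nat_lit 612) (nat_lit 582) (nat_lit 366))) (XT.nd (nat_lit 78) (nat_lit 0) (nat_lit 0) (XT.lf (nat_lit 0) (nat_lit 5885803784) (nat_lit 912) (nat_lit 56210933) (nat_lit 988) (nat_lit 13348565853) (nat_lit 412) (nat_lit 5) (nat_lit 424) (nat_lit 5) (nat_lit 425) (nat_lit 5) (nat_lit 613) (nat_lit 582) (nat_lit 365)) (XT.lf (nat_lit 0) (nat_lit 8103955416) (nat_lit 988) (nat_lit 2931897972)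 (nat_lit 76) (nat_lit 8463336805) (nat_lit 412) (nat_lit 5) (nat_lit 425) (nat_lit 5) (nat_lit 413) (nat_lit 5) (nat_lit 614) (nat_lit 582) (nat_lit 364))))) (XT.nd (nat_lit 234) (nat_lit 1748) (nat_lit 0) (XT.nd (nat_lit 78) (nat_lit 836) (nat_lit 0) (XT.lf (nat_lit 0) (nat_lit 7848063955) (nat_lit 836) (nat_lit 2507265725) (nat_lit 912) (nat_lit 9355718866) (nat_lit 401) (nat_lit 5) (nat_lit 412) (nat_lit 5) (nat_lit 413) (nat_lit 5) (nat_lit 615) (nat_lit 582) (nat_lit 363)) (XT.nd (nat_lit 78) (nat_lit 836) (nat_lit 0) (XT.lf (nat_lit 0) (nat_lit 12706675745) (nat_lit 912) (nat_lit 1088716282) (nat_lit 76) (nat_lit 6130653577) (nat_lit 401) (nat_lit 5) (nat_lit 413) (nat_lit 5) (nat_lit 402) (nat_lit 5) (nat_lit 616) (nat_lit 582) (nat_lit 362)) (XT.lf (nat_lit 0) (nat_lit 10010823496) (nat_lit 836) (nat_lit 5170863371) (nat_lit 912) (nat_lit 4962123391) (nat_lit 390) (nat_lit 5) (nat_lit 401) (nat_lit 5) (nat_lit 402) (nat_lit 5) (nat_lit 617) (nat_lit 582)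 (nat_lit 361)))) (XT.nd (nat_lit 156) (nat_lit 912) (nat_lit 0) (XT.nd (nat_lit 78) (nat_lit 0) (nat_lit 0) (XT.lf (nat_lit 0) (nat_lit 965428282) (nat_lit 836) (nat_lit 16773038470) (nat_lit 912) (nat_lit 2626818491) (nat_lit 379) (nat_lit 5) (nat_lit 390) (nat_lit 5) (nat_lit 391) (nat_lit 5) (nat_lit 618) (nat_lit 582) (nat_lit 360)) (XT.lf (nat_lit 0) (nat_lit 12383530901) (nat_lit 836) (nat_lit 8060034505) (nat_lit 912) (nat_lit 145681059) (nat_lit 379) (nat_lit 5) (nat_lit 390) (nat_lit 5) (nat_lit 391) (nat_lit 5) (nat_lit 619) (nat_lit 582) (nat_lit 359))) (XT.nd (nat_lit 78) (nat_lit 0) (nat_lit 0) (XT.lf (nat_lit 0) (nat_lit 2375639190) (nat_lit 912) (nat_lit 17588326404) (nat_lit 76) (nat_lit 852975175) (nat_lit 367) (nat_lit 5) (nat_lit 379) (nat_lit 5) (nat_lit 368) (nat_lit 5) (nat_lit 620) (nat_lit 582) (nat_lit 358)) (XT.lf (nat_lit 0) (nat_lit 5049534557) (nat_lit 912) (nat_lit 6104898311) (nat_lit 76) (nat_lit 9892655222) (nat_lit 367) (nat_lit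 5) (nat_lit 379) (nat_lit 5) (nat_lit 368) (nat_lit 5) (nat_lit 621) (nat_lit 582) (nat_lit 357))))))) (XT.nd (nat_lit 1092) (nat_lit 4712) (nat_lit 0) (XT.nd (nat_lit 546) (nat_lit 2736) (nat_lit 0) (XT.nd (nat_lit 234) (nat_lit 1520) (nat_lit 0) (XT.nd (nat_lit 78) (nat_lit 760) (nat_lit 0) (XT.lf (nat_lit 0) (nat_lit 5677795992) (nat_lit 760) (nat_lit 2131358710) (nat_lit 836) (nat_lit 13472039088) (nat_lit 357) (nat_lit 5) (nat_lit 367) (nat_lit 5) (nat_lit 368) (nat_lit 5) (nat_lit 622) (nat_lit 582) (nat_lit 356)) (XT.nd (nat_lit 78) (nat_lit 760) (nat_lit 0) (XT.lf (nat_lit 0) (nat_lit 10706563086) (nat_lit 836) (nat_lit 3791378510) (nat_lit 76) (nat_lit 7020388454) (nat_lit 357) (nat_lit 5) (nat_lit 368) (nat_lit 5) (nat_lit 358) (nat_lit 5) (nat_lit 623) (nat_lit 582) (nat_lit 355)) (XT.lf (nat_lit 0) (nat_lit 8347415271) (nat_lit 760) (nat_lit 5378345875) (nat_lit 836) (nat_lit 8033171415) (nat_lit 347) (nat_lit 5) (nat_lit 357) (nat_lit 5) (nat_lit 358)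 (nat_lit 5) (nat_lit 624) (nat_lit 582) (nat_lit 354)))) (XT.nd (nat_lit 156) (nat_lit 836) (nat_lit 0) (XT.nd (nat_lit 78) (nat_lit 684) (nat_lit 0) (XT.lf (nat_lit 0) (nat_lit 16852012306) (nat_lit 836) (nat_lit 1253986751) (nat_lit 76) (nat_lit 3897415031) (nat_lit 347) (nat_lit 5) (nat_lit 358) (nat_lit 5) (nat_lit 348) (nat_lit 5) (nat_lit 625) (nat_lit 582) (nat_lit 353)) (XT.lf (nat_lit 0) (nat_lit 11253885537) (nat_lit 684) (nat_lit 8891259037) (nat_lit 760) (nat_lit 2105553890) (nat_lit 338) (nat_lit 5) (nat_lit 347) (nat_lit 5) (nat_lit 348) (nat_lit 5) (nat_lit 626) (nat_lit 582) (nat_lit 352))) (XT.nd (nat_lit 78) (nat_lit 0) (nat_lit 0) (XT.lf (nat_lit 0) (nat_lit 1005670457) (nat_lit 836) (nat_lit 20971060731) (nat_lit 76) (nat_lit 525715847) (nat_lit 327) (nat_lit 5) (nat_lit 338) (nat_lit 5) (nat_lit 328) (nat_lit 5) (nat_lit 627) (nat_lit 582) (nat_lit 351)) (XT.lf (nat_lit 0) (nat_lit 4279863391) (nat_lit 836) (nat_lit 8376719430) (nat_lit 76)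 (nat_lit 10099790977) (nat_lit 327) (nat_lit 5) (nat_lit 338) (nat_lit 5) (nat_lit 328) (nat_lit 5) (nat_lit 628) (nat_lit 582) (nat_lit 350))))) (XT.nd (nat_lit 234) (nat_lit 1368) (nat_lit 0) (XT.nd (nat_lit 78) (nat_lit 684) (nat_lit 0) (XT.lf (nat_lit 0) (nat_lit 4524074437) (nat_lit 684) (nat_lit 3120667951) (nat_lit 760) (nat_lit 15370132978) (nat_lit 318) (nat_lit 5) (nat_lit 327) (nat_lit 5) (nat_lit 328) (nat_lit 5) (nat_lit 629) (nat_lit 582) (nat_lit 349)) (XT.nd (nat_lit 78) (nat_lit 684) (nat_lit 0) (XT.lf (nat_lit 0) (nat_lit 11172269677) (nat_lit 760) (nat_lit 5529068123) (nat_lit 76) (nat_lit 6575302462) (nat_lit 318) (nat_lit 5) (nat_lit 328) (nat_lit 5) (nat_lit 319) (nat_lit 5) (nat_lit 630) (nat_lit 582) (nat_lit 348)) (XT.lf (nat_lit 0) (nat_lit 7768395347) (nat_lit 684) (nat_lit 7069013217) (nat_lit 760) (nat_lit 8704890973) (nat_lit 309) (nat_lit 5) (nat_lit 318) (nat_lit 5) (nat_lit 319) (nat_lit 5) (nat_lit 631) (nat_lit 582) (nat_lit 347))))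 (XT.nd (nat_lit 156) (nat_lit 760) (nat_lit 0) (XT.nd (nat_lit 78) (nat_lit 608) (nat_lit 0) (XT.lf (nat_lit 0) (nat_lit 18627093521) (nat_lit 760) (nat_lit 2428678927) (nat_lit 76) (nat_lit 2756474981) (nat_lit 309) (nat_lit 5) (nat_lit 319) (nat_lit 5) (nat_lit 310) (nat_lit 5) (nat_lit 632) (nat_lit 582) (nat_lit 346)) (XT.lf (nat_lit 0) (nat_lit 11279901744) (nat_lit 608) (nat_lit 11328801216) (nat_lit 684) (nat_lit 1476568996) (nat_lit 301) (nat_lit 5) (nat_lit 309) (nat_lit 5) (nat_lit 310) (nat_lit 5) (nat_lit 633) (nat_lit 582) (nat_lit 345))) (XT.nd (nat_lit 78) (nat_lit 0) (nat_lit 0) (XT.lf (nat_lit 0) (nat_lit 924494324) (nat_lit 684) (nat_lit 1369955622) (nat_lit 760) (nat_lit 22068637673) (nat_lit 291) (nat_lit 5) (nat_lit 300) (nat_lit 5) (nat_lit 301) (nat_lit 5) (nat_lit 634) (nat_lit 582) (nat_lit 344)) (XT.lf (nat_lit 0) (nat_lit 6260835559) (nat_lit 760) (nat_lit 9614345260) (nat_lit 76) (nat_lit 8768289498) (nat_lit 291) (nat_lit 5) (nat_lit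 301) (nat_lit 5) (nat_lit 292) (nat_lit 5) (nat_lit 635) (nat_lit 582) (nat_lit 343)))))) (XT.nd (nat_lit 546) (nat_lit 2204) (nat_lit 0) (XT.nd (nat_lit 234) (nat_lit 1292) (nat_lit 0) (XT.nd (nat_lit 78) (nat_lit 608) (nat_lit 0) (XT.lf (nat_lit 0) (nat_lit 4532112540) (nat_lit 608) (nat_lit 5809151296) (nat_lit 684) (nat_lit 14587502804) (nat_lit 283) (nat_lit 5) (nat_lit 291) (nat_lit 5) (nat_lit 292) (nat_lit 5) (nat_lit 636) (nat_lit 582) (nat_lit 342)) (XT.nd (nat_lit 78) (nat_lit 608) (nat_lit 0) (XT.lf (nat_lit 0) (nat_lit 14593446336) (nat_lit 684) (nat_lit 6160707864) (nat_lit 76) (nat_lit 4463812041) (nat_lit 283) (nat_lit 5) (nat_lit 292) (nat_lit 5) (nat_lit 284) (nat_lit 5) (nat_lit 637) (nat_lit 582) (nat_lit 341)) (XT.lf (nat_lit 0) (nat_lit 8427424115) (nat_lit 608) (nat_lit 10592764908) (nat_lit 684) (nat_lit 6490970738) (nat_lit 275) (nat_lit 5) (nat_lit 283) (nat_lit 5) (nat_lit 284) (nat_lit 5) (nat_lit 638) (nat_lit 582) (nat_lit 340))))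 (XT.nd (nat_lit 156) (nat_lit 608) (nat_lit 0) (XT.nd (nat_lit 78) (nat_lit 684) (nat_lit 0) (XT.lf (nat_lit 0) (nat_lit 23386269779) (nat_lit 608) (nat_lit 186909670) (nat_lit 684) (nat_lit 2236283700) (nat_lit 275) (nat_lit 5) (nat_lit 283) (nat_lit 5) (nat_lit 284) (nat_lit 5) (nat_lit 639) (nat_lit 582) (nat_lit 339)) (XT.lf (nat_lit 0) (nat_lit 2222975227) (nat_lit 684) (nat_lit 13501545846) (nat_lit 76) (nat_lit 10385997311) (nat_lit 266) (nat_lit 5) (nat_lit 275) (nat_lit 5) (nat_lit 267) (nat_lit 5) (nat_lit 640) (nat_lit 582) (nat_lit 338))) (XT.nd (nat_lit 78) (nat_lit 0) (nat_lit 0) (XT.lf (nat_lit 0) (nat_lit 1557072652) (nat_lit 608) (nat_lit 5208600357) (nat_lit 684) (nat_lit 19651142367) (nat_lit 258) (nat_lit 5) (nat_lit 266) (nat_lit 5) (nat_lit 267) (nat_lit 5) (nat_lit 641) (nat_lit 582) (nat_lit 337)) (XT.lf (nat_lit 0) (nat_lit 11522738560) (nat_lit 684) (nat_lit 9668556321) (nat_lit 76) (nat_lit 5535473386) (nat_lit 258) (nat_lit 5) (nat_lit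 267) (nat_lit 5) (nat_lit 259) (nat_lit 5) (nat_lit 642) (nat_lit 582) (nat_lit 336))))) (XT.nd (nat_lit 234) (nat_lit 1140) (nat_lit 0) (XT.nd (nat_lit 78) (nat_lit 532) (nat_lit 0) (XT.lf (nat_lit 0) (nat_lit 5864375637) (nat_lit 532) (nat_lit 10579695269) (nat_lit 608) (nat_lit 10597467029) (nat_lit 251) (nat_lit 5) (nat_lit 258) (nat_lit 5) (nat_lit 259) (nat_lit 5) (nat_lit 643) (nat_lit 582) (nat_lit 335)) (XT.nd (nat_lit 78) (nat_lit 532) (nat_lit 0) (XT.lf (nat_lit 0) (nat_lit 21527313435) (nat_lit 608) (nat_lit 5528822419) (nat_lit 76) (nat_lit 305197697) (nat_lit 251) (nat_lit 5) (nat_lit 259) (nat_lit 5) (nat_lit 252) (nat_lit 5) (nat_lit 644) (nat_lit 582) (nat_lit 334)) (XT.lf (nat_lit 0) (nat_lit 10495632617) (nat_lit 532) (nat_lit 16351451584) (nat_lit 608) (nat_lit 837743834) (nat_lit 244) (nat_lit 5) (nat_lit 251) (nat_lit 5) (nat_lit 252) (nat_lit 5) (nat_lit 645) (nat_lit 582) (nat_lit 333)))) (XT.nd (nat_lit 156) (nat_lit 532) (nat_lit 0) (XT.nd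 (nat_lit 78) (nat_lit 532) (nat_lit 0) (XT.lf (nat_lit 0) (nat_lit 4236623952) (nat_lit 608) (nat_lit 1130878230) (nat_lit 76) (nat_lit 22646057133) (nat_lit 243) (nat_lit 5) (nat_lit 251) (nat_lit 5) (nat_lit 244) (nat_lit 5) (nat_lit 646) (nat_lit 582) (nat_lit 332)) (XT.lf (nat_lit 0) (nat_lit 9536846968) (nat_lit 608) (nat_lit 12944196176) (nat_lit 76) (nat_lit 5864999832) (nat_lit 236) (nat_lit 5) (nat_lit 244) (nat_lit 5) (nat_lit 237) (nat_lit 5) (nat_lit 647) (nat_lit 582) (nat_lit 331))) (XT.nd (nat_lit 78) (nat_lit 0) (nat_lit 0) (XT.lf (nat_lit 0) (nat_lit 3602789434) (nat_lit 532) (nat_lit 11403625492) (nat_lit 608) (nat_lit 13677494778) (nat_lit 229) (nat_lit 5) (nat_lit 236) (nat_lit 5) (nat_lit 237) (nat_lit 5) (nat_lit 648) (nat_lit 582) (nat_lit 330)) (XT.lf (nat_lit 0) (nat_lit 20651809349) (nat_lit 532) (nat_lit 17225738) (nat_lit 608) (nat_lit 8357825663) (nat_lit 229) (nat_lit 5) (nat_lit 236) (nat_lit 5) (nat_lit 237) (nat_lit 5) (nat_lit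 649) (nat_lit 582) (nat_lit 329))))))))
noncomputable def xc204 : XT := (XT.nd (nat_lit 76908) (nat_lit 0) (nat_lit 14744) (XT.nd (nat_lit 1014) (nat_lit 380) (nat_lit 0) (XT.nd (nat_lit 468) (nat_lit 1900) (nat_lit 0) (XT.nd (nat_lit 234) (nat_lit 912) (nat_lit 0) (XT.nd (nat_lit 78) (nat_lit 608) (nat_lit 0) (XT.lf (nat_lit 0) (nat_lit 8699603621) (nat_lit 456) (nat_lit 17873936236) (nat_lit 532) (nat_lit 2800558512) (nat_lit 223) (nat_lit 5) (nat_lit 229) (nat_lit 5) (nat_lit 230) (nat_lit 5) (nat_lit 650) (nat_lit 582) (nat_lit 328)) (XT.nd (nat_lit 78) (nat_lit 532) (nat_lit 0) (XT.lf (nat_lit 0) (nat_lit 2883795572) (nat_lit 532) (nat_lit 3521335833) (nat_lit 76) (nat_lit 23321706045) (nat_lit 222) (nat_lit 5) (nat_lit 229) (nat_lit 5) (nat_lit 223) (nat_lit 5) (nat_lit 651) (nat_lit 582) (nat_lit 327)) (XT.lf (nat_lit 0) (nat_lit 8768179399) (nat_lit 608) (nat_lit 15982085203) (nat_lit 76) (nat_lit 5333519818) (nat_lit 215) (nat_lit 5) (nat_lit 223) (nat_lit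 5) (nat_lit 216) (nat_lit 5) (nat_lit 652) (nat_lit 582) (nat_lit 326)))) (XT.nd (nat_lit 78) (nat_lit 456) (nat_lit 0) (XT.lf (nat_lit 0) (nat_lit 1652335553) (nat_lit 456) (nat_lit 13191801121) (nat_lit 532) (nat_lit 15602256121) (nat_lit 209) (nat_lit 5) (nat_lit 215) (nat_lit 5) (nat_lit 216) (nat_lit 5) (nat_lit 653) (nat_lit 582) (nat_lit 325)) (XT.nd (nat_lit 78) (nat_lit 456) (nat_lit 0) (XT.lf (nat_lit 0) (nat_lit 19851823903) (nat_lit 456) (nat_lit 1294022584) (nat_lit 532) (nat_lit 9668322361) (nat_lit 209) (nat_lit 5) (nat_lit 215) (nat_lit 5) (nat_lit 216) (nat_lit 5) (nat_lit 654) (nat_lit 582) (nat_lit 324)) (XT.lf (nat_lit 0) (nat_lit 7246418122) (nat_lit 456) (nat_lit 20441648870) (nat_lit 532) (nat_lit 3498944073) (nat_lit 203) (nat_lit 5) (nat_lit 209) (nat_lit 5) (nat_lit 210) (nat_lit 5) (nat_lit 655) (nat_lit 582) (nat_lit 323))))) (XT.nd (nat_lit 234) (nat_lit 912) (nat_lit 0) (XT.nd (nat_lit 78) (nat_lit 912) (nat_lit 0) (XT.lf (nat_lit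 0) (nat_lit 2836847866) (nat_lit 532) (nat_lit 5629322690) (nat_lit 76) (nat_lit 23099183602) (nat_lit 202) (nat_lit 5) (nat_lit 209) (nat_lit 5) (nat_lit 203) (nat_lit 5) (nat_lit 656) (nat_lit 582) (nat_lit 322)) (XT.nd (nat_lit 78) (nat_lit 456) (nat_lit 0) (XT.lf (nat_lit 0) (nat_lit 9360369873) (nat_lit 532) (nat_lit 18780314903) (nat_lit 76) (nat_lit 3807959638) (nat_lit 196) (nat_lit 5) (nat_lit 203) (nat_lit 5) (nat_lit 197) (nat_lit 5) (nat_lit 657) (nat_lit 582) (nat_lit 321)) (XT.lf (nat_lit 0) (nat_lit 19150130) (nat_lit 456) (nat_lit 16086556966) (nat_lit 532) (nat_lit 16232066643) (nat_lit 190) (nat_lit 5) (nat_lit 196) (nat_lit 5) (nat_lit 197) (nat_lit 5) (nat_lit 658) (nat_lit 582) (nat_lit 320)))) (XT.nd (nat_lit 156) (nat_lit 532) (nat_lit 0) (XT.nd (nat_lit 78) (nat_lit 380) (nat_lit 0) (XT.lf (nat_lit 0) (nat_lit 19445023829) (nat_lit 456) (nat_lit 3664109601) (nat_lit 532) (nat_lit 9623088733) (nat_lit 190) (nat_lit 5) (nat_lit 196) (nat_lit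 5) (nat_lit 197) (nat_lit 5) (nat_lit 659) (nat_lit 582) (nat_lit 319)) (XT.lf (nat_lit 0) (nat_lit 6142822743) (nat_lit 380) (nat_lit 24205370847) (nat_lit 456) (nat_lit 2784454815) (nat_lit 185) (nat_lit 5) (nat_lit 190) (nat_lit 5) (nat_lit 191) (nat_lit 5) (nat_lit 660) (nat_lit 582) (nat_lit 318))) (XT.nd (nat_lit 78) (nat_lit 456) (nat_lit 0) (XT.lf (nat_lit 0) (nat_lit 4247220670) (nat_lit 456) (nat_lit 7453939705) (nat_lit 76) (nat_lit 21837154056) (nat_lit 184) (nat_lit 5) (nat_lit 190) (nat_lit 5) (nat_lit 185) (nat_lit 5) (nat_lit 661) (nat_lit 582) (nat_lit 317)) (XT.lf (nat_lit 0) (nat_lit 11468951779) (nat_lit 532) (nat_lit 21342003092) (nat_lit 76) (nat_lit 1139036829) (nat_lit 178) (nat_lit 5) (nat_lit 185) (nat_lit 5) (nat_lit 179) (nat_lit 5) (nat_lit 662) (nat_lit 582) (nat_lit 316)))))) (XT.nd (nat_lit 75348) (nat_lit 0) (nat_lit 24092) (XT.nd (nat_lit 75036) (nat_lit 0) (nat_lit 23940) (XT.nd (nat_lit 78) (nat_lit 380) (nat_lit 0) (XT.lf (nat_lit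 0) (nat_lit 18960247049) (nat_lit 532) (nat_lit 1278595954) (nat_lit 76) (nat_lit 14128557062) (nat_lit 178) (nat_lit 5) (nat_lit 185) (nat_lit 5) (nat_lit 179) (nat_lit 5) (nat_lit 663) (nat_lit 582) (nat_lit 315)) (XT.nd (nat_lit 74880) (nat_lit 0) (nat_lit 23940) (XT.lf (nat_lit 0) (nat_lit 19437011924) (nat_lit 380) (nat_lit 7287894759) (nat_lit 456) (nat_lit 8065779286) (nat_lit 173) (nat_lit 5) (nat_lit 178) (nat_lit 5) (nat_lit 179) (nat_lit 5) (nat_lit 664) (nat_lit 582) (nat_lit 314)) (XT.lf (nat_lit 0) (nat_lit 1262294758) (nat_lit 0) (nat_lit 1262294758) (nat_lit 1748) (nat_lit 4658515241) (nat_lit 488) (nat_lit 5) (nat_lit 488) (nat_lit 3) (nat_lit 511) (nat_lit 3) (nat_lit 583) (nat_lit 583) (nat_lit 394)))) (XT.nd (nat_lit 156) (nat_lit 0) (nat_lit 76) (XT.nd (nat_lit 78) (nat_lit 0) (nat_lit 0) (XT.lf (nat_lit 0) (nat_lit 5454006294) (nat_lit 1748) (nat_lit 4770344243) (nat_lit 1824) (nat_lit 4278403831) (nat_lit 488) (nat_lit 5) (nat_lit 511) (nat_lit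 3) (nat_lit 512) (nat_lit 5) (nat_lit 584) (nat_lit 583) (nat_lit 393)) (XT.lf (nat_lit 76) (nat_lit 2453336122) (nat_lit 0) (nat_lit 3437713544) (nat_lit 1824) (nat_lit 8750498862) (nat_lit 489) (nat_lit 5) (nat_lit 488) (nat_lit 5) (nat_lit 512) (nat_lit 5) (nat_lit 585) (nat_lit 583) (nat_lit 392))) (XT.nd (nat_lit 78) (nat_lit 0) (nat_lit 0) (XT.lf (nat_lit 0) (nat_lit 6383317801) (nat_lit 1748) (nat_lit 4923804100) (nat_lit 1824) (nat_lit 3475067779) (nat_lit 489) (nat_lit 5) (nat_lit 512) (nat_lit 5) (nat_lit 513) (nat_lit 5) (nat_lit 586) (nat_lit 583) (nat_lit 391)) (XT.lf (nat_lit 76) (nat_lit 2491247819) (nat_lit 0) (nat_lit 4424924309) (nat_lit 1824) (nat_lit 8008857478) (nat_lit 490) (nat_lit 5) (nat_lit 489) (nat_lit 5) (nat_lit 513) (nat_lit 5) (nat_lit 587) (nat_lit 583) (nat_lit 390))))) (XT.nd (nat_lit 234) (nat_lit 0) (nat_lit 76) (XT.nd (nat_lit 78) (nat_lit 0) (nat_lit 0) (XT.lf (nat_lit 0) (nat_lit 7501745750) (nat_lit 1748) (nat_lit 4970494631)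 (nat_lit 1824) (nat_lit 2597645462) (nat_lit 490) (nat_lit 5) (nat_lit 513) (nat_lit 5) (nat_lit 514) (nat_lit 5) (nat_lit 588) (nat_lit 583) (nat_lit 389)) (XT.nd (nat_lit 78) (nat_lit 0) (nat_lit 76) (XT.lf (nat_lit 76) (nat_lit 2642800602) (nat_lit 0) (nat_lit 5494805100) (nat_lit 1824) (nat_lit 7079262743) (nat_lit 491) (nat_lit 5) (nat_lit 490) (nat_lit 5) (nat_lit 514) (nat_lit 5) (nat_lit 589) (nat_lit 583) (nat_lit 388)) (XT.lf (nat_lit 0) (nat_lit 8822548103) (nat_lit 1748) (nat_lit 4905899266) (nat_lit 1824) (nat_lit 1637616753) (nat_lit 491) (nat_lit 5) (nat_lit 514) (nat_lit 5) (nat_lit 515) (nat_lit 5) (nat_lit 590) (nat_lit 583) (nat_lit 387)))) (XT.nd (nat_lit 156) (nat_lit 0) (nat_lit 76) (XT.nd (nat_lit 78) (nat_lit 0) (nat_lit 76) (XT.lf (nat_lit 76) (nat_lit 2912777583) (nat_lit 0) (nat_lit 6656122163) (nat_lit 1824) (nat_lit 5948390469) (nat_lit 492) (nat_lit 5) (nat_lit 491) (nat_lit 5) (nat_lit 515) (nat_lit 5) (nat_lit 591) (nat_lit 583)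 (nat_lit 386)) (XT.lf (nat_lit 0) (nat_lit 10359484657) (nat_lit 1748) (nat_lit 4725197438) (nat_lit 1824) (nat_lit 586273307) (nat_lit 492) (nat_lit 5) (nat_lit 515) (nat_lit 5) (nat_lit 516) (nat_lit 5) (nat_lit 592) (nat_lit 583) (nat_lit 385))) (XT.nd (nat_lit 78) (nat_lit 0) (nat_lit 0) (XT.lf (nat_lit 76) (nat_lit 3306275290) (nat_lit 0) (nat_lit 7917845353) (nat_lit 1824) (nat_lit 4602409146) (nat_lit 493) (nat_lit 5) (nat_lit 492) (nat_lit 5) (nat_lit 516) (nat_lit 5) (nat_lit 593) (nat_lit 583) (nat_lit 384)) (XT.lf (nat_lit 76) (nat_lit 11557748874) (nat_lit 0) (nat_lit 572814501) (nat_lit 1824) (nat_lit 3854162679) (nat_lit 493) (nat_lit 5) (nat_lit 492) (nat_lit 5) (nat_lit 516) (nat_lit 5) (nat_lit 594) (nat_lit 583) (nat_lit 383))))))) (XT.nd (nat_lit 1014) (nat_lit 7904) (nat_lit 0) (XT.nd (nat_lit 468) (nat_lit 0) (nat_lit 76) (XT.nd (nat_lit 234) (nat_lit 1672) (nat_lit 0) (XT.nd (nat_lit 78) (nat_lit 0) (nat_lit 0) (XT.lf (nat_lit 76) (nat_lit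 3828710551) (nat_lit 0) (nat_lit 9289168975) (nat_lit 1824) (nat_lit 3026952483) (nat_lit 494) (nat_lit 5) (nat_lit 493) (nat_lit 5) (nat_lit 517) (nat_lit 5) (nat_lit 595) (nat_lit 583) (nat_lit 382)) (XT.nd (nat_lit 78) (nat_lit 0) (nat_lit 76) (XT.lf (nat_lit 76) (nat_lit 12300962351) (nat_lit 0) (nat_lit 1850525431) (nat_lit 1824) (nat_lit 2156122029) (nat_lit 494) (nat_lit 5) (nat_lit 493) (nat_lit 5) (nat_lit 517) (nat_lit 5) (nat_lit 596) (nat_lit 583) (nat_lit 381)) (XT.lf (nat_lit 76) (nat_lit 4485827939) (nat_lit 0) (nat_lit 10779532842) (nat_lit 1824) (nat_lit 1207091170) (nat_lit 495) (nat_lit 5) (nat_lit 494) (nat_lit 5) (nat_lit 518) (nat_lit 5) (nat_lit 597) (nat_lit 583) (nat_lit 380)))) (XT.nd (nat_lit 78) (nat_lit 1748) (nat_lit 0) (XT.lf (nat_lit 76) (nat_lit 13185304594) (nat_lit 0) (nat_lit 3248589931) (nat_lit 1824) (nat_lit 206049361) (nat_lit 495) (nat_lit 5) (nat_lit 494) (nat_lit 5) (nat_lit 518) (nat_lit 5) (nat_lit 598) (nat_lit 583)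 (nat_lit 379)) (XT.nd (nat_lit 78) (nat_lit 0) (nat_lit 0) (XT.lf (nat_lit 0) (nat_lit 861250617) (nat_lit 1824) (nat_lit 11531613553) (nat_lit 1900) (nat_lit 4416677724) (nat_lit 471) (nat_lit 5) (nat_lit 495) (nat_lit 5) (nat_lit 496) (nat_lit 5) (nat_lit 599) (nat_lit 583) (nat_lit 378)) (XT.lf (nat_lit 0) (nat_lit 1985509320) (nat_lit 1824) (nat_lit 2777971773) (nat_lit 1900) (nat_lit 12218256680) (nat_lit 471) (nat_lit 5) (nat_lit 495) (nat_lit 5) (nat_lit 496) (nat_lit 5) (nat_lit 600) (nat_lit 583) (nat_lit 377))))) (XT.nd (nat_lit 234) (nat_lit 0) (nat_lit 76) (XT.nd (nat_lit 78) (nat_lit 0) (nat_lit 0) (XT.lf (nat_lit 0) (nat_lit 3186209955) (nat_lit 1824) (nat_lit 10948905368) (nat_lit 1900) (nat_lit 3021183682) (nat_lit 472) (nat_lit 5) (nat_lit 496) (nat_lit 5) (nat_lit 497) (nat_lit 5) (nat_lit 601) (nat_lit 583) (nat_lit 376)) (XT.nd (nat_lit 78) (nat_lit 0) (nat_lit 76) (XT.lf (nat_lit 0) (nat_lit 4454986262) (nat_lit 1824) (nat_lit 1960382749) (nat_lit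 1900) (nat_lit 10918101780) (nat_lit 472) (nat_lit 5) (nat_lit 496) (nat_lit 5) (nat_lit 497) (nat_lit 5) (nat_lit 602) (nat_lit 583) (nat_lit 375)) (XT.lf (nat_lit 0) (nat_lit 5800194110) (nat_lit 1824) (nat_lit 10224280656) (nat_lit 1900) (nat_lit 1488690675) (nat_lit 473) (nat_lit 5) (nat_lit 497) (nat_lit 5) (nat_lit 498) (nat_lit 5) (nat_lit 603) (nat_lit 583) (nat_lit 374)))) (XT.nd (nat_lit 156) (nat_lit 0) (nat_lit 76) (XT.nd (nat_lit 78) (nat_lit 0) (nat_lit 0) (XT.lf (nat_lit 0) (nat_lit 7222005100) (nat_lit 1824) (nat_lit 993912860) (nat_lit 1900) (nat_lit 9479542582) (nat_lit 473) (nat_lit 5) (nat_lit 497) (nat_lit 5) (nat_lit 498) (nat_lit 5) (nat_lit 604) (nat_lit 583) (nat_lit 373)) (XT.lf (nat_lit 76) (nat_lit 8528145602) (nat_lit 0) (nat_lit 193566083) (nat_lit 1900) (nat_lit 9158701202) (nat_lit 474) (nat_lit 5) (nat_lit 473) (nat_lit 5) (nat_lit 498) (nat_lit 5) (nat_lit 605) (nat_lit 583) (nat_lit 372))) (XT.nd (nat_lit 78) (nat_lit 0) (nat_lit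 0) (XT.lf (nat_lit 76) (nat_lit 130120453) (nat_lit 0) (nat_lit 10174903284) (nat_lit 1900) (nat_lit 7762968834) (nat_lit 475) (nat_lit 5) (nat_lit 474) (nat_lit 5) (nat_lit 499) (nat_lit 5) (nat_lit 606) (nat_lit 583) (nat_lit 371)) (XT.lf (nat_lit 76) (nat_lit 9922803790) (nat_lit 0) (nat_lit 2055494356) (nat_lit 1900) (nat_lit 6279860287) (nat_lit 475) (nat_lit 5) (nat_lit 474) (nat_lit 5) (nat_lit 499) (nat_lit 5) (nat_lit 607) (nat_lit 583) (nat_lit 370)))))) (XT.nd (nat_lit 546) (nat_lit 3420) (nat_lit 0) (XT.nd (nat_lit 234) (nat_lit 1900) (nat_lit 0) (XT.nd (nat_lit 78) (nat_lit 1064) (nat_lit 0) (XT.lf (nat_lit 0) (nat_lit 1432728572) (nat_lit 1824) (nat_lit 12296419268) (nat_lit 1900) (nat_lit 4722098076) (nat_lit 451) (nat_lit 5) (nat_lit 475) (nat_lit 5) (nat_lit 476) (nat_lit 5) (nat_lit 608) (nat_lit 583) (nat_lit 369)) (XT.nd (nat_lit 78) (nat_lit 1064) (nat_lit 0) (XT.lf (nat_lit 0) (nat_lit 11490550023) (nat_lit 1824) (nat_lit 4088383266) (nat_lit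 1900) (nat_lit 3067983972) (nat_lit 451) (nat_lit 5) (nat_lit 475) (nat_lit 5) (nat_lit 476) (nat_lit 5) (nat_lit 609) (nat_lit 583) (nat_lit 368)) (XT.lf (nat_lit 0) (nat_lit 2908521180) (nat_lit 1064) (nat_lit 14598465021) (nat_lit 1140) (nat_lit 1338690873) (nat_lit 437) (nat_lit 5) (nat_lit 451) (nat_lit 5) (nat_lit 452) (nat_lit 5) (nat_lit 610) (nat_lit 583) (nat_lit 367)))) (XT.nd (nat_lit 156) (nat_lit 912) (nat_lit 0) (XT.nd (nat_lit 78) (nat_lit 912) (nat_lit 0) (XT.lf (nat_lit 0) (nat_lit 489641716) (nat_lit 1140) (nat_lit 5810769169) (nat_lit 76) (nat_lit 12746545848) (nat_lit 436) (nat_lit 5) (nat_lit 451) (nat_lit 5) (nat_lit 437) (nat_lit 5) (nat_lit 611) (nat_lit 583) (nat_lit 366)) (XT.lf (nat_lit 0) (nat_lit 2375292516) (nat_lit 988) (nat_lit 14701543305) (nat_lit 76) (nat_lit 2174476107) (nat_lit 424) (nat_lit 5) (nat_lit 437) (nat_lit 5) (nat_lit 425) (nat_lit 5) (nat_lit 612) (nat_lit 583) (nat_lit 365))) (XT.nd (nat_lit 78) (nat_lit 912) (nat_lit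 0) (XT.lf (nat_lit 0) (nat_lit 4374427388) (nat_lit 988) (nat_lit 4309531305) (nat_lit 76) (nat_lit 10774280554) (nat_lit 424) (nat_lit 5) (nat_lit 437) (nat_lit 5) (nat_lit 425) (nat_lit 5) (nat_lit 613) (nat_lit 583) (nat_lit 364)) (XT.lf (nat_lit 0) (nat_lit 6369090137) (nat_lit 912) (nat_lit 80704167) (nat_lit 988) (nat_lit 13218786256) (nat_lit 412) (nat_lit 5) (nat_lit 424) (nat_lit 5) (nat_lit 425) (nat_lit 5) (nat_lit 614) (nat_lit 583) (nat_lit 363))))) (XT.nd (nat_lit 234) (nat_lit 2584) (nat_lit 0) (XT.nd (nat_lit 78) (nat_lit 836) (nat_lit 0) (XT.lf (nat_lit 0) (nat_lit 8647198803) (nat_lit 988) (nat_lit 2624326494) (nat_lit 76) (nat_lit 8609993222) (nat_lit 412) (nat_lit 5) (nat_lit 425) (nat_lit 5) (nat_lit 413) (nat_lit 5) (nat_lit 615) (nat_lit 583) (nat_lit 362)) (XT.nd (nat_lit 78) (nat_lit 0) (nat_lit 0) (XT.lf (nat_lit 0) (nat_lit 8368825399) (nat_lit 836) (nat_lit 2569663377) (nat_lit 912) (nat_lit 9159228130) (nat_lit 401) (nat_lit 5) (nat_lit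 412) (nat_lit 5) (nat_lit 413) (nat_lit 5) (nat_lit 616) (nat_lit 583) (nat_lit 361)) (XT.lf (nat_lit 0) (nat_lit 13329410193) (nat_lit 912) (nat_lit 746341269) (nat_lit 76) (nat_lit 6241412094) (nat_lit 401) (nat_lit 5) (nat_lit 413) (nat_lit 5) (nat_lit 402) (nat_lit 5) (nat_lit 617) (nat_lit 583) (nat_lit 360)))) (XT.nd (nat_lit 156) (nat_lit 912) (nat_lit 0) (XT.nd (nat_lit 78) (nat_lit 836) (nat_lit 0) (XT.lf (nat_lit 0) (nat_lit 10572793586) (nat_lit 836) (nat_lit 5276249227) (nat_lit 912) (nat_lit 4690338871) (nat_lit 390) (nat_lit 5) (nat_lit 401) (nat_lit 5) (nat_lit 402) (nat_lit 5) (nat_lit 618) (nat_lit 583) (nat_lit 359)) (XT.lf (nat_lit 0) (nat_lit 1351379928) (nat_lit 836) (nat_lit 17100814519) (nat_lit 912) (nat_lit 2313187593) (nat_lit 379) (nat_lit 5) (nat_lit 390) (nat_lit 5) (nat_lit 391) (nat_lit 5) (nat_lit 619) (nat_lit 583) (nat_lit 358))) (XT.nd (nat_lit 78) (nat_lit 836) (nat_lit 0) (XT.lf (nat_lit 0) (nat_lit 207633496) (nat_lit 912)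 (nat_lit 8004674328) (nat_lit 76) (nat_lit 12781628693) (nat_lit 378) (nat_lit 5) (nat_lit 390) (nat_lit 5) (nat_lit 379) (nat_lit 5) (nat_lit 620) (nat_lit 583) (nat_lit 357)) (XT.lf (nat_lit 0) (nat_lit 2772912309) (nat_lit 912) (nat_lit 17571355138) (nat_lit 76) (nat_lit 881988904) (nat_lit 367) (nat_lit 5) (nat_lit 379) (nat_lit 5) (nat_lit 368) (nat_lit 5) (nat_lit 621) (nat_lit 583) (nat_lit 356))))))))
noncomputable def xc205 : XT := (XT.nd (nat_lit 2106) (nat_lit 4408) (nat_lit 0) (XT.nd (nat_lit 1014) (nat_lit 4940) (nat_lit 0) (XT.nd (nat_lit 468) (nat_lit 2812) (nat_lit 0) (XT.nd (nat_lit 234) (nat_lit 1444) (nat_lit 0) (XT.nd (nat_lit 78) (nat_lit 760) (nat_lit 0) (XT.lf (nat_lit 0) (nat_lit 5493427538) (nat_lit 912) (nat_lit 5865488637) (nat_lit 76) (nat_lit 10102228155) (nat_lit 367) (nat_lit 5) (nat_lit 379) (nat_lit 5) (nat_lit 368) (nat_lit 5) (nat_lit 622) (nat_lit 583) (nat_lit 355)) (XT.nd (nat_lit 78) (nat_lit 0) (nat_lit 0) (XT.lf (nat_lit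 0) (nat_lit 6150481212) (nat_lit 760) (nat_lit 2153367005) (nat_lit 836) (nat_lit 13396172304) (nat_lit 357) (nat_lit 5) (nat_lit 367) (nat_lit 5) (nat_lit 368) (nat_lit 5) (nat_lit 623) (nat_lit 583) (nat_lit 354)) (XT.lf (nat_lit 0) (nat_lit 11252698556) (nat_lit 836) (nat_lit 3508585909) (nat_lit 76) (nat_lit 7180745693) (nat_lit 357) (nat_lit 5) (nat_lit 368) (nat_lit 5) (nat_lit 358) (nat_lit 5) (nat_lit 624) (nat_lit 583) (nat_lit 353)))) (XT.nd (nat_lit 78) (nat_lit 684) (nat_lit 0) (XT.lf (nat_lit 0) (nat_lit 8870624404) (nat_lit 760) (nat_lit 5457459368) (nat_lit 836) (nat_lit 7859445400) (nat_lit 347) (nat_lit 5) (nat_lit 357) (nat_lit 5) (nat_lit 358) (nat_lit 5) (nat_lit 625) (nat_lit 583) (nat_lit 352)) (XT.nd (nat_lit 78) (nat_lit 684) (nat_lit 0) (XT.lf (nat_lit 0) (nat_lit 17510613475) (nat_lit 836) (nat_lit 923519301) (nat_lit 76) (nat_lit 4002892991) (nat_lit 347) (nat_lit 5) (nat_lit 358) (nat_lit 5) (nat_lit 348) (nat_lit 5) (nat_lit 626) (nat_lit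 583) (nat_lit 351)) (XT.lf (nat_lit 0) (nat_lit 11832171306) (nat_lit 684) (nat_lit 9033425228) (nat_lit 760) (nat_lit 1823740033) (nat_lit 338) (nat_lit 5) (nat_lit 347) (nat_lit 5) (nat_lit 348) (nat_lit 5) (nat_lit 627) (nat_lit 583) (nat_lit 350))))) (XT.nd (nat_lit 234) (nat_lit 1292) (nat_lit 0) (XT.nd (nat_lit 78) (nat_lit 684) (nat_lit 0) (XT.lf (nat_lit 0) (nat_lit 1341753939) (nat_lit 836) (nat_lit 21029270707) (nat_lit 76) (nat_lit 575128010) (nat_lit 327) (nat_lit 5) (nat_lit 338) (nat_lit 5) (nat_lit 328) (nat_lit 5) (nat_lit 628) (nat_lit 583) (nat_lit 349)) (XT.nd (nat_lit 78) (nat_lit 684) (nat_lit 0) (XT.lf (nat_lit 0) (nat_lit 4675235239) (nat_lit 836) (nat_lit 8190125154) (nat_lit 76) (nat_lit 10339921939) (nat_lit 327) (nat_lit 5) (nat_lit 338) (nat_lit 5) (nat_lit 328) (nat_lit 5) (nat_lit 629) (nat_lit 583) (nat_lit 348)) (XT.lf (nat_lit 0) (nat_lit 4966354797) (nat_lit 684) (nat_lit 3137267120) (nat_lit 760) (nat_lit 15365408272) (nat_lit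 318) (nat_lit 5) (nat_lit 327) (nat_lit 5) (nat_lit 328) (nat_lit 5) (nat_lit 630) (nat_lit 583) (nat_lit 347)))) (XT.nd (nat_lit 156) (nat_lit 608) (nat_lit 0) (XT.nd (nat_lit 78) (nat_lit 684) (nat_lit 0) (XT.lf (nat_lit 0) (nat_lit 11695991675) (nat_lit 760) (nat_lit 5289018015) (nat_lit 76) (nat_lit 6751135304) (nat_lit 318) (nat_lit 5) (nat_lit 328) (nat_lit 5) (nat_lit 319) (nat_lit 5) (nat_lit 631) (nat_lit 583) (nat_lit 346)) (XT.lf (nat_lit 0) (nat_lit 8272087937) (nat_lit 684) (nat_lit 7158719181) (nat_lit 760) (nat_lit 8576383303) (nat_lit 309) (nat_lit 5) (nat_lit 318) (nat_lit 5) (nat_lit 319) (nat_lit 5) (nat_lit 632) (nat_lit 583) (nat_lit 345))) (XT.nd (nat_lit 78) (nat_lit 608) (nat_lit 0) (XT.lf (nat_lit 0) (nat_lit 19290798026) (nat_lit 760) (nat_lit 2130248305) (nat_lit 76) (nat_lit 2861601130) (nat_lit 309) (nat_lit 5) (nat_lit 319) (nat_lit 5) (nat_lit 310) (nat_lit 5) (nat_lit 633) (nat_lit 583) (nat_lit 344)) (XT.lf (nat_lit 0) (nat_lit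 11850221057) (nat_lit 608) (nat_lit 11498347684) (nat_lit 684) (nat_lit 1212633579) (nat_lit 301) (nat_lit 5) (nat_lit 309) (nat_lit 5) (nat_lit 310) (nat_lit 5) (nat_lit 634) (nat_lit 583) (nat_lit 343)))))) (XT.nd (nat_lit 546) (nat_lit 2280) (nat_lit 0) (XT.nd (nat_lit 234) (nat_lit 1292) (nat_lit 0) (XT.nd (nat_lit 78) (nat_lit 608) (nat_lit 0) (XT.lf (nat_lit 0) (nat_lit 1289281820) (nat_lit 684) (nat_lit 1337244662) (nat_lit 760) (nat_lit 22218078724) (nat_lit 291) (nat_lit 5) (nat_lit 300) (nat_lit 5) (nat_lit 301) (nat_lit 5) (nat_lit 635) (nat_lit 583) (nat_lit 342)) (XT.nd (nat_lit 78) (nat_lit 608) (nat_lit 0) (XT.lf (nat_lit 0) (nat_lit 6667010910) (nat_lit 760) (nat_lit 9461875792) (nat_lit 76) (nat_lit 9001813835) (nat_lit 291) (nat_lit 5) (nat_lit 301) (nat_lit 5) (nat_lit 292) (nat_lit 5) (nat_lit 636) (nat_lit 583) (nat_lit 341)) (XT.lf (nat_lit 0) (nat_lit 4965243030) (nat_lit 608) (nat_lit 5860519390) (nat_lit 684) (nat_lit 14596006465) (nat_lit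 283) (nat_lit 5) (nat_lit 291) (nat_lit 5) (nat_lit 292) (nat_lit 5) (nat_lit 637) (nat_lit 583) (nat_lit 340)))) (XT.nd (nat_lit 156) (nat_lit 684) (nat_lit 0) (XT.nd (nat_lit 78) (nat_lit 608) (nat_lit 0) (XT.lf (nat_lit 0) (nat_lit 15157956565) (nat_lit 684) (nat_lit 5943097996) (nat_lit 76) (nat_lit 4615798941) (nat_lit 283) (nat_lit 5) (nat_lit 292) (nat_lit 5) (nat_lit 284) (nat_lit 5) (nat_lit 638) (nat_lit 583) (nat_lit 339)) (XT.lf (nat_lit 0) (nat_lit 8934554360) (nat_lit 608) (nat_lit 10735532136) (nat_lit 684) (nat_lit 6345887727) (nat_lit 275) (nat_lit 5) (nat_lit 283) (nat_lit 5) (nat_lit 284) (nat_lit 5) (nat_lit 639) (nat_lit 583) (nat_lit 338))) (XT.nd (nat_lit 78) (nat_lit 684) (nat_lit 0) (XT.lf (nat_lit 0) (nat_lit 24185938079) (nat_lit 608) (nat_lit 122914461) (nat_lit 684) (nat_lit 2011497191) (nat_lit 275) (nat_lit 5) (nat_lit 283) (nat_lit 5) (nat_lit 284) (nat_lit 5) (nat_lit 640) (nat_lit 583) (nat_lit 337)) (XT.lf (nat_lit 0) (nat_lit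 2530817738) (nat_lit 684) (nat_lit 13433468782) (nat_lit 76) (nat_lit 10663156799) (nat_lit 266) (nat_lit 5) (nat_lit 275) (nat_lit 5) (nat_lit 267) (nat_lit 5) (nat_lit 641) (nat_lit 583) (nat_lit 336))))) (XT.nd (nat_lit 234) (nat_lit 1140) (nat_lit 0) (XT.nd (nat_lit 78) (nat_lit 532) (nat_lit 0) (XT.lf (nat_lit 0) (nat_lit 1924097691) (nat_lit 608) (nat_lit 5237288190) (nat_lit 684) (nat_lit 19778540390) (nat_lit 258) (nat_lit 5) (nat_lit 266) (nat_lit 5) (nat_lit 267) (nat_lit 5) (nat_lit 642) (nat_lit 583) (nat_lit 335)) (XT.nd (nat_lit 78) (nat_lit 532) (nat_lit 0) (XT.lf (nat_lit 0) (nat_lit 12008967356) (nat_lit 684) (nat_lit 9527987344) (nat_lit 76) (nat_lit 5719216368) (nat_lit 258) (nat_lit 5) (nat_lit 267) (nat_lit 5) (nat_lit 259) (nat_lit 5) (nat_lit 643) (nat_lit 583) (nat_lit 334)) (XT.lf (nat_lit 0) (nat_lit 6313406278) (nat_lit 532) (nat_lit 10712458791) (nat_lit 608) (nat_lit 10551428622) (nat_lit 251) (nat_lit 5) (nat_lit 258) (nat_lit 5) (nat_lit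 259) (nat_lit 5) (nat_lit 644) (nat_lit 583) (nat_lit 333)))) (XT.nd (nat_lit 156) (nat_lit 608) (nat_lit 0) (XT.nd (nat_lit 78) (nat_lit 532) (nat_lit 0) (XT.lf (nat_lit 0) (nat_lit 22206315159) (nat_lit 608) (nat_lit 5309686798) (nat_lit 76) (nat_lit 387572738) (nat_lit 251) (nat_lit 5) (nat_lit 259) (nat_lit 5) (nat_lit 252) (nat_lit 5) (nat_lit 645) (nat_lit 583) (nat_lit 332)) (XT.lf (nat_lit 0) (nat_lit 11033088181) (nat_lit 532) (nat_lit 16596648109) (nat_lit 608) (nat_lit 603858000) (nat_lit 244) (nat_lit 5) (nat_lit 251) (nat_lit 5) (nat_lit 252) (nat_lit 5) (nat_lit 646) (nat_lit 583) (nat_lit 331))) (XT.nd (nat_lit 78) (nat_lit 532) (nat_lit 0) (XT.lf (nat_lit 0) (nat_lit 4563859874) (nat_lit 608) (nat_lit 829137078) (nat_lit 76) (nat_lit 23175968009) (nat_lit 243) (nat_lit 5) (nat_lit 251) (nat_lit 5) (nat_lit 244) (nat_lit 5) (nat_lit 647) (nat_lit 583) (nat_lit 330)) (XT.lf (nat_lit 0) (nat_lit 9967959371) (nat_lit 608) (nat_lit 12876578235) (nat_lit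 76) (nat_lit 6063603552) (nat_lit 236) (nat_lit 5) (nat_lit 244) (nat_lit 5) (nat_lit 237) (nat_lit 5) (nat_lit 648) (nat_lit 583) (nat_lit 329))))))) (XT.nd (nat_lit 1092) (nat_lit 456) (nat_lit 0) (XT.nd (nat_lit 546) (nat_lit 1900) (nat_lit 0) (XT.nd (nat_lit 234) (nat_lit 1064) (nat_lit 0) (XT.nd (nat_lit 78) (nat_lit 456) (nat_lit 0) (XT.lf (nat_lit 0) (nat_lit 3999199049) (nat_lit 532) (nat_lit 11545112315) (nat_lit 608) (nat_lit 13708506300) (nat_lit 229) (nat_lit 5) (nat_lit 236) (nat_lit 5) (nat_lit 237) (nat_lit 5) (nat_lit 649) (nat_lit 583) (nat_lit 328)) (XT.nd (nat_lit 78) (nat_lit 456) (nat_lit 0) (XT.lf (nat_lit 0) (nat_lit 21315958880) (nat_lit 608) (nat_lit 8220318854) (nat_lit 76) (nat_lit 66434791) (nat_lit 229) (nat_lit 5) (nat_lit 237) (nat_lit 5) (nat_lit 230) (nat_lit 5) (nat_lit 650) (nat_lit 583) (nat_lit 327)) (XT.lf (nat_lit 0) (nat_lit 9193595985) (nat_lit 456) (nat_lit 18142567979) (nat_lit 532) (nat_lit 2620779014) (nat_lit 223) (nat_lit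 5) (nat_lit 229) (nat_lit 5) (nat_lit 230) (nat_lit 5) (nat_lit 651) (nat_lit 583) (nat_lit 326)))) (XT.nd (nat_lit 156) (nat_lit 456) (nat_lit 0) (XT.nd (nat_lit 78) (nat_lit 532) (nat_lit 0) (XT.lf (nat_lit 0) (nat_lit 3169607005) (nat_lit 532) (nat_lit 3274991234) (nat_lit 76) (nat_lit 23872199511) (nat_lit 222) (nat_lit 5) (nat_lit 229) (nat_lit 5) (nat_lit 223) (nat_lit 5) (nat_lit 652) (nat_lit 583) (nat_lit 325)) (XT.lf (nat_lit 0) (nat_lit 9169826150) (nat_lit 608) (nat_lit 15983089765) (nat_lit 76) (nat_lit 5528005060) (nat_lit 215) (nat_lit 5) (nat_lit 223) (nat_lit 5) (nat_lit 216) (nat_lit 5) (nat_lit 653) (nat_lit 583) (nat_lit 324))) (XT.nd (nat_lit 78) (nat_lit 0) (nat_lit 0) (XT.lf (nat_lit 0) (nat_lit 2001923109) (nat_lit 456) (nat_lit 13362997730) (nat_lit 532) (nat_lit 15685908578) (nat_lit 209) (nat_lit 5) (nat_lit 215) (nat_lit 5) (nat_lit 216) (nat_lit 5) (nat_lit 654) (nat_lit 583) (nat_lit 323)) (XT.lf (nat_lit 0) (nat_lit 20559194543) (nat_lit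 456) (nat_lit 1229080081) (nat_lit 532) (nat_lit 9637774430) (nat_lit 209) (nat_lit 5) (nat_lit 215) (nat_lit 5) (nat_lit 216) (nat_lit 5) (nat_lit 655) (nat_lit 583) (nat_lit 322))))) (XT.nd (nat_lit 234) (nat_lit 912) (nat_lit 0) (XT.nd (nat_lit 78) (nat_lit 532) (nat_lit 0) (XT.lf (nat_lit 0) (nat_lit 7703427373) (nat_lit 456) (nat_lit 20756212382) (nat_lit 532) (nat_lit 3346742611) (nat_lit 203) (nat_lit 5) (nat_lit 209) (nat_lit 5) (nat_lit 210) (nat_lit 5) (nat_lit 656) (nat_lit 583) (nat_lit 321)) (XT.nd (nat_lit 78) (nat_lit 456) (nat_lit 0) (XT.lf (nat_lit 0) (nat_lit 3108551891) (nat_lit 532) (nat_lit 5433078490) (nat_lit 76) (nat_lit 23650719320) (nat_lit 202) (nat_lit 5) (nat_lit 209) (nat_lit 5) (nat_lit 203) (nat_lit 5) (nat_lit 657) (nat_lit 583) (nat_lit 320)) (XT.lf (nat_lit 0) (nat_lit 9760931905) (nat_lit 532) (nat_lit 18845466155) (nat_lit 76) (nat_lit 3976940189) (nat_lit 196) (nat_lit 5) (nat_lit 203) (nat_lit 5) (nat_lit 197) (nat_lit 5)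 (nat_lit 658) (nat_lit 583) (nat_lit 319)))) (XT.nd (nat_lit 156) (nat_lit 456) (nat_lit 0) (XT.nd (nat_lit 78) (nat_lit 0) (nat_lit 0) (XT.lf (nat_lit 0) (nat_lit 327945712) (nat_lit 456) (nat_lit 16311049157) (nat_lit 532) (nat_lit 16341299148) (nat_lit 190) (nat_lit 5) (nat_lit 196) (nat_lit 5) (nat_lit 197) (nat_lit 5) (nat_lit 659) (nat_lit 583) (nat_lit 318)) (XT.lf (nat_lit 0) (nat_lit 20136289579) (nat_lit 456) (nat_lit 3642059490) (nat_lit 532) (nat_lit 9604365382) (nat_lit 190) (nat_lit 5) (nat_lit 196) (nat_lit 5) (nat_lit 197) (nat_lit 5) (nat_lit 660) (nat_lit 583) (nat_lit 317))) (XT.nd (nat_lit 78) (nat_lit 76) (nat_lit 0) (XT.lf (nat_lit 0) (nat_lit 6569565175) (nat_lit 380) (nat_lit 24591145640) (nat_lit 456) (nat_lit 2630468219) (nat_lit 185) (nat_lit 5) (nat_lit 190) (nat_lit 5) (nat_lit 191) (nat_lit 5) (nat_lit 661) (nat_lit 583) (nat_lit 316)) (XT.lf (nat_lit 0) (nat_lit 4535033473) (nat_lit 456) (nat_lit 7302384223) (nat_lit 76) (nat_lit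 22367594823) (nat_lit 184) (nat_lit 5) (nat_lit 190) (nat_lit 5) (nat_lit 185) (nat_lit 5) (nat_lit 662) (nat_lit 583) (nat_lit 315)))))) (XT.nd (nat_lit 75426) (nat_lit 0) (nat_lit 23712) (XT.nd (nat_lit 75114) (nat_lit 0) (nat_lit 23560) (XT.nd (nat_lit 78) (nat_lit 0) (nat_lit 0) (XT.lf (nat_lit 0) (nat_lit 11899795624) (nat_lit 532) (nat_lit 21466794677) (nat_lit 76) (nat_lit 1258361315) (nat_lit 178) (nat_lit 5) (nat_lit 185) (nat_lit 5) (nat_lit 179) (nat_lit 5) (nat_lit 663) (nat_lit 583) (nat_lit 314)) (XT.nd (nat_lit 74958) (nat_lit 0) (nat_lit 23560) (XT.lf (nat_lit 0) (nat_lit 19536966509) (nat_lit 532) (nat_lit 1008041916) (nat_lit 76) (nat_lit 14505778939) (nat_lit 178) (nat_lit 5) (nat_lit 185) (nat_lit 5) (nat_lit 179) (nat_lit 5) (nat_lit 664) (nat_lit 583) (nat_lit 313)) (XT.lf (nat_lit 0) (nat_lit 1449575777) (nat_lit 0) (nat_lit 1449575777) (nat_lit 1748) (nat_lit 4421103559) (nat_lit 488) (nat_lit 5) (nat_lit 488) (nat_lit 3) (nat_lit 511) (nat_lit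 3) (nat_lit 584) (nat_lit 584) (nat_lit 392)))) (XT.nd (nat_lit 156) (nat_lit 0) (nat_lit 76) (XT.nd (nat_lit 78) (nat_lit 0) (nat_lit 0) (XT.lf (nat_lit 0) (nat_lit 6196455456) (nat_lit 1748) (nat_lit 4533204261) (nat_lit 1824) (nat_lit 4050422879) (nat_lit 488) (nat_lit 5) (nat_lit 511) (nat_lit 3) (nat_lit 512) (nat_lit 5) (nat_lit 585) (nat_lit 584) (nat_lit 391)) (XT.lf (nat_lit 76) (nat_lit 2832761903) (nat_lit 0) (nat_lit 3799203702) (nat_lit 1824) (nat_lit 8289893683) (nat_lit 489) (nat_lit 5) (nat_lit 488) (nat_lit 5) (nat_lit 512) (nat_lit 5) (nat_lit 586) (nat_lit 584) (nat_lit 390))) (XT.nd (nat_lit 78) (nat_lit 0) (nat_lit 0) (XT.lf (nat_lit 0) (nat_lit 7119998186) (nat_lit 1748) (nat_lit 4684260668) (nat_lit 1824) (nat_lit 3261337170) (nat_lit 489) (nat_lit 5) (nat_lit 512) (nat_lit 5) (nat_lit 513) (nat_lit 5) (nat_lit 587) (nat_lit 584) (nat_lit 389)) (XT.lf (nat_lit 76) (nat_lit 2876868477) (nat_lit 0) (nat_lit 4776879880) (nat_lit 1824) (nat_lit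 7557740739) (nat_lit 490) (nat_lit 5) (nat_lit 489) (nat_lit 5) (nat_lit 513) (nat_lit 5) (nat_lit 588) (nat_lit 584) (nat_lit 388))))) (XT.nd (nat_lit 234) (nat_lit 0) (nat_lit 76) (XT.nd (nat_lit 78) (nat_lit 0) (nat_lit 0) (XT.lf (nat_lit 0) (nat_lit 8237606398) (nat_lit 1748) (nat_lit 4727211051) (nat_lit 1824) (nat_lit 2394694648) (nat_lit 490) (nat_lit 5) (nat_lit 513) (nat_lit 5) (nat_lit 514) (nat_lit 5) (nat_lit 589) (nat_lit 584) (nat_lit 387)) (XT.nd (nat_lit 78) (nat_lit 0) (nat_lit 76) (XT.lf (nat_lit 76) (nat_lit 3036095526) (nat_lit 0) (nat_lit 5840811601) (nat_lit 1824) (nat_lit 6632713831) (nat_lit 491) (nat_lit 5) (nat_lit 490) (nat_lit 5) (nat_lit 514) (nat_lit 5) (nat_lit 590) (nat_lit 584) (nat_lit 386)) (XT.lf (nat_lit 0) (nat_lit 9562740560) (nat_lit 1748) (nat_lit 4657392984) (nat_lit 1824) (nat_lit 1441924217) (nat_lit 491) (nat_lit 5) (nat_lit 514) (nat_lit 5) (nat_lit 515) (nat_lit 5) (nat_lit 591) (nat_lit 584) (nat_lit 385)))) (XT.nd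 (nat_lit 156) (nat_lit 0) (nat_lit 76) (XT.nd (nat_lit 78) (nat_lit 0) (nat_lit 76) (XT.lf (nat_lit 76) (nat_lit 3315376979) (nat_lit 0) (nat_lit 6999824210) (nat_lit 1824) (nat_lit 5501284582) (nat_lit 492) (nat_lit 5) (nat_lit 491) (nat_lit 5) (nat_lit 515) (nat_lit 5) (nat_lit 592) (nat_lit 584) (nat_lit 384)) (XT.lf (nat_lit 0) (nat_lit 11109376533) (nat_lit 1748) (nat_lit 4469837352) (nat_lit 1824) (nat_lit 394255819) (nat_lit 492) (nat_lit 5) (nat_lit 515) (nat_lit 5) (nat_lit 516) (nat_lit 5) (nat_lit 593) (nat_lit 584) (nat_lit 383))) (XT.nd (nat_lit 78) (nat_lit 0) (nat_lit 0) (XT.lf (nat_lit 76) (nat_lit 3719963093) (nat_lit 0) (nat_lit 8262957531) (nat_lit 1824) (nat_lit 4149403641) (nat_lit 493) (nat_lit 5) (nat_lit 492) (nat_lit 5) (nat_lit 516) (nat_lit 5) (nat_lit 594) (nat_lit 584) (nat_lit 382)) (XT.lf (nat_lit 76) (nat_lit 12129651202) (nat_lit 0) (nat_lit 767364193) (nat_lit 1824) (nat_lit 3396879572) (nat_lit 493) (nat_lit 5) (nat_lit 492) (nat_lit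 5) (nat_lit 516) (nat_lit 5) (nat_lit 595) (nat_lit 584) (nat_lit 381))))))))
noncomputable def xc206 : XT := (XT.nd (nat_lit 2106) (nat_lit 9956) (nat_lit 0) (XT.nd (nat_lit 1014) (nat_lit 7828) (nat_lit 0) (XT.nd (nat_lit 468) (nat_lit 0) (nat_lit 152) (XT.nd (nat_lit 234) (nat_lit 1748) (nat_lit 0) (XT.nd (nat_lit 78) (nat_lit 0) (nat_lit 0) (XT.lf (nat_lit 76) (nat_lit 4255427657) (nat_lit 0) (nat_lit 9639486730) (nat_lit 1824) (nat_lit 2562472880) (nat_lit 494) (nat_lit 5) (nat_lit 493) (nat_lit 5) (nat_lit 517) (nat_lit 5) (nat_lit 596) (nat_lit 584) (nat_lit 380)) (XT.nd (nat_lit 78) (nat_lit 0) (nat_lit 76) (XT.lf (nat_lit 76) (nat_lit 12890258946) (nat_lit 0) (nat_lit 2048844152) (nat_lit 1824) (nat_lit 1684520301) (nat_lit 494) (nat_lit 5) (nat_lit 493) (nat_lit 5) (nat_lit 517) (nat_lit 5) (nat_lit 597) (nat_lit 584) (nat_lit 379)) (XT.lf (nat_lit 76) (nat_lit 4927675779) (nat_lit 0) (nat_lit 11138943428) (nat_lit 1824) (nat_lit 725316780) (nat_lit 495)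 (nat_lit 5) (nat_lit 494) (nat_lit 5) (nat_lit 518) (nat_lit 5) (nat_lit 598) (nat_lit 584) (nat_lit 378)))) (XT.nd (nat_lit 78) (nat_lit 0) (nat_lit 76) (XT.lf (nat_lit 0) (nat_lit 282077280) (nat_lit 1824) (nat_lit 3170591492) (nat_lit 1900) (nat_lit 13510267265) (nat_lit 470) (nat_lit 5) (nat_lit 494) (nat_lit 5) (nat_lit 495) (nat_lit 5) (nat_lit 599) (nat_lit 584) (nat_lit 377)) (XT.nd (nat_lit 78) (nat_lit 0) (nat_lit 0) (XT.lf (nat_lit 0) (nat_lit 1359776327) (nat_lit 1824) (nat_lit 11402235968) (nat_lit 1900) (nat_lit 4374051097) (nat_lit 471) (nat_lit 5) (nat_lit 495) (nat_lit 5) (nat_lit 496) (nat_lit 5) (nat_lit 600) (nat_lit 584) (nat_lit 376)) (XT.lf (nat_lit 0) (nat_lit 2497082935) (nat_lit 1824) (nat_lit 2480580369) (nat_lit 1900) (nat_lit 12334229479) (nat_lit 471) (nat_lit 5) (nat_lit 495) (nat_lit 5) (nat_lit 496) (nat_lit 5) (nat_lit 601) (nat_lit 584) (nat_lit 375))))) (XT.nd (nat_lit 234) (nat_lit 0) (nat_lit 76) (XT.nd (nat_lit 78) (nat_lit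 0) (nat_lit 0) (XT.lf (nat_lit 0) (nat_lit 3714080028) (nat_lit 1824) (nat_lit 10807173438) (nat_lit 1900) (nat_lit 2968846957) (nat_lit 472) (nat_lit 5) (nat_lit 496) (nat_lit 5) (nat_lit 497) (nat_lit 5) (nat_lit 602) (nat_lit 584) (nat_lit 374)) (XT.nd (nat_lit 78) (nat_lit 0) (nat_lit 76) (XT.lf (nat_lit 0) (nat_lit 4999130962) (nat_lit 1824) (nat_lit 1645953112) (nat_lit 1900) (nat_lit 11025914405) (nat_lit 472) (nat_lit 5) (nat_lit 496) (nat_lit 5) (nat_lit 497) (nat_lit 5) (nat_lit 603) (nat_lit 584) (nat_lit 373)) (XT.lf (nat_lit 0) (nat_lit 6363971068) (nat_lit 1824) (nat_lit 10067817052) (nat_lit 1900) (nat_lit 1422645141) (nat_lit 473) (nat_lit 5) (nat_lit 497) (nat_lit 5) (nat_lit 498) (nat_lit 5) (nat_lit 604) (nat_lit 584) (nat_lit 372)))) (XT.nd (nat_lit 156) (nat_lit 0) (nat_lit 76) (XT.nd (nat_lit 78) (nat_lit 0) (nat_lit 0) (XT.lf (nat_lit 0) (nat_lit 7805438414) (nat_lit 1824) (nat_lit 659919336) (nat_lit 1900) (nat_lit 9575192896) (nat_lit 473)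 (nat_lit 5) (nat_lit 497) (nat_lit 5) (nat_lit 498) (nat_lit 5) (nat_lit 605) (nat_lit 584) (nat_lit 371)) (XT.lf (nat_lit 76) (nat_lit 9050252192) (nat_lit 0) (nat_lit 278561684) (nat_lit 1900) (nat_lit 8900515438) (nat_lit 474) (nat_lit 5) (nat_lit 473) (nat_lit 5) (nat_lit 498) (nat_lit 5) (nat_lit 606) (nat_lit 584) (nat_lit 370))) (XT.nd (nat_lit 78) (nat_lit 0) (nat_lit 0) (XT.lf (nat_lit 76) (nat_lit 491111649) (nat_lit 0) (nat_lit 10446007347) (nat_lit 1900) (nat_lit 7483675813) (nat_lit 475) (nat_lit 5) (nat_lit 474) (nat_lit 5) (nat_lit 499) (nat_lit 5) (nat_lit 607) (nat_lit 584) (nat_lit 369)) (XT.lf (nat_lit 76) (nat_lit 10472621421) (nat_lit 0) (nat_lit 2162884633) (nat_lit 1900) (nat_lit 5979425730) (nat_lit 475) (nat_lit 5) (nat_lit 474) (nat_lit 5) (nat_lit 499) (nat_lit 5) (nat_lit 608) (nat_lit 584) (nat_lit 368)))))) (XT.nd (nat_lit 546) (nat_lit 3420) (nat_lit 0) (XT.nd (nat_lit 234) (nat_lit 1900) (nat_lit 0) (XT.nd (nat_lit 78) (nat_lit 1064)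 (nat_lit 0) (XT.lf (nat_lit 0) (nat_lit 1819195236) (nat_lit 1824) (nat_lit 12595889704) (nat_lit 1900) (nat_lit 4396922558) (nat_lit 451) (nat_lit 5) (nat_lit 475) (nat_lit 5) (nat_lit 476) (nat_lit 5) (nat_lit 609) (nat_lit 584) (nat_lit 367)) (XT.nd (nat_lit 78) (nat_lit 1064) (nat_lit 0) (XT.lf (nat_lit 0) (nat_lit 12071157192) (nat_lit 1824) (nat_lit 4222643137) (nat_lit 1900) (nat_lit 2717953966) (nat_lit 451) (nat_lit 5) (nat_lit 475) (nat_lit 5) (nat_lit 476) (nat_lit 5) (nat_lit 610) (nat_lit 584) (nat_lit 366)) (XT.lf (nat_lit 0) (nat_lit 3323566487) (nat_lit 1064) (nat_lit 14930923135) (nat_lit 1140) (nat_lit 960118874) (nat_lit 437) (nat_lit 5) (nat_lit 451) (nat_lit 5) (nat_lit 452) (nat_lit 5) (nat_lit 611) (nat_lit 584) (nat_lit 365)))) (XT.nd (nat_lit 156) (nat_lit 912) (nat_lit 0) (XT.nd (nat_lit 78) (nat_lit 912) (nat_lit 0) (XT.lf (nat_lit 0) (nat_lit 891620465) (nat_lit 1140) (nat_lit 5571861778) (nat_lit 76) (nat_lit 12956536413) (nat_lit 436)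 (nat_lit 5) (nat_lit 451) (nat_lit 5) (nat_lit 437) (nat_lit 5) (nat_lit 612) (nat_lit 584) (nat_lit 364)) (XT.lf (nat_lit 0) (nat_lit 2809364133) (nat_lit 988) (nat_lit 14634798414) (nat_lit 76) (nat_lit 2184411467) (nat_lit 424) (nat_lit 5) (nat_lit 437) (nat_lit 5) (nat_lit 425) (nat_lit 5) (nat_lit 613) (nat_lit 584) (nat_lit 363))) (XT.nd (nat_lit 78) (nat_lit 912) (nat_lit 0) (XT.lf (nat_lit 0) (nat_lit 4840901983) (nat_lit 988) (nat_lit 4042020208) (nat_lit 76) (nat_lit 10956869929) (nat_lit 424) (nat_lit 5) (nat_lit 437) (nat_lit 5) (nat_lit 425) (nat_lit 5) (nat_lit 614) (nat_lit 584) (nat_lit 362)) (XT.lf (nat_lit 0) (nat_lit 6847846678) (nat_lit 912) (nat_lit 104779818) (nat_lit 988) (nat_lit 13101817388) (nat_lit 412) (nat_lit 5) (nat_lit 424) (nat_lit 5) (nat_lit 425) (nat_lit 5) (nat_lit 615) (nat_lit 584) (nat_lit 361))))) (XT.nd (nat_lit 234) (nat_lit 2584) (nat_lit 0) (XT.nd (nat_lit 78) (nat_lit 836) (nat_lit 0) (XT.lf (nat_lit 0) (nat_lit 9186505986)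 (nat_lit 988) (nat_lit 2324823945) (nat_lit 76) (nat_lit 8760460752) (nat_lit 412) (nat_lit 5) (nat_lit 425) (nat_lit 5) (nat_lit 413) (nat_lit 5) (nat_lit 616) (nat_lit 584) (nat_lit 360)) (XT.nd (nat_lit 78) (nat_lit 0) (nat_lit 0) (XT.lf (nat_lit 0) (nat_lit 8885875268) (nat_lit 836) (nat_lit 2632833208) (nat_lit 912) (nat_lit 8973703433) (nat_lit 401) (nat_lit 5) (nat_lit 412) (nat_lit 5) (nat_lit 413) (nat_lit 5) (nat_lit 617) (nat_lit 584) (nat_lit 359)) (XT.lf (nat_lit 0) (nat_lit 13950286106) (nat_lit 912) (nat_lit 411259118) (nat_lit 76) (nat_lit 6354846108) (nat_lit 401) (nat_lit 5) (nat_lit 413) (nat_lit 5) (nat_lit 402) (nat_lit 5) (nat_lit 618) (nat_lit 584) (nat_lit 358)))) (XT.nd (nat_lit 156) (nat_lit 912) (nat_lit 0) (XT.nd (nat_lit 78) (nat_lit 836) (nat_lit 0) (XT.lf (nat_lit 0) (nat_lit 11131955744) (nat_lit 836) (nat_lit 5383666357) (nat_lit 912) (nat_lit 4427526090) (nat_lit 390) (nat_lit 5) (nat_lit 401) (nat_lit 5) (nat_lit 402) (nat_lit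 5) (nat_lit 619) (nat_lit 584) (nat_lit 357)) (XT.lf (nat_lit 0) (nat_lit 1730813410) (nat_lit 836) (nat_lit 17435444495) (nat_lit 912) (nat_lit 2007502799) (nat_lit 379) (nat_lit 5) (nat_lit 390) (nat_lit 5) (nat_lit 391) (nat_lit 5) (nat_lit 620) (nat_lit 584) (nat_lit 356))) (XT.nd (nat_lit 78) (nat_lit 836) (nat_lit 0) (XT.lf (nat_lit 0) (nat_lit 552308399) (nat_lit 912) (nat_lit 7814719014) (nat_lit 76) (nat_lit 13039949914) (nat_lit 378) (nat_lit 5) (nat_lit 390) (nat_lit 5) (nat_lit 379) (nat_lit 5) (nat_lit 621) (nat_lit 584) (nat_lit 355)) (XT.lf (nat_lit 0) (nat_lit 3164549271) (nat_lit 912) (nat_lit 17568362986) (nat_lit 76) (nat_lit 911118711) (nat_lit 367) (nat_lit 5) (nat_lit 379) (nat_lit 5) (nat_lit 368) (nat_lit 5) (nat_lit 622) (nat_lit 584) (nat_lit 354))))))) (XT.nd (nat_lit 1014) (nat_lit 4940) (nat_lit 0) (XT.nd (nat_lit 468) (nat_lit 2812) (nat_lit 0) (XT.nd (nat_lit 234) (nat_lit 1444) (nat_lit 0) (XT.nd (nat_lit 78) (nat_lit 760) (nat_lit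 0) (XT.lf (nat_lit 0) (nat_lit 5932883065) (nat_lit 912) (nat_lit 5635328551) (nat_lit 76) (nat_lit 10315537452) (nat_lit 367) (nat_lit 5) (nat_lit 379) (nat_lit 5) (nat_lit 368) (nat_lit 5) (nat_lit 623) (nat_lit 584) (nat_lit 353)) (XT.nd (nat_lit 78) (nat_lit 0) (nat_lit 0) (XT.lf (nat_lit 0) (nat_lit 6618674709) (nat_lit 760) (nat_lit 2176616121) (nat_lit 836) (nat_lit 13332196897) (nat_lit 357) (nat_lit 5) (nat_lit 367) (nat_lit 5) (nat_lit 368) (nat_lit 5) (nat_lit 624) (nat_lit 584) (nat_lit 352)) (XT.lf (nat_lit 0) (nat_lit 11796864607) (nat_lit 836) (nat_lit 3234063114) (nat_lit 76) (nat_lit 7343535415) (nat_lit 357) (nat_lit 5) (nat_lit 368) (nat_lit 5) (nat_lit 358) (nat_lit 5) (nat_lit 625) (nat_lit 584) (nat_lit 351)))) (XT.nd (nat_lit 78) (nat_lit 684) (nat_lit 0) (XT.lf (nat_lit 0) (nat_lit 9390463678) (nat_lit 760) (nat_lit 5539260012) (nat_lit 836) (nat_lit 7695229616) (nat_lit 347) (nat_lit 5) (nat_lit 357) (nat_lit 5) (nat_lit 358) (nat_lit 5)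 (nat_lit 626) (nat_lit 584) (nat_lit 350)) (XT.nd (nat_lit 78) (nat_lit 684) (nat_lit 0) (XT.lf (nat_lit 0) (nat_lit 18169900066) (nat_lit 836) (nat_lit 600248833) (nat_lit 76) (nat_lit 4109411500) (nat_lit 347) (nat_lit 5) (nat_lit 358) (nat_lit 5) (nat_lit 348) (nat_lit 5) (nat_lit 627) (nat_lit 584) (nat_lit 349)) (XT.lf (nat_lit 0) (nat_lit 12408307291) (nat_lit 684) (nat_lit 9179819424) (nat_lit 760) (nat_lit 1548868298) (nat_lit 338) (nat_lit 5) (nat_lit 347) (nat_lit 5) (nat_lit 348) (nat_lit 5) (nat_lit 628) (nat_lit 584) (nat_lit 348))))) (XT.nd (nat_lit 234) (nat_lit 1292) (nat_lit 0) (XT.nd (nat_lit 78) (nat_lit 684) (nat_lit 0) (XT.lf (nat_lit 0) (nat_lit 1672289587) (nat_lit 836) (nat_lit 21102671156) (nat_lit 76) (nat_lit 624017964) (nat_lit 327) (nat_lit 5) (nat_lit 338) (nat_lit 5) (nat_lit 328) (nat_lit 5) (nat_lit 629) (nat_lit 584) (nat_lit 347)) (XT.nd (nat_lit 78) (nat_lit 684) (nat_lit 0) (XT.lf (nat_lit 0) (nat_lit 5066485600) (nat_lit 836)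 (nat_lit 8013550239) (nat_lit 76) (nat_lit 10583374686) (nat_lit 327) (nat_lit 5) (nat_lit 338) (nat_lit 5) (nat_lit 328) (nat_lit 5) (nat_lit 630) (nat_lit 584) (nat_lit 346)) (XT.lf (nat_lit 0) (nat_lit 5403819985) (nat_lit 684) (nat_lit 3155977294) (nat_lit 760) (nat_lit 15372709359) (nat_lit 318) (nat_lit 5) (nat_lit 327) (nat_lit 5) (nat_lit 328) (nat_lit 5) (nat_lit 631) (nat_lit 584) (nat_lit 345)))) (XT.nd (nat_lit 156) (nat_lit 608) (nat_lit 0) (XT.nd (nat_lit 78) (nat_lit 684) (nat_lit 0) (XT.lf (nat_lit 0) (nat_lit 12218528007) (nat_lit 760) (nat_lit 5057782353) (nat_lit 76) (nat_lit 6928763540) (nat_lit 318) (nat_lit 5) (nat_lit 328) (nat_lit 5) (nat_lit 319) (nat_lit 5) (nat_lit 632) (nat_lit 584) (nat_lit 344)) (XT.lf (nat_lit 0) (nat_lit 8772328507) (nat_lit 684) (nat_lit 7252225841) (nat_lit 760) (nat_lit 8457056021) (nat_lit 309) (nat_lit 5) (nat_lit 318) (nat_lit 5) (nat_lit 319) (nat_lit 5) (nat_lit 633) (nat_lit 584) (nat_lit 343))) (XT.nd (nat_lit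 78) (nat_lit 608) (nat_lit 0) (XT.lf (nat_lit 0) (nat_lit 19956470421) (nat_lit 760) (nat_lit 1839323666) (nat_lit 76) (nat_lit 2966888371) (nat_lit 309) (nat_lit 5) (nat_lit 319) (nat_lit 5) (nat_lit 310) (nat_lit 5) (nat_lit 634) (nat_lit 584) (nat_lit 342)) (XT.lf (nat_lit 0) (nat_lit 12418560810) (nat_lit 608) (nat_lit 11673499609) (nat_lit 684) (nat_lit 954815128) (nat_lit 301) (nat_lit 5) (nat_lit 309) (nat_lit 5) (nat_lit 310) (nat_lit 5) (nat_lit 635) (nat_lit 584) (nat_lit 341)))))) (XT.nd (nat_lit 546) (nat_lit 2280) (nat_lit 0) (XT.nd (nat_lit 234) (nat_lit 1292) (nat_lit 0) (XT.nd (nat_lit 78) (nat_lit 608) (nat_lit 0) (XT.lf (nat_lit 0) (nat_lit 1647917909) (nat_lit 684) (nat_lit 1306213630) (nat_lit 760) (nat_lit 22381844659) (nat_lit 291) (nat_lit 5) (nat_lit 300) (nat_lit 5) (nat_lit 301) (nat_lit 5) (nat_lit 636) (nat_lit 584) (nat_lit 340)) (XT.nd (nat_lit 78) (nat_lit 608) (nat_lit 0) (XT.lf (nat_lit 0) (nat_lit 7070399801) (nat_lit 760) (nat_lit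 9319744244) (nat_lit 76) (nat_lit 9237750292) (nat_lit 291) (nat_lit 5) (nat_lit 301) (nat_lit 5) (nat_lit 292) (nat_lit 5) (nat_lit 637) (nat_lit 584) (nat_lit 339)) (XT.lf (nat_lit 0) (nat_lit 5393736895) (nat_lit 608) (nat_lit 5915431688) (nat_lit 684) (nat_lit 14615679002) (nat_lit 283) (nat_lit 5) (nat_lit 291) (nat_lit 5) (nat_lit 292) (nat_lit 5) (nat_lit 638) (nat_lit 584) (nat_lit 338)))) (XT.nd (nat_lit 156) (nat_lit 684) (nat_lit 0) (XT.nd (nat_lit 78) (nat_lit 608) (nat_lit 0) (XT.lf (nat_lit 0) (nat_lit 15723170005) (nat_lit 684) (nat_lit 5734370542) (nat_lit 76) (nat_lit 4768390449) (nat_lit 283) (nat_lit 5) (nat_lit 292) (nat_lit 5) (nat_lit 284) (nat_lit 5) (nat_lit 639) (nat_lit 584) (nat_lit 337)) (XT.lf (nat_lit 0) (nat_lit 9438679667) (nat_lit 608) (nat_lit 10883837482) (nat_lit 684) (nat_lit 6208577852) (nat_lit 275) (nat_lit 5) (nat_lit 283) (nat_lit 5) (nat_lit 284) (nat_lit 5) (nat_lit 640) (nat_lit 584) (nat_lit 336))) (XT.nd (nat_lit 78)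 (nat_lit 684) (nat_lit 0) (XT.lf (nat_lit 0) (nat_lit 24988709998) (nat_lit 608) (nat_lit 60269518) (nat_lit 684) (nat_lit 1792680439) (nat_lit 275) (nat_lit 5) (nat_lit 283) (nat_lit 5) (nat_lit 284) (nat_lit 5) (nat_lit 641) (nat_lit 584) (nat_lit 335)) (XT.lf (nat_lit 0) (nat_lit 2834589615) (nat_lit 684) (nat_lit 13377159322) (nat_lit 76) (nat_lit 10943163055) (nat_lit 266) (nat_lit 5) (nat_lit 275) (nat_lit 5) (nat_lit 267) (nat_lit 5) (nat_lit 642) (nat_lit 584) (nat_lit 334))))) (XT.nd (nat_lit 234) (nat_lit 1140) (nat_lit 0) (XT.nd (nat_lit 78) (nat_lit 532) (nat_lit 0) (XT.lf (nat_lit 0) (nat_lit 2285420462) (nat_lit 608) (nat_lit 5269480923) (nat_lit 684) (nat_lit 19918800909) (nat_lit 258) (nat_lit 5) (nat_lit 266) (nat_lit 5) (nat_lit 267) (nat_lit 5) (nat_lit 643) (nat_lit 584) (nat_lit 333)) (XT.nd (nat_lit 78) (nat_lit 532) (nat_lit 0) (XT.lf (nat_lit 0) (nat_lit 12494988712) (nat_lit 684) (nat_lit 9397574290) (nat_lit 76) (nat_lit 5903798230) (nat_lit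 258) (nat_lit 5) (nat_lit 267) (nat_lit 5) (nat_lit 259) (nat_lit 5) (nat_lit 644) (nat_lit 584) (nat_lit 332)) (XT.lf (nat_lit 0) (nat_lit 6758535542) (nat_lit 532) (nat_lit 10850938663) (nat_lit 608) (nat_lit 10514487426) (nat_lit 251) (nat_lit 5) (nat_lit 258) (nat_lit 5) (nat_lit 259) (nat_lit 5) (nat_lit 645) (nat_lit 584) (nat_lit 331)))) (XT.nd (nat_lit 156) (nat_lit 608) (nat_lit 0) (XT.nd (nat_lit 78) (nat_lit 532) (nat_lit 0) (XT.lf (nat_lit 0) (nat_lit 22889249089) (nat_lit 608) (nat_lit 5098971585) (nat_lit 76) (nat_lit 468633581) (nat_lit 251) (nat_lit 5) (nat_lit 259) (nat_lit 5) (nat_lit 252) (nat_lit 5) (nat_lit 646) (nat_lit 584) (nat_lit 330)) (XT.lf (nat_lit 0) (nat_lit 11568573965) (nat_lit 532) (nat_lit 16849926220) (nat_lit 608) (nat_lit 375027135) (nat_lit 244) (nat_lit 5) (nat_lit 251) (nat_lit 5) (nat_lit 252) (nat_lit 5) (nat_lit 647) (nat_lit 584) (nat_lit 329))) (XT.nd (nat_lit 78) (nat_lit 532) (nat_lit 0) (XT.lf (nat_lit 0) (nat_lit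 4888223811) (nat_lit 608) (nat_lit 533956348) (nat_lit 76) (nat_lit 23713487496) (nat_lit 243) (nat_lit 5) (nat_lit 251) (nat_lit 5) (nat_lit 244) (nat_lit 5) (nat_lit 648) (nat_lit 584) (nat_lit 328)) (XT.lf (nat_lit 0) (nat_lit 10398359950) (nat_lit 608) (nat_lit 12820286401) (nat_lit 76) (nat_lit 6263022223) (nat_lit 236) (nat_lit 5) (nat_lit 244) (nat_lit 5) (nat_lit 237) (nat_lit 5) (nat_lit 649) (nat_lit 584) (nat_lit 327))))))))
noncomputable def xc207 : XT := (XT.nd (nat_lit 77064) (nat_lit 0) (nat_lit 14364) (XT.nd (nat_lit 1014) (nat_lit 532) (nat_lit 0) (XT.nd (nat_lit 468) (nat_lit 1824) (nat_lit 0) (XT.nd (nat_lit 234) (nat_lit 1064) (nat_lit 0) (XT.nd (nat_lit 78) (nat_lit 456) (nat_lit 0) (XT.lf (nat_lit 0) (nat_lit 4390941802) (nat_lit 532) (nat_lit 11692791103) (nat_lit 608) (nat_lit 13749556113) (nat_lit 229) (nat_lit 5) (nat_lit 236) (nat_lit 5) (nat_lit 237) (nat_lit 5) (nat_lit 650) (nat_lit 584) (nat_lit 326)) (XT.nd (nat_lit 78) (nat_lit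 456) (nat_lit 0) (XT.lf (nat_lit 0) (nat_lit 21966862033) (nat_lit 608) (nat_lit 8075114025) (nat_lit 76) (nat_lit 148285024) (nat_lit 229) (nat_lit 5) (nat_lit 237) (nat_lit 5) (nat_lit 230) (nat_lit 5) (nat_lit 651) (nat_lit 584) (nat_lit 325)) (XT.lf (nat_lit 0) (nat_lit 9685042194) (nat_lit 456) (nat_lit 18420022393) (nat_lit 532) (nat_lit 2446559965) (nat_lit 223) (nat_lit 5) (nat_lit 229) (nat_lit 5) (nat_lit 230) (nat_lit 5) (nat_lit 652) (nat_lit 584) (nat_lit 324)))) (XT.nd (nat_lit 78) (nat_lit 988) (nat_lit 0) (XT.lf (nat_lit 0) (nat_lit 3452275886) (nat_lit 532) (nat_lit 3036020360) (nat_lit 76) (nat_lit 24430438719) (nat_lit 222) (nat_lit 5) (nat_lit 229) (nat_lit 5) (nat_lit 223) (nat_lit 5) (nat_lit 653) (nat_lit 584) (nat_lit 323)) (XT.nd (nat_lit 78) (nat_lit 456) (nat_lit 0) (XT.lf (nat_lit 0) (nat_lit 9570718986) (nat_lit 608) (nat_lit 15996487487) (nat_lit 76) (nat_lit 5722970050) (nat_lit 215) (nat_lit 5) (nat_lit 223) (nat_lit 5) (nat_lit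 216) (nat_lit 5) (nat_lit 654) (nat_lit 584) (nat_lit 322)) (XT.lf (nat_lit 0) (nat_lit 2346210749) (nat_lit 456) (nat_lit 13541215573) (nat_lit 532) (nat_lit 15780102849) (nat_lit 209) (nat_lit 5) (nat_lit 215) (nat_lit 5) (nat_lit 216) (nat_lit 5) (nat_lit 655) (nat_lit 584) (nat_lit 321))))) (XT.nd (nat_lit 234) (nat_lit 1292) (nat_lit 0) (XT.nd (nat_lit 78) (nat_lit 532) (nat_lit 0) (XT.lf (nat_lit 0) (nat_lit 21268661942) (nat_lit 456) (nat_lit 1166365495) (nat_lit 532) (nat_lit 9615310409) (nat_lit 209) (nat_lit 5) (nat_lit 215) (nat_lit 5) (nat_lit 216) (nat_lit 5) (nat_lit 656) (nat_lit 584) (nat_lit 320)) (XT.nd (nat_lit 78) (nat_lit 76) (nat_lit 0) (XT.lf (nat_lit 0) (nat_lit 8157458328) (nat_lit 456) (nat_lit 21080727763) (nat_lit 532) (nat_lit 3200124653) (nat_lit 203) (nat_lit 5) (nat_lit 209) (nat_lit 5) (nat_lit 210) (nat_lit 5) (nat_lit 657) (nat_lit 584) (nat_lit 319)) (XT.lf (nat_lit 0) (nat_lit 3377342563) (nat_lit 532) (nat_lit 5244901676) (nat_lit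 76) (nat_lit 24209808337) (nat_lit 202) (nat_lit 5) (nat_lit 209) (nat_lit 5) (nat_lit 203) (nat_lit 5) (nat_lit 658) (nat_lit 584) (nat_lit 318)))) (XT.nd (nat_lit 156) (nat_lit 380) (nat_lit 0) (XT.nd (nat_lit 78) (nat_lit 456) (nat_lit 0) (XT.lf (nat_lit 0) (nat_lit 10161220358) (nat_lit 532) (nat_lit 18923975780) (nat_lit 76) (nat_lit 4145695984) (nat_lit 196) (nat_lit 5) (nat_lit 203) (nat_lit 5) (nat_lit 197) (nat_lit 5) (nat_lit 659) (nat_lit 584) (nat_lit 317)) (XT.lf (nat_lit 0) (nat_lit 630941168) (nat_lit 456) (nat_lit 16543807099) (nat_lit 532) (nat_lit 16461080889) (nat_lit 190) (nat_lit 5) (nat_lit 196) (nat_lit 5) (nat_lit 197) (nat_lit 5) (nat_lit 660) (nat_lit 584) (nat_lit 316))) (XT.nd (nat_lit 78) (nat_lit 380) (nat_lit 0) (XT.lf (nat_lit 0) (nat_lit 20829639432) (nat_lit 456) (nat_lit 3623270247) (nat_lit 532) (nat_lit 9593468139) (nat_lit 190) (nat_lit 5) (nat_lit 196) (nat_lit 5) (nat_lit 197) (nat_lit 5) (nat_lit 661) (nat_lit 584) (nat_lit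 315)) (XT.lf (nat_lit 0) (nat_lit 6993042194) (nat_lit 380) (nat_lit 24988454305) (nat_lit 456) (nat_lit 2481543855) (nat_lit 185) (nat_lit 5) (nat_lit 190) (nat_lit 5) (nat_lit 191) (nat_lit 5) (nat_lit 662) (nat_lit 584) (nat_lit 314)))))) (XT.nd (nat_lit 75504) (nat_lit 0) (nat_lit 23712) (XT.nd (nat_lit 75192) (nat_lit 0) (nat_lit 23560) (XT.nd (nat_lit 78) (nat_lit 456) (nat_lit 0) (XT.lf (nat_lit 0) (nat_lit 4820724905) (nat_lit 456) (nat_lit 7159471626) (nat_lit 76) (nat_lit 22905006010) (nat_lit 184) (nat_lit 5) (nat_lit 190) (nat_lit 5) (nat_lit 185) (nat_lit 5) (nat_lit 663) (nat_lit 584) (nat_lit 313)) (XT.nd (nat_lit 75036) (nat_lit 0) (nat_lit 23560) (XT.lf (nat_lit 0) (nat_lit 12331433222) (nat_lit 532) (nat_lit 21605811005) (nat_lit 76) (nat_lit 1376323380) (nat_lit 178) (nat_lit 5) (nat_lit 185) (nat_lit 5) (nat_lit 179) (nat_lit 5) (nat_lit 664) (nat_lit 584) (nat_lit 312)) (XT.lf (nat_lit 0) (nat_lit 1634310395) (nat_lit 0) (nat_lit 1634310395)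 (nat_lit 1748) (nat_lit 4191780545) (nat_lit 488) (nat_lit 5) (nat_lit 488) (nat_lit 3) (nat_lit 511) (nat_lit 3) (nat_lit 585) (nat_lit 585) (nat_lit 390)))) (XT.nd (nat_lit 156) (nat_lit 0) (nat_lit 76) (XT.nd (nat_lit 78) (nat_lit 0) (nat_lit 0) (XT.lf (nat_lit 0) (nat_lit 6929159110) (nat_lit 1748) (nat_lit 4304234680) (nat_lit 1824) (nat_lit 3830057800) (nat_lit 488) (nat_lit 5) (nat_lit 511) (nat_lit 3) (nat_lit 512) (nat_lit 5) (nat_lit 586) (nat_lit 585) (nat_lit 389)) (XT.lf (nat_lit 76) (nat_lit 3206947955) (nat_lit 0) (nat_lit 4156556372) (nat_lit 1824) (nat_lit 7844758111) (nat_lit 489) (nat_lit 5) (nat_lit 488) (nat_lit 5) (nat_lit 512) (nat_lit 5) (nat_lit 587) (nat_lit 585) (nat_lit 388))) (XT.nd (nat_lit 78) (nat_lit 0) (nat_lit 0) (XT.lf (nat_lit 0) (nat_lit 7847763423) (nat_lit 1748) (nat_lit 4453052076) (nat_lit 1824) (nat_lit 3054330192) (nat_lit 489) (nat_lit 5) (nat_lit 512) (nat_lit 5) (nat_lit 513) (nat_lit 5) (nat_lit 588) (nat_lit 585)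 (nat_lit 387)) (XT.lf (nat_lit 76) (nat_lit 3257162192) (nat_lit 0) (nat_lit 5125644203) (nat_lit 1824) (nat_lit 7121338951) (nat_lit 490) (nat_lit 5) (nat_lit 489) (nat_lit 5) (nat_lit 513) (nat_lit 5) (nat_lit 589) (nat_lit 585) (nat_lit 386))))) (XT.nd (nat_lit 234) (nat_lit 0) (nat_lit 76) (XT.nd (nat_lit 78) (nat_lit 0) (nat_lit 0) (XT.lf (nat_lit 0) (nat_lit 8965435933) (nat_lit 1748) (nat_lit 4492369003) (nat_lit 1824) (nat_lit 2197583040) (nat_lit 490) (nat_lit 5) (nat_lit 513) (nat_lit 5) (nat_lit 514) (nat_lit 5) (nat_lit 590) (nat_lit 585) (nat_lit 385)) (XT.nd (nat_lit 78) (nat_lit 0) (nat_lit 76) (XT.lf (nat_lit 76) (nat_lit 3424036689) (nat_lit 0) (nat_lit 6184569777) (nat_lit 1824) (nat_lit 6200071907) (nat_lit 491) (nat_lit 5) (nat_lit 490) (nat_lit 5) (nat_lit 514) (nat_lit 5) (nat_lit 591) (nat_lit 585) (nat_lit 384)) (XT.lf (nat_lit 0) (nat_lit 10295846096) (nat_lit 1748) (nat_lit 4417376418) (nat_lit 1824) (nat_lit 1251188623) (nat_lit 491)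 (nat_lit 5) (nat_lit 514) (nat_lit 5) (nat_lit 515) (nat_lit 5) (nat_lit 592) (nat_lit 585) (nat_lit 383)))) (XT.nd (nat_lit 156) (nat_lit 0) (nat_lit 76) (XT.nd (nat_lit 78) (nat_lit 0) (nat_lit 76) (XT.lf (nat_lit 76) (nat_lit 3712657073) (nat_lit 0) (nat_lit 7342223234) (nat_lit 1824) (nat_lit 5067217909) (nat_lit 492) (nat_lit 5) (nat_lit 491) (nat_lit 5) (nat_lit 515) (nat_lit 5) (nat_lit 593) (nat_lit 585) (nat_lit 382)) (XT.lf (nat_lit 0) (nat_lit 11853192458) (nat_lit 1748) (nat_lit 4222955711) (nat_lit 1824) (nat_lit 206309568) (nat_lit 492) (nat_lit 5) (nat_lit 515) (nat_lit 5) (nat_lit 516) (nat_lit 5) (nat_lit 594) (nat_lit 585) (nat_lit 381))) (XT.nd (nat_lit 78) (nat_lit 0) (nat_lit 0) (XT.lf (nat_lit 76) (nat_lit 4128428386) (nat_lit 0) (nat_lit 8607720017) (nat_lit 1824) (nat_lit 3708503125) (nat_lit 493) (nat_lit 5) (nat_lit 492) (nat_lit 5) (nat_lit 516) (nat_lit 5) (nat_lit 595) (nat_lit 585) (nat_lit 380)) (XT.lf (nat_lit 76) (nat_lit 12699759942)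 (nat_lit 0) (nat_lit 958695139) (nat_lit 1824) (nat_lit 2951200900) (nat_lit 493) (nat_lit 5) (nat_lit 492) (nat_lit 5) (nat_lit 516) (nat_lit 5) (nat_lit 596) (nat_lit 585) (nat_lit 379))))))) (XT.nd (nat_lit 1092) (nat_lit 6384) (nat_lit 0) (XT.nd (nat_lit 546) (nat_lit 1444) (nat_lit 0) (XT.nd (nat_lit 234) (nat_lit 1748) (nat_lit 0) (XT.nd (nat_lit 78) (nat_lit 0) (nat_lit 0) (XT.lf (nat_lit 76) (nat_lit 4677082630) (nat_lit 0) (nat_lit 9990421770) (nat_lit 1824) (nat_lit 2109090800) (nat_lit 494) (nat_lit 5) (nat_lit 493) (nat_lit 5) (nat_lit 517) (nat_lit 5) (nat_lit 597) (nat_lit 585) (nat_lit 378)) (XT.nd (nat_lit 78) (nat_lit 0) (nat_lit 76) (XT.lf (nat_lit 76) (nat_lit 13478011595) (nat_lit 0) (nat_lit 2244865452) (nat_lit 1824) (nat_lit 1223473905) (nat_lit 494) (nat_lit 5) (nat_lit 493) (nat_lit 5) (nat_lit 517) (nat_lit 5) (nat_lit 598) (nat_lit 585) (nat_lit 377)) (XT.lf (nat_lit 76) (nat_lit 5364686890) (nat_lit 0) (nat_lit 11499957522) (nat_lit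 1824) (nat_lit 253552245) (nat_lit 495) (nat_lit 5) (nat_lit 494) (nat_lit 5) (nat_lit 518) (nat_lit 5) (nat_lit 599) (nat_lit 585) (nat_lit 376)))) (XT.nd (nat_lit 156) (nat_lit 0) (nat_lit 76) (XT.nd (nat_lit 78) (nat_lit 0) (nat_lit 76) (XT.lf (nat_lit 0) (nat_lit 758202492) (nat_lit 1824) (nat_lit 2895887194) (nat_lit 1900) (nat_lit 13638652922) (nat_lit 470) (nat_lit 5) (nat_lit 494) (nat_lit 5) (nat_lit 495) (nat_lit 5) (nat_lit 600) (nat_lit 585) (nat_lit 375)) (XT.lf (nat_lit 0) (nat_lit 1849583058) (nat_lit 1824) (nat_lit 11284250453) (nat_lit 1900) (nat_lit 4335657281) (nat_lit 471) (nat_lit 5) (nat_lit 495) (nat_lit 5) (nat_lit 496) (nat_lit 5) (nat_lit 601) (nat_lit 585) (nat_lit 374))) (XT.nd (nat_lit 78) (nat_lit 0) (nat_lit 76) (XT.lf (nat_lit 0) (nat_lit 3000564990) (nat_lit 1824) (nat_lit 2190946648) (nat_lit 1900) (nat_lit 12457507365) (nat_lit 471) (nat_lit 5) (nat_lit 495) (nat_lit 5) (nat_lit 496) (nat_lit 5) (nat_lit 602) (nat_lit 585) (nat_lit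 373)) (XT.lf (nat_lit 0) (nat_lit 4234484154) (nat_lit 1824) (nat_lit 10676613680) (nat_lit 1900) (nat_lit 2919842122) (nat_lit 472) (nat_lit 5) (nat_lit 496) (nat_lit 5) (nat_lit 497) (nat_lit 5) (nat_lit 603) (nat_lit 585) (nat_lit 372))))) (XT.nd (nat_lit 234) (nat_lit 1596) (nat_lit 0) (XT.nd (nat_lit 78) (nat_lit 0) (nat_lit 76) (XT.lf (nat_lit 0) (nat_lit 5536488605) (nat_lit 1824) (nat_lit 1338967050) (nat_lit 1900) (nat_lit 11140176051) (nat_lit 472) (nat_lit 5) (nat_lit 496) (nat_lit 5) (nat_lit 497) (nat_lit 5) (nat_lit 604) (nat_lit 585) (nat_lit 371)) (XT.nd (nat_lit 78) (nat_lit 0) (nat_lit 0) (XT.lf (nat_lit 0) (nat_lit 6921635992) (nat_lit 1824) (nat_lit 9922240273) (nat_lit 1900) (nat_lit 1358999478) (nat_lit 473) (nat_lit 5) (nat_lit 497) (nat_lit 5) (nat_lit 498) (nat_lit 5) (nat_lit 605) (nat_lit 585) (nat_lit 370)) (XT.lf (nat_lit 0) (nat_lit 8383493754) (nat_lit 1824) (nat_lit 332987214) (nat_lit 1900) (nat_lit 9676404043) (nat_lit 473) (nat_lit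 5) (nat_lit 497) (nat_lit 5) (nat_lit 498) (nat_lit 5) (nat_lit 606) (nat_lit 585) (nat_lit 369)))) (XT.nd (nat_lit 156) (nat_lit 1672) (nat_lit 0) (XT.nd (nat_lit 78) (nat_lit 0) (nat_lit 76) (XT.lf (nat_lit 76) (nat_lit 9569150044) (nat_lit 0) (nat_lit 362107042) (nat_lit 1900) (nat_lit 8654304496) (nat_lit 474) (nat_lit 5) (nat_lit 473) (nat_lit 5) (nat_lit 498) (nat_lit 5) (nat_lit 607) (nat_lit 585) (nat_lit 368)) (XT.lf (nat_lit 76) (nat_lit 845405995) (nat_lit 0) (nat_lit 10719908269) (nat_lit 1900) (nat_lit 7215671130) (nat_lit 475) (nat_lit 5) (nat_lit 474) (nat_lit 5) (nat_lit 499) (nat_lit 5) (nat_lit 608) (nat_lit 585) (nat_lit 367))) (XT.nd (nat_lit 78) (nat_lit 1748) (nat_lit 0) (XT.lf (nat_lit 76) (nat_lit 11019791608) (nat_lit 0) (nat_lit 2269848967) (nat_lit 1900) (nat_lit 5689525815) (nat_lit 475) (nat_lit 5) (nat_lit 474) (nat_lit 5) (nat_lit 499) (nat_lit 5) (nat_lit 609) (nat_lit 585) (nat_lit 366)) (XT.lf (nat_lit 0) (nat_lit 2199496953) (nat_lit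 1824) (nat_lit 12899270445) (nat_lit 1900) (nat_lit 4081537788) (nat_lit 451) (nat_lit 5) (nat_lit 475) (nat_lit 5) (nat_lit 476) (nat_lit 5) (nat_lit 610) (nat_lit 585) (nat_lit 365)))))) (XT.nd (nat_lit 546) (nat_lit 3420) (nat_lit 0) (XT.nd (nat_lit 234) (nat_lit 1824) (nat_lit 0) (XT.nd (nat_lit 78) (nat_lit 1140) (nat_lit 0) (XT.lf (nat_lit 0) (nat_lit 12649754663) (nat_lit 1824) (nat_lit 4357549869) (nat_lit 1900) (nat_lit 2376898123) (nat_lit 451) (nat_lit 5) (nat_lit 475) (nat_lit 5) (nat_lit 476) (nat_lit 5) (nat_lit 611) (nat_lit 585) (nat_lit 364)) (XT.nd (nat_lit 78) (nat_lit 76) (nat_lit 0) (XT.lf (nat_lit 0) (nat_lit 3733054814) (nat_lit 1064) (nat_lit 15268458181) (nat_lit 1140) (nat_lit 589715507) (nat_lit 437) (nat_lit 5) (nat_lit 451) (nat_lit 5) (nat_lit 452) (nat_lit 5) (nat_lit 612) (nat_lit 585) (nat_lit 363)) (XT.lf (nat_lit 0) (nat_lit 1286409732) (nat_lit 1140) (nat_lit 5341966090) (nat_lit 76) (nat_lit 13172471878) (nat_lit 436) (nat_lit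 5) (nat_lit 451) (nat_lit 5) (nat_lit 437) (nat_lit 5) (nat_lit 613) (nat_lit 585) (nat_lit 362)))) (XT.nd (nat_lit 156) (nat_lit 912) (nat_lit 0) (XT.nd (nat_lit 78) (nat_lit 0) (nat_lit 0) (XT.lf (nat_lit 0) (nat_lit 3237106364) (nat_lit 988) (nat_lit 14580727987) (nat_lit 76) (nat_lit 2195848484) (nat_lit 424) (nat_lit 5) (nat_lit 437) (nat_lit 5) (nat_lit 425) (nat_lit 5) (nat_lit 614) (nat_lit 585) (nat_lit 361)) (XT.lf (nat_lit 0) (nat_lit 5301989579) (nat_lit 988) (nat_lit 3782893558) (nat_lit 76) (nat_lit 11144388491) (nat_lit 424) (nat_lit 5) (nat_lit 437) (nat_lit 5) (nat_lit 425) (nat_lit 5) (nat_lit 615) (nat_lit 585) (nat_lit 360))) (XT.nd (nat_lit 78) (nat_lit 0) (nat_lit 0) (XT.lf (nat_lit 0) (nat_lit 7322534040) (nat_lit 912) (nat_lit 128464772) (nat_lit 988) (nat_lit 12997317219) (nat_lit 412) (nat_lit 5) (nat_lit 424) (nat_lit 5) (nat_lit 425) (nat_lit 5) (nat_lit 616) (nat_lit 585) (nat_lit 359)) (XT.lf (nat_lit 0) (nat_lit 9722372982) (nat_lit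 988) (nat_lit 2032999510) (nat_lit 76) (nat_lit 8914781527) (nat_lit 412) (nat_lit 5) (nat_lit 425) (nat_lit 5) (nat_lit 413) (nat_lit 5) (nat_lit 617) (nat_lit 585) (nat_lit 358))))) (XT.nd (nat_lit 234) (nat_lit 1748) (nat_lit 0) (XT.nd (nat_lit 78) (nat_lit 836) (nat_lit 0) (XT.lf (nat_lit 0) (nat_lit 9399687892) (nat_lit 836) (nat_lit 2696809138) (nat_lit 912) (nat_lit 8798785673) (nat_lit 401) (nat_lit 5) (nat_lit 412) (nat_lit 5) (nat_lit 413) (nat_lit 5) (nat_lit 618) (nat_lit 585) (nat_lit 357)) (XT.nd (nat_lit 78) (nat_lit 836) (nat_lit 0) (XT.lf (nat_lit 0) (nat_lit 14569822115) (nat_lit 912) (nat_lit 83066598) (nat_lit 76) (nat_lit 6470991254) (nat_lit 401) (nat_lit 5) (nat_lit 413) (nat_lit 5) (nat_lit 402) (nat_lit 5) (nat_lit 619) (nat_lit 585) (nat_lit 356)) (XT.lf (nat_lit 0) (nat_lit 11688799286) (nat_lit 836) (nat_lit 5493158356) (nat_lit 912) (nat_lit 4173305027) (nat_lit 390) (nat_lit 5) (nat_lit 401) (nat_lit 5) (nat_lit 402) (nat_lit 5) (nat_lit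 620) (nat_lit 585) (nat_lit 355)))) (XT.nd (nat_lit 156) (nat_lit 836) (nat_lit 0) (XT.nd (nat_lit 78) (nat_lit 76) (nat_lit 0) (XT.lf (nat_lit 0) (nat_lit 2104151212) (nat_lit 836) (nat_lit 17777053890) (nat_lit 912) (nat_lit 1709370900) (nat_lit 379) (nat_lit 5) (nat_lit 390) (nat_lit 5) (nat_lit 391) (nat_lit 5) (nat_lit 621) (nat_lit 585) (nat_lit 354)) (XT.lf (nat_lit 0) (nat_lit 890653907) (nat_lit 912) (nat_lit 7634557414) (nat_lit 76) (nat_lit 13303333157) (nat_lit 378) (nat_lit 5) (nat_lit 390) (nat_lit 5) (nat_lit 379) (nat_lit 5) (nat_lit 622) (nat_lit 585) (nat_lit 353))) (XT.nd (nat_lit 78) (nat_lit 0) (nat_lit 0) (XT.lf (nat_lit 0) (nat_lit 3550964743) (nat_lit 912) (nat_lit 17579073522) (nat_lit 76) (nat_lit 940384942) (nat_lit 367) (nat_lit 5) (nat_lit 379) (nat_lit 5) (nat_lit 368) (nat_lit 5) (nat_lit 623) (nat_lit 585) (nat_lit 352)) (XT.lf (nat_lit 0) (nat_lit 6368329438) (nat_lit 912) (nat_lit 5414057942) (nat_lit 76) (nat_lit 10532675512)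 (nat_lit 367) (nat_lit 5) (nat_lit 379) (nat_lit 5) (nat_lit 368) (nat_lit 5) (nat_lit 624) (nat_lit 585) (nat_lit 351))))))))
noncomputable def xc208 : XT := (XT.nd (nat_lit 2106) (nat_lit 3420) (nat_lit 0) (XT.nd (nat_lit 1014) (nat_lit 4712) (nat_lit 0) (XT.nd (nat_lit 468) (nat_lit 2736) (nat_lit 0) (XT.nd (nat_lit 234) (nat_lit 1520) (nat_lit 0) (XT.nd (nat_lit 78) (nat_lit 760) (nat_lit 0) (XT.lf (nat_lit 0) (nat_lit 7082828165) (nat_lit 760) (nat_lit 2201099786) (nat_lit 836) (nat_lit 13279830019) (nat_lit 357) (nat_lit 5) (nat_lit 367) (nat_lit 5) (nat_lit 368) (nat_lit 5) (nat_lit 625) (nat_lit 585) (nat_lit 350)) (XT.nd (nat_lit 78) (nat_lit 760) (nat_lit 0) (XT.lf (nat_lit 0) (nat_lit 12339522469) (nat_lit 836) (nat_lit 2967434772) (nat_lit 76) (nat_lit 7508836350) (nat_lit 357) (nat_lit 5) (nat_lit 368) (nat_lit 5) (nat_lit 358) (nat_lit 5) (nat_lit 626) (nat_lit 585) (nat_lit 349)) (XT.lf (nat_lit 0) (nat_lit 9907402888) (nat_lit 760) (nat_lit 5623758646)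 (nat_lit 836) (nat_lit 7540210051) (nat_lit 347) (nat_lit 5) (nat_lit 357) (nat_lit 5) (nat_lit 358) (nat_lit 5) (nat_lit 627) (nat_lit 585) (nat_lit 348)))) (XT.nd (nat_lit 78) (nat_lit 1520) (nat_lit 0) (XT.lf (nat_lit 0) (nat_lit 18830370655) (nat_lit 836) (nat_lit 283783169) (nat_lit 76) (nat_lit 4217032880) (nat_lit 347) (nat_lit 5) (nat_lit 358) (nat_lit 5) (nat_lit 348) (nat_lit 5) (nat_lit 628) (nat_lit 585) (nat_lit 347)) (XT.nd (nat_lit 78) (nat_lit 836) (nat_lit 0) (XT.lf (nat_lit 0) (nat_lit 12982783087) (nat_lit 684) (nat_lit 9330472418) (nat_lit 760) (nat_lit 1280589094) (nat_lit 338) (nat_lit 5) (nat_lit 347) (nat_lit 5) (nat_lit 348) (nat_lit 5) (nat_lit 629) (nat_lit 585) (nat_lit 346)) (XT.lf (nat_lit 0) (nat_lit 1997642885) (nat_lit 836) (nat_lit 21191021229) (nat_lit 76) (nat_lit 672433920) (nat_lit 327) (nat_lit 5) (nat_lit 338) (nat_lit 5) (nat_lit 328) (nat_lit 5) (nat_lit 630) (nat_lit 585) (nat_lit 345))))) (XT.nd (nat_lit 234) (nat_lit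 2052) (nat_lit 0) (XT.nd (nat_lit 78) (nat_lit 684) (nat_lit 0) (XT.lf (nat_lit 0) (nat_lit 5453999142) (nat_lit 836) (nat_lit 7846661097) (nat_lit 76) (nat_lit 10830273156) (nat_lit 327) (nat_lit 5) (nat_lit 338) (nat_lit 5) (nat_lit 328) (nat_lit 5) (nat_lit 631) (nat_lit 585) (nat_lit 344)) (XT.nd (nat_lit 78) (nat_lit 0) (nat_lit 0) (XT.lf (nat_lit 0) (nat_lit 5836904162) (nat_lit 684) (nat_lit 3176771609) (nat_lit 760) (nat_lit 15391806107) (nat_lit 318) (nat_lit 5) (nat_lit 327) (nat_lit 5) (nat_lit 328) (nat_lit 5) (nat_lit 632) (nat_lit 585) (nat_lit 343)) (XT.lf (nat_lit 0) (nat_lit 12740307735) (nat_lit 760) (nat_lit 4835008721) (nat_lit 76) (nat_lit 7108289915) (nat_lit 318) (nat_lit 5) (nat_lit 328) (nat_lit 5) (nat_lit 319) (nat_lit 5) (nat_lit 633) (nat_lit 585) (nat_lit 342)))) (XT.nd (nat_lit 156) (nat_lit 1368) (nat_lit 0) (XT.nd (nat_lit 78) (nat_lit 0) (nat_lit 0) (XT.lf (nat_lit 0) (nat_lit 9269573243) (nat_lit 684) (nat_lit 7349531292) (nat_lit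 760) (nat_lit 8346636445) (nat_lit 309) (nat_lit 5) (nat_lit 318) (nat_lit 5) (nat_lit 319) (nat_lit 5) (nat_lit 634) (nat_lit 585) (nat_lit 341)) (XT.lf (nat_lit 0) (nat_lit 20624589098) (nat_lit 760) (nat_lit 1555531895) (nat_lit 76) (nat_lit 3072415315) (nat_lit 309) (nat_lit 5) (nat_lit 319) (nat_lit 5) (nat_lit 310) (nat_lit 5) (nat_lit 635) (nat_lit 585) (nat_lit 340))) (XT.nd (nat_lit 78) (nat_lit 760) (nat_lit 0) (XT.lf (nat_lit 0) (nat_lit 12985401202) (nat_lit 608) (nat_lit 11854283106) (nat_lit 684) (nat_lit 702793473) (nat_lit 301) (nat_lit 5) (nat_lit 309) (nat_lit 5) (nat_lit 310) (nat_lit 5) (nat_lit 636) (nat_lit 585) (nat_lit 339)) (XT.lf (nat_lit 0) (nat_lit 2000801730) (nat_lit 684) (nat_lit 1276805487) (nat_lit 760) (nat_lit 22559781784) (nat_lit 291) (nat_lit 5) (nat_lit 300) (nat_lit 5) (nat_lit 301) (nat_lit 5) (nat_lit 637) (nat_lit 585) (nat_lit 338)))))) (XT.nd (nat_lit 546) (nat_lit 2204) (nat_lit 0) (XT.nd (nat_lit 234) (nat_lit 1900)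 (nat_lit 0) (XT.nd (nat_lit 78) (nat_lit 608) (nat_lit 0) (XT.lf (nat_lit 0) (nat_lit 7471370150) (nat_lit 760) (nat_lit 9187637530) (nat_lit 76) (nat_lit 9476234805) (nat_lit 291) (nat_lit 5) (nat_lit 301) (nat_lit 5) (nat_lit 292) (nat_lit 5) (nat_lit 638) (nat_lit 585) (nat_lit 337)) (XT.nd (nat_lit 78) (nat_lit 0) (nat_lit 0) (XT.lf (nat_lit 0) (nat_lit 5818017826) (nat_lit 608) (nat_lit 5973861343) (nat_lit 684) (nat_lit 14646316695) (nat_lit 283) (nat_lit 5) (nat_lit 291) (nat_lit 5) (nat_lit 292) (nat_lit 5) (nat_lit 639) (nat_lit 585) (nat_lit 336)) (XT.lf (nat_lit 0) (nat_lit 16289511825) (nat_lit 684) (nat_lit 5534189236) (nat_lit 76) (nat_lit 4921693214) (nat_lit 283) (nat_lit 5) (nat_lit 292) (nat_lit 5) (nat_lit 284) (nat_lit 5) (nat_lit 640) (nat_lit 585) (nat_lit 335)))) (XT.nd (nat_lit 156) (nat_lit 1292) (nat_lit 0) (XT.nd (nat_lit 78) (nat_lit 0) (nat_lit 0) (XT.lf (nat_lit 0) (nat_lit 9940250473) (nat_lit 608) (nat_lit 11037687534) (nat_lit 684)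 (nat_lit 6078782060) (nat_lit 275) (nat_lit 5) (nat_lit 283) (nat_lit 5) (nat_lit 284) (nat_lit 5) (nat_lit 641) (nat_lit 585) (nat_lit 334)) (XT.lf (nat_lit 0) (nat_lit 25794054990) (nat_lit 684) (nat_lit 1578453310) (nat_lit 76) (nat_lit 1085854) (nat_lit 275) (nat_lit 5) (nat_lit 284) (nat_lit 5) (nat_lit 276) (nat_lit 5) (nat_lit 642) (nat_lit 585) (nat_lit 333))) (XT.nd (nat_lit 78) (nat_lit 608) (nat_lit 0) (XT.lf (nat_lit 0) (nat_lit 3134606593) (nat_lit 684) (nat_lit 13332342997) (nat_lit 76) (nat_lit 11226177720) (nat_lit 266) (nat_lit 5) (nat_lit 275) (nat_lit 5) (nat_lit 267) (nat_lit 5) (nat_lit 643) (nat_lit 585) (nat_lit 332)) (XT.lf (nat_lit 0) (nat_lit 2641433386) (nat_lit 608) (nat_lit 5305134833) (nat_lit 684) (nat_lit 20071780648) (nat_lit 258) (nat_lit 5) (nat_lit 266) (nat_lit 5) (nat_lit 267) (nat_lit 5) (nat_lit 644) (nat_lit 585) (nat_lit 331))))) (XT.nd (nat_lit 234) (nat_lit 1672) (nat_lit 0) (XT.nd (nat_lit 78) (nat_lit 532) (nat_lit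 0) (XT.lf (nat_lit 0) (nat_lit 12981184149) (nat_lit 684) (nat_lit 9277016739) (nat_lit 76) (nat_lit 6089345873) (nat_lit 258) (nat_lit 5) (nat_lit 267) (nat_lit 5) (nat_lit 259) (nat_lit 5) (nat_lit 645) (nat_lit 585) (nat_lit 330)) (XT.nd (nat_lit 78) (nat_lit 0) (nat_lit 0) (XT.lf (nat_lit 0) (nat_lit 7200185625) (nat_lit 532) (nat_lit 10995130347) (nat_lit 608) (nat_lit 10486436375) (nat_lit 251) (nat_lit 5) (nat_lit 258) (nat_lit 5) (nat_lit 259) (nat_lit 5) (nat_lit 646) (nat_lit 585) (nat_lit 329)) (XT.lf (nat_lit 0) (nat_lit 23576568506) (nat_lit 608) (nat_lit 4896348029) (nat_lit 76) (nat_lit 548468948) (nat_lit 251) (nat_lit 5) (nat_lit 259) (nat_lit 5) (nat_lit 252) (nat_lit 5) (nat_lit 647) (nat_lit 585) (nat_lit 328)))) (XT.nd (nat_lit 156) (nat_lit 1064) (nat_lit 0) (XT.nd (nat_lit 78) (nat_lit 76) (nat_lit 0) (XT.lf (nat_lit 0) (nat_lit 12102544465) (nat_lit 532) (nat_lit 17111324158) (nat_lit 608) (nat_lit 150974404) (nat_lit 244) (nat_lit 5) (nat_lit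 251) (nat_lit 5) (nat_lit 252) (nat_lit 5) (nat_lit 648) (nat_lit 585) (nat_lit 327)) (XT.lf (nat_lit 0) (nat_lit 5210023984) (nat_lit 608) (nat_lit 244978158) (nat_lit 76) (nat_lit 24258883858) (nat_lit 243) (nat_lit 5) (nat_lit 251) (nat_lit 5) (nat_lit 244) (nat_lit 5) (nat_lit 649) (nat_lit 585) (nat_lit 326))) (XT.nd (nat_lit 78) (nat_lit 532) (nat_lit 0) (XT.lf (nat_lit 0) (nat_lit 10828396922) (nat_lit 608) (nat_lit 12775054874) (nat_lit 76) (nat_lit 6463394740) (nat_lit 236) (nat_lit 5) (nat_lit 244) (nat_lit 5) (nat_lit 237) (nat_lit 5) (nat_lit 650) (nat_lit 585) (nat_lit 325)) (XT.lf (nat_lit 0) (nat_lit 4778413436) (nat_lit 532) (nat_lit 11846655134) (nat_lit 608) (nat_lit 13800479269) (nat_lit 229) (nat_lit 5) (nat_lit 236) (nat_lit 5) (nat_lit 237) (nat_lit 5) (nat_lit 651) (nat_lit 585) (nat_lit 324))))))) (XT.nd (nat_lit 76050) (nat_lit 0) (nat_lit 23104) (XT.nd (nat_lit 468) (nat_lit 1900) (nat_lit 0) (XT.nd (nat_lit 234) (nat_lit 988) (nat_lit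 0) (XT.nd (nat_lit 78) (nat_lit 532) (nat_lit 0) (XT.lf (nat_lit 0) (nat_lit 22622062379) (nat_lit 608) (nat_lit 7939027680) (nat_lit 76) (nat_lit 228645512) (nat_lit 229) (nat_lit 5) (nat_lit 237) (nat_lit 5) (nat_lit 230) (nat_lit 5) (nat_lit 652) (nat_lit 585) (nat_lit 323)) (XT.nd (nat_lit 78) (nat_lit 76) (nat_lit 0) (XT.lf (nat_lit 0) (nat_lit 10174373843) (nat_lit 456) (nat_lit 18706341963) (nat_lit 532) (nat_lit 2277657033) (nat_lit 223) (nat_lit 5) (nat_lit 229) (nat_lit 5) (nat_lit 230) (nat_lit 5) (nat_lit 653) (nat_lit 585) (nat_lit 322)) (XT.lf (nat_lit 0) (nat_lit 3732083361) (nat_lit 532) (nat_lit 2804093037) (nat_lit 76) (nat_lit 24996705335) (nat_lit 222) (nat_lit 5) (nat_lit 229) (nat_lit 5) (nat_lit 223) (nat_lit 5) (nat_lit 654) (nat_lit 585) (nat_lit 321)))) (XT.nd (nat_lit 78) (nat_lit 456) (nat_lit 0) (XT.lf (nat_lit 0) (nat_lit 9971184031) (nat_lit 608) (nat_lit 16022045770) (nat_lit 76) (nat_lit 5918556795) (nat_lit 215) (nat_lit 5) (nat_lit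 223) (nat_lit 5) (nat_lit 216) (nat_lit 5) (nat_lit 655) (nat_lit 585) (nat_lit 320)) (XT.nd (nat_lit 78) (nat_lit 0) (nat_lit 0) (XT.lf (nat_lit 0) (nat_lit 2685569776) (nat_lit 456) (nat_lit 13726455387) (nat_lit 532) (nat_lit 15884705387) (nat_lit 209) (nat_lit 5) (nat_lit 215) (nat_lit 5) (nat_lit 216) (nat_lit 5) (nat_lit 656) (nat_lit 585) (nat_lit 319)) (XT.lf (nat_lit 0) (nat_lit 21980735976) (nat_lit 456) (nat_lit 1105786434) (nat_lit 532) (nat_lit 9600754343) (nat_lit 209) (nat_lit 5) (nat_lit 215) (nat_lit 5) (nat_lit 216) (nat_lit 5) (nat_lit 657) (nat_lit 585) (nat_lit 318))))) (XT.nd (nat_lit 234) (nat_lit 912) (nat_lit 0) (XT.nd (nat_lit 78) (nat_lit 532) (nat_lit 0) (XT.lf (nat_lit 0) (nat_lit 8608921996) (nat_lit 456) (nat_lit 21415251904) (nat_lit 532) (nat_lit 3058866851) (nat_lit 203) (nat_lit 5) (nat_lit 209) (nat_lit 5) (nat_lit 210) (nat_lit 5) (nat_lit 658) (nat_lit 585) (nat_lit 317)) (XT.nd (nat_lit 78) (nat_lit 456) (nat_lit 0) (XT.lf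 (nat_lit 0) (nat_lit 3643485756) (nat_lit 532) (nat_lit 5064487923) (nat_lit 76) (nat_lit 24776736751) (nat_lit 202) (nat_lit 5) (nat_lit 209) (nat_lit 5) (nat_lit 203) (nat_lit 5) (nat_lit 659) (nat_lit 585) (nat_lit 316)) (XT.lf (nat_lit 0) (nat_lit 10561551470) (nat_lit 532) (nat_lit 19015642821) (nat_lit 76) (nat_lit 4314362490) (nat_lit 196) (nat_lit 5) (nat_lit 203) (nat_lit 5) (nat_lit 197) (nat_lit 5) (nat_lit 660) (nat_lit 585) (nat_lit 315)))) (XT.nd (nat_lit 156) (nat_lit 456) (nat_lit 0) (XT.nd (nat_lit 78) (nat_lit 0) (nat_lit 0) (XT.lf (nat_lit 0) (nat_lit 928485542) (nat_lit 456) (nat_lit 16784849483) (nat_lit 532) (nat_lit 16591298046) (nat_lit 190) (nat_lit 5) (nat_lit 196) (nat_lit 5) (nat_lit 197) (nat_lit 5) (nat_lit 661) (nat_lit 585) (nat_lit 314)) (XT.lf (nat_lit 0) (nat_lit 21525570995) (nat_lit 456) (nat_lit 3607663341) (nat_lit 532) (nat_lit 9590235090) (nat_lit 190) (nat_lit 5) (nat_lit 196) (nat_lit 5) (nat_lit 197) (nat_lit 5) (nat_lit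 662) (nat_lit 585) (nat_lit 313))) (XT.nd (nat_lit 78) (nat_lit 76) (nat_lit 0) (XT.lf (nat_lit 0) (nat_lit 7413646709) (nat_lit 380) (nat_lit 25397379246) (nat_lit 456) (nat_lit 2337466803) (nat_lit 185) (nat_lit 5) (nat_lit 190) (nat_lit 5) (nat_lit 191) (nat_lit 5) (nat_lit 663) (nat_lit 585) (nat_lit 312)) (XT.lf (nat_lit 0) (nat_lit 5104558437) (nat_lit 456) (nat_lit 7024921458) (nat_lit 76) (nat_lit 23449668310) (nat_lit 184) (nat_lit 5) (nat_lit 190) (nat_lit 5) (nat_lit 185) (nat_lit 5) (nat_lit 664) (nat_lit 585) (nat_lit 311)))))) (XT.nd (nat_lit 546) (nat_lit 0) (nat_lit 228) (XT.nd (nat_lit 234) (nat_lit 0) (nat_lit 76) (XT.nd (nat_lit 78) (nat_lit 0) (nat_lit 0) (XT.lf (nat_lit 0) (nat_lit 1816692011) (nat_lit 0) (nat_lit 1816692011) (nat_lit 1748) (nat_lit 3970209499) (nat_lit 488) (nat_lit 5) (nat_lit 488) (nat_lit 3) (nat_lit 511) (nat_lit 3) (nat_lit 586) (nat_lit 586) (nat_lit 388)) (XT.nd (nat_lit 78) (nat_lit 0) (nat_lit 0) (XT.lf (nat_lit 0)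 (nat_lit 7652877380) (nat_lit 1748) (nat_lit 4083097471) (nat_lit 1824) (nat_lit 3616988121) (nat_lit 488) (nat_lit 5) (nat_lit 511) (nat_lit 3) (nat_lit 512) (nat_lit 5) (nat_lit 587) (nat_lit 586) (nat_lit 387)) (XT.lf (nat_lit 76) (nat_lit 3576287619) (nat_lit 0) (nat_lit 4510130210) (nat_lit 1824) (nat_lit 7414443119) (nat_lit 489) (nat_lit 5) (nat_lit 488) (nat_lit 5) (nat_lit 512) (nat_lit 5) (nat_lit 588) (nat_lit 586) (nat_lit 386)))) (XT.nd (nat_lit 156) (nat_lit 0) (nat_lit 76) (XT.nd (nat_lit 78) (nat_lit 0) (nat_lit 0) (XT.lf (nat_lit 0) (nat_lit 8567353517) (nat_lit 1748) (nat_lit 4229835336) (nat_lit 1824) (nat_lit 2853754241) (nat_lit 489) (nat_lit 5) (nat_lit 512) (nat_lit 5) (nat_lit 513) (nat_lit 5) (nat_lit 589) (nat_lit 586) (nat_lit 385)) (XT.lf (nat_lit 76) (nat_lit 3632528759) (nat_lit 0) (nat_lit 5471550709) (nat_lit 1824) (nat_lit 6699024666) (nat_lit 490) (nat_lit 5) (nat_lit 489) (nat_lit 5) (nat_lit 513) (nat_lit 5) (nat_lit 590) (nat_lit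 586) (nat_lit 384))) (XT.nd (nat_lit 78) (nat_lit 0) (nat_lit 0) (XT.lf (nat_lit 0) (nat_lit 9685957076) (nat_lit 1748) (nat_lit 4265620586) (nat_lit 1824) (nat_lit 2006043062) (nat_lit 490) (nat_lit 5) (nat_lit 513) (nat_lit 5) (nat_lit 514) (nat_lit 5) (nat_lit 591) (nat_lit 586) (nat_lit 383)) (XT.lf (nat_lit 76) (nat_lit 3807030354) (nat_lit 0) (nat_lit 6526390685) (nat_lit 1824) (nat_lit 5780728286) (nat_lit 491) (nat_lit 5) (nat_lit 490) (nat_lit 5) (nat_lit 514) (nat_lit 5) (nat_lit 592) (nat_lit 586) (nat_lit 382))))) (XT.nd (nat_lit 234) (nat_lit 0) (nat_lit 76) (XT.nd (nat_lit 78) (nat_lit 0) (nat_lit 0) (XT.lf (nat_lit 0) (nat_lit 11022573020) (nat_lit 1748) (nat_lit 4185496702) (nat_lit 1824) (nat_lit 1065164646) (nat_lit 491) (nat_lit 5) (nat_lit 514) (nat_lit 5) (nat_lit 515) (nat_lit 5) (nat_lit 593) (nat_lit 586) (nat_lit 381)) (XT.nd (nat_lit 78) (nat_lit 0) (nat_lit 76) (XT.lf (nat_lit 76) (nat_lit 4105030701) (nat_lit 0) (nat_lit 7683610702)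 (nat_lit 1824) (nat_lit 4645597672) (nat_lit 492) (nat_lit 5) (nat_lit 491) (nat_lit 5) (nat_lit 515) (nat_lit 5) (nat_lit 594) (nat_lit 586) (nat_lit 380)) (XT.lf (nat_lit 0) (nat_lit 12591629237) (nat_lit 1748) (nat_lit 3984194536) (nat_lit 1824) (nat_lit 22208762) (nat_lit 492) (nat_lit 5) (nat_lit 515) (nat_lit 5) (nat_lit 516) (nat_lit 5) (nat_lit 595) (nat_lit 586) (nat_lit 379)))) (XT.nd (nat_lit 156) (nat_lit 0) (nat_lit 76) (XT.nd (nat_lit 78) (nat_lit 0) (nat_lit 0) (XT.lf (nat_lit 76) (nat_lit 4532090792) (nat_lit 0) (nat_lit 8952407419) (nat_lit 1824) (nat_lit 3279127831) (nat_lit 493) (nat_lit 5) (nat_lit 492) (nat_lit 5) (nat_lit 516) (nat_lit 5) (nat_lit 596) (nat_lit 586) (nat_lit 378)) (XT.lf (nat_lit 76) (nat_lit 13268553022) (nat_lit 0) (nat_lit 1147019044) (nat_lit 1824) (nat_lit 2516553000) (nat_lit 493) (nat_lit 5) (nat_lit 492) (nat_lit 5) (nat_lit 516) (nat_lit 5) (nat_lit 597) (nat_lit 586) (nat_lit 377))) (XT.nd (nat_lit 78) (nat_lit 0)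 (nat_lit 0) (XT.lf (nat_lit 76) (nat_lit 5094102195) (nat_lit 0) (nat_lit 10342234536) (nat_lit 1824) (nat_lit 1666236535) (nat_lit 494) (nat_lit 5) (nat_lit 493) (nat_lit 5) (nat_lit 517) (nat_lit 5) (nat_lit 598) (nat_lit 586) (nat_lit 376)) (XT.lf (nat_lit 76) (nat_lit 14064707035) (nat_lit 0) (nat_lit 2438786614) (nat_lit 1824) (nat_lit 772417814) (nat_lit 494) (nat_lit 5) (nat_lit 493) (nat_lit 5) (nat_lit 517) (nat_lit 5) (nat_lit 599) (nat_lit 586) (nat_lit 375))))))))
noncomputable def xc209 : XT := (XT.nd (nat_lit 2106) (nat_lit 9728) (nat_lit 0) (XT.nd (nat_lit 1014) (nat_lit 7144) (nat_lit 0) (XT.nd (nat_lit 468) (nat_lit 1444) (nat_lit 0) (XT.nd (nat_lit 234) (nat_lit 0) (nat_lit 76) (XT.nd (nat_lit 78) (nat_lit 0) (nat_lit 0) (XT.lf (nat_lit 0) (nat_lit 206027097) (nat_lit 1824) (nat_lit 11655414409) (nat_lit 1900) (nat_lit 5589885854) (nat_lit 470) (nat_lit 5) (nat_lit 494) (nat_lit 5) (nat_lit 495) (nat_lit 5) (nat_lit 600) (nat_lit 586) (nat_lit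 374)) (XT.nd (nat_lit 78) (nat_lit 0) (nat_lit 76) (XT.lf (nat_lit 0) (nat_lit 1225580755) (nat_lit 1824) (nat_lit 2628818270) (nat_lit 1900) (nat_lit 13775113323) (nat_lit 470) (nat_lit 5) (nat_lit 494) (nat_lit 5) (nat_lit 495) (nat_lit 5) (nat_lit 601) (nat_lit 586) (nat_lit 373)) (XT.lf (nat_lit 0) (nat_lit 2331222167) (nat_lit 1824) (nat_lit 11177342003) (nat_lit 1900) (nat_lit 4301383462) (nat_lit 471) (nat_lit 5) (nat_lit 495) (nat_lit 5) (nat_lit 496) (nat_lit 5) (nat_lit 602) (nat_lit 586) (nat_lit 372)))) (XT.nd (nat_lit 78) (nat_lit 0) (nat_lit 76) (XT.lf (nat_lit 0) (nat_lit 3496505160) (nat_lit 1824) (nat_lit 1908693562) (nat_lit 1900) (nat_lit 12588042842) (nat_lit 471) (nat_lit 5) (nat_lit 495) (nat_lit 5) (nat_lit 496) (nat_lit 5) (nat_lit 603) (nat_lit 586) (nat_lit 371)) (XT.nd (nat_lit 78) (nat_lit 0) (nat_lit 0) (XT.lf (nat_lit 0) (nat_lit 4747972880) (nat_lit 1824) (nat_lit 10556905635) (nat_lit 1900) (nat_lit 2874065786) (nat_lit 472) (nat_lit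 5) (nat_lit 496) (nat_lit 5) (nat_lit 497) (nat_lit 5) (nat_lit 604) (nat_lit 586) (nat_lit 370)) (XT.lf (nat_lit 0) (nat_lit 6067609596) (nat_lit 1824) (nat_lit 1039040196) (nat_lit 1900) (nat_lit 11260849005) (nat_lit 472) (nat_lit 5) (nat_lit 496) (nat_lit 5) (nat_lit 497) (nat_lit 5) (nat_lit 605) (nat_lit 586) (nat_lit 369))))) (XT.nd (nat_lit 234) (nat_lit 1672) (nat_lit 0) (XT.nd (nat_lit 78) (nat_lit 0) (nat_lit 0) (XT.lf (nat_lit 0) (nat_lit 7473741820) (nat_lit 1824) (nat_lit 9787223796) (nat_lit 1900) (nat_lit 1297657202) (nat_lit 473) (nat_lit 5) (nat_lit 497) (nat_lit 5) (nat_lit 498) (nat_lit 5) (nat_lit 606) (nat_lit 586) (nat_lit 368)) (XT.nd (nat_lit 78) (nat_lit 0) (nat_lit 0) (XT.lf (nat_lit 0) (nat_lit 8956725500) (nat_lit 1824) (nat_lit 12724131) (nat_lit 1900) (nat_lit 9783145589) (nat_lit 473) (nat_lit 5) (nat_lit 497) (nat_lit 5) (nat_lit 498) (nat_lit 5) (nat_lit 607) (nat_lit 586) (nat_lit 367)) (XT.lf (nat_lit 76) (nat_lit 10085305064)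 (nat_lit 0) (nat_lit 444295477) (nat_lit 1900) (nat_lit 8419642364) (nat_lit 474) (nat_lit 5) (nat_lit 473) (nat_lit 5) (nat_lit 498) (nat_lit 5) (nat_lit 608) (nat_lit 586) (nat_lit 366)))) (XT.nd (nat_lit 156) (nat_lit 1748) (nat_lit 0) (XT.nd (nat_lit 78) (nat_lit 0) (nat_lit 0) (XT.lf (nat_lit 76) (nat_lit 1193409956) (nat_lit 0) (nat_lit 10996763926) (nat_lit 1900) (nat_lit 6958525307) (nat_lit 475) (nat_lit 5) (nat_lit 474) (nat_lit 5) (nat_lit 499) (nat_lit 5) (nat_lit 609) (nat_lit 586) (nat_lit 365)) (XT.lf (nat_lit 76) (nat_lit 11564791206) (nat_lit 0) (nat_lit 2376478782) (nat_lit 1900) (nat_lit 5409728836) (nat_lit 475) (nat_lit 5) (nat_lit 474) (nat_lit 5) (nat_lit 499) (nat_lit 5) (nat_lit 610) (nat_lit 586) (nat_lit 364))) (XT.nd (nat_lit 78) (nat_lit 0) (nat_lit 0) (XT.lf (nat_lit 0) (nat_lit 2574049957) (nat_lit 1824) (nat_lit 13206720432) (nat_lit 1900) (nat_lit 3775506855) (nat_lit 451) (nat_lit 5) (nat_lit 475) (nat_lit 5) (nat_lit 476) (nat_lit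 5) (nat_lit 611) (nat_lit 586) (nat_lit 363)) (XT.lf (nat_lit 0) (nat_lit 13226831192) (nat_lit 1824) (nat_lit 4493195551) (nat_lit 1900) (nat_lit 2044375606) (nat_lit 451) (nat_lit 5) (nat_lit 475) (nat_lit 5) (nat_lit 476) (nat_lit 5) (nat_lit 612) (nat_lit 586) (nat_lit 362)))))) (XT.nd (nat_lit 546) (nat_lit 3344) (nat_lit 0) (XT.nd (nat_lit 234) (nat_lit 1748) (nat_lit 0) (XT.nd (nat_lit 78) (nat_lit 988) (nat_lit 0) (XT.lf (nat_lit 0) (nat_lit 4137413139) (nat_lit 1064) (nat_lit 15611232749) (nat_lit 1140) (nat_lit 227032939) (nat_lit 437) (nat_lit 5) (nat_lit 451) (nat_lit 5) (nat_lit 452) (nat_lit 5) (nat_lit 613) (nat_lit 586) (nat_lit 361)) (XT.nd (nat_lit 78) (nat_lit 912) (nat_lit 0) (XT.lf (nat_lit 0) (nat_lit 1674457091) (nat_lit 1140) (nat_lit 5120726861) (nat_lit 76) (nat_lit 13394403377) (nat_lit 436) (nat_lit 5) (nat_lit 451) (nat_lit 5) (nat_lit 437) (nat_lit 5) (nat_lit 614) (nat_lit 586) (nat_lit 360)) (XT.lf (nat_lit 0) (nat_lit 3658975507)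 (nat_lit 988) (nat_lit 14539041514) (nat_lit 76) (nat_lit 2208766595) (nat_lit 424) (nat_lit 5) (nat_lit 437) (nat_lit 5) (nat_lit 425) (nat_lit 5) (nat_lit 615) (nat_lit 586) (nat_lit 359)))) (XT.nd (nat_lit 156) (nat_lit 836) (nat_lit 0) (XT.nd (nat_lit 78) (nat_lit 912) (nat_lit 0) (XT.lf (nat_lit 0) (nat_lit 5758153896) (nat_lit 988) (nat_lit 3531785710) (nat_lit 76) (nat_lit 11336885223) (nat_lit 424) (nat_lit 5) (nat_lit 437) (nat_lit 5) (nat_lit 425) (nat_lit 5) (nat_lit 616) (nat_lit 586) (nat_lit 358)) (XT.lf (nat_lit 0) (nat_lit 7793600665) (nat_lit 912) (nat_lit 151785084) (nat_lit 988) (nat_lit 12904960106) (nat_lit 412) (nat_lit 5) (nat_lit 424) (nat_lit 5) (nat_lit 425) (nat_lit 5) (nat_lit 617) (nat_lit 586) (nat_lit 357))) (XT.nd (nat_lit 78) (nat_lit 836) (nat_lit 0) (XT.lf (nat_lit 0) (nat_lit 10255283413) (nat_lit 988) (nat_lit 1748476000) (nat_lit 76) (nat_lit 9072999841) (nat_lit 412) (nat_lit 5) (nat_lit 425) (nat_lit 5) (nat_lit 413) (nat_lit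 5) (nat_lit 618) (nat_lit 586) (nat_lit 356)) (XT.lf (nat_lit 0) (nat_lit 9910725785) (nat_lit 836) (nat_lit 2761625046) (nat_lit 912) (nat_lit 8634131024) (nat_lit 401) (nat_lit 5) (nat_lit 412) (nat_lit 5) (nat_lit 413) (nat_lit 5) (nat_lit 619) (nat_lit 586) (nat_lit 355))))) (XT.nd (nat_lit 234) (nat_lit 1672) (nat_lit 0) (XT.nd (nat_lit 78) (nat_lit 836) (nat_lit 0) (XT.lf (nat_lit 0) (nat_lit 241797478) (nat_lit 836) (nat_lit 14948298068) (nat_lit 912) (nat_lit 6349657005) (nat_lit 390) (nat_lit 5) (nat_lit 401) (nat_lit 5) (nat_lit 402) (nat_lit 5) (nat_lit 620) (nat_lit 586) (nat_lit 354)) (XT.nd (nat_lit 78) (nat_lit 836) (nat_lit 0) (XT.lf (nat_lit 0) (nat_lit 12243802134) (nat_lit 836) (nat_lit 5604769573) (nat_lit 912) (nat_lit 3927309780) (nat_lit 390) (nat_lit 5) (nat_lit 401) (nat_lit 5) (nat_lit 402) (nat_lit 5) (nat_lit 621) (nat_lit 586) (nat_lit 353)) (XT.lf (nat_lit 0) (nat_lit 2471802799) (nat_lit 836) (nat_lit 18125771155) (nat_lit 912) (nat_lit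 1418412263) (nat_lit 379) (nat_lit 5) (nat_lit 390) (nat_lit 5) (nat_lit 391) (nat_lit 5) (nat_lit 622) (nat_lit 586) (nat_lit 352)))) (XT.nd (nat_lit 156) (nat_lit 760) (nat_lit 0) (XT.nd (nat_lit 78) (nat_lit 836) (nat_lit 0) (XT.lf (nat_lit 0) (nat_lit 1223056893) (nat_lit 912) (nat_lit 7463857579) (nat_lit 76) (nat_lit 13571883715) (nat_lit 378) (nat_lit 5) (nat_lit 390) (nat_lit 5) (nat_lit 379) (nat_lit 5) (nat_lit 623) (nat_lit 586) (nat_lit 351)) (XT.lf (nat_lit 0) (nat_lit 3932561206) (nat_lit 912) (nat_lit 17603226384) (nat_lit 76) (nat_lit 969807652) (nat_lit 367) (nat_lit 5) (nat_lit 379) (nat_lit 5) (nat_lit 368) (nat_lit 5) (nat_lit 624) (nat_lit 586) (nat_lit 350))) (XT.nd (nat_lit 78) (nat_lit 760) (nat_lit 0) (XT.lf (nat_lit 0) (nat_lit 6800183447) (nat_lit 912) (nat_lit 5201330662) (nat_lit 76) (nat_lit 10753735895) (nat_lit 367) (nat_lit 5) (nat_lit 379) (nat_lit 5) (nat_lit 368) (nat_lit 5) (nat_lit 625) (nat_lit 586) (nat_lit 349)) (XT.lf (nat_lit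 0) (nat_lit 7543381270) (nat_lit 760) (nat_lit 2226812807) (nat_lit 836) (nat_lit 13238803382) (nat_lit 357) (nat_lit 5) (nat_lit 367) (nat_lit 5) (nat_lit 368) (nat_lit 5) (nat_lit 626) (nat_lit 586) (nat_lit 348))))))) (XT.nd (nat_lit 1014) (nat_lit 4712) (nat_lit 0) (XT.nd (nat_lit 468) (nat_lit 2736) (nat_lit 0) (XT.nd (nat_lit 234) (nat_lit 836) (nat_lit 0) (XT.nd (nat_lit 78) (nat_lit 1444) (nat_lit 0) (XT.lf (nat_lit 0) (nat_lit 12881123154) (nat_lit 836) (nat_lit 2708339018) (nat_lit 76) (nat_lit 7676727635) (nat_lit 357) (nat_lit 5) (nat_lit 368) (nat_lit 5) (nat_lit 358) (nat_lit 5) (nat_lit 627) (nat_lit 586) (nat_lit 347)) (XT.nd (nat_lit 78) (nat_lit 684) (nat_lit 0) (XT.lf (nat_lit 0) (nat_lit 10421900366) (nat_lit 760) (nat_lit 5710967992) (nat_lit 836) (nat_lit 7394085997) (nat_lit 347) (nat_lit 5) (nat_lit 357) (nat_lit 5) (nat_lit 358) (nat_lit 5) (nat_lit 628) (nat_lit 586) (nat_lit 346)) (XT.lf (nat_lit 0) (nat_lit 26605832) (nat_lit 684) (nat_lit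 19466081877) (nat_lit 760) (nat_lit 4299385998) (nat_lit 338) (nat_lit 5) (nat_lit 347) (nat_lit 5) (nat_lit 348) (nat_lit 5) (nat_lit 629) (nat_lit 586) (nat_lit 345)))) (XT.nd (nat_lit 78) (nat_lit 836) (nat_lit 0) (XT.lf (nat_lit 0) (nat_lit 13556077396) (nat_lit 684) (nat_lit 9485417703) (nat_lit 760) (nat_lit 1018564804) (nat_lit 338) (nat_lit 5) (nat_lit 347) (nat_lit 5) (nat_lit 348) (nat_lit 5) (nat_lit 630) (nat_lit 586) (nat_lit 344)) (XT.nd (nat_lit 78) (nat_lit 0) (nat_lit 0) (XT.lf (nat_lit 0) (nat_lit 2318168125) (nat_lit 836) (nat_lit 21294096411) (nat_lit 76) (nat_lit 720422772) (nat_lit 327) (nat_lit 5) (nat_lit 338) (nat_lit 5) (nat_lit 328) (nat_lit 5) (nat_lit 631) (nat_lit 586) (nat_lit 343)) (XT.lf (nat_lit 0) (nat_lit 5838150087) (nat_lit 836) (nat_lit 7689138199) (nat_lit 76) (nat_lit 11080741535) (nat_lit 327) (nat_lit 5) (nat_lit 338) (nat_lit 5) (nat_lit 328) (nat_lit 5) (nat_lit 632) (nat_lit 586) (nat_lit 342))))) (XT.nd (nat_lit 234)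 (nat_lit 1368) (nat_lit 0) (XT.nd (nat_lit 78) (nat_lit 684) (nat_lit 0) (XT.lf (nat_lit 0) (nat_lit 6266029575) (nat_lit 684) (nat_lit 3199625352) (nat_lit 760) (nat_lit 15422482062) (nat_lit 318) (nat_lit 5) (nat_lit 327) (nat_lit 5) (nat_lit 328) (nat_lit 5) (nat_lit 633) (nat_lit 586) (nat_lit 341)) (XT.nd (nat_lit 78) (nat_lit 684) (nat_lit 0) (XT.lf (nat_lit 0) (nat_lit 13261750922) (nat_lit 760) (nat_lit 4620358185) (nat_lit 76) (nat_lit 7289816637) (nat_lit 318) (nat_lit 5) (nat_lit 328) (nat_lit 5) (nat_lit 319) (nat_lit 5) (nat_lit 634) (nat_lit 586) (nat_lit 340)) (XT.lf (nat_lit 0) (nat_lit 9764267059) (nat_lit 684) (nat_lit 7450636618) (nat_lit 760) (nat_lit 8244864160) (nat_lit 309) (nat_lit 5) (nat_lit 318) (nat_lit 5) (nat_lit 319) (nat_lit 5) (nat_lit 635) (nat_lit 586) (nat_lit 339)))) (XT.nd (nat_lit 156) (nat_lit 760) (nat_lit 0) (XT.nd (nat_lit 78) (nat_lit 608) (nat_lit 0) (XT.lf (nat_lit 0) (nat_lit 21295624967) (nat_lit 760) (nat_lit 1278512733)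 (nat_lit 76) (nat_lit 3178259215) (nat_lit 309) (nat_lit 5) (nat_lit 319) (nat_lit 5) (nat_lit 310) (nat_lit 5) (nat_lit 636) (nat_lit 586) (nat_lit 338)) (XT.lf (nat_lit 0) (nat_lit 13551211857) (nat_lit 608) (nat_lit 12040728155) (nat_lit 684) (nat_lit 456259226) (nat_lit 301) (nat_lit 5) (nat_lit 309) (nat_lit 5) (nat_lit 310) (nat_lit 5) (nat_lit 637) (nat_lit 586) (nat_lit 337))) (XT.nd (nat_lit 78) (nat_lit 0) (nat_lit 0) (XT.lf (nat_lit 0) (nat_lit 2348320132) (nat_lit 684) (nat_lit 1248965573) (nat_lit 760) (nat_lit 22751750421) (nat_lit 291) (nat_lit 5) (nat_lit 300) (nat_lit 5) (nat_lit 301) (nat_lit 5) (nat_lit 638) (nat_lit 586) (nat_lit 336)) (XT.lf (nat_lit 0) (nat_lit 7870280784) (nat_lit 760) (nat_lit 9065256487) (nat_lit 76) (nat_lit 9717402627) (nat_lit 291) (nat_lit 5) (nat_lit 301) (nat_lit 5) (nat_lit 292) (nat_lit 5) (nat_lit 639) (nat_lit 586) (nat_lit 335)))))) (XT.nd (nat_lit 546) (nat_lit 2204) (nat_lit 0) (XT.nd (nat_lit 234) (nat_lit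 1292) (nat_lit 0) (XT.nd (nat_lit 78) (nat_lit 608) (nat_lit 0) (XT.lf (nat_lit 0) (nat_lit 6238497938) (nat_lit 608) (nat_lit 6035784764) (nat_lit 684) (nat_lit 14687728336) (nat_lit 283) (nat_lit 5) (nat_lit 291) (nat_lit 5) (nat_lit 292) (nat_lit 5) (nat_lit 640) (nat_lit 586) (nat_lit 334)) (XT.nd (nat_lit 78) (nat_lit 608) (nat_lit 0) (XT.lf (nat_lit 0) (nat_lit 16857399736) (nat_lit 684) (nat_lit 5342231039) (nat_lit 76) (nat_lit 5075812349) (nat_lit 283) (nat_lit 5) (nat_lit 292) (nat_lit 5) (nat_lit 284) (nat_lit 5) (nat_lit 641) (nat_lit 586) (nat_lit 333)) (XT.lf (nat_lit 0) (nat_lit 10439706398) (nat_lit 608) (nat_lit 11197093055) (nat_lit 684) (nat_lit 5956252214) (nat_lit 275) (nat_lit 5) (nat_lit 283) (nat_lit 5) (nat_lit 284) (nat_lit 5) (nat_lit 642) (nat_lit 586) (nat_lit 332)))) (XT.nd (nat_lit 156) (nat_lit 608) (nat_lit 0) (XT.nd (nat_lit 78) (nat_lit 684) (nat_lit 0) (XT.lf (nat_lit 0) (nat_lit 26544937070) (nat_lit 684) (nat_lit 1310948451)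 (nat_lit 76) (nat_lit 60464077) (nat_lit 275) (nat_lit 5) (nat_lit 284) (nat_lit 5) (nat_lit 276) (nat_lit 5) (nat_lit 643) (nat_lit 586) (nat_lit 331)) (XT.lf (nat_lit 0) (nat_lit 3431175297) (nat_lit 684) (nat_lit 13298759646) (nat_lit 76) (nat_lit 11512361600) (nat_lit 266) (nat_lit 5) (nat_lit 275) (nat_lit 5) (nat_lit 267) (nat_lit 5) (nat_lit 644) (nat_lit 586) (nat_lit 330))) (XT.nd (nat_lit 78) (nat_lit 0) (nat_lit 0) (XT.lf (nat_lit 0) (nat_lit 2992517065) (nat_lit 608) (nat_lit 5344209744) (nat_lit 684) (nat_lit 20237349018) (nat_lit 258) (nat_lit 5) (nat_lit 266) (nat_lit 5) (nat_lit 267) (nat_lit 5) (nat_lit 645) (nat_lit 586) (nat_lit 329)) (XT.lf (nat_lit 0) (nat_lit 13467927847) (nat_lit 684) (nat_lit 9166027819) (nat_lit 76) (nat_lit 6275984462) (nat_lit 258) (nat_lit 5) (nat_lit 267) (nat_lit 5) (nat_lit 259) (nat_lit 5) (nat_lit 646) (nat_lit 586) (nat_lit 328))))) (XT.nd (nat_lit 234) (nat_lit 1064) (nat_lit 0) (XT.nd (nat_lit 78) (nat_lit 608)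 (nat_lit 0) (XT.lf (nat_lit 0) (nat_lit 7638767742) (nat_lit 532) (nat_lit 11145033829) (nat_lit 608) (nat_lit 10467079366) (nat_lit 251) (nat_lit 5) (nat_lit 258) (nat_lit 5) (nat_lit 259) (nat_lit 5) (nat_lit 647) (nat_lit 586) (nat_lit 327)) (XT.nd (nat_lit 78) (nat_lit 608) (nat_lit 0) (XT.lf (nat_lit 0) (nat_lit 24268721210) (nat_lit 608) (nat_lit 4701500107) (nat_lit 76) (nat_lit 627164869) (nat_lit 251) (nat_lit 5) (nat_lit 259) (nat_lit 5) (nat_lit 252) (nat_lit 5) (nat_lit 648) (nat_lit 586) (nat_lit 326)) (XT.lf (nat_lit 0) (nat_lit 67668605) (nat_lit 608) (nat_lit 17312763020) (nat_lit 76) (nat_lit 12567321389) (nat_lit 243) (nat_lit 5) (nat_lit 251) (nat_lit 5) (nat_lit 244) (nat_lit 5) (nat_lit 649) (nat_lit 586) (nat_lit 325)))) (XT.nd (nat_lit 156) (nat_lit 532) (nat_lit 0) (XT.nd (nat_lit 78) (nat_lit 0) (nat_lit 0) (XT.lf (nat_lit 0) (nat_lit 38650443) (nat_lit 532) (nat_lit 5491161082) (nat_lit 608) (nat_lit 24774026715) (nat_lit 236) (nat_lit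 5) (nat_lit 243) (nat_lit 5) (nat_lit 244) (nat_lit 5) (nat_lit 650) (nat_lit 586) (nat_lit 324)) (XT.lf (nat_lit 0) (nat_lit 11258411393) (nat_lit 608) (nat_lit 12740631660) (nat_lit 76) (nat_lit 6664858015) (nat_lit 236) (nat_lit 5) (nat_lit 244) (nat_lit 5) (nat_lit 237) (nat_lit 5) (nat_lit 651) (nat_lit 586) (nat_lit 323))) (XT.nd (nat_lit 78) (nat_lit 0) (nat_lit 0) (XT.lf (nat_lit 0) (nat_lit 5161998620) (nat_lit 532) (nat_lit 12006702625) (nat_lit 608) (nat_lit 13861121720) (nat_lit 229) (nat_lit 5) (nat_lit 236) (nat_lit 5) (nat_lit 237) (nat_lit 5) (nat_lit 652) (nat_lit 586) (nat_lit 322)) (XT.lf (nat_lit 0) (nat_lit 23281984505) (nat_lit 608) (nat_lit 7811775338) (nat_lit 76) (nat_lit 307607877) (nat_lit 229) (nat_lit 5) (nat_lit 237) (nat_lit 5) (nat_lit 230) (nat_lit 5) (nat_lit 653) (nat_lit 586) (nat_lit 321))))))))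
noncomputable def xc210 : XT := (XT.nd (nat_lit 77220) (nat_lit 0) (nat_lit 12312) (XT.nd (nat_lit 76128) (nat_lit 0) (nat_lit 21660) (XT.nd (nat_lit 468) (nat_lit 1368) (nat_lit 0) (XT.nd (nat_lit 234) (nat_lit 912) (nat_lit 0) (XT.nd (nat_lit 78) (nat_lit 608) (nat_lit 0) (XT.lf (nat_lit 0) (nat_lit 10662012421) (nat_lit 456) (nat_lit 19001575224) (nat_lit 532) (nat_lit 2113834808) (nat_lit 223) (nat_lit 5) (nat_lit 229) (nat_lit 5) (nat_lit 230) (nat_lit 5) (nat_lit 654) (nat_lit 586) (nat_lit 320)) (XT.nd (nat_lit 78) (nat_lit 532) (nat_lit 0) (XT.lf (nat_lit 0) (nat_lit 4009302843) (nat_lit 532) (nat_lit 2578891035) (nat_lit 76) (nat_lit 25571281734) (nat_lit 222) (nat_lit 5) (nat_lit 229) (nat_lit 5) (nat_lit 223) (nat_lit 5) (nat_lit 655) (nat_lit 586) (nat_lit 319)) (XT.lf (nat_lit 0) (nat_lit 10371540685) (nat_lit 608) (nat_lit 16059546022) (nat_lit 76) (nat_lit 6114905001) (nat_lit 215) (nat_lit 5) (nat_lit 223) (nat_lit 5) (nat_lit 216) (nat_lit 5) (nat_lit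 656) (nat_lit 586) (nat_lit 318)))) (XT.nd (nat_lit 78) (nat_lit 456) (nat_lit 0) (XT.lf (nat_lit 0) (nat_lit 3020360383) (nat_lit 456) (nat_lit 13918723347) (nat_lit 532) (nat_lit 15999593344) (nat_lit 209) (nat_lit 5) (nat_lit 215) (nat_lit 5) (nat_lit 216) (nat_lit 5) (nat_lit 657) (nat_lit 586) (nat_lit 317)) (XT.nd (nat_lit 78) (nat_lit 456) (nat_lit 0) (XT.lf (nat_lit 0) (nat_lit 22695918550) (nat_lit 456) (nat_lit 1047253979) (nat_lit 532) (nat_lit 9593939870) (nat_lit 209) (nat_lit 5) (nat_lit 215) (nat_lit 5) (nat_lit 216) (nat_lit 5) (nat_lit 658) (nat_lit 586) (nat_lit 316)) (XT.lf (nat_lit 0) (nat_lit 9058219333) (nat_lit 456) (nat_lit 21759848354) (nat_lit 532) (nat_lit 2922754401) (nat_lit 203) (nat_lit 5) (nat_lit 209) (nat_lit 5) (nat_lit 210) (nat_lit 5) (nat_lit 659) (nat_lit 586) (nat_lit 315))))) (XT.nd (nat_lit 234) (nat_lit 380) (nat_lit 0) (XT.nd (nat_lit 78) (nat_lit 912) (nat_lit 0) (XT.lf (nat_lit 0) (nat_lit 3907240075) (nat_lit 532)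 (nat_lit 4891544899) (nat_lit 76) (nat_lit 25351791140) (nat_lit 202) (nat_lit 5) (nat_lit 209) (nat_lit 5) (nat_lit 203) (nat_lit 5) (nat_lit 660) (nat_lit 586) (nat_lit 314)) (XT.nd (nat_lit 78) (nat_lit 456) (nat_lit 0) (XT.lf (nat_lit 0) (nat_lit 10962235310) (nat_lit 532) (nat_lit 19120280481) (nat_lit 76) (nat_lit 4483072449) (nat_lit 196) (nat_lit 5) (nat_lit 203) (nat_lit 5) (nat_lit 197) (nat_lit 5) (nat_lit 661) (nat_lit 586) (nat_lit 313)) (XT.lf (nat_lit 0) (nat_lit 1220916797) (nat_lit 456) (nat_lit 17034201069) (nat_lit 532) (nat_lit 16731847132) (nat_lit 190) (nat_lit 5) (nat_lit 196) (nat_lit 5) (nat_lit 197) (nat_lit 5) (nat_lit 662) (nat_lit 586) (nat_lit 312)))) (XT.nd (nat_lit 75270) (nat_lit 0) (nat_lit 23028) (XT.nd (nat_lit 78) (nat_lit 380) (nat_lit 0) (XT.lf (nat_lit 0) (nat_lit 22224574125) (nat_lit 456) (nat_lit 3595164251) (nat_lit 532) (nat_lit 9594513443) (nat_lit 190) (nat_lit 5) (nat_lit 196) (nat_lit 5) (nat_lit 197) (nat_lit 5)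 (nat_lit 663) (nat_lit 586) (nat_lit 311)) (XT.lf (nat_lit 0) (nat_lit 7831761695) (nat_lit 380) (nat_lit 25818010275) (nat_lit 456) (nat_lit 2198030126) (nat_lit 185) (nat_lit 5) (nat_lit 190) (nat_lit 5) (nat_lit 191) (nat_lit 5) (nat_lit 664) (nat_lit 586) (nat_lit 310))) (XT.nd (nat_lit 78) (nat_lit 0) (nat_lit 0) (XT.lf (nat_lit 0) (nat_lit 1996908405) (nat_lit 0) (nat_lit 1996908405) (nat_lit 1748) (nat_lit 3756066346) (nat_lit 488) (nat_lit 5) (nat_lit 488) (nat_lit 3) (nat_lit 511) (nat_lit 3) (nat_lit 587) (nat_lit 587) (nat_lit 386)) (XT.lf (nat_lit 0) (nat_lit 8368348506) (nat_lit 1748) (nat_lit 3869467320) (nat_lit 1824) (nat_lit 3410905319) (nat_lit 488) (nat_lit 5) (nat_lit 511) (nat_lit 3) (nat_lit 512) (nat_lit 5) (nat_lit 588) (nat_lit 587) (nat_lit 385)))))) (XT.nd (nat_lit 546) (nat_lit 1368) (nat_lit 0) (XT.nd (nat_lit 234) (nat_lit 0) (nat_lit 152) (XT.nd (nat_lit 78) (nat_lit 0) (nat_lit 76) (XT.lf (nat_lit 76) (nat_lit 3941162762) (nat_lit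 0) (nat_lit 4860273905) (nat_lit 1824) (nat_lit 6998323912) (nat_lit 489) (nat_lit 5) (nat_lit 488) (nat_lit 5) (nat_lit 512) (nat_lit 5) (nat_lit 589) (nat_lit 587) (nat_lit 384)) (XT.nd (nat_lit 78) (nat_lit 0) (nat_lit 0) (XT.lf (nat_lit 0) (nat_lit 9279487617) (nat_lit 1748) (nat_lit 4014280387) (nat_lit 1824) (nat_lit 2659327447) (nat_lit 489) (nat_lit 5) (nat_lit 512) (nat_lit 5) (nat_lit 513) (nat_lit 5) (nat_lit 590) (nat_lit 587) (nat_lit 383)) (XT.lf (nat_lit 76) (nat_lit 4003356308) (nat_lit 0) (nat_lit 5814924075) (nat_lit 1824) (nat_lit 6290193679) (nat_lit 490) (nat_lit 5) (nat_lit 489) (nat_lit 5) (nat_lit 513) (nat_lit 5) (nat_lit 591) (nat_lit 587) (nat_lit 382)))) (XT.nd (nat_lit 156) (nat_lit 0) (nat_lit 76) (XT.nd (nat_lit 78) (nat_lit 0) (nat_lit 0) (XT.lf (nat_lit 0) (nat_lit 10399872704) (nat_lit 1748) (nat_lit 4046631000) (nat_lit 1824) (nat_lit 1819816711) (nat_lit 490) (nat_lit 5) (nat_lit 513) (nat_lit 5) (nat_lit 514) (nat_lit 5) (nat_lit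 592) (nat_lit 587) (nat_lit 381)) (XT.lf (nat_lit 76) (nat_lit 4185470971) (nat_lit 0) (nat_lit 6866577776) (nat_lit 1824) (nat_lit 5374096542) (nat_lit 491) (nat_lit 5) (nat_lit 490) (nat_lit 5) (nat_lit 514) (nat_lit 5) (nat_lit 593) (nat_lit 587) (nat_lit 380))) (XT.nd (nat_lit 78) (nat_lit 0) (nat_lit 0) (XT.lf (nat_lit 0) (nat_lit 11743610794) (nat_lit 1748) (nat_lit 3961414206) (nat_lit 1824) (nat_lit 883615431) (nat_lit 491) (nat_lit 5) (nat_lit 514) (nat_lit 5) (nat_lit 515) (nat_lit 5) (nat_lit 594) (nat_lit 587) (nat_lit 379)) (XT.lf (nat_lit 76) (nat_lit 4492898795) (nat_lit 0) (nat_lit 8024271578) (nat_lit 1824) (nat_lit 4235852383) (nat_lit 492) (nat_lit 5) (nat_lit 491) (nat_lit 5) (nat_lit 515) (nat_lit 5) (nat_lit 595) (nat_lit 587) (nat_lit 378))))) (XT.nd (nat_lit 234) (nat_lit 1596) (nat_lit 0) (XT.nd (nat_lit 78) (nat_lit 0) (nat_lit 76) (XT.lf (nat_lit 76) (nat_lit 13166038812) (nat_lit 0) (nat_lit 160368233) (nat_lit 1824) (nat_lit 3593882160)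 (nat_lit 492) (nat_lit 5) (nat_lit 491) (nat_lit 5) (nat_lit 515) (nat_lit 5) (nat_lit 596) (nat_lit 587) (nat_lit 377)) (XT.nd (nat_lit 78) (nat_lit 0) (nat_lit 0) (XT.lf (nat_lit 76) (nat_lit 4931357982) (nat_lit 0) (nat_lit 9297288903) (nat_lit 1824) (nat_lit 2860718312) (nat_lit 493) (nat_lit 5) (nat_lit 492) (nat_lit 5) (nat_lit 516) (nat_lit 5) (nat_lit 597) (nat_lit 587) (nat_lit 376)) (XT.lf (nat_lit 76) (nat_lit 13836497979) (nat_lit 0) (nat_lit 1332541127) (nat_lit 1824) (nat_lit 2092382024) (nat_lit 493) (nat_lit 5) (nat_lit 492) (nat_lit 5) (nat_lit 516) (nat_lit 5) (nat_lit 598) (nat_lit 587) (nat_lit 375)))) (XT.nd (nat_lit 156) (nat_lit 1748) (nat_lit 0) (XT.nd (nat_lit 78) (nat_lit 0) (nat_lit 0) (XT.lf (nat_lit 76) (nat_lit 5506901109) (nat_lit 0) (nat_lit 10695181044) (nat_lit 1824) (nat_lit 1233359728) (nat_lit 494) (nat_lit 5) (nat_lit 493) (nat_lit 5) (nat_lit 517) (nat_lit 5) (nat_lit 599) (nat_lit 587) (nat_lit 374)) (XT.lf (nat_lit 76) (nat_lit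 14650821637) (nat_lit 0) (nat_lit 2630799422) (nat_lit 1824) (nat_lit 330805839) (nat_lit 494) (nat_lit 5) (nat_lit 493) (nat_lit 5) (nat_lit 517) (nat_lit 5) (nat_lit 600) (nat_lit 587) (nat_lit 373))) (XT.nd (nat_lit 78) (nat_lit 0) (nat_lit 0) (XT.lf (nat_lit 0) (nat_lit 653494906) (nat_lit 1824) (nat_lit 11569908317) (nat_lit 1900) (nat_lit 5568043711) (nat_lit 470) (nat_lit 5) (nat_lit 494) (nat_lit 5) (nat_lit 495) (nat_lit 5) (nat_lit 601) (nat_lit 587) (nat_lit 372)) (XT.lf (nat_lit 0) (nat_lit 1684746554) (nat_lit 1824) (nat_lit 2369027597) (nat_lit 1900) (nat_lit 13919596119) (nat_lit 470) (nat_lit 5) (nat_lit 494) (nat_lit 5) (nat_lit 495) (nat_lit 5) (nat_lit 602) (nat_lit 587) (nat_lit 371))))))) (XT.nd (nat_lit 1014) (nat_lit 6764) (nat_lit 0) (XT.nd (nat_lit 468) (nat_lit 2660) (nat_lit 0) (XT.nd (nat_lit 234) (nat_lit 0) (nat_lit 76) (XT.nd (nat_lit 78) (nat_lit 0) (nat_lit 0) (XT.lf (nat_lit 0) (nat_lit 2805227856) (nat_lit 1824) (nat_lit 11081210393)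 (nat_lit 1900) (nat_lit 4271122239) (nat_lit 471) (nat_lit 5) (nat_lit 495) (nat_lit 5) (nat_lit 496) (nat_lit 5) (nat_lit 603) (nat_lit 587) (nat_lit 370)) (XT.nd (nat_lit 78) (nat_lit 0) (nat_lit 76) (XT.lf (nat_lit 0) (nat_lit 3985436484) (nat_lit 1824) (nat_lit 1633457188) (nat_lit 1900) (nat_lit 12725794980) (nat_lit 471) (nat_lit 5) (nat_lit 495) (nat_lit 5) (nat_lit 496) (nat_lit 5) (nat_lit 604) (nat_lit 587) (nat_lit 369)) (XT.lf (nat_lit 0) (nat_lit 5255080591) (nat_lit 1824) (nat_lit 10447743557) (nat_lit 1900) (nat_lit 2831419095) (nat_lit 472) (nat_lit 5) (nat_lit 496) (nat_lit 5) (nat_lit 497) (nat_lit 5) (nat_lit 605) (nat_lit 587) (nat_lit 368)))) (XT.nd (nat_lit 78) (nat_lit 0) (nat_lit 76) (XT.lf (nat_lit 0) (nat_lit 6593028704) (nat_lit 1824) (nat_lit 745801206) (nat_lit 1900) (nat_lit 11387901273) (nat_lit 472) (nat_lit 5) (nat_lit 496) (nat_lit 5) (nat_lit 497) (nat_lit 5) (nat_lit 606) (nat_lit 587) (nat_lit 367)) (XT.nd (nat_lit 78) (nat_lit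 0) (nat_lit 0) (XT.lf (nat_lit 0) (nat_lit 8020826334) (nat_lit 1824) (nat_lit 9662455696) (nat_lit 1900) (nat_lit 1238525507) (nat_lit 473) (nat_lit 5) (nat_lit 497) (nat_lit 5) (nat_lit 498) (nat_lit 5) (nat_lit 607) (nat_lit 587) (nat_lit 366)) (XT.lf (nat_lit 76) (nat_lit 305252846) (nat_lit 0) (nat_lit 9222402477) (nat_lit 1900) (nat_lit 9592121049) (nat_lit 474) (nat_lit 5) (nat_lit 473) (nat_lit 5) (nat_lit 498) (nat_lit 5) (nat_lit 608) (nat_lit 587) (nat_lit 365))))) (XT.nd (nat_lit 234) (nat_lit 2812) (nat_lit 0) (XT.nd (nat_lit 78) (nat_lit 0) (nat_lit 76) (XT.lf (nat_lit 76) (nat_lit 10599171891) (nat_lit 0) (nat_lit 525217425) (nat_lit 1900) (nat_lit 8196120350) (nat_lit 474) (nat_lit 5) (nat_lit 473) (nat_lit 5) (nat_lit 498) (nat_lit 5) (nat_lit 609) (nat_lit 587) (nat_lit 364)) (XT.nd (nat_lit 78) (nat_lit 0) (nat_lit 0) (XT.lf (nat_lit 76) (nat_lit 1535517141) (nat_lit 0) (nat_lit 11276731396) (nat_lit 1900) (nat_lit 6711825720) (nat_lit 475) (nat_lit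 5) (nat_lit 474) (nat_lit 5) (nat_lit 499) (nat_lit 5) (nat_lit 610) (nat_lit 587) (nat_lit 363)) (XT.lf (nat_lit 76) (nat_lit 12108086036) (nat_lit 0) (nat_lit 2482863447) (nat_lit 1900) (nat_lit 5139619399) (nat_lit 475) (nat_lit 5) (nat_lit 474) (nat_lit 5) (nat_lit 499) (nat_lit 5) (nat_lit 611) (nat_lit 587) (nat_lit 362)))) (XT.nd (nat_lit 156) (nat_lit 1140) (nat_lit 0) (XT.nd (nat_lit 78) (nat_lit 0) (nat_lit 0) (XT.lf (nat_lit 0) (nat_lit 2943257855) (nat_lit 1824) (nat_lit 13518398649) (nat_lit 1900) (nat_lit 3478408679) (nat_lit 451) (nat_lit 5) (nat_lit 475) (nat_lit 5) (nat_lit 476) (nat_lit 5) (nat_lit 612) (nat_lit 587) (nat_lit 361)) (XT.lf (nat_lit 0) (nat_lit 13802864775) (nat_lit 1824) (nat_lit 4629671039) (nat_lit 1900) (nat_lit 1719960850) (nat_lit 451) (nat_lit 5) (nat_lit 475) (nat_lit 5) (nat_lit 476) (nat_lit 5) (nat_lit 613) (nat_lit 587) (nat_lit 360))) (XT.nd (nat_lit 78) (nat_lit 0) (nat_lit 0) (XT.lf (nat_lit 0) (nat_lit 126678397)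 (nat_lit 1140) (nat_lit 15831881835) (nat_lit 76) (nat_lit 4409527610) (nat_lit 436) (nat_lit 5) (nat_lit 451) (nat_lit 5) (nat_lit 437) (nat_lit 5) (nat_lit 614) (nat_lit 587) (nat_lit 359)) (XT.lf (nat_lit 0) (nat_lit 2056196101) (nat_lit 1140) (nat_lit 4907802538) (nat_lit 76) (nat_lit 13622385698) (nat_lit 436) (nat_lit 5) (nat_lit 451) (nat_lit 5) (nat_lit 437) (nat_lit 5) (nat_lit 615) (nat_lit 587) (nat_lit 358)))))) (XT.nd (nat_lit 546) (nat_lit 3268) (nat_lit 0) (XT.nd (nat_lit 234) (nat_lit 1672) (nat_lit 0) (XT.nd (nat_lit 78) (nat_lit 912) (nat_lit 0) (XT.lf (nat_lit 0) (nat_lit 4075414357) (nat_lit 988) (nat_lit 14509463796) (nat_lit 76) (nat_lit 2223146792) (nat_lit 424) (nat_lit 5) (nat_lit 437) (nat_lit 5) (nat_lit 425) (nat_lit 5) (nat_lit 616) (nat_lit 587) (nat_lit 357)) (XT.nd (nat_lit 78) (nat_lit 912) (nat_lit 0) (XT.lf (nat_lit 0) (nat_lit 6209845738) (nat_lit 988) (nat_lit 3288344417) (nat_lit 76) (nat_lit 11534412011) (nat_lit 424) (nat_lit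 5) (nat_lit 437) (nat_lit 5) (nat_lit 425) (nat_lit 5) (nat_lit 617) (nat_lit 587) (nat_lit 356)) (XT.lf (nat_lit 0) (nat_lit 8261483390) (nat_lit 912) (nat_lit 174766015) (nat_lit 988) (nat_lit 12824436223) (nat_lit 412) (nat_lit 5) (nat_lit 424) (nat_lit 5) (nat_lit 425) (nat_lit 5) (nat_lit 618) (nat_lit 587) (nat_lit 355)))) (XT.nd (nat_lit 156) (nat_lit 836) (nat_lit 0) (XT.nd (nat_lit 78) (nat_lit 836) (nat_lit 0) (XT.lf (nat_lit 0) (nat_lit 10785709124) (nat_lit 988) (nat_lit 1470889291) (nat_lit 76) (nat_lit 9235162147) (nat_lit 412) (nat_lit 5) (nat_lit 425) (nat_lit 5) (nat_lit 413) (nat_lit 5) (nat_lit 619) (nat_lit 587) (nat_lit 354)) (XT.lf (nat_lit 0) (nat_lit 10419440238) (nat_lit 836) (nat_lit 2827314799) (nat_lit 912) (nat_lit 8479410374) (nat_lit 401) (nat_lit 5) (nat_lit 412) (nat_lit 5) (nat_lit 413) (nat_lit 5) (nat_lit 620) (nat_lit 587) (nat_lit 353))) (XT.nd (nat_lit 78) (nat_lit 0) (nat_lit 0) (XT.lf (nat_lit 0) (nat_lit 561561724) (nat_lit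 836) (nat_lit 15248977804) (nat_lit 912) (nat_lit 6153648825) (nat_lit 390) (nat_lit 5) (nat_lit 401) (nat_lit 5) (nat_lit 402) (nat_lit 5) (nat_lit 621) (nat_lit 587) (nat_lit 352)) (XT.lf (nat_lit 0) (nat_lit 12797431408) (nat_lit 836) (nat_lit 5718545136) (nat_lit 912) (nat_lit 3689188014) (nat_lit 390) (nat_lit 5) (nat_lit 401) (nat_lit 5) (nat_lit 402) (nat_lit 5) (nat_lit 622) (nat_lit 587) (nat_lit 351))))) (XT.nd (nat_lit 234) (nat_lit 1520) (nat_lit 0) (XT.nd (nat_lit 78) (nat_lit 912) (nat_lit 0) (XT.lf (nat_lit 0) (nat_lit 2834165195) (nat_lit 836) (nat_lit 18481727743) (nat_lit 912) (nat_lit 1134260272) (nat_lit 379) (nat_lit 5) (nat_lit 390) (nat_lit 5) (nat_lit 391) (nat_lit 5) (nat_lit 623) (nat_lit 587) (nat_lit 350)) (XT.nd (nat_lit 78) (nat_lit 836) (nat_lit 0) (XT.lf (nat_lit 0) (nat_lit 1549892028) (nat_lit 912) (nat_lit 7302301413) (nat_lit 76) (nat_lit 13845708831) (nat_lit 378) (nat_lit 5) (nat_lit 390) (nat_lit 5) (nat_lit 379) (nat_lit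 5) (nat_lit 624) (nat_lit 587) (nat_lit 349)) (XT.lf (nat_lit 0) (nat_lit 4309729509) (nat_lit 912) (nat_lit 17640576756) (nat_lit 76) (nat_lit 999406621) (nat_lit 367) (nat_lit 5) (nat_lit 379) (nat_lit 5) (nat_lit 368) (nat_lit 5) (nat_lit 625) (nat_lit 587) (nat_lit 348)))) (XT.nd (nat_lit 156) (nat_lit 760) (nat_lit 0) (XT.nd (nat_lit 78) (nat_lit 760) (nat_lit 0) (XT.lf (nat_lit 0) (nat_lit 7228850919) (nat_lit 912) (nat_lit 4996813985) (nat_lit 76) (nat_lit 10978813375) (nat_lit 367) (nat_lit 5) (nat_lit 379) (nat_lit 5) (nat_lit 368) (nat_lit 5) (nat_lit 626) (nat_lit 587) (nat_lit 347)) (XT.lf (nat_lit 0) (nat_lit 8000762295) (nat_lit 760) (nat_lit 2253751048) (nat_lit 836) (nat_lit 13208862767) (nat_lit 357) (nat_lit 5) (nat_lit 367) (nat_lit 5) (nat_lit 368) (nat_lit 5) (nat_lit 627) (nat_lit 587) (nat_lit 346))) (XT.nd (nat_lit 78) (nat_lit 760) (nat_lit 0) (XT.lf (nat_lit 0) (nat_lit 13422108012) (nat_lit 836) (nat_lit 2456426935) (nat_lit 76) (nat_lit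 7847288868) (nat_lit 357) (nat_lit 5) (nat_lit 368) (nat_lit 5) (nat_lit 358) (nat_lit 5) (nat_lit 628) (nat_lit 587) (nat_lit 345)) (XT.lf (nat_lit 0) (nat_lit 10934403559) (nat_lit 760) (nat_lit 5800902629) (nat_lit 836) (nat_lit 7256569547) (nat_lit 347) (nat_lit 5) (nat_lit 357) (nat_lit 5) (nat_lit 358) (nat_lit 5) (nat_lit 629) (nat_lit 587) (nat_lit 344))))))))
noncomputable def xc211 : XT := (XT.nd (nat_lit 2106) (nat_lit 2432) (nat_lit 0) (XT.nd (nat_lit 1014) (nat_lit 4636) (nat_lit 0) (XT.nd (nat_lit 468) (nat_lit 2660) (nat_lit 0) (XT.nd (nat_lit 234) (nat_lit 684) (nat_lit 0) (XT.nd (nat_lit 78) (nat_lit 836) (nat_lit 0) (XT.lf (nat_lit 0) (nat_lit 334626819) (nat_lit 684) (nat_lit 19824360217) (nat_lit 760) (nat_lit 4103377568) (nat_lit 338) (nat_lit 5) (nat_lit 347) (nat_lit 5) (nat_lit 348) (nat_lit 5) (nat_lit 630) (nat_lit 587) (nat_lit 343)) (XT.nd (nat_lit 78) (nat_lit 836) (nat_lit 0) (XT.lf (nat_lit 0) (nat_lit 14128658621) (nat_lit 684) (nat_lit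 9644691453) (nat_lit 760) (nat_lit 762469287) (nat_lit 338) (nat_lit 5) (nat_lit 347) (nat_lit 5) (nat_lit 348) (nat_lit 5) (nat_lit 631) (nat_lit 587) (nat_lit 342)) (XT.lf (nat_lit 0) (nat_lit 2634208901) (nat_lit 836) (nat_lit 21411688025) (nat_lit 76) (nat_lit 768030163) (nat_lit 327) (nat_lit 5) (nat_lit 338) (nat_lit 5) (nat_lit 328) (nat_lit 5) (nat_lit 632) (nat_lit 587) (nat_lit 341)))) (XT.nd (nat_lit 78) (nat_lit 684) (nat_lit 0) (XT.lf (nat_lit 0) (nat_lit 6219302711) (nat_lit 836) (nat_lit 7540675557) (nat_lit 76) (nat_lit 11334904342) (nat_lit 327) (nat_lit 5) (nat_lit 338) (nat_lit 5) (nat_lit 328) (nat_lit 5) (nat_lit 633) (nat_lit 587) (nat_lit 340)) (XT.nd (nat_lit 78) (nat_lit 0) (nat_lit 0) (XT.lf (nat_lit 0) (nat_lit 6691607116) (nat_lit 684) (nat_lit 3224515889) (nat_lit 760) (nat_lit 15464534002) (nat_lit 318) (nat_lit 5) (nat_lit 327) (nat_lit 5) (nat_lit 328) (nat_lit 5) (nat_lit 634) (nat_lit 587) (nat_lit 339)) (XT.lf (nat_lit 0) (nat_lit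 13783269132) (nat_lit 760) (nat_lit 4413504765) (nat_lit 76) (nat_lit 7473445461) (nat_lit 318) (nat_lit 5) (nat_lit 328) (nat_lit 5) (nat_lit 319) (nat_lit 5) (nat_lit 635) (nat_lit 587) (nat_lit 338))))) (XT.nd (nat_lit 234) (nat_lit 1368) (nat_lit 0) (XT.nd (nat_lit 78) (nat_lit 608) (nat_lit 0) (XT.lf (nat_lit 0) (nat_lit 10256844164) (nat_lit 684) (nat_lit 7555545832) (nat_lit 760) (nat_lit 8151490572) (nat_lit 309) (nat_lit 5) (nat_lit 318) (nat_lit 5) (nat_lit 319) (nat_lit 5) (nat_lit 636) (nat_lit 587) (nat_lit 337)) (XT.nd (nat_lit 78) (nat_lit 608) (nat_lit 0) (XT.lf (nat_lit 0) (nat_lit 21970041971) (nat_lit 760) (nat_lit 1007918243) (nat_lit 76) (nat_lit 3284496058) (nat_lit 309) (nat_lit 5) (nat_lit 319) (nat_lit 5) (nat_lit 310) (nat_lit 5) (nat_lit 637) (nat_lit 587) (nat_lit 336)) (XT.lf (nat_lit 0) (nat_lit 14116452386) (nat_lit 608) (nat_lit 12232868540) (nat_lit 684) (nat_lit 214913325) (nat_lit 301) (nat_lit 5) (nat_lit 309) (nat_lit 5) (nat_lit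 310) (nat_lit 5) (nat_lit 638) (nat_lit 587) (nat_lit 335)))) (XT.nd (nat_lit 156) (nat_lit 608) (nat_lit 0) (XT.nd (nat_lit 78) (nat_lit 0) (nat_lit 0) (XT.lf (nat_lit 0) (nat_lit 2690848210) (nat_lit 684) (nat_lit 1222641516) (nat_lit 760) (nat_lit 22957624532) (nat_lit 291) (nat_lit 5) (nat_lit 300) (nat_lit 5) (nat_lit 301) (nat_lit 5) (nat_lit 639) (nat_lit 587) (nat_lit 334)) (XT.lf (nat_lit 0) (nat_lit 8267481893) (nat_lit 760) (nat_lit 8952315372) (nat_lit 76) (nat_lit 9961388440) (nat_lit 291) (nat_lit 5) (nat_lit 301) (nat_lit 5) (nat_lit 292) (nat_lit 5) (nat_lit 640) (nat_lit 587) (nat_lit 333))) (XT.nd (nat_lit 78) (nat_lit 0) (nat_lit 0) (XT.lf (nat_lit 0) (nat_lit 6655578312) (nat_lit 608) (nat_lit 6101181539) (nat_lit 684) (nat_lit 14739734832) (nat_lit 283) (nat_lit 5) (nat_lit 291) (nat_lit 5) (nat_lit 292) (nat_lit 5) (nat_lit 641) (nat_lit 587) (nat_lit 332)) (XT.lf (nat_lit 0) (nat_lit 17427244457) (nat_lit 684) (nat_lit 5158185636) (nat_lit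 76) (nat_lit 5230851541) (nat_lit 283) (nat_lit 5) (nat_lit 292) (nat_lit 5) (nat_lit 284) (nat_lit 5) (nat_lit 642) (nat_lit 587) (nat_lit 331)))))) (XT.nd (nat_lit 546) (nat_lit 2204) (nat_lit 0) (XT.nd (nat_lit 234) (nat_lit 1140) (nat_lit 0) (XT.nd (nat_lit 78) (nat_lit 684) (nat_lit 0) (XT.lf (nat_lit 0) (nat_lit 10937476800) (nat_lit 608) (nat_lit 11362068913) (nat_lit 684) (nat_lit 5840750685) (nat_lit 275) (nat_lit 5) (nat_lit 283) (nat_lit 5) (nat_lit 284) (nat_lit 5) (nat_lit 643) (nat_lit 587) (nat_lit 330)) (XT.nd (nat_lit 78) (nat_lit 684) (nat_lit 0) (XT.lf (nat_lit 0) (nat_lit 27301711417) (nat_lit 684) (nat_lit 1049706901) (nat_lit 76) (nat_lit 118724979) (nat_lit 275) (nat_lit 5) (nat_lit 284) (nat_lit 5) (nat_lit 276) (nat_lit 5) (nat_lit 644) (nat_lit 587) (nat_lit 329)) (XT.lf (nat_lit 0) (nat_lit 3724593663) (nat_lit 684) (nat_lit 13276162933) (nat_lit 76) (nat_lit 11801874813) (nat_lit 266) (nat_lit 5) (nat_lit 275) (nat_lit 5) (nat_lit 267)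 (nat_lit 5) (nat_lit 645) (nat_lit 587) (nat_lit 328)))) (XT.nd (nat_lit 156) (nat_lit 532) (nat_lit 0) (XT.nd (nat_lit 78) (nat_lit 0) (nat_lit 0) (XT.lf (nat_lit 0) (nat_lit 3339040813) (nat_lit 608) (nat_lit 5386668924) (nat_lit 684) (nat_lit 20415387768) (nat_lit 258) (nat_lit 5) (nat_lit 266) (nat_lit 5) (nat_lit 267) (nat_lit 5) (nat_lit 646) (nat_lit 587) (nat_lit 327)) (XT.lf (nat_lit 0) (nat_lit 13955587072) (nat_lit 684) (nat_lit 9064333713) (nat_lit 76) (nat_lit 6463837552) (nat_lit 258) (nat_lit 5) (nat_lit 267) (nat_lit 5) (nat_lit 259) (nat_lit 5) (nat_lit 647) (nat_lit 587) (nat_lit 326))) (XT.nd (nat_lit 78) (nat_lit 0) (nat_lit 0) (XT.lf (nat_lit 0) (nat_lit 8074682662) (nat_lit 532) (nat_lit 11300653532) (nat_lit 608) (nat_lit 10456230896) (nat_lit 251) (nat_lit 5) (nat_lit 258) (nat_lit 5) (nat_lit 259) (nat_lit 5) (nat_lit 648) (nat_lit 587) (nat_lit 325)) (XT.lf (nat_lit 0) (nat_lit 24966149972) (nat_lit 608) (nat_lit 4514124032) (nat_lit 76)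 (nat_lit 704804805) (nat_lit 251) (nat_lit 5) (nat_lit 259) (nat_lit 5) (nat_lit 252) (nat_lit 5) (nat_lit 649) (nat_lit 587) (nat_lit 324))))) (XT.nd (nat_lit 234) (nat_lit 1064) (nat_lit 0) (XT.nd (nat_lit 78) (nat_lit 532) (nat_lit 0) (XT.lf (nat_lit 0) (nat_lit 280135818) (nat_lit 608) (nat_lit 17376644498) (nat_lit 76) (nat_lit 12885692013) (nat_lit 243) (nat_lit 5) (nat_lit 251) (nat_lit 5) (nat_lit 244) (nat_lit 5) (nat_lit 650) (nat_lit 587) (nat_lit 323)) (XT.nd (nat_lit 78) (nat_lit 0) (nat_lit 0) (XT.lf (nat_lit 0) (nat_lit 319939512) (nat_lit 532) (nat_lit 5529263893) (nat_lit 608) (nat_lit 25056522481) (nat_lit 236) (nat_lit 5) (nat_lit 243) (nat_lit 5) (nat_lit 244) (nat_lit 5) (nat_lit 651) (nat_lit 587) (nat_lit 322)) (XT.lf (nat_lit 0) (nat_lit 11688737764) (nat_lit 608) (nat_lit 12716778095) (nat_lit 76) (nat_lit 6867547120) (nat_lit 236) (nat_lit 5) (nat_lit 244) (nat_lit 5) (nat_lit 237) (nat_lit 5) (nat_lit 652) (nat_lit 587) (nat_lit 321))))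 (XT.nd (nat_lit 156) (nat_lit 532) (nat_lit 0) (XT.nd (nat_lit 78) (nat_lit 0) (nat_lit 0) (XT.lf (nat_lit 0) (nat_lit 5542071460) (nat_lit 532) (nat_lit 12172936628) (nat_lit 608) (nat_lit 13931339988) (nat_lit 229) (nat_lit 5) (nat_lit 236) (nat_lit 5) (nat_lit 237) (nat_lit 5) (nat_lit 653) (nat_lit 587) (nat_lit 320)) (XT.lf (nat_lit 0) (nat_lit 23947048338) (nat_lit 608) (nat_lit 7693084954) (nat_lit 76) (nat_lit 385260855) (nat_lit 229) (nat_lit 5) (nat_lit 237) (nat_lit 5) (nat_lit 230) (nat_lit 5) (nat_lit 654) (nat_lit 587) (nat_lit 319))) (XT.nd (nat_lit 78) (nat_lit 76) (nat_lit 0) (XT.lf (nat_lit 0) (nat_lit 11148369837) (nat_lit 456) (nat_lit 19305776685) (nat_lit 532) (nat_lit 1954866439) (nat_lit 223) (nat_lit 5) (nat_lit 229) (nat_lit 5) (nat_lit 230) (nat_lit 5) (nat_lit 655) (nat_lit 587) (nat_lit 318)) (XT.lf (nat_lit 0) (nat_lit 4284200370) (nat_lit 532) (nat_lit 2360107588) (nat_lit 76) (nat_lit 26154451210) (nat_lit 222) (nat_lit 5) (nat_lit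 229) (nat_lit 5) (nat_lit 223) (nat_lit 5) (nat_lit 656) (nat_lit 587) (nat_lit 317))))))) (XT.nd (nat_lit 76284) (nat_lit 0) (nat_lit 21204) (XT.nd (nat_lit 546) (nat_lit 0) (nat_lit 0) (XT.nd (nat_lit 234) (nat_lit 1444) (nat_lit 0) (XT.nd (nat_lit 78) (nat_lit 456) (nat_lit 0) (XT.lf (nat_lit 0) (nat_lit 10772102000) (nat_lit 608) (nat_lit 16108783210) (nat_lit 76) (nat_lit 6312152226) (nat_lit 215) (nat_lit 5) (nat_lit 223) (nat_lit 5) (nat_lit 216) (nat_lit 5) (nat_lit 657) (nat_lit 587) (nat_lit 316)) (XT.nd (nat_lit 78) (nat_lit 0) (nat_lit 0) (XT.lf (nat_lit 0) (nat_lit 3350932154) (nat_lit 456) (nat_lit 14118030967) (nat_lit 532) (nat_lit 16124654269) (nat_lit 209) (nat_lit 5) (nat_lit 215) (nat_lit 5) (nat_lit 216) (nat_lit 5) (nat_lit 658) (nat_lit 587) (nat_lit 315)) (XT.lf (nat_lit 0) (nat_lit 23414704140) (nat_lit 456) (nat_lit 990682542) (nat_lit 532) (nat_lit 9594709902) (nat_lit 209) (nat_lit 5) (nat_lit 215) (nat_lit 5) (nat_lit 216) (nat_lit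 5) (nat_lit 659) (nat_lit 587) (nat_lit 314)))) (XT.nd (nat_lit 156) (nat_lit 912) (nat_lit 0) (XT.nd (nat_lit 78) (nat_lit 76) (nat_lit 0) (XT.lf (nat_lit 0) (nat_lit 9505741753) (nat_lit 456) (nat_lit 22114587241) (nat_lit 532) (nat_lit 2791580705) (nat_lit 203) (nat_lit 5) (nat_lit 209) (nat_lit 5) (nat_lit 210) (nat_lit 5) (nat_lit 660) (nat_lit 587) (nat_lit 313)) (XT.lf (nat_lit 0) (nat_lit 4168857198) (nat_lit 532) (nat_lit 4725791807) (nat_lit 76) (nat_lit 25935258772) (nat_lit 202) (nat_lit 5) (nat_lit 209) (nat_lit 5) (nat_lit 203) (nat_lit 5) (nat_lit 661) (nat_lit 587) (nat_lit 312))) (XT.nd (nat_lit 78) (nat_lit 456) (nat_lit 0) (XT.lf (nat_lit 0) (nat_lit 11363576143) (nat_lit 532) (nat_lit 19237715698) (nat_lit 76) (nat_lit 4651956034) (nat_lit 196) (nat_lit 5) (nat_lit 203) (nat_lit 5) (nat_lit 197) (nat_lit 5) (nat_lit 662) (nat_lit 587) (nat_lit 311)) (XT.lf (nat_lit 0) (nat_lit 1508562299) (nat_lit 456) (nat_lit 17291892584) (nat_lit 532) (nat_lit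 16882634713) (nat_lit 190) (nat_lit 5) (nat_lit 196) (nat_lit 5) (nat_lit 197) (nat_lit 5) (nat_lit 663) (nat_lit 587) (nat_lit 310))))) (XT.nd (nat_lit 75426) (nat_lit 0) (nat_lit 22648) (XT.nd (nat_lit 75270) (nat_lit 0) (nat_lit 22648) (XT.lf (nat_lit 0) (nat_lit 22927131457) (nat_lit 456) (nat_lit 3585702334) (nat_lit 532) (nat_lit 9606159240) (nat_lit 190) (nat_lit 5) (nat_lit 196) (nat_lit 5) (nat_lit 197) (nat_lit 5) (nat_lit 664) (nat_lit 587) (nat_lit 309)) (XT.nd (nat_lit 78) (nat_lit 0) (nat_lit 0) (XT.lf (nat_lit 0) (nat_lit 2175141991) (nat_lit 0) (nat_lit 2175141991) (nat_lit 1748) (nat_lit 3549039130) (nat_lit 488) (nat_lit 5) (nat_lit 488) (nat_lit 3) (nat_lit 511) (nat_lit 3) (nat_lit 588) (nat_lit 588) (nat_lit 384)) (XT.lf (nat_lit 0) (nat_lit 9076289850) (nat_lit 1748) (nat_lit 3663031117) (nat_lit 1824) (nat_lit 3211512349) (nat_lit 488) (nat_lit 5) (nat_lit 511) (nat_lit 3) (nat_lit 512) (nat_lit 5) (nat_lit 589) (nat_lit 588) (nat_lit 383))))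 (XT.nd (nat_lit 156) (nat_lit 0) (nat_lit 76) (XT.nd (nat_lit 78) (nat_lit 0) (nat_lit 76) (XT.lf (nat_lit 76) (nat_lit 4301944293) (nat_lit 0) (nat_lit 5207326644) (nat_lit 1824) (nat_lit 6595798975) (nat_lit 489) (nat_lit 5) (nat_lit 488) (nat_lit 5) (nat_lit 512) (nat_lit 5) (nat_lit 590) (nat_lit 588) (nat_lit 382)) (XT.lf (nat_lit 0) (nat_lit 9984864980) (nat_lit 1748) (nat_lit 3806069594) (nat_lit 1824) (nat_lit 2470778242) (nat_lit 489) (nat_lit 5) (nat_lit 512) (nat_lit 5) (nat_lit 513) (nat_lit 5) (nat_lit 591) (nat_lit 588) (nat_lit 381))) (XT.nd (nat_lit 78) (nat_lit 0) (nat_lit 76) (XT.lf (nat_lit 76) (nat_lit 4370021832) (nat_lit 0) (nat_lit 6156080642) (nat_lit 1824) (nat_lit 5894264104) (nat_lit 490) (nat_lit 5) (nat_lit 489) (nat_lit 5) (nat_lit 513) (nat_lit 5) (nat_lit 592) (nat_lit 588) (nat_lit 380)) (XT.lf (nat_lit 0) (nat_lit 11107866781) (nat_lit 1748) (nat_lit 3835078040) (nat_lit 1824) (nat_lit 1638655172) (nat_lit 490) (nat_lit 5) (nat_lit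 513) (nat_lit 5) (nat_lit 514) (nat_lit 5) (nat_lit 593) (nat_lit 588) (nat_lit 379)))))) (XT.nd (nat_lit 546) (nat_lit 1596) (nat_lit 0) (XT.nd (nat_lit 234) (nat_lit 0) (nat_lit 76) (XT.nd (nat_lit 78) (nat_lit 0) (nat_lit 76) (XT.lf (nat_lit 76) (nat_lit 4559741723) (nat_lit 0) (nat_lit 7205427283) (nat_lit 1824) (nat_lit 4979611625) (nat_lit 491) (nat_lit 5) (nat_lit 490) (nat_lit 5) (nat_lit 514) (nat_lit 5) (nat_lit 594) (nat_lit 588) (nat_lit 378)) (XT.nd (nat_lit 78) (nat_lit 0) (nat_lit 0) (XT.lf (nat_lit 0) (nat_lit 12459630948) (nat_lit 1748) (nat_lit 3744802014) (nat_lit 1824) (nat_lit 706312242) (nat_lit 491) (nat_lit 5) (nat_lit 514) (nat_lit 5) (nat_lit 515) (nat_lit 5) (nat_lit 595) (nat_lit 588) (nat_lit 377)) (XT.lf (nat_lit 76) (nat_lit 4876650927) (nat_lit 0) (nat_lit 8364484673) (nat_lit 1824) (nat_lit 3837430981) (nat_lit 492) (nat_lit 5) (nat_lit 491) (nat_lit 5) (nat_lit 515) (nat_lit 5) (nat_lit 596) (nat_lit 588) (nat_lit 376)))) (XT.nd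 (nat_lit 156) (nat_lit 0) (nat_lit 76) (XT.nd (nat_lit 78) (nat_lit 0) (nat_lit 76) (XT.lf (nat_lit 76) (nat_lit 13717491114) (nat_lit 0) (nat_lit 339779190) (nat_lit 1824) (nat_lit 3192094657) (nat_lit 492) (nat_lit 5) (nat_lit 491) (nat_lit 5) (nat_lit 515) (nat_lit 5) (nat_lit 597) (nat_lit 588) (nat_lit 375)) (XT.lf (nat_lit 76) (nat_lit 5326626217) (nat_lit 0) (nat_lit 9642628506) (nat_lit 1824) (nat_lit 2452734604) (nat_lit 493) (nat_lit 5) (nat_lit 492) (nat_lit 5) (nat_lit 516) (nat_lit 5) (nat_lit 598) (nat_lit 588) (nat_lit 374))) (XT.nd (nat_lit 78) (nat_lit 0) (nat_lit 76) (XT.lf (nat_lit 76) (nat_lit 14404052521) (nat_lit 0) (nat_lit 1515460405) (nat_lit 1824) (nat_lit 1678153121) (nat_lit 493) (nat_lit 5) (nat_lit 492) (nat_lit 5) (nat_lit 516) (nat_lit 5) (nat_lit 599) (nat_lit 588) (nat_lit 373)) (XT.lf (nat_lit 76) (nat_lit 5915882721) (nat_lit 0) (nat_lit 11049513170) (nat_lit 1824) (nat_lit 809928558) (nat_lit 494) (nat_lit 5) (nat_lit 493) (nat_lit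 5) (nat_lit 517) (nat_lit 5) (nat_lit 600) (nat_lit 588) (nat_lit 372))))) (XT.nd (nat_lit 234) (nat_lit 0) (nat_lit 152) (XT.nd (nat_lit 78) (nat_lit 0) (nat_lit 76) (XT.lf (nat_lit 0) (nat_lit 100553857) (nat_lit 1824) (nat_lit 2719861789) (nat_lit 1900) (nat_lit 15135593354) (nat_lit 469) (nat_lit 5) (nat_lit 493) (nat_lit 5) (nat_lit 494) (nat_lit 5) (nat_lit 601) (nat_lit 588) (nat_lit 371)) (XT.nd (nat_lit 78) (nat_lit 0) (nat_lit 0) (XT.lf (nat_lit 0) (nat_lit 1092696357) (nat_lit 1824) (nat_lit 11495064289) (nat_lit 1900) (nat_lit 5550954125) (nat_lit 470) (nat_lit 5) (nat_lit 494) (nat_lit 5) (nat_lit 495) (nat_lit 5) (nat_lit 602) (nat_lit 588) (nat_lit 370)) (XT.lf (nat_lit 0) (nat_lit 2136217517) (nat_lit 1824) (nat_lit 2116170703) (nat_lit 1900) (nat_lit 14072056217) (nat_lit 470) (nat_lit 5) (nat_lit 494) (nat_lit 5) (nat_lit 495) (nat_lit 5) (nat_lit 603) (nat_lit 588) (nat_lit 369)))) (XT.nd (nat_lit 156) (nat_lit 0) (nat_lit 76) (XT.nd (nat_lit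 78) (nat_lit 0) (nat_lit 0) (XT.lf (nat_lit 0) (nat_lit 3272117924) (nat_lit 1824) (nat_lit 10995569655) (nat_lit 1900) (nat_lit 4244771430) (nat_lit 471) (nat_lit 5) (nat_lit 495) (nat_lit 5) (nat_lit 496) (nat_lit 5) (nat_lit 604) (nat_lit 588) (nat_lit 368)) (XT.lf (nat_lit 0) (nat_lit 4467876107) (nat_lit 1824) (nat_lit 1364886189) (nat_lit 1900) (nat_lit 12870729258) (nat_lit 471) (nat_lit 5) (nat_lit 495) (nat_lit 5) (nat_lit 496) (nat_lit 5) (nat_lit 605) (nat_lit 588) (nat_lit 367))) (XT.nd (nat_lit 78) (nat_lit 0) (nat_lit 0) (XT.lf (nat_lit 0) (nat_lit 5756326238) (nat_lit 1824) (nat_lit 10348835885) (nat_lit 1900) (nat_lit 2791807562) (nat_lit 472) (nat_lit 5) (nat_lit 496) (nat_lit 5) (nat_lit 497) (nat_lit 5) (nat_lit 606) (nat_lit 588) (nat_lit 366)) (XT.lf (nat_lit 0) (nat_lit 7113265782) (nat_lit 1824) (nat_lit 458891206) (nat_lit 1900) (nat_lit 11521306441) (nat_lit 472) (nat_lit 5) (nat_lit 496) (nat_lit 5) (nat_lit 497) (nat_lit 5) (nat_lit 607)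 (nat_lit 588) (nat_lit 365))))))))
noncomputable def xc212 : XT := (XT.nd (nat_lit 2106) (nat_lit 9424) (nat_lit 0) (XT.nd (nat_lit 1014) (nat_lit 6460) (nat_lit 0) (XT.nd (nat_lit 468) (nat_lit 2964) (nat_lit 0) (XT.nd (nat_lit 234) (nat_lit 1672) (nat_lit 0) (XT.nd (nat_lit 78) (nat_lit 0) (nat_lit 0) (XT.lf (nat_lit 0) (nat_lit 8563412870) (nat_lit 1824) (nat_lit 9547638129) (nat_lit 1900) (nat_lit 1181515127) (nat_lit 473) (nat_lit 5) (nat_lit 497) (nat_lit 5) (nat_lit 498) (nat_lit 5) (nat_lit 608) (nat_lit 588) (nat_lit 364)) (XT.nd (nat_lit 78) (nat_lit 0) (nat_lit 0) (XT.lf (nat_lit 76) (nat_lit 617397830) (nat_lit 0) (nat_lit 9477474093) (nat_lit 1900) (nat_lit 9399733214) (nat_lit 474) (nat_lit 5) (nat_lit 473) (nat_lit 5) (nat_lit 498) (nat_lit 5) (nat_lit 609) (nat_lit 588) (nat_lit 363)) (XT.lf (nat_lit 76) (nat_lit 11111194473) (nat_lit 0) (nat_lit 604960565) (nat_lit 1900) (nat_lit 7983346427) (nat_lit 474) (nat_lit 5) (nat_lit 473) (nat_lit 5) (nat_lit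 498) (nat_lit 5) (nat_lit 610) (nat_lit 588) (nat_lit 362)))) (XT.nd (nat_lit 78) (nat_lit 1748) (nat_lit 0) (XT.lf (nat_lit 76) (nat_lit 1872108862) (nat_lit 0) (nat_lit 11559967092) (nat_lit 1900) (nat_lit 6475175947) (nat_lit 475) (nat_lit 5) (nat_lit 474) (nat_lit 5) (nat_lit 499) (nat_lit 5) (nat_lit 611) (nat_lit 588) (nat_lit 361)) (XT.nd (nat_lit 78) (nat_lit 1748) (nat_lit 0) (XT.lf (nat_lit 76) (nat_lit 12650131461) (nat_lit 0) (nat_lit 2589090391) (nat_lit 1900) (nat_lit 4878797780) (nat_lit 475) (nat_lit 5) (nat_lit 474) (nat_lit 5) (nat_lit 499) (nat_lit 5) (nat_lit 612) (nat_lit 588) (nat_lit 360)) (XT.lf (nat_lit 0) (nat_lit 3307512188) (nat_lit 1824) (nat_lit 13834464246) (nat_lit 1900) (nat_lit 3189837375) (nat_lit 451) (nat_lit 5) (nat_lit 475) (nat_lit 5) (nat_lit 476) (nat_lit 5) (nat_lit 613) (nat_lit 588) (nat_lit 359))))) (XT.nd (nat_lit 234) (nat_lit 1824) (nat_lit 0) (XT.nd (nat_lit 78) (nat_lit 1140) (nat_lit 0) (XT.lf (nat_lit 0) (nat_lit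 14378323223) (nat_lit 1824) (nat_lit 4767066052) (nat_lit 1900) (nat_lit 1403242932) (nat_lit 451) (nat_lit 5) (nat_lit 475) (nat_lit 5) (nat_lit 476) (nat_lit 5) (nat_lit 614) (nat_lit 588) (nat_lit 358)) (XT.nd (nat_lit 78) (nat_lit 0) (nat_lit 0) (XT.lf (nat_lit 0) (nat_lit 470633405) (nat_lit 1140) (nat_lit 15839363726) (nat_lit 76) (nat_lit 4458594881) (nat_lit 436) (nat_lit 5) (nat_lit 451) (nat_lit 5) (nat_lit 437) (nat_lit 5) (nat_lit 615) (nat_lit 588) (nat_lit 357)) (XT.lf (nat_lit 0) (nat_lit 2432046926) (nat_lit 1140) (nat_lit 4702864721) (nat_lit 76) (nat_lit 13856477255) (nat_lit 436) (nat_lit 5) (nat_lit 451) (nat_lit 5) (nat_lit 437) (nat_lit 5) (nat_lit 616) (nat_lit 588) (nat_lit 356)))) (XT.nd (nat_lit 156) (nat_lit 912) (nat_lit 0) (XT.nd (nat_lit 78) (nat_lit 0) (nat_lit 0) (XT.lf (nat_lit 0) (nat_lit 4486852804) (nat_lit 988) (nat_lit 14491734437) (nat_lit 76) (nat_lit 2238971574) (nat_lit 424) (nat_lit 5) (nat_lit 437) (nat_lit 5) (nat_lit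 425) (nat_lit 5) (nat_lit 617) (nat_lit 588) (nat_lit 355)) (XT.lf (nat_lit 0) (nat_lit 6657503594) (nat_lit 988) (nat_lit 3052230290) (nat_lit 76) (nat_lit 11737023630) (nat_lit 424) (nat_lit 5) (nat_lit 437) (nat_lit 5) (nat_lit 425) (nat_lit 5) (nat_lit 618) (nat_lit 588) (nat_lit 354))) (XT.nd (nat_lit 78) (nat_lit 0) (nat_lit 0) (XT.lf (nat_lit 0) (nat_lit 8726608014) (nat_lit 912) (nat_lit 197432067) (nat_lit 988) (nat_lit 12755451009) (nat_lit 412) (nat_lit 5) (nat_lit 424) (nat_lit 5) (nat_lit 425) (nat_lit 5) (nat_lit 619) (nat_lit 588) (nat_lit 353)) (XT.lf (nat_lit 0) (nat_lit 11314110775) (nat_lit 988) (nat_lit 1199887787) (nat_lit 76) (nat_lit 9401317053) (nat_lit 412) (nat_lit 5) (nat_lit 425) (nat_lit 5) (nat_lit 413) (nat_lit 5) (nat_lit 620) (nat_lit 588) (nat_lit 352)))))) (XT.nd (nat_lit 546) (nat_lit 3040) (nat_lit 0) (XT.nd (nat_lit 234) (nat_lit 1748) (nat_lit 0) (XT.nd (nat_lit 78) (nat_lit 836) (nat_lit 0) (XT.lf (nat_lit 0) (nat_lit 10926271890)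 (nat_lit 836) (nat_lit 2893912279) (nat_lit 912) (nat_lit 8334308779) (nat_lit 401) (nat_lit 5) (nat_lit 412) (nat_lit 5) (nat_lit 413) (nat_lit 5) (nat_lit 621) (nat_lit 588) (nat_lit 351)) (XT.nd (nat_lit 78) (nat_lit 0) (nat_lit 0) (XT.lf (nat_lit 0) (nat_lit 875492205) (nat_lit 836) (nat_lit 15555604587) (nat_lit 912) (nat_lit 5966263015) (nat_lit 390) (nat_lit 5) (nat_lit 401) (nat_lit 5) (nat_lit 402) (nat_lit 5) (nat_lit 622) (nat_lit 588) (nat_lit 350)) (XT.lf (nat_lit 0) (nat_lit 13350144003) (nat_lit 836) (nat_lit 5834530967) (nat_lit 912) (nat_lit 3458600415) (nat_lit 390) (nat_lit 5) (nat_lit 401) (nat_lit 5) (nat_lit 402) (nat_lit 5) (nat_lit 623) (nat_lit 588) (nat_lit 349)))) (XT.nd (nat_lit 156) (nat_lit 836) (nat_lit 0) (XT.nd (nat_lit 78) (nat_lit 76) (nat_lit 0) (XT.lf (nat_lit 0) (nat_lit 3191623527) (nat_lit 836) (nat_lit 18845058149) (nat_lit 912) (nat_lit 856560782) (nat_lit 379) (nat_lit 5) (nat_lit 390) (nat_lit 5) (nat_lit 391) (nat_lit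 5) (nat_lit 624) (nat_lit 588) (nat_lit 348)) (XT.lf (nat_lit 0) (nat_lit 1871522316) (nat_lit 912) (nat_lit 7149584160) (nat_lit 76) (nat_lit 14124917743) (nat_lit 378) (nat_lit 5) (nat_lit 390) (nat_lit 5) (nat_lit 379) (nat_lit 5) (nat_lit 625) (nat_lit 588) (nat_lit 347))) (XT.nd (nat_lit 78) (nat_lit 0) (nat_lit 0) (XT.lf (nat_lit 0) (nat_lit 4682849396) (nat_lit 912) (nat_lit 17690894869) (nat_lit 76) (nat_lit 1029201383) (nat_lit 367) (nat_lit 5) (nat_lit 379) (nat_lit 5) (nat_lit 368) (nat_lit 5) (nat_lit 626) (nat_lit 588) (nat_lit 346)) (XT.lf (nat_lit 0) (nat_lit 7654727247) (nat_lit 912) (nat_lit 4800188086) (nat_lit 76) (nat_lit 11208003984) (nat_lit 367) (nat_lit 5) (nat_lit 379) (nat_lit 5) (nat_lit 368) (nat_lit 5) (nat_lit 627) (nat_lit 588) (nat_lit 345))))) (XT.nd (nat_lit 234) (nat_lit 1520) (nat_lit 0) (XT.nd (nat_lit 78) (nat_lit 760) (nat_lit 0) (XT.lf (nat_lit 0) (nat_lit 8455388652) (nat_lit 760) (nat_lit 2281911406) (nat_lit 836) (nat_lit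 13189767547) (nat_lit 357) (nat_lit 5) (nat_lit 367) (nat_lit 5) (nat_lit 368) (nat_lit 5) (nat_lit 628) (nat_lit 588) (nat_lit 344)) (XT.nd (nat_lit 78) (nat_lit 760) (nat_lit 0) (XT.lf (nat_lit 0) (nat_lit 13962909260) (nat_lit 836) (nat_lit 2211362026) (nat_lit 76) (nat_lit 8020600160) (nat_lit 357) (nat_lit 5) (nat_lit 368) (nat_lit 5) (nat_lit 358) (nat_lit 5) (nat_lit 629) (nat_lit 588) (nat_lit 343)) (XT.lf (nat_lit 0) (nat_lit 11445349595) (nat_lit 760) (nat_lit 5893578963) (nat_lit 836) (nat_lit 7127385127) (nat_lit 347) (nat_lit 5) (nat_lit 357) (nat_lit 5) (nat_lit 358) (nat_lit 5) (nat_lit 630) (nat_lit 588) (nat_lit 342)))) (XT.nd (nat_lit 156) (nat_lit 836) (nat_lit 0) (XT.nd (nat_lit 78) (nat_lit 0) (nat_lit 0) (XT.lf (nat_lit 0) (nat_lit 636868058) (nat_lit 684) (nat_lit 20191009574) (nat_lit 760) (nat_lit 3914399224) (nat_lit 338) (nat_lit 5) (nat_lit 347) (nat_lit 5) (nat_lit 348) (nat_lit 5) (nat_lit 631) (nat_lit 588) (nat_lit 341)) (XT.lf (nat_lit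 0) (nat_lit 14700985424) (nat_lit 684) (nat_lit 9808332490) (nat_lit 760) (nat_lit 511987402) (nat_lit 338) (nat_lit 5) (nat_lit 347) (nat_lit 5) (nat_lit 348) (nat_lit 5) (nat_lit 632) (nat_lit 588) (nat_lit 340))) (XT.nd (nat_lit 78) (nat_lit 0) (nat_lit 0) (XT.lf (nat_lit 0) (nat_lit 2946098591) (nat_lit 836) (nat_lit 21543602761) (nat_lit 76) (nat_lit 815300548) (nat_lit 327) (nat_lit 5) (nat_lit 338) (nat_lit 5) (nat_lit 328) (nat_lit 5) (nat_lit 633) (nat_lit 588) (nat_lit 339)) (XT.lf (nat_lit 0) (nat_lit 6597811816) (nat_lit 836) (nat_lit 7400980220) (nat_lit 76) (nat_lit 11592886528) (nat_lit 327) (nat_lit 5) (nat_lit 338) (nat_lit 5) (nat_lit 328) (nat_lit 5) (nat_lit 634) (nat_lit 588) (nat_lit 338))))))) (XT.nd (nat_lit 1014) (nat_lit 4180) (nat_lit 0) (XT.nd (nat_lit 468) (nat_lit 2508) (nat_lit 0) (XT.nd (nat_lit 234) (nat_lit 1368) (nat_lit 0) (XT.nd (nat_lit 78) (nat_lit 684) (nat_lit 0) (XT.lf (nat_lit 0) (nat_lit 7114036864) (nat_lit 684) (nat_lit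 3251422614) (nat_lit 760) (nat_lit 15517771529) (nat_lit 318) (nat_lit 5) (nat_lit 327) (nat_lit 5) (nat_lit 328) (nat_lit 5) (nat_lit 635) (nat_lit 588) (nat_lit 337)) (XT.nd (nat_lit 78) (nat_lit 684) (nat_lit 0) (XT.lf (nat_lit 0) (nat_lit 14305265917) (nat_lit 760) (nat_lit 4214134931) (nat_lit 76) (nat_lit 7659277779) (nat_lit 318) (nat_lit 5) (nat_lit 328) (nat_lit 5) (nat_lit 319) (nat_lit 5) (nat_lit 636) (nat_lit 588) (nat_lit 336)) (XT.lf (nat_lit 0) (nat_lit 10747728609) (nat_lit 684) (nat_lit 7664265825) (nat_lit 760) (nat_lit 8066278485) (nat_lit 309) (nat_lit 5) (nat_lit 318) (nat_lit 5) (nat_lit 319) (nat_lit 5) (nat_lit 637) (nat_lit 588) (nat_lit 335)))) (XT.nd (nat_lit 78) (nat_lit 1368) (nat_lit 0) (XT.lf (nat_lit 0) (nat_lit 22648297582) (nat_lit 760) (nat_lit 743412302) (nat_lit 76) (nat_lit 3391200646) (nat_lit 309) (nat_lit 5) (nat_lit 319) (nat_lit 5) (nat_lit 310) (nat_lit 5) (nat_lit 638) (nat_lit 588) (nat_lit 334)) (XT.nd (nat_lit 78)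 (nat_lit 684) (nat_lit 0) (XT.lf (nat_lit 0) (nat_lit 21250981) (nat_lit 684) (nat_lit 12409348225) (nat_lit 76) (nat_lit 14660179362) (nat_lit 300) (nat_lit 5) (nat_lit 309) (nat_lit 5) (nat_lit 301) (nat_lit 5) (nat_lit 639) (nat_lit 588) (nat_lit 333)) (XT.lf (nat_lit 0) (nat_lit 3028749830) (nat_lit 684) (nat_lit 1197783151) (nat_lit 760) (nat_lit 23177291346) (nat_lit 291) (nat_lit 5) (nat_lit 300) (nat_lit 5) (nat_lit 301) (nat_lit 5) (nat_lit 640) (nat_lit 588) (nat_lit 332))))) (XT.nd (nat_lit 234) (nat_lit 1900) (nat_lit 0) (XT.nd (nat_lit 78) (nat_lit 608) (nat_lit 0) (XT.lf (nat_lit 0) (nat_lit 8663315473) (nat_lit 760) (nat_lit 8848541374) (nat_lit 76) (nat_lit 10208326474) (nat_lit 291) (nat_lit 5) (nat_lit 301) (nat_lit 5) (nat_lit 292) (nat_lit 5) (nat_lit 641) (nat_lit 588) (nat_lit 331)) (XT.nd (nat_lit 78) (nat_lit 0) (nat_lit 0) (XT.lf (nat_lit 0) (nat_lit 7069649523) (nat_lit 608) (nat_lit 6170034350) (nat_lit 684) (nat_lit 14802168829) (nat_lit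 283) (nat_lit 5) (nat_lit 291) (nat_lit 5) (nat_lit 292) (nat_lit 5) (nat_lit 642) (nat_lit 588) (nat_lit 330)) (XT.lf (nat_lit 0) (nat_lit 17999450176) (nat_lit 684) (nat_lit 4981754939) (nat_lit 76) (nat_lit 5386913154) (nat_lit 283) (nat_lit 5) (nat_lit 292) (nat_lit 5) (nat_lit 284) (nat_lit 5) (nat_lit 643) (nat_lit 588) (nat_lit 329)))) (XT.nd (nat_lit 156) (nat_lit 1292) (nat_lit 0) (XT.nd (nat_lit 78) (nat_lit 0) (nat_lit 0) (XT.lf (nat_lit 0) (nat_lit 11433981309) (nat_lit 608) (nat_lit 11532634011) (nat_lit 684) (nat_lit 5732049961) (nat_lit 275) (nat_lit 5) (nat_lit 283) (nat_lit 5) (nat_lit 284) (nat_lit 5) (nat_lit 644) (nat_lit 588) (nat_lit 328)) (XT.lf (nat_lit 0) (nat_lit 28064850226) (nat_lit 684) (nat_lit 794402961) (nat_lit 76) (nat_lit 175935716) (nat_lit 275) (nat_lit 5) (nat_lit 284) (nat_lit 5) (nat_lit 276) (nat_lit 5) (nat_lit 645) (nat_lit 588) (nat_lit 327))) (XT.nd (nat_lit 78) (nat_lit 608) (nat_lit 0) (XT.lf (nat_lit 0) (nat_lit 4015151337)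 (nat_lit 684) (nat_lit 13264319885) (nat_lit 76) (nat_lit 12094876919) (nat_lit 266) (nat_lit 5) (nat_lit 275) (nat_lit 5) (nat_lit 267) (nat_lit 5) (nat_lit 646) (nat_lit 588) (nat_lit 326)) (XT.lf (nat_lit 0) (nat_lit 3681363158) (nat_lit 608) (nat_lit 5432478989) (nat_lit 684) (nat_lit 20605790651) (nat_lit 258) (nat_lit 5) (nat_lit 266) (nat_lit 5) (nat_lit 267) (nat_lit 5) (nat_lit 647) (nat_lit 588) (nat_lit 325)))))) (XT.nd (nat_lit 546) (nat_lit 1976) (nat_lit 0) (XT.nd (nat_lit 234) (nat_lit 1672) (nat_lit 0) (XT.nd (nat_lit 78) (nat_lit 532) (nat_lit 0) (XT.lf (nat_lit 0) (nat_lit 14444522600) (nat_lit 684) (nat_lit 8971673192) (nat_lit 76) (nat_lit 6653027223) (nat_lit 258) (nat_lit 5) (nat_lit 267) (nat_lit 5) (nat_lit 259) (nat_lit 5) (nat_lit 648) (nat_lit 588) (nat_lit 324)) (XT.nd (nat_lit 78) (nat_lit 0) (nat_lit 0) (XT.lf (nat_lit 0) (nat_lit 8508321227) (nat_lit 532) (nat_lit 11461998232) (nat_lit 608) (nat_lit 10453715704) (nat_lit 251) (nat_lit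 5) (nat_lit 258) (nat_lit 5) (nat_lit 259) (nat_lit 5) (nat_lit 649) (nat_lit 588) (nat_lit 323)) (XT.lf (nat_lit 0) (nat_lit 25669292982) (nat_lit 608) (nat_lit 4333927777) (nat_lit 76) (nat_lit 781469758) (nat_lit 251) (nat_lit 5) (nat_lit 259) (nat_lit 5) (nat_lit 252) (nat_lit 5) (nat_lit 650) (nat_lit 588) (nat_lit 322)))) (XT.nd (nat_lit 156) (nat_lit 532) (nat_lit 0) (XT.nd (nat_lit 78) (nat_lit 532) (nat_lit 0) (XT.lf (nat_lit 0) (nat_lit 488654567) (nat_lit 608) (nat_lit 17452768524) (nat_lit 76) (nat_lit 13207827417) (nat_lit 243) (nat_lit 5) (nat_lit 251) (nat_lit 5) (nat_lit 244) (nat_lit 5) (nat_lit 651) (nat_lit 588) (nat_lit 321)) (XT.lf (nat_lit 0) (nat_lit 595961582) (nat_lit 532) (nat_lit 5570913752) (nat_lit 608) (nat_lit 25352938621) (nat_lit 236) (nat_lit 5) (nat_lit 243) (nat_lit 5) (nat_lit 244) (nat_lit 5) (nat_lit 652) (nat_lit 588) (nat_lit 320))) (XT.nd (nat_lit 78) (nat_lit 532) (nat_lit 0) (XT.lf (nat_lit 0) (nat_lit 12119704123) (nat_lit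 608) (nat_lit 12703268408) (nat_lit 76) (nat_lit 7071595433) (nat_lit 236) (nat_lit 5) (nat_lit 244) (nat_lit 5) (nat_lit 237) (nat_lit 5) (nat_lit 653) (nat_lit 588) (nat_lit 319)) (XT.lf (nat_lit 0) (nat_lit 5918995999) (nat_lit 532) (nat_lit 12345364940) (nat_lit 608) (nat_lit 14011000845) (nat_lit 229) (nat_lit 5) (nat_lit 236) (nat_lit 5) (nat_lit 237) (nat_lit 5) (nat_lit 654) (nat_lit 588) (nat_lit 318))))) (XT.nd (nat_lit 234) (nat_lit 1444) (nat_lit 0) (XT.nd (nat_lit 78) (nat_lit 532) (nat_lit 0) (XT.lf (nat_lit 0) (nat_lit 24617669565) (nat_lit 608) (nat_lit 7582696471) (nat_lit 76) (nat_lit 461690429) (nat_lit 229) (nat_lit 5) (nat_lit 237) (nat_lit 5) (nat_lit 230) (nat_lit 5) (nat_lit 655) (nat_lit 588) (nat_lit 317)) (XT.nd (nat_lit 78) (nat_lit 76) (nat_lit 0) (XT.lf (nat_lit 0) (nat_lit 11633848928) (nat_lit 456) (nat_lit 19619006748) (nat_lit 532) (nat_lit 1800533293) (nat_lit 223) (nat_lit 5) (nat_lit 229) (nat_lit 5) (nat_lit 230) (nat_lit 5)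 (nat_lit 656) (nat_lit 588) (nat_lit 316)) (XT.lf (nat_lit 0) (nat_lit 4557034965) (nat_lit 532) (nat_lit 2147446930) (nat_lit 76) (nat_lit 26746498175) (nat_lit 222) (nat_lit 5) (nat_lit 229) (nat_lit 5) (nat_lit 223) (nat_lit 5) (nat_lit 657) (nat_lit 588) (nat_lit 315)))) (XT.nd (nat_lit 156) (nat_lit 456) (nat_lit 0) (XT.nd (nat_lit 78) (nat_lit 456) (nat_lit 0) (XT.lf (nat_lit 0) (nat_lit 11173175049) (nat_lit 608) (nat_lit 16169565437) (nat_lit 76) (nat_lit 6510434030) (nat_lit 215) (nat_lit 5) (nat_lit 223) (nat_lit 5) (nat_lit 216) (nat_lit 5) (nat_lit 658) (nat_lit 588) (nat_lit 314)) (XT.lf (nat_lit 0) (nat_lit 3677624541) (nat_lit 456) (nat_lit 14324395001) (nat_lit 532) (nat_lit 16259785820) (nat_lit 209) (nat_lit 5) (nat_lit 215) (nat_lit 5) (nat_lit 216) (nat_lit 5) (nat_lit 659) (nat_lit 588) (nat_lit 313))) (XT.nd (nat_lit 78) (nat_lit 456) (nat_lit 0) (XT.lf (nat_lit 0) (nat_lit 24137580325) (nat_lit 456) (nat_lit 935989737) (nat_lit 532) (nat_lit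 9602916321) (nat_lit 209) (nat_lit 5) (nat_lit 215) (nat_lit 5) (nat_lit 216) (nat_lit 5) (nat_lit 660) (nat_lit 588) (nat_lit 312)) (XT.lf (nat_lit 0) (nat_lit 9951871615) (nat_lit 456) (nat_lit 22479545190) (nat_lit 532) (nat_lit 2665147052) (nat_lit 203) (nat_lit 5) (nat_lit 209) (nat_lit 5) (nat_lit 210) (nat_lit 5) (nat_lit 661) (nat_lit 588) (nat_lit 311))))))))
noncomputable def xc213 : XT := (XT.nd (nat_lit 77376) (nat_lit 0) (nat_lit 8360) (XT.nd (nat_lit 76284) (nat_lit 0) (nat_lit 21204) (XT.nd (nat_lit 75738) (nat_lit 0) (nat_lit 22724) (XT.nd (nat_lit 75504) (nat_lit 0) (nat_lit 22648) (XT.nd (nat_lit 78) (nat_lit 912) (nat_lit 0) (XT.lf (nat_lit 0) (nat_lit 4428582211) (nat_lit 532) (nat_lit 4566958941) (nat_lit 76) (nat_lit 26527427816) (nat_lit 202) (nat_lit 5) (nat_lit 209) (nat_lit 5) (nat_lit 203) (nat_lit 5) (nat_lit 662) (nat_lit 588) (nat_lit 310)) (XT.nd (nat_lit 78) (nat_lit 456) (nat_lit 0) (XT.lf (nat_lit 0) (nat_lit 11765872778) (nat_lit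 532) (nat_lit 19367788743) (nat_lit 76) (nat_lit 4821140997) (nat_lit 196) (nat_lit 5) (nat_lit 203) (nat_lit 5) (nat_lit 197) (nat_lit 5) (nat_lit 663) (nat_lit 588) (nat_lit 309)) (XT.lf (nat_lit 0) (nat_lit 1791739279) (nat_lit 456) (nat_lit 17557960630) (nat_lit 532) (nat_lit 17043577141) (nat_lit 190) (nat_lit 5) (nat_lit 196) (nat_lit 5) (nat_lit 197) (nat_lit 5) (nat_lit 664) (nat_lit 588) (nat_lit 308)))) (XT.nd (nat_lit 78) (nat_lit 0) (nat_lit 0) (XT.lf (nat_lit 0) (nat_lit 2351570069) (nat_lit 0) (nat_lit 2351570069) (nat_lit 1748) (nat_lit 3348827542) (nat_lit 488) (nat_lit 5) (nat_lit 488) (nat_lit 3) (nat_lit 511) (nat_lit 3) (nat_lit 589) (nat_lit 589) (nat_lit 382)) (XT.nd (nat_lit 78) (nat_lit 0) (nat_lit 0) (XT.lf (nat_lit 0) (nat_lit 9777398859) (nat_lit 1748) (nat_lit 3463487482) (nat_lit 1824) (nat_lit 3018523184) (nat_lit 488) (nat_lit 5) (nat_lit 511) (nat_lit 3) (nat_lit 512) (nat_lit 5) (nat_lit 590) (nat_lit 589) (nat_lit 381)) (XT.lf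 (nat_lit 76) (nat_lit 4658992670) (nat_lit 0) (nat_lit 5551618564) (nat_lit 1824) (nat_lit 6206289142) (nat_lit 489) (nat_lit 5) (nat_lit 488) (nat_lit 5) (nat_lit 512) (nat_lit 5) (nat_lit 591) (nat_lit 589) (nat_lit 380))))) (XT.nd (nat_lit 234) (nat_lit 0) (nat_lit 76) (XT.nd (nat_lit 78) (nat_lit 0) (nat_lit 0) (XT.lf (nat_lit 0) (nat_lit 10684165903) (nat_lit 1748) (nat_lit 3604897252) (nat_lit 1824) (nat_lit 2287844947) (nat_lit 489) (nat_lit 5) (nat_lit 512) (nat_lit 5) (nat_lit 513) (nat_lit 5) (nat_lit 592) (nat_lit 589) (nat_lit 379)) (XT.nd (nat_lit 78) (nat_lit 0) (nat_lit 76) (XT.lf (nat_lit 76) (nat_lit 4732891702) (nat_lit 0) (nat_lit 6495328826) (nat_lit 1824) (nat_lit 5510675483) (nat_lit 490) (nat_lit 5) (nat_lit 489) (nat_lit 5) (nat_lit 513) (nat_lit 5) (nat_lit 593) (nat_lit 589) (nat_lit 378)) (XT.lf (nat_lit 0) (nat_lit 11810605261) (nat_lit 1748) (nat_lit 3630651593) (nat_lit 1824) (nat_lit 1462318440) (nat_lit 490) (nat_lit 5) (nat_lit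 513) (nat_lit 5) (nat_lit 514) (nat_lit 5) (nat_lit 594) (nat_lit 589) (nat_lit 377)))) (XT.nd (nat_lit 156) (nat_lit 0) (nat_lit 76) (XT.nd (nat_lit 78) (nat_lit 0) (nat_lit 76) (XT.lf (nat_lit 76) (nat_lit 4930215040) (nat_lit 0) (nat_lit 7543228593) (nat_lit 1824) (nat_lit 4596728993) (nat_lit 491) (nat_lit 5) (nat_lit 490) (nat_lit 5) (nat_lit 514) (nat_lit 5) (nat_lit 595) (nat_lit 589) (nat_lit 376)) (XT.lf (nat_lit 0) (nat_lit 13171287943) (nat_lit 1748) (nat_lit 3535345426) (nat_lit 1824) (nat_lit 533034125) (nat_lit 491) (nat_lit 5) (nat_lit 514) (nat_lit 5) (nat_lit 515) (nat_lit 5) (nat_lit 596) (nat_lit 589) (nat_lit 375))) (XT.nd (nat_lit 78) (nat_lit 0) (nat_lit 0) (XT.lf (nat_lit 76) (nat_lit 5256665834) (nat_lit 0) (nat_lit 8704522986) (nat_lit 1824) (nat_lit 3449802006) (nat_lit 492) (nat_lit 5) (nat_lit 491) (nat_lit 5) (nat_lit 515) (nat_lit 5) (nat_lit 597) (nat_lit 589) (nat_lit 374)) (XT.lf (nat_lit 76) (nat_lit 14268783964) (nat_lit 0) (nat_lit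 515936165) (nat_lit 1824) (nat_lit 2800664398) (nat_lit 492) (nat_lit 5) (nat_lit 491) (nat_lit 5) (nat_lit 515) (nat_lit 5) (nat_lit 598) (nat_lit 589) (nat_lit 373)))))) (XT.nd (nat_lit 546) (nat_lit 0) (nat_lit 152) (XT.nd (nat_lit 234) (nat_lit 1748) (nat_lit 0) (XT.nd (nat_lit 78) (nat_lit 0) (nat_lit 0) (XT.lf (nat_lit 76) (nat_lit 5718280881) (nat_lit 0) (nat_lit 9988685444) (nat_lit 1824) (nat_lit 2054655430) (nat_lit 493) (nat_lit 5) (nat_lit 492) (nat_lit 5) (nat_lit 516) (nat_lit 5) (nat_lit 599) (nat_lit 589) (nat_lit 372)) (XT.nd (nat_lit 78) (nat_lit 0) (nat_lit 76) (XT.lf (nat_lit 76) (nat_lit 14971665082) (nat_lit 0) (nat_lit 1695969974) (nat_lit 1824) (nat_lit 1273349648) (nat_lit 493) (nat_lit 5) (nat_lit 492) (nat_lit 5) (nat_lit 516) (nat_lit 5) (nat_lit 600) (nat_lit 589) (nat_lit 371)) (XT.lf (nat_lit 76) (nat_lit 6321439504) (nat_lit 0) (nat_lit 11405478929) (nat_lit 1824) (nat_lit 395428971) (nat_lit 494) (nat_lit 5) (nat_lit 493) (nat_lit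 5) (nat_lit 517) (nat_lit 5) (nat_lit 601) (nat_lit 589) (nat_lit 370)))) (XT.nd (nat_lit 156) (nat_lit 0) (nat_lit 76) (XT.nd (nat_lit 78) (nat_lit 0) (nat_lit 76) (XT.lf (nat_lit 0) (nat_lit 519280106) (nat_lit 1824) (nat_lit 2487076392) (nat_lit 1900) (nat_lit 15300400661) (nat_lit 469) (nat_lit 5) (nat_lit 493) (nat_lit 5) (nat_lit 494) (nat_lit 5) (nat_lit 602) (nat_lit 589) (nat_lit 369)) (XT.lf (nat_lit 0) (nat_lit 1524134629) (nat_lit 1824) (nat_lit 11430615137) (nat_lit 1900) (nat_lit 5538510634) (nat_lit 470) (nat_lit 5) (nat_lit 494) (nat_lit 5) (nat_lit 495) (nat_lit 5) (nat_lit 603) (nat_lit 589) (nat_lit 368))) (XT.nd (nat_lit 78) (nat_lit 0) (nat_lit 76) (XT.lf (nat_lit 0) (nat_lit 2580495147) (nat_lit 1824) (nat_lit 1869915256) (nat_lit 1900) (nat_lit 14232455603) (nat_lit 470) (nat_lit 5) (nat_lit 494) (nat_lit 5) (nat_lit 495) (nat_lit 5) (nat_lit 604) (nat_lit 589) (nat_lit 367)) (XT.lf (nat_lit 0) (nat_lit 3732394491) (nat_lit 1824) (nat_lit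 10920147574) (nat_lit 1900) (nat_lit 4222233896) (nat_lit 471) (nat_lit 5) (nat_lit 495) (nat_lit 5) (nat_lit 496) (nat_lit 5) (nat_lit 605) (nat_lit 589) (nat_lit 366))))) (XT.nd (nat_lit 234) (nat_lit 0) (nat_lit 152) (XT.nd (nat_lit 78) (nat_lit 0) (nat_lit 76) (XT.lf (nat_lit 0) (nat_lit 4944325991) (nat_lit 1824) (nat_lit 1102641292) (nat_lit 1900) (nat_lit 13022817410) (nat_lit 471) (nat_lit 5) (nat_lit 495) (nat_lit 5) (nat_lit 496) (nat_lit 5) (nat_lit 606) (nat_lit 589) (nat_lit 365)) (XT.nd (nat_lit 78) (nat_lit 0) (nat_lit 0) (XT.lf (nat_lit 0) (nat_lit 6252214042) (nat_lit 1824) (nat_lit 10259904736) (nat_lit 1900) (nat_lit 2755140912) (nat_lit 472) (nat_lit 5) (nat_lit 496) (nat_lit 5) (nat_lit 497) (nat_lit 5) (nat_lit 607) (nat_lit 589) (nat_lit 364)) (XT.lf (nat_lit 0) (nat_lit 7628826470) (nat_lit 1824) (nat_lit 177963279) (nat_lit 1900) (nat_lit 11661043549) (nat_lit 472) (nat_lit 5) (nat_lit 496) (nat_lit 5) (nat_lit 497) (nat_lit 5) (nat_lit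 608) (nat_lit 589) (nat_lit 363)))) (XT.nd (nat_lit 156) (nat_lit 0) (nat_lit 0) (XT.nd (nat_lit 78) (nat_lit 0) (nat_lit 0) (XT.lf (nat_lit 0) (nat_lit 9102011010) (nat_lit 1824) (nat_lit 9442486815) (nat_lit 1900) (nat_lit 1126540190) (nat_lit 473) (nat_lit 5) (nat_lit 497) (nat_lit 5) (nat_lit 498) (nat_lit 5) (nat_lit 609) (nat_lit 589) (nat_lit 362)) (XT.lf (nat_lit 76) (nat_lit 923901810) (nat_lit 0) (nat_lit 9734904743) (nat_lit 1900) (nat_lit 9218417751) (nat_lit 474) (nat_lit 5) (nat_lit 473) (nat_lit 5) (nat_lit 498) (nat_lit 5) (nat_lit 610) (nat_lit 589) (nat_lit 361))) (XT.nd (nat_lit 78) (nat_lit 0) (nat_lit 76) (XT.lf (nat_lit 76) (nat_lit 11621806620) (nat_lit 0) (nat_lit 683609940) (nat_lit 1900) (nat_lit 7780944604) (nat_lit 474) (nat_lit 5) (nat_lit 473) (nat_lit 5) (nat_lit 498) (nat_lit 5) (nat_lit 611) (nat_lit 589) (nat_lit 360)) (XT.lf (nat_lit 76) (nat_lit 2203554671) (nat_lit 0) (nat_lit 11846626899) (nat_lit 1900) (nat_lit 6248195145)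 (nat_lit 475) (nat_lit 5) (nat_lit 474) (nat_lit 5) (nat_lit 499) (nat_lit 5) (nat_lit 612) (nat_lit 589) (nat_lit 359))))))) (XT.nd (nat_lit 1092) (nat_lit 5928) (nat_lit 0) (XT.nd (nat_lit 546) (nat_lit 3496) (nat_lit 0) (XT.nd (nat_lit 234) (nat_lit 2052) (nat_lit 0) (XT.nd (nat_lit 78) (nat_lit 1748) (nat_lit 0) (XT.lf (nat_lit 76) (nat_lit 13191372944) (nat_lit 0) (nat_lit 2695245204) (nat_lit 1900) (nat_lit 4626879303) (nat_lit 475) (nat_lit 5) (nat_lit 474) (nat_lit 5) (nat_lit 499) (nat_lit 5) (nat_lit 613) (nat_lit 589) (nat_lit 358)) (XT.nd (nat_lit 78) (nat_lit 0) (nat_lit 0) (XT.lf (nat_lit 0) (nat_lit 3667192973) (nat_lit 1824) (nat_lit 14155076661) (nat_lit 1900) (nat_lit 2909401637) (nat_lit 451) (nat_lit 5) (nat_lit 475) (nat_lit 5) (nat_lit 476) (nat_lit 5) (nat_lit 614) (nat_lit 589) (nat_lit 357)) (XT.lf (nat_lit 0) (nat_lit 14953664729) (nat_lit 1824) (nat_lit 4905469265) (nat_lit 1900) (nat_lit 1093824962) (nat_lit 451) (nat_lit 5) (nat_lit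 475) (nat_lit 5) (nat_lit 476) (nat_lit 5) (nat_lit 615) (nat_lit 589) (nat_lit 356)))) (XT.nd (nat_lit 156) (nat_lit 912) (nat_lit 0) (XT.nd (nat_lit 78) (nat_lit 0) (nat_lit 0) (XT.lf (nat_lit 0) (nat_lit 808209703) (nat_lit 1140) (nat_lit 15859000150) (nat_lit 76) (nat_lit 4510162702) (nat_lit 436) (nat_lit 5) (nat_lit 451) (nat_lit 5) (nat_lit 437) (nat_lit 5) (nat_lit 616) (nat_lit 589) (nat_lit 355)) (XT.lf (nat_lit 0) (nat_lit 2802416913) (nat_lit 1140) (nat_lit 4505597651) (nat_lit 76) (nat_lit 14096740058) (nat_lit 436) (nat_lit 5) (nat_lit 451) (nat_lit 5) (nat_lit 437) (nat_lit 5) (nat_lit 617) (nat_lit 589) (nat_lit 354))) (XT.nd (nat_lit 78) (nat_lit 0) (nat_lit 0) (XT.lf (nat_lit 0) (nat_lit 4893708431) (nat_lit 988) (nat_lit 14485607346) (nat_lit 76) (nat_lit 2256224906) (nat_lit 424) (nat_lit 5) (nat_lit 437) (nat_lit 5) (nat_lit 425) (nat_lit 5) (nat_lit 618) (nat_lit 589) (nat_lit 353)) (XT.lf (nat_lit 0) (nat_lit 7101554225) (nat_lit 988) (nat_lit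 2823116289) (nat_lit 76) (nat_lit 11944777731) (nat_lit 424) (nat_lit 5) (nat_lit 437) (nat_lit 5) (nat_lit 425) (nat_lit 5) (nat_lit 619) (nat_lit 589) (nat_lit 352))))) (XT.nd (nat_lit 234) (nat_lit 1748) (nat_lit 0) (XT.nd (nat_lit 78) (nat_lit 836) (nat_lit 0) (XT.lf (nat_lit 0) (nat_lit 9189389843) (nat_lit 912) (nat_lit 219807017) (nat_lit 988) (nat_lit 12697724641) (nat_lit 412) (nat_lit 5) (nat_lit 424) (nat_lit 5) (nat_lit 425) (nat_lit 5) (nat_lit 620) (nat_lit 589) (nat_lit 351)) (XT.nd (nat_lit 78) (nat_lit 836) (nat_lit 0) (XT.lf (nat_lit 0) (nat_lit 11840938424) (nat_lit 988) (nat_lit 935131901) (nat_lit 76) (nat_lit 9571515311) (nat_lit 412) (nat_lit 5) (nat_lit 425) (nat_lit 5) (nat_lit 413) (nat_lit 5) (nat_lit 621) (nat_lit 589) (nat_lit 350)) (XT.lf (nat_lit 0) (nat_lit 11431651275) (nat_lit 836) (nat_lit 2961451409) (nat_lit 912) (nat_lit 8198524941) (nat_lit 401) (nat_lit 5) (nat_lit 412) (nat_lit 5) (nat_lit 413) (nat_lit 5) (nat_lit 622)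 (nat_lit 589) (nat_lit 349)))) (XT.nd (nat_lit 156) (nat_lit 912) (nat_lit 0) (XT.nd (nat_lit 78) (nat_lit 0) (nat_lit 0) (XT.lf (nat_lit 0) (nat_lit 1183947115) (nat_lit 836) (nat_lit 15868299941) (nat_lit 912) (nat_lit 5787184983) (nat_lit 390) (nat_lit 5) (nat_lit 401) (nat_lit 5) (nat_lit 402) (nat_lit 5) (nat_lit 623) (nat_lit 589) (nat_lit 348)) (XT.lf (nat_lit 0) (nat_lit 13902387144) (nat_lit 836) (nat_lit 5952773805) (nat_lit 912) (nat_lit 3235220176) (nat_lit 390) (nat_lit 5) (nat_lit 401) (nat_lit 5) (nat_lit 402) (nat_lit 5) (nat_lit 624) (nat_lit 589) (nat_lit 347))) (XT.nd (nat_lit 78) (nat_lit 76) (nat_lit 0) (XT.lf (nat_lit 0) (nat_lit 3544551565) (nat_lit 836) (nat_lit 19215899962) (nat_lit 912) (nat_lit 584971606) (nat_lit 379) (nat_lit 5) (nat_lit 390) (nat_lit 5) (nat_lit 391) (nat_lit 5) (nat_lit 625) (nat_lit 589) (nat_lit 346)) (XT.lf (nat_lit 0) (nat_lit 2188299597) (nat_lit 912) (nat_lit 7005413905) (nat_lit 76) (nat_lit 14409621725) (nat_lit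 378) (nat_lit 5) (nat_lit 390) (nat_lit 5) (nat_lit 379) (nat_lit 5) (nat_lit 626) (nat_lit 589) (nat_lit 345)))))) (XT.nd (nat_lit 546) (nat_lit 2888) (nat_lit 0) (XT.nd (nat_lit 234) (nat_lit 1444) (nat_lit 0) (XT.nd (nat_lit 78) (nat_lit 760) (nat_lit 0) (XT.lf (nat_lit 0) (nat_lit 5052290021) (nat_lit 912) (nat_lit 17753965533) (nat_lit 76) (nat_lit 1059211236) (nat_lit 367) (nat_lit 5) (nat_lit 379) (nat_lit 5) (nat_lit 368) (nat_lit 5) (nat_lit 627) (nat_lit 589) (nat_lit 344)) (XT.nd (nat_lit 78) (nat_lit 760) (nat_lit 0) (XT.lf (nat_lit 0) (nat_lit 8078197908) (nat_lit 912) (nat_lit 4611145541) (nat_lit 76) (nat_lit 11441405069) (nat_lit 367) (nat_lit 5) (nat_lit 379) (nat_lit 5) (nat_lit 368) (nat_lit 5) (nat_lit 628) (nat_lit 589) (nat_lit 343)) (XT.lf (nat_lit 0) (nat_lit 8907667428) (nat_lit 760) (nat_lit 2311291788) (nat_lit 836) (nat_lit 13181290239) (nat_lit 357) (nat_lit 5) (nat_lit 367) (nat_lit 5) (nat_lit 368) (nat_lit 5) (nat_lit 629) (nat_lit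 589) (nat_lit 342)))) (XT.nd (nat_lit 156) (nat_lit 684) (nat_lit 0) (XT.nd (nat_lit 78) (nat_lit 760) (nat_lit 0) (XT.lf (nat_lit 0) (nat_lit 14503950498) (nat_lit 836) (nat_lit 1972819709) (nat_lit 76) (nat_lit 8196742184) (nat_lit 357) (nat_lit 5) (nat_lit 368) (nat_lit 5) (nat_lit 358) (nat_lit 5) (nat_lit 630) (nat_lit 589) (nat_lit 341)) (XT.lf (nat_lit 0) (nat_lit 11955165819) (nat_lit 760) (nat_lit 5989015211) (nat_lit 836) (nat_lit 7006269037) (nat_lit 347) (nat_lit 5) (nat_lit 357) (nat_lit 5) (nat_lit 358) (nat_lit 5) (nat_lit 631) (nat_lit 589) (nat_lit 340))) (XT.nd (nat_lit 78) (nat_lit 0) (nat_lit 0) (XT.lf (nat_lit 0) (nat_lit 933677606) (nat_lit 684) (nat_lit 20566150558) (nat_lit 760) (nat_lit 3732166356) (nat_lit 338) (nat_lit 5) (nat_lit 347) (nat_lit 5) (nat_lit 348) (nat_lit 5) (nat_lit 632) (nat_lit 589) (nat_lit 339)) (XT.lf (nat_lit 0) (nat_lit 15273507276) (nat_lit 684) (nat_lit 9976382269) (nat_lit 760) (nat_lit 266814549) (nat_lit 338)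 (nat_lit 5) (nat_lit 347) (nat_lit 5) (nat_lit 348) (nat_lit 5) (nat_lit 633) (nat_lit 589) (nat_lit 338))))) (XT.nd (nat_lit 234) (nat_lit 1368) (nat_lit 0) (XT.nd (nat_lit 78) (nat_lit 684) (nat_lit 0) (XT.lf (nat_lit 0) (nat_lit 3254160809) (nat_lit 836) (nat_lit 21689662220) (nat_lit 76) (nat_lit 862277244) (nat_lit 327) (nat_lit 5) (nat_lit 338) (nat_lit 5) (nat_lit 328) (nat_lit 5) (nat_lit 634) (nat_lit 589) (nat_lit 337)) (XT.nd (nat_lit 78) (nat_lit 684) (nat_lit 0) (XT.lf (nat_lit 0) (nat_lit 6974023195) (nat_lit 836) (nat_lit 7269771789) (nat_lit 76) (nat_lit 11854813558) (nat_lit 327) (nat_lit 5) (nat_lit 338) (nat_lit 5) (nat_lit 328) (nat_lit 5) (nat_lit 635) (nat_lit 589) (nat_lit 336)) (XT.lf (nat_lit 0) (nat_lit 7533708610) (nat_lit 684) (nat_lit 3280326890) (nat_lit 760) (nat_lit 15582016663) (nat_lit 318) (nat_lit 5) (nat_lit 327) (nat_lit 5) (nat_lit 328) (nat_lit 5) (nat_lit 636) (nat_lit 589) (nat_lit 335)))) (XT.nd (nat_lit 156) (nat_lit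 684) (nat_lit 0) (XT.nd (nat_lit 78) (nat_lit 684) (nat_lit 0) (XT.lf (nat_lit 0) (nat_lit 14828137289) (nat_lit 760) (nat_lit 4021947108) (nat_lit 76) (nat_lit 7847414708) (nat_lit 318) (nat_lit 5) (nat_lit 328) (nat_lit 5) (nat_lit 319) (nat_lit 5) (nat_lit 637) (nat_lit 589) (nat_lit 334)) (XT.lf (nat_lit 0) (nat_lit 11237334817) (nat_lit 684) (nat_lit 7776806308) (nat_lit 760) (nat_lit 7989001692) (nat_lit 309) (nat_lit 5) (nat_lit 318) (nat_lit 5) (nat_lit 319) (nat_lit 5) (nat_lit 638) (nat_lit 589) (nat_lit 333))) (XT.nd (nat_lit 78) (nat_lit 684) (nat_lit 0) (XT.lf (nat_lit 0) (nat_lit 23330843284) (nat_lit 760) (nat_lit 484670104) (nat_lit 76) (nat_lit 3498446676) (nat_lit 309) (nat_lit 5) (nat_lit 319) (nat_lit 5) (nat_lit 310) (nat_lit 5) (nat_lit 639) (nat_lit 589) (nat_lit 332)) (XT.lf (nat_lit 0) (nat_lit 250037759) (nat_lit 684) (nat_lit 12382673588) (nat_lit 76) (nat_lit 14995299139) (nat_lit 300) (nat_lit 5) (nat_lit 309) (nat_lit 5) (nat_lit 301)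 (nat_lit 5) (nat_lit 640) (nat_lit 589) (nat_lit 331))))))))
noncomputable def xc214 : XT := (XT.nd (nat_lit 77454) (nat_lit 0) (nat_lit 17328) (XT.nd (nat_lit 1014) (nat_lit 3040) (nat_lit 0) (XT.nd (nat_lit 468) (nat_lit 2964) (nat_lit 0) (XT.nd (nat_lit 234) (nat_lit 608) (nat_lit 0) (XT.nd (nat_lit 78) (nat_lit 608) (nat_lit 0) (XT.lf (nat_lit 0) (nat_lit 3362378129) (nat_lit 684) (nat_lit 1174342432) (nat_lit 760) (nat_lit 23410651018) (nat_lit 291) (nat_lit 5) (nat_lit 300) (nat_lit 5) (nat_lit 301) (nat_lit 5) (nat_lit 641) (nat_lit 589) (nat_lit 330)) (XT.nd (nat_lit 78) (nat_lit 608) (nat_lit 0) (XT.lf (nat_lit 0) (nat_lit 9058115752) (nat_lit 760) (nat_lit 8753674154) (nat_lit 76) (nat_lit 10458350621) (nat_lit 291) (nat_lit 5) (nat_lit 301) (nat_lit 5) (nat_lit 292) (nat_lit 5) (nat_lit 642) (nat_lit 589) (nat_lit 329)) (XT.lf (nat_lit 0) (nat_lit 7481092153) (nat_lit 608) (nat_lit 6242328905) (nat_lit 684) (nat_lit 14874874356) (nat_lit 283) (nat_lit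 5) (nat_lit 291) (nat_lit 5) (nat_lit 292) (nat_lit 5) (nat_lit 643) (nat_lit 589) (nat_lit 328)))) (XT.nd (nat_lit 78) (nat_lit 608) (nat_lit 0) (XT.lf (nat_lit 0) (nat_lit 18574414986) (nat_lit 684) (nat_lit 4812652619) (nat_lit 76) (nat_lit 5544098345) (nat_lit 283) (nat_lit 5) (nat_lit 292) (nat_lit 5) (nat_lit 284) (nat_lit 5) (nat_lit 644) (nat_lit 589) (nat_lit 327)) (XT.nd (nat_lit 78) (nat_lit 0) (nat_lit 0) (XT.lf (nat_lit 0) (nat_lit 11929630344) (nat_lit 608) (nat_lit 11708811219) (nat_lit 684) (nat_lit 5629932273) (nat_lit 275) (nat_lit 5) (nat_lit 283) (nat_lit 5) (nat_lit 284) (nat_lit 5) (nat_lit 645) (nat_lit 589) (nat_lit 326)) (XT.lf (nat_lit 0) (nat_lit 28834821375) (nat_lit 684) (nat_lit 544721934) (nat_lit 76) (nat_lit 232161309) (nat_lit 275) (nat_lit 5) (nat_lit 284) (nat_lit 5) (nat_lit 276) (nat_lit 5) (nat_lit 646) (nat_lit 589) (nat_lit 325))))) (XT.nd (nat_lit 234) (nat_lit 1672) (nat_lit 0) (XT.nd (nat_lit 78) (nat_lit 608) (nat_lit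 0) (XT.lf (nat_lit 0) (nat_lit 4303130067) (nat_lit 684) (nat_lit 13263010447) (nat_lit 76) (nat_lit 12391527063) (nat_lit 266) (nat_lit 5) (nat_lit 275) (nat_lit 5) (nat_lit 267) (nat_lit 5) (nat_lit 647) (nat_lit 589) (nat_lit 324)) (XT.nd (nat_lit 78) (nat_lit 0) (nat_lit 0) (XT.lf (nat_lit 0) (nat_lit 4019832337) (nat_lit 608) (nat_lit 5481609813) (nat_lit 684) (nat_lit 20808463102) (nat_lit 258) (nat_lit 5) (nat_lit 266) (nat_lit 5) (nat_lit 267) (nat_lit 5) (nat_lit 648) (nat_lit 589) (nat_lit 323)) (XT.lf (nat_lit 0) (nat_lit 14935089126) (nat_lit 684) (nat_lit 8887797164) (nat_lit 76) (nat_lit 6843674196) (nat_lit 258) (nat_lit 5) (nat_lit 267) (nat_lit 5) (nat_lit 259) (nat_lit 5) (nat_lit 649) (nat_lit 589) (nat_lit 322)))) (XT.nd (nat_lit 156) (nat_lit 1140) (nat_lit 0) (XT.nd (nat_lit 78) (nat_lit 0) (nat_lit 0) (XT.lf (nat_lit 0) (nat_lit 8940064844) (nat_lit 532) (nat_lit 11629080977) (nat_lit 608) (nat_lit 10459368440) (nat_lit 251) (nat_lit 5) (nat_lit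 258) (nat_lit 5) (nat_lit 259) (nat_lit 5) (nat_lit 650) (nat_lit 589) (nat_lit 321)) (XT.lf (nat_lit 0) (nat_lit 26378584272) (nat_lit 608) (nat_lit 4160630615) (nat_lit 76) (nat_lit 857238385) (nat_lit 251) (nat_lit 5) (nat_lit 259) (nat_lit 5) (nat_lit 252) (nat_lit 5) (nat_lit 651) (nat_lit 589) (nat_lit 320))) (XT.nd (nat_lit 78) (nat_lit 532) (nat_lit 0) (XT.lf (nat_lit 0) (nat_lit 693464215) (nat_lit 608) (nat_lit 17540954167) (nat_lit 76) (nat_lit 13533903962) (nat_lit 243) (nat_lit 5) (nat_lit 251) (nat_lit 5) (nat_lit 244) (nat_lit 5) (nat_lit 652) (nat_lit 589) (nat_lit 319)) (XT.lf (nat_lit 0) (nat_lit 867034293) (nat_lit 532) (nat_lit 5616073455) (nat_lit 608) (nat_lit 25663232389) (nat_lit 236) (nat_lit 5) (nat_lit 243) (nat_lit 5) (nat_lit 244) (nat_lit 5) (nat_lit 653) (nat_lit 589) (nat_lit 318)))))) (XT.nd (nat_lit 546) (nat_lit 988) (nat_lit 0) (XT.nd (nat_lit 234) (nat_lit 1520) (nat_lit 0) (XT.nd (nat_lit 78) (nat_lit 532) (nat_lit 0) (XT.lf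 (nat_lit 0) (nat_lit 12551632618) (nat_lit 608) (nat_lit 12699889284) (nat_lit 76) (nat_lit 7277134773) (nat_lit 236) (nat_lit 5) (nat_lit 244) (nat_lit 5) (nat_lit 237) (nat_lit 5) (nat_lit 654) (nat_lit 589) (nat_lit 317)) (XT.nd (nat_lit 78) (nat_lit 0) (nat_lit 0) (XT.lf (nat_lit 0) (nat_lit 6293126698) (nat_lit 532) (nat_lit 12524000016) (nat_lit 608) (nat_lit 14099981010) (nat_lit 229) (nat_lit 5) (nat_lit 236) (nat_lit 5) (nat_lit 237) (nat_lit 5) (nat_lit 655) (nat_lit 589) (nat_lit 316)) (XT.lf (nat_lit 0) (nat_lit 25294260039) (nat_lit 608) (nat_lit 7480361374) (nat_lit 76) (nat_lit 536979944) (nat_lit 229) (nat_lit 5) (nat_lit 237) (nat_lit 5) (nat_lit 230) (nat_lit 5) (nat_lit 656) (nat_lit 589) (nat_lit 315)))) (XT.nd (nat_lit 156) (nat_lit 988) (nat_lit 0) (XT.nd (nat_lit 78) (nat_lit 76) (nat_lit 0) (XT.lf (nat_lit 0) (nat_lit 12118843952) (nat_lit 456) (nat_lit 19941331644) (nat_lit 532) (nat_lit 1650624626) (nat_lit 223) (nat_lit 5) (nat_lit 229)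 (nat_lit 5) (nat_lit 230) (nat_lit 5) (nat_lit 657) (nat_lit 589) (nat_lit 314)) (XT.lf (nat_lit 0) (nat_lit 4828058965) (nat_lit 532) (nat_lit 1940623849) (nat_lit 76) (nat_lit 27347708358) (nat_lit 222) (nat_lit 5) (nat_lit 229) (nat_lit 5) (nat_lit 223) (nat_lit 5) (nat_lit 658) (nat_lit 589) (nat_lit 313))) (XT.nd (nat_lit 78) (nat_lit 456) (nat_lit 0) (XT.lf (nat_lit 0) (nat_lit 11575061280) (nat_lit 608) (nat_lit 16241713534) (nat_lit 76) (nat_lit 6709884118) (nat_lit 215) (nat_lit 5) (nat_lit 223) (nat_lit 5) (nat_lit 216) (nat_lit 5) (nat_lit 659) (nat_lit 589) (nat_lit 312)) (XT.lf (nat_lit 0) (nat_lit 4000767328) (nat_lit 456) (nat_lit 14537837356) (nat_lit 532) (nat_lit 16404895478) (nat_lit 209) (nat_lit 5) (nat_lit 215) (nat_lit 5) (nat_lit 216) (nat_lit 5) (nat_lit 660) (nat_lit 589) (nat_lit 311))))) (XT.nd (nat_lit 234) (nat_lit 456) (nat_lit 0) (XT.nd (nat_lit 78) (nat_lit 532) (nat_lit 0) (XT.lf (nat_lit 0) (nat_lit 24865028300) (nat_lit 456)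 (nat_lit 883096252) (nat_lit 532) (nat_lit 9618419688) (nat_lit 209) (nat_lit 5) (nat_lit 215) (nat_lit 5) (nat_lit 216) (nat_lit 5) (nat_lit 661) (nat_lit 589) (nat_lit 310)) (XT.nd (nat_lit 78) (nat_lit 76) (nat_lit 0) (XT.lf (nat_lit 0) (nat_lit 10396982698) (nat_lit 456) (nat_lit 22854805263) (nat_lit 532) (nat_lit 2543262308) (nat_lit 203) (nat_lit 5) (nat_lit 209) (nat_lit 5) (nat_lit 210) (nat_lit 5) (nat_lit 662) (nat_lit 589) (nat_lit 309)) (XT.lf (nat_lit 0) (nat_lit 4686653920) (nat_lit 532) (nat_lit 4414787257) (nat_lit 76) (nat_lit 27128587549) (nat_lit 202) (nat_lit 5) (nat_lit 209) (nat_lit 5) (nat_lit 203) (nat_lit 5) (nat_lit 663) (nat_lit 589) (nat_lit 308)))) (XT.nd (nat_lit 75504) (nat_lit 0) (nat_lit 22192) (XT.nd (nat_lit 75426) (nat_lit 0) (nat_lit 22192) (XT.lf (nat_lit 0) (nat_lit 12169418908) (nat_lit 532) (nat_lit 19510352832) (nat_lit 76) (nat_lit 4990752824) (nat_lit 196) (nat_lit 5) (nat_lit 203) (nat_lit 5) (nat_lit 197) (nat_lit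 5) (nat_lit 664) (nat_lit 589) (nat_lit 307)) (XT.lf (nat_lit 0) (nat_lit 2526365060) (nat_lit 0) (nat_lit 2526365060) (nat_lit 1748) (nat_lit 3155142452) (nat_lit 488) (nat_lit 5) (nat_lit 488) (nat_lit 3) (nat_lit 511) (nat_lit 3) (nat_lit 590) (nat_lit 590) (nat_lit 380))) (XT.nd (nat_lit 78) (nat_lit 0) (nat_lit 0) (XT.lf (nat_lit 0) (nat_lit 10472353999) (nat_lit 1748) (nat_lit 3270546297) (nat_lit 1824) (nat_lit 2831662379) (nat_lit 488) (nat_lit 5) (nat_lit 511) (nat_lit 3) (nat_lit 512) (nat_lit 5) (nat_lit 591) (nat_lit 590) (nat_lit 379)) (XT.lf (nat_lit 76) (nat_lit 5012658387) (nat_lit 0) (nat_lit 5893471185) (nat_lit 1824) (nat_lit 5829236711) (nat_lit 489) (nat_lit 5) (nat_lit 488) (nat_lit 5) (nat_lit 512) (nat_lit 5) (nat_lit 592) (nat_lit 590) (nat_lit 378))))))) (XT.nd (nat_lit 1014) (nat_lit 3420) (nat_lit 0) (XT.nd (nat_lit 468) (nat_lit 1520) (nat_lit 0) (XT.nd (nat_lit 234) (nat_lit 0) (nat_lit 76) (XT.nd (nat_lit 78) (nat_lit 0) (nat_lit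 0) (XT.lf (nat_lit 0) (nat_lit 11378052627) (nat_lit 1748) (nat_lit 3410469117) (nat_lit 1824) (nat_lit 2110275375) (nat_lit 489) (nat_lit 5) (nat_lit 512) (nat_lit 5) (nat_lit 513) (nat_lit 5) (nat_lit 593) (nat_lit 590) (nat_lit 377)) (XT.nd (nat_lit 78) (nat_lit 0) (nat_lit 76) (XT.lf (nat_lit 76) (nat_lit 5092322155) (nat_lit 0) (nat_lit 6832969516) (nat_lit 1824) (nat_lit 5138887933) (nat_lit 490) (nat_lit 5) (nat_lit 489) (nat_lit 5) (nat_lit 513) (nat_lit 5) (nat_lit 594) (nat_lit 590) (nat_lit 376)) (XT.lf (nat_lit 0) (nat_lit 12508736960) (nat_lit 1748) (nat_lit 3433053160) (nat_lit 1824) (nat_lit 1290574962) (nat_lit 490) (nat_lit 5) (nat_lit 513) (nat_lit 5) (nat_lit 514) (nat_lit 5) (nat_lit 595) (nat_lit 590) (nat_lit 375)))) (XT.nd (nat_lit 78) (nat_lit 0) (nat_lit 76) (XT.lf (nat_lit 76) (nat_lit 5297253099) (nat_lit 0) (nat_lit 7880264603) (nat_lit 1824) (nat_lit 4224923796) (nat_lit 491) (nat_lit 5) (nat_lit 490) (nat_lit 5) (nat_lit 514) (nat_lit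 5) (nat_lit 596) (nat_lit 590) (nat_lit 374)) (XT.nd (nat_lit 78) (nat_lit 0) (nat_lit 0) (XT.lf (nat_lit 0) (nat_lit 13879220023) (nat_lit 1748) (nat_lit 3332741464) (nat_lit 1824) (nat_lit 363567586) (nat_lit 491) (nat_lit 5) (nat_lit 514) (nat_lit 5) (nat_lit 515) (nat_lit 5) (nat_lit 597) (nat_lit 590) (nat_lit 373)) (XT.lf (nat_lit 76) (nat_lit 5633311923) (nat_lit 0) (nat_lit 9044654026) (nat_lit 1824) (nat_lit 3072452800) (nat_lit 492) (nat_lit 5) (nat_lit 491) (nat_lit 5) (nat_lit 515) (nat_lit 5) (nat_lit 598) (nat_lit 590) (nat_lit 372))))) (XT.nd (nat_lit 234) (nat_lit 1672) (nat_lit 0) (XT.nd (nat_lit 78) (nat_lit 0) (nat_lit 76) (XT.lf (nat_lit 76) (nat_lit 14820348635) (nat_lit 0) (nat_lit 689039771) (nat_lit 1824) (nat_lit 2419084307) (nat_lit 492) (nat_lit 5) (nat_lit 491) (nat_lit 5) (nat_lit 515) (nat_lit 5) (nat_lit 599) (nat_lit 590) (nat_lit 371)) (XT.nd (nat_lit 78) (nat_lit 0) (nat_lit 0) (XT.lf (nat_lit 76) (nat_lit 6106696999) (nat_lit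 0) (nat_lit 10335714409) (nat_lit 1824) (nat_lit 1665977425) (nat_lit 493) (nat_lit 5) (nat_lit 492) (nat_lit 5) (nat_lit 516) (nat_lit 5) (nat_lit 600) (nat_lit 590) (nat_lit 370)) (XT.lf (nat_lit 76) (nat_lit 15539775344) (nat_lit 0) (nat_lit 1874257272) (nat_lit 1824) (nat_lit 877472412) (nat_lit 493) (nat_lit 5) (nat_lit 492) (nat_lit 5) (nat_lit 516) (nat_lit 5) (nat_lit 601) (nat_lit 590) (nat_lit 369)))) (XT.nd (nat_lit 156) (nat_lit 0) (nat_lit 76) (XT.nd (nat_lit 78) (nat_lit 0) (nat_lit 0) (XT.lf (nat_lit 0) (nat_lit 10496579) (nat_lit 1824) (nat_lit 11752755723) (nat_lit 1900) (nat_lit 6713386561) (nat_lit 469) (nat_lit 5) (nat_lit 493) (nat_lit 5) (nat_lit 494) (nat_lit 5) (nat_lit 602) (nat_lit 590) (nat_lit 368)) (XT.lf (nat_lit 0) (nat_lit 930199322) (nat_lit 1824) (nat_lit 2260786939) (nat_lit 1900) (nat_lit 15473859115) (nat_lit 469) (nat_lit 5) (nat_lit 493) (nat_lit 5) (nat_lit 494) (nat_lit 5) (nat_lit 603) (nat_lit 590) (nat_lit 367))) (XT.nd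 (nat_lit 78) (nat_lit 0) (nat_lit 0) (XT.lf (nat_lit 0) (nat_lit 1948297007) (nat_lit 1824) (nat_lit 11376306989) (nat_lit 1900) (nat_lit 5530612475) (nat_lit 470) (nat_lit 5) (nat_lit 494) (nat_lit 5) (nat_lit 495) (nat_lit 5) (nat_lit 604) (nat_lit 590) (nat_lit 366)) (XT.lf (nat_lit 0) (nat_lit 3018065526) (nat_lit 1824) (nat_lit 1629940570) (nat_lit 1900) (nat_lit 14400763175) (nat_lit 470) (nat_lit 5) (nat_lit 494) (nat_lit 5) (nat_lit 495) (nat_lit 5) (nat_lit 605) (nat_lit 590) (nat_lit 365)))))) (XT.nd (nat_lit 546) (nat_lit 3572) (nat_lit 0) (XT.nd (nat_lit 234) (nat_lit 0) (nat_lit 76) (XT.nd (nat_lit 78) (nat_lit 0) (nat_lit 0) (XT.lf (nat_lit 0) (nat_lit 4186544696) (nat_lit 1824) (nat_lit 10854685211) (nat_lit 1900) (nat_lit 4203417365) (nat_lit 471) (nat_lit 5) (nat_lit 495) (nat_lit 5) (nat_lit 496) (nat_lit 5) (nat_lit 606) (nat_lit 590) (nat_lit 364)) (XT.nd (nat_lit 78) (nat_lit 0) (nat_lit 76) (XT.lf (nat_lit 0) (nat_lit 5415273604) (nat_lit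 1824) (nat_lit 846394789) (nat_lit 1900) (nat_lit 13182037278) (nat_lit 471) (nat_lit 5) (nat_lit 495) (nat_lit 5) (nat_lit 496) (nat_lit 5) (nat_lit 607) (nat_lit 590) (nat_lit 363)) (XT.lf (nat_lit 0) (nat_lit 6743234177) (nat_lit 1824) (nat_lit 10180685428) (nat_lit 1900) (nat_lit 2721332926) (nat_lit 472) (nat_lit 5) (nat_lit 496) (nat_lit 5) (nat_lit 497) (nat_lit 5) (nat_lit 608) (nat_lit 590) (nat_lit 362)))) (XT.nd (nat_lit 156) (nat_lit 0) (nat_lit 76) (XT.nd (nat_lit 78) (nat_lit 0) (nat_lit 76) (XT.lf (nat_lit 76) (nat_lit 98611351) (nat_lit 0) (nat_lit 8042231756) (nat_lit 1900) (nat_lit 11709125864) (nat_lit 473) (nat_lit 5) (nat_lit 472) (nat_lit 5) (nat_lit 497) (nat_lit 5) (nat_lit 609) (nat_lit 590) (nat_lit 361)) (XT.lf (nat_lit 0) (nat_lit 9637117245) (nat_lit 1824) (nat_lit 9346730557) (nat_lit 1900) (nat_lit 1073518092) (nat_lit 473) (nat_lit 5) (nat_lit 497) (nat_lit 5) (nat_lit 498) (nat_lit 5) (nat_lit 610) (nat_lit 590) (nat_lit 360)))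 (XT.nd (nat_lit 78) (nat_lit 0) (nat_lit 0) (XT.lf (nat_lit 76) (nat_lit 1225113433) (nat_lit 0) (nat_lit 9994848097) (nat_lit 1900) (nat_lit 9047816741) (nat_lit 474) (nat_lit 5) (nat_lit 473) (nat_lit 5) (nat_lit 498) (nat_lit 5) (nat_lit 611) (nat_lit 590) (nat_lit 359)) (XT.lf (nat_lit 76) (nat_lit 12131432544) (nat_lit 0) (nat_lit 761248080) (nat_lit 1900) (nat_lit 7588554315) (nat_lit 474) (nat_lit 5) (nat_lit 473) (nat_lit 5) (nat_lit 498) (nat_lit 5) (nat_lit 612) (nat_lit 590) (nat_lit 358))))) (XT.nd (nat_lit 234) (nat_lit 2052) (nat_lit 0) (XT.nd (nat_lit 78) (nat_lit 1748) (nat_lit 0) (XT.lf (nat_lit 76) (nat_lit 2530212876) (nat_lit 0) (nat_lit 12136866305) (nat_lit 1900) (nat_lit 6030517447) (nat_lit 475) (nat_lit 5) (nat_lit 474) (nat_lit 5) (nat_lit 499) (nat_lit 5) (nat_lit 613) (nat_lit 590) (nat_lit 357)) (XT.nd (nat_lit 78) (nat_lit 1748) (nat_lit 0) (XT.lf (nat_lit 76) (nat_lit 13732246592) (nat_lit 0) (nat_lit 2801411743) (nat_lit 1900) (nat_lit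 4383493751) (nat_lit 475) (nat_lit 5) (nat_lit 474) (nat_lit 5) (nat_lit 499) (nat_lit 5) (nat_lit 614) (nat_lit 590) (nat_lit 356)) (XT.lf (nat_lit 0) (nat_lit 4022669226) (nat_lit 1824) (nat_lit 14480395736) (nat_lit 1900) (nat_lit 2636724151) (nat_lit 451) (nat_lit 5) (nat_lit 475) (nat_lit 5) (nat_lit 476) (nat_lit 5) (nat_lit 615) (nat_lit 590) (nat_lit 355)))) (XT.nd (nat_lit 156) (nat_lit 912) (nat_lit 0) (XT.nd (nat_lit 78) (nat_lit 1140) (nat_lit 0) (XT.lf (nat_lit 0) (nat_lit 15529338409) (nat_lit 1824) (nat_lit 5044968397) (nat_lit 1900) (nat_lit 791323502) (nat_lit 451) (nat_lit 5) (nat_lit 475) (nat_lit 5) (nat_lit 476) (nat_lit 5) (nat_lit 616) (nat_lit 590) (nat_lit 354)) (XT.lf (nat_lit 0) (nat_lit 1139794533) (nat_lit 1140) (nat_lit 15890568031) (nat_lit 76) (nat_lit 4564222093) (nat_lit 436) (nat_lit 5) (nat_lit 451) (nat_lit 5) (nat_lit 437) (nat_lit 5) (nat_lit 617) (nat_lit 590) (nat_lit 353))) (XT.nd (nat_lit 78) (nat_lit 912) (nat_lit 0)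 (XT.lf (nat_lit 0) (nat_lit 3167701169) (nat_lit 1140) (nat_lit 4315697720) (nat_lit 76) (nat_lit 14343239699) (nat_lit 436) (nat_lit 5) (nat_lit 451) (nat_lit 5) (nat_lit 437) (nat_lit 5) (nat_lit 618) (nat_lit 590) (nat_lit 352)) (XT.lf (nat_lit 0) (nat_lit 5296387069) (nat_lit 988) (nat_lit 14490850271) (nat_lit 76) (nat_lit 2274892177) (nat_lit 424) (nat_lit 5) (nat_lit 437) (nat_lit 5) (nat_lit 425) (nat_lit 5) (nat_lit 619) (nat_lit 590) (nat_lit 351))))))))
noncomputable def xc215 : XT := (XT.nd (nat_lit 2106) (nat_lit 5548) (nat_lit 0) (XT.nd (nat_lit 1014) (nat_lit 5472) (nat_lit 0) (XT.nd (nat_lit 468) (nat_lit 3268) (nat_lit 0) (XT.nd (nat_lit 234) (nat_lit 1672) (nat_lit 0) (XT.nd (nat_lit 78) (nat_lit 912) (nat_lit 0) (XT.lf (nat_lit 0) (nat_lit 7542413221) (nat_lit 988) (nat_lit 2600687220) (nat_lit 76) (nat_lit 12157734827) (nat_lit 424) (nat_lit 5) (nat_lit 437) (nat_lit 5) (nat_lit 425) (nat_lit 5) (nat_lit 620) (nat_lit 590) (nat_lit 350)) (XT.nd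 (nat_lit 78) (nat_lit 0) (nat_lit 0) (XT.lf (nat_lit 0) (nat_lit 9650234222) (nat_lit 912) (nat_lit 241913950) (nat_lit 988) (nat_lit 12650991525) (nat_lit 412) (nat_lit 5) (nat_lit 424) (nat_lit 5) (nat_lit 425) (nat_lit 5) (nat_lit 621) (nat_lit 590) (nat_lit 349)) (XT.lf (nat_lit 0) (nat_lit 12366632080) (nat_lit 988) (nat_lit 676293552) (nat_lit 76) (nat_lit 9745809821) (nat_lit 412) (nat_lit 5) (nat_lit 425) (nat_lit 5) (nat_lit 413) (nat_lit 5) (nat_lit 622) (nat_lit 590) (nat_lit 348)))) (XT.nd (nat_lit 78) (nat_lit 836) (nat_lit 0) (XT.lf (nat_lit 0) (nat_lit 11935999359) (nat_lit 836) (nat_lit 3029966177) (nat_lit 912) (nat_lit 8071770705) (nat_lit 401) (nat_lit 5) (nat_lit 412) (nat_lit 5) (nat_lit 413) (nat_lit 5) (nat_lit 623) (nat_lit 590) (nat_lit 347)) (XT.nd (nat_lit 78) (nat_lit 0) (nat_lit 0) (XT.lf (nat_lit 0) (nat_lit 1487273371) (nat_lit 836) (nat_lit 16187187723) (nat_lit 912) (nat_lit 5616112753) (nat_lit 390) (nat_lit 5) (nat_lit 401) (nat_lit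 5) (nat_lit 402) (nat_lit 5) (nat_lit 624) (nat_lit 590) (nat_lit 346)) (XT.lf (nat_lit 0) (nat_lit 14454598920) (nat_lit 836) (nat_lit 6073321225) (nat_lit 912) (nat_lit 3018732492) (nat_lit 390) (nat_lit 5) (nat_lit 401) (nat_lit 5) (nat_lit 402) (nat_lit 5) (nat_lit 625) (nat_lit 590) (nat_lit 345))))) (XT.nd (nat_lit 234) (nat_lit 1520) (nat_lit 0) (XT.nd (nat_lit 78) (nat_lit 912) (nat_lit 0) (XT.lf (nat_lit 0) (nat_lit 3893312230) (nat_lit 836) (nat_lit 19594393903) (nat_lit 912) (nat_lit 319162012) (nat_lit 379) (nat_lit 5) (nat_lit 390) (nat_lit 5) (nat_lit 391) (nat_lit 5) (nat_lit 626) (nat_lit 590) (nat_lit 344)) (XT.nd (nat_lit 78) (nat_lit 836) (nat_lit 0) (XT.lf (nat_lit 0) (nat_lit 2500565046) (nat_lit 912) (nat_lit 6869511092) (nat_lit 76) (nat_lit 14699934140) (nat_lit 378) (nat_lit 5) (nat_lit 390) (nat_lit 5) (nat_lit 379) (nat_lit 5) (nat_lit 627) (nat_lit 590) (nat_lit 343)) (XT.lf (nat_lit 0) (nat_lit 5418410445) (nat_lit 912) (nat_lit 17829587680)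 (nat_lit 76) (nat_lit 1089455270) (nat_lit 367) (nat_lit 5) (nat_lit 379) (nat_lit 5) (nat_lit 368) (nat_lit 5) (nat_lit 628) (nat_lit 590) (nat_lit 342)))) (XT.nd (nat_lit 156) (nat_lit 760) (nat_lit 0) (XT.nd (nat_lit 78) (nat_lit 760) (nat_lit 0) (XT.lf (nat_lit 0) (nat_lit 8499638947) (nat_lit 912) (nat_lit 4429390839) (nat_lit 76) (nat_lit 11679115337) (nat_lit 367) (nat_lit 5) (nat_lit 379) (nat_lit 5) (nat_lit 368) (nat_lit 5) (nat_lit 629) (nat_lit 590) (nat_lit 341)) (XT.lf (nat_lit 0) (nat_lit 9357995904) (nat_lit 760) (nat_lit 2341891090) (nat_lit 836) (nat_lit 13183216063) (nat_lit 357) (nat_lit 5) (nat_lit 367) (nat_lit 5) (nat_lit 368) (nat_lit 5) (nat_lit 630) (nat_lit 590) (nat_lit 340))) (XT.nd (nat_lit 78) (nat_lit 760) (nat_lit 0) (XT.lf (nat_lit 0) (nat_lit 15045647205) (nat_lit 836) (nat_lit 1740486832) (nat_lit 76) (nat_lit 8375796232) (nat_lit 357) (nat_lit 5) (nat_lit 368) (nat_lit 5) (nat_lit 358) (nat_lit 5) (nat_lit 631) (nat_lit 590)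 (nat_lit 339)) (XT.lf (nat_lit 0) (nat_lit 12464270319) (nat_lit 760) (nat_lit 6087231375) (nat_lit 836) (nat_lit 6892969010) (nat_lit 347) (nat_lit 5) (nat_lit 357) (nat_lit 5) (nat_lit 358) (nat_lit 5) (nat_lit 632) (nat_lit 590) (nat_lit 338)))))) (XT.nd (nat_lit 546) (nat_lit 2584) (nat_lit 0) (XT.nd (nat_lit 234) (nat_lit 1368) (nat_lit 0) (XT.nd (nat_lit 78) (nat_lit 836) (nat_lit 0) (XT.lf (nat_lit 0) (nat_lit 1225392476) (nat_lit 684) (nat_lit 20949908010) (nat_lit 760) (nat_lit 3556405172) (nat_lit 338) (nat_lit 5) (nat_lit 347) (nat_lit 5) (nat_lit 348) (nat_lit 5) (nat_lit 633) (nat_lit 590) (nat_lit 337)) (XT.nd (nat_lit 78) (nat_lit 836) (nat_lit 0) (XT.lf (nat_lit 0) (nat_lit 15846664988) (nat_lit 684) (nat_lit 10148884857) (nat_lit 760) (nat_lit 26656222) (nat_lit 338) (nat_lit 5) (nat_lit 347) (nat_lit 5) (nat_lit 348) (nat_lit 5) (nat_lit 634) (nat_lit 590) (nat_lit 336)) (XT.lf (nat_lit 0) (nat_lit 3558709851) (nat_lit 836) (nat_lit 21849702488)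 (nat_lit 76) (nat_lit 909002495) (nat_lit 327) (nat_lit 5) (nat_lit 338) (nat_lit 5) (nat_lit 328) (nat_lit 5) (nat_lit 635) (nat_lit 590) (nat_lit 335)))) (XT.nd (nat_lit 156) (nat_lit 684) (nat_lit 0) (XT.nd (nat_lit 78) (nat_lit 684) (nat_lit 0) (XT.lf (nat_lit 0) (nat_lit 7348274077) (nat_lit 836) (nat_lit 7146781954) (nat_lit 76) (nat_lit 12120811501) (nat_lit 327) (nat_lit 5) (nat_lit 338) (nat_lit 5) (nat_lit 328) (nat_lit 5) (nat_lit 636) (nat_lit 590) (nat_lit 334)) (XT.lf (nat_lit 0) (nat_lit 7951002361) (nat_lit 684) (nat_lit 3311211997) (nat_lit 760) (nat_lit 15657103461) (nat_lit 318) (nat_lit 5) (nat_lit 327) (nat_lit 5) (nat_lit 328) (nat_lit 5) (nat_lit 637) (nat_lit 590) (nat_lit 333))) (XT.nd (nat_lit 78) (nat_lit 684) (nat_lit 0) (XT.lf (nat_lit 0) (nat_lit 15352272174) (nat_lit 760) (nat_lit 3836651217) (nat_lit 76) (nat_lit 8037957172) (nat_lit 318) (nat_lit 5) (nat_lit 328) (nat_lit 5) (nat_lit 319) (nat_lit 5) (nat_lit 638) (nat_lit 590)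 (nat_lit 332)) (XT.lf (nat_lit 0) (nat_lit 11726068092) (nat_lit 684) (nat_lit 7893179772) (nat_lit 760) (nat_lit 7919444584) (nat_lit 309) (nat_lit 5) (nat_lit 318) (nat_lit 5) (nat_lit 319) (nat_lit 5) (nat_lit 639) (nat_lit 590) (nat_lit 331))))) (XT.nd (nat_lit 234) (nat_lit 1216) (nat_lit 0) (XT.nd (nat_lit 78) (nat_lit 1368) (nat_lit 0) (XT.lf (nat_lit 0) (nat_lit 24018125039) (nat_lit 760) (nat_lit 231377688) (nat_lit 76) (nat_lit 3606306821) (nat_lit 309) (nat_lit 5) (nat_lit 319) (nat_lit 5) (nat_lit 310) (nat_lit 5) (nat_lit 640) (nat_lit 590) (nat_lit 330)) (XT.nd (nat_lit 78) (nat_lit 684) (nat_lit 0) (XT.lf (nat_lit 0) (nat_lit 474532707) (nat_lit 684) (nat_lit 12366138668) (nat_lit 76) (nat_lit 15335493655) (nat_lit 300) (nat_lit 5) (nat_lit 309) (nat_lit 5) (nat_lit 301) (nat_lit 5) (nat_lit 641) (nat_lit 590) (nat_lit 329)) (XT.lf (nat_lit 0) (nat_lit 3692076001) (nat_lit 684) (nat_lit 1152273358) (nat_lit 760) (nat_lit 23657616292) (nat_lit 291)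 (nat_lit 5) (nat_lit 300) (nat_lit 5) (nat_lit 301) (nat_lit 5) (nat_lit 642) (nat_lit 590) (nat_lit 328)))) (XT.nd (nat_lit 156) (nat_lit 608) (nat_lit 0) (XT.nd (nat_lit 78) (nat_lit 608) (nat_lit 0) (XT.lf (nat_lit 0) (nat_lit 9452209603) (nat_lit 760) (nat_lit 8667465392) (nat_lit 76) (nat_lit 10711594543) (nat_lit 291) (nat_lit 5) (nat_lit 301) (nat_lit 5) (nat_lit 292) (nat_lit 5) (nat_lit 643) (nat_lit 590) (nat_lit 327)) (XT.lf (nat_lit 0) (nat_lit 7890277279) (nat_lit 608) (nat_lit 6318053865) (nat_lit 684) (nat_lit 14957706475) (nat_lit 283) (nat_lit 5) (nat_lit 291) (nat_lit 5) (nat_lit 292) (nat_lit 5) (nat_lit 644) (nat_lit 590) (nat_lit 326))) (XT.nd (nat_lit 78) (nat_lit 608) (nat_lit 0) (XT.lf (nat_lit 0) (nat_lit 19152531319) (nat_lit 684) (nat_lit 4650603654) (nat_lit 76) (nat_lit 5702507155) (nat_lit 283) (nat_lit 5) (nat_lit 292) (nat_lit 5) (nat_lit 284) (nat_lit 5) (nat_lit 645) (nat_lit 590) (nat_lit 325)) (XT.lf (nat_lit 0) (nat_lit 12424825613)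 (nat_lit 608) (nat_lit 11890627320) (nat_lit 684) (nat_lit 5534189236) (nat_lit 275) (nat_lit 5) (nat_lit 283) (nat_lit 5) (nat_lit 284) (nat_lit 5) (nat_lit 646) (nat_lit 590) (nat_lit 324))))))) (XT.nd (nat_lit 1092) (nat_lit 988) (nat_lit 0) (XT.nd (nat_lit 546) (nat_lit 2128) (nat_lit 0) (XT.nd (nat_lit 234) (nat_lit 1140) (nat_lit 0) (XT.nd (nat_lit 78) (nat_lit 1292) (nat_lit 0) (XT.lf (nat_lit 0) (nat_lit 29612088877) (nat_lit 684) (nat_lit 300359658) (nat_lit 76) (nat_lit 287464742) (nat_lit 275) (nat_lit 5) (nat_lit 284) (nat_lit 5) (nat_lit 276) (nat_lit 5) (nat_lit 647) (nat_lit 590) (nat_lit 323)) (XT.nd (nat_lit 78) (nat_lit 608) (nat_lit 0) (XT.lf (nat_lit 0) (nat_lit 4588804071) (nat_lit 684) (nat_lit 13272027062) (nat_lit 76) (nat_lit 12691984099) (nat_lit 266) (nat_lit 5) (nat_lit 275) (nat_lit 5) (nat_lit 267) (nat_lit 5) (nat_lit 648) (nat_lit 590) (nat_lit 322)) (XT.lf (nat_lit 0) (nat_lit 4354786765) (nat_lit 608) (nat_lit 5534034439) (nat_lit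 684) (nat_lit 21023321944) (nat_lit 258) (nat_lit 5) (nat_lit 266) (nat_lit 5) (nat_lit 267) (nat_lit 5) (nat_lit 649) (nat_lit 590) (nat_lit 321)))) (XT.nd (nat_lit 156) (nat_lit 608) (nat_lit 0) (XT.nd (nat_lit 78) (nat_lit 532) (nat_lit 0) (XT.lf (nat_lit 0) (nat_lit 15427635654) (nat_lit 684) (nat_lit 8812468244) (nat_lit 76) (nat_lit 7035897956) (nat_lit 258) (nat_lit 5) (nat_lit 267) (nat_lit 5) (nat_lit 259) (nat_lit 5) (nat_lit 650) (nat_lit 590) (nat_lit 320)) (XT.lf (nat_lit 0) (nat_lit 9370285973) (nat_lit 532) (nat_lit 11801919018) (nat_lit 608) (nat_lit 10473033339) (nat_lit 251) (nat_lit 5) (nat_lit 258) (nat_lit 5) (nat_lit 259) (nat_lit 5) (nat_lit 651) (nat_lit 590) (nat_lit 319))) (XT.nd (nat_lit 78) (nat_lit 608) (nat_lit 0) (XT.lf (nat_lit 0) (nat_lit 27094454141) (nat_lit 608) (nat_lit 3993962684) (nat_lit 76) (nat_lit 932187105) (nat_lit 251) (nat_lit 5) (nat_lit 259) (nat_lit 5) (nat_lit 252) (nat_lit 5) (nat_lit 652) (nat_lit 590) (nat_lit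 318)) (XT.lf (nat_lit 0) (nat_lit 894796548) (nat_lit 608) (nat_lit 17641033413) (nat_lit 76) (nat_lit 13864097608) (nat_lit 243) (nat_lit 5) (nat_lit 251) (nat_lit 5) (nat_lit 244) (nat_lit 5) (nat_lit 653) (nat_lit 590) (nat_lit 317))))) (XT.nd (nat_lit 234) (nat_lit 1064) (nat_lit 0) (XT.nd (nat_lit 78) (nat_lit 532) (nat_lit 0) (XT.lf (nat_lit 0) (nat_lit 1133465212) (nat_lit 532) (nat_lit 5664709252) (nat_lit 608) (nat_lit 25987372658) (nat_lit 236) (nat_lit 5) (nat_lit 243) (nat_lit 5) (nat_lit 244) (nat_lit 5) (nat_lit 654) (nat_lit 590) (nat_lit 316)) (XT.nd (nat_lit 78) (nat_lit 532) (nat_lit 0) (XT.lf (nat_lit 0) (nat_lit 12984839831) (nat_lit 608) (nat_lit 12706439461) (nat_lit 76) (nat_lit 7484295530) (nat_lit 236) (nat_lit 5) (nat_lit 244) (nat_lit 5) (nat_lit 237) (nat_lit 5) (nat_lit 655) (nat_lit 590) (nat_lit 315)) (XT.lf (nat_lit 0) (nat_lit 6664808895) (nat_lit 532) (nat_lit 12708858887) (nat_lit 608) (nat_lit 14198166854) (nat_lit 229) (nat_lit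 5) (nat_lit 236) (nat_lit 5) (nat_lit 237) (nat_lit 5) (nat_lit 656) (nat_lit 590) (nat_lit 314)))) (XT.nd (nat_lit 156) (nat_lit 608) (nat_lit 0) (XT.nd (nat_lit 78) (nat_lit 456) (nat_lit 0) (XT.lf (nat_lit 0) (nat_lit 25977228172) (nat_lit 608) (nat_lit 7385842279) (nat_lit 76) (nat_lit 611210226) (nat_lit 229) (nat_lit 5) (nat_lit 237) (nat_lit 5) (nat_lit 230) (nat_lit 5) (nat_lit 657) (nat_lit 590) (nat_lit 313)) (XT.lf (nat_lit 0) (nat_lit 12603741060) (nat_lit 456) (nat_lit 20272823368) (nat_lit 532) (nat_lit 1504937260) (nat_lit 223) (nat_lit 5) (nat_lit 229) (nat_lit 5) (nat_lit 230) (nat_lit 5) (nat_lit 658) (nat_lit 590) (nat_lit 312))) (XT.nd (nat_lit 78) (nat_lit 532) (nat_lit 0) (XT.lf (nat_lit 0) (nat_lit 5097518359) (nat_lit 532) (nat_lit 1739363257) (nat_lit 76) (nat_lit 27958369004) (nat_lit 222) (nat_lit 5) (nat_lit 229) (nat_lit 5) (nat_lit 223) (nat_lit 5) (nat_lit 659) (nat_lit 590) (nat_lit 311)) (XT.lf (nat_lit 0) (nat_lit 11978056864)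 (nat_lit 608) (nat_lit 16325060673) (nat_lit 76) (nat_lit 6910634479) (nat_lit 215) (nat_lit 5) (nat_lit 223) (nat_lit 5) (nat_lit 216) (nat_lit 5) (nat_lit 660) (nat_lit 590) (nat_lit 310)))))) (XT.nd (nat_lit 75972) (nat_lit 0) (nat_lit 21812) (XT.nd (nat_lit 234) (nat_lit 76) (nat_lit 0) (XT.nd (nat_lit 78) (nat_lit 456) (nat_lit 0) (XT.lf (nat_lit 0) (nat_lit 4320681076) (nat_lit 456) (nat_lit 14758385006) (nat_lit 532) (nat_lit 16559900290) (nat_lit 209) (nat_lit 5) (nat_lit 215) (nat_lit 5) (nat_lit 216) (nat_lit 5) (nat_lit 661) (nat_lit 590) (nat_lit 309)) (XT.nd (nat_lit 78) (nat_lit 456) (nat_lit 0) (XT.lf (nat_lit 0) (nat_lit 25597523377) (nat_lit 456) (nat_lit 831925729) (nat_lit 532) (nat_lit 9641088967) (nat_lit 209) (nat_lit 5) (nat_lit 215) (nat_lit 5) (nat_lit 216) (nat_lit 5) (nat_lit 662) (nat_lit 590) (nat_lit 308)) (XT.lf (nat_lit 0) (nat_lit 10841440663) (nat_lit 456) (nat_lit 23240456895) (nat_lit 532) (nat_lit 2425742621) (nat_lit 203) (nat_lit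 5) (nat_lit 209) (nat_lit 5) (nat_lit 210) (nat_lit 5) (nat_lit 663) (nat_lit 590) (nat_lit 307)))) (XT.nd (nat_lit 75582) (nat_lit 0) (nat_lit 21736) (XT.nd (nat_lit 75504) (nat_lit 0) (nat_lit 21736) (XT.lf (nat_lit 0) (nat_lit 4943305170) (nat_lit 532) (nat_lit 4269027963) (nat_lit 76) (nat_lit 27739028559) (nat_lit 202) (nat_lit 5) (nat_lit 209) (nat_lit 5) (nat_lit 203) (nat_lit 5) (nat_lit 664) (nat_lit 590) (nat_lit 306)) (XT.lf (nat_lit 0) (nat_lit 2699694735) (nat_lit 0) (nat_lit 2699694735) (nat_lit 1748) (nat_lit 2967705470) (nat_lit 488) (nat_lit 5) (nat_lit 488) (nat_lit 3) (nat_lit 511) (nat_lit 3) (nat_lit 591) (nat_lit 591) (nat_lit 378))) (XT.nd (nat_lit 78) (nat_lit 0) (nat_lit 0) (XT.lf (nat_lit 0) (nat_lit 11161815653) (nat_lit 1748) (nat_lit 3083928258) (nat_lit 1824) (nat_lit 2650664650) (nat_lit 488) (nat_lit 5) (nat_lit 511) (nat_lit 3) (nat_lit 512) (nat_lit 5) (nat_lit 592) (nat_lit 591) (nat_lit 377)) (XT.lf (nat_lit 76) (nat_lit 5363282435)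 (nat_lit 0) (nat_lit 6233197826) (nat_lit 1824) (nat_lit 5464104594) (nat_lit 489) (nat_lit 5) (nat_lit 488) (nat_lit 5) (nat_lit 512) (nat_lit 5) (nat_lit 593) (nat_lit 591) (nat_lit 376))))) (XT.nd (nat_lit 234) (nat_lit 0) (nat_lit 76) (XT.nd (nat_lit 78) (nat_lit 0) (nat_lit 0) (XT.lf (nat_lit 0) (nat_lit 12067170203) (nat_lit 1748) (nat_lit 3222501951) (nat_lit 1824) (nat_lit 1937826450) (nat_lit 489) (nat_lit 5) (nat_lit 512) (nat_lit 5) (nat_lit 513) (nat_lit 5) (nat_lit 594) (nat_lit 591) (nat_lit 375)) (XT.nd (nat_lit 78) (nat_lit 0) (nat_lit 76) (XT.lf (nat_lit 76) (nat_lit 5448659774) (nat_lit 0) (nat_lit 7169296451) (nat_lit 1824) (nat_lit 4778381320) (nat_lit 490) (nat_lit 5) (nat_lit 489) (nat_lit 5) (nat_lit 513) (nat_lit 5) (nat_lit 595) (nat_lit 591) (nat_lit 374)) (XT.lf (nat_lit 0) (nat_lit 13202894391) (nat_lit 1748) (nat_lit 3241995398) (nat_lit 1824) (nat_lit 1123201296) (nat_lit 490) (nat_lit 5) (nat_lit 513) (nat_lit 5) (nat_lit 514) (nat_lit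 5) (nat_lit 596) (nat_lit 591) (nat_lit 373)))) (XT.nd (nat_lit 156) (nat_lit 0) (nat_lit 76) (XT.nd (nat_lit 78) (nat_lit 0) (nat_lit 76) (XT.lf (nat_lit 76) (nat_lit 5661208309) (nat_lit 0) (nat_lit 8216812070) (nat_lit 1824) (nat_lit 3863690076) (nat_lit 491) (nat_lit 5) (nat_lit 490) (nat_lit 5) (nat_lit 514) (nat_lit 5) (nat_lit 597) (nat_lit 591) (nat_lit 372)) (XT.lf (nat_lit 0) (nat_lit 14584050023) (nat_lit 1748) (nat_lit 3136698418) (nat_lit 1824) (nat_lit 197706275) (nat_lit 491) (nat_lit 5) (nat_lit 514) (nat_lit 5) (nat_lit 515) (nat_lit 5) (nat_lit 598) (nat_lit 591) (nat_lit 371))) (XT.nd (nat_lit 78) (nat_lit 0) (nat_lit 0) (XT.lf (nat_lit 76) (nat_lit 6006947761) (nat_lit 0) (nat_lit 9385140128) (nat_lit 1824) (nat_lit 2704888739) (nat_lit 492) (nat_lit 5) (nat_lit 491) (nat_lit 5) (nat_lit 515) (nat_lit 5) (nat_lit 599) (nat_lit 591) (nat_lit 370)) (XT.lf (nat_lit 76) (nat_lit 15372608157) (nat_lit 0) (nat_lit 859284313) (nat_lit 1824) (nat_lit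 2046864899) (nat_lit 492) (nat_lit 5) (nat_lit 491) (nat_lit 5) (nat_lit 515) (nat_lit 5) (nat_lit 600) (nat_lit 591) (nat_lit 369))))))))
noncomputable def xc216 : XT := (XT.nd (nat_lit 2106) (nat_lit 10336) (nat_lit 0) (XT.nd (nat_lit 1014) (nat_lit 6840) (nat_lit 0) (XT.nd (nat_lit 468) (nat_lit 0) (nat_lit 152) (XT.nd (nat_lit 234) (nat_lit 0) (nat_lit 0) (XT.nd (nat_lit 78) (nat_lit 1748) (nat_lit 0) (XT.lf (nat_lit 76) (nat_lit 6492239724) (nat_lit 0) (nat_lit 10683965853) (nat_lit 1824) (nat_lit 1286214396) (nat_lit 493) (nat_lit 5) (nat_lit 492) (nat_lit 5) (nat_lit 516) (nat_lit 5) (nat_lit 601) (nat_lit 591) (nat_lit 368)) (XT.nd (nat_lit 78) (nat_lit 1748) (nat_lit 0) (XT.lf (nat_lit 76) (nat_lit 16108814758) (nat_lit 0) (nat_lit 2050504334) (nat_lit 1824) (nat_lit 490038942) (nat_lit 493) (nat_lit 5) (nat_lit 492) (nat_lit 5) (nat_lit 516) (nat_lit 5) (nat_lit 602) (nat_lit 591) (nat_lit 367)) (XT.lf (nat_lit 0) (nat_lit 403386524) (nat_lit 1824) (nat_lit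 11717192229) (nat_lit 1900) (nat_lit 6717703744) (nat_lit 469) (nat_lit 5) (nat_lit 493) (nat_lit 5) (nat_lit 494) (nat_lit 5) (nat_lit 603) (nat_lit 591) (nat_lit 366)))) (XT.nd (nat_lit 78) (nat_lit 0) (nat_lit 76) (XT.lf (nat_lit 0) (nat_lit 1333783713) (nat_lit 1824) (nat_lit 2040690317) (nat_lit 1900) (nat_lit 15655933800) (nat_lit 469) (nat_lit 5) (nat_lit 493) (nat_lit 5) (nat_lit 494) (nat_lit 5) (nat_lit 604) (nat_lit 591) (nat_lit 365)) (XT.nd (nat_lit 78) (nat_lit 0) (nat_lit 0) (XT.lf (nat_lit 0) (nat_lit 2365655571) (nat_lit 1824) (nat_lit 11331898823) (nat_lit 1900) (nat_lit 5527164391) (nat_lit 470) (nat_lit 5) (nat_lit 494) (nat_lit 5) (nat_lit 495) (nat_lit 5) (nat_lit 605) (nat_lit 591) (nat_lit 364)) (XT.lf (nat_lit 0) (nat_lit 3449399997) (nat_lit 1824) (nat_lit 1395937122) (nat_lit 1900) (nat_lit 14576954582) (nat_lit 470) (nat_lit 5) (nat_lit 494) (nat_lit 5) (nat_lit 495) (nat_lit 5) (nat_lit 606) (nat_lit 591) (nat_lit 363))))) (XT.nd (nat_lit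 234) (nat_lit 0) (nat_lit 76) (XT.nd (nat_lit 78) (nat_lit 0) (nat_lit 0) (XT.lf (nat_lit 0) (nat_lit 4635041368) (nat_lit 1824) (nat_lit 10798936437) (nat_lit 1900) (nat_lit 4188234262) (nat_lit 471) (nat_lit 5) (nat_lit 495) (nat_lit 5) (nat_lit 496) (nat_lit 5) (nat_lit 607) (nat_lit 591) (nat_lit 362)) (XT.nd (nat_lit 78) (nat_lit 0) (nat_lit 76) (XT.lf (nat_lit 0) (nat_lit 5881192584) (nat_lit 1824) (nat_lit 595830059) (nat_lit 1900) (nat_lit 13348372680) (nat_lit 471) (nat_lit 5) (nat_lit 495) (nat_lit 5) (nat_lit 496) (nat_lit 5) (nat_lit 608) (nat_lit 591) (nat_lit 361)) (XT.lf (nat_lit 0) (nat_lit 7229863427) (nat_lit 1824) (nat_lit 10110926008) (nat_lit 1900) (nat_lit 2690301295) (nat_lit 472) (nat_lit 5) (nat_lit 496) (nat_lit 5) (nat_lit 497) (nat_lit 5) (nat_lit 609) (nat_lit 591) (nat_lit 360)))) (XT.nd (nat_lit 156) (nat_lit 0) (nat_lit 76) (XT.nd (nat_lit 78) (nat_lit 0) (nat_lit 76) (XT.lf (nat_lit 76) (nat_lit 372158199) (nat_lit 0) (nat_lit 8278132234)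 (nat_lit 1900) (nat_lit 11589714365) (nat_lit 473) (nat_lit 5) (nat_lit 472) (nat_lit 5) (nat_lit 497) (nat_lit 5) (nat_lit 610) (nat_lit 591) (nat_lit 359)) (XT.lf (nat_lit 0) (nat_lit 10169215621) (nat_lit 1824) (nat_lit 9260110771) (nat_lit 1900) (nat_lit 1022369364) (nat_lit 473) (nat_lit 5) (nat_lit 497) (nat_lit 5) (nat_lit 498) (nat_lit 5) (nat_lit 611) (nat_lit 591) (nat_lit 358))) (XT.nd (nat_lit 78) (nat_lit 0) (nat_lit 0) (XT.lf (nat_lit 76) (nat_lit 1521370398) (nat_lit 0) (nat_lit 10257456765) (nat_lit 1900) (nat_lit 8887587604) (nat_lit 474) (nat_lit 5) (nat_lit 473) (nat_lit 5) (nat_lit 498) (nat_lit 5) (nat_lit 612) (nat_lit 591) (nat_lit 357)) (XT.lf (nat_lit 76) (nat_lit 12640487368) (nat_lit 0) (nat_lit 837955106) (nat_lit 1900) (nat_lit 7405829840) (nat_lit 474) (nat_lit 5) (nat_lit 473) (nat_lit 5) (nat_lit 498) (nat_lit 5) (nat_lit 613) (nat_lit 591) (nat_lit 356)))))) (XT.nd (nat_lit 546) (nat_lit 3420) (nat_lit 0) (XT.nd (nat_lit 234) (nat_lit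 2052) (nat_lit 0) (XT.nd (nat_lit 78) (nat_lit 1748) (nat_lit 0) (XT.lf (nat_lit 76) (nat_lit 2852431044) (nat_lit 0) (nat_lit 12430840529) (nat_lit 1900) (nat_lit 5821791387) (nat_lit 475) (nat_lit 5) (nat_lit 474) (nat_lit 5) (nat_lit 499) (nat_lit 5) (nat_lit 614) (nat_lit 591) (nat_lit 355)) (XT.nd (nat_lit 78) (nat_lit 1748) (nat_lit 0) (XT.lf (nat_lit 76) (nat_lit 14273179671) (nat_lit 0) (nat_lit 2907672231) (nat_lit 1900) (nat_lit 4148284794) (nat_lit 475) (nat_lit 5) (nat_lit 474) (nat_lit 5) (nat_lit 499) (nat_lit 5) (nat_lit 615) (nat_lit 591) (nat_lit 354)) (XT.lf (nat_lit 0) (nat_lit 4374299459) (nat_lit 1824) (nat_lit 14810581833) (nat_lit 1900) (nat_lit 2371441027) (nat_lit 451) (nat_lit 5) (nat_lit 475) (nat_lit 5) (nat_lit 476) (nat_lit 5) (nat_lit 616) (nat_lit 591) (nat_lit 353)))) (XT.nd (nat_lit 156) (nat_lit 912) (nat_lit 0) (XT.nd (nat_lit 78) (nat_lit 1140) (nat_lit 0) (XT.lf (nat_lit 0) (nat_lit 16105784832) (nat_lit 1824) (nat_lit 5185650297)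 (nat_lit 1900) (nat_lit 495368004) (nat_lit 451) (nat_lit 5) (nat_lit 475) (nat_lit 5) (nat_lit 476) (nat_lit 5) (nat_lit 617) (nat_lit 591) (nat_lit 352)) (XT.lf (nat_lit 0) (nat_lit 1465762892) (nat_lit 1140) (nat_lit 15933857937) (nat_lit 76) (nat_lit 4620766181) (nat_lit 436) (nat_lit 5) (nat_lit 451) (nat_lit 5) (nat_lit 437) (nat_lit 5) (nat_lit 618) (nat_lit 591) (nat_lit 351))) (XT.nd (nat_lit 78) (nat_lit 912) (nat_lit 0) (XT.lf (nat_lit 0) (nat_lit 3528283102) (nat_lit 1140) (nat_lit 4132872994) (nat_lit 76) (nat_lit 14596045322) (nat_lit 436) (nat_lit 5) (nat_lit 451) (nat_lit 5) (nat_lit 437) (nat_lit 5) (nat_lit 619) (nat_lit 591) (nat_lit 350)) (XT.lf (nat_lit 0) (nat_lit 5695283351) (nat_lit 988) (nat_lit 14507244340) (nat_lit 76) (nat_lit 2294960160) (nat_lit 424) (nat_lit 5) (nat_lit 437) (nat_lit 5) (nat_lit 425) (nat_lit 5) (nat_lit 620) (nat_lit 591) (nat_lit 349))))) (XT.nd (nat_lit 234) (nat_lit 2508) (nat_lit 0) (XT.nd (nat_lit 78) (nat_lit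 912) (nat_lit 0) (XT.lf (nat_lit 0) (nat_lit 7980485545) (nat_lit 988) (nat_lit 2384639262) (nat_lit 76) (nat_lit 12375958287) (nat_lit 424) (nat_lit 5) (nat_lit 437) (nat_lit 5) (nat_lit 425) (nat_lit 5) (nat_lit 621) (nat_lit 591) (nat_lit 348)) (XT.nd (nat_lit 78) (nat_lit 0) (nat_lit 0) (XT.lf (nat_lit 0) (nat_lit 10109537045) (nat_lit 912) (nat_lit 263775290) (nat_lit 988) (nat_lit 12614999813) (nat_lit 412) (nat_lit 5) (nat_lit 424) (nat_lit 5) (nat_lit 425) (nat_lit 5) (nat_lit 622) (nat_lit 591) (nat_lit 347)) (XT.lf (nat_lit 0) (nat_lit 12891622246) (nat_lit 988) (nat_lit 423055692) (nat_lit 76) (nat_lit 9924255624) (nat_lit 412) (nat_lit 5) (nat_lit 425) (nat_lit 5) (nat_lit 413) (nat_lit 5) (nat_lit 623) (nat_lit 591) (nat_lit 346)))) (XT.nd (nat_lit 156) (nat_lit 836) (nat_lit 0) (XT.nd (nat_lit 78) (nat_lit 836) (nat_lit 0) (XT.lf (nat_lit 0) (nat_lit 12439728054) (nat_lit 836) (nat_lit 3099490665) (nat_lit 912) (nat_lit 7953770581) (nat_lit 401) (nat_lit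 5) (nat_lit 412) (nat_lit 5) (nat_lit 413) (nat_lit 5) (nat_lit 624) (nat_lit 591) (nat_lit 345)) (XT.lf (nat_lit 0) (nat_lit 1785807107) (nat_lit 836) (nat_lit 16512394168) (nat_lit 912) (nat_lit 5452756491) (nat_lit 390) (nat_lit 5) (nat_lit 401) (nat_lit 5) (nat_lit 402) (nat_lit 5) (nat_lit 625) (nat_lit 591) (nat_lit 344))) (XT.nd (nat_lit 78) (nat_lit 836) (nat_lit 0) (XT.lf (nat_lit 0) (nat_lit 15007208809) (nat_lit 836) (nat_lit 6196221659) (nat_lit 912) (nat_lit 2808834086) (nat_lit 390) (nat_lit 5) (nat_lit 401) (nat_lit 5) (nat_lit 402) (nat_lit 5) (nat_lit 626) (nat_lit 591) (nat_lit 343)) (XT.lf (nat_lit 0) (nat_lit 4238258092) (nat_lit 836) (nat_lit 19980683878) (nat_lit 912) (nat_lit 58812239) (nat_lit 379) (nat_lit 5) (nat_lit 390) (nat_lit 5) (nat_lit 391) (nat_lit 5) (nat_lit 627) (nat_lit 591) (nat_lit 342))))))) (XT.nd (nat_lit 1014) (nat_lit 5016) (nat_lit 0) (XT.nd (nat_lit 468) (nat_lit 2888) (nat_lit 0) (XT.nd (nat_lit 234) (nat_lit 1520)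 (nat_lit 0) (XT.nd (nat_lit 78) (nat_lit 836) (nat_lit 0) (XT.lf (nat_lit 0) (nat_lit 2808649643) (nat_lit 912) (nat_lit 6741608071) (nat_lit 76) (nat_lit 14995970482) (nat_lit 378) (nat_lit 5) (nat_lit 390) (nat_lit 5) (nat_lit 379) (nat_lit 5) (nat_lit 628) (nat_lit 591) (nat_lit 341)) (XT.nd (nat_lit 78) (nat_lit 0) (nat_lit 0) (XT.lf (nat_lit 0) (nat_lit 5781560106) (nat_lit 912) (nat_lit 17917573931) (nat_lit 76) (nat_lit 1119952381) (nat_lit 367) (nat_lit 5) (nat_lit 379) (nat_lit 5) (nat_lit 368) (nat_lit 5) (nat_lit 629) (nat_lit 591) (nat_lit 340)) (XT.lf (nat_lit 0) (nat_lit 8919417464) (nat_lit 912) (nat_lit 4254639929) (nat_lit 76) (nat_lit 11921234904) (nat_lit 367) (nat_lit 5) (nat_lit 379) (nat_lit 5) (nat_lit 368) (nat_lit 5) (nat_lit 630) (nat_lit 591) (nat_lit 339)))) (XT.nd (nat_lit 78) (nat_lit 760) (nat_lit 0) (XT.lf (nat_lit 0) (nat_lit 9806762058) (nat_lit 760) (nat_lit 2373709175) (nat_lit 836) (nat_lit 13195342533) (nat_lit 357) (nat_lit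 5) (nat_lit 367) (nat_lit 5) (nat_lit 368) (nat_lit 5) (nat_lit 631) (nat_lit 591) (nat_lit 338)) (XT.nd (nat_lit 78) (nat_lit 760) (nat_lit 0) (XT.lf (nat_lit 0) (nat_lit 15588407225) (nat_lit 836) (nat_lit 1514061207) (nat_lit 76) (nat_lit 8557844265) (nat_lit 357) (nat_lit 5) (nat_lit 368) (nat_lit 5) (nat_lit 358) (nat_lit 5) (nat_lit 632) (nat_lit 591) (nat_lit 337)) (XT.lf (nat_lit 0) (nat_lit 12973072434) (nat_lit 760) (nat_lit 6188249225) (nat_lit 836) (nat_lit 6787243801) (nat_lit 347) (nat_lit 5) (nat_lit 357) (nat_lit 5) (nat_lit 358) (nat_lit 5) (nat_lit 633) (nat_lit 591) (nat_lit 336))))) (XT.nd (nat_lit 234) (nat_lit 1368) (nat_lit 0) (XT.nd (nat_lit 78) (nat_lit 836) (nat_lit 0) (XT.lf (nat_lit 0) (nat_lit 1512339115) (nat_lit 684) (nat_lit 21342411015) (nat_lit 760) (nat_lit 3386852277) (nat_lit 338) (nat_lit 5) (nat_lit 347) (nat_lit 5) (nat_lit 348) (nat_lit 5) (nat_lit 634) (nat_lit 591) (nat_lit 335)) (XT.nd (nat_lit 78) (nat_lit 760) (nat_lit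 0) (XT.lf (nat_lit 0) (nat_lit 206034328) (nat_lit 760) (nat_lit 10118469985) (nat_lit 76) (nat_lit 16213474292) (nat_lit 337) (nat_lit 5) (nat_lit 347) (nat_lit 5) (nat_lit 338) (nat_lit 5) (nat_lit 635) (nat_lit 591) (nat_lit 334)) (XT.lf (nat_lit 0) (nat_lit 3860051125) (nat_lit 836) (nat_lit 22023573723) (nat_lit 76) (nat_lit 955517517) (nat_lit 327) (nat_lit 5) (nat_lit 338) (nat_lit 5) (nat_lit 328) (nat_lit 5) (nat_lit 636) (nat_lit 591) (nat_lit 333)))) (XT.nd (nat_lit 156) (nat_lit 684) (nat_lit 0) (XT.nd (nat_lit 78) (nat_lit 684) (nat_lit 0) (XT.lf (nat_lit 0) (nat_lit 7720893555) (nat_lit 836) (nat_lit 7031754049) (nat_lit 76) (nat_lit 12391007116) (nat_lit 327) (nat_lit 5) (nat_lit 338) (nat_lit 5) (nat_lit 328) (nat_lit 5) (nat_lit 637) (nat_lit 591) (nat_lit 332)) (XT.lf (nat_lit 0) (nat_lit 8366288823) (nat_lit 684) (nat_lit 3344063082) (nat_lit 760) (nat_lit 15742877658) (nat_lit 318) (nat_lit 5) (nat_lit 327) (nat_lit 5) (nat_lit 328) (nat_lit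 5) (nat_lit 638) (nat_lit 591) (nat_lit 331))) (XT.nd (nat_lit 78) (nat_lit 684) (nat_lit 0) (XT.lf (nat_lit 0) (nat_lit 15878052853) (nat_lit 760) (nat_lit 3657968215) (nat_lit 76) (nat_lit 8231005982) (nat_lit 318) (nat_lit 5) (nat_lit 328) (nat_lit 5) (nat_lit 319) (nat_lit 5) (nat_lit 639) (nat_lit 591) (nat_lit 330)) (XT.lf (nat_lit 0) (nat_lit 12214325111) (nat_lit 684) (nat_lit 8013401440) (nat_lit 760) (nat_lit 7857401774) (nat_lit 309) (nat_lit 5) (nat_lit 318) (nat_lit 5) (nat_lit 319) (nat_lit 5) (nat_lit 640) (nat_lit 591) (nat_lit 329)))))) (XT.nd (nat_lit 546) (nat_lit 2432) (nat_lit 0) (XT.nd (nat_lit 234) (nat_lit 1216) (nat_lit 0) (XT.nd (nat_lit 78) (nat_lit 760) (nat_lit 0) (XT.lf (nat_lit 0) (nat_lit 16991359) (nat_lit 608) (nat_lit 24693702701) (nat_lit 684) (nat_lit 3697971767) (nat_lit 301) (nat_lit 5) (nat_lit 309) (nat_lit 5) (nat_lit 310) (nat_lit 5) (nat_lit 641) (nat_lit 591) (nat_lit 328)) (XT.nd (nat_lit 78) (nat_lit 684) (nat_lit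 0) (XT.lf (nat_lit 0) (nat_lit 694994328) (nat_lit 684) (nat_lit 12359531808) (nat_lit 76) (nat_lit 15680927608) (nat_lit 300) (nat_lit 5) (nat_lit 309) (nat_lit 5) (nat_lit 301) (nat_lit 5) (nat_lit 642) (nat_lit 591) (nat_lit 327)) (XT.lf (nat_lit 0) (nat_lit 4018176565) (nat_lit 684) (nat_lit 1131531895) (nat_lit 760) (nat_lit 23918112190) (nat_lit 291) (nat_lit 5) (nat_lit 300) (nat_lit 5) (nat_lit 301) (nat_lit 5) (nat_lit 643) (nat_lit 591) (nat_lit 326)))) (XT.nd (nat_lit 156) (nat_lit 608) (nat_lit 0) (XT.nd (nat_lit 78) (nat_lit 608) (nat_lit 0) (XT.lf (nat_lit 0) (nat_lit 9845916940) (nat_lit 760) (nat_lit 8589678363) (nat_lit 76) (nat_lit 10968191784) (nat_lit 291) (nat_lit 5) (nat_lit 301) (nat_lit 5) (nat_lit 292) (nat_lit 5) (nat_lit 644) (nat_lit 591) (nat_lit 325)) (XT.lf (nat_lit 0) (nat_lit 8297566949) (nat_lit 608) (nat_lit 6397200776) (nat_lit 684) (nat_lit 15050530953) (nat_lit 283) (nat_lit 5) (nat_lit 291) (nat_lit 5) (nat_lit 292) (nat_lit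 5) (nat_lit 645) (nat_lit 591) (nat_lit 324))) (XT.nd (nat_lit 78) (nat_lit 608) (nat_lit 0) (XT.lf (nat_lit 0) (nat_lit 19734186361) (nat_lit 684) (nat_lit 4495343893) (nat_lit 76) (nat_lit 5862238615) (nat_lit 283) (nat_lit 5) (nat_lit 292) (nat_lit 5) (nat_lit 284) (nat_lit 5) (nat_lit 646) (nat_lit 591) (nat_lit 323)) (XT.lf (nat_lit 0) (nat_lit 12919960592) (nat_lit 608) (nat_lit 12078112951) (nat_lit 684) (nat_lit 5444621499) (nat_lit 275) (nat_lit 5) (nat_lit 283) (nat_lit 5) (nat_lit 284) (nat_lit 5) (nat_lit 647) (nat_lit 591) (nat_lit 322))))) (XT.nd (nat_lit 234) (nat_lit 1140) (nat_lit 0) (XT.nd (nat_lit 78) (nat_lit 1292) (nat_lit 0) (XT.lf (nat_lit 0) (nat_lit 30397113309) (nat_lit 684) (nat_lit 61022066) (nat_lit 76) (nat_lit 341907045) (nat_lit 275) (nat_lit 5) (nat_lit 284) (nat_lit 5) (nat_lit 276) (nat_lit 5) (nat_lit 648) (nat_lit 591) (nat_lit 321)) (XT.nd (nat_lit 78) (nat_lit 608) (nat_lit 0) (XT.lf (nat_lit 0) (nat_lit 4872440400) (nat_lit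 684) (nat_lit 13291174260) (nat_lit 76) (nat_lit 12996406724) (nat_lit 266) (nat_lit 5) (nat_lit 275) (nat_lit 5) (nat_lit 267) (nat_lit 5) (nat_lit 649) (nat_lit 591) (nat_lit 320)) (XT.lf (nat_lit 0) (nat_lit 4686555492) (nat_lit 608) (nat_lit 5589728998) (nat_lit 684) (nat_lit 21250295091) (nat_lit 258) (nat_lit 5) (nat_lit 266) (nat_lit 5) (nat_lit 267) (nat_lit 5) (nat_lit 650) (nat_lit 591) (nat_lit 319)))) (XT.nd (nat_lit 156) (nat_lit 608) (nat_lit 0) (XT.nd (nat_lit 78) (nat_lit 532) (nat_lit 0) (XT.lf (nat_lit 0) (nat_lit 15922505885) (nat_lit 684) (nat_lit 8745460339) (nat_lit 76) (nat_lit 7229816873) (nat_lit 258) (nat_lit 5) (nat_lit 267) (nat_lit 5) (nat_lit 259) (nat_lit 5) (nat_lit 651) (nat_lit 591) (nat_lit 318)) (XT.lf (nat_lit 0) (nat_lit 9799348585) (nat_lit 532) (nat_lit 11980533735) (nat_lit 608) (nat_lit 10494563912) (nat_lit 251) (nat_lit 5) (nat_lit 258) (nat_lit 5) (nat_lit 259) (nat_lit 5) (nat_lit 652) (nat_lit 591) (nat_lit 317)))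 (XT.nd (nat_lit 78) (nat_lit 608) (nat_lit 0) (XT.lf (nat_lit 0) (nat_lit 27817329560) (nat_lit 608) (nat_lit 3833664561) (nat_lit 76) (nat_lit 1006390201) (nat_lit 251) (nat_lit 5) (nat_lit 259) (nat_lit 5) (nat_lit 252) (nat_lit 5) (nat_lit 653) (nat_lit 591) (nat_lit 316)) (XT.lf (nat_lit 0) (nat_lit 1092876110) (nat_lit 608) (nat_lit 17752850777) (nat_lit 76) (nat_lit 14198584066) (nat_lit 243) (nat_lit 5) (nat_lit 251) (nat_lit 5) (nat_lit 244) (nat_lit 5) (nat_lit 654) (nat_lit 591) (nat_lit 315))))))))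
noncomputable def xc217 : XT := (XT.nd (nat_lit 77610) (nat_lit 0) (nat_lit 10184) (XT.nd (nat_lit 76518) (nat_lit 0) (nat_lit 20216) (XT.nd (nat_lit 468) (nat_lit 1444) (nat_lit 0) (XT.nd (nat_lit 234) (nat_lit 532) (nat_lit 0) (XT.nd (nat_lit 78) (nat_lit 532) (nat_lit 0) (XT.lf (nat_lit 0) (nat_lit 1395552273) (nat_lit 532) (nat_lit 5716790758) (nat_lit 608) (nat_lit 26325339662) (nat_lit 236) (nat_lit 5) (nat_lit 243) (nat_lit 5) (nat_lit 244) (nat_lit 5) (nat_lit 655) (nat_lit 591) (nat_lit 314)) (XT.nd (nat_lit 78) (nat_lit 532) (nat_lit 0) (XT.lf (nat_lit 0) (nat_lit 13419637128) (nat_lit 608) (nat_lit 12722729333) (nat_lit 76) (nat_lit 7693206797) (nat_lit 236) (nat_lit 5) (nat_lit 244) (nat_lit 5) (nat_lit 237) (nat_lit 5) (nat_lit 656) (nat_lit 591) (nat_lit 313)) (XT.lf (nat_lit 0) (nat_lit 7034379260) (nat_lit 532) (nat_lit 12899963083) (nat_lit 608) (nat_lit 14305454129) (nat_lit 229) (nat_lit 5) (nat_lit 236) (nat_lit 5) (nat_lit 237) (nat_lit 5)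 (nat_lit 657) (nat_lit 591) (nat_lit 312)))) (XT.nd (nat_lit 78) (nat_lit 532) (nat_lit 0) (XT.lf (nat_lit 0) (nat_lit 26666979321) (nat_lit 608) (nat_lit 7298912524) (nat_lit 76) (nat_lit 684459693) (nat_lit 229) (nat_lit 5) (nat_lit 237) (nat_lit 5) (nat_lit 230) (nat_lit 5) (nat_lit 658) (nat_lit 591) (nat_lit 311)) (XT.nd (nat_lit 78) (nat_lit 76) (nat_lit 0) (XT.lf (nat_lit 0) (nat_lit 13088918754) (nat_lit 456) (nat_lit 20613559623) (nat_lit 532) (nat_lit 1363275279) (nat_lit 223) (nat_lit 5) (nat_lit 229) (nat_lit 5) (nat_lit 230) (nat_lit 5) (nat_lit 659) (nat_lit 591) (nat_lit 310)) (XT.lf (nat_lit 0) (nat_lit 5365653091) (nat_lit 532) (nat_lit 1543399784) (nat_lit 76) (nat_lit 28578769062) (nat_lit 222) (nat_lit 5) (nat_lit 229) (nat_lit 5) (nat_lit 223) (nat_lit 5) (nat_lit 660) (nat_lit 591) (nat_lit 309))))) (XT.nd (nat_lit 234) (nat_lit 456) (nat_lit 0) (XT.nd (nat_lit 78) (nat_lit 456) (nat_lit 0) (XT.lf (nat_lit 0) (nat_lit 12382453025) (nat_lit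 608) (nat_lit 16419451994) (nat_lit 76) (nat_lit 7112815525) (nat_lit 215) (nat_lit 5) (nat_lit 223) (nat_lit 5) (nat_lit 216) (nat_lit 5) (nat_lit 661) (nat_lit 591) (nat_lit 308)) (XT.nd (nat_lit 78) (nat_lit 0) (nat_lit 0) (XT.lf (nat_lit 0) (nat_lit 4637677551) (nat_lit 456) (nat_lit 14986069913) (nat_lit 532) (nat_lit 16724726615) (nat_lit 209) (nat_lit 5) (nat_lit 215) (nat_lit 5) (nat_lit 216) (nat_lit 5) (nat_lit 662) (nat_lit 591) (nat_lit 307)) (XT.lf (nat_lit 0) (nat_lit 26335535465) (nat_lit 456) (nat_lit 782404643) (nat_lit 532) (nat_lit 9670801255) (nat_lit 209) (nat_lit 5) (nat_lit 215) (nat_lit 5) (nat_lit 216) (nat_lit 5) (nat_lit 663) (nat_lit 591) (nat_lit 306)))) (XT.nd (nat_lit 75660) (nat_lit 0) (nat_lit 21660) (XT.nd (nat_lit 75582) (nat_lit 0) (nat_lit 21660) (XT.lf (nat_lit 0) (nat_lit 11285603493) (nat_lit 456) (nat_lit 23636595836) (nat_lit 532) (nat_lit 2312411132) (nat_lit 203) (nat_lit 5) (nat_lit 209) (nat_lit 5) (nat_lit 210) (nat_lit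 5) (nat_lit 664) (nat_lit 591) (nat_lit 305)) (XT.lf (nat_lit 0) (nat_lit 2871722437) (nat_lit 0) (nat_lit 2871722437) (nat_lit 1748) (nat_lit 2786248515) (nat_lit 488) (nat_lit 5) (nat_lit 488) (nat_lit 3) (nat_lit 511) (nat_lit 3) (nat_lit 592) (nat_lit 592) (nat_lit 376))) (XT.nd (nat_lit 78) (nat_lit 0) (nat_lit 0) (XT.lf (nat_lit 0) (nat_lit 11846426989) (nat_lit 1748) (nat_lit 2903364450) (nat_lit 1824) (nat_lit 2475274466) (nat_lit 488) (nat_lit 5) (nat_lit 511) (nat_lit 3) (nat_lit 512) (nat_lit 5) (nat_lit 593) (nat_lit 592) (nat_lit 375)) (XT.lf (nat_lit 76) (nat_lit 5711196757) (nat_lit 0) (nat_lit 6571104014) (nat_lit 1824) (nat_lit 5110375486) (nat_lit 489) (nat_lit 5) (nat_lit 488) (nat_lit 5) (nat_lit 512) (nat_lit 5) (nat_lit 594) (nat_lit 592) (nat_lit 374)))))) (XT.nd (nat_lit 546) (nat_lit 1520) (nat_lit 0) (XT.nd (nat_lit 234) (nat_lit 0) (nat_lit 76) (XT.nd (nat_lit 78) (nat_lit 0) (nat_lit 0) (XT.lf (nat_lit 0) (nat_lit 12752147327) (nat_lit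 1748) (nat_lit 3040723090) (nat_lit 1824) (nat_lit 1770263841) (nat_lit 489) (nat_lit 5) (nat_lit 512) (nat_lit 5) (nat_lit 513) (nat_lit 5) (nat_lit 595) (nat_lit 592) (nat_lit 373)) (XT.nd (nat_lit 78) (nat_lit 0) (nat_lit 76) (XT.lf (nat_lit 76) (nat_lit 5802241942) (nat_lit 0) (nat_lit 7504596591) (nat_lit 1824) (nat_lit 4428654472) (nat_lit 490) (nat_lit 5) (nat_lit 489) (nat_lit 5) (nat_lit 513) (nat_lit 5) (nat_lit 596) (nat_lit 592) (nat_lit 372)) (XT.lf (nat_lit 0) (nat_lit 13893694582) (nat_lit 1748) (nat_lit 3057201680) (nat_lit 1824) (nat_lit 959981772) (nat_lit 490) (nat_lit 5) (nat_lit 513) (nat_lit 5) (nat_lit 514) (nat_lit 5) (nat_lit 597) (nat_lit 592) (nat_lit 371)))) (XT.nd (nat_lit 156) (nat_lit 0) (nat_lit 76) (XT.nd (nat_lit 78) (nat_lit 0) (nat_lit 76) (XT.lf (nat_lit 76) (nat_lit 6022423775) (nat_lit 0) (nat_lit 8553141943) (nat_lit 1824) (nat_lit 3512540006) (nat_lit 491) (nat_lit 5) (nat_lit 490) (nat_lit 5) (nat_lit 514) (nat_lit 5) (nat_lit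 598) (nat_lit 592) (nat_lit 370)) (XT.lf (nat_lit 0) (nat_lit 15286386155) (nat_lit 1748) (nat_lit 2946935389) (nat_lit 1824) (nat_lit 35250691) (nat_lit 491) (nat_lit 5) (nat_lit 514) (nat_lit 5) (nat_lit 515) (nat_lit 5) (nat_lit 599) (nat_lit 592) (nat_lit 369))) (XT.nd (nat_lit 78) (nat_lit 0) (nat_lit 0) (XT.lf (nat_lit 76) (nat_lit 6377922549) (nat_lit 0) (nat_lit 9726238761) (nat_lit 1824) (nat_lit 2346632500) (nat_lit 492) (nat_lit 5) (nat_lit 491) (nat_lit 5) (nat_lit 515) (nat_lit 5) (nat_lit 600) (nat_lit 592) (nat_lit 368)) (XT.lf (nat_lit 76) (nat_lit 15925977803) (nat_lit 0) (nat_lit 1026858069) (nat_lit 1824) (nat_lit 1683533555) (nat_lit 492) (nat_lit 5) (nat_lit 491) (nat_lit 5) (nat_lit 515) (nat_lit 5) (nat_lit 601) (nat_lit 592) (nat_lit 367))))) (XT.nd (nat_lit 234) (nat_lit 0) (nat_lit 0) (XT.nd (nat_lit 78) (nat_lit 1748) (nat_lit 0) (XT.lf (nat_lit 76) (nat_lit 6875264819) (nat_lit 0) (nat_lit 11033686265) (nat_lit 1824) (nat_lit 914896607)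 (nat_lit 493) (nat_lit 5) (nat_lit 492) (nat_lit 5) (nat_lit 516) (nat_lit 5) (nat_lit 602) (nat_lit 592) (nat_lit 366)) (XT.nd (nat_lit 78) (nat_lit 1748) (nat_lit 0) (XT.lf (nat_lit 76) (nat_lit 16679207034) (nat_lit 0) (nat_lit 2224888043) (nat_lit 1824) (nat_lit 110582782) (nat_lit 493) (nat_lit 5) (nat_lit 492) (nat_lit 5) (nat_lit 516) (nat_lit 5) (nat_lit 603) (nat_lit 592) (nat_lit 365)) (XT.lf (nat_lit 0) (nat_lit 788886024) (nat_lit 1824) (nat_lit 11691425916) (nat_lit 1900) (nat_lit 6727153410) (nat_lit 469) (nat_lit 5) (nat_lit 493) (nat_lit 5) (nat_lit 494) (nat_lit 5) (nat_lit 604) (nat_lit 592) (nat_lit 364)))) (XT.nd (nat_lit 156) (nat_lit 0) (nat_lit 76) (XT.nd (nat_lit 78) (nat_lit 0) (nat_lit 76) (XT.lf (nat_lit 0) (nat_lit 1730490534) (nat_lit 1824) (nat_lit 1826494164) (nat_lit 1900) (nat_lit 15846597173) (nat_lit 469) (nat_lit 5) (nat_lit 493) (nat_lit 5) (nat_lit 494) (nat_lit 5) (nat_lit 605) (nat_lit 592) (nat_lit 363)) (XT.lf (nat_lit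 0) (nat_lit 2776667860) (nat_lit 1824) (nat_lit 11297162035) (nat_lit 1900) (nat_lit 5528076447) (nat_lit 470) (nat_lit 5) (nat_lit 494) (nat_lit 5) (nat_lit 495) (nat_lit 5) (nat_lit 606) (nat_lit 592) (nat_lit 362))) (XT.nd (nat_lit 78) (nat_lit 0) (nat_lit 76) (XT.lf (nat_lit 0) (nat_lit 3874955818) (nat_lit 1824) (nat_lit 1167606095) (nat_lit 1900) (nat_lit 14761012073) (nat_lit 470) (nat_lit 5) (nat_lit 494) (nat_lit 5) (nat_lit 495) (nat_lit 5) (nat_lit 607) (nat_lit 592) (nat_lit 361)) (XT.lf (nat_lit 0) (nat_lit 5078343673) (nat_lit 1824) (nat_lit 10752667493) (nat_lit 1900) (nat_lit 4176601551) (nat_lit 471) (nat_lit 5) (nat_lit 495) (nat_lit 5) (nat_lit 496) (nat_lit 5) (nat_lit 608) (nat_lit 592) (nat_lit 360))))))) (XT.nd (nat_lit 1092) (nat_lit 6612) (nat_lit 0) (XT.nd (nat_lit 546) (nat_lit 3572) (nat_lit 0) (XT.nd (nat_lit 234) (nat_lit 0) (nat_lit 152) (XT.nd (nat_lit 78) (nat_lit 0) (nat_lit 76) (XT.lf (nat_lit 0) (nat_lit 6342543374) (nat_lit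 1824) (nat_lit 350641099) (nat_lit 1900) (nat_lit 13521813275) (nat_lit 471) (nat_lit 5) (nat_lit 495) (nat_lit 5) (nat_lit 496) (nat_lit 5) (nat_lit 609) (nat_lit 592) (nat_lit 359)) (XT.nd (nat_lit 78) (nat_lit 0) (nat_lit 0) (XT.lf (nat_lit 0) (nat_lit 7712565815) (nat_lit 1824) (nat_lit 10050386811) (nat_lit 1900) (nat_lit 2661967481) (nat_lit 472) (nat_lit 5) (nat_lit 496) (nat_lit 5) (nat_lit 497) (nat_lit 5) (nat_lit 610) (nat_lit 592) (nat_lit 358)) (XT.lf (nat_lit 76) (nat_lit 640630410) (nat_lit 0) (nat_lit 8515836212) (nat_lit 1900) (nat_lit 11481645124) (nat_lit 473) (nat_lit 5) (nat_lit 472) (nat_lit 5) (nat_lit 497) (nat_lit 5) (nat_lit 611) (nat_lit 592) (nat_lit 357)))) (XT.nd (nat_lit 156) (nat_lit 0) (nat_lit 0) (XT.nd (nat_lit 78) (nat_lit 0) (nat_lit 0) (XT.lf (nat_lit 0) (nat_lit 10698778356) (nat_lit 1824) (nat_lit 9182381040) (nat_lit 1900) (nat_lit 973017549) (nat_lit 473) (nat_lit 5) (nat_lit 497) (nat_lit 5) (nat_lit 498) (nat_lit 5) (nat_lit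 612) (nat_lit 592) (nat_lit 356)) (XT.lf (nat_lit 76) (nat_lit 1812999937) (nat_lit 0) (nat_lit 10522882435) (nat_lit 1900) (nat_lit 8737402532) (nat_lit 474) (nat_lit 5) (nat_lit 473) (nat_lit 5) (nat_lit 498) (nat_lit 5) (nat_lit 613) (nat_lit 592) (nat_lit 355))) (XT.nd (nat_lit 78) (nat_lit 0) (nat_lit 76) (XT.lf (nat_lit 76) (nat_lit 13149377636) (nat_lit 0) (nat_lit 913808850) (nat_lit 1900) (nat_lit 7232439747) (nat_lit 474) (nat_lit 5) (nat_lit 473) (nat_lit 5) (nat_lit 498) (nat_lit 5) (nat_lit 614) (nat_lit 592) (nat_lit 354)) (XT.lf (nat_lit 76) (nat_lit 3170546476) (nat_lit 0) (nat_lit 12728704645) (nat_lit 1900) (nat_lit 5621679339) (nat_lit 475) (nat_lit 5) (nat_lit 474) (nat_lit 5) (nat_lit 499) (nat_lit 5) (nat_lit 615) (nat_lit 592) (nat_lit 353))))) (XT.nd (nat_lit 234) (nat_lit 2052) (nat_lit 0) (XT.nd (nat_lit 78) (nat_lit 1748) (nat_lit 0) (XT.lf (nat_lit 76) (nat_lit 14814591118) (nat_lit 0) (nat_lit 3014107348) (nat_lit 1900) (nat_lit 3920909435)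 (nat_lit 475) (nat_lit 5) (nat_lit 474) (nat_lit 5) (nat_lit 499) (nat_lit 5) (nat_lit 616) (nat_lit 592) (nat_lit 352)) (XT.nd (nat_lit 78) (nat_lit 0) (nat_lit 0) (XT.lf (nat_lit 0) (nat_lit 4722432169) (nat_lit 1824) (nat_lit 15145795952) (nat_lit 1900) (nat_lit 2113201251) (nat_lit 451) (nat_lit 5) (nat_lit 475) (nat_lit 5) (nat_lit 476) (nat_lit 5) (nat_lit 617) (nat_lit 592) (nat_lit 351)) (XT.lf (nat_lit 0) (nat_lit 16683436530) (nat_lit 1824) (nat_lit 5327601031) (nat_lit 1900) (nat_lit 205600270) (nat_lit 451) (nat_lit 5) (nat_lit 475) (nat_lit 5) (nat_lit 476) (nat_lit 5) (nat_lit 618) (nat_lit 592) (nat_lit 350)))) (XT.nd (nat_lit 156) (nat_lit 912) (nat_lit 0) (XT.nd (nat_lit 78) (nat_lit 0) (nat_lit 0) (XT.lf (nat_lit 0) (nat_lit 1786478062) (nat_lit 1140) (nat_lit 15988673644) (nat_lit 76) (nat_lit 4679790161) (nat_lit 436) (nat_lit 5) (nat_lit 451) (nat_lit 5) (nat_lit 437) (nat_lit 5) (nat_lit 619) (nat_lit 592) (nat_lit 349)) (XT.lf (nat_lit 0)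 (nat_lit 3884534952) (nat_lit 1140) (nat_lit 3956842756) (nat_lit 76) (nat_lit 14855229618) (nat_lit 436) (nat_lit 5) (nat_lit 451) (nat_lit 5) (nat_lit 437) (nat_lit 5) (nat_lit 620) (nat_lit 592) (nat_lit 348))) (XT.nd (nat_lit 78) (nat_lit 0) (nat_lit 0) (XT.lf (nat_lit 0) (nat_lit 6090781233) (nat_lit 988) (nat_lit 14534583637) (nat_lit 76) (nat_lit 2316416974) (nat_lit 424) (nat_lit 5) (nat_lit 437) (nat_lit 5) (nat_lit 425) (nat_lit 5) (nat_lit 621) (nat_lit 592) (nat_lit 347)) (XT.lf (nat_lit 0) (nat_lit 8416166055) (nat_lit 988) (nat_lit 2174679508) (nat_lit 76) (nat_lit 12599514327) (nat_lit 424) (nat_lit 5) (nat_lit 437) (nat_lit 5) (nat_lit 425) (nat_lit 5) (nat_lit 622) (nat_lit 592) (nat_lit 346)))))) (XT.nd (nat_lit 546) (nat_lit 3116) (nat_lit 0) (XT.nd (nat_lit 234) (nat_lit 1748) (nat_lit 0) (XT.nd (nat_lit 78) (nat_lit 836) (nat_lit 0) (XT.lf (nat_lit 0) (nat_lit 10567685243) (nat_lit 912) (nat_lit 285412831) (nat_lit 988) (nat_lit 12589510938)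 (nat_lit 412) (nat_lit 5) (nat_lit 424) (nat_lit 5) (nat_lit 425) (nat_lit 5) (nat_lit 623) (nat_lit 592) (nat_lit 345)) (XT.nd (nat_lit 78) (nat_lit 836) (nat_lit 0) (XT.lf (nat_lit 0) (nat_lit 13416330435) (nat_lit 988) (nat_lit 175111835) (nat_lit 76) (nat_lit 10106909909) (nat_lit 412) (nat_lit 5) (nat_lit 425) (nat_lit 5) (nat_lit 413) (nat_lit 5) (nat_lit 624) (nat_lit 592) (nat_lit 344)) (XT.lf (nat_lit 0) (nat_lit 12943240711) (nat_lit 836) (nat_lit 3170059067) (nat_lit 912) (nat_lit 7844261276) (nat_lit 401) (nat_lit 5) (nat_lit 412) (nat_lit 5) (nat_lit 413) (nat_lit 5) (nat_lit 625) (nat_lit 592) (nat_lit 343)))) (XT.nd (nat_lit 156) (nat_lit 912) (nat_lit 0) (XT.nd (nat_lit 78) (nat_lit 0) (nat_lit 0) (XT.lf (nat_lit 0) (nat_lit 2079874141) (nat_lit 836) (nat_lit 16844047943) (nat_lit 912) (nat_lit 5296838036) (nat_lit 390) (nat_lit 5) (nat_lit 401) (nat_lit 5) (nat_lit 402) (nat_lit 5) (nat_lit 626) (nat_lit 592) (nat_lit 342)) (XT.lf (nat_lit 0) (nat_lit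 15560638173) (nat_lit 836) (nat_lit 6321524418) (nat_lit 912) (nat_lit 2605232743) (nat_lit 390) (nat_lit 5) (nat_lit 401) (nat_lit 5) (nat_lit 402) (nat_lit 5) (nat_lit 627) (nat_lit 592) (nat_lit 341))) (XT.nd (nat_lit 78) (nat_lit 0) (nat_lit 0) (XT.lf (nat_lit 0) (nat_lit 193811310) (nat_lit 912) (nat_lit 20179805139) (nat_lit 76) (nat_lit 4384619958) (nat_lit 378) (nat_lit 5) (nat_lit 390) (nat_lit 5) (nat_lit 379) (nat_lit 5) (nat_lit 628) (nat_lit 592) (nat_lit 340)) (XT.lf (nat_lit 0) (nat_lit 3112874631) (nat_lit 912) (nat_lit 6621448648) (nat_lit 76) (nat_lit 15297848425) (nat_lit 378) (nat_lit 5) (nat_lit 390) (nat_lit 5) (nat_lit 379) (nat_lit 5) (nat_lit 629) (nat_lit 592) (nat_lit 339))))) (XT.nd (nat_lit 234) (nat_lit 1520) (nat_lit 0) (XT.nd (nat_lit 78) (nat_lit 760) (nat_lit 0) (XT.lf (nat_lit 0) (nat_lit 6142079286) (nat_lit 912) (nat_lit 18017750187) (nat_lit 76) (nat_lit 1150721292) (nat_lit 367) (nat_lit 5) (nat_lit 379) (nat_lit 5) (nat_lit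 368) (nat_lit 5) (nat_lit 630) (nat_lit 592) (nat_lit 338)) (XT.nd (nat_lit 78) (nat_lit 760) (nat_lit 0) (XT.lf (nat_lit 0) (nat_lit 9337892066) (nat_lit 912) (nat_lit 4086619764) (nat_lit 76) (nat_lit 12167865350) (nat_lit 367) (nat_lit 5) (nat_lit 379) (nat_lit 5) (nat_lit 368) (nat_lit 5) (nat_lit 631) (nat_lit 592) (nat_lit 337)) (XT.lf (nat_lit 0) (nat_lit 10254345046) (nat_lit 760) (nat_lit 2406746857) (nat_lit 836) (nat_lit 13217479054) (nat_lit 357) (nat_lit 5) (nat_lit 367) (nat_lit 5) (nat_lit 368) (nat_lit 5) (nat_lit 632) (nat_lit 592) (nat_lit 336)))) (XT.nd (nat_lit 156) (nat_lit 760) (nat_lit 0) (XT.nd (nat_lit 78) (nat_lit 760) (nat_lit 0) (XT.lf (nat_lit 0) (nat_lit 16132631229) (nat_lit 836) (nat_lit 1293251156) (nat_lit 76) (nat_lit 8742968959) (nat_lit 357) (nat_lit 5) (nat_lit 368) (nat_lit 5) (nat_lit 358) (nat_lit 5) (nat_lit 633) (nat_lit 592) (nat_lit 335)) (XT.lf (nat_lit 0) (nat_lit 13481973241) (nat_lit 760) (nat_lit 6292092278) (nat_lit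 836) (nat_lit 6688862774) (nat_lit 347) (nat_lit 5) (nat_lit 357) (nat_lit 5) (nat_lit 358) (nat_lit 5) (nat_lit 634) (nat_lit 592) (nat_lit 334))) (XT.nd (nat_lit 78) (nat_lit 76) (nat_lit 0) (XT.lf (nat_lit 0) (nat_lit 1794833870) (nat_lit 684) (nat_lit 21743792919) (nat_lit 760) (nat_lit 3223254261) (nat_lit 338) (nat_lit 5) (nat_lit 347) (nat_lit 5) (nat_lit 348) (nat_lit 5) (nat_lit 635) (nat_lit 592) (nat_lit 333)) (XT.lf (nat_lit 0) (nat_lit 433979584) (nat_lit 760) (nat_lit 10070545858) (nat_lit 76) (nat_lit 16559719161) (nat_lit 337) (nat_lit 5) (nat_lit 347) (nat_lit 5) (nat_lit 338) (nat_lit 5) (nat_lit 636) (nat_lit 592) (nat_lit 332))))))))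
noncomputable def xc218 : XT := (XT.nd (nat_lit 2106) (nat_lit 0) (nat_lit 0) (XT.nd (nat_lit 1014) (nat_lit 4408) (nat_lit 0) (XT.nd (nat_lit 468) (nat_lit 2584) (nat_lit 0) (XT.nd (nat_lit 234) (nat_lit 1292) (nat_lit 0) (XT.nd (nat_lit 78) (nat_lit 684) (nat_lit 0) (XT.lf (nat_lit 0) (nat_lit 4158481556) (nat_lit 836) (nat_lit 22211139763) (nat_lit 76) (nat_lit 1001862558) (nat_lit 327) (nat_lit 5) (nat_lit 338) (nat_lit 5) (nat_lit 328) (nat_lit 5) (nat_lit 637) (nat_lit 592) (nat_lit 331)) (XT.nd (nat_lit 78) (nat_lit 684) (nat_lit 0) (XT.lf (nat_lit 0) (nat_lit 8092203003) (nat_lit 836) (nat_lit 6924442626) (nat_lit 76) (nat_lit 12665527936) (nat_lit 327) (nat_lit 5) (nat_lit 338) (nat_lit 5) (nat_lit 328) (nat_lit 5) (nat_lit 638) (nat_lit 592) (nat_lit 330)) (XT.lf (nat_lit 0) (nat_lit 8779929877) (nat_lit 684) (nat_lit 3378867109) (nat_lit 760) (nat_lit 15839196311) (nat_lit 318) (nat_lit 5) (nat_lit 327) (nat_lit 5) (nat_lit 328) (nat_lit 5) (nat_lit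 639) (nat_lit 592) (nat_lit 329)))) (XT.nd (nat_lit 78) (nat_lit 1292) (nat_lit 0) (XT.lf (nat_lit 0) (nat_lit 16405855391) (nat_lit 760) (nat_lit 3485629669) (nat_lit 76) (nat_lit 8426661921) (nat_lit 318) (nat_lit 5) (nat_lit 328) (nat_lit 5) (nat_lit 319) (nat_lit 5) (nat_lit 640) (nat_lit 592) (nat_lit 328)) (XT.nd (nat_lit 78) (nat_lit 608) (nat_lit 0) (XT.lf (nat_lit 0) (nat_lit 12702494406) (nat_lit 684) (nat_lit 8137489223) (nat_lit 760) (nat_lit 7802677740) (nat_lit 309) (nat_lit 5) (nat_lit 318) (nat_lit 5) (nat_lit 319) (nat_lit 5) (nat_lit 641) (nat_lit 592) (nat_lit 327)) (XT.lf (nat_lit 0) (nat_lit 263518218) (nat_lit 608) (nat_lit 25146848381) (nat_lit 684) (nat_lit 3562348203) (nat_lit 301) (nat_lit 5) (nat_lit 309) (nat_lit 5) (nat_lit 310) (nat_lit 5) (nat_lit 642) (nat_lit 592) (nat_lit 326))))) (XT.nd (nat_lit 234) (nat_lit 1824) (nat_lit 0) (XT.nd (nat_lit 78) (nat_lit 684) (nat_lit 0) (XT.lf (nat_lit 0) (nat_lit 911672921) (nat_lit 684) (nat_lit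 12362653207) (nat_lit 76) (nat_lit 16031766537) (nat_lit 300) (nat_lit 5) (nat_lit 309) (nat_lit 5) (nat_lit 301) (nat_lit 5) (nat_lit 643) (nat_lit 592) (nat_lit 325)) (XT.nd (nat_lit 78) (nat_lit 0) (nat_lit 0) (XT.lf (nat_lit 0) (nat_lit 4341003615) (nat_lit 684) (nat_lit 1112075902) (nat_lit 760) (nat_lit 24192075715) (nat_lit 291) (nat_lit 5) (nat_lit 300) (nat_lit 5) (nat_lit 301) (nat_lit 5) (nat_lit 644) (nat_lit 592) (nat_lit 324)) (XT.lf (nat_lit 0) (nat_lit 10239551104) (nat_lit 760) (nat_lit 8520087523) (nat_lit 76) (nat_lit 11228275872) (nat_lit 291) (nat_lit 5) (nat_lit 301) (nat_lit 5) (nat_lit 292) (nat_lit 5) (nat_lit 645) (nat_lit 592) (nat_lit 323)))) (XT.nd (nat_lit 156) (nat_lit 1216) (nat_lit 0) (XT.nd (nat_lit 78) (nat_lit 0) (nat_lit 0) (XT.lf (nat_lit 0) (nat_lit 8703314640) (nat_lit 608) (nat_lit 6479764009) (nat_lit 684) (nat_lit 15153223953) (nat_lit 283) (nat_lit 5) (nat_lit 291) (nat_lit 5) (nat_lit 292) (nat_lit 5) (nat_lit 646) (nat_lit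 592) (nat_lit 322)) (XT.lf (nat_lit 0) (nat_lit 20319762452) (nat_lit 684) (nat_lit 4346619634) (nat_lit 76) (nat_lit 6023390844) (nat_lit 283) (nat_lit 5) (nat_lit 292) (nat_lit 5) (nat_lit 284) (nat_lit 5) (nat_lit 647) (nat_lit 592) (nat_lit 321))) (XT.nd (nat_lit 78) (nat_lit 608) (nat_lit 0) (XT.lf (nat_lit 0) (nat_lit 13415420999) (nat_lit 608) (nat_lit 12271302550) (nat_lit 684) (nat_lit 5361038418) (nat_lit 275) (nat_lit 5) (nat_lit 283) (nat_lit 5) (nat_lit 284) (nat_lit 5) (nat_lit 648) (nat_lit 592) (nat_lit 320)) (XT.lf (nat_lit 0) (nat_lit 175881964) (nat_lit 608) (nat_lit 31015612222) (nat_lit 684) (nat_lit 220807364) (nat_lit 267) (nat_lit 5) (nat_lit 275) (nat_lit 5) (nat_lit 276) (nat_lit 5) (nat_lit 649) (nat_lit 592) (nat_lit 319)))))) (XT.nd (nat_lit 546) (nat_lit 2052) (nat_lit 0) (XT.nd (nat_lit 234) (nat_lit 1672) (nat_lit 0) (XT.nd (nat_lit 78) (nat_lit 608) (nat_lit 0) (XT.lf (nat_lit 0) (nat_lit 5154299289) (nat_lit 684) (nat_lit 13320268273)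 (nat_lit 76) (nat_lit 13304953605) (nat_lit 266) (nat_lit 5) (nat_lit 275) (nat_lit 5) (nat_lit 267) (nat_lit 5) (nat_lit 650) (nat_lit 592) (nat_lit 318)) (XT.nd (nat_lit 78) (nat_lit 0) (nat_lit 0) (XT.lf (nat_lit 0) (nat_lit 5015458644) (nat_lit 608) (nat_lit 5648672626) (nat_lit 684) (nat_lit 21489321282) (nat_lit 258) (nat_lit 5) (nat_lit 266) (nat_lit 5) (nat_lit 267) (nat_lit 5) (nat_lit 651) (nat_lit 592) (nat_lit 317)) (XT.lf (nat_lit 0) (nat_lit 16420038584) (nat_lit 684) (nat_lit 8686558252) (nat_lit 76) (nat_lit 7425548311) (nat_lit 258) (nat_lit 5) (nat_lit 267) (nat_lit 5) (nat_lit 259) (nat_lit 5) (nat_lit 652) (nat_lit 592) (nat_lit 316)))) (XT.nd (nat_lit 156) (nat_lit 1140) (nat_lit 0) (XT.nd (nat_lit 78) (nat_lit 0) (nat_lit 0) (XT.lf (nat_lit 0) (nat_lit 10227608618) (nat_lit 532) (nat_lit 12164950578) (nat_lit 608) (nat_lit 10523822650) (nat_lit 251) (nat_lit 5) (nat_lit 258) (nat_lit 5) (nat_lit 259) (nat_lit 5) (nat_lit 653) (nat_lit 592)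 (nat_lit 315)) (XT.lf (nat_lit 0) (nat_lit 28547634567) (nat_lit 608) (nat_lit 3679486855) (nat_lit 76) (nat_lit 1079919922) (nat_lit 251) (nat_lit 5) (nat_lit 259) (nat_lit 5) (nat_lit 252) (nat_lit 5) (nat_lit 654) (nat_lit 592) (nat_lit 314))) (XT.nd (nat_lit 78) (nat_lit 532) (nat_lit 0) (XT.lf (nat_lit 0) (nat_lit 1287920513) (nat_lit 608) (nat_lit 17876262940) (nat_lit 76) (nat_lit 14537538932) (nat_lit 243) (nat_lit 5) (nat_lit 251) (nat_lit 5) (nat_lit 244) (nat_lit 5) (nat_lit 655) (nat_lit 592) (nat_lit 313)) (XT.lf (nat_lit 0) (nat_lit 1653584191) (nat_lit 532) (nat_lit 5772290857) (nat_lit 608) (nat_lit 26677124763) (nat_lit 236) (nat_lit 5) (nat_lit 243) (nat_lit 5) (nat_lit 244) (nat_lit 5) (nat_lit 656) (nat_lit 592) (nat_lit 312))))) (XT.nd (nat_lit 234) (nat_lit 1520) (nat_lit 0) (XT.nd (nat_lit 78) (nat_lit 532) (nat_lit 0) (XT.lf (nat_lit 0) (nat_lit 13856331004) (nat_lit 608) (nat_lit 12748580579) (nat_lit 76) (nat_lit 7903996497) (nat_lit 236)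 (nat_lit 5) (nat_lit 244) (nat_lit 5) (nat_lit 237) (nat_lit 5) (nat_lit 657) (nat_lit 592) (nat_lit 311)) (XT.nd (nat_lit 78) (nat_lit 0) (nat_lit 0) (XT.lf (nat_lit 0) (nat_lit 7402166218) (nat_lit 532) (nat_lit 13097338565) (nat_lit 608) (nat_lit 14421747696) (nat_lit 229) (nat_lit 5) (nat_lit 236) (nat_lit 5) (nat_lit 237) (nat_lit 5) (nat_lit 658) (nat_lit 592) (nat_lit 310)) (XT.lf (nat_lit 0) (nat_lit 27363916164) (nat_lit 608) (nat_lit 7219355788) (nat_lit 76) (nat_lit 756804464) (nat_lit 229) (nat_lit 5) (nat_lit 237) (nat_lit 5) (nat_lit 230) (nat_lit 5) (nat_lit 659) (nat_lit 592) (nat_lit 309)))) (XT.nd (nat_lit 156) (nat_lit 988) (nat_lit 0) (XT.nd (nat_lit 78) (nat_lit 76) (nat_lit 0) (XT.lf (nat_lit 0) (nat_lit 13574748332) (nat_lit 456) (nat_lit 20963623768) (nat_lit 532) (nat_lit 1225449738) (nat_lit 223) (nat_lit 5) (nat_lit 229) (nat_lit 5) (nat_lit 230) (nat_lit 5) (nat_lit 660) (nat_lit 592) (nat_lit 308)) (XT.lf (nat_lit 0) (nat_lit 5632697377)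 (nat_lit 532) (nat_lit 1352477374) (nat_lit 76) (nat_lit 29209199381) (nat_lit 222) (nat_lit 5) (nat_lit 229) (nat_lit 5) (nat_lit 223) (nat_lit 5) (nat_lit 661) (nat_lit 592) (nat_lit 307))) (XT.nd (nat_lit 78) (nat_lit 456) (nat_lit 0) (XT.lf (nat_lit 0) (nat_lit 12788536363) (nat_lit 608) (nat_lit 16524744252) (nat_lit 76) (nat_lit 7316556223) (nat_lit 215) (nat_lit 5) (nat_lit 223) (nat_lit 5) (nat_lit 216) (nat_lit 5) (nat_lit 662) (nat_lit 592) (nat_lit 306)) (XT.lf (nat_lit 0) (nat_lit 4952060142) (nat_lit 456) (nat_lit 15220928958) (nat_lit 532) (nat_lit 16899309881) (nat_lit 209) (nat_lit 5) (nat_lit 215) (nat_lit 5) (nat_lit 216) (nat_lit 5) (nat_lit 663) (nat_lit 592) (nat_lit 305))))))) (XT.nd (nat_lit 76596) (nat_lit 0) (nat_lit 18392) (XT.nd (nat_lit 76050) (nat_lit 0) (nat_lit 19684) (XT.nd (nat_lit 75816) (nat_lit 0) (nat_lit 21204) (XT.nd (nat_lit 75660) (nat_lit 0) (nat_lit 21204) (XT.lf (nat_lit 0) (nat_lit 27079529547) (nat_lit 456) (nat_lit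 734462193) (nat_lit 532) (nat_lit 9707441529) (nat_lit 209) (nat_lit 5) (nat_lit 215) (nat_lit 5) (nat_lit 216) (nat_lit 5) (nat_lit 664) (nat_lit 592) (nat_lit 304)) (XT.nd (nat_lit 78) (nat_lit 0) (nat_lit 0) (XT.lf (nat_lit 0) (nat_lit 3042607297) (nat_lit 0) (nat_lit 3042607297) (nat_lit 1748) (nat_lit 2610513408) (nat_lit 488) (nat_lit 5) (nat_lit 488) (nat_lit 3) (nat_lit 511) (nat_lit 3) (nat_lit 593) (nat_lit 593) (nat_lit 374)) (XT.lf (nat_lit 0) (nat_lit 12526814798) (nat_lit 1748) (nat_lit 2728595932) (nat_lit 1824) (nat_lit 2305245664) (nat_lit 488) (nat_lit 5) (nat_lit 511) (nat_lit 3) (nat_lit 512) (nat_lit 5) (nat_lit 594) (nat_lit 593) (nat_lit 373)))) (XT.nd (nat_lit 78) (nat_lit 0) (nat_lit 76) (XT.lf (nat_lit 76) (nat_lit 6056724684) (nat_lit 0) (nat_lit 6907487870) (nat_lit 1824) (nat_lit 4767551085) (nat_lit 489) (nat_lit 5) (nat_lit 488) (nat_lit 5) (nat_lit 512) (nat_lit 5) (nat_lit 595) (nat_lit 593) (nat_lit 372)) (XT.nd (nat_lit 78) (nat_lit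 0) (nat_lit 0) (XT.lf (nat_lit 0) (nat_lit 13433597156) (nat_lit 1748) (nat_lit 2864870020) (nat_lit 1824) (nat_lit 1607361603) (nat_lit 489) (nat_lit 5) (nat_lit 512) (nat_lit 5) (nat_lit 513) (nat_lit 5) (nat_lit 596) (nat_lit 593) (nat_lit 371)) (XT.lf (nat_lit 76) (nat_lit 6153397290) (nat_lit 0) (nat_lit 7839150470) (nat_lit 1824) (nat_lit 4089224413) (nat_lit 490) (nat_lit 5) (nat_lit 489) (nat_lit 5) (nat_lit 513) (nat_lit 5) (nat_lit 597) (nat_lit 593) (nat_lit 370))))) (XT.nd (nat_lit 234) (nat_lit 1672) (nat_lit 0) (XT.nd (nat_lit 78) (nat_lit 0) (nat_lit 0) (XT.lf (nat_lit 0) (nat_lit 14581739854) (nat_lit 1748) (nat_lit 2878405666) (nat_lit 1824) (nat_lit 800708176) (nat_lit 490) (nat_lit 5) (nat_lit 513) (nat_lit 5) (nat_lit 514) (nat_lit 5) (nat_lit 598) (nat_lit 593) (nat_lit 369)) (XT.nd (nat_lit 78) (nat_lit 0) (nat_lit 0) (XT.lf (nat_lit 76) (nat_lit 6381233745) (nat_lit 0) (nat_lit 8889519691) (nat_lit 1824) (nat_lit 3171003155) (nat_lit 491)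 (nat_lit 5) (nat_lit 490) (nat_lit 5) (nat_lit 514) (nat_lit 5) (nat_lit 599) (nat_lit 593) (nat_lit 368)) (XT.lf (nat_lit 76) (nat_lit 15861998606) (nat_lit 0) (nat_lit 125639902) (nat_lit 1824) (nat_lit 2638357701) (nat_lit 491) (nat_lit 5) (nat_lit 490) (nat_lit 5) (nat_lit 514) (nat_lit 5) (nat_lit 600) (nat_lit 593) (nat_lit 367)))) (XT.nd (nat_lit 156) (nat_lit 1748) (nat_lit 0) (XT.nd (nat_lit 78) (nat_lit 0) (nat_lit 0) (XT.lf (nat_lit 76) (nat_lit 6746576572) (nat_lit 0) (nat_lit 10068202820) (nat_lit 1824) (nat_lit 1997223344) (nat_lit 492) (nat_lit 5) (nat_lit 491) (nat_lit 5) (nat_lit 515) (nat_lit 5) (nat_lit 601) (nat_lit 593) (nat_lit 366)) (XT.lf (nat_lit 76) (nat_lit 16480865566) (nat_lit 0) (nat_lit 1191943547) (nat_lit 1824) (nat_lit 1328633829) (nat_lit 492) (nat_lit 5) (nat_lit 491) (nat_lit 5) (nat_lit 515) (nat_lit 5) (nat_lit 602) (nat_lit 593) (nat_lit 365))) (XT.nd (nat_lit 78) (nat_lit 1824) (nat_lit 0) (XT.lf (nat_lit 76) (nat_lit 7256119117)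 (nat_lit 0) (nat_lit 11385118443) (nat_lit 1824) (nat_lit 551570090) (nat_lit 493) (nat_lit 5) (nat_lit 492) (nat_lit 5) (nat_lit 516) (nat_lit 5) (nat_lit 603) (nat_lit 593) (nat_lit 364)) (XT.lf (nat_lit 0) (nat_lit 257919563) (nat_lit 1824) (nat_lit 2137930027) (nat_lit 1900) (nat_lit 16991718288) (nat_lit 468) (nat_lit 5) (nat_lit 492) (nat_lit 5) (nat_lit 493) (nat_lit 5) (nat_lit 604) (nat_lit 593) (nat_lit 363)))))) (XT.nd (nat_lit 546) (nat_lit 1368) (nat_lit 0) (XT.nd (nat_lit 234) (nat_lit 0) (nat_lit 76) (XT.nd (nat_lit 78) (nat_lit 0) (nat_lit 0) (XT.lf (nat_lit 0) (nat_lit 1167439378) (nat_lit 1824) (nat_lit 11675244670) (nat_lit 1900) (nat_lit 6741642259) (nat_lit 469) (nat_lit 5) (nat_lit 493) (nat_lit 5) (nat_lit 494) (nat_lit 5) (nat_lit 605) (nat_lit 593) (nat_lit 362)) (XT.nd (nat_lit 78) (nat_lit 0) (nat_lit 76) (XT.lf (nat_lit 0) (nat_lit 2120762731) (nat_lit 1824) (nat_lit 1617916436) (nat_lit 1900) (nat_lit 16045828902) (nat_lit 469) (nat_lit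 5) (nat_lit 493) (nat_lit 5) (nat_lit 494) (nat_lit 5) (nat_lit 606) (nat_lit 593) (nat_lit 361)) (XT.lf (nat_lit 0) (nat_lit 3181777512) (nat_lit 1824) (nat_lit 11271880012) (nat_lit 1900) (nat_lit 5533263859) (nat_lit 470) (nat_lit 5) (nat_lit 494) (nat_lit 5) (nat_lit 495) (nat_lit 5) (nat_lit 607) (nat_lit 593) (nat_lit 360)))) (XT.nd (nat_lit 156) (nat_lit 0) (nat_lit 76) (XT.nd (nat_lit 78) (nat_lit 0) (nat_lit 76) (XT.lf (nat_lit 0) (nat_lit 4295176792) (nat_lit 1824) (nat_lit 944658938) (nat_lit 1900) (nat_lit 14952924357) (nat_lit 470) (nat_lit 5) (nat_lit 494) (nat_lit 5) (nat_lit 495) (nat_lit 5) (nat_lit 608) (nat_lit 593) (nat_lit 359)) (XT.lf (nat_lit 0) (nat_lit 5516897742) (nat_lit 1824) (nat_lit 10715656566) (nat_lit 1900) (nat_lit 4168440584) (nat_lit 471) (nat_lit 5) (nat_lit 495) (nat_lit 5) (nat_lit 496) (nat_lit 5) (nat_lit 609) (nat_lit 593) (nat_lit 358))) (XT.nd (nat_lit 78) (nat_lit 0) (nat_lit 76) (XT.lf (nat_lit 0) (nat_lit 6799773845)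 (nat_lit 1824) (nat_lit 110532082) (nat_lit 1900) (nat_lit 13702354444) (nat_lit 471) (nat_lit 5) (nat_lit 495) (nat_lit 5) (nat_lit 496) (nat_lit 5) (nat_lit 610) (nat_lit 593) (nat_lit 357)) (XT.lf (nat_lit 0) (nat_lit 8191793217) (nat_lit 1824) (nat_lit 9998840033) (nat_lit 1900) (nat_lit 2636256580) (nat_lit 472) (nat_lit 5) (nat_lit 496) (nat_lit 5) (nat_lit 497) (nat_lit 5) (nat_lit 611) (nat_lit 593) (nat_lit 356))))) (XT.nd (nat_lit 234) (nat_lit 1596) (nat_lit 0) (XT.nd (nat_lit 78) (nat_lit 0) (nat_lit 76) (XT.lf (nat_lit 76) (nat_lit 904335990) (nat_lit 0) (nat_lit 8755492933) (nat_lit 1900) (nat_lit 11384611812) (nat_lit 473) (nat_lit 5) (nat_lit 472) (nat_lit 5) (nat_lit 497) (nat_lit 5) (nat_lit 612) (nat_lit 593) (nat_lit 355)) (XT.nd (nat_lit 78) (nat_lit 0) (nat_lit 0) (XT.lf (nat_lit 0) (nat_lit 11226266441) (nat_lit 1824) (nat_lit 9113306682) (nat_lit 1900) (nat_lit 925389085) (nat_lit 473) (nat_lit 5) (nat_lit 497) (nat_lit 5) (nat_lit 498)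 (nat_lit 5) (nat_lit 613) (nat_lit 593) (nat_lit 354)) (XT.lf (nat_lit 76) (nat_lit 2100319270) (nat_lit 0) (nat_lit 10791276007) (nat_lit 1900) (nat_lit 8596947945) (nat_lit 474) (nat_lit 5) (nat_lit 473) (nat_lit 5) (nat_lit 498) (nat_lit 5) (nat_lit 614) (nat_lit 593) (nat_lit 353)))) (XT.nd (nat_lit 156) (nat_lit 1672) (nat_lit 0) (XT.nd (nat_lit 78) (nat_lit 0) (nat_lit 76) (XT.lf (nat_lit 76) (nat_lit 13658501790) (nat_lit 0) (nat_lit 988884951) (nat_lit 1900) (nat_lit 7068066348) (nat_lit 474) (nat_lit 5) (nat_lit 473) (nat_lit 5) (nat_lit 498) (nat_lit 5) (nat_lit 615) (nat_lit 593) (nat_lit 352)) (XT.lf (nat_lit 76) (nat_lit 3484886675) (nat_lit 0) (nat_lit 13030613711) (nat_lit 1900) (nat_lit 5429856991) (nat_lit 475) (nat_lit 5) (nat_lit 474) (nat_lit 5) (nat_lit 499) (nat_lit 5) (nat_lit 616) (nat_lit 593) (nat_lit 351))) (XT.nd (nat_lit 78) (nat_lit 1748) (nat_lit 0) (XT.lf (nat_lit 76) (nat_lit 15356892028) (nat_lit 0) (nat_lit 3120796331) (nat_lit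 1900) (nat_lit 3701037491) (nat_lit 475) (nat_lit 5) (nat_lit 474) (nat_lit 5) (nat_lit 499) (nat_lit 5) (nat_lit 617) (nat_lit 593) (nat_lit 350)) (XT.lf (nat_lit 0) (nat_lit 5067406303) (nat_lit 1824) (nat_lit 15486199839) (nat_lit 1900) (nat_lit 1861666164) (nat_lit 451) (nat_lit 5) (nat_lit 475) (nat_lit 5) (nat_lit 476) (nat_lit 5) (nat_lit 618) (nat_lit 593) (nat_lit 349))))))))
noncomputable def xc219 : XT := (XT.nd (nat_lit 2106) (nat_lit 5776) (nat_lit 0) (XT.nd (nat_lit 1014) (nat_lit 5776) (nat_lit 0) (XT.nd (nat_lit 468) (nat_lit 3420) (nat_lit 0) (XT.nd (nat_lit 234) (nat_lit 1824) (nat_lit 0) (XT.nd (nat_lit 78) (nat_lit 1064) (nat_lit 0) (XT.lf (nat_lit 0) (nat_lit 77298809) (nat_lit 1900) (nat_lit 5393088437) (nat_lit 76) (nat_lit 17184900962) (nat_lit 450) (nat_lit 5) (nat_lit 475) (nat_lit 5) (nat_lit 451) (nat_lit 5) (nat_lit 619) (nat_lit 593) (nat_lit 348)) (XT.nd (nat_lit 78) (nat_lit 0) (nat_lit 0) (XT.lf (nat_lit 0) (nat_lit 2102292121)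 (nat_lit 1140) (nat_lit 16054831726) (nat_lit 76) (nat_lit 4741291247) (nat_lit 436) (nat_lit 5) (nat_lit 451) (nat_lit 5) (nat_lit 437) (nat_lit 5) (nat_lit 620) (nat_lit 593) (nat_lit 347)) (XT.lf (nat_lit 0) (nat_lit 4236818296) (nat_lit 1140) (nat_lit 3787337071) (nat_lit 76) (nat_lit 15120868801) (nat_lit 436) (nat_lit 5) (nat_lit 451) (nat_lit 5) (nat_lit 437) (nat_lit 5) (nat_lit 621) (nat_lit 593) (nat_lit 346)))) (XT.nd (nat_lit 78) (nat_lit 912) (nat_lit 0) (XT.lf (nat_lit 0) (nat_lit 6483254504) (nat_lit 988) (nat_lit 14572674781) (nat_lit 76) (nat_lit 2339252053) (nat_lit 424) (nat_lit 5) (nat_lit 437) (nat_lit 5) (nat_lit 425) (nat_lit 5) (nat_lit 622) (nat_lit 593) (nat_lit 345)) (XT.nd (nat_lit 78) (nat_lit 912) (nat_lit 0) (XT.lf (nat_lit 0) (nat_lit 8849840010) (nat_lit 988) (nat_lit 1970525521) (nat_lit 76) (nat_lit 12828472005) (nat_lit 424) (nat_lit 5) (nat_lit 437) (nat_lit 5) (nat_lit 425) (nat_lit 5) (nat_lit 623) (nat_lit 593) (nat_lit 344))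 (XT.lf (nat_lit 0) (nat_lit 11025057265) (nat_lit 912) (nat_lit 306847765) (nat_lit 988) (nat_lit 12574299165) (nat_lit 412) (nat_lit 5) (nat_lit 424) (nat_lit 5) (nat_lit 425) (nat_lit 5) (nat_lit 624) (nat_lit 593) (nat_lit 343))))) (XT.nd (nat_lit 234) (nat_lit 1748) (nat_lit 0) (XT.nd (nat_lit 78) (nat_lit 836) (nat_lit 0) (XT.lf (nat_lit 0) (nat_lit 68735864) (nat_lit 836) (nat_lit 13872880091) (nat_lit 912) (nat_lit 10225542425) (nat_lit 401) (nat_lit 5) (nat_lit 412) (nat_lit 5) (nat_lit 413) (nat_lit 5) (nat_lit 625) (nat_lit 593) (nat_lit 342)) (XT.nd (nat_lit 78) (nat_lit 836) (nat_lit 0) (XT.lf (nat_lit 0) (nat_lit 13446932607) (nat_lit 836) (nat_lit 3241705720) (nat_lit 912) (nat_lit 7742991257) (nat_lit 401) (nat_lit 5) (nat_lit 412) (nat_lit 5) (nat_lit 413) (nat_lit 5) (nat_lit 626) (nat_lit 593) (nat_lit 341)) (XT.lf (nat_lit 0) (nat_lit 2369790436) (nat_lit 836) (nat_lit 17182280202) (nat_lit 912) (nat_lit 5148090460) (nat_lit 390) (nat_lit 5)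 (nat_lit 401) (nat_lit 5) (nat_lit 402) (nat_lit 5) (nat_lit 627) (nat_lit 593) (nat_lit 340)))) (XT.nd (nat_lit 156) (nat_lit 836) (nat_lit 0) (XT.nd (nat_lit 78) (nat_lit 912) (nat_lit 0) (XT.lf (nat_lit 0) (nat_lit 16115300753) (nat_lit 836) (nat_lit 6449279710) (nat_lit 912) (nat_lit 2407646872) (nat_lit 390) (nat_lit 5) (nat_lit 401) (nat_lit 5) (nat_lit 402) (nat_lit 5) (nat_lit 628) (nat_lit 593) (nat_lit 339)) (XT.lf (nat_lit 0) (nat_lit 440875767) (nat_lit 912) (nat_lit 20333409493) (nat_lit 76) (nat_lit 4474232488) (nat_lit 378) (nat_lit 5) (nat_lit 390) (nat_lit 5) (nat_lit 379) (nat_lit 5) (nat_lit 629) (nat_lit 593) (nat_lit 338))) (XT.nd (nat_lit 78) (nat_lit 836) (nat_lit 0) (XT.lf (nat_lit 0) (nat_lit 3413551957) (nat_lit 912) (nat_lit 6508787672) (nat_lit 76) (nat_lit 15605687876) (nat_lit 378) (nat_lit 5) (nat_lit 390) (nat_lit 5) (nat_lit 379) (nat_lit 5) (nat_lit 630) (nat_lit 593) (nat_lit 337)) (XT.lf (nat_lit 0) (nat_lit 6500299551) (nat_lit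 912) (nat_lit 18129955227) (nat_lit 76) (nat_lit 1181780569) (nat_lit 367) (nat_lit 5) (nat_lit 379) (nat_lit 5) (nat_lit 368) (nat_lit 5) (nat_lit 631) (nat_lit 593) (nat_lit 336)))))) (XT.nd (nat_lit 546) (nat_lit 2736) (nat_lit 0) (XT.nd (nat_lit 234) (nat_lit 2280) (nat_lit 0) (XT.nd (nat_lit 78) (nat_lit 760) (nat_lit 0) (XT.lf (nat_lit 0) (nat_lit 9755413318) (nat_lit 912) (nat_lit 3925067880) (nat_lit 76) (nat_lit 12419109767) (nat_lit 367) (nat_lit 5) (nat_lit 379) (nat_lit 5) (nat_lit 368) (nat_lit 5) (nat_lit 632) (nat_lit 593) (nat_lit 335)) (XT.nd (nat_lit 78) (nat_lit 0) (nat_lit 0) (XT.lf (nat_lit 0) (nat_lit 10701115671) (nat_lit 760) (nat_lit 2441005879) (nat_lit 836) (nat_lit 13249446542) (nat_lit 357) (nat_lit 5) (nat_lit 367) (nat_lit 5) (nat_lit 368) (nat_lit 5) (nat_lit 633) (nat_lit 593) (nat_lit 334)) (XT.lf (nat_lit 0) (nat_lit 16678713168) (nat_lit 836) (nat_lit 1077775084) (nat_lit 76) (nat_lit 8931253759) (nat_lit 357) (nat_lit 5) (nat_lit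 368) (nat_lit 5) (nat_lit 358) (nat_lit 5) (nat_lit 634) (nat_lit 593) (nat_lit 333)))) (XT.nd (nat_lit 156) (nat_lit 836) (nat_lit 0) (XT.nd (nat_lit 78) (nat_lit 684) (nat_lit 0) (XT.lf (nat_lit 0) (nat_lit 13991366030) (nat_lit 760) (nat_lit 6398785784) (nat_lit 836) (nat_lit 6597605521) (nat_lit 347) (nat_lit 5) (nat_lit 357) (nat_lit 5) (nat_lit 358) (nat_lit 5) (nat_lit 635) (nat_lit 593) (nat_lit 332)) (XT.lf (nat_lit 0) (nat_lit 2073183423) (nat_lit 684) (nat_lit 22154191350) (nat_lit 760) (nat_lit 3065367307) (nat_lit 338) (nat_lit 5) (nat_lit 347) (nat_lit 5) (nat_lit 348) (nat_lit 5) (nat_lit 636) (nat_lit 593) (nat_lit 331))) (XT.nd (nat_lit 78) (nat_lit 760) (nat_lit 0) (XT.lf (nat_lit 0) (nat_lit 657792364) (nat_lit 760) (nat_lit 10031382451) (nat_lit 76) (nat_lit 16912035597) (nat_lit 337) (nat_lit 5) (nat_lit 347) (nat_lit 5) (nat_lit 338) (nat_lit 5) (nat_lit 637) (nat_lit 593) (nat_lit 330)) (XT.lf (nat_lit 0) (nat_lit 4454289988) (nat_lit 836)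 (nat_lit 22412277750) (nat_lit 76) (nat_lit 1048076944) (nat_lit 327) (nat_lit 5) (nat_lit 338) (nat_lit 5) (nat_lit 328) (nat_lit 5) (nat_lit 638) (nat_lit 593) (nat_lit 329))))) (XT.nd (nat_lit 234) (nat_lit 2052) (nat_lit 0) (XT.nd (nat_lit 78) (nat_lit 684) (nat_lit 0) (XT.lf (nat_lit 0) (nat_lit 8462516476) (nat_lit 836) (nat_lit 6824613039) (nat_lit 76) (nat_lit 12944502352) (nat_lit 327) (nat_lit 5) (nat_lit 338) (nat_lit 5) (nat_lit 328) (nat_lit 5) (nat_lit 639) (nat_lit 593) (nat_lit 328)) (XT.nd (nat_lit 78) (nat_lit 0) (nat_lit 0) (XT.lf (nat_lit 0) (nat_lit 9192279030) (nat_lit 684) (nat_lit 3415612815) (nat_lit 760) (nat_lit 15945927468) (nat_lit 318) (nat_lit 5) (nat_lit 327) (nat_lit 5) (nat_lit 328) (nat_lit 5) (nat_lit 640) (nat_lit 593) (nat_lit 327)) (XT.lf (nat_lit 0) (nat_lit 16936050046) (nat_lit 760) (nat_lit 3319377335) (nat_lit 76) (nat_lit 8625025821) (nat_lit 318) (nat_lit 5) (nat_lit 328) (nat_lit 5) (nat_lit 319) (nat_lit 5) (nat_lit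 641) (nat_lit 593) (nat_lit 326)))) (XT.nd (nat_lit 156) (nat_lit 760) (nat_lit 0) (XT.nd (nat_lit 78) (nat_lit 608) (nat_lit 0) (XT.lf (nat_lit 0) (nat_lit 13190956821) (nat_lit 684) (nat_lit 8265463685) (nat_lit 760) (nat_lit 7755086476) (nat_lit 309) (nat_lit 5) (nat_lit 318) (nat_lit 5) (nat_lit 319) (nat_lit 5) (nat_lit 642) (nat_lit 593) (nat_lit 325)) (XT.lf (nat_lit 0) (nat_lit 505415872) (nat_lit 608) (nat_lit 25610638507) (nat_lit 684) (nat_lit 3432150531) (nat_lit 301) (nat_lit 5) (nat_lit 309) (nat_lit 5) (nat_lit 310) (nat_lit 5) (nat_lit 643) (nat_lit 593) (nat_lit 324))) (XT.nd (nat_lit 78) (nat_lit 684) (nat_lit 0) (XT.lf (nat_lit 0) (nat_lit 1124810941) (nat_lit 684) (nat_lit 12375314540) (nat_lit 76) (nat_lit 16388176932) (nat_lit 300) (nat_lit 5) (nat_lit 309) (nat_lit 5) (nat_lit 301) (nat_lit 5) (nat_lit 644) (nat_lit 593) (nat_lit 323)) (XT.lf (nat_lit 0) (nat_lit 4660872051) (nat_lit 684) (nat_lit 1093865064) (nat_lit 760) (nat_lit 24479455562)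 (nat_lit 291) (nat_lit 5) (nat_lit 300) (nat_lit 5) (nat_lit 301) (nat_lit 5) (nat_lit 645) (nat_lit 593) (nat_lit 322))))))) (XT.nd (nat_lit 1092) (nat_lit 1064) (nat_lit 0) (XT.nd (nat_lit 546) (nat_lit 2204) (nat_lit 0) (XT.nd (nat_lit 234) (nat_lit 1900) (nat_lit 0) (XT.nd (nat_lit 78) (nat_lit 608) (nat_lit 0) (XT.lf (nat_lit 0) (nat_lit 10633419236) (nat_lit 760) (nat_lit 8458478117) (nat_lit 76) (nat_lit 11491980425) (nat_lit 291) (nat_lit 5) (nat_lit 301) (nat_lit 5) (nat_lit 292) (nat_lit 5) (nat_lit 646) (nat_lit 593) (nat_lit 321)) (XT.nd (nat_lit 78) (nat_lit 0) (nat_lit 0) (XT.lf (nat_lit 0) (nat_lit 9107865700) (nat_lit 608) (nat_lit 6565740697) (nat_lit 684) (nat_lit 15265671728) (nat_lit 283) (nat_lit 5) (nat_lit 291) (nat_lit 5) (nat_lit 292) (nat_lit 5) (nat_lit 647) (nat_lit 593) (nat_lit 320)) (XT.lf (nat_lit 0) (nat_lit 20909637482) (nat_lit 684) (nat_lit 4204187228) (nat_lit 76) (nat_lit 6186061137) (nat_lit 283) (nat_lit 5) (nat_lit 292)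 (nat_lit 5) (nat_lit 284) (nat_lit 5) (nat_lit 648) (nat_lit 593) (nat_lit 319)))) (XT.nd (nat_lit 156) (nat_lit 684) (nat_lit 0) (XT.nd (nat_lit 78) (nat_lit 608) (nat_lit 0) (XT.lf (nat_lit 0) (nat_lit 13911585239) (nat_lit 608) (nat_lit 12470234310) (nat_lit 684) (nat_lit 5283257734) (nat_lit 275) (nat_lit 5) (nat_lit 283) (nat_lit 5) (nat_lit 284) (nat_lit 5) (nat_lit 649) (nat_lit 593) (nat_lit 318)) (XT.lf (nat_lit 0) (nat_lit 409072462) (nat_lit 608) (nat_lit 31585844169) (nat_lit 684) (nat_lit 42026655) (nat_lit 267) (nat_lit 5) (nat_lit 275) (nat_lit 5) (nat_lit 276) (nat_lit 5) (nat_lit 650) (nat_lit 593) (nat_lit 317))) (XT.nd (nat_lit 78) (nat_lit 608) (nat_lit 0) (XT.lf (nat_lit 0) (nat_lit 5434634488) (nat_lit 684) (nat_lit 13359136660) (nat_lit 76) (nat_lit 13617783498) (nat_lit 266) (nat_lit 5) (nat_lit 275) (nat_lit 5) (nat_lit 267) (nat_lit 5) (nat_lit 651) (nat_lit 593) (nat_lit 316)) (XT.lf (nat_lit 0) (nat_lit 5341807841) (nat_lit 608) (nat_lit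 5710847394) (nat_lit 684) (nat_lit 21740349815) (nat_lit 258) (nat_lit 5) (nat_lit 266) (nat_lit 5) (nat_lit 267) (nat_lit 5) (nat_lit 652) (nat_lit 593) (nat_lit 315))))) (XT.nd (nat_lit 234) (nat_lit 1672) (nat_lit 0) (XT.nd (nat_lit 78) (nat_lit 532) (nat_lit 0) (XT.lf (nat_lit 0) (nat_lit 16920567943) (nat_lit 684) (nat_lit 8635557301) (nat_lit 76) (nat_lit 7623208739) (nat_lit 258) (nat_lit 5) (nat_lit 267) (nat_lit 5) (nat_lit 259) (nat_lit 5) (nat_lit 653) (nat_lit 593) (nat_lit 314)) (XT.nd (nat_lit 78) (nat_lit 0) (nat_lit 0) (XT.lf (nat_lit 0) (nat_lit 10655414406) (nat_lit 532) (nat_lit 12355199001) (nat_lit 608) (nat_lit 10560680745) (nat_lit 251) (nat_lit 5) (nat_lit 258) (nat_lit 5) (nat_lit 259) (nat_lit 5) (nat_lit 654) (nat_lit 593) (nat_lit 313)) (XT.lf (nat_lit 0) (nat_lit 29285790657) (nat_lit 608) (nat_lit 3531189821) (nat_lit 76) (nat_lit 1152846575) (nat_lit 251) (nat_lit 5) (nat_lit 259) (nat_lit 5) (nat_lit 252) (nat_lit 5) (nat_lit 655)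 (nat_lit 593) (nat_lit 312)))) (XT.nd (nat_lit 156) (nat_lit 532) (nat_lit 0) (XT.nd (nat_lit 78) (nat_lit 532) (nat_lit 0) (XT.lf (nat_lit 0) (nat_lit 1480140746) (nat_lit 608) (nat_lit 18011138398) (nat_lit 76) (nat_lit 14881137831) (nat_lit 243) (nat_lit 5) (nat_lit 251) (nat_lit 5) (nat_lit 244) (nat_lit 5) (nat_lit 656) (nat_lit 593) (nat_lit 311)) (XT.lf (nat_lit 0) (nat_lit 1907840874) (nat_lit 532) (nat_lit 5831185621) (nat_lit 608) (nat_lit 27042730222) (nat_lit 236) (nat_lit 5) (nat_lit 243) (nat_lit 5) (nat_lit 244) (nat_lit 5) (nat_lit 657) (nat_lit 593) (nat_lit 310))) (XT.nd (nat_lit 78) (nat_lit 532) (nat_lit 0) (XT.lf (nat_lit 0) (nat_lit 14295223421) (nat_lit 608) (nat_lit 12783825795) (nat_lit 76) (nat_lit 8116791502) (nat_lit 236) (nat_lit 5) (nat_lit 244) (nat_lit 5) (nat_lit 237) (nat_lit 5) (nat_lit 658) (nat_lit 593) (nat_lit 309)) (XT.lf (nat_lit 0) (nat_lit 7768490369) (nat_lit 532) (nat_lit 13301015651) (nat_lit 608) (nat_lit 14546961277)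 (nat_lit 229) (nat_lit 5) (nat_lit 236) (nat_lit 5) (nat_lit 237) (nat_lit 5) (nat_lit 659) (nat_lit 593) (nat_lit 308)))))) (XT.nd (nat_lit 76284) (nat_lit 0) (nat_lit 20824) (XT.nd (nat_lit 234) (nat_lit 532) (nat_lit 0) (XT.nd (nat_lit 78) (nat_lit 532) (nat_lit 0) (XT.lf (nat_lit 0) (nat_lit 28068439063) (nat_lit 608) (nat_lit 7146965716) (nat_lit 76) (nat_lit 828318462) (nat_lit 229) (nat_lit 5) (nat_lit 237) (nat_lit 5) (nat_lit 230) (nat_lit 5) (nat_lit 660) (nat_lit 593) (nat_lit 307)) (XT.nd (nat_lit 78) (nat_lit 76) (nat_lit 0) (XT.lf (nat_lit 0) (nat_lit 14061594322) (nat_lit 456) (nat_lit 21323104771) (nat_lit 532) (nat_lit 1091278372) (nat_lit 223) (nat_lit 5) (nat_lit 229) (nat_lit 5) (nat_lit 230) (nat_lit 5) (nat_lit 661) (nat_lit 593) (nat_lit 306)) (XT.lf (nat_lit 0) (nat_lit 5898879990) (nat_lit 532) (nat_lit 1166348907) (nat_lit 76) (nat_lit 29849952898) (nat_lit 222) (nat_lit 5) (nat_lit 229) (nat_lit 5) (nat_lit 223) (nat_lit 5) (nat_lit 662)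 (nat_lit 593) (nat_lit 305)))) (XT.nd (nat_lit 75894) (nat_lit 0) (nat_lit 20748) (XT.nd (nat_lit 75816) (nat_lit 0) (nat_lit 20748) (XT.lf (nat_lit 0) (nat_lit 13196589173) (nat_lit 608) (nat_lit 16640805474) (nat_lit 76) (nat_lit 7521984222) (nat_lit 215) (nat_lit 5) (nat_lit 223) (nat_lit 5) (nat_lit 216) (nat_lit 5) (nat_lit 663) (nat_lit 593) (nat_lit 304)) (XT.lf (nat_lit 0) (nat_lit 3212504437) (nat_lit 0) (nat_lit 3212504437) (nat_lit 1748) (nat_lit 2440251476) (nat_lit 488) (nat_lit 5) (nat_lit 488) (nat_lit 3) (nat_lit 511) (nat_lit 3) (nat_lit 594) (nat_lit 594) (nat_lit 372))) (XT.nd (nat_lit 78) (nat_lit 0) (nat_lit 0) (XT.lf (nat_lit 0) (nat_lit 13203590299) (nat_lit 1748) (nat_lit 2559373343) (nat_lit 1824) (nat_lit 2140341070) (nat_lit 488) (nat_lit 5) (nat_lit 511) (nat_lit 3) (nat_lit 512) (nat_lit 5) (nat_lit 595) (nat_lit 594) (nat_lit 371)) (XT.lf (nat_lit 76) (nat_lit 6400181353) (nat_lit 0) (nat_lit 7242640488) (nat_lit 1824) (nat_lit 4435151328)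 (nat_lit 489) (nat_lit 5) (nat_lit 488) (nat_lit 5) (nat_lit 512) (nat_lit 5) (nat_lit 596) (nat_lit 594) (nat_lit 370))))) (XT.nd (nat_lit 234) (nat_lit 0) (nat_lit 76) (XT.nd (nat_lit 78) (nat_lit 0) (nat_lit 0) (XT.lf (nat_lit 0) (nat_lit 14112118083) (nat_lit 1748) (nat_lit 2694689977) (nat_lit 1824) (nat_lit 1448901842) (nat_lit 489) (nat_lit 5) (nat_lit 512) (nat_lit 5) (nat_lit 513) (nat_lit 5) (nat_lit 597) (nat_lit 594) (nat_lit 369)) (XT.nd (nat_lit 78) (nat_lit 0) (nat_lit 76) (XT.lf (nat_lit 76) (nat_lit 6502446117) (nat_lit 0) (nat_lit 8173232545) (nat_lit 1824) (nat_lit 3759625638) (nat_lit 490) (nat_lit 5) (nat_lit 489) (nat_lit 5) (nat_lit 513) (nat_lit 5) (nat_lit 598) (nat_lit 594) (nat_lit 368)) (XT.lf (nat_lit 0) (nat_lit 15267618576) (nat_lit 1748) (nat_lit 2705350895) (nat_lit 1824) (nat_lit 645179441) (nat_lit 490) (nat_lit 5) (nat_lit 513) (nat_lit 5) (nat_lit 514) (nat_lit 5) (nat_lit 599) (nat_lit 594) (nat_lit 367)))) (XT.nd (nat_lit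 156) (nat_lit 0) (nat_lit 76) (XT.nd (nat_lit 78) (nat_lit 0) (nat_lit 0) (XT.lf (nat_lit 76) (nat_lit 6737964048) (nat_lit 0) (nat_lit 9226205614) (nat_lit 1824) (nat_lit 2838625784) (nat_lit 491) (nat_lit 5) (nat_lit 490) (nat_lit 5) (nat_lit 514) (nat_lit 5) (nat_lit 600) (nat_lit 594) (nat_lit 366)) (XT.lf (nat_lit 76) (nat_lit 16403851939) (nat_lit 0) (nat_lit 283932631) (nat_lit 1824) (nat_lit 2303088155) (nat_lit 491) (nat_lit 5) (nat_lit 490) (nat_lit 5) (nat_lit 514) (nat_lit 5) (nat_lit 601) (nat_lit 594) (nat_lit 365))) (XT.nd (nat_lit 78) (nat_lit 0) (nat_lit 0) (XT.lf (nat_lit 76) (nat_lit 7113241640) (nat_lit 0) (nat_lit 10411280913) (nat_lit 1824) (nat_lit 1656216441) (nat_lit 492) (nat_lit 5) (nat_lit 491) (nat_lit 5) (nat_lit 515) (nat_lit 5) (nat_lit 602) (nat_lit 594) (nat_lit 364)) (XT.lf (nat_lit 76) (nat_lit 17037672619) (nat_lit 0) (nat_lit 1354717748) (nat_lit 1824) (nat_lit 981724770) (nat_lit 492) (nat_lit 5) (nat_lit 491) (nat_lit 5)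 (nat_lit 515) (nat_lit 5) (nat_lit 603) (nat_lit 594) (nat_lit 363))))))))
noncomputable def xc220 : XT := (XT.nd (nat_lit 2106) (nat_lit 10260) (nat_lit 0) (XT.nd (nat_lit 1014) (nat_lit 6840) (nat_lit 0) (XT.nd (nat_lit 468) (nat_lit 0) (nat_lit 228) (XT.nd (nat_lit 234) (nat_lit 0) (nat_lit 76) (XT.nd (nat_lit 78) (nat_lit 1824) (nat_lit 0) (XT.lf (nat_lit 76) (nat_lit 7635140962) (nat_lit 0) (nat_lit 11738501755) (nat_lit 1824) (nat_lit 195795985) (nat_lit 493) (nat_lit 5) (nat_lit 492) (nat_lit 5) (nat_lit 516) (nat_lit 5) (nat_lit 604) (nat_lit 594) (nat_lit 362)) (XT.nd (nat_lit 78) (nat_lit 0) (nat_lit 76) (XT.lf (nat_lit 0) (nat_lit 617974804) (nat_lit 1824) (nat_lit 1946626844) (nat_lit 1900) (nat_lit 17203587458) (nat_lit 468) (nat_lit 5) (nat_lit 492) (nat_lit 5) (nat_lit 493) (nat_lit 5) (nat_lit 605) (nat_lit 594) (nat_lit 361)) (XT.lf (nat_lit 0) (nat_lit 1539476780) (nat_lit 1824) (nat_lit 11668447984) (nat_lit 1900) (nat_lit 6761082737) (nat_lit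 469) (nat_lit 5) (nat_lit 493) (nat_lit 5) (nat_lit 494) (nat_lit 5) (nat_lit 606) (nat_lit 594) (nat_lit 360)))) (XT.nd (nat_lit 78) (nat_lit 0) (nat_lit 76) (XT.lf (nat_lit 0) (nat_lit 2505029568) (nat_lit 1824) (nat_lit 1414684980) (nat_lit 1900) (nat_lit 16253615708) (nat_lit 469) (nat_lit 5) (nat_lit 493) (nat_lit 5) (nat_lit 494) (nat_lit 5) (nat_lit 607) (nat_lit 594) (nat_lit 359)) (XT.nd (nat_lit 78) (nat_lit 0) (nat_lit 0) (XT.lf (nat_lit 0) (nat_lit 3581414883) (nat_lit 1824) (nat_lit 11255847731) (nat_lit 1900) (nat_lit 5542646824) (nat_lit 470) (nat_lit 5) (nat_lit 494) (nat_lit 5) (nat_lit 495) (nat_lit 5) (nat_lit 608) (nat_lit 594) (nat_lit 358)) (XT.lf (nat_lit 0) (nat_lit 4710493878) (nat_lit 1824) (nat_lit 726816940) (nat_lit 1900) (nat_lit 15152686459) (nat_lit 470) (nat_lit 5) (nat_lit 494) (nat_lit 5) (nat_lit 495) (nat_lit 5) (nat_lit 609) (nat_lit 594) (nat_lit 357))))) (XT.nd (nat_lit 234) (nat_lit 0) (nat_lit 76) (XT.nd (nat_lit 78) (nat_lit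 0) (nat_lit 0) (XT.lf (nat_lit 0) (nat_lit 5951137268) (nat_lit 1824) (nat_lit 10687693385) (nat_lit 1900) (nat_lit 4163676947) (nat_lit 471) (nat_lit 5) (nat_lit 495) (nat_lit 5) (nat_lit 496) (nat_lit 5) (nat_lit 610) (nat_lit 594) (nat_lit 356)) (XT.nd (nat_lit 78) (nat_lit 0) (nat_lit 76) (XT.lf (nat_lit 76) (nat_lit 126441374) (nat_lit 0) (nat_lit 7127699449) (nat_lit 1900) (nat_lit 13764376739) (nat_lit 472) (nat_lit 5) (nat_lit 471) (nat_lit 5) (nat_lit 496) (nat_lit 5) (nat_lit 611) (nat_lit 594) (nat_lit 355)) (XT.lf (nat_lit 0) (nat_lit 8667985949) (nat_lit 1824) (nat_lit 9956069319) (nat_lit 1900) (nat_lit 2613097196) (nat_lit 472) (nat_lit 5) (nat_lit 496) (nat_lit 5) (nat_lit 497) (nat_lit 5) (nat_lit 612) (nat_lit 594) (nat_lit 354)))) (XT.nd (nat_lit 156) (nat_lit 0) (nat_lit 76) (XT.nd (nat_lit 78) (nat_lit 0) (nat_lit 76) (XT.lf (nat_lit 76) (nat_lit 1163573202) (nat_lit 0) (nat_lit 8997250233) (nat_lit 1900) (nat_lit 11298322682) (nat_lit 473)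 (nat_lit 5) (nat_lit 472) (nat_lit 5) (nat_lit 497) (nat_lit 5) (nat_lit 613) (nat_lit 594) (nat_lit 353)) (XT.lf (nat_lit 0) (nat_lit 11752130214) (nat_lit 1824) (nat_lit 9052664340) (nat_lit 1900) (nat_lit 879413193) (nat_lit 473) (nat_lit 5) (nat_lit 497) (nat_lit 5) (nat_lit 498) (nat_lit 5) (nat_lit 614) (nat_lit 594) (nat_lit 352))) (XT.nd (nat_lit 78) (nat_lit 0) (nat_lit 0) (XT.lf (nat_lit 76) (nat_lit 2383636049) (nat_lit 0) (nat_lit 11062787727) (nat_lit 1900) (nat_lit 8465923969) (nat_lit 474) (nat_lit 5) (nat_lit 473) (nat_lit 5) (nat_lit 498) (nat_lit 5) (nat_lit 615) (nat_lit 594) (nat_lit 351)) (XT.lf (nat_lit 76) (nat_lit 14168250643) (nat_lit 0) (nat_lit 1063256965) (nat_lit 1900) (nat_lit 6912405190) (nat_lit 474) (nat_lit 5) (nat_lit 473) (nat_lit 5) (nat_lit 498) (nat_lit 5) (nat_lit 616) (nat_lit 594) (nat_lit 350)))))) (XT.nd (nat_lit 546) (nat_lit 3496) (nat_lit 0) (XT.nd (nat_lit 234) (nat_lit 2052) (nat_lit 0) (XT.nd (nat_lit 78) (nat_lit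 1748) (nat_lit 0) (XT.lf (nat_lit 76) (nat_lit 3795769787) (nat_lit 0) (nat_lit 13336722884) (nat_lit 1900) (nat_lit 5246012824) (nat_lit 475) (nat_lit 5) (nat_lit 474) (nat_lit 5) (nat_lit 499) (nat_lit 5) (nat_lit 617) (nat_lit 594) (nat_lit 349)) (XT.nd (nat_lit 78) (nat_lit 1748) (nat_lit 0) (XT.lf (nat_lit 76) (nat_lit 15900486122) (nat_lit 0) (nat_lit 3227817060) (nat_lit 1900) (nat_lit 3488351078) (nat_lit 475) (nat_lit 5) (nat_lit 474) (nat_lit 5) (nat_lit 499) (nat_lit 5) (nat_lit 618) (nat_lit 594) (nat_lit 348)) (XT.lf (nat_lit 0) (nat_lit 5409551710) (nat_lit 1824) (nat_lit 15831956101) (nat_lit 1900) (nat_lit 1616508953) (nat_lit 451) (nat_lit 5) (nat_lit 475) (nat_lit 5) (nat_lit 476) (nat_lit 5) (nat_lit 619) (nat_lit 594) (nat_lit 347)))) (XT.nd (nat_lit 156) (nat_lit 912) (nat_lit 0) (XT.nd (nat_lit 78) (nat_lit 1064) (nat_lit 0) (XT.lf (nat_lit 0) (nat_lit 352067267) (nat_lit 1900) (nat_lit 5261220007) (nat_lit 76) (nat_lit 17489618798) (nat_lit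 450) (nat_lit 5) (nat_lit 475) (nat_lit 5) (nat_lit 451) (nat_lit 5) (nat_lit 620) (nat_lit 594) (nat_lit 346)) (XT.lf (nat_lit 0) (nat_lit 2413546439) (nat_lit 1140) (nat_lit 16132161165) (nat_lit 76) (nat_lit 4805268632) (nat_lit 436) (nat_lit 5) (nat_lit 451) (nat_lit 5) (nat_lit 437) (nat_lit 5) (nat_lit 621) (nat_lit 594) (nat_lit 345))) (XT.nd (nat_lit 78) (nat_lit 912) (nat_lit 0) (XT.lf (nat_lit 0) (nat_lit 4585484540) (nat_lit 1140) (nat_lit 3624096366) (nat_lit 76) (nat_lit 15393042609) (nat_lit 436) (nat_lit 5) (nat_lit 451) (nat_lit 5) (nat_lit 437) (nat_lit 5) (nat_lit 622) (nat_lit 594) (nat_lit 344)) (XT.lf (nat_lit 0) (nat_lit 6873067274) (nat_lit 988) (nat_lit 14621336534) (nat_lit 76) (nat_lit 2363456105) (nat_lit 424) (nat_lit 5) (nat_lit 437) (nat_lit 5) (nat_lit 425) (nat_lit 5) (nat_lit 623) (nat_lit 594) (nat_lit 343))))) (XT.nd (nat_lit 234) (nat_lit 1748) (nat_lit 0) (XT.nd (nat_lit 78) (nat_lit 1748) (nat_lit 0) (XT.lf (nat_lit 0) (nat_lit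 9281883555) (nat_lit 988) (nat_lit 1771904912) (nat_lit 76) (nat_lit 13062903221) (nat_lit 424) (nat_lit 5) (nat_lit 437) (nat_lit 5) (nat_lit 425) (nat_lit 5) (nat_lit 624) (nat_lit 594) (nat_lit 342)) (XT.nd (nat_lit 78) (nat_lit 836) (nat_lit 0) (XT.lf (nat_lit 0) (nat_lit 11482023536) (nat_lit 912) (nat_lit 328100711) (nat_lit 988) (nat_lit 12569151169) (nat_lit 412) (nat_lit 5) (nat_lit 424) (nat_lit 5) (nat_lit 425) (nat_lit 5) (nat_lit 625) (nat_lit 594) (nat_lit 341)) (XT.lf (nat_lit 0) (nat_lit 310137132) (nat_lit 836) (nat_lit 14158421488) (nat_lit 912) (nat_lit 10176959896) (nat_lit 401) (nat_lit 5) (nat_lit 412) (nat_lit 5) (nat_lit 413) (nat_lit 5) (nat_lit 626) (nat_lit 594) (nat_lit 340)))) (XT.nd (nat_lit 156) (nat_lit 912) (nat_lit 0) (XT.nd (nat_lit 78) (nat_lit 836) (nat_lit 0) (XT.lf (nat_lit 0) (nat_lit 13951191407) (nat_lit 836) (nat_lit 3314465124) (nat_lit 912) (nat_lit 7649720321) (nat_lit 401) (nat_lit 5) (nat_lit 412) (nat_lit 5) (nat_lit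 413) (nat_lit 5) (nat_lit 627) (nat_lit 594) (nat_lit 339)) (XT.lf (nat_lit 0) (nat_lit 2655862535) (nat_lit 836) (nat_lit 17527224633) (nat_lit 912) (nat_lit 5006257635) (nat_lit 390) (nat_lit 5) (nat_lit 401) (nat_lit 5) (nat_lit 402) (nat_lit 5) (nat_lit 628) (nat_lit 594) (nat_lit 338))) (XT.nd (nat_lit 78) (nat_lit 912) (nat_lit 0) (XT.lf (nat_lit 0) (nat_lit 16671603130) (nat_lit 836) (nat_lit 6579538664) (nat_lit 912) (nat_lit 2215805070) (nat_lit 390) (nat_lit 5) (nat_lit 401) (nat_lit 5) (nat_lit 402) (nat_lit 5) (nat_lit 629) (nat_lit 594) (nat_lit 337)) (XT.lf (nat_lit 0) (nat_lit 683438217) (nat_lit 912) (nat_lit 20499793419) (nat_lit 76) (nat_lit 4565562708) (nat_lit 378) (nat_lit 5) (nat_lit 390) (nat_lit 5) (nat_lit 379) (nat_lit 5) (nat_lit 630) (nat_lit 594) (nat_lit 336))))))) (XT.nd (nat_lit 1014) (nat_lit 5016) (nat_lit 0) (XT.nd (nat_lit 468) (nat_lit 2888) (nat_lit 0) (XT.nd (nat_lit 234) (nat_lit 1520) (nat_lit 0) (XT.nd (nat_lit 78) (nat_lit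 836) (nat_lit 0) (XT.lf (nat_lit 0) (nat_lit 3710984697) (nat_lit 912) (nat_lit 6403390617) (nat_lit 76) (nat_lit 15919611016) (nat_lit 378) (nat_lit 5) (nat_lit 390) (nat_lit 5) (nat_lit 379) (nat_lit 5) (nat_lit 631) (nat_lit 594) (nat_lit 335)) (XT.nd (nat_lit 78) (nat_lit 0) (nat_lit 0) (XT.lf (nat_lit 0) (nat_lit 6856544180) (nat_lit 912) (nat_lit 18254040332) (nat_lit 76) (nat_lit 1213148640) (nat_lit 367) (nat_lit 5) (nat_lit 379) (nat_lit 5) (nat_lit 368) (nat_lit 5) (nat_lit 632) (nat_lit 594) (nat_lit 334)) (XT.lf (nat_lit 0) (nat_lit 10172324171) (nat_lit 912) (nat_lit 3769731984) (nat_lit 76) (nat_lit 12675072805) (nat_lit 367) (nat_lit 5) (nat_lit 379) (nat_lit 5) (nat_lit 368) (nat_lit 5) (nat_lit 633) (nat_lit 594) (nat_lit 333)))) (XT.nd (nat_lit 78) (nat_lit 760) (nat_lit 0) (XT.lf (nat_lit 0) (nat_lit 11147436835) (nat_lit 760) (nat_lit 2476488900) (nat_lit 836) (nat_lit 13291077059) (nat_lit 357) (nat_lit 5) (nat_lit 367) (nat_lit 5) (nat_lit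 368) (nat_lit 5) (nat_lit 634) (nat_lit 594) (nat_lit 332)) (XT.nd (nat_lit 78) (nat_lit 760) (nat_lit 0) (XT.lf (nat_lit 0) (nat_lit 17227040713) (nat_lit 836) (nat_lit 867361060) (nat_lit 76) (nat_lit 9122782930) (nat_lit 357) (nat_lit 5) (nat_lit 368) (nat_lit 5) (nat_lit 358) (nat_lit 5) (nat_lit 635) (nat_lit 594) (nat_lit 331)) (XT.lf (nat_lit 0) (nat_lit 14501636761) (nat_lit 760) (nat_lit 6508356714) (nat_lit 836) (nat_lit 6513261486) (nat_lit 347) (nat_lit 5) (nat_lit 357) (nat_lit 5) (nat_lit 358) (nat_lit 5) (nat_lit 636) (nat_lit 594) (nat_lit 330))))) (XT.nd (nat_lit 234) (nat_lit 1368) (nat_lit 0) (XT.nd (nat_lit 78) (nat_lit 836) (nat_lit 0) (XT.lf (nat_lit 0) (nat_lit 2347685227) (nat_lit 684) (nat_lit 22573748238) (nat_lit 760) (nat_lit 2912956814) (nat_lit 338) (nat_lit 5) (nat_lit 347) (nat_lit 5) (nat_lit 348) (nat_lit 5) (nat_lit 637) (nat_lit 594) (nat_lit 329)) (XT.nd (nat_lit 78) (nat_lit 760) (nat_lit 0) (XT.lf (nat_lit 0) (nat_lit 877727516)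 (nat_lit 760) (nat_lit 10000777571) (nat_lit 76) (nat_lit 17270578166) (nat_lit 337) (nat_lit 5) (nat_lit 347) (nat_lit 5) (nat_lit 338) (nat_lit 5) (nat_lit 638) (nat_lit 594) (nat_lit 328)) (XT.lf (nat_lit 0) (nat_lit 4747757565) (nat_lit 836) (nat_lit 22626877776) (nat_lit 76) (nat_lit 1094199128) (nat_lit 327) (nat_lit 5) (nat_lit 338) (nat_lit 5) (nat_lit 328) (nat_lit 5) (nat_lit 639) (nat_lit 594) (nat_lit 327)))) (XT.nd (nat_lit 156) (nat_lit 684) (nat_lit 0) (XT.nd (nat_lit 78) (nat_lit 684) (nat_lit 0) (XT.lf (nat_lit 0) (nat_lit 8832141097) (nat_lit 836) (nat_lit 6732041055) (nat_lit 76) (nat_lit 13228059698) (nat_lit 327) (nat_lit 5) (nat_lit 338) (nat_lit 5) (nat_lit 328) (nat_lit 5) (nat_lit 640) (nat_lit 594) (nat_lit 326)) (XT.lf (nat_lit 0) (nat_lit 9603681853) (nat_lit 684) (nat_lit 3454290664) (nat_lit 760) (nat_lit 16062949853) (nat_lit 318) (nat_lit 5) (nat_lit 327) (nat_lit 5) (nat_lit 328) (nat_lit 5) (nat_lit 641) (nat_lit 594) (nat_lit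 325))) (XT.nd (nat_lit 78) (nat_lit 684) (nat_lit 0) (XT.lf (nat_lit 0) (nat_lit 17469001676) (nat_lit 760) (nat_lit 3158962760) (nat_lit 76) (nat_lit 8826198637) (nat_lit 318) (nat_lit 5) (nat_lit 328) (nat_lit 5) (nat_lit 319) (nat_lit 5) (nat_lit 642) (nat_lit 594) (nat_lit 324)) (XT.lf (nat_lit 0) (nat_lit 13680085960) (nat_lit 684) (nat_lit 8397348004) (nat_lit 760) (nat_lit 7714451163) (nat_lit 309) (nat_lit 5) (nat_lit 318) (nat_lit 5) (nat_lit 319) (nat_lit 5) (nat_lit 643) (nat_lit 594) (nat_lit 323)))))) (XT.nd (nat_lit 546) (nat_lit 2432) (nat_lit 0) (XT.nd (nat_lit 234) (nat_lit 1216) (nat_lit 0) (XT.nd (nat_lit 78) (nat_lit 760) (nat_lit 0) (XT.lf (nat_lit 0) (nat_lit 742962953) (nat_lit 608) (nat_lit 26085224555) (nat_lit 684) (nat_lit 3307171246) (nat_lit 301) (nat_lit 5) (nat_lit 309) (nat_lit 5) (nat_lit 310) (nat_lit 5) (nat_lit 644) (nat_lit 594) (nat_lit 322)) (XT.nd (nat_lit 78) (nat_lit 684) (nat_lit 0) (XT.lf (nat_lit 0) (nat_lit 1334643341)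 (nat_lit 684) (nat_lit 12397338583) (nat_lit 76) (nat_lit 16750326345) (nat_lit 300) (nat_lit 5) (nat_lit 309) (nat_lit 5) (nat_lit 301) (nat_lit 5) (nat_lit 645) (nat_lit 594) (nat_lit 321)) (XT.lf (nat_lit 0) (nat_lit 4978088304) (nat_lit 684) (nat_lit 1076860824) (nat_lit 760) (nat_lit 24780211852) (nat_lit 291) (nat_lit 5) (nat_lit 300) (nat_lit 5) (nat_lit 301) (nat_lit 5) (nat_lit 646) (nat_lit 594) (nat_lit 320)))) (XT.nd (nat_lit 156) (nat_lit 608) (nat_lit 0) (XT.nd (nat_lit 78) (nat_lit 608) (nat_lit 0) (XT.lf (nat_lit 0) (nat_lit 11027822636) (nat_lit 760) (nat_lit 8404645799) (nat_lit 76) (nat_lit 11759439252) (nat_lit 291) (nat_lit 5) (nat_lit 301) (nat_lit 5) (nat_lit 292) (nat_lit 5) (nat_lit 647) (nat_lit 594) (nat_lit 319)) (XT.lf (nat_lit 0) (nat_lit 9511557777) (nat_lit 608) (nat_lit 6655130683) (nat_lit 684) (nat_lit 15387770337) (nat_lit 283) (nat_lit 5) (nat_lit 291) (nat_lit 5) (nat_lit 292) (nat_lit 5) (nat_lit 648) (nat_lit 594) (nat_lit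 318))) (XT.nd (nat_lit 78) (nat_lit 608) (nat_lit 0) (XT.lf (nat_lit 0) (nat_lit 21504185269) (nat_lit 684) (nat_lit 4067812688) (nat_lit 76) (nat_lit 6350346063) (nat_lit 283) (nat_lit 5) (nat_lit 292) (nat_lit 5) (nat_lit 284) (nat_lit 5) (nat_lit 649) (nat_lit 594) (nat_lit 317)) (XT.lf (nat_lit 0) (nat_lit 14408824845) (nat_lit 608) (nat_lit 12674950135) (nat_lit 684) (nat_lit 5211105269) (nat_lit 275) (nat_lit 5) (nat_lit 283) (nat_lit 5) (nat_lit 284) (nat_lit 5) (nat_lit 650) (nat_lit 594) (nat_lit 316))))) (XT.nd (nat_lit 234) (nat_lit 1140) (nat_lit 0) (XT.nd (nat_lit 78) (nat_lit 608) (nat_lit 0) (XT.lf (nat_lit 0) (nat_lit 131468760) (nat_lit 684) (nat_lit 32037074450) (nat_lit 76) (nat_lit 505657308) (nat_lit 266) (nat_lit 5) (nat_lit 275) (nat_lit 5) (nat_lit 267) (nat_lit 5) (nat_lit 651) (nat_lit 594) (nat_lit 315)) (XT.nd (nat_lit 78) (nat_lit 608) (nat_lit 0) (XT.lf (nat_lit 0) (nat_lit 5713693587) (nat_lit 684) (nat_lit 13407617953) (nat_lit 76)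 (nat_lit 13935055375) (nat_lit 266) (nat_lit 5) (nat_lit 275) (nat_lit 5) (nat_lit 267) (nat_lit 5) (nat_lit 652) (nat_lit 594) (nat_lit 314)) (XT.lf (nat_lit 0) (nat_lit 5665906613) (nat_lit 608) (nat_lit 5776238231) (nat_lit 684) (nat_lit 22003340306) (nat_lit 258) (nat_lit 5) (nat_lit 266) (nat_lit 5) (nat_lit 267) (nat_lit 5) (nat_lit 653) (nat_lit 594) (nat_lit 313)))) (XT.nd (nat_lit 156) (nat_lit 608) (nat_lit 0) (XT.nd (nat_lit 78) (nat_lit 532) (nat_lit 0) (XT.lf (nat_lit 0) (nat_lit 17424423926) (nat_lit 684) (nat_lit 8592262953) (nat_lit 76) (nat_lit 7822913842) (nat_lit 258) (nat_lit 5) (nat_lit 267) (nat_lit 5) (nat_lit 259) (nat_lit 5) (nat_lit 654) (nat_lit 594) (nat_lit 312)) (XT.lf (nat_lit 0) (nat_lit 11083107100) (nat_lit 532) (nat_lit 12551312412) (nat_lit 608) (nat_lit 10605017815) (nat_lit 251) (nat_lit 5) (nat_lit 258) (nat_lit 5) (nat_lit 259) (nat_lit 5) (nat_lit 655) (nat_lit 594) (nat_lit 311))) (XT.nd (nat_lit 78) (nat_lit 608) (nat_lit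 0) (XT.lf (nat_lit 0) (nat_lit 30032217158) (nat_lit 608) (nat_lit 3388542980) (nat_lit 76) (nat_lit 1225238624) (nat_lit 251) (nat_lit 5) (nat_lit 259) (nat_lit 5) (nat_lit 252) (nat_lit 5) (nat_lit 656) (nat_lit 594) (nat_lit 310)) (XT.lf (nat_lit 0) (nat_lit 1669741468) (nat_lit 608) (nat_lit 18157357129) (nat_lit 76) (nat_lit 15229556552) (nat_lit 243) (nat_lit 5) (nat_lit 251) (nat_lit 5) (nat_lit 244) (nat_lit 5) (nat_lit 657) (nat_lit 594) (nat_lit 309))))))))
noncomputable def xc221 : XT := (XT.nd (nat_lit 77922) (nat_lit 0) (nat_lit 7296) (XT.nd (nat_lit 76830) (nat_lit 0) (nat_lit 18696) (XT.nd (nat_lit 76284) (nat_lit 0) (nat_lit 20216) (XT.nd (nat_lit 234) (nat_lit 532) (nat_lit 0) (XT.nd (nat_lit 78) (nat_lit 532) (nat_lit 0) (XT.lf (nat_lit 0) (nat_lit 2158593807) (nat_lit 532) (nat_lit 5893454226) (nat_lit 608) (nat_lit 27422168990) (nat_lit 236) (nat_lit 5) (nat_lit 243) (nat_lit 5) (nat_lit 244) (nat_lit 5) (nat_lit 658) (nat_lit 594) (nat_lit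 308)) (XT.nd (nat_lit 78) (nat_lit 532) (nat_lit 0) (XT.lf (nat_lit 0) (nat_lit 14736612123) (nat_lit 608) (nat_lit 12828308159) (nat_lit 76) (nat_lit 8331717754) (nat_lit 236) (nat_lit 5) (nat_lit 244) (nat_lit 5) (nat_lit 237) (nat_lit 5) (nat_lit 659) (nat_lit 594) (nat_lit 307)) (XT.lf (nat_lit 0) (nat_lit 8133664892) (nat_lit 532) (nat_lit 13511028962) (nat_lit 608) (nat_lit 14681017215) (nat_lit 229) (nat_lit 5) (nat_lit 236) (nat_lit 5) (nat_lit 237) (nat_lit 5) (nat_lit 660) (nat_lit 594) (nat_lit 306)))) (XT.nd (nat_lit 78) (nat_lit 532) (nat_lit 0) (XT.lf (nat_lit 0) (nat_lit 28780946421) (nat_lit 608) (nat_lit 7081545564) (nat_lit 76) (nat_lit 899073518) (nat_lit 229) (nat_lit 5) (nat_lit 237) (nat_lit 5) (nat_lit 230) (nat_lit 5) (nat_lit 661) (nat_lit 594) (nat_lit 305)) (XT.nd (nat_lit 78) (nat_lit 76) (nat_lit 0) (XT.lf (nat_lit 0) (nat_lit 14549814888) (nat_lit 456) (nat_lit 21692097170) (nat_lit 532) (nat_lit 960585330) (nat_lit 223) (nat_lit 5)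 (nat_lit 229) (nat_lit 5) (nat_lit 230) (nat_lit 5) (nat_lit 662) (nat_lit 594) (nat_lit 304)) (XT.lf (nat_lit 0) (nat_lit 6164424551) (nat_lit 532) (nat_lit 984775833) (nat_lit 76) (nat_lit 30501324822) (nat_lit 222) (nat_lit 5) (nat_lit 229) (nat_lit 5) (nat_lit 223) (nat_lit 5) (nat_lit 663) (nat_lit 594) (nat_lit 303))))) (XT.nd (nat_lit 234) (nat_lit 0) (nat_lit 76) (XT.nd (nat_lit 78) (nat_lit 0) (nat_lit 0) (XT.lf (nat_lit 0) (nat_lit 3381565169) (nat_lit 0) (nat_lit 3381565169) (nat_lit 1748) (nat_lit 2275223172) (nat_lit 488) (nat_lit 5) (nat_lit 488) (nat_lit 3) (nat_lit 511) (nat_lit 3) (nat_lit 595) (nat_lit 595) (nat_lit 370)) (XT.nd (nat_lit 78) (nat_lit 0) (nat_lit 0) (XT.lf (nat_lit 0) (nat_lit 13877349922) (nat_lit 1748) (nat_lit 2395456515) (nat_lit 1824) (nat_lit 1980332140) (nat_lit 488) (nat_lit 5) (nat_lit 511) (nat_lit 3) (nat_lit 512) (nat_lit 5) (nat_lit 596) (nat_lit 595) (nat_lit 369)) (XT.lf (nat_lit 76) (nat_lit 6741874116) (nat_lit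 0) (nat_lit 7576846297) (nat_lit 1824) (nat_lit 4112713659) (nat_lit 489) (nat_lit 5) (nat_lit 488) (nat_lit 5) (nat_lit 512) (nat_lit 5) (nat_lit 597) (nat_lit 595) (nat_lit 368)))) (XT.nd (nat_lit 156) (nat_lit 0) (nat_lit 76) (XT.nd (nat_lit 78) (nat_lit 0) (nat_lit 0) (XT.lf (nat_lit 0) (nat_lit 14788294492) (nat_lit 1748) (nat_lit 2529939560) (nat_lit 1824) (nat_lit 1294674389) (nat_lit 489) (nat_lit 5) (nat_lit 512) (nat_lit 5) (nat_lit 513) (nat_lit 5) (nat_lit 598) (nat_lit 595) (nat_lit 367)) (XT.lf (nat_lit 76) (nat_lit 6849700807) (nat_lit 0) (nat_lit 8507111523) (nat_lit 1824) (nat_lit 3439409401) (nat_lit 490) (nat_lit 5) (nat_lit 489) (nat_lit 5) (nat_lit 513) (nat_lit 5) (nat_lit 599) (nat_lit 595) (nat_lit 366))) (XT.nd (nat_lit 78) (nat_lit 0) (nat_lit 0) (XT.lf (nat_lit 0) (nat_lit 15951905900) (nat_lit 1748) (nat_lit 2537790397) (nat_lit 1824) (nat_lit 493201351) (nat_lit 490) (nat_lit 5) (nat_lit 513) (nat_lit 5) (nat_lit 514) (nat_lit 5) (nat_lit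 600) (nat_lit 595) (nat_lit 365)) (XT.lf (nat_lit 76) (nat_lit 7092932506) (nat_lit 0) (nat_lit 9563455149) (nat_lit 1824) (nat_lit 2514970162) (nat_lit 491) (nat_lit 5) (nat_lit 490) (nat_lit 5) (nat_lit 514) (nat_lit 5) (nat_lit 601) (nat_lit 595) (nat_lit 364)))))) (XT.nd (nat_lit 546) (nat_lit 0) (nat_lit 152) (XT.nd (nat_lit 234) (nat_lit 1672) (nat_lit 0) (XT.nd (nat_lit 78) (nat_lit 0) (nat_lit 76) (XT.lf (nat_lit 76) (nat_lit 16947820327) (nat_lit 0) (nat_lit 439342091) (nat_lit 1824) (nat_lit 1976181156) (nat_lit 491) (nat_lit 5) (nat_lit 490) (nat_lit 5) (nat_lit 514) (nat_lit 5) (nat_lit 602) (nat_lit 595) (nat_lit 363)) (XT.nd (nat_lit 78) (nat_lit 0) (nat_lit 0) (XT.lf (nat_lit 76) (nat_lit 7478241513) (nat_lit 0) (nat_lit 10755717639) (nat_lit 1824) (nat_lit 1323182206) (nat_lit 492) (nat_lit 5) (nat_lit 491) (nat_lit 5) (nat_lit 515) (nat_lit 5) (nat_lit 603) (nat_lit 595) (nat_lit 362)) (XT.lf (nat_lit 76) (nat_lit 17596793759) (nat_lit 0) (nat_lit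 1515352404) (nat_lit 1824) (nat_lit 642380281) (nat_lit 492) (nat_lit 5) (nat_lit 491) (nat_lit 5) (nat_lit 515) (nat_lit 5) (nat_lit 604) (nat_lit 595) (nat_lit 361)))) (XT.nd (nat_lit 156) (nat_lit 0) (nat_lit 76) (XT.nd (nat_lit 78) (nat_lit 0) (nat_lit 0) (XT.lf (nat_lit 0) (nat_lit 150845440) (nat_lit 1824) (nat_lit 11942214697) (nat_lit 1900) (nat_lit 7860802950) (nat_lit 468) (nat_lit 5) (nat_lit 492) (nat_lit 5) (nat_lit 493) (nat_lit 5) (nat_lit 605) (nat_lit 595) (nat_lit 360)) (XT.lf (nat_lit 0) (nat_lit 971450072) (nat_lit 1824) (nat_lit 1760586502) (nat_lit 1900) (nat_lit 17424663057) (nat_lit 468) (nat_lit 5) (nat_lit 492) (nat_lit 5) (nat_lit 493) (nat_lit 5) (nat_lit 606) (nat_lit 595) (nat_lit 359))) (XT.nd (nat_lit 78) (nat_lit 0) (nat_lit 0) (XT.lf (nat_lit 0) (nat_lit 1905414926) (nat_lit 1824) (nat_lit 11670846567) (nat_lit 1900) (nat_lit 6785392851) (nat_lit 469) (nat_lit 5) (nat_lit 493) (nat_lit 5) (nat_lit 494) (nat_lit 5) (nat_lit 607)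 (nat_lit 595) (nat_lit 358)) (XT.lf (nat_lit 0) (nat_lit 2883707228) (nat_lit 1824) (nat_lit 1216537134) (nat_lit 1900) (nat_lit 16469951217) (nat_lit 469) (nat_lit 5) (nat_lit 493) (nat_lit 5) (nat_lit 494) (nat_lit 5) (nat_lit 608) (nat_lit 595) (nat_lit 357))))) (XT.nd (nat_lit 234) (nat_lit 0) (nat_lit 76) (XT.nd (nat_lit 78) (nat_lit 0) (nat_lit 0) (XT.lf (nat_lit 0) (nat_lit 3975997642) (nat_lit 1824) (nat_lit 11248871375) (nat_lit 1900) (nat_lit 5556150364) (nat_lit 470) (nat_lit 5) (nat_lit 494) (nat_lit 5) (nat_lit 495) (nat_lit 5) (nat_lit 609) (nat_lit 595) (nat_lit 356)) (XT.nd (nat_lit 78) (nat_lit 0) (nat_lit 76) (XT.lf (nat_lit 0) (nat_lit 5121325776) (nat_lit 1824) (nat_lit 513810817) (nat_lit 1900) (nat_lit 15360299604) (nat_lit 470) (nat_lit 5) (nat_lit 494) (nat_lit 5) (nat_lit 495) (nat_lit 5) (nat_lit 610) (nat_lit 595) (nat_lit 355)) (XT.lf (nat_lit 0) (nat_lit 6381484093) (nat_lit 1824) (nat_lit 10668578824) (nat_lit 1900) (nat_lit 4162240329)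 (nat_lit 471) (nat_lit 5) (nat_lit 495) (nat_lit 5) (nat_lit 496) (nat_lit 5) (nat_lit 611) (nat_lit 595) (nat_lit 354)))) (XT.nd (nat_lit 156) (nat_lit 0) (nat_lit 76) (XT.nd (nat_lit 78) (nat_lit 0) (nat_lit 76) (XT.lf (nat_lit 76) (nat_lit 360306601) (nat_lit 0) (nat_lit 7345638714) (nat_lit 1900) (nat_lit 13726780690) (nat_lit 472) (nat_lit 5) (nat_lit 471) (nat_lit 5) (nat_lit 496) (nat_lit 5) (nat_lit 612) (nat_lit 595) (nat_lit 353)) (XT.lf (nat_lit 0) (nat_lit 9141573338) (nat_lit 1824) (nat_lit 9921869372) (nat_lit 1900) (nat_lit 2592421313) (nat_lit 472) (nat_lit 5) (nat_lit 496) (nat_lit 5) (nat_lit 497) (nat_lit 5) (nat_lit 613) (nat_lit 595) (nat_lit 352))) (XT.nd (nat_lit 78) (nat_lit 0) (nat_lit 76) (XT.lf (nat_lit 76) (nat_lit 1418630990) (nat_lit 0) (nat_lit 9241254677) (nat_lit 1900) (nat_lit 11222500048) (nat_lit 473) (nat_lit 5) (nat_lit 472) (nat_lit 5) (nat_lit 497) (nat_lit 5) (nat_lit 614) (nat_lit 595) (nat_lit 351)) (XT.lf (nat_lit 0)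 (nat_lit 12276809923) (nat_lit 1824) (nat_lit 9000241583) (nat_lit 1900) (nat_lit 835021762) (nat_lit 473) (nat_lit 5) (nat_lit 497) (nat_lit 5) (nat_lit 498) (nat_lit 5) (nat_lit 615) (nat_lit 595) (nat_lit 350))))))) (XT.nd (nat_lit 1092) (nat_lit 5472) (nat_lit 0) (XT.nd (nat_lit 546) (nat_lit 3496) (nat_lit 0) (XT.nd (nat_lit 234) (nat_lit 2812) (nat_lit 0) (XT.nd (nat_lit 78) (nat_lit 0) (nat_lit 0) (XT.lf (nat_lit 76) (nat_lit 2663248787) (nat_lit 0) (nat_lit 11337567319) (nat_lit 1900) (nat_lit 8344043934) (nat_lit 474) (nat_lit 5) (nat_lit 473) (nat_lit 5) (nat_lit 498) (nat_lit 5) (nat_lit 616) (nat_lit 595) (nat_lit 349)) (XT.nd (nat_lit 78) (nat_lit 0) (nat_lit 76) (XT.lf (nat_lit 76) (nat_lit 14679007830) (nat_lit 0) (nat_lit 1136996455) (nat_lit 1900) (nat_lit 6765164553) (nat_lit 474) (nat_lit 5) (nat_lit 473) (nat_lit 5) (nat_lit 498) (nat_lit 5) (nat_lit 617) (nat_lit 595) (nat_lit 348)) (XT.lf (nat_lit 76) (nat_lit 4103505040) (nat_lit 0) (nat_lit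 13647187540) (nat_lit 1900) (nat_lit 5069847626) (nat_lit 475) (nat_lit 5) (nat_lit 474) (nat_lit 5) (nat_lit 499) (nat_lit 5) (nat_lit 618) (nat_lit 595) (nat_lit 347)))) (XT.nd (nat_lit 156) (nat_lit 1140) (nat_lit 0) (XT.nd (nat_lit 78) (nat_lit 1748) (nat_lit 0) (XT.lf (nat_lit 76) (nat_lit 16445770215) (nat_lit 0) (nat_lit 3335246145) (nat_lit 1900) (nat_lit 3282544124) (nat_lit 475) (nat_lit 5) (nat_lit 474) (nat_lit 5) (nat_lit 499) (nat_lit 5) (nat_lit 619) (nat_lit 595) (nat_lit 346)) (XT.lf (nat_lit 0) (nat_lit 5749189573) (nat_lit 1824) (nat_lit 16183228311) (nat_lit 1900) (nat_lit 1377414167) (nat_lit 451) (nat_lit 5) (nat_lit 475) (nat_lit 5) (nat_lit 476) (nat_lit 5) (nat_lit 620) (nat_lit 595) (nat_lit 345))) (XT.nd (nat_lit 78) (nat_lit 1064) (nat_lit 0) (XT.lf (nat_lit 0) (nat_lit 621721532) (nat_lit 1900) (nat_lit 5136023224) (nat_lit 76) (nat_lit 17801944639) (nat_lit 450) (nat_lit 5) (nat_lit 475) (nat_lit 5) (nat_lit 451) (nat_lit 5) (nat_lit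 621) (nat_lit 595) (nat_lit 344)) (XT.lf (nat_lit 0) (nat_lit 2720572150) (nat_lit 1140) (nat_lit 16220502970) (nat_lit 76) (nat_lit 4871723447) (nat_lit 436) (nat_lit 5) (nat_lit 451) (nat_lit 5) (nat_lit 437) (nat_lit 5) (nat_lit 622) (nat_lit 595) (nat_lit 343))))) (XT.nd (nat_lit 234) (nat_lit 2584) (nat_lit 0) (XT.nd (nat_lit 78) (nat_lit 912) (nat_lit 0) (XT.lf (nat_lit 0) (nat_lit 4930875390) (nat_lit 1140) (nat_lit 3466871020) (nat_lit 76) (nat_lit 15671834287) (nat_lit 436) (nat_lit 5) (nat_lit 451) (nat_lit 5) (nat_lit 437) (nat_lit 5) (nat_lit 623) (nat_lit 595) (nat_lit 342)) (XT.nd (nat_lit 78) (nat_lit 0) (nat_lit 0) (XT.lf (nat_lit 0) (nat_lit 7260574448) (nat_lit 988) (nat_lit 14680399422) (nat_lit 76) (nat_lit 2389021086) (nat_lit 424) (nat_lit 5) (nat_lit 437) (nat_lit 5) (nat_lit 425) (nat_lit 5) (nat_lit 624) (nat_lit 595) (nat_lit 341)) (XT.lf (nat_lit 0) (nat_lit 9712664195) (nat_lit 988) (nat_lit 1578554928) (nat_lit 76) (nat_lit 13302882715)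 (nat_lit 424) (nat_lit 5) (nat_lit 437) (nat_lit 5) (nat_lit 425) (nat_lit 5) (nat_lit 625) (nat_lit 595) (nat_lit 340)))) (XT.nd (nat_lit 156) (nat_lit 836) (nat_lit 0) (XT.nd (nat_lit 78) (nat_lit 836) (nat_lit 0) (XT.lf (nat_lit 0) (nat_lit 11938946903) (nat_lit 912) (nat_lit 349191744) (nat_lit 988) (nat_lit 12573865624) (nat_lit 412) (nat_lit 5) (nat_lit 424) (nat_lit 5) (nat_lit 425) (nat_lit 5) (nat_lit 626) (nat_lit 595) (nat_lit 339)) (XT.lf (nat_lit 0) (nat_lit 547045903) (nat_lit 836) (nat_lit 14449359810) (nat_lit 912) (nat_lit 10137233642) (nat_lit 401) (nat_lit 5) (nat_lit 412) (nat_lit 5) (nat_lit 413) (nat_lit 5) (nat_lit 627) (nat_lit 595) (nat_lit 338))) (XT.nd (nat_lit 78) (nat_lit 836) (nat_lit 0) (XT.lf (nat_lit 0) (nat_lit 14456397615) (nat_lit 836) (nat_lit 3388371968) (nat_lit 912) (nat_lit 7564219186) (nat_lit 401) (nat_lit 5) (nat_lit 412) (nat_lit 5) (nat_lit 413) (nat_lit 5) (nat_lit 628) (nat_lit 595) (nat_lit 337)) (XT.lf (nat_lit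 0) (nat_lit 2938387985) (nat_lit 836) (nat_lit 17879017517) (nat_lit 912) (nat_lit 4871093828) (nat_lit 390) (nat_lit 5) (nat_lit 401) (nat_lit 5) (nat_lit 402) (nat_lit 5) (nat_lit 629) (nat_lit 595) (nat_lit 336)))))) (XT.nd (nat_lit 546) (nat_lit 2964) (nat_lit 0) (XT.nd (nat_lit 234) (nat_lit 1596) (nat_lit 0) (XT.nd (nat_lit 78) (nat_lit 912) (nat_lit 0) (XT.lf (nat_lit 0) (nat_lit 17229945192) (nat_lit 836) (nat_lit 6712353351) (nat_lit 912) (nat_lit 2029445720) (nat_lit 390) (nat_lit 5) (nat_lit 401) (nat_lit 5) (nat_lit 402) (nat_lit 5) (nat_lit 630) (nat_lit 595) (nat_lit 335)) (XT.nd (nat_lit 78) (nat_lit 0) (nat_lit 0) (XT.lf (nat_lit 0) (nat_lit 921775316) (nat_lit 912) (nat_lit 20678835554) (nat_lit 76) (nat_lit 4658647867) (nat_lit 378) (nat_lit 5) (nat_lit 390) (nat_lit 5) (nat_lit 379) (nat_lit 5) (nat_lit 631) (nat_lit 595) (nat_lit 334)) (XT.lf (nat_lit 0) (nat_lit 4005467464) (nat_lit 912) (nat_lit 6305033200) (nat_lit 76) (nat_lit 16239742359)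 (nat_lit 378) (nat_lit 5) (nat_lit 390) (nat_lit 5) (nat_lit 379) (nat_lit 5) (nat_lit 632) (nat_lit 595) (nat_lit 333)))) (XT.nd (nat_lit 156) (nat_lit 760) (nat_lit 0) (XT.nd (nat_lit 78) (nat_lit 0) (nat_lit 0) (XT.lf (nat_lit 0) (nat_lit 7211128580) (nat_lit 912) (nat_lit 18389868930) (nat_lit 76) (nat_lit 1244843812) (nat_lit 367) (nat_lit 5) (nat_lit 379) (nat_lit 5) (nat_lit 368) (nat_lit 5) (nat_lit 633) (nat_lit 595) (nat_lit 332)) (XT.lf (nat_lit 0) (nat_lit 10588960376) (nat_lit 912) (nat_lit 3620369556) (nat_lit 76) (nat_lit 12935860731) (nat_lit 367) (nat_lit 5) (nat_lit 379) (nat_lit 5) (nat_lit 368) (nat_lit 5) (nat_lit 634) (nat_lit 595) (nat_lit 331))) (XT.nd (nat_lit 78) (nat_lit 0) (nat_lit 0) (XT.lf (nat_lit 0) (nat_lit 11593663975) (nat_lit 760) (nat_lit 2513199478) (nat_lit 836) (nat_lit 13342213466) (nat_lit 357) (nat_lit 5) (nat_lit 367) (nat_lit 5) (nat_lit 368) (nat_lit 5) (nat_lit 635) (nat_lit 595) (nat_lit 330)) (XT.lf (nat_lit 0) (nat_lit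 17777995678) (nat_lit 836) (nat_lit 661746415) (nat_lit 76) (nat_lit 9317641603) (nat_lit 357) (nat_lit 5) (nat_lit 368) (nat_lit 5) (nat_lit 358) (nat_lit 5) (nat_lit 636) (nat_lit 595) (nat_lit 329))))) (XT.nd (nat_lit 234) (nat_lit 1444) (nat_lit 0) (XT.nd (nat_lit 78) (nat_lit 760) (nat_lit 0) (XT.lf (nat_lit 0) (nat_lit 15013164509) (nat_lit 760) (nat_lit 6620833743) (nat_lit 836) (nat_lit 6435629614) (nat_lit 347) (nat_lit 5) (nat_lit 357) (nat_lit 5) (nat_lit 358) (nat_lit 5) (nat_lit 637) (nat_lit 595) (nat_lit 328)) (XT.nd (nat_lit 78) (nat_lit 76) (nat_lit 0) (XT.lf (nat_lit 0) (nat_lit 2618627912) (nat_lit 684) (nat_lit 23002609843) (nat_lit 760) (nat_lit 2765797036) (nat_lit 338) (nat_lit 5) (nat_lit 347) (nat_lit 5) (nat_lit 348) (nat_lit 5) (nat_lit 638) (nat_lit 595) (nat_lit 327)) (XT.lf (nat_lit 0) (nat_lit 1094031879) (nat_lit 760) (nat_lit 9978539634) (nat_lit 76) (nat_lit 17635503241) (nat_lit 337) (nat_lit 5) (nat_lit 347) (nat_lit 5) (nat_lit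 338) (nat_lit 5) (nat_lit 639) (nat_lit 595) (nat_lit 326)))) (XT.nd (nat_lit 156) (nat_lit 684) (nat_lit 0) (XT.nd (nat_lit 78) (nat_lit 0) (nat_lit 0) (XT.lf (nat_lit 0) (nat_lit 5039158099) (nat_lit 836) (nat_lit 22854842543) (nat_lit 76) (nat_lit 1140266737) (nat_lit 327) (nat_lit 5) (nat_lit 338) (nat_lit 5) (nat_lit 328) (nat_lit 5) (nat_lit 640) (nat_lit 595) (nat_lit 325)) (XT.lf (nat_lit 0) (nat_lit 9201377432) (nat_lit 836) (nat_lit 6646512476) (nat_lit 76) (nat_lit 13516330330) (nat_lit 327) (nat_lit 5) (nat_lit 338) (nat_lit 5) (nat_lit 328) (nat_lit 5) (nat_lit 641) (nat_lit 595) (nat_lit 324))) (XT.nd (nat_lit 78) (nat_lit 0) (nat_lit 0) (XT.lf (nat_lit 0) (nat_lit 10014476408) (nat_lit 684) (nat_lit 3494892811) (nat_lit 760) (nat_lit 16190152561) (nat_lit 318) (nat_lit 5) (nat_lit 327) (nat_lit 5) (nat_lit 328) (nat_lit 5) (nat_lit 642) (nat_lit 595) (nat_lit 323)) (XT.lf (nat_lit 0) (nat_lit 18005070127) (nat_lit 760) (nat_lit 3004146896) (nat_lit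 76) (nat_lit 9030281529) (nat_lit 318) (nat_lit 5) (nat_lit 328) (nat_lit 5) (nat_lit 319) (nat_lit 5) (nat_lit 643) (nat_lit 595) (nat_lit 322))))))))
noncomputable def xc222 : XT := (XT.nd (nat_lit 78000) (nat_lit 0) (nat_lit 13528) (XT.nd (nat_lit 1014) (nat_lit 2128) (nat_lit 0) (XT.nd (nat_lit 468) (nat_lit 2432) (nat_lit 0) (XT.nd (nat_lit 234) (nat_lit 1292) (nat_lit 0) (XT.nd (nat_lit 78) (nat_lit 684) (nat_lit 0) (XT.lf (nat_lit 0) (nat_lit 14170248620) (nat_lit 684) (nat_lit 8533167941) (nat_lit 760) (nat_lit 7680603851) (nat_lit 309) (nat_lit 5) (nat_lit 318) (nat_lit 5) (nat_lit 319) (nat_lit 5) (nat_lit 644) (nat_lit 595) (nat_lit 321)) (XT.nd (nat_lit 78) (nat_lit 76) (nat_lit 0) (XT.lf (nat_lit 0) (nat_lit 976429251) (nat_lit 608) (nat_lit 26570763416) (nat_lit 684) (nat_lit 3187210966) (nat_lit 301) (nat_lit 5) (nat_lit 309) (nat_lit 5) (nat_lit 310) (nat_lit 5) (nat_lit 645) (nat_lit 595) (nat_lit 320)) (XT.lf (nat_lit 0) (nat_lit 1541397896) (nat_lit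 684) (nat_lit 12428558857) (nat_lit 76) (nat_lit 17118383501) (nat_lit 300) (nat_lit 5) (nat_lit 309) (nat_lit 5) (nat_lit 301) (nat_lit 5) (nat_lit 646) (nat_lit 595) (nat_lit 319)))) (XT.nd (nat_lit 78) (nat_lit 608) (nat_lit 0) (XT.lf (nat_lit 0) (nat_lit 5292950736) (nat_lit 684) (nat_lit 1061026317) (nat_lit 760) (nat_lit 25094315876) (nat_lit 291) (nat_lit 5) (nat_lit 300) (nat_lit 5) (nat_lit 301) (nat_lit 5) (nat_lit 647) (nat_lit 595) (nat_lit 318)) (XT.nd (nat_lit 78) (nat_lit 608) (nat_lit 0) (XT.lf (nat_lit 0) (nat_lit 11423057112) (nat_lit 760) (nat_lit 8358396269) (nat_lit 76) (nat_lit 12030786455) (nat_lit 291) (nat_lit 5) (nat_lit 301) (nat_lit 5) (nat_lit 292) (nat_lit 5) (nat_lit 648) (nat_lit 595) (nat_lit 317)) (XT.lf (nat_lit 0) (nat_lit 9914721230) (nat_lit 608) (nat_lit 6747936460) (nat_lit 684) (nat_lit 15519425374) (nat_lit 283) (nat_lit 5) (nat_lit 291) (nat_lit 5) (nat_lit 292) (nat_lit 5) (nat_lit 649) (nat_lit 595) (nat_lit 316)))))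 (XT.nd (nat_lit 234) (nat_lit 1140) (nat_lit 0) (XT.nd (nat_lit 78) (nat_lit 1292) (nat_lit 0) (XT.lf (nat_lit 0) (nat_lit 22103775931) (nat_lit 684) (nat_lit 3937271321) (nat_lit 76) (nat_lit 6516341549) (nat_lit 283) (nat_lit 5) (nat_lit 292) (nat_lit 5) (nat_lit 284) (nat_lit 5) (nat_lit 650) (nat_lit 595) (nat_lit 315)) (XT.nd (nat_lit 78) (nat_lit 684) (nat_lit 0) (XT.lf (nat_lit 0) (nat_lit 14907504899) (nat_lit 608) (nat_lit 12885495600) (nat_lit 684) (nat_lit 5144414629) (nat_lit 275) (nat_lit 5) (nat_lit 283) (nat_lit 5) (nat_lit 284) (nat_lit 5) (nat_lit 651) (nat_lit 595) (nat_lit 314)) (XT.lf (nat_lit 0) (nat_lit 301124027) (nat_lit 684) (nat_lit 32463402762) (nat_lit 76) (nat_lit 559805951) (nat_lit 266) (nat_lit 5) (nat_lit 275) (nat_lit 5) (nat_lit 267) (nat_lit 5) (nat_lit 652) (nat_lit 595) (nat_lit 313)))) (XT.nd (nat_lit 156) (nat_lit 532) (nat_lit 0) (XT.nd (nat_lit 78) (nat_lit 608) (nat_lit 0) (XT.lf (nat_lit 0) (nat_lit 5991718334) (nat_lit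 684) (nat_lit 13465561315) (nat_lit 76) (nat_lit 14256928538) (nat_lit 266) (nat_lit 5) (nat_lit 275) (nat_lit 5) (nat_lit 267) (nat_lit 5) (nat_lit 653) (nat_lit 595) (nat_lit 312)) (XT.lf (nat_lit 0) (nat_lit 5988050788) (nat_lit 608) (nat_lit 5844832863) (nat_lit 684) (nat_lit 22278262451) (nat_lit 258) (nat_lit 5) (nat_lit 266) (nat_lit 5) (nat_lit 267) (nat_lit 5) (nat_lit 654) (nat_lit 595) (nat_lit 311))) (XT.nd (nat_lit 78) (nat_lit 532) (nat_lit 0) (XT.lf (nat_lit 0) (nat_lit 17931932612) (nat_lit 684) (nat_lit 8556490474) (nat_lit 76) (nat_lit 8024778624) (nat_lit 258) (nat_lit 5) (nat_lit 267) (nat_lit 5) (nat_lit 259) (nat_lit 5) (nat_lit 655) (nat_lit 595) (nat_lit 310)) (XT.lf (nat_lit 0) (nat_lit 11511021073) (nat_lit 532) (nat_lit 12753328117) (nat_lit 608) (nat_lit 10656721645) (nat_lit 251) (nat_lit 5) (nat_lit 258) (nat_lit 5) (nat_lit 259) (nat_lit 5) (nat_lit 656) (nat_lit 595) (nat_lit 309)))))) (XT.nd (nat_lit 76440) (nat_lit 0) (nat_lit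 20140) (XT.nd (nat_lit 234) (nat_lit 988) (nat_lit 0) (XT.nd (nat_lit 78) (nat_lit 1140) (nat_lit 0) (XT.lf (nat_lit 0) (nat_lit 30787331596) (nat_lit 608) (nat_lit 3251324761) (nat_lit 76) (nat_lit 1297162770) (nat_lit 251) (nat_lit 5) (nat_lit 259) (nat_lit 5) (nat_lit 252) (nat_lit 5) (nat_lit 657) (nat_lit 595) (nat_lit 308)) (XT.nd (nat_lit 78) (nat_lit 532) (nat_lit 0) (XT.lf (nat_lit 0) (nat_lit 1856921291) (nat_lit 608) (nat_lit 18314810272) (nat_lit 76) (nat_lit 15582971177) (nat_lit 243) (nat_lit 5) (nat_lit 251) (nat_lit 5) (nat_lit 244) (nat_lit 5) (nat_lit 658) (nat_lit 595) (nat_lit 307)) (XT.lf (nat_lit 0) (nat_lit 2406106433) (nat_lit 532) (nat_lit 5959078878) (nat_lit 608) (nat_lit 27815464507) (nat_lit 236) (nat_lit 5) (nat_lit 243) (nat_lit 5) (nat_lit 244) (nat_lit 5) (nat_lit 659) (nat_lit 595) (nat_lit 306)))) (XT.nd (nat_lit 156) (nat_lit 456) (nat_lit 0) (XT.nd (nat_lit 78) (nat_lit 532) (nat_lit 0) (XT.lf (nat_lit 0) (nat_lit 15180790956)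 (nat_lit 608) (nat_lit 12881881098) (nat_lit 76) (nat_lit 8548900381) (nat_lit 236) (nat_lit 5) (nat_lit 244) (nat_lit 5) (nat_lit 237) (nat_lit 5) (nat_lit 660) (nat_lit 595) (nat_lit 305)) (XT.lf (nat_lit 0) (nat_lit 8497995934) (nat_lit 532) (nat_lit 13727417359) (nat_lit 608) (nat_lit 14823846241) (nat_lit 229) (nat_lit 5) (nat_lit 236) (nat_lit 5) (nat_lit 237) (nat_lit 5) (nat_lit 661) (nat_lit 595) (nat_lit 304))) (XT.nd (nat_lit 78) (nat_lit 456) (nat_lit 0) (XT.lf (nat_lit 0) (nat_lit 29501835032) (nat_lit 608) (nat_lit 7022907862) (nat_lit 76) (nat_lit 969139462) (nat_lit 229) (nat_lit 5) (nat_lit 237) (nat_lit 5) (nat_lit 230) (nat_lit 5) (nat_lit 662) (nat_lit 595) (nat_lit 303)) (XT.lf (nat_lit 0) (nat_lit 15039762243) (nat_lit 456) (nat_lit 22070701036) (nat_lit 532) (nat_lit 833200912) (nat_lit 223) (nat_lit 5) (nat_lit 229) (nat_lit 5) (nat_lit 230) (nat_lit 5) (nat_lit 663) (nat_lit 595) (nat_lit 302))))) (XT.nd (nat_lit 234) (nat_lit 0) (nat_lit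 76) (XT.nd (nat_lit 78) (nat_lit 0) (nat_lit 0) (XT.lf (nat_lit 0) (nat_lit 3549937191) (nat_lit 0) (nat_lit 3549937191) (nat_lit 1748) (nat_lit 2115197711) (nat_lit 488) (nat_lit 5) (nat_lit 488) (nat_lit 3) (nat_lit 511) (nat_lit 3) (nat_lit 596) (nat_lit 596) (nat_lit 368)) (XT.nd (nat_lit 78) (nat_lit 0) (nat_lit 0) (XT.lf (nat_lit 0) (nat_lit 14548676060) (nat_lit 1748) (nat_lit 2236614112) (nat_lit 1824) (nat_lit 1824998615) (nat_lit 488) (nat_lit 5) (nat_lit 511) (nat_lit 3) (nat_lit 512) (nat_lit 5) (nat_lit 597) (nat_lit 596) (nat_lit 367)) (XT.lf (nat_lit 76) (nat_lit 7082102923) (nat_lit 0) (nat_lit 7910383414) (nat_lit 1824) (nat_lit 3799792332) (nat_lit 489) (nat_lit 5) (nat_lit 488) (nat_lit 5) (nat_lit 512) (nat_lit 5) (nat_lit 598) (nat_lit 596) (nat_lit 366)))) (XT.nd (nat_lit 156) (nat_lit 0) (nat_lit 76) (XT.nd (nat_lit 78) (nat_lit 0) (nat_lit 0) (XT.lf (nat_lit 0) (nat_lit 15462697491) (nat_lit 1748) (nat_lit 2370384356) (nat_lit 1824) (nat_lit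 1144476478) (nat_lit 489) (nat_lit 5) (nat_lit 512) (nat_lit 5) (nat_lit 513) (nat_lit 5) (nat_lit 599) (nat_lit 596) (nat_lit 365)) (XT.lf (nat_lit 76) (nat_lit 7195466227) (nat_lit 0) (nat_lit 8841050684) (nat_lit 1824) (nat_lit 3128143042) (nat_lit 490) (nat_lit 5) (nat_lit 489) (nat_lit 5) (nat_lit 513) (nat_lit 5) (nat_lit 600) (nat_lit 596) (nat_lit 364))) (XT.nd (nat_lit 78) (nat_lit 0) (nat_lit 0) (XT.lf (nat_lit 0) (nat_lit 16635164465) (nat_lit 1748) (nat_lit 2375486309) (nat_lit 1824) (nat_lit 344586256) (nat_lit 490) (nat_lit 5) (nat_lit 513) (nat_lit 5) (nat_lit 514) (nat_lit 5) (nat_lit 601) (nat_lit 596) (nat_lit 363)) (XT.lf (nat_lit 76) (nat_lit 7446449342) (nat_lit 0) (nat_lit 9901519161) (nat_lit 1824) (nat_lit 2199613916) (nat_lit 491) (nat_lit 5) (nat_lit 490) (nat_lit 5) (nat_lit 514) (nat_lit 5) (nat_lit 602) (nat_lit 596) (nat_lit 362))))))) (XT.nd (nat_lit 1014) (nat_lit 5092) (nat_lit 0) (XT.nd (nat_lit 468) (nat_lit 0) (nat_lit 76) (XT.nd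 (nat_lit 234) (nat_lit 1672) (nat_lit 0) (XT.nd (nat_lit 78) (nat_lit 0) (nat_lit 76) (XT.lf (nat_lit 76) (nat_lit 17494284760) (nat_lit 0) (nat_lit 592045509) (nat_lit 1824) (nat_lit 1657218848) (nat_lit 491) (nat_lit 5) (nat_lit 490) (nat_lit 5) (nat_lit 514) (nat_lit 5) (nat_lit 603) (nat_lit 596) (nat_lit 361)) (XT.nd (nat_lit 78) (nat_lit 0) (nat_lit 0) (XT.lf (nat_lit 76) (nat_lit 7841892311) (nat_lit 0) (nat_lit 11101753856) (nat_lit 1824) (nat_lit 997705669) (nat_lit 492) (nat_lit 5) (nat_lit 491) (nat_lit 5) (nat_lit 515) (nat_lit 5) (nat_lit 604) (nat_lit 596) (nat_lit 360)) (XT.lf (nat_lit 76) (nat_lit 18158617838) (nat_lit 0) (nat_lit 1674014221) (nat_lit 1824) (nat_lit 310188494) (nat_lit 492) (nat_lit 5) (nat_lit 491) (nat_lit 5) (nat_lit 515) (nat_lit 5) (nat_lit 605) (nat_lit 596) (nat_lit 359)))) (XT.nd (nat_lit 78) (nat_lit 0) (nat_lit 0) (XT.lf (nat_lit 0) (nat_lit 488289577) (nat_lit 1824) (nat_lit 11960497344) (nat_lit 1900) (nat_lit 7897434548)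 (nat_lit 468) (nat_lit 5) (nat_lit 492) (nat_lit 5) (nat_lit 493) (nat_lit 5) (nat_lit 606) (nat_lit 596) (nat_lit 358)) (XT.nd (nat_lit 78) (nat_lit 0) (nat_lit 76) (XT.lf (nat_lit 0) (nat_lit 1318748905) (nat_lit 1824) (nat_lit 1579561324) (nat_lit 1900) (nat_lit 17654936257) (nat_lit 468) (nat_lit 5) (nat_lit 492) (nat_lit 5) (nat_lit 493) (nat_lit 5) (nat_lit 607) (nat_lit 596) (nat_lit 357)) (XT.lf (nat_lit 0) (nat_lit 2265657606) (nat_lit 1824) (nat_lit 11682261983) (nat_lit 1900) (nat_lit 6814495997) (nat_lit 469) (nat_lit 5) (nat_lit 493) (nat_lit 5) (nat_lit 494) (nat_lit 5) (nat_lit 608) (nat_lit 596) (nat_lit 356))))) (XT.nd (nat_lit 234) (nat_lit 0) (nat_lit 152) (XT.nd (nat_lit 78) (nat_lit 0) (nat_lit 76) (XT.lf (nat_lit 0) (nat_lit 3257199394) (nat_lit 1824) (nat_lit 1023219332) (nat_lit 1900) (nat_lit 16694835819) (nat_lit 469) (nat_lit 5) (nat_lit 493) (nat_lit 5) (nat_lit 494) (nat_lit 5) (nat_lit 609) (nat_lit 596) (nat_lit 355)) (XT.nd (nat_lit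 78) (nat_lit 0) (nat_lit 0) (XT.lf (nat_lit 0) (nat_lit 4365931340) (nat_lit 1824) (nat_lit 11250767957) (nat_lit 1900) (nat_lit 5573704170) (nat_lit 470) (nat_lit 5) (nat_lit 494) (nat_lit 5) (nat_lit 495) (nat_lit 5) (nat_lit 610) (nat_lit 596) (nat_lit 354)) (XT.lf (nat_lit 0) (nat_lit 5528079493) (nat_lit 1824) (nat_lit 305380322) (nat_lit 1900) (nat_lit 15575771085) (nat_lit 470) (nat_lit 5) (nat_lit 494) (nat_lit 5) (nat_lit 495) (nat_lit 5) (nat_lit 611) (nat_lit 596) (nat_lit 353)))) (XT.nd (nat_lit 156) (nat_lit 0) (nat_lit 76) (XT.nd (nat_lit 78) (nat_lit 0) (nat_lit 0) (XT.lf (nat_lit 0) (nat_lit 6808348760) (nat_lit 1824) (nat_lit 10658124537) (nat_lit 1900) (nat_lit 4164064377) (nat_lit 471) (nat_lit 5) (nat_lit 495) (nat_lit 5) (nat_lit 496) (nat_lit 5) (nat_lit 612) (nat_lit 596) (nat_lit 352)) (XT.lf (nat_lit 76) (nat_lit 589866058) (nat_lit 0) (nat_lit 7565009461) (nat_lit 1900) (nat_lit 13700582371) (nat_lit 472) (nat_lit 5) (nat_lit 471) (nat_lit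 5) (nat_lit 496) (nat_lit 5) (nat_lit 613) (nat_lit 596) (nat_lit 351))) (XT.nd (nat_lit 78) (nat_lit 0) (nat_lit 0) (XT.lf (nat_lit 0) (nat_lit 9612974268) (nat_lit 1824) (nat_lit 9896045579) (nat_lit 1900) (nat_lit 2574164176) (nat_lit 472) (nat_lit 5) (nat_lit 496) (nat_lit 5) (nat_lit 497) (nat_lit 5) (nat_lit 614) (nat_lit 596) (nat_lit 350)) (XT.lf (nat_lit 76) (nat_lit 1669789389) (nat_lit 0) (nat_lit 9487651704) (nat_lit 1900) (nat_lit 11156879799) (nat_lit 473) (nat_lit 5) (nat_lit 472) (nat_lit 5) (nat_lit 497) (nat_lit 5) (nat_lit 615) (nat_lit 596) (nat_lit 349)))))) (XT.nd (nat_lit 546) (nat_lit 3724) (nat_lit 0) (XT.nd (nat_lit 234) (nat_lit 1748) (nat_lit 0) (XT.nd (nat_lit 78) (nat_lit 0) (nat_lit 0) (XT.lf (nat_lit 0) (nat_lit 12800736265) (nat_lit 1824) (nat_lit 8955836531) (nat_lit 1900) (nat_lit 792149250) (nat_lit 473) (nat_lit 5) (nat_lit 497) (nat_lit 5) (nat_lit 498) (nat_lit 5) (nat_lit 616) (nat_lit 596) (nat_lit 348)) (XT.nd (nat_lit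 78) (nat_lit 0) (nat_lit 0) (XT.lf (nat_lit 76) (nat_lit 2939447266) (nat_lit 0) (nat_lit 11615764107) (nat_lit 1900) (nat_lit 8231033891) (nat_lit 474) (nat_lit 5) (nat_lit 473) (nat_lit 5) (nat_lit 498) (nat_lit 5) (nat_lit 617) (nat_lit 596) (nat_lit 347)) (XT.lf (nat_lit 76) (nat_lit 15191150245) (nat_lit 0) (nat_lit 1210173091) (nat_lit 1900) (nat_lit 6626064980) (nat_lit 474) (nat_lit 5) (nat_lit 473) (nat_lit 5) (nat_lit 498) (nat_lit 5) (nat_lit 618) (nat_lit 596) (nat_lit 346)))) (XT.nd (nat_lit 156) (nat_lit 1824) (nat_lit 0) (XT.nd (nat_lit 78) (nat_lit 0) (nat_lit 0) (XT.lf (nat_lit 76) (nat_lit 4408393151) (nat_lit 0) (nat_lit 13962163393) (nat_lit 1900) (nat_lit 4901074015) (nat_lit 475) (nat_lit 5) (nat_lit 474) (nat_lit 5) (nat_lit 499) (nat_lit 5) (nat_lit 619) (nat_lit 596) (nat_lit 345)) (XT.lf (nat_lit 76) (nat_lit 16993134648) (nat_lit 0) (nat_lit 3443159011) (nat_lit 1900) (nat_lit 3083321905) (nat_lit 475) (nat_lit 5) (nat_lit 474) (nat_lit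 5) (nat_lit 499) (nat_lit 5) (nat_lit 620) (nat_lit 596) (nat_lit 344))) (XT.nd (nat_lit 78) (nat_lit 76) (nat_lit 0) (XT.lf (nat_lit 0) (nat_lit 6086632832) (nat_lit 1824) (nat_lit 16540181121) (nat_lit 1900) (nat_lit 1144077247) (nat_lit 451) (nat_lit 5) (nat_lit 475) (nat_lit 5) (nat_lit 476) (nat_lit 5) (nat_lit 621) (nat_lit 596) (nat_lit 343)) (XT.lf (nat_lit 0) (nat_lit 886571303) (nat_lit 1900) (nat_lit 5017270041) (nat_lit 76) (nat_lit 18121971868) (nat_lit 450) (nat_lit 5) (nat_lit 475) (nat_lit 5) (nat_lit 451) (nat_lit 5) (nat_lit 622) (nat_lit 596) (nat_lit 342))))) (XT.nd (nat_lit 234) (nat_lit 1748) (nat_lit 0) (XT.nd (nat_lit 78) (nat_lit 912) (nat_lit 0) (XT.lf (nat_lit 0) (nat_lit 3023690612) (nat_lit 1140) (nat_lit 16319709821) (nat_lit 76) (nat_lit 4940658726) (nat_lit 436) (nat_lit 5) (nat_lit 451) (nat_lit 5) (nat_lit 437) (nat_lit 5) (nat_lit 623) (nat_lit 596) (nat_lit 341)) (XT.nd (nat_lit 78) (nat_lit 912) (nat_lit 0) (XT.lf (nat_lit 0)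 (nat_lit 5273323309) (nat_lit 1140) (nat_lit 3315420981) (nat_lit 76) (nat_lit 15957330590) (nat_lit 436) (nat_lit 5) (nat_lit 451) (nat_lit 5) (nat_lit 437) (nat_lit 5) (nat_lit 624) (nat_lit 596) (nat_lit 340)) (XT.lf (nat_lit 0) (nat_lit 7646122181) (nat_lit 988) (nat_lit 14749705369) (nat_lit 76) (nat_lit 2415940164) (nat_lit 424) (nat_lit 5) (nat_lit 437) (nat_lit 5) (nat_lit 425) (nat_lit 5) (nat_lit 625) (nat_lit 596) (nat_lit 339)))) (XT.nd (nat_lit 156) (nat_lit 836) (nat_lit 0) (XT.nd (nat_lit 78) (nat_lit 912) (nat_lit 0) (XT.lf (nat_lit 0) (nat_lit 10142541248) (nat_lit 988) (nat_lit 1390222066) (nat_lit 76) (nat_lit 13548488072) (nat_lit 424) (nat_lit 5) (nat_lit 437) (nat_lit 5) (nat_lit 425) (nat_lit 5) (nat_lit 626) (nat_lit 596) (nat_lit 338)) (XT.lf (nat_lit 0) (nat_lit 12396183066) (nat_lit 912) (nat_lit 370140419) (nat_lit 988) (nat_lit 12588252809) (nat_lit 412) (nat_lit 5) (nat_lit 424) (nat_lit 5) (nat_lit 425) (nat_lit 5) (nat_lit 627) (nat_lit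 596) (nat_lit 337))) (XT.nd (nat_lit 78) (nat_lit 0) (nat_lit 0) (XT.lf (nat_lit 0) (nat_lit 779734252) (nat_lit 836) (nat_lit 14745815184) (nat_lit 912) (nat_lit 10106159156) (nat_lit 401) (nat_lit 5) (nat_lit 412) (nat_lit 5) (nat_lit 413) (nat_lit 5) (nat_lit 628) (nat_lit 596) (nat_lit 336)) (XT.lf (nat_lit 0) (nat_lit 14962925010) (nat_lit 836) (nat_lit 3463461151) (nat_lit 912) (nat_lit 7486269100) (nat_lit 401) (nat_lit 5) (nat_lit 412) (nat_lit 5) (nat_lit 413) (nat_lit 5) (nat_lit 629) (nat_lit 596) (nat_lit 335))))))))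
noncomputable def xc223 : XT := (XT.nd (nat_lit 2106) (nat_lit 2204) (nat_lit 0) (XT.nd (nat_lit 1014) (nat_lit 5244) (nat_lit 0) (XT.nd (nat_lit 468) (nat_lit 3040) (nat_lit 0) (XT.nd (nat_lit 234) (nat_lit 836) (nat_lit 0) (XT.nd (nat_lit 78) (nat_lit 912) (nat_lit 0) (XT.lf (nat_lit 0) (nat_lit 3217655743) (nat_lit 836) (nat_lit 18237797783) (nat_lit 912) (nat_lit 4742363301) (nat_lit 390) (nat_lit 5) (nat_lit 401) (nat_lit 5) (nat_lit 402) (nat_lit 5) (nat_lit 630) (nat_lit 596) (nat_lit 334)) (XT.nd (nat_lit 78) (nat_lit 912) (nat_lit 0) (XT.lf (nat_lit 0) (nat_lit 17790720565) (nat_lit 836) (nat_lit 6847776806) (nat_lit 912) (nat_lit 1848316593) (nat_lit 390) (nat_lit 5) (nat_lit 401) (nat_lit 5) (nat_lit 402) (nat_lit 5) (nat_lit 631) (nat_lit 596) (nat_lit 333)) (XT.lf (nat_lit 0) (nat_lit 1156155012) (nat_lit 912) (nat_lit 20870426746) (nat_lit 76) (nat_lit 4753525847) (nat_lit 378) (nat_lit 5) (nat_lit 390) (nat_lit 5) (nat_lit 379) (nat_lit 5) (nat_lit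 632) (nat_lit 596) (nat_lit 332)))) (XT.nd (nat_lit 78) (nat_lit 836) (nat_lit 0) (XT.lf (nat_lit 0) (nat_lit 4297286803) (nat_lit 912) (nat_lit 6213501003) (nat_lit 76) (nat_lit 16566208796) (nat_lit 378) (nat_lit 5) (nat_lit 390) (nat_lit 5) (nat_lit 379) (nat_lit 5) (nat_lit 633) (nat_lit 596) (nat_lit 331)) (XT.nd (nat_lit 78) (nat_lit 0) (nat_lit 0) (XT.lf (nat_lit 0) (nat_lit 7564360683) (nat_lit 912) (nat_lit 18537316241) (nat_lit 76) (nat_lit 1276884286) (nat_lit 367) (nat_lit 5) (nat_lit 379) (nat_lit 5) (nat_lit 368) (nat_lit 5) (nat_lit 634) (nat_lit 596) (nat_lit 330)) (XT.lf (nat_lit 0) (nat_lit 11005650889) (nat_lit 912) (nat_lit 3476747470) (nat_lit 76) (nat_lit 13201581473) (nat_lit 367) (nat_lit 5) (nat_lit 379) (nat_lit 5) (nat_lit 368) (nat_lit 5) (nat_lit 635) (nat_lit 596) (nat_lit 329))))) (XT.nd (nat_lit 234) (nat_lit 1520) (nat_lit 0) (XT.nd (nat_lit 78) (nat_lit 760) (nat_lit 0) (XT.lf (nat_lit 0) (nat_lit 12040145486) (nat_lit 760) (nat_lit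 2551142052) (nat_lit 836) (nat_lit 13402709087) (nat_lit 357) (nat_lit 5) (nat_lit 367) (nat_lit 5) (nat_lit 368) (nat_lit 5) (nat_lit 636) (nat_lit 596) (nat_lit 328)) (XT.nd (nat_lit 78) (nat_lit 760) (nat_lit 0) (XT.lf (nat_lit 0) (nat_lit 18331954429) (nat_lit 836) (nat_lit 460677358) (nat_lit 76) (nat_lit 9515915825) (nat_lit 357) (nat_lit 5) (nat_lit 368) (nat_lit 5) (nat_lit 358) (nat_lit 5) (nat_lit 637) (nat_lit 596) (nat_lit 327)) (XT.lf (nat_lit 0) (nat_lit 15526321890) (nat_lit 760) (nat_lit 6736247241) (nat_lit 836) (nat_lit 6364518003) (nat_lit 347) (nat_lit 5) (nat_lit 357) (nat_lit 5) (nat_lit 358) (nat_lit 5) (nat_lit 638) (nat_lit 596) (nat_lit 326)))) (XT.nd (nat_lit 156) (nat_lit 760) (nat_lit 0) (XT.nd (nat_lit 78) (nat_lit 76) (nat_lit 0) (XT.lf (nat_lit 0) (nat_lit 2886291686) (nat_lit 684) (nat_lit 23440926785) (nat_lit 760) (nat_lit 2623670729) (nat_lit 338) (nat_lit 5) (nat_lit 347) (nat_lit 5) (nat_lit 348) (nat_lit 5) (nat_lit 639) (nat_lit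 596) (nat_lit 325)) (XT.lf (nat_lit 0) (nat_lit 1306944631) (nat_lit 760) (nat_lit 9964487312) (nat_lit 76) (nat_lit 18006969084) (nat_lit 337) (nat_lit 5) (nat_lit 347) (nat_lit 5) (nat_lit 338) (nat_lit 5) (nat_lit 640) (nat_lit 596) (nat_lit 324))) (XT.nd (nat_lit 78) (nat_lit 0) (nat_lit 0) (XT.lf (nat_lit 0) (nat_lit 5328758431) (nat_lit 836) (nat_lit 23096087040) (nat_lit 76) (nat_lit 1186316618) (nat_lit 327) (nat_lit 5) (nat_lit 338) (nat_lit 5) (nat_lit 328) (nat_lit 5) (nat_lit 641) (nat_lit 596) (nat_lit 323)) (XT.lf (nat_lit 0) (nat_lit 9570519853) (nat_lit 836) (nat_lit 6567822771) (nat_lit 76) (nat_lit 13809445707) (nat_lit 327) (nat_lit 5) (nat_lit 338) (nat_lit 5) (nat_lit 328) (nat_lit 5) (nat_lit 642) (nat_lit 596) (nat_lit 322)))))) (XT.nd (nat_lit 546) (nat_lit 2508) (nat_lit 0) (XT.nd (nat_lit 234) (nat_lit 1368) (nat_lit 0) (XT.nd (nat_lit 78) (nat_lit 684) (nat_lit 0) (XT.lf (nat_lit 0) (nat_lit 10424993654) (nat_lit 684) (nat_lit 3537413057)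 (nat_lit 760) (nat_lit 16327434764) (nat_lit 318) (nat_lit 5) (nat_lit 327) (nat_lit 5) (nat_lit 328) (nat_lit 5) (nat_lit 643) (nat_lit 596) (nat_lit 321)) (XT.nd (nat_lit 78) (nat_lit 684) (nat_lit 0) (XT.lf (nat_lit 0) (nat_lit 18544610609) (nat_lit 760) (nat_lit 2854699731) (nat_lit 76) (nat_lit 9237375933) (nat_lit 318) (nat_lit 5) (nat_lit 328) (nat_lit 5) (nat_lit 319) (nat_lit 5) (nat_lit 644) (nat_lit 596) (nat_lit 320)) (XT.lf (nat_lit 0) (nat_lit 14661805207) (nat_lit 684) (nat_lit 8672951809) (nat_lit 760) (nat_lit 7653385157) (nat_lit 309) (nat_lit 5) (nat_lit 318) (nat_lit 5) (nat_lit 319) (nat_lit 5) (nat_lit 645) (nat_lit 596) (nat_lit 319)))) (XT.nd (nat_lit 156) (nat_lit 684) (nat_lit 0) (XT.nd (nat_lit 78) (nat_lit 76) (nat_lit 0) (XT.lf (nat_lit 0) (nat_lit 1206076097) (nat_lit 608) (nat_lit 27067417409) (nat_lit 684) (nat_lit 3072078113) (nat_lit 301) (nat_lit 5) (nat_lit 309) (nat_lit 5) (nat_lit 310) (nat_lit 5) (nat_lit 646) (nat_lit 596)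 (nat_lit 318)) (XT.lf (nat_lit 0) (nat_lit 1745295527) (nat_lit 684) (nat_lit 12468819291) (nat_lit 76) (nat_lit 17492518404) (nat_lit 300) (nat_lit 5) (nat_lit 309) (nat_lit 5) (nat_lit 301) (nat_lit 5) (nat_lit 647) (nat_lit 596) (nat_lit 317))) (XT.nd (nat_lit 78) (nat_lit 0) (nat_lit 0) (XT.lf (nat_lit 0) (nat_lit 5605750029) (nat_lit 684) (nat_lit 1046326309) (nat_lit 760) (nat_lit 25421749856) (nat_lit 291) (nat_lit 5) (nat_lit 300) (nat_lit 5) (nat_lit 301) (nat_lit 5) (nat_lit 648) (nat_lit 596) (nat_lit 316)) (XT.lf (nat_lit 0) (nat_lit 11819413317) (nat_lit 760) (nat_lit 8319544928) (nat_lit 76) (nat_lit 12306156527) (nat_lit 291) (nat_lit 5) (nat_lit 301) (nat_lit 5) (nat_lit 292) (nat_lit 5) (nat_lit 649) (nat_lit 596) (nat_lit 315))))) (XT.nd (nat_lit 234) (nat_lit 1292) (nat_lit 0) (XT.nd (nat_lit 78) (nat_lit 608) (nat_lit 0) (XT.lf (nat_lit 0) (nat_lit 10317679532) (nat_lit 608) (nat_lit 6844163128) (nat_lit 684) (nat_lit 15660551703) (nat_lit 283)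 (nat_lit 5) (nat_lit 291) (nat_lit 5) (nat_lit 292) (nat_lit 5) (nat_lit 650) (nat_lit 596) (nat_lit 314)) (XT.nd (nat_lit 78) (nat_lit 608) (nat_lit 0) (XT.lf (nat_lit 0) (nat_lit 22708776244) (nat_lit 684) (nat_lit 3812347370) (nat_lit 76) (nat_lit 6684142971) (nat_lit 283) (nat_lit 5) (nat_lit 292) (nat_lit 5) (nat_lit 284) (nat_lit 5) (nat_lit 651) (nat_lit 596) (nat_lit 313)) (XT.lf (nat_lit 0) (nat_lit 15407984444) (nat_lit 608) (nat_lit 13101919913) (nat_lit 684) (nat_lit 5083026926) (nat_lit 275) (nat_lit 5) (nat_lit 283) (nat_lit 5) (nat_lit 284) (nat_lit 5) (nat_lit 652) (nat_lit 596) (nat_lit 312)))) (XT.nd (nat_lit 156) (nat_lit 608) (nat_lit 0) (XT.nd (nat_lit 78) (nat_lit 0) (nat_lit 0) (XT.lf (nat_lit 0) (nat_lit 467686581) (nat_lit 684) (nat_lit 32906583565) (nat_lit 76) (nat_lit 613327614) (nat_lit 266) (nat_lit 5) (nat_lit 275) (nat_lit 5) (nat_lit 267) (nat_lit 5) (nat_lit 653) (nat_lit 596) (nat_lit 311)) (XT.lf (nat_lit 0) (nat_lit 6268944929)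 (nat_lit 684) (nat_lit 13532826216) (nat_lit 76) (nat_lit 14583562740) (nat_lit 266) (nat_lit 5) (nat_lit 275) (nat_lit 5) (nat_lit 267) (nat_lit 5) (nat_lit 654) (nat_lit 596) (nat_lit 310))) (XT.nd (nat_lit 78) (nat_lit 0) (nat_lit 0) (XT.lf (nat_lit 0) (nat_lit 6308528877) (nat_lit 608) (nat_lit 5916621742) (nat_lit 684) (nat_lit 22565095807) (nat_lit 258) (nat_lit 5) (nat_lit 266) (nat_lit 5) (nat_lit 267) (nat_lit 5) (nat_lit 655) (nat_lit 596) (nat_lit 309)) (XT.lf (nat_lit 0) (nat_lit 18443416523) (nat_lit 684) (nat_lit 8528064596) (nat_lit 76) (nat_lit 8228917512) (nat_lit 258) (nat_lit 5) (nat_lit 267) (nat_lit 5) (nat_lit 259) (nat_lit 5) (nat_lit 656) (nat_lit 596) (nat_lit 308))))))) (XT.nd (nat_lit 77064) (nat_lit 0) (nat_lit 18088) (XT.nd (nat_lit 76518) (nat_lit 0) (nat_lit 19684) (XT.nd (nat_lit 234) (nat_lit 1064) (nat_lit 0) (XT.nd (nat_lit 78) (nat_lit 608) (nat_lit 0) (XT.lf (nat_lit 0) (nat_lit 11939484316) (nat_lit 532) (nat_lit 12961287275)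 (nat_lit 608) (nat_lit 10715687945) (nat_lit 251) (nat_lit 5) (nat_lit 258) (nat_lit 5) (nat_lit 259) (nat_lit 5) (nat_lit 657) (nat_lit 596) (nat_lit 307)) (XT.nd (nat_lit 78) (nat_lit 608) (nat_lit 0) (XT.lf (nat_lit 0) (nat_lit 31551550061) (nat_lit 608) (nat_lit 3119322153) (nat_lit 76) (nat_lit 1368684047) (nat_lit 251) (nat_lit 5) (nat_lit 259) (nat_lit 5) (nat_lit 252) (nat_lit 5) (nat_lit 658) (nat_lit 596) (nat_lit 306)) (XT.lf (nat_lit 0) (nat_lit 2041873052) (nat_lit 608) (nat_lit 18483399827) (nat_lit 76) (nat_lit 15941558219) (nat_lit 243) (nat_lit 5) (nat_lit 251) (nat_lit 5) (nat_lit 244) (nat_lit 5) (nat_lit 659) (nat_lit 596) (nat_lit 305)))) (XT.nd (nat_lit 156) (nat_lit 532) (nat_lit 0) (XT.nd (nat_lit 78) (nat_lit 0) (nat_lit 0) (XT.lf (nat_lit 0) (nat_lit 2650634511) (nat_lit 532) (nat_lit 6028044738) (nat_lit 608) (nat_lit 28222650515) (nat_lit 236) (nat_lit 5) (nat_lit 243) (nat_lit 5) (nat_lit 244) (nat_lit 5) (nat_lit 660) (nat_lit 596)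 (nat_lit 304)) (XT.lf (nat_lit 0) (nat_lit 15628050173) (nat_lit 608) (nat_lit 12944407969) (nat_lit 76) (nat_lit 8768463809) (nat_lit 236) (nat_lit 5) (nat_lit 244) (nat_lit 5) (nat_lit 237) (nat_lit 5) (nat_lit 661) (nat_lit 596) (nat_lit 303))) (XT.nd (nat_lit 78) (nat_lit 0) (nat_lit 0) (XT.lf (nat_lit 0) (nat_lit 8861782980) (nat_lit 532) (nat_lit 13950223894) (nat_lit 608) (nat_lit 14975387258) (nat_lit 229) (nat_lit 5) (nat_lit 236) (nat_lit 5) (nat_lit 237) (nat_lit 5) (nat_lit 662) (nat_lit 596) (nat_lit 302)) (XT.lf (nat_lit 0) (nat_lit 30231500416) (nat_lit 608) (nat_lit 6970874080) (nat_lit 76) (nat_lit 1038584221) (nat_lit 229) (nat_lit 5) (nat_lit 237) (nat_lit 5) (nat_lit 230) (nat_lit 5) (nat_lit 663) (nat_lit 596) (nat_lit 301))))) (XT.nd (nat_lit 234) (nat_lit 0) (nat_lit 76) (XT.nd (nat_lit 78) (nat_lit 0) (nat_lit 0) (XT.lf (nat_lit 0) (nat_lit 3717764768) (nat_lit 0) (nat_lit 3717764768) (nat_lit 1748) (nat_lit 1959952718) (nat_lit 488) (nat_lit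 5) (nat_lit 488) (nat_lit 3) (nat_lit 511) (nat_lit 3) (nat_lit 597) (nat_lit 597) (nat_lit 366)) (XT.nd (nat_lit 78) (nat_lit 0) (nat_lit 0) (XT.lf (nat_lit 0) (nat_lit 15218137797) (nat_lit 1748) (nat_lit 2082623275) (nat_lit 1824) (nat_lit 1674128183) (nat_lit 488) (nat_lit 5) (nat_lit 511) (nat_lit 3) (nat_lit 512) (nat_lit 5) (nat_lit 598) (nat_lit 597) (nat_lit 365)) (XT.lf (nat_lit 76) (nat_lit 7421160712) (nat_lit 0) (nat_lit 8243523985) (nat_lit 1824) (nat_lit 3495957728) (nat_lit 489) (nat_lit 5) (nat_lit 488) (nat_lit 5) (nat_lit 512) (nat_lit 5) (nat_lit 599) (nat_lit 597) (nat_lit 364)))) (XT.nd (nat_lit 156) (nat_lit 0) (nat_lit 76) (XT.nd (nat_lit 78) (nat_lit 0) (nat_lit 0) (XT.lf (nat_lit 0) (nat_lit 16135885609) (nat_lit 1748) (nat_lit 2215798583) (nat_lit 1824) (nat_lit 998112453) (nat_lit 489) (nat_lit 5) (nat_lit 512) (nat_lit 5) (nat_lit 513) (nat_lit 5) (nat_lit 600) (nat_lit 597) (nat_lit 363)) (XT.lf (nat_lit 76) (nat_lit 7540040107) (nat_lit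 0) (nat_lit 9175308194) (nat_lit 1824) (nat_lit 2825409338) (nat_lit 490) (nat_lit 5) (nat_lit 489) (nat_lit 5) (nat_lit 513) (nat_lit 5) (nat_lit 601) (nat_lit 597) (nat_lit 362))) (XT.nd (nat_lit 78) (nat_lit 0) (nat_lit 0) (XT.lf (nat_lit 0) (nat_lit 17317945077) (nat_lit 1748) (nat_lit 2218209515) (nat_lit 1824) (nat_lit 199152796) (nat_lit 490) (nat_lit 5) (nat_lit 513) (nat_lit 5) (nat_lit 514) (nat_lit 5) (nat_lit 602) (nat_lit 597) (nat_lit 361)) (XT.lf (nat_lit 76) (nat_lit 7798817570) (nat_lit 0) (nat_lit 10240644227) (nat_lit 1824) (nat_lit 1892149400) (nat_lit 491) (nat_lit 5) (nat_lit 490) (nat_lit 5) (nat_lit 514) (nat_lit 5) (nat_lit 603) (nat_lit 597) (nat_lit 360)))))) (XT.nd (nat_lit 546) (nat_lit 0) (nat_lit 228) (XT.nd (nat_lit 234) (nat_lit 0) (nat_lit 76) (XT.nd (nat_lit 78) (nat_lit 1748) (nat_lit 0) (XT.lf (nat_lit 76) (nat_lit 18043620691) (nat_lit 0) (nat_lit 742214541) (nat_lit 1824) (nat_lit 1345797740) (nat_lit 491) (nat_lit 5) (nat_lit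 490) (nat_lit 5) (nat_lit 514) (nat_lit 5) (nat_lit 604) (nat_lit 597) (nat_lit 359)) (XT.nd (nat_lit 78) (nat_lit 1824) (nat_lit 0) (XT.lf (nat_lit 76) (nat_lit 8204502906) (nat_lit 0) (nat_lit 11449626942) (nat_lit 1824) (nat_lit 679385868) (nat_lit 492) (nat_lit 5) (nat_lit 491) (nat_lit 5) (nat_lit 515) (nat_lit 5) (nat_lit 605) (nat_lit 597) (nat_lit 358)) (XT.lf (nat_lit 0) (nat_lit 15048837) (nat_lit 1824) (nat_lit 1815715279) (nat_lit 1900) (nat_lit 18708378360) (nat_lit 467) (nat_lit 5) (nat_lit 491) (nat_lit 5) (nat_lit 492) (nat_lit 5) (nat_lit 606) (nat_lit 597) (nat_lit 357)))) (XT.nd (nat_lit 156) (nat_lit 0) (nat_lit 76) (XT.nd (nat_lit 78) (nat_lit 0) (nat_lit 0) (XT.lf (nat_lit 0) (nat_lit 819496379) (nat_lit 1824) (nat_lit 11987710323) (nat_lit 1900) (nat_lit 7939481219) (nat_lit 468) (nat_lit 5) (nat_lit 492) (nat_lit 5) (nat_lit 493) (nat_lit 5) (nat_lit 607) (nat_lit 597) (nat_lit 356)) (XT.lf (nat_lit 0) (nat_lit 1660262129) (nat_lit 1824)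 (nat_lit 1403312385) (nat_lit 1900) (nat_lit 17894405551) (nat_lit 468) (nat_lit 5) (nat_lit 492) (nat_lit 5) (nat_lit 493) (nat_lit 5) (nat_lit 608) (nat_lit 597) (nat_lit 355))) (XT.nd (nat_lit 78) (nat_lit 0) (nat_lit 0) (XT.lf (nat_lit 0) (nat_lit 2620596268) (nat_lit 1824) (nat_lit 11702526296) (nat_lit 1900) (nat_lit 6848320797) (nat_lit 469) (nat_lit 5) (nat_lit 493) (nat_lit 5) (nat_lit 494) (nat_lit 5) (nat_lit 609) (nat_lit 597) (nat_lit 354)) (XT.lf (nat_lit 0) (nat_lit 3625897804) (nat_lit 1824) (nat_lit 834486733) (nat_lit 1900) (nat_lit 16928276536) (nat_lit 469) (nat_lit 5) (nat_lit 493) (nat_lit 5) (nat_lit 494) (nat_lit 5) (nat_lit 610) (nat_lit 597) (nat_lit 353))))) (XT.nd (nat_lit 234) (nat_lit 0) (nat_lit 76) (XT.nd (nat_lit 78) (nat_lit 0) (nat_lit 0) (XT.lf (nat_lit 0) (nat_lit 4751609969) (nat_lit 1824) (nat_lit 11261364973) (nat_lit 1900) (nat_lit 5595242459) (nat_lit 470) (nat_lit 5) (nat_lit 494) (nat_lit 5) (nat_lit 495) (nat_lit 5)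 (nat_lit 611) (nat_lit 597) (nat_lit 352)) (XT.nd (nat_lit 78) (nat_lit 0) (nat_lit 76) (XT.lf (nat_lit 0) (nat_lit 5931150888) (nat_lit 1824) (nat_lit 101273866) (nat_lit 1900) (nat_lit 15799114159) (nat_lit 470) (nat_lit 5) (nat_lit 494) (nat_lit 5) (nat_lit 495) (nat_lit 5) (nat_lit 612) (nat_lit 597) (nat_lit 351)) (XT.lf (nat_lit 0) (nat_lit 7232131062) (nat_lit 1824) (nat_lit 10656152595) (nat_lit 1900) (nat_lit 4169086573) (nat_lit 471) (nat_lit 5) (nat_lit 495) (nat_lit 5) (nat_lit 496) (nat_lit 5) (nat_lit 613) (nat_lit 597) (nat_lit 350)))) (XT.nd (nat_lit 156) (nat_lit 0) (nat_lit 76) (XT.nd (nat_lit 78) (nat_lit 0) (nat_lit 76) (XT.lf (nat_lit 76) (nat_lit 815382453) (nat_lit 0) (nat_lit 7785953993) (nat_lit 1900) (nat_lit 13685537950) (nat_lit 472) (nat_lit 5) (nat_lit 471) (nat_lit 5) (nat_lit 496) (nat_lit 5) (nat_lit 614) (nat_lit 597) (nat_lit 349)) (XT.lf (nat_lit 0) (nat_lit 10082597714) (nat_lit 1824) (nat_lit 9878413644) (nat_lit 1900) (nat_lit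 2558264181) (nat_lit 472) (nat_lit 5) (nat_lit 496) (nat_lit 5) (nat_lit 497) (nat_lit 5) (nat_lit 615) (nat_lit 597) (nat_lit 348))) (XT.nd (nat_lit 78) (nat_lit 0) (nat_lit 76) (XT.lf (nat_lit 76) (nat_lit 1917319912) (nat_lit 0) (nat_lit 9736585758) (nat_lit 1900) (nat_lit 11101210927) (nat_lit 473) (nat_lit 5) (nat_lit 472) (nat_lit 5) (nat_lit 497) (nat_lit 5) (nat_lit 616) (nat_lit 597) (nat_lit 347)) (XT.lf (nat_lit 0) (nat_lit 13324330905) (nat_lit 1824) (nat_lit 8919257486) (nat_lit 1900) (nat_lit 750732578) (nat_lit 473) (nat_lit 5) (nat_lit 497) (nat_lit 5) (nat_lit 498) (nat_lit 5) (nat_lit 617) (nat_lit 597) (nat_lit 346))))))))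
noncomputable def xc224 : XT := (XT.nd (nat_lit 2106) (nat_lit 6764) (nat_lit 0) (XT.nd (nat_lit 1014) (nat_lit 6308) (nat_lit 0) (XT.nd (nat_lit 468) (nat_lit 3724) (nat_lit 0) (XT.nd (nat_lit 234) (nat_lit 1748) (nat_lit 0) (XT.nd (nat_lit 78) (nat_lit 0) (nat_lit 0) (XT.lf (nat_lit 76) (nat_lit 3212512935) (nat_lit 0) (nat_lit 11897527142) (nat_lit 1900) (nat_lit 8126632152) (nat_lit 474) (nat_lit 5) (nat_lit 473) (nat_lit 5) (nat_lit 498) (nat_lit 5) (nat_lit 618) (nat_lit 597) (nat_lit 345)) (XT.nd (nat_lit 78) (nat_lit 0) (nat_lit 76) (XT.lf (nat_lit 76) (nat_lit 15705048469) (nat_lit 0) (nat_lit 1282854742) (nat_lit 1900) (nat_lit 6494838813) (nat_lit 474) (nat_lit 5) (nat_lit 473) (nat_lit 5) (nat_lit 498) (nat_lit 5) (nat_lit 619) (nat_lit 597) (nat_lit 344)) (XT.lf (nat_lit 76) (nat_lit 4710726728) (nat_lit 0) (nat_lit 14281806604) (nat_lit 1900) (nat_lit 4739415984) (nat_lit 475) (nat_lit 5) (nat_lit 474) (nat_lit 5) (nat_lit 499) (nat_lit 5) (nat_lit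 620) (nat_lit 597) (nat_lit 343)))) (XT.nd (nat_lit 78) (nat_lit 1824) (nat_lit 0) (XT.lf (nat_lit 76) (nat_lit 17542963728) (nat_lit 0) (nat_lit 3551629979) (nat_lit 1900) (nat_lit 2890400587) (nat_lit 475) (nat_lit 5) (nat_lit 474) (nat_lit 5) (nat_lit 499) (nat_lit 5) (nat_lit 621) (nat_lit 597) (nat_lit 342)) (XT.nd (nat_lit 78) (nat_lit 76) (nat_lit 0) (XT.lf (nat_lit 0) (nat_lit 6422186583) (nat_lit 1824) (nat_lit 16902980363) (nat_lit 1900) (nat_lit 916204079) (nat_lit 451) (nat_lit 5) (nat_lit 475) (nat_lit 5) (nat_lit 476) (nat_lit 5) (nat_lit 622) (nat_lit 597) (nat_lit 341)) (XT.lf (nat_lit 0) (nat_lit 1146916474) (nat_lit 1900) (nat_lit 4904741886) (nat_lit 76) (nat_lit 18449798019) (nat_lit 450) (nat_lit 5) (nat_lit 475) (nat_lit 5) (nat_lit 451) (nat_lit 5) (nat_lit 623) (nat_lit 597) (nat_lit 340))))) (XT.nd (nat_lit 234) (nat_lit 1748) (nat_lit 0) (XT.nd (nat_lit 78) (nat_lit 912) (nat_lit 0) (XT.lf (nat_lit 0) (nat_lit 3323213846) (nat_lit 1140)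 (nat_lit 16429645724) (nat_lit 76) (nat_lit 5012079369) (nat_lit 436) (nat_lit 5) (nat_lit 451) (nat_lit 5) (nat_lit 437) (nat_lit 5) (nat_lit 624) (nat_lit 597) (nat_lit 339)) (XT.nd (nat_lit 78) (nat_lit 912) (nat_lit 0) (XT.lf (nat_lit 0) (nat_lit 5613151953) (nat_lit 1140) (nat_lit 3169515388) (nat_lit 76) (nat_lit 16249621779) (nat_lit 436) (nat_lit 5) (nat_lit 451) (nat_lit 5) (nat_lit 437) (nat_lit 5) (nat_lit 625) (nat_lit 597) (nat_lit 338)) (XT.lf (nat_lit 0) (nat_lit 8030048320) (nat_lit 988) (nat_lit 14829107358) (nat_lit 76) (nat_lit 2444207696) (nat_lit 424) (nat_lit 5) (nat_lit 437) (nat_lit 5) (nat_lit 425) (nat_lit 5) (nat_lit 626) (nat_lit 597) (nat_lit 337)))) (XT.nd (nat_lit 156) (nat_lit 836) (nat_lit 0) (XT.nd (nat_lit 78) (nat_lit 912) (nat_lit 0) (XT.lf (nat_lit 0) (nat_lit 10571866284) (nat_lit 988) (nat_lit 1206661684) (nat_lit 76) (nat_lit 13799799724) (nat_lit 424) (nat_lit 5) (nat_lit 437) (nat_lit 5) (nat_lit 425) (nat_lit 5) (nat_lit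 627) (nat_lit 597) (nat_lit 336)) (XT.lf (nat_lit 0) (nat_lit 12854080992) (nat_lit 912) (nat_lit 390965795) (nat_lit 988) (nat_lit 12612134236) (nat_lit 412) (nat_lit 5) (nat_lit 424) (nat_lit 5) (nat_lit 425) (nat_lit 5) (nat_lit 628) (nat_lit 597) (nat_lit 335))) (XT.nd (nat_lit 78) (nat_lit 0) (nat_lit 0) (XT.lf (nat_lit 0) (nat_lit 1008465645) (nat_lit 836) (nat_lit 15047909667) (nat_lit 912) (nat_lit 10083542664) (nat_lit 401) (nat_lit 5) (nat_lit 412) (nat_lit 5) (nat_lit 413) (nat_lit 5) (nat_lit 629) (nat_lit 597) (nat_lit 334)) (XT.lf (nat_lit 0) (nat_lit 15471141067) (nat_lit 836) (nat_lit 3539767804) (nat_lit 912) (nat_lit 7415661467) (nat_lit 401) (nat_lit 5) (nat_lit 412) (nat_lit 5) (nat_lit 413) (nat_lit 5) (nat_lit 630) (nat_lit 597) (nat_lit 333)))))) (XT.nd (nat_lit 546) (nat_lit 2964) (nat_lit 0) (XT.nd (nat_lit 234) (nat_lit 1596) (nat_lit 0) (XT.nd (nat_lit 78) (nat_lit 912) (nat_lit 0) (XT.lf (nat_lit 0) (nat_lit 3493946574) (nat_lit 836)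 (nat_lit 18603707060) (nat_lit 912) (nat_lit 4619839938) (nat_lit 390) (nat_lit 5) (nat_lit 401) (nat_lit 5) (nat_lit 402) (nat_lit 5) (nat_lit 631) (nat_lit 597) (nat_lit 332)) (XT.nd (nat_lit 78) (nat_lit 912) (nat_lit 0) (XT.lf (nat_lit 0) (nat_lit 18354317050) (nat_lit 836) (nat_lit 6985863049) (nat_lit 912) (nat_lit 1672174464) (nat_lit 390) (nat_lit 5) (nat_lit 401) (nat_lit 5) (nat_lit 402) (nat_lit 5) (nat_lit 632) (nat_lit 597) (nat_lit 331)) (XT.lf (nat_lit 0) (nat_lit 1386836925) (nat_lit 912) (nat_lit 21074469731) (nat_lit 76) (nat_lit 4850235177) (nat_lit 378) (nat_lit 5) (nat_lit 390) (nat_lit 5) (nat_lit 379) (nat_lit 5) (nat_lit 633) (nat_lit 597) (nat_lit 330)))) (XT.nd (nat_lit 156) (nat_lit 760) (nat_lit 0) (XT.nd (nat_lit 78) (nat_lit 836) (nat_lit 0) (XT.lf (nat_lit 0) (nat_lit 4586721571) (nat_lit 912) (nat_lit 6128589111) (nat_lit 76) (nat_lit 16899139652) (nat_lit 378) (nat_lit 5) (nat_lit 390) (nat_lit 5) (nat_lit 379) (nat_lit 5) (nat_lit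 634) (nat_lit 597) (nat_lit 329)) (XT.lf (nat_lit 0) (nat_lit 7916541333) (nat_lit 912) (nat_lit 18696268961) (nat_lit 76) (nat_lit 1309288175) (nat_lit 367) (nat_lit 5) (nat_lit 379) (nat_lit 5) (nat_lit 368) (nat_lit 5) (nat_lit 635) (nat_lit 597) (nat_lit 328))) (XT.nd (nat_lit 78) (nat_lit 760) (nat_lit 0) (XT.lf (nat_lit 0) (nat_lit 11422718256) (nat_lit 912) (nat_lit 3338641630) (nat_lit 76) (nat_lit 13472344674) (nat_lit 367) (nat_lit 5) (nat_lit 379) (nat_lit 5) (nat_lit 368) (nat_lit 5) (nat_lit 636) (nat_lit 597) (nat_lit 327)) (XT.lf (nat_lit 0) (nat_lit 12487223127) (nat_lit 760) (nat_lit 2590321933) (nat_lit 836) (nat_lit 13472427390) (nat_lit 357) (nat_lit 5) (nat_lit 367) (nat_lit 5) (nat_lit 368) (nat_lit 5) (nat_lit 637) (nat_lit 597) (nat_lit 326))))) (XT.nd (nat_lit 234) (nat_lit 1520) (nat_lit 0) (XT.nd (nat_lit 78) (nat_lit 1444) (nat_lit 0) (XT.lf (nat_lit 0) (nat_lit 18889288286) (nat_lit 836) (nat_lit 263908604) (nat_lit 76) (nat_lit 9717692609)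 (nat_lit 357) (nat_lit 5) (nat_lit 368) (nat_lit 5) (nat_lit 358) (nat_lit 5) (nat_lit 638) (nat_lit 597) (nat_lit 325)) (XT.nd (nat_lit 78) (nat_lit 684) (nat_lit 0) (XT.lf (nat_lit 0) (nat_lit 16041475481) (nat_lit 760) (nat_lit 6854629263) (nat_lit 836) (nat_lit 6299743576) (nat_lit 347) (nat_lit 5) (nat_lit 357) (nat_lit 5) (nat_lit 358) (nat_lit 5) (nat_lit 639) (nat_lit 597) (nat_lit 324)) (XT.lf (nat_lit 0) (nat_lit 3150948715) (nat_lit 684) (nat_lit 23888854071) (nat_lit 760) (nat_lit 2486368819) (nat_lit 338) (nat_lit 5) (nat_lit 347) (nat_lit 5) (nat_lit 348) (nat_lit 5) (nat_lit 640) (nat_lit 597) (nat_lit 323)))) (XT.nd (nat_lit 156) (nat_lit 684) (nat_lit 0) (XT.nd (nat_lit 78) (nat_lit 760) (nat_lit 0) (XT.lf (nat_lit 0) (nat_lit 1516697629) (nat_lit 760) (nat_lit 9958449189) (nat_lit 76) (nat_lit 18385135934) (nat_lit 337) (nat_lit 5) (nat_lit 347) (nat_lit 5) (nat_lit 338) (nat_lit 5) (nat_lit 641) (nat_lit 597) (nat_lit 322)) (XT.lf (nat_lit 0)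 (nat_lit 5616818769) (nat_lit 836) (nat_lit 23350538237) (nat_lit 76) (nat_lit 1232384883) (nat_lit 327) (nat_lit 5) (nat_lit 338) (nat_lit 5) (nat_lit 328) (nat_lit 5) (nat_lit 642) (nat_lit 597) (nat_lit 321))) (XT.nd (nat_lit 78) (nat_lit 684) (nat_lit 0) (XT.lf (nat_lit 0) (nat_lit 9939856886) (nat_lit 836) (nat_lit 6495776733) (nat_lit 76) (nat_lit 14107538477) (nat_lit 327) (nat_lit 5) (nat_lit 338) (nat_lit 5) (nat_lit 328) (nat_lit 5) (nat_lit 643) (nat_lit 597) (nat_lit 320)) (XT.lf (nat_lit 0) (nat_lit 10835557846) (nat_lit 684) (nat_lit 3581846813) (nat_lit 760) (nat_lit 16474705444) (nat_lit 318) (nat_lit 5) (nat_lit 327) (nat_lit 5) (nat_lit 328) (nat_lit 5) (nat_lit 644) (nat_lit 597) (nat_lit 319))))))) (XT.nd (nat_lit 1014) (nat_lit 2204) (nat_lit 0) (XT.nd (nat_lit 468) (nat_lit 2508) (nat_lit 0) (XT.nd (nat_lit 234) (nat_lit 760) (nat_lit 0) (XT.nd (nat_lit 78) (nat_lit 1292) (nat_lit 0) (XT.lf (nat_lit 0) (nat_lit 19087974062) (nat_lit 760) (nat_lit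 2710399932) (nat_lit 76) (nat_lit 9447583634) (nat_lit 318) (nat_lit 5) (nat_lit 328) (nat_lit 5) (nat_lit 319) (nat_lit 5) (nat_lit 645) (nat_lit 597) (nat_lit 318)) (XT.nd (nat_lit 78) (nat_lit 608) (nat_lit 0) (XT.lf (nat_lit 0) (nat_lit 15155110146) (nat_lit 684) (nat_lit 8816730442) (nat_lit 760) (nat_lit 7632643968) (nat_lit 309) (nat_lit 5) (nat_lit 318) (nat_lit 5) (nat_lit 319) (nat_lit 5) (nat_lit 646) (nat_lit 597) (nat_lit 317)) (XT.lf (nat_lit 0) (nat_lit 1432156732) (nat_lit 608) (nat_lit 27575354305) (nat_lit 684) (nat_lit 2961588618) (nat_lit 301) (nat_lit 5) (nat_lit 309) (nat_lit 5) (nat_lit 310) (nat_lit 5) (nat_lit 647) (nat_lit 597) (nat_lit 316)))) (XT.nd (nat_lit 78) (nat_lit 684) (nat_lit 0) (XT.lf (nat_lit 0) (nat_lit 1946550605) (nat_lit 684) (nat_lit 12517973893) (nat_lit 76) (nat_lit 17872902445) (nat_lit 300) (nat_lit 5) (nat_lit 309) (nat_lit 5) (nat_lit 301) (nat_lit 5) (nat_lit 648) (nat_lit 597) (nat_lit 315)) (XT.nd (nat_lit 78)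 (nat_lit 0) (nat_lit 0) (XT.lf (nat_lit 0) (nat_lit 5916769564) (nat_lit 684) (nat_lit 1032727139) (nat_lit 760) (nat_lit 25762506711) (nat_lit 291) (nat_lit 5) (nat_lit 300) (nat_lit 5) (nat_lit 301) (nat_lit 5) (nat_lit 649) (nat_lit 597) (nat_lit 314)) (XT.lf (nat_lit 0) (nat_lit 12217177076) (nat_lit 760) (nat_lit 8287916538) (nat_lit 76) (nat_lit 12585684447) (nat_lit 291) (nat_lit 5) (nat_lit 301) (nat_lit 5) (nat_lit 292) (nat_lit 5) (nat_lit 650) (nat_lit 597) (nat_lit 313))))) (XT.nd (nat_lit 234) (nat_lit 1292) (nat_lit 0) (XT.nd (nat_lit 78) (nat_lit 608) (nat_lit 0) (XT.lf (nat_lit 0) (nat_lit 10720749652) (nat_lit 608) (nat_lit 6943818343) (nat_lit 684) (nat_lit 15811073215) (nat_lit 283) (nat_lit 5) (nat_lit 291) (nat_lit 5) (nat_lit 292) (nat_lit 5) (nat_lit 651) (nat_lit 597) (nat_lit 312)) (XT.nd (nat_lit 78) (nat_lit 608) (nat_lit 0) (XT.lf (nat_lit 0) (nat_lit 23319549995) (nat_lit 684) (nat_lit 3692833670) (nat_lit 76) (nat_lit 6853845237) (nat_lit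 283) (nat_lit 5) (nat_lit 292) (nat_lit 5) (nat_lit 284) (nat_lit 5) (nat_lit 652) (nat_lit 597) (nat_lit 311)) (XT.lf (nat_lit 0) (nat_lit 15910616882) (nat_lit 608) (nat_lit 13324275881) (nat_lit 684) (nat_lit 5026790507) (nat_lit 275) (nat_lit 5) (nat_lit 283) (nat_lit 5) (nat_lit 284) (nat_lit 5) (nat_lit 653) (nat_lit 597) (nat_lit 310)))) (XT.nd (nat_lit 156) (nat_lit 608) (nat_lit 0) (XT.nd (nat_lit 78) (nat_lit 0) (nat_lit 0) (XT.lf (nat_lit 0) (nat_lit 631346419) (nat_lit 684) (nat_lit 33366630604) (nat_lit 76) (nat_lit 666276159) (nat_lit 266) (nat_lit 5) (nat_lit 275) (nat_lit 5) (nat_lit 267) (nat_lit 5) (nat_lit 654) (nat_lit 597) (nat_lit 309)) (XT.lf (nat_lit 0) (nat_lit 6545604324) (nat_lit 684) (nat_lit 13609282120) (nat_lit 76) (nat_lit 14915118301) (nat_lit 266) (nat_lit 5) (nat_lit 275) (nat_lit 5) (nat_lit 267) (nat_lit 5) (nat_lit 655) (nat_lit 597) (nat_lit 308))) (XT.nd (nat_lit 78) (nat_lit 0) (nat_lit 0) (XT.lf (nat_lit 0) (nat_lit 6627622439)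 (nat_lit 608) (nat_lit 5991597989) (nat_lit 684) (nat_lit 22863829583) (nat_lit 258) (nat_lit 5) (nat_lit 266) (nat_lit 5) (nat_lit 267) (nat_lit 5) (nat_lit 656) (nat_lit 597) (nat_lit 307)) (XT.lf (nat_lit 0) (nat_lit 18959194945) (nat_lit 684) (nat_lit 8506819191) (nat_lit 76) (nat_lit 8435444455) (nat_lit 258) (nat_lit 5) (nat_lit 267) (nat_lit 5) (nat_lit 259) (nat_lit 5) (nat_lit 657) (nat_lit 597) (nat_lit 306)))))) (XT.nd (nat_lit 76596) (nat_lit 0) (nat_lit 19684) (XT.nd (nat_lit 234) (nat_lit 1064) (nat_lit 0) (XT.nd (nat_lit 78) (nat_lit 608) (nat_lit 0) (XT.lf (nat_lit 0) (nat_lit 12368818813) (nat_lit 532) (nat_lit 13175234854) (nat_lit 608) (nat_lit 10781820107) (nat_lit 251) (nat_lit 5) (nat_lit 258) (nat_lit 5) (nat_lit 259) (nat_lit 5) (nat_lit 658) (nat_lit 597) (nat_lit 305)) (XT.nd (nat_lit 78) (nat_lit 608) (nat_lit 0) (XT.lf (nat_lit 0) (nat_lit 32325287553) (nat_lit 608) (nat_lit 2992330374) (nat_lit 76) (nat_lit 1439865900) (nat_lit 251)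 (nat_lit 5) (nat_lit 259) (nat_lit 5) (nat_lit 252) (nat_lit 5) (nat_lit 659) (nat_lit 597) (nat_lit 304)) (XT.lf (nat_lit 0) (nat_lit 2224784076) (nat_lit 608) (nat_lit 18663038363) (nat_lit 76) (nat_lit 16305494746) (nat_lit 243) (nat_lit 5) (nat_lit 251) (nat_lit 5) (nat_lit 244) (nat_lit 5) (nat_lit 660) (nat_lit 597) (nat_lit 303)))) (XT.nd (nat_lit 156) (nat_lit 532) (nat_lit 0) (XT.nd (nat_lit 78) (nat_lit 0) (nat_lit 0) (XT.lf (nat_lit 0) (nat_lit 2892426468) (nat_lit 532) (nat_lit 6100339853) (nat_lit 608) (nat_lit 28643770882) (nat_lit 236) (nat_lit 5) (nat_lit 243) (nat_lit 5) (nat_lit 244) (nat_lit 5) (nat_lit 661) (nat_lit 597) (nat_lit 302)) (XT.lf (nat_lit 0) (nat_lit 16078676726) (nat_lit 608) (nat_lit 13015761765) (nat_lit 76) (nat_lit 8990531875) (nat_lit 236) (nat_lit 5) (nat_lit 244) (nat_lit 5) (nat_lit 237) (nat_lit 5) (nat_lit 662) (nat_lit 597) (nat_lit 301))) (XT.nd (nat_lit 76128) (nat_lit 0) (nat_lit 19684) (XT.lf (nat_lit 0) (nat_lit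 9225319223) (nat_lit 532) (nat_lit 14179495757) (nat_lit 608) (nat_lit 15135587133) (nat_lit 229) (nat_lit 5) (nat_lit 236) (nat_lit 5) (nat_lit 237) (nat_lit 5) (nat_lit 663) (nat_lit 597) (nat_lit 300)) (XT.lf (nat_lit 0) (nat_lit 3885188915) (nat_lit 0) (nat_lit 3885188915) (nat_lit 1748) (nat_lit 1809273892) (nat_lit 488) (nat_lit 5) (nat_lit 488) (nat_lit 3) (nat_lit 511) (nat_lit 3) (nat_lit 598) (nat_lit 598) (nat_lit 364))))) (XT.nd (nat_lit 234) (nat_lit 0) (nat_lit 76) (XT.nd (nat_lit 78) (nat_lit 0) (nat_lit 0) (XT.lf (nat_lit 0) (nat_lit 15886291610) (nat_lit 1748) (nat_lit 1933269283) (nat_lit 1824) (nat_lit 1527516164) (nat_lit 488) (nat_lit 5) (nat_lit 511) (nat_lit 3) (nat_lit 512) (nat_lit 5) (nat_lit 599) (nat_lit 598) (nat_lit 363)) (XT.nd (nat_lit 78) (nat_lit 0) (nat_lit 76) (XT.lf (nat_lit 76) (nat_lit 7759333763) (nat_lit 0) (nat_lit 8576534509) (nat_lit 1824) (nat_lit 3200795711) (nat_lit 489) (nat_lit 5) (nat_lit 488) (nat_lit 5) (nat_lit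 512) (nat_lit 5) (nat_lit 600) (nat_lit 598) (nat_lit 362)) (XT.lf (nat_lit 0) (nat_lit 16808405482) (nat_lit 1748) (nat_lit 2065964748) (nat_lit 1824) (nat_lit 855393470) (nat_lit 489) (nat_lit 5) (nat_lit 512) (nat_lit 5) (nat_lit 513) (nat_lit 5) (nat_lit 601) (nat_lit 598) (nat_lit 361)))) (XT.nd (nat_lit 156) (nat_lit 0) (nat_lit 76) (XT.nd (nat_lit 78) (nat_lit 0) (nat_lit 76) (XT.lf (nat_lit 76) (nat_lit 7883713415) (nat_lit 0) (nat_lit 9510137403) (nat_lit 1824) (nat_lit 2530805870) (nat_lit 490) (nat_lit 5) (nat_lit 489) (nat_lit 5) (nat_lit 513) (nat_lit 5) (nat_lit 602) (nat_lit 598) (nat_lit 360)) (XT.lf (nat_lit 0) (nat_lit 18000787373) (nat_lit 1748) (nat_lit 2065739294) (nat_lit 1824) (nat_lit 56725640) (nat_lit 490) (nat_lit 5) (nat_lit 513) (nat_lit 5) (nat_lit 514) (nat_lit 5) (nat_lit 603) (nat_lit 598) (nat_lit 359))) (XT.nd (nat_lit 78) (nat_lit 0) (nat_lit 0) (XT.lf (nat_lit 76) (nat_lit 8150333369) (nat_lit 0) (nat_lit 10581072917) (nat_lit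 1824) (nat_lit 1592183088) (nat_lit 491) (nat_lit 5) (nat_lit 490) (nat_lit 5) (nat_lit 514) (nat_lit 5) (nat_lit 604) (nat_lit 598) (nat_lit 358)) (XT.lf (nat_lit 76) (nat_lit 18596198446) (nat_lit 0) (nat_lit 890015503) (nat_lit 1824) (nat_lit 1041528107) (nat_lit 491) (nat_lit 5) (nat_lit 490) (nat_lit 5) (nat_lit 514) (nat_lit 5) (nat_lit 605) (nat_lit 598) (nat_lit 357))))))))
noncomputable def xc225 : XT := (XT.nd (nat_lit 2106) (nat_lit 10564) (nat_lit 0) (XT.nd (nat_lit 1014) (nat_lit 5852) (nat_lit 0) (XT.nd (nat_lit 468) (nat_lit 0) (nat_lit 228) (XT.nd (nat_lit 234) (nat_lit 0) (nat_lit 76) (XT.nd (nat_lit 78) (nat_lit 1824) (nat_lit 0) (XT.lf (nat_lit 76) (nat_lit 8566375307) (nat_lit 0) (nat_lit 11799571046) (nat_lit 1824) (nat_lit 367835259) (nat_lit 492) (nat_lit 5) (nat_lit 491) (nat_lit 5) (nat_lit 515) (nat_lit 5) (nat_lit 606) (nat_lit 598) (nat_lit 356)) (XT.nd (nat_lit 78) (nat_lit 0) (nat_lit 76) (XT.lf (nat_lit 0) (nat_lit 329932244) (nat_lit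 1824) (nat_lit 1653916107) (nat_lit 1900) (nat_lit 18959756741) (nat_lit 467) (nat_lit 5) (nat_lit 491) (nat_lit 5) (nat_lit 492) (nat_lit 5) (nat_lit 607) (nat_lit 598) (nat_lit 355)) (XT.lf (nat_lit 0) (nat_lit 1144845372) (nat_lit 1824) (nat_lit 12023699661) (nat_lit 1900) (nat_lit 7986869440) (nat_lit 468) (nat_lit 5) (nat_lit 492) (nat_lit 5) (nat_lit 493) (nat_lit 5) (nat_lit 608) (nat_lit 598) (nat_lit 354)))) (XT.nd (nat_lit 78) (nat_lit 0) (nat_lit 76) (XT.lf (nat_lit 0) (nat_lit 1996368416) (nat_lit 1824) (nat_lit 1231609154) (nat_lit 1900) (nat_lit 18143076600) (nat_lit 468) (nat_lit 5) (nat_lit 492) (nat_lit 5) (nat_lit 493) (nat_lit 5) (nat_lit 609) (nat_lit 598) (nat_lit 353)) (XT.nd (nat_lit 78) (nat_lit 0) (nat_lit 0) (XT.lf (nat_lit 0) (nat_lit 2970610568) (nat_lit 1824) (nat_lit 11731481737) (nat_lit 1900) (nat_lit 6886800939) (nat_lit 469) (nat_lit 5) (nat_lit 493) (nat_lit 5) (nat_lit 494) (nat_lit 5) (nat_lit 610) (nat_lit 598) (nat_lit 352))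 (XT.lf (nat_lit 0) (nat_lit 3990182794) (nat_lit 1824) (nat_lit 650102855) (nat_lit 1900) (nat_lit 17170286895) (nat_lit 469) (nat_lit 5) (nat_lit 493) (nat_lit 5) (nat_lit 494) (nat_lit 5) (nat_lit 611) (nat_lit 598) (nat_lit 351))))) (XT.nd (nat_lit 234) (nat_lit 0) (nat_lit 76) (XT.nd (nat_lit 78) (nat_lit 0) (nat_lit 0) (XT.lf (nat_lit 0) (nat_lit 5133416487) (nat_lit 1824) (nat_lit 11280500054) (nat_lit 1900) (nat_lit 5620703830) (nat_lit 470) (nat_lit 5) (nat_lit 494) (nat_lit 5) (nat_lit 495) (nat_lit 5) (nat_lit 612) (nat_lit 598) (nat_lit 350)) (XT.nd (nat_lit 78) (nat_lit 0) (nat_lit 76) (XT.lf (nat_lit 76) (nat_lit 100064210) (nat_lit 0) (nat_lit 6231510672) (nat_lit 1900) (nat_lit 15930933408) (nat_lit 471) (nat_lit 5) (nat_lit 470) (nat_lit 5) (nat_lit 495) (nat_lit 5) (nat_lit 613) (nat_lit 598) (nat_lit 349)) (XT.lf (nat_lit 0) (nat_lit 7653220556) (nat_lit 1824) (nat_lit 10662495147) (nat_lit 1900) (nat_lit 4177248109) (nat_lit 471) (nat_lit 5)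 (nat_lit 495) (nat_lit 5) (nat_lit 496) (nat_lit 5) (nat_lit 614) (nat_lit 598) (nat_lit 348)))) (XT.nd (nat_lit 156) (nat_lit 0) (nat_lit 76) (XT.nd (nat_lit 78) (nat_lit 0) (nat_lit 76) (XT.lf (nat_lit 76) (nat_lit 1037110205) (nat_lit 0) (nat_lit 8008613040) (nat_lit 1900) (nat_lit 13681417041) (nat_lit 472) (nat_lit 5) (nat_lit 471) (nat_lit 5) (nat_lit 496) (nat_lit 5) (nat_lit 615) (nat_lit 598) (nat_lit 347)) (XT.lf (nat_lit 0) (nat_lit 10550843247) (nat_lit 1824) (nat_lit 9868799250) (nat_lit 1900) (nat_lit 2544662762) (nat_lit 472) (nat_lit 5) (nat_lit 496) (nat_lit 5) (nat_lit 497) (nat_lit 5) (nat_lit 616) (nat_lit 598) (nat_lit 346))) (XT.nd (nat_lit 78) (nat_lit 0) (nat_lit 76) (XT.lf (nat_lit 76) (nat_lit 2161485933) (nat_lit 0) (nat_lit 9988200422) (nat_lit 1900) (nat_lit 11055255072) (nat_lit 473) (nat_lit 5) (nat_lit 472) (nat_lit 5) (nat_lit 497) (nat_lit 5) (nat_lit 617) (nat_lit 598) (nat_lit 345)) (XT.lf (nat_lit 0) (nat_lit 13848006984) (nat_lit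 1824) (nat_lit 8890322591) (nat_lit 1900) (nat_lit 710711034) (nat_lit 473) (nat_lit 5) (nat_lit 497) (nat_lit 5) (nat_lit 498) (nat_lit 5) (nat_lit 618) (nat_lit 598) (nat_lit 344)))))) (XT.nd (nat_lit 546) (nat_lit 3496) (nat_lit 0) (XT.nd (nat_lit 234) (nat_lit 2812) (nat_lit 0) (XT.nd (nat_lit 78) (nat_lit 0) (nat_lit 0) (XT.lf (nat_lit 76) (nat_lit 3482719292) (nat_lit 0) (nat_lit 12183005321) (nat_lit 1900) (nat_lit 8030588848) (nat_lit 474) (nat_lit 5) (nat_lit 473) (nat_lit 5) (nat_lit 498) (nat_lit 5) (nat_lit 619) (nat_lit 598) (nat_lit 343)) (XT.nd (nat_lit 78) (nat_lit 0) (nat_lit 76) (XT.lf (nat_lit 76) (nat_lit 16221067182) (nat_lit 0) (nat_lit 1355107558) (nat_lit 1900) (nat_lit 6371229758) (nat_lit 474) (nat_lit 5) (nat_lit 473) (nat_lit 5) (nat_lit 498) (nat_lit 5) (nat_lit 620) (nat_lit 598) (nat_lit 342)) (XT.lf (nat_lit 76) (nat_lit 5010790662) (nat_lit 0) (nat_lit 14606273901) (nat_lit 1900) (nat_lit 4584608464) (nat_lit 475) (nat_lit 5) (nat_lit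 474) (nat_lit 5) (nat_lit 499) (nat_lit 5) (nat_lit 621) (nat_lit 598) (nat_lit 341)))) (XT.nd (nat_lit 156) (nat_lit 1140) (nat_lit 0) (XT.nd (nat_lit 78) (nat_lit 1748) (nat_lit 0) (XT.lf (nat_lit 76) (nat_lit 18095636139) (nat_lit 0) (nat_lit 3660732348) (nat_lit 1900) (nat_lit 2703506796) (nat_lit 475) (nat_lit 5) (nat_lit 474) (nat_lit 5) (nat_lit 499) (nat_lit 5) (nat_lit 622) (nat_lit 598) (nat_lit 340)) (XT.lf (nat_lit 0) (nat_lit 6756148475) (nat_lit 1824) (nat_lit 17271793162) (nat_lit 1900) (nat_lit 693510558) (nat_lit 451) (nat_lit 5) (nat_lit 475) (nat_lit 5) (nat_lit 476) (nat_lit 5) (nat_lit 623) (nat_lit 598) (nat_lit 339))) (XT.nd (nat_lit 78) (nat_lit 1064) (nat_lit 0) (XT.lf (nat_lit 0) (nat_lit 1403047561) (nat_lit 1900) (nat_lit 4798229307) (nat_lit 76) (nat_lit 18785524768) (nat_lit 450) (nat_lit 5) (nat_lit 475) (nat_lit 5) (nat_lit 451) (nat_lit 5) (nat_lit 624) (nat_lit 598) (nat_lit 338)) (XT.lf (nat_lit 0) (nat_lit 3619444965) (nat_lit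 1140) (nat_lit 16550185684) (nat_lit 76) (nat_lit 5085992110) (nat_lit 436) (nat_lit 5) (nat_lit 451) (nat_lit 5) (nat_lit 437) (nat_lit 5) (nat_lit 625) (nat_lit 598) (nat_lit 337))))) (XT.nd (nat_lit 234) (nat_lit 2584) (nat_lit 0) (XT.nd (nat_lit 78) (nat_lit 912) (nat_lit 0) (XT.lf (nat_lit 0) (nat_lit 5950676602) (nat_lit 1140) (nat_lit 3028932211) (nat_lit 76) (nat_lit 16548801620) (nat_lit 436) (nat_lit 5) (nat_lit 451) (nat_lit 5) (nat_lit 437) (nat_lit 5) (nat_lit 626) (nat_lit 598) (nat_lit 336)) (XT.nd (nat_lit 78) (nat_lit 0) (nat_lit 0) (XT.lf (nat_lit 0) (nat_lit 8412682826) (nat_lit 988) (nat_lit 14918469090) (nat_lit 76) (nat_lit 2473819193) (nat_lit 424) (nat_lit 5) (nat_lit 437) (nat_lit 5) (nat_lit 425) (nat_lit 5) (nat_lit 627) (nat_lit 598) (nat_lit 335)) (XT.lf (nat_lit 0) (nat_lit 11000983551) (nat_lit 988) (nat_lit 1027637649) (nat_lit 76) (nat_lit 14056900957) (nat_lit 424) (nat_lit 5) (nat_lit 437) (nat_lit 5) (nat_lit 425) (nat_lit 5)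 (nat_lit 628) (nat_lit 598) (nat_lit 334)))) (XT.nd (nat_lit 156) (nat_lit 836) (nat_lit 0) (XT.nd (nat_lit 78) (nat_lit 836) (nat_lit 0) (XT.lf (nat_lit 0) (nat_lit 13312983320) (nat_lit 912) (nat_lit 411686463) (nat_lit 988) (nat_lit 12645342291) (nat_lit 412) (nat_lit 5) (nat_lit 424) (nat_lit 5) (nat_lit 425) (nat_lit 5) (nat_lit 629) (nat_lit 598) (nat_lit 333)) (XT.lf (nat_lit 0) (nat_lit 1233495308) (nat_lit 836) (nat_lit 15355767303) (nat_lit 912) (nat_lit 10069200757) (nat_lit 401) (nat_lit 5) (nat_lit 412) (nat_lit 5) (nat_lit 413) (nat_lit 5) (nat_lit 630) (nat_lit 598) (nat_lit 332))) (XT.nd (nat_lit 78) (nat_lit 836) (nat_lit 0) (XT.lf (nat_lit 0) (nat_lit 15981407369) (nat_lit 836) (nat_lit 3617327319) (nat_lit 912) (nat_lit 7352197480) (nat_lit 401) (nat_lit 5) (nat_lit 412) (nat_lit 5) (nat_lit 413) (nat_lit 5) (nat_lit 631) (nat_lit 598) (nat_lit 331)) (XT.lf (nat_lit 0) (nat_lit 3767533420) (nat_lit 836) (nat_lit 18976889738) (nat_lit 912) (nat_lit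 4503306874) (nat_lit 390) (nat_lit 5) (nat_lit 401) (nat_lit 5) (nat_lit 402) (nat_lit 5) (nat_lit 632) (nat_lit 598) (nat_lit 330))))))) (XT.nd (nat_lit 1014) (nat_lit 5092) (nat_lit 0) (XT.nd (nat_lit 468) (nat_lit 2964) (nat_lit 0) (XT.nd (nat_lit 234) (nat_lit 1596) (nat_lit 0) (XT.nd (nat_lit 78) (nat_lit 912) (nat_lit 0) (XT.lf (nat_lit 0) (nat_lit 18921117034) (nat_lit 836) (nat_lit 7126667110) (nat_lit 912) (nat_lit 1500784755) (nat_lit 390) (nat_lit 5) (nat_lit 401) (nat_lit 5) (nat_lit 402) (nat_lit 5) (nat_lit 633) (nat_lit 598) (nat_lit 329)) (XT.nd (nat_lit 78) (nat_lit 0) (nat_lit 0) (XT.lf (nat_lit 0) (nat_lit 1614072715) (nat_lit 912) (nat_lit 21290878819) (nat_lit 76) (nat_lit 4948815057) (nat_lit 378) (nat_lit 5) (nat_lit 390) (nat_lit 5) (nat_lit 379) (nat_lit 5) (nat_lit 634) (nat_lit 598) (nat_lit 328)) (XT.lf (nat_lit 0) (nat_lit 4874043308) (nat_lit 912) (nat_lit 6050101770) (nat_lit 76) (nat_lit 17238666736) (nat_lit 378) (nat_lit 5) (nat_lit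 390) (nat_lit 5) (nat_lit 379) (nat_lit 5) (nat_lit 635) (nat_lit 598) (nat_lit 327)))) (XT.nd (nat_lit 78) (nat_lit 760) (nat_lit 0) (XT.lf (nat_lit 0) (nat_lit 8267964659) (nat_lit 912) (nat_lit 18866624939) (nat_lit 76) (nat_lit 1342073519) (nat_lit 367) (nat_lit 5) (nat_lit 379) (nat_lit 5) (nat_lit 368) (nat_lit 5) (nat_lit 636) (nat_lit 598) (nat_lit 326)) (XT.nd (nat_lit 78) (nat_lit 760) (nat_lit 0) (XT.lf (nat_lit 0) (nat_lit 11840478993) (nat_lit 912) (nat_lit 3205836618) (nat_lit 76) (nat_lit 13748261744) (nat_lit 367) (nat_lit 5) (nat_lit 379) (nat_lit 5) (nat_lit 368) (nat_lit 5) (nat_lit 637) (nat_lit 598) (nat_lit 325)) (XT.lf (nat_lit 0) (nat_lit 12935232422) (nat_lit 760) (nat_lit 2630745289) (nat_lit 836) (nat_lit 13551241683) (nat_lit 357) (nat_lit 5) (nat_lit 367) (nat_lit 5) (nat_lit 368) (nat_lit 5) (nat_lit 638) (nat_lit 598) (nat_lit 324))))) (XT.nd (nat_lit 234) (nat_lit 1520) (nat_lit 0) (XT.nd (nat_lit 78) (nat_lit 1444) (nat_lit 0) (XT.lf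 (nat_lit 0) (nat_lit 19450363911) (nat_lit 836) (nat_lit 71203020) (nat_lit 76) (nat_lit 9923059983) (nat_lit 357) (nat_lit 5) (nat_lit 368) (nat_lit 5) (nat_lit 358) (nat_lit 5) (nat_lit 639) (nat_lit 598) (nat_lit 323)) (XT.nd (nat_lit 78) (nat_lit 684) (nat_lit 0) (XT.lf (nat_lit 0) (nat_lit 16558986223) (nat_lit 760) (nat_lit 6976013541) (nat_lit 836) (nat_lit 6241131771) (nat_lit 347) (nat_lit 5) (nat_lit 357) (nat_lit 5) (nat_lit 358) (nat_lit 5) (nat_lit 640) (nat_lit 598) (nat_lit 322)) (XT.lf (nat_lit 0) (nat_lit 3412863494) (nat_lit 684) (nat_lit 24346551137) (nat_lit 760) (nat_lit 2353690077) (nat_lit 338) (nat_lit 5) (nat_lit 347) (nat_lit 5) (nat_lit 348) (nat_lit 5) (nat_lit 641) (nat_lit 598) (nat_lit 321)))) (XT.nd (nat_lit 156) (nat_lit 684) (nat_lit 0) (XT.nd (nat_lit 78) (nat_lit 760) (nat_lit 0) (XT.lf (nat_lit 0) (nat_lit 1723515727) (nat_lit 760) (nat_lit 9960263435) (nat_lit 76) (nat_lit 18770166093) (nat_lit 337) (nat_lit 5) (nat_lit 347)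 (nat_lit 5) (nat_lit 338) (nat_lit 5) (nat_lit 642) (nat_lit 598) (nat_lit 320)) (XT.lf (nat_lit 0) (nat_lit 5903593023) (nat_lit 836) (nat_lit 23618134793) (nat_lit 76) (nat_lit 1278506948) (nat_lit 327) (nat_lit 5) (nat_lit 338) (nat_lit 5) (nat_lit 328) (nat_lit 5) (nat_lit 643) (nat_lit 598) (nat_lit 319))) (XT.nd (nat_lit 78) (nat_lit 684) (nat_lit 0) (XT.lf (nat_lit 0) (nat_lit 10309671552) (nat_lit 836) (nat_lit 6430188140) (nat_lit 76) (nat_lit 14410742548) (nat_lit 327) (nat_lit 5) (nat_lit 338) (nat_lit 5) (nat_lit 328) (nat_lit 5) (nat_lit 644) (nat_lit 598) (nat_lit 318)) (XT.lf (nat_lit 0) (nat_lit 11246486919) (nat_lit 684) (nat_lit 3628191068) (nat_lit 760) (nat_lit 16631883121) (nat_lit 318) (nat_lit 5) (nat_lit 327) (nat_lit 5) (nat_lit 328) (nat_lit 5) (nat_lit 645) (nat_lit 598) (nat_lit 317)))))) (XT.nd (nat_lit 546) (nat_lit 2432) (nat_lit 0) (XT.nd (nat_lit 234) (nat_lit 1368) (nat_lit 0) (XT.nd (nat_lit 78) (nat_lit 1292) (nat_lit 0) (XT.lf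 (nat_lit 0) (nat_lit 19635507515) (nat_lit 760) (nat_lit 2571034503) (nat_lit 76) (nat_lit 9661006838) (nat_lit 318) (nat_lit 5) (nat_lit 328) (nat_lit 5) (nat_lit 319) (nat_lit 5) (nat_lit 646) (nat_lit 598) (nat_lit 316)) (XT.nd (nat_lit 78) (nat_lit 608) (nat_lit 0) (XT.lf (nat_lit 0) (nat_lit 15650512267) (nat_lit 684) (nat_lit 8964537174) (nat_lit 760) (nat_lit 7618237166) (nat_lit 309) (nat_lit 5) (nat_lit 318) (nat_lit 5) (nat_lit 319) (nat_lit 5) (nat_lit 647) (nat_lit 598) (nat_lit 315)) (XT.lf (nat_lit 0) (nat_lit 1654916661) (nat_lit 608) (nat_lit 28094747346) (nat_lit 684) (nat_lit 2855565626) (nat_lit 301) (nat_lit 5) (nat_lit 309) (nat_lit 5) (nat_lit 310) (nat_lit 5) (nat_lit 648) (nat_lit 598) (nat_lit 314)))) (XT.nd (nat_lit 156) (nat_lit 608) (nat_lit 0) (XT.nd (nat_lit 78) (nat_lit 684) (nat_lit 0) (XT.lf (nat_lit 0) (nat_lit 2145371243) (nat_lit 684) (nat_lit 12575886443) (nat_lit 76) (nat_lit 18259708507) (nat_lit 300) (nat_lit 5) (nat_lit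 309) (nat_lit 5) (nat_lit 301) (nat_lit 5) (nat_lit 649) (nat_lit 598) (nat_lit 313)) (XT.lf (nat_lit 0) (nat_lit 6226285785) (nat_lit 684) (nat_lit 1020196661) (nat_lit 760) (nat_lit 26116589851) (nat_lit 291) (nat_lit 5) (nat_lit 300) (nat_lit 5) (nat_lit 301) (nat_lit 5) (nat_lit 650) (nat_lit 598) (nat_lit 312))) (XT.nd (nat_lit 78) (nat_lit 608) (nat_lit 0) (XT.lf (nat_lit 0) (nat_lit 12616629703) (nat_lit 760) (nat_lit 8263344911) (nat_lit 76) (nat_lit 12869505777) (nat_lit 291) (nat_lit 5) (nat_lit 301) (nat_lit 5) (nat_lit 292) (nat_lit 5) (nat_lit 651) (nat_lit 598) (nat_lit 311)) (XT.lf (nat_lit 0) (nat_lit 11124242432) (nat_lit 608) (nat_lit 7046912272) (nat_lit 684) (nat_lit 15970922590) (nat_lit 283) (nat_lit 5) (nat_lit 291) (nat_lit 5) (nat_lit 292) (nat_lit 5) (nat_lit 652) (nat_lit 598) (nat_lit 310))))) (XT.nd (nat_lit 234) (nat_lit 1140) (nat_lit 0) (XT.nd (nat_lit 78) (nat_lit 1292) (nat_lit 0) (XT.lf (nat_lit 0) (nat_lit 23936458322) (nat_lit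 684) (nat_lit 3578531321) (nat_lit 76) (nat_lit 7025542872) (nat_lit 283) (nat_lit 5) (nat_lit 292) (nat_lit 5) (nat_lit 284) (nat_lit 5) (nat_lit 653) (nat_lit 598) (nat_lit 309)) (XT.nd (nat_lit 78) (nat_lit 684) (nat_lit 0) (XT.lf (nat_lit 0) (nat_lit 16415750354) (nat_lit 608) (nat_lit 13552619887) (nat_lit 684) (nat_lit 4975560690) (nat_lit 275) (nat_lit 5) (nat_lit 283) (nat_lit 5) (nat_lit 284) (nat_lit 5) (nat_lit 654) (nat_lit 598) (nat_lit 308)) (XT.lf (nat_lit 0) (nat_lit 792287559) (nat_lit 684) (nat_lit 33843570451) (nat_lit 76) (nat_lit 718703942) (nat_lit 266) (nat_lit 5) (nat_lit 275) (nat_lit 5) (nat_lit 267) (nat_lit 5) (nat_lit 655) (nat_lit 598) (nat_lit 307)))) (XT.nd (nat_lit 156) (nat_lit 532) (nat_lit 0) (XT.nd (nat_lit 78) (nat_lit 608) (nat_lit 0) (XT.lf (nat_lit 0) (nat_lit 6821922501) (nat_lit 684) (nat_lit 13694808189) (nat_lit 76) (nat_lit 15251756217) (nat_lit 266) (nat_lit 5) (nat_lit 275) (nat_lit 5) (nat_lit 267) (nat_lit 5) (nat_lit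 656) (nat_lit 598) (nat_lit 306)) (XT.lf (nat_lit 0) (nat_lit 6945606438) (nat_lit 608) (nat_lit 6069757334) (nat_lit 684) (nat_lit 23174462442) (nat_lit 258) (nat_lit 5) (nat_lit 266) (nat_lit 5) (nat_lit 267) (nat_lit 5) (nat_lit 657) (nat_lit 598) (nat_lit 305))) (XT.nd (nat_lit 78) (nat_lit 532) (nat_lit 0) (XT.lf (nat_lit 0) (nat_lit 19479584238) (nat_lit 684) (nat_lit 8492596965) (nat_lit 76) (nat_lit 8644473021) (nat_lit 258) (nat_lit 5) (nat_lit 267) (nat_lit 5) (nat_lit 259) (nat_lit 5) (nat_lit 658) (nat_lit 598) (nat_lit 304)) (XT.lf (nat_lit 0) (nat_lit 12799340913) (nat_lit 532) (nat_lit 13395219591) (nat_lit 608) (nat_lit 10855028984) (nat_lit 251) (nat_lit 5) (nat_lit 258) (nat_lit 5) (nat_lit 259) (nat_lit 5) (nat_lit 659) (nat_lit 598) (nat_lit 303))))))))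
noncomputable def xc226 : XT := (XT.nd (nat_lit 78234) (nat_lit 0) (nat_lit 5548) (XT.nd (nat_lit 77142) (nat_lit 0) (nat_lit 17556) (XT.nd (nat_lit 76596) (nat_lit 0) (nat_lit 19152) (XT.nd (nat_lit 234) (nat_lit 0) (nat_lit 0) (XT.nd (nat_lit 78) (nat_lit 1140) (nat_lit 0) (XT.lf (nat_lit 0) (nat_lit 33108958328) (nat_lit 608) (nat_lit 2870152545) (nat_lit 76) (nat_lit 1510770264) (nat_lit 251) (nat_lit 5) (nat_lit 259) (nat_lit 5) (nat_lit 252) (nat_lit 5) (nat_lit 660) (nat_lit 598) (nat_lit 302)) (XT.nd (nat_lit 78) (nat_lit 532) (nat_lit 0) (XT.lf (nat_lit 0) (nat_lit 2405836430) (nat_lit 608) (nat_lit 18853648745) (nat_lit 76) (nat_lit 16674958507) (nat_lit 243) (nat_lit 5) (nat_lit 251) (nat_lit 5) (nat_lit 244) (nat_lit 5) (nat_lit 661) (nat_lit 598) (nat_lit 301)) (XT.lf (nat_lit 0) (nat_lit 3131723735) (nat_lit 532) (nat_lit 6175955089) (nat_lit 608) (nat_lit 29078879437) (nat_lit 236) (nat_lit 5) (nat_lit 243) (nat_lit 5) (nat_lit 244) (nat_lit 5) (nat_lit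 662) (nat_lit 598) (nat_lit 300)))) (XT.nd (nat_lit 76206) (nat_lit 0) (nat_lit 19152) (XT.lf (nat_lit 0) (nat_lit 16532954556) (nat_lit 608) (nat_lit 13095824826) (nat_lit 76) (nat_lit 9215227931) (nat_lit 236) (nat_lit 5) (nat_lit 244) (nat_lit 5) (nat_lit 237) (nat_lit 5) (nat_lit 663) (nat_lit 598) (nat_lit 299)) (XT.nd (nat_lit 78) (nat_lit 0) (nat_lit 0) (XT.lf (nat_lit 0) (nat_lit 4052347569) (nat_lit 0) (nat_lit 4052347569) (nat_lit 1748) (nat_lit 1662954678) (nat_lit 488) (nat_lit 5) (nat_lit 488) (nat_lit 3) (nat_lit 511) (nat_lit 3) (nat_lit 599) (nat_lit 599) (nat_lit 362)) (XT.lf (nat_lit 0) (nat_lit 16553682049) (nat_lit 1748) (nat_lit 1788345224) (nat_lit 1824) (nat_lit 1384965197) (nat_lit 488) (nat_lit 5) (nat_lit 511) (nat_lit 3) (nat_lit 512) (nat_lit 5) (nat_lit 600) (nat_lit 599) (nat_lit 361))))) (XT.nd (nat_lit 234) (nat_lit 0) (nat_lit 76) (XT.nd (nat_lit 78) (nat_lit 0) (nat_lit 76) (XT.lf (nat_lit 76) (nat_lit 8096902057) (nat_lit 0) (nat_lit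 8909676160) (nat_lit 1824) (nat_lit 2913907001) (nat_lit 489) (nat_lit 5) (nat_lit 488) (nat_lit 5) (nat_lit 512) (nat_lit 5) (nat_lit 601) (nat_lit 599) (nat_lit 360)) (XT.nd (nat_lit 78) (nat_lit 0) (nat_lit 0) (XT.lf (nat_lit 0) (nat_lit 17480792509) (nat_lit 1748) (nat_lit 1920673309) (nat_lit 1824) (nat_lit 716137217) (nat_lit 489) (nat_lit 5) (nat_lit 512) (nat_lit 5) (nat_lit 513) (nat_lit 5) (nat_lit 602) (nat_lit 599) (nat_lit 359)) (XT.lf (nat_lit 76) (nat_lit 8226770715) (nat_lit 0) (nat_lit 9845787139) (nat_lit 1824) (nat_lit 2243944426) (nat_lit 490) (nat_lit 5) (nat_lit 489) (nat_lit 5) (nat_lit 513) (nat_lit 5) (nat_lit 603) (nat_lit 599) (nat_lit 358)))) (XT.nd (nat_lit 156) (nat_lit 0) (nat_lit 76) (XT.nd (nat_lit 78) (nat_lit 0) (nat_lit 76) (XT.lf (nat_lit 76) (nat_lit 18600799616) (nat_lit 0) (nat_lit 83966001) (nat_lit 1824) (nat_lit 1834442152) (nat_lit 490) (nat_lit 5) (nat_lit 489) (nat_lit 5) (nat_lit 513) (nat_lit 5) (nat_lit 604) (nat_lit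 599) (nat_lit 357)) (XT.lf (nat_lit 76) (nat_lit 8501286449) (nat_lit 0) (nat_lit 10923044053) (nat_lit 1824) (nat_lit 1299334998) (nat_lit 491) (nat_lit 5) (nat_lit 490) (nat_lit 5) (nat_lit 514) (nat_lit 5) (nat_lit 605) (nat_lit 599) (nat_lit 356))) (XT.nd (nat_lit 78) (nat_lit 0) (nat_lit 76) (XT.lf (nat_lit 76) (nat_lit 19152383603) (nat_lit 0) (nat_lit 1035609614) (nat_lit 1824) (nat_lit 744033422) (nat_lit 491) (nat_lit 5) (nat_lit 490) (nat_lit 5) (nat_lit 514) (nat_lit 5) (nat_lit 606) (nat_lit 599) (nat_lit 355)) (XT.lf (nat_lit 76) (nat_lit 8927805026) (nat_lit 0) (nat_lit 12151817336) (nat_lit 1824) (nat_lit 62679155) (nat_lit 492) (nat_lit 5) (nat_lit 491) (nat_lit 5) (nat_lit 515) (nat_lit 5) (nat_lit 607) (nat_lit 599) (nat_lit 354)))))) (XT.nd (nat_lit 546) (nat_lit 0) (nat_lit 304) (XT.nd (nat_lit 234) (nat_lit 0) (nat_lit 152) (XT.nd (nat_lit 78) (nat_lit 0) (nat_lit 76) (XT.lf (nat_lit 0) (nat_lit 638897700) (nat_lit 1824) (nat_lit 1496573939)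 (nat_lit 1900) (nat_lit 19220930743) (nat_lit 467) (nat_lit 5) (nat_lit 491) (nat_lit 5) (nat_lit 492) (nat_lit 5) (nat_lit 608) (nat_lit 599) (nat_lit 353)) (XT.nd (nat_lit 78) (nat_lit 0) (nat_lit 0) (XT.lf (nat_lit 0) (nat_lit 1464704087) (nat_lit 1824) (nat_lit 12068321225) (nat_lit 1900) (nat_lit 8039531277) (nat_lit 468) (nat_lit 5) (nat_lit 492) (nat_lit 5) (nat_lit 493) (nat_lit 5) (nat_lit 609) (nat_lit 599) (nat_lit 352)) (XT.lf (nat_lit 0) (nat_lit 2327434811) (nat_lit 1824) (nat_lit 1064229151) (nat_lit 1900) (nat_lit 18400962102) (nat_lit 468) (nat_lit 5) (nat_lit 492) (nat_lit 5) (nat_lit 493) (nat_lit 5) (nat_lit 610) (nat_lit 599) (nat_lit 351)))) (XT.nd (nat_lit 156) (nat_lit 0) (nat_lit 76) (XT.nd (nat_lit 78) (nat_lit 0) (nat_lit 0) (XT.lf (nat_lit 0) (nat_lit 3316068891) (nat_lit 1824) (nat_lit 11768980380) (nat_lit 1900) (nat_lit 6929875025) (nat_lit 469) (nat_lit 5) (nat_lit 493) (nat_lit 5) (nat_lit 494) (nat_lit 5) (nat_lit 611) (nat_lit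 599) (nat_lit 350)) (XT.lf (nat_lit 0) (nat_lit 4350423814) (nat_lit 1824) (nat_lit 469839233) (nat_lit 1900) (nat_lit 17420886817) (nat_lit 469) (nat_lit 5) (nat_lit 493) (nat_lit 5) (nat_lit 494) (nat_lit 5) (nat_lit 612) (nat_lit 599) (nat_lit 349))) (XT.nd (nat_lit 78) (nat_lit 0) (nat_lit 0) (XT.lf (nat_lit 0) (nat_lit 5511723339) (nat_lit 1824) (nat_lit 11308020649) (nat_lit 1900) (nat_lit 5650031134) (nat_lit 470) (nat_lit 5) (nat_lit 494) (nat_lit 5) (nat_lit 495) (nat_lit 5) (nat_lit 613) (nat_lit 599) (nat_lit 348)) (XT.lf (nat_lit 76) (nat_lit 298851680) (nat_lit 0) (nat_lit 6430866211) (nat_lit 1900) (nat_lit 15972585936) (nat_lit 471) (nat_lit 5) (nat_lit 470) (nat_lit 5) (nat_lit 495) (nat_lit 5) (nat_lit 614) (nat_lit 599) (nat_lit 347))))) (XT.nd (nat_lit 234) (nat_lit 0) (nat_lit 76) (XT.nd (nat_lit 78) (nat_lit 0) (nat_lit 0) (XT.lf (nat_lit 0) (nat_lit 8071997071) (nat_lit 1824) (nat_lit 10676994089) (nat_lit 1900) (nat_lit 4188493767) (nat_lit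 471) (nat_lit 5) (nat_lit 495) (nat_lit 5) (nat_lit 496) (nat_lit 5) (nat_lit 615) (nat_lit 599) (nat_lit 346)) (XT.nd (nat_lit 78) (nat_lit 0) (nat_lit 76) (XT.lf (nat_lit 76) (nat_lit 1255295798) (nat_lit 0) (nat_lit 8233125907) (nat_lit 1900) (nat_lit 13688002256) (nat_lit 472) (nat_lit 5) (nat_lit 471) (nat_lit 5) (nat_lit 496) (nat_lit 5) (nat_lit 616) (nat_lit 599) (nat_lit 345)) (XT.lf (nat_lit 0) (nat_lit 11018101538) (nat_lit 1824) (nat_lit 9867037724) (nat_lit 1900) (nat_lit 2533304283) (nat_lit 472) (nat_lit 5) (nat_lit 496) (nat_lit 5) (nat_lit 497) (nat_lit 5) (nat_lit 617) (nat_lit 599) (nat_lit 344)))) (XT.nd (nat_lit 156) (nat_lit 0) (nat_lit 76) (XT.nd (nat_lit 78) (nat_lit 0) (nat_lit 76) (XT.lf (nat_lit 76) (nat_lit 2402543047) (nat_lit 0) (nat_lit 10242638545) (nat_lit 1900) (nat_lit 11018786093) (nat_lit 473) (nat_lit 5) (nat_lit 472) (nat_lit 5) (nat_lit 497) (nat_lit 5) (nat_lit 618) (nat_lit 599) (nat_lit 343)) (XT.lf (nat_lit 0) (nat_lit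 14372169604) (nat_lit 1824) (nat_lit 8868859487) (nat_lit 1900) (nat_lit 672026183) (nat_lit 473) (nat_lit 5) (nat_lit 497) (nat_lit 5) (nat_lit 498) (nat_lit 5) (nat_lit 619) (nat_lit 599) (nat_lit 342))) (XT.nd (nat_lit 78) (nat_lit 0) (nat_lit 0) (XT.lf (nat_lit 76) (nat_lit 3750332249) (nat_lit 0) (nat_lit 12472347507) (nat_lit 1900) (nat_lit 7942665496) (nat_lit 474) (nat_lit 5) (nat_lit 473) (nat_lit 5) (nat_lit 498) (nat_lit 5) (nat_lit 620) (nat_lit 599) (nat_lit 341)) (XT.lf (nat_lit 76) (nat_lit 16739565556) (nat_lit 0) (nat_lit 1426996062) (nat_lit 1900) (nat_lit 6254992462) (nat_lit 474) (nat_lit 5) (nat_lit 473) (nat_lit 5) (nat_lit 498) (nat_lit 5) (nat_lit 621) (nat_lit 599) (nat_lit 340))))))) (XT.nd (nat_lit 1014) (nat_lit 6156) (nat_lit 0) (XT.nd (nat_lit 468) (nat_lit 3496) (nat_lit 0) (XT.nd (nat_lit 234) (nat_lit 1140) (nat_lit 0) (XT.nd (nat_lit 78) (nat_lit 1748) (nat_lit 0) (XT.lf (nat_lit 76) (nat_lit 5308862491) (nat_lit 0) (nat_lit 14935722683)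 (nat_lit 1900) (nat_lit 4436396905) (nat_lit 475) (nat_lit 5) (nat_lit 474) (nat_lit 5) (nat_lit 499) (nat_lit 5) (nat_lit 622) (nat_lit 599) (nat_lit 339)) (XT.nd (nat_lit 78) (nat_lit 1748) (nat_lit 0) (XT.lf (nat_lit 76) (nat_lit 18651525348) (nat_lit 0) (nat_lit 3770538469) (nat_lit 1900) (nat_lit 2522377198) (nat_lit 475) (nat_lit 5) (nat_lit 474) (nat_lit 5) (nat_lit 499) (nat_lit 5) (nat_lit 623) (nat_lit 599) (nat_lit 338)) (XT.lf (nat_lit 0) (nat_lit 7088809084) (nat_lit 1824) (nat_lit 17646788032) (nat_lit 1900) (nat_lit 475722175) (nat_lit 451) (nat_lit 5) (nat_lit 475) (nat_lit 5) (nat_lit 476) (nat_lit 5) (nat_lit 624) (nat_lit 599) (nat_lit 337)))) (XT.nd (nat_lit 78) (nat_lit 1064) (nat_lit 0) (XT.lf (nat_lit 0) (nat_lit 1655246111) (nat_lit 1900) (nat_lit 4697531632) (nat_lit 76) (nat_lit 19129257936) (nat_lit 450) (nat_lit 5) (nat_lit 475) (nat_lit 5) (nat_lit 451) (nat_lit 5) (nat_lit 625) (nat_lit 599) (nat_lit 336)) (XT.nd (nat_lit 78) (nat_lit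 0) (nat_lit 0) (XT.lf (nat_lit 0) (nat_lit 3912678580) (nat_lit 1140) (nat_lit 16681215393) (nat_lit 76) (nat_lit 5162405487) (nat_lit 436) (nat_lit 5) (nat_lit 451) (nat_lit 5) (nat_lit 437) (nat_lit 5) (nat_lit 626) (nat_lit 599) (nat_lit 335)) (XT.lf (nat_lit 0) (nat_lit 6286204561) (nat_lit 1140) (nat_lit 2893457909) (nat_lit 76) (nat_lit 16854967392) (nat_lit 436) (nat_lit 5) (nat_lit 451) (nat_lit 5) (nat_lit 437) (nat_lit 5) (nat_lit 627) (nat_lit 599) (nat_lit 334))))) (XT.nd (nat_lit 234) (nat_lit 1672) (nat_lit 0) (XT.nd (nat_lit 78) (nat_lit 912) (nat_lit 0) (XT.lf (nat_lit 0) (nat_lit 8794348190) (nat_lit 988) (nat_lit 15017664679) (nat_lit 76) (nat_lit 2504771301) (nat_lit 424) (nat_lit 5) (nat_lit 437) (nat_lit 5) (nat_lit 425) (nat_lit 5) (nat_lit 628) (nat_lit 599) (nat_lit 333)) (XT.nd (nat_lit 78) (nat_lit 912) (nat_lit 0) (XT.lf (nat_lit 0) (nat_lit 11430230385) (nat_lit 988) (nat_lit 852921977) (nat_lit 76) (nat_lit 14319877922) (nat_lit 424)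 (nat_lit 5) (nat_lit 437) (nat_lit 5) (nat_lit 425) (nat_lit 5) (nat_lit 629) (nat_lit 599) (nat_lit 332)) (XT.lf (nat_lit 0) (nat_lit 13773226750) (nat_lit 912) (nat_lit 432320570) (nat_lit 988) (nat_lit 12687719889) (nat_lit 412) (nat_lit 5) (nat_lit 424) (nat_lit 5) (nat_lit 425) (nat_lit 5) (nat_lit 630) (nat_lit 599) (nat_lit 331)))) (XT.nd (nat_lit 156) (nat_lit 836) (nat_lit 0) (XT.nd (nat_lit 78) (nat_lit 0) (nat_lit 0) (XT.lf (nat_lit 0) (nat_lit 1455070587) (nat_lit 836) (nat_lit 15669514177) (nat_lit 912) (nat_lit 10062960050) (nat_lit 401) (nat_lit 5) (nat_lit 412) (nat_lit 5) (nat_lit 413) (nat_lit 5) (nat_lit 631) (nat_lit 599) (nat_lit 330)) (XT.lf (nat_lit 0) (nat_lit 16494080000) (nat_lit 836) (nat_lit 3696175364) (nat_lit 912) (nat_lit 7295687782) (nat_lit 401) (nat_lit 5) (nat_lit 412) (nat_lit 5) (nat_lit 413) (nat_lit 5) (nat_lit 632) (nat_lit 599) (nat_lit 329))) (XT.nd (nat_lit 78) (nat_lit 0) (nat_lit 0) (XT.lf (nat_lit 0) (nat_lit 4038681778)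 (nat_lit 836) (nat_lit 19357493023) (nat_lit 912) (nat_lit 4392556149) (nat_lit 390) (nat_lit 5) (nat_lit 401) (nat_lit 5) (nat_lit 402) (nat_lit 5) (nat_lit 633) (nat_lit 599) (nat_lit 328)) (XT.lf (nat_lit 0) (nat_lit 19491497893) (nat_lit 836) (nat_lit 7270245051) (nat_lit 912) (nat_lit 1333921173) (nat_lit 390) (nat_lit 5) (nat_lit 401) (nat_lit 5) (nat_lit 402) (nat_lit 5) (nat_lit 634) (nat_lit 599) (nat_lit 327)))))) (XT.nd (nat_lit 546) (nat_lit 2888) (nat_lit 0) (XT.nd (nat_lit 234) (nat_lit 1520) (nat_lit 0) (XT.nd (nat_lit 78) (nat_lit 836) (nat_lit 0) (XT.lf (nat_lit 0) (nat_lit 1838106429) (nat_lit 912) (nat_lit 21519579608) (nat_lit 76) (nat_lit 5049305369) (nat_lit 378) (nat_lit 5) (nat_lit 390) (nat_lit 5) (nat_lit 379) (nat_lit 5) (nat_lit 635) (nat_lit 599) (nat_lit 326)) (XT.nd (nat_lit 78) (nat_lit 836) (nat_lit 0) (XT.lf (nat_lit 0) (nat_lit 5159516586) (nat_lit 912) (nat_lit 5977852052) (nat_lit 76) (nat_lit 17584924394) (nat_lit 378) (nat_lit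 5) (nat_lit 390) (nat_lit 5) (nat_lit 379) (nat_lit 5) (nat_lit 636) (nat_lit 599) (nat_lit 325)) (XT.lf (nat_lit 0) (nat_lit 8618918434) (nat_lit 912) (nat_lit 19048292884) (nat_lit 76) (nat_lit 1375258300) (nat_lit 367) (nat_lit 5) (nat_lit 379) (nat_lit 5) (nat_lit 368) (nat_lit 5) (nat_lit 637) (nat_lit 599) (nat_lit 324)))) (XT.nd (nat_lit 156) (nat_lit 760) (nat_lit 0) (XT.nd (nat_lit 78) (nat_lit 760) (nat_lit 0) (XT.lf (nat_lit 0) (nat_lit 12259243948) (nat_lit 912) (nat_lit 3078125357) (nat_lit 76) (nat_lit 14029445911) (nat_lit 367) (nat_lit 5) (nat_lit 379) (nat_lit 5) (nat_lit 368) (nat_lit 5) (nat_lit 638) (nat_lit 599) (nat_lit 323)) (XT.lf (nat_lit 0) (nat_lit 13384503037) (nat_lit 760) (nat_lit 2672419130) (nat_lit 836) (nat_lit 13639034822) (nat_lit 357) (nat_lit 5) (nat_lit 367) (nat_lit 5) (nat_lit 368) (nat_lit 5) (nat_lit 639) (nat_lit 599) (nat_lit 322))) (XT.nd (nat_lit 78) (nat_lit 0) (nat_lit 0) (XT.lf (nat_lit 0) (nat_lit 119232480) (nat_lit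 760) (nat_lit 19897085334) (nat_lit 836) (nat_lit 10013648692) (nat_lit 347) (nat_lit 5) (nat_lit 357) (nat_lit 5) (nat_lit 358) (nat_lit 5) (nat_lit 640) (nat_lit 599) (nat_lit 321)) (XT.lf (nat_lit 0) (nat_lit 17079209807) (nat_lit 760) (nat_lit 7100435477) (nat_lit 836) (nat_lit 6188516232) (nat_lit 347) (nat_lit 5) (nat_lit 357) (nat_lit 5) (nat_lit 358) (nat_lit 5) (nat_lit 641) (nat_lit 599) (nat_lit 320))))) (XT.nd (nat_lit 234) (nat_lit 1368) (nat_lit 0) (XT.nd (nat_lit 78) (nat_lit 836) (nat_lit 0) (XT.lf (nat_lit 0) (nat_lit 3672293201) (nat_lit 684) (nat_lit 24814181875) (nat_lit 760) (nat_lit 2225440813) (nat_lit 338) (nat_lit 5) (nat_lit 347) (nat_lit 5) (nat_lit 348) (nat_lit 5) (nat_lit 642) (nat_lit 599) (nat_lit 319)) (XT.nd (nat_lit 78) (nat_lit 760) (nat_lit 0) (XT.lf (nat_lit 0) (nat_lit 1927617093) (nat_lit 760) (nat_lit 9969777491) (nat_lit 76) (nat_lit 19162224009) (nat_lit 337) (nat_lit 5) (nat_lit 347) (nat_lit 5) (nat_lit 338) (nat_lit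 5) (nat_lit 643) (nat_lit 599) (nat_lit 318)) (XT.lf (nat_lit 0) (nat_lit 6189329127) (nat_lit 836) (nat_lit 23898826776) (nat_lit 76) (nat_lit 1324717580) (nat_lit 327) (nat_lit 5) (nat_lit 338) (nat_lit 5) (nat_lit 328) (nat_lit 5) (nat_lit 644) (nat_lit 599) (nat_lit 317)))) (XT.nd (nat_lit 156) (nat_lit 684) (nat_lit 0) (XT.nd (nat_lit 78) (nat_lit 684) (nat_lit 0) (XT.lf (nat_lit 0) (nat_lit 10680241692) (nat_lit 836) (nat_lit 6370879440) (nat_lit 76) (nat_lit 14719193176) (nat_lit 327) (nat_lit 5) (nat_lit 338) (nat_lit 5) (nat_lit 328) (nat_lit 5) (nat_lit 645) (nat_lit 599) (nat_lit 316)) (XT.lf (nat_lit 0) (nat_lit 11658092854) (nat_lit 684) (nat_lit 3676444355) (nat_lit 760) (nat_lit 16798895608) (nat_lit 318) (nat_lit 5) (nat_lit 327) (nat_lit 5) (nat_lit 328) (nat_lit 5) (nat_lit 646) (nat_lit 599) (nat_lit 315))) (XT.nd (nat_lit 78) (nat_lit 684) (nat_lit 0) (XT.lf (nat_lit 0) (nat_lit 20187554433) (nat_lit 760) (nat_lit 2436398458) (nat_lit 76) (nat_lit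 9877748248) (nat_lit 318) (nat_lit 5) (nat_lit 328) (nat_lit 5) (nat_lit 319) (nat_lit 5) (nat_lit 647) (nat_lit 599) (nat_lit 314)) (XT.lf (nat_lit 0) (nat_lit 16148355190) (nat_lit 684) (nat_lit 9116407813) (nat_lit 760) (nat_lit 7610029359) (nat_lit 309) (nat_lit 5) (nat_lit 318) (nat_lit 5) (nat_lit 319) (nat_lit 5) (nat_lit 648) (nat_lit 599) (nat_lit 313))))))))
noncomputable def xc227 : XT := (XT.nd (nat_lit 78312) (nat_lit 0) (nat_lit 9956) (XT.nd (nat_lit 1014) (nat_lit 1140) (nat_lit 0) (XT.nd (nat_lit 468) (nat_lit 2432) (nat_lit 0) (XT.nd (nat_lit 234) (nat_lit 608) (nat_lit 0) (XT.nd (nat_lit 78) (nat_lit 760) (nat_lit 0) (XT.lf (nat_lit 0) (nat_lit 1874593997) (nat_lit 608) (nat_lit 28625775275) (nat_lit 684) (nat_lit 2753839218) (nat_lit 301) (nat_lit 5) (nat_lit 309) (nat_lit 5) (nat_lit 310) (nat_lit 5) (nat_lit 649) (nat_lit 599) (nat_lit 312)) (XT.nd (nat_lit 78) (nat_lit 684) (nat_lit 0) (XT.lf (nat_lit 0) (nat_lit 2341959585) (nat_lit 684)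 (nat_lit 12642430193) (nat_lit 76) (nat_lit 18653111071) (nat_lit 300) (nat_lit 5) (nat_lit 309) (nat_lit 5) (nat_lit 301) (nat_lit 5) (nat_lit 650) (nat_lit 599) (nat_lit 311)) (XT.lf (nat_lit 0) (nat_lit 6534568545) (nat_lit 684) (nat_lit 1008704188) (nat_lit 760) (nat_lit 26484012964) (nat_lit 291) (nat_lit 5) (nat_lit 300) (nat_lit 5) (nat_lit 301) (nat_lit 5) (nat_lit 651) (nat_lit 599) (nat_lit 310)))) (XT.nd (nat_lit 78) (nat_lit 608) (nat_lit 0) (XT.lf (nat_lit 0) (nat_lit 13018048308) (nat_lit 760) (nat_lit 8245672596) (nat_lit 76) (nat_lit 13157756755) (nat_lit 291) (nat_lit 5) (nat_lit 301) (nat_lit 5) (nat_lit 292) (nat_lit 5) (nat_lit 652) (nat_lit 599) (nat_lit 309)) (XT.nd (nat_lit 78) (nat_lit 0) (nat_lit 0) (XT.lf (nat_lit 0) (nat_lit 11528462947) (nat_lit 608) (nat_lit 7153457556) (nat_lit 684) (nat_lit 16140041072) (nat_lit 283) (nat_lit 5) (nat_lit 291) (nat_lit 5) (nat_lit 292) (nat_lit 5) (nat_lit 653) (nat_lit 599) (nat_lit 308)) (XT.lf (nat_lit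 0) (nat_lit 24559860043) (nat_lit 684) (nat_lit 3469249368) (nat_lit 76) (nat_lit 7199330094) (nat_lit 283) (nat_lit 5) (nat_lit 292) (nat_lit 5) (nat_lit 284) (nat_lit 5) (nat_lit 654) (nat_lit 599) (nat_lit 307))))) (XT.nd (nat_lit 234) (nat_lit 1140) (nat_lit 0) (XT.nd (nat_lit 78) (nat_lit 684) (nat_lit 0) (XT.lf (nat_lit 0) (nat_lit 16923728120) (nat_lit 608) (nat_lit 13787011853) (nat_lit 684) (nat_lit 4929199522) (nat_lit 275) (nat_lit 5) (nat_lit 283) (nat_lit 5) (nat_lit 284) (nat_lit 5) (nat_lit 655) (nat_lit 599) (nat_lit 306)) (XT.nd (nat_lit 78) (nat_lit 0) (nat_lit 0) (XT.lf (nat_lit 0) (nat_lit 950688301) (nat_lit 684) (nat_lit 34337442278) (nat_lit 76) (nat_lit 770661894) (nat_lit 266) (nat_lit 5) (nat_lit 275) (nat_lit 5) (nat_lit 267) (nat_lit 5) (nat_lit 656) (nat_lit 599) (nat_lit 305)) (XT.lf (nat_lit 0) (nat_lit 7098120745) (nat_lit 684) (nat_lit 13789292998) (nat_lit 76) (nat_lit 15593638275) (nat_lit 266) (nat_lit 5) (nat_lit 275) (nat_lit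 5) (nat_lit 267) (nat_lit 5) (nat_lit 657) (nat_lit 599) (nat_lit 304)))) (XT.nd (nat_lit 156) (nat_lit 532) (nat_lit 0) (XT.nd (nat_lit 78) (nat_lit 0) (nat_lit 0) (XT.lf (nat_lit 0) (nat_lit 7262749583) (nat_lit 608) (nat_lit 6151098064) (nat_lit 684) (nat_lit 23497002313) (nat_lit 258) (nat_lit 5) (nat_lit 266) (nat_lit 5) (nat_lit 267) (nat_lit 5) (nat_lit 658) (nat_lit 599) (nat_lit 303)) (XT.lf (nat_lit 0) (nat_lit 20004898138) (nat_lit 684) (nat_lit 8485249164) (nat_lit 76) (nat_lit 8856116497) (nat_lit 258) (nat_lit 5) (nat_lit 267) (nat_lit 5) (nat_lit 259) (nat_lit 5) (nat_lit 659) (nat_lit 599) (nat_lit 302))) (XT.nd (nat_lit 78) (nat_lit 0) (nat_lit 0) (XT.lf (nat_lit 0) (nat_lit 13231361684) (nat_lit 532) (nat_lit 13621293956) (nat_lit 608) (nat_lit 10935232673) (nat_lit 251) (nat_lit 5) (nat_lit 258) (nat_lit 5) (nat_lit 259) (nat_lit 5) (nat_lit 660) (nat_lit 599) (nat_lit 301)) (XT.lf (nat_lit 0) (nat_lit 33902976233) (nat_lit 608) (nat_lit 2752599391)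 (nat_lit 76) (nat_lit 1581457649) (nat_lit 251) (nat_lit 5) (nat_lit 259) (nat_lit 5) (nat_lit 252) (nat_lit 5) (nat_lit 661) (nat_lit 599) (nat_lit 300)))))) (XT.nd (nat_lit 76752) (nat_lit 0) (nat_lit 17556) (XT.nd (nat_lit 76440) (nat_lit 0) (nat_lit 19152) (XT.nd (nat_lit 78) (nat_lit 532) (nat_lit 0) (XT.lf (nat_lit 0) (nat_lit 2585207170) (nat_lit 608) (nat_lit 19055163872) (nat_lit 76) (nat_lit 17050128059) (nat_lit 243) (nat_lit 5) (nat_lit 251) (nat_lit 5) (nat_lit 244) (nat_lit 5) (nat_lit 662) (nat_lit 599) (nat_lit 299)) (XT.nd (nat_lit 76284) (nat_lit 0) (nat_lit 19152) (XT.lf (nat_lit 0) (nat_lit 3368761072) (nat_lit 532) (nat_lit 6254884071) (nat_lit 608) (nat_lit 29528039819) (nat_lit 236) (nat_lit 5) (nat_lit 243) (nat_lit 5) (nat_lit 244) (nat_lit 5) (nat_lit 663) (nat_lit 599) (nat_lit 298)) (XT.lf (nat_lit 0) (nat_lit 4219375753) (nat_lit 0) (nat_lit 4219375753) (nat_lit 1748) (nat_lit 1520795960) (nat_lit 488) (nat_lit 5) (nat_lit 488) (nat_lit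 3) (nat_lit 511) (nat_lit 3) (nat_lit 600) (nat_lit 600) (nat_lit 360)))) (XT.nd (nat_lit 156) (nat_lit 0) (nat_lit 76) (XT.nd (nat_lit 78) (nat_lit 0) (nat_lit 0) (XT.lf (nat_lit 0) (nat_lit 17220842394) (nat_lit 1748) (nat_lit 1647651686) (nat_lit 1824) (nat_lit 1246284945) (nat_lit 488) (nat_lit 5) (nat_lit 511) (nat_lit 3) (nat_lit 512) (nat_lit 5) (nat_lit 601) (nat_lit 600) (nat_lit 359)) (XT.lf (nat_lit 76) (nat_lit 8434139617) (nat_lit 0) (nat_lit 9243205094) (nat_lit 1824) (nat_lit 2634906571) (nat_lit 489) (nat_lit 5) (nat_lit 488) (nat_lit 5) (nat_lit 512) (nat_lit 5) (nat_lit 602) (nat_lit 600) (nat_lit 358))) (XT.nd (nat_lit 78) (nat_lit 0) (nat_lit 0) (XT.lf (nat_lit 0) (nat_lit 18153571485) (nat_lit 1748) (nat_lit 1779722363) (nat_lit 1824) (nat_lit 580167648) (nat_lit 489) (nat_lit 5) (nat_lit 512) (nat_lit 5) (nat_lit 513) (nat_lit 5) (nat_lit 603) (nat_lit 600) (nat_lit 357)) (XT.lf (nat_lit 76) (nat_lit 8569490511) (nat_lit 0) (nat_lit 10182501985)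 (nat_lit 1824) (nat_lit 1964450419) (nat_lit 490) (nat_lit 5) (nat_lit 489) (nat_lit 5) (nat_lit 513) (nat_lit 5) (nat_lit 604) (nat_lit 600) (nat_lit 356))))) (XT.nd (nat_lit 234) (nat_lit 1672) (nat_lit 0) (XT.nd (nat_lit 78) (nat_lit 0) (nat_lit 76) (XT.lf (nat_lit 76) (nat_lit 19147506179) (nat_lit 0) (nat_lit 222703265) (nat_lit 1824) (nat_lit 1553118352) (nat_lit 490) (nat_lit 5) (nat_lit 489) (nat_lit 5) (nat_lit 513) (nat_lit 5) (nat_lit 605) (nat_lit 600) (nat_lit 355)) (XT.nd (nat_lit 78) (nat_lit 0) (nat_lit 0) (XT.lf (nat_lit 76) (nat_lit 8851960402) (nat_lit 0) (nat_lit 11266792975) (nat_lit 1824) (nat_lit 1013238122) (nat_lit 491) (nat_lit 5) (nat_lit 490) (nat_lit 5) (nat_lit 514) (nat_lit 5) (nat_lit 606) (nat_lit 600) (nat_lit 354)) (XT.lf (nat_lit 76) (nat_lit 19712537377) (nat_lit 0) (nat_lit 1179153219) (nat_lit 1824) (nat_lit 452949800) (nat_lit 491) (nat_lit 5) (nat_lit 490) (nat_lit 5) (nat_lit 514) (nat_lit 5) (nat_lit 607) (nat_lit 600)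 (nat_lit 353)))) (XT.nd (nat_lit 156) (nat_lit 0) (nat_lit 76) (XT.nd (nat_lit 78) (nat_lit 0) (nat_lit 0) (XT.lf (nat_lit 0) (nat_lit 233343800) (nat_lit 1824) (nat_lit 12271684573) (nat_lit 1900) (nat_lit 9054171778) (nat_lit 467) (nat_lit 5) (nat_lit 491) (nat_lit 5) (nat_lit 492) (nat_lit 5) (nat_lit 608) (nat_lit 600) (nat_lit 352)) (XT.lf (nat_lit 0) (nat_lit 942301193) (nat_lit 1824) (nat_lit 1343479188) (nat_lit 1900) (nat_lit 19491911129) (nat_lit 467) (nat_lit 5) (nat_lit 491) (nat_lit 5) (nat_lit 492) (nat_lit 5) (nat_lit 609) (nat_lit 600) (nat_lit 351))) (XT.nd (nat_lit 78) (nat_lit 0) (nat_lit 0) (XT.lf (nat_lit 0) (nat_lit 1779428587) (nat_lit 1824) (nat_lit 12121440408) (nat_lit 1900) (nat_lit 8097404226) (nat_lit 468) (nat_lit 5) (nat_lit 492) (nat_lit 5) (nat_lit 493) (nat_lit 5) (nat_lit 610) (nat_lit 600) (nat_lit 350)) (XT.lf (nat_lit 0) (nat_lit 2653817252) (nat_lit 1824) (nat_lit 900957615) (nat_lit 1900) (nat_lit 18668081660) (nat_lit 468)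 (nat_lit 5) (nat_lit 492) (nat_lit 5) (nat_lit 493) (nat_lit 5) (nat_lit 611) (nat_lit 600) (nat_lit 349))))))) (XT.nd (nat_lit 1092) (nat_lit 6384) (nat_lit 0) (XT.nd (nat_lit 546) (nat_lit 1368) (nat_lit 0) (XT.nd (nat_lit 234) (nat_lit 0) (nat_lit 76) (XT.nd (nat_lit 78) (nat_lit 0) (nat_lit 0) (XT.lf (nat_lit 0) (nat_lit 3657328862) (nat_lit 1824) (nat_lit 11814883831) (nat_lit 1900) (nat_lit 6977486431) (nat_lit 469) (nat_lit 5) (nat_lit 493) (nat_lit 5) (nat_lit 494) (nat_lit 5) (nat_lit 612) (nat_lit 600) (nat_lit 348)) (XT.nd (nat_lit 78) (nat_lit 0) (nat_lit 76) (XT.lf (nat_lit 0) (nat_lit 4706979930) (nat_lit 1824) (nat_lit 293475081) (nat_lit 1900) (nat_lit 17680102501) (nat_lit 469) (nat_lit 5) (nat_lit 493) (nat_lit 5) (nat_lit 494) (nat_lit 5) (nat_lit 613) (nat_lit 600) (nat_lit 347)) (XT.lf (nat_lit 0) (nat_lit 5886892949) (nat_lit 1824) (nat_lit 11343783709) (nat_lit 1900) (nat_lit 5683171345) (nat_lit 470) (nat_lit 5) (nat_lit 494) (nat_lit 5)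 (nat_lit 495) (nat_lit 5) (nat_lit 614) (nat_lit 600) (nat_lit 346)))) (XT.nd (nat_lit 156) (nat_lit 0) (nat_lit 76) (XT.nd (nat_lit 78) (nat_lit 0) (nat_lit 76) (XT.lf (nat_lit 76) (nat_lit 493973453) (nat_lit 0) (nat_lit 6631307186) (nat_lit 1900) (nat_lit 16025826447) (nat_lit 471) (nat_lit 5) (nat_lit 470) (nat_lit 5) (nat_lit 495) (nat_lit 5) (nat_lit 615) (nat_lit 600) (nat_lit 345)) (XT.lf (nat_lit 0) (nat_lit 8488831192) (nat_lit 1824) (nat_lit 10699500751) (nat_lit 1900) (nat_lit 4202771809) (nat_lit 471) (nat_lit 5) (nat_lit 495) (nat_lit 5) (nat_lit 496) (nat_lit 5) (nat_lit 616) (nat_lit 600) (nat_lit 344))) (XT.nd (nat_lit 78) (nat_lit 0) (nat_lit 76) (XT.lf (nat_lit 76) (nat_lit 1470178136) (nat_lit 0) (nat_lit 8459630608) (nat_lit 1900) (nat_lit 13705088785) (nat_lit 472) (nat_lit 5) (nat_lit 471) (nat_lit 5) (nat_lit 496) (nat_lit 5) (nat_lit 617) (nat_lit 600) (nat_lit 343)) (XT.lf (nat_lit 0) (nat_lit 11484754827) (nat_lit 1824) (nat_lit 9872973720)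 (nat_lit 1900) (nat_lit 2524135946) (nat_lit 472) (nat_lit 5) (nat_lit 496) (nat_lit 5) (nat_lit 497) (nat_lit 5) (nat_lit 618) (nat_lit 600) (nat_lit 342))))) (XT.nd (nat_lit 234) (nat_lit 1596) (nat_lit 0) (XT.nd (nat_lit 78) (nat_lit 0) (nat_lit 76) (XT.lf (nat_lit 76) (nat_lit 2640739425) (nat_lit 0) (nat_lit 10500042368) (nat_lit 1900) (nat_lit 10991589650) (nat_lit 473) (nat_lit 5) (nat_lit 472) (nat_lit 5) (nat_lit 497) (nat_lit 5) (nat_lit 619) (nat_lit 600) (nat_lit 341)) (XT.nd (nat_lit 78) (nat_lit 0) (nat_lit 0) (XT.lf (nat_lit 0) (nat_lit 14897216303) (nat_lit 1824) (nat_lit 8854705002) (nat_lit 1900) (nat_lit 634621769) (nat_lit 473) (nat_lit 5) (nat_lit 497) (nat_lit 5) (nat_lit 498) (nat_lit 5) (nat_lit 620) (nat_lit 600) (nat_lit 340)) (XT.lf (nat_lit 76) (nat_lit 4015610493) (nat_lit 0) (nat_lit 12765702647) (nat_lit 1900) (nat_lit 7862634599) (nat_lit 474) (nat_lit 5) (nat_lit 473) (nat_lit 5) (nat_lit 498) (nat_lit 5) (nat_lit 621) (nat_lit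 600) (nat_lit 339)))) (XT.nd (nat_lit 156) (nat_lit 1672) (nat_lit 0) (XT.nd (nat_lit 78) (nat_lit 0) (nat_lit 76) (XT.lf (nat_lit 76) (nat_lit 17260897650) (nat_lit 0) (nat_lit 1498583228) (nat_lit 1900) (nat_lit 6145892109) (nat_lit 474) (nat_lit 5) (nat_lit 473) (nat_lit 5) (nat_lit 498) (nat_lit 5) (nat_lit 622) (nat_lit 600) (nat_lit 338)) (XT.lf (nat_lit 76) (nat_lit 5605212766) (nat_lit 0) (nat_lit 15270311130) (nat_lit 1900) (nat_lit 4294536869) (nat_lit 475) (nat_lit 5) (nat_lit 474) (nat_lit 5) (nat_lit 499) (nat_lit 5) (nat_lit 623) (nat_lit 600) (nat_lit 337))) (XT.nd (nat_lit 78) (nat_lit 1748) (nat_lit 0) (XT.lf (nat_lit 76) (nat_lit 19210999997) (nat_lit 0) (nat_lit 3881119821) (nat_lit 1900) (nat_lit 2346758100) (nat_lit 475) (nat_lit 5) (nat_lit 474) (nat_lit 5) (nat_lit 499) (nat_lit 5) (nat_lit 624) (nat_lit 600) (nat_lit 336)) (XT.lf (nat_lit 0) (nat_lit 7420452279) (nat_lit 1824) (nat_lit 18028134988) (nat_lit 1900) (nat_lit 262573609) (nat_lit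 451) (nat_lit 5) (nat_lit 475) (nat_lit 5) (nat_lit 476) (nat_lit 5) (nat_lit 625) (nat_lit 600) (nat_lit 335)))))) (XT.nd (nat_lit 546) (nat_lit 2584) (nat_lit 0) (XT.nd (nat_lit 234) (nat_lit 2660) (nat_lit 0) (XT.nd (nat_lit 78) (nat_lit 1064) (nat_lit 0) (XT.lf (nat_lit 0) (nat_lit 1903785096) (nat_lit 1900) (nat_lit 4602456639) (nat_lit 76) (nat_lit 19481107487) (nat_lit 450) (nat_lit 5) (nat_lit 475) (nat_lit 5) (nat_lit 451) (nat_lit 5) (nat_lit 626) (nat_lit 600) (nat_lit 334)) (XT.nd (nat_lit 78) (nat_lit 0) (nat_lit 0) (XT.lf (nat_lit 0) (nat_lit 4203201197) (nat_lit 1140) (nat_lit 16822630931) (nat_lit 76) (nat_lit 5241329812) (nat_lit 436) (nat_lit 5) (nat_lit 451) (nat_lit 5) (nat_lit 437) (nat_lit 5) (nat_lit 627) (nat_lit 600) (nat_lit 333)) (XT.lf (nat_lit 0) (nat_lit 6620035560) (nat_lit 1140) (nat_lit 2762887097) (nat_lit 76) (nat_lit 17168219893) (nat_lit 436) (nat_lit 5) (nat_lit 451) (nat_lit 5) (nat_lit 437) (nat_lit 5) (nat_lit 628) (nat_lit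 600) (nat_lit 332)))) (XT.nd (nat_lit 156) (nat_lit 1748) (nat_lit 0) (XT.nd (nat_lit 78) (nat_lit 0) (nat_lit 0) (XT.lf (nat_lit 0) (nat_lit 9175359824) (nat_lit 988) (nat_lit 15126578341) (nat_lit 76) (nat_lit 2537061772) (nat_lit 424) (nat_lit 5) (nat_lit 437) (nat_lit 5) (nat_lit 425) (nat_lit 5) (nat_lit 629) (nat_lit 600) (nat_lit 331)) (XT.lf (nat_lit 0) (nat_lit 11859937611) (nat_lit 988) (nat_lit 682294503) (nat_lit 76) (nat_lit 14588819641) (nat_lit 424) (nat_lit 5) (nat_lit 437) (nat_lit 5) (nat_lit 425) (nat_lit 5) (nat_lit 630) (nat_lit 600) (nat_lit 330))) (XT.nd (nat_lit 78) (nat_lit 836) (nat_lit 0) (XT.lf (nat_lit 0) (nat_lit 14235142423) (nat_lit 912) (nat_lit 452885838) (nat_lit 988) (nat_lit 12739120146) (nat_lit 412) (nat_lit 5) (nat_lit 424) (nat_lit 5) (nat_lit 425) (nat_lit 5) (nat_lit 631) (nat_lit 600) (nat_lit 329)) (XT.lf (nat_lit 0) (nat_lit 1673431296) (nat_lit 836) (nat_lit 15989278478) (nat_lit 912) (nat_lit 10064656851) (nat_lit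 401) (nat_lit 5) (nat_lit 412) (nat_lit 5) (nat_lit 413) (nat_lit 5) (nat_lit 632) (nat_lit 600) (nat_lit 328))))) (XT.nd (nat_lit 234) (nat_lit 1748) (nat_lit 0) (XT.nd (nat_lit 78) (nat_lit 836) (nat_lit 0) (XT.lf (nat_lit 0) (nat_lit 17009509930) (nat_lit 836) (nat_lit 3776347908) (nat_lit 912) (nat_lit 7245952125) (nat_lit 401) (nat_lit 5) (nat_lit 412) (nat_lit 5) (nat_lit 413) (nat_lit 5) (nat_lit 633) (nat_lit 600) (nat_lit 327)) (XT.nd (nat_lit 78) (nat_lit 0) (nat_lit 0) (XT.lf (nat_lit 0) (nat_lit 4307650039) (nat_lit 836) (nat_lit 19745667000) (nat_lit 912) (nat_lit 4287388374) (nat_lit 390) (nat_lit 5) (nat_lit 401) (nat_lit 5) (nat_lit 402) (nat_lit 5) (nat_lit 634) (nat_lit 600) (nat_lit 326)) (XT.lf (nat_lit 0) (nat_lit 20065832386) (nat_lit 836) (nat_lit 7416653988) (nat_lit 912) (nat_lit 1171365383) (nat_lit 390) (nat_lit 5) (nat_lit 401) (nat_lit 5) (nat_lit 402) (nat_lit 5) (nat_lit 635) (nat_lit 600) (nat_lit 325)))) (XT.nd (nat_lit 156) (nat_lit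 836) (nat_lit 0) (XT.nd (nat_lit 78) (nat_lit 0) (nat_lit 0) (XT.lf (nat_lit 0) (nat_lit 2059174844) (nat_lit 912) (nat_lit 21760508697) (nat_lit 76) (nat_lit 5151746696) (nat_lit 378) (nat_lit 5) (nat_lit 390) (nat_lit 5) (nat_lit 379) (nat_lit 5) (nat_lit 636) (nat_lit 600) (nat_lit 324)) (XT.lf (nat_lit 0) (nat_lit 5443399355) (nat_lit 912) (nat_lit 5911661542) (nat_lit 76) (nat_lit 17938049568) (nat_lit 378) (nat_lit 5) (nat_lit 390) (nat_lit 5) (nat_lit 379) (nat_lit 5) (nat_lit 637) (nat_lit 600) (nat_lit 323))) (XT.nd (nat_lit 78) (nat_lit 0) (nat_lit 0) (XT.lf (nat_lit 0) (nat_lit 8969684425) (nat_lit 912) (nat_lit 19241192082) (nat_lit 76) (nat_lit 1408860457) (nat_lit 367) (nat_lit 5) (nat_lit 379) (nat_lit 5) (nat_lit 368) (nat_lit 5) (nat_lit 638) (nat_lit 600) (nat_lit 322)) (XT.lf (nat_lit 0) (nat_lit 12679318653) (nat_lit 912) (nat_lit 2955308785) (nat_lit 76) (nat_lit 14316012272) (nat_lit 367) (nat_lit 5) (nat_lit 379) (nat_lit 5) (nat_lit 368)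 (nat_lit 5) (nat_lit 639) (nat_lit 600) (nat_lit 321))))))))
noncomputable def xc228 : XT := (XT.nd (nat_lit 78390) (nat_lit 0) (nat_lit 13756) (XT.nd (nat_lit 1014) (nat_lit 3648) (nat_lit 0) (XT.nd (nat_lit 468) (nat_lit 2736) (nat_lit 0) (XT.nd (nat_lit 234) (nat_lit 1520) (nat_lit 0) (XT.nd (nat_lit 78) (nat_lit 760) (nat_lit 0) (XT.lf (nat_lit 0) (nat_lit 13835359157) (nat_lit 760) (nat_lit 2715351303) (nat_lit 836) (nat_lit 13735698933) (nat_lit 357) (nat_lit 5) (nat_lit 367) (nat_lit 5) (nat_lit 368) (nat_lit 5) (nat_lit 640) (nat_lit 600) (nat_lit 320)) (XT.nd (nat_lit 78) (nat_lit 0) (nat_lit 0) (XT.lf (nat_lit 0) (nat_lit 306954248) (nat_lit 760) (nat_lit 20280224752) (nat_lit 836) (nat_lit 10039962671) (nat_lit 347) (nat_lit 5) (nat_lit 357) (nat_lit 5) (nat_lit 358) (nat_lit 5) (nat_lit 641) (nat_lit 600) (nat_lit 319)) (XT.lf (nat_lit 0) (nat_lit 17602497060) (nat_lit 760) (nat_lit 7227932139) (nat_lit 836) (nat_lit 6141738523) (nat_lit 347) (nat_lit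 5) (nat_lit 357) (nat_lit 5) (nat_lit 358) (nat_lit 5) (nat_lit 642) (nat_lit 600) (nat_lit 318)))) (XT.nd (nat_lit 78) (nat_lit 836) (nat_lit 0) (XT.lf (nat_lit 0) (nat_lit 3929488045) (nat_lit 684) (nat_lit 25291914681) (nat_lit 760) (nat_lit 2101434572) (nat_lit 338) (nat_lit 5) (nat_lit 347) (nat_lit 5) (nat_lit 348) (nat_lit 5) (nat_lit 643) (nat_lit 600) (nat_lit 317)) (XT.nd (nat_lit 78) (nat_lit 760) (nat_lit 0) (XT.lf (nat_lit 0) (nat_lit 2129213506) (nat_lit 760) (nat_lit 9986847770) (nat_lit 76) (nat_lit 19561476365) (nat_lit 337) (nat_lit 5) (nat_lit 347) (nat_lit 5) (nat_lit 338) (nat_lit 5) (nat_lit 644) (nat_lit 600) (nat_lit 316)) (XT.lf (nat_lit 0) (nat_lit 6474269346) (nat_lit 836) (nat_lit 24192575406) (nat_lit 76) (nat_lit 1371050928) (nat_lit 327) (nat_lit 5) (nat_lit 338) (nat_lit 5) (nat_lit 328) (nat_lit 5) (nat_lit 645) (nat_lit 600) (nat_lit 315))))) (XT.nd (nat_lit 234) (nat_lit 2052) (nat_lit 0) (XT.nd (nat_lit 78) (nat_lit 684) (nat_lit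 0) (XT.lf (nat_lit 0) (nat_lit 11051840287) (nat_lit 836) (nat_lit 6317681435) (nat_lit 76) (nat_lit 15033027036) (nat_lit 327) (nat_lit 5) (nat_lit 338) (nat_lit 5) (nat_lit 328) (nat_lit 5) (nat_lit 646) (nat_lit 600) (nat_lit 314)) (XT.nd (nat_lit 78) (nat_lit 0) (nat_lit 0) (XT.lf (nat_lit 0) (nat_lit 12070682044) (nat_lit 684) (nat_lit 3726606714) (nat_lit 760) (nat_lit 16975679773) (nat_lit 318) (nat_lit 5) (nat_lit 327) (nat_lit 5) (nat_lit 328) (nat_lit 5) (nat_lit 647) (nat_lit 600) (nat_lit 313)) (XT.lf (nat_lit 0) (nat_lit 20744455047) (nat_lit 760) (nat_lit 2306294502) (nat_lit 76) (nat_lit 10097911126) (nat_lit 318) (nat_lit 5) (nat_lit 328) (nat_lit 5) (nat_lit 319) (nat_lit 5) (nat_lit 648) (nat_lit 600) (nat_lit 312)))) (XT.nd (nat_lit 156) (nat_lit 760) (nat_lit 0) (XT.nd (nat_lit 78) (nat_lit 608) (nat_lit 0) (XT.lf (nat_lit 0) (nat_lit 16648977693) (nat_lit 684) (nat_lit 9272380620) (nat_lit 760) (nat_lit 7607892624) (nat_lit 309) (nat_lit 5)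 (nat_lit 318) (nat_lit 5) (nat_lit 319) (nat_lit 5) (nat_lit 649) (nat_lit 600) (nat_lit 311)) (XT.lf (nat_lit 0) (nat_lit 2091419789) (nat_lit 608) (nat_lit 29168622367) (nat_lit 684) (nat_lit 2656246144) (nat_lit 301) (nat_lit 5) (nat_lit 309) (nat_lit 5) (nat_lit 310) (nat_lit 5) (nat_lit 650) (nat_lit 600) (nat_lit 310))) (XT.nd (nat_lit 78) (nat_lit 684) (nat_lit 0) (XT.lf (nat_lit 0) (nat_lit 2536512077) (nat_lit 684) (nat_lit 12717487583) (nat_lit 76) (nat_lit 19053286320) (nat_lit 300) (nat_lit 5) (nat_lit 309) (nat_lit 5) (nat_lit 301) (nat_lit 5) (nat_lit 651) (nat_lit 600) (nat_lit 309)) (XT.lf (nat_lit 0) (nat_lit 6841881451) (nat_lit 684) (nat_lit 998220442) (nat_lit 760) (nat_lit 26864799832) (nat_lit 291) (nat_lit 5) (nat_lit 300) (nat_lit 5) (nat_lit 301) (nat_lit 5) (nat_lit 652) (nat_lit 600) (nat_lit 308)))))) (XT.nd (nat_lit 546) (nat_lit 1140) (nat_lit 0) (XT.nd (nat_lit 234) (nat_lit 1900) (nat_lit 0) (XT.nd (nat_lit 78) (nat_lit 608) (nat_lit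 0) (XT.lf (nat_lit 0) (nat_lit 13421706093) (nat_lit 760) (nat_lit 8234750587) (nat_lit 76) (nat_lit 13450574387) (nat_lit 291) (nat_lit 5) (nat_lit 301) (nat_lit 5) (nat_lit 292) (nat_lit 5) (nat_lit 653) (nat_lit 600) (nat_lit 307)) (XT.nd (nat_lit 78) (nat_lit 0) (nat_lit 0) (XT.lf (nat_lit 0) (nat_lit 11933710854) (nat_lit 608) (nat_lit 7263469266) (nat_lit 684) (nat_lit 16318378254) (nat_lit 283) (nat_lit 5) (nat_lit 291) (nat_lit 5) (nat_lit 292) (nat_lit 5) (nat_lit 654) (nat_lit 600) (nat_lit 306)) (XT.lf (nat_lit 0) (nat_lit 25190111987) (nat_lit 684) (nat_lit 3364804503) (nat_lit 76) (nat_lit 7375300899) (nat_lit 283) (nat_lit 5) (nat_lit 292) (nat_lit 5) (nat_lit 284) (nat_lit 5) (nat_lit 655) (nat_lit 600) (nat_lit 305)))) (XT.nd (nat_lit 156) (nat_lit 608) (nat_lit 0) (XT.nd (nat_lit 78) (nat_lit 684) (nat_lit 0) (XT.lf (nat_lit 0) (nat_lit 17434888918) (nat_lit 608) (nat_lit 14027515229) (nat_lit 684) (nat_lit 4887575532) (nat_lit 275) (nat_lit 5)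 (nat_lit 283) (nat_lit 5) (nat_lit 284) (nat_lit 5) (nat_lit 656) (nat_lit 600) (nat_lit 304)) (XT.lf (nat_lit 0) (nat_lit 1106721474) (nat_lit 684) (nat_lit 34848297639) (nat_lit 76) (nat_lit 822199576) (nat_lit 266) (nat_lit 5) (nat_lit 275) (nat_lit 5) (nat_lit 267) (nat_lit 5) (nat_lit 657) (nat_lit 600) (nat_lit 303))) (XT.nd (nat_lit 78) (nat_lit 608) (nat_lit 0) (XT.lf (nat_lit 0) (nat_lit 7374415912) (nat_lit 684) (nat_lit 13892634265) (nat_lit 76) (nat_lit 15940927163) (nat_lit 266) (nat_lit 5) (nat_lit 275) (nat_lit 5) (nat_lit 267) (nat_lit 5) (nat_lit 658) (nat_lit 600) (nat_lit 302)) (XT.lf (nat_lit 0) (nat_lit 7579314664) (nat_lit 608) (nat_lit 6235620971) (nat_lit 684) (nat_lit 23831466217) (nat_lit 258) (nat_lit 5) (nat_lit 266) (nat_lit 5) (nat_lit 267) (nat_lit 5) (nat_lit 659) (nat_lit 600) (nat_lit 301))))) (XT.nd (nat_lit 234) (nat_lit 608) (nat_lit 0) (XT.nd (nat_lit 78) (nat_lit 532) (nat_lit 0) (XT.lf (nat_lit 0) (nat_lit 20535448058) (nat_lit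 684) (nat_lit 8484635290) (nat_lit 76) (nat_lit 9070487976) (nat_lit 258) (nat_lit 5) (nat_lit 267) (nat_lit 5) (nat_lit 259) (nat_lit 5) (nat_lit 660) (nat_lit 600) (nat_lit 300)) (XT.nd (nat_lit 78) (nat_lit 0) (nat_lit 0) (XT.lf (nat_lit 0) (nat_lit 13665187257) (nat_lit 532) (nat_lit 13853514119) (nat_lit 608) (nat_lit 11022356310) (nat_lit 251) (nat_lit 5) (nat_lit 258) (nat_lit 5) (nat_lit 259) (nat_lit 5) (nat_lit 661) (nat_lit 600) (nat_lit 299)) (XT.lf (nat_lit 0) (nat_lit 34707755037) (nat_lit 608) (nat_lit 2639488937) (nat_lit 76) (nat_lit 1651987204) (nat_lit 251) (nat_lit 5) (nat_lit 259) (nat_lit 5) (nat_lit 252) (nat_lit 5) (nat_lit 662) (nat_lit 600) (nat_lit 298)))) (XT.nd (nat_lit 76440) (nat_lit 0) (nat_lit 18620) (XT.nd (nat_lit 76362) (nat_lit 0) (nat_lit 18620) (XT.lf (nat_lit 0) (nat_lit 2763068572) (nat_lit 608) (nat_lit 19267526426) (nat_lit 76) (nat_lit 17431182891) (nat_lit 243) (nat_lit 5) (nat_lit 251) (nat_lit 5) (nat_lit 244) (nat_lit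 5) (nat_lit 663) (nat_lit 600) (nat_lit 297)) (XT.lf (nat_lit 0) (nat_lit 4386405745) (nat_lit 0) (nat_lit 4386405745) (nat_lit 1748) (nat_lit 1382605755) (nat_lit 488) (nat_lit 5) (nat_lit 488) (nat_lit 3) (nat_lit 511) (nat_lit 3) (nat_lit 601) (nat_lit 601) (nat_lit 358))) (XT.nd (nat_lit 78) (nat_lit 0) (nat_lit 0) (XT.lf (nat_lit 0) (nat_lit 17888295290) (nat_lit 1748) (nat_lit 1510996451) (nat_lit 1824) (nat_lit 1111291808) (nat_lit 488) (nat_lit 5) (nat_lit 511) (nat_lit 3) (nat_lit 512) (nat_lit 5) (nat_lit 602) (nat_lit 601) (nat_lit 357)) (XT.lf (nat_lit 76) (nat_lit 8771314834) (nat_lit 0) (nat_lit 9577372744) (nat_lit 1824) (nat_lit 2363423070) (nat_lit 489) (nat_lit 5) (nat_lit 488) (nat_lit 5) (nat_lit 512) (nat_lit 5) (nat_lit 603) (nat_lit 601) (nat_lit 356))))))) (XT.nd (nat_lit 1014) (nat_lit 3268) (nat_lit 0) (XT.nd (nat_lit 468) (nat_lit 0) (nat_lit 0) (XT.nd (nat_lit 234) (nat_lit 1672) (nat_lit 0) (XT.nd (nat_lit 78) (nat_lit 0) (nat_lit 0)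 (XT.lf (nat_lit 0) (nat_lit 18827257223) (nat_lit 1748) (nat_lit 1642917338) (nat_lit 1824) (nat_lit 447314722) (nat_lit 489) (nat_lit 5) (nat_lit 512) (nat_lit 5) (nat_lit 513) (nat_lit 5) (nat_lit 604) (nat_lit 601) (nat_lit 355)) (XT.nd (nat_lit 78) (nat_lit 0) (nat_lit 0) (XT.lf (nat_lit 76) (nat_lit 8912145587) (nat_lit 0) (nat_lit 10520522558) (nat_lit 1824) (nat_lit 1691962326) (nat_lit 490) (nat_lit 5) (nat_lit 489) (nat_lit 5) (nat_lit 513) (nat_lit 5) (nat_lit 605) (nat_lit 601) (nat_lit 354)) (XT.lf (nat_lit 76) (nat_lit 19698363426) (nat_lit 0) (nat_lit 358893148) (nat_lit 1824) (nat_lit 1278516894) (nat_lit 490) (nat_lit 5) (nat_lit 489) (nat_lit 5) (nat_lit 513) (nat_lit 5) (nat_lit 606) (nat_lit 601) (nat_lit 353)))) (XT.nd (nat_lit 78) (nat_lit 1748) (nat_lit 0) (XT.lf (nat_lit 76) (nat_lit 9202633043) (nat_lit 0) (nat_lit 11612551788) (nat_lit 1824) (nat_lit 733537894) (nat_lit 491) (nat_lit 5) (nat_lit 490) (nat_lit 5) (nat_lit 514) (nat_lit 5)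 (nat_lit 607) (nat_lit 601) (nat_lit 352)) (XT.nd (nat_lit 78) (nat_lit 1748) (nat_lit 0) (XT.lf (nat_lit 76) (nat_lit 20277016981) (nat_lit 0) (nat_lit 1320798003) (nat_lit 1824) (nat_lit 167925473) (nat_lit 491) (nat_lit 5) (nat_lit 490) (nat_lit 5) (nat_lit 514) (nat_lit 5) (nat_lit 608) (nat_lit 601) (nat_lit 351)) (XT.lf (nat_lit 0) (nat_lit 522937675) (nat_lit 1824) (nat_lit 12337680784) (nat_lit 1900) (nat_lit 9124041264) (nat_lit 467) (nat_lit 5) (nat_lit 491) (nat_lit 5) (nat_lit 492) (nat_lit 5) (nat_lit 609) (nat_lit 601) (nat_lit 350))))) (XT.nd (nat_lit 234) (nat_lit 0) (nat_lit 152) (XT.nd (nat_lit 78) (nat_lit 0) (nat_lit 76) (XT.lf (nat_lit 0) (nat_lit 1240487412) (nat_lit 1824) (nat_lit 1194429673) (nat_lit 1900) (nat_lit 19772716068) (nat_lit 467) (nat_lit 5) (nat_lit 491) (nat_lit 5) (nat_lit 492) (nat_lit 5) (nat_lit 610) (nat_lit 601) (nat_lit 349)) (XT.nd (nat_lit 78) (nat_lit 0) (nat_lit 0) (XT.lf (nat_lit 0) (nat_lit 2089363967) (nat_lit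 1824) (nat_lit 12182931845) (nat_lit 1900) (nat_lit 8160431052) (nat_lit 468) (nat_lit 5) (nat_lit 492) (nat_lit 5) (nat_lit 493) (nat_lit 5) (nat_lit 611) (nat_lit 601) (nat_lit 348)) (XT.lf (nat_lit 0) (nat_lit 2975861055) (nat_lit 1824) (nat_lit 741587188) (nat_lit 1900) (nat_lit 18944461668) (nat_lit 468) (nat_lit 5) (nat_lit 492) (nat_lit 5) (nat_lit 493) (nat_lit 5) (nat_lit 612) (nat_lit 601) (nat_lit 347)))) (XT.nd (nat_lit 156) (nat_lit 0) (nat_lit 76) (XT.nd (nat_lit 78) (nat_lit 0) (nat_lit 0) (XT.lf (nat_lit 0) (nat_lit 3994737831) (nat_lit 1824) (nat_lit 11869062942) (nat_lit 1900) (nat_lit 7029583167) (nat_lit 469) (nat_lit 5) (nat_lit 493) (nat_lit 5) (nat_lit 494) (nat_lit 5) (nat_lit 613) (nat_lit 601) (nat_lit 346)) (XT.lf (nat_lit 0) (nat_lit 5060200305) (nat_lit 1824) (nat_lit 120796969) (nat_lit 1900) (nat_lit 17947966322) (nat_lit 469) (nat_lit 5) (nat_lit 493) (nat_lit 5) (nat_lit 494) (nat_lit 5) (nat_lit 614) (nat_lit 601) (nat_lit 345)))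 (XT.nd (nat_lit 78) (nat_lit 0) (nat_lit 0) (XT.lf (nat_lit 0) (nat_lit 6259278197) (nat_lit 1824) (nat_lit 11387655391) (nat_lit 1900) (nat_lit 5720075437) (nat_lit 470) (nat_lit 5) (nat_lit 494) (nat_lit 5) (nat_lit 495) (nat_lit 5) (nat_lit 615) (nat_lit 601) (nat_lit 344)) (XT.lf (nat_lit 76) (nat_lit 685652940) (nat_lit 0) (nat_lit 6832967980) (nat_lit 1900) (nat_lit 16090469074) (nat_lit 471) (nat_lit 5) (nat_lit 470) (nat_lit 5) (nat_lit 495) (nat_lit 5) (nat_lit 616) (nat_lit 601) (nat_lit 343)))))) (XT.nd (nat_lit 546) (nat_lit 3572) (nat_lit 0) (XT.nd (nat_lit 234) (nat_lit 0) (nat_lit 76) (XT.nd (nat_lit 78) (nat_lit 0) (nat_lit 0) (XT.lf (nat_lit 0) (nat_lit 8904084727) (nat_lit 1824) (nat_lit 10729875599) (nat_lit 1900) (nat_lit 4220033864) (nat_lit 471) (nat_lit 5) (nat_lit 495) (nat_lit 5) (nat_lit 496) (nat_lit 5) (nat_lit 617) (nat_lit 601) (nat_lit 342)) (XT.nd (nat_lit 78) (nat_lit 0) (nat_lit 76) (XT.lf (nat_lit 76) (nat_lit 1681988871) (nat_lit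 0) (nat_lit 8688263995) (nat_lit 1900) (nat_lit 13732483990) (nat_lit 472) (nat_lit 5) (nat_lit 471) (nat_lit 5) (nat_lit 496) (nat_lit 5) (nat_lit 618) (nat_lit 601) (nat_lit 341)) (XT.lf (nat_lit 0) (nat_lit 11951177393) (nat_lit 1824) (nat_lit 9886460915) (nat_lit 1900) (nat_lit 2517107686) (nat_lit 472) (nat_lit 5) (nat_lit 496) (nat_lit 5) (nat_lit 497) (nat_lit 5) (nat_lit 619) (nat_lit 601) (nat_lit 340)))) (XT.nd (nat_lit 156) (nat_lit 0) (nat_lit 76) (XT.nd (nat_lit 78) (nat_lit 0) (nat_lit 76) (XT.lf (nat_lit 76) (nat_lit 2876316149) (nat_lit 0) (nat_lit 10760553646) (nat_lit 1900) (nat_lit 10973462807) (nat_lit 473) (nat_lit 5) (nat_lit 472) (nat_lit 5) (nat_lit 497) (nat_lit 5) (nat_lit 620) (nat_lit 601) (nat_lit 339)) (XT.lf (nat_lit 0) (nat_lit 15423537510) (nat_lit 1824) (nat_lit 8847704834) (nat_lit 1900) (nat_lit 598443639) (nat_lit 473) (nat_lit 5) (nat_lit 497) (nat_lit 5) (nat_lit 498) (nat_lit 5) (nat_lit 621) (nat_lit 601) (nat_lit 338)))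 (XT.nd (nat_lit 78) (nat_lit 0) (nat_lit 0) (XT.lf (nat_lit 76) (nat_lit 4278805823) (nat_lit 0) (nat_lit 13063219880) (nat_lit 1900) (nat_lit 7790279249) (nat_lit 474) (nat_lit 5) (nat_lit 473) (nat_lit 5) (nat_lit 498) (nat_lit 5) (nat_lit 622) (nat_lit 601) (nat_lit 337)) (XT.lf (nat_lit 76) (nat_lit 17785412780) (nat_lit 0) (nat_lit 1569930560) (nat_lit 1900) (nat_lit 6043704028) (nat_lit 474) (nat_lit 5) (nat_lit 473) (nat_lit 5) (nat_lit 498) (nat_lit 5) (nat_lit 623) (nat_lit 601) (nat_lit 336))))) (XT.nd (nat_lit 234) (nat_lit 2052) (nat_lit 0) (XT.nd (nat_lit 78) (nat_lit 1748) (nat_lit 0) (XT.lf (nat_lit 76) (nat_lit 5900105397) (nat_lit 0) (nat_lit 15610198316) (nat_lit 1900) (nat_lit 4158793644) (nat_lit 475) (nat_lit 5) (nat_lit 474) (nat_lit 5) (nat_lit 499) (nat_lit 5) (nat_lit 624) (nat_lit 601) (nat_lit 335)) (XT.nd (nat_lit 78) (nat_lit 1748) (nat_lit 0) (XT.lf (nat_lit 76) (nat_lit 19774424287) (nat_lit 0) (nat_lit 3992547083) (nat_lit 1900)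 (nat_lit 2176405064) (nat_lit 475) (nat_lit 5) (nat_lit 474) (nat_lit 5) (nat_lit 499) (nat_lit 5) (nat_lit 625) (nat_lit 601) (nat_lit 334)) (XT.lf (nat_lit 0) (nat_lit 7751355570) (nat_lit 1824) (nat_lit 18416005641) (nat_lit 1900) (nat_lit 53808348) (nat_lit 451) (nat_lit 5) (nat_lit 475) (nat_lit 5) (nat_lit 476) (nat_lit 5) (nat_lit 626) (nat_lit 601) (nat_lit 333)))) (XT.nd (nat_lit 156) (nat_lit 912) (nat_lit 0) (XT.nd (nat_lit 78) (nat_lit 1064) (nat_lit 0) (XT.lf (nat_lit 0) (nat_lit 2148929293) (nat_lit 1900) (nat_lit 4512820241) (nat_lit 76) (nat_lit 19841187529) (nat_lit 450) (nat_lit 5) (nat_lit 475) (nat_lit 5) (nat_lit 451) (nat_lit 5) (nat_lit 627) (nat_lit 601) (nat_lit 332)) (XT.lf (nat_lit 0) (nat_lit 4491291601) (nat_lit 1140) (nat_lit 16974338480) (nat_lit 76) (nat_lit 5322777146) (nat_lit 436) (nat_lit 5) (nat_lit 451) (nat_lit 5) (nat_lit 437) (nat_lit 5) (nat_lit 628) (nat_lit 601) (nat_lit 331))) (XT.nd (nat_lit 78) (nat_lit 912) (nat_lit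 0) (XT.lf (nat_lit 0) (nat_lit 6952462134) (nat_lit 1140) (nat_lit 2637022222) (nat_lit 76) (nat_lit 17488663445) (nat_lit 436) (nat_lit 5) (nat_lit 451) (nat_lit 5) (nat_lit 437) (nat_lit 5) (nat_lit 629) (nat_lit 601) (nat_lit 330)) (XT.lf (nat_lit 0) (nat_lit 9556026450) (nat_lit 988) (nat_lit 15245104110) (nat_lit 76) (nat_lit 2570689440) (nat_lit 424) (nat_lit 5) (nat_lit 437) (nat_lit 5) (nat_lit 425) (nat_lit 5) (nat_lit 630) (nat_lit 601) (nat_lit 329))))))))
noncomputable def xc229 : XT := (XT.nd (nat_lit 2106) (nat_lit 1824) (nat_lit 0) (XT.nd (nat_lit 1014) (nat_lit 5472) (nat_lit 0) (XT.nd (nat_lit 468) (nat_lit 3268) (nat_lit 0) (XT.nd (nat_lit 234) (nat_lit 836) (nat_lit 0) (XT.nd (nat_lit 78) (nat_lit 1748) (nat_lit 0) (XT.lf (nat_lit 0) (nat_lit 12290429921) (nat_lit 988) (nat_lit 515542552) (nat_lit 76) (nat_lit 14863818027) (nat_lit 424) (nat_lit 5) (nat_lit 437) (nat_lit 5) (nat_lit 425) (nat_lit 5) (nat_lit 631) (nat_lit 601) (nat_lit 328))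 (XT.nd (nat_lit 78) (nat_lit 836) (nat_lit 0) (XT.lf (nat_lit 0) (nat_lit 14699056285) (nat_lit 912) (nat_lit 473399586) (nat_lit 988) (nat_lit 12799406066) (nat_lit 412) (nat_lit 5) (nat_lit 424) (nat_lit 5) (nat_lit 425) (nat_lit 5) (nat_lit 632) (nat_lit 601) (nat_lit 327)) (XT.lf (nat_lit 0) (nat_lit 1888810050) (nat_lit 836) (nat_lit 16315190555) (nat_lit 912) (nat_lit 10074136839) (nat_lit 401) (nat_lit 5) (nat_lit 412) (nat_lit 5) (nat_lit 413) (nat_lit 5) (nat_lit 633) (nat_lit 601) (nat_lit 326)))) (XT.nd (nat_lit 78) (nat_lit 836) (nat_lit 0) (XT.lf (nat_lit 0) (nat_lit 17528043392) (nat_lit 836) (nat_lit 3857881246) (nat_lit 912) (nat_lit 7202819061) (nat_lit 401) (nat_lit 5) (nat_lit 412) (nat_lit 5) (nat_lit 413) (nat_lit 5) (nat_lit 634) (nat_lit 601) (nat_lit 325)) (XT.nd (nat_lit 78) (nat_lit 0) (nat_lit 0) (XT.lf (nat_lit 0) (nat_lit 4574689839) (nat_lit 836) (nat_lit 20141564688) (nat_lit 912) (nat_lit 4187612402) (nat_lit 390) (nat_lit 5) (nat_lit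 401) (nat_lit 5) (nat_lit 402) (nat_lit 5) (nat_lit 635) (nat_lit 601) (nat_lit 324)) (XT.lf (nat_lit 0) (nat_lit 20644489033) (nat_lit 836) (nat_lit 7565952115) (nat_lit 912) (nat_lit 1012906672) (nat_lit 390) (nat_lit 5) (nat_lit 401) (nat_lit 5) (nat_lit 402) (nat_lit 5) (nat_lit 636) (nat_lit 601) (nat_lit 323))))) (XT.nd (nat_lit 234) (nat_lit 1520) (nat_lit 0) (XT.nd (nat_lit 78) (nat_lit 836) (nat_lit 0) (XT.lf (nat_lit 0) (nat_lit 2277507789) (nat_lit 912) (nat_lit 22013613429) (nat_lit 76) (nat_lit 5256180342) (nat_lit 378) (nat_lit 5) (nat_lit 390) (nat_lit 5) (nat_lit 379) (nat_lit 5) (nat_lit 637) (nat_lit 601) (nat_lit 322)) (XT.nd (nat_lit 78) (nat_lit 836) (nat_lit 0) (XT.lf (nat_lit 0) (nat_lit 5725943272) (nat_lit 912) (nat_lit 5851360025) (nat_lit 76) (nat_lit 18298181846) (nat_lit 378) (nat_lit 5) (nat_lit 390) (nat_lit 5) (nat_lit 379) (nat_lit 5) (nat_lit 638) (nat_lit 601) (nat_lit 321)) (XT.lf (nat_lit 0) (nat_lit 9320538727) (nat_lit 912)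 (nat_lit 19445252121) (nat_lit 76) (nat_lit 1442897905) (nat_lit 367) (nat_lit 5) (nat_lit 379) (nat_lit 5) (nat_lit 368) (nat_lit 5) (nat_lit 639) (nat_lit 601) (nat_lit 320)))) (XT.nd (nat_lit 156) (nat_lit 760) (nat_lit 0) (XT.nd (nat_lit 78) (nat_lit 760) (nat_lit 0) (XT.lf (nat_lit 0) (nat_lit 13101003666) (nat_lit 912) (nat_lit 2837195547) (nat_lit 76) (nat_lit 14608077849) (nat_lit 367) (nat_lit 5) (nat_lit 379) (nat_lit 5) (nat_lit 368) (nat_lit 5) (nat_lit 640) (nat_lit 601) (nat_lit 319)) (XT.lf (nat_lit 0) (nat_lit 14288119837) (nat_lit 760) (nat_lit 2759550477) (nat_lit 836) (nat_lit 13841135149) (nat_lit 357) (nat_lit 5) (nat_lit 367) (nat_lit 5) (nat_lit 368) (nat_lit 5) (nat_lit 641) (nat_lit 601) (nat_lit 318))) (XT.nd (nat_lit 78) (nat_lit 0) (nat_lit 0) (XT.lf (nat_lit 0) (nat_lit 491233584) (nat_lit 760) (nat_lit 20671601749) (nat_lit 836) (nat_lit 10073557969) (nat_lit 347) (nat_lit 5) (nat_lit 357) (nat_lit 5) (nat_lit 358) (nat_lit 5) (nat_lit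 642) (nat_lit 601) (nat_lit 317)) (XT.lf (nat_lit 0) (nat_lit 18129194307) (nat_lit 760) (nat_lit 7358542254) (nat_lit 836) (nat_lit 6100647847) (nat_lit 347) (nat_lit 5) (nat_lit 357) (nat_lit 5) (nat_lit 358) (nat_lit 5) (nat_lit 643) (nat_lit 601) (nat_lit 316)))))) (XT.nd (nat_lit 546) (nat_lit 2584) (nat_lit 0) (XT.nd (nat_lit 234) (nat_lit 1368) (nat_lit 0) (XT.nd (nat_lit 78) (nat_lit 836) (nat_lit 0) (XT.lf (nat_lit 0) (nat_lit 4184691588) (nat_lit 684) (nat_lit 25779922495) (nat_lit 760) (nat_lit 1981491851) (nat_lit 338) (nat_lit 5) (nat_lit 347) (nat_lit 5) (nat_lit 348) (nat_lit 5) (nat_lit 644) (nat_lit 601) (nat_lit 315)) (XT.nd (nat_lit 78) (nat_lit 760) (nat_lit 0) (XT.lf (nat_lit 0) (nat_lit 2328510646) (nat_lit 760) (nat_lit 10011339366) (nat_lit 76) (nat_lit 19968092163) (nat_lit 337) (nat_lit 5) (nat_lit 347) (nat_lit 5) (nat_lit 338) (nat_lit 5) (nat_lit 645) (nat_lit 601) (nat_lit 314)) (XT.lf (nat_lit 0) (nat_lit 6758650577) (nat_lit 836)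 (nat_lit 24499352803) (nat_lit 76) (nat_lit 1417540571) (nat_lit 327) (nat_lit 5) (nat_lit 338) (nat_lit 5) (nat_lit 328) (nat_lit 5) (nat_lit 646) (nat_lit 601) (nat_lit 313)))) (XT.nd (nat_lit 156) (nat_lit 684) (nat_lit 0) (XT.nd (nat_lit 78) (nat_lit 684) (nat_lit 0) (XT.lf (nat_lit 0) (nat_lit 11424735764) (nat_lit 836) (nat_lit 6270432994) (nat_lit 76) (nat_lit 15352382306) (nat_lit 327) (nat_lit 5) (nat_lit 338) (nat_lit 5) (nat_lit 328) (nat_lit 5) (nat_lit 647) (nat_lit 601) (nat_lit 312)) (XT.lf (nat_lit 0) (nat_lit 12484555636) (nat_lit 684) (nat_lit 3778679672) (nat_lit 760) (nat_lit 17162181309) (nat_lit 318) (nat_lit 5) (nat_lit 327) (nat_lit 5) (nat_lit 328) (nat_lit 5) (nat_lit 648) (nat_lit 601) (nat_lit 311))) (XT.nd (nat_lit 78) (nat_lit 684) (nat_lit 0) (XT.lf (nat_lit 0) (nat_lit 21306546691) (nat_lit 760) (nat_lit 2180532729) (nat_lit 76) (nat_lit 10321599368) (nat_lit 318) (nat_lit 5) (nat_lit 328) (nat_lit 5) (nat_lit 319) (nat_lit 5) (nat_lit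 649) (nat_lit 601) (nat_lit 310)) (XT.lf (nat_lit 0) (nat_lit 17152714071) (nat_lit 684) (nat_lit 9432496294) (nat_lit 760) (nat_lit 7611706261) (nat_lit 309) (nat_lit 5) (nat_lit 318) (nat_lit 5) (nat_lit 319) (nat_lit 5) (nat_lit 650) (nat_lit 601) (nat_lit 309))))) (XT.nd (nat_lit 234) (nat_lit 1216) (nat_lit 0) (XT.nd (nat_lit 78) (nat_lit 760) (nat_lit 0) (XT.lf (nat_lit 0) (nat_lit 2305618343) (nat_lit 608) (nat_lit 29723478461) (nat_lit 684) (nat_lit 2562629565) (nat_lit 301) (nat_lit 5) (nat_lit 309) (nat_lit 5) (nat_lit 310) (nat_lit 5) (nat_lit 651) (nat_lit 601) (nat_lit 308)) (XT.nd (nat_lit 78) (nat_lit 684) (nat_lit 0) (XT.lf (nat_lit 0) (nat_lit 2729219731) (nat_lit 684) (nat_lit 12800949971) (nat_lit 76) (nat_lit 19460412242) (nat_lit 300) (nat_lit 5) (nat_lit 309) (nat_lit 5) (nat_lit 301) (nat_lit 5) (nat_lit 652) (nat_lit 601) (nat_lit 307)) (XT.lf (nat_lit 0) (nat_lit 7148482185) (nat_lit 684) (nat_lit 988717502) (nat_lit 760) (nat_lit 27258984150)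 (nat_lit 291) (nat_lit 5) (nat_lit 300) (nat_lit 5) (nat_lit 301) (nat_lit 5) (nat_lit 653) (nat_lit 601) (nat_lit 306)))) (XT.nd (nat_lit 156) (nat_lit 608) (nat_lit 0) (XT.nd (nat_lit 78) (nat_lit 608) (nat_lit 0) (XT.lf (nat_lit 0) (nat_lit 13827872644) (nat_lit 760) (nat_lit 8230438044) (nat_lit 76) (nat_lit 13748096541) (nat_lit 291) (nat_lit 5) (nat_lit 301) (nat_lit 5) (nat_lit 292) (nat_lit 5) (nat_lit 654) (nat_lit 601) (nat_lit 305)) (XT.lf (nat_lit 0) (nat_lit 12340280735) (nat_lit 608) (nat_lit 7376964871) (nat_lit 684) (nat_lit 16505891879) (nat_lit 283) (nat_lit 5) (nat_lit 291) (nat_lit 5) (nat_lit 292) (nat_lit 5) (nat_lit 655) (nat_lit 601) (nat_lit 304))) (XT.nd (nat_lit 78) (nat_lit 608) (nat_lit 0) (XT.lf (nat_lit 0) (nat_lit 25827569305) (nat_lit 684) (nat_lit 3265020765) (nat_lit 76) (nat_lit 7553549134) (nat_lit 283) (nat_lit 5) (nat_lit 292) (nat_lit 5) (nat_lit 284) (nat_lit 5) (nat_lit 656) (nat_lit 601) (nat_lit 303)) (XT.lf (nat_lit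 0) (nat_lit 17949567314) (nat_lit 608) (nat_lit 14274196962) (nat_lit 684) (nat_lit 4850563509) (nat_lit 275) (nat_lit 5) (nat_lit 283) (nat_lit 5) (nat_lit 284) (nat_lit 5) (nat_lit 657) (nat_lit 601) (nat_lit 302))))))) (XT.nd (nat_lit 77532) (nat_lit 0) (nat_lit 16416) (XT.nd (nat_lit 76986) (nat_lit 0) (nat_lit 16340) (XT.nd (nat_lit 234) (nat_lit 532) (nat_lit 0) (XT.nd (nat_lit 78) (nat_lit 608) (nat_lit 0) (XT.lf (nat_lit 0) (nat_lit 1260554679) (nat_lit 684) (nat_lit 35376200265) (nat_lit 76) (nat_lit 873365256) (nat_lit 266) (nat_lit 5) (nat_lit 275) (nat_lit 5) (nat_lit 267) (nat_lit 5) (nat_lit 658) (nat_lit 601) (nat_lit 301)) (XT.nd (nat_lit 78) (nat_lit 608) (nat_lit 0) (XT.lf (nat_lit 0) (nat_lit 7651020677) (nat_lit 684) (nat_lit 14004738591) (nat_lit 76) (nat_lit 16293786577) (nat_lit 266) (nat_lit 5) (nat_lit 275) (nat_lit 5) (nat_lit 267) (nat_lit 5) (nat_lit 659) (nat_lit 601) (nat_lit 300)) (XT.lf (nat_lit 0) (nat_lit 7895558867) (nat_lit 608)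 (nat_lit 6323329301) (nat_lit 684) (nat_lit 24177880103) (nat_lit 258) (nat_lit 5) (nat_lit 266) (nat_lit 5) (nat_lit 267) (nat_lit 5) (nat_lit 660) (nat_lit 601) (nat_lit 299)))) (XT.nd (nat_lit 76596) (nat_lit 0) (nat_lit 18012) (XT.nd (nat_lit 78) (nat_lit 532) (nat_lit 0) (XT.lf (nat_lit 0) (nat_lit 21071543368) (nat_lit 684) (nat_lit 8490622826) (nat_lit 76) (nat_lit 9287700456) (nat_lit 258) (nat_lit 5) (nat_lit 267) (nat_lit 5) (nat_lit 259) (nat_lit 5) (nat_lit 661) (nat_lit 601) (nat_lit 298)) (XT.lf (nat_lit 0) (nat_lit 14101119163) (nat_lit 532) (nat_lit 14091939923) (nat_lit 608) (nat_lit 11116331870) (nat_lit 251) (nat_lit 5) (nat_lit 258) (nat_lit 5) (nat_lit 259) (nat_lit 5) (nat_lit 662) (nat_lit 601) (nat_lit 297))) (XT.nd (nat_lit 78) (nat_lit 0) (nat_lit 0) (XT.lf (nat_lit 0) (nat_lit 4553567229) (nat_lit 0) (nat_lit 4553567229) (nat_lit 1748) (nat_lit 1248198927) (nat_lit 488) (nat_lit 5) (nat_lit 488) (nat_lit 3) (nat_lit 511) (nat_lit 3) (nat_lit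 602) (nat_lit 602) (nat_lit 356)) (XT.lf (nat_lit 0) (nat_lit 18556553360) (nat_lit 1748) (nat_lit 1378194207) (nat_lit 1824) (nat_lit 979808652) (nat_lit 488) (nat_lit 5) (nat_lit 511) (nat_lit 3) (nat_lit 512) (nat_lit 5) (nat_lit 603) (nat_lit 602) (nat_lit 355))))) (XT.nd (nat_lit 234) (nat_lit 1672) (nat_lit 0) (XT.nd (nat_lit 78) (nat_lit 0) (nat_lit 76) (XT.lf (nat_lit 76) (nat_lit 9108690789) (nat_lit 0) (nat_lit 9912426108) (nat_lit 1824) (nat_lit 2099098267) (nat_lit 489) (nat_lit 5) (nat_lit 488) (nat_lit 5) (nat_lit 512) (nat_lit 5) (nat_lit 604) (nat_lit 602) (nat_lit 354)) (XT.nd (nat_lit 78) (nat_lit 0) (nat_lit 0) (XT.lf (nat_lit 0) (nat_lit 19502355144) (nat_lit 1748) (nat_lit 1510070693) (nat_lit 1824) (nat_lit 317414151) (nat_lit 489) (nat_lit 5) (nat_lit 512) (nat_lit 5) (nat_lit 513) (nat_lit 5) (nat_lit 605) (nat_lit 602) (nat_lit 353)) (XT.lf (nat_lit 76) (nat_lit 9255003326) (nat_lit 0) (nat_lit 10860085771) (nat_lit 1824) (nat_lit 1426131156)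 (nat_lit 490) (nat_lit 5) (nat_lit 489) (nat_lit 5) (nat_lit 513) (nat_lit 5) (nat_lit 606) (nat_lit 602) (nat_lit 352)))) (XT.nd (nat_lit 156) (nat_lit 1748) (nat_lit 0) (XT.nd (nat_lit 78) (nat_lit 0) (nat_lit 76) (XT.lf (nat_lit 76) (nat_lit 20253717780) (nat_lit 0) (nat_lit 492691365) (nat_lit 1824) (nat_lit 1010292706) (nat_lit 490) (nat_lit 5) (nat_lit 489) (nat_lit 5) (nat_lit 513) (nat_lit 5) (nat_lit 607) (nat_lit 602) (nat_lit 351)) (XT.lf (nat_lit 76) (nat_lit 9553576739) (nat_lit 0) (nat_lit 11960549607) (nat_lit 1824) (nat_lit 459891668) (nat_lit 491) (nat_lit 5) (nat_lit 490) (nat_lit 5) (nat_lit 514) (nat_lit 5) (nat_lit 608) (nat_lit 602) (nat_lit 350))) (XT.nd (nat_lit 78) (nat_lit 0) (nat_lit 76) (XT.lf (nat_lit 0) (nat_lit 109918962) (nat_lit 1824) (nat_lit 1350034626) (nat_lit 1900) (nat_lit 20735519406) (nat_lit 466) (nat_lit 5) (nat_lit 490) (nat_lit 5) (nat_lit 491) (nat_lit 5) (nat_lit 609) (nat_lit 602) (nat_lit 349)) (XT.lf (nat_lit 0)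 (nat_lit 807259365) (nat_lit 1824) (nat_lit 12411964695) (nat_lit 1900) (nat_lit 9199626713) (nat_lit 467) (nat_lit 5) (nat_lit 491) (nat_lit 5) (nat_lit 492) (nat_lit 5) (nat_lit 610) (nat_lit 602) (nat_lit 348)))))) (XT.nd (nat_lit 546) (nat_lit 0) (nat_lit 304) (XT.nd (nat_lit 234) (nat_lit 0) (nat_lit 152) (XT.nd (nat_lit 78) (nat_lit 0) (nat_lit 76) (XT.lf (nat_lit 0) (nat_lit 1533790235) (nat_lit 1824) (nat_lit 1049230321) (nat_lit 1900) (nat_lit 20063371001) (nat_lit 467) (nat_lit 5) (nat_lit 491) (nat_lit 5) (nat_lit 492) (nat_lit 5) (nat_lit 611) (nat_lit 602) (nat_lit 347)) (XT.nd (nat_lit 78) (nat_lit 0) (nat_lit 0) (XT.lf (nat_lit 0) (nat_lit 2394844833) (nat_lit 1824) (nat_lit 12252679129) (nat_lit 1900) (nat_lit 8228559648) (nat_lit 468) (nat_lit 5) (nat_lit 492) (nat_lit 5) (nat_lit 493) (nat_lit 5) (nat_lit 612) (nat_lit 602) (nat_lit 346)) (XT.lf (nat_lit 0) (nat_lit 3293901401) (nat_lit 1824) (nat_lit 585917605) (nat_lit 1900) (nat_lit 19230135190)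 (nat_lit 468) (nat_lit 5) (nat_lit 492) (nat_lit 5) (nat_lit 493) (nat_lit 5) (nat_lit 613) (nat_lit 602) (nat_lit 345)))) (XT.nd (nat_lit 156) (nat_lit 0) (nat_lit 76) (XT.nd (nat_lit 78) (nat_lit 0) (nat_lit 0) (XT.lf (nat_lit 0) (nat_lit 4328633349) (nat_lit 1824) (nat_lit 11931397521) (nat_lit 1900) (nat_lit 7086117743) (nat_lit 469) (nat_lit 5) (nat_lit 493) (nat_lit 5) (nat_lit 494) (nat_lit 5) (nat_lit 614) (nat_lit 602) (nat_lit 344)) (XT.lf (nat_lit 76) (nat_lit 49044713) (nat_lit 0) (nat_lit 5361698382) (nat_lit 1900) (nat_lit 18175790457) (nat_lit 470) (nat_lit 5) (nat_lit 469) (nat_lit 5) (nat_lit 494) (nat_lit 5) (nat_lit 615) (nat_lit 602) (nat_lit 343))) (XT.nd (nat_lit 78) (nat_lit 0) (nat_lit 0) (XT.lf (nat_lit 0) (nat_lit 6629222881) (nat_lit 1824) (nat_lit 11439510775) (nat_lit 1900) (nat_lit 5760698270) (nat_lit 470) (nat_lit 5) (nat_lit 494) (nat_lit 5) (nat_lit 495) (nat_lit 5) (nat_lit 616) (nat_lit 602) (nat_lit 342)) (XT.lf (nat_lit 76)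 (nat_lit 874106501) (nat_lit 0) (nat_lit 7035981291) (nat_lit 1900) (nat_lit 16166340450) (nat_lit 471) (nat_lit 5) (nat_lit 470) (nat_lit 5) (nat_lit 495) (nat_lit 5) (nat_lit 617) (nat_lit 602) (nat_lit 341))))) (XT.nd (nat_lit 234) (nat_lit 0) (nat_lit 76) (XT.nd (nat_lit 78) (nat_lit 0) (nat_lit 0) (XT.lf (nat_lit 0) (nat_lit 9318111166) (nat_lit 1824) (nat_lit 10767987946) (nat_lit 1900) (nat_lit 4240234829) (nat_lit 471) (nat_lit 5) (nat_lit 495) (nat_lit 5) (nat_lit 496) (nat_lit 5) (nat_lit 618) (nat_lit 602) (nat_lit 340)) (XT.nd (nat_lit 78) (nat_lit 0) (nat_lit 76) (XT.lf (nat_lit 76) (nat_lit 1890952728) (nat_lit 0) (nat_lit 8919161893) (nat_lit 1900) (nat_lit 13770007016) (nat_lit 472) (nat_lit 5) (nat_lit 471) (nat_lit 5) (nat_lit 496) (nat_lit 5) (nat_lit 619) (nat_lit 602) (nat_lit 339)) (XT.lf (nat_lit 0) (nat_lit 12417735993) (nat_lit 1824) (nat_lit 9907361723) (nat_lit 1900) (nat_lit 2512172082) (nat_lit 472) (nat_lit 5) (nat_lit 496) (nat_lit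 5) (nat_lit 497) (nat_lit 5) (nat_lit 620) (nat_lit 602) (nat_lit 338)))) (XT.nd (nat_lit 156) (nat_lit 0) (nat_lit 76) (XT.nd (nat_lit 78) (nat_lit 0) (nat_lit 76) (XT.lf (nat_lit 76) (nat_lit 3109507538) (nat_lit 0) (nat_lit 11024313769) (nat_lit 1900) (nat_lit 10964213651) (nat_lit 473) (nat_lit 5) (nat_lit 472) (nat_lit 5) (nat_lit 497) (nat_lit 5) (nat_lit 621) (nat_lit 602) (nat_lit 337)) (XT.lf (nat_lit 0) (nat_lit 15951516988) (nat_lit 1824) (nat_lit 8847713269) (nat_lit 1900) (nat_lit 563439649) (nat_lit 473) (nat_lit 5) (nat_lit 497) (nat_lit 5) (nat_lit 498) (nat_lit 5) (nat_lit 622) (nat_lit 602) (nat_lit 336))) (XT.nd (nat_lit 78) (nat_lit 0) (nat_lit 0) (XT.lf (nat_lit 76) (nat_lit 4540163486) (nat_lit 0) (nat_lit 13365048657) (nat_lit 1900) (nat_lit 7725392753) (nat_lit 474) (nat_lit 5) (nat_lit 473) (nat_lit 5) (nat_lit 498) (nat_lit 5) (nat_lit 623) (nat_lit 602) (nat_lit 335)) (XT.lf (nat_lit 76) (nat_lit 18313455885) (nat_lit 0) (nat_lit 1641098170)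 (nat_lit 1900) (nat_lit 5948213322) (nat_lit 474) (nat_lit 5) (nat_lit 473) (nat_lit 5) (nat_lit 498) (nat_lit 5) (nat_lit 624) (nat_lit 602) (nat_lit 334))))))))
noncomputable def xc230 : XT := (XT.nd (nat_lit 2106) (nat_lit 3876) (nat_lit 0) (XT.nd (nat_lit 1014) (nat_lit 6156) (nat_lit 0) (XT.nd (nat_lit 468) (nat_lit 3496) (nat_lit 0) (XT.nd (nat_lit 234) (nat_lit 1064) (nat_lit 0) (XT.nd (nat_lit 78) (nat_lit 1824) (nat_lit 0) (XT.lf (nat_lit 76) (nat_lit 6193797985) (nat_lit 0) (nat_lit 15955544308) (nat_lit 1900) (nat_lit 4028941871) (nat_lit 475) (nat_lit 5) (nat_lit 474) (nat_lit 5) (nat_lit 499) (nat_lit 5) (nat_lit 625) (nat_lit 602) (nat_lit 333)) (XT.nd (nat_lit 78) (nat_lit 1824) (nat_lit 0) (XT.lf (nat_lit 76) (nat_lit 20342158341) (nat_lit 0) (nat_lit 4104890206) (nat_lit 1900) (nat_lit 2011082532) (nat_lit 475) (nat_lit 5) (nat_lit 474) (nat_lit 5) (nat_lit 499) (nat_lit 5) (nat_lit 626) (nat_lit 602) (nat_lit 332)) (XT.lf (nat_lit 0) (nat_lit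 148843633) (nat_lit 1900) (nat_lit 18660730854) (nat_lit 76) (nat_lit 7931948000) (nat_lit 450) (nat_lit 5) (nat_lit 475) (nat_lit 5) (nat_lit 451) (nat_lit 5) (nat_lit 627) (nat_lit 602) (nat_lit 331)))) (XT.nd (nat_lit 78) (nat_lit 1064) (nat_lit 0) (XT.lf (nat_lit 0) (nat_lit 2390935652) (nat_lit 1900) (nat_lit 4428446187) (nat_lit 76) (nat_lit 20209616329) (nat_lit 450) (nat_lit 5) (nat_lit 475) (nat_lit 5) (nat_lit 451) (nat_lit 5) (nat_lit 628) (nat_lit 602) (nat_lit 330)) (XT.nd (nat_lit 78) (nat_lit 0) (nat_lit 0) (XT.lf (nat_lit 0) (nat_lit 4777221220) (nat_lit 1140) (nat_lit 17136254057) (nat_lit 76) (nat_lit 5406761272) (nat_lit 436) (nat_lit 5) (nat_lit 451) (nat_lit 5) (nat_lit 437) (nat_lit 5) (nat_lit 629) (nat_lit 602) (nat_lit 329)) (XT.lf (nat_lit 0) (nat_lit 7283769991) (nat_lit 1140) (nat_lit 2515673261) (nat_lit 76) (nat_lit 17816405913) (nat_lit 436) (nat_lit 5) (nat_lit 451) (nat_lit 5) (nat_lit 437) (nat_lit 5) (nat_lit 630) (nat_lit 602)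 (nat_lit 328))))) (XT.nd (nat_lit 234) (nat_lit 1672) (nat_lit 0) (XT.nd (nat_lit 78) (nat_lit 912) (nat_lit 0) (XT.lf (nat_lit 0) (nat_lit 9936650467) (nat_lit 988) (nat_lit 15373145564) (nat_lit 76) (nat_lit 2605654202) (nat_lit 424) (nat_lit 5) (nat_lit 437) (nat_lit 5) (nat_lit 425) (nat_lit 5) (nat_lit 631) (nat_lit 602) (nat_lit 327)) (XT.nd (nat_lit 78) (nat_lit 912) (nat_lit 0) (XT.lf (nat_lit 0) (nat_lit 12722026254) (nat_lit 988) (nat_lit 352460631) (nat_lit 76) (nat_lit 15144967891) (nat_lit 424) (nat_lit 5) (nat_lit 437) (nat_lit 5) (nat_lit 425) (nat_lit 5) (nat_lit 632) (nat_lit 602) (nat_lit 326)) (XT.lf (nat_lit 0) (nat_lit 15165289441) (nat_lit 912) (nat_lit 493878759) (nat_lit 988) (nat_lit 12868450239) (nat_lit 412) (nat_lit 5) (nat_lit 424) (nat_lit 5) (nat_lit 425) (nat_lit 5) (nat_lit 633) (nat_lit 602) (nat_lit 325)))) (XT.nd (nat_lit 156) (nat_lit 836) (nat_lit 0) (XT.nd (nat_lit 78) (nat_lit 0) (nat_lit 0) (XT.lf (nat_lit 0) (nat_lit 2101432588)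 (nat_lit 836) (nat_lit 16647382973) (nat_lit 912) (nat_lit 10091254765) (nat_lit 401) (nat_lit 5) (nat_lit 412) (nat_lit 5) (nat_lit 413) (nat_lit 5) (nat_lit 634) (nat_lit 602) (nat_lit 324)) (XT.lf (nat_lit 0) (nat_lit 18050022236) (nat_lit 836) (nat_lit 3940812015) (nat_lit 912) (nat_lit 7166125627) (nat_lit 401) (nat_lit 5) (nat_lit 412) (nat_lit 5) (nat_lit 413) (nat_lit 5) (nat_lit 635) (nat_lit 602) (nat_lit 323))) (XT.nd (nat_lit 78) (nat_lit 0) (nat_lit 0) (XT.lf (nat_lit 0) (nat_lit 4840046380) (nat_lit 836) (nat_lit 20545342107) (nat_lit 912) (nat_lit 4093045024) (nat_lit 390) (nat_lit 5) (nat_lit 401) (nat_lit 5) (nat_lit 402) (nat_lit 5) (nat_lit 636) (nat_lit 602) (nat_lit 322)) (XT.lf (nat_lit 0) (nat_lit 21227832485) (nat_lit 836) (nat_lit 7718198731) (nat_lit 912) (nat_lit 858341642) (nat_lit 390) (nat_lit 5) (nat_lit 401) (nat_lit 5) (nat_lit 402) (nat_lit 5) (nat_lit 637) (nat_lit 602) (nat_lit 321)))))) (XT.nd (nat_lit 546) (nat_lit 2888) (nat_lit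 0) (XT.nd (nat_lit 234) (nat_lit 1520) (nat_lit 0) (XT.nd (nat_lit 78) (nat_lit 836) (nat_lit 0) (XT.lf (nat_lit 0) (nat_lit 2493328465) (nat_lit 912) (nat_lit 22278851631) (nat_lit 76) (nat_lit 5362648347) (nat_lit 378) (nat_lit 5) (nat_lit 390) (nat_lit 5) (nat_lit 379) (nat_lit 5) (nat_lit 638) (nat_lit 602) (nat_lit 320)) (XT.nd (nat_lit 78) (nat_lit 836) (nat_lit 0) (XT.lf (nat_lit 0) (nat_lit 6007394019) (nat_lit 912) (nat_lit 5796785199) (nat_lit 76) (nat_lit 18665463520) (nat_lit 378) (nat_lit 5) (nat_lit 390) (nat_lit 5) (nat_lit 379) (nat_lit 5) (nat_lit 639) (nat_lit 602) (nat_lit 319)) (XT.lf (nat_lit 0) (nat_lit 9671752091) (nat_lit 912) (nat_lit 19660412639) (nat_lit 76) (nat_lit 1477388541) (nat_lit 367) (nat_lit 5) (nat_lit 379) (nat_lit 5) (nat_lit 368) (nat_lit 5) (nat_lit 640) (nat_lit 602) (nat_lit 318)))) (XT.nd (nat_lit 156) (nat_lit 760) (nat_lit 0) (XT.nd (nat_lit 78) (nat_lit 760) (nat_lit 0) (XT.lf (nat_lit 0) (nat_lit 13524594905) (nat_lit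 912) (nat_lit 2723601689) (nat_lit 76) (nat_lit 14905761639) (nat_lit 367) (nat_lit 5) (nat_lit 379) (nat_lit 5) (nat_lit 368) (nat_lit 5) (nat_lit 641) (nat_lit 602) (nat_lit 317)) (XT.lf (nat_lit 0) (nat_lit 14743099359) (nat_lit 760) (nat_lit 2805026135) (nat_lit 836) (nat_lit 13955253351) (nat_lit 357) (nat_lit 5) (nat_lit 367) (nat_lit 5) (nat_lit 368) (nat_lit 5) (nat_lit 642) (nat_lit 602) (nat_lit 316))) (XT.nd (nat_lit 78) (nat_lit 0) (nat_lit 0) (XT.lf (nat_lit 0) (nat_lit 672281104) (nat_lit 760) (nat_lit 21071358757) (nat_lit 836) (nat_lit 10114317907) (nat_lit 347) (nat_lit 5) (nat_lit 357) (nat_lit 5) (nat_lit 358) (nat_lit 5) (nat_lit 643) (nat_lit 602) (nat_lit 315)) (XT.lf (nat_lit 0) (nat_lit 18659643731) (nat_lit 760) (nat_lit 7492306210) (nat_lit 836) (nat_lit 6065100783) (nat_lit 347) (nat_lit 5) (nat_lit 357) (nat_lit 5) (nat_lit 358) (nat_lit 5) (nat_lit 644) (nat_lit 602) (nat_lit 314))))) (XT.nd (nat_lit 234) (nat_lit 1368) (nat_lit 0)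 (XT.nd (nat_lit 78) (nat_lit 836) (nat_lit 0) (XT.lf (nat_lit 0) (nat_lit 4438141074) (nat_lit 684) (nat_lit 26278382844) (nat_lit 760) (nat_lit 1865439823) (nat_lit 338) (nat_lit 5) (nat_lit 347) (nat_lit 5) (nat_lit 348) (nat_lit 5) (nat_lit 645) (nat_lit 602) (nat_lit 313)) (XT.nd (nat_lit 78) (nat_lit 760) (nat_lit 0) (XT.lf (nat_lit 0) (nat_lit 2525708378) (nat_lit 760) (nat_lit 10043125785) (nat_lit 76) (nat_lit 20382242809) (nat_lit 337) (nat_lit 5) (nat_lit 347) (nat_lit 5) (nat_lit 338) (nat_lit 5) (nat_lit 646) (nat_lit 602) (nat_lit 312)) (XT.lf (nat_lit 0) (nat_lit 7042704639) (nat_lit 836) (nat_lit 24819141752) (nat_lit 76) (nat_lit 1464219548) (nat_lit 327) (nat_lit 5) (nat_lit 338) (nat_lit 5) (nat_lit 328) (nat_lit 5) (nat_lit 647) (nat_lit 602) (nat_lit 311)))) (XT.nd (nat_lit 156) (nat_lit 684) (nat_lit 0) (XT.nd (nat_lit 78) (nat_lit 684) (nat_lit 0) (XT.lf (nat_lit 0) (nat_lit 11799192293) (nat_lit 836) (nat_lit 6228980764) (nat_lit 76) (nat_lit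 15677398743) (nat_lit 327) (nat_lit 5) (nat_lit 338) (nat_lit 5) (nat_lit 328) (nat_lit 5) (nat_lit 648) (nat_lit 602) (nat_lit 310)) (XT.lf (nat_lit 0) (nat_lit 12900009869) (nat_lit 684) (nat_lit 3832666206) (nat_lit 760) (nat_lit 17358354519) (nat_lit 318) (nat_lit 5) (nat_lit 327) (nat_lit 5) (nat_lit 328) (nat_lit 5) (nat_lit 649) (nat_lit 602) (nat_lit 309))) (XT.nd (nat_lit 78) (nat_lit 684) (nat_lit 0) (XT.lf (nat_lit 0) (nat_lit 21874164114) (nat_lit 760) (nat_lit 2058930327) (nat_lit 76) (nat_lit 10548917572) (nat_lit 318) (nat_lit 5) (nat_lit 328) (nat_lit 5) (nat_lit 319) (nat_lit 5) (nat_lit 650) (nat_lit 602) (nat_lit 308)) (XT.lf (nat_lit 0) (nat_lit 17659894480) (nat_lit 684) (nat_lit 9596797952) (nat_lit 760) (nat_lit 7621356556) (nat_lit 309) (nat_lit 5) (nat_lit 318) (nat_lit 5) (nat_lit 319) (nat_lit 5) (nat_lit 651) (nat_lit 602) (nat_lit 307))))))) (XT.nd (nat_lit 77532) (nat_lit 0) (nat_lit 15808) (XT.nd (nat_lit 468) (nat_lit 1900) (nat_lit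 0) (XT.nd (nat_lit 234) (nat_lit 608) (nat_lit 0) (XT.nd (nat_lit 78) (nat_lit 760) (nat_lit 0) (XT.lf (nat_lit 0) (nat_lit 2517407525) (nat_lit 608) (nat_lit 30290539003) (nat_lit 684) (nat_lit 2472838806) (nat_lit 301) (nat_lit 5) (nat_lit 309) (nat_lit 5) (nat_lit 310) (nat_lit 5) (nat_lit 652) (nat_lit 602) (nat_lit 306)) (XT.nd (nat_lit 78) (nat_lit 684) (nat_lit 0) (XT.lf (nat_lit 0) (nat_lit 2920268382) (nat_lit 684) (nat_lit 12892717371) (nat_lit 76) (nat_lit 19874668734) (nat_lit 300) (nat_lit 5) (nat_lit 309) (nat_lit 5) (nat_lit 301) (nat_lit 5) (nat_lit 653) (nat_lit 602) (nat_lit 305)) (XT.lf (nat_lit 0) (nat_lit 7454622826) (nat_lit 684) (nat_lit 980168756) (nat_lit 760) (nat_lit 27666609354) (nat_lit 291) (nat_lit 5) (nat_lit 300) (nat_lit 5) (nat_lit 301) (nat_lit 5) (nat_lit 654) (nat_lit 602) (nat_lit 304)))) (XT.nd (nat_lit 78) (nat_lit 608) (nat_lit 0) (XT.lf (nat_lit 0) (nat_lit 14236814208) (nat_lit 760) (nat_lit 8232602018) (nat_lit 76) (nat_lit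 14050462034) (nat_lit 291) (nat_lit 5) (nat_lit 301) (nat_lit 5) (nat_lit 292) (nat_lit 5) (nat_lit 655) (nat_lit 602) (nat_lit 303)) (XT.nd (nat_lit 78) (nat_lit 0) (nat_lit 0) (XT.lf (nat_lit 0) (nat_lit 12748462420) (nat_lit 608) (nat_lit 7493964203) (nat_lit 684) (nat_lit 16702547644) (nat_lit 283) (nat_lit 5) (nat_lit 291) (nat_lit 5) (nat_lit 292) (nat_lit 5) (nat_lit 656) (nat_lit 602) (nat_lit 302)) (XT.lf (nat_lit 0) (nat_lit 26472585780) (nat_lit 684) (nat_lit 3169729267) (nat_lit 76) (nat_lit 7734168576) (nat_lit 283) (nat_lit 5) (nat_lit 292) (nat_lit 5) (nat_lit 284) (nat_lit 5) (nat_lit 657) (nat_lit 602) (nat_lit 301))))) (XT.nd (nat_lit 234) (nat_lit 608) (nat_lit 0) (XT.nd (nat_lit 78) (nat_lit 684) (nat_lit 0) (XT.lf (nat_lit 0) (nat_lit 18468094049) (nat_lit 608) (nat_lit 14527127487) (nat_lit 684) (nat_lit 4818044278) (nat_lit 275) (nat_lit 5) (nat_lit 283) (nat_lit 5) (nat_lit 284) (nat_lit 5) (nat_lit 658) (nat_lit 602) (nat_lit 300)) (XT.nd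 (nat_lit 78) (nat_lit 0) (nat_lit 0) (XT.lf (nat_lit 0) (nat_lit 1412350525) (nat_lit 684) (nat_lit 35921225879) (nat_lit 76) (nat_lit 924205964) (nat_lit 266) (nat_lit 5) (nat_lit 275) (nat_lit 5) (nat_lit 267) (nat_lit 5) (nat_lit 659) (nat_lit 602) (nat_lit 299)) (XT.lf (nat_lit 0) (nat_lit 7928143789) (nat_lit 684) (nat_lit 14125521214) (nat_lit 76) (nat_lit 16652381331) (nat_lit 266) (nat_lit 5) (nat_lit 275) (nat_lit 5) (nat_lit 267) (nat_lit 5) (nat_lit 660) (nat_lit 602) (nat_lit 298)))) (XT.nd (nat_lit 76674) (nat_lit 0) (nat_lit 17480) (XT.nd (nat_lit 78) (nat_lit 0) (nat_lit 0) (XT.lf (nat_lit 0) (nat_lit 8211734087) (nat_lit 608) (nat_lit 6414228711) (nat_lit 684) (nat_lit 24536278691) (nat_lit 258) (nat_lit 5) (nat_lit 266) (nat_lit 5) (nat_lit 267) (nat_lit 5) (nat_lit 661) (nat_lit 602) (nat_lit 297)) (XT.lf (nat_lit 0) (nat_lit 21613491679) (nat_lit 684) (nat_lit 8503086985) (nat_lit 76) (nat_lit 9507866921) (nat_lit 258) (nat_lit 5) (nat_lit 267)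 (nat_lit 5) (nat_lit 259) (nat_lit 5) (nat_lit 662) (nat_lit 602) (nat_lit 296))) (XT.nd (nat_lit 78) (nat_lit 0) (nat_lit 0) (XT.lf (nat_lit 0) (nat_lit 4720987448) (nat_lit 0) (nat_lit 4720987448) (nat_lit 1748) (nat_lit 1117396909) (nat_lit 488) (nat_lit 5) (nat_lit 488) (nat_lit 3) (nat_lit 511) (nat_lit 3) (nat_lit 603) (nat_lit 603) (nat_lit 354)) (XT.lf (nat_lit 0) (nat_lit 19226119802) (nat_lit 1748) (nat_lit 1249066268) (nat_lit 1824) (nat_lit 851664540) (nat_lit 488) (nat_lit 5) (nat_lit 511) (nat_lit 3) (nat_lit 512) (nat_lit 5) (nat_lit 604) (nat_lit 603) (nat_lit 353)))))) (XT.nd (nat_lit 546) (nat_lit 0) (nat_lit 76) (XT.nd (nat_lit 234) (nat_lit 1672) (nat_lit 0) (XT.nd (nat_lit 78) (nat_lit 0) (nat_lit 76) (XT.lf (nat_lit 76) (nat_lit 9446525561) (nat_lit 0) (nat_lit 10248608029) (nat_lit 1824) (nat_lit 1841586514) (nat_lit 489) (nat_lit 5) (nat_lit 488) (nat_lit 5) (nat_lit 512) (nat_lit 5) (nat_lit 605) (nat_lit 603) (nat_lit 352)) (XT.nd (nat_lit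 78) (nat_lit 0) (nat_lit 0) (XT.lf (nat_lit 0) (nat_lit 20179361855) (nat_lit 1748) (nat_lit 1381001643) (nat_lit 1824) (nat_lit 190307161) (nat_lit 489) (nat_lit 5) (nat_lit 512) (nat_lit 5) (nat_lit 513) (nat_lit 5) (nat_lit 606) (nat_lit 603) (nat_lit 351)) (XT.lf (nat_lit 76) (nat_lit 9598326025) (nat_lit 0) (nat_lit 11201425090) (nat_lit 1824) (nat_lit 1166619931) (nat_lit 490) (nat_lit 5) (nat_lit 489) (nat_lit 5) (nat_lit 513) (nat_lit 5) (nat_lit 607) (nat_lit 603) (nat_lit 350)))) (XT.nd (nat_lit 156) (nat_lit 1748) (nat_lit 0) (XT.nd (nat_lit 78) (nat_lit 0) (nat_lit 76) (XT.lf (nat_lit 76) (nat_lit 20813912363) (nat_lit 0) (nat_lit 624248725) (nat_lit 1824) (nat_lit 748112434) (nat_lit 490) (nat_lit 5) (nat_lit 489) (nat_lit 5) (nat_lit 513) (nat_lit 5) (nat_lit 608) (nat_lit 603) (nat_lit 349)) (XT.lf (nat_lit 76) (nat_lit 9905058727) (nat_lit 0) (nat_lit 12311012794) (nat_lit 1824) (nat_lit 191968217) (nat_lit 491) (nat_lit 5) (nat_lit 490) (nat_lit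 5) (nat_lit 514) (nat_lit 5) (nat_lit 609) (nat_lit 603) (nat_lit 348))) (XT.nd (nat_lit 78) (nat_lit 0) (nat_lit 76) (XT.lf (nat_lit 0) (nat_lit 380241644) (nat_lit 1824) (nat_lit 1216182539) (nat_lit 1900) (nat_lit 21037571387) (nat_lit 466) (nat_lit 5) (nat_lit 490) (nat_lit 5) (nat_lit 491) (nat_lit 5) (nat_lit 610) (nat_lit 603) (nat_lit 347)) (XT.lf (nat_lit 0) (nat_lit 1086633057) (nat_lit 1824) (nat_lit 12494431493) (nat_lit 1900) (nat_lit 9280874749) (nat_lit 467) (nat_lit 5) (nat_lit 491) (nat_lit 5) (nat_lit 492) (nat_lit 5) (nat_lit 611) (nat_lit 603) (nat_lit 346))))) (XT.nd (nat_lit 234) (nat_lit 0) (nat_lit 152) (XT.nd (nat_lit 78) (nat_lit 0) (nat_lit 76) (XT.lf (nat_lit 0) (nat_lit 1822533202) (nat_lit 1824) (nat_lit 907692873) (nat_lit 1900) (nat_lit 20363908520) (nat_lit 467) (nat_lit 5) (nat_lit 491) (nat_lit 5) (nat_lit 492) (nat_lit 5) (nat_lit 612) (nat_lit 603) (nat_lit 345)) (XT.nd (nat_lit 78) (nat_lit 0) (nat_lit 0) (XT.lf (nat_lit 0)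 (nat_lit 2696195774) (nat_lit 1824) (nat_lit 12330574548) (nat_lit 1900) (nat_lit 8301742890) (nat_lit 468) (nat_lit 5) (nat_lit 492) (nat_lit 5) (nat_lit 493) (nat_lit 5) (nat_lit 613) (nat_lit 603) (nat_lit 344)) (XT.lf (nat_lit 0) (nat_lit 3608263786) (nat_lit 1824) (nat_lit 433755405) (nat_lit 1900) (nat_lit 19525141863) (nat_lit 468) (nat_lit 5) (nat_lit 492) (nat_lit 5) (nat_lit 493) (nat_lit 5) (nat_lit 614) (nat_lit 603) (nat_lit 343)))) (XT.nd (nat_lit 156) (nat_lit 0) (nat_lit 76) (XT.nd (nat_lit 78) (nat_lit 0) (nat_lit 0) (XT.lf (nat_lit 0) (nat_lit 4659343618) (nat_lit 1824) (nat_lit 12001776068) (nat_lit 1900) (nat_lit 7147047050) (nat_lit 469) (nat_lit 5) (nat_lit 493) (nat_lit 5) (nat_lit 494) (nat_lit 5) (nat_lit 615) (nat_lit 603) (nat_lit 342)) (XT.lf (nat_lit 76) (nat_lit 217168107) (nat_lit 0) (nat_lit 5542225640) (nat_lit 1900) (nat_lit 18294040096) (nat_lit 470) (nat_lit 5) (nat_lit 469) (nat_lit 5) (nat_lit 494) (nat_lit 5) (nat_lit 616)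 (nat_lit 603) (nat_lit 341))) (XT.nd (nat_lit 78) (nat_lit 0) (nat_lit 0) (XT.lf (nat_lit 0) (nat_lit 6997062163) (nat_lit 1824) (nat_lit 11499233590) (nat_lit 1900) (nat_lit 5804998475) (nat_lit 470) (nat_lit 5) (nat_lit 494) (nat_lit 5) (nat_lit 495) (nat_lit 5) (nat_lit 617) (nat_lit 603) (nat_lit 340)) (XT.lf (nat_lit 76) (nat_lit 1059543746) (nat_lit 0) (nat_lit 7240478263) (nat_lit 1900) (nat_lit 16253279325) (nat_lit 471) (nat_lit 5) (nat_lit 470) (nat_lit 5) (nat_lit 495) (nat_lit 5) (nat_lit 618) (nat_lit 603) (nat_lit 339))))))))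
noncomputable def xc231 : XT := (XT.nd (nat_lit 2106) (nat_lit 6764) (nat_lit 0) (XT.nd (nat_lit 1014) (nat_lit 6764) (nat_lit 0) (XT.nd (nat_lit 468) (nat_lit 2660) (nat_lit 0) (XT.nd (nat_lit 234) (nat_lit 0) (nat_lit 76) (XT.nd (nat_lit 78) (nat_lit 0) (nat_lit 0) (XT.lf (nat_lit 0) (nat_lit 9731256111) (nat_lit 1824) (nat_lit 10813715673) (nat_lit 1900) (nat_lit 4263332766) (nat_lit 471) (nat_lit 5) (nat_lit 495) (nat_lit 5) (nat_lit 496) (nat_lit 5) (nat_lit 619) (nat_lit 603) (nat_lit 338)) (XT.nd (nat_lit 78) (nat_lit 0) (nat_lit 76) (XT.lf (nat_lit 76) (nat_lit 2097287814) (nat_lit 0) (nat_lit 9152459219) (nat_lit 1900) (nat_lit 13817488419) (nat_lit 472) (nat_lit 5) (nat_lit 471) (nat_lit 5) (nat_lit 496) (nat_lit 5) (nat_lit 620) (nat_lit 603) (nat_lit 337)) (XT.lf (nat_lit 0) (nat_lit 12884790303) (nat_lit 1824) (nat_lit 9935547009) (nat_lit 1900) (nat_lit 2509284269) (nat_lit 472) (nat_lit 5) (nat_lit 496) (nat_lit 5) (nat_lit 497) (nat_lit 5) (nat_lit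 621) (nat_lit 603) (nat_lit 336)))) (XT.nd (nat_lit 78) (nat_lit 0) (nat_lit 76) (XT.lf (nat_lit 76) (nat_lit 3340541466) (nat_lit 0) (nat_lit 11291463874) (nat_lit 1900) (nat_lit 10963660927) (nat_lit 473) (nat_lit 5) (nat_lit 472) (nat_lit 5) (nat_lit 497) (nat_lit 5) (nat_lit 622) (nat_lit 603) (nat_lit 335)) (XT.nd (nat_lit 78) (nat_lit 0) (nat_lit 0) (XT.lf (nat_lit 0) (nat_lit 16481532265) (nat_lit 1824) (nat_lit 8854592887) (nat_lit 1900) (nat_lit 529559593) (nat_lit 473) (nat_lit 5) (nat_lit 497) (nat_lit 5) (nat_lit 498) (nat_lit 5) (nat_lit 623) (nat_lit 603) (nat_lit 334)) (XT.lf (nat_lit 76) (nat_lit 4799922490) (nat_lit 0) (nat_lit 13671338846) (nat_lit 1900) (nat_lit 7667778269) (nat_lit 474) (nat_lit 5) (nat_lit 473) (nat_lit 5) (nat_lit 498) (nat_lit 5) (nat_lit 624) (nat_lit 603) (nat_lit 333))))) (XT.nd (nat_lit 234) (nat_lit 2812) (nat_lit 0) (XT.nd (nat_lit 78) (nat_lit 0) (nat_lit 76) (XT.lf (nat_lit 76) (nat_lit 18845367880) (nat_lit 0) (nat_lit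 1712144855) (nat_lit 1900) (nat_lit 5859214511) (nat_lit 474) (nat_lit 5) (nat_lit 473) (nat_lit 5) (nat_lit 498) (nat_lit 5) (nat_lit 625) (nat_lit 603) (nat_lit 332)) (XT.nd (nat_lit 78) (nat_lit 0) (nat_lit 0) (XT.lf (nat_lit 76) (nat_lit 6486542149) (nat_lit 0) (nat_lit 16306510274) (nat_lit 1900) (nat_lit 3904765186) (nat_lit 475) (nat_lit 5) (nat_lit 474) (nat_lit 5) (nat_lit 499) (nat_lit 5) (nat_lit 626) (nat_lit 603) (nat_lit 331)) (XT.lf (nat_lit 76) (nat_lit 20914558571) (nat_lit 0) (nat_lit 4218218481) (nat_lit 1900) (nat_lit 1850563474) (nat_lit 475) (nat_lit 5) (nat_lit 474) (nat_lit 5) (nat_lit 499) (nat_lit 5) (nat_lit 627) (nat_lit 603) (nat_lit 330)))) (XT.nd (nat_lit 156) (nat_lit 1064) (nat_lit 0) (XT.nd (nat_lit 78) (nat_lit 0) (nat_lit 0) (XT.lf (nat_lit 0) (nat_lit 346945774) (nat_lit 1900) (nat_lit 18862739138) (nat_lit 76) (nat_lit 8062748772) (nat_lit 450) (nat_lit 5) (nat_lit 475) (nat_lit 5) (nat_lit 451) (nat_lit 5) (nat_lit 628) (nat_lit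 603) (nat_lit 329)) (XT.lf (nat_lit 0) (nat_lit 2630053648) (nat_lit 1900) (nat_lit 4349165764) (nat_lit 76) (nat_lit 20586516315) (nat_lit 450) (nat_lit 5) (nat_lit 475) (nat_lit 5) (nat_lit 451) (nat_lit 5) (nat_lit 629) (nat_lit 603) (nat_lit 328))) (XT.nd (nat_lit 78) (nat_lit 0) (nat_lit 0) (XT.lf (nat_lit 0) (nat_lit 5061254483) (nat_lit 1140) (nat_lit 17308303251) (nat_lit 76) (nat_lit 5493297674) (nat_lit 436) (nat_lit 5) (nat_lit 451) (nat_lit 5) (nat_lit 437) (nat_lit 5) (nat_lit 630) (nat_lit 603) (nat_lit 327)) (XT.lf (nat_lit 0) (nat_lit 7614238370) (nat_lit 1140) (nat_lit 2398657425) (nat_lit 76) (nat_lit 18151558714) (nat_lit 436) (nat_lit 5) (nat_lit 451) (nat_lit 5) (nat_lit 437) (nat_lit 5) (nat_lit 631) (nat_lit 603) (nat_lit 326)))))) (XT.nd (nat_lit 546) (nat_lit 3268) (nat_lit 0) (XT.nd (nat_lit 234) (nat_lit 1672) (nat_lit 0) (XT.nd (nat_lit 78) (nat_lit 912) (nat_lit 0) (XT.lf (nat_lit 0) (nat_lit 10317528313) (nat_lit 988) (nat_lit 15510615560)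 (nat_lit 76) (nat_lit 2641956995) (nat_lit 424) (nat_lit 5) (nat_lit 437) (nat_lit 5) (nat_lit 425) (nat_lit 5) (nat_lit 632) (nat_lit 603) (nat_lit 325)) (XT.nd (nat_lit 78) (nat_lit 912) (nat_lit 0) (XT.lf (nat_lit 0) (nat_lit 13155040148) (nat_lit 988) (nat_lit 192850123) (nat_lit 76) (nat_lit 15432366963) (nat_lit 424) (nat_lit 5) (nat_lit 437) (nat_lit 5) (nat_lit 425) (nat_lit 5) (nat_lit 633) (nat_lit 603) (nat_lit 324)) (XT.lf (nat_lit 0) (nat_lit 15634158505) (nat_lit 912) (nat_lit 514339937) (nat_lit 988) (nat_lit 12946134558) (nat_lit 412) (nat_lit 5) (nat_lit 424) (nat_lit 5) (nat_lit 425) (nat_lit 5) (nat_lit 634) (nat_lit 603) (nat_lit 323)))) (XT.nd (nat_lit 156) (nat_lit 836) (nat_lit 0) (XT.nd (nat_lit 78) (nat_lit 0) (nat_lit 0) (XT.lf (nat_lit 0) (nat_lit 2311518079) (nat_lit 836) (nat_lit 16985990578) (nat_lit 912) (nat_lit 10115874160) (nat_lit 401) (nat_lit 5) (nat_lit 412) (nat_lit 5) (nat_lit 413) (nat_lit 5) (nat_lit 635) (nat_lit 603)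 (nat_lit 322)) (XT.lf (nat_lit 0) (nat_lit 18575784289) (nat_lit 836) (nat_lit 4025177221) (nat_lit 912) (nat_lit 7135717061) (nat_lit 401) (nat_lit 5) (nat_lit 412) (nat_lit 5) (nat_lit 413) (nat_lit 5) (nat_lit 636) (nat_lit 603) (nat_lit 321))) (XT.nd (nat_lit 78) (nat_lit 0) (nat_lit 0) (XT.lf (nat_lit 0) (nat_lit 5103958750) (nat_lit 836) (nat_lit 20957158335) (nat_lit 912) (nat_lit 4003510667) (nat_lit 390) (nat_lit 5) (nat_lit 401) (nat_lit 5) (nat_lit 402) (nat_lit 5) (nat_lit 637) (nat_lit 603) (nat_lit 320)) (XT.lf (nat_lit 0) (nat_lit 21816223882) (nat_lit 836) (nat_lit 7873454260) (nat_lit 912) (nat_lit 707473908) (nat_lit 390) (nat_lit 5) (nat_lit 401) (nat_lit 5) (nat_lit 402) (nat_lit 5) (nat_lit 638) (nat_lit 603) (nat_lit 319))))) (XT.nd (nat_lit 234) (nat_lit 1520) (nat_lit 0) (XT.nd (nat_lit 78) (nat_lit 836) (nat_lit 0) (XT.lf (nat_lit 0) (nat_lit 2706853742) (nat_lit 912) (nat_lit 22556191383) (nat_lit 76) (nat_lit 5471193507) (nat_lit 378)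 (nat_lit 5) (nat_lit 390) (nat_lit 5) (nat_lit 379) (nat_lit 5) (nat_lit 639) (nat_lit 603) (nat_lit 318)) (XT.nd (nat_lit 78) (nat_lit 836) (nat_lit 0) (XT.lf (nat_lit 0) (nat_lit 6287991613) (nat_lit 912) (nat_lit 5747782393) (nat_lit 76) (nat_lit 19040039647) (nat_lit 378) (nat_lit 5) (nat_lit 390) (nat_lit 5) (nat_lit 379) (nat_lit 5) (nat_lit 640) (nat_lit 603) (nat_lit 317)) (XT.lf (nat_lit 0) (nat_lit 10023590236) (nat_lit 912) (nat_lit 19886623080) (nat_lit 76) (nat_lit 1512350266) (nat_lit 367) (nat_lit 5) (nat_lit 379) (nat_lit 5) (nat_lit 368) (nat_lit 5) (nat_lit 641) (nat_lit 603) (nat_lit 316)))) (XT.nd (nat_lit 156) (nat_lit 760) (nat_lit 0) (XT.nd (nat_lit 78) (nat_lit 760) (nat_lit 0) (XT.lf (nat_lit 0) (nat_lit 13950383964) (nat_lit 912) (nat_lit 2614350377) (nat_lit 76) (nat_lit 15209184670) (nat_lit 367) (nat_lit 5) (nat_lit 379) (nat_lit 5) (nat_lit 368) (nat_lit 5) (nat_lit 642) (nat_lit 603) (nat_lit 315)) (XT.lf (nat_lit 0) (nat_lit 15200607564)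 (nat_lit 760) (nat_lit 2851788565) (nat_lit 836) (nat_lit 14077971931) (nat_lit 357) (nat_lit 5) (nat_lit 367) (nat_lit 5) (nat_lit 368) (nat_lit 5) (nat_lit 643) (nat_lit 603) (nat_lit 314))) (XT.nd (nat_lit 78) (nat_lit 0) (nat_lit 0) (XT.lf (nat_lit 0) (nat_lit 850300783) (nat_lit 760) (nat_lit 21479641923) (nat_lit 836) (nat_lit 10162133656) (nat_lit 347) (nat_lit 5) (nat_lit 357) (nat_lit 5) (nat_lit 358) (nat_lit 5) (nat_lit 644) (nat_lit 603) (nat_lit 313)) (XT.lf (nat_lit 0) (nat_lit 19194183720) (nat_lit 760) (nat_lit 7629266051) (nat_lit 836) (nat_lit 6034961025) (nat_lit 347) (nat_lit 5) (nat_lit 357) (nat_lit 5) (nat_lit 358) (nat_lit 5) (nat_lit 645) (nat_lit 603) (nat_lit 312))))))) (XT.nd (nat_lit 1092) (nat_lit 1292) (nat_lit 0) (XT.nd (nat_lit 546) (nat_lit 2584) (nat_lit 0) (XT.nd (nat_lit 234) (nat_lit 1368) (nat_lit 0) (XT.nd (nat_lit 78) (nat_lit 836) (nat_lit 0) (XT.lf (nat_lit 0) (nat_lit 4690067731) (nat_lit 684) (nat_lit 26787477894) (nat_lit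 760) (nat_lit 1753112071) (nat_lit 338) (nat_lit 5) (nat_lit 347) (nat_lit 5) (nat_lit 348) (nat_lit 5) (nat_lit 646) (nat_lit 603) (nat_lit 311)) (XT.nd (nat_lit 78) (nat_lit 760) (nat_lit 0) (XT.lf (nat_lit 0) (nat_lit 2721001015) (nat_lit 760) (nat_lit 10082088678) (nat_lit 76) (nat_lit 20804102201) (nat_lit 337) (nat_lit 5) (nat_lit 347) (nat_lit 5) (nat_lit 338) (nat_lit 5) (nat_lit 647) (nat_lit 603) (nat_lit 310)) (XT.lf (nat_lit 0) (nat_lit 7326658549) (nat_lit 836) (nat_lit 25151935479) (nat_lit 76) (nat_lit 1511120401) (nat_lit 327) (nat_lit 5) (nat_lit 338) (nat_lit 5) (nat_lit 328) (nat_lit 5) (nat_lit 648) (nat_lit 603) (nat_lit 309)))) (XT.nd (nat_lit 156) (nat_lit 684) (nat_lit 0) (XT.nd (nat_lit 78) (nat_lit 684) (nat_lit 0) (XT.lf (nat_lit 0) (nat_lit 12175470077) (nat_lit 836) (nat_lit 6193178902) (nat_lit 76) (nat_lit 16008217758) (nat_lit 327) (nat_lit 5) (nat_lit 338) (nat_lit 5) (nat_lit 328) (nat_lit 5) (nat_lit 649) (nat_lit 603) (nat_lit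 308)) (XT.lf (nat_lit 0) (nat_lit 13317336404) (nat_lit 684) (nat_lit 3888570723) (nat_lit 760) (nat_lit 17564162118) (nat_lit 318) (nat_lit 5) (nat_lit 327) (nat_lit 5) (nat_lit 328) (nat_lit 5) (nat_lit 650) (nat_lit 603) (nat_lit 307))) (XT.nd (nat_lit 78) (nat_lit 684) (nat_lit 0) (XT.lf (nat_lit 0) (nat_lit 22447639793) (nat_lit 760) (nat_lit 1941311302) (nat_lit 76) (nat_lit 10779971104) (nat_lit 318) (nat_lit 5) (nat_lit 328) (nat_lit 5) (nat_lit 319) (nat_lit 5) (nat_lit 651) (nat_lit 603) (nat_lit 306)) (XT.lf (nat_lit 0) (nat_lit 18170845280) (nat_lit 684) (nat_lit 9765331116) (nat_lit 760) (nat_lit 7636736562) (nat_lit 309) (nat_lit 5) (nat_lit 318) (nat_lit 5) (nat_lit 319) (nat_lit 5) (nat_lit 652) (nat_lit 603) (nat_lit 305))))) (XT.nd (nat_lit 234) (nat_lit 1216) (nat_lit 0) (XT.nd (nat_lit 78) (nat_lit 760) (nat_lit 0) (XT.lf (nat_lit 0) (nat_lit 2726999058) (nat_lit 608) (nat_lit 30870005080) (nat_lit 684) (nat_lit 2386729116) (nat_lit 301) (nat_lit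 5) (nat_lit 309) (nat_lit 5) (nat_lit 310) (nat_lit 5) (nat_lit 653) (nat_lit 603) (nat_lit 304)) (XT.nd (nat_lit 78) (nat_lit 684) (nat_lit 0) (XT.lf (nat_lit 0) (nat_lit 3109838932) (nat_lit 684) (nat_lit 12992698208) (nat_lit 76) (nat_lit 20296237701) (nat_lit 300) (nat_lit 5) (nat_lit 309) (nat_lit 5) (nat_lit 301) (nat_lit 5) (nat_lit 654) (nat_lit 603) (nat_lit 303)) (XT.lf (nat_lit 0) (nat_lit 7760550151) (nat_lit 684) (nat_lit 972548855) (nat_lit 760) (nat_lit 28087728471) (nat_lit 291) (nat_lit 5) (nat_lit 300) (nat_lit 5) (nat_lit 301) (nat_lit 5) (nat_lit 655) (nat_lit 603) (nat_lit 302)))) (XT.nd (nat_lit 156) (nat_lit 608) (nat_lit 0) (XT.nd (nat_lit 78) (nat_lit 608) (nat_lit 0) (XT.lf (nat_lit 0) (nat_lit 14648793967) (nat_lit 760) (nat_lit 8241117201) (nat_lit 76) (nat_lit 14357810723) (nat_lit 291) (nat_lit 5) (nat_lit 301) (nat_lit 5) (nat_lit 292) (nat_lit 5) (nat_lit 656) (nat_lit 603) (nat_lit 301)) (XT.lf (nat_lit 0) (nat_lit 13158541310)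 (nat_lit 608) (nat_lit 7614489425) (nat_lit 684) (nat_lit 16908319019) (nat_lit 283) (nat_lit 5) (nat_lit 291) (nat_lit 5) (nat_lit 292) (nat_lit 5) (nat_lit 657) (nat_lit 603) (nat_lit 300))) (XT.nd (nat_lit 78) (nat_lit 608) (nat_lit 0) (XT.lf (nat_lit 0) (nat_lit 27125514128) (nat_lit 684) (nat_lit 3078767917) (nat_lit 76) (nat_lit 7917253004) (nat_lit 283) (nat_lit 5) (nat_lit 292) (nat_lit 5) (nat_lit 284) (nat_lit 5) (nat_lit 658) (nat_lit 603) (nat_lit 299)) (XT.lf (nat_lit 0) (nat_lit 18990796365) (nat_lit 608) (nat_lit 14786380712) (nat_lit 684) (nat_lit 4789904490) (nat_lit 275) (nat_lit 5) (nat_lit 283) (nat_lit 5) (nat_lit 284) (nat_lit 5) (nat_lit 659) (nat_lit 603) (nat_lit 298)))))) (XT.nd (nat_lit 77142) (nat_lit 0) (nat_lit 15808) (XT.nd (nat_lit 76830) (nat_lit 0) (nat_lit 17480) (XT.nd (nat_lit 78) (nat_lit 608) (nat_lit 0) (XT.lf (nat_lit 0) (nat_lit 1562266847) (nat_lit 684) (nat_lit 36483462015) (nat_lit 76) (nat_lit 974767557) (nat_lit 266)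 (nat_lit 5) (nat_lit 275) (nat_lit 5) (nat_lit 267) (nat_lit 5) (nat_lit 660) (nat_lit 603) (nat_lit 297)) (XT.nd (nat_lit 78) (nat_lit 608) (nat_lit 0) (XT.lf (nat_lit 0) (nat_lit 8205990303) (nat_lit 684) (nat_lit 14254905775) (nat_lit 76) (nat_lit 17016877461) (nat_lit 266) (nat_lit 5) (nat_lit 275) (nat_lit 5) (nat_lit 267) (nat_lit 5) (nat_lit 661) (nat_lit 603) (nat_lit 296)) (XT.lf (nat_lit 0) (nat_lit 8528087226) (nat_lit 608) (nat_lit 6508327227) (nat_lit 684) (nat_lit 24906705328) (nat_lit 258) (nat_lit 5) (nat_lit 266) (nat_lit 5) (nat_lit 267) (nat_lit 5) (nat_lit 662) (nat_lit 603) (nat_lit 295)))) (XT.nd (nat_lit 156) (nat_lit 0) (nat_lit 0) (XT.nd (nat_lit 78) (nat_lit 0) (nat_lit 0) (XT.lf (nat_lit 0) (nat_lit 4888791352) (nat_lit 0) (nat_lit 4888791352) (nat_lit 1748) (nat_lit 990027434) (nat_lit 488) (nat_lit 5) (nat_lit 488) (nat_lit 3) (nat_lit 511) (nat_lit 3) (nat_lit 604) (nat_lit 604) (nat_lit 352)) (XT.lf (nat_lit 0) (nat_lit 19897488964)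 (nat_lit 1748) (nat_lit 1123440305) (nat_lit 1824) (nat_lit 726694482) (nat_lit 488) (nat_lit 5) (nat_lit 511) (nat_lit 3) (nat_lit 512) (nat_lit 5) (nat_lit 605) (nat_lit 604) (nat_lit 351))) (XT.nd (nat_lit 78) (nat_lit 0) (nat_lit 76) (XT.lf (nat_lit 76) (nat_lit 9785072523) (nat_lit 0) (nat_lit 10586157467) (nat_lit 1824) (nat_lit 1590554233) (nat_lit 489) (nat_lit 5) (nat_lit 488) (nat_lit 5) (nat_lit 512) (nat_lit 5) (nat_lit 606) (nat_lit 604) (nat_lit 350)) (XT.lf (nat_lit 0) (nat_lit 20858765709) (nat_lit 1748) (nat_lit 1255535878) (nat_lit 1824) (nat_lit 65840263) (nat_lit 489) (nat_lit 5) (nat_lit 512) (nat_lit 5) (nat_lit 513) (nat_lit 5) (nat_lit 607) (nat_lit 604) (nat_lit 349))))) (XT.nd (nat_lit 234) (nat_lit 0) (nat_lit 0) (XT.nd (nat_lit 78) (nat_lit 1748) (nat_lit 0) (XT.lf (nat_lit 76) (nat_lit 9942371200) (nat_lit 0) (nat_lit 11544770780) (nat_lit 1824) (nat_lit 913103186) (nat_lit 490) (nat_lit 5) (nat_lit 489) (nat_lit 5) (nat_lit 513) (nat_lit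 5) (nat_lit 608) (nat_lit 604) (nat_lit 348)) (XT.nd (nat_lit 78) (nat_lit 1748) (nat_lit 0) (XT.lf (nat_lit 76) (nat_lit 21379287331) (nat_lit 0) (nat_lit 753711335) (nat_lit 1824) (nat_lit 491653954) (nat_lit 490) (nat_lit 5) (nat_lit 489) (nat_lit 5) (nat_lit 513) (nat_lit 5) (nat_lit 609) (nat_lit 604) (nat_lit 347)) (XT.lf (nat_lit 0) (nat_lit 69627433) (nat_lit 1824) (nat_lit 12594070516) (nat_lit 1900) (nat_lit 10187246752) (nat_lit 466) (nat_lit 5) (nat_lit 490) (nat_lit 5) (nat_lit 491) (nat_lit 5) (nat_lit 610) (nat_lit 604) (nat_lit 346)))) (XT.nd (nat_lit 156) (nat_lit 0) (nat_lit 76) (XT.nd (nat_lit 78) (nat_lit 0) (nat_lit 76) (XT.lf (nat_lit 0) (nat_lit 645559186) (nat_lit 1824) (nat_lit 1085899521) (nat_lit 1900) (nat_lit 21350039070) (nat_lit 466) (nat_lit 5) (nat_lit 490) (nat_lit 5) (nat_lit 491) (nat_lit 5) (nat_lit 611) (nat_lit 604) (nat_lit 345)) (XT.lf (nat_lit 0) (nat_lit 1361372740) (nat_lit 1824) (nat_lit 12584984775) (nat_lit 1900) (nat_lit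 9367737439) (nat_lit 467) (nat_lit 5) (nat_lit 491) (nat_lit 5) (nat_lit 492) (nat_lit 5) (nat_lit 612) (nat_lit 604) (nat_lit 344))) (XT.nd (nat_lit 78) (nat_lit 0) (nat_lit 76) (XT.lf (nat_lit 0) (nat_lit 2107029965) (nat_lit 1824) (nat_lit 769635606) (nat_lit 1900) (nat_lit 20674368255) (nat_lit 467) (nat_lit 5) (nat_lit 491) (nat_lit 5) (nat_lit 492) (nat_lit 5) (nat_lit 613) (nat_lit 604) (nat_lit 343)) (XT.lf (nat_lit 0) (nat_lit 2993731803) (nat_lit 1824) (nat_lit 12416518831) (nat_lit 1900) (nat_lit 8379938501) (nat_lit 468) (nat_lit 5) (nat_lit 492) (nat_lit 5) (nat_lit 493) (nat_lit 5) (nat_lit 614) (nat_lit 604) (nat_lit 342))))))))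
noncomputable def xc232 : XT := (XT.nd (nat_lit 2106) (nat_lit 8512) (nat_lit 0) (XT.nd (nat_lit 1014) (nat_lit 6840) (nat_lit 0) (XT.nd (nat_lit 468) (nat_lit 0) (nat_lit 228) (XT.nd (nat_lit 234) (nat_lit 0) (nat_lit 152) (XT.nd (nat_lit 78) (nat_lit 0) (nat_lit 76) (XT.lf (nat_lit 0) (nat_lit 3919264467) (nat_lit 1824) (nat_lit 284913643) (nat_lit 1900) (nat_lit 19829527792) (nat_lit 468) (nat_lit 5) (nat_lit 492) (nat_lit 5) (nat_lit 493) (nat_lit 5) (nat_lit 615) (nat_lit 604) (nat_lit 341)) (XT.nd (nat_lit 78) (nat_lit 0) (nat_lit 0) (XT.lf (nat_lit 0) (nat_lit 4987187932) (nat_lit 1824) (nat_lit 12080095514) (nat_lit 1900) (nat_lit 7212332236) (nat_lit 469) (nat_lit 5) (nat_lit 493) (nat_lit 5) (nat_lit 494) (nat_lit 5) (nat_lit 616) (nat_lit 604) (nat_lit 340)) (XT.lf (nat_lit 76) (nat_lit 382163623) (nat_lit 0) (nat_lit 5723517376) (nat_lit 1900) (nat_lit 18424178712) (nat_lit 470) (nat_lit 5) (nat_lit 469) (nat_lit 5) (nat_lit 494) (nat_lit 5) (nat_lit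 617) (nat_lit 604) (nat_lit 339)))) (XT.nd (nat_lit 78) (nat_lit 0) (nat_lit 0) (XT.lf (nat_lit 0) (nat_lit 7363123000) (nat_lit 1824) (nat_lit 11566715954) (nat_lit 1900) (nat_lit 5852938352) (nat_lit 470) (nat_lit 5) (nat_lit 494) (nat_lit 5) (nat_lit 495) (nat_lit 5) (nat_lit 618) (nat_lit 604) (nat_lit 338)) (XT.nd (nat_lit 78) (nat_lit 0) (nat_lit 76) (XT.lf (nat_lit 76) (nat_lit 1242167835) (nat_lit 0) (nat_lit 7446588622) (nat_lit 1900) (nat_lit 16351136209) (nat_lit 471) (nat_lit 5) (nat_lit 470) (nat_lit 5) (nat_lit 495) (nat_lit 5) (nat_lit 619) (nat_lit 604) (nat_lit 337)) (XT.lf (nat_lit 0) (nat_lit 10143857706) (nat_lit 1824) (nat_lit 10866944973) (nat_lit 1900) (nat_lit 4289288811) (nat_lit 471) (nat_lit 5) (nat_lit 495) (nat_lit 5) (nat_lit 496) (nat_lit 5) (nat_lit 620) (nat_lit 604) (nat_lit 336))))) (XT.nd (nat_lit 234) (nat_lit 0) (nat_lit 152) (XT.nd (nat_lit 78) (nat_lit 0) (nat_lit 76) (XT.lf (nat_lit 76) (nat_lit 2301205919) (nat_lit 0) (nat_lit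 9388290110) (nat_lit 1900) (nat_lit 13874769813) (nat_lit 472) (nat_lit 5) (nat_lit 471) (nat_lit 5) (nat_lit 496) (nat_lit 5) (nat_lit 621) (nat_lit 604) (nat_lit 335)) (XT.nd (nat_lit 78) (nat_lit 0) (nat_lit 0) (XT.lf (nat_lit 0) (nat_lit 13352693327) (nat_lit 1824) (nat_lit 9970895830) (nat_lit 1900) (nat_lit 2508401850) (nat_lit 472) (nat_lit 5) (nat_lit 496) (nat_lit 5) (nat_lit 497) (nat_lit 5) (nat_lit 622) (nat_lit 604) (nat_lit 334)) (XT.lf (nat_lit 76) (nat_lit 3569639663) (nat_lit 0) (nat_lit 11562144969) (nat_lit 1900) (nat_lit 10971633686) (nat_lit 473) (nat_lit 5) (nat_lit 472) (nat_lit 5) (nat_lit 497) (nat_lit 5) (nat_lit 623) (nat_lit 604) (nat_lit 333)))) (XT.nd (nat_lit 156) (nat_lit 0) (nat_lit 0) (XT.nd (nat_lit 78) (nat_lit 0) (nat_lit 0) (XT.lf (nat_lit 0) (nat_lit 17013955044) (nat_lit 1824) (nat_lit 8868214304) (nat_lit 1900) (nat_lit 496755121) (nat_lit 473) (nat_lit 5) (nat_lit 497) (nat_lit 5) (nat_lit 498) (nat_lit 5) (nat_lit 624)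 (nat_lit 604) (nat_lit 332)) (XT.lf (nat_lit 76) (nat_lit 5058315917) (nat_lit 0) (nat_lit 13982240840) (nat_lit 1900) (nat_lit 7617248464) (nat_lit 474) (nat_lit 5) (nat_lit 473) (nat_lit 5) (nat_lit 498) (nat_lit 5) (nat_lit 625) (nat_lit 604) (nat_lit 331))) (XT.nd (nat_lit 78) (nat_lit 0) (nat_lit 76) (XT.lf (nat_lit 76) (nat_lit 19381485999) (nat_lit 0) (nat_lit 1783128160) (nat_lit 1900) (nat_lit 5776511183) (nat_lit 474) (nat_lit 5) (nat_lit 473) (nat_lit 5) (nat_lit 498) (nat_lit 5) (nat_lit 626) (nat_lit 604) (nat_lit 330)) (XT.lf (nat_lit 76) (nat_lit 6778583838) (nat_lit 0) (nat_lit 16663258588) (nat_lit 1900) (nat_lit 3786055873) (nat_lit 475) (nat_lit 5) (nat_lit 474) (nat_lit 5) (nat_lit 499) (nat_lit 5) (nat_lit 627) (nat_lit 604) (nat_lit 329)))))) (XT.nd (nat_lit 546) (nat_lit 3496) (nat_lit 0) (XT.nd (nat_lit 234) (nat_lit 1976) (nat_lit 0) (XT.nd (nat_lit 78) (nat_lit 1824) (nat_lit 0) (XT.lf (nat_lit 76) (nat_lit 21491978023) (nat_lit 0) (nat_lit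 4332600604) (nat_lit 1900) (nat_lit 1694629042) (nat_lit 475) (nat_lit 5) (nat_lit 474) (nat_lit 5) (nat_lit 499) (nat_lit 5) (nat_lit 628) (nat_lit 604) (nat_lit 328)) (XT.nd (nat_lit 78) (nat_lit 0) (nat_lit 0) (XT.lf (nat_lit 0) (nat_lit 541433005) (nat_lit 1900) (nat_lit 19075435738) (nat_lit 76) (nat_lit 8197246551) (nat_lit 450) (nat_lit 5) (nat_lit 475) (nat_lit 5) (nat_lit 451) (nat_lit 5) (nat_lit 629) (nat_lit 604) (nat_lit 327)) (XT.lf (nat_lit 0) (nat_lit 2866525618) (nat_lit 1900) (nat_lit 4274817528) (nat_lit 76) (nat_lit 20972014095) (nat_lit 450) (nat_lit 5) (nat_lit 475) (nat_lit 5) (nat_lit 451) (nat_lit 5) (nat_lit 630) (nat_lit 604) (nat_lit 326)))) (XT.nd (nat_lit 156) (nat_lit 912) (nat_lit 0) (XT.nd (nat_lit 78) (nat_lit 0) (nat_lit 0) (XT.lf (nat_lit 0) (nat_lit 5343649159) (nat_lit 1140) (nat_lit 17490420981) (nat_lit 76) (nat_lit 5582403511) (nat_lit 436) (nat_lit 5) (nat_lit 451) (nat_lit 5) (nat_lit 437) (nat_lit 5) (nat_lit 631) (nat_lit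 604) (nat_lit 325)) (XT.lf (nat_lit 0) (nat_lit 7944140379) (nat_lit 1140) (nat_lit 2285798873) (nat_lit 76) (nat_lit 18494236833) (nat_lit 436) (nat_lit 5) (nat_lit 451) (nat_lit 5) (nat_lit 437) (nat_lit 5) (nat_lit 632) (nat_lit 604) (nat_lit 324))) (XT.nd (nat_lit 78) (nat_lit 0) (nat_lit 0) (XT.lf (nat_lit 0) (nat_lit 10698950811) (nat_lit 988) (nat_lit 15657435989) (nat_lit 76) (nat_lit 2679599777) (nat_lit 424) (nat_lit 5) (nat_lit 437) (nat_lit 5) (nat_lit 425) (nat_lit 5) (nat_lit 633) (nat_lit 604) (nat_lit 323)) (XT.lf (nat_lit 0) (nat_lit 13589780099) (nat_lit 988) (nat_lit 36519005) (nat_lit 76) (nat_lit 15726115912) (nat_lit 424) (nat_lit 5) (nat_lit 437) (nat_lit 5) (nat_lit 425) (nat_lit 5) (nat_lit 634) (nat_lit 604) (nat_lit 322))))) (XT.nd (nat_lit 234) (nat_lit 1748) (nat_lit 0) (XT.nd (nat_lit 78) (nat_lit 836) (nat_lit 0) (XT.lf (nat_lit 0) (nat_lit 16105975926) (nat_lit 912) (nat_lit 534799364) (nat_lit 988) (nat_lit 13032349938) (nat_lit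 412) (nat_lit 5) (nat_lit 424) (nat_lit 5) (nat_lit 425) (nat_lit 5) (nat_lit 635) (nat_lit 604) (nat_lit 321)) (XT.nd (nat_lit 78) (nat_lit 0) (nat_lit 0) (XT.lf (nat_lit 0) (nat_lit 2519279429) (nat_lit 836) (nat_lit 17331150553) (nat_lit 912) (nat_lit 10147867056) (nat_lit 401) (nat_lit 5) (nat_lit 412) (nat_lit 5) (nat_lit 413) (nat_lit 5) (nat_lit 636) (nat_lit 604) (nat_lit 320)) (XT.lf (nat_lit 0) (nat_lit 19105663688) (nat_lit 836) (nat_lit 4111014259) (nat_lit 912) (nat_lit 7111446513) (nat_lit 401) (nat_lit 5) (nat_lit 412) (nat_lit 5) (nat_lit 413) (nat_lit 5) (nat_lit 637) (nat_lit 604) (nat_lit 319)))) (XT.nd (nat_lit 156) (nat_lit 912) (nat_lit 0) (XT.nd (nat_lit 78) (nat_lit 0) (nat_lit 0) (XT.lf (nat_lit 0) (nat_lit 5366660226) (nat_lit 836) (nat_lit 21377175575) (nat_lit 912) (nat_lit 3918841109) (nat_lit 390) (nat_lit 5) (nat_lit 401) (nat_lit 5) (nat_lit 402) (nat_lit 5) (nat_lit 638) (nat_lit 604) (nat_lit 318)) (XT.lf (nat_lit 0) (nat_lit 22410021204)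 (nat_lit 836) (nat_lit 8031780280) (nat_lit 912) (nat_lit 560113807) (nat_lit 390) (nat_lit 5) (nat_lit 401) (nat_lit 5) (nat_lit 402) (nat_lit 5) (nat_lit 639) (nat_lit 604) (nat_lit 317))) (XT.nd (nat_lit 78) (nat_lit 0) (nat_lit 0) (XT.lf (nat_lit 0) (nat_lit 2918294457) (nat_lit 912) (nat_lit 22845610789) (nat_lit 76) (nat_lit 5581859393) (nat_lit 378) (nat_lit 5) (nat_lit 390) (nat_lit 5) (nat_lit 379) (nat_lit 5) (nat_lit 640) (nat_lit 604) (nat_lit 316)) (XT.lf (nat_lit 0) (nat_lit 6567970701) (nat_lit 912) (nat_lit 5704204294) (nat_lit 76) (nat_lit 19422058102) (nat_lit 378) (nat_lit 5) (nat_lit 390) (nat_lit 5) (nat_lit 379) (nat_lit 5) (nat_lit 641) (nat_lit 604) (nat_lit 315))))))) (XT.nd (nat_lit 1014) (nat_lit 2660) (nat_lit 0) (XT.nd (nat_lit 468) (nat_lit 2812) (nat_lit 0) (XT.nd (nat_lit 234) (nat_lit 1444) (nat_lit 0) (XT.nd (nat_lit 78) (nat_lit 760) (nat_lit 0) (XT.lf (nat_lit 0) (nat_lit 10376314159) (nat_lit 912) (nat_lit 20123842458) (nat_lit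 76) (nat_lit 1547800995) (nat_lit 367) (nat_lit 5) (nat_lit 379) (nat_lit 5) (nat_lit 368) (nat_lit 5) (nat_lit 642) (nat_lit 604) (nat_lit 314)) (XT.nd (nat_lit 78) (nat_lit 760) (nat_lit 0) (XT.lf (nat_lit 0) (nat_lit 14378658426) (nat_lit 912) (nat_lit 2509271617) (nat_lit 76) (nat_lit 15518470054) (nat_lit 367) (nat_lit 5) (nat_lit 379) (nat_lit 5) (nat_lit 368) (nat_lit 5) (nat_lit 643) (nat_lit 604) (nat_lit 313)) (XT.lf (nat_lit 0) (nat_lit 15660950183) (nat_lit 760) (nat_lit 2899848852) (nat_lit 836) (nat_lit 14209217560) (nat_lit 357) (nat_lit 5) (nat_lit 367) (nat_lit 5) (nat_lit 368) (nat_lit 5) (nat_lit 644) (nat_lit 604) (nat_lit 312)))) (XT.nd (nat_lit 78) (nat_lit 684) (nat_lit 0) (XT.lf (nat_lit 0) (nat_lit 1025490244) (nat_lit 760) (nat_lit 21896601151) (nat_lit 836) (nat_lit 10216904003) (nat_lit 347) (nat_lit 5) (nat_lit 357) (nat_lit 5) (nat_lit 358) (nat_lit 5) (nat_lit 645) (nat_lit 604) (nat_lit 311)) (XT.nd (nat_lit 78) (nat_lit 684) (nat_lit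 0) (XT.lf (nat_lit 0) (nat_lit 19733149203) (nat_lit 760) (nat_lit 7769465479) (nat_lit 836) (nat_lit 6010099141) (nat_lit 347) (nat_lit 5) (nat_lit 357) (nat_lit 5) (nat_lit 358) (nat_lit 5) (nat_lit 646) (nat_lit 604) (nat_lit 310)) (XT.lf (nat_lit 0) (nat_lit 4940697070) (nat_lit 684) (nat_lit 27307394496) (nat_lit 760) (nat_lit 1644348334) (nat_lit 338) (nat_lit 5) (nat_lit 347) (nat_lit 5) (nat_lit 348) (nat_lit 5) (nat_lit 647) (nat_lit 604) (nat_lit 309))))) (XT.nd (nat_lit 234) (nat_lit 1976) (nat_lit 0) (XT.nd (nat_lit 78) (nat_lit 760) (nat_lit 0) (XT.lf (nat_lit 0) (nat_lit 2914577579) (nat_lit 760) (nat_lit 10128117588) (nat_lit 76) (nat_lit 21233846813) (nat_lit 337) (nat_lit 5) (nat_lit 347) (nat_lit 5) (nat_lit 338) (nat_lit 5) (nat_lit 648) (nat_lit 604) (nat_lit 308)) (XT.nd (nat_lit 78) (nat_lit 0) (nat_lit 0) (XT.lf (nat_lit 0) (nat_lit 7610734797) (nat_lit 836) (nat_lit 25497737445) (nat_lit 76) (nat_lit 1558275201) (nat_lit 327) (nat_lit 5)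 (nat_lit 338) (nat_lit 5) (nat_lit 328) (nat_lit 5) (nat_lit 649) (nat_lit 604) (nat_lit 307)) (XT.lf (nat_lit 0) (nat_lit 12553825633) (nat_lit 836) (nat_lit 6162888810) (nat_lit 76) (nat_lit 16344982498) (nat_lit 327) (nat_lit 5) (nat_lit 338) (nat_lit 5) (nat_lit 328) (nat_lit 5) (nat_lit 650) (nat_lit 604) (nat_lit 306)))) (XT.nd (nat_lit 156) (nat_lit 1292) (nat_lit 0) (XT.nd (nat_lit 78) (nat_lit 0) (nat_lit 0) (XT.lf (nat_lit 0) (nat_lit 13736822633) (nat_lit 684) (nat_lit 3946399031) (nat_lit 760) (nat_lit 17779575030) (nat_lit 318) (nat_lit 5) (nat_lit 327) (nat_lit 5) (nat_lit 328) (nat_lit 5) (nat_lit 651) (nat_lit 604) (nat_lit 305)) (XT.lf (nat_lit 0) (nat_lit 23027304235) (nat_lit 760) (nat_lit 1827506202) (nat_lit 76) (nat_lit 11014866162) (nat_lit 318) (nat_lit 5) (nat_lit 328) (nat_lit 5) (nat_lit 319) (nat_lit 5) (nat_lit 652) (nat_lit 604) (nat_lit 304))) (XT.nd (nat_lit 78) (nat_lit 608) (nat_lit 0) (XT.lf (nat_lit 0) (nat_lit 18685889359) (nat_lit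 684) (nat_lit 9938143702) (nat_lit 760) (nat_lit 7657745875) (nat_lit 309) (nat_lit 5) (nat_lit 318) (nat_lit 5) (nat_lit 319) (nat_lit 5) (nat_lit 653) (nat_lit 604) (nat_lit 303)) (XT.lf (nat_lit 0) (nat_lit 2934598807) (nat_lit 608) (nat_lit 31462083477) (nat_lit 684) (nat_lit 2304161445) (nat_lit 301) (nat_lit 5) (nat_lit 309) (nat_lit 5) (nat_lit 310) (nat_lit 5) (nat_lit 654) (nat_lit 604) (nat_lit 302)))))) (XT.nd (nat_lit 546) (nat_lit 0) (nat_lit 0) (XT.nd (nat_lit 234) (nat_lit 1900) (nat_lit 0) (XT.nd (nat_lit 78) (nat_lit 684) (nat_lit 0) (XT.lf (nat_lit 0) (nat_lit 3298107590) (nat_lit 684) (nat_lit 13100809083) (nat_lit 76) (nat_lit 20725303163) (nat_lit 300) (nat_lit 5) (nat_lit 309) (nat_lit 5) (nat_lit 301) (nat_lit 5) (nat_lit 655) (nat_lit 604) (nat_lit 301)) (XT.nd (nat_lit 78) (nat_lit 0) (nat_lit 0) (XT.lf (nat_lit 0) (nat_lit 8066505933) (nat_lit 684) (nat_lit 965833669) (nat_lit 760) (nat_lit 28522403965) (nat_lit 291) (nat_lit 5) (nat_lit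 300) (nat_lit 5) (nat_lit 301) (nat_lit 5) (nat_lit 656) (nat_lit 604) (nat_lit 300)) (XT.lf (nat_lit 0) (nat_lit 15064072302) (nat_lit 760) (nat_lit 8255865673) (nat_lit 76) (nat_lit 14670283593) (nat_lit 291) (nat_lit 5) (nat_lit 301) (nat_lit 5) (nat_lit 292) (nat_lit 5) (nat_lit 657) (nat_lit 604) (nat_lit 299)))) (XT.nd (nat_lit 156) (nat_lit 1292) (nat_lit 0) (XT.nd (nat_lit 78) (nat_lit 0) (nat_lit 0) (XT.lf (nat_lit 0) (nat_lit 13570798680) (nat_lit 608) (nat_lit 7738565006) (nat_lit 684) (nat_lit 17123187074) (nat_lit 283) (nat_lit 5) (nat_lit 291) (nat_lit 5) (nat_lit 292) (nat_lit 5) (nat_lit 658) (nat_lit 604) (nat_lit 298)) (XT.lf (nat_lit 0) (nat_lit 27786706296) (nat_lit 684) (nat_lit 2991981170) (nat_lit 76) (nat_lit 8102896273) (nat_lit 283) (nat_lit 5) (nat_lit 292) (nat_lit 5) (nat_lit 284) (nat_lit 5) (nat_lit 659) (nat_lit 604) (nat_lit 297))) (XT.nd (nat_lit 78) (nat_lit 684) (nat_lit 0) (XT.lf (nat_lit 0) (nat_lit 19517998331) (nat_lit 608)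 (nat_lit 15052034004) (nat_lit 684) (nat_lit 4766036419) (nat_lit 275) (nat_lit 5) (nat_lit 283) (nat_lit 5) (nat_lit 284) (nat_lit 5) (nat_lit 660) (nat_lit 604) (nat_lit 296)) (XT.lf (nat_lit 0) (nat_lit 1710456928) (nat_lit 684) (nat_lit 37063007860) (nat_lit 76) (nat_lit 1025094774) (nat_lit 266) (nat_lit 5) (nat_lit 275) (nat_lit 5) (nat_lit 267) (nat_lit 5) (nat_lit 661) (nat_lit 604) (nat_lit 295))))) (XT.nd (nat_lit 76908) (nat_lit 0) (nat_lit 16872) (XT.nd (nat_lit 76752) (nat_lit 0) (nat_lit 16872) (XT.lf (nat_lit 0) (nat_lit 8484761819) (nat_lit 684) (nat_lit 14392824090) (nat_lit 76) (nat_lit 17387442329) (nat_lit 266) (nat_lit 5) (nat_lit 275) (nat_lit 5) (nat_lit 267) (nat_lit 5) (nat_lit 662) (nat_lit 604) (nat_lit 294)) (XT.nd (nat_lit 78) (nat_lit 0) (nat_lit 0) (XT.lf (nat_lit 0) (nat_lit 5057101737) (nat_lit 0) (nat_lit 5057101737) (nat_lit 1748) (nat_lit 865924279) (nat_lit 488) (nat_lit 5) (nat_lit 488) (nat_lit 3) (nat_lit 511) (nat_lit 3)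 (nat_lit 605) (nat_lit 605) (nat_lit 350)) (XT.lf (nat_lit 0) (nat_lit 20571146900) (nat_lit 1748) (nat_lit 1001150087) (nat_lit 1824) (nat_lit 604739185) (nat_lit 488) (nat_lit 5) (nat_lit 511) (nat_lit 3) (nat_lit 512) (nat_lit 5) (nat_lit 606) (nat_lit 605) (nat_lit 349)))) (XT.nd (nat_lit 156) (nat_lit 0) (nat_lit 76) (XT.nd (nat_lit 78) (nat_lit 0) (nat_lit 0) (XT.lf (nat_lit 76) (nat_lit 10124580636) (nat_lit 0) (nat_lit 10925309757) (nat_lit 1824) (nat_lit 1345679416) (nat_lit 489) (nat_lit 5) (nat_lit 488) (nat_lit 5) (nat_lit 512) (nat_lit 5) (nat_lit 607) (nat_lit 605) (nat_lit 348)) (XT.lf (nat_lit 76) (nat_lit 21484535674) (nat_lit 0) (nat_lit 56880978) (nat_lit 1824) (nat_lit 1076993635) (nat_lit 489) (nat_lit 5) (nat_lit 488) (nat_lit 5) (nat_lit 512) (nat_lit 5) (nat_lit 608) (nat_lit 605) (nat_lit 347))) (XT.nd (nat_lit 78) (nat_lit 0) (nat_lit 0) (XT.lf (nat_lit 76) (nat_lit 10287391880) (nat_lit 0) (nat_lit 11890350152) (nat_lit 1824) (nat_lit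 665266496) (nat_lit 490) (nat_lit 5) (nat_lit 489) (nat_lit 5) (nat_lit 513) (nat_lit 5) (nat_lit 609) (nat_lit 605) (nat_lit 346)) (XT.lf (nat_lit 76) (nat_lit 21950180190) (nat_lit 0) (nat_lit 881220814) (nat_lit 1824) (nat_lit 240605902) (nat_lit 490) (nat_lit 5) (nat_lit 489) (nat_lit 5) (nat_lit 513) (nat_lit 5) (nat_lit 610) (nat_lit 605) (nat_lit 345))))))))
noncomputable def xc233 : XT := (XT.nd (nat_lit 2106) (nat_lit 10260) (nat_lit 0) (XT.nd (nat_lit 1014) (nat_lit 4940) (nat_lit 0) (XT.nd (nat_lit 468) (nat_lit 0) (nat_lit 228) (XT.nd (nat_lit 234) (nat_lit 0) (nat_lit 76) (XT.nd (nat_lit 78) (nat_lit 0) (nat_lit 0) (XT.lf (nat_lit 0) (nat_lit 323679500) (nat_lit 1824) (nat_lit 12694376761) (nat_lit 1900) (nat_lit 10284831153) (nat_lit 466) (nat_lit 5) (nat_lit 490) (nat_lit 5) (nat_lit 491) (nat_lit 5) (nat_lit 611) (nat_lit 605) (nat_lit 344)) (XT.nd (nat_lit 78) (nat_lit 0) (nat_lit 76) (XT.lf (nat_lit 0) (nat_lit 906175780) (nat_lit 1824) (nat_lit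 959014408) (nat_lit 1900) (nat_lit 21672960897) (nat_lit 466) (nat_lit 5) (nat_lit 490) (nat_lit 5) (nat_lit 491) (nat_lit 5) (nat_lit 612) (nat_lit 605) (nat_lit 343)) (XT.lf (nat_lit 0) (nat_lit 1631782645) (nat_lit 1824) (nat_lit 12683536309) (nat_lit 1900) (nat_lit 9460172153) (nat_lit 467) (nat_lit 5) (nat_lit 491) (nat_lit 5) (nat_lit 492) (nat_lit 5) (nat_lit 613) (nat_lit 605) (nat_lit 342)))) (XT.nd (nat_lit 78) (nat_lit 0) (nat_lit 76) (XT.lf (nat_lit 0) (nat_lit 2387584731) (nat_lit 1824) (nat_lit 634883061) (nat_lit 1900) (nat_lit 20994796762) (nat_lit 467) (nat_lit 5) (nat_lit 491) (nat_lit 5) (nat_lit 492) (nat_lit 5) (nat_lit 614) (nat_lit 605) (nat_lit 341)) (XT.nd (nat_lit 78) (nat_lit 0) (nat_lit 0) (XT.lf (nat_lit 0) (nat_lit 3287758798) (nat_lit 1824) (nat_lit 12510420904) (nat_lit 1900) (nat_lit 8463108930) (nat_lit 468) (nat_lit 5) (nat_lit 492) (nat_lit 5) (nat_lit 493) (nat_lit 5) (nat_lit 615) (nat_lit 605) (nat_lit 340)) (XT.lf (nat_lit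 0) (nat_lit 4227210893) (nat_lit 1824) (nat_lit 139211618) (nat_lit 1900) (nat_lit 20143345464) (nat_lit 468) (nat_lit 5) (nat_lit 492) (nat_lit 5) (nat_lit 493) (nat_lit 5) (nat_lit 616) (nat_lit 605) (nat_lit 339))))) (XT.nd (nat_lit 234) (nat_lit 0) (nat_lit 76) (XT.nd (nat_lit 78) (nat_lit 0) (nat_lit 0) (XT.lf (nat_lit 0) (nat_lit 5312477097) (nat_lit 1824) (nat_lit 12166260982) (nat_lit 1900) (nat_lit 7281938593) (nat_lit 469) (nat_lit 5) (nat_lit 493) (nat_lit 5) (nat_lit 494) (nat_lit 5) (nat_lit 617) (nat_lit 605) (nat_lit 338)) (XT.nd (nat_lit 78) (nat_lit 0) (nat_lit 76) (XT.lf (nat_lit 76) (nat_lit 544220729) (nat_lit 0) (nat_lit 5905699394) (nat_lit 1900) (nat_lit 18566074256) (nat_lit 470) (nat_lit 5) (nat_lit 469) (nat_lit 5) (nat_lit 494) (nat_lit 5) (nat_lit 618) (nat_lit 605) (nat_lit 337)) (XT.lf (nat_lit 0) (nat_lit 7727724554) (nat_lit 1824) (nat_lit 11641858128) (nat_lit 1900) (nat_lit 5904483766) (nat_lit 470) (nat_lit 5) (nat_lit 494) (nat_lit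 5) (nat_lit 495) (nat_lit 5) (nat_lit 619) (nat_lit 605) (nat_lit 336)))) (XT.nd (nat_lit 156) (nat_lit 0) (nat_lit 76) (XT.nd (nat_lit 78) (nat_lit 0) (nat_lit 76) (XT.lf (nat_lit 76) (nat_lit 1422175757) (nat_lit 0) (nat_lit 7654440804) (nat_lit 1900) (nat_lit 16459773022) (nat_lit 471) (nat_lit 5) (nat_lit 470) (nat_lit 5) (nat_lit 495) (nat_lit 5) (nat_lit 620) (nat_lit 605) (nat_lit 335)) (XT.lf (nat_lit 0) (nat_lit 10556247041) (nat_lit 1824) (nat_lit 10927570096) (nat_lit 1900) (nat_lit 4318067079) (nat_lit 471) (nat_lit 5) (nat_lit 495) (nat_lit 5) (nat_lit 496) (nat_lit 5) (nat_lit 621) (nat_lit 605) (nat_lit 334))) (XT.nd (nat_lit 78) (nat_lit 0) (nat_lit 76) (XT.lf (nat_lit 76) (nat_lit 2502912802) (nat_lit 0) (nat_lit 9626788042) (nat_lit 1900) (nat_lit 13941703527) (nat_lit 472) (nat_lit 5) (nat_lit 471) (nat_lit 5) (nat_lit 496) (nat_lit 5) (nat_lit 622) (nat_lit 605) (nat_lit 333)) (XT.lf (nat_lit 0) (nat_lit 13821791809) (nat_lit 1824) (nat_lit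 10013295179) (nat_lit 1900) (nat_lit 2509484820) (nat_lit 472) (nat_lit 5) (nat_lit 496) (nat_lit 5) (nat_lit 497) (nat_lit 5) (nat_lit 623) (nat_lit 605) (nat_lit 332)))))) (XT.nd (nat_lit 546) (nat_lit 3724) (nat_lit 0) (XT.nd (nat_lit 234) (nat_lit 1672) (nat_lit 0) (XT.nd (nat_lit 78) (nat_lit 0) (nat_lit 76) (XT.lf (nat_lit 76) (nat_lit 3797018008) (nat_lit 0) (nat_lit 11836498035) (nat_lit 1900) (nat_lit 10987970955) (nat_lit 473) (nat_lit 5) (nat_lit 472) (nat_lit 5) (nat_lit 497) (nat_lit 5) (nat_lit 624) (nat_lit 605) (nat_lit 331)) (XT.nd (nat_lit 78) (nat_lit 0) (nat_lit 0) (XT.lf (nat_lit 0) (nat_lit 17549151614) (nat_lit 1824) (nat_lit 8888455906) (nat_lit 1900) (nat_lit 464979666) (nat_lit 473) (nat_lit 5) (nat_lit 497) (nat_lit 5) (nat_lit 498) (nat_lit 5) (nat_lit 625) (nat_lit 605) (nat_lit 330)) (XT.lf (nat_lit 76) (nat_lit 5315571218) (nat_lit 0) (nat_lit 14297905665) (nat_lit 1900) (nat_lit 7573625180) (nat_lit 474) (nat_lit 5) (nat_lit 473)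 (nat_lit 5) (nat_lit 498) (nat_lit 5) (nat_lit 626) (nat_lit 605) (nat_lit 329)))) (XT.nd (nat_lit 156) (nat_lit 1748) (nat_lit 0) (XT.nd (nat_lit 78) (nat_lit 0) (nat_lit 76) (XT.lf (nat_lit 76) (nat_lit 19922144134) (nat_lit 0) (nat_lit 1854104457) (nat_lit 1900) (nat_lit 5699915669) (nat_lit 474) (nat_lit 5) (nat_lit 473) (nat_lit 5) (nat_lit 498) (nat_lit 5) (nat_lit 627) (nat_lit 605) (nat_lit 328)) (XT.lf (nat_lit 76) (nat_lit 7070163633) (nat_lit 0) (nat_lit 17025952929) (nat_lit 1900) (nat_lit 3672614538) (nat_lit 475) (nat_lit 5) (nat_lit 474) (nat_lit 5) (nat_lit 499) (nat_lit 5) (nat_lit 628) (nat_lit 605) (nat_lit 327))) (XT.nd (nat_lit 78) (nat_lit 1824) (nat_lit 0) (XT.lf (nat_lit 76) (nat_lit 22074766719) (nat_lit 0) (nat_lit 4448104743) (nat_lit 1900) (nat_lit 1543068237) (nat_lit 475) (nat_lit 5) (nat_lit 474) (nat_lit 5) (nat_lit 499) (nat_lit 5) (nat_lit 629) (nat_lit 605) (nat_lit 326)) (XT.lf (nat_lit 0) (nat_lit 732527251) (nat_lit 1900) (nat_lit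 19298776265) (nat_lit 76) (nat_lit 8335473300) (nat_lit 450) (nat_lit 5) (nat_lit 475) (nat_lit 5) (nat_lit 451) (nat_lit 5) (nat_lit 630) (nat_lit 605) (nat_lit 325))))) (XT.nd (nat_lit 234) (nat_lit 2660) (nat_lit 0) (XT.nd (nat_lit 78) (nat_lit 1064) (nat_lit 0) (XT.lf (nat_lit 0) (nat_lit 3100587098) (nat_lit 1900) (nat_lit 4205247028) (nat_lit 76) (nat_lit 21366240473) (nat_lit 450) (nat_lit 5) (nat_lit 475) (nat_lit 5) (nat_lit 451) (nat_lit 5) (nat_lit 631) (nat_lit 605) (nat_lit 324)) (XT.nd (nat_lit 78) (nat_lit 0) (nat_lit 0) (XT.lf (nat_lit 0) (nat_lit 5624656693) (nat_lit 1140) (nat_lit 17682551263) (nat_lit 76) (nat_lit 5674097606) (nat_lit 436) (nat_lit 5) (nat_lit 451) (nat_lit 5) (nat_lit 437) (nat_lit 5) (nat_lit 632) (nat_lit 605) (nat_lit 323)) (XT.lf (nat_lit 0) (nat_lit 8273743334) (nat_lit 1140) (nat_lit 2176928441) (nat_lit 76) (nat_lit 18844558849) (nat_lit 436) (nat_lit 5) (nat_lit 451) (nat_lit 5) (nat_lit 437) (nat_lit 5) (nat_lit 633)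 (nat_lit 605) (nat_lit 322)))) (XT.nd (nat_lit 156) (nat_lit 836) (nat_lit 0) (XT.nd (nat_lit 78) (nat_lit 912) (nat_lit 0) (XT.lf (nat_lit 0) (nat_lit 11081203501) (nat_lit 988) (nat_lit 15813537532) (nat_lit 76) (nat_lit 2718585507) (nat_lit 424) (nat_lit 5) (nat_lit 437) (nat_lit 5) (nat_lit 425) (nat_lit 5) (nat_lit 634) (nat_lit 605) (nat_lit 321)) (XT.lf (nat_lit 0) (nat_lit 118269560) (nat_lit 912) (nat_lit 13909048216) (nat_lit 988) (nat_lit 15908816686) (nat_lit 412) (nat_lit 5) (nat_lit 424) (nat_lit 5) (nat_lit 425) (nat_lit 5) (nat_lit 635) (nat_lit 605) (nat_lit 320))) (XT.nd (nat_lit 78) (nat_lit 836) (nat_lit 0) (XT.lf (nat_lit 0) (nat_lit 16581050318) (nat_lit 912) (nat_lit 555272965) (nat_lit 988) (nat_lit 13126996062) (nat_lit 412) (nat_lit 5) (nat_lit 424) (nat_lit 5) (nat_lit 425) (nat_lit 5) (nat_lit 636) (nat_lit 605) (nat_lit 319)) (XT.lf (nat_lit 0) (nat_lit 2724923560) (nat_lit 836) (nat_lit 17683002478) (nat_lit 912) (nat_lit 10187113721)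 (nat_lit 401) (nat_lit 5) (nat_lit 412) (nat_lit 5) (nat_lit 413) (nat_lit 5) (nat_lit 637) (nat_lit 605) (nat_lit 318))))))) (XT.nd (nat_lit 1092) (nat_lit 4636) (nat_lit 0) (XT.nd (nat_lit 546) (nat_lit 3040) (nat_lit 0) (XT.nd (nat_lit 234) (nat_lit 1748) (nat_lit 0) (XT.nd (nat_lit 78) (nat_lit 836) (nat_lit 0) (XT.lf (nat_lit 0) (nat_lit 19639991220) (nat_lit 836) (nat_lit 4198360931) (nat_lit 912) (nat_lit 7093174780) (nat_lit 401) (nat_lit 5) (nat_lit 412) (nat_lit 5) (nat_lit 413) (nat_lit 5) (nat_lit 638) (nat_lit 605) (nat_lit 317)) (XT.nd (nat_lit 78) (nat_lit 0) (nat_lit 0) (XT.lf (nat_lit 0) (nat_lit 5628378572) (nat_lit 836) (nat_lit 21805559219) (nat_lit 912) (nat_lit 3838875206) (nat_lit 390) (nat_lit 5) (nat_lit 401) (nat_lit 5) (nat_lit 402) (nat_lit 5) (nat_lit 639) (nat_lit 605) (nat_lit 316)) (XT.lf (nat_lit 0) (nat_lit 23009579609) (nat_lit 836) (nat_lit 8193239545) (nat_lit 912) (nat_lit 416078117) (nat_lit 390) (nat_lit 5) (nat_lit 401)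 (nat_lit 5) (nat_lit 402) (nat_lit 5) (nat_lit 640) (nat_lit 605) (nat_lit 315)))) (XT.nd (nat_lit 156) (nat_lit 836) (nat_lit 0) (XT.nd (nat_lit 78) (nat_lit 0) (nat_lit 0) (XT.lf (nat_lit 0) (nat_lit 3127855695) (nat_lit 912) (nat_lit 23147097763) (nat_lit 76) (nat_lit 5694690368) (nat_lit 378) (nat_lit 5) (nat_lit 390) (nat_lit 5) (nat_lit 379) (nat_lit 5) (nat_lit 641) (nat_lit 605) (nat_lit 314)) (XT.lf (nat_lit 0) (nat_lit 6847560849) (nat_lit 912) (nat_lit 5665910692) (nat_lit 76) (nat_lit 19811669644) (nat_lit 378) (nat_lit 5) (nat_lit 390) (nat_lit 5) (nat_lit 379) (nat_lit 5) (nat_lit 642) (nat_lit 605) (nat_lit 313))) (XT.nd (nat_lit 78) (nat_lit 0) (nat_lit 0) (XT.lf (nat_lit 0) (nat_lit 10730180425) (nat_lit 912) (nat_lit 20372039142) (nat_lit 76) (nat_lit 1583758672) (nat_lit 367) (nat_lit 5) (nat_lit 379) (nat_lit 5) (nat_lit 368) (nat_lit 5) (nat_lit 643) (nat_lit 605) (nat_lit 312)) (XT.lf (nat_lit 0) (nat_lit 14809702165) (nat_lit 912) (nat_lit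 2408201985) (nat_lit 76) (nat_lit 15833743040) (nat_lit 367) (nat_lit 5) (nat_lit 379) (nat_lit 5) (nat_lit 368) (nat_lit 5) (nat_lit 644) (nat_lit 605) (nat_lit 311))))) (XT.nd (nat_lit 234) (nat_lit 1520) (nat_lit 0) (XT.nd (nat_lit 78) (nat_lit 760) (nat_lit 0) (XT.lf (nat_lit 0) (nat_lit 16124429151) (nat_lit 760) (nat_lit 2949218875) (nat_lit 836) (nat_lit 14348924970) (nat_lit 357) (nat_lit 5) (nat_lit 367) (nat_lit 5) (nat_lit 368) (nat_lit 5) (nat_lit 645) (nat_lit 605) (nat_lit 310)) (XT.nd (nat_lit 78) (nat_lit 0) (nat_lit 0) (XT.lf (nat_lit 0) (nat_lit 1198041038) (nat_lit 760) (nat_lit 22322390142) (nat_lit 836) (nat_lit 10278535117) (nat_lit 347) (nat_lit 5) (nat_lit 357) (nat_lit 5) (nat_lit 358) (nat_lit 5) (nat_lit 646) (nat_lit 605) (nat_lit 309)) (XT.lf (nat_lit 0) (nat_lit 20276871981) (nat_lit 760) (nat_lit 7912949855) (nat_lit 836) (nat_lit 5990392334) (nat_lit 347) (nat_lit 5) (nat_lit 357) (nat_lit 5) (nat_lit 358) (nat_lit 5) (nat_lit 647)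 (nat_lit 605) (nat_lit 308)))) (XT.nd (nat_lit 156) (nat_lit 760) (nat_lit 0) (XT.nd (nat_lit 78) (nat_lit 76) (nat_lit 0) (XT.lf (nat_lit 0) (nat_lit 5190249174) (nat_lit 684) (nat_lit 27838324243) (nat_lit 760) (nat_lit 1538994260) (nat_lit 338) (nat_lit 5) (nat_lit 347) (nat_lit 5) (nat_lit 348) (nat_lit 5) (nat_lit 648) (nat_lit 605) (nat_lit 307)) (XT.lf (nat_lit 0) (nat_lit 3106622057) (nat_lit 760) (nat_lit 10181109713) (nat_lit 76) (nat_lit 21671655783) (nat_lit 337) (nat_lit 5) (nat_lit 347) (nat_lit 5) (nat_lit 338) (nat_lit 5) (nat_lit 649) (nat_lit 605) (nat_lit 306))) (XT.nd (nat_lit 78) (nat_lit 0) (nat_lit 0) (XT.lf (nat_lit 0) (nat_lit 7895151604) (nat_lit 836) (nat_lit 25856561146) (nat_lit 76) (nat_lit 1605715592) (nat_lit 327) (nat_lit 5) (nat_lit 338) (nat_lit 5) (nat_lit 328) (nat_lit 5) (nat_lit 650) (nat_lit 605) (nat_lit 305)) (XT.lf (nat_lit 0) (nat_lit 12934512059) (nat_lit 836) (nat_lit 6137978891) (nat_lit 76) (nat_lit 16687837920) (nat_lit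 327) (nat_lit 5) (nat_lit 338) (nat_lit 5) (nat_lit 328) (nat_lit 5) (nat_lit 651) (nat_lit 605) (nat_lit 304)))))) (XT.nd (nat_lit 546) (nat_lit 1900) (nat_lit 0) (XT.nd (nat_lit 234) (nat_lit 1368) (nat_lit 0) (XT.nd (nat_lit 78) (nat_lit 684) (nat_lit 0) (XT.lf (nat_lit 0) (nat_lit 14158751993) (nat_lit 684) (nat_lit 4006158321) (nat_lit 760) (nat_lit 18004572210) (nat_lit 318) (nat_lit 5) (nat_lit 327) (nat_lit 5) (nat_lit 328) (nat_lit 5) (nat_lit 652) (nat_lit 605) (nat_lit 303)) (XT.nd (nat_lit 78) (nat_lit 684) (nat_lit 0) (XT.lf (nat_lit 0) (nat_lit 23613486273) (nat_lit 760) (nat_lit 1717351860) (nat_lit 76) (nat_lit 11253709848) (nat_lit 318) (nat_lit 5) (nat_lit 328) (nat_lit 5) (nat_lit 319) (nat_lit 5) (nat_lit 653) (nat_lit 605) (nat_lit 302)) (XT.lf (nat_lit 0) (nat_lit 19205346451) (nat_lit 684) (nat_lit 10115286010) (nat_lit 760) (nat_lit 7684290433) (nat_lit 309) (nat_lit 5) (nat_lit 318) (nat_lit 5) (nat_lit 319) (nat_lit 5) (nat_lit 654) (nat_lit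 605) (nat_lit 301)))) (XT.nd (nat_lit 156) (nat_lit 684) (nat_lit 0) (XT.nd (nat_lit 78) (nat_lit 76) (nat_lit 0) (XT.lf (nat_lit 0) (nat_lit 3140407053) (nat_lit 608) (nat_lit 32066986714) (nat_lit 684) (nat_lit 2225002215) (nat_lit 301) (nat_lit 5) (nat_lit 309) (nat_lit 5) (nat_lit 310) (nat_lit 5) (nat_lit 655) (nat_lit 605) (nat_lit 300)) (XT.lf (nat_lit 0) (nat_lit 3485246096) (nat_lit 684) (nat_lit 13216974545) (nat_lit 76) (nat_lit 21162051353) (nat_lit 300) (nat_lit 5) (nat_lit 309) (nat_lit 5) (nat_lit 301) (nat_lit 5) (nat_lit 656) (nat_lit 605) (nat_lit 299))) (XT.nd (nat_lit 78) (nat_lit 0) (nat_lit 0) (XT.lf (nat_lit 0) (nat_lit 8372727228) (nat_lit 684) (nat_lit 960000244) (nat_lit 760) (nat_lit 28970707604) (nat_lit 291) (nat_lit 5) (nat_lit 300) (nat_lit 5) (nat_lit 301) (nat_lit 5) (nat_lit 657) (nat_lit 605) (nat_lit 298)) (XT.lf (nat_lit 0) (nat_lit 15482907051) (nat_lit 760) (nat_lit 8276736665) (nat_lit 76) (nat_lit 14988022844) (nat_lit 291)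 (nat_lit 5) (nat_lit 301) (nat_lit 5) (nat_lit 292) (nat_lit 5) (nat_lit 658) (nat_lit 605) (nat_lit 297))))) (XT.nd (nat_lit 234) (nat_lit 684) (nat_lit 0) (XT.nd (nat_lit 78) (nat_lit 608) (nat_lit 0) (XT.lf (nat_lit 0) (nat_lit 13985511986) (nat_lit 608) (nat_lit 7866217691) (nat_lit 684) (nat_lit 17347140315) (nat_lit 283) (nat_lit 5) (nat_lit 291) (nat_lit 5) (nat_lit 292) (nat_lit 5) (nat_lit 659) (nat_lit 605) (nat_lit 296)) (XT.nd (nat_lit 78) (nat_lit 608) (nat_lit 0) (XT.lf (nat_lit 0) (nat_lit 28456513744) (nat_lit 684) (nat_lit 2909219770) (nat_lit 76) (nat_lit 8291192385) (nat_lit 283) (nat_lit 5) (nat_lit 292) (nat_lit 5) (nat_lit 284) (nat_lit 5) (nat_lit 660) (nat_lit 605) (nat_lit 295)) (XT.lf (nat_lit 0) (nat_lit 20050021157) (nat_lit 608) (nat_lit 15324168185) (nat_lit 684) (nat_lit 4746337769) (nat_lit 275) (nat_lit 5) (nat_lit 283) (nat_lit 5) (nat_lit 284) (nat_lit 5) (nat_lit 661) (nat_lit 605) (nat_lit 294)))) (XT.nd (nat_lit 76908) (nat_lit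 0) (nat_lit 16872) (XT.nd (nat_lit 76830) (nat_lit 0) (nat_lit 16872) (XT.lf (nat_lit 0) (nat_lit 1857069704) (nat_lit 684) (nat_lit 37659974096) (nat_lit 76) (nat_lit 1075231296) (nat_lit 266) (nat_lit 5) (nat_lit 275) (nat_lit 5) (nat_lit 267) (nat_lit 5) (nat_lit 662) (nat_lit 605) (nat_lit 293)) (XT.lf (nat_lit 0) (nat_lit 5226039388) (nat_lit 0) (nat_lit 5226039388) (nat_lit 1748) (nat_lit 744927017) (nat_lit 488) (nat_lit 5) (nat_lit 488) (nat_lit 3) (nat_lit 511) (nat_lit 3) (nat_lit 606) (nat_lit 606) (nat_lit 348))) (XT.nd (nat_lit 78) (nat_lit 0) (nat_lit 0) (XT.lf (nat_lit 0) (nat_lit 21247571911) (nat_lit 1748) (nat_lit 882035234) (nat_lit 1824) (nat_lit 485644824) (nat_lit 488) (nat_lit 5) (nat_lit 511) (nat_lit 3) (nat_lit 512) (nat_lit 5) (nat_lit 607) (nat_lit 606) (nat_lit 347)) (XT.lf (nat_lit 76) (nat_lit 10465294723) (nat_lit 0) (nat_lit 11266296863) (nat_lit 1824) (nat_lit 1106651153) (nat_lit 489) (nat_lit 5) (nat_lit 488) (nat_lit 5) (nat_lit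 512) (nat_lit 5) (nat_lit 608) (nat_lit 606) (nat_lit 346))))))))
noncomputable def xc234 : XT := (XT.nd (nat_lit 2106) (nat_lit 10716) (nat_lit 0) (XT.nd (nat_lit 1014) (nat_lit 3116) (nat_lit 0) (XT.nd (nat_lit 468) (nat_lit 0) (nat_lit 152) (XT.nd (nat_lit 234) (nat_lit 0) (nat_lit 76) (XT.nd (nat_lit 78) (nat_lit 1748) (nat_lit 0) (XT.lf (nat_lit 76) (nat_lit 22049738617) (nat_lit 0) (nat_lit 178097923) (nat_lit 1824) (nat_lit 837806203) (nat_lit 489) (nat_lit 5) (nat_lit 488) (nat_lit 5) (nat_lit 512) (nat_lit 5) (nat_lit 609) (nat_lit 606) (nat_lit 345)) (XT.nd (nat_lit 78) (nat_lit 1824) (nat_lit 0) (XT.lf (nat_lit 76) (nat_lit 10633636887) (nat_lit 0) (nat_lit 12238387794) (nat_lit 1824) (nat_lit 422806011) (nat_lit 490) (nat_lit 5) (nat_lit 489) (nat_lit 5) (nat_lit 513) (nat_lit 5) (nat_lit 610) (nat_lit 606) (nat_lit 344)) (XT.lf (nat_lit 0) (nat_lit 5262838) (nat_lit 1824) (nat_lit 1001616329) (nat_lit 1900) (nat_lit 22521627963) (nat_lit 465) (nat_lit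 5) (nat_lit 489) (nat_lit 5) (nat_lit 490) (nat_lit 5) (nat_lit 611) (nat_lit 606) (nat_lit 343)))) (XT.nd (nat_lit 78) (nat_lit 0) (nat_lit 0) (XT.lf (nat_lit 0) (nat_lit 573001532) (nat_lit 1824) (nat_lit 12802574979) (nat_lit 1900) (nat_lit 10388489585) (nat_lit 466) (nat_lit 5) (nat_lit 490) (nat_lit 5) (nat_lit 491) (nat_lit 5) (nat_lit 612) (nat_lit 606) (nat_lit 342)) (XT.nd (nat_lit 78) (nat_lit 0) (nat_lit 76) (XT.lf (nat_lit 0) (nat_lit 1162386003) (nat_lit 1824) (nat_lit 835362032) (nat_lit 1900) (nat_lit 22006382673) (nat_lit 466) (nat_lit 5) (nat_lit 490) (nat_lit 5) (nat_lit 491) (nat_lit 5) (nat_lit 613) (nat_lit 606) (nat_lit 341)) (XT.lf (nat_lit 0) (nat_lit 1898157677) (nat_lit 1824) (nat_lit 12790005803) (nat_lit 1900) (nat_lit 9558141422) (nat_lit 467) (nat_lit 5) (nat_lit 491) (nat_lit 5) (nat_lit 492) (nat_lit 5) (nat_lit 614) (nat_lit 606) (nat_lit 340))))) (XT.nd (nat_lit 234) (nat_lit 0) (nat_lit 152) (XT.nd (nat_lit 78) (nat_lit 0) (nat_lit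 76) (XT.lf (nat_lit 0) (nat_lit 2664492680) (nat_lit 1824) (nat_lit 503265789) (nat_lit 1900) (nat_lit 21325247428) (nat_lit 467) (nat_lit 5) (nat_lit 491) (nat_lit 5) (nat_lit 492) (nat_lit 5) (nat_lit 615) (nat_lit 606) (nat_lit 339)) (XT.nd (nat_lit 78) (nat_lit 0) (nat_lit 0) (XT.lf (nat_lit 0) (nat_lit 3578573912) (nat_lit 1824) (nat_lit 12612197657) (nat_lit 1900) (nat_lit 8551221222) (nat_lit 468) (nat_lit 5) (nat_lit 492) (nat_lit 5) (nat_lit 493) (nat_lit 5) (nat_lit 616) (nat_lit 606) (nat_lit 338)) (XT.lf (nat_lit 76) (nat_lit 3572240) (nat_lit 0) (nat_lit 4528853061) (nat_lit 1900) (nat_lit 20463104615) (nat_lit 469) (nat_lit 5) (nat_lit 468) (nat_lit 5) (nat_lit 493) (nat_lit 5) (nat_lit 617) (nat_lit 606) (nat_lit 337)))) (XT.nd (nat_lit 156) (nat_lit 0) (nat_lit 76) (XT.nd (nat_lit 78) (nat_lit 0) (nat_lit 0) (XT.lf (nat_lit 0) (nat_lit 5635513843) (nat_lit 1824) (nat_lit 12260185546) (nat_lit 1900) (nat_lit 7355835451) (nat_lit 469) (nat_lit 5)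 (nat_lit 493) (nat_lit 5) (nat_lit 494) (nat_lit 5) (nat_lit 618) (nat_lit 606) (nat_lit 336)) (XT.lf (nat_lit 76) (nat_lit 703522901) (nat_lit 0) (nat_lit 6088895726) (nat_lit 1900) (nat_lit 18719606401) (nat_lit 470) (nat_lit 5) (nat_lit 469) (nat_lit 5) (nat_lit 494) (nat_lit 5) (nat_lit 619) (nat_lit 606) (nat_lit 335))) (XT.nd (nat_lit 78) (nat_lit 0) (nat_lit 0) (XT.lf (nat_lit 0) (nat_lit 8091178598) (nat_lit 1824) (nat_lit 11724568277) (nat_lit 1900) (nat_lit 5959604051) (nat_lit 470) (nat_lit 5) (nat_lit 494) (nat_lit 5) (nat_lit 495) (nat_lit 5) (nat_lit 620) (nat_lit 606) (nat_lit 334)) (XT.lf (nat_lit 76) (nat_lit 1599758608) (nat_lit 0) (nat_lit 7864162078) (nat_lit 1900) (nat_lit 16579062762) (nat_lit 471) (nat_lit 5) (nat_lit 470) (nat_lit 5) (nat_lit 495) (nat_lit 5) (nat_lit 621) (nat_lit 606) (nat_lit 333)))))) (XT.nd (nat_lit 546) (nat_lit 3572) (nat_lit 0) (XT.nd (nat_lit 234) (nat_lit 0) (nat_lit 76) (XT.nd (nat_lit 78) (nat_lit 0) (nat_lit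 0) (XT.lf (nat_lit 0) (nat_lit 10968748549) (nat_lit 1824) (nat_lit 10995493108) (nat_lit 1900) (nat_lit 4349634584) (nat_lit 471) (nat_lit 5) (nat_lit 495) (nat_lit 5) (nat_lit 496) (nat_lit 5) (nat_lit 622) (nat_lit 606) (nat_lit 332)) (XT.nd (nat_lit 78) (nat_lit 0) (nat_lit 76) (XT.lf (nat_lit 76) (nat_lit 2702608472) (nat_lit 0) (nat_lit 9868085942) (nat_lit 1900) (nat_lit 14018152282) (nat_lit 472) (nat_lit 5) (nat_lit 471) (nat_lit 5) (nat_lit 496) (nat_lit 5) (nat_lit 623) (nat_lit 606) (nat_lit 331)) (XT.lf (nat_lit 0) (nat_lit 14292426622) (nat_lit 1824) (nat_lit 10062639736) (nat_lit 1900) (nat_lit 2512495483) (nat_lit 472) (nat_lit 5) (nat_lit 496) (nat_lit 5) (nat_lit 497) (nat_lit 5) (nat_lit 624) (nat_lit 606) (nat_lit 330)))) (XT.nd (nat_lit 156) (nat_lit 0) (nat_lit 76) (XT.nd (nat_lit 78) (nat_lit 0) (nat_lit 76) (XT.lf (nat_lit 76) (nat_lit 4022886811) (nat_lit 0) (nat_lit 12114664141) (nat_lit 1900) (nat_lit 11012521412) (nat_lit 473) (nat_lit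 5) (nat_lit 472) (nat_lit 5) (nat_lit 497) (nat_lit 5) (nat_lit 625) (nat_lit 606) (nat_lit 329)) (XT.lf (nat_lit 0) (nat_lit 18087483232) (nat_lit 1824) (nat_lit 8915203605) (nat_lit 1900) (nat_lit 434188373) (nat_lit 473) (nat_lit 5) (nat_lit 497) (nat_lit 5) (nat_lit 498) (nat_lit 5) (nat_lit 626) (nat_lit 606) (nat_lit 328))) (XT.nd (nat_lit 78) (nat_lit 0) (nat_lit 0) (XT.lf (nat_lit 76) (nat_lit 5571910500) (nat_lit 0) (nat_lit 14618485085) (nat_lit 1900) (nat_lit 7536739117) (nat_lit 474) (nat_lit 5) (nat_lit 473) (nat_lit 5) (nat_lit 498) (nat_lit 5) (nat_lit 627) (nat_lit 606) (nat_lit 327)) (XT.lf (nat_lit 76) (nat_lit 20467673151) (nat_lit 0) (nat_lit 1925129005) (nat_lit 1900) (nat_lit 5629248721) (nat_lit 474) (nat_lit 5) (nat_lit 473) (nat_lit 5) (nat_lit 498) (nat_lit 5) (nat_lit 628) (nat_lit 606) (nat_lit 326))))) (XT.nd (nat_lit 234) (nat_lit 1976) (nat_lit 0) (XT.nd (nat_lit 78) (nat_lit 1824) (nat_lit 0) (XT.lf (nat_lit 76) (nat_lit 7361517039)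 (nat_lit 0) (nat_lit 17394758388) (nat_lit 1900) (nat_lit 3564249785) (nat_lit 475) (nat_lit 5) (nat_lit 474) (nat_lit 5) (nat_lit 499) (nat_lit 5) (nat_lit 629) (nat_lit 606) (nat_lit 325)) (XT.nd (nat_lit 78) (nat_lit 1824) (nat_lit 0) (XT.lf (nat_lit 76) (nat_lit 22663271988) (nat_lit 0) (nat_lit 4564798602) (nat_lit 1900) (nat_lit 1395677598) (nat_lit 475) (nat_lit 5) (nat_lit 474) (nat_lit 5) (nat_lit 499) (nat_lit 5) (nat_lit 630) (nat_lit 606) (nat_lit 324)) (XT.lf (nat_lit 0) (nat_lit 920443450) (nat_lit 1900) (nat_lit 19532725466) (nat_lit 76) (nat_lit 8477463252) (nat_lit 450) (nat_lit 5) (nat_lit 475) (nat_lit 5) (nat_lit 451) (nat_lit 5) (nat_lit 631) (nat_lit 606) (nat_lit 323)))) (XT.nd (nat_lit 156) (nat_lit 912) (nat_lit 0) (XT.nd (nat_lit 78) (nat_lit 1064) (nat_lit 0) (XT.lf (nat_lit 0) (nat_lit 3332467128) (nat_lit 1900) (nat_lit 4140306553) (nat_lit 76) (nat_lit 21769330465) (nat_lit 450) (nat_lit 5) (nat_lit 475) (nat_lit 5) (nat_lit 451) (nat_lit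 5) (nat_lit 632) (nat_lit 606) (nat_lit 322)) (XT.lf (nat_lit 0) (nat_lit 5904522521) (nat_lit 1140) (nat_lit 17884646985) (nat_lit 76) (nat_lit 5768400421) (nat_lit 436) (nat_lit 5) (nat_lit 451) (nat_lit 5) (nat_lit 437) (nat_lit 5) (nat_lit 633) (nat_lit 606) (nat_lit 321))) (XT.nd (nat_lit 78) (nat_lit 912) (nat_lit 0) (XT.lf (nat_lit 0) (nat_lit 8603309078) (nat_lit 1140) (nat_lit 2071883379) (nat_lit 76) (nat_lit 19202646950) (nat_lit 436) (nat_lit 5) (nat_lit 451) (nat_lit 5) (nat_lit 437) (nat_lit 5) (nat_lit 634) (nat_lit 606) (nat_lit 320)) (XT.lf (nat_lit 0) (nat_lit 11464566974) (nat_lit 988) (nat_lit 15978859440) (nat_lit 76) (nat_lit 2758918131) (nat_lit 424) (nat_lit 5) (nat_lit 437) (nat_lit 5) (nat_lit 425) (nat_lit 5) (nat_lit 635) (nat_lit 606) (nat_lit 319))))))) (XT.nd (nat_lit 1014) (nat_lit 4864) (nat_lit 0) (XT.nd (nat_lit 468) (nat_lit 3268) (nat_lit 0) (XT.nd (nat_lit 234) (nat_lit 836) (nat_lit 0) (XT.nd (nat_lit 78) (nat_lit 836) (nat_lit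 0) (XT.lf (nat_lit 0) (nat_lit 270590710) (nat_lit 912) (nat_lit 14196815075) (nat_lit 988) (nat_lit 16064247064) (nat_lit 412) (nat_lit 5) (nat_lit 424) (nat_lit 5) (nat_lit 425) (nat_lit 5) (nat_lit 636) (nat_lit 606) (nat_lit 318)) (XT.nd (nat_lit 78) (nat_lit 836) (nat_lit 0) (XT.lf (nat_lit 0) (nat_lit 17059686775) (nat_lit 912) (nat_lit 575776360) (nat_lit 988) (nat_lit 13229981124) (nat_lit 412) (nat_lit 5) (nat_lit 424) (nat_lit 5) (nat_lit 425) (nat_lit 5) (nat_lit 637) (nat_lit 606) (nat_lit 317)) (XT.lf (nat_lit 0) (nat_lit 2928651696) (nat_lit 836) (nat_lit 18041688397) (nat_lit 912) (nat_lit 10233502405) (nat_lit 401) (nat_lit 5) (nat_lit 412) (nat_lit 5) (nat_lit 413) (nat_lit 5) (nat_lit 638) (nat_lit 606) (nat_lit 316)))) (XT.nd (nat_lit 78) (nat_lit 836) (nat_lit 0) (XT.lf (nat_lit 0) (nat_lit 20179094637) (nat_lit 836) (nat_lit 4287255473) (nat_lit 912) (nat_lit 7080770050) (nat_lit 401) (nat_lit 5) (nat_lit 412) (nat_lit 5) (nat_lit 413) (nat_lit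 5) (nat_lit 639) (nat_lit 606) (nat_lit 315)) (XT.nd (nat_lit 78) (nat_lit 0) (nat_lit 0) (XT.lf (nat_lit 0) (nat_lit 5889336322) (nat_lit 836) (nat_lit 22242477912) (nat_lit 912) (nat_lit 3763458626) (nat_lit 390) (nat_lit 5) (nat_lit 401) (nat_lit 5) (nat_lit 402) (nat_lit 5) (nat_lit 640) (nat_lit 606) (nat_lit 314)) (XT.lf (nat_lit 0) (nat_lit 23615251768) (nat_lit 836) (nat_lit 8357896011) (nat_lit 912) (nat_lit 275189793) (nat_lit 390) (nat_lit 5) (nat_lit 401) (nat_lit 5) (nat_lit 402) (nat_lit 5) (nat_lit 641) (nat_lit 606) (nat_lit 313))))) (XT.nd (nat_lit 234) (nat_lit 1520) (nat_lit 0) (XT.nd (nat_lit 78) (nat_lit 836) (nat_lit 0) (XT.lf (nat_lit 0) (nat_lit 3335737058) (nat_lit 912) (nat_lit 23460649828) (nat_lit 76) (nat_lit 5809731606) (nat_lit 378) (nat_lit 5) (nat_lit 390) (nat_lit 5) (nat_lit 379) (nat_lit 5) (nat_lit 642) (nat_lit 606) (nat_lit 312)) (XT.nd (nat_lit 78) (nat_lit 836) (nat_lit 0) (XT.lf (nat_lit 0) (nat_lit 7126986820) (nat_lit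 912) (nat_lit 5632768229) (nat_lit 76) (nat_lit 20209027969) (nat_lit 378) (nat_lit 5) (nat_lit 390) (nat_lit 5) (nat_lit 379) (nat_lit 5) (nat_lit 643) (nat_lit 606) (nat_lit 311)) (XT.lf (nat_lit 0) (nat_lit 11085441456) (nat_lit 912) (nat_lit 20631190646) (nat_lit 76) (nat_lit 1620241282) (nat_lit 367) (nat_lit 5) (nat_lit 379) (nat_lit 5) (nat_lit 368) (nat_lit 5) (nat_lit 644) (nat_lit 606) (nat_lit 310)))) (XT.nd (nat_lit 156) (nat_lit 760) (nat_lit 0) (XT.nd (nat_lit 78) (nat_lit 760) (nat_lit 0) (XT.lf (nat_lit 0) (nat_lit 15243795643) (nat_lit 912) (nat_lit 2310984380) (nat_lit 76) (nat_lit 16155131074) (nat_lit 367) (nat_lit 5) (nat_lit 379) (nat_lit 5) (nat_lit 368) (nat_lit 5) (nat_lit 645) (nat_lit 606) (nat_lit 309)) (XT.lf (nat_lit 0) (nat_lit 16591342921) (nat_lit 760) (nat_lit 2999911293) (nat_lit 836) (nat_lit 14497036745) (nat_lit 357) (nat_lit 5) (nat_lit 367) (nat_lit 5) (nat_lit 368) (nat_lit 5) (nat_lit 646) (nat_lit 606) (nat_lit 308)))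 (XT.nd (nat_lit 78) (nat_lit 0) (nat_lit 0) (XT.lf (nat_lit 0) (nat_lit 1368138912) (nat_lit 760) (nat_lit 22757166441) (nat_lit 836) (nat_lit 10346940339) (nat_lit 347) (nat_lit 5) (nat_lit 357) (nat_lit 5) (nat_lit 358) (nat_lit 5) (nat_lit 647) (nat_lit 606) (nat_lit 307)) (XT.lf (nat_lit 0) (nat_lit 20825681041) (nat_lit 760) (nat_lit 8059766201) (nat_lit 836) (nat_lit 5975724220) (nat_lit 347) (nat_lit 5) (nat_lit 357) (nat_lit 5) (nat_lit 358) (nat_lit 5) (nat_lit 648) (nat_lit 606) (nat_lit 306)))))) (XT.nd (nat_lit 546) (nat_lit 1976) (nat_lit 0) (XT.nd (nat_lit 234) (nat_lit 1368) (nat_lit 0) (XT.nd (nat_lit 78) (nat_lit 836) (nat_lit 0) (XT.lf (nat_lit 0) (nat_lit 5438938974) (nat_lit 684) (nat_lit 28380463525) (nat_lit 760) (nat_lit 1436901172) (nat_lit 338) (nat_lit 5) (nat_lit 347) (nat_lit 5) (nat_lit 348) (nat_lit 5) (nat_lit 649) (nat_lit 606) (nat_lit 305)) (XT.nd (nat_lit 78) (nat_lit 760) (nat_lit 0) (XT.lf (nat_lit 0) (nat_lit 3297313635) (nat_lit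 760) (nat_lit 10240969675) (nat_lit 76) (nat_lit 22117711000) (nat_lit 337) (nat_lit 5) (nat_lit 347) (nat_lit 5) (nat_lit 338) (nat_lit 5) (nat_lit 650) (nat_lit 606) (nat_lit 304)) (XT.lf (nat_lit 0) (nat_lit 8180123179) (nat_lit 836) (nat_lit 26228429922) (nat_lit 76) (nat_lit 1653472818) (nat_lit 327) (nat_lit 5) (nat_lit 338) (nat_lit 5) (nat_lit 328) (nat_lit 5) (nat_lit 651) (nat_lit 606) (nat_lit 303)))) (XT.nd (nat_lit 156) (nat_lit 684) (nat_lit 0) (XT.nd (nat_lit 78) (nat_lit 684) (nat_lit 0) (XT.lf (nat_lit 0) (nat_lit 13317779302) (nat_lit 836) (nat_lit 6118324306) (nat_lit 76) (nat_lit 17036930868) (nat_lit 327) (nat_lit 5) (nat_lit 338) (nat_lit 5) (nat_lit 328) (nat_lit 5) (nat_lit 652) (nat_lit 606) (nat_lit 302)) (XT.lf (nat_lit 0) (nat_lit 14583404260) (nat_lit 684) (nat_lit 4067857140) (nat_lit 760) (nat_lit 18239140471) (nat_lit 318) (nat_lit 5) (nat_lit 327) (nat_lit 5) (nat_lit 328) (nat_lit 5) (nat_lit 653) (nat_lit 606) (nat_lit 301)))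 (XT.nd (nat_lit 78) (nat_lit 684) (nat_lit 0) (XT.lf (nat_lit 0) (nat_lit 24206513354) (nat_lit 760) (nat_lit 1610691144) (nat_lit 76) (nat_lit 11496610230) (nat_lit 318) (nat_lit 5) (nat_lit 328) (nat_lit 5) (nat_lit 319) (nat_lit 5) (nat_lit 654) (nat_lit 606) (nat_lit 300)) (XT.lf (nat_lit 0) (nat_lit 19729533450) (nat_lit 684) (nat_lit 10296810718) (nat_lit 760) (nat_lit 7716282316) (nat_lit 309) (nat_lit 5) (nat_lit 318) (nat_lit 5) (nat_lit 319) (nat_lit 5) (nat_lit 655) (nat_lit 606) (nat_lit 299))))) (XT.nd (nat_lit 234) (nat_lit 608) (nat_lit 0) (XT.nd (nat_lit 78) (nat_lit 760) (nat_lit 0) (XT.lf (nat_lit 0) (nat_lit 3344618761) (nat_lit 608) (nat_lit 32684933106) (nat_lit 684) (nat_lit 2149123117) (nat_lit 301) (nat_lit 5) (nat_lit 309) (nat_lit 5) (nat_lit 310) (nat_lit 5) (nat_lit 656) (nat_lit 606) (nat_lit 298)) (XT.nd (nat_lit 78) (nat_lit 684) (nat_lit 0) (XT.lf (nat_lit 0) (nat_lit 3671421947) (nat_lit 684) (nat_lit 13341126877) (nat_lit 76) (nat_lit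 21606670817) (nat_lit 300) (nat_lit 5) (nat_lit 309) (nat_lit 5) (nat_lit 301) (nat_lit 5) (nat_lit 657) (nat_lit 606) (nat_lit 297)) (XT.lf (nat_lit 0) (nat_lit 8679446647) (nat_lit 684) (nat_lit 955026759) (nat_lit 760) (nat_lit 29432720334) (nat_lit 291) (nat_lit 5) (nat_lit 300) (nat_lit 5) (nat_lit 301) (nat_lit 5) (nat_lit 658) (nat_lit 606) (nat_lit 296)))) (XT.nd (nat_lit 156) (nat_lit 0) (nat_lit 0) (XT.nd (nat_lit 78) (nat_lit 608) (nat_lit 0) (XT.lf (nat_lit 0) (nat_lit 15905553756) (nat_lit 760) (nat_lit 8303626337) (nat_lit 76) (nat_lit 15311171977) (nat_lit 291) (nat_lit 5) (nat_lit 301) (nat_lit 5) (nat_lit 292) (nat_lit 5) (nat_lit 659) (nat_lit 606) (nat_lit 295)) (XT.lf (nat_lit 0) (nat_lit 14402955148) (nat_lit 608) (nat_lit 7997476478) (nat_lit 684) (nat_lit 17580174527) (nat_lit 283) (nat_lit 5) (nat_lit 291) (nat_lit 5) (nat_lit 292) (nat_lit 5) (nat_lit 660) (nat_lit 606) (nat_lit 294))) (XT.nd (nat_lit 76986) (nat_lit 0) (nat_lit 15580)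 (XT.lf (nat_lit 0) (nat_lit 29135287735) (nat_lit 684) (nat_lit 2830340512) (nat_lit 76) (nat_lit 8482235559) (nat_lit 283) (nat_lit 5) (nat_lit 292) (nat_lit 5) (nat_lit 284) (nat_lit 5) (nat_lit 661) (nat_lit 606) (nat_lit 293)) (XT.lf (nat_lit 0) (nat_lit 5395723205) (nat_lit 0) (nat_lit 5395723205) (nat_lit 1748) (nat_lit 626880779) (nat_lit 488) (nat_lit 5) (nat_lit 488) (nat_lit 3) (nat_lit 511) (nat_lit 3) (nat_lit 607) (nat_lit 607) (nat_lit 346))))))))
noncomputable def xc235 : XT := (XT.nd (nat_lit 2106) (nat_lit 11628) (nat_lit 0) (XT.nd (nat_lit 1014) (nat_lit 2204) (nat_lit 0) (XT.nd (nat_lit 468) (nat_lit 0) (nat_lit 76) (XT.nd (nat_lit 234) (nat_lit 1748) (nat_lit 0) (XT.nd (nat_lit 78) (nat_lit 0) (nat_lit 0) (XT.lf (nat_lit 0) (nat_lit 21927235068) (nat_lit 1748) (nat_lit 765940977) (nat_lit 1824) (nat_lit 369262810) (nat_lit 488) (nat_lit 5) (nat_lit 511) (nat_lit 3) (nat_lit 512) (nat_lit 5) (nat_lit 608) (nat_lit 607) (nat_lit 345)) (XT.nd (nat_lit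 78) (nat_lit 0) (nat_lit 0) (XT.lf (nat_lit 76) (nat_lit 10807455744) (nat_lit 0) (nat_lit 11609347629) (nat_lit 1824) (nat_lit 873169172) (nat_lit 489) (nat_lit 5) (nat_lit 488) (nat_lit 5) (nat_lit 512) (nat_lit 5) (nat_lit 609) (nat_lit 607) (nat_lit 344)) (XT.lf (nat_lit 76) (nat_lit 22620983514) (nat_lit 0) (nat_lit 297076380) (nat_lit 1824) (nat_lit 603959382) (nat_lit 489) (nat_lit 5) (nat_lit 488) (nat_lit 5) (nat_lit 512) (nat_lit 5) (nat_lit 610) (nat_lit 607) (nat_lit 343)))) (XT.nd (nat_lit 78) (nat_lit 1824) (nat_lit 0) (XT.lf (nat_lit 76) (nat_lit 10981351118) (nat_lit 0) (nat_lit 12589105799) (nat_lit 1824) (nat_lit 185428015) (nat_lit 490) (nat_lit 5) (nat_lit 489) (nat_lit 5) (nat_lit 513) (nat_lit 5) (nat_lit 611) (nat_lit 607) (nat_lit 342)) (XT.nd (nat_lit 78) (nat_lit 0) (nat_lit 76) (XT.lf (nat_lit 0) (nat_lit 243220994) (nat_lit 1824) (nat_lit 886072431) (nat_lit 1900) (nat_lit 22865005125) (nat_lit 465) (nat_lit 5) (nat_lit 489) (nat_lit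 5) (nat_lit 490) (nat_lit 5) (nat_lit 612) (nat_lit 607) (nat_lit 341)) (XT.lf (nat_lit 0) (nat_lit 817879904) (nat_lit 1824) (nat_lit 12918594455) (nat_lit 1900) (nat_lit 10498183453) (nat_lit 466) (nat_lit 5) (nat_lit 490) (nat_lit 5) (nat_lit 491) (nat_lit 5) (nat_lit 613) (nat_lit 607) (nat_lit 340))))) (XT.nd (nat_lit 234) (nat_lit 0) (nat_lit 152) (XT.nd (nat_lit 78) (nat_lit 0) (nat_lit 76) (XT.lf (nat_lit 0) (nat_lit 1414475234) (nat_lit 1824) (nat_lit 714782975) (nat_lit 1900) (nat_lit 22350357460) (nat_lit 466) (nat_lit 5) (nat_lit 490) (nat_lit 5) (nat_lit 491) (nat_lit 5) (nat_lit 614) (nat_lit 607) (nat_lit 339)) (XT.nd (nat_lit 78) (nat_lit 0) (nat_lit 0) (XT.lf (nat_lit 0) (nat_lit 2160783825) (nat_lit 1824) (nat_lit 12904320691) (nat_lit 1900) (nat_lit 9661612810) (nat_lit 467) (nat_lit 5) (nat_lit 491) (nat_lit 5) (nat_lit 492) (nat_lit 5) (nat_lit 615) (nat_lit 607) (nat_lit 338)) (XT.lf (nat_lit 0) (nat_lit 2938040371) (nat_lit 1824) (nat_lit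 374620096) (nat_lit 1900) (nat_lit 21665780377) (nat_lit 467) (nat_lit 5) (nat_lit 491) (nat_lit 5) (nat_lit 492) (nat_lit 5) (nat_lit 616) (nat_lit 607) (nat_lit 337)))) (XT.nd (nat_lit 156) (nat_lit 0) (nat_lit 76) (XT.nd (nat_lit 78) (nat_lit 0) (nat_lit 0) (XT.lf (nat_lit 0) (nat_lit 3866465976) (nat_lit 1824) (nat_lit 12721773727) (nat_lit 1900) (nat_lit 8644246910) (nat_lit 468) (nat_lit 5) (nat_lit 492) (nat_lit 5) (nat_lit 493) (nat_lit 5) (nat_lit 617) (nat_lit 607) (nat_lit 336)) (XT.lf (nat_lit 76) (nat_lit 145372963) (nat_lit 0) (nat_lit 4690700050) (nat_lit 1900) (nat_lit 20655088280) (nat_lit 469) (nat_lit 5) (nat_lit 468) (nat_lit 5) (nat_lit 493) (nat_lit 5) (nat_lit 618) (nat_lit 607) (nat_lit 335))) (XT.nd (nat_lit 78) (nat_lit 0) (nat_lit 0) (XT.lf (nat_lit 0) (nat_lit 5956593213) (nat_lit 1824) (nat_lit 12361790011) (nat_lit 1900) (nat_lit 7433996072) (nat_lit 469) (nat_lit 5) (nat_lit 493) (nat_lit 5) (nat_lit 494) (nat_lit 5) (nat_lit 619)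 (nat_lit 607) (nat_lit 334)) (XT.lf (nat_lit 76) (nat_lit 860247873) (nat_lit 0) (nat_lit 6273228758) (nat_lit 1900) (nat_lit 18884666214) (nat_lit 470) (nat_lit 5) (nat_lit 469) (nat_lit 5) (nat_lit 494) (nat_lit 5) (nat_lit 620) (nat_lit 607) (nat_lit 333)))))) (XT.nd (nat_lit 546) (nat_lit 2584) (nat_lit 0) (XT.nd (nat_lit 234) (nat_lit 0) (nat_lit 76) (XT.nd (nat_lit 78) (nat_lit 0) (nat_lit 0) (XT.lf (nat_lit 0) (nat_lit 8453789898) (nat_lit 1824) (nat_lit 11814762244) (nat_lit 1900) (nat_lit 6018271921) (nat_lit 470) (nat_lit 5) (nat_lit 494) (nat_lit 5) (nat_lit 495) (nat_lit 5) (nat_lit 621) (nat_lit 607) (nat_lit 332)) (XT.nd (nat_lit 78) (nat_lit 0) (nat_lit 76) (XT.lf (nat_lit 76) (nat_lit 1775101853) (nat_lit 0) (nat_lit 8075878670) (nat_lit 1900) (nat_lit 16708889192) (nat_lit 471) (nat_lit 5) (nat_lit 470) (nat_lit 5) (nat_lit 495) (nat_lit 5) (nat_lit 622) (nat_lit 607) (nat_lit 331)) (XT.lf (nat_lit 0) (nat_lit 11381680389) (nat_lit 1824) (nat_lit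 11070623664) (nat_lit 1900) (nat_lit 4383961151) (nat_lit 471) (nat_lit 5) (nat_lit 495) (nat_lit 5) (nat_lit 496) (nat_lit 5) (nat_lit 623) (nat_lit 607) (nat_lit 330)))) (XT.nd (nat_lit 156) (nat_lit 0) (nat_lit 76) (XT.nd (nat_lit 78) (nat_lit 0) (nat_lit 76) (XT.lf (nat_lit 76) (nat_lit 2900487452) (nat_lit 0) (nat_lit 10112316306) (nat_lit 1900) (nat_lit 14103988880) (nat_lit 472) (nat_lit 5) (nat_lit 471) (nat_lit 5) (nat_lit 496) (nat_lit 5) (nat_lit 624) (nat_lit 607) (nat_lit 329)) (XT.lf (nat_lit 0) (nat_lit 14764933148) (nat_lit 1824) (nat_lit 10118831644) (nat_lit 1900) (nat_lit 2517398378) (nat_lit 472) (nat_lit 5) (nat_lit 496) (nat_lit 5) (nat_lit 497) (nat_lit 5) (nat_lit 625) (nat_lit 607) (nat_lit 328))) (XT.nd (nat_lit 78) (nat_lit 0) (nat_lit 76) (XT.lf (nat_lit 76) (nat_lit 4247451086) (nat_lit 0) (nat_lit 12396784554) (nat_lit 1900) (nat_lit 11045143080) (nat_lit 473) (nat_lit 5) (nat_lit 472) (nat_lit 5) (nat_lit 497) (nat_lit 5) (nat_lit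 626) (nat_lit 607) (nat_lit 327)) (XT.lf (nat_lit 0) (nat_lit 18629306509) (nat_lit 1824) (nat_lit 8948350604) (nat_lit 1900) (nat_lit 404338033) (nat_lit 473) (nat_lit 5) (nat_lit 497) (nat_lit 5) (nat_lit 498) (nat_lit 5) (nat_lit 627) (nat_lit 607) (nat_lit 326))))) (XT.nd (nat_lit 234) (nat_lit 2812) (nat_lit 0) (XT.nd (nat_lit 78) (nat_lit 0) (nat_lit 0) (XT.lf (nat_lit 76) (nat_lit 5827550802) (nat_lit 0) (nat_lit 14944131707) (nat_lit 1900) (nat_lit 7506429525) (nat_lit 474) (nat_lit 5) (nat_lit 473) (nat_lit 5) (nat_lit 498) (nat_lit 5) (nat_lit 628) (nat_lit 607) (nat_lit 325)) (XT.nd (nat_lit 78) (nat_lit 0) (nat_lit 76) (XT.lf (nat_lit 76) (nat_lit 21018401214) (nat_lit 0) (nat_lit 1996256016) (nat_lit 1900) (nat_lit 5564339211) (nat_lit 474) (nat_lit 5) (nat_lit 473) (nat_lit 5) (nat_lit 498) (nat_lit 5) (nat_lit 629) (nat_lit 607) (nat_lit 324)) (XT.lf (nat_lit 76) (nat_lit 7652874766) (nat_lit 0) (nat_lit 17769841559) (nat_lit 1900) (nat_lit 3460777913)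 (nat_lit 475) (nat_lit 5) (nat_lit 474) (nat_lit 5) (nat_lit 499) (nat_lit 5) (nat_lit 630) (nat_lit 607) (nat_lit 323)))) (XT.nd (nat_lit 156) (nat_lit 1064) (nat_lit 0) (XT.nd (nat_lit 78) (nat_lit 1824) (nat_lit 0) (XT.lf (nat_lit 76) (nat_lit 23257838787) (nat_lit 0) (nat_lit 4682749480) (nat_lit 1900) (nat_lit 1252260888) (nat_lit 475) (nat_lit 5) (nat_lit 474) (nat_lit 5) (nat_lit 499) (nat_lit 5) (nat_lit 631) (nat_lit 607) (nat_lit 322)) (XT.lf (nat_lit 0) (nat_lit 1105389857) (nat_lit 1900) (nat_lit 19777257019) (nat_lit 76) (nat_lit 8623252892) (nat_lit 450) (nat_lit 5) (nat_lit 475) (nat_lit 5) (nat_lit 451) (nat_lit 5) (nat_lit 632) (nat_lit 607) (nat_lit 321))) (XT.nd (nat_lit 78) (nat_lit 1064) (nat_lit 0) (XT.lf (nat_lit 0) (nat_lit 3562388566) (nat_lit 1900) (nat_lit 4079854883) (nat_lit 76) (nat_lit 22181423325) (nat_lit 450) (nat_lit 5) (nat_lit 475) (nat_lit 5) (nat_lit 451) (nat_lit 5) (nat_lit 633) (nat_lit 607) (nat_lit 320)) (XT.lf (nat_lit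 0) (nat_lit 6183486380) (nat_lit 1140) (nat_lit 18096669698) (nat_lit 76) (nat_lit 5865334040) (nat_lit 436) (nat_lit 5) (nat_lit 451) (nat_lit 5) (nat_lit 437) (nat_lit 5) (nat_lit 634) (nat_lit 607) (nat_lit 319))))))) (XT.nd (nat_lit 1092) (nat_lit 4864) (nat_lit 0) (XT.nd (nat_lit 546) (nat_lit 3268) (nat_lit 0) (XT.nd (nat_lit 234) (nat_lit 1672) (nat_lit 0) (XT.nd (nat_lit 78) (nat_lit 1824) (nat_lit 0) (XT.lf (nat_lit 0) (nat_lit 8933094287) (nat_lit 1140) (nat_lit 1970507099) (nat_lit 76) (nat_lit 19568626959) (nat_lit 436) (nat_lit 5) (nat_lit 451) (nat_lit 5) (nat_lit 437) (nat_lit 5) (nat_lit 635) (nat_lit 607) (nat_lit 318)) (XT.nd (nat_lit 78) (nat_lit 912) (nat_lit 0) (XT.lf (nat_lit 0) (nat_lit 11849317178) (nat_lit 988) (nat_lit 16153349313) (nat_lit 76) (nat_lit 2800602563) (nat_lit 424) (nat_lit 5) (nat_lit 437) (nat_lit 5) (nat_lit 425) (nat_lit 5) (nat_lit 636) (nat_lit 607) (nat_lit 317)) (XT.lf (nat_lit 0) (nat_lit 420135319) (nat_lit 912)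 (nat_lit 14489965040) (nat_lit 988) (nat_lit 16229105672) (nat_lit 412) (nat_lit 5) (nat_lit 424) (nat_lit 5) (nat_lit 425) (nat_lit 5) (nat_lit 637) (nat_lit 607) (nat_lit 316)))) (XT.nd (nat_lit 156) (nat_lit 836) (nat_lit 0) (XT.nd (nat_lit 78) (nat_lit 836) (nat_lit 0) (XT.lf (nat_lit 0) (nat_lit 17542187171) (nat_lit 912) (nat_lit 596324891) (nat_lit 988) (nat_lit 13341221597) (nat_lit 412) (nat_lit 5) (nat_lit 424) (nat_lit 5) (nat_lit 425) (nat_lit 5) (nat_lit 638) (nat_lit 607) (nat_lit 315)) (XT.lf (nat_lit 0) (nat_lit 3130659624) (nat_lit 836) (nat_lit 18407352874) (nat_lit 912) (nat_lit 10286929094) (nat_lit 401) (nat_lit 5) (nat_lit 412) (nat_lit 5) (nat_lit 413) (nat_lit 5) (nat_lit 639) (nat_lit 607) (nat_lit 314))) (XT.nd (nat_lit 78) (nat_lit 836) (nat_lit 0) (XT.lf (nat_lit 0) (nat_lit 20723298975) (nat_lit 836) (nat_lit 4377736571) (nat_lit 912) (nat_lit 7074107648) (nat_lit 401) (nat_lit 5) (nat_lit 412) (nat_lit 5) (nat_lit 413) (nat_lit 5)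 (nat_lit 640) (nat_lit 607) (nat_lit 313)) (XT.lf (nat_lit 0) (nat_lit 6149751055) (nat_lit 836) (nat_lit 22688103622) (nat_lit 912) (nat_lit 3692443596) (nat_lit 390) (nat_lit 5) (nat_lit 401) (nat_lit 5) (nat_lit 402) (nat_lit 5) (nat_lit 641) (nat_lit 607) (nat_lit 312))))) (XT.nd (nat_lit 234) (nat_lit 2356) (nat_lit 0) (XT.nd (nat_lit 78) (nat_lit 912) (nat_lit 0) (XT.lf (nat_lit 0) (nat_lit 24227388183) (nat_lit 836) (nat_lit 8525814864) (nat_lit 912) (nat_lit 137277705) (nat_lit 390) (nat_lit 5) (nat_lit 401) (nat_lit 5) (nat_lit 402) (nat_lit 5) (nat_lit 642) (nat_lit 607) (nat_lit 311)) (XT.nd (nat_lit 78) (nat_lit 0) (nat_lit 0) (XT.lf (nat_lit 0) (nat_lit 3542132930) (nat_lit 912) (nat_lit 23786273925) (nat_lit 76) (nat_lit 5927029113) (nat_lit 378) (nat_lit 5) (nat_lit 390) (nat_lit 5) (nat_lit 379) (nat_lit 5) (nat_lit 643) (nat_lit 607) (nat_lit 310)) (XT.lf (nat_lit 0) (nat_lit 7406468841) (nat_lit 912) (nat_lit 5604650163) (nat_lit 76) (nat_lit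 20614289778) (nat_lit 378) (nat_lit 5) (nat_lit 390) (nat_lit 5) (nat_lit 379) (nat_lit 5) (nat_lit 644) (nat_lit 607) (nat_lit 309)))) (XT.nd (nat_lit 156) (nat_lit 1520) (nat_lit 0) (XT.nd (nat_lit 78) (nat_lit 0) (nat_lit 0) (XT.lf (nat_lit 0) (nat_lit 11442345809) (nat_lit 912) (nat_lit 20901283434) (nat_lit 76) (nat_lit 1657266866) (nat_lit 367) (nat_lit 5) (nat_lit 379) (nat_lit 5) (nat_lit 368) (nat_lit 5) (nat_lit 645) (nat_lit 607) (nat_lit 308)) (XT.lf (nat_lit 0) (nat_lit 15681216187) (nat_lit 912) (nat_lit 2217467768) (nat_lit 76) (nat_lit 16482763850) (nat_lit 367) (nat_lit 5) (nat_lit 379) (nat_lit 5) (nat_lit 368) (nat_lit 5) (nat_lit 646) (nat_lit 607) (nat_lit 307))) (XT.nd (nat_lit 78) (nat_lit 760) (nat_lit 0) (XT.lf (nat_lit 0) (nat_lit 17061986761) (nat_lit 760) (nat_lit 3051939547) (nat_lit 836) (nat_lit 14653503119) (nat_lit 357) (nat_lit 5) (nat_lit 367) (nat_lit 5) (nat_lit 368) (nat_lit 5) (nat_lit 647) (nat_lit 607) (nat_lit 306)) (XT.lf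 (nat_lit 0) (nat_lit 1535964063) (nat_lit 760) (nat_lit 23201091484) (nat_lit 836) (nat_lit 10422039969) (nat_lit 347) (nat_lit 5) (nat_lit 357) (nat_lit 5) (nat_lit 358) (nat_lit 5) (nat_lit 648) (nat_lit 607) (nat_lit 305)))))) (XT.nd (nat_lit 546) (nat_lit 2660) (nat_lit 0) (XT.nd (nat_lit 234) (nat_lit 1444) (nat_lit 0) (XT.nd (nat_lit 78) (nat_lit 760) (nat_lit 0) (XT.lf (nat_lit 0) (nat_lit 21379902870) (nat_lit 760) (nat_lit 8209963207) (nat_lit 836) (nat_lit 5965984609) (nat_lit 347) (nat_lit 5) (nat_lit 357) (nat_lit 5) (nat_lit 358) (nat_lit 5) (nat_lit 649) (nat_lit 607) (nat_lit 304)) (XT.nd (nat_lit 78) (nat_lit 76) (nat_lit 0) (XT.lf (nat_lit 0) (nat_lit 5686976516) (nat_lit 684) (nat_lit 28934013584) (nat_lit 760) (nat_lit 1337925843) (nat_lit 338) (nat_lit 5) (nat_lit 347) (nat_lit 5) (nat_lit 348) (nat_lit 5) (nat_lit 650) (nat_lit 607) (nat_lit 303)) (XT.lf (nat_lit 0) (nat_lit 3486826937) (nat_lit 760) (nat_lit 10307609299) (nat_lit 76) (nat_lit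 22572197189) (nat_lit 337) (nat_lit 5) (nat_lit 347) (nat_lit 5) (nat_lit 338) (nat_lit 5) (nat_lit 651) (nat_lit 607) (nat_lit 302)))) (XT.nd (nat_lit 156) (nat_lit 684) (nat_lit 0) (XT.nd (nat_lit 78) (nat_lit 0) (nat_lit 0) (XT.lf (nat_lit 0) (nat_lit 8465859959) (nat_lit 836) (nat_lit 26613376793) (nat_lit 76) (nat_lit 1701577754) (nat_lit 327) (nat_lit 5) (nat_lit 338) (nat_lit 5) (nat_lit 328) (nat_lit 5) (nat_lit 652) (nat_lit 607) (nat_lit 301)) (XT.lf (nat_lit 0) (nat_lit 13703874414) (nat_lit 836) (nat_lit 6103806745) (nat_lit 76) (nat_lit 17392410152) (nat_lit 327) (nat_lit 5) (nat_lit 338) (nat_lit 5) (nat_lit 328) (nat_lit 5) (nat_lit 653) (nat_lit 607) (nat_lit 300))) (XT.nd (nat_lit 78) (nat_lit 0) (nat_lit 0) (XT.lf (nat_lit 0) (nat_lit 15011055840) (nat_lit 684) (nat_lit 4131505375) (nat_lit 760) (nat_lit 18483274315) (nat_lit 318) (nat_lit 5) (nat_lit 327) (nat_lit 5) (nat_lit 328) (nat_lit 5) (nat_lit 654) (nat_lit 607) (nat_lit 299)) (XT.lf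 (nat_lit 0) (nat_lit 24806711822) (nat_lit 760) (nat_lit 1507372718) (nat_lit 76) (nat_lit 11743676407) (nat_lit 318) (nat_lit 5) (nat_lit 328) (nat_lit 5) (nat_lit 319) (nat_lit 5) (nat_lit 655) (nat_lit 607) (nat_lit 298))))) (XT.nd (nat_lit 234) (nat_lit 1292) (nat_lit 0) (XT.nd (nat_lit 78) (nat_lit 684) (nat_lit 0) (XT.lf (nat_lit 0) (nat_lit 20258764709) (nat_lit 684) (nat_lit 10482772872) (nat_lit 760) (nat_lit 7753639560) (nat_lit 309) (nat_lit 5) (nat_lit 318) (nat_lit 5) (nat_lit 319) (nat_lit 5) (nat_lit 656) (nat_lit 607) (nat_lit 297)) (XT.nd (nat_lit 78) (nat_lit 76) (nat_lit 0) (XT.lf (nat_lit 0) (nat_lit 3547423829) (nat_lit 608) (nat_lit 33316146819) (nat_lit 684) (nat_lit 2076400907) (nat_lit 301) (nat_lit 5) (nat_lit 309) (nat_lit 5) (nat_lit 310) (nat_lit 5) (nat_lit 657) (nat_lit 607) (nat_lit 296)) (XT.lf (nat_lit 0) (nat_lit 3856798607) (nat_lit 684) (nat_lit 13473205894) (nat_lit 76) (nat_lit 22059352520) (nat_lit 300) (nat_lit 5) (nat_lit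 309) (nat_lit 5) (nat_lit 301) (nat_lit 5) (nat_lit 658) (nat_lit 607) (nat_lit 295)))) (XT.nd (nat_lit 156) (nat_lit 608) (nat_lit 0) (XT.nd (nat_lit 78) (nat_lit 0) (nat_lit 0) (XT.lf (nat_lit 0) (nat_lit 8986892630) (nat_lit 684) (nat_lit 950892491) (nat_lit 760) (nat_lit 29908532158) (nat_lit 291) (nat_lit 5) (nat_lit 300) (nat_lit 5) (nat_lit 301) (nat_lit 5) (nat_lit 659) (nat_lit 607) (nat_lit 294)) (XT.lf (nat_lit 0) (nat_lit 16332265911) (nat_lit 760) (nat_lit 8336437560) (nat_lit 76) (nat_lit 15639875883) (nat_lit 291) (nat_lit 5) (nat_lit 301) (nat_lit 5) (nat_lit 292) (nat_lit 5) (nat_lit 660) (nat_lit 607) (nat_lit 293))) (XT.nd (nat_lit 77064) (nat_lit 0) (nat_lit 15580) (XT.lf (nat_lit 0) (nat_lit 14823398837) (nat_lit 608) (nat_lit 8132372598) (nat_lit 684) (nat_lit 17822292633) (nat_lit 283) (nat_lit 5) (nat_lit 291) (nat_lit 5) (nat_lit 292) (nat_lit 5) (nat_lit 661) (nat_lit 607) (nat_lit 292)) (XT.lf (nat_lit 0) (nat_lit 5566270338) (nat_lit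 0) (nat_lit 5566270338) (nat_lit 1748) (nat_lit 511636024) (nat_lit 488) (nat_lit 5) (nat_lit 488) (nat_lit 3) (nat_lit 511) (nat_lit 3) (nat_lit 608) (nat_lit 608) (nat_lit 344))))))))
noncomputable def xc236 : XT := (XT.nd (nat_lit 2106) (nat_lit 11020) (nat_lit 0) (XT.nd (nat_lit 1014) (nat_lit 2204) (nat_lit 0) (XT.nd (nat_lit 468) (nat_lit 0) (nat_lit 76) (XT.nd (nat_lit 234) (nat_lit 1748) (nat_lit 0) (XT.nd (nat_lit 78) (nat_lit 0) (nat_lit 0) (XT.lf (nat_lit 0) (nat_lit 22610600722) (nat_lit 1748) (nat_lit 652717925) (nat_lit 1824) (nat_lit 255449574) (nat_lit 488) (nat_lit 5) (nat_lit 511) (nat_lit 3) (nat_lit 512) (nat_lit 5) (nat_lit 609) (nat_lit 608) (nat_lit 343)) (XT.nd (nat_lit 78) (nat_lit 0) (nat_lit 0) (XT.lf (nat_lit 76) (nat_lit 11151301059) (nat_lit 0) (nat_lit 11954688011) (nat_lit 1824) (nat_lit 644943393) (nat_lit 489) (nat_lit 5) (nat_lit 488) (nat_lit 5) (nat_lit 512) (nat_lit 5) (nat_lit 610) (nat_lit 608) (nat_lit 342)) (XT.lf (nat_lit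 76) (nat_lit 23198595538) (nat_lit 0) (nat_lit 413952642) (nat_lit 1824) (nat_lit 375166841) (nat_lit 489) (nat_lit 5) (nat_lit 488) (nat_lit 5) (nat_lit 512) (nat_lit 5) (nat_lit 611) (nat_lit 608) (nat_lit 341)))) (XT.nd (nat_lit 78) (nat_lit 0) (nat_lit 0) (XT.lf (nat_lit 0) (nat_lit 46533102) (nat_lit 1824) (nat_lit 12895878622) (nat_lit 1900) (nat_lit 11283930444) (nat_lit 465) (nat_lit 5) (nat_lit 489) (nat_lit 5) (nat_lit 490) (nat_lit 5) (nat_lit 612) (nat_lit 608) (nat_lit 340)) (XT.nd (nat_lit 78) (nat_lit 0) (nat_lit 76) (XT.lf (nat_lit 0) (nat_lit 476702196) (nat_lit 1824) (nat_lit 773482244) (nat_lit 1900) (nat_lit 23219406922) (nat_lit 465) (nat_lit 5) (nat_lit 489) (nat_lit 5) (nat_lit 490) (nat_lit 5) (nat_lit 613) (nat_lit 608) (nat_lit 339)) (XT.lf (nat_lit 0) (nat_lit 1058591924) (nat_lit 1824) (nat_lit 13042371934) (nat_lit 1900) (nat_lit 10613879607) (nat_lit 466) (nat_lit 5) (nat_lit 490) (nat_lit 5) (nat_lit 491) (nat_lit 5) (nat_lit 614)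 (nat_lit 608) (nat_lit 338))))) (XT.nd (nat_lit 234) (nat_lit 0) (nat_lit 152) (XT.nd (nat_lit 78) (nat_lit 0) (nat_lit 76) (XT.lf (nat_lit 0) (nat_lit 1662720055) (nat_lit 1824) (nat_lit 597123331) (nat_lit 1900) (nat_lit 22704945476) (nat_lit 466) (nat_lit 5) (nat_lit 490) (nat_lit 5) (nat_lit 491) (nat_lit 5) (nat_lit 615) (nat_lit 608) (nat_lit 337)) (XT.nd (nat_lit 78) (nat_lit 0) (nat_lit 0) (XT.lf (nat_lit 0) (nat_lit 2419938558) (nat_lit 1824) (nat_lit 13026415919) (nat_lit 1900) (nat_lit 9770558792) (nat_lit 467) (nat_lit 5) (nat_lit 491) (nat_lit 5) (nat_lit 492) (nat_lit 5) (nat_lit 616) (nat_lit 608) (nat_lit 336)) (XT.lf (nat_lit 0) (nat_lit 3208506136) (nat_lit 1824) (nat_lit 248787807) (nat_lit 1900) (nat_lit 22016462381) (nat_lit 467) (nat_lit 5) (nat_lit 491) (nat_lit 5) (nat_lit 492) (nat_lit 5) (nat_lit 617) (nat_lit 608) (nat_lit 335)))) (XT.nd (nat_lit 156) (nat_lit 0) (nat_lit 76) (XT.nd (nat_lit 78) (nat_lit 0) (nat_lit 0) (XT.lf (nat_lit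 0) (nat_lit 4151715889) (nat_lit 1824) (nat_lit 12839081287) (nat_lit 1900) (nat_lit 8742161897) (nat_lit 468) (nat_lit 5) (nat_lit 492) (nat_lit 5) (nat_lit 493) (nat_lit 5) (nat_lit 618) (nat_lit 608) (nat_lit 334)) (XT.lf (nat_lit 76) (nat_lit 284506179) (nat_lit 0) (nat_lit 4853016481) (nat_lit 1900) (nat_lit 20859348804) (nat_lit 469) (nat_lit 5) (nat_lit 468) (nat_lit 5) (nat_lit 493) (nat_lit 5) (nat_lit 619) (nat_lit 608) (nat_lit 333))) (XT.nd (nat_lit 78) (nat_lit 0) (nat_lit 0) (XT.lf (nat_lit 0) (nat_lit 6276002944) (nat_lit 1824) (nat_lit 12471002699) (nat_lit 1900) (nat_lit 7516397554) (nat_lit 469) (nat_lit 5) (nat_lit 493) (nat_lit 5) (nat_lit 494) (nat_lit 5) (nat_lit 620) (nat_lit 608) (nat_lit 332)) (XT.lf (nat_lit 76) (nat_lit 1014567896) (nat_lit 0) (nat_lit 6458819359) (nat_lit 1900) (nat_lit 19061155852) (nat_lit 470) (nat_lit 5) (nat_lit 469) (nat_lit 5) (nat_lit 494) (nat_lit 5) (nat_lit 621) (nat_lit 608) (nat_lit 331)))))) (XT.nd (nat_lit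 546) (nat_lit 2584) (nat_lit 0) (XT.nd (nat_lit 234) (nat_lit 0) (nat_lit 76) (XT.nd (nat_lit 78) (nat_lit 0) (nat_lit 0) (XT.lf (nat_lit 0) (nat_lit 8815856591) (nat_lit 1824) (nat_lit 11912363334) (nat_lit 1900) (nat_lit 6080463376) (nat_lit 470) (nat_lit 5) (nat_lit 494) (nat_lit 5) (nat_lit 495) (nat_lit 5) (nat_lit 622) (nat_lit 608) (nat_lit 330)) (XT.nd (nat_lit 78) (nat_lit 0) (nat_lit 76) (XT.lf (nat_lit 76) (nat_lit 1948385584) (nat_lit 0) (nat_lit 8289715881) (nat_lit 1900) (nat_lit 16849146537) (nat_lit 471) (nat_lit 5) (nat_lit 470) (nat_lit 5) (nat_lit 495) (nat_lit 5) (nat_lit 623) (nat_lit 608) (nat_lit 329)) (XT.lf (nat_lit 0) (nat_lit 11795354818) (nat_lit 1824) (nat_lit 11152878788) (nat_lit 1900) (nat_lit 4421019339) (nat_lit 471) (nat_lit 5) (nat_lit 495) (nat_lit 5) (nat_lit 496) (nat_lit 5) (nat_lit 624) (nat_lit 608) (nat_lit 328)))) (XT.nd (nat_lit 156) (nat_lit 0) (nat_lit 76) (XT.nd (nat_lit 78) (nat_lit 0) (nat_lit 76) (XT.lf (nat_lit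 76) (nat_lit 3096739041) (nat_lit 0) (nat_lit 10359611311) (nat_lit 1900) (nat_lit 14199095909) (nat_lit 472) (nat_lit 5) (nat_lit 471) (nat_lit 5) (nat_lit 496) (nat_lit 5) (nat_lit 625) (nat_lit 608) (nat_lit 327)) (XT.lf (nat_lit 0) (nat_lit 15239641647) (nat_lit 1824) (nat_lit 10181780282) (nat_lit 1900) (nat_lit 2524160211) (nat_lit 472) (nat_lit 5) (nat_lit 496) (nat_lit 5) (nat_lit 497) (nat_lit 5) (nat_lit 626) (nat_lit 608) (nat_lit 326))) (XT.nd (nat_lit 78) (nat_lit 0) (nat_lit 76) (XT.lf (nat_lit 76) (nat_lit 4470910813) (nat_lit 0) (nat_lit 12683000839) (nat_lit 1900) (nat_lit 11085703034) (nat_lit 473) (nat_lit 5) (nat_lit 472) (nat_lit 5) (nat_lit 497) (nat_lit 5) (nat_lit 627) (nat_lit 608) (nat_lit 325)) (XT.lf (nat_lit 0) (nat_lit 19174973773) (nat_lit 1824) (nat_lit 8987797169) (nat_lit 1900) (nat_lit 375387012) (nat_lit 473) (nat_lit 5) (nat_lit 497) (nat_lit 5) (nat_lit 498) (nat_lit 5) (nat_lit 628) (nat_lit 608) (nat_lit 324))))) (XT.nd (nat_lit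 234) (nat_lit 2812) (nat_lit 0) (XT.nd (nat_lit 78) (nat_lit 0) (nat_lit 0) (XT.lf (nat_lit 76) (nat_lit 6082704368) (nat_lit 0) (nat_lit 15274999078) (nat_lit 1900) (nat_lit 7482543916) (nat_lit 474) (nat_lit 5) (nat_lit 473) (nat_lit 5) (nat_lit 498) (nat_lit 5) (nat_lit 629) (nat_lit 608) (nat_lit 323)) (XT.nd (nat_lit 78) (nat_lit 0) (nat_lit 76) (XT.lf (nat_lit 76) (nat_lit 21574654091) (nat_lit 0) (nat_lit 2067538721) (nat_lit 1900) (nat_lit 5505023838) (nat_lit 474) (nat_lit 5) (nat_lit 473) (nat_lit 5) (nat_lit 498) (nat_lit 5) (nat_lit 630) (nat_lit 608) (nat_lit 322)) (XT.lf (nat_lit 76) (nat_lit 7944463006) (nat_lit 0) (nat_lit 18151370651) (nat_lit 1900) (nat_lit 3362022627) (nat_lit 475) (nat_lit 5) (nat_lit 474) (nat_lit 5) (nat_lit 499) (nat_lit 5) (nat_lit 631) (nat_lit 608) (nat_lit 321)))) (XT.nd (nat_lit 156) (nat_lit 1064) (nat_lit 0) (XT.nd (nat_lit 78) (nat_lit 1824) (nat_lit 0) (XT.lf (nat_lit 76) (nat_lit 23858810018) (nat_lit 0) (nat_lit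 4802024334) (nat_lit 1900) (nat_lit 1112628807) (nat_lit 475) (nat_lit 5) (nat_lit 474) (nat_lit 5) (nat_lit 499) (nat_lit 5) (nat_lit 632) (nat_lit 608) (nat_lit 320)) (XT.lf (nat_lit 0) (nat_lit 1287568335) (nat_lit 1900) (nat_lit 20032353335) (nat_lit 76) (nat_lit 8772880940) (nat_lit 450) (nat_lit 5) (nat_lit 475) (nat_lit 5) (nat_lit 451) (nat_lit 5) (nat_lit 633) (nat_lit 608) (nat_lit 319))) (XT.nd (nat_lit 78) (nat_lit 1064) (nat_lit 0) (XT.lf (nat_lit 0) (nat_lit 3790568378) (nat_lit 1900) (nat_lit 4023757055) (nat_lit 76) (nat_lit 22602662566) (nat_lit 450) (nat_lit 5) (nat_lit 475) (nat_lit 5) (nat_lit 451) (nat_lit 5) (nat_lit 634) (nat_lit 608) (nat_lit 318)) (XT.lf (nat_lit 0) (nat_lit 6461782605) (nat_lit 1140) (nat_lit 18318589418) (nat_lit 76) (nat_lit 5964922162) (nat_lit 436) (nat_lit 5) (nat_lit 451) (nat_lit 5) (nat_lit 437) (nat_lit 5) (nat_lit 635) (nat_lit 608) (nat_lit 317))))))) (XT.nd (nat_lit 1014) (nat_lit 5016) (nat_lit 0) (XT.nd (nat_lit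 468) (nat_lit 3344) (nat_lit 0) (XT.nd (nat_lit 234) (nat_lit 836) (nat_lit 0) (XT.nd (nat_lit 78) (nat_lit 1824) (nat_lit 0) (XT.lf (nat_lit 0) (nat_lit 9263350778) (nat_lit 1140) (nat_lit 1872648933) (nat_lit 76) (nat_lit 19942628362) (nat_lit 436) (nat_lit 5) (nat_lit 451) (nat_lit 5) (nat_lit 437) (nat_lit 5) (nat_lit 636) (nat_lit 608) (nat_lit 316)) (XT.nd (nat_lit 78) (nat_lit 912) (nat_lit 0) (XT.lf (nat_lit 0) (nat_lit 12235725729) (nat_lit 988) (nat_lit 16336962900) (nat_lit 76) (nat_lit 2843644669) (nat_lit 424) (nat_lit 5) (nat_lit 437) (nat_lit 5) (nat_lit 425) (nat_lit 5) (nat_lit 637) (nat_lit 608) (nat_lit 315)) (XT.lf (nat_lit 0) (nat_lit 567073967) (nat_lit 912) (nat_lit 14788620226) (nat_lit 988) (nat_lit 16403335678) (nat_lit 412) (nat_lit 5) (nat_lit 424) (nat_lit 5) (nat_lit 425) (nat_lit 5) (nat_lit 638) (nat_lit 608) (nat_lit 314)))) (XT.nd (nat_lit 78) (nat_lit 836) (nat_lit 0) (XT.lf (nat_lit 0) (nat_lit 18028850465) (nat_lit 912) (nat_lit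 616933629) (nat_lit 988) (nat_lit 13460642002) (nat_lit 412) (nat_lit 5) (nat_lit 424) (nat_lit 5) (nat_lit 425) (nat_lit 5) (nat_lit 639) (nat_lit 608) (nat_lit 313)) (XT.nd (nat_lit 78) (nat_lit 0) (nat_lit 0) (XT.lf (nat_lit 0) (nat_lit 3331137960) (nat_lit 836) (nat_lit 18780143058) (nat_lit 912) (nat_lit 10347297280) (nat_lit 401) (nat_lit 5) (nat_lit 412) (nat_lit 5) (nat_lit 413) (nat_lit 5) (nat_lit 640) (nat_lit 608) (nat_lit 312)) (XT.lf (nat_lit 0) (nat_lit 21272926860) (nat_lit 836) (nat_lit 4469843388) (nat_lit 912) (nat_lit 7073069805) (nat_lit 401) (nat_lit 5) (nat_lit 412) (nat_lit 5) (nat_lit 413) (nat_lit 5) (nat_lit 641) (nat_lit 608) (nat_lit 311))))) (XT.nd (nat_lit 234) (nat_lit 1596) (nat_lit 0) (XT.nd (nat_lit 78) (nat_lit 912) (nat_lit 0) (XT.lf (nat_lit 0) (nat_lit 6409835664) (nat_lit 836) (nat_lit 23142611708) (nat_lit 912) (nat_lit 3625688660) (nat_lit 390) (nat_lit 5) (nat_lit 401) (nat_lit 5) (nat_lit 402) (nat_lit 5) (nat_lit 642)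 (nat_lit 608) (nat_lit 310)) (XT.nd (nat_lit 78) (nat_lit 912) (nat_lit 0) (XT.lf (nat_lit 0) (nat_lit 24846337503) (nat_lit 836) (nat_lit 8697062547) (nat_lit 912) (nat_lit 2176388) (nat_lit 390) (nat_lit 5) (nat_lit 401) (nat_lit 5) (nat_lit 402) (nat_lit 5) (nat_lit 643) (nat_lit 608) (nat_lit 309)) (XT.lf (nat_lit 0) (nat_lit 3747232731) (nat_lit 912) (nat_lit 24123986237) (nat_lit 76) (nat_lit 6046629744) (nat_lit 378) (nat_lit 5) (nat_lit 390) (nat_lit 5) (nat_lit 379) (nat_lit 5) (nat_lit 644) (nat_lit 608) (nat_lit 308)))) (XT.nd (nat_lit 156) (nat_lit 760) (nat_lit 0) (XT.nd (nat_lit 78) (nat_lit 836) (nat_lit 0) (XT.lf (nat_lit 0) (nat_lit 7686222868) (nat_lit 912) (nat_lit 5581436140) (nat_lit 76) (nat_lit 21027614837) (nat_lit 378) (nat_lit 5) (nat_lit 390) (nat_lit 5) (nat_lit 379) (nat_lit 5) (nat_lit 645) (nat_lit 608) (nat_lit 307)) (XT.lf (nat_lit 0) (nat_lit 11801138442) (nat_lit 912) (nat_lit 21182312732) (nat_lit 76) (nat_lit 1694853531) (nat_lit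 367) (nat_lit 5) (nat_lit 379) (nat_lit 5) (nat_lit 368) (nat_lit 5) (nat_lit 646) (nat_lit 608) (nat_lit 306))) (XT.nd (nat_lit 78) (nat_lit 760) (nat_lit 0) (XT.lf (nat_lit 0) (nat_lit 16122238272) (nat_lit 912) (nat_lit 2127506956) (nat_lit 76) (nat_lit 16816773371) (nat_lit 367) (nat_lit 5) (nat_lit 379) (nat_lit 5) (nat_lit 368) (nat_lit 5) (nat_lit 647) (nat_lit 608) (nat_lit 305)) (XT.lf (nat_lit 0) (nat_lit 17536653045) (nat_lit 760) (nat_lit 3105317849) (nat_lit 836) (nat_lit 14818281792) (nat_lit 357) (nat_lit 5) (nat_lit 367) (nat_lit 5) (nat_lit 368) (nat_lit 5) (nat_lit 648) (nat_lit 608) (nat_lit 304)))))) (XT.nd (nat_lit 546) (nat_lit 2052) (nat_lit 0) (XT.nd (nat_lit 234) (nat_lit 1520) (nat_lit 0) (XT.nd (nat_lit 78) (nat_lit 684) (nat_lit 0) (XT.lf (nat_lit 0) (nat_lit 1701691391) (nat_lit 760) (nat_lit 23654330649) (nat_lit 836) (nat_lit 10503761067) (nat_lit 347) (nat_lit 5) (nat_lit 357) (nat_lit 5) (nat_lit 358) (nat_lit 5) (nat_lit 649) (nat_lit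 608) (nat_lit 303)) (XT.nd (nat_lit 78) (nat_lit 684) (nat_lit 0) (XT.lf (nat_lit 0) (nat_lit 21939861758) (nat_lit 760) (nat_lit 8363591230) (nat_lit 836) (nat_lit 5961069300) (nat_lit 347) (nat_lit 5) (nat_lit 357) (nat_lit 5) (nat_lit 358) (nat_lit 5) (nat_lit 650) (nat_lit 608) (nat_lit 302)) (XT.lf (nat_lit 0) (nat_lit 5934567221) (nat_lit 684) (nat_lit 29499180580) (nat_lit 760) (nat_lit 1241930271) (nat_lit 338) (nat_lit 5) (nat_lit 347) (nat_lit 5) (nat_lit 348) (nat_lit 5) (nat_lit 651) (nat_lit 608) (nat_lit 301)))) (XT.nd (nat_lit 156) (nat_lit 684) (nat_lit 0) (XT.nd (nat_lit 78) (nat_lit 760) (nat_lit 0) (XT.lf (nat_lit 0) (nat_lit 3675332246) (nat_lit 760) (nat_lit 10380947404) (nat_lit 76) (nat_lit 23035302003) (nat_lit 337) (nat_lit 5) (nat_lit 347) (nat_lit 5) (nat_lit 338) (nat_lit 5) (nat_lit 652) (nat_lit 608) (nat_lit 300)) (XT.lf (nat_lit 0) (nat_lit 8752568850) (nat_lit 836) (nat_lit 27011444282) (nat_lit 76) (nat_lit 1750060943) (nat_lit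 327) (nat_lit 5) (nat_lit 338) (nat_lit 5) (nat_lit 328) (nat_lit 5) (nat_lit 653) (nat_lit 608) (nat_lit 299))) (XT.nd (nat_lit 78) (nat_lit 684) (nat_lit 0) (XT.lf (nat_lit 0) (nat_lit 14093041796) (nat_lit 836) (nat_lit 6094314207) (nat_lit 76) (nat_lit 17754426624) (nat_lit 327) (nat_lit 5) (nat_lit 338) (nat_lit 5) (nat_lit 328) (nat_lit 5) (nat_lit 654) (nat_lit 608) (nat_lit 298)) (XT.lf (nat_lit 0) (nat_lit 15441980046) (nat_lit 684) (nat_lit 4197114234) (nat_lit 760) (nat_lit 18736975782) (nat_lit 318) (nat_lit 5) (nat_lit 327) (nat_lit 5) (nat_lit 328) (nat_lit 5) (nat_lit 655) (nat_lit 608) (nat_lit 297))))) (XT.nd (nat_lit 234) (nat_lit 760) (nat_lit 0) (XT.nd (nat_lit 78) (nat_lit 1292) (nat_lit 0) (XT.lf (nat_lit 0) (nat_lit 25414407190) (nat_lit 760) (nat_lit 1407250805) (nat_lit 76) (nat_lit 11995018574) (nat_lit 318) (nat_lit 5) (nat_lit 328) (nat_lit 5) (nat_lit 319) (nat_lit 5) (nat_lit 656) (nat_lit 608) (nat_lit 296)) (XT.nd (nat_lit 78) (nat_lit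 608) (nat_lit 0) (XT.lf (nat_lit 0) (nat_lit 20793352335) (nat_lit 684) (nat_lit 10673229886) (nat_lit 760) (nat_lit 7796285975) (nat_lit 309) (nat_lit 5) (nat_lit 318) (nat_lit 5) (nat_lit 319) (nat_lit 5) (nat_lit 657) (nat_lit 608) (nat_lit 295)) (XT.lf (nat_lit 0) (nat_lit 3749007344) (nat_lit 608) (nat_lit 33960857923) (nat_lit 684) (nat_lit 2006717206) (nat_lit 301) (nat_lit 5) (nat_lit 309) (nat_lit 5) (nat_lit 310) (nat_lit 5) (nat_lit 658) (nat_lit 608) (nat_lit 294)))) (XT.nd (nat_lit 156) (nat_lit 0) (nat_lit 0) (XT.nd (nat_lit 78) (nat_lit 684) (nat_lit 0) (XT.lf (nat_lit 0) (nat_lit 4041535714) (nat_lit 684) (nat_lit 13613158747) (nat_lit 76) (nat_lit 22520289942) (nat_lit 300) (nat_lit 5) (nat_lit 309) (nat_lit 5) (nat_lit 301) (nat_lit 5) (nat_lit 659) (nat_lit 608) (nat_lit 293)) (XT.lf (nat_lit 0) (nat_lit 9295289701) (nat_lit 684) (nat_lit 947577773) (nat_lit 760) (nat_lit 30398242034) (nat_lit 291) (nat_lit 5) (nat_lit 300) (nat_lit 5) (nat_lit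 301) (nat_lit 5) (nat_lit 660) (nat_lit 608) (nat_lit 292))) (XT.nd (nat_lit 77142) (nat_lit 0) (nat_lit 14972) (XT.lf (nat_lit 0) (nat_lit 16763295198) (nat_lit 760) (nat_lit 8375079706) (nat_lit 76) (nat_lit 15974280922) (nat_lit 291) (nat_lit 5) (nat_lit 301) (nat_lit 5) (nat_lit 292) (nat_lit 5) (nat_lit 661) (nat_lit 608) (nat_lit 291)) (XT.lf (nat_lit 0) (nat_lit 5737796311) (nat_lit 0) (nat_lit 5737796311) (nat_lit 1748) (nat_lit 399048320) (nat_lit 488) (nat_lit 5) (nat_lit 488) (nat_lit 3) (nat_lit 511) (nat_lit 3) (nat_lit 609) (nat_lit 609) (nat_lit 342))))))))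
noncomputable def xc237 : XT := (XT.nd (nat_lit 2106) (nat_lit 11020) (nat_lit 0) (XT.nd (nat_lit 1014) (nat_lit 2204) (nat_lit 0) (XT.nd (nat_lit 468) (nat_lit 0) (nat_lit 76) (XT.nd (nat_lit 234) (nat_lit 1748) (nat_lit 0) (XT.nd (nat_lit 78) (nat_lit 0) (nat_lit 0) (XT.lf (nat_lit 0) (nat_lit 23298126993) (nat_lit 1748) (nat_lit 542221851) (nat_lit 1824) (nat_lit 144066360) (nat_lit 488) (nat_lit 5) (nat_lit 511) (nat_lit 3) (nat_lit 512) (nat_lit 5) (nat_lit 610) (nat_lit 609) (nat_lit 341)) (XT.nd (nat_lit 78) (nat_lit 0) (nat_lit 0) (XT.lf (nat_lit 76) (nat_lit 11497064682) (nat_lit 0) (nat_lit 12302541316) (nat_lit 1824) (nat_lit 421693508) (nat_lit 489) (nat_lit 5) (nat_lit 488) (nat_lit 5) (nat_lit 512) (nat_lit 5) (nat_lit 611) (nat_lit 609) (nat_lit 340)) (XT.lf (nat_lit 76) (nat_lit 23782898431) (nat_lit 0) (nat_lit 528858699) (nat_lit 1824) (nat_lit 151151793) (nat_lit 489) (nat_lit 5) (nat_lit 488) (nat_lit 5) (nat_lit 512) (nat_lit 5) (nat_lit 612)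 (nat_lit 609) (nat_lit 339)))) (XT.nd (nat_lit 78) (nat_lit 0) (nat_lit 0) (XT.lf (nat_lit 0) (nat_lit 271597864) (nat_lit 1824) (nat_lit 13026039690) (nat_lit 1900) (nat_lit 11408728361) (nat_lit 465) (nat_lit 5) (nat_lit 489) (nat_lit 5) (nat_lit 490) (nat_lit 5) (nat_lit 613) (nat_lit 609) (nat_lit 338)) (XT.nd (nat_lit 78) (nat_lit 0) (nat_lit 76) (XT.lf (nat_lit 0) (nat_lit 705975554) (nat_lit 1824) (nat_lit 663700414) (nat_lit 1900) (nat_lit 23584892421) (nat_lit 465) (nat_lit 5) (nat_lit 489) (nat_lit 5) (nat_lit 490) (nat_lit 5) (nat_lit 614) (nat_lit 609) (nat_lit 337)) (XT.lf (nat_lit 0) (nat_lit 1295406229) (nat_lit 1824) (nat_lit 13173851428) (nat_lit 1900) (nat_lit 10735550205) (nat_lit 466) (nat_lit 5) (nat_lit 490) (nat_lit 5) (nat_lit 491) (nat_lit 5) (nat_lit 615) (nat_lit 609) (nat_lit 336))))) (XT.nd (nat_lit 234) (nat_lit 0) (nat_lit 152) (XT.nd (nat_lit 78) (nat_lit 0) (nat_lit 76) (XT.lf (nat_lit 0) (nat_lit 1907388639) (nat_lit 1824) (nat_lit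 482234479) (nat_lit 1900) (nat_lit 23070214000) (nat_lit 466) (nat_lit 5) (nat_lit 490) (nat_lit 5) (nat_lit 491) (nat_lit 5) (nat_lit 616) (nat_lit 609) (nat_lit 335)) (XT.nd (nat_lit 78) (nat_lit 0) (nat_lit 0) (XT.lf (nat_lit 0) (nat_lit 2675891209) (nat_lit 1824) (nat_lit 13156233756) (nat_lit 1900) (nat_lit 9884956631) (nat_lit 467) (nat_lit 5) (nat_lit 491) (nat_lit 5) (nat_lit 492) (nat_lit 5) (nat_lit 617) (nat_lit 609) (nat_lit 334)) (XT.lf (nat_lit 0) (nat_lit 3476160455) (nat_lit 1824) (nat_lit 125616032) (nat_lit 1900) (nat_lit 22377366790) (nat_lit 467) (nat_lit 5) (nat_lit 491) (nat_lit 5) (nat_lit 492) (nat_lit 5) (nat_lit 618) (nat_lit 609) (nat_lit 333)))) (XT.nd (nat_lit 156) (nat_lit 0) (nat_lit 76) (XT.nd (nat_lit 78) (nat_lit 0) (nat_lit 0) (XT.lf (nat_lit 0) (nat_lit 4434596990) (nat_lit 1824) (nat_lit 12964059842) (nat_lit 1900) (nat_lit 8844946359) (nat_lit 468) (nat_lit 5) (nat_lit 492) (nat_lit 5) (nat_lit 493) (nat_lit 5) (nat_lit 619)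 (nat_lit 609) (nat_lit 332)) (XT.lf (nat_lit 76) (nat_lit 421132248) (nat_lit 0) (nat_lit 5015919208) (nat_lit 1900) (nat_lit 21075804099) (nat_lit 469) (nat_lit 5) (nat_lit 468) (nat_lit 5) (nat_lit 493) (nat_lit 5) (nat_lit 620) (nat_lit 609) (nat_lit 331))) (XT.nd (nat_lit 78) (nat_lit 0) (nat_lit 0) (XT.lf (nat_lit 0) (nat_lit 6594023836) (nat_lit 1824) (nat_lit 12587759246) (nat_lit 1900) (nat_lit 7603020738) (nat_lit 469) (nat_lit 5) (nat_lit 493) (nat_lit 5) (nat_lit 494) (nat_lit 5) (nat_lit 621) (nat_lit 609) (nat_lit 330)) (XT.lf (nat_lit 76) (nat_lit 1166649975) (nat_lit 0) (nat_lit 6645787006) (nat_lit 1900) (nat_lit 19248988268) (nat_lit 470) (nat_lit 5) (nat_lit 469) (nat_lit 5) (nat_lit 494) (nat_lit 5) (nat_lit 622) (nat_lit 609) (nat_lit 329)))))) (XT.nd (nat_lit 546) (nat_lit 2584) (nat_lit 0) (XT.nd (nat_lit 234) (nat_lit 0) (nat_lit 76) (XT.nd (nat_lit 78) (nat_lit 0) (nat_lit 0) (XT.lf (nat_lit 0) (nat_lit 9177670547) (nat_lit 1824) (nat_lit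 12017302109) (nat_lit 1900) (nat_lit 6146157628) (nat_lit 470) (nat_lit 5) (nat_lit 494) (nat_lit 5) (nat_lit 495) (nat_lit 5) (nat_lit 623) (nat_lit 609) (nat_lit 328)) (XT.nd (nat_lit 78) (nat_lit 0) (nat_lit 76) (XT.lf (nat_lit 76) (nat_lit 2119784758) (nat_lit 0) (nat_lit 8505798201) (nat_lit 1900) (nat_lit 16999739195) (nat_lit 471) (nat_lit 5) (nat_lit 470) (nat_lit 5) (nat_lit 495) (nat_lit 5) (nat_lit 624) (nat_lit 609) (nat_lit 327)) (XT.lf (nat_lit 0) (nat_lit 12210078543) (nat_lit 1824) (nat_lit 11242182665) (nat_lit 1900) (nat_lit 4460784367) (nat_lit 471) (nat_lit 5) (nat_lit 495) (nat_lit 5) (nat_lit 496) (nat_lit 5) (nat_lit 625) (nat_lit 609) (nat_lit 326)))) (XT.nd (nat_lit 156) (nat_lit 0) (nat_lit 76) (XT.nd (nat_lit 78) (nat_lit 0) (nat_lit 76) (XT.lf (nat_lit 76) (nat_lit 3291547562) (nat_lit 0) (nat_lit 10610102921) (nat_lit 1900) (nat_lit 14303365459) (nat_lit 472) (nat_lit 5) (nat_lit 471) (nat_lit 5) (nat_lit 496) (nat_lit 5) (nat_lit 626)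 (nat_lit 609) (nat_lit 325)) (XT.lf (nat_lit 0) (nat_lit 15716877614) (nat_lit 1824) (nat_lit 10251402051) (nat_lit 1900) (nat_lit 2532749783) (nat_lit 472) (nat_lit 5) (nat_lit 496) (nat_lit 5) (nat_lit 497) (nat_lit 5) (nat_lit 627) (nat_lit 609) (nat_lit 324))) (XT.nd (nat_lit 78) (nat_lit 0) (nat_lit 76) (XT.lf (nat_lit 76) (nat_lit 4693461196) (nat_lit 0) (nat_lit 12973454968) (nat_lit 1900) (nat_lit 11134077123) (nat_lit 473) (nat_lit 5) (nat_lit 472) (nat_lit 5) (nat_lit 497) (nat_lit 5) (nat_lit 628) (nat_lit 609) (nat_lit 323)) (XT.lf (nat_lit 0) (nat_lit 19724833431) (nat_lit 1824) (nat_lit 9033450414) (nat_lit 1900) (nat_lit 347295193) (nat_lit 473) (nat_lit 5) (nat_lit 497) (nat_lit 5) (nat_lit 498) (nat_lit 5) (nat_lit 629) (nat_lit 609) (nat_lit 322))))) (XT.nd (nat_lit 234) (nat_lit 2812) (nat_lit 0) (XT.nd (nat_lit 78) (nat_lit 0) (nat_lit 0) (XT.lf (nat_lit 76) (nat_lit 6337578899) (nat_lit 0) (nat_lit 15611241790) (nat_lit 1900) (nat_lit 7464937777)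 (nat_lit 474) (nat_lit 5) (nat_lit 473) (nat_lit 5) (nat_lit 498) (nat_lit 5) (nat_lit 630) (nat_lit 609) (nat_lit 321)) (XT.nd (nat_lit 78) (nat_lit 0) (nat_lit 76) (XT.lf (nat_lit 76) (nat_lit 22136755451) (nat_lit 0) (nat_lit 2139029427) (nat_lit 1900) (nat_lit 5451146847) (nat_lit 474) (nat_lit 5) (nat_lit 473) (nat_lit 5) (nat_lit 498) (nat_lit 5) (nat_lit 631) (nat_lit 609) (nat_lit 320)) (XT.lf (nat_lit 76) (nat_lit 8236503693) (nat_lit 0) (nat_lit 18539515578) (nat_lit 1900) (nat_lit 3267814747) (nat_lit 475) (nat_lit 5) (nat_lit 474) (nat_lit 5) (nat_lit 499) (nat_lit 5) (nat_lit 632) (nat_lit 609) (nat_lit 319)))) (XT.nd (nat_lit 156) (nat_lit 1064) (nat_lit 0) (XT.nd (nat_lit 78) (nat_lit 1824) (nat_lit 0) (XT.lf (nat_lit 76) (nat_lit 24466526833) (nat_lit 0) (nat_lit 4922689833) (nat_lit 1900) (nat_lit 976598705) (nat_lit 475) (nat_lit 5) (nat_lit 474) (nat_lit 5) (nat_lit 499) (nat_lit 5) (nat_lit 633) (nat_lit 609) (nat_lit 318)) (XT.lf (nat_lit 0)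 (nat_lit 1467174644) (nat_lit 1900) (nat_lit 20298005376) (nat_lit 76) (nat_lit 8926388338) (nat_lit 450) (nat_lit 5) (nat_lit 475) (nat_lit 5) (nat_lit 451) (nat_lit 5) (nat_lit 634) (nat_lit 609) (nat_lit 317))) (XT.nd (nat_lit 78) (nat_lit 1064) (nat_lit 0) (XT.lf (nat_lit 0) (nat_lit 4017217924) (nat_lit 1900) (nat_lit 3971884132) (nat_lit 76) (nat_lit 23033195993) (nat_lit 450) (nat_lit 5) (nat_lit 475) (nat_lit 5) (nat_lit 451) (nat_lit 5) (nat_lit 635) (nat_lit 609) (nat_lit 316)) (XT.lf (nat_lit 0) (nat_lit 6739640420) (nat_lit 1140) (nat_lit 18550384434) (nat_lit 76) (nat_lit 6067190080) (nat_lit 436) (nat_lit 5) (nat_lit 451) (nat_lit 5) (nat_lit 437) (nat_lit 5) (nat_lit 636) (nat_lit 609) (nat_lit 315))))))) (XT.nd (nat_lit 1092) (nat_lit 4256) (nat_lit 0) (XT.nd (nat_lit 546) (nat_lit 3268) (nat_lit 0) (XT.nd (nat_lit 234) (nat_lit 1672) (nat_lit 0) (XT.nd (nat_lit 78) (nat_lit 1824) (nat_lit 0) (XT.lf (nat_lit 0) (nat_lit 9594325796) (nat_lit 1140)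 (nat_lit 1778163900) (nat_lit 76) (nat_lit 20324784335) (nat_lit 436) (nat_lit 5) (nat_lit 451) (nat_lit 5) (nat_lit 437) (nat_lit 5) (nat_lit 637) (nat_lit 609) (nat_lit 314)) (XT.nd (nat_lit 78) (nat_lit 912) (nat_lit 0) (XT.lf (nat_lit 0) (nat_lit 12624060205) (nat_lit 988) (nat_lit 16529663905) (nat_lit 76) (nat_lit 2888051256) (nat_lit 424) (nat_lit 5) (nat_lit 437) (nat_lit 5) (nat_lit 425) (nat_lit 5) (nat_lit 638) (nat_lit 609) (nat_lit 313)) (XT.lf (nat_lit 0) (nat_lit 711571869) (nat_lit 912) (nat_lit 15092904631) (nat_lit 988) (nat_lit 16586888640) (nat_lit 412) (nat_lit 5) (nat_lit 424) (nat_lit 5) (nat_lit 425) (nat_lit 5) (nat_lit 639) (nat_lit 609) (nat_lit 312)))) (XT.nd (nat_lit 156) (nat_lit 836) (nat_lit 0) (XT.nd (nat_lit 78) (nat_lit 836) (nat_lit 0) (XT.lf (nat_lit 0) (nat_lit 18519972987) (nat_lit 912) (nat_lit 637617401) (nat_lit 988) (nat_lit 13588174693) (nat_lit 412) (nat_lit 5) (nat_lit 424) (nat_lit 5) (nat_lit 425) (nat_lit 5) (nat_lit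 640) (nat_lit 609) (nat_lit 311)) (XT.lf (nat_lit 0) (nat_lit 3530272390) (nat_lit 836) (nat_lit 19160208748) (nat_lit 912) (nat_lit 10414517740) (nat_lit 401) (nat_lit 5) (nat_lit 412) (nat_lit 5) (nat_lit 413) (nat_lit 5) (nat_lit 641) (nat_lit 609) (nat_lit 310))) (XT.nd (nat_lit 78) (nat_lit 836) (nat_lit 0) (XT.lf (nat_lit 0) (nat_lit 21828298800) (nat_lit 836) (nat_lit 4563615577) (nat_lit 912) (nat_lit 7077545431) (nat_lit 401) (nat_lit 5) (nat_lit 412) (nat_lit 5) (nat_lit 413) (nat_lit 5) (nat_lit 642) (nat_lit 609) (nat_lit 309)) (XT.lf (nat_lit 0) (nat_lit 6669798608) (nat_lit 836) (nat_lit 23606180987) (nat_lit 912) (nat_lit 3563058442) (nat_lit 390) (nat_lit 5) (nat_lit 401) (nat_lit 5) (nat_lit 402) (nat_lit 5) (nat_lit 643) (nat_lit 609) (nat_lit 308))))) (XT.nd (nat_lit 234) (nat_lit 2356) (nat_lit 0) (XT.nd (nat_lit 78) (nat_lit 836) (nat_lit 0) (XT.lf (nat_lit 0) (nat_lit 128565623) (nat_lit 912) (nat_lit 8742278416) (nat_lit 76) (nat_lit 25343018467)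 (nat_lit 389) (nat_lit 5) (nat_lit 401) (nat_lit 5) (nat_lit 390) (nat_lit 5) (nat_lit 644) (nat_lit 609) (nat_lit 307)) (XT.nd (nat_lit 78) (nat_lit 0) (nat_lit 0) (XT.lf (nat_lit 0) (nat_lit 3951221160) (nat_lit 912) (nat_lit 24473812014) (nat_lit 76) (nat_lit 6168581225) (nat_lit 378) (nat_lit 5) (nat_lit 390) (nat_lit 5) (nat_lit 379) (nat_lit 5) (nat_lit 645) (nat_lit 609) (nat_lit 306)) (XT.lf (nat_lit 0) (nat_lit 7966460829) (nat_lit 912) (nat_lit 5563011973) (nat_lit 76) (nat_lit 21449166041) (nat_lit 378) (nat_lit 5) (nat_lit 390) (nat_lit 5) (nat_lit 379) (nat_lit 5) (nat_lit 646) (nat_lit 609) (nat_lit 305)))) (XT.nd (nat_lit 156) (nat_lit 1520) (nat_lit 0) (XT.nd (nat_lit 78) (nat_lit 0) (nat_lit 0) (XT.lf (nat_lit 0) (nat_lit 12162060977) (nat_lit 912) (nat_lit 21474282351) (nat_lit 76) (nat_lit 1733019468) (nat_lit 367) (nat_lit 5) (nat_lit 379) (nat_lit 5) (nat_lit 368) (nat_lit 5) (nat_lit 647) (nat_lit 609) (nat_lit 304)) (XT.lf (nat_lit 0) (nat_lit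 16567133789) (nat_lit 912) (nat_lit 2040962354) (nat_lit 76) (nat_lit 17157294001) (nat_lit 367) (nat_lit 5) (nat_lit 379) (nat_lit 5) (nat_lit 368) (nat_lit 5) (nat_lit 648) (nat_lit 609) (nat_lit 303))) (XT.nd (nat_lit 78) (nat_lit 760) (nat_lit 0) (XT.lf (nat_lit 0) (nat_lit 18015631539) (nat_lit 760) (nat_lit 3160061183) (nat_lit 836) (nat_lit 14991337750) (nat_lit 357) (nat_lit 5) (nat_lit 367) (nat_lit 5) (nat_lit 368) (nat_lit 5) (nat_lit 649) (nat_lit 609) (nat_lit 302)) (XT.lf (nat_lit 0) (nat_lit 1865490740) (nat_lit 760) (nat_lit 24117053300) (nat_lit 836) (nat_lit 10592037267) (nat_lit 347) (nat_lit 5) (nat_lit 357) (nat_lit 5) (nat_lit 358) (nat_lit 5) (nat_lit 650) (nat_lit 609) (nat_lit 301)))))) (XT.nd (nat_lit 546) (nat_lit 2052) (nat_lit 0) (XT.nd (nat_lit 234) (nat_lit 1444) (nat_lit 0) (XT.nd (nat_lit 78) (nat_lit 760) (nat_lit 0) (XT.lf (nat_lit 0) (nat_lit 22505880092) (nat_lit 760) (nat_lit 8520702309) (nat_lit 836) (nat_lit 5960879881) (nat_lit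 347) (nat_lit 5) (nat_lit 357) (nat_lit 5) (nat_lit 358) (nat_lit 5) (nat_lit 651) (nat_lit 609) (nat_lit 300)) (XT.nd (nat_lit 78) (nat_lit 76) (nat_lit 0) (XT.lf (nat_lit 0) (nat_lit 6181912136) (nat_lit 684) (nat_lit 30076175653) (nat_lit 760) (nat_lit 1148781480) (nat_lit 338) (nat_lit 5) (nat_lit 347) (nat_lit 5) (nat_lit 348) (nat_lit 5) (nat_lit 652) (nat_lit 609) (nat_lit 299)) (XT.lf (nat_lit 0) (nat_lit 3862995726) (nat_lit 760) (nat_lit 10460909604) (nat_lit 76) (nat_lit 23507216108) (nat_lit 337) (nat_lit 5) (nat_lit 347) (nat_lit 5) (nat_lit 338) (nat_lit 5) (nat_lit 653) (nat_lit 609) (nat_lit 298)))) (XT.nd (nat_lit 156) (nat_lit 684) (nat_lit 0) (XT.nd (nat_lit 78) (nat_lit 0) (nat_lit 0) (XT.lf (nat_lit 0) (nat_lit 9040453456) (nat_lit 836) (nat_lit 27422684273) (nat_lit 76) (nat_lit 1798952622) (nat_lit 327) (nat_lit 5) (nat_lit 338) (nat_lit 5) (nat_lit 328) (nat_lit 5) (nat_lit 654) (nat_lit 609) (nat_lit 297)) (XT.lf (nat_lit 0) (nat_lit 14485523445)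 (nat_lit 836) (nat_lit 6089740790) (nat_lit 76) (nat_lit 18123133254) (nat_lit 327) (nat_lit 5) (nat_lit 338) (nat_lit 5) (nat_lit 328) (nat_lit 5) (nat_lit 655) (nat_lit 609) (nat_lit 296))) (XT.nd (nat_lit 78) (nat_lit 0) (nat_lit 0) (XT.lf (nat_lit 0) (nat_lit 15876447376) (nat_lit 684) (nat_lit 4264696225) (nat_lit 760) (nat_lit 19000254303) (nat_lit 318) (nat_lit 5) (nat_lit 327) (nat_lit 5) (nat_lit 328) (nat_lit 5) (nat_lit 656) (nat_lit 609) (nat_lit 295)) (XT.lf (nat_lit 0) (nat_lit 26029924410) (nat_lit 760) (nat_lit 1310184972) (nat_lit 76) (nat_lit 12250748088) (nat_lit 318) (nat_lit 5) (nat_lit 328) (nat_lit 5) (nat_lit 319) (nat_lit 5) (nat_lit 657) (nat_lit 609) (nat_lit 294))))) (XT.nd (nat_lit 234) (nat_lit 684) (nat_lit 0) (XT.nd (nat_lit 78) (nat_lit 684) (nat_lit 0) (XT.lf (nat_lit 0) (nat_lit 21333606475) (nat_lit 684) (nat_lit 10868241539) (nat_lit 760) (nat_lit 7844150972) (nat_lit 309) (nat_lit 5) (nat_lit 318) (nat_lit 5) (nat_lit 319)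 (nat_lit 5) (nat_lit 658) (nat_lit 609) (nat_lit 293)) (XT.nd (nat_lit 78) (nat_lit 76) (nat_lit 0) (XT.lf (nat_lit 0) (nat_lit 3949549811) (nat_lit 608) (nat_lit 34619302464) (nat_lit 684) (nat_lit 1939958317) (nat_lit 301) (nat_lit 5) (nat_lit 309) (nat_lit 5) (nat_lit 310) (nat_lit 5) (nat_lit 659) (nat_lit 609) (nat_lit 292)) (XT.lf (nat_lit 0) (nat_lit 4225789280) (nat_lit 684) (nat_lit 13760939736) (nat_lit 76) (nat_lit 22989679181) (nat_lit 300) (nat_lit 5) (nat_lit 309) (nat_lit 5) (nat_lit 301) (nat_lit 5) (nat_lit 660) (nat_lit 609) (nat_lit 291)))) (XT.nd (nat_lit 77298) (nat_lit 0) (nat_lit 14972) (XT.nd (nat_lit 77220) (nat_lit 0) (nat_lit 14972) (XT.lf (nat_lit 0) (nat_lit 9604858718) (nat_lit 684) (nat_lit 945063961) (nat_lit 760) (nat_lit 30901957771) (nat_lit 291) (nat_lit 5) (nat_lit 300) (nat_lit 5) (nat_lit 301) (nat_lit 5) (nat_lit 661) (nat_lit 609) (nat_lit 290)) (XT.lf (nat_lit 0) (nat_lit 5910415143) (nat_lit 0) (nat_lit 5910415143) (nat_lit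 1748) (nat_lit 288978127) (nat_lit 488) (nat_lit 5) (nat_lit 488) (nat_lit 3) (nat_lit 511) (nat_lit 3) (nat_lit 610) (nat_lit 610) (nat_lit 340))) (XT.nd (nat_lit 78) (nat_lit 0) (nat_lit 0) (XT.lf (nat_lit 0) (nat_lit 23990266250) (nat_lit 1748) (nat_lit 434313469) (nat_lit 1824) (nat_lit 34979015) (nat_lit 488) (nat_lit 5) (nat_lit 511) (nat_lit 3) (nat_lit 512) (nat_lit 5) (nat_lit 611) (nat_lit 610) (nat_lit 339)) (XT.lf (nat_lit 76) (nat_lit 11844977526) (nat_lit 0) (nat_lit 12653128421) (nat_lit 1824) (nat_lit 203148569) (nat_lit 489) (nat_lit 5) (nat_lit 488) (nat_lit 5) (nat_lit 512) (nat_lit 5) (nat_lit 612) (nat_lit 610) (nat_lit 338))))))))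
noncomputable def xc238 : XT := (XT.nd (nat_lit 2106) (nat_lit 9424) (nat_lit 0) (XT.nd (nat_lit 1014) (nat_lit 3040) (nat_lit 0) (XT.nd (nat_lit 468) (nat_lit 0) (nat_lit 228) (XT.nd (nat_lit 234) (nat_lit 0) (nat_lit 152) (XT.nd (nat_lit 78) (nat_lit 0) (nat_lit 76) (XT.lf (nat_lit 0) (nat_lit 67456947) (nat_lit 1824) (nat_lit 574012802) (nat_lit 1900) (nat_lit 24306305163) (nat_lit 464) (nat_lit 5) (nat_lit 488) (nat_lit 5) (nat_lit 489) (nat_lit 5) (nat_lit 613) (nat_lit 610) (nat_lit 337)) (XT.nd (nat_lit 78) (nat_lit 0) (nat_lit 0) (XT.lf (nat_lit 0) (nat_lit 492460521) (nat_lit 1824) (nat_lit 13163764919) (nat_lit 1900) (nat_lit 11539939557) (nat_lit 465) (nat_lit 5) (nat_lit 489) (nat_lit 5) (nat_lit 490) (nat_lit 5) (nat_lit 614) (nat_lit 610) (nat_lit 336)) (XT.lf (nat_lit 0) (nat_lit 931301633) (nat_lit 1824) (nat_lit 556586614) (nat_lit 1900) (nat_lit 23961528141) (nat_lit 465) (nat_lit 5) (nat_lit 489) (nat_lit 5) (nat_lit 490) (nat_lit 5) (nat_lit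 615) (nat_lit 610) (nat_lit 335)))) (XT.nd (nat_lit 78) (nat_lit 0) (nat_lit 0) (XT.lf (nat_lit 0) (nat_lit 1528583160) (nat_lit 1824) (nat_lit 13312984027) (nat_lit 1900) (nat_lit 10863172596) (nat_lit 466) (nat_lit 5) (nat_lit 490) (nat_lit 5) (nat_lit 491) (nat_lit 5) (nat_lit 616) (nat_lit 610) (nat_lit 334)) (XT.nd (nat_lit 78) (nat_lit 0) (nat_lit 76) (XT.lf (nat_lit 0) (nat_lit 2148741124) (nat_lit 1824) (nat_lit 369972865) (nat_lit 1900) (nat_lit 23446237286) (nat_lit 466) (nat_lit 5) (nat_lit 490) (nat_lit 5) (nat_lit 491) (nat_lit 5) (nat_lit 617) (nat_lit 610) (nat_lit 333)) (XT.lf (nat_lit 0) (nat_lit 2928903343) (nat_lit 1824) (nat_lit 13293723597) (nat_lit 1900) (nat_lit 10004788275) (nat_lit 467) (nat_lit 5) (nat_lit 491) (nat_lit 5) (nat_lit 492) (nat_lit 5) (nat_lit 618) (nat_lit 610) (nat_lit 332))))) (XT.nd (nat_lit 234) (nat_lit 0) (nat_lit 152) (XT.nd (nat_lit 78) (nat_lit 0) (nat_lit 76) (XT.lf (nat_lit 0) (nat_lit 3741266320) (nat_lit 1824)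 (nat_lit 4956947) (nat_lit 1900) (nat_lit 22748573450) (nat_lit 467) (nat_lit 5) (nat_lit 491) (nat_lit 5) (nat_lit 492) (nat_lit 5) (nat_lit 619) (nat_lit 610) (nat_lit 331)) (XT.nd (nat_lit 78) (nat_lit 0) (nat_lit 0) (XT.lf (nat_lit 0) (nat_lit 4715375420) (nat_lit 1824) (nat_lit 13096656042) (nat_lit 1900) (nat_lit 8952584640) (nat_lit 468) (nat_lit 5) (nat_lit 492) (nat_lit 5) (nat_lit 493) (nat_lit 5) (nat_lit 620) (nat_lit 610) (nat_lit 330)) (XT.lf (nat_lit 76) (nat_lit 555406436) (nat_lit 0) (nat_lit 5179523249) (nat_lit 1900) (nat_lit 21304383155) (nat_lit 469) (nat_lit 5) (nat_lit 468) (nat_lit 5) (nat_lit 493) (nat_lit 5) (nat_lit 621) (nat_lit 610) (nat_lit 329)))) (XT.nd (nat_lit 156) (nat_lit 0) (nat_lit 76) (XT.nd (nat_lit 78) (nat_lit 0) (nat_lit 0) (XT.lf (nat_lit 0) (nat_lit 6910930104) (nat_lit 1824) (nat_lit 12712002409) (nat_lit 1900) (nat_lit 7693850120) (nat_lit 469) (nat_lit 5) (nat_lit 493) (nat_lit 5) (nat_lit 494) (nat_lit 5) (nat_lit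 622) (nat_lit 610) (nat_lit 328)) (XT.lf (nat_lit 76) (nat_lit 1316656101) (nat_lit 0) (nat_lit 6834249900) (nat_lit 1900) (nat_lit 19448086928) (nat_lit 470) (nat_lit 5) (nat_lit 469) (nat_lit 5) (nat_lit 494) (nat_lit 5) (nat_lit 623) (nat_lit 610) (nat_lit 327))) (XT.nd (nat_lit 78) (nat_lit 0) (nat_lit 0) (XT.lf (nat_lit 0) (nat_lit 9539517715) (nat_lit 1824) (nat_lit 12129516190) (nat_lit 1900) (nat_lit 6215337013) (nat_lit 470) (nat_lit 5) (nat_lit 494) (nat_lit 5) (nat_lit 495) (nat_lit 5) (nat_lit 624) (nat_lit 610) (nat_lit 326)) (XT.lf (nat_lit 76) (nat_lit 2289469440) (nat_lit 0) (nat_lit 8724249423) (nat_lit 1900) (nat_lit 17160581468) (nat_lit 471) (nat_lit 5) (nat_lit 470) (nat_lit 5) (nat_lit 495) (nat_lit 5) (nat_lit 625) (nat_lit 610) (nat_lit 325)))))) (XT.nd (nat_lit 546) (nat_lit 3572) (nat_lit 0) (XT.nd (nat_lit 234) (nat_lit 0) (nat_lit 76) (XT.nd (nat_lit 78) (nat_lit 0) (nat_lit 0) (XT.lf (nat_lit 0) (nat_lit 12626153075) (nat_lit 1824)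 (nat_lit 11338466438) (nat_lit 1900) (nat_lit 4503234042) (nat_lit 471) (nat_lit 5) (nat_lit 495) (nat_lit 5) (nat_lit 496) (nat_lit 5) (nat_lit 626) (nat_lit 610) (nat_lit 324)) (XT.nd (nat_lit 78) (nat_lit 0) (nat_lit 76) (XT.lf (nat_lit 76) (nat_lit 3485092605) (nat_lit 0) (nat_lit 10863922996) (nat_lit 1900) (nat_lit 14416698850) (nat_lit 472) (nat_lit 5) (nat_lit 471) (nat_lit 5) (nat_lit 496) (nat_lit 5) (nat_lit 627) (nat_lit 610) (nat_lit 323)) (XT.lf (nat_lit 0) (nat_lit 16196962123) (nat_lit 1824) (nat_lit 10327620177) (nat_lit 1900) (nat_lit 2543137927) (nat_lit 472) (nat_lit 5) (nat_lit 496) (nat_lit 5) (nat_lit 497) (nat_lit 5) (nat_lit 628) (nat_lit 610) (nat_lit 322)))) (XT.nd (nat_lit 156) (nat_lit 0) (nat_lit 76) (XT.nd (nat_lit 78) (nat_lit 0) (nat_lit 76) (XT.lf (nat_lit 76) (nat_lit 4915292902) (nat_lit 0) (nat_lit 13268289419) (nat_lit 1900) (nat_lit 11190149695) (nat_lit 473) (nat_lit 5) (nat_lit 472) (nat_lit 5) (nat_lit 497) (nat_lit 5)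 (nat_lit 629) (nat_lit 610) (nat_lit 321)) (XT.lf (nat_lit 0) (nat_lit 20279230314) (nat_lit 1824) (nat_lit 9085224095) (nat_lit 1900) (nat_lit 320023912) (nat_lit 473) (nat_lit 5) (nat_lit 497) (nat_lit 5) (nat_lit 498) (nat_lit 5) (nat_lit 630) (nat_lit 610) (nat_lit 320))) (XT.nd (nat_lit 78) (nat_lit 0) (nat_lit 0) (XT.lf (nat_lit 76) (nat_lit 6592377808) (nat_lit 0) (nat_lit 15953015578) (nat_lit 1900) (nat_lit 7453474310) (nat_lit 474) (nat_lit 5) (nat_lit 473) (nat_lit 5) (nat_lit 498) (nat_lit 5) (nat_lit 631) (nat_lit 610) (nat_lit 319)) (XT.lf (nat_lit 76) (nat_lit 22705027159) (nat_lit 0) (nat_lit 2210779577) (nat_lit 1900) (nat_lit 5402559762) (nat_lit 474) (nat_lit 5) (nat_lit 473) (nat_lit 5) (nat_lit 498) (nat_lit 5) (nat_lit 632) (nat_lit 610) (nat_lit 318))))) (XT.nd (nat_lit 234) (nat_lit 1976) (nat_lit 0) (XT.nd (nat_lit 78) (nat_lit 1824) (nat_lit 0) (XT.lf (nat_lit 76) (nat_lit 8529214761) (nat_lit 0) (nat_lit 18934448059) (nat_lit 1900) (nat_lit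 3177991946) (nat_lit 475) (nat_lit 5) (nat_lit 474) (nat_lit 5) (nat_lit 499) (nat_lit 5) (nat_lit 633) (nat_lit 610) (nat_lit 317)) (XT.nd (nat_lit 78) (nat_lit 1824) (nat_lit 0) (XT.lf (nat_lit 76) (nat_lit 25081328933) (nat_lit 0) (nat_lit 5044812423) (nat_lit 1900) (nat_lit 843994310) (nat_lit 475) (nat_lit 5) (nat_lit 474) (nat_lit 5) (nat_lit 499) (nat_lit 5) (nat_lit 634) (nat_lit 610) (nat_lit 316)) (XT.lf (nat_lit 0) (nat_lit 1644398704) (nat_lit 1900) (nat_lit 20574212480) (nat_lit 76) (nat_lit 9083818238) (nat_lit 450) (nat_lit 5) (nat_lit 475) (nat_lit 5) (nat_lit 451) (nat_lit 5) (nat_lit 635) (nat_lit 610) (nat_lit 315)))) (XT.nd (nat_lit 156) (nat_lit 912) (nat_lit 0) (XT.nd (nat_lit 78) (nat_lit 1064) (nat_lit 0) (XT.lf (nat_lit 0) (nat_lit 4242543231) (nat_lit 1900) (nat_lit 3924112987) (nat_lit 76) (nat_lit 23473175729) (nat_lit 450) (nat_lit 5) (nat_lit 475) (nat_lit 5) (nat_lit 451) (nat_lit 5) (nat_lit 636) (nat_lit 610) (nat_lit 314)) (XT.lf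 (nat_lit 0) (nat_lit 7017284211) (nat_lit 1140) (nat_lit 18792041130) (nat_lit 76) (nat_lit 6172164672) (nat_lit 436) (nat_lit 5) (nat_lit 451) (nat_lit 5) (nat_lit 437) (nat_lit 5) (nat_lit 637) (nat_lit 610) (nat_lit 313))) (XT.nd (nat_lit 78) (nat_lit 912) (nat_lit 0) (XT.lf (nat_lit 0) (nat_lit 9926262295) (nat_lit 1140) (nat_lit 1686912479) (nat_lit 76) (nat_lit 20715231777) (nat_lit 436) (nat_lit 5) (nat_lit 451) (nat_lit 5) (nat_lit 437) (nat_lit 5) (nat_lit 638) (nat_lit 610) (nat_lit 312)) (XT.lf (nat_lit 0) (nat_lit 13014584431) (nat_lit 988) (nat_lit 16731423799) (nat_lit 76) (nat_lit 2933830056) (nat_lit 424) (nat_lit 5) (nat_lit 437) (nat_lit 5) (nat_lit 425) (nat_lit 5) (nat_lit 639) (nat_lit 610) (nat_lit 311))))))) (XT.nd (nat_lit 1014) (nat_lit 3572) (nat_lit 0) (XT.nd (nat_lit 468) (nat_lit 3192) (nat_lit 0) (XT.nd (nat_lit 234) (nat_lit 912) (nat_lit 0) (XT.nd (nat_lit 78) (nat_lit 836) (nat_lit 0) (XT.lf (nat_lit 0) (nat_lit 853789102) (nat_lit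 912) (nat_lit 15402944193) (nat_lit 988) (nat_lit 16779724306) (nat_lit 412) (nat_lit 5) (nat_lit 424) (nat_lit 5) (nat_lit 425) (nat_lit 5) (nat_lit 640) (nat_lit 610) (nat_lit 310)) (XT.nd (nat_lit 78) (nat_lit 836) (nat_lit 0) (XT.lf (nat_lit 0) (nat_lit 19015848717) (nat_lit 912) (nat_lit 658390797) (nat_lit 988) (nat_lit 13723759651) (nat_lit 412) (nat_lit 5) (nat_lit 424) (nat_lit 5) (nat_lit 425) (nat_lit 5) (nat_lit 641) (nat_lit 610) (nat_lit 309)) (XT.lf (nat_lit 0) (nat_lit 3728243920) (nat_lit 836) (nat_lit 19547702454) (nat_lit 912) (nat_lit 10488508321) (nat_lit 401) (nat_lit 5) (nat_lit 412) (nat_lit 5) (nat_lit 413) (nat_lit 5) (nat_lit 642) (nat_lit 610) (nat_lit 308)))) (XT.nd (nat_lit 78) (nat_lit 912) (nat_lit 0) (XT.lf (nat_lit 0) (nat_lit 22389733484) (nat_lit 836) (nat_lit 4659093312) (nat_lit 912) (nat_lit 7087429894) (nat_lit 401) (nat_lit 5) (nat_lit 412) (nat_lit 5) (nat_lit 413) (nat_lit 5) (nat_lit 643) (nat_lit 610) (nat_lit 307))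 (XT.nd (nat_lit 78) (nat_lit 76) (nat_lit 0) (XT.lf (nat_lit 0) (nat_lit 6929844169) (nat_lit 836) (nat_lit 24078993807) (nat_lit 912) (nat_lit 3504423425) (nat_lit 390) (nat_lit 5) (nat_lit 401) (nat_lit 5) (nat_lit 402) (nat_lit 5) (nat_lit 644) (nat_lit 610) (nat_lit 306)) (XT.lf (nat_lit 0) (nat_lit 256815929) (nat_lit 912) (nat_lit 8791277306) (nat_lit 76) (nat_lit 25847522733) (nat_lit 389) (nat_lit 5) (nat_lit 401) (nat_lit 5) (nat_lit 390) (nat_lit 5) (nat_lit 645) (nat_lit 610) (nat_lit 305))))) (XT.nd (nat_lit 234) (nat_lit 1520) (nat_lit 0) (XT.nd (nat_lit 78) (nat_lit 836) (nat_lit 0) (XT.lf (nat_lit 0) (nat_lit 4154278430) (nat_lit 912) (nat_lit 24835785422) (nat_lit 76) (nat_lit 6292932170) (nat_lit 378) (nat_lit 5) (nat_lit 390) (nat_lit 5) (nat_lit 379) (nat_lit 5) (nat_lit 646) (nat_lit 610) (nat_lit 304)) (XT.nd (nat_lit 78) (nat_lit 836) (nat_lit 0) (XT.lf (nat_lit 0) (nat_lit 8247390876) (nat_lit 912) (nat_lit 5549269435) (nat_lit 76) (nat_lit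 21879109481) (nat_lit 378) (nat_lit 5) (nat_lit 390) (nat_lit 5) (nat_lit 379) (nat_lit 5) (nat_lit 647) (nat_lit 610) (nat_lit 303)) (XT.lf (nat_lit 0) (nat_lit 12525351953) (nat_lit 912) (nat_lit 21777204527) (nat_lit 76) (nat_lit 1771782958) (nat_lit 367) (nat_lit 5) (nat_lit 379) (nat_lit 5) (nat_lit 368) (nat_lit 5) (nat_lit 648) (nat_lit 610) (nat_lit 302)))) (XT.nd (nat_lit 156) (nat_lit 760) (nat_lit 0) (XT.nd (nat_lit 78) (nat_lit 760) (nat_lit 0) (XT.lf (nat_lit 0) (nat_lit 17016172304) (nat_lit 912) (nat_lit 1957699767) (nat_lit 76) (nat_lit 17504462529) (nat_lit 367) (nat_lit 5) (nat_lit 379) (nat_lit 5) (nat_lit 368) (nat_lit 5) (nat_lit 649) (nat_lit 610) (nat_lit 301)) (XT.lf (nat_lit 0) (nat_lit 18499209676) (nat_lit 760) (nat_lit 3216185300) (nat_lit 836) (nat_lit 15172643092) (nat_lit 357) (nat_lit 5) (nat_lit 367) (nat_lit 5) (nat_lit 368) (nat_lit 5) (nat_lit 650) (nat_lit 610) (nat_lit 300))) (XT.nd (nat_lit 78) (nat_lit 0) (nat_lit 0) (XT.lf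 (nat_lit 0) (nat_lit 2027527122) (nat_lit 760) (nat_lit 24589432850) (nat_lit 836) (nat_lit 10686808596) (nat_lit 347) (nat_lit 5) (nat_lit 357) (nat_lit 5) (nat_lit 358) (nat_lit 5) (nat_lit 651) (nat_lit 610) (nat_lit 299)) (XT.lf (nat_lit 0) (nat_lit 23078278642) (nat_lit 760) (nat_lit 8681350163) (nat_lit 836) (nat_lit 5965323540) (nat_lit 347) (nat_lit 5) (nat_lit 357) (nat_lit 5) (nat_lit 358) (nat_lit 5) (nat_lit 652) (nat_lit 610) (nat_lit 298)))))) (XT.nd (nat_lit 546) (nat_lit 684) (nat_lit 0) (XT.nd (nat_lit 234) (nat_lit 1368) (nat_lit 0) (XT.nd (nat_lit 78) (nat_lit 836) (nat_lit 0) (XT.lf (nat_lit 0) (nat_lit 6429208174) (nat_lit 684) (nat_lit 30665214989) (nat_lit 760) (nat_lit 1058351306) (nat_lit 338) (nat_lit 5) (nat_lit 347) (nat_lit 5) (nat_lit 348) (nat_lit 5) (nat_lit 653) (nat_lit 610) (nat_lit 297)) (XT.nd (nat_lit 78) (nat_lit 760) (nat_lit 0) (XT.lf (nat_lit 0) (nat_lit 4049979626) (nat_lit 760) (nat_lit 10547428115) (nat_lit 76) (nat_lit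 23988133271) (nat_lit 337) (nat_lit 5) (nat_lit 347) (nat_lit 5) (nat_lit 338) (nat_lit 5) (nat_lit 654) (nat_lit 610) (nat_lit 296)) (XT.lf (nat_lit 0) (nat_lit 9329714303) (nat_lit 836) (nat_lit 27847157859) (nat_lit 76) (nat_lit 1848282750) (nat_lit 327) (nat_lit 5) (nat_lit 338) (nat_lit 5) (nat_lit 328) (nat_lit 5) (nat_lit 655) (nat_lit 610) (nat_lit 295)))) (XT.nd (nat_lit 156) (nat_lit 684) (nat_lit 0) (XT.nd (nat_lit 78) (nat_lit 684) (nat_lit 0) (XT.lf (nat_lit 0) (nat_lit 14881559186) (nat_lit 836) (nat_lit 6089986489) (nat_lit 76) (nat_lit 18498685209) (nat_lit 327) (nat_lit 5) (nat_lit 338) (nat_lit 5) (nat_lit 328) (nat_lit 5) (nat_lit 656) (nat_lit 610) (nat_lit 294)) (XT.lf (nat_lit 0) (nat_lit 16314725775) (nat_lit 684) (nat_lit 4334265147) (nat_lit 760) (nat_lit 19273126561) (nat_lit 318) (nat_lit 5) (nat_lit 327) (nat_lit 5) (nat_lit 328) (nat_lit 5) (nat_lit 657) (nat_lit 610) (nat_lit 293))) (XT.nd (nat_lit 78) (nat_lit 684) (nat_lit 0) (XT.lf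 (nat_lit 0) (nat_lit 26653588139) (nat_lit 760) (nat_lit 1216039912) (nat_lit 76) (nat_lit 12510977527) (nat_lit 318) (nat_lit 5) (nat_lit 328) (nat_lit 5) (nat_lit 319) (nat_lit 5) (nat_lit 658) (nat_lit 610) (nat_lit 292)) (XT.lf (nat_lit 0) (nat_lit 21879835596) (nat_lit 684) (nat_lit 11067869976) (nat_lit 760) (nat_lit 7897169398) (nat_lit 309) (nat_lit 5) (nat_lit 318) (nat_lit 5) (nat_lit 319) (nat_lit 5) (nat_lit 659) (nat_lit 610) (nat_lit 291))))) (XT.nd (nat_lit 77454) (nat_lit 0) (nat_lit 12464) (XT.nd (nat_lit 78) (nat_lit 76) (nat_lit 0) (XT.lf (nat_lit 0) (nat_lit 4149227389) (nat_lit 608) (nat_lit 35291722521) (nat_lit 684) (nat_lit 1876015045) (nat_lit 301) (nat_lit 5) (nat_lit 309) (nat_lit 5) (nat_lit 310) (nat_lit 5) (nat_lit 660) (nat_lit 610) (nat_lit 290)) (XT.nd (nat_lit 77298) (nat_lit 0) (nat_lit 14288) (XT.lf (nat_lit 0) (nat_lit 4409711882) (nat_lit 684) (nat_lit 13916510141) (nat_lit 76) (nat_lit 23467719055) (nat_lit 300) (nat_lit 5)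 (nat_lit 309) (nat_lit 5) (nat_lit 301) (nat_lit 5) (nat_lit 661) (nat_lit 610) (nat_lit 289)) (XT.lf (nat_lit 0) (nat_lit 6084239463) (nat_lit 0) (nat_lit 6084239463) (nat_lit 1748) (nat_lit 181290602) (nat_lit 488) (nat_lit 5) (nat_lit 488) (nat_lit 3) (nat_lit 511) (nat_lit 3) (nat_lit 611) (nat_lit 611) (nat_lit 338)))) (XT.nd (nat_lit 156) (nat_lit 0) (nat_lit 0) (XT.nd (nat_lit 78) (nat_lit 1824) (nat_lit 0) (XT.lf (nat_lit 0) (nat_lit 24615040609) (nat_lit 0) (nat_lit 72898270) (nat_lit 1748) (nat_lit 256433269) (nat_lit 488) (nat_lit 5) (nat_lit 488) (nat_lit 3) (nat_lit 511) (nat_lit 3) (nat_lit 612) (nat_lit 611) (nat_lit 337)) (XT.lf (nat_lit 0) (nat_lit 10809748) (nat_lit 1824) (nat_lit 12995785709) (nat_lit 1900) (nat_lit 12184385361) (nat_lit 464) (nat_lit 5) (nat_lit 488) (nat_lit 5) (nat_lit 489) (nat_lit 5) (nat_lit 613) (nat_lit 611) (nat_lit 336))) (XT.nd (nat_lit 78) (nat_lit 0) (nat_lit 76) (XT.lf (nat_lit 0) (nat_lit 279888118) (nat_lit 1824)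 (nat_lit 471501424) (nat_lit 1900) (nat_lit 24691099990) (nat_lit 464) (nat_lit 5) (nat_lit 488) (nat_lit 5) (nat_lit 489) (nat_lit 5) (nat_lit 614) (nat_lit 611) (nat_lit 335)) (XT.lf (nat_lit 0) (nat_lit 709374994) (nat_lit 1824) (nat_lit 13309012955) (nat_lit 1900) (nat_lit 11677540182) (nat_lit 465) (nat_lit 5) (nat_lit 489) (nat_lit 5) (nat_lit 490) (nat_lit 5) (nat_lit 615) (nat_lit 611) (nat_lit 334))))))))
noncomputable def xc239 : XT := (XT.nd (nat_lit 2106) (nat_lit 7828) (nat_lit 0) (XT.nd (nat_lit 1014) (nat_lit 4028) (nat_lit 0) (XT.nd (nat_lit 468) (nat_lit 0) (nat_lit 228) (XT.nd (nat_lit 234) (nat_lit 0) (nat_lit 152) (XT.nd (nat_lit 78) (nat_lit 0) (nat_lit 76) (XT.lf (nat_lit 0) (nat_lit 1152932826) (nat_lit 1824) (nat_lit 452005344) (nat_lit 1900) (nat_lit 24349387953) (nat_lit 465) (nat_lit 5) (nat_lit 489) (nat_lit 5) (nat_lit 490) (nat_lit 5) (nat_lit 616) (nat_lit 611) (nat_lit 333)) (XT.nd (nat_lit 78) (nat_lit 0) (nat_lit 0) (XT.lf (nat_lit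 0) (nat_lit 1758375130) (nat_lit 1824) (nat_lit 13459727724) (nat_lit 1900) (nat_lit 10996729192) (nat_lit 466) (nat_lit 5) (nat_lit 490) (nat_lit 5) (nat_lit 491) (nat_lit 5) (nat_lit 617) (nat_lit 611) (nat_lit 332)) (XT.lf (nat_lit 0) (nat_lit 2387029972) (nat_lit 1824) (nat_lit 260199789) (nat_lit 1900) (nat_lit 23833096487) (nat_lit 466) (nat_lit 5) (nat_lit 490) (nat_lit 5) (nat_lit 491) (nat_lit 5) (nat_lit 618) (nat_lit 611) (nat_lit 331)))) (XT.nd (nat_lit 78) (nat_lit 0) (nat_lit 0) (XT.lf (nat_lit 0) (nat_lit 3179229112) (nat_lit 1824) (nat_lit 13438841789) (nat_lit 1900) (nat_lit 10130040240) (nat_lit 467) (nat_lit 5) (nat_lit 491) (nat_lit 5) (nat_lit 492) (nat_lit 5) (nat_lit 619) (nat_lit 611) (nat_lit 330)) (XT.nd (nat_lit 78) (nat_lit 0) (nat_lit 76) (XT.lf (nat_lit 76) (nat_lit 114838552) (nat_lit 0) (nat_lit 3889986646) (nat_lit 1900) (nat_lit 23016075700) (nat_lit 468) (nat_lit 5) (nat_lit 467) (nat_lit 5) (nat_lit 492) (nat_lit 5) (nat_lit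 620) (nat_lit 611) (nat_lit 329)) (XT.lf (nat_lit 0) (nat_lit 4994310465) (nat_lit 1824) (nat_lit 13236823499) (nat_lit 1900) (nat_lit 9065065162) (nat_lit 468) (nat_lit 5) (nat_lit 492) (nat_lit 5) (nat_lit 493) (nat_lit 5) (nat_lit 621) (nat_lit 611) (nat_lit 328))))) (XT.nd (nat_lit 234) (nat_lit 0) (nat_lit 152) (XT.nd (nat_lit 78) (nat_lit 0) (nat_lit 76) (XT.lf (nat_lit 76) (nat_lit 687479139) (nat_lit 0) (nat_lit 5343941911) (nat_lit 1900) (nat_lit 21545025772) (nat_lit 469) (nat_lit 5) (nat_lit 468) (nat_lit 5) (nat_lit 493) (nat_lit 5) (nat_lit 622) (nat_lit 611) (nat_lit 327)) (XT.nd (nat_lit 78) (nat_lit 0) (nat_lit 0) (XT.lf (nat_lit 0) (nat_lit 7226989720) (nat_lit 1824) (nat_lit 12843681884) (nat_lit 1900) (nat_lit 7788873765) (nat_lit 469) (nat_lit 5) (nat_lit 493) (nat_lit 5) (nat_lit 494) (nat_lit 5) (nat_lit 623) (nat_lit 611) (nat_lit 326)) (XT.lf (nat_lit 76) (nat_lit 1464743477) (nat_lit 0) (nat_lit 7024325088) (nat_lit 1900) (nat_lit 19658385552)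 (nat_lit 470) (nat_lit 5) (nat_lit 469) (nat_lit 5) (nat_lit 494) (nat_lit 5) (nat_lit 624) (nat_lit 611) (nat_lit 325)))) (XT.nd (nat_lit 156) (nat_lit 0) (nat_lit 76) (XT.nd (nat_lit 78) (nat_lit 0) (nat_lit 0) (XT.lf (nat_lit 0) (nat_lit 9901678461) (nat_lit 1824) (nat_lit 12248950074) (nat_lit 1900) (nat_lit 6287986921) (nat_lit 470) (nat_lit 5) (nat_lit 494) (nat_lit 5) (nat_lit 495) (nat_lit 5) (nat_lit 625) (nat_lit 611) (nat_lit 324)) (XT.lf (nat_lit 76) (nat_lit 2457605029) (nat_lit 0) (nat_lit 8945192752) (nat_lit 1900) (nat_lit 17331597296) (nat_lit 471) (nat_lit 5) (nat_lit 470) (nat_lit 5) (nat_lit 495) (nat_lit 5) (nat_lit 626) (nat_lit 611) (nat_lit 323))) (XT.nd (nat_lit 78) (nat_lit 0) (nat_lit 0) (XT.lf (nat_lit 0) (nat_lit 13043875061) (nat_lit 1824) (nat_lit 11441668023) (nat_lit 1900) (nat_lit 4548348692) (nat_lit 471) (nat_lit 5) (nat_lit 495) (nat_lit 5) (nat_lit 496) (nat_lit 5) (nat_lit 627) (nat_lit 611) (nat_lit 322)) (XT.lf (nat_lit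 76) (nat_lit 3677549255) (nat_lit 0) (nat_lit 11121203394) (nat_lit 1900) (nat_lit 14539006377) (nat_lit 472) (nat_lit 5) (nat_lit 471) (nat_lit 5) (nat_lit 496) (nat_lit 5) (nat_lit 628) (nat_lit 611) (nat_lit 321)))))) (XT.nd (nat_lit 546) (nat_lit 4560) (nat_lit 0) (XT.nd (nat_lit 234) (nat_lit 0) (nat_lit 76) (XT.nd (nat_lit 78) (nat_lit 0) (nat_lit 0) (XT.lf (nat_lit 0) (nat_lit 16680212166) (nat_lit 1824) (nat_lit 10410364511) (nat_lit 1900) (nat_lit 2555297446) (nat_lit 472) (nat_lit 5) (nat_lit 496) (nat_lit 5) (nat_lit 497) (nat_lit 5) (nat_lit 629) (nat_lit 611) (nat_lit 320)) (XT.nd (nat_lit 78) (nat_lit 0) (nat_lit 76) (XT.lf (nat_lit 76) (nat_lit 5136592303) (nat_lit 0) (nat_lit 13567647279) (nat_lit 1900) (nat_lit 11253813349) (nat_lit 473) (nat_lit 5) (nat_lit 472) (nat_lit 5) (nat_lit 497) (nat_lit 5) (nat_lit 630) (nat_lit 611) (nat_lit 319)) (XT.lf (nat_lit 0) (nat_lit 20838506014) (nat_lit 1824) (nat_lit 9143038413) (nat_lit 1900) (nat_lit 293535900)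 (nat_lit 473) (nat_lit 5) (nat_lit 497) (nat_lit 5) (nat_lit 498) (nat_lit 5) (nat_lit 631) (nat_lit 611) (nat_lit 318)))) (XT.nd (nat_lit 156) (nat_lit 0) (nat_lit 76) (XT.nd (nat_lit 78) (nat_lit 0) (nat_lit 0) (XT.lf (nat_lit 76) (nat_lit 6847300462) (nat_lit 0) (nat_lit 16300477420) (nat_lit 1900) (nat_lit 7448024166) (nat_lit 474) (nat_lit 5) (nat_lit 473) (nat_lit 5) (nat_lit 498) (nat_lit 5) (nat_lit 632) (nat_lit 611) (nat_lit 317)) (XT.lf (nat_lit 76) (nat_lit 23279789563) (nat_lit 0) (nat_lit 2282839807) (nat_lit 1900) (nat_lit 5359121124) (nat_lit 474) (nat_lit 5) (nat_lit 473) (nat_lit 5) (nat_lit 498) (nat_lit 5) (nat_lit 633) (nat_lit 611) (nat_lit 316))) (XT.nd (nat_lit 78) (nat_lit 0) (nat_lit 0) (XT.lf (nat_lit 76) (nat_lit 8822810393) (nat_lit 0) (nat_lit 19336341720) (nat_lit 1900) (nat_lit 3092398481) (nat_lit 475) (nat_lit 5) (nat_lit 474) (nat_lit 5) (nat_lit 499) (nat_lit 5) (nat_lit 634) (nat_lit 611) (nat_lit 315)) (XT.lf (nat_lit 76) (nat_lit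 25703554861) (nat_lit 0) (nat_lit 5168458378) (nat_lit 1900) (nat_lit 714645467) (nat_lit 475) (nat_lit 5) (nat_lit 474) (nat_lit 5) (nat_lit 499) (nat_lit 5) (nat_lit 635) (nat_lit 611) (nat_lit 314))))) (XT.nd (nat_lit 234) (nat_lit 1824) (nat_lit 0) (XT.nd (nat_lit 78) (nat_lit 1064) (nat_lit 0) (XT.lf (nat_lit 0) (nat_lit 1819424863) (nat_lit 1900) (nat_lit 20860982193) (nat_lit 76) (nat_lit 9245215992) (nat_lit 450) (nat_lit 5) (nat_lit 475) (nat_lit 5) (nat_lit 451) (nat_lit 5) (nat_lit 636) (nat_lit 611) (nat_lit 313)) (XT.nd (nat_lit 78) (nat_lit 1064) (nat_lit 0) (XT.lf (nat_lit 0) (nat_lit 4466745257) (nat_lit 1900) (nat_lit 3880326093) (nat_lit 76) (nat_lit 23922758253) (nat_lit 450) (nat_lit 5) (nat_lit 475) (nat_lit 5) (nat_lit 451) (nat_lit 5) (nat_lit 637) (nat_lit 611) (nat_lit 312)) (XT.lf (nat_lit 0) (nat_lit 7294933800) (nat_lit 1140) (nat_lit 19043553817) (nat_lit 76) (nat_lit 6279874392) (nat_lit 436) (nat_lit 5) (nat_lit 451) (nat_lit 5) (nat_lit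 437) (nat_lit 5) (nat_lit 638) (nat_lit 611) (nat_lit 311)))) (XT.nd (nat_lit 156) (nat_lit 912) (nat_lit 0) (XT.nd (nat_lit 78) (nat_lit 912) (nat_lit 0) (XT.lf (nat_lit 0) (nat_lit 10259399213) (nat_lit 1140) (nat_lit 1598760400) (nat_lit 76) (nat_lit 21114111341) (nat_lit 436) (nat_lit 5) (nat_lit 451) (nat_lit 5) (nat_lit 437) (nat_lit 5) (nat_lit 639) (nat_lit 611) (nat_lit 310)) (XT.lf (nat_lit 0) (nat_lit 13407558764) (nat_lit 988) (nat_lit 16942221648) (nat_lit 76) (nat_lit 2980989717) (nat_lit 424) (nat_lit 5) (nat_lit 437) (nat_lit 5) (nat_lit 425) (nat_lit 5) (nat_lit 640) (nat_lit 611) (nat_lit 309))) (XT.nd (nat_lit 78) (nat_lit 0) (nat_lit 0) (XT.lf (nat_lit 0) (nat_lit 993880836) (nat_lit 912) (nat_lit 15718866850) (nat_lit 988) (nat_lit 16981810424) (nat_lit 412) (nat_lit 5) (nat_lit 424) (nat_lit 5) (nat_lit 425) (nat_lit 5) (nat_lit 641) (nat_lit 611) (nat_lit 308)) (XT.lf (nat_lit 0) (nat_lit 19516769566) (nat_lit 912) (nat_lit 679268194) (nat_lit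 988) (nat_lit 13867344286) (nat_lit 412) (nat_lit 5) (nat_lit 424) (nat_lit 5) (nat_lit 425) (nat_lit 5) (nat_lit 642) (nat_lit 611) (nat_lit 307))))))) (XT.nd (nat_lit 1092) (nat_lit 1368) (nat_lit 0) (XT.nd (nat_lit 546) (nat_lit 3040) (nat_lit 0) (XT.nd (nat_lit 234) (nat_lit 1748) (nat_lit 0) (XT.nd (nat_lit 78) (nat_lit 836) (nat_lit 0) (XT.lf (nat_lit 0) (nat_lit 3925229100) (nat_lit 836) (nat_lit 19942779467) (nat_lit 912) (nat_lit 10569193736) (nat_lit 401) (nat_lit 5) (nat_lit 412) (nat_lit 5) (nat_lit 413) (nat_lit 5) (nat_lit 643) (nat_lit 611) (nat_lit 306)) (XT.nd (nat_lit 78) (nat_lit 836) (nat_lit 0) (XT.lf (nat_lit 0) (nat_lit 22957548057) (nat_lit 836) (nat_lit 4756317299) (nat_lit 912) (nat_lit 7102624815) (nat_lit 401) (nat_lit 5) (nat_lit 412) (nat_lit 5) (nat_lit 413) (nat_lit 5) (nat_lit 644) (nat_lit 611) (nat_lit 305)) (XT.lf (nat_lit 0) (nat_lit 7190172683) (nat_lit 836) (nat_lit 24561236122) (nat_lit 912) (nat_lit 3449659736) (nat_lit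 390) (nat_lit 5) (nat_lit 401) (nat_lit 5) (nat_lit 402) (nat_lit 5) (nat_lit 645) (nat_lit 611) (nat_lit 304)))) (XT.nd (nat_lit 156) (nat_lit 836) (nat_lit 0) (XT.nd (nat_lit 78) (nat_lit 836) (nat_lit 0) (XT.lf (nat_lit 0) (nat_lit 382750973) (nat_lit 912) (nat_lit 8846142953) (nat_lit 76) (nat_lit 26362208575) (nat_lit 389) (nat_lit 5) (nat_lit 401) (nat_lit 5) (nat_lit 390) (nat_lit 5) (nat_lit 646) (nat_lit 611) (nat_lit 303)) (XT.lf (nat_lit 0) (nat_lit 4356580499) (nat_lit 912) (nat_lit 25209949387) (nat_lit 76) (nat_lit 6419732107) (nat_lit 378) (nat_lit 5) (nat_lit 390) (nat_lit 5) (nat_lit 379) (nat_lit 5) (nat_lit 647) (nat_lit 611) (nat_lit 302))) (XT.nd (nat_lit 78) (nat_lit 836) (nat_lit 0) (XT.lf (nat_lit 0) (nat_lit 8529217616) (nat_lit 912) (nat_lit 5540106057) (nat_lit 76) (nat_lit 22317614507) (nat_lit 378) (nat_lit 5) (nat_lit 390) (nat_lit 5) (nat_lit 379) (nat_lit 5) (nat_lit 648) (nat_lit 611) (nat_lit 301)) (XT.lf (nat_lit 0) (nat_lit 12891247070)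 (nat_lit 912) (nat_lit 22091099760) (nat_lit 76) (nat_lit 1811162390) (nat_lit 367) (nat_lit 5) (nat_lit 379) (nat_lit 5) (nat_lit 368) (nat_lit 5) (nat_lit 649) (nat_lit 611) (nat_lit 300))))) (XT.nd (nat_lit 234) (nat_lit 1520) (nat_lit 0) (XT.nd (nat_lit 78) (nat_lit 1520) (nat_lit 0) (XT.lf (nat_lit 0) (nat_lit 17469621316) (nat_lit 912) (nat_lit 1877590177) (nat_lit 76) (nat_lit 17858418223) (nat_lit 367) (nat_lit 5) (nat_lit 379) (nat_lit 5) (nat_lit 368) (nat_lit 5) (nat_lit 650) (nat_lit 611) (nat_lit 299)) (XT.nd (nat_lit 78) (nat_lit 760) (nat_lit 0) (XT.lf (nat_lit 0) (nat_lit 18987672826) (nat_lit 760) (nat_lit 3273706711) (nat_lit 836) (nat_lit 15362176872) (nat_lit 357) (nat_lit 5) (nat_lit 367) (nat_lit 5) (nat_lit 368) (nat_lit 5) (nat_lit 651) (nat_lit 611) (nat_lit 298)) (XT.lf (nat_lit 0) (nat_lit 2187960947) (nat_lit 760) (nat_lit 25071646809) (nat_lit 836) (nat_lit 10788021300) (nat_lit 347) (nat_lit 5) (nat_lit 357) (nat_lit 5) (nat_lit 358)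 (nat_lit 5) (nat_lit 652) (nat_lit 611) (nat_lit 297)))) (XT.nd (nat_lit 156) (nat_lit 836) (nat_lit 0) (XT.nd (nat_lit 78) (nat_lit 684) (nat_lit 0) (XT.lf (nat_lit 0) (nat_lit 23657376845) (nat_lit 760) (nat_lit 8845590207) (nat_lit 836) (nat_lit 5974312885) (nat_lit 347) (nat_lit 5) (nat_lit 357) (nat_lit 5) (nat_lit 358) (nat_lit 5) (nat_lit 653) (nat_lit 611) (nat_lit 296)) (XT.lf (nat_lit 0) (nat_lit 6676648350) (nat_lit 684) (nat_lit 31266519887) (nat_lit 760) (nat_lit 970516215) (nat_lit 338) (nat_lit 5) (nat_lit 347) (nat_lit 5) (nat_lit 348) (nat_lit 5) (nat_lit 654) (nat_lit 611) (nat_lit 295))) (XT.nd (nat_lit 78) (nat_lit 760) (nat_lit 0) (XT.lf (nat_lit 0) (nat_lit 4236442488) (nat_lit 760) (nat_lit 10640441574) (nat_lit 76) (nat_lit 24478250456) (nat_lit 337) (nat_lit 5) (nat_lit 347) (nat_lit 5) (nat_lit 338) (nat_lit 5) (nat_lit 655) (nat_lit 611) (nat_lit 294)) (XT.lf (nat_lit 0) (nat_lit 9620549051) (nat_lit 836) (nat_lit 28284935216) (nat_lit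 76) (nat_lit 1898081042) (nat_lit 327) (nat_lit 5) (nat_lit 338) (nat_lit 5) (nat_lit 328) (nat_lit 5) (nat_lit 656) (nat_lit 611) (nat_lit 293)))))) (XT.nd (nat_lit 77922) (nat_lit 0) (nat_lit 11780) (XT.nd (nat_lit 234) (nat_lit 684) (nat_lit 0) (XT.nd (nat_lit 78) (nat_lit 684) (nat_lit 0) (XT.lf (nat_lit 0) (nat_lit 15281386902) (nat_lit 836) (nat_lit 6094957003) (nat_lit 76) (nat_lit 18881239931) (nat_lit 327) (nat_lit 5) (nat_lit 338) (nat_lit 5) (nat_lit 328) (nat_lit 5) (nat_lit 657) (nat_lit 611) (nat_lit 292)) (XT.nd (nat_lit 78) (nat_lit 0) (nat_lit 0) (XT.lf (nat_lit 0) (nat_lit 16757080894) (nat_lit 684) (nat_lit 4405836068) (nat_lit 760) (nat_lit 19555616362) (nat_lit 318) (nat_lit 5) (nat_lit 327) (nat_lit 5) (nat_lit 328) (nat_lit 5) (nat_lit 658) (nat_lit 611) (nat_lit 291)) (XT.lf (nat_lit 0) (nat_lit 27285722994) (nat_lit 760) (nat_lit 1124685240) (nat_lit 76) (nat_lit 12775820758) (nat_lit 318) (nat_lit 5) (nat_lit 328) (nat_lit 5) (nat_lit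 319) (nat_lit 5) (nat_lit 659) (nat_lit 611) (nat_lit 290)))) (XT.nd (nat_lit 77532) (nat_lit 0) (nat_lit 11780) (XT.nd (nat_lit 77454) (nat_lit 0) (nat_lit 13604) (XT.lf (nat_lit 0) (nat_lit 22432346755) (nat_lit 684) (nat_lit 11272179707) (nat_lit 760) (nat_lit 7955281381) (nat_lit 309) (nat_lit 5) (nat_lit 318) (nat_lit 5) (nat_lit 319) (nat_lit 5) (nat_lit 660) (nat_lit 611) (nat_lit 289)) (XT.lf (nat_lit 0) (nat_lit 6259380633) (nat_lit 0) (nat_lit 6259380633) (nat_lit 1748) (nat_lit 75855391) (nat_lit 488) (nat_lit 5) (nat_lit 488) (nat_lit 3) (nat_lit 511) (nat_lit 3) (nat_lit 612) (nat_lit 612) (nat_lit 336))) (XT.nd (nat_lit 78) (nat_lit 1824) (nat_lit 0) (XT.lf (nat_lit 0) (nat_lit 25212157853) (nat_lit 0) (nat_lit 179172667) (nat_lit 1748) (nat_lit 47716792) (nat_lit 488) (nat_lit 5) (nat_lit 488) (nat_lit 3) (nat_lit 511) (nat_lit 3) (nat_lit 613) (nat_lit 612) (nat_lit 335)) (XT.lf (nat_lit 0) (nat_lit 217969112) (nat_lit 1824) (nat_lit 13143944920)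 (nat_lit 1900) (nat_lit 12328728680) (nat_lit 464) (nat_lit 5) (nat_lit 488) (nat_lit 5) (nat_lit 489) (nat_lit 5) (nat_lit 614) (nat_lit 612) (nat_lit 334))))) (XT.nd (nat_lit 234) (nat_lit 0) (nat_lit 152) (XT.nd (nat_lit 78) (nat_lit 0) (nat_lit 76) (XT.lf (nat_lit 0) (nat_lit 488371340) (nat_lit 1824) (nat_lit 371366253) (nat_lit 1900) (nat_lit 25087525530) (nat_lit 464) (nat_lit 5) (nat_lit 488) (nat_lit 5) (nat_lit 489) (nat_lit 5) (nat_lit 615) (nat_lit 612) (nat_lit 333)) (XT.nd (nat_lit 78) (nat_lit 0) (nat_lit 0) (XT.lf (nat_lit 0) (nat_lit 922587161) (nat_lit 1824) (nat_lit 13461749094) (nat_lit 1900) (nat_lit 11821511818) (nat_lit 465) (nat_lit 5) (nat_lit 489) (nat_lit 5) (nat_lit 490) (nat_lit 5) (nat_lit 616) (nat_lit 612) (nat_lit 332)) (XT.lf (nat_lit 0) (nat_lit 1371113704) (nat_lit 1824) (nat_lit 349825725) (nat_lit 1900) (nat_lit 24748552999) (nat_lit 465) (nat_lit 5) (nat_lit 489) (nat_lit 5) (nat_lit 490) (nat_lit 5) (nat_lit 617) (nat_lit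 612) (nat_lit 331)))) (XT.nd (nat_lit 156) (nat_lit 0) (nat_lit 76) (XT.nd (nat_lit 78) (nat_lit 0) (nat_lit 0) (XT.lf (nat_lit 0) (nat_lit 1985026972) (nat_lit 1824) (nat_lit 13614047246) (nat_lit 1900) (nat_lit 11136207358) (nat_lit 466) (nat_lit 5) (nat_lit 490) (nat_lit 5) (nat_lit 491) (nat_lit 5) (nat_lit 618) (nat_lit 612) (nat_lit 330)) (XT.lf (nat_lit 0) (nat_lit 2622500316) (nat_lit 1824) (nat_lit 152781204) (nat_lit 1900) (nat_lit 24230879576) (nat_lit 466) (nat_lit 5) (nat_lit 490) (nat_lit 5) (nat_lit 491) (nat_lit 5) (nat_lit 619) (nat_lit 612) (nat_lit 329))) (XT.nd (nat_lit 78) (nat_lit 0) (nat_lit 0) (XT.lf (nat_lit 0) (nat_lit 3427115600) (nat_lit 1824) (nat_lit 13591551458) (nat_lit 1900) (nat_lit 10260703521) (nat_lit 467) (nat_lit 5) (nat_lit 491) (nat_lit 5) (nat_lit 492) (nat_lit 5) (nat_lit 620) (nat_lit 612) (nat_lit 328)) (XT.lf (nat_lit 76) (nat_lit 232438890) (nat_lit 0) (nat_lit 4033919581) (nat_lit 1900) (nat_lit 23291315290) (nat_lit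 468) (nat_lit 5) (nat_lit 467) (nat_lit 5) (nat_lit 492) (nat_lit 5) (nat_lit 621) (nat_lit 612) (nat_lit 327))))))))
noncomputable def xc240 : XT := (XT.nd (nat_lit 2106) (nat_lit 4560) (nat_lit 0) (XT.nd (nat_lit 1014) (nat_lit 6840) (nat_lit 0) (XT.nd (nat_lit 468) (nat_lit 0) (nat_lit 228) (XT.nd (nat_lit 234) (nat_lit 0) (nat_lit 76) (XT.nd (nat_lit 78) (nat_lit 0) (nat_lit 0) (XT.lf (nat_lit 0) (nat_lit 5271654899) (nat_lit 1824) (nat_lit 13384522614) (nat_lit 1900) (nat_lit 9182380334) (nat_lit 468) (nat_lit 5) (nat_lit 492) (nat_lit 5) (nat_lit 493) (nat_lit 5) (nat_lit 622) (nat_lit 612) (nat_lit 326)) (XT.nd (nat_lit 78) (nat_lit 0) (nat_lit 76) (XT.lf (nat_lit 76) (nat_lit 817496094) (nat_lit 0) (nat_lit 5509286913) (nat_lit 1900) (nat_lit 21797682299) (nat_lit 469) (nat_lit 5) (nat_lit 468) (nat_lit 5) (nat_lit 493) (nat_lit 5) (nat_lit 623) (nat_lit 612) (nat_lit 325)) (XT.lf (nat_lit 0) (nat_lit 7542464745) (nat_lit 1824) (nat_lit 12982754124) (nat_lit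 1900) (nat_lit 7888083230) (nat_lit 469) (nat_lit 5) (nat_lit 493) (nat_lit 5) (nat_lit 494) (nat_lit 5) (nat_lit 624) (nat_lit 612) (nat_lit 324)))) (XT.nd (nat_lit 78) (nat_lit 0) (nat_lit 76) (XT.lf (nat_lit 76) (nat_lit 1611064735) (nat_lit 0) (nat_lit 7216128574) (nat_lit 1900) (nat_lit 19879827854) (nat_lit 470) (nat_lit 5) (nat_lit 469) (nat_lit 5) (nat_lit 494) (nat_lit 5) (nat_lit 625) (nat_lit 612) (nat_lit 323)) (XT.nd (nat_lit 78) (nat_lit 0) (nat_lit 0) (XT.lf (nat_lit 0) (nat_lit 10264427902) (nat_lit 1824) (nat_lit 12375554950) (nat_lit 1900) (nat_lit 6364095725) (nat_lit 470) (nat_lit 5) (nat_lit 494) (nat_lit 5) (nat_lit 495) (nat_lit 5) (nat_lit 626) (nat_lit 612) (nat_lit 322)) (XT.lf (nat_lit 76) (nat_lit 2624352479) (nat_lit 0) (nat_lit 9168750914) (nat_lit 1900) (nat_lit 17512720014) (nat_lit 471) (nat_lit 5) (nat_lit 470) (nat_lit 5) (nat_lit 495) (nat_lit 5) (nat_lit 627) (nat_lit 612) (nat_lit 321))))) (XT.nd (nat_lit 234) (nat_lit 0) (nat_lit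 76) (XT.nd (nat_lit 78) (nat_lit 0) (nat_lit 0) (XT.lf (nat_lit 0) (nat_lit 13463536611) (nat_lit 1824) (nat_lit 11551731926) (nat_lit 1900) (nat_lit 4596111100) (nat_lit 471) (nat_lit 5) (nat_lit 495) (nat_lit 5) (nat_lit 496) (nat_lit 5) (nat_lit 628) (nat_lit 612) (nat_lit 320)) (XT.nd (nat_lit 78) (nat_lit 0) (nat_lit 76) (XT.lf (nat_lit 76) (nat_lit 3869088320) (nat_lit 0) (nat_lit 11382076075) (nat_lit 1900) (nat_lit 14670207064) (nat_lit 472) (nat_lit 5) (nat_lit 471) (nat_lit 5) (nat_lit 496) (nat_lit 5) (nat_lit 629) (nat_lit 612) (nat_lit 319)) (XT.lf (nat_lit 0) (nat_lit 17166940977) (nat_lit 1824) (nat_lit 10499571349) (nat_lit 1900) (nat_lit 2569203048) (nat_lit 472) (nat_lit 5) (nat_lit 496) (nat_lit 5) (nat_lit 497) (nat_lit 5) (nat_lit 630) (nat_lit 612) (nat_lit 318)))) (XT.nd (nat_lit 156) (nat_lit 0) (nat_lit 76) (XT.nd (nat_lit 78) (nat_lit 0) (nat_lit 76) (XT.lf (nat_lit 76) (nat_lit 5357541703) (nat_lit 0) (nat_lit 13871672343) (nat_lit 1900)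 (nat_lit 11324968681) (nat_lit 473) (nat_lit 5) (nat_lit 472) (nat_lit 5) (nat_lit 497) (nat_lit 5) (nat_lit 631) (nat_lit 612) (nat_lit 317)) (XT.lf (nat_lit 0) (nat_lit 21402999216) (nat_lit 1824) (nat_lit 9206819823) (nat_lit 1900) (nat_lit 267795228) (nat_lit 473) (nat_lit 5) (nat_lit 497) (nat_lit 5) (nat_lit 498) (nat_lit 5) (nat_lit 632) (nat_lit 612) (nat_lit 316))) (XT.nd (nat_lit 78) (nat_lit 0) (nat_lit 0) (XT.lf (nat_lit 76) (nat_lit 7102542413) (nat_lit 0) (nat_lit 16653785633) (nat_lit 1900) (nat_lit 7448465205) (nat_lit 474) (nat_lit 5) (nat_lit 473) (nat_lit 5) (nat_lit 498) (nat_lit 5) (nat_lit 633) (nat_lit 612) (nat_lit 315)) (XT.lf (nat_lit 76) (nat_lit 23861361767) (nat_lit 0) (nat_lit 2355260000) (nat_lit 1900) (nat_lit 5320696248) (nat_lit 474) (nat_lit 5) (nat_lit 473) (nat_lit 5) (nat_lit 498) (nat_lit 5) (nat_lit 634) (nat_lit 612) (nat_lit 314)))))) (XT.nd (nat_lit 546) (nat_lit 3496) (nat_lit 0) (XT.nd (nat_lit 234) (nat_lit 1976) (nat_lit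 0) (XT.nd (nat_lit 78) (nat_lit 1824) (nat_lit 0) (XT.lf (nat_lit 76) (nat_lit 9117501258) (nat_lit 0) (nat_lit 19745372187) (nat_lit 1900) (nat_lit 3010884952) (nat_lit 475) (nat_lit 5) (nat_lit 474) (nat_lit 5) (nat_lit 499) (nat_lit 5) (nat_lit 635) (nat_lit 612) (nat_lit 313)) (XT.nd (nat_lit 78) (nat_lit 1824) (nat_lit 0) (XT.lf (nat_lit 76) (nat_lit 26333542288) (nat_lit 0) (nat_lit 5293693852) (nat_lit 1900) (nat_lit 588387888) (nat_lit 475) (nat_lit 5) (nat_lit 474) (nat_lit 5) (nat_lit 499) (nat_lit 5) (nat_lit 636) (nat_lit 612) (nat_lit 312)) (XT.lf (nat_lit 0) (nat_lit 1992432146) (nat_lit 1900) (nat_lit 21158330118) (nat_lit 76) (nat_lit 9410629144) (nat_lit 450) (nat_lit 5) (nat_lit 475) (nat_lit 5) (nat_lit 451) (nat_lit 5) (nat_lit 637) (nat_lit 612) (nat_lit 311)))) (XT.nd (nat_lit 156) (nat_lit 912) (nat_lit 0) (XT.nd (nat_lit 78) (nat_lit 1064) (nat_lit 0) (XT.lf (nat_lit 0) (nat_lit 4690020148) (nat_lit 1900) (nat_lit 3840411322) (nat_lit 76)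 (nat_lit 24382104430) (nat_lit 450) (nat_lit 5) (nat_lit 475) (nat_lit 5) (nat_lit 451) (nat_lit 5) (nat_lit 638) (nat_lit 612) (nat_lit 310)) (XT.lf (nat_lit 0) (nat_lit 7572804703) (nat_lit 1140) (nat_lit 19304924571) (nat_lit 76) (nat_lit 6390349261) (nat_lit 436) (nat_lit 5) (nat_lit 451) (nat_lit 5) (nat_lit 437) (nat_lit 5) (nat_lit 639) (nat_lit 612) (nat_lit 309))) (XT.nd (nat_lit 78) (nat_lit 912) (nat_lit 0) (XT.lf (nat_lit 0) (nat_lit 10593971733) (nat_lit 1140) (nat_lit 1513578429) (nat_lit 76) (nat_lit 21521567470) (nat_lit 436) (nat_lit 5) (nat_lit 451) (nat_lit 5) (nat_lit 437) (nat_lit 5) (nat_lit 640) (nat_lit 612) (nat_lit 308)) (XT.lf (nat_lit 0) (nat_lit 13803240355) (nat_lit 988) (nat_lit 17162043948) (nat_lit 76) (nat_lit 3029539788) (nat_lit 424) (nat_lit 5) (nat_lit 437) (nat_lit 5) (nat_lit 425) (nat_lit 5) (nat_lit 641) (nat_lit 612) (nat_lit 307))))) (XT.nd (nat_lit 234) (nat_lit 1748) (nat_lit 0) (XT.nd (nat_lit 78) (nat_lit 836) (nat_lit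 0) (XT.lf (nat_lit 0) (nat_lit 1131997545) (nat_lit 912) (nat_lit 16040802600) (nat_lit 988) (nat_lit 17193122556) (nat_lit 412) (nat_lit 5) (nat_lit 424) (nat_lit 5) (nat_lit 425) (nat_lit 5) (nat_lit 642) (nat_lit 612) (nat_lit 306)) (XT.nd (nat_lit 78) (nat_lit 836) (nat_lit 0) (XT.lf (nat_lit 0) (nat_lit 20023025636) (nat_lit 912) (nat_lit 700263767) (nat_lit 988) (nat_lit 14018883254) (nat_lit 412) (nat_lit 5) (nat_lit 424) (nat_lit 5) (nat_lit 425) (nat_lit 5) (nat_lit 643) (nat_lit 612) (nat_lit 305)) (XT.lf (nat_lit 0) (nat_lit 4121400254) (nat_lit 836) (nat_lit 20345597920) (nat_lit 912) (nat_lit 10656505379) (nat_lit 401) (nat_lit 5) (nat_lit 412) (nat_lit 5) (nat_lit 413) (nat_lit 5) (nat_lit 644) (nat_lit 612) (nat_lit 304)))) (XT.nd (nat_lit 156) (nat_lit 912) (nat_lit 0) (XT.nd (nat_lit 78) (nat_lit 836) (nat_lit 0) (XT.lf (nat_lit 0) (nat_lit 23532058402) (nat_lit 836) (nat_lit 4855328806) (nat_lit 912) (nat_lit 7123037868) (nat_lit 401) (nat_lit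 5) (nat_lit 412) (nat_lit 5) (nat_lit 413) (nat_lit 5) (nat_lit 645) (nat_lit 612) (nat_lit 303)) (XT.lf (nat_lit 0) (nat_lit 7450980779) (nat_lit 836) (nat_lit 25053097559) (nat_lit 912) (nat_lit 3398648934) (nat_lit 390) (nat_lit 5) (nat_lit 401) (nat_lit 5) (nat_lit 402) (nat_lit 5) (nat_lit 646) (nat_lit 612) (nat_lit 302))) (XT.nd (nat_lit 78) (nat_lit 836) (nat_lit 0) (XT.lf (nat_lit 0) (nat_lit 506513956) (nat_lit 912) (nat_lit 8906802934) (nat_lit 76) (nat_lit 26887276072) (nat_lit 389) (nat_lit 5) (nat_lit 401) (nat_lit 5) (nat_lit 390) (nat_lit 5) (nat_lit 647) (nat_lit 612) (nat_lit 301)) (XT.lf (nat_lit 0) (nat_lit 4558299288) (nat_lit 912) (nat_lit 25596355466) (nat_lit 76) (nat_lit 6549031490) (nat_lit 378) (nat_lit 5) (nat_lit 390) (nat_lit 5) (nat_lit 379) (nat_lit 5) (nat_lit 648) (nat_lit 612) (nat_lit 300))))))) (XT.nd (nat_lit 78468) (nat_lit 0) (nat_lit 11020) (XT.nd (nat_lit 468) (nat_lit 2204) (nat_lit 0) (XT.nd (nat_lit 234) (nat_lit 1520)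 (nat_lit 0) (XT.nd (nat_lit 78) (nat_lit 836) (nat_lit 0) (XT.lf (nat_lit 0) (nat_lit 8812142339) (nat_lit 912) (nat_lit 5535424934) (nat_lit 76) (nat_lit 22764853798) (nat_lit 378) (nat_lit 5) (nat_lit 390) (nat_lit 5) (nat_lit 379) (nat_lit 5) (nat_lit 649) (nat_lit 612) (nat_lit 299)) (XT.nd (nat_lit 78) (nat_lit 0) (nat_lit 0) (XT.lf (nat_lit 0) (nat_lit 13259979429) (nat_lit 912) (nat_lit 22415996672) (nat_lit 76) (nat_lit 1851176268) (nat_lit 367) (nat_lit 5) (nat_lit 379) (nat_lit 5) (nat_lit 368) (nat_lit 5) (nat_lit 650) (nat_lit 612) (nat_lit 298)) (XT.lf (nat_lit 0) (nat_lit 17927746505) (nat_lit 912) (nat_lit 1800509545) (nat_lit 76) (nat_lit 18219302892) (nat_lit 367) (nat_lit 5) (nat_lit 379) (nat_lit 5) (nat_lit 368) (nat_lit 5) (nat_lit 651) (nat_lit 612) (nat_lit 297)))) (XT.nd (nat_lit 78) (nat_lit 760) (nat_lit 0) (XT.lf (nat_lit 0) (nat_lit 19481304557) (nat_lit 760) (nat_lit 3332642692) (nat_lit 836) (nat_lit 15559924945) (nat_lit 357) (nat_lit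 5) (nat_lit 367) (nat_lit 5) (nat_lit 368) (nat_lit 5) (nat_lit 652) (nat_lit 612) (nat_lit 296)) (XT.nd (nat_lit 78) (nat_lit 0) (nat_lit 0) (XT.lf (nat_lit 0) (nat_lit 2346948234) (nat_lit 760) (nat_lit 25563876844) (nat_lit 836) (nat_lit 10895627681) (nat_lit 347) (nat_lit 5) (nat_lit 357) (nat_lit 5) (nat_lit 358) (nat_lit 5) (nat_lit 653) (nat_lit 612) (nat_lit 295)) (XT.lf (nat_lit 0) (nat_lit 24243493076) (nat_lit 760) (nat_lit 9013479559) (nat_lit 836) (nat_lit 5987765766) (nat_lit 347) (nat_lit 5) (nat_lit 357) (nat_lit 5) (nat_lit 358) (nat_lit 5) (nat_lit 654) (nat_lit 612) (nat_lit 294))))) (XT.nd (nat_lit 234) (nat_lit 684) (nat_lit 0) (XT.nd (nat_lit 78) (nat_lit 836) (nat_lit 0) (XT.lf (nat_lit 0) (nat_lit 6924422006) (nat_lit 684) (nat_lit 31880316834) (nat_lit 760) (nat_lit 885157107) (nat_lit 338) (nat_lit 5) (nat_lit 347) (nat_lit 5) (nat_lit 348) (nat_lit 5) (nat_lit 655) (nat_lit 612) (nat_lit 293)) (XT.nd (nat_lit 78) (nat_lit 760) (nat_lit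 0) (XT.lf (nat_lit 0) (nat_lit 4422539340) (nat_lit 760) (nat_lit 10739894867) (nat_lit 76) (nat_lit 24977767906) (nat_lit 337) (nat_lit 5) (nat_lit 347) (nat_lit 5) (nat_lit 338) (nat_lit 5) (nat_lit 656) (nat_lit 612) (nat_lit 292)) (XT.lf (nat_lit 0) (nat_lit 9913152711) (nat_lit 836) (nat_lit 28736095473) (nat_lit 76) (nat_lit 1948376994) (nat_lit 327) (nat_lit 5) (nat_lit 338) (nat_lit 5) (nat_lit 328) (nat_lit 5) (nat_lit 657) (nat_lit 612) (nat_lit 291)))) (XT.nd (nat_lit 156) (nat_lit 0) (nat_lit 0) (XT.nd (nat_lit 78) (nat_lit 684) (nat_lit 0) (XT.lf (nat_lit 0) (nat_lit 15685242757) (nat_lit 836) (nat_lit 6104563547) (nat_lit 76) (nat_lit 19270957210) (nat_lit 327) (nat_lit 5) (nat_lit 338) (nat_lit 5) (nat_lit 328) (nat_lit 5) (nat_lit 658) (nat_lit 612) (nat_lit 290)) (XT.lf (nat_lit 0) (nat_lit 17203776340) (nat_lit 684) (nat_lit 4479425317) (nat_lit 760) (nat_lit 19847754516) (nat_lit 318) (nat_lit 5) (nat_lit 327) (nat_lit 5) (nat_lit 328) (nat_lit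 5) (nat_lit 659) (nat_lit 612) (nat_lit 289))) (XT.nd (nat_lit 77532) (nat_lit 0) (nat_lit 11020) (XT.lf (nat_lit 0) (nat_lit 27926653805) (nat_lit 760) (nat_lit 1035995294) (nat_lit 76) (nat_lit 13045392999) (nat_lit 318) (nat_lit 5) (nat_lit 328) (nat_lit 5) (nat_lit 319) (nat_lit 5) (nat_lit 660) (nat_lit 612) (nat_lit 288)) (XT.lf (nat_lit 0) (nat_lit 27093492) (nat_lit 1900) (nat_lit 6408673545) (nat_lit 1900) (nat_lit 6408673545) (nat_lit 463) (nat_lit 3) (nat_lit 488) (nat_lit 3) (nat_lit 488) (nat_lit 5) (nat_lit 613) (nat_lit 613) (nat_lit 334)))))) (XT.nd (nat_lit 546) (nat_lit 0) (nat_lit 304) (XT.nd (nat_lit 234) (nat_lit 0) (nat_lit 152) (XT.nd (nat_lit 78) (nat_lit 0) (nat_lit 76) (XT.lf (nat_lit 0) (nat_lit 154812767) (nat_lit 1900) (nat_lit 127650760) (nat_lit 1900) (nat_lit 25661295650) (nat_lit 463) (nat_lit 3) (nat_lit 488) (nat_lit 3) (nat_lit 488) (nat_lit 5) (nat_lit 614) (nat_lit 613) (nat_lit 333)) (XT.nd (nat_lit 78) (nat_lit 0) (nat_lit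 0) (XT.lf (nat_lit 0) (nat_lit 421235807) (nat_lit 1824) (nat_lit 13299406956) (nat_lit 1900) (nat_lit 12479816528) (nat_lit 464) (nat_lit 5) (nat_lit 488) (nat_lit 5) (nat_lit 489) (nat_lit 5) (nat_lit 615) (nat_lit 613) (nat_lit 332)) (XT.lf (nat_lit 0) (nat_lit 693145936) (nat_lit 1824) (nat_lit 273482929) (nat_lit 1900) (nat_lit 25495661605) (nat_lit 464) (nat_lit 5) (nat_lit 488) (nat_lit 5) (nat_lit 489) (nat_lit 5) (nat_lit 616) (nat_lit 613) (nat_lit 331)))) (XT.nd (nat_lit 156) (nat_lit 0) (nat_lit 76) (XT.nd (nat_lit 78) (nat_lit 0) (nat_lit 0) (XT.lf (nat_lit 0) (nat_lit 1132335200) (nat_lit 1824) (nat_lit 13621945129) (nat_lit 1900) (nat_lit 11971841356) (nat_lit 465) (nat_lit 5) (nat_lit 489) (nat_lit 5) (nat_lit 490) (nat_lit 5) (nat_lit 617) (nat_lit 613) (nat_lit 330)) (XT.lf (nat_lit 0) (nat_lit 1586081367) (nat_lit 1824) (nat_lit 249921311) (nat_lit 1900) (nat_lit 25159111609) (nat_lit 465) (nat_lit 5) (nat_lit 489) (nat_lit 5) (nat_lit 490) (nat_lit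 5) (nat_lit 618) (nat_lit 613) (nat_lit 329))) (XT.nd (nat_lit 78) (nat_lit 0) (nat_lit 0) (XT.lf (nat_lit 0) (nat_lit 2208776280) (nat_lit 1824) (nat_lit 13775913896) (nat_lit 1900) (nat_lit 11281599309) (nat_lit 466) (nat_lit 5) (nat_lit 490) (nat_lit 5) (nat_lit 491) (nat_lit 5) (nat_lit 619) (nat_lit 613) (nat_lit 328)) (XT.lf (nat_lit 0) (nat_lit 2855390292) (nat_lit 1824) (nat_lit 47587519) (nat_lit 1900) (nat_lit 24639681289) (nat_lit 466) (nat_lit 5) (nat_lit 490) (nat_lit 5) (nat_lit 491) (nat_lit 5) (nat_lit 620) (nat_lit 613) (nat_lit 327))))) (XT.nd (nat_lit 234) (nat_lit 0) (nat_lit 76) (XT.nd (nat_lit 78) (nat_lit 0) (nat_lit 0) (XT.lf (nat_lit 0) (nat_lit 3672803149) (nat_lit 1824) (nat_lit 13751822349) (nat_lit 1900) (nat_lit 10396773489) (nat_lit 467) (nat_lit 5) (nat_lit 491) (nat_lit 5) (nat_lit 492) (nat_lit 5) (nat_lit 621) (nat_lit 613) (nat_lit 326)) (XT.nd (nat_lit 78) (nat_lit 0) (nat_lit 76) (XT.lf (nat_lit 76) (nat_lit 347913857) (nat_lit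 0) (nat_lit 4178163143) (nat_lit 1900) (nat_lit 23579246628) (nat_lit 468) (nat_lit 5) (nat_lit 467) (nat_lit 5) (nat_lit 492) (nat_lit 5) (nat_lit 622) (nat_lit 613) (nat_lit 325)) (XT.lf (nat_lit 0) (nat_lit 5547655303) (nat_lit 1824) (nat_lit 13539720414) (nat_lit 1900) (nat_lit 9304526468) (nat_lit 468) (nat_lit 5) (nat_lit 492) (nat_lit 5) (nat_lit 493) (nat_lit 5) (nat_lit 623) (nat_lit 613) (nat_lit 324)))) (XT.nd (nat_lit 156) (nat_lit 0) (nat_lit 76) (XT.nd (nat_lit 78) (nat_lit 0) (nat_lit 76) (XT.lf (nat_lit 76) (nat_lit 945598585) (nat_lit 0) (nat_lit 5675668504) (nat_lit 1900) (nat_lit 22062313388) (nat_lit 469) (nat_lit 5) (nat_lit 468) (nat_lit 5) (nat_lit 493) (nat_lit 5) (nat_lit 624) (nat_lit 613) (nat_lit 323)) (XT.lf (nat_lit 0) (nat_lit 7857611648) (nat_lit 1824) (nat_lit 13129182180) (nat_lit 1900) (nat_lit 7991473490) (nat_lit 469) (nat_lit 5) (nat_lit 493) (nat_lit 5) (nat_lit 494) (nat_lit 5) (nat_lit 625) (nat_lit 613) (nat_lit 322)))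 (XT.nd (nat_lit 78) (nat_lit 0) (nat_lit 76) (XT.lf (nat_lit 76) (nat_lit 1755768141) (nat_lit 0) (nat_lit 7409775429) (nat_lit 1900) (nat_lit 20112367310) (nat_lit 470) (nat_lit 5) (nat_lit 469) (nat_lit 5) (nat_lit 494) (nat_lit 5) (nat_lit 626) (nat_lit 613) (nat_lit 321)) (XT.lf (nat_lit 0) (nat_lit 10628036213) (nat_lit 1824) (nat_lit 12509288535) (nat_lit 1900) (nat_lit 6443654712) (nat_lit 470) (nat_lit 5) (nat_lit 494) (nat_lit 5) (nat_lit 495) (nat_lit 5) (nat_lit 627) (nat_lit 613) (nat_lit 320))))))))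
noncomputable def xc241 : XT := (XT.nd (nat_lit 2106) (nat_lit 2204) (nat_lit 0) (XT.nd (nat_lit 1014) (nat_lit 6764) (nat_lit 0) (XT.nd (nat_lit 468) (nat_lit 2584) (nat_lit 0) (XT.nd (nat_lit 234) (nat_lit 0) (nat_lit 152) (XT.nd (nat_lit 78) (nat_lit 0) (nat_lit 76) (XT.lf (nat_lit 76) (nat_lit 2789868506) (nat_lit 0) (nat_lit 9395046258) (nat_lit 1900) (nat_lit 17703892112) (nat_lit 471) (nat_lit 5) (nat_lit 470) (nat_lit 5) (nat_lit 495) (nat_lit 5) (nat_lit 628) (nat_lit 613) (nat_lit 319)) (XT.nd (nat_lit 78) (nat_lit 0) (nat_lit 0) (XT.lf (nat_lit 0) (nat_lit 13885425614) (nat_lit 1824) (nat_lit 11668609070) (nat_lit 1900) (nat_lit 4646506442) (nat_lit 471) (nat_lit 5) (nat_lit 495) (nat_lit 5) (nat_lit 496) (nat_lit 5) (nat_lit 629) (nat_lit 613) (nat_lit 318)) (XT.lf (nat_lit 76) (nat_lit 4059876545) (nat_lit 0) (nat_lit 11646673204) (nat_lit 1900) (nat_lit 14810228430) (nat_lit 472) (nat_lit 5) (nat_lit 471) (nat_lit 5) (nat_lit 496) (nat_lit 5) (nat_lit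 630) (nat_lit 613) (nat_lit 317)))) (XT.nd (nat_lit 78) (nat_lit 0) (nat_lit 0) (XT.lf (nat_lit 0) (nat_lit 17657458351) (nat_lit 1824) (nat_lit 10595183257) (nat_lit 1900) (nat_lit 2584831298) (nat_lit 472) (nat_lit 5) (nat_lit 496) (nat_lit 5) (nat_lit 497) (nat_lit 5) (nat_lit 631) (nat_lit 613) (nat_lit 316)) (XT.nd (nat_lit 78) (nat_lit 0) (nat_lit 76) (XT.lf (nat_lit 76) (nat_lit 5578319559) (nat_lit 0) (nat_lit 14180509210) (nat_lit 1900) (nat_lit 11403524057) (nat_lit 473) (nat_lit 5) (nat_lit 472) (nat_lit 5) (nat_lit 497) (nat_lit 5) (nat_lit 632) (nat_lit 613) (nat_lit 315)) (XT.lf (nat_lit 0) (nat_lit 21973046015) (nat_lit 1824) (nat_lit 9276500858) (nat_lit 1900) (nat_lit 242767252) (nat_lit 473) (nat_lit 5) (nat_lit 497) (nat_lit 5) (nat_lit 498) (nat_lit 5) (nat_lit 633) (nat_lit 613) (nat_lit 314))))) (XT.nd (nat_lit 234) (nat_lit 2812) (nat_lit 0) (XT.nd (nat_lit 78) (nat_lit 0) (nat_lit 0) (XT.lf (nat_lit 76) (nat_lit 7358295627) (nat_lit 0) (nat_lit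 17013099970) (nat_lit 1900) (nat_lit 7454682255) (nat_lit 474) (nat_lit 5) (nat_lit 473) (nat_lit 5) (nat_lit 498) (nat_lit 5) (nat_lit 634) (nat_lit 613) (nat_lit 313)) (XT.nd (nat_lit 78) (nat_lit 0) (nat_lit 76) (XT.lf (nat_lit 76) (nat_lit 24450061910) (nat_lit 0) (nat_lit 2428089341) (nat_lit 1900) (nat_lit 5287156983) (nat_lit 474) (nat_lit 5) (nat_lit 473) (nat_lit 5) (nat_lit 498) (nat_lit 5) (nat_lit 635) (nat_lit 613) (nat_lit 312)) (XT.lf (nat_lit 76) (nat_lit 9413494743) (nat_lit 0) (nat_lit 20161717186) (nat_lit 1900) (nat_lit 2933308054) (nat_lit 475) (nat_lit 5) (nat_lit 474) (nat_lit 5) (nat_lit 499) (nat_lit 5) (nat_lit 636) (nat_lit 613) (nat_lit 311)))) (XT.nd (nat_lit 156) (nat_lit 1064) (nat_lit 0) (XT.nd (nat_lit 78) (nat_lit 1824) (nat_lit 0) (XT.lf (nat_lit 76) (nat_lit 26971628291) (nat_lit 0) (nat_lit 5420584940) (nat_lit 1900) (nat_lit 465062903) (nat_lit 475) (nat_lit 5) (nat_lit 474) (nat_lit 5) (nat_lit 499) (nat_lit 5) (nat_lit 637)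 (nat_lit 613) (nat_lit 310)) (XT.lf (nat_lit 0) (nat_lit 2163594501) (nat_lit 1900) (nat_lit 21466279766) (nat_lit 76) (nat_lit 9580107424) (nat_lit 450) (nat_lit 5) (nat_lit 475) (nat_lit 5) (nat_lit 451) (nat_lit 5) (nat_lit 638) (nat_lit 613) (nat_lit 309))) (XT.nd (nat_lit 78) (nat_lit 1064) (nat_lit 0) (XT.lf (nat_lit 0) (nat_lit 4912559484) (nat_lit 1900) (nat_lit 3804261750) (nat_lit 76) (nat_lit 24851379555) (nat_lit 450) (nat_lit 5) (nat_lit 475) (nat_lit 5) (nat_lit 451) (nat_lit 5) (nat_lit 639) (nat_lit 613) (nat_lit 308)) (XT.lf (nat_lit 0) (nat_lit 7851108382) (nat_lit 1140) (nat_lit 19576163083) (nat_lit 76) (nat_lit 6503620856) (nat_lit 436) (nat_lit 5) (nat_lit 451) (nat_lit 5) (nat_lit 437) (nat_lit 5) (nat_lit 640) (nat_lit 613) (nat_lit 307)))))) (XT.nd (nat_lit 546) (nat_lit 3268) (nat_lit 0) (XT.nd (nat_lit 234) (nat_lit 1672) (nat_lit 0) (XT.nd (nat_lit 78) (nat_lit 1824) (nat_lit 0) (XT.lf (nat_lit 0) (nat_lit 10930211545) (nat_lit 1140)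 (nat_lit 1431242175) (nat_lit 76) (nat_lit 21937748438) (nat_lit 436) (nat_lit 5) (nat_lit 451) (nat_lit 5) (nat_lit 437) (nat_lit 5) (nat_lit 641) (nat_lit 613) (nat_lit 306)) (XT.nd (nat_lit 78) (nat_lit 912) (nat_lit 0) (XT.lf (nat_lit 0) (nat_lit 14201883415) (nat_lit 988) (nat_lit 17390884469) (nat_lit 76) (nat_lit 3079490711) (nat_lit 424) (nat_lit 5) (nat_lit 437) (nat_lit 5) (nat_lit 425) (nat_lit 5) (nat_lit 642) (nat_lit 613) (nat_lit 305)) (XT.lf (nat_lit 0) (nat_lit 1268285221) (nat_lit 912) (nat_lit 16368883563) (nat_lit 988) (nat_lit 17413643912) (nat_lit 412) (nat_lit 5) (nat_lit 424) (nat_lit 5) (nat_lit 425) (nat_lit 5) (nat_lit 643) (nat_lit 613) (nat_lit 304)))) (XT.nd (nat_lit 156) (nat_lit 836) (nat_lit 0) (XT.nd (nat_lit 78) (nat_lit 836) (nat_lit 0) (XT.lf (nat_lit 0) (nat_lit 20534905487) (nat_lit 912) (nat_lit 721391504) (nat_lit 988) (nat_lit 14178338277) (nat_lit 412) (nat_lit 5) (nat_lit 424) (nat_lit 5) (nat_lit 425) (nat_lit 5) (nat_lit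 644) (nat_lit 613) (nat_lit 303)) (XT.lf (nat_lit 0) (nat_lit 4316925694) (nat_lit 836) (nat_lit 20756318860) (nat_lit 912) (nat_lit 10750381130) (nat_lit 401) (nat_lit 5) (nat_lit 412) (nat_lit 5) (nat_lit 413) (nat_lit 5) (nat_lit 645) (nat_lit 613) (nat_lit 302))) (XT.nd (nat_lit 78) (nat_lit 836) (nat_lit 0) (XT.lf (nat_lit 0) (nat_lit 24113579409) (nat_lit 836) (nat_lit 4956169677) (nat_lit 912) (nat_lit 7148582589) (nat_lit 401) (nat_lit 5) (nat_lit 412) (nat_lit 5) (nat_lit 413) (nat_lit 5) (nat_lit 646) (nat_lit 613) (nat_lit 301)) (XT.lf (nat_lit 0) (nat_lit 7712461605) (nat_lit 836) (nat_lit 25554771501) (nat_lit 912) (nat_lit 3351277817) (nat_lit 390) (nat_lit 5) (nat_lit 401) (nat_lit 5) (nat_lit 402) (nat_lit 5) (nat_lit 647) (nat_lit 613) (nat_lit 300))))) (XT.nd (nat_lit 234) (nat_lit 2356) (nat_lit 0) (XT.nd (nat_lit 78) (nat_lit 836) (nat_lit 0) (XT.lf (nat_lit 0) (nat_lit 628243584) (nat_lit 912) (nat_lit 8973190744) (nat_lit 76) (nat_lit 27422929442)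 (nat_lit 389) (nat_lit 5) (nat_lit 401) (nat_lit 5) (nat_lit 390) (nat_lit 5) (nat_lit 648) (nat_lit 613) (nat_lit 299)) (XT.nd (nat_lit 78) (nat_lit 0) (nat_lit 0) (XT.lf (nat_lit 0) (nat_lit 4759602892) (nat_lit 912) (nat_lit 25995063709) (nat_lit 76) (nat_lit 6680881729) (nat_lit 378) (nat_lit 5) (nat_lit 390) (nat_lit 5) (nat_lit 379) (nat_lit 5) (nat_lit 649) (nat_lit 613) (nat_lit 298)) (XT.lf (nat_lit 0) (nat_lit 9096363244) (nat_lit 912) (nat_lit 5535134543) (nat_lit 76) (nat_lit 23221003432) (nat_lit 378) (nat_lit 5) (nat_lit 390) (nat_lit 5) (nat_lit 379) (nat_lit 5) (nat_lit 650) (nat_lit 613) (nat_lit 297)))) (XT.nd (nat_lit 156) (nat_lit 1520) (nat_lit 0) (XT.nd (nat_lit 78) (nat_lit 0) (nat_lit 0) (XT.lf (nat_lit 0) (nat_lit 13631779765) (nat_lit 912) (nat_lit 22751931865) (nat_lit 76) (nat_lit 1891843230) (nat_lit 367) (nat_lit 5) (nat_lit 379) (nat_lit 5) (nat_lit 368) (nat_lit 5) (nat_lit 651) (nat_lit 613) (nat_lit 296)) (XT.lf (nat_lit 0) (nat_lit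 18390811972) (nat_lit 912) (nat_lit 1726338618) (nat_lit 76) (nat_lit 18587260946) (nat_lit 367) (nat_lit 5) (nat_lit 379) (nat_lit 5) (nat_lit 368) (nat_lit 5) (nat_lit 652) (nat_lit 613) (nat_lit 295))) (XT.nd (nat_lit 78) (nat_lit 760) (nat_lit 0) (XT.lf (nat_lit 0) (nat_lit 19980386890) (nat_lit 760) (nat_lit 3393011277) (nat_lit 836) (nat_lit 15765879821) (nat_lit 357) (nat_lit 5) (nat_lit 367) (nat_lit 5) (nat_lit 368) (nat_lit 5) (nat_lit 653) (nat_lit 613) (nat_lit 294)) (XT.lf (nat_lit 0) (nat_lit 2504640821) (nat_lit 760) (nat_lit 26066308840) (nat_lit 836) (nat_lit 11009585943) (nat_lit 347) (nat_lit 5) (nat_lit 357) (nat_lit 5) (nat_lit 358) (nat_lit 5) (nat_lit 654) (nat_lit 613) (nat_lit 293))))))) (XT.nd (nat_lit 78546) (nat_lit 0) (nat_lit 11248) (XT.nd (nat_lit 78000) (nat_lit 0) (nat_lit 11020) (XT.nd (nat_lit 234) (nat_lit 1444) (nat_lit 0) (XT.nd (nat_lit 78) (nat_lit 760) (nat_lit 0) (XT.lf (nat_lit 0) (nat_lit 24836944920) (nat_lit 760) (nat_lit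 9185077051) (nat_lit 836) (nat_lit 6005605109) (nat_lit 347) (nat_lit 5) (nat_lit 357) (nat_lit 5) (nat_lit 358) (nat_lit 5) (nat_lit 655) (nat_lit 613) (nat_lit 292)) (XT.nd (nat_lit 78) (nat_lit 76) (nat_lit 0) (XT.lf (nat_lit 0) (nat_lit 7172715030) (nat_lit 684) (nat_lit 32506837579) (nat_lit 760) (nat_lit 802159142) (nat_lit 338) (nat_lit 5) (nat_lit 347) (nat_lit 5) (nat_lit 348) (nat_lit 5) (nat_lit 656) (nat_lit 613) (nat_lit 291)) (XT.lf (nat_lit 0) (nat_lit 4608421886) (nat_lit 760) (nat_lit 10845738959) (nat_lit 76) (nat_lit 25486889239) (nat_lit 337) (nat_lit 5) (nat_lit 347) (nat_lit 5) (nat_lit 338) (nat_lit 5) (nat_lit 657) (nat_lit 613) (nat_lit 290)))) (XT.nd (nat_lit 78) (nat_lit 684) (nat_lit 0) (XT.lf (nat_lit 0) (nat_lit 10207717840) (nat_lit 836) (nat_lit 29200726602) (nat_lit 76) (nat_lit 1999199907) (nat_lit 327) (nat_lit 5) (nat_lit 338) (nat_lit 5) (nat_lit 328) (nat_lit 5) (nat_lit 658) (nat_lit 613) (nat_lit 289)) (XT.nd (nat_lit 78)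 (nat_lit 684) (nat_lit 0) (XT.lf (nat_lit 0) (nat_lit 16093361411) (nat_lit 836) (nat_lit 6118722681) (nat_lit 76) (nat_lit 19667999270) (nat_lit 327) (nat_lit 5) (nat_lit 338) (nat_lit 5) (nat_lit 328) (nat_lit 5) (nat_lit 659) (nat_lit 613) (nat_lit 288)) (XT.lf (nat_lit 0) (nat_lit 17655073924) (nat_lit 684) (nat_lit 4555050470) (nat_lit 760) (nat_lit 20149578721) (nat_lit 318) (nat_lit 5) (nat_lit 327) (nat_lit 5) (nat_lit 328) (nat_lit 5) (nat_lit 660) (nat_lit 613) (nat_lit 287))))) (XT.nd (nat_lit 234) (nat_lit 0) (nat_lit 76) (XT.nd (nat_lit 78) (nat_lit 0) (nat_lit 0) (XT.lf (nat_lit 0) (nat_lit 127069463) (nat_lit 1900) (nat_lit 6486131093) (nat_lit 1900) (nat_lit 6486131093) (nat_lit 463) (nat_lit 3) (nat_lit 488) (nat_lit 3) (nat_lit 488) (nat_lit 5) (nat_lit 614) (nat_lit 614) (nat_lit 332)) (XT.nd (nat_lit 78) (nat_lit 0) (nat_lit 76) (XT.lf (nat_lit 0) (nat_lit 352877846) (nat_lit 1900) (nat_lit 30760788) (nat_lit 1900) (nat_lit 26075078576) (nat_lit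 463) (nat_lit 3) (nat_lit 488) (nat_lit 3) (nat_lit 488) (nat_lit 5) (nat_lit 615) (nat_lit 614) (nat_lit 331)) (XT.lf (nat_lit 0) (nat_lit 620844023) (nat_lit 1824) (nat_lit 13462149360) (nat_lit 1900) (nat_lit 12637634000) (nat_lit 464) (nat_lit 5) (nat_lit 488) (nat_lit 5) (nat_lit 489) (nat_lit 5) (nat_lit 616) (nat_lit 614) (nat_lit 330)))) (XT.nd (nat_lit 156) (nat_lit 0) (nat_lit 76) (XT.nd (nat_lit 78) (nat_lit 0) (nat_lit 76) (XT.lf (nat_lit 0) (nat_lit 894443659) (nat_lit 1824) (nat_lit 177731279) (nat_lit 1900) (nat_lit 25915595563) (nat_lit 464) (nat_lit 5) (nat_lit 488) (nat_lit 5) (nat_lit 489) (nat_lit 5) (nat_lit 617) (nat_lit 614) (nat_lit 329)) (XT.lf (nat_lit 0) (nat_lit 1338849932) (nat_lit 1824) (nat_lit 13789579200) (nat_lit 1900) (nat_lit 12128520879) (nat_lit 465) (nat_lit 5) (nat_lit 489) (nat_lit 5) (nat_lit 490) (nat_lit 5) (nat_lit 618) (nat_lit 614) (nat_lit 328))) (XT.nd (nat_lit 78) (nat_lit 0) (nat_lit 76) (XT.lf (nat_lit 0) (nat_lit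 1798065766) (nat_lit 1824) (nat_lit 152169902) (nat_lit 1900) (nat_lit 25581159229) (nat_lit 465) (nat_lit 5) (nat_lit 489) (nat_lit 5) (nat_lit 490) (nat_lit 5) (nat_lit 619) (nat_lit 614) (nat_lit 327)) (XT.lf (nat_lit 0) (nat_lit 2429853736) (nat_lit 1824) (nat_lit 13945305400) (nat_lit 1900) (nat_lit 11432902002) (nat_lit 466) (nat_lit 5) (nat_lit 490) (nat_lit 5) (nat_lit 491) (nat_lit 5) (nat_lit 620) (nat_lit 614) (nat_lit 326)))))) (XT.nd (nat_lit 546) (nat_lit 0) (nat_lit 304) (XT.nd (nat_lit 234) (nat_lit 0) (nat_lit 152) (XT.nd (nat_lit 78) (nat_lit 0) (nat_lit 76) (XT.lf (nat_lit 76) (nat_lit 56244239) (nat_lit 0) (nat_lit 3030052299) (nat_lit 1900) (nat_lit 25003723994) (nat_lit 467) (nat_lit 5) (nat_lit 466) (nat_lit 5) (nat_lit 491) (nat_lit 5) (nat_lit 621) (nat_lit 614) (nat_lit 325)) (XT.nd (nat_lit 78) (nat_lit 0) (nat_lit 0) (XT.lf (nat_lit 0) (nat_lit 3916525685) (nat_lit 1824) (nat_lit 13919630675) (nat_lit 1900) (nat_lit 10538249807) (nat_lit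 467) (nat_lit 5) (nat_lit 491) (nat_lit 5) (nat_lit 492) (nat_lit 5) (nat_lit 622) (nat_lit 614) (nat_lit 324)) (XT.lf (nat_lit 76) (nat_lit 461394807) (nat_lit 0) (nat_lit 4322823263) (nat_lit 1900) (nat_lit 23879844472) (nat_lit 468) (nat_lit 5) (nat_lit 467) (nat_lit 5) (nat_lit 492) (nat_lit 5) (nat_lit 623) (nat_lit 614) (nat_lit 323)))) (XT.nd (nat_lit 156) (nat_lit 0) (nat_lit 76) (XT.nd (nat_lit 78) (nat_lit 0) (nat_lit 0) (XT.lf (nat_lit 0) (nat_lit 5822552378) (nat_lit 1824) (nat_lit 13702390398) (nat_lit 1900) (nat_lit 9431503703) (nat_lit 468) (nat_lit 5) (nat_lit 492) (nat_lit 5) (nat_lit 493) (nat_lit 5) (nat_lit 624) (nat_lit 614) (nat_lit 322)) (XT.lf (nat_lit 76) (nat_lit 1071923637) (nat_lit 0) (nat_lit 5843195572) (nat_lit 1900) (nat_lit 22338889762) (nat_lit 469) (nat_lit 5) (nat_lit 468) (nat_lit 5) (nat_lit 493) (nat_lit 5) (nat_lit 625) (nat_lit 614) (nat_lit 321))) (XT.nd (nat_lit 78) (nat_lit 0) (nat_lit 0) (XT.lf (nat_lit 0) (nat_lit 8172681612)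 (nat_lit 1824) (nat_lit 13282935542) (nat_lit 1900) (nat_lit 8099042862) (nat_lit 469) (nat_lit 5) (nat_lit 493) (nat_lit 5) (nat_lit 494) (nat_lit 5) (nat_lit 626) (nat_lit 614) (nat_lit 320)) (XT.lf (nat_lit 76) (nat_lit 1898997797) (nat_lit 0) (nat_lit 7605379899) (nat_lit 1900) (nat_lit 20355966923) (nat_lit 470) (nat_lit 5) (nat_lit 469) (nat_lit 5) (nat_lit 494) (nat_lit 5) (nat_lit 627) (nat_lit 614) (nat_lit 319))))) (XT.nd (nat_lit 234) (nat_lit 0) (nat_lit 76) (XT.nd (nat_lit 78) (nat_lit 0) (nat_lit 0) (XT.lf (nat_lit 0) (nat_lit 10992768942) (nat_lit 1824) (nat_lit 12650114911) (nat_lit 1900) (nat_lit 6526658018) (nat_lit 470) (nat_lit 5) (nat_lit 494) (nat_lit 5) (nat_lit 495) (nat_lit 5) (nat_lit 628) (nat_lit 614) (nat_lit 318)) (XT.nd (nat_lit 78) (nat_lit 0) (nat_lit 76) (XT.lf (nat_lit 76) (nat_lit 2954305801) (nat_lit 0) (nat_lit 9624200860) (nat_lit 1900) (nat_lit 17905065011) (nat_lit 471) (nat_lit 5) (nat_lit 470) (nat_lit 5) (nat_lit 495)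 (nat_lit 5) (nat_lit 629) (nat_lit 614) (nat_lit 317)) (XT.lf (nat_lit 0) (nat_lit 14309826044) (nat_lit 1824) (nat_lit 11792256631) (nat_lit 1900) (nat_lit 4699522230) (nat_lit 471) (nat_lit 5) (nat_lit 495) (nat_lit 5) (nat_lit 496) (nat_lit 5) (nat_lit 630) (nat_lit 614) (nat_lit 316)))) (XT.nd (nat_lit 156) (nat_lit 0) (nat_lit 76) (XT.nd (nat_lit 78) (nat_lit 0) (nat_lit 76) (XT.lf (nat_lit 76) (nat_lit 4250076823) (nat_lit 0) (nat_lit 11915127244) (nat_lit 1900) (nat_lit 14959006262) (nat_lit 472) (nat_lit 5) (nat_lit 471) (nat_lit 5) (nat_lit 496) (nat_lit 5) (nat_lit 631) (nat_lit 614) (nat_lit 315)) (XT.lf (nat_lit 0) (nat_lit 18152070949) (nat_lit 1824) (nat_lit 10697148900) (nat_lit 1900) (nat_lit 2602160554) (nat_lit 472) (nat_lit 5) (nat_lit 496) (nat_lit 5) (nat_lit 497) (nat_lit 5) (nat_lit 632) (nat_lit 614) (nat_lit 314))) (XT.nd (nat_lit 78) (nat_lit 0) (nat_lit 76) (XT.lf (nat_lit 76) (nat_lit 5799100696) (nat_lit 0) (nat_lit 14494303382) (nat_lit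 1900) (nat_lit 11489395387) (nat_lit 473) (nat_lit 5) (nat_lit 472) (nat_lit 5) (nat_lit 497) (nat_lit 5) (nat_lit 633) (nat_lit 614) (nat_lit 313)) (XT.lf (nat_lit 0) (nat_lit 22548980228) (nat_lit 1824) (nat_lit 9352019954) (nat_lit 1900) (nat_lit 218418559) (nat_lit 473) (nat_lit 5) (nat_lit 497) (nat_lit 5) (nat_lit 498) (nat_lit 5) (nat_lit 634) (nat_lit 614) (nat_lit 312))))))))
noncomputable def xc242 : XT := (XT.nd (nat_lit 79716) (nat_lit 0) (nat_lit 8284) (XT.nd (nat_lit 1014) (nat_lit 5624) (nat_lit 0) (XT.nd (nat_lit 468) (nat_lit 3724) (nat_lit 0) (XT.nd (nat_lit 234) (nat_lit 1748) (nat_lit 0) (XT.nd (nat_lit 78) (nat_lit 0) (nat_lit 0) (XT.lf (nat_lit 76) (nat_lit 7614748704) (nat_lit 0) (nat_lit 17378581716) (nat_lit 1900) (nat_lit 7466566891) (nat_lit 474) (nat_lit 5) (nat_lit 473) (nat_lit 5) (nat_lit 498) (nat_lit 5) (nat_lit 635) (nat_lit 614) (nat_lit 311)) (XT.nd (nat_lit 78) (nat_lit 0) (nat_lit 76) (XT.lf (nat_lit 76) (nat_lit 25046207428)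 (nat_lit 0) (nat_lit 2501376370) (nat_lit 1900) (nat_lit 5258381486) (nat_lit 474) (nat_lit 5) (nat_lit 473) (nat_lit 5) (nat_lit 498) (nat_lit 5) (nat_lit 636) (nat_lit 614) (nat_lit 310)) (XT.lf (nat_lit 76) (nat_lit 9710995185) (nat_lit 0) (nat_lit 20585556639) (nat_lit 1900) (nat_lit 2859530351) (nat_lit 475) (nat_lit 5) (nat_lit 474) (nat_lit 5) (nat_lit 499) (nat_lit 5) (nat_lit 637) (nat_lit 614) (nat_lit 309)))) (XT.nd (nat_lit 78) (nat_lit 1824) (nat_lit 0) (XT.lf (nat_lit 76) (nat_lit 27618149628) (nat_lit 0) (nat_lit 5549197727) (nat_lit 1900) (nat_lit 344517235) (nat_lit 475) (nat_lit 5) (nat_lit 474) (nat_lit 5) (nat_lit 499) (nat_lit 5) (nat_lit 638) (nat_lit 614) (nat_lit 308)) (XT.nd (nat_lit 78) (nat_lit 0) (nat_lit 0) (XT.lf (nat_lit 0) (nat_lit 2333081031) (nat_lit 1900) (nat_lit 21784862422) (nat_lit 76) (nat_lit 9753702747) (nat_lit 450) (nat_lit 5) (nat_lit 475) (nat_lit 5) (nat_lit 451) (nat_lit 5) (nat_lit 639) (nat_lit 614) (nat_lit 307))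 (XT.lf (nat_lit 0) (nat_lit 5134550517) (nat_lit 1900) (nat_lit 3771775476) (nat_lit 76) (nat_lit 25330753395) (nat_lit 450) (nat_lit 5) (nat_lit 475) (nat_lit 5) (nat_lit 451) (nat_lit 5) (nat_lit 640) (nat_lit 614) (nat_lit 306))))) (XT.nd (nat_lit 234) (nat_lit 1748) (nat_lit 0) (XT.nd (nat_lit 78) (nat_lit 912) (nat_lit 0) (XT.lf (nat_lit 0) (nat_lit 8130052488) (nat_lit 1140) (nat_lit 19857286518) (nat_lit 76) (nat_lit 6619722310) (nat_lit 436) (nat_lit 5) (nat_lit 451) (nat_lit 5) (nat_lit 437) (nat_lit 5) (nat_lit 641) (nat_lit 614) (nat_lit 305)) (XT.nd (nat_lit 78) (nat_lit 912) (nat_lit 0) (XT.lf (nat_lit 0) (nat_lit 11268347088) (nat_lit 1140) (nat_lit 1351631894) (nat_lit 76) (nat_lit 22362806384) (nat_lit 436) (nat_lit 5) (nat_lit 451) (nat_lit 5) (nat_lit 437) (nat_lit 5) (nat_lit 642) (nat_lit 614) (nat_lit 304)) (XT.lf (nat_lit 0) (nat_lit 14603739475) (nat_lit 988) (nat_lit 17628744105) (nat_lit 76) (nat_lit 3130853812) (nat_lit 424) (nat_lit 5)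 (nat_lit 437) (nat_lit 5) (nat_lit 425) (nat_lit 5) (nat_lit 643) (nat_lit 614) (nat_lit 303)))) (XT.nd (nat_lit 156) (nat_lit 836) (nat_lit 0) (XT.nd (nat_lit 78) (nat_lit 0) (nat_lit 0) (XT.lf (nat_lit 0) (nat_lit 1402885570) (nat_lit 912) (nat_lit 16703244039) (nat_lit 988) (nat_lit 17643365179) (nat_lit 412) (nat_lit 5) (nat_lit 424) (nat_lit 5) (nat_lit 425) (nat_lit 5) (nat_lit 644) (nat_lit 614) (nat_lit 302)) (XT.lf (nat_lit 0) (nat_lit 21052696385) (nat_lit 912) (nat_lit 742665221) (nat_lit 988) (nat_lit 14345677973) (nat_lit 412) (nat_lit 5) (nat_lit 424) (nat_lit 5) (nat_lit 425) (nat_lit 5) (nat_lit 645) (nat_lit 614) (nat_lit 301))) (XT.nd (nat_lit 78) (nat_lit 0) (nat_lit 0) (XT.lf (nat_lit 0) (nat_lit 4511969932) (nat_lit 836) (nat_lit 21175106310) (nat_lit 912) (nat_lit 10850765188) (nat_lit 401) (nat_lit 5) (nat_lit 412) (nat_lit 5) (nat_lit 413) (nat_lit 5) (nat_lit 646) (nat_lit 614) (nat_lit 300)) (XT.lf (nat_lit 0) (nat_lit 24702425237) (nat_lit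 836) (nat_lit 5058882358) (nat_lit 912) (nat_lit 7179178197) (nat_lit 401) (nat_lit 5) (nat_lit 412) (nat_lit 5) (nat_lit 413) (nat_lit 5) (nat_lit 647) (nat_lit 614) (nat_lit 299)))))) (XT.nd (nat_lit 546) (nat_lit 2280) (nat_lit 0) (XT.nd (nat_lit 234) (nat_lit 1596) (nat_lit 0) (XT.nd (nat_lit 78) (nat_lit 912) (nat_lit 0) (XT.lf (nat_lit 0) (nat_lit 7974805041) (nat_lit 836) (nat_lit 26066455157) (nat_lit 912) (nat_lit 3307438230) (nat_lit 390) (nat_lit 5) (nat_lit 401) (nat_lit 5) (nat_lit 402) (nat_lit 5) (nat_lit 648) (nat_lit 614) (nat_lit 298)) (XT.nd (nat_lit 78) (nat_lit 836) (nat_lit 0) (XT.lf (nat_lit 0) (nat_lit 748074267) (nat_lit 912) (nat_lit 9045245630) (nat_lit 76) (nat_lit 27969377120) (nat_lit 389) (nat_lit 5) (nat_lit 401) (nat_lit 5) (nat_lit 390) (nat_lit 5) (nat_lit 649) (nat_lit 614) (nat_lit 297)) (XT.lf (nat_lit 0) (nat_lit 4960655791) (nat_lit 912) (nat_lit 26406142543) (nat_lit 76) (nat_lit 6815335205) (nat_lit 378) (nat_lit 5) (nat_lit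 390) (nat_lit 5) (nat_lit 379) (nat_lit 5) (nat_lit 650) (nat_lit 614) (nat_lit 296)))) (XT.nd (nat_lit 156) (nat_lit 760) (nat_lit 0) (XT.nd (nat_lit 78) (nat_lit 836) (nat_lit 0) (XT.lf (nat_lit 0) (nat_lit 9382075646) (nat_lit 912) (nat_lit 5539148567) (nat_lit 76) (nat_lit 23686242953) (nat_lit 378) (nat_lit 5) (nat_lit 390) (nat_lit 5) (nat_lit 379) (nat_lit 5) (nat_lit 651) (nat_lit 614) (nat_lit 295)) (XT.lf (nat_lit 0) (nat_lit 14006876671) (nat_lit 912) (nat_lit 23098949798) (nat_lit 76) (nat_lit 1933182051) (nat_lit 367) (nat_lit 5) (nat_lit 379) (nat_lit 5) (nat_lit 368) (nat_lit 5) (nat_lit 652) (nat_lit 614) (nat_lit 294))) (XT.nd (nat_lit 78) (nat_lit 760) (nat_lit 0) (XT.lf (nat_lit 0) (nat_lit 18859080477) (nat_lit 912) (nat_lit 1654962740) (nat_lit 76) (nat_lit 18962439456) (nat_lit 367) (nat_lit 5) (nat_lit 379) (nat_lit 5) (nat_lit 368) (nat_lit 5) (nat_lit 653) (nat_lit 614) (nat_lit 293)) (XT.lf (nat_lit 0) (nat_lit 20485200551) (nat_lit 760)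 (nat_lit 3454831259) (nat_lit 836) (nat_lit 15980040533) (nat_lit 357) (nat_lit 5) (nat_lit 367) (nat_lit 5) (nat_lit 368) (nat_lit 5) (nat_lit 654) (nat_lit 614) (nat_lit 292))))) (XT.nd (nat_lit 234) (nat_lit 836) (nat_lit 0) (XT.nd (nat_lit 78) (nat_lit 684) (nat_lit 0) (XT.lf (nat_lit 0) (nat_lit 2661186562) (nat_lit 760) (nat_lit 26579132959) (nat_lit 836) (nat_lit 11129860042) (nat_lit 347) (nat_lit 5) (nat_lit 357) (nat_lit 5) (nat_lit 358) (nat_lit 5) (nat_lit 655) (nat_lit 614) (nat_lit 291)) (XT.nd (nat_lit 78) (nat_lit 684) (nat_lit 0) (XT.lf (nat_lit 0) (nat_lit 25438049431) (nat_lit 760) (nat_lit 9360443241) (nat_lit 836) (nat_lit 6027758760) (nat_lit 347) (nat_lit 5) (nat_lit 357) (nat_lit 5) (nat_lit 358) (nat_lit 5) (nat_lit 656) (nat_lit 614) (nat_lit 290)) (XT.lf (nat_lit 0) (nat_lit 7421710068) (nat_lit 684) (nat_lit 33146319205) (nat_lit 760) (nat_lit 721411564) (nat_lit 338) (nat_lit 5) (nat_lit 347) (nat_lit 5) (nat_lit 348) (nat_lit 5) (nat_lit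 657) (nat_lit 614) (nat_lit 289)))) (XT.nd (nat_lit 156) (nat_lit 0) (nat_lit 0) (XT.nd (nat_lit 78) (nat_lit 760) (nat_lit 0) (XT.lf (nat_lit 0) (nat_lit 4794238689) (nat_lit 760) (nat_lit 10957930742) (nat_lit 76) (nat_lit 26005821540) (nat_lit 337) (nat_lit 5) (nat_lit 347) (nat_lit 5) (nat_lit 338) (nat_lit 5) (nat_lit 658) (nat_lit 614) (nat_lit 288)) (XT.lf (nat_lit 0) (nat_lit 10504434745) (nat_lit 836) (nat_lit 29678925314) (nat_lit 76) (nat_lit 2050578920) (nat_lit 327) (nat_lit 5) (nat_lit 338) (nat_lit 5) (nat_lit 328) (nat_lit 5) (nat_lit 659) (nat_lit 614) (nat_lit 287))) (XT.nd (nat_lit 77688) (nat_lit 0) (nat_lit 10336) (XT.lf (nat_lit 0) (nat_lit 16505976235) (nat_lit 836) (nat_lit 6137356134) (nat_lit 76) (nat_lit 20072530838) (nat_lit 327) (nat_lit 5) (nat_lit 338) (nat_lit 5) (nat_lit 328) (nat_lit 5) (nat_lit 660) (nat_lit 614) (nat_lit 286)) (XT.lf (nat_lit 0) (nat_lit 225183805) (nat_lit 1900) (nat_lit 6567107153) (nat_lit 1900) (nat_lit 6567107153)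 (nat_lit 463) (nat_lit 3) (nat_lit 488) (nat_lit 3) (nat_lit 488) (nat_lit 5) (nat_lit 615) (nat_lit 615) (nat_lit 330))))))) (XT.nd (nat_lit 1014) (nat_lit 2052) (nat_lit 0) (XT.nd (nat_lit 468) (nat_lit 0) (nat_lit 228) (XT.nd (nat_lit 234) (nat_lit 0) (nat_lit 152) (XT.nd (nat_lit 78) (nat_lit 0) (nat_lit 76) (XT.lf (nat_lit 76) (nat_lit 65058746) (nat_lit 0) (nat_lit 482697008) (nat_lit 1900) (nat_lit 26436362312) (nat_lit 464) (nat_lit 5) (nat_lit 463) (nat_lit 3) (nat_lit 488) (nat_lit 5) (nat_lit 616) (nat_lit 615) (nat_lit 329)) (XT.nd (nat_lit 78) (nat_lit 0) (nat_lit 0) (XT.lf (nat_lit 0) (nat_lit 817020515) (nat_lit 1824) (nat_lit 13632155771) (nat_lit 1900) (nat_lit 12802171705) (nat_lit 464) (nat_lit 5) (nat_lit 488) (nat_lit 5) (nat_lit 489) (nat_lit 5) (nat_lit 617) (nat_lit 615) (nat_lit 328)) (XT.lf (nat_lit 0) (nat_lit 1092489014) (nat_lit 1824) (nat_lit 83995143) (nat_lit 1900) (nat_lit 26347422206) (nat_lit 464) (nat_lit 5) (nat_lit 488) (nat_lit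 5) (nat_lit 489) (nat_lit 5) (nat_lit 618) (nat_lit 615) (nat_lit 327)))) (XT.nd (nat_lit 78) (nat_lit 0) (nat_lit 0) (XT.lf (nat_lit 0) (nat_lit 1542355139) (nat_lit 1824) (nat_lit 13964635652) (nat_lit 1900) (nat_lit 12291547559) (nat_lit 465) (nat_lit 5) (nat_lit 489) (nat_lit 5) (nat_lit 490) (nat_lit 5) (nat_lit 619) (nat_lit 615) (nat_lit 326)) (XT.nd (nat_lit 78) (nat_lit 0) (nat_lit 76) (XT.lf (nat_lit 0) (nat_lit 2007290031) (nat_lit 1824) (nat_lit 56453367) (nat_lit 1900) (nat_lit 26014798358) (nat_lit 465) (nat_lit 5) (nat_lit 489) (nat_lit 5) (nat_lit 490) (nat_lit 5) (nat_lit 620) (nat_lit 615) (nat_lit 325)) (XT.lf (nat_lit 0) (nat_lit 2648483424) (nat_lit 1824) (nat_lit 14122205767) (nat_lit 1900) (nat_lit 11590117046) (nat_lit 466) (nat_lit 5) (nat_lit 490) (nat_lit 5) (nat_lit 491) (nat_lit 5) (nat_lit 621) (nat_lit 615) (nat_lit 324))))) (XT.nd (nat_lit 234) (nat_lit 0) (nat_lit 152) (XT.nd (nat_lit 78) (nat_lit 0) (nat_lit 76) (XT.lf (nat_lit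 76) (nat_lit 158703775) (nat_lit 0) (nat_lit 3156675266) (nat_lit 1900) (nat_lit 25333079602) (nat_lit 467) (nat_lit 5) (nat_lit 466) (nat_lit 5) (nat_lit 491) (nat_lit 5) (nat_lit 622) (nat_lit 615) (nat_lit 323)) (XT.nd (nat_lit 78) (nat_lit 0) (nat_lit 0) (XT.lf (nat_lit 0) (nat_lit 4158511016) (nat_lit 1824) (nat_lit 14094958966) (nat_lit 1900) (nat_lit 10685136340) (nat_lit 467) (nat_lit 5) (nat_lit 491) (nat_lit 5) (nat_lit 492) (nat_lit 5) (nat_lit 623) (nat_lit 615) (nat_lit 322)) (XT.lf (nat_lit 76) (nat_lit 573008971) (nat_lit 0) (nat_lit 4468004119) (nat_lit 1900) (nat_lit 24193093909) (nat_lit 468) (nat_lit 5) (nat_lit 467) (nat_lit 5) (nat_lit 492) (nat_lit 5) (nat_lit 624) (nat_lit 615) (nat_lit 321)))) (XT.nd (nat_lit 156) (nat_lit 0) (nat_lit 76) (XT.nd (nat_lit 78) (nat_lit 0) (nat_lit 0) (XT.lf (nat_lit 0) (nat_lit 6096581251) (nat_lit 1824) (nat_lit 13872512384) (nat_lit 1900) (nat_lit 9563315924) (nat_lit 468) (nat_lit 5) (nat_lit 492) (nat_lit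 5) (nat_lit 493) (nat_lit 5) (nat_lit 625) (nat_lit 615) (nat_lit 320)) (XT.lf (nat_lit 76) (nat_lit 1196604209) (nat_lit 0) (nat_lit 6011975764) (nat_lit 1900) (nat_lit 22627391996) (nat_lit 469) (nat_lit 5) (nat_lit 468) (nat_lit 5) (nat_lit 493) (nat_lit 5) (nat_lit 626) (nat_lit 615) (nat_lit 319))) (XT.nd (nat_lit 78) (nat_lit 0) (nat_lit 0) (XT.lf (nat_lit 0) (nat_lit 8487920837) (nat_lit 1824) (nat_lit 13443989983) (nat_lit 1900) (nat_lit 8210792946) (nat_lit 469) (nat_lit 5) (nat_lit 493) (nat_lit 5) (nat_lit 494) (nat_lit 5) (nat_lit 627) (nat_lit 615) (nat_lit 318)) (XT.lf (nat_lit 76) (nat_lit 2040893837) (nat_lit 0) (nat_lit 7803055510) (nat_lit 1900) (nat_lit 20610599013) (nat_lit 470) (nat_lit 5) (nat_lit 469) (nat_lit 5) (nat_lit 494) (nat_lit 5) (nat_lit 628) (nat_lit 615) (nat_lit 317)))))) (XT.nd (nat_lit 546) (nat_lit 2584) (nat_lit 0) (XT.nd (nat_lit 234) (nat_lit 0) (nat_lit 76) (XT.nd (nat_lit 78) (nat_lit 0) (nat_lit 0) (XT.lf (nat_lit 0)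 (nat_lit 11358887300) (nat_lit 1824) (nat_lit 12798004373) (nat_lit 1900) (nat_lit 6613102570) (nat_lit 470) (nat_lit 5) (nat_lit 494) (nat_lit 5) (nat_lit 495) (nat_lit 5) (nat_lit 629) (nat_lit 615) (nat_lit 316)) (XT.nd (nat_lit 78) (nat_lit 0) (nat_lit 76) (XT.lf (nat_lit 76) (nat_lit 3117813221) (nat_lit 0) (nat_lit 9856336624) (nat_lit 1900) (nat_lit 18116198853) (nat_lit 471) (nat_lit 5) (nat_lit 470) (nat_lit 5) (nat_lit 495) (nat_lit 5) (nat_lit 630) (nat_lit 615) (nat_lit 315)) (XT.lf (nat_lit 0) (nat_lit 14737018256) (nat_lit 1824) (nat_lit 11922637885) (nat_lit 1900) (nat_lit 4755148256) (nat_lit 471) (nat_lit 5) (nat_lit 495) (nat_lit 5) (nat_lit 496) (nat_lit 5) (nat_lit 631) (nat_lit 615) (nat_lit 314)))) (XT.nd (nat_lit 156) (nat_lit 0) (nat_lit 76) (XT.nd (nat_lit 78) (nat_lit 0) (nat_lit 76) (XT.lf (nat_lit 76) (nat_lit 4439848397) (nat_lit 0) (nat_lit 12187571057) (nat_lit 1900) (nat_lit 15116484411) (nat_lit 472) (nat_lit 5) (nat_lit 471) (nat_lit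 5) (nat_lit 496) (nat_lit 5) (nat_lit 632) (nat_lit 615) (nat_lit 313)) (XT.lf (nat_lit 0) (nat_lit 18651082603) (nat_lit 1824) (nat_lit 10805422882) (nat_lit 1900) (nat_lit 2621170922) (nat_lit 472) (nat_lit 5) (nat_lit 496) (nat_lit 5) (nat_lit 497) (nat_lit 5) (nat_lit 633) (nat_lit 615) (nat_lit 312))) (XT.nd (nat_lit 78) (nat_lit 0) (nat_lit 76) (XT.lf (nat_lit 76) (nat_lit 6020056515) (nat_lit 0) (nat_lit 14813201355) (nat_lit 1900) (nat_lit 11582505909) (nat_lit 473) (nat_lit 5) (nat_lit 472) (nat_lit 5) (nat_lit 497) (nat_lit 5) (nat_lit 634) (nat_lit 615) (nat_lit 311)) (XT.lf (nat_lit 0) (nat_lit 23131133701) (nat_lit 1824) (nat_lit 9433321291) (nat_lit 1900) (nat_lit 194716921) (nat_lit 473) (nat_lit 5) (nat_lit 497) (nat_lit 5) (nat_lit 498) (nat_lit 5) (nat_lit 635) (nat_lit 615) (nat_lit 310))))) (XT.nd (nat_lit 234) (nat_lit 2812) (nat_lit 0) (XT.nd (nat_lit 78) (nat_lit 0) (nat_lit 0) (XT.lf (nat_lit 76) (nat_lit 7872087088) (nat_lit 0) (nat_lit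 17750393783) (nat_lit 1900) (nat_lit 7484017213) (nat_lit 474) (nat_lit 5) (nat_lit 473) (nat_lit 5) (nat_lit 498) (nat_lit 5) (nat_lit 636) (nat_lit 615) (nat_lit 309)) (XT.nd (nat_lit 78) (nat_lit 0) (nat_lit 76) (XT.lf (nat_lit 76) (nat_lit 25650115312) (nat_lit 0) (nat_lit 2575169027) (nat_lit 1900) (nat_lit 5234254002) (nat_lit 474) (nat_lit 5) (nat_lit 473) (nat_lit 5) (nat_lit 498) (nat_lit 5) (nat_lit 637) (nat_lit 615) (nat_lit 308)) (XT.lf (nat_lit 76) (nat_lit 10010204080) (nat_lit 0) (nat_lit 21017072760) (nat_lit 1900) (nat_lit 2789420050) (nat_lit 475) (nat_lit 5) (nat_lit 474) (nat_lit 5) (nat_lit 499) (nat_lit 5) (nat_lit 638) (nat_lit 615) (nat_lit 307)))) (XT.nd (nat_lit 156) (nat_lit 1064) (nat_lit 0) (XT.nd (nat_lit 78) (nat_lit 1824) (nat_lit 0) (XT.lf (nat_lit 76) (nat_lit 28273443005) (nat_lit 0) (nat_lit 5679598336) (nat_lit 1900) (nat_lit 226602768) (nat_lit 475) (nat_lit 5) (nat_lit 474) (nat_lit 5) (nat_lit 499) (nat_lit 5) (nat_lit 639)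 (nat_lit 615) (nat_lit 306)) (XT.lf (nat_lit 0) (nat_lit 2501056223) (nat_lit 1900) (nat_lit 22114117014) (nat_lit 76) (nat_lit 9931469202) (nat_lit 450) (nat_lit 5) (nat_lit 475) (nat_lit 5) (nat_lit 451) (nat_lit 5) (nat_lit 640) (nat_lit 615) (nat_lit 305))) (XT.nd (nat_lit 78) (nat_lit 1064) (nat_lit 0) (XT.lf (nat_lit 0) (nat_lit 5356176402) (nat_lit 1900) (nat_lit 3742855440) (nat_lit 76) (nat_lit 25820400229) (nat_lit 450) (nat_lit 5) (nat_lit 475) (nat_lit 5) (nat_lit 451) (nat_lit 5) (nat_lit 641) (nat_lit 615) (nat_lit 304)) (XT.lf (nat_lit 0) (nat_lit 8409841098) (nat_lit 1140) (nat_lit 20148319382) (nat_lit 76) (nat_lit 6738688303) (nat_lit 436) (nat_lit 5) (nat_lit 451) (nat_lit 5) (nat_lit 437) (nat_lit 5) (nat_lit 642) (nat_lit 615) (nat_lit 303))))))))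
noncomputable def xc243 : XT := (XT.nd (nat_lit 79872) (nat_lit 0) (nat_lit 3116) (XT.nd (nat_lit 1014) (nat_lit 1520) (nat_lit 0) (XT.nd (nat_lit 468) (nat_lit 3344) (nat_lit 0) (XT.nd (nat_lit 234) (nat_lit 836) (nat_lit 0) (XT.nd (nat_lit 78) (nat_lit 1824) (nat_lit 0) (XT.lf (nat_lit 0) (nat_lit 11608603795) (nat_lit 1140) (nat_lit 1274632310) (nat_lit 76) (nat_lit 22796897362) (nat_lit 436) (nat_lit 5) (nat_lit 451) (nat_lit 5) (nat_lit 437) (nat_lit 5) (nat_lit 643) (nat_lit 615) (nat_lit 302)) (XT.nd (nat_lit 78) (nat_lit 912) (nat_lit 0) (XT.lf (nat_lit 0) (nat_lit 15009057623) (nat_lit 988) (nat_lit 17875630740) (nat_lit 76) (nat_lit 3183641290) (nat_lit 424) (nat_lit 5) (nat_lit 437) (nat_lit 5) (nat_lit 425) (nat_lit 5) (nat_lit 644) (nat_lit 615) (nat_lit 301)) (XT.lf (nat_lit 0) (nat_lit 1535936212) (nat_lit 912) (nat_lit 17044020574) (nat_lit 988) (nat_lit 17882284376) (nat_lit 412) (nat_lit 5) (nat_lit 424) (nat_lit 5) (nat_lit 425) (nat_lit 5) (nat_lit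 645) (nat_lit 615) (nat_lit 300)))) (XT.nd (nat_lit 78) (nat_lit 836) (nat_lit 0) (XT.lf (nat_lit 0) (nat_lit 21576684559) (nat_lit 912) (nat_lit 764098579) (nat_lit 988) (nat_lit 14520877702) (nat_lit 412) (nat_lit 5) (nat_lit 424) (nat_lit 5) (nat_lit 425) (nat_lit 5) (nat_lit 646) (nat_lit 615) (nat_lit 299)) (XT.nd (nat_lit 78) (nat_lit 0) (nat_lit 0) (XT.lf (nat_lit 0) (nat_lit 4706693880) (nat_lit 836) (nat_lit 21602127346) (nat_lit 912) (nat_lit 10957607900) (nat_lit 401) (nat_lit 5) (nat_lit 412) (nat_lit 5) (nat_lit 413) (nat_lit 5) (nat_lit 647) (nat_lit 615) (nat_lit 298)) (XT.lf (nat_lit 0) (nat_lit 25298909573) (nat_lit 836) (nat_lit 5163509917) (nat_lit 912) (nat_lit 7214749416) (nat_lit 401) (nat_lit 5) (nat_lit 412) (nat_lit 5) (nat_lit 413) (nat_lit 5) (nat_lit 648) (nat_lit 615) (nat_lit 297))))) (XT.nd (nat_lit 234) (nat_lit 1596) (nat_lit 0) (XT.nd (nat_lit 78) (nat_lit 912) (nat_lit 0) (XT.lf (nat_lit 0) (nat_lit 8238197916) (nat_lit 836) (nat_lit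 26588349645) (nat_lit 912) (nat_lit 3267026880) (nat_lit 390) (nat_lit 5) (nat_lit 401) (nat_lit 5) (nat_lit 402) (nat_lit 5) (nat_lit 649) (nat_lit 615) (nat_lit 296)) (XT.nd (nat_lit 78) (nat_lit 836) (nat_lit 0) (XT.lf (nat_lit 0) (nat_lit 866136301) (nat_lit 912) (nat_lit 9122912434) (nat_lit 76) (nat_lit 28526831837) (nat_lit 389) (nat_lit 5) (nat_lit 401) (nat_lit 5) (nat_lit 390) (nat_lit 5) (nat_lit 650) (nat_lit 615) (nat_lit 295)) (XT.lf (nat_lit 0) (nat_lit 5161619042) (nat_lit 912) (nat_lit 26829668661) (nat_lit 76) (nat_lit 6952445293) (nat_lit 378) (nat_lit 5) (nat_lit 390) (nat_lit 5) (nat_lit 379) (nat_lit 5) (nat_lit 651) (nat_lit 615) (nat_lit 294)))) (XT.nd (nat_lit 156) (nat_lit 760) (nat_lit 0) (XT.nd (nat_lit 78) (nat_lit 836) (nat_lit 0) (XT.lf (nat_lit 0) (nat_lit 9669472194) (nat_lit 912) (nat_lit 5547385723) (nat_lit 76) (nat_lit 24160755444) (nat_lit 378) (nat_lit 5) (nat_lit 390) (nat_lit 5) (nat_lit 379) (nat_lit 5) (nat_lit 652) (nat_lit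 615) (nat_lit 293)) (XT.lf (nat_lit 0) (nat_lit 14385496818) (nat_lit 912) (nat_lit 23457102666) (nat_lit 76) (nat_lit 1975211664) (nat_lit 367) (nat_lit 5) (nat_lit 379) (nat_lit 5) (nat_lit 368) (nat_lit 5) (nat_lit 653) (nat_lit 615) (nat_lit 292))) (XT.nd (nat_lit 78) (nat_lit 760) (nat_lit 0) (XT.lf (nat_lit 0) (nat_lit 19332813669) (nat_lit 912) (nat_lit 1586271672) (nat_lit 76) (nat_lit 19344988217) (nat_lit 367) (nat_lit 5) (nat_lit 379) (nat_lit 5) (nat_lit 368) (nat_lit 5) (nat_lit 654) (nat_lit 615) (nat_lit 291)) (XT.lf (nat_lit 0) (nat_lit 20996025211) (nat_lit 760) (nat_lit 3518122191) (nat_lit 836) (nat_lit 16202412504) (nat_lit 357) (nat_lit 5) (nat_lit 367) (nat_lit 5) (nat_lit 368) (nat_lit 5) (nat_lit 655) (nat_lit 615) (nat_lit 290)))))) (XT.nd (nat_lit 78312) (nat_lit 0) (nat_lit 9652) (XT.nd (nat_lit 234) (nat_lit 76) (nat_lit 0) (XT.nd (nat_lit 78) (nat_lit 684) (nat_lit 0) (XT.lf (nat_lit 0) (nat_lit 2816729520) (nat_lit 760) (nat_lit 27102543705)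 (nat_lit 836) (nat_lit 11256419546) (nat_lit 347) (nat_lit 5) (nat_lit 357) (nat_lit 5) (nat_lit 358) (nat_lit 5) (nat_lit 656) (nat_lit 615) (nat_lit 289)) (XT.nd (nat_lit 78) (nat_lit 684) (nat_lit 0) (XT.lf (nat_lit 0) (nat_lit 26047123387) (nat_lit 760) (nat_lit 9539640427) (nat_lit 836) (nat_lit 6054159331) (nat_lit 347) (nat_lit 5) (nat_lit 357) (nat_lit 5) (nat_lit 358) (nat_lit 5) (nat_lit 657) (nat_lit 615) (nat_lit 288)) (XT.lf (nat_lit 0) (nat_lit 7671586732) (nat_lit 684) (nat_lit 33799004215) (nat_lit 760) (nat_lit 642807538) (nat_lit 338) (nat_lit 5) (nat_lit 347) (nat_lit 5) (nat_lit 348) (nat_lit 5) (nat_lit 658) (nat_lit 615) (nat_lit 287)))) (XT.nd (nat_lit 77922) (nat_lit 0) (nat_lit 9576) (XT.nd (nat_lit 77844) (nat_lit 0) (nat_lit 9576) (XT.lf (nat_lit 0) (nat_lit 4980135348) (nat_lit 760) (nat_lit 11076432882) (nat_lit 76) (nat_lit 26534775453) (nat_lit 337) (nat_lit 5) (nat_lit 347) (nat_lit 5) (nat_lit 338) (nat_lit 5) (nat_lit 659) (nat_lit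 615) (nat_lit 286)) (XT.lf (nat_lit 0) (nat_lit 321549220) (nat_lit 1900) (nat_lit 6651595622) (nat_lit 1900) (nat_lit 6651595622) (nat_lit 463) (nat_lit 3) (nat_lit 488) (nat_lit 3) (nat_lit 488) (nat_lit 5) (nat_lit 616) (nat_lit 616) (nat_lit 328))) (XT.nd (nat_lit 78) (nat_lit 0) (nat_lit 76) (XT.lf (nat_lit 76) (nat_lit 159450772) (nat_lit 0) (nat_lit 579985561) (nat_lit 1900) (nat_lit 26780733166) (nat_lit 464) (nat_lit 5) (nat_lit 463) (nat_lit 3) (nat_lit 488) (nat_lit 5) (nat_lit 617) (nat_lit 616) (nat_lit 327)) (XT.lf (nat_lit 0) (nat_lit 1009984927) (nat_lit 1824) (nat_lit 13809415786) (nat_lit 1900) (nat_lit 12973425660) (nat_lit 464) (nat_lit 5) (nat_lit 488) (nat_lit 5) (nat_lit 489) (nat_lit 5) (nat_lit 618) (nat_lit 616) (nat_lit 326))))) (XT.nd (nat_lit 234) (nat_lit 0) (nat_lit 152) (XT.nd (nat_lit 78) (nat_lit 0) (nat_lit 76) (XT.lf (nat_lit 76) (nat_lit 7941956) (nat_lit 0) (nat_lit 1279609189) (nat_lit 1900) (nat_lit 26783353318) (nat_lit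 465) (nat_lit 5) (nat_lit 464) (nat_lit 5) (nat_lit 489) (nat_lit 5) (nat_lit 619) (nat_lit 616) (nat_lit 325)) (XT.nd (nat_lit 78) (nat_lit 0) (nat_lit 0) (XT.lf (nat_lit 0) (nat_lit 1743067878) (nat_lit 1824) (nat_lit 14147104901) (nat_lit 1900) (nat_lit 12460923554) (nat_lit 465) (nat_lit 5) (nat_lit 489) (nat_lit 5) (nat_lit 490) (nat_lit 5) (nat_lit 620) (nat_lit 616) (nat_lit 324)) (XT.lf (nat_lit 76) (nat_lit 37838792) (nat_lit 0) (nat_lit 2176377651) (nat_lit 1900) (nat_lit 26422545367) (nat_lit 466) (nat_lit 5) (nat_lit 465) (nat_lit 5) (nat_lit 490) (nat_lit 5) (nat_lit 621) (nat_lit 616) (nat_lit 323)))) (XT.nd (nat_lit 156) (nat_lit 0) (nat_lit 76) (XT.nd (nat_lit 78) (nat_lit 0) (nat_lit 0) (XT.lf (nat_lit 0) (nat_lit 2864883132) (nat_lit 1824) (nat_lit 14306605148) (nat_lit 1900) (nat_lit 11753250610) (nat_lit 466) (nat_lit 5) (nat_lit 490) (nat_lit 5) (nat_lit 491) (nat_lit 5) (nat_lit 622) (nat_lit 616) (nat_lit 322)) (XT.lf (nat_lit 76) (nat_lit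 259277553) (nat_lit 0) (nat_lit 3283266981) (nat_lit 1900) (nat_lit 25675651544) (nat_lit 467) (nat_lit 5) (nat_lit 466) (nat_lit 5) (nat_lit 491) (nat_lit 5) (nat_lit 623) (nat_lit 616) (nat_lit 321))) (XT.nd (nat_lit 78) (nat_lit 0) (nat_lit 0) (XT.lf (nat_lit 0) (nat_lit 4398981138) (nat_lit 1824) (nat_lit 14277795936) (nat_lit 1900) (nat_lit 10837441083) (nat_lit 467) (nat_lit 5) (nat_lit 491) (nat_lit 5) (nat_lit 492) (nat_lit 5) (nat_lit 624) (nat_lit 616) (nat_lit 320)) (XT.lf (nat_lit 76) (nat_lit 682879635) (nat_lit 0) (nat_lit 4613808253) (nat_lit 1900) (nat_lit 24518990147) (nat_lit 468) (nat_lit 5) (nat_lit 467) (nat_lit 5) (nat_lit 492) (nat_lit 5) (nat_lit 625) (nat_lit 616) (nat_lit 319))))))) (XT.nd (nat_lit 1092) (nat_lit 6840) (nat_lit 0) (XT.nd (nat_lit 546) (nat_lit 0) (nat_lit 228) (XT.nd (nat_lit 234) (nat_lit 0) (nat_lit 76) (XT.nd (nat_lit 78) (nat_lit 0) (nat_lit 0) (XT.lf (nat_lit 0) (nat_lit 6369971762) (nat_lit 1824) (nat_lit 14050072376)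 (nat_lit 1900) (nat_lit 9699970695) (nat_lit 468) (nat_lit 5) (nat_lit 492) (nat_lit 5) (nat_lit 493) (nat_lit 5) (nat_lit 626) (nat_lit 616) (nat_lit 318)) (XT.nd (nat_lit 78) (nat_lit 0) (nat_lit 76) (XT.lf (nat_lit 76) (nat_lit 1319769376) (nat_lit 0) (nat_lit 6182115588) (nat_lit 1900) (nat_lit 22927810308) (nat_lit 469) (nat_lit 5) (nat_lit 468) (nat_lit 5) (nat_lit 493) (nat_lit 5) (nat_lit 627) (nat_lit 616) (nat_lit 317)) (XT.lf (nat_lit 0) (nat_lit 8803570828) (nat_lit 1824) (nat_lit 13612327424) (nat_lit 1900) (nat_lit 8326728553) (nat_lit 469) (nat_lit 5) (nat_lit 493) (nat_lit 5) (nat_lit 494) (nat_lit 5) (nat_lit 628) (nat_lit 616) (nat_lit 316)))) (XT.nd (nat_lit 156) (nat_lit 0) (nat_lit 76) (XT.nd (nat_lit 78) (nat_lit 0) (nat_lit 76) (XT.lf (nat_lit 76) (nat_lit 2181592609) (nat_lit 0) (nat_lit 8002915172) (nat_lit 1900) (nat_lit 20876245010) (nat_lit 470) (nat_lit 5) (nat_lit 469) (nat_lit 5) (nat_lit 494) (nat_lit 5) (nat_lit 629) (nat_lit 616)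 (nat_lit 315)) (XT.lf (nat_lit 0) (nat_lit 11726648457) (nat_lit 1824) (nat_lit 12952933284) (nat_lit 1900) (nat_lit 6702988027) (nat_lit 470) (nat_lit 5) (nat_lit 494) (nat_lit 5) (nat_lit 495) (nat_lit 5) (nat_lit 630) (nat_lit 616) (nat_lit 314))) (XT.nd (nat_lit 78) (nat_lit 0) (nat_lit 76) (XT.lf (nat_lit 76) (nat_lit 3280535983) (nat_lit 0) (nat_lit 10091575377) (nat_lit 1900) (nat_lit 18337262298) (nat_lit 471) (nat_lit 5) (nat_lit 470) (nat_lit 5) (nat_lit 495) (nat_lit 5) (nat_lit 631) (nat_lit 616) (nat_lit 313)) (XT.lf (nat_lit 0) (nat_lit 15167279278) (nat_lit 1824) (nat_lit 12059722054) (nat_lit 1900) (nat_lit 4813376540) (nat_lit 471) (nat_lit 5) (nat_lit 495) (nat_lit 5) (nat_lit 496) (nat_lit 5) (nat_lit 632) (nat_lit 616) (nat_lit 312))))) (XT.nd (nat_lit 234) (nat_lit 0) (nat_lit 152) (XT.nd (nat_lit 78) (nat_lit 0) (nat_lit 76) (XT.lf (nat_lit 76) (nat_lit 4629347055) (nat_lit 0) (nat_lit 12464138000) (nat_lit 1900) (nat_lit 15282614584) (nat_lit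 472) (nat_lit 5) (nat_lit 471) (nat_lit 5) (nat_lit 496) (nat_lit 5) (nat_lit 633) (nat_lit 616) (nat_lit 311)) (XT.nd (nat_lit 78) (nat_lit 0) (nat_lit 0) (XT.lf (nat_lit 0) (nat_lit 19154794599) (nat_lit 1824) (nat_lit 10919965601) (nat_lit 1900) (nat_lit 2641844203) (nat_lit 472) (nat_lit 5) (nat_lit 496) (nat_lit 5) (nat_lit 497) (nat_lit 5) (nat_lit 634) (nat_lit 616) (nat_lit 310)) (XT.lf (nat_lit 76) (nat_lit 6241355189) (nat_lit 0) (nat_lit 15137350721) (nat_lit 1900) (nat_lit 11682785992) (nat_lit 473) (nat_lit 5) (nat_lit 472) (nat_lit 5) (nat_lit 497) (nat_lit 5) (nat_lit 635) (nat_lit 616) (nat_lit 309)))) (XT.nd (nat_lit 156) (nat_lit 0) (nat_lit 0) (XT.nd (nat_lit 78) (nat_lit 0) (nat_lit 0) (XT.lf (nat_lit 0) (nat_lit 23719836603) (nat_lit 1824) (nat_lit 9520354631) (nat_lit 1900) (nat_lit 171631242) (nat_lit 473) (nat_lit 5) (nat_lit 497) (nat_lit 5) (nat_lit 498) (nat_lit 5) (nat_lit 636) (nat_lit 616) (nat_lit 308)) (XT.lf (nat_lit 76) (nat_lit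 8130493277) (nat_lit 0) (nat_lit 18128700807) (nat_lit 1900) (nat_lit 7506937641) (nat_lit 474) (nat_lit 5) (nat_lit 473) (nat_lit 5) (nat_lit 498) (nat_lit 5) (nat_lit 637) (nat_lit 616) (nat_lit 307))) (XT.nd (nat_lit 78) (nat_lit 0) (nat_lit 76) (XT.lf (nat_lit 76) (nat_lit 26262102370) (nat_lit 0) (nat_lit 2649514709) (nat_lit 1900) (nat_lit 5214664654) (nat_lit 474) (nat_lit 5) (nat_lit 473) (nat_lit 5) (nat_lit 498) (nat_lit 5) (nat_lit 638) (nat_lit 616) (nat_lit 306)) (XT.lf (nat_lit 76) (nat_lit 10311320302) (nat_lit 0) (nat_lit 21456450151) (nat_lit 1900) (nat_lit 2722850792) (nat_lit 475) (nat_lit 5) (nat_lit 474) (nat_lit 5) (nat_lit 499) (nat_lit 5) (nat_lit 639) (nat_lit 616) (nat_lit 305)))))) (XT.nd (nat_lit 546) (nat_lit 2584) (nat_lit 0) (XT.nd (nat_lit 234) (nat_lit 2888) (nat_lit 0) (XT.nd (nat_lit 78) (nat_lit 1824) (nat_lit 0) (XT.lf (nat_lit 76) (nat_lit 28937845336) (nat_lit 0) (nat_lit 5811852985) (nat_lit 1900) (nat_lit 111176335) (nat_lit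 475) (nat_lit 5) (nat_lit 474) (nat_lit 5) (nat_lit 499) (nat_lit 5) (nat_lit 640) (nat_lit 616) (nat_lit 304)) (XT.nd (nat_lit 78) (nat_lit 0) (nat_lit 0) (XT.lf (nat_lit 0) (nat_lit 2667680166) (nat_lit 1900) (nat_lit 22454089996) (nat_lit 76) (nat_lit 10113463062) (nat_lit 450) (nat_lit 5) (nat_lit 475) (nat_lit 5) (nat_lit 451) (nat_lit 5) (nat_lit 641) (nat_lit 616) (nat_lit 303)) (XT.lf (nat_lit 0) (nat_lit 5577616418) (nat_lit 1900) (nat_lit 3717409257) (nat_lit 76) (nat_lit 26320498896) (nat_lit 450) (nat_lit 5) (nat_lit 475) (nat_lit 5) (nat_lit 451) (nat_lit 5) (nat_lit 642) (nat_lit 616) (nat_lit 302)))) (XT.nd (nat_lit 156) (nat_lit 1824) (nat_lit 0) (XT.nd (nat_lit 78) (nat_lit 0) (nat_lit 0) (XT.lf (nat_lit 0) (nat_lit 8690674945) (nat_lit 1140) (nat_lit 20449293395) (nat_lit 76) (nat_lit 6860555059) (nat_lit 436) (nat_lit 5) (nat_lit 451) (nat_lit 5) (nat_lit 437) (nat_lit 5) (nat_lit 643) (nat_lit 616) (nat_lit 301)) (XT.lf (nat_lit 0) (nat_lit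 11951204327) (nat_lit 1140) (nat_lit 1200132432) (nat_lit 76) (nat_lit 23240181377) (nat_lit 436) (nat_lit 5) (nat_lit 451) (nat_lit 5) (nat_lit 437) (nat_lit 5) (nat_lit 644) (nat_lit 616) (nat_lit 300))) (XT.nd (nat_lit 78) (nat_lit 912) (nat_lit 0) (XT.lf (nat_lit 0) (nat_lit 15418084757) (nat_lit 988) (nat_lit 18131559110) (nat_lit 76) (nat_lit 3237866214) (nat_lit 424) (nat_lit 5) (nat_lit 437) (nat_lit 5) (nat_lit 425) (nat_lit 5) (nat_lit 645) (nat_lit 616) (nat_lit 299)) (XT.lf (nat_lit 0) (nat_lit 1667570863) (nat_lit 912) (nat_lit 17391352019) (nat_lit 988) (nat_lit 18130406700) (nat_lit 412) (nat_lit 5) (nat_lit 424) (nat_lit 5) (nat_lit 425) (nat_lit 5) (nat_lit 646) (nat_lit 616) (nat_lit 298))))) (XT.nd (nat_lit 234) (nat_lit 1748) (nat_lit 0) (XT.nd (nat_lit 78) (nat_lit 836) (nat_lit 0) (XT.lf (nat_lit 0) (nat_lit 22107155433) (nat_lit 912) (nat_lit 785705092) (nat_lit 988) (nat_lit 14703919410) (nat_lit 412) (nat_lit 5) (nat_lit 424) (nat_lit 5)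 (nat_lit 425) (nat_lit 5) (nat_lit 647) (nat_lit 616) (nat_lit 297)) (XT.nd (nat_lit 78) (nat_lit 0) (nat_lit 0) (XT.lf (nat_lit 0) (nat_lit 4901255043) (nat_lit 836) (nat_lit 22037552159) (nat_lit 912) (nat_lit 11070865602) (nat_lit 401) (nat_lit 5) (nat_lit 412) (nat_lit 5) (nat_lit 413) (nat_lit 5) (nat_lit 648) (nat_lit 616) (nat_lit 296)) (XT.lf (nat_lit 0) (nat_lit 25903345888) (nat_lit 836) (nat_lit 5270096063) (nat_lit 912) (nat_lit 7255226311) (nat_lit 401) (nat_lit 5) (nat_lit 412) (nat_lit 5) (nat_lit 413) (nat_lit 5) (nat_lit 649) (nat_lit 616) (nat_lit 295)))) (XT.nd (nat_lit 156) (nat_lit 836) (nat_lit 0) (XT.nd (nat_lit 78) (nat_lit 76) (nat_lit 0) (XT.lf (nat_lit 0) (nat_lit 8502824211) (nat_lit 836) (nat_lit 27120660068) (nat_lit 912) (nat_lit 3229945162) (nat_lit 390) (nat_lit 5) (nat_lit 401) (nat_lit 5) (nat_lit 402) (nat_lit 5) (nat_lit 650) (nat_lit 616) (nat_lit 294)) (XT.lf (nat_lit 0) (nat_lit 982556056) (nat_lit 912) (nat_lit 9206141435)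 (nat_lit 76) (nat_lit 29095510703) (nat_lit 389) (nat_lit 5) (nat_lit 401) (nat_lit 5) (nat_lit 390) (nat_lit 5) (nat_lit 651) (nat_lit 616) (nat_lit 293))) (XT.nd (nat_lit 78) (nat_lit 0) (nat_lit 0) (XT.lf (nat_lit 0) (nat_lit 5362650476) (nat_lit 912) (nat_lit 27265726921) (nat_lit 76) (nat_lit 7092266387) (nat_lit 378) (nat_lit 5) (nat_lit 390) (nat_lit 5) (nat_lit 379) (nat_lit 5) (nat_lit 652) (nat_lit 616) (nat_lit 292)) (XT.lf (nat_lit 0) (nat_lit 9958743063) (nat_lit 912) (nat_lit 5559769600) (nat_lit 76) (nat_lit 24644727600) (nat_lit 378) (nat_lit 5) (nat_lit 390) (nat_lit 5) (nat_lit 379) (nat_lit 5) (nat_lit 653) (nat_lit 616) (nat_lit 291))))))))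
noncomputable def xc244 : XT := (XT.nd (nat_lit 79950) (nat_lit 0) (nat_lit 684) (XT.nd (nat_lit 78858) (nat_lit 0) (nat_lit 9728) (XT.nd (nat_lit 78312) (nat_lit 0) (nat_lit 9500) (XT.nd (nat_lit 234) (nat_lit 1444) (nat_lit 0) (XT.nd (nat_lit 78) (nat_lit 760) (nat_lit 0) (XT.lf (nat_lit 0) (nat_lit 14767865168) (nat_lit 912) (nat_lit 23826450286) (nat_lit 76) (nat_lit 2017951164) (nat_lit 367) (nat_lit 5) (nat_lit 379) (nat_lit 5) (nat_lit 368) (nat_lit 5) (nat_lit 654) (nat_lit 616) (nat_lit 290)) (XT.nd (nat_lit 78) (nat_lit 760) (nat_lit 0) (XT.lf (nat_lit 0) (nat_lit 19812272308) (nat_lit 912) (nat_lit 1520159426) (nat_lit 76) (nat_lit 19735059812) (nat_lit 367) (nat_lit 5) (nat_lit 379) (nat_lit 5) (nat_lit 368) (nat_lit 5) (nat_lit 655) (nat_lit 616) (nat_lit 289)) (XT.lf (nat_lit 0) (nat_lit 21513139726) (nat_lit 760) (nat_lit 3582904384) (nat_lit 836) (nat_lit 16433007429) (nat_lit 357) (nat_lit 5) (nat_lit 367) (nat_lit 5) (nat_lit 368) (nat_lit 5)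 (nat_lit 656) (nat_lit 616) (nat_lit 288)))) (XT.nd (nat_lit 78) (nat_lit 684) (nat_lit 0) (XT.lf (nat_lit 0) (nat_lit 2971410158) (nat_lit 760) (nat_lit 27636739992) (nat_lit 836) (nat_lit 11389239501) (nat_lit 347) (nat_lit 5) (nat_lit 357) (nat_lit 5) (nat_lit 358) (nat_lit 5) (nat_lit 657) (nat_lit 616) (nat_lit 287)) (XT.nd (nat_lit 78) (nat_lit 684) (nat_lit 0) (XT.lf (nat_lit 0) (nat_lit 26664483548) (nat_lit 760) (nat_lit 9722732659) (nat_lit 836) (nat_lit 6084744051) (nat_lit 347) (nat_lit 5) (nat_lit 357) (nat_lit 5) (nat_lit 358) (nat_lit 5) (nat_lit 658) (nat_lit 616) (nat_lit 286)) (XT.lf (nat_lit 0) (nat_lit 7922521795) (nat_lit 684) (nat_lit 34465140611) (nat_lit 760) (nat_lit 566243987) (nat_lit 338) (nat_lit 5) (nat_lit 347) (nat_lit 5) (nat_lit 348) (nat_lit 5) (nat_lit 659) (nat_lit 616) (nat_lit 285))))) (XT.nd (nat_lit 234) (nat_lit 0) (nat_lit 76) (XT.nd (nat_lit 78) (nat_lit 0) (nat_lit 0) (XT.lf (nat_lit 0) (nat_lit 416274840) (nat_lit 1900)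 (nat_lit 6739593246) (nat_lit 1900) (nat_lit 6739593246) (nat_lit 463) (nat_lit 3) (nat_lit 488) (nat_lit 3) (nat_lit 488) (nat_lit 5) (nat_lit 617) (nat_lit 617) (nat_lit 326)) (XT.nd (nat_lit 78) (nat_lit 0) (nat_lit 76) (XT.lf (nat_lit 76) (nat_lit 252115808) (nat_lit 0) (nat_lit 675816926) (nat_lit 1900) (nat_lit 27139150220) (nat_lit 464) (nat_lit 5) (nat_lit 463) (nat_lit 3) (nat_lit 488) (nat_lit 5) (nat_lit 618) (nat_lit 617) (nat_lit 325)) (XT.lf (nat_lit 0) (nat_lit 1199950102) (nat_lit 1824) (nat_lit 13993924845) (nat_lit 1900) (nat_lit 13151397173) (nat_lit 464) (nat_lit 5) (nat_lit 488) (nat_lit 5) (nat_lit 489) (nat_lit 5) (nat_lit 619) (nat_lit 617) (nat_lit 324)))) (XT.nd (nat_lit 156) (nat_lit 0) (nat_lit 76) (XT.nd (nat_lit 78) (nat_lit 0) (nat_lit 76) (XT.lf (nat_lit 76) (nat_lit 99176899) (nat_lit 0) (nat_lit 1381153336) (nat_lit 1900) (nat_lit 27148636586) (nat_lit 465) (nat_lit 5) (nat_lit 464) (nat_lit 5) (nat_lit 489) (nat_lit 5) (nat_lit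 620) (nat_lit 617) (nat_lit 323)) (XT.lf (nat_lit 0) (nat_lit 1941198782) (nat_lit 1824) (nat_lit 14336983307) (nat_lit 1900) (nat_lit 12636655907) (nat_lit 465) (nat_lit 5) (nat_lit 489) (nat_lit 5) (nat_lit 490) (nat_lit 5) (nat_lit 621) (nat_lit 617) (nat_lit 322))) (XT.nd (nat_lit 78) (nat_lit 0) (nat_lit 76) (XT.lf (nat_lit 76) (nat_lit 131046998) (nat_lit 0) (nat_lit 2288122213) (nat_lit 1900) (nat_lit 26787099887) (nat_lit 466) (nat_lit 5) (nat_lit 465) (nat_lit 5) (nat_lit 490) (nat_lit 5) (nat_lit 622) (nat_lit 617) (nat_lit 321)) (XT.lf (nat_lit 0) (nat_lit 3079264647) (nat_lit 1824) (nat_lit 14498499713) (nat_lit 1900) (nat_lit 11922313337) (nat_lit 466) (nat_lit 5) (nat_lit 490) (nat_lit 5) (nat_lit 491) (nat_lit 5) (nat_lit 623) (nat_lit 617) (nat_lit 320)))))) (XT.nd (nat_lit 546) (nat_lit 0) (nat_lit 304) (XT.nd (nat_lit 234) (nat_lit 0) (nat_lit 152) (XT.nd (nat_lit 78) (nat_lit 0) (nat_lit 76) (XT.lf (nat_lit 76) (nat_lit 358080658) (nat_lit 0)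 (nat_lit 3409926370) (nat_lit 1900) (nat_lit 26031446725) (nat_lit 467) (nat_lit 5) (nat_lit 466) (nat_lit 5) (nat_lit 491) (nat_lit 5) (nat_lit 624) (nat_lit 617) (nat_lit 319)) (XT.nd (nat_lit 78) (nat_lit 0) (nat_lit 0) (XT.lf (nat_lit 0) (nat_lit 4638152516) (nat_lit 1824) (nat_lit 14468136352) (nat_lit 1900) (nat_lit 10995176079) (nat_lit 467) (nat_lit 5) (nat_lit 491) (nat_lit 5) (nat_lit 492) (nat_lit 5) (nat_lit 625) (nat_lit 617) (nat_lit 318)) (XT.lf (nat_lit 76) (nat_lit 791126313) (nat_lit 0) (nat_lit 4760336679) (nat_lit 1900) (nat_lit 24857538308) (nat_lit 468) (nat_lit 5) (nat_lit 467) (nat_lit 5) (nat_lit 492) (nat_lit 5) (nat_lit 626) (nat_lit 617) (nat_lit 317)))) (XT.nd (nat_lit 156) (nat_lit 0) (nat_lit 76) (XT.nd (nat_lit 78) (nat_lit 0) (nat_lit 0) (XT.lf (nat_lit 0) (nat_lit 6642948750) (nat_lit 1824) (nat_lit 14235062428) (nat_lit 1900) (nat_lit 9841479195) (nat_lit 468) (nat_lit 5) (nat_lit 492) (nat_lit 5) (nat_lit 493) (nat_lit 5) (nat_lit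 627) (nat_lit 617) (nat_lit 316)) (XT.lf (nat_lit 76) (nat_lit 1441544504) (nat_lit 0) (nat_lit 6353720518) (nat_lit 1900) (nat_lit 23240144361) (nat_lit 469) (nat_lit 5) (nat_lit 468) (nat_lit 5) (nat_lit 493) (nat_lit 5) (nat_lit 628) (nat_lit 617) (nat_lit 315))) (XT.nd (nat_lit 78) (nat_lit 0) (nat_lit 0) (XT.lf (nat_lit 0) (nat_lit 9119868670) (nat_lit 1824) (nat_lit 13787935796) (nat_lit 1900) (nat_lit 8446857653) (nat_lit 469) (nat_lit 5) (nat_lit 493) (nat_lit 5) (nat_lit 494) (nat_lit 5) (nat_lit 629) (nat_lit 617) (nat_lit 314)) (XT.lf (nat_lit 76) (nat_lit 2321226860) (nat_lit 0) (nat_lit 8205071277) (nat_lit 1900) (nat_lit 21152895264) (nat_lit 470) (nat_lit 5) (nat_lit 469) (nat_lit 5) (nat_lit 494) (nat_lit 5) (nat_lit 630) (nat_lit 617) (nat_lit 313))))) (XT.nd (nat_lit 234) (nat_lit 0) (nat_lit 76) (XT.nd (nat_lit 78) (nat_lit 0) (nat_lit 0) (XT.lf (nat_lit 0) (nat_lit 12096305811) (nat_lit 1824) (nat_lit 13114883937) (nat_lit 1900) (nat_lit 6796316728)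 (nat_lit 470) (nat_lit 5) (nat_lit 494) (nat_lit 5) (nat_lit 495) (nat_lit 5) (nat_lit 631) (nat_lit 617) (nat_lit 312)) (XT.nd (nat_lit 78) (nat_lit 0) (nat_lit 76) (XT.lf (nat_lit 76) (nat_lit 3442615847) (nat_lit 0) (nat_lit 10330038969) (nat_lit 1900) (nat_lit 18568232330) (nat_lit 471) (nat_lit 5) (nat_lit 470) (nat_lit 5) (nat_lit 495) (nat_lit 5) (nat_lit 632) (nat_lit 617) (nat_lit 311)) (XT.lf (nat_lit 0) (nat_lit 15600883088) (nat_lit 1824) (nat_lit 12203484173) (nat_lit 1900) (nat_lit 4874201278) (nat_lit 471) (nat_lit 5) (nat_lit 495) (nat_lit 5) (nat_lit 496) (nat_lit 5) (nat_lit 633) (nat_lit 617) (nat_lit 310)))) (XT.nd (nat_lit 156) (nat_lit 0) (nat_lit 76) (XT.nd (nat_lit 78) (nat_lit 0) (nat_lit 76) (XT.lf (nat_lit 76) (nat_lit 4818725316) (nat_lit 0) (nat_lit 12744962015) (nat_lit 1900) (nat_lit 15457356153) (nat_lit 472) (nat_lit 5) (nat_lit 471) (nat_lit 5) (nat_lit 496) (nat_lit 5) (nat_lit 634) (nat_lit 617) (nat_lit 309)) (XT.lf (nat_lit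 0) (nat_lit 19663505970) (nat_lit 1824) (nat_lit 11040743095) (nat_lit 1900) (nat_lit 2664163846) (nat_lit 472) (nat_lit 5) (nat_lit 496) (nat_lit 5) (nat_lit 497) (nat_lit 5) (nat_lit 635) (nat_lit 617) (nat_lit 308))) (XT.nd (nat_lit 78) (nat_lit 0) (nat_lit 76) (XT.lf (nat_lit 76) (nat_lit 6463161862) (nat_lit 0) (nat_lit 15466900252) (nat_lit 1900) (nat_lit 11790172934) (nat_lit 473) (nat_lit 5) (nat_lit 472) (nat_lit 5) (nat_lit 497) (nat_lit 5) (nat_lit 636) (nat_lit 617) (nat_lit 307)) (XT.lf (nat_lit 0) (nat_lit 24315417714) (nat_lit 1824) (nat_lit 9613075175) (nat_lit 1900) (nat_lit 149131517) (nat_lit 473) (nat_lit 5) (nat_lit 497) (nat_lit 5) (nat_lit 498) (nat_lit 5) (nat_lit 637) (nat_lit 617) (nat_lit 306))))))) (XT.nd (nat_lit 1014) (nat_lit 4104) (nat_lit 0) (XT.nd (nat_lit 468) (nat_lit 3648) (nat_lit 0) (XT.nd (nat_lit 234) (nat_lit 1824) (nat_lit 0) (XT.nd (nat_lit 78) (nat_lit 0) (nat_lit 0) (XT.lf (nat_lit 76) (nat_lit 8390147017) (nat_lit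 0) (nat_lit 18513669236) (nat_lit 1900) (nat_lit 7535238720) (nat_lit 474) (nat_lit 5) (nat_lit 473) (nat_lit 5) (nat_lit 498) (nat_lit 5) (nat_lit 638) (nat_lit 617) (nat_lit 305)) (XT.nd (nat_lit 78) (nat_lit 0) (nat_lit 76) (XT.lf (nat_lit 76) (nat_lit 26882485471) (nat_lit 0) (nat_lit 2724460311) (nat_lit 1900) (nat_lit 5199509248) (nat_lit 474) (nat_lit 5) (nat_lit 473) (nat_lit 5) (nat_lit 498) (nat_lit 5) (nat_lit 639) (nat_lit 617) (nat_lit 304)) (XT.lf (nat_lit 76) (nat_lit 10614540308) (nat_lit 0) (nat_lit 21903875901) (nat_lit 1900) (nat_lit 2659701446) (nat_lit 475) (nat_lit 5) (nat_lit 474) (nat_lit 5) (nat_lit 499) (nat_lit 5) (nat_lit 640) (nat_lit 617) (nat_lit 303)))) (XT.nd (nat_lit 78) (nat_lit 0) (nat_lit 76) (XT.lf (nat_lit 0) (nat_lit 1875567) (nat_lit 1900) (nat_lit 5944139879) (nat_lit 1976) (nat_lit 29609805854) (nat_lit 449) (nat_lit 5) (nat_lit 474) (nat_lit 5) (nat_lit 475) (nat_lit 5) (nat_lit 641) (nat_lit 617) (nat_lit 302)) (XT.nd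 (nat_lit 78) (nat_lit 0) (nat_lit 0) (XT.lf (nat_lit 0) (nat_lit 2833108758) (nat_lit 1900) (nat_lit 22804835235) (nat_lit 76) (nat_lit 10299742777) (nat_lit 450) (nat_lit 5) (nat_lit 475) (nat_lit 5) (nat_lit 451) (nat_lit 5) (nat_lit 642) (nat_lit 617) (nat_lit 301)) (XT.lf (nat_lit 0) (nat_lit 5799046186) (nat_lit 1900) (nat_lit 3695349049) (nat_lit 76) (nat_lit 26831232848) (nat_lit 450) (nat_lit 5) (nat_lit 475) (nat_lit 5) (nat_lit 451) (nat_lit 5) (nat_lit 643) (nat_lit 617) (nat_lit 300))))) (XT.nd (nat_lit 234) (nat_lit 1748) (nat_lit 0) (XT.nd (nat_lit 78) (nat_lit 912) (nat_lit 0) (XT.lf (nat_lit 0) (nat_lit 8972751636) (nat_lit 1140) (nat_lit 20760247377) (nat_lit 76) (nat_lit 6985360346) (nat_lit 436) (nat_lit 5) (nat_lit 451) (nat_lit 5) (nat_lit 437) (nat_lit 5) (nat_lit 644) (nat_lit 617) (nat_lit 299)) (XT.nd (nat_lit 78) (nat_lit 912) (nat_lit 0) (XT.lf (nat_lit 0) (nat_lit 12296368798) (nat_lit 1140) (nat_lit 1128025388) (nat_lit 76) (nat_lit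 23692822441) (nat_lit 436) (nat_lit 5) (nat_lit 451) (nat_lit 5) (nat_lit 437) (nat_lit 5) (nat_lit 645) (nat_lit 617) (nat_lit 298)) (XT.lf (nat_lit 0) (nat_lit 15831065812) (nat_lit 988) (nat_lit 18396550688) (nat_lit 76) (nat_lit 3293542509) (nat_lit 424) (nat_lit 5) (nat_lit 437) (nat_lit 5) (nat_lit 425) (nat_lit 5) (nat_lit 646) (nat_lit 617) (nat_lit 297)))) (XT.nd (nat_lit 156) (nat_lit 836) (nat_lit 0) (XT.nd (nat_lit 78) (nat_lit 0) (nat_lit 0) (XT.lf (nat_lit 0) (nat_lit 1797919519) (nat_lit 912) (nat_lit 17745379590) (nat_lit 988) (nat_lit 18387744397) (nat_lit 412) (nat_lit 5) (nat_lit 424) (nat_lit 5) (nat_lit 425) (nat_lit 5) (nat_lit 647) (nat_lit 617) (nat_lit 296)) (XT.lf (nat_lit 0) (nat_lit 22644393873) (nat_lit 912) (nat_lit 807498146) (nat_lit 988) (nat_lit 14894791487) (nat_lit 412) (nat_lit 5) (nat_lit 424) (nat_lit 5) (nat_lit 425) (nat_lit 5) (nat_lit 648) (nat_lit 617) (nat_lit 295))) (XT.nd (nat_lit 78) (nat_lit 0) (nat_lit 0) (XT.lf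 (nat_lit 0) (nat_lit 5095807717) (nat_lit 836) (nat_lit 22481554131) (nat_lit 912) (nat_lit 11190500469) (nat_lit 401) (nat_lit 5) (nat_lit 412) (nat_lit 5) (nat_lit 413) (nat_lit 5) (nat_lit 649) (nat_lit 617) (nat_lit 294)) (XT.lf (nat_lit 0) (nat_lit 26516047681) (nat_lit 836) (nat_lit 5378685169) (nat_lit 912) (nat_lit 7300544126) (nat_lit 401) (nat_lit 5) (nat_lit 412) (nat_lit 5) (nat_lit 413) (nat_lit 5) (nat_lit 650) (nat_lit 617) (nat_lit 293)))))) (XT.nd (nat_lit 546) (nat_lit 760) (nat_lit 0) (XT.nd (nat_lit 234) (nat_lit 1596) (nat_lit 0) (XT.nd (nat_lit 78) (nat_lit 912) (nat_lit 0) (XT.lf (nat_lit 0) (nat_lit 8768865255) (nat_lit 836) (nat_lit 27663595598) (nat_lit 912) (nat_lit 3196098991) (nat_lit 390) (nat_lit 5) (nat_lit 401) (nat_lit 5) (nat_lit 402) (nat_lit 5) (nat_lit 651) (nat_lit 617) (nat_lit 292)) (XT.nd (nat_lit 78) (nat_lit 836) (nat_lit 0) (XT.lf (nat_lit 0) (nat_lit 1097456147) (nat_lit 912) (nat_lit 9294888209) (nat_lit 76) (nat_lit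 29675635285) (nat_lit 389) (nat_lit 5) (nat_lit 401) (nat_lit 5) (nat_lit 390) (nat_lit 5) (nat_lit 652) (nat_lit 617) (nat_lit 291)) (XT.lf (nat_lit 0) (nat_lit 5563904883) (nat_lit 912) (nat_lit 27714410246) (nat_lit 76) (nat_lit 7234853918) (nat_lit 378) (nat_lit 5) (nat_lit 390) (nat_lit 5) (nat_lit 379) (nat_lit 5) (nat_lit 653) (nat_lit 617) (nat_lit 290)))) (XT.nd (nat_lit 156) (nat_lit 760) (nat_lit 0) (XT.nd (nat_lit 78) (nat_lit 836) (nat_lit 0) (XT.lf (nat_lit 0) (nat_lit 10250076156) (nat_lit 912) (nat_lit 5576228509) (nat_lit 76) (nat_lit 25138349802) (nat_lit 378) (nat_lit 5) (nat_lit 390) (nat_lit 5) (nat_lit 379) (nat_lit 5) (nat_lit 654) (nat_lit 617) (nat_lit 289)) (XT.lf (nat_lit 0) (nat_lit 15154205183) (nat_lit 912) (nat_lit 24207059998) (nat_lit 76) (nat_lit 2061419825) (nat_lit 367) (nat_lit 5) (nat_lit 379) (nat_lit 5) (nat_lit 368) (nat_lit 5) (nat_lit 655) (nat_lit 617) (nat_lit 288))) (XT.nd (nat_lit 78) (nat_lit 760) (nat_lit 0) (XT.lf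 (nat_lit 0) (nat_lit 20297716491) (nat_lit 912) (nat_lit 1456524092) (nat_lit 76) (nat_lit 20132809673) (nat_lit 367) (nat_lit 5) (nat_lit 379) (nat_lit 5) (nat_lit 368) (nat_lit 5) (nat_lit 656) (nat_lit 617) (nat_lit 287)) (XT.lf (nat_lit 0) (nat_lit 22036822369) (nat_lit 760) (nat_lit 3649198909) (nat_lit 836) (nat_lit 16671843159) (nat_lit 357) (nat_lit 5) (nat_lit 367) (nat_lit 5) (nat_lit 368) (nat_lit 5) (nat_lit 657) (nat_lit 617) (nat_lit 286))))) (XT.nd (nat_lit 78156) (nat_lit 0) (nat_lit 8816) (XT.nd (nat_lit 78) (nat_lit 0) (nat_lit 0) (XT.lf (nat_lit 0) (nat_lit 3125365511) (nat_lit 760) (nat_lit 28181925208) (nat_lit 836) (nat_lit 11528300304) (nat_lit 347) (nat_lit 5) (nat_lit 357) (nat_lit 5) (nat_lit 358) (nat_lit 5) (nat_lit 658) (nat_lit 617) (nat_lit 285)) (XT.nd (nat_lit 78000) (nat_lit 0) (nat_lit 8816) (XT.lf (nat_lit 0) (nat_lit 27290446896) (nat_lit 760) (nat_lit 9909785759) (nat_lit 836) (nat_lit 6119454631) (nat_lit 347) (nat_lit 5)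 (nat_lit 357) (nat_lit 5) (nat_lit 358) (nat_lit 5) (nat_lit 659) (nat_lit 617) (nat_lit 284)) (XT.lf (nat_lit 0) (nat_lit 509466384) (nat_lit 1900) (nat_lit 6831099559) (nat_lit 1900) (nat_lit 6831099559) (nat_lit 463) (nat_lit 3) (nat_lit 488) (nat_lit 3) (nat_lit 488) (nat_lit 5) (nat_lit 618) (nat_lit 618) (nat_lit 324)))) (XT.nd (nat_lit 156) (nat_lit 0) (nat_lit 76) (XT.nd (nat_lit 78) (nat_lit 0) (nat_lit 76) (XT.lf (nat_lit 76) (nat_lit 343159682) (nat_lit 0) (nat_lit 770294100) (nat_lit 1900) (nat_lit 27511616415) (nat_lit 464) (nat_lit 5) (nat_lit 463) (nat_lit 3) (nat_lit 488) (nat_lit 5) (nat_lit 619) (nat_lit 618) (nat_lit 323)) (XT.lf (nat_lit 0) (nat_lit 1387122381) (nat_lit 1824) (nat_lit 14185684101) (nat_lit 1900) (nat_lit 13336092744) (nat_lit 464) (nat_lit 5) (nat_lit 488) (nat_lit 5) (nat_lit 489) (nat_lit 5) (nat_lit 620) (nat_lit 618) (nat_lit 322))) (XT.nd (nat_lit 78) (nat_lit 0) (nat_lit 76) (XT.lf (nat_lit 76) (nat_lit 188699946) (nat_lit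 0) (nat_lit 1481779059) (nat_lit 1900) (nat_lit 27527841730) (nat_lit 465) (nat_lit 5) (nat_lit 464) (nat_lit 5) (nat_lit 489) (nat_lit 5) (nat_lit 621) (nat_lit 618) (nat_lit 321)) (XT.lf (nat_lit 0) (nat_lit 2136952349) (nat_lit 1824) (nat_lit 14534273059) (nat_lit 1900) (nat_lit 12818756463) (nat_lit 465) (nat_lit 5) (nat_lit 489) (nat_lit 5) (nat_lit 490) (nat_lit 5) (nat_lit 622) (nat_lit 618) (nat_lit 320))))))))
noncomputable def xc245 : XT := (XT.nd (nat_lit 2106) (nat_lit 4180) (nat_lit 0) (XT.nd (nat_lit 1014) (nat_lit 4028) (nat_lit 0) (XT.nd (nat_lit 468) (nat_lit 0) (nat_lit 228) (XT.nd (nat_lit 234) (nat_lit 0) (nat_lit 152) (XT.nd (nat_lit 78) (nat_lit 0) (nat_lit 76) (XT.lf (nat_lit 76) (nat_lit 222529367) (nat_lit 0) (nat_lit 2399452717) (nat_lit 1900) (nat_lit 27165309793) (nat_lit 466) (nat_lit 5) (nat_lit 465) (nat_lit 5) (nat_lit 490) (nat_lit 5) (nat_lit 623) (nat_lit 618) (nat_lit 319)) (XT.nd (nat_lit 78) (nat_lit 0) (nat_lit 0) (XT.lf (nat_lit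 0) (nat_lit 3291834035) (nat_lit 1824) (nat_lit 14697891528) (nat_lit 1900) (nat_lit 12097320268) (nat_lit 466) (nat_lit 5) (nat_lit 490) (nat_lit 5) (nat_lit 491) (nat_lit 5) (nat_lit 624) (nat_lit 618) (nat_lit 318)) (XT.lf (nat_lit 76) (nat_lit 455224541) (nat_lit 0) (nat_lit 3536750474) (nat_lit 1900) (nat_lit 26400482187) (nat_lit 467) (nat_lit 5) (nat_lit 466) (nat_lit 5) (nat_lit 491) (nat_lit 5) (nat_lit 625) (nat_lit 618) (nat_lit 317)))) (XT.nd (nat_lit 78) (nat_lit 0) (nat_lit 0) (XT.lf (nat_lit 0) (nat_lit 4876236361) (nat_lit 1824) (nat_lit 14665980910) (nat_lit 1900) (nat_lit 11158357354) (nat_lit 467) (nat_lit 5) (nat_lit 491) (nat_lit 5) (nat_lit 492) (nat_lit 5) (nat_lit 626) (nat_lit 618) (nat_lit 316)) (XT.nd (nat_lit 78) (nat_lit 0) (nat_lit 76) (XT.lf (nat_lit 76) (nat_lit 897864915) (nat_lit 0) (nat_lit 4907688992) (nat_lit 1900) (nat_lit 25208753241) (nat_lit 468) (nat_lit 5) (nat_lit 467) (nat_lit 5) (nat_lit 492) (nat_lit 5) (nat_lit 627)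 (nat_lit 618) (nat_lit 315)) (XT.lf (nat_lit 0) (nat_lit 6915732324) (nat_lit 1824) (nat_lit 14427480521) (nat_lit 1900) (nat_lit 9987856151) (nat_lit 468) (nat_lit 5) (nat_lit 492) (nat_lit 5) (nat_lit 493) (nat_lit 5) (nat_lit 628) (nat_lit 618) (nat_lit 314))))) (XT.nd (nat_lit 234) (nat_lit 0) (nat_lit 152) (XT.nd (nat_lit 78) (nat_lit 0) (nat_lit 76) (XT.lf (nat_lit 76) (nat_lit 1562051424) (nat_lit 0) (nat_lit 6526895100) (nat_lit 1900) (nat_lit 23564403080) (nat_lit 469) (nat_lit 5) (nat_lit 468) (nat_lit 5) (nat_lit 493) (nat_lit 5) (nat_lit 629) (nat_lit 618) (nat_lit 313)) (XT.nd (nat_lit 78) (nat_lit 0) (nat_lit 0) (XT.lf (nat_lit 0) (nat_lit 9437047307) (nat_lit 1824) (nat_lit 13970808914) (nat_lit 1900) (nat_lit 8571191317) (nat_lit 469) (nat_lit 5) (nat_lit 493) (nat_lit 5) (nat_lit 494) (nat_lit 5) (nat_lit 630) (nat_lit 618) (nat_lit 312)) (XT.lf (nat_lit 76) (nat_lit 2459925906) (nat_lit 0) (nat_lit 8409635794) (nat_lit 1900) (nat_lit 21440548856)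 (nat_lit 470) (nat_lit 5) (nat_lit 469) (nat_lit 5) (nat_lit 494) (nat_lit 5) (nat_lit 631) (nat_lit 618) (nat_lit 311)))) (XT.nd (nat_lit 156) (nat_lit 0) (nat_lit 76) (XT.nd (nat_lit 78) (nat_lit 0) (nat_lit 0) (XT.lf (nat_lit 0) (nat_lit 12468109267) (nat_lit 1824) (nat_lit 13283844425) (nat_lit 1900) (nat_lit 6893093640) (nat_lit 470) (nat_lit 5) (nat_lit 494) (nat_lit 5) (nat_lit 495) (nat_lit 5) (nat_lit 632) (nat_lit 618) (nat_lit 310)) (XT.lf (nat_lit 76) (nat_lit 3604191294) (nat_lit 0) (nat_lit 10571849365) (nat_lit 1900) (nat_lit 18809094080) (nat_lit 471) (nat_lit 5) (nat_lit 470) (nat_lit 5) (nat_lit 495) (nat_lit 5) (nat_lit 633) (nat_lit 618) (nat_lit 309))) (XT.nd (nat_lit 78) (nat_lit 0) (nat_lit 0) (XT.lf (nat_lit 0) (nat_lit 16038100889) (nat_lit 1824) (nat_lit 12353904950) (nat_lit 1900) (nat_lit 4937618798) (nat_lit 471) (nat_lit 5) (nat_lit 495) (nat_lit 5) (nat_lit 496) (nat_lit 5) (nat_lit 634) (nat_lit 618) (nat_lit 308)) (XT.lf (nat_lit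 76) (nat_lit 5008132618) (nat_lit 0) (nat_lit 13030177725) (nat_lit 1900) (nat_lit 15640675976) (nat_lit 472) (nat_lit 5) (nat_lit 471) (nat_lit 5) (nat_lit 496) (nat_lit 5) (nat_lit 635) (nat_lit 618) (nat_lit 307)))))) (XT.nd (nat_lit 546) (nat_lit 2812) (nat_lit 0) (XT.nd (nat_lit 234) (nat_lit 1748) (nat_lit 0) (XT.nd (nat_lit 78) (nat_lit 0) (nat_lit 0) (XT.lf (nat_lit 0) (nat_lit 20177513766) (nat_lit 1824) (nat_lit 11167726913) (nat_lit 1900) (nat_lit 2688114904) (nat_lit 472) (nat_lit 5) (nat_lit 496) (nat_lit 5) (nat_lit 497) (nat_lit 5) (nat_lit 636) (nat_lit 618) (nat_lit 306)) (XT.nd (nat_lit 78) (nat_lit 0) (nat_lit 76) (XT.lf (nat_lit 76) (nat_lit 6685638833) (nat_lit 0) (nat_lit 15801999999) (nat_lit 1900) (nat_lit 11904610787) (nat_lit 473) (nat_lit 5) (nat_lit 472) (nat_lit 5) (nat_lit 497) (nat_lit 5) (nat_lit 637) (nat_lit 618) (nat_lit 305)) (XT.lf (nat_lit 0) (nat_lit 24918204710) (nat_lit 1824) (nat_lit 9711443417) (nat_lit 1900) (nat_lit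 127188782) (nat_lit 473) (nat_lit 5) (nat_lit 497) (nat_lit 5) (nat_lit 498) (nat_lit 5) (nat_lit 638) (nat_lit 618) (nat_lit 304)))) (XT.nd (nat_lit 156) (nat_lit 1824) (nat_lit 0) (XT.nd (nat_lit 78) (nat_lit 0) (nat_lit 0) (XT.lf (nat_lit 76) (nat_lit 8651225500) (nat_lit 0) (nat_lit 18905467431) (nat_lit 1900) (nat_lit 7568836926) (nat_lit 474) (nat_lit 5) (nat_lit 473) (nat_lit 5) (nat_lit 498) (nat_lit 5) (nat_lit 639) (nat_lit 618) (nat_lit 303)) (XT.lf (nat_lit 76) (nat_lit 27511581791) (nat_lit 0) (nat_lit 2800052272) (nat_lit 1900) (nat_lit 5188689072) (nat_lit 474) (nat_lit 5) (nat_lit 473) (nat_lit 5) (nat_lit 498) (nat_lit 5) (nat_lit 640) (nat_lit 618) (nat_lit 302))) (XT.nd (nat_lit 78) (nat_lit 1900) (nat_lit 0) (XT.lf (nat_lit 76) (nat_lit 10920058334) (nat_lit 0) (nat_lit 22359539682) (nat_lit 1900) (nat_lit 2599855912) (nat_lit 475) (nat_lit 5) (nat_lit 474) (nat_lit 5) (nat_lit 499) (nat_lit 5) (nat_lit 641) (nat_lit 618) (nat_lit 301)) (XT.lf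 (nat_lit 0) (nat_lit 111282715) (nat_lit 1900) (nat_lit 5970160546) (nat_lit 1976) (nat_lit 30183297641) (nat_lit 449) (nat_lit 5) (nat_lit 474) (nat_lit 5) (nat_lit 475) (nat_lit 5) (nat_lit 642) (nat_lit 618) (nat_lit 300))))) (XT.nd (nat_lit 234) (nat_lit 1824) (nat_lit 0) (XT.nd (nat_lit 78) (nat_lit 1064) (nat_lit 0) (XT.lf (nat_lit 0) (nat_lit 2997493913) (nat_lit 1900) (nat_lit 23166413907) (nat_lit 76) (nat_lit 10490368980) (nat_lit 450) (nat_lit 5) (nat_lit 475) (nat_lit 5) (nat_lit 451) (nat_lit 5) (nat_lit 643) (nat_lit 618) (nat_lit 299)) (XT.nd (nat_lit 78) (nat_lit 1064) (nat_lit 0) (XT.lf (nat_lit 0) (nat_lit 6020637874) (nat_lit 1900) (nat_lit 3676591292) (nat_lit 76) (nat_lit 27352790198) (nat_lit 450) (nat_lit 5) (nat_lit 475) (nat_lit 5) (nat_lit 451) (nat_lit 5) (nat_lit 644) (nat_lit 618) (nat_lit 298)) (XT.lf (nat_lit 0) (nat_lit 9256265869) (nat_lit 1140) (nat_lit 21081227135) (nat_lit 76) (nat_lit 7113143470) (nat_lit 436) (nat_lit 5) (nat_lit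 451) (nat_lit 5) (nat_lit 437) (nat_lit 5) (nat_lit 645) (nat_lit 618) (nat_lit 297)))) (XT.nd (nat_lit 156) (nat_lit 912) (nat_lit 0) (XT.nd (nat_lit 78) (nat_lit 912) (nat_lit 0) (XT.lf (nat_lit 0) (nat_lit 12644314998) (nat_lit 1140) (nat_lit 1058208260) (nat_lit 76) (nat_lit 24154988613) (nat_lit 436) (nat_lit 5) (nat_lit 451) (nat_lit 5) (nat_lit 437) (nat_lit 5) (nat_lit 646) (nat_lit 618) (nat_lit 296)) (XT.lf (nat_lit 0) (nat_lit 16248243990) (nat_lit 988) (nat_lit 18670633562) (nat_lit 76) (nat_lit 3350684958) (nat_lit 424) (nat_lit 5) (nat_lit 437) (nat_lit 5) (nat_lit 425) (nat_lit 5) (nat_lit 647) (nat_lit 618) (nat_lit 295))) (XT.nd (nat_lit 78) (nat_lit 0) (nat_lit 0) (XT.lf (nat_lit 0) (nat_lit 1927108627) (nat_lit 912) (nat_lit 18106246939) (nat_lit 988) (nat_lit 18654316626) (nat_lit 412) (nat_lit 5) (nat_lit 424) (nat_lit 5) (nat_lit 425) (nat_lit 5) (nat_lit 648) (nat_lit 618) (nat_lit 294)) (XT.lf (nat_lit 0) (nat_lit 23188684415) (nat_lit 912)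 (nat_lit 829491008) (nat_lit 988) (nat_lit 15093488632) (nat_lit 412) (nat_lit 5) (nat_lit 424) (nat_lit 5) (nat_lit 425) (nat_lit 5) (nat_lit 649) (nat_lit 618) (nat_lit 293))))))) (XT.nd (nat_lit 79170) (nat_lit 0) (nat_lit 8208) (XT.nd (nat_lit 546) (nat_lit 760) (nat_lit 0) (XT.nd (nat_lit 234) (nat_lit 1748) (nat_lit 0) (XT.nd (nat_lit 78) (nat_lit 836) (nat_lit 0) (XT.lf (nat_lit 0) (nat_lit 5290503160) (nat_lit 836) (nat_lit 22934309905) (nat_lit 912) (nat_lit 11316480370) (nat_lit 401) (nat_lit 5) (nat_lit 412) (nat_lit 5) (nat_lit 413) (nat_lit 5) (nat_lit 650) (nat_lit 618) (nat_lit 292)) (XT.nd (nat_lit 78) (nat_lit 836) (nat_lit 0) (XT.lf (nat_lit 0) (nat_lit 27137328722) (nat_lit 836) (nat_lit 5489322295) (nat_lit 912) (nat_lit 7350643138) (nat_lit 401) (nat_lit 5) (nat_lit 412) (nat_lit 5) (nat_lit 413) (nat_lit 5) (nat_lit 651) (nat_lit 618) (nat_lit 291)) (XT.lf (nat_lit 0) (nat_lit 9036499922) (nat_lit 836) (nat_lit 28217369555) (nat_lit 912) (nat_lit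 3165398638) (nat_lit 390) (nat_lit 5) (nat_lit 401) (nat_lit 5) (nat_lit 402) (nat_lit 5) (nat_lit 652) (nat_lit 618) (nat_lit 290)))) (XT.nd (nat_lit 156) (nat_lit 836) (nat_lit 0) (XT.nd (nat_lit 78) (nat_lit 836) (nat_lit 0) (XT.lf (nat_lit 0) (nat_lit 1210955607) (nat_lit 912) (nat_lit 9389113487) (nat_lit 76) (nat_lit 30267431698) (nat_lit 389) (nat_lit 5) (nat_lit 401) (nat_lit 5) (nat_lit 390) (nat_lit 5) (nat_lit 653) (nat_lit 618) (nat_lit 289)) (XT.lf (nat_lit 0) (nat_lit 5765534188) (nat_lit 912) (nat_lit 28175819546) (nat_lit 76) (nat_lit 7380264379) (nat_lit 378) (nat_lit 5) (nat_lit 390) (nat_lit 5) (nat_lit 379) (nat_lit 5) (nat_lit 654) (nat_lit 618) (nat_lit 288))) (XT.nd (nat_lit 78) (nat_lit 836) (nat_lit 0) (XT.lf (nat_lit 0) (nat_lit 10543657296) (nat_lit 912) (nat_lit 5596695330) (nat_lit 76) (nat_lit 25641816192) (nat_lit 378) (nat_lit 5) (nat_lit 390) (nat_lit 5) (nat_lit 379) (nat_lit 5) (nat_lit 655) (nat_lit 618) (nat_lit 287)) (XT.lf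 (nat_lit 0) (nat_lit 15544739029) (nat_lit 912) (nat_lit 24599006567) (nat_lit 76) (nat_lit 2105637108) (nat_lit 367) (nat_lit 5) (nat_lit 379) (nat_lit 5) (nat_lit 368) (nat_lit 5) (nat_lit 656) (nat_lit 618) (nat_lit 286))))) (XT.nd (nat_lit 78312) (nat_lit 0) (nat_lit 8056) (XT.nd (nat_lit 78) (nat_lit 760) (nat_lit 0) (XT.lf (nat_lit 0) (nat_lit 20789405862) (nat_lit 912) (nat_lit 1395267681) (nat_lit 76) (nat_lit 20538396147) (nat_lit 367) (nat_lit 5) (nat_lit 379) (nat_lit 5) (nat_lit 368) (nat_lit 5) (nat_lit 657) (nat_lit 618) (nat_lit 285)) (XT.nd (nat_lit 78156) (nat_lit 0) (nat_lit 8056) (XT.lf (nat_lit 0) (nat_lit 22567351059) (nat_lit 760) (nat_lit 3717027598) (nat_lit 836) (nat_lit 16918943595) (nat_lit 357) (nat_lit 5) (nat_lit 367) (nat_lit 5) (nat_lit 368) (nat_lit 5) (nat_lit 658) (nat_lit 618) (nat_lit 284)) (XT.lf (nat_lit 0) (nat_lit 601226306) (nat_lit 1900) (nat_lit 6926116829) (nat_lit 1900) (nat_lit 6926116829) (nat_lit 463) (nat_lit 3)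 (nat_lit 488) (nat_lit 3) (nat_lit 488) (nat_lit 5) (nat_lit 619) (nat_lit 619) (nat_lit 322)))) (XT.nd (nat_lit 156) (nat_lit 0) (nat_lit 76) (XT.nd (nat_lit 78) (nat_lit 0) (nat_lit 76) (XT.lf (nat_lit 76) (nat_lit 432684887) (nat_lit 0) (nat_lit 863517010) (nat_lit 1900) (nat_lit 27898145543) (nat_lit 464) (nat_lit 5) (nat_lit 463) (nat_lit 3) (nat_lit 488) (nat_lit 5) (nat_lit 620) (nat_lit 619) (nat_lit 321)) (XT.lf (nat_lit 0) (nat_lit 1571701887) (nat_lit 1824) (nat_lit 14384700320) (nat_lit 1900) (nat_lit 13527523968) (nat_lit 464) (nat_lit 5) (nat_lit 488) (nat_lit 5) (nat_lit 489) (nat_lit 5) (nat_lit 621) (nat_lit 619) (nat_lit 320))) (XT.nd (nat_lit 78) (nat_lit 0) (nat_lit 76) (XT.lf (nat_lit 76) (nat_lit 276614188) (nat_lit 0) (nat_lit 1581582515) (nat_lit 1900) (nat_lit 27920990272) (nat_lit 465) (nat_lit 5) (nat_lit 464) (nat_lit 5) (nat_lit 489) (nat_lit 5) (nat_lit 622) (nat_lit 619) (nat_lit 319)) (XT.lf (nat_lit 0) (nat_lit 2330527220) (nat_lit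 1824) (nat_lit 14738982055) (nat_lit 1900) (nat_lit 13007241779) (nat_lit 465) (nat_lit 5) (nat_lit 489) (nat_lit 5) (nat_lit 490) (nat_lit 5) (nat_lit 623) (nat_lit 619) (nat_lit 318)))))) (XT.nd (nat_lit 546) (nat_lit 0) (nat_lit 304) (XT.nd (nat_lit 234) (nat_lit 0) (nat_lit 152) (XT.nd (nat_lit 78) (nat_lit 0) (nat_lit 76) (XT.lf (nat_lit 76) (nat_lit 312390785) (nat_lit 0) (nat_lit 2510463743) (nat_lit 1900) (nat_lit 27557201061) (nat_lit 466) (nat_lit 5) (nat_lit 465) (nat_lit 5) (nat_lit 490) (nat_lit 5) (nat_lit 624) (nat_lit 619) (nat_lit 317)) (XT.nd (nat_lit 78) (nat_lit 0) (nat_lit 0) (XT.lf (nat_lit 0) (nat_lit 3502791913) (nat_lit 1824) (nat_lit 14904788441) (nat_lit 1900) (nat_lit 12278290764) (nat_lit 466) (nat_lit 5) (nat_lit 490) (nat_lit 5) (nat_lit 491) (nat_lit 5) (nat_lit 625) (nat_lit 619) (nat_lit 316)) (XT.lf (nat_lit 76) (nat_lit 550817181) (nat_lit 0) (nat_lit 3663834558) (nat_lit 1900) (nat_lit 26782784917) (nat_lit 467) (nat_lit 5)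 (nat_lit 466) (nat_lit 5) (nat_lit 491) (nat_lit 5) (nat_lit 626) (nat_lit 619) (nat_lit 315)))) (XT.nd (nat_lit 156) (nat_lit 0) (nat_lit 76) (XT.nd (nat_lit 78) (nat_lit 0) (nat_lit 0) (XT.lf (nat_lit 0) (nat_lit 5113438899) (nat_lit 1824) (nat_lit 14871336121) (nat_lit 1900) (nat_lit 11327004849) (nat_lit 467) (nat_lit 5) (nat_lit 491) (nat_lit 5) (nat_lit 492) (nat_lit 5) (nat_lit 627) (nat_lit 619) (nat_lit 314)) (XT.lf (nat_lit 76) (nat_lit 1003207907) (nat_lit 0) (nat_lit 5055963474) (nat_lit 1900) (nat_lit 25572659338) (nat_lit 468) (nat_lit 5) (nat_lit 467) (nat_lit 5) (nat_lit 492) (nat_lit 5) (nat_lit 628) (nat_lit 619) (nat_lit 313))) (XT.nd (nat_lit 78) (nat_lit 0) (nat_lit 0) (XT.lf (nat_lit 0) (nat_lit 7188538127) (nat_lit 1824) (nat_lit 14627330443) (nat_lit 1900) (nat_lit 10139119784) (nat_lit 468) (nat_lit 5) (nat_lit 492) (nat_lit 5) (nat_lit 493) (nat_lit 5) (nat_lit 629) (nat_lit 619) (nat_lit 312)) (XT.lf (nat_lit 76) (nat_lit 1681408590)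 (nat_lit 0) (nat_lit 6701743048) (nat_lit 1900) (nat_lit 23900604474) (nat_lit 469) (nat_lit 5) (nat_lit 468) (nat_lit 5) (nat_lit 493) (nat_lit 5) (nat_lit 630) (nat_lit 619) (nat_lit 311))))) (XT.nd (nat_lit 234) (nat_lit 0) (nat_lit 76) (XT.nd (nat_lit 78) (nat_lit 0) (nat_lit 0) (XT.lf (nat_lit 0) (nat_lit 9755335795) (nat_lit 1824) (nat_lit 14160946355) (nat_lit 1900) (nat_lit 8699743661) (nat_lit 469) (nat_lit 5) (nat_lit 493) (nat_lit 5) (nat_lit 494) (nat_lit 5) (nat_lit 631) (nat_lit 619) (nat_lit 310)) (XT.nd (nat_lit 78) (nat_lit 0) (nat_lit 76) (XT.lf (nat_lit 76) (nat_lit 2597815801) (nat_lit 0) (nat_lit 8616720371) (nat_lit 1900) (nat_lit 21739213435) (nat_lit 470) (nat_lit 5) (nat_lit 469) (nat_lit 5) (nat_lit 494) (nat_lit 5) (nat_lit 632) (nat_lit 619) (nat_lit 309)) (XT.lf (nat_lit 0) (nat_lit 12842305498) (nat_lit 1824) (nat_lit 13459808520) (nat_lit 1900) (nat_lit 6993326310) (nat_lit 470) (nat_lit 5) (nat_lit 494) (nat_lit 5) (nat_lit 495)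 (nat_lit 5) (nat_lit 633) (nat_lit 619) (nat_lit 308)))) (XT.nd (nat_lit 156) (nat_lit 0) (nat_lit 76) (XT.nd (nat_lit 78) (nat_lit 0) (nat_lit 76) (XT.lf (nat_lit 76) (nat_lit 3765397698) (nat_lit 0) (nat_lit 10817128736) (nat_lit 1900) (nat_lit 19059840651) (nat_lit 471) (nat_lit 5) (nat_lit 470) (nat_lit 5) (nat_lit 495) (nat_lit 5) (nat_lit 634) (nat_lit 619) (nat_lit 307)) (XT.lf (nat_lit 0) (nat_lit 16479201372) (nat_lit 1824) (nat_lit 12510970643) (nat_lit 1900) (nat_lit 5003627513) (nat_lit 471) (nat_lit 5) (nat_lit 495) (nat_lit 5) (nat_lit 496) (nat_lit 5) (nat_lit 635) (nat_lit 619) (nat_lit 306))) (XT.nd (nat_lit 78) (nat_lit 0) (nat_lit 76) (XT.lf (nat_lit 76) (nat_lit 5197715489) (nat_lit 0) (nat_lit 13319920524) (nat_lit 1900) (nat_lit 15832548223) (nat_lit 472) (nat_lit 5) (nat_lit 471) (nat_lit 5) (nat_lit 496) (nat_lit 5) (nat_lit 636) (nat_lit 619) (nat_lit 305)) (XT.lf (nat_lit 0) (nat_lit 20697113327) (nat_lit 1824) (nat_lit 11300893981) (nat_lit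 1900) (nat_lit 2713683989) (nat_lit 472) (nat_lit 5) (nat_lit 496) (nat_lit 5) (nat_lit 497) (nat_lit 5) (nat_lit 637) (nat_lit 619) (nat_lit 304))))))))
noncomputable def xc246 : XT := (XT.nd (nat_lit 80262) (nat_lit 0) (nat_lit 2584) (XT.nd (nat_lit 1014) (nat_lit 3420) (nat_lit 0) (XT.nd (nat_lit 468) (nat_lit 2812) (nat_lit 0) (XT.nd (nat_lit 234) (nat_lit 1748) (nat_lit 0) (XT.nd (nat_lit 78) (nat_lit 0) (nat_lit 76) (XT.lf (nat_lit 76) (nat_lit 6908945742) (nat_lit 0) (nat_lit 16142801382) (nat_lit 1900) (nat_lit 12026050170) (nat_lit 473) (nat_lit 5) (nat_lit 472) (nat_lit 5) (nat_lit 497) (nat_lit 5) (nat_lit 638) (nat_lit 619) (nat_lit 303)) (XT.nd (nat_lit 78) (nat_lit 0) (nat_lit 0) (XT.lf (nat_lit 0) (nat_lit 25528524438) (nat_lit 1824) (nat_lit 9815425013) (nat_lit 1900) (nat_lit 105775075) (nat_lit 473) (nat_lit 5) (nat_lit 497) (nat_lit 5) (nat_lit 498) (nat_lit 5) (nat_lit 639) (nat_lit 619) (nat_lit 302)) (XT.lf (nat_lit 76) (nat_lit 8913903550)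 (nat_lit 0) (nat_lit 19304265756) (nat_lit 1900) (nat_lit 7607654487) (nat_lit 474) (nat_lit 5) (nat_lit 473) (nat_lit 5) (nat_lit 498) (nat_lit 5) (nat_lit 640) (nat_lit 619) (nat_lit 301)))) (XT.nd (nat_lit 78) (nat_lit 1824) (nat_lit 0) (XT.lf (nat_lit 76) (nat_lit 28149709054) (nat_lit 0) (nat_lit 2876336628) (nat_lit 1900) (nat_lit 5182110718) (nat_lit 474) (nat_lit 5) (nat_lit 473) (nat_lit 5) (nat_lit 498) (nat_lit 5) (nat_lit 641) (nat_lit 619) (nat_lit 300)) (XT.nd (nat_lit 78) (nat_lit 1900) (nat_lit 0) (XT.lf (nat_lit 76) (nat_lit 11228066594) (nat_lit 0) (nat_lit 22823633842) (nat_lit 1900) (nat_lit 2543202931) (nat_lit 475) (nat_lit 5) (nat_lit 474) (nat_lit 5) (nat_lit 499) (nat_lit 5) (nat_lit 642) (nat_lit 619) (nat_lit 299)) (XT.lf (nat_lit 0) (nat_lit 218631049) (nat_lit 1900) (nat_lit 6000307576) (nat_lit 1976) (nat_lit 30768985577) (nat_lit 449) (nat_lit 5) (nat_lit 474) (nat_lit 5) (nat_lit 475) (nat_lit 5) (nat_lit 643) (nat_lit 619) (nat_lit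 298))))) (XT.nd (nat_lit 234) (nat_lit 1824) (nat_lit 0) (XT.nd (nat_lit 78) (nat_lit 1064) (nat_lit 0) (XT.lf (nat_lit 0) (nat_lit 3160983757) (nat_lit 1900) (nat_lit 23538894404) (nat_lit 76) (nat_lit 10685404490) (nat_lit 450) (nat_lit 5) (nat_lit 475) (nat_lit 5) (nat_lit 451) (nat_lit 5) (nat_lit 644) (nat_lit 619) (nat_lit 297)) (XT.nd (nat_lit 78) (nat_lit 1064) (nat_lit 0) (XT.lf (nat_lit 0) (nat_lit 6242560402) (nat_lit 1900) (nat_lit 3661056665) (nat_lit 76) (nat_lit 27885363777) (nat_lit 450) (nat_lit 5) (nat_lit 475) (nat_lit 5) (nat_lit 451) (nat_lit 5) (nat_lit 645) (nat_lit 619) (nat_lit 296)) (XT.lf (nat_lit 0) (nat_lit 9541409641) (nat_lit 1140) (nat_lit 21412285368) (nat_lit 76) (nat_lit 7243945284) (nat_lit 436) (nat_lit 5) (nat_lit 451) (nat_lit 5) (nat_lit 437) (nat_lit 5) (nat_lit 646) (nat_lit 619) (nat_lit 295)))) (XT.nd (nat_lit 156) (nat_lit 912) (nat_lit 0) (XT.nd (nat_lit 78) (nat_lit 912) (nat_lit 0) (XT.lf (nat_lit 0) (nat_lit 12995258607)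 (nat_lit 1140) (nat_lit 990581925) (nat_lit 76) (nat_lit 24626852057) (nat_lit 436) (nat_lit 5) (nat_lit 451) (nat_lit 5) (nat_lit 437) (nat_lit 5) (nat_lit 647) (nat_lit 619) (nat_lit 294)) (XT.lf (nat_lit 0) (nat_lit 16669860986) (nat_lit 988) (nat_lit 18953842332) (nat_lit 76) (nat_lit 3409309190) (nat_lit 424) (nat_lit 5) (nat_lit 437) (nat_lit 5) (nat_lit 425) (nat_lit 5) (nat_lit 648) (nat_lit 619) (nat_lit 293))) (XT.nd (nat_lit 78) (nat_lit 0) (nat_lit 0) (XT.lf (nat_lit 0) (nat_lit 2055261254) (nat_lit 912) (nat_lit 18474100210) (nat_lit 988) (nat_lit 18930149347) (nat_lit 412) (nat_lit 5) (nat_lit 424) (nat_lit 5) (nat_lit 425) (nat_lit 5) (nat_lit 649) (nat_lit 619) (nat_lit 292)) (XT.lf (nat_lit 0) (nat_lit 23740311491) (nat_lit 912) (nat_lit 851696841) (nat_lit 988) (nat_lit 15300011726) (nat_lit 412) (nat_lit 5) (nat_lit 424) (nat_lit 5) (nat_lit 425) (nat_lit 5) (nat_lit 650) (nat_lit 619) (nat_lit 291)))))) (XT.nd (nat_lit 546) (nat_lit 0) (nat_lit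 0) (XT.nd (nat_lit 234) (nat_lit 1748) (nat_lit 0) (XT.nd (nat_lit 78) (nat_lit 836) (nat_lit 0) (XT.lf (nat_lit 0) (nat_lit 5485489779) (nat_lit 836) (nat_lit 23395999459) (nat_lit 912) (nat_lit 11448778731) (nat_lit 401) (nat_lit 5) (nat_lit 412) (nat_lit 5) (nat_lit 413) (nat_lit 5) (nat_lit 651) (nat_lit 619) (nat_lit 290)) (XT.nd (nat_lit 78) (nat_lit 836) (nat_lit 0) (XT.lf (nat_lit 0) (nat_lit 27767503292) (nat_lit 836) (nat_lit 5602053207) (nat_lit 912) (nat_lit 7405468504) (nat_lit 401) (nat_lit 5) (nat_lit 412) (nat_lit 5) (nat_lit 413) (nat_lit 5) (nat_lit 652) (nat_lit 619) (nat_lit 289)) (XT.lf (nat_lit 0) (nat_lit 9305904817) (nat_lit 836) (nat_lit 28782199497) (nat_lit 912) (nat_lit 3137758579) (nat_lit 390) (nat_lit 5) (nat_lit 401) (nat_lit 5) (nat_lit 402) (nat_lit 5) (nat_lit 653) (nat_lit 619) (nat_lit 288)))) (XT.nd (nat_lit 156) (nat_lit 836) (nat_lit 0) (XT.nd (nat_lit 78) (nat_lit 836) (nat_lit 0) (XT.lf (nat_lit 0) (nat_lit 1323170045)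 (nat_lit 912) (nat_lit 9488783025) (nat_lit 76) (nat_lit 30871130684) (nat_lit 389) (nat_lit 5) (nat_lit 401) (nat_lit 5) (nat_lit 390) (nat_lit 5) (nat_lit 654) (nat_lit 619) (nat_lit 287)) (XT.lf (nat_lit 0) (nat_lit 5967687633) (nat_lit 912) (nat_lit 28650063634) (nat_lit 76) (nat_lit 7528555347) (nat_lit 378) (nat_lit 5) (nat_lit 390) (nat_lit 5) (nat_lit 379) (nat_lit 5) (nat_lit 655) (nat_lit 619) (nat_lit 286))) (XT.nd (nat_lit 78) (nat_lit 836) (nat_lit 0) (XT.lf (nat_lit 0) (nat_lit 10839670403) (nat_lit 912) (nat_lit 5621107370) (nat_lit 76) (nat_lit 26155324752) (nat_lit 378) (nat_lit 5) (nat_lit 390) (nat_lit 5) (nat_lit 379) (nat_lit 5) (nat_lit 656) (nat_lit 619) (nat_lit 285)) (XT.lf (nat_lit 0) (nat_lit 15939687772) (nat_lit 912) (nat_lit 25002372097) (nat_lit 76) (nat_lit 2150622675) (nat_lit 367) (nat_lit 5) (nat_lit 379) (nat_lit 5) (nat_lit 368) (nat_lit 5) (nat_lit 657) (nat_lit 619) (nat_lit 284))))) (XT.nd (nat_lit 78390) (nat_lit 0) (nat_lit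 7372) (XT.nd (nat_lit 78234) (nat_lit 0) (nat_lit 7296) (XT.lf (nat_lit 0) (nat_lit 21287599825) (nat_lit 912) (nat_lit 1336295975) (nat_lit 76) (nat_lit 20951980565) (nat_lit 367) (nat_lit 5) (nat_lit 379) (nat_lit 5) (nat_lit 368) (nat_lit 5) (nat_lit 658) (nat_lit 619) (nat_lit 283)) (XT.nd (nat_lit 78) (nat_lit 0) (nat_lit 0) (XT.lf (nat_lit 0) (nat_lit 691653942) (nat_lit 1900) (nat_lit 7024650006) (nat_lit 1900) (nat_lit 7024650006) (nat_lit 463) (nat_lit 3) (nat_lit 488) (nat_lit 3) (nat_lit 488) (nat_lit 5) (nat_lit 620) (nat_lit 620) (nat_lit 320)) (XT.lf (nat_lit 76) (nat_lit 520790730) (nat_lit 0) (nat_lit 955582648) (nat_lit 1900) (nat_lit 28298762049) (nat_lit 464) (nat_lit 5) (nat_lit 463) (nat_lit 3) (nat_lit 488) (nat_lit 5) (nat_lit 621) (nat_lit 620) (nat_lit 319)))) (XT.nd (nat_lit 156) (nat_lit 0) (nat_lit 76) (XT.nd (nat_lit 78) (nat_lit 0) (nat_lit 0) (XT.lf (nat_lit 0) (nat_lit 1753882810) (nat_lit 1824) (nat_lit 14590985770) (nat_lit 1900)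 (nat_lit 13725707443) (nat_lit 464) (nat_lit 5) (nat_lit 488) (nat_lit 5) (nat_lit 489) (nat_lit 5) (nat_lit 622) (nat_lit 620) (nat_lit 318)) (XT.lf (nat_lit 76) (nat_lit 363019446) (nat_lit 0) (nat_lit 1680657335) (nat_lit 1900) (nat_lit 28328114141) (nat_lit 465) (nat_lit 5) (nat_lit 464) (nat_lit 5) (nat_lit 489) (nat_lit 5) (nat_lit 623) (nat_lit 620) (nat_lit 317))) (XT.nd (nat_lit 78) (nat_lit 0) (nat_lit 0) (XT.lf (nat_lit 0) (nat_lit 2522116450) (nat_lit 1824) (nat_lit 14951123801) (nat_lit 1900) (nat_lit 13202133045) (nat_lit 465) (nat_lit 5) (nat_lit 489) (nat_lit 5) (nat_lit 490) (nat_lit 5) (nat_lit 624) (nat_lit 620) (nat_lit 316)) (XT.lf (nat_lit 76) (nat_lit 400732825) (nat_lit 0) (nat_lit 2621247769) (nat_lit 1900) (nat_lit 27962809781) (nat_lit 466) (nat_lit 5) (nat_lit 465) (nat_lit 5) (nat_lit 490) (nat_lit 5) (nat_lit 625) (nat_lit 620) (nat_lit 315))))))) (XT.nd (nat_lit 1014) (nat_lit 4940) (nat_lit 0) (XT.nd (nat_lit 468) (nat_lit 0) (nat_lit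 228) (XT.nd (nat_lit 234) (nat_lit 0) (nat_lit 76) (XT.nd (nat_lit 78) (nat_lit 0) (nat_lit 0) (XT.lf (nat_lit 0) (nat_lit 3712333717) (nat_lit 1824) (nat_lit 15119203973) (nat_lit 1900) (nat_lit 12465248439) (nat_lit 466) (nat_lit 5) (nat_lit 490) (nat_lit 5) (nat_lit 491) (nat_lit 5) (nat_lit 626) (nat_lit 620) (nat_lit 314)) (XT.nd (nat_lit 78) (nat_lit 0) (nat_lit 76) (XT.lf (nat_lit 76) (nat_lit 644963234) (nat_lit 0) (nat_lit 3791272219) (nat_lit 1900) (nat_lit 27178391679) (nat_lit 467) (nat_lit 5) (nat_lit 466) (nat_lit 5) (nat_lit 491) (nat_lit 5) (nat_lit 627) (nat_lit 620) (nat_lit 313)) (XT.lf (nat_lit 0) (nat_lit 5349961629) (nat_lit 1824) (nat_lit 15084214201) (nat_lit 1900) (nat_lit 11501142358) (nat_lit 467) (nat_lit 5) (nat_lit 491) (nat_lit 5) (nat_lit 492) (nat_lit 5) (nat_lit 628) (nat_lit 620) (nat_lit 312)))) (XT.nd (nat_lit 78) (nat_lit 0) (nat_lit 76) (XT.lf (nat_lit 76) (nat_lit 1107264466) (nat_lit 0) (nat_lit 5205257198) (nat_lit 1900)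 (nat_lit 25949290371) (nat_lit 468) (nat_lit 5) (nat_lit 467) (nat_lit 5) (nat_lit 492) (nat_lit 5) (nat_lit 629) (nat_lit 620) (nat_lit 311)) (XT.nd (nat_lit 78) (nat_lit 0) (nat_lit 0) (XT.lf (nat_lit 0) (nat_lit 7461577591) (nat_lit 1824) (nat_lit 14834621681) (nat_lit 1900) (nat_lit 10295291750) (nat_lit 468) (nat_lit 5) (nat_lit 492) (nat_lit 5) (nat_lit 493) (nat_lit 5) (nat_lit 630) (nat_lit 620) (nat_lit 310)) (XT.lf (nat_lit 76) (nat_lit 1799731243) (nat_lit 0) (nat_lit 6878367341) (nat_lit 1900) (nat_lit 24248775476) (nat_lit 469) (nat_lit 5) (nat_lit 468) (nat_lit 5) (nat_lit 493) (nat_lit 5) (nat_lit 631) (nat_lit 620) (nat_lit 309))))) (XT.nd (nat_lit 234) (nat_lit 0) (nat_lit 76) (XT.nd (nat_lit 78) (nat_lit 0) (nat_lit 0) (XT.lf (nat_lit 0) (nat_lit 10074959565) (nat_lit 1824) (nat_lit 14358353348) (nat_lit 1900) (nat_lit 8832531805) (nat_lit 469) (nat_lit 5) (nat_lit 493) (nat_lit 5) (nat_lit 494) (nat_lit 5) (nat_lit 632) (nat_lit 620) (nat_lit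 308)) (XT.nd (nat_lit 78) (nat_lit 0) (nat_lit 76) (XT.lf (nat_lit 76) (nat_lit 2735019500) (nat_lit 0) (nat_lit 8826436421) (nat_lit 1900) (nat_lit 22048905049) (nat_lit 470) (nat_lit 5) (nat_lit 469) (nat_lit 5) (nat_lit 494) (nat_lit 5) (nat_lit 633) (nat_lit 620) (nat_lit 307)) (XT.lf (nat_lit 0) (nat_lit 13219138195) (nat_lit 1824) (nat_lit 13642775555) (nat_lit 1900) (nat_lit 7097024821) (nat_lit 470) (nat_lit 5) (nat_lit 494) (nat_lit 5) (nat_lit 495) (nat_lit 5) (nat_lit 634) (nat_lit 620) (nat_lit 306)))) (XT.nd (nat_lit 156) (nat_lit 0) (nat_lit 76) (XT.nd (nat_lit 78) (nat_lit 0) (nat_lit 76) (XT.lf (nat_lit 76) (nat_lit 3926367491) (nat_lit 0) (nat_lit 11065999553) (nat_lit 1900) (nat_lit 19320472960) (nat_lit 471) (nat_lit 5) (nat_lit 470) (nat_lit 5) (nat_lit 495) (nat_lit 5) (nat_lit 635) (nat_lit 620) (nat_lit 305)) (XT.lf (nat_lit 0) (nat_lit 16924450975) (nat_lit 1824) (nat_lit 12674672942) (nat_lit 1900) (nat_lit 5072227877) (nat_lit 471) (nat_lit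 5) (nat_lit 495) (nat_lit 5) (nat_lit 496) (nat_lit 5) (nat_lit 636) (nat_lit 620) (nat_lit 304))) (XT.nd (nat_lit 78) (nat_lit 0) (nat_lit 76) (XT.lf (nat_lit 76) (nat_lit 5387617721) (nat_lit 0) (nat_lit 13614326666) (nat_lit 1900) (nat_lit 16032954213) (nat_lit 472) (nat_lit 5) (nat_lit 471) (nat_lit 5) (nat_lit 496) (nat_lit 5) (nat_lit 637) (nat_lit 620) (nat_lit 303)) (XT.lf (nat_lit 0) (nat_lit 21222598544) (nat_lit 1824) (nat_lit 11440226480) (nat_lit 1900) (nat_lit 2740859232) (nat_lit 472) (nat_lit 5) (nat_lit 496) (nat_lit 5) (nat_lit 497) (nat_lit 5) (nat_lit 638) (nat_lit 620) (nat_lit 302)))))) (XT.nd (nat_lit 546) (nat_lit 3648) (nat_lit 0) (XT.nd (nat_lit 234) (nat_lit 1748) (nat_lit 0) (XT.nd (nat_lit 78) (nat_lit 0) (nat_lit 76) (XT.lf (nat_lit 76) (nat_lit 7133239739) (nat_lit 0) (nat_lit 16489457277) (nat_lit 1900) (nat_lit 12154448113) (nat_lit 473) (nat_lit 5) (nat_lit 472) (nat_lit 5) (nat_lit 497) (nat_lit 5) (nat_lit 639) (nat_lit 620)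 (nat_lit 301)) (XT.nd (nat_lit 78) (nat_lit 0) (nat_lit 0) (XT.lf (nat_lit 0) (nat_lit 26146703187) (nat_lit 1824) (nat_lit 9924990654) (nat_lit 1900) (nat_lit 84863392) (nat_lit 473) (nat_lit 5) (nat_lit 497) (nat_lit 5) (nat_lit 498) (nat_lit 5) (nat_lit 640) (nat_lit 620) (nat_lit 300)) (XT.lf (nat_lit 76) (nat_lit 9178353804) (nat_lit 0) (nat_lit 19710236669) (nat_lit 1900) (nat_lit 7651619209) (nat_lit 474) (nat_lit 5) (nat_lit 473) (nat_lit 5) (nat_lit 498) (nat_lit 5) (nat_lit 641) (nat_lit 620) (nat_lit 299)))) (XT.nd (nat_lit 156) (nat_lit 1824) (nat_lit 0) (XT.nd (nat_lit 78) (nat_lit 0) (nat_lit 76) (XT.lf (nat_lit 76) (nat_lit 28797185767) (nat_lit 0) (nat_lit 2953359045) (nat_lit 1900) (nat_lit 5179685906) (nat_lit 474) (nat_lit 5) (nat_lit 473) (nat_lit 5) (nat_lit 498) (nat_lit 5) (nat_lit 642) (nat_lit 620) (nat_lit 298)) (XT.lf (nat_lit 76) (nat_lit 11538755466) (nat_lit 0) (nat_lit 23296353507) (nat_lit 1900) (nat_lit 2489635906) (nat_lit 475)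 (nat_lit 5) (nat_lit 474) (nat_lit 5) (nat_lit 499) (nat_lit 5) (nat_lit 643) (nat_lit 620) (nat_lit 297))) (XT.nd (nat_lit 78) (nat_lit 0) (nat_lit 76) (XT.lf (nat_lit 0) (nat_lit 324044308) (nat_lit 1900) (nat_lit 6034523473) (nat_lit 1976) (nat_lit 31367085380) (nat_lit 449) (nat_lit 5) (nat_lit 474) (nat_lit 5) (nat_lit 475) (nat_lit 5) (nat_lit 644) (nat_lit 620) (nat_lit 296)) (XT.lf (nat_lit 0) (nat_lit 3323722814) (nat_lit 1900) (nat_lit 23922352240) (nat_lit 76) (nat_lit 10884914320) (nat_lit 450) (nat_lit 5) (nat_lit 475) (nat_lit 5) (nat_lit 451) (nat_lit 5) (nat_lit 645) (nat_lit 620) (nat_lit 295))))) (XT.nd (nat_lit 234) (nat_lit 2660) (nat_lit 0) (XT.nd (nat_lit 78) (nat_lit 1064) (nat_lit 0) (XT.lf (nat_lit 0) (nat_lit 6464979632) (nat_lit 1900) (nat_lit 3648669904) (nat_lit 76) (nat_lit 28429151190) (nat_lit 450) (nat_lit 5) (nat_lit 475) (nat_lit 5) (nat_lit 451) (nat_lit 5) (nat_lit 646) (nat_lit 620) (nat_lit 294)) (XT.nd (nat_lit 78) (nat_lit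 0) (nat_lit 0) (XT.lf (nat_lit 0) (nat_lit 9828372451) (nat_lit 1140) (nat_lit 21753481566) (nat_lit 76) (nat_lit 7377808181) (nat_lit 436) (nat_lit 5) (nat_lit 451) (nat_lit 5) (nat_lit 437) (nat_lit 5) (nat_lit 647) (nat_lit 620) (nat_lit 293)) (XT.lf (nat_lit 0) (nat_lit 13349413403) (nat_lit 1140) (nat_lit 925050907) (nat_lit 76) (nat_lit 25108589089) (nat_lit 436) (nat_lit 5) (nat_lit 451) (nat_lit 5) (nat_lit 437) (nat_lit 5) (nat_lit 648) (nat_lit 620) (nat_lit 292)))) (XT.nd (nat_lit 156) (nat_lit 836) (nat_lit 0) (XT.nd (nat_lit 78) (nat_lit 912) (nat_lit 0) (XT.lf (nat_lit 0) (nat_lit 17096157203) (nat_lit 988) (nat_lit 19246218004) (nat_lit 76) (nat_lit 3469431680) (nat_lit 424) (nat_lit 5) (nat_lit 437) (nat_lit 5) (nat_lit 425) (nat_lit 5) (nat_lit 649) (nat_lit 620) (nat_lit 291)) (XT.lf (nat_lit 0) (nat_lit 2182497251) (nat_lit 912) (nat_lit 18849088109) (nat_lit 988) (nat_lit 19215275198) (nat_lit 412) (nat_lit 5) (nat_lit 424) (nat_lit 5) (nat_lit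 425) (nat_lit 5) (nat_lit 650) (nat_lit 620) (nat_lit 290))) (XT.nd (nat_lit 78) (nat_lit 836) (nat_lit 0) (XT.lf (nat_lit 0) (nat_lit 24299559654) (nat_lit 912) (nat_lit 874128713) (nat_lit 988) (nat_lit 15514367710) (nat_lit 412) (nat_lit 5) (nat_lit 424) (nat_lit 5) (nat_lit 425) (nat_lit 5) (nat_lit 651) (nat_lit 620) (nat_lit 289)) (XT.lf (nat_lit 0) (nat_lit 5680913297) (nat_lit 836) (nat_lit 23866806179) (nat_lit 912) (nat_lit 11587374407) (nat_lit 401) (nat_lit 5) (nat_lit 412) (nat_lit 5) (nat_lit 413) (nat_lit 5) (nat_lit 652) (nat_lit 620) (nat_lit 288))))))))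
noncomputable def xc247 : XT := (XT.nd (nat_lit 80340) (nat_lit 0) (nat_lit 836) (XT.nd (nat_lit 79248) (nat_lit 0) (nat_lit 7524) (XT.nd (nat_lit 78702) (nat_lit 0) (nat_lit 7296) (XT.nd (nat_lit 234) (nat_lit 1672) (nat_lit 0) (XT.nd (nat_lit 78) (nat_lit 912) (nat_lit 0) (XT.lf (nat_lit 0) (nat_lit 28406886419) (nat_lit 836) (nat_lit 5716924400) (nat_lit 912) (nat_lit 7464970131) (nat_lit 401) (nat_lit 5) (nat_lit 412) (nat_lit 5) (nat_lit 413) (nat_lit 5) (nat_lit 653) (nat_lit 620) (nat_lit 287)) (XT.nd (nat_lit 78) (nat_lit 76) (nat_lit 0) (XT.lf (nat_lit 0) (nat_lit 9577254456) (nat_lit 836) (nat_lit 29358307299) (nat_lit 912) (nat_lit 3113097342) (nat_lit 390) (nat_lit 5) (nat_lit 401) (nat_lit 5) (nat_lit 402) (nat_lit 5) (nat_lit 654) (nat_lit 620) (nat_lit 286)) (XT.lf (nat_lit 0) (nat_lit 1434211806) (nat_lit 912) (nat_lit 9593867478) (nat_lit 76) (nat_lit 31486967709) (nat_lit 389) (nat_lit 5) (nat_lit 401) (nat_lit 5) (nat_lit 390) (nat_lit 5) (nat_lit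 655) (nat_lit 620) (nat_lit 285)))) (XT.nd (nat_lit 78) (nat_lit 836) (nat_lit 0) (XT.lf (nat_lit 0) (nat_lit 6170511936) (nat_lit 912) (nat_lit 29137259155) (nat_lit 76) (nat_lit 7679785509) (nat_lit 378) (nat_lit 5) (nat_lit 390) (nat_lit 5) (nat_lit 379) (nat_lit 5) (nat_lit 656) (nat_lit 620) (nat_lit 284)) (XT.nd (nat_lit 78) (nat_lit 836) (nat_lit 0) (XT.lf (nat_lit 0) (nat_lit 11138297684) (nat_lit 912) (nat_lit 5649406231) (nat_lit 76) (nat_lit 26679077380) (nat_lit 378) (nat_lit 5) (nat_lit 390) (nat_lit 5) (nat_lit 379) (nat_lit 5) (nat_lit 657) (nat_lit 620) (nat_lit 283)) (XT.lf (nat_lit 0) (nat_lit 16339271571) (nat_lit 912) (nat_lit 25417245952) (nat_lit 76) (nat_lit 2196396398) (nat_lit 367) (nat_lit 5) (nat_lit 379) (nat_lit 5) (nat_lit 368) (nat_lit 5) (nat_lit 658) (nat_lit 620) (nat_lit 282))))) (XT.nd (nat_lit 234) (nat_lit 0) (nat_lit 76) (XT.nd (nat_lit 78) (nat_lit 0) (nat_lit 0) (XT.lf (nat_lit 0) (nat_lit 780845642) (nat_lit 1900) (nat_lit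 7126706675) (nat_lit 1900) (nat_lit 7126706675) (nat_lit 463) (nat_lit 3) (nat_lit 488) (nat_lit 3) (nat_lit 488) (nat_lit 5) (nat_lit 621) (nat_lit 621) (nat_lit 318)) (XT.nd (nat_lit 78) (nat_lit 0) (nat_lit 76) (XT.lf (nat_lit 76) (nat_lit 607573467) (nat_lit 0) (nat_lit 1046585207) (nat_lit 1900) (nat_lit 28713500837) (nat_lit 464) (nat_lit 5) (nat_lit 463) (nat_lit 3) (nat_lit 488) (nat_lit 5) (nat_lit 622) (nat_lit 621) (nat_lit 317)) (XT.lf (nat_lit 0) (nat_lit 1933853666) (nat_lit 1824) (nat_lit 14804558121) (nat_lit 1900) (nat_lit 13930664687) (nat_lit 464) (nat_lit 5) (nat_lit 488) (nat_lit 5) (nat_lit 489) (nat_lit 5) (nat_lit 623) (nat_lit 621) (nat_lit 316)))) (XT.nd (nat_lit 156) (nat_lit 0) (nat_lit 76) (XT.nd (nat_lit 78) (nat_lit 0) (nat_lit 76) (XT.lf (nat_lit 76) (nat_lit 448012413) (nat_lit 0) (nat_lit 1779094751) (nat_lit 1900) (nat_lit 28749255493) (nat_lit 465) (nat_lit 5) (nat_lit 464) (nat_lit 5) (nat_lit 489) (nat_lit 5) (nat_lit 624)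 (nat_lit 621) (nat_lit 315)) (XT.lf (nat_lit 0) (nat_lit 2711907765) (nat_lit 1824) (nat_lit 15170717313) (nat_lit 1900) (nat_lit 13403456012) (nat_lit 465) (nat_lit 5) (nat_lit 489) (nat_lit 5) (nat_lit 490) (nat_lit 5) (nat_lit 625) (nat_lit 621) (nat_lit 314))) (XT.nd (nat_lit 78) (nat_lit 0) (nat_lit 76) (XT.lf (nat_lit 76) (nat_lit 487653887) (nat_lit 0) (nat_lit 2731895285) (nat_lit 1900) (nat_lit 28382181988) (nat_lit 466) (nat_lit 5) (nat_lit 465) (nat_lit 5) (nat_lit 490) (nat_lit 5) (nat_lit 626) (nat_lit 621) (nat_lit 313)) (XT.lf (nat_lit 0) (nat_lit 3920649946) (nat_lit 1824) (nat_lit 15341157222) (nat_lit 1900) (nat_lit 12658221093) (nat_lit 466) (nat_lit 5) (nat_lit 490) (nat_lit 5) (nat_lit 491) (nat_lit 5) (nat_lit 627) (nat_lit 621) (nat_lit 312)))))) (XT.nd (nat_lit 546) (nat_lit 0) (nat_lit 304) (XT.nd (nat_lit 234) (nat_lit 0) (nat_lit 152) (XT.nd (nat_lit 78) (nat_lit 0) (nat_lit 76) (XT.lf (nat_lit 76) (nat_lit 737764179) (nat_lit 0) (nat_lit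 3919155498) (nat_lit 1900) (nat_lit 27587348847) (nat_lit 467) (nat_lit 5) (nat_lit 466) (nat_lit 5) (nat_lit 491) (nat_lit 5) (nat_lit 628) (nat_lit 621) (nat_lit 311)) (XT.nd (nat_lit 78) (nat_lit 0) (nat_lit 0) (XT.lf (nat_lit 0) (nat_lit 5586001568) (nat_lit 1824) (nat_lit 15304632970) (nat_lit 1900) (nat_lit 11680797473) (nat_lit 467) (nat_lit 5) (nat_lit 491) (nat_lit 5) (nat_lit 492) (nat_lit 5) (nat_lit 629) (nat_lit 621) (nat_lit 310)) (XT.lf (nat_lit 76) (nat_lit 1210140629) (nat_lit 0) (nat_lit 5355666124) (nat_lit 1900) (nat_lit 26338689335) (nat_lit 468) (nat_lit 5) (nat_lit 467) (nat_lit 5) (nat_lit 492) (nat_lit 5) (nat_lit 630) (nat_lit 621) (nat_lit 309)))) (XT.nd (nat_lit 156) (nat_lit 0) (nat_lit 76) (XT.nd (nat_lit 78) (nat_lit 0) (nat_lit 0) (XT.lf (nat_lit 0) (nat_lit 7735058182) (nat_lit 1824) (nat_lit 15049369313) (nat_lit 1900) (nat_lit 10456397095) (nat_lit 468) (nat_lit 5) (nat_lit 492) (nat_lit 5) (nat_lit 493) (nat_lit 5) (nat_lit 631)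 (nat_lit 621) (nat_lit 308)) (XT.lf (nat_lit 76) (nat_lit 1917131558) (nat_lit 0) (nat_lit 7056870321) (nat_lit 1900) (nat_lit 24608951786) (nat_lit 469) (nat_lit 5) (nat_lit 468) (nat_lit 5) (nat_lit 493) (nat_lit 5) (nat_lit 632) (nat_lit 621) (nat_lit 307))) (XT.nd (nat_lit 78) (nat_lit 0) (nat_lit 0) (XT.lf (nat_lit 0) (nat_lit 10396140660) (nat_lit 1824) (nat_lit 14563040662) (nat_lit 1900) (nat_lit 8969575818) (nat_lit 469) (nat_lit 5) (nat_lit 493) (nat_lit 5) (nat_lit 494) (nat_lit 5) (nat_lit 633) (nat_lit 621) (nat_lit 306)) (XT.lf (nat_lit 76) (nat_lit 2871657013) (nat_lit 0) (nat_lit 9038895217) (nat_lit 1900) (nat_lit 22369647995) (nat_lit 470) (nat_lit 5) (nat_lit 469) (nat_lit 5) (nat_lit 494) (nat_lit 5) (nat_lit 634) (nat_lit 621) (nat_lit 305))))) (XT.nd (nat_lit 234) (nat_lit 0) (nat_lit 76) (XT.nd (nat_lit 78) (nat_lit 0) (nat_lit 0) (XT.lf (nat_lit 0) (nat_lit 13598848320) (nat_lit 1824) (nat_lit 13832750312) (nat_lit 1900) (nat_lit 7204201750)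 (nat_lit 470) (nat_lit 5) (nat_lit 494) (nat_lit 5) (nat_lit 495) (nat_lit 5) (nat_lit 635) (nat_lit 621) (nat_lit 304)) (XT.nd (nat_lit 78) (nat_lit 0) (nat_lit 76) (XT.lf (nat_lit 76) (nat_lit 4087230327) (nat_lit 0) (nat_lit 11318584676) (nat_lit 1900) (nat_lit 19590999582) (nat_lit 471) (nat_lit 5) (nat_lit 470) (nat_lit 5) (nat_lit 495) (nat_lit 5) (nat_lit 636) (nat_lit 621) (nat_lit 303)) (XT.lf (nat_lit 0) (nat_lit 17374114135) (nat_lit 1824) (nat_lit 12845008852) (nat_lit 1900) (nat_lit 5143422353) (nat_lit 471) (nat_lit 5) (nat_lit 495) (nat_lit 5) (nat_lit 496) (nat_lit 5) (nat_lit 637) (nat_lit 621) (nat_lit 302)))) (XT.nd (nat_lit 156) (nat_lit 0) (nat_lit 76) (XT.nd (nat_lit 78) (nat_lit 0) (nat_lit 76) (XT.lf (nat_lit 76) (nat_lit 5577980536) (nat_lit 0) (nat_lit 13913533357) (nat_lit 1900) (nat_lit 16241882256) (nat_lit 472) (nat_lit 5) (nat_lit 471) (nat_lit 5) (nat_lit 496) (nat_lit 5) (nat_lit 638) (nat_lit 621) (nat_lit 301)) (XT.lf (nat_lit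 0) (nat_lit 21754262116) (nat_lit 1824) (nat_lit 11585711728) (nat_lit 1900) (nat_lit 2769630245) (nat_lit 472) (nat_lit 5) (nat_lit 496) (nat_lit 5) (nat_lit 497) (nat_lit 5) (nat_lit 639) (nat_lit 621) (nat_lit 300))) (XT.nd (nat_lit 78) (nat_lit 0) (nat_lit 76) (XT.lf (nat_lit 76) (nat_lit 7358675662) (nat_lit 0) (nat_lit 16842122113) (nat_lit 1900) (nat_lit 12289767890) (nat_lit 473) (nat_lit 5) (nat_lit 472) (nat_lit 5) (nat_lit 497) (nat_lit 5) (nat_lit 640) (nat_lit 621) (nat_lit 299)) (XT.lf (nat_lit 0) (nat_lit 26773066951) (nat_lit 1824) (nat_lit 10040115938) (nat_lit 1900) (nat_lit 64427649) (nat_lit 473) (nat_lit 5) (nat_lit 497) (nat_lit 5) (nat_lit 498) (nat_lit 5) (nat_lit 641) (nat_lit 621) (nat_lit 298))))))) (XT.nd (nat_lit 1092) (nat_lit 912) (nat_lit 0) (XT.nd (nat_lit 546) (nat_lit 3496) (nat_lit 0) (XT.nd (nat_lit 234) (nat_lit 2812) (nat_lit 0) (XT.nd (nat_lit 78) (nat_lit 0) (nat_lit 0) (XT.lf (nat_lit 76) (nat_lit 9444746892) (nat_lit 0)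 (nat_lit 20123554819) (nat_lit 1900) (nat_lit 7700664312) (nat_lit 474) (nat_lit 5) (nat_lit 473) (nat_lit 5) (nat_lit 498) (nat_lit 5) (nat_lit 642) (nat_lit 621) (nat_lit 297)) (XT.nd (nat_lit 78) (nat_lit 0) (nat_lit 76) (XT.lf (nat_lit 76) (nat_lit 29454331456) (nat_lit 0) (nat_lit 3031164869) (nat_lit 1900) (nat_lit 5181331309) (nat_lit 474) (nat_lit 5) (nat_lit 473) (nat_lit 5) (nat_lit 498) (nat_lit 5) (nat_lit 643) (nat_lit 621) (nat_lit 296)) (XT.lf (nat_lit 76) (nat_lit 11852313679) (nat_lit 0) (nat_lit 23777896674) (nat_lit 1900) (nat_lit 2439052727) (nat_lit 475) (nat_lit 5) (nat_lit 474) (nat_lit 5) (nat_lit 499) (nat_lit 5) (nat_lit 644) (nat_lit 621) (nat_lit 295)))) (XT.nd (nat_lit 156) (nat_lit 988) (nat_lit 0) (XT.nd (nat_lit 78) (nat_lit 0) (nat_lit 76) (XT.lf (nat_lit 0) (nat_lit 427642302) (nat_lit 1900) (nat_lit 6072755028) (nat_lit 1976) (nat_lit 31977818178) (nat_lit 449) (nat_lit 5) (nat_lit 474) (nat_lit 5) (nat_lit 475) (nat_lit 5) (nat_lit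 645) (nat_lit 621) (nat_lit 294)) (XT.lf (nat_lit 0) (nat_lit 3485852194) (nat_lit 1900) (nat_lit 24316869976) (nat_lit 76) (nat_lit 11088965682) (nat_lit 450) (nat_lit 5) (nat_lit 475) (nat_lit 5) (nat_lit 451) (nat_lit 5) (nat_lit 646) (nat_lit 621) (nat_lit 293))) (XT.nd (nat_lit 78) (nat_lit 1064) (nat_lit 0) (XT.lf (nat_lit 0) (nat_lit 6688058562) (nat_lit 1900) (nat_lit 3639359667) (nat_lit 76) (nat_lit 28984354877) (nat_lit 450) (nat_lit 5) (nat_lit 475) (nat_lit 5) (nat_lit 451) (nat_lit 5) (nat_lit 647) (nat_lit 621) (nat_lit 292)) (XT.lf (nat_lit 0) (nat_lit 10117341492) (nat_lit 1140) (nat_lit 22104881926) (nat_lit 76) (nat_lit 7514776101) (nat_lit 436) (nat_lit 5) (nat_lit 451) (nat_lit 5) (nat_lit 437) (nat_lit 5) (nat_lit 648) (nat_lit 621) (nat_lit 291))))) (XT.nd (nat_lit 234) (nat_lit 1672) (nat_lit 0) (XT.nd (nat_lit 78) (nat_lit 1824) (nat_lit 0) (XT.lf (nat_lit 0) (nat_lit 13706991467) (nat_lit 1140) (nat_lit 861523228) (nat_lit 76) (nat_lit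 25600380240) (nat_lit 436) (nat_lit 5) (nat_lit 451) (nat_lit 5) (nat_lit 437) (nat_lit 5) (nat_lit 649) (nat_lit 621) (nat_lit 290)) (XT.nd (nat_lit 78) (nat_lit 912) (nat_lit 0) (XT.lf (nat_lit 0) (nat_lit 17527371963) (nat_lit 988) (nat_lit 19547807902) (nat_lit 76) (nat_lit 3531069743) (nat_lit 424) (nat_lit 5) (nat_lit 437) (nat_lit 5) (nat_lit 425) (nat_lit 5) (nat_lit 650) (nat_lit 621) (nat_lit 289)) (XT.lf (nat_lit 0) (nat_lit 2308933406) (nat_lit 912) (nat_lit 19231361965) (nat_lit 988) (nat_lit 19509733397) (nat_lit 412) (nat_lit 5) (nat_lit 424) (nat_lit 5) (nat_lit 425) (nat_lit 5) (nat_lit 651) (nat_lit 621) (nat_lit 288)))) (XT.nd (nat_lit 156) (nat_lit 836) (nat_lit 0) (XT.nd (nat_lit 78) (nat_lit 836) (nat_lit 0) (XT.lf (nat_lit 0) (nat_lit 24866713797) (nat_lit 912) (nat_lit 896799615) (nat_lit 988) (nat_lit 15736569471) (nat_lit 412) (nat_lit 5) (nat_lit 424) (nat_lit 5) (nat_lit 425) (nat_lit 5) (nat_lit 652) (nat_lit 621) (nat_lit 287)) (XT.lf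 (nat_lit 0) (nat_lit 5876916916) (nat_lit 836) (nat_lit 24346916939) (nat_lit 912) (nat_lit 11732251558) (nat_lit 401) (nat_lit 5) (nat_lit 412) (nat_lit 5) (nat_lit 413) (nat_lit 5) (nat_lit 653) (nat_lit 621) (nat_lit 286))) (XT.nd (nat_lit 78) (nat_lit 836) (nat_lit 0) (XT.lf (nat_lit 0) (nat_lit 29055794102) (nat_lit 836) (nat_lit 5833983120) (nat_lit 912) (nat_lit 7529102536) (nat_lit 401) (nat_lit 5) (nat_lit 412) (nat_lit 5) (nat_lit 413) (nat_lit 5) (nat_lit 654) (nat_lit 621) (nat_lit 285)) (XT.lf (nat_lit 0) (nat_lit 9850721443) (nat_lit 836) (nat_lit 29945919247) (nat_lit 912) (nat_lit 3091337365) (nat_lit 390) (nat_lit 5) (nat_lit 401) (nat_lit 5) (nat_lit 402) (nat_lit 5) (nat_lit 655) (nat_lit 621) (nat_lit 284)))))) (XT.nd (nat_lit 78936) (nat_lit 0) (nat_lit 6612) (XT.nd (nat_lit 78624) (nat_lit 0) (nat_lit 6460) (XT.nd (nat_lit 78) (nat_lit 836) (nat_lit 0) (XT.lf (nat_lit 0) (nat_lit 1544190121) (nat_lit 912) (nat_lit 9704342283) (nat_lit 76)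 (nat_lit 32115183043) (nat_lit 389) (nat_lit 5) (nat_lit 401) (nat_lit 5) (nat_lit 390) (nat_lit 5) (nat_lit 656) (nat_lit 621) (nat_lit 283)) (XT.nd (nat_lit 78468) (nat_lit 0) (nat_lit 6460) (XT.lf (nat_lit 0) (nat_lit 6374151462) (nat_lit 912) (nat_lit 29637530528) (nat_lit 76) (nat_lit 7834014683) (nat_lit 378) (nat_lit 5) (nat_lit 390) (nat_lit 5) (nat_lit 379) (nat_lit 5) (nat_lit 657) (nat_lit 621) (nat_lit 282)) (XT.lf (nat_lit 0) (nat_lit 868894909) (nat_lit 1900) (nat_lit 7232297007) (nat_lit 1900) (nat_lit 7232297007) (nat_lit 463) (nat_lit 3) (nat_lit 488) (nat_lit 3) (nat_lit 488) (nat_lit 5) (nat_lit 622) (nat_lit 622) (nat_lit 316)))) (XT.nd (nat_lit 156) (nat_lit 0) (nat_lit 76) (XT.nd (nat_lit 78) (nat_lit 0) (nat_lit 76) (XT.lf (nat_lit 76) (nat_lit 693126437) (nat_lit 0) (nat_lit 1136616205) (nat_lit 1900) (nat_lit 29142407097) (nat_lit 464) (nat_lit 5) (nat_lit 463) (nat_lit 3) (nat_lit 488) (nat_lit 5) (nat_lit 623) (nat_lit 622) (nat_lit 315))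 (XT.lf (nat_lit 0) (nat_lit 2111797559) (nat_lit 1824) (nat_lit 15025440361) (nat_lit 1900) (nat_lit 14142422055) (nat_lit 464) (nat_lit 5) (nat_lit 488) (nat_lit 5) (nat_lit 489) (nat_lit 5) (nat_lit 624) (nat_lit 622) (nat_lit 314))) (XT.nd (nat_lit 78) (nat_lit 0) (nat_lit 76) (XT.lf (nat_lit 76) (nat_lit 531686789) (nat_lit 0) (nat_lit 1876983711) (nat_lit 1900) (nat_lit 29184466543) (nat_lit 465) (nat_lit 5) (nat_lit 464) (nat_lit 5) (nat_lit 489) (nat_lit 5) (nat_lit 625) (nat_lit 622) (nat_lit 313)) (XT.lf (nat_lit 0) (nat_lit 2900083815) (nat_lit 1824) (nat_lit 15397787018) (nat_lit 1900) (nat_lit 13611240921) (nat_lit 465) (nat_lit 5) (nat_lit 489) (nat_lit 5) (nat_lit 490) (nat_lit 5) (nat_lit 626) (nat_lit 622) (nat_lit 312))))) (XT.nd (nat_lit 234) (nat_lit 0) (nat_lit 152) (XT.nd (nat_lit 78) (nat_lit 0) (nat_lit 76) (XT.lf (nat_lit 76) (nat_lit 573249338) (nat_lit 0) (nat_lit 2842494898) (nat_lit 1900) (nat_lit 28815373505) (nat_lit 466) (nat_lit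 5) (nat_lit 465) (nat_lit 5) (nat_lit 490) (nat_lit 5) (nat_lit 627) (nat_lit 622) (nat_lit 311)) (XT.nd (nat_lit 78) (nat_lit 0) (nat_lit 0) (XT.lf (nat_lit 0) (nat_lit 4127926416) (nat_lit 1824) (nat_lit 15570672762) (nat_lit 1900) (nat_lit 12857240653) (nat_lit 466) (nat_lit 5) (nat_lit 490) (nat_lit 5) (nat_lit 491) (nat_lit 5) (nat_lit 628) (nat_lit 622) (nat_lit 310)) (XT.lf (nat_lit 76) (nat_lit 829318464) (nat_lit 0) (nat_lit 4047574973) (nat_lit 1900) (nat_lit 28009712255) (nat_lit 467) (nat_lit 5) (nat_lit 466) (nat_lit 5) (nat_lit 491) (nat_lit 5) (nat_lit 629) (nat_lit 622) (nat_lit 309)))) (XT.nd (nat_lit 156) (nat_lit 0) (nat_lit 76) (XT.nd (nat_lit 78) (nat_lit 0) (nat_lit 0) (XT.lf (nat_lit 0) (nat_lit 5821751499) (nat_lit 1824) (nat_lit 15532615754) (nat_lit 1900) (nat_lit 11866001531) (nat_lit 467) (nat_lit 5) (nat_lit 491) (nat_lit 5) (nat_lit 492) (nat_lit 5) (nat_lit 630) (nat_lit 622) (nat_lit 308)) (XT.lf (nat_lit 76) (nat_lit 1311939437)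 (nat_lit 0) (nat_lit 5507285196) (nat_lit 1900) (nat_lit 26740908292) (nat_lit 468) (nat_lit 5) (nat_lit 467) (nat_lit 5) (nat_lit 492) (nat_lit 5) (nat_lit 631) (nat_lit 622) (nat_lit 307))) (XT.nd (nat_lit 78) (nat_lit 0) (nat_lit 0) (XT.lf (nat_lit 0) (nat_lit 8009183644) (nat_lit 1824) (nat_lit 15271593915) (nat_lit 1900) (nat_lit 10622464205) (nat_lit 468) (nat_lit 5) (nat_lit 492) (nat_lit 5) (nat_lit 493) (nat_lit 5) (nat_lit 632) (nat_lit 622) (nat_lit 306)) (XT.lf (nat_lit 76) (nat_lit 2033718798) (nat_lit 0) (nat_lit 7237353780) (nat_lit 1900) (nat_lit 24981177727) (nat_lit 469) (nat_lit 5) (nat_lit 468) (nat_lit 5) (nat_lit 493) (nat_lit 5) (nat_lit 633) (nat_lit 622) (nat_lit 305))))))))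
noncomputable def xc248 : XT := (XT.nd (nat_lit 80574) (nat_lit 0) (nat_lit 2660) (XT.nd (nat_lit 1014) (nat_lit 4560) (nat_lit 0) (XT.nd (nat_lit 468) (nat_lit 1520) (nat_lit 0) (XT.nd (nat_lit 234) (nat_lit 0) (nat_lit 76) (XT.nd (nat_lit 78) (nat_lit 0) (nat_lit 0) (XT.lf (nat_lit 0) (nat_lit 10719097984) (nat_lit 1824) (nat_lit 14775024511) (nat_lit 1900) (nat_lit 9110898686) (nat_lit 469) (nat_lit 5) (nat_lit 493) (nat_lit 5) (nat_lit 494) (nat_lit 5) (nat_lit 634) (nat_lit 622) (nat_lit 304)) (XT.nd (nat_lit 78) (nat_lit 0) (nat_lit 76) (XT.lf (nat_lit 76) (nat_lit 3007845558) (nat_lit 0) (nat_lit 9254207980) (nat_lit 1900) (nat_lit 22701474678) (nat_lit 470) (nat_lit 5) (nat_lit 469) (nat_lit 5) (nat_lit 494) (nat_lit 5) (nat_lit 635) (nat_lit 622) (nat_lit 303)) (XT.lf (nat_lit 0) (nat_lit 13981674346) (nat_lit 1824) (nat_lit 14029742925) (nat_lit 1900) (nat_lit 7314872130) (nat_lit 470) (nat_lit 5) (nat_lit 494) (nat_lit 5) (nat_lit 495) (nat_lit 5) (nat_lit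 636) (nat_lit 622) (nat_lit 302)))) (XT.nd (nat_lit 78) (nat_lit 0) (nat_lit 76) (XT.lf (nat_lit 76) (nat_lit 4248113232) (nat_lit 0) (nat_lit 11575007438) (nat_lit 1900) (nat_lit 19871436608) (nat_lit 471) (nat_lit 5) (nat_lit 470) (nat_lit 5) (nat_lit 495) (nat_lit 5) (nat_lit 637) (nat_lit 622) (nat_lit 301)) (XT.nd (nat_lit 78) (nat_lit 0) (nat_lit 0) (XT.lf (nat_lit 0) (nat_lit 17828453531) (nat_lit 1824) (nat_lit 13021980589) (nat_lit 1900) (nat_lit 5217215366) (nat_lit 471) (nat_lit 5) (nat_lit 495) (nat_lit 5) (nat_lit 496) (nat_lit 5) (nat_lit 638) (nat_lit 622) (nat_lit 300)) (XT.lf (nat_lit 76) (nat_lit 5768942741) (nat_lit 0) (nat_lit 14217678839) (nat_lit 1900) (nat_lit 16459327512) (nat_lit 472) (nat_lit 5) (nat_lit 471) (nat_lit 5) (nat_lit 496) (nat_lit 5) (nat_lit 639) (nat_lit 622) (nat_lit 299))))) (XT.nd (nat_lit 234) (nat_lit 1748) (nat_lit 0) (XT.nd (nat_lit 78) (nat_lit 0) (nat_lit 0) (XT.lf (nat_lit 0) (nat_lit 22292395803) (nat_lit 1824)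 (nat_lit 11737342070) (nat_lit 1900) (nat_lit 2799988084) (nat_lit 472) (nat_lit 5) (nat_lit 496) (nat_lit 5) (nat_lit 497) (nat_lit 5) (nat_lit 640) (nat_lit 622) (nat_lit 298)) (XT.nd (nat_lit 78) (nat_lit 0) (nat_lit 76) (XT.lf (nat_lit 76) (nat_lit 7585406200) (nat_lit 0) (nat_lit 17200951954) (nat_lit 1900) (nat_lit 12431978871) (nat_lit 473) (nat_lit 5) (nat_lit 472) (nat_lit 5) (nat_lit 497) (nat_lit 5) (nat_lit 641) (nat_lit 622) (nat_lit 297)) (XT.lf (nat_lit 0) (nat_lit 27407941689) (nat_lit 1824) (nat_lit 10160781262) (nat_lit 1900) (nat_lit 44442643) (nat_lit 473) (nat_lit 5) (nat_lit 497) (nat_lit 5) (nat_lit 498) (nat_lit 5) (nat_lit 642) (nat_lit 622) (nat_lit 296)))) (XT.nd (nat_lit 156) (nat_lit 1824) (nat_lit 0) (XT.nd (nat_lit 78) (nat_lit 0) (nat_lit 0) (XT.lf (nat_lit 76) (nat_lit 9713251608) (nat_lit 0) (nat_lit 20544397134) (nat_lit 1900) (nat_lit 7754728270) (nat_lit 474) (nat_lit 5) (nat_lit 473) (nat_lit 5) (nat_lit 498) (nat_lit 5) (nat_lit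 643) (nat_lit 622) (nat_lit 295)) (XT.lf (nat_lit 76) (nat_lit 30121466886) (nat_lit 0) (nat_lit 3109799165) (nat_lit 1900) (nat_lit 5186968397) (nat_lit 474) (nat_lit 5) (nat_lit 473) (nat_lit 5) (nat_lit 498) (nat_lit 5) (nat_lit 644) (nat_lit 622) (nat_lit 294))) (XT.nd (nat_lit 78) (nat_lit 1900) (nat_lit 0) (XT.lf (nat_lit 76) (nat_lit 12168928487) (nat_lit 0) (nat_lit 24268464313) (nat_lit 1900) (nat_lit 2391355602) (nat_lit 475) (nat_lit 5) (nat_lit 474) (nat_lit 5) (nat_lit 499) (nat_lit 5) (nat_lit 645) (nat_lit 622) (nat_lit 293)) (XT.lf (nat_lit 0) (nat_lit 529541079) (nat_lit 1900) (nat_lit 6114953194) (nat_lit 1976) (nat_lit 32601410577) (nat_lit 449) (nat_lit 5) (nat_lit 474) (nat_lit 5) (nat_lit 475) (nat_lit 5) (nat_lit 646) (nat_lit 622) (nat_lit 292)))))) (XT.nd (nat_lit 546) (nat_lit 1748) (nat_lit 0) (XT.nd (nat_lit 234) (nat_lit 1824) (nat_lit 0) (XT.nd (nat_lit 78) (nat_lit 1064) (nat_lit 0) (XT.lf (nat_lit 0) (nat_lit 3647509764) (nat_lit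 1900) (nat_lit 24722537145) (nat_lit 76) (nat_lit 11297627999) (nat_lit 450) (nat_lit 5) (nat_lit 475) (nat_lit 5) (nat_lit 451) (nat_lit 5) (nat_lit 647) (nat_lit 622) (nat_lit 291)) (XT.nd (nat_lit 78) (nat_lit 1064) (nat_lit 0) (XT.lf (nat_lit 0) (nat_lit 6911957504) (nat_lit 1900) (nat_lit 3633058399) (nat_lit 76) (nat_lit 29551182173) (nat_lit 450) (nat_lit 5) (nat_lit 475) (nat_lit 5) (nat_lit 451) (nat_lit 5) (nat_lit 648) (nat_lit 622) (nat_lit 290)) (XT.lf (nat_lit 0) (nat_lit 10408501847) (nat_lit 1140) (nat_lit 22466559273) (nat_lit 76) (nat_lit 7654894534) (nat_lit 436) (nat_lit 5) (nat_lit 451) (nat_lit 5) (nat_lit 437) (nat_lit 5) (nat_lit 649) (nat_lit 622) (nat_lit 289)))) (XT.nd (nat_lit 156) (nat_lit 912) (nat_lit 0) (XT.nd (nat_lit 78) (nat_lit 912) (nat_lit 0) (XT.lf (nat_lit 0) (nat_lit 14068203380) (nat_lit 1140) (nat_lit 799910269) (nat_lit 76) (nat_lit 26102410306) (nat_lit 436) (nat_lit 5) (nat_lit 451) (nat_lit 5) (nat_lit 437) (nat_lit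 5) (nat_lit 650) (nat_lit 622) (nat_lit 288)) (XT.lf (nat_lit 0) (nat_lit 17963743716) (nat_lit 988) (nat_lit 19858665576) (nat_lit 76) (nat_lit 3594241531) (nat_lit 424) (nat_lit 5) (nat_lit 437) (nat_lit 5) (nat_lit 425) (nat_lit 5) (nat_lit 651) (nat_lit 622) (nat_lit 287))) (XT.nd (nat_lit 78) (nat_lit 0) (nat_lit 0) (XT.lf (nat_lit 0) (nat_lit 2434683593) (nat_lit 912) (nat_lit 19621075799) (nat_lit 988) (nat_lit 19813569640) (nat_lit 412) (nat_lit 5) (nat_lit 424) (nat_lit 5) (nat_lit 425) (nat_lit 5) (nat_lit 652) (nat_lit 622) (nat_lit 286)) (XT.lf (nat_lit 0) (nat_lit 25442059367) (nat_lit 912) (nat_lit 919722465) (nat_lit 988) (nat_lit 15966635738) (nat_lit 412) (nat_lit 5) (nat_lit 424) (nat_lit 5) (nat_lit 425) (nat_lit 5) (nat_lit 653) (nat_lit 622) (nat_lit 285))))) (XT.nd (nat_lit 234) (nat_lit 76) (nat_lit 0) (XT.nd (nat_lit 78) (nat_lit 836) (nat_lit 0) (XT.lf (nat_lit 0) (nat_lit 6073641484) (nat_lit 836) (nat_lit 24836522172) (nat_lit 912) (nat_lit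 11883399534) (nat_lit 401) (nat_lit 5) (nat_lit 412) (nat_lit 5) (nat_lit 413) (nat_lit 5) (nat_lit 654) (nat_lit 622) (nat_lit 284)) (XT.nd (nat_lit 78) (nat_lit 836) (nat_lit 0) (XT.lf (nat_lit 0) (nat_lit 29714543542) (nat_lit 836) (nat_lit 5953277384) (nat_lit 912) (nat_lit 7597824729) (nat_lit 401) (nat_lit 5) (nat_lit 412) (nat_lit 5) (nat_lit 413) (nat_lit 5) (nat_lit 655) (nat_lit 622) (nat_lit 283)) (XT.lf (nat_lit 0) (nat_lit 10126476642) (nat_lit 836) (nat_lit 30545266123) (nat_lit 912) (nat_lit 3072404863) (nat_lit 390) (nat_lit 5) (nat_lit 401) (nat_lit 5) (nat_lit 402) (nat_lit 5) (nat_lit 656) (nat_lit 622) (nat_lit 282)))) (XT.nd (nat_lit 78624) (nat_lit 0) (nat_lit 5624) (XT.nd (nat_lit 78546) (nat_lit 0) (nat_lit 5624) (XT.lf (nat_lit 0) (nat_lit 1653211254) (nat_lit 912) (nat_lit 9820187545) (nat_lit 76) (nat_lit 32756021865) (nat_lit 389) (nat_lit 5) (nat_lit 401) (nat_lit 5) (nat_lit 390) (nat_lit 5) (nat_lit 657) (nat_lit 622) (nat_lit 281))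 (XT.lf (nat_lit 0) (nat_lit 955892525) (nat_lit 1900) (nat_lit 7341433718) (nat_lit 1900) (nat_lit 7341433718) (nat_lit 463) (nat_lit 3) (nat_lit 488) (nat_lit 3) (nat_lit 488) (nat_lit 5) (nat_lit 623) (nat_lit 623) (nat_lit 314))) (XT.nd (nat_lit 78) (nat_lit 0) (nat_lit 76) (XT.lf (nat_lit 76) (nat_lit 777540197) (nat_lit 0) (nat_lit 1225764613) (nat_lit 1900) (nat_lit 29585536133) (nat_lit 464) (nat_lit 5) (nat_lit 463) (nat_lit 3) (nat_lit 488) (nat_lit 5) (nat_lit 624) (nat_lit 623) (nat_lit 313)) (XT.lf (nat_lit 0) (nat_lit 2287892430) (nat_lit 1824) (nat_lit 15253660699) (nat_lit 1900) (nat_lit 14361010668) (nat_lit 464) (nat_lit 5) (nat_lit 488) (nat_lit 5) (nat_lit 489) (nat_lit 5) (nat_lit 625) (nat_lit 623) (nat_lit 312))))))) (XT.nd (nat_lit 1014) (nat_lit 3040) (nat_lit 0) (XT.nd (nat_lit 468) (nat_lit 0) (nat_lit 228) (XT.nd (nat_lit 234) (nat_lit 0) (nat_lit 152) (XT.nd (nat_lit 78) (nat_lit 0) (nat_lit 76) (XT.lf (nat_lit 76) (nat_lit 614133412)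 (nat_lit 0) (nat_lit 1974410990) (nat_lit 1900) (nat_lit 29633809412) (nat_lit 465) (nat_lit 5) (nat_lit 464) (nat_lit 5) (nat_lit 489) (nat_lit 5) (nat_lit 626) (nat_lit 623) (nat_lit 311)) (XT.nd (nat_lit 78) (nat_lit 0) (nat_lit 0) (XT.lf (nat_lit 0) (nat_lit 3086822415) (nat_lit 1824) (nat_lit 15632362673) (nat_lit 1900) (nat_lit 13825522437) (nat_lit 465) (nat_lit 5) (nat_lit 489) (nat_lit 5) (nat_lit 490) (nat_lit 5) (nat_lit 627) (nat_lit 623) (nat_lit 310)) (XT.lf (nat_lit 76) (nat_lit 657611646) (nat_lit 0) (nat_lit 2953133442) (nat_lit 1900) (nat_lit 29262449792) (nat_lit 466) (nat_lit 5) (nat_lit 465) (nat_lit 5) (nat_lit 490) (nat_lit 5) (nat_lit 628) (nat_lit 623) (nat_lit 309)))) (XT.nd (nat_lit 78) (nat_lit 0) (nat_lit 0) (XT.lf (nat_lit 0) (nat_lit 4334344490) (nat_lit 1824) (nat_lit 15807780562) (nat_lit 1900) (nat_lit 13062343115) (nat_lit 466) (nat_lit 5) (nat_lit 490) (nat_lit 5) (nat_lit 491) (nat_lit 5) (nat_lit 629) (nat_lit 623) (nat_lit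 308)) (XT.nd (nat_lit 78) (nat_lit 0) (nat_lit 76) (XT.lf (nat_lit 76) (nat_lit 919721635) (nat_lit 0) (nat_lit 4176619865) (nat_lit 1900) (nat_lit 28445547052) (nat_lit 467) (nat_lit 5) (nat_lit 466) (nat_lit 5) (nat_lit 491) (nat_lit 5) (nat_lit 630) (nat_lit 623) (nat_lit 307)) (XT.lf (nat_lit 0) (nat_lit 6057400196) (nat_lit 1824) (nat_lit 15768191295) (nat_lit 1900) (nat_lit 12056789563) (nat_lit 467) (nat_lit 5) (nat_lit 491) (nat_lit 5) (nat_lit 492) (nat_lit 5) (nat_lit 631) (nat_lit 623) (nat_lit 306))))) (XT.nd (nat_lit 234) (nat_lit 0) (nat_lit 152) (XT.nd (nat_lit 78) (nat_lit 0) (nat_lit 76) (XT.lf (nat_lit 76) (nat_lit 1412761074) (nat_lit 0) (nat_lit 5660208437) (nat_lit 1900) (nat_lit 27156008245) (nat_lit 468) (nat_lit 5) (nat_lit 467) (nat_lit 5) (nat_lit 492) (nat_lit 5) (nat_lit 632) (nat_lit 623) (nat_lit 305)) (XT.nd (nat_lit 78) (nat_lit 0) (nat_lit 0) (XT.lf (nat_lit 0) (nat_lit 8284154224) (nat_lit 1824) (nat_lit 15501321463) (nat_lit 1900)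 (nat_lit 10793524762) (nat_lit 468) (nat_lit 5) (nat_lit 492) (nat_lit 5) (nat_lit 493) (nat_lit 5) (nat_lit 633) (nat_lit 623) (nat_lit 304)) (XT.lf (nat_lit 76) (nat_lit 2149599449) (nat_lit 0) (nat_lit 7419919053) (nat_lit 1900) (nat_lit 25365506112) (nat_lit 469) (nat_lit 5) (nat_lit 468) (nat_lit 5) (nat_lit 493) (nat_lit 5) (nat_lit 634) (nat_lit 623) (nat_lit 303)))) (XT.nd (nat_lit 156) (nat_lit 0) (nat_lit 76) (XT.nd (nat_lit 78) (nat_lit 0) (nat_lit 0) (XT.lf (nat_lit 0) (nat_lit 11044047523) (nat_lit 1824) (nat_lit 14994326459) (nat_lit 1900) (nat_lit 9256526263) (nat_lit 469) (nat_lit 5) (nat_lit 493) (nat_lit 5) (nat_lit 494) (nat_lit 5) (nat_lit 635) (nat_lit 623) (nat_lit 302)) (XT.lf (nat_lit 76) (nat_lit 3143699705) (nat_lit 0) (nat_lit 9472485968) (nat_lit 1900) (nat_lit 23044425474) (nat_lit 470) (nat_lit 5) (nat_lit 469) (nat_lit 5) (nat_lit 494) (nat_lit 5) (nat_lit 636) (nat_lit 623) (nat_lit 301))) (XT.nd (nat_lit 78) (nat_lit 0) (nat_lit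 0) (XT.lf (nat_lit 0) (nat_lit 14367852488) (nat_lit 1824) (nat_lit 14233768778) (nat_lit 1900) (nat_lit 7429053410) (nat_lit 470) (nat_lit 5) (nat_lit 494) (nat_lit 5) (nat_lit 495) (nat_lit 5) (nat_lit 637) (nat_lit 623) (nat_lit 300)) (XT.lf (nat_lit 76) (nat_lit 4409140758) (nat_lit 0) (nat_lit 11835391735) (nat_lit 1900) (nat_lit 20161807510) (nat_lit 471) (nat_lit 5) (nat_lit 470) (nat_lit 5) (nat_lit 495) (nat_lit 5) (nat_lit 638) (nat_lit 623) (nat_lit 299)))))) (XT.nd (nat_lit 546) (nat_lit 3572) (nat_lit 0) (XT.nd (nat_lit 234) (nat_lit 0) (nat_lit 76) (XT.nd (nat_lit 78) (nat_lit 0) (nat_lit 0) (XT.lf (nat_lit 0) (nat_lit 18287730323) (nat_lit 1824) (nat_lit 13205595480) (nat_lit 1900) (nat_lit 5293613273) (nat_lit 471) (nat_lit 5) (nat_lit 495) (nat_lit 5) (nat_lit 496) (nat_lit 5) (nat_lit 639) (nat_lit 623) (nat_lit 298)) (XT.nd (nat_lit 78) (nat_lit 0) (nat_lit 76) (XT.lf (nat_lit 76) (nat_lit 5960640892) (nat_lit 0) (nat_lit 14526902480) (nat_lit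 1900) (nat_lit 16685291851) (nat_lit 472) (nat_lit 5) (nat_lit 471) (nat_lit 5) (nat_lit 496) (nat_lit 5) (nat_lit 640) (nat_lit 623) (nat_lit 297)) (XT.lf (nat_lit 0) (nat_lit 22837290667) (nat_lit 1824) (nat_lit 11895114774) (nat_lit 1900) (nat_lit 2831925209) (nat_lit 472) (nat_lit 5) (nat_lit 496) (nat_lit 5) (nat_lit 497) (nat_lit 5) (nat_lit 641) (nat_lit 623) (nat_lit 296)))) (XT.nd (nat_lit 156) (nat_lit 0) (nat_lit 76) (XT.nd (nat_lit 78) (nat_lit 0) (nat_lit 76) (XT.lf (nat_lit 76) (nat_lit 7813582052) (nat_lit 0) (nat_lit 17566104595) (nat_lit 1900) (nat_lit 12581056379) (nat_lit 473) (nat_lit 5) (nat_lit 472) (nat_lit 5) (nat_lit 497) (nat_lit 5) (nat_lit 642) (nat_lit 623) (nat_lit 295)) (XT.lf (nat_lit 0) (nat_lit 28051653578) (nat_lit 1824) (nat_lit 10286971710) (nat_lit 1900) (nat_lit 24884015) (nat_lit 473) (nat_lit 5) (nat_lit 497) (nat_lit 5) (nat_lit 498) (nat_lit 5) (nat_lit 643) (nat_lit 623) (nat_lit 294))) (XT.nd (nat_lit 78) (nat_lit 0)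 (nat_lit 0) (XT.lf (nat_lit 76) (nat_lit 9984035073) (nat_lit 0) (nat_lit 20972942918) (nat_lit 1900) (nat_lit 7813754661) (nat_lit 474) (nat_lit 5) (nat_lit 473) (nat_lit 5) (nat_lit 498) (nat_lit 5) (nat_lit 644) (nat_lit 623) (nat_lit 293)) (XT.lf (nat_lit 76) (nat_lit 30798914295) (nat_lit 0) (nat_lit 3189306758) (nat_lit 1900) (nat_lit 5196523280) (nat_lit 474) (nat_lit 5) (nat_lit 473) (nat_lit 5) (nat_lit 498) (nat_lit 5) (nat_lit 645) (nat_lit 623) (nat_lit 292))))) (XT.nd (nat_lit 234) (nat_lit 1900) (nat_lit 0) (XT.nd (nat_lit 78) (nat_lit 1900) (nat_lit 0) (XT.lf (nat_lit 76) (nat_lit 12488785848) (nat_lit 0) (nat_lit 24768260460) (nat_lit 1900) (nat_lit 2346450901) (nat_lit 475) (nat_lit 5) (nat_lit 474) (nat_lit 5) (nat_lit 499) (nat_lit 5) (nat_lit 646) (nat_lit 623) (nat_lit 291)) (XT.nd (nat_lit 78) (nat_lit 0) (nat_lit 76) (XT.lf (nat_lit 0) (nat_lit 629853096) (nat_lit 1900) (nat_lit 6161072967) (nat_lit 1976) (nat_lit 33238094724) (nat_lit 449)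 (nat_lit 5) (nat_lit 474) (nat_lit 5) (nat_lit 475) (nat_lit 5) (nat_lit 647) (nat_lit 623) (nat_lit 290)) (XT.lf (nat_lit 0) (nat_lit 3808830323) (nat_lit 1900) (nat_lit 25139450181) (nat_lit 76) (nat_lit 11510972910) (nat_lit 450) (nat_lit 5) (nat_lit 475) (nat_lit 5) (nat_lit 451) (nat_lit 5) (nat_lit 648) (nat_lit 623) (nat_lit 289)))) (XT.nd (nat_lit 156) (nat_lit 912) (nat_lit 0) (XT.nd (nat_lit 78) (nat_lit 1064) (nat_lit 0) (XT.lf (nat_lit 0) (nat_lit 7136834265) (nat_lit 1900) (nat_lit 3629702207) (nat_lit 76) (nat_lit 30129845377) (nat_lit 450) (nat_lit 5) (nat_lit 475) (nat_lit 5) (nat_lit 451) (nat_lit 5) (nat_lit 649) (nat_lit 623) (nat_lit 288)) (XT.lf (nat_lit 0) (nat_lit 10702036672) (nat_lit 1140) (nat_lit 22838592985) (nat_lit 76) (nat_lit 7798210524) (nat_lit 436) (nat_lit 5) (nat_lit 451) (nat_lit 5) (nat_lit 437) (nat_lit 5) (nat_lit 650) (nat_lit 623) (nat_lit 287))) (XT.nd (nat_lit 78) (nat_lit 912) (nat_lit 0) (XT.lf (nat_lit 0) (nat_lit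 14433258416) (nat_lit 1140) (nat_lit 740126638) (nat_lit 76) (nat_lit 26614868414) (nat_lit 436) (nat_lit 5) (nat_lit 451) (nat_lit 5) (nat_lit 437) (nat_lit 5) (nat_lit 651) (nat_lit 623) (nat_lit 286)) (XT.lf (nat_lit 0) (nat_lit 18405510241) (nat_lit 988) (nat_lit 20178850726) (nat_lit 76) (nat_lit 3658966033) (nat_lit 424) (nat_lit 5) (nat_lit 437) (nat_lit 5) (nat_lit 425) (nat_lit 5) (nat_lit 652) (nat_lit 623) (nat_lit 285))))))))
noncomputable def xc249 : XT := (XT.nd (nat_lit 80652) (nat_lit 0) (nat_lit 836) (XT.nd (nat_lit 79560) (nat_lit 0) (nat_lit 5852) (XT.nd (nat_lit 79014) (nat_lit 0) (nat_lit 5548) (XT.nd (nat_lit 234) (nat_lit 836) (nat_lit 0) (XT.nd (nat_lit 78) (nat_lit 836) (nat_lit 0) (XT.lf (nat_lit 0) (nat_lit 2559858926) (nat_lit 912) (nat_lit 20018386392) (nat_lit 988) (nat_lit 20126836012) (nat_lit 412) (nat_lit 5) (nat_lit 424) (nat_lit 5) (nat_lit 425) (nat_lit 5) (nat_lit 653) (nat_lit 623) (nat_lit 284)) (XT.nd (nat_lit 78) (nat_lit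 836) (nat_lit 0) (XT.lf (nat_lit 0) (nat_lit 26025882575) (nat_lit 912) (nat_lit 942910127) (nat_lit 988) (nat_lit 16204590981) (nat_lit 412) (nat_lit 5) (nat_lit 424) (nat_lit 5) (nat_lit 425) (nat_lit 5) (nat_lit 654) (nat_lit 623) (nat_lit 283)) (XT.lf (nat_lit 0) (nat_lit 6271225646) (nat_lit 836) (nat_lit 25335815950) (nat_lit 912) (nat_lit 12040812761) (nat_lit 401) (nat_lit 5) (nat_lit 412) (nat_lit 5) (nat_lit 413) (nat_lit 5) (nat_lit 655) (nat_lit 623) (nat_lit 282)))) (XT.nd (nat_lit 78) (nat_lit 836) (nat_lit 0) (XT.lf (nat_lit 0) (nat_lit 30383453366) (nat_lit 836) (nat_lit 6074856005) (nat_lit 912) (nat_lit 7671100083) (nat_lit 401) (nat_lit 5) (nat_lit 412) (nat_lit 5) (nat_lit 413) (nat_lit 5) (nat_lit 656) (nat_lit 623) (nat_lit 281)) (XT.nd (nat_lit 78624) (nat_lit 0) (nat_lit 5548) (XT.lf (nat_lit 0) (nat_lit 10404689345) (nat_lit 836) (nat_lit 31156583298) (nat_lit 912) (nat_lit 3056229691) (nat_lit 390) (nat_lit 5) (nat_lit 401) (nat_lit 5)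 (nat_lit 402) (nat_lit 5) (nat_lit 657) (nat_lit 623) (nat_lit 280)) (XT.lf (nat_lit 0) (nat_lit 1041926674) (nat_lit 1900) (nat_lit 7454132030) (nat_lit 1900) (nat_lit 7454132030) (nat_lit 463) (nat_lit 3) (nat_lit 488) (nat_lit 3) (nat_lit 488) (nat_lit 5) (nat_lit 624) (nat_lit 624) (nat_lit 312))))) (XT.nd (nat_lit 234) (nat_lit 0) (nat_lit 152) (XT.nd (nat_lit 78) (nat_lit 0) (nat_lit 76) (XT.lf (nat_lit 76) (nat_lit 860902642) (nat_lit 0) (nat_lit 1314116972) (nat_lit 1900) (nat_lit 30042953214) (nat_lit 464) (nat_lit 5) (nat_lit 463) (nat_lit 3) (nat_lit 488) (nat_lit 5) (nat_lit 625) (nat_lit 624) (nat_lit 311)) (XT.nd (nat_lit 78) (nat_lit 0) (nat_lit 0) (XT.lf (nat_lit 0) (nat_lit 2462311294) (nat_lit 1824) (nat_lit 15489252493) (nat_lit 1900) (nat_lit 14586466340) (nat_lit 464) (nat_lit 5) (nat_lit 488) (nat_lit 5) (nat_lit 489) (nat_lit 5) (nat_lit 626) (nat_lit 624) (nat_lit 310)) (XT.lf (nat_lit 76) (nat_lit 695440385) (nat_lit 0) (nat_lit 2071461306)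 (nat_lit 1900) (nat_lit 30097355975) (nat_lit 465) (nat_lit 5) (nat_lit 464) (nat_lit 5) (nat_lit 489) (nat_lit 5) (nat_lit 627) (nat_lit 624) (nat_lit 309)))) (XT.nd (nat_lit 156) (nat_lit 0) (nat_lit 76) (XT.nd (nat_lit 78) (nat_lit 0) (nat_lit 0) (XT.lf (nat_lit 0) (nat_lit 3272296775) (nat_lit 1824) (nat_lit 15874479280) (nat_lit 1900) (nat_lit 14046339593) (nat_lit 465) (nat_lit 5) (nat_lit 489) (nat_lit 5) (nat_lit 490) (nat_lit 5) (nat_lit 628) (nat_lit 624) (nat_lit 308)) (XT.lf (nat_lit 76) (nat_lit 740830509) (nat_lit 0) (nat_lit 3063896079) (nat_lit 1900) (nat_lit 29723485809) (nat_lit 466) (nat_lit 5) (nat_lit 465) (nat_lit 5) (nat_lit 490) (nat_lit 5) (nat_lit 629) (nat_lit 624) (nat_lit 307))) (XT.nd (nat_lit 78) (nat_lit 0) (nat_lit 0) (XT.lf (nat_lit 0) (nat_lit 4540081308) (nat_lit 1824) (nat_lit 16052515897) (nat_lit 1900) (nat_lit 13273568494) (nat_lit 466) (nat_lit 5) (nat_lit 490) (nat_lit 5) (nat_lit 491) (nat_lit 5) (nat_lit 630) (nat_lit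 624) (nat_lit 306)) (XT.lf (nat_lit 76) (nat_lit 1009066474) (nat_lit 0) (nat_lit 4306378129) (nat_lit 1900) (nat_lit 28894927574) (nat_lit 467) (nat_lit 5) (nat_lit 466) (nat_lit 5) (nat_lit 491) (nat_lit 5) (nat_lit 631) (nat_lit 624) (nat_lit 305)))))) (XT.nd (nat_lit 546) (nat_lit 0) (nat_lit 228) (XT.nd (nat_lit 234) (nat_lit 0) (nat_lit 76) (XT.nd (nat_lit 78) (nat_lit 0) (nat_lit 0) (XT.lf (nat_lit 0) (nat_lit 6293132654) (nat_lit 1824) (nat_lit 16011393669) (nat_lit 1900) (nat_lit 12253200250) (nat_lit 467) (nat_lit 5) (nat_lit 491) (nat_lit 5) (nat_lit 492) (nat_lit 5) (nat_lit 632) (nat_lit 624) (nat_lit 304)) (XT.nd (nat_lit 78) (nat_lit 0) (nat_lit 76) (XT.lf (nat_lit 76) (nat_lit 1512703001) (nat_lit 0) (nat_lit 5814529039) (nat_lit 1900) (nat_lit 27584059000) (nat_lit 468) (nat_lit 5) (nat_lit 467) (nat_lit 5) (nat_lit 492) (nat_lit 5) (nat_lit 633) (nat_lit 624) (nat_lit 303)) (XT.lf (nat_lit 0) (nat_lit 8560166900) (nat_lit 1824) (nat_lit 15738583254)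 (nat_lit 1900) (nat_lit 10969613704) (nat_lit 468) (nat_lit 5) (nat_lit 492) (nat_lit 5) (nat_lit 493) (nat_lit 5) (nat_lit 634) (nat_lit 624) (nat_lit 302)))) (XT.nd (nat_lit 156) (nat_lit 0) (nat_lit 76) (XT.nd (nat_lit 78) (nat_lit 0) (nat_lit 76) (XT.lf (nat_lit 76) (nat_lit 2264877362) (nat_lit 0) (nat_lit 7604667105) (nat_lit 1900) (nat_lit 25761998116) (nat_lit 469) (nat_lit 5) (nat_lit 468) (nat_lit 5) (nat_lit 493) (nat_lit 5) (nat_lit 635) (nat_lit 624) (nat_lit 301)) (XT.lf (nat_lit 0) (nat_lit 11371202580) (nat_lit 1824) (nat_lit 15220973328) (nat_lit 1900) (nat_lit 9406487241) (nat_lit 469) (nat_lit 5) (nat_lit 493) (nat_lit 5) (nat_lit 494) (nat_lit 5) (nat_lit 636) (nat_lit 624) (nat_lit 300))) (XT.nd (nat_lit 78) (nat_lit 0) (nat_lit 76) (XT.lf (nat_lit 76) (nat_lit 3279331520) (nat_lit 0) (nat_lit 9693840560) (nat_lit 1900) (nat_lit 23398548607) (nat_lit 470) (nat_lit 5) (nat_lit 469) (nat_lit 5) (nat_lit 494) (nat_lit 5) (nat_lit 637) (nat_lit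 624) (nat_lit 299)) (XT.lf (nat_lit 0) (nat_lit 14757616935) (nat_lit 1824) (nat_lit 14444848416) (nat_lit 1900) (nat_lit 7546765426) (nat_lit 470) (nat_lit 5) (nat_lit 494) (nat_lit 5) (nat_lit 495) (nat_lit 5) (nat_lit 638) (nat_lit 624) (nat_lit 298))))) (XT.nd (nat_lit 234) (nat_lit 0) (nat_lit 152) (XT.nd (nat_lit 78) (nat_lit 0) (nat_lit 76) (XT.lf (nat_lit 76) (nat_lit 4570435128) (nat_lit 0) (nat_lit 12099862112) (nat_lit 1900) (nat_lit 20462143017) (nat_lit 471) (nat_lit 5) (nat_lit 470) (nat_lit 5) (nat_lit 495) (nat_lit 5) (nat_lit 639) (nat_lit 624) (nat_lit 297)) (XT.nd (nat_lit 78) (nat_lit 0) (nat_lit 0) (XT.lf (nat_lit 0) (nat_lit 18752204384) (nat_lit 1824) (nat_lit 13395865865) (nat_lit 1900) (nat_lit 5372624331) (nat_lit 471) (nat_lit 5) (nat_lit 495) (nat_lit 5) (nat_lit 496) (nat_lit 5) (nat_lit 640) (nat_lit 624) (nat_lit 296)) (XT.lf (nat_lit 76) (nat_lit 6153209434) (nat_lit 0) (nat_lit 14841344858) (nat_lit 1900) (nat_lit 16919783721) (nat_lit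 472) (nat_lit 5) (nat_lit 471) (nat_lit 5) (nat_lit 496) (nat_lit 5) (nat_lit 641) (nat_lit 624) (nat_lit 295)))) (XT.nd (nat_lit 156) (nat_lit 0) (nat_lit 76) (XT.nd (nat_lit 78) (nat_lit 0) (nat_lit 0) (XT.lf (nat_lit 0) (nat_lit 23389237315) (nat_lit 1824) (nat_lit 12059031931) (nat_lit 1900) (nat_lit 2865435459) (nat_lit 472) (nat_lit 5) (nat_lit 496) (nat_lit 5) (nat_lit 497) (nat_lit 5) (nat_lit 642) (nat_lit 624) (nat_lit 294)) (XT.lf (nat_lit 76) (nat_lit 8043352087) (nat_lit 0) (nat_lit 17937739645) (nat_lit 1900) (nat_lit 12736981554) (nat_lit 473) (nat_lit 5) (nat_lit 472) (nat_lit 5) (nat_lit 497) (nat_lit 5) (nat_lit 643) (nat_lit 624) (nat_lit 293))) (XT.nd (nat_lit 78) (nat_lit 0) (nat_lit 0) (XT.lf (nat_lit 0) (nat_lit 28704529264) (nat_lit 1824) (nat_lit 10418676948) (nat_lit 1900) (nat_lit 5728215) (nat_lit 473) (nat_lit 5) (nat_lit 497) (nat_lit 5) (nat_lit 498) (nat_lit 5) (nat_lit 644) (nat_lit 624) (nat_lit 292)) (XT.lf (nat_lit 76) (nat_lit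 10257262903) (nat_lit 0) (nat_lit 21409373943) (nat_lit 1900) (nat_lit 7877692024) (nat_lit 474) (nat_lit 5) (nat_lit 473) (nat_lit 5) (nat_lit 498) (nat_lit 5) (nat_lit 645) (nat_lit 624) (nat_lit 291))))))) (XT.nd (nat_lit 79794) (nat_lit 0) (nat_lit 4788) (XT.nd (nat_lit 546) (nat_lit 2660) (nat_lit 0) (XT.nd (nat_lit 234) (nat_lit 988) (nat_lit 0) (XT.nd (nat_lit 78) (nat_lit 1824) (nat_lit 0) (XT.lf (nat_lit 76) (nat_lit 31486997609) (nat_lit 0) (nat_lit 3269732272) (nat_lit 1900) (nat_lit 5209926560) (nat_lit 474) (nat_lit 5) (nat_lit 473) (nat_lit 5) (nat_lit 498) (nat_lit 5) (nat_lit 646) (nat_lit 624) (nat_lit 290)) (XT.nd (nat_lit 78) (nat_lit 1900) (nat_lit 0) (XT.lf (nat_lit 76) (nat_lit 12812070591) (nat_lit 0) (nat_lit 25277492317) (nat_lit 1900) (nat_lit 2304248995) (nat_lit 475) (nat_lit 5) (nat_lit 474) (nat_lit 5) (nat_lit 499) (nat_lit 5) (nat_lit 647) (nat_lit 624) (nat_lit 289)) (XT.lf (nat_lit 0) (nat_lit 728687370) (nat_lit 1900) (nat_lit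 6211073270) (nat_lit 1976) (nat_lit 33888108382) (nat_lit 449) (nat_lit 5) (nat_lit 474) (nat_lit 5) (nat_lit 475) (nat_lit 5) (nat_lit 648) (nat_lit 624) (nat_lit 288)))) (XT.nd (nat_lit 156) (nat_lit 1064) (nat_lit 0) (XT.nd (nat_lit 78) (nat_lit 0) (nat_lit 0) (XT.lf (nat_lit 0) (nat_lit 3969945764) (nat_lit 1900) (nat_lit 25567712361) (nat_lit 76) (nat_lit 11729074291) (nat_lit 450) (nat_lit 5) (nat_lit 475) (nat_lit 5) (nat_lit 451) (nat_lit 5) (nat_lit 649) (nat_lit 624) (nat_lit 287)) (XT.lf (nat_lit 0) (nat_lit 7362844318) (nat_lit 1900) (nat_lit 3629230738) (nat_lit 76) (nat_lit 30720561816) (nat_lit 450) (nat_lit 5) (nat_lit 475) (nat_lit 5) (nat_lit 451) (nat_lit 5) (nat_lit 650) (nat_lit 624) (nat_lit 286))) (XT.nd (nat_lit 78) (nat_lit 0) (nat_lit 0) (XT.lf (nat_lit 0) (nat_lit 10998127375) (nat_lit 1140) (nat_lit 23221068926) (nat_lit 76) (nat_lit 7944772677) (nat_lit 436) (nat_lit 5) (nat_lit 451) (nat_lit 5) (nat_lit 437) (nat_lit 5) (nat_lit 651)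 (nat_lit 624) (nat_lit 285)) (XT.lf (nat_lit 0) (nat_lit 14802364731) (nat_lit 1140) (nat_lit 682090035) (nat_lit 76) (nat_lit 27137948078) (nat_lit 436) (nat_lit 5) (nat_lit 451) (nat_lit 5) (nat_lit 437) (nat_lit 5) (nat_lit 652) (nat_lit 624) (nat_lit 284))))) (XT.nd (nat_lit 234) (nat_lit 836) (nat_lit 0) (XT.nd (nat_lit 78) (nat_lit 912) (nat_lit 0) (XT.lf (nat_lit 0) (nat_lit 18852908845) (nat_lit 988) (nat_lit 20508429123) (nat_lit 76) (nat_lit 3725263068) (nat_lit 424) (nat_lit 5) (nat_lit 437) (nat_lit 5) (nat_lit 425) (nat_lit 5) (nat_lit 653) (nat_lit 624) (nat_lit 283)) (XT.nd (nat_lit 78) (nat_lit 0) (nat_lit 0) (XT.lf (nat_lit 0) (nat_lit 2684567889) (nat_lit 912) (nat_lit 20423453347) (nat_lit 988) (nat_lit 20449590897) (nat_lit 412) (nat_lit 5) (nat_lit 424) (nat_lit 5) (nat_lit 425) (nat_lit 5) (nat_lit 654) (nat_lit 624) (nat_lit 282)) (XT.lf (nat_lit 0) (nat_lit 26618470603) (nat_lit 912) (nat_lit 966375415) (nat_lit 988) (nat_lit 16450465315)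 (nat_lit 412) (nat_lit 5) (nat_lit 424) (nat_lit 5) (nat_lit 425) (nat_lit 5) (nat_lit 655) (nat_lit 624) (nat_lit 281)))) (XT.nd (nat_lit 78858) (nat_lit 0) (nat_lit 4712) (XT.nd (nat_lit 78780) (nat_lit 0) (nat_lit 4712) (XT.lf (nat_lit 0) (nat_lit 6469805995) (nat_lit 836) (nat_lit 25844996067) (nat_lit 912) (nat_lit 12204490644) (nat_lit 401) (nat_lit 5) (nat_lit 412) (nat_lit 5) (nat_lit 413) (nat_lit 5) (nat_lit 656) (nat_lit 624) (nat_lit 280)) (XT.lf (nat_lit 0) (nat_lit 1127083065) (nat_lit 1900) (nat_lit 7570409632) (nat_lit 1900) (nat_lit 7570409632) (nat_lit 463) (nat_lit 3) (nat_lit 488) (nat_lit 3) (nat_lit 488) (nat_lit 5) (nat_lit 625) (nat_lit 625) (nat_lit 310))) (XT.nd (nat_lit 78) (nat_lit 0) (nat_lit 76) (XT.lf (nat_lit 76) (nat_lit 943299127) (nat_lit 0) (nat_lit 1401757507) (nat_lit 1900) (nat_lit 30514733422) (nat_lit 464) (nat_lit 5) (nat_lit 463) (nat_lit 3) (nat_lit 488) (nat_lit 5) (nat_lit 626) (nat_lit 625) (nat_lit 309)) (XT.lf (nat_lit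 0) (nat_lit 2635222470) (nat_lit 1824) (nat_lit 15732254172) (nat_lit 1900) (nat_lit 14818829518) (nat_lit 464) (nat_lit 5) (nat_lit 488) (nat_lit 5) (nat_lit 489) (nat_lit 5) (nat_lit 627) (nat_lit 625) (nat_lit 308)))))) (XT.nd (nat_lit 546) (nat_lit 0) (nat_lit 304) (XT.nd (nat_lit 234) (nat_lit 0) (nat_lit 152) (XT.nd (nat_lit 78) (nat_lit 0) (nat_lit 76) (XT.lf (nat_lit 76) (nat_lit 775693200) (nat_lit 0) (nat_lit 2168217422) (nat_lit 1900) (nat_lit 30575187730) (nat_lit 465) (nat_lit 5) (nat_lit 464) (nat_lit 5) (nat_lit 489) (nat_lit 5) (nat_lit 628) (nat_lit 625) (nat_lit 307)) (XT.nd (nat_lit 78) (nat_lit 0) (nat_lit 0) (XT.lf (nat_lit 0) (nat_lit 3456675728) (nat_lit 1824) (nat_lit 16124177009) (nat_lit 1900) (nat_lit 14273735730) (nat_lit 465) (nat_lit 5) (nat_lit 489) (nat_lit 5) (nat_lit 490) (nat_lit 5) (nat_lit 629) (nat_lit 625) (nat_lit 306)) (XT.lf (nat_lit 76) (nat_lit 822992976) (nat_lit 0) (nat_lit 3174866395) (nat_lit 1900) (nat_lit 30198565888)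 (nat_lit 466) (nat_lit 5) (nat_lit 465) (nat_lit 5) (nat_lit 490) (nat_lit 5) (nat_lit 630) (nat_lit 625) (nat_lit 305)))) (XT.nd (nat_lit 156) (nat_lit 0) (nat_lit 76) (XT.nd (nat_lit 78) (nat_lit 0) (nat_lit 0) (XT.lf (nat_lit 0) (nat_lit 4745310009) (nat_lit 1824) (nat_lit 16304919275) (nat_lit 1900) (nat_lit 13490960775) (nat_lit 466) (nat_lit 5) (nat_lit 490) (nat_lit 5) (nat_lit 491) (nat_lit 5) (nat_lit 631) (nat_lit 625) (nat_lit 304)) (XT.lf (nat_lit 76) (nat_lit 1097443119) (nat_lit 0) (nat_lit 4436936552) (nat_lit 1900) (nat_lit 29357937219) (nat_lit 467) (nat_lit 5) (nat_lit 466) (nat_lit 5) (nat_lit 491) (nat_lit 5) (nat_lit 632) (nat_lit 625) (nat_lit 303))) (XT.nd (nat_lit 78) (nat_lit 0) (nat_lit 0) (XT.lf (nat_lit 0) (nat_lit 6529130308) (nat_lit 1824) (nat_lit 16262262207) (nat_lit 1900) (nat_lit 12455275881) (nat_lit 467) (nat_lit 5) (nat_lit 491) (nat_lit 5) (nat_lit 492) (nat_lit 5) (nat_lit 633) (nat_lit 625) (nat_lit 302)) (XT.lf (nat_lit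 76) (nat_lit 1611860084) (nat_lit 0) (nat_lit 5970339452) (nat_lit 1900) (nat_lit 28025139056) (nat_lit 468) (nat_lit 5) (nat_lit 467) (nat_lit 5) (nat_lit 492) (nat_lit 5) (nat_lit 634) (nat_lit 625) (nat_lit 301))))) (XT.nd (nat_lit 234) (nat_lit 0) (nat_lit 76) (XT.nd (nat_lit 78) (nat_lit 0) (nat_lit 0) (XT.lf (nat_lit 0) (nat_lit 8837415597) (nat_lit 1824) (nat_lit 15983415820) (nat_lit 1900) (nat_lit 11150769192) (nat_lit 468) (nat_lit 5) (nat_lit 492) (nat_lit 5) (nat_lit 493) (nat_lit 5) (nat_lit 635) (nat_lit 625) (nat_lit 300)) (XT.nd (nat_lit 78) (nat_lit 0) (nat_lit 76) (XT.lf (nat_lit 76) (nat_lit 2379653882) (nat_lit 0) (nat_lit 7791698615) (nat_lit 1900) (nat_lit 26170723163) (nat_lit 469) (nat_lit 5) (nat_lit 468) (nat_lit 5) (nat_lit 493) (nat_lit 5) (nat_lit 636) (nat_lit 625) (nat_lit 299)) (XT.lf (nat_lit 0) (nat_lit 11700773985) (nat_lit 1824) (nat_lit 15454997120) (nat_lit 1900) (nat_lit 9560813114) (nat_lit 469) (nat_lit 5) (nat_lit 493)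 (nat_lit 5) (nat_lit 494) (nat_lit 5) (nat_lit 637) (nat_lit 625) (nat_lit 298)))) (XT.nd (nat_lit 156) (nat_lit 0) (nat_lit 76) (XT.nd (nat_lit 78) (nat_lit 0) (nat_lit 76) (XT.lf (nat_lit 76) (nat_lit 3414850695) (nat_lit 0) (nat_lit 9918383338) (nat_lit 1900) (nat_lit 23763900032) (nat_lit 470) (nat_lit 5) (nat_lit 469) (nat_lit 5) (nat_lit 494) (nat_lit 5) (nat_lit 638) (nat_lit 625) (nat_lit 297)) (XT.lf (nat_lit 0) (nat_lit 15151200066) (nat_lit 1824) (nat_lit 14663007459) (nat_lit 1900) (nat_lit 7668030365) (nat_lit 470) (nat_lit 5) (nat_lit 494) (nat_lit 5) (nat_lit 495) (nat_lit 5) (nat_lit 639) (nat_lit 625) (nat_lit 296))) (XT.nd (nat_lit 78) (nat_lit 0) (nat_lit 76) (XT.lf (nat_lit 76) (nat_lit 4732116375) (nat_lit 0) (nat_lit 12368543843) (nat_lit 1900) (nat_lit 20772480991) (nat_lit 471) (nat_lit 5) (nat_lit 470) (nat_lit 5) (nat_lit 495) (nat_lit 5) (nat_lit 640) (nat_lit 625) (nat_lit 295)) (XT.lf (nat_lit 0) (nat_lit 19222134531) (nat_lit 1824)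 (nat_lit 13592809015) (nat_lit 1900) (nat_lit 5454258664) (nat_lit 471) (nat_lit 5) (nat_lit 495) (nat_lit 5) (nat_lit 496) (nat_lit 5) (nat_lit 641) (nat_lit 625) (nat_lit 294))))))))
noncomputable def xc250 : XT := (XT.nd (nat_lit 80886) (nat_lit 0) (nat_lit 912) (XT.nd (nat_lit 1014) (nat_lit 912) (nat_lit 0) (XT.nd (nat_lit 468) (nat_lit 3572) (nat_lit 0) (XT.nd (nat_lit 234) (nat_lit 0) (nat_lit 76) (XT.nd (nat_lit 78) (nat_lit 0) (nat_lit 76) (XT.lf (nat_lit 76) (nat_lit 6346780855) (nat_lit 0) (nat_lit 15161147851) (nat_lit 1900) (nat_lit 17162818028) (nat_lit 472) (nat_lit 5) (nat_lit 471) (nat_lit 5) (nat_lit 496) (nat_lit 5) (nat_lit 642) (nat_lit 625) (nat_lit 293)) (XT.nd (nat_lit 78) (nat_lit 0) (nat_lit 0) (XT.lf (nat_lit 0) (nat_lit 23948526131) (nat_lit 1824) (nat_lit 12229100365) (nat_lit 1900) (nat_lit 2900514011) (nat_lit 472) (nat_lit 5) (nat_lit 496) (nat_lit 5) (nat_lit 497) (nat_lit 5) (nat_lit 643) (nat_lit 625) (nat_lit 292)) (XT.lf (nat_lit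 76) (nat_lit 8274863490) (nat_lit 0) (nat_lit 18316018619) (nat_lit 1900) (nat_lit 12899741223) (nat_lit 473) (nat_lit 5) (nat_lit 472) (nat_lit 5) (nat_lit 497) (nat_lit 5) (nat_lit 644) (nat_lit 625) (nat_lit 291)))) (XT.nd (nat_lit 78) (nat_lit 0) (nat_lit 76) (XT.lf (nat_lit 76) (nat_lit 29353761014) (nat_lit 0) (nat_lit 13220927) (nat_lit 1900) (nat_lit 10542756041) (nat_lit 473) (nat_lit 5) (nat_lit 472) (nat_lit 5) (nat_lit 497) (nat_lit 5) (nat_lit 645) (nat_lit 625) (nat_lit 290)) (XT.nd (nat_lit 78) (nat_lit 0) (nat_lit 0) (XT.lf (nat_lit 76) (nat_lit 10533099365) (nat_lit 0) (nat_lit 21853874539) (nat_lit 1900) (nat_lit 7946493721) (nat_lit 474) (nat_lit 5) (nat_lit 473) (nat_lit 5) (nat_lit 498) (nat_lit 5) (nat_lit 646) (nat_lit 625) (nat_lit 289)) (XT.lf (nat_lit 76) (nat_lit 32186042664) (nat_lit 0) (nat_lit 3351120169) (nat_lit 1900) (nat_lit 5227113186) (nat_lit 474) (nat_lit 5) (nat_lit 473) (nat_lit 5) (nat_lit 498) (nat_lit 5) (nat_lit 647)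 (nat_lit 625) (nat_lit 288))))) (XT.nd (nat_lit 234) (nat_lit 1900) (nat_lit 0) (XT.nd (nat_lit 78) (nat_lit 1900) (nat_lit 0) (XT.lf (nat_lit 76) (nat_lit 13138966584) (nat_lit 0) (nat_lit 25796370353) (nat_lit 1900) (nat_lit 2264664113) (nat_lit 475) (nat_lit 5) (nat_lit 474) (nat_lit 5) (nat_lit 499) (nat_lit 5) (nat_lit 648) (nat_lit 625) (nat_lit 287)) (XT.nd (nat_lit 78) (nat_lit 0) (nat_lit 76) (XT.lf (nat_lit 0) (nat_lit 826149633) (nat_lit 1900) (nat_lit 6264916846) (nat_lit 1976) (nat_lit 34551695006) (nat_lit 449) (nat_lit 5) (nat_lit 474) (nat_lit 5) (nat_lit 475) (nat_lit 5) (nat_lit 649) (nat_lit 625) (nat_lit 286)) (XT.lf (nat_lit 0) (nat_lit 4130985236) (nat_lit 1900) (nat_lit 26007433752) (nat_lit 76) (nat_lit 11952008258) (nat_lit 450) (nat_lit 5) (nat_lit 475) (nat_lit 5) (nat_lit 451) (nat_lit 5) (nat_lit 650) (nat_lit 625) (nat_lit 285)))) (XT.nd (nat_lit 156) (nat_lit 912) (nat_lit 0) (XT.nd (nat_lit 78) (nat_lit 1064) (nat_lit 0) (XT.lf (nat_lit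 0) (nat_lit 7590140965) (nat_lit 1900) (nat_lit 3631587062) (nat_lit 76) (nat_lit 31323553917) (nat_lit 450) (nat_lit 5) (nat_lit 475) (nat_lit 5) (nat_lit 451) (nat_lit 5) (nat_lit 651) (nat_lit 625) (nat_lit 284)) (XT.lf (nat_lit 0) (nat_lit 11296953791) (nat_lit 1140) (nat_lit 23614079388) (nat_lit 76) (nat_lit 8094631166) (nat_lit 436) (nat_lit 5) (nat_lit 451) (nat_lit 5) (nat_lit 437) (nat_lit 5) (nat_lit 652) (nat_lit 625) (nat_lit 283))) (XT.nd (nat_lit 78) (nat_lit 912) (nat_lit 0) (XT.lf (nat_lit 0) (nat_lit 15175729544) (nat_lit 1140) (nat_lit 625721133) (nat_lit 76) (nat_lit 27671847271) (nat_lit 436) (nat_lit 5) (nat_lit 451) (nat_lit 5) (nat_lit 437) (nat_lit 5) (nat_lit 653) (nat_lit 625) (nat_lit 282)) (XT.lf (nat_lit 0) (nat_lit 19306176557) (nat_lit 988) (nat_lit 20847472545) (nat_lit 76) (nat_lit 3793153292) (nat_lit 424) (nat_lit 5) (nat_lit 437) (nat_lit 5) (nat_lit 425) (nat_lit 5) (nat_lit 654) (nat_lit 625) (nat_lit 281)))))) (XT.nd (nat_lit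 79326) (nat_lit 0) (nat_lit 4028) (XT.nd (nat_lit 79014) (nat_lit 0) (nat_lit 3876) (XT.nd (nat_lit 78) (nat_lit 0) (nat_lit 0) (XT.lf (nat_lit 0) (nat_lit 2808916479) (nat_lit 912) (nat_lit 20836439165) (nat_lit 988) (nat_lit 20781898905) (nat_lit 412) (nat_lit 5) (nat_lit 424) (nat_lit 5) (nat_lit 425) (nat_lit 5) (nat_lit 655) (nat_lit 625) (nat_lit 280)) (XT.nd (nat_lit 78858) (nat_lit 0) (nat_lit 3876) (XT.lf (nat_lit 0) (nat_lit 27220111811) (nat_lit 912) (nat_lit 990131111) (nat_lit 988) (nat_lit 16704294416) (nat_lit 412) (nat_lit 5) (nat_lit 424) (nat_lit 5) (nat_lit 425) (nat_lit 5) (nat_lit 656) (nat_lit 625) (nat_lit 279)) (XT.lf (nat_lit 0) (nat_lit 1211445043) (nat_lit 1900) (nat_lit 7690286645) (nat_lit 1900) (nat_lit 7690286645) (nat_lit 463) (nat_lit 3) (nat_lit 488) (nat_lit 3) (nat_lit 488) (nat_lit 5) (nat_lit 626) (nat_lit 626) (nat_lit 308)))) (XT.nd (nat_lit 156) (nat_lit 0) (nat_lit 76) (XT.nd (nat_lit 78) (nat_lit 0) (nat_lit 76) (XT.lf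 (nat_lit 76) (nat_lit 1024812584) (nat_lit 0) (nat_lit 1488768239) (nat_lit 1900) (nat_lit 31000961523) (nat_lit 464) (nat_lit 5) (nat_lit 463) (nat_lit 3) (nat_lit 488) (nat_lit 5) (nat_lit 627) (nat_lit 626) (nat_lit 307)) (XT.lf (nat_lit 0) (nat_lit 2806789810) (nat_lit 1824) (nat_lit 15982709163) (nat_lit 1900) (nat_lit 15058145219) (nat_lit 464) (nat_lit 5) (nat_lit 488) (nat_lit 5) (nat_lit 489) (nat_lit 5) (nat_lit 628) (nat_lit 626) (nat_lit 306))) (XT.nd (nat_lit 78) (nat_lit 0) (nat_lit 76) (XT.lf (nat_lit 76) (nat_lit 854974852) (nat_lit 0) (nat_lit 2264760250) (nat_lit 1900) (nat_lit 31067395671) (nat_lit 465) (nat_lit 5) (nat_lit 464) (nat_lit 5) (nat_lit 489) (nat_lit 5) (nat_lit 629) (nat_lit 626) (nat_lit 305)) (XT.lf (nat_lit 0) (nat_lit 3640123947) (nat_lit 1824) (nat_lit 16381501133) (nat_lit 1900) (nat_lit 14507758450) (nat_lit 465) (nat_lit 5) (nat_lit 489) (nat_lit 5) (nat_lit 490) (nat_lit 5) (nat_lit 630) (nat_lit 626) (nat_lit 304)))))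 (XT.nd (nat_lit 234) (nat_lit 0) (nat_lit 152) (XT.nd (nat_lit 78) (nat_lit 0) (nat_lit 76) (XT.lf (nat_lit 76) (nat_lit 904183571) (nat_lit 0) (nat_lit 3286126501) (nat_lit 1900) (nat_lit 30687783614) (nat_lit 466) (nat_lit 5) (nat_lit 465) (nat_lit 5) (nat_lit 490) (nat_lit 5) (nat_lit 631) (nat_lit 626) (nat_lit 303)) (XT.nd (nat_lit 78) (nat_lit 0) (nat_lit 0) (XT.lf (nat_lit 0) (nat_lit 4950199940) (nat_lit 1824) (nat_lit 16565036365) (nat_lit 1900) (nat_lit 13714567872) (nat_lit 466) (nat_lit 5) (nat_lit 490) (nat_lit 5) (nat_lit 491) (nat_lit 5) (nat_lit 632) (nat_lit 626) (nat_lit 302)) (XT.lf (nat_lit 76) (nat_lit 1184939189) (nat_lit 0) (nat_lit 4568380839) (nat_lit 1900) (nat_lit 29834668332) (nat_lit 467) (nat_lit 5) (nat_lit 466) (nat_lit 5) (nat_lit 491) (nat_lit 5) (nat_lit 633) (nat_lit 626) (nat_lit 301)))) (XT.nd (nat_lit 156) (nat_lit 0) (nat_lit 76) (XT.nd (nat_lit 78) (nat_lit 0) (nat_lit 0) (XT.lf (nat_lit 0) (nat_lit 6765571239) (nat_lit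 1824) (nat_lit 16520841425) (nat_lit 1900) (nat_lit 12663062315) (nat_lit 467) (nat_lit 5) (nat_lit 491) (nat_lit 5) (nat_lit 492) (nat_lit 5) (nat_lit 634) (nat_lit 626) (nat_lit 300)) (XT.lf (nat_lit 76) (nat_lit 1710324720) (nat_lit 0) (nat_lit 6127731470) (nat_lit 1900) (nat_lit 28479335490) (nat_lit 468) (nat_lit 5) (nat_lit 467) (nat_lit 5) (nat_lit 492) (nat_lit 5) (nat_lit 635) (nat_lit 626) (nat_lit 299))) (XT.nd (nat_lit 78) (nat_lit 0) (nat_lit 0) (XT.lf (nat_lit 0) (nat_lit 9116091397) (nat_lit 1824) (nat_lit 16235860858) (nat_lit 1900) (nat_lit 11337032570) (nat_lit 468) (nat_lit 5) (nat_lit 492) (nat_lit 5) (nat_lit 493) (nat_lit 5) (nat_lit 636) (nat_lit 626) (nat_lit 298)) (XT.lf (nat_lit 76) (nat_lit 2494027980) (nat_lit 0) (nat_lit 7981114065) (nat_lit 1900) (nat_lit 26591758815) (nat_lit 469) (nat_lit 5) (nat_lit 468) (nat_lit 5) (nat_lit 493) (nat_lit 5) (nat_lit 637) (nat_lit 626) (nat_lit 297))))))) (XT.nd (nat_lit 1014) (nat_lit 1900) (nat_lit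 0) (XT.nd (nat_lit 468) (nat_lit 1520) (nat_lit 0) (XT.nd (nat_lit 234) (nat_lit 0) (nat_lit 76) (XT.nd (nat_lit 78) (nat_lit 0) (nat_lit 0) (XT.lf (nat_lit 0) (nat_lit 12032970311) (nat_lit 1824) (nat_lit 15696434937) (nat_lit 1900) (nat_lit 9719538151) (nat_lit 469) (nat_lit 5) (nat_lit 493) (nat_lit 5) (nat_lit 494) (nat_lit 5) (nat_lit 638) (nat_lit 626) (nat_lit 296)) (XT.nd (nat_lit 78) (nat_lit 0) (nat_lit 76) (XT.lf (nat_lit 76) (nat_lit 3550364689) (nat_lit 0) (nat_lit 10146226174) (nat_lit 1900) (nat_lit 24140543328) (nat_lit 470) (nat_lit 5) (nat_lit 469) (nat_lit 5) (nat_lit 494) (nat_lit 5) (nat_lit 639) (nat_lit 626) (nat_lit 295)) (XT.lf (nat_lit 0) (nat_lit 15548832672) (nat_lit 1824) (nat_lit 14888276523) (nat_lit 1900) (nat_lit 7792872739) (nat_lit 470) (nat_lit 5) (nat_lit 494) (nat_lit 5) (nat_lit 495) (nat_lit 5) (nat_lit 640) (nat_lit 626) (nat_lit 294)))) (XT.nd (nat_lit 78) (nat_lit 0) (nat_lit 76) (XT.lf (nat_lit 76) (nat_lit 4894302479)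 (nat_lit 0) (nat_lit 12641563017) (nat_lit 1900) (nat_lit 21092866322) (nat_lit 471) (nat_lit 5) (nat_lit 470) (nat_lit 5) (nat_lit 495) (nat_lit 5) (nat_lit 641) (nat_lit 626) (nat_lit 293)) (XT.nd (nat_lit 78) (nat_lit 0) (nat_lit 0) (XT.lf (nat_lit 0) (nat_lit 19697778738) (nat_lit 1824) (nat_lit 13796447042) (nat_lit 1900) (nat_lit 5538528234) (nat_lit 471) (nat_lit 5) (nat_lit 495) (nat_lit 5) (nat_lit 496) (nat_lit 5) (nat_lit 642) (nat_lit 626) (nat_lit 292)) (XT.lf (nat_lit 76) (nat_lit 6541485822) (nat_lit 0) (nat_lit 15486454713) (nat_lit 1900) (nat_lit 17414416018) (nat_lit 472) (nat_lit 5) (nat_lit 471) (nat_lit 5) (nat_lit 496) (nat_lit 5) (nat_lit 643) (nat_lit 626) (nat_lit 291))))) (XT.nd (nat_lit 234) (nat_lit 1748) (nat_lit 0) (XT.nd (nat_lit 78) (nat_lit 0) (nat_lit 0) (XT.lf (nat_lit 0) (nat_lit 24515447509) (nat_lit 1824) (nat_lit 12405331542) (nat_lit 1900) (nat_lit 2937157359) (nat_lit 472) (nat_lit 5) (nat_lit 496) (nat_lit 5) (nat_lit 497)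 (nat_lit 5) (nat_lit 644) (nat_lit 626) (nat_lit 290)) (XT.nd (nat_lit 78) (nat_lit 0) (nat_lit 0) (XT.lf (nat_lit 76) (nat_lit 8508261914) (nat_lit 0) (nat_lit 18701105025) (nat_lit 1900) (nat_lit 13069327780) (nat_lit 473) (nat_lit 5) (nat_lit 472) (nat_lit 5) (nat_lit 497) (nat_lit 5) (nat_lit 645) (nat_lit 626) (nat_lit 289)) (XT.lf (nat_lit 76) (nat_lit 30007405994) (nat_lit 0) (nat_lit 31883417) (nat_lit 1900) (nat_lit 10666936389) (nat_lit 473) (nat_lit 5) (nat_lit 472) (nat_lit 5) (nat_lit 497) (nat_lit 5) (nat_lit 646) (nat_lit 626) (nat_lit 288)))) (XT.nd (nat_lit 156) (nat_lit 1824) (nat_lit 0) (XT.nd (nat_lit 78) (nat_lit 0) (nat_lit 0) (XT.lf (nat_lit 76) (nat_lit 10811707531) (nat_lit 0) (nat_lit 22306631688) (nat_lit 1900) (nat_lit 8020117806) (nat_lit 474) (nat_lit 5) (nat_lit 473) (nat_lit 5) (nat_lit 498) (nat_lit 5) (nat_lit 647) (nat_lit 626) (nat_lit 287)) (XT.lf (nat_lit 76) (nat_lit 32896377417) (nat_lit 0) (nat_lit 3433514786) (nat_lit 1900)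 (nat_lit 5248022322) (nat_lit 474) (nat_lit 5) (nat_lit 473) (nat_lit 5) (nat_lit 498) (nat_lit 5) (nat_lit 648) (nat_lit 626) (nat_lit 286))) (XT.nd (nat_lit 78) (nat_lit 1900) (nat_lit 0) (XT.lf (nat_lit 76) (nat_lit 13469656894) (nat_lit 0) (nat_lit 26325108399) (nat_lit 1900) (nat_lit 2227614198) (nat_lit 475) (nat_lit 5) (nat_lit 474) (nat_lit 5) (nat_lit 499) (nat_lit 5) (nat_lit 649) (nat_lit 626) (nat_lit 285)) (XT.lf (nat_lit 0) (nat_lit 922342480) (nat_lit 1900) (nat_lit 6322570153) (nat_lit 1976) (nat_lit 35229103816) (nat_lit 449) (nat_lit 5) (nat_lit 474) (nat_lit 5) (nat_lit 475) (nat_lit 5) (nat_lit 650) (nat_lit 626) (nat_lit 284)))))) (XT.nd (nat_lit 79482) (nat_lit 0) (nat_lit 3040) (XT.nd (nat_lit 234) (nat_lit 912) (nat_lit 0) (XT.nd (nat_lit 78) (nat_lit 1064) (nat_lit 0) (XT.lf (nat_lit 0) (nat_lit 4292075294) (nat_lit 1900) (nat_lit 26458731162) (nat_lit 76) (nat_lit 12179853193) (nat_lit 450) (nat_lit 5) (nat_lit 475) (nat_lit 5) (nat_lit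 451) (nat_lit 5) (nat_lit 651) (nat_lit 626) (nat_lit 283)) (XT.nd (nat_lit 78) (nat_lit 1064) (nat_lit 0) (XT.lf (nat_lit 0) (nat_lit 7818875504) (nat_lit 1900) (nat_lit 3636717563) (nat_lit 76) (nat_lit 31939049279) (nat_lit 450) (nat_lit 5) (nat_lit 475) (nat_lit 5) (nat_lit 451) (nat_lit 5) (nat_lit 652) (nat_lit 626) (nat_lit 282)) (XT.lf (nat_lit 0) (nat_lit 11598694356) (nat_lit 1140) (nat_lit 24017723031) (nat_lit 76) (nat_lit 8247837742) (nat_lit 436) (nat_lit 5) (nat_lit 451) (nat_lit 5) (nat_lit 437) (nat_lit 5) (nat_lit 653) (nat_lit 626) (nat_lit 281)))) (XT.nd (nat_lit 79092) (nat_lit 0) (nat_lit 2964) (XT.nd (nat_lit 78) (nat_lit 912) (nat_lit 0) (XT.lf (nat_lit 0) (nat_lit 15553559320) (nat_lit 1140) (nat_lit 570943453) (nat_lit 76) (nat_lit 28216768484) (nat_lit 436) (nat_lit 5) (nat_lit 451) (nat_lit 5) (nat_lit 437) (nat_lit 5) (nat_lit 654) (nat_lit 626) (nat_lit 280)) (XT.lf (nat_lit 0) (nat_lit 19765550313) (nat_lit 988) (nat_lit 21196058711)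 (nat_lit 76) (nat_lit 3862658191) (nat_lit 424) (nat_lit 5) (nat_lit 437) (nat_lit 5) (nat_lit 425) (nat_lit 5) (nat_lit 655) (nat_lit 626) (nat_lit 279))) (XT.nd (nat_lit 78) (nat_lit 0) (nat_lit 0) (XT.lf (nat_lit 0) (nat_lit 1295093703) (nat_lit 1900) (nat_lit 7813785593) (nat_lit 1900) (nat_lit 7813785593) (nat_lit 463) (nat_lit 3) (nat_lit 488) (nat_lit 3) (nat_lit 488) (nat_lit 5) (nat_lit 627) (nat_lit 627) (nat_lit 306)) (XT.lf (nat_lit 76) (nat_lit 1105523633) (nat_lit 0) (nat_lit 1575229092) (nat_lit 1900) (nat_lit 31501731843) (nat_lit 464) (nat_lit 5) (nat_lit 463) (nat_lit 3) (nat_lit 488) (nat_lit 5) (nat_lit 628) (nat_lit 627) (nat_lit 305))))) (XT.nd (nat_lit 234) (nat_lit 0) (nat_lit 76) (XT.nd (nat_lit 78) (nat_lit 0) (nat_lit 0) (XT.lf (nat_lit 0) (nat_lit 2977172905) (nat_lit 1824) (nat_lit 16240665835) (nat_lit 1900) (nat_lit 15304462979) (nat_lit 464) (nat_lit 5) (nat_lit 488) (nat_lit 5) (nat_lit 489) (nat_lit 5) (nat_lit 629) (nat_lit 627)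 (nat_lit 304)) (XT.nd (nat_lit 78) (nat_lit 0) (nat_lit 76) (XT.lf (nat_lit 76) (nat_lit 933365957) (nat_lit 0) (nat_lit 2361168949) (nat_lit 1900) (nat_lit 31574080173) (nat_lit 465) (nat_lit 5) (nat_lit 464) (nat_lit 5) (nat_lit 489) (nat_lit 5) (nat_lit 630) (nat_lit 627) (nat_lit 303)) (XT.lf (nat_lit 0) (nat_lit 3822802150) (nat_lit 1824) (nat_lit 16646501960) (nat_lit 1900) (nat_lit 14748459569) (nat_lit 465) (nat_lit 5) (nat_lit 489) (nat_lit 5) (nat_lit 490) (nat_lit 5) (nat_lit 631) (nat_lit 627) (nat_lit 302)))) (XT.nd (nat_lit 156) (nat_lit 0) (nat_lit 76) (XT.nd (nat_lit 78) (nat_lit 0) (nat_lit 76) (XT.lf (nat_lit 76) (nat_lit 984484405) (nat_lit 0) (nat_lit 3397757123) (nat_lit 1900) (nat_lit 31191241716) (nat_lit 466) (nat_lit 5) (nat_lit 465) (nat_lit 5) (nat_lit 490) (nat_lit 5) (nat_lit 632) (nat_lit 627) (nat_lit 301)) (XT.lf (nat_lit 0) (nat_lit 5154916869) (nat_lit 1824) (nat_lit 16832917931) (nat_lit 1900) (nat_lit 13944441584) (nat_lit 466)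 (nat_lit 5) (nat_lit 490) (nat_lit 5) (nat_lit 491) (nat_lit 5) (nat_lit 633) (nat_lit 627) (nat_lit 300))) (XT.nd (nat_lit 78) (nat_lit 0) (nat_lit 76) (XT.lf (nat_lit 76) (nat_lit 1271639903) (nat_lit 0) (nat_lit 4700795703) (nat_lit 1900) (nat_lit 30325222108) (nat_lit 467) (nat_lit 5) (nat_lit 466) (nat_lit 5) (nat_lit 491) (nat_lit 5) (nat_lit 634) (nat_lit 627) (nat_lit 299)) (XT.lf (nat_lit 0) (nat_lit 7002630381) (nat_lit 1824) (nat_lit 16787180949) (nat_lit 1900) (nat_lit 12876608949) (nat_lit 467) (nat_lit 5) (nat_lit 491) (nat_lit 5) (nat_lit 492) (nat_lit 5) (nat_lit 635) (nat_lit 627) (nat_lit 298))))))))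
noncomputable def xc251 : XT := (XT.nd (nat_lit 81120) (nat_lit 0) (nat_lit 0) (XT.nd (nat_lit 1014) (nat_lit 2356) (nat_lit 0) (XT.nd (nat_lit 468) (nat_lit 0) (nat_lit 228) (XT.nd (nat_lit 234) (nat_lit 0) (nat_lit 152) (XT.nd (nat_lit 78) (nat_lit 0) (nat_lit 76) (XT.lf (nat_lit 76) (nat_lit 1808186958) (nat_lit 0) (nat_lit 6286796315) (nat_lit 1900) (nat_lit 28946743858) (nat_lit 468) (nat_lit 5) (nat_lit 467) (nat_lit 5) (nat_lit 492) (nat_lit 5) (nat_lit 636) (nat_lit 627) (nat_lit 297)) (XT.nd (nat_lit 78) (nat_lit 0) (nat_lit 0) (XT.lf (nat_lit 0) (nat_lit 9396382745) (nat_lit 1824) (nat_lit 16495965159) (nat_lit 1900) (nat_lit 11528448341) (nat_lit 468) (nat_lit 5) (nat_lit 492) (nat_lit 5) (nat_lit 493) (nat_lit 5) (nat_lit 637) (nat_lit 627) (nat_lit 296)) (XT.lf (nat_lit 76) (nat_lit 2608096371) (nat_lit 0) (nat_lit 8173013813) (nat_lit 1900) (nat_lit 27025190674) (nat_lit 469) (nat_lit 5) (nat_lit 468) (nat_lit 5) (nat_lit 493) (nat_lit 5) (nat_lit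 638) (nat_lit 627) (nat_lit 295)))) (XT.nd (nat_lit 78) (nat_lit 0) (nat_lit 0) (XT.lf (nat_lit 0) (nat_lit 12367998082) (nat_lit 1824) (nat_lit 15945328914) (nat_lit 1900) (nat_lit 9882699363) (nat_lit 469) (nat_lit 5) (nat_lit 493) (nat_lit 5) (nat_lit 494) (nat_lit 5) (nat_lit 639) (nat_lit 627) (nat_lit 294)) (XT.nd (nat_lit 78) (nat_lit 0) (nat_lit 76) (XT.lf (nat_lit 76) (nat_lit 3685978845) (nat_lit 0) (nat_lit 10377481311) (nat_lit 1900) (nat_lit 24528549595) (nat_lit 470) (nat_lit 5) (nat_lit 469) (nat_lit 5) (nat_lit 494) (nat_lit 5) (nat_lit 640) (nat_lit 627) (nat_lit 293)) (XT.lf (nat_lit 0) (nat_lit 15950744163) (nat_lit 1824) (nat_lit 15120691144) (nat_lit 1900) (nat_lit 7921319359) (nat_lit 470) (nat_lit 5) (nat_lit 494) (nat_lit 5) (nat_lit 495) (nat_lit 5) (nat_lit 641) (nat_lit 627) (nat_lit 292))))) (XT.nd (nat_lit 234) (nat_lit 0) (nat_lit 152) (XT.nd (nat_lit 78) (nat_lit 0) (nat_lit 76) (XT.lf (nat_lit 76) (nat_lit 5057109497) (nat_lit 0)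 (nat_lit 12919046621) (nat_lit 1900) (nat_lit 21423350822) (nat_lit 471) (nat_lit 5) (nat_lit 470) (nat_lit 5) (nat_lit 495) (nat_lit 5) (nat_lit 642) (nat_lit 627) (nat_lit 291)) (XT.nd (nat_lit 78) (nat_lit 0) (nat_lit 0) (XT.lf (nat_lit 0) (nat_lit 20179394364) (nat_lit 1824) (nat_lit 14006806823) (nat_lit 1900) (nat_lit 5625446815) (nat_lit 471) (nat_lit 5) (nat_lit 495) (nat_lit 5) (nat_lit 496) (nat_lit 5) (nat_lit 643) (nat_lit 627) (nat_lit 290)) (XT.lf (nat_lit 76) (nat_lit 6737453322) (nat_lit 0) (nat_lit 15817410168) (nat_lit 1900) (nat_lit 17674605175) (nat_lit 472) (nat_lit 5) (nat_lit 471) (nat_lit 5) (nat_lit 496) (nat_lit 5) (nat_lit 644) (nat_lit 627) (nat_lit 289)))) (XT.nd (nat_lit 156) (nat_lit 0) (nat_lit 0) (XT.nd (nat_lit 78) (nat_lit 0) (nat_lit 0) (XT.lf (nat_lit 0) (nat_lit 25090292075) (nat_lit 1824) (nat_lit 12587741487) (nat_lit 1900) (nat_lit 2975363278) (nat_lit 472) (nat_lit 5) (nat_lit 496) (nat_lit 5) (nat_lit 497) (nat_lit 5)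 (nat_lit 645) (nat_lit 627) (nat_lit 288)) (XT.lf (nat_lit 76) (nat_lit 8743691623) (nat_lit 0) (nat_lit 19093164451) (nat_lit 1900) (nat_lit 13245739068) (nat_lit 473) (nat_lit 5) (nat_lit 472) (nat_lit 5) (nat_lit 497) (nat_lit 5) (nat_lit 646) (nat_lit 627) (nat_lit 287))) (XT.nd (nat_lit 78) (nat_lit 0) (nat_lit 76) (XT.lf (nat_lit 76) (nat_lit 30671538888) (nat_lit 0) (nat_lit 50204738) (nat_lit 1900) (nat_lit 10796966032) (nat_lit 473) (nat_lit 5) (nat_lit 472) (nat_lit 5) (nat_lit 497) (nat_lit 5) (nat_lit 647) (nat_lit 627) (nat_lit 286)) (XT.lf (nat_lit 76) (nat_lit 11093249427) (nat_lit 0) (nat_lit 22767835120) (nat_lit 1900) (nat_lit 8098526901) (nat_lit 474) (nat_lit 5) (nat_lit 473) (nat_lit 5) (nat_lit 498) (nat_lit 5) (nat_lit 648) (nat_lit 627) (nat_lit 285)))))) (XT.nd (nat_lit 79560) (nat_lit 0) (nat_lit 2052) (XT.nd (nat_lit 234) (nat_lit 988) (nat_lit 0) (XT.nd (nat_lit 78) (nat_lit 1824) (nat_lit 0) (XT.lf (nat_lit 76) (nat_lit 33618332167)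 (nat_lit 0) (nat_lit 3516960374) (nat_lit 1900) (nat_lit 5272597218) (nat_lit 474) (nat_lit 5) (nat_lit 473) (nat_lit 5) (nat_lit 498) (nat_lit 5) (nat_lit 649) (nat_lit 627) (nat_lit 284)) (XT.nd (nat_lit 78) (nat_lit 1900) (nat_lit 0) (XT.lf (nat_lit 76) (nat_lit 13804323944) (nat_lit 0) (nat_lit 26863923753) (nat_lit 1900) (nat_lit 2193020772) (nat_lit 475) (nat_lit 5) (nat_lit 474) (nat_lit 5) (nat_lit 499) (nat_lit 5) (nat_lit 650) (nat_lit 627) (nat_lit 283)) (XT.lf (nat_lit 0) (nat_lit 1017365506) (nat_lit 1900) (nat_lit 6384003265) (nat_lit 1976) (nat_lit 35920589881) (nat_lit 449) (nat_lit 5) (nat_lit 474) (nat_lit 5) (nat_lit 475) (nat_lit 5) (nat_lit 651) (nat_lit 627) (nat_lit 282)))) (XT.nd (nat_lit 156) (nat_lit 1064) (nat_lit 0) (XT.nd (nat_lit 78) (nat_lit 0) (nat_lit 0) (XT.lf (nat_lit 0) (nat_lit 4453340055) (nat_lit 1900) (nat_lit 26921728099) (nat_lit 76) (nat_lit 12412689750) (nat_lit 450) (nat_lit 5) (nat_lit 475) (nat_lit 5) (nat_lit 451)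 (nat_lit 5) (nat_lit 652) (nat_lit 627) (nat_lit 281)) (XT.lf (nat_lit 0) (nat_lit 8049197381) (nat_lit 1900) (nat_lit 3644571829) (nat_lit 76) (nat_lit 32567280748) (nat_lit 450) (nat_lit 5) (nat_lit 475) (nat_lit 5) (nat_lit 451) (nat_lit 5) (nat_lit 653) (nat_lit 627) (nat_lit 280))) (XT.nd (nat_lit 78) (nat_lit 0) (nat_lit 0) (XT.lf (nat_lit 0) (nat_lit 11903526268) (nat_lit 1140) (nat_lit 24432104842) (nat_lit 76) (nat_lit 8404445739) (nat_lit 436) (nat_lit 5) (nat_lit 451) (nat_lit 5) (nat_lit 437) (nat_lit 5) (nat_lit 654) (nat_lit 627) (nat_lit 279)) (XT.lf (nat_lit 0) (nat_lit 15936059943) (nat_lit 1140) (nat_lit 517683254) (nat_lit 76) (nat_lit 28772918797) (nat_lit 436) (nat_lit 5) (nat_lit 451) (nat_lit 5) (nat_lit 437) (nat_lit 5) (nat_lit 655) (nat_lit 627) (nat_lit 278))))) (XT.nd (nat_lit 234) (nat_lit 0) (nat_lit 76) (XT.nd (nat_lit 78) (nat_lit 0) (nat_lit 0) (XT.lf (nat_lit 0) (nat_lit 1378107994) (nat_lit 1900) (nat_lit 7940931369) (nat_lit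 1900) (nat_lit 7940931369) (nat_lit 463) (nat_lit 3) (nat_lit 488) (nat_lit 3) (nat_lit 488) (nat_lit 5) (nat_lit 628) (nat_lit 628) (nat_lit 304)) (XT.nd (nat_lit 78) (nat_lit 0) (nat_lit 76) (XT.lf (nat_lit 76) (nat_lit 1185510688) (nat_lit 0) (nat_lit 1661217995) (nat_lit 1900) (nat_lit 32017148150) (nat_lit 464) (nat_lit 5) (nat_lit 463) (nat_lit 3) (nat_lit 488) (nat_lit 5) (nat_lit 629) (nat_lit 628) (nat_lit 303)) (XT.lf (nat_lit 0) (nat_lit 3146527300) (nat_lit 1824) (nat_lit 16506177429) (nat_lit 1900) (nat_lit 15557836797) (nat_lit 464) (nat_lit 5) (nat_lit 488) (nat_lit 5) (nat_lit 489) (nat_lit 5) (nat_lit 630) (nat_lit 628) (nat_lit 302)))) (XT.nd (nat_lit 156) (nat_lit 0) (nat_lit 76) (XT.nd (nat_lit 78) (nat_lit 0) (nat_lit 76) (XT.lf (nat_lit 76) (nat_lit 1010944856) (nat_lit 0) (nat_lit 2457521023) (nat_lit 1900) (nat_lit 32095350885) (nat_lit 465) (nat_lit 5) (nat_lit 464) (nat_lit 5) (nat_lit 489) (nat_lit 5) (nat_lit 631) (nat_lit 628) (nat_lit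 301)) (XT.lf (nat_lit 0) (nat_lit 4004867309) (nat_lit 1824) (nat_lit 16919234770) (nat_lit 1900) (nat_lit 14995895071) (nat_lit 465) (nat_lit 5) (nat_lit 489) (nat_lit 5) (nat_lit 490) (nat_lit 5) (nat_lit 632) (nat_lit 628) (nat_lit 300))) (XT.nd (nat_lit 78) (nat_lit 0) (nat_lit 76) (XT.lf (nat_lit 76) (nat_lit 1063975287) (nat_lit 0) (nat_lit 3509837690) (nat_lit 1900) (nat_lit 31709051969) (nat_lit 466) (nat_lit 5) (nat_lit 465) (nat_lit 5) (nat_lit 490) (nat_lit 5) (nat_lit 633) (nat_lit 628) (nat_lit 299)) (XT.lf (nat_lit 0) (nat_lit 5359623173) (nat_lit 1824) (nat_lit 17108619772) (nat_lit 1900) (nat_lit 14180637561) (nat_lit 466) (nat_lit 5) (nat_lit 490) (nat_lit 5) (nat_lit 491) (nat_lit 5) (nat_lit 634) (nat_lit 628) (nat_lit 298))))))) (XT.nd (nat_lit 1092) (nat_lit 2280) (nat_lit 0) (XT.nd (nat_lit 546) (nat_lit 0) (nat_lit 304) (XT.nd (nat_lit 234) (nat_lit 0) (nat_lit 152) (XT.nd (nat_lit 78) (nat_lit 0) (nat_lit 76) (XT.lf (nat_lit 76) (nat_lit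 1357628189) (nat_lit 0) (nat_lit 4834264949) (nat_lit 1900) (nat_lit 30829708488) (nat_lit 467) (nat_lit 5) (nat_lit 466) (nat_lit 5) (nat_lit 491) (nat_lit 5) (nat_lit 635) (nat_lit 628) (nat_lit 297)) (XT.nd (nat_lit 78) (nat_lit 0) (nat_lit 0) (XT.lf (nat_lit 0) (nat_lit 7240479717) (nat_lit 1824) (nat_lit 17061335464) (nat_lit 1900) (nat_lit 13095968682) (nat_lit 467) (nat_lit 5) (nat_lit 491) (nat_lit 5) (nat_lit 492) (nat_lit 5) (nat_lit 636) (nat_lit 628) (nat_lit 296)) (XT.lf (nat_lit 76) (nat_lit 1905534610) (nat_lit 0) (nat_lit 6447624721) (nat_lit 1900) (nat_lit 29427468102) (nat_lit 468) (nat_lit 5) (nat_lit 467) (nat_lit 5) (nat_lit 492) (nat_lit 5) (nat_lit 637) (nat_lit 628) (nat_lit 295)))) (XT.nd (nat_lit 156) (nat_lit 0) (nat_lit 76) (XT.nd (nat_lit 78) (nat_lit 0) (nat_lit 0) (XT.lf (nat_lit 0) (nat_lit 9678475644) (nat_lit 1824) (nat_lit 16763780544) (nat_lit 1900) (nat_lit 11725064136) (nat_lit 468) (nat_lit 5) (nat_lit 492) (nat_lit 5) (nat_lit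 493) (nat_lit 5) (nat_lit 638) (nat_lit 628) (nat_lit 294)) (XT.lf (nat_lit 76) (nat_lit 2721953639) (nat_lit 0) (nat_lit 8367498183) (nat_lit 1900) (nat_lit 27471112291) (nat_lit 469) (nat_lit 5) (nat_lit 468) (nat_lit 5) (nat_lit 493) (nat_lit 5) (nat_lit 639) (nat_lit 628) (nat_lit 293))) (XT.nd (nat_lit 78) (nat_lit 0) (nat_lit 0) (XT.lf (nat_lit 0) (nat_lit 12706061970) (nat_lit 1824) (nat_lit 16201726147) (nat_lit 1900) (nat_lit 10050336480) (nat_lit 469) (nat_lit 5) (nat_lit 493) (nat_lit 5) (nat_lit 494) (nat_lit 5) (nat_lit 640) (nat_lit 628) (nat_lit 292)) (XT.lf (nat_lit 76) (nat_lit 3821796521) (nat_lit 0) (nat_lit 10612261438) (nat_lit 1900) (nat_lit 24927997366) (nat_lit 470) (nat_lit 5) (nat_lit 469) (nat_lit 5) (nat_lit 494) (nat_lit 5) (nat_lit 641) (nat_lit 628) (nat_lit 291))))) (XT.nd (nat_lit 234) (nat_lit 0) (nat_lit 76) (XT.nd (nat_lit 78) (nat_lit 0) (nat_lit 0) (XT.lf (nat_lit 0) (nat_lit 16357162773) (nat_lit 1824) (nat_lit 15360291714)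 (nat_lit 1900) (nat_lit 8053399307) (nat_lit 470) (nat_lit 5) (nat_lit 494) (nat_lit 5) (nat_lit 495) (nat_lit 5) (nat_lit 642) (nat_lit 628) (nat_lit 290)) (XT.nd (nat_lit 78) (nat_lit 0) (nat_lit 76) (XT.lf (nat_lit 76) (nat_lit 5220651695) (nat_lit 0) (nat_lit 13201122615) (nat_lit 1900) (nat_lit 21763993130) (nat_lit 471) (nat_lit 5) (nat_lit 470) (nat_lit 5) (nat_lit 495) (nat_lit 5) (nat_lit 643) (nat_lit 628) (nat_lit 289)) (XT.lf (nat_lit 0) (nat_lit 20667238356) (nat_lit 1824) (nat_lit 14223919929) (nat_lit 1900) (nat_lit 5715029970) (nat_lit 471) (nat_lit 5) (nat_lit 495) (nat_lit 5) (nat_lit 496) (nat_lit 5) (nat_lit 644) (nat_lit 628) (nat_lit 288)))) (XT.nd (nat_lit 156) (nat_lit 0) (nat_lit 76) (XT.nd (nat_lit 78) (nat_lit 0) (nat_lit 76) (XT.lf (nat_lit 76) (nat_lit 6934810793) (nat_lit 0) (nat_lit 16154160486) (nat_lit 1900) (nat_lit 17943419113) (nat_lit 472) (nat_lit 5) (nat_lit 471) (nat_lit 5) (nat_lit 496) (nat_lit 5) (nat_lit 645) (nat_lit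 628) (nat_lit 287)) (XT.lf (nat_lit 0) (nat_lit 25673350912) (nat_lit 1824) (nat_lit 12776350715) (nat_lit 1900) (nat_lit 3015130801) (nat_lit 472) (nat_lit 5) (nat_lit 496) (nat_lit 5) (nat_lit 497) (nat_lit 5) (nat_lit 646) (nat_lit 628) (nat_lit 286))) (XT.nd (nat_lit 78) (nat_lit 0) (nat_lit 0) (XT.lf (nat_lit 76) (nat_lit 8981295626) (nat_lit 0) (nat_lit 19492364654) (nat_lit 1900) (nat_lit 13428978275) (nat_lit 473) (nat_lit 5) (nat_lit 472) (nat_lit 5) (nat_lit 497) (nat_lit 5) (nat_lit 647) (nat_lit 628) (nat_lit 285)) (XT.lf (nat_lit 76) (nat_lit 31346469834) (nat_lit 0) (nat_lit 68205807) (nat_lit 1900) (nat_lit 10932831260) (nat_lit 473) (nat_lit 5) (nat_lit 472) (nat_lit 5) (nat_lit 497) (nat_lit 5) (nat_lit 648) (nat_lit 628) (nat_lit 284)))))) (XT.nd (nat_lit 79638) (nat_lit 0) (nat_lit 2052) (XT.nd (nat_lit 234) (nat_lit 2812) (nat_lit 0) (XT.nd (nat_lit 78) (nat_lit 0) (nat_lit 0) (XT.lf (nat_lit 76) (nat_lit 11377886182) (nat_lit 0) (nat_lit 23237677403)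 (nat_lit 1900) (nat_lit 8181688075) (nat_lit 474) (nat_lit 5) (nat_lit 473) (nat_lit 5) (nat_lit 498) (nat_lit 5) (nat_lit 649) (nat_lit 628) (nat_lit 283)) (XT.nd (nat_lit 78) (nat_lit 0) (nat_lit 76) (XT.lf (nat_lit 76) (nat_lit 34352239758) (nat_lit 0) (nat_lit 3601501131) (nat_lit 1900) (nat_lit 5300785081) (nat_lit 474) (nat_lit 5) (nat_lit 473) (nat_lit 5) (nat_lit 498) (nat_lit 5) (nat_lit 650) (nat_lit 628) (nat_lit 282)) (XT.lf (nat_lit 76) (nat_lit 14143149669) (nat_lit 0) (nat_lit 27413037279) (nat_lit 1900) (nat_lit 2160808802) (nat_lit 475) (nat_lit 5) (nat_lit 474) (nat_lit 5) (nat_lit 499) (nat_lit 5) (nat_lit 651) (nat_lit 628) (nat_lit 281)))) (XT.nd (nat_lit 156) (nat_lit 988) (nat_lit 0) (XT.nd (nat_lit 78) (nat_lit 0) (nat_lit 76) (XT.lf (nat_lit 0) (nat_lit 1111315446) (nat_lit 1900) (nat_lit 6449189778) (nat_lit 1976) (nat_lit 36626414201) (nat_lit 449) (nat_lit 5) (nat_lit 474) (nat_lit 5) (nat_lit 475) (nat_lit 5) (nat_lit 652) (nat_lit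 628) (nat_lit 280)) (XT.lf (nat_lit 0) (nat_lit 4614901333) (nat_lit 1900) (nat_lit 27396554734) (nat_lit 76) (nat_lit 12650600882) (nat_lit 450) (nat_lit 5) (nat_lit 475) (nat_lit 5) (nat_lit 451) (nat_lit 5) (nat_lit 653) (nat_lit 628) (nat_lit 279))) (XT.nd (nat_lit 78) (nat_lit 1064) (nat_lit 0) (XT.lf (nat_lit 0) (nat_lit 8281254346) (nat_lit 1900) (nat_lit 3655102554) (nat_lit 76) (nat_lit 33208486498) (nat_lit 450) (nat_lit 5) (nat_lit 475) (nat_lit 5) (nat_lit 451) (nat_lit 5) (nat_lit 654) (nat_lit 628) (nat_lit 278)) (XT.lf (nat_lit 0) (nat_lit 12211625652) (nat_lit 1140) (nat_lit 24857336088) (nat_lit 76) (nat_lit 8564510088) (nat_lit 436) (nat_lit 5) (nat_lit 451) (nat_lit 5) (nat_lit 437) (nat_lit 5) (nat_lit 655) (nat_lit 628) (nat_lit 277))))) (XT.nd (nat_lit 234) (nat_lit 0) (nat_lit 76) (XT.nd (nat_lit 78) (nat_lit 0) (nat_lit 0) (XT.lf (nat_lit 0) (nat_lit 1460564826) (nat_lit 1900) (nat_lit 8071751212) (nat_lit 1900) (nat_lit 8071751212) (nat_lit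 463) (nat_lit 3) (nat_lit 488) (nat_lit 3) (nat_lit 488) (nat_lit 5) (nat_lit 629) (nat_lit 629) (nat_lit 302)) (XT.nd (nat_lit 78) (nat_lit 0) (nat_lit 76) (XT.lf (nat_lit 76) (nat_lit 1264850066) (nat_lit 0) (nat_lit 1746810984) (nat_lit 1900) (nat_lit 32547323552) (nat_lit 464) (nat_lit 5) (nat_lit 463) (nat_lit 3) (nat_lit 488) (nat_lit 5) (nat_lit 630) (nat_lit 629) (nat_lit 301)) (XT.lf (nat_lit 0) (nat_lit 3315004691) (nat_lit 1824) (nat_lit 16779302013) (nat_lit 1900) (nat_lit 15818325097) (nat_lit 464) (nat_lit 5) (nat_lit 488) (nat_lit 5) (nat_lit 489) (nat_lit 5) (nat_lit 631) (nat_lit 629) (nat_lit 300)))) (XT.nd (nat_lit 156) (nat_lit 0) (nat_lit 76) (XT.nd (nat_lit 78) (nat_lit 0) (nat_lit 76) (XT.lf (nat_lit 76) (nat_lit 1087787724) (nat_lit 0) (nat_lit 2553892411) (nat_lit 1900) (nat_lit 32631326634) (nat_lit 465) (nat_lit 5) (nat_lit 464) (nat_lit 5) (nat_lit 489) (nat_lit 5) (nat_lit 632) (nat_lit 629) (nat_lit 299)) (XT.lf (nat_lit 0) (nat_lit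 4186472841) (nat_lit 1824) (nat_lit 17199759769) (nat_lit 1900) (nat_lit 15250125074) (nat_lit 465) (nat_lit 5) (nat_lit 489) (nat_lit 5) (nat_lit 490) (nat_lit 5) (nat_lit 633) (nat_lit 629) (nat_lit 298))) (XT.nd (nat_lit 78) (nat_lit 0) (nat_lit 76) (XT.lf (nat_lit 76) (nat_lit 1142733833) (nat_lit 0) (nat_lit 3622446424) (nat_lit 1900) (nat_lit 32241335103) (nat_lit 466) (nat_lit 5) (nat_lit 465) (nat_lit 5) (nat_lit 490) (nat_lit 5) (nat_lit 634) (nat_lit 629) (nat_lit 297)) (XT.lf (nat_lit 0) (nat_lit 5564478043) (nat_lit 1824) (nat_lit 17392202665) (nat_lit 1900) (nat_lit 14423215274) (nat_lit 466) (nat_lit 5) (nat_lit 490) (nat_lit 5) (nat_lit 491) (nat_lit 5) (nat_lit 635) (nat_lit 629) (nat_lit 296))))))))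
noncomputable def xc252 : XT := (XT.nd (nat_lit 81354) (nat_lit 0) (nat_lit 0) (XT.nd (nat_lit 1014) (nat_lit 1292) (nat_lit 0) (XT.nd (nat_lit 468) (nat_lit 0) (nat_lit 228) (XT.nd (nat_lit 234) (nat_lit 0) (nat_lit 152) (XT.nd (nat_lit 78) (nat_lit 0) (nat_lit 76) (XT.lf (nat_lit 76) (nat_lit 1442984798) (nat_lit 0) (nat_lit 4968871560) (nat_lit 1900) (nat_lit 31348246082) (nat_lit 467) (nat_lit 5) (nat_lit 466) (nat_lit 5) (nat_lit 491) (nat_lit 5) (nat_lit 636) (nat_lit 629) (nat_lit 295)) (XT.nd (nat_lit 78) (nat_lit 0) (nat_lit 0) (XT.lf (nat_lit 0) (nat_lit 7479288474) (nat_lit 1824) (nat_lit 17343364649) (nat_lit 1900) (nat_lit 13321197892) (nat_lit 467) (nat_lit 5) (nat_lit 491) (nat_lit 5) (nat_lit 492) (nat_lit 5) (nat_lit 637) (nat_lit 629) (nat_lit 294)) (XT.lf (nat_lit 76) (nat_lit 2002453369) (nat_lit 0) (nat_lit 6610307012) (nat_lit 1900) (nat_lit 29921620470) (nat_lit 468) (nat_lit 5) (nat_lit 467) (nat_lit 5) (nat_lit 492) (nat_lit 5) (nat_lit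 638) (nat_lit 629) (nat_lit 293)))) (XT.nd (nat_lit 78) (nat_lit 0) (nat_lit 0) (XT.lf (nat_lit 0) (nat_lit 9962553850) (nat_lit 1824) (nat_lit 17039363807) (nat_lit 1900) (nat_lit 11926930690) (nat_lit 468) (nat_lit 5) (nat_lit 492) (nat_lit 5) (nat_lit 493) (nat_lit 5) (nat_lit 639) (nat_lit 629) (nat_lit 292)) (XT.nd (nat_lit 78) (nat_lit 0) (nat_lit 76) (XT.lf (nat_lit 76) (nat_lit 2835692346) (nat_lit 0) (nat_lit 8564667538) (nat_lit 1900) (nat_lit 27929625083) (nat_lit 469) (nat_lit 5) (nat_lit 468) (nat_lit 5) (nat_lit 493) (nat_lit 5) (nat_lit 640) (nat_lit 629) (nat_lit 291)) (XT.lf (nat_lit 0) (nat_lit 13047364992) (nat_lit 1824) (nat_lit 16465678640) (nat_lit 1900) (nat_lit 10222491932) (nat_lit 469) (nat_lit 5) (nat_lit 493) (nat_lit 5) (nat_lit 494) (nat_lit 5) (nat_lit 641) (nat_lit 629) (nat_lit 290))))) (XT.nd (nat_lit 234) (nat_lit 0) (nat_lit 152) (XT.nd (nat_lit 78) (nat_lit 0) (nat_lit 76) (XT.lf (nat_lit 76) (nat_lit 3957919205) (nat_lit 0)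 (nat_lit 10850679774) (nat_lit 1900) (nat_lit 25338972519) (nat_lit 470) (nat_lit 5) (nat_lit 469) (nat_lit 5) (nat_lit 494) (nat_lit 5) (nat_lit 642) (nat_lit 629) (nat_lit 289)) (XT.nd (nat_lit 78) (nat_lit 0) (nat_lit 0) (XT.lf (nat_lit 0) (nat_lit 16768315762) (nat_lit 1824) (nat_lit 15607123410) (nat_lit 1900) (nat_lit 8189143918) (nat_lit 470) (nat_lit 5) (nat_lit 494) (nat_lit 5) (nat_lit 495) (nat_lit 5) (nat_lit 643) (nat_lit 629) (nat_lit 288)) (XT.lf (nat_lit 76) (nat_lit 5385041669) (nat_lit 0) (nat_lit 13487920022) (nat_lit 1900) (nat_lit 22114858625) (nat_lit 471) (nat_lit 5) (nat_lit 470) (nat_lit 5) (nat_lit 495) (nat_lit 5) (nat_lit 644) (nat_lit 629) (nat_lit 287)))) (XT.nd (nat_lit 156) (nat_lit 0) (nat_lit 76) (XT.nd (nat_lit 78) (nat_lit 0) (nat_lit 0) (XT.lf (nat_lit 0) (nat_lit 21161567460) (nat_lit 1824) (nat_lit 14447822560) (nat_lit 1900) (nat_lit 5807295024) (nat_lit 471) (nat_lit 5) (nat_lit 495) (nat_lit 5) (nat_lit 496) (nat_lit 5)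 (nat_lit 645) (nat_lit 629) (nat_lit 286)) (XT.lf (nat_lit 76) (nat_lit 7133684253) (nat_lit 0) (nat_lit 16496853572) (nat_lit 1900) (nat_lit 18220897486) (nat_lit 472) (nat_lit 5) (nat_lit 471) (nat_lit 5) (nat_lit 496) (nat_lit 5) (nat_lit 646) (nat_lit 629) (nat_lit 285))) (XT.nd (nat_lit 78) (nat_lit 0) (nat_lit 0) (XT.lf (nat_lit 0) (nat_lit 26264915773) (nat_lit 1824) (nat_lit 12971184147) (nat_lit 1900) (nat_lit 3056460193) (nat_lit 472) (nat_lit 5) (nat_lit 496) (nat_lit 5) (nat_lit 497) (nat_lit 5) (nat_lit 647) (nat_lit 629) (nat_lit 284)) (XT.lf (nat_lit 76) (nat_lit 9221215821) (nat_lit 0) (nat_lit 19898875647) (nat_lit 1900) (nat_lit 13619053829) (nat_lit 473) (nat_lit 5) (nat_lit 472) (nat_lit 5) (nat_lit 497) (nat_lit 5) (nat_lit 648) (nat_lit 629) (nat_lit 283)))))) (XT.nd (nat_lit 79794) (nat_lit 0) (nat_lit 1064) (XT.nd (nat_lit 234) (nat_lit 1748) (nat_lit 0) (XT.nd (nat_lit 78) (nat_lit 0) (nat_lit 76) (XT.lf (nat_lit 76) (nat_lit 32032511272)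 (nat_lit 0) (nat_lit 85906885) (nat_lit 1900) (nat_lit 11074523168) (nat_lit 473) (nat_lit 5) (nat_lit 472) (nat_lit 5) (nat_lit 497) (nat_lit 5) (nat_lit 649) (nat_lit 629) (nat_lit 282)) (XT.nd (nat_lit 78) (nat_lit 0) (nat_lit 0) (XT.lf (nat_lit 76) (nat_lit 11665778167) (nat_lit 0) (nat_lit 23716354039) (nat_lit 1900) (nat_lit 8269572737) (nat_lit 474) (nat_lit 5) (nat_lit 473) (nat_lit 5) (nat_lit 498) (nat_lit 5) (nat_lit 650) (nat_lit 629) (nat_lit 281)) (XT.lf (nat_lit 76) (nat_lit 35098435790) (nat_lit 0) (nat_lit 3687181240) (nat_lit 1900) (nat_lit 5332536959) (nat_lit 474) (nat_lit 5) (nat_lit 473) (nat_lit 5) (nat_lit 498) (nat_lit 5) (nat_lit 651) (nat_lit 629) (nat_lit 280)))) (XT.nd (nat_lit 156) (nat_lit 0) (nat_lit 76) (XT.nd (nat_lit 78) (nat_lit 1900) (nat_lit 0) (XT.lf (nat_lit 76) (nat_lit 14486315667) (nat_lit 0) (nat_lit 27972673505) (nat_lit 1900) (nat_lit 2130906576) (nat_lit 475) (nat_lit 5) (nat_lit 474) (nat_lit 5) (nat_lit 499) (nat_lit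 5) (nat_lit 652) (nat_lit 629) (nat_lit 279)) (XT.lf (nat_lit 0) (nat_lit 1204286305) (nat_lit 1900) (nat_lit 6518106723) (nat_lit 1976) (nat_lit 37346843795) (nat_lit 449) (nat_lit 5) (nat_lit 474) (nat_lit 5) (nat_lit 475) (nat_lit 5) (nat_lit 653) (nat_lit 629) (nat_lit 278))) (XT.nd (nat_lit 79326) (nat_lit 0) (nat_lit 988) (XT.lf (nat_lit 0) (nat_lit 4776878789) (nat_lit 1900) (nat_lit 27883347876) (nat_lit 76) (nat_lit 12893671855) (nat_lit 450) (nat_lit 5) (nat_lit 475) (nat_lit 5) (nat_lit 451) (nat_lit 5) (nat_lit 654) (nat_lit 629) (nat_lit 277)) (XT.lf (nat_lit 0) (nat_lit 1542539168) (nat_lit 1900) (nat_lit 8206274678) (nat_lit 1900) (nat_lit 8206274678) (nat_lit 463) (nat_lit 3) (nat_lit 488) (nat_lit 3) (nat_lit 488) (nat_lit 5) (nat_lit 630) (nat_lit 630) (nat_lit 300))))) (XT.nd (nat_lit 234) (nat_lit 0) (nat_lit 152) (XT.nd (nat_lit 78) (nat_lit 0) (nat_lit 76) (XT.lf (nat_lit 76) (nat_lit 1343616084) (nat_lit 0) (nat_lit 1832082295) (nat_lit 1900)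 (nat_lit 33092380402) (nat_lit 464) (nat_lit 5) (nat_lit 463) (nat_lit 3) (nat_lit 488) (nat_lit 5) (nat_lit 631) (nat_lit 630) (nat_lit 299)) (XT.nd (nat_lit 78) (nat_lit 0) (nat_lit 0) (XT.lf (nat_lit 0) (nat_lit 3482753117) (nat_lit 1824) (nat_lit 17060102428) (nat_lit 1900) (nat_lit 16085990680) (nat_lit 464) (nat_lit 5) (nat_lit 488) (nat_lit 5) (nat_lit 489) (nat_lit 5) (nat_lit 632) (nat_lit 630) (nat_lit 298)) (XT.lf (nat_lit 76) (nat_lit 1163968672) (nat_lit 0) (nat_lit 2650357580) (nat_lit 1900) (nat_lit 33182135338) (nat_lit 465) (nat_lit 5) (nat_lit 464) (nat_lit 5) (nat_lit 489) (nat_lit 5) (nat_lit 633) (nat_lit 630) (nat_lit 297)))) (XT.nd (nat_lit 156) (nat_lit 0) (nat_lit 76) (XT.nd (nat_lit 78) (nat_lit 0) (nat_lit 0) (XT.lf (nat_lit 0) (nat_lit 4367768797) (nat_lit 1824) (nat_lit 17488142031) (nat_lit 1900) (nat_lit 15511213793) (nat_lit 465) (nat_lit 5) (nat_lit 489) (nat_lit 5) (nat_lit 490) (nat_lit 5) (nat_lit 634) (nat_lit 630) (nat_lit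 296)) (XT.lf (nat_lit 76) (nat_lit 1220835570) (nat_lit 0) (nat_lit 3735660424) (nat_lit 1900) (nat_lit 32788220719) (nat_lit 466) (nat_lit 5) (nat_lit 465) (nat_lit 5) (nat_lit 490) (nat_lit 5) (nat_lit 635) (nat_lit 630) (nat_lit 295))) (XT.nd (nat_lit 78) (nat_lit 0) (nat_lit 0) (XT.lf (nat_lit 0) (nat_lit 5769637660) (nat_lit 1824) (nat_lit 17683732318) (nat_lit 1900) (nat_lit 14672237981) (nat_lit 466) (nat_lit 5) (nat_lit 490) (nat_lit 5) (nat_lit 491) (nat_lit 5) (nat_lit 636) (nat_lit 630) (nat_lit 294)) (XT.lf (nat_lit 76) (nat_lit 1527788405) (nat_lit 0) (nat_lit 5104697772) (nat_lit 1900) (nat_lit 31880962085) (nat_lit 467) (nat_lit 5) (nat_lit 466) (nat_lit 5) (nat_lit 491) (nat_lit 5) (nat_lit 637) (nat_lit 630) (nat_lit 293))))))) (XT.nd (nat_lit 1014) (nat_lit 1368) (nat_lit 0) (XT.nd (nat_lit 468) (nat_lit 0) (nat_lit 228) (XT.nd (nat_lit 234) (nat_lit 0) (nat_lit 76) (XT.nd (nat_lit 78) (nat_lit 0) (nat_lit 0) (XT.lf (nat_lit 0) (nat_lit 7719223305)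 (nat_lit 1824) (nat_lit 17633333130) (nat_lit 1900) (nat_lit 13552356411) (nat_lit 467) (nat_lit 5) (nat_lit 491) (nat_lit 5) (nat_lit 492) (nat_lit 5) (nat_lit 638) (nat_lit 630) (nat_lit 292)) (XT.nd (nat_lit 78) (nat_lit 0) (nat_lit 76) (XT.lf (nat_lit 76) (nat_lit 2099026914) (nat_lit 0) (nat_lit 6774933179) (nat_lit 1900) (nat_lit 30429321435) (nat_lit 468) (nat_lit 5) (nat_lit 467) (nat_lit 5) (nat_lit 492) (nat_lit 5) (nat_lit 639) (nat_lit 630) (nat_lit 291)) (XT.lf (nat_lit 0) (nat_lit 10248799057) (nat_lit 1824) (nat_lit 17322776663) (nat_lit 1900) (nat_lit 12134101821) (nat_lit 468) (nat_lit 5) (nat_lit 492) (nat_lit 5) (nat_lit 493) (nat_lit 5) (nat_lit 640) (nat_lit 630) (nat_lit 290)))) (XT.nd (nat_lit 78) (nat_lit 0) (nat_lit 76) (XT.lf (nat_lit 76) (nat_lit 2949403150) (nat_lit 0) (nat_lit 8764622356) (nat_lit 1900) (nat_lit 28400838255) (nat_lit 469) (nat_lit 5) (nat_lit 468) (nat_lit 5) (nat_lit 493) (nat_lit 5) (nat_lit 641) (nat_lit 630) (nat_lit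 289)) (XT.nd (nat_lit 78) (nat_lit 0) (nat_lit 0) (XT.lf (nat_lit 0) (nat_lit 13392108699) (nat_lit 1824) (nat_lit 16737243240) (nat_lit 1900) (nat_lit 10399210822) (nat_lit 469) (nat_lit 5) (nat_lit 493) (nat_lit 5) (nat_lit 494) (nat_lit 5) (nat_lit 642) (nat_lit 630) (nat_lit 288)) (XT.lf (nat_lit 76) (nat_lit 4094446634) (nat_lit 0) (nat_lit 11092850143) (nat_lit 1900) (nat_lit 25761568198) (nat_lit 470) (nat_lit 5) (nat_lit 469) (nat_lit 5) (nat_lit 494) (nat_lit 5) (nat_lit 643) (nat_lit 630) (nat_lit 287))))) (XT.nd (nat_lit 234) (nat_lit 0) (nat_lit 76) (XT.nd (nat_lit 78) (nat_lit 0) (nat_lit 0) (XT.lf (nat_lit 0) (nat_lit 17184429611) (nat_lit 1824) (nat_lit 15861236141) (nat_lit 1900) (nat_lit 8328586759) (nat_lit 470) (nat_lit 5) (nat_lit 494) (nat_lit 5) (nat_lit 495) (nat_lit 5) (nat_lit 644) (nat_lit 630) (nat_lit 286)) (XT.nd (nat_lit 78) (nat_lit 0) (nat_lit 76) (XT.lf (nat_lit 76) (nat_lit 5550390464) (nat_lit 0) (nat_lit 13779568997) (nat_lit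 1900) (nat_lit 22476019342) (nat_lit 471) (nat_lit 5) (nat_lit 470) (nat_lit 5) (nat_lit 495) (nat_lit 5) (nat_lit 645) (nat_lit 630) (nat_lit 285)) (XT.lf (nat_lit 0) (nat_lit 21662638426) (nat_lit 1824) (nat_lit 14678555473) (nat_lit 1900) (nat_lit 5902261046) (nat_lit 471) (nat_lit 5) (nat_lit 495) (nat_lit 5) (nat_lit 496) (nat_lit 5) (nat_lit 646) (nat_lit 630) (nat_lit 284)))) (XT.nd (nat_lit 156) (nat_lit 0) (nat_lit 76) (XT.nd (nat_lit 78) (nat_lit 0) (nat_lit 76) (XT.lf (nat_lit 76) (nat_lit 7334198426) (nat_lit 0) (nat_lit 16845639044) (nat_lit 1900) (nat_lit 18507085900) (nat_lit 472) (nat_lit 5) (nat_lit 471) (nat_lit 5) (nat_lit 496) (nat_lit 5) (nat_lit 647) (nat_lit 630) (nat_lit 283)) (XT.lf (nat_lit 0) (nat_lit 26865279296) (nat_lit 1824) (nat_lit 13172271054) (nat_lit 1900) (nat_lit 3099352926) (nat_lit 472) (nat_lit 5) (nat_lit 496) (nat_lit 5) (nat_lit 497) (nat_lit 5) (nat_lit 648) (nat_lit 630) (nat_lit 282))) (XT.nd (nat_lit 78) (nat_lit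 0) (nat_lit 0) (XT.lf (nat_lit 76) (nat_lit 9463593119) (nat_lit 0) (nat_lit 20312869789) (nat_lit 1900) (nat_lit 13815979300) (nat_lit 473) (nat_lit 5) (nat_lit 472) (nat_lit 5) (nat_lit 497) (nat_lit 5) (nat_lit 649) (nat_lit 630) (nat_lit 281)) (XT.lf (nat_lit 76) (nat_lit 32729978146) (nat_lit 0) (nat_lit 103327600) (nat_lit 1900) (nat_lit 11222037547) (nat_lit 473) (nat_lit 5) (nat_lit 472) (nat_lit 5) (nat_lit 497) (nat_lit 5) (nat_lit 650) (nat_lit 630) (nat_lit 280)))))) (XT.nd (nat_lit 79872) (nat_lit 0) (nat_lit 1140) (XT.nd (nat_lit 234) (nat_lit 1824) (nat_lit 0) (XT.nd (nat_lit 78) (nat_lit 0) (nat_lit 0) (XT.lf (nat_lit 76) (nat_lit 11957085140) (nat_lit 0) (nat_lit 24204063557) (nat_lit 1900) (nat_lit 8362156522) (nat_lit 474) (nat_lit 5) (nat_lit 473) (nat_lit 5) (nat_lit 498) (nat_lit 5) (nat_lit 651) (nat_lit 630) (nat_lit 279)) (XT.nd (nat_lit 78) (nat_lit 0) (nat_lit 76) (XT.lf (nat_lit 76) (nat_lit 35857258829) (nat_lit 0) (nat_lit 3774044902)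 (nat_lit 1900) (nat_lit 5367807630) (nat_lit 474) (nat_lit 5) (nat_lit 473) (nat_lit 5) (nat_lit 498) (nat_lit 5) (nat_lit 652) (nat_lit 630) (nat_lit 278)) (XT.lf (nat_lit 76) (nat_lit 14834003346) (nat_lit 0) (nat_lit 28543060733) (nat_lit 1900) (nat_lit 2103245582) (nat_lit 475) (nat_lit 5) (nat_lit 474) (nat_lit 5) (nat_lit 499) (nat_lit 5) (nat_lit 653) (nat_lit 630) (nat_lit 277)))) (XT.nd (nat_lit 79482) (nat_lit 0) (nat_lit 1064) (XT.nd (nat_lit 79404) (nat_lit 0) (nat_lit 1064) (XT.lf (nat_lit 0) (nat_lit 1296369484) (nat_lit 1900) (nat_lit 6590734475) (nat_lit 1976) (nat_lit 38082151788) (nat_lit 449) (nat_lit 5) (nat_lit 474) (nat_lit 5) (nat_lit 475) (nat_lit 5) (nat_lit 654) (nat_lit 630) (nat_lit 276)) (XT.lf (nat_lit 0) (nat_lit 1624104143) (nat_lit 1900) (nat_lit 8344533622) (nat_lit 1900) (nat_lit 8344533622) (nat_lit 463) (nat_lit 3) (nat_lit 488) (nat_lit 3) (nat_lit 488) (nat_lit 5) (nat_lit 631) (nat_lit 631) (nat_lit 298))) (XT.nd (nat_lit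 78) (nat_lit 0) (nat_lit 76) (XT.lf (nat_lit 76) (nat_lit 1421881154) (nat_lit 0) (nat_lit 1917104460) (nat_lit 1900) (nat_lit 33652450213) (nat_lit 464) (nat_lit 5) (nat_lit 463) (nat_lit 3) (nat_lit 488) (nat_lit 5) (nat_lit 632) (nat_lit 631) (nat_lit 297)) (XT.lf (nat_lit 0) (nat_lit 3649917149) (nat_lit 1824) (nat_lit 17348646244) (nat_lit 1900) (nat_lit 16360900690) (nat_lit 464) (nat_lit 5) (nat_lit 488) (nat_lit 5) (nat_lit 489) (nat_lit 5) (nat_lit 633) (nat_lit 631) (nat_lit 296))))) (XT.nd (nat_lit 234) (nat_lit 0) (nat_lit 152) (XT.nd (nat_lit 78) (nat_lit 0) (nat_lit 76) (XT.lf (nat_lit 76) (nat_lit 1239559842) (nat_lit 0) (nat_lit 2746989606) (nat_lit 1900) (nat_lit 33747913927) (nat_lit 465) (nat_lit 5) (nat_lit 464) (nat_lit 5) (nat_lit 489) (nat_lit 5) (nat_lit 634) (nat_lit 631) (nat_lit 295)) (XT.nd (nat_lit 78) (nat_lit 0) (nat_lit 0) (XT.lf (nat_lit 0) (nat_lit 4548902046) (nat_lit 1824) (nat_lit 17784451455) (nat_lit 1900) (nat_lit 15779229513)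 (nat_lit 465) (nat_lit 5) (nat_lit 489) (nat_lit 5) (nat_lit 490) (nat_lit 5) (nat_lit 635) (nat_lit 631) (nat_lit 294)) (XT.lf (nat_lit 76) (nat_lit 1298354030) (nat_lit 0) (nat_lit 3849555746) (nat_lit 1900) (nat_lit 33349847219) (nat_lit 466) (nat_lit 5) (nat_lit 465) (nat_lit 5) (nat_lit 490) (nat_lit 5) (nat_lit 636) (nat_lit 631) (nat_lit 293)))) (XT.nd (nat_lit 156) (nat_lit 0) (nat_lit 76) (XT.nd (nat_lit 78) (nat_lit 0) (nat_lit 0) (XT.lf (nat_lit 0) (nat_lit 5975255380) (nat_lit 1824) (nat_lit 17983279321) (nat_lit 1900) (nat_lit 14927772708) (nat_lit 466) (nat_lit 5) (nat_lit 490) (nat_lit 5) (nat_lit 491) (nat_lit 5) (nat_lit 637) (nat_lit 631) (nat_lit 292)) (XT.lf (nat_lit 76) (nat_lit 1612115714) (nat_lit 0) (nat_lit 5241825157) (nat_lit 1900) (nat_lit 32427992207) (nat_lit 467) (nat_lit 5) (nat_lit 466) (nat_lit 5) (nat_lit 491) (nat_lit 5) (nat_lit 638) (nat_lit 631) (nat_lit 291))) (XT.nd (nat_lit 78) (nat_lit 0) (nat_lit 0) (XT.lf (nat_lit 0)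 (nat_lit 7960448467) (nat_lit 1824) (nat_lit 17931310430) (nat_lit 1900) (nat_lit 13789507499) (nat_lit 467) (nat_lit 5) (nat_lit 491) (nat_lit 5) (nat_lit 492) (nat_lit 5) (nat_lit 639) (nat_lit 631) (nat_lit 290)) (XT.lf (nat_lit 76) (nat_lit 2195337016) (nat_lit 0) (nat_lit 6941592960) (nat_lit 1900) (nat_lit 30950699632) (nat_lit 468) (nat_lit 5) (nat_lit 467) (nat_lit 5) (nat_lit 492) (nat_lit 5) (nat_lit 640) (nat_lit 631) (nat_lit 289))))))))
noncomputable def xc253 : XT := (XT.nd (nat_lit 81588) (nat_lit 0) (nat_lit 0) (XT.nd (nat_lit 80496) (nat_lit 380) (nat_lit 0) (XT.nd (nat_lit 468) (nat_lit 0) (nat_lit 228) (XT.nd (nat_lit 234) (nat_lit 0) (nat_lit 76) (XT.nd (nat_lit 78) (nat_lit 0) (nat_lit 0) (XT.lf (nat_lit 0) (nat_lit 10537391080) (nat_lit 1824) (nat_lit 17614085694) (nat_lit 1900) (nat_lit 12346634412) (nat_lit 468) (nat_lit 5) (nat_lit 492) (nat_lit 5) (nat_lit 493) (nat_lit 5) (nat_lit 641) (nat_lit 631) (nat_lit 288)) (XT.nd (nat_lit 78)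 (nat_lit 0) (nat_lit 76) (XT.lf (nat_lit 76) (nat_lit 3063174910) (nat_lit 0) (nat_lit 8967463310) (nat_lit 1900) (nat_lit 28884868736) (nat_lit 469) (nat_lit 5) (nat_lit 468) (nat_lit 5) (nat_lit 493) (nat_lit 5) (nat_lit 642) (nat_lit 631) (nat_lit 287)) (XT.lf (nat_lit 0) (nat_lit 13740493364) (nat_lit 1824) (nat_lit 17016481596) (nat_lit 1900) (nat_lit 10580540917) (nat_lit 469) (nat_lit 5) (nat_lit 493) (nat_lit 5) (nat_lit 494) (nat_lit 5) (nat_lit 643) (nat_lit 631) (nat_lit 286)))) (XT.nd (nat_lit 78) (nat_lit 0) (nat_lit 76) (XT.lf (nat_lit 76) (nat_lit 4231476902) (nat_lit 0) (nat_lit 11338887052) (nat_lit 1900) (nat_lit 26195884750) (nat_lit 470) (nat_lit 5) (nat_lit 469) (nat_lit 5) (nat_lit 494) (nat_lit 5) (nat_lit 644) (nat_lit 631) (nat_lit 285)) (XT.nd (nat_lit 78) (nat_lit 0) (nat_lit 0) (XT.lf (nat_lit 0) (nat_lit 17605730211) (nat_lit 1824) (nat_lit 16122684493) (nat_lit 1900) (nat_lit 8471763610) (nat_lit 470) (nat_lit 5) (nat_lit 494) (nat_lit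 5) (nat_lit 495) (nat_lit 5) (nat_lit 645) (nat_lit 631) (nat_lit 284)) (XT.lf (nat_lit 76) (nat_lit 5716807695) (nat_lit 0) (nat_lit 14076200914) (nat_lit 1900) (nat_lit 22847553902) (nat_lit 471) (nat_lit 5) (nat_lit 470) (nat_lit 5) (nat_lit 495) (nat_lit 5) (nat_lit 646) (nat_lit 631) (nat_lit 283))))) (XT.nd (nat_lit 234) (nat_lit 0) (nat_lit 76) (XT.nd (nat_lit 78) (nat_lit 0) (nat_lit 0) (XT.lf (nat_lit 0) (nat_lit 22170708204) (nat_lit 1824) (nat_lit 14916163936) (nat_lit 1900) (nat_lit 5999948829) (nat_lit 471) (nat_lit 5) (nat_lit 495) (nat_lit 5) (nat_lit 496) (nat_lit 5) (nat_lit 647) (nat_lit 631) (nat_lit 282)) (XT.nd (nat_lit 78) (nat_lit 0) (nat_lit 76) (XT.lf (nat_lit 76) (nat_lit 7536476866) (nat_lit 0) (nat_lit 17200668319) (nat_lit 1900) (nat_lit 18802035830) (nat_lit 472) (nat_lit 5) (nat_lit 471) (nat_lit 5) (nat_lit 496) (nat_lit 5) (nat_lit 648) (nat_lit 631) (nat_lit 281)) (XT.lf (nat_lit 0) (nat_lit 27474735217) (nat_lit 1824) (nat_lit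 13379644987) (nat_lit 1900) (nat_lit 3143811658) (nat_lit 472) (nat_lit 5) (nat_lit 496) (nat_lit 5) (nat_lit 497) (nat_lit 5) (nat_lit 649) (nat_lit 631) (nat_lit 280)))) (XT.nd (nat_lit 156) (nat_lit 0) (nat_lit 76) (XT.nd (nat_lit 78) (nat_lit 0) (nat_lit 0) (XT.lf (nat_lit 76) (nat_lit 9708567578) (nat_lit 0) (nat_lit 20734521869) (nat_lit 1900) (nat_lit 14019773313) (nat_lit 473) (nat_lit 5) (nat_lit 472) (nat_lit 5) (nat_lit 497) (nat_lit 5) (nat_lit 650) (nat_lit 631) (nat_lit 279)) (XT.lf (nat_lit 76) (nat_lit 33439188098) (nat_lit 0) (nat_lit 120486979) (nat_lit 1900) (nat_lit 11375374796) (nat_lit 473) (nat_lit 5) (nat_lit 472) (nat_lit 5) (nat_lit 497) (nat_lit 5) (nat_lit 651) (nat_lit 631) (nat_lit 278))) (XT.nd (nat_lit 78) (nat_lit 0) (nat_lit 0) (XT.lf (nat_lit 76) (nat_lit 12251966375) (nat_lit 0) (nat_lit 24701007609) (nat_lit 1900) (nat_lit 8459419193) (nat_lit 474) (nat_lit 5) (nat_lit 473) (nat_lit 5) (nat_lit 498) (nat_lit 5) (nat_lit 652)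 (nat_lit 631) (nat_lit 277)) (XT.lf (nat_lit 76) (nat_lit 36629050605) (nat_lit 0) (nat_lit 3862136369) (nat_lit 1900) (nat_lit 5406555489) (nat_lit 474) (nat_lit 5) (nat_lit 473) (nat_lit 5) (nat_lit 498) (nat_lit 5) (nat_lit 653) (nat_lit 631) (nat_lit 276)))))) (XT.nd (nat_lit 546) (nat_lit 0) (nat_lit 228) (XT.nd (nat_lit 234) (nat_lit 0) (nat_lit 76) (XT.nd (nat_lit 78) (nat_lit 0) (nat_lit 0) (XT.lf (nat_lit 0) (nat_lit 1705331123) (nat_lit 1900) (nat_lit 8486562175) (nat_lit 1900) (nat_lit 8486562175) (nat_lit 463) (nat_lit 3) (nat_lit 488) (nat_lit 3) (nat_lit 488) (nat_lit 5) (nat_lit 632) (nat_lit 632) (nat_lit 296)) (XT.nd (nat_lit 78) (nat_lit 0) (nat_lit 76) (XT.lf (nat_lit 76) (nat_lit 1499715884) (nat_lit 0) (nat_lit 2001948393) (nat_lit 1900) (nat_lit 34227673576) (nat_lit 464) (nat_lit 5) (nat_lit 463) (nat_lit 3) (nat_lit 488) (nat_lit 5) (nat_lit 633) (nat_lit 632) (nat_lit 295)) (XT.lf (nat_lit 0) (nat_lit 3816638070) (nat_lit 1824) (nat_lit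 17645005719) (nat_lit 1900) (nat_lit 16643126582) (nat_lit 464) (nat_lit 5) (nat_lit 488) (nat_lit 5) (nat_lit 489) (nat_lit 5) (nat_lit 634) (nat_lit 632) (nat_lit 294)))) (XT.nd (nat_lit 156) (nat_lit 0) (nat_lit 76) (XT.nd (nat_lit 78) (nat_lit 0) (nat_lit 76) (XT.lf (nat_lit 76) (nat_lit 1314631505) (nat_lit 0) (nat_lit 2843860267) (nat_lit 1900) (nat_lit 34328808271) (nat_lit 465) (nat_lit 5) (nat_lit 464) (nat_lit 5) (nat_lit 489) (nat_lit 5) (nat_lit 635) (nat_lit 632) (nat_lit 293)) (XT.lf (nat_lit 0) (nat_lit 4730016451) (nat_lit 1824) (nat_lit 18088762730) (nat_lit 1900) (nat_lit 16054244557) (nat_lit 465) (nat_lit 5) (nat_lit 489) (nat_lit 5) (nat_lit 490) (nat_lit 5) (nat_lit 636) (nat_lit 632) (nat_lit 292))) (XT.nd (nat_lit 78) (nat_lit 0) (nat_lit 76) (XT.lf (nat_lit 76) (nat_lit 1375360854) (nat_lit 0) (nat_lit 3964207486) (nat_lit 1900) (nat_lit 33926361739) (nat_lit 466) (nat_lit 5) (nat_lit 465) (nat_lit 5) (nat_lit 490) (nat_lit 5) (nat_lit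 637) (nat_lit 632) (nat_lit 291)) (XT.lf (nat_lit 0) (nat_lit 6181481910) (nat_lit 1824) (nat_lit 18290919106) (nat_lit 1900) (nat_lit 15189890222) (nat_lit 466) (nat_lit 5) (nat_lit 490) (nat_lit 5) (nat_lit 491) (nat_lit 5) (nat_lit 638) (nat_lit 632) (nat_lit 290))))) (XT.nd (nat_lit 234) (nat_lit 0) (nat_lit 152) (XT.nd (nat_lit 78) (nat_lit 0) (nat_lit 76) (XT.lf (nat_lit 76) (nat_lit 1696041554) (nat_lit 0) (nat_lit 5380334700) (nat_lit 1900) (nat_lit 32989480618) (nat_lit 467) (nat_lit 5) (nat_lit 466) (nat_lit 5) (nat_lit 491) (nat_lit 5) (nat_lit 639) (nat_lit 632) (nat_lit 289)) (XT.nd (nat_lit 78) (nat_lit 0) (nat_lit 0) (XT.lf (nat_lit 0) (nat_lit 8203126003) (nat_lit 1824) (nat_lit 18237370931) (nat_lit 1900) (nat_lit 14032717834) (nat_lit 467) (nat_lit 5) (nat_lit 491) (nat_lit 5) (nat_lit 492) (nat_lit 5) (nat_lit 640) (nat_lit 632) (nat_lit 288)) (XT.lf (nat_lit 76) (nat_lit 2291463636) (nat_lit 0) (nat_lit 7110375913) (nat_lit 1900) (nat_lit 31485891796)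 (nat_lit 468) (nat_lit 5) (nat_lit 467) (nat_lit 5) (nat_lit 492) (nat_lit 5) (nat_lit 641) (nat_lit 632) (nat_lit 287)))) (XT.nd (nat_lit 156) (nat_lit 0) (nat_lit 76) (XT.nd (nat_lit 78) (nat_lit 0) (nat_lit 0) (XT.lf (nat_lit 0) (nat_lit 10828508031) (nat_lit 1824) (nat_lit 17913362311) (nat_lit 1900) (nat_lit 12564588394) (nat_lit 468) (nat_lit 5) (nat_lit 492) (nat_lit 5) (nat_lit 493) (nat_lit 5) (nat_lit 642) (nat_lit 632) (nat_lit 286)) (XT.lf (nat_lit 76) (nat_lit 3177094786) (nat_lit 0) (nat_lit 9173291342) (nat_lit 1900) (nat_lit 29381841117) (nat_lit 469) (nat_lit 5) (nat_lit 468) (nat_lit 5) (nat_lit 493) (nat_lit 5) (nat_lit 643) (nat_lit 632) (nat_lit 285))) (XT.nd (nat_lit 78) (nat_lit 0) (nat_lit 0) (XT.lf (nat_lit 0) (nat_lit 14092718159) (nat_lit 1824) (nat_lit 17303460104) (nat_lit 1900) (nat_lit 10766532626) (nat_lit 469) (nat_lit 5) (nat_lit 493) (nat_lit 5) (nat_lit 494) (nat_lit 5) (nat_lit 644) (nat_lit 632) (nat_lit 284)) (XT.lf (nat_lit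 76) (nat_lit 4369106569) (nat_lit 0) (nat_lit 11588905763) (nat_lit 1900) (nat_lit 26642029653) (nat_lit 470) (nat_lit 5) (nat_lit 469) (nat_lit 5) (nat_lit 494) (nat_lit 5) (nat_lit 645) (nat_lit 632) (nat_lit 283))))))) (XT.nd (nat_lit 80652) (nat_lit 0) (nat_lit 228) (XT.nd (nat_lit 546) (nat_lit 532) (nat_lit 0) (XT.nd (nat_lit 234) (nat_lit 0) (nat_lit 76) (XT.nd (nat_lit 78) (nat_lit 0) (nat_lit 0) (XT.lf (nat_lit 0) (nat_lit 18032443055) (nat_lit 1824) (nat_lit 16391527676) (nat_lit 1900) (nat_lit 8618712450) (nat_lit 470) (nat_lit 5) (nat_lit 494) (nat_lit 5) (nat_lit 495) (nat_lit 5) (nat_lit 646) (nat_lit 632) (nat_lit 282)) (XT.nd (nat_lit 78) (nat_lit 0) (nat_lit 76) (XT.lf (nat_lit 76) (nat_lit 5884401655) (nat_lit 0) (nat_lit 14377948440) (nat_lit 1900) (nat_lit 23229547437) (nat_lit 471) (nat_lit 5) (nat_lit 470) (nat_lit 5) (nat_lit 495) (nat_lit 5) (nat_lit 647) (nat_lit 632) (nat_lit 281)) (XT.lf (nat_lit 0) (nat_lit 22686034142) (nat_lit 1824)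 (nat_lit 15160697666) (nat_lit 1900) (nat_lit 6100380871) (nat_lit 471) (nat_lit 5) (nat_lit 495) (nat_lit 5) (nat_lit 496) (nat_lit 5) (nat_lit 648) (nat_lit 632) (nat_lit 280)))) (XT.nd (nat_lit 156) (nat_lit 0) (nat_lit 76) (XT.nd (nat_lit 78) (nat_lit 0) (nat_lit 76) (XT.lf (nat_lit 76) (nat_lit 7740642073) (nat_lit 0) (nat_lit 17562094694) (nat_lit 1900) (nat_lit 19105804548) (nat_lit 472) (nat_lit 5) (nat_lit 471) (nat_lit 5) (nat_lit 496) (nat_lit 5) (nat_lit 649) (nat_lit 632) (nat_lit 279)) (XT.lf (nat_lit 0) (nat_lit 28093578570) (nat_lit 1824) (nat_lit 13593343722) (nat_lit 1900) (nat_lit 3189840211) (nat_lit 472) (nat_lit 5) (nat_lit 496) (nat_lit 5) (nat_lit 497) (nat_lit 5) (nat_lit 650) (nat_lit 632) (nat_lit 278))) (XT.nd (nat_lit 78) (nat_lit 0) (nat_lit 0) (XT.lf (nat_lit 76) (nat_lit 9956278526) (nat_lit 0) (nat_lit 21164009195) (nat_lit 1900) (nat_lit 14230459464) (nat_lit 473) (nat_lit 5) (nat_lit 472) (nat_lit 5) (nat_lit 497) (nat_lit 5)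 (nat_lit 651) (nat_lit 632) (nat_lit 277)) (XT.lf (nat_lit 76) (nat_lit 34160461661) (nat_lit 0) (nat_lit 137403473) (nat_lit 1900) (nat_lit 11534539825) (nat_lit 473) (nat_lit 5) (nat_lit 472) (nat_lit 5) (nat_lit 497) (nat_lit 5) (nat_lit 652) (nat_lit 632) (nat_lit 276))))) (XT.nd (nat_lit 79794) (nat_lit 0) (nat_lit 76) (XT.nd (nat_lit 79638) (nat_lit 760) (nat_lit 0) (XT.lf (nat_lit 76) (nat_lit 12550580800) (nat_lit 0) (nat_lit 25207391065) (nat_lit 1900) (nat_lit 8561344544) (nat_lit 474) (nat_lit 5) (nat_lit 473) (nat_lit 5) (nat_lit 498) (nat_lit 5) (nat_lit 653) (nat_lit 632) (nat_lit 275)) (XT.nd (nat_lit 78) (nat_lit 0) (nat_lit 0) (XT.lf (nat_lit 0) (nat_lit 1786289820) (nat_lit 1900) (nat_lit 8632396726) (nat_lit 1900) (nat_lit 8632396726) (nat_lit 463) (nat_lit 3) (nat_lit 488) (nat_lit 3) (nat_lit 488) (nat_lit 5) (nat_lit 633) (nat_lit 633) (nat_lit 294)) (XT.lf (nat_lit 76) (nat_lit 1577189157) (nat_lit 0) (nat_lit 2086683481) (nat_lit 1900) (nat_lit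 34818200095) (nat_lit 464) (nat_lit 5) (nat_lit 463) (nat_lit 3) (nat_lit 488) (nat_lit 5) (nat_lit 634) (nat_lit 633) (nat_lit 293)))) (XT.nd (nat_lit 156) (nat_lit 0) (nat_lit 76) (XT.nd (nat_lit 78) (nat_lit 0) (nat_lit 0) (XT.lf (nat_lit 0) (nat_lit 3983054047) (nat_lit 1824) (nat_lit 17949257766) (nat_lit 1900) (nat_lit 16932744092) (nat_lit 464) (nat_lit 5) (nat_lit 488) (nat_lit 5) (nat_lit 489) (nat_lit 5) (nat_lit 635) (nat_lit 633) (nat_lit 292)) (XT.lf (nat_lit 76) (nat_lit 1389252150) (nat_lit 0) (nat_lit 2941040113) (nat_lit 1900) (nat_lit 34924973119) (nat_lit 465) (nat_lit 5) (nat_lit 464) (nat_lit 5) (nat_lit 489) (nat_lit 5) (nat_lit 636) (nat_lit 633) (nat_lit 291))) (XT.nd (nat_lit 78) (nat_lit 0) (nat_lit 0) (XT.lf (nat_lit 0) (nat_lit 4911253039) (nat_lit 1824) (nat_lit 18401155290) (nat_lit 1900) (nat_lit 16336335267) (nat_lit 465) (nat_lit 5) (nat_lit 489) (nat_lit 5) (nat_lit 490) (nat_lit 5) (nat_lit 637) (nat_lit 633) (nat_lit 290)) (XT.lf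 (nat_lit 76) (nat_lit 1451925878) (nat_lit 0) (nat_lit 4079689853) (nat_lit 1900) (nat_lit 34517920092) (nat_lit 466) (nat_lit 5) (nat_lit 465) (nat_lit 5) (nat_lit 490) (nat_lit 5) (nat_lit 638) (nat_lit 633) (nat_lit 289)))))) (XT.nd (nat_lit 546) (nat_lit 0) (nat_lit 228) (XT.nd (nat_lit 234) (nat_lit 0) (nat_lit 76) (XT.nd (nat_lit 78) (nat_lit 0) (nat_lit 0) (XT.lf (nat_lit 0) (nat_lit 6388465471) (nat_lit 1824) (nat_lit 18606731913) (nat_lit 1900) (nat_lit 15458665015) (nat_lit 466) (nat_lit 5) (nat_lit 490) (nat_lit 5) (nat_lit 491) (nat_lit 5) (nat_lit 639) (nat_lit 633) (nat_lit 288)) (XT.nd (nat_lit 78) (nat_lit 0) (nat_lit 76) (XT.lf (nat_lit 76) (nat_lit 1779638977) (nat_lit 0) (nat_lit 5520306868) (nat_lit 1900) (nat_lit 33565579887) (nat_lit 467) (nat_lit 5) (nat_lit 466) (nat_lit 5) (nat_lit 491) (nat_lit 5) (nat_lit 640) (nat_lit 633) (nat_lit 287)) (XT.lf (nat_lit 0) (nat_lit 8447415903) (nat_lit 1824) (nat_lit 18551593833) (nat_lit 1900) (nat_lit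 14282057490) (nat_lit 467) (nat_lit 5) (nat_lit 491) (nat_lit 5) (nat_lit 492) (nat_lit 5) (nat_lit 641) (nat_lit 633) (nat_lit 286)))) (XT.nd (nat_lit 156) (nat_lit 0) (nat_lit 76) (XT.nd (nat_lit 78) (nat_lit 0) (nat_lit 76) (XT.lf (nat_lit 76) (nat_lit 2387485028) (nat_lit 0) (nat_lit 7281371488) (nat_lit 1900) (nat_lit 32035042706) (nat_lit 468) (nat_lit 5) (nat_lit 467) (nat_lit 5) (nat_lit 492) (nat_lit 5) (nat_lit 642) (nat_lit 633) (nat_lit 285)) (XT.lf (nat_lit 0) (nat_lit 11122326489) (nat_lit 1824) (nat_lit 18220682714) (nat_lit 1900) (nat_lit 12788026735) (nat_lit 468) (nat_lit 5) (nat_lit 492) (nat_lit 5) (nat_lit 493) (nat_lit 5) (nat_lit 643) (nat_lit 633) (nat_lit 284))) (XT.nd (nat_lit 78) (nat_lit 0) (nat_lit 76) (XT.lf (nat_lit 76) (nat_lit 3291248349) (nat_lit 0) (nat_lit 9382207731) (nat_lit 1900) (nat_lit 29891887595) (nat_lit 469) (nat_lit 5) (nat_lit 468) (nat_lit 5) (nat_lit 493) (nat_lit 5) (nat_lit 644) (nat_lit 633) (nat_lit 283)) (XT.lf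 (nat_lit 0) (nat_lit 14448981334) (nat_lit 1824) (nat_lit 17598249871) (nat_lit 1900) (nat_lit 10957238991) (nat_lit 469) (nat_lit 5) (nat_lit 493) (nat_lit 5) (nat_lit 494) (nat_lit 5) (nat_lit 645) (nat_lit 633) (nat_lit 282))))) (XT.nd (nat_lit 234) (nat_lit 0) (nat_lit 152) (XT.nd (nat_lit 78) (nat_lit 0) (nat_lit 76) (XT.lf (nat_lit 76) (nat_lit 4507430771) (nat_lit 0) (nat_lit 11843022373) (nat_lit 1900) (nat_lit 27100117467) (nat_lit 470) (nat_lit 5) (nat_lit 469) (nat_lit 5) (nat_lit 494) (nat_lit 5) (nat_lit 646) (nat_lit 633) (nat_lit 281)) (XT.nd (nat_lit 78) (nat_lit 0) (nat_lit 0) (XT.lf (nat_lit 0) (nat_lit 18464793415) (nat_lit 1824) (nat_lit 16667829484) (nat_lit 1900) (nat_lit 8769473443) (nat_lit 470) (nat_lit 5) (nat_lit 494) (nat_lit 5) (nat_lit 495) (nat_lit 5) (nat_lit 647) (nat_lit 633) (nat_lit 280)) (XT.lf (nat_lit 76) (nat_lit 6053279429) (nat_lit 0) (nat_lit 14684945613) (nat_lit 1900) (nat_lit 23622091535) (nat_lit 471) (nat_lit 5) (nat_lit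 470) (nat_lit 5) (nat_lit 495) (nat_lit 5) (nat_lit 648) (nat_lit 633) (nat_lit 279)))) (XT.nd (nat_lit 156) (nat_lit 0) (nat_lit 76) (XT.nd (nat_lit 78) (nat_lit 0) (nat_lit 0) (XT.lf (nat_lit 0) (nat_lit 23208874177) (nat_lit 1824) (nat_lit 15412210784) (nat_lit 1900) (nat_lit 6203581363) (nat_lit 471) (nat_lit 5) (nat_lit 495) (nat_lit 5) (nat_lit 496) (nat_lit 5) (nat_lit 649) (nat_lit 633) (nat_lit 278)) (XT.lf (nat_lit 76) (nat_lit 7946815613) (nat_lit 0) (nat_lit 17930073428) (nat_lit 1900) (nat_lit 19418455050) (nat_lit 472) (nat_lit 5) (nat_lit 471) (nat_lit 5) (nat_lit 496) (nat_lit 5) (nat_lit 650) (nat_lit 633) (nat_lit 277))) (XT.nd (nat_lit 78) (nat_lit 0) (nat_lit 0) (XT.lf (nat_lit 0) (nat_lit 28722105898) (nat_lit 1824) (nat_lit 13813409209) (nat_lit 1900) (nat_lit 3237443550) (nat_lit 472) (nat_lit 5) (nat_lit 496) (nat_lit 5) (nat_lit 497) (nat_lit 5) (nat_lit 651) (nat_lit 633) (nat_lit 276)) (XT.lf (nat_lit 76) (nat_lit 10206864686) (nat_lit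 0) (nat_lit 21601511687) (nat_lit 1900) (nat_lit 14448066234) (nat_lit 473) (nat_lit 5) (nat_lit 472) (nat_lit 5) (nat_lit 497) (nat_lit 5) (nat_lit 652) (nat_lit 633) (nat_lit 275))))))))
noncomputable def xc254 : XT := (XT.nd (nat_lit 81978) (nat_lit 0) (nat_lit 0) (XT.nd (nat_lit 1014) (nat_lit 0) (nat_lit 0) (XT.nd (nat_lit 468) (nat_lit 0) (nat_lit 228) (XT.nd (nat_lit 234) (nat_lit 0) (nat_lit 76) (XT.nd (nat_lit 78) (nat_lit 0) (nat_lit 0) (XT.lf (nat_lit 0) (nat_lit 1867048367) (nat_lit 1900) (nat_lit 8782075905) (nat_lit 1900) (nat_lit 8782075905) (nat_lit 463) (nat_lit 3) (nat_lit 488) (nat_lit 3) (nat_lit 488) (nat_lit 5) (nat_lit 634) (nat_lit 634) (nat_lit 292)) (XT.nd (nat_lit 78) (nat_lit 0) (nat_lit 76) (XT.lf (nat_lit 76) (nat_lit 1654368231) (nat_lit 0) (nat_lit 2171377667) (nat_lit 1900) (nat_lit 35424188326) (nat_lit 464) (nat_lit 5) (nat_lit 463) (nat_lit 3) (nat_lit 488) (nat_lit 5) (nat_lit 635) (nat_lit 634) (nat_lit 291)) (XT.lf (nat_lit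 0) (nat_lit 4149300302) (nat_lit 1824) (nat_lit 18261483918) (nat_lit 1900) (nat_lit 17229833208) (nat_lit 464) (nat_lit 5) (nat_lit 488) (nat_lit 5) (nat_lit 489) (nat_lit 5) (nat_lit 636) (nat_lit 634) (nat_lit 290)))) (XT.nd (nat_lit 78) (nat_lit 0) (nat_lit 76) (XT.lf (nat_lit 76) (nat_lit 1463488571) (nat_lit 0) (nat_lit 3038598556) (nat_lit 1900) (nat_lit 35536572045) (nat_lit 465) (nat_lit 5) (nat_lit 464) (nat_lit 5) (nat_lit 489) (nat_lit 5) (nat_lit 637) (nat_lit 634) (nat_lit 289)) (XT.nd (nat_lit 78) (nat_lit 0) (nat_lit 0) (XT.lf (nat_lit 0) (nat_lit 5092750167) (nat_lit 1824) (nat_lit 18721713293) (nat_lit 1900) (nat_lit 16625581983) (nat_lit 465) (nat_lit 5) (nat_lit 489) (nat_lit 5) (nat_lit 490) (nat_lit 5) (nat_lit 638) (nat_lit 634) (nat_lit 288)) (XT.lf (nat_lit 76) (nat_lit 1528117229) (nat_lit 0) (nat_lit 4196076246) (nat_lit 1900) (nat_lit 35124686720) (nat_lit 466) (nat_lit 5) (nat_lit 465) (nat_lit 5) (nat_lit 490) (nat_lit 5) (nat_lit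 639) (nat_lit 634) (nat_lit 287))))) (XT.nd (nat_lit 234) (nat_lit 0) (nat_lit 76) (XT.nd (nat_lit 78) (nat_lit 0) (nat_lit 0) (XT.lf (nat_lit 0) (nat_lit 6596351970) (nat_lit 1824) (nat_lit 18930802752) (nat_lit 1900) (nat_lit 15734175291) (nat_lit 466) (nat_lit 5) (nat_lit 490) (nat_lit 5) (nat_lit 491) (nat_lit 5) (nat_lit 640) (nat_lit 634) (nat_lit 286)) (XT.nd (nat_lit 78) (nat_lit 0) (nat_lit 76) (XT.lf (nat_lit 76) (nat_lit 1862979346) (nat_lit 0) (nat_lit 5661821689) (nat_lit 1900) (nat_lit 34156450940) (nat_lit 467) (nat_lit 5) (nat_lit 466) (nat_lit 5) (nat_lit 491) (nat_lit 5) (nat_lit 641) (nat_lit 634) (nat_lit 285)) (XT.lf (nat_lit 0) (nat_lit 8693476275) (nat_lit 1824) (nat_lit 18874063121) (nat_lit 1900) (nat_lit 14537599926) (nat_lit 467) (nat_lit 5) (nat_lit 491) (nat_lit 5) (nat_lit 492) (nat_lit 5) (nat_lit 642) (nat_lit 634) (nat_lit 284)))) (XT.nd (nat_lit 156) (nat_lit 0) (nat_lit 76) (XT.nd (nat_lit 78) (nat_lit 0) (nat_lit 76) (XT.lf (nat_lit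 76) (nat_lit 2483477826) (nat_lit 0) (nat_lit 7454669098) (nat_lit 1900) (nat_lit 32598305146) (nat_lit 468) (nat_lit 5) (nat_lit 467) (nat_lit 5) (nat_lit 492) (nat_lit 5) (nat_lit 643) (nat_lit 634) (nat_lit 283)) (XT.lf (nat_lit 0) (nat_lit 11419021671) (nat_lit 1824) (nat_lit 18536127852) (nat_lit 1900) (nat_lit 13017015425) (nat_lit 468) (nat_lit 5) (nat_lit 492) (nat_lit 5) (nat_lit 493) (nat_lit 5) (nat_lit 644) (nat_lit 634) (nat_lit 282))) (XT.nd (nat_lit 78) (nat_lit 0) (nat_lit 76) (XT.lf (nat_lit 76) (nat_lit 3405719671) (nat_lit 0) (nat_lit 9594314172) (nat_lit 1900) (nat_lit 30415147930) (nat_lit 469) (nat_lit 5) (nat_lit 468) (nat_lit 5) (nat_lit 493) (nat_lit 5) (nat_lit 645) (nat_lit 634) (nat_lit 281)) (XT.lf (nat_lit 0) (nat_lit 14809480387) (nat_lit 1824) (nat_lit 17900926677) (nat_lit 1900) (nat_lit 11152715673) (nat_lit 469) (nat_lit 5) (nat_lit 493) (nat_lit 5) (nat_lit 494) (nat_lit 5) (nat_lit 646) (nat_lit 634) (nat_lit 280)))))) (XT.nd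 (nat_lit 80418) (nat_lit 0) (nat_lit 76) (XT.nd (nat_lit 234) (nat_lit 456) (nat_lit 0) (XT.nd (nat_lit 78) (nat_lit 0) (nat_lit 76) (XT.lf (nat_lit 76) (nat_lit 4646543314) (nat_lit 0) (nat_lit 12101353885) (nat_lit 1900) (nat_lit 27570269779) (nat_lit 470) (nat_lit 5) (nat_lit 469) (nat_lit 5) (nat_lit 494) (nat_lit 5) (nat_lit 647) (nat_lit 634) (nat_lit 279)) (XT.nd (nat_lit 78) (nat_lit 0) (nat_lit 0) (XT.lf (nat_lit 0) (nat_lit 18903006525) (nat_lit 1824) (nat_lit 16951658252) (nat_lit 1900) (nat_lit 8924088924) (nat_lit 470) (nat_lit 5) (nat_lit 494) (nat_lit 5) (nat_lit 495) (nat_lit 5) (nat_lit 648) (nat_lit 634) (nat_lit 278)) (XT.lf (nat_lit 76) (nat_lit 6223546999) (nat_lit 0) (nat_lit 14997327920) (nat_lit 1900) (nat_lit 24025284183) (nat_lit 471) (nat_lit 5) (nat_lit 470) (nat_lit 5) (nat_lit 495) (nat_lit 5) (nat_lit 649) (nat_lit 634) (nat_lit 277)))) (XT.nd (nat_lit 80028) (nat_lit 608) (nat_lit 0) (XT.nd (nat_lit 78) (nat_lit 0) (nat_lit 0) (XT.lf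 (nat_lit 0) (nat_lit 23739487024) (nat_lit 1824) (nat_lit 15670761771) (nat_lit 1900) (nat_lit 6309576168) (nat_lit 471) (nat_lit 5) (nat_lit 495) (nat_lit 5) (nat_lit 496) (nat_lit 5) (nat_lit 650) (nat_lit 634) (nat_lit 276)) (XT.lf (nat_lit 76) (nat_lit 8155118225) (nat_lit 0) (nat_lit 18304761825) (nat_lit 1900) (nat_lit 19740055995) (nat_lit 472) (nat_lit 5) (nat_lit 471) (nat_lit 5) (nat_lit 496) (nat_lit 5) (nat_lit 651) (nat_lit 634) (nat_lit 275))) (XT.nd (nat_lit 78) (nat_lit 0) (nat_lit 0) (XT.lf (nat_lit 0) (nat_lit 1947673409) (nat_lit 1900) (nat_lit 8935640572) (nat_lit 1900) (nat_lit 8935640572) (nat_lit 463) (nat_lit 3) (nat_lit 488) (nat_lit 3) (nat_lit 488) (nat_lit 5) (nat_lit 635) (nat_lit 635) (nat_lit 290)) (XT.lf (nat_lit 76) (nat_lit 1731318812) (nat_lit 0) (nat_lit 2256097527) (nat_lit 1900) (nat_lit 36045805722) (nat_lit 464) (nat_lit 5) (nat_lit 463) (nat_lit 3) (nat_lit 488) (nat_lit 5) (nat_lit 636) (nat_lit 635) (nat_lit 289))))) (XT.nd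 (nat_lit 234) (nat_lit 0) (nat_lit 76) (XT.nd (nat_lit 78) (nat_lit 0) (nat_lit 0) (XT.lf (nat_lit 0) (nat_lit 4315509275) (nat_lit 1824) (nat_lit 18581770302) (nat_lit 1900) (nat_lit 17534478156) (nat_lit 464) (nat_lit 5) (nat_lit 488) (nat_lit 5) (nat_lit 489) (nat_lit 5) (nat_lit 637) (nat_lit 635) (nat_lit 288)) (XT.nd (nat_lit 78) (nat_lit 0) (nat_lit 76) (XT.lf (nat_lit 76) (nat_lit 1537405958) (nat_lit 0) (nat_lit 3136603938) (nat_lit 1900) (nat_lit 36163777404) (nat_lit 465) (nat_lit 5) (nat_lit 464) (nat_lit 5) (nat_lit 489) (nat_lit 5) (nat_lit 638) (nat_lit 635) (nat_lit 287)) (XT.lf (nat_lit 0) (nat_lit 5274643682) (nat_lit 1824) (nat_lit 19050525582) (nat_lit 1900) (nat_lit 16922069026) (nat_lit 465) (nat_lit 5) (nat_lit 489) (nat_lit 5) (nat_lit 490) (nat_lit 5) (nat_lit 639) (nat_lit 635) (nat_lit 286)))) (XT.nd (nat_lit 156) (nat_lit 0) (nat_lit 76) (XT.nd (nat_lit 78) (nat_lit 0) (nat_lit 76) (XT.lf (nat_lit 76) (nat_lit 1604001405) (nat_lit 0)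 (nat_lit 4313439328) (nat_lit 1900) (nat_lit 35746834651) (nat_lit 466) (nat_lit 5) (nat_lit 465) (nat_lit 5) (nat_lit 490) (nat_lit 5) (nat_lit 640) (nat_lit 635) (nat_lit 285)) (XT.lf (nat_lit 0) (nat_lit 6805285150) (nat_lit 1824) (nat_lit 19263221385) (nat_lit 1900) (nat_lit 16016502949) (nat_lit 466) (nat_lit 5) (nat_lit 490) (nat_lit 5) (nat_lit 491) (nat_lit 5) (nat_lit 641) (nat_lit 635) (nat_lit 284))) (XT.nd (nat_lit 78) (nat_lit 0) (nat_lit 76) (XT.lf (nat_lit 76) (nat_lit 1946132425) (nat_lit 0) (nat_lit 5804958818) (nat_lit 1900) (nat_lit 34762263017) (nat_lit 467) (nat_lit 5) (nat_lit 466) (nat_lit 5) (nat_lit 491) (nat_lit 5) (nat_lit 642) (nat_lit 635) (nat_lit 283)) (XT.lf (nat_lit 0) (nat_lit 8941463499) (nat_lit 1824) (nat_lit 19204867540) (nat_lit 1900) (nat_lit 14799421981) (nat_lit 467) (nat_lit 5) (nat_lit 491) (nat_lit 5) (nat_lit 492) (nat_lit 5) (nat_lit 643) (nat_lit 635) (nat_lit 282))))))) (XT.nd (nat_lit 80964) (nat_lit 0) (nat_lit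 0) (XT.nd (nat_lit 468) (nat_lit 304) (nat_lit 0) (XT.nd (nat_lit 234) (nat_lit 0) (nat_lit 152) (XT.nd (nat_lit 78) (nat_lit 0) (nat_lit 76) (XT.lf (nat_lit 76) (nat_lit 2579517142) (nat_lit 0) (nat_lit 7630358194) (nat_lit 1900) (nat_lit 33175839863) (nat_lit 468) (nat_lit 5) (nat_lit 467) (nat_lit 5) (nat_lit 492) (nat_lit 5) (nat_lit 644) (nat_lit 635) (nat_lit 281)) (XT.nd (nat_lit 78) (nat_lit 0) (nat_lit 0) (XT.lf (nat_lit 0) (nat_lit 11718767591) (nat_lit 1824) (nat_lit 18859783401) (nat_lit 1900) (nat_lit 13251623473) (nat_lit 468) (nat_lit 5) (nat_lit 492) (nat_lit 5) (nat_lit 493) (nat_lit 5) (nat_lit 645) (nat_lit 635) (nat_lit 280)) (XT.lf (nat_lit 76) (nat_lit 3520591421) (nat_lit 0) (nat_lit 9809712842) (nat_lit 1900) (nat_lit 30951769404) (nat_lit 469) (nat_lit 5) (nat_lit 468) (nat_lit 5) (nat_lit 493) (nat_lit 5) (nat_lit 646) (nat_lit 635) (nat_lit 279)))) (XT.nd (nat_lit 78) (nat_lit 0) (nat_lit 0) (XT.lf (nat_lit 0) (nat_lit 15174412235) (nat_lit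 1824) (nat_lit 18211570939) (nat_lit 1900) (nat_lit 11353020951) (nat_lit 469) (nat_lit 5) (nat_lit 493) (nat_lit 5) (nat_lit 494) (nat_lit 5) (nat_lit 647) (nat_lit 635) (nat_lit 278)) (XT.nd (nat_lit 78) (nat_lit 0) (nat_lit 76) (XT.lf (nat_lit 76) (nat_lit 4786536778) (nat_lit 0) (nat_lit 12364018279) (nat_lit 1900) (nat_lit 28052615161) (nat_lit 470) (nat_lit 5) (nat_lit 469) (nat_lit 5) (nat_lit 494) (nat_lit 5) (nat_lit 648) (nat_lit 635) (nat_lit 277)) (XT.lf (nat_lit 0) (nat_lit 19347307758) (nat_lit 1824) (nat_lit 17243086821) (nat_lit 1900) (nat_lit 9082603394) (nat_lit 470) (nat_lit 5) (nat_lit 494) (nat_lit 5) (nat_lit 495) (nat_lit 5) (nat_lit 649) (nat_lit 635) (nat_lit 276))))) (XT.nd (nat_lit 80184) (nat_lit 0) (nat_lit 0) (XT.nd (nat_lit 78) (nat_lit 532) (nat_lit 0) (XT.lf (nat_lit 76) (nat_lit 6395309346) (nat_lit 0) (nat_lit 15315232375) (nat_lit 1900) (nat_lit 24439229713) (nat_lit 471) (nat_lit 5) (nat_lit 470) (nat_lit 5) (nat_lit 495) (nat_lit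 5) (nat_lit 650) (nat_lit 635) (nat_lit 275)) (XT.nd (nat_lit 80028) (nat_lit 608) (nat_lit 0) (XT.lf (nat_lit 0) (nat_lit 24278132362) (nat_lit 1824) (nat_lit 15936413426) (nat_lit 1900) (nat_lit 6418392814) (nat_lit 471) (nat_lit 5) (nat_lit 495) (nat_lit 5) (nat_lit 496) (nat_lit 5) (nat_lit 651) (nat_lit 635) (nat_lit 274)) (XT.lf (nat_lit 0) (nat_lit 2028230178) (nat_lit 1900) (nat_lit 9093133804) (nat_lit 1900) (nat_lit 9093133804) (nat_lit 463) (nat_lit 3) (nat_lit 488) (nat_lit 3) (nat_lit 488) (nat_lit 5) (nat_lit 636) (nat_lit 636) (nat_lit 288)))) (XT.nd (nat_lit 156) (nat_lit 0) (nat_lit 76) (XT.nd (nat_lit 78) (nat_lit 0) (nat_lit 76) (XT.lf (nat_lit 76) (nat_lit 1808105143) (nat_lit 0) (nat_lit 2340908353) (nat_lit 1900) (nat_lit 36683228594) (nat_lit 464) (nat_lit 5) (nat_lit 463) (nat_lit 3) (nat_lit 488) (nat_lit 5) (nat_lit 637) (nat_lit 636) (nat_lit 287)) (XT.lf (nat_lit 0) (nat_lit 4481810778) (nat_lit 1824) (nat_lit 18910207616) (nat_lit 1900)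 (nat_lit 17846767376) (nat_lit 464) (nat_lit 5) (nat_lit 488) (nat_lit 5) (nat_lit 489) (nat_lit 5) (nat_lit 638) (nat_lit 636) (nat_lit 286))) (XT.nd (nat_lit 78) (nat_lit 0) (nat_lit 76) (XT.lf (nat_lit 76) (nat_lit 1611067970) (nat_lit 0) (nat_lit 3235123609) (nat_lit 1900) (nat_lit 36806770289) (nat_lit 465) (nat_lit 5) (nat_lit 464) (nat_lit 5) (nat_lit 489) (nat_lit 5) (nat_lit 639) (nat_lit 636) (nat_lit 285)) (XT.lf (nat_lit 0) (nat_lit 5457067074) (nat_lit 1824) (nat_lit 19387685675) (nat_lit 1900) (nat_lit 17225884690) (nat_lit 465) (nat_lit 5) (nat_lit 489) (nat_lit 5) (nat_lit 490) (nat_lit 5) (nat_lit 640) (nat_lit 636) (nat_lit 284)))))) (XT.nd (nat_lit 546) (nat_lit 152) (nat_lit 0) (XT.nd (nat_lit 234) (nat_lit 0) (nat_lit 152) (XT.nd (nat_lit 78) (nat_lit 0) (nat_lit 76) (XT.lf (nat_lit 76) (nat_lit 1679643363) (nat_lit 0) (nat_lit 4431851095) (nat_lit 1900) (nat_lit 36384545466) (nat_lit 466) (nat_lit 5) (nat_lit 465) (nat_lit 5) (nat_lit 490)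 (nat_lit 5) (nat_lit 641) (nat_lit 636) (nat_lit 283)) (XT.nd (nat_lit 78) (nat_lit 0) (nat_lit 0) (XT.lf (nat_lit 0) (nat_lit 7015406751) (nat_lit 1824) (nat_lit 19604082292) (nat_lit 1900) (nat_lit 16305733577) (nat_lit 466) (nat_lit 5) (nat_lit 490) (nat_lit 5) (nat_lit 491) (nat_lit 5) (nat_lit 642) (nat_lit 636) (nat_lit 282)) (XT.lf (nat_lit 76) (nat_lit 2029166465) (nat_lit 0) (nat_lit 5949797609) (nat_lit 1900) (nat_lit 35383193648) (nat_lit 467) (nat_lit 5) (nat_lit 466) (nat_lit 5) (nat_lit 491) (nat_lit 5) (nat_lit 643) (nat_lit 636) (nat_lit 281)))) (XT.nd (nat_lit 156) (nat_lit 0) (nat_lit 76) (XT.nd (nat_lit 78) (nat_lit 0) (nat_lit 0) (XT.lf (nat_lit 0) (nat_lit 9191532387) (nat_lit 1824) (nat_lit 19544100566) (nat_lit 1900) (nat_lit 15067603863) (nat_lit 467) (nat_lit 5) (nat_lit 491) (nat_lit 5) (nat_lit 492) (nat_lit 5) (nat_lit 644) (nat_lit 636) (nat_lit 280)) (XT.lf (nat_lit 76) (nat_lit 2675676650) (nat_lit 0) (nat_lit 7808528328) (nat_lit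 1900) (nat_lit 33767815536) (nat_lit 468) (nat_lit 5) (nat_lit 467) (nat_lit 5) (nat_lit 492) (nat_lit 5) (nat_lit 645) (nat_lit 636) (nat_lit 279))) (XT.nd (nat_lit 78) (nat_lit 0) (nat_lit 0) (XT.lf (nat_lit 0) (nat_lit 12021737221) (nat_lit 1824) (nat_lit 19191739730) (nat_lit 1900) (nat_lit 13491922896) (nat_lit 468) (nat_lit 5) (nat_lit 492) (nat_lit 5) (nat_lit 493) (nat_lit 5) (nat_lit 646) (nat_lit 636) (nat_lit 278)) (XT.lf (nat_lit 76) (nat_lit 3635944962) (nat_lit 0) (nat_lit 10028506470) (nat_lit 1900) (nat_lit 31501906787) (nat_lit 469) (nat_lit 5) (nat_lit 468) (nat_lit 5) (nat_lit 493) (nat_lit 5) (nat_lit 647) (nat_lit 636) (nat_lit 277))))) (XT.nd (nat_lit 80340) (nat_lit 456) (nat_lit 0) (XT.nd (nat_lit 78) (nat_lit 0) (nat_lit 0) (XT.lf (nat_lit 0) (nat_lit 15543973375) (nat_lit 1824) (nat_lit 18530267688) (nat_lit 1900) (nat_lit 11558215707) (nat_lit 469) (nat_lit 5) (nat_lit 493) (nat_lit 5) (nat_lit 494) (nat_lit 5) (nat_lit 648) (nat_lit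 636) (nat_lit 276)) (XT.nd (nat_lit 78) (nat_lit 0) (nat_lit 76) (XT.lf (nat_lit 76) (nat_lit 4927502614) (nat_lit 0) (nat_lit 12631134589) (nat_lit 1900) (nat_lit 28547289135) (nat_lit 470) (nat_lit 5) (nat_lit 469) (nat_lit 5) (nat_lit 494) (nat_lit 5) (nat_lit 649) (nat_lit 636) (nat_lit 275)) (XT.lf (nat_lit 0) (nat_lit 19797922792) (nat_lit 1824) (nat_lit 17542192506) (nat_lit 1900) (nat_lit 9245063509) (nat_lit 470) (nat_lit 5) (nat_lit 494) (nat_lit 5) (nat_lit 495) (nat_lit 5) (nat_lit 650) (nat_lit 636) (nat_lit 274)))) (XT.nd (nat_lit 156) (nat_lit 0) (nat_lit 76) (XT.nd (nat_lit 78) (nat_lit 0) (nat_lit 0) (XT.lf (nat_lit 0) (nat_lit 2108782576) (nat_lit 1900) (nat_lit 9254600882) (nat_lit 1900) (nat_lit 9254600882) (nat_lit 463) (nat_lit 3) (nat_lit 488) (nat_lit 3) (nat_lit 488) (nat_lit 5) (nat_lit 637) (nat_lit 637) (nat_lit 286)) (XT.lf (nat_lit 76) (nat_lit 1884790078) (nat_lit 0) (nat_lit 2425874229) (nat_lit 1900) (nat_lit 37336642067) (nat_lit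 464) (nat_lit 5) (nat_lit 463) (nat_lit 3) (nat_lit 488) (nat_lit 5) (nat_lit 638) (nat_lit 637) (nat_lit 285))) (XT.nd (nat_lit 78) (nat_lit 0) (nat_lit 0) (XT.lf (nat_lit 0) (nat_lit 4648332151) (nat_lit 1824) (nat_lit 19246891112) (nat_lit 1900) (nat_lit 18166793514) (nat_lit 464) (nat_lit 5) (nat_lit 488) (nat_lit 5) (nat_lit 489) (nat_lit 5) (nat_lit 639) (nat_lit 637) (nat_lit 284)) (XT.lf (nat_lit 76) (nat_lit 1684536825) (nat_lit 0) (nat_lit 3334223998) (nat_lit 1900) (nat_lit 37465740506) (nat_lit 465) (nat_lit 5) (nat_lit 464) (nat_lit 5) (nat_lit 489) (nat_lit 5) (nat_lit 640) (nat_lit 637) (nat_lit 283))))))))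
noncomputable def xc255 : XT := (XT.nd (nat_lit 162630) (nat_lit 0) (nat_lit 0) (XT.nd (nat_lit 81198) (nat_lit 0) (nat_lit 0) (XT.nd (nat_lit 468) (nat_lit 152) (nat_lit 0) (XT.nd (nat_lit 234) (nat_lit 0) (nat_lit 76) (XT.nd (nat_lit 78) (nat_lit 0) (nat_lit 0) (XT.lf (nat_lit 0) (nat_lit 5640151628) (nat_lit 1824) (nat_lit 19733291735) (nat_lit 1900) (nat_lit 17537121225) (nat_lit 465) (nat_lit 5) (nat_lit 489) (nat_lit 5) (nat_lit 490) (nat_lit 5) (nat_lit 641) (nat_lit 637) (nat_lit 282)) (XT.nd (nat_lit 78) (nat_lit 0) (nat_lit 76) (XT.lf (nat_lit 76) (nat_lit 1755106597) (nat_lit 0) (nat_lit 4551382946) (nat_lit 1900) (nat_lit 37038009273) (nat_lit 466) (nat_lit 5) (nat_lit 465) (nat_lit 5) (nat_lit 490) (nat_lit 5) (nat_lit 642) (nat_lit 637) (nat_lit 281)) (XT.lf (nat_lit 0) (nat_lit 7226856657) (nat_lit 1824) (nat_lit 19953484660) (nat_lit 1900) (nat_lit 16601956446) (nat_lit 466) (nat_lit 5) (nat_lit 490) (nat_lit 5) (nat_lit 491) (nat_lit 5) (nat_lit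 643) (nat_lit 637) (nat_lit 280)))) (XT.nd (nat_lit 78) (nat_lit 0) (nat_lit 76) (XT.lf (nat_lit 76) (nat_lit 2112148288) (nat_lit 0) (nat_lit 6096417182) (nat_lit 1900) (nat_lit 36019428619) (nat_lit 467) (nat_lit 5) (nat_lit 466) (nat_lit 5) (nat_lit 491) (nat_lit 5) (nat_lit 644) (nat_lit 637) (nat_lit 279)) (XT.nd (nat_lit 78) (nat_lit 0) (nat_lit 0) (XT.lf (nat_lit 0) (nat_lit 9443836331) (nat_lit 1824) (nat_lit 19891860388) (nat_lit 1900) (nat_lit 15342229144) (nat_lit 467) (nat_lit 5) (nat_lit 491) (nat_lit 5) (nat_lit 492) (nat_lit 5) (nat_lit 645) (nat_lit 637) (nat_lit 278)) (XT.lf (nat_lit 76) (nat_lit 2772028673) (nat_lit 0) (nat_lit 7989269223) (nat_lit 1900) (nat_lit 34374408752) (nat_lit 468) (nat_lit 5) (nat_lit 467) (nat_lit 5) (nat_lit 492) (nat_lit 5) (nat_lit 646) (nat_lit 637) (nat_lit 277))))) (XT.nd (nat_lit 234) (nat_lit 380) (nat_lit 0) (XT.nd (nat_lit 78) (nat_lit 0) (nat_lit 0) (XT.lf (nat_lit 0) (nat_lit 12328102644) (nat_lit 1824) (nat_lit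 19532091884) (nat_lit 1900) (nat_lit 13737988722) (nat_lit 468) (nat_lit 5) (nat_lit 492) (nat_lit 5) (nat_lit 493) (nat_lit 5) (nat_lit 647) (nat_lit 637) (nat_lit 276)) (XT.nd (nat_lit 78) (nat_lit 0) (nat_lit 76) (XT.lf (nat_lit 76) (nat_lit 3751860432) (nat_lit 0) (nat_lit 10250798410) (nat_lit 1900) (nat_lit 32065722312) (nat_lit 469) (nat_lit 5) (nat_lit 468) (nat_lit 5) (nat_lit 493) (nat_lit 5) (nat_lit 648) (nat_lit 637) (nat_lit 275)) (XT.lf (nat_lit 0) (nat_lit 15918360047) (nat_lit 1824) (nat_lit 18857106538) (nat_lit 1900) (nat_lit 11768363428) (nat_lit 469) (nat_lit 5) (nat_lit 493) (nat_lit 5) (nat_lit 494) (nat_lit 5) (nat_lit 649) (nat_lit 637) (nat_lit 274)))) (XT.nd (nat_lit 80340) (nat_lit 0) (nat_lit 0) (XT.nd (nat_lit 80262) (nat_lit 456) (nat_lit 0) (XT.lf (nat_lit 76) (nat_lit 5069531233) (nat_lit 0) (nat_lit 12902822972) (nat_lit 1900) (nat_lit 29054434141) (nat_lit 470) (nat_lit 5) (nat_lit 469) (nat_lit 5) (nat_lit 494) (nat_lit 5) (nat_lit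 650) (nat_lit 637) (nat_lit 273)) (XT.lf (nat_lit 0) (nat_lit 2189393247) (nat_lit 1900) (nat_lit 9420089289) (nat_lit 1900) (nat_lit 9420089289) (nat_lit 463) (nat_lit 3) (nat_lit 488) (nat_lit 3) (nat_lit 488) (nat_lit 5) (nat_lit 638) (nat_lit 638) (nat_lit 284))) (XT.nd (nat_lit 78) (nat_lit 0) (nat_lit 76) (XT.lf (nat_lit 76) (nat_lit 1961435160) (nat_lit 0) (nat_lit 2511058100) (nat_lit 1900) (nat_lit 38006240058) (nat_lit 464) (nat_lit 5) (nat_lit 463) (nat_lit 3) (nat_lit 488) (nat_lit 5) (nat_lit 639) (nat_lit 638) (nat_lit 283)) (XT.lf (nat_lit 0) (nat_lit 4815198407) (nat_lit 1824) (nat_lit 19591920575) (nat_lit 1900) (nat_lit 18494653403) (nat_lit 464) (nat_lit 5) (nat_lit 488) (nat_lit 5) (nat_lit 489) (nat_lit 5) (nat_lit 640) (nat_lit 638) (nat_lit 282)))))) (XT.nd (nat_lit 546) (nat_lit 76) (nat_lit 0) (XT.nd (nat_lit 234) (nat_lit 0) (nat_lit 152) (XT.nd (nat_lit 78) (nat_lit 0) (nat_lit 76) (XT.lf (nat_lit 76) (nat_lit 1757873366) (nat_lit 0)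 (nat_lit 3433970681) (nat_lit 1900) (nat_lit 38140886545) (nat_lit 465) (nat_lit 5) (nat_lit 464) (nat_lit 5) (nat_lit 489) (nat_lit 5) (nat_lit 641) (nat_lit 638) (nat_lit 281)) (XT.nd (nat_lit 78) (nat_lit 0) (nat_lit 0) (XT.lf (nat_lit 0) (nat_lit 5824026569) (nat_lit 1824) (nat_lit 20087446561) (nat_lit 1900) (nat_lit 17855874839) (nat_lit 465) (nat_lit 5) (nat_lit 489) (nat_lit 5) (nat_lit 490) (nat_lit 5) (nat_lit 642) (nat_lit 638) (nat_lit 280)) (XT.lf (nat_lit 76) (nat_lit 1830453218) (nat_lit 0) (nat_lit 4672105751) (nat_lit 1900) (nat_lit 37707424684) (nat_lit 466) (nat_lit 5) (nat_lit 465) (nat_lit 5) (nat_lit 490) (nat_lit 5) (nat_lit 643) (nat_lit 638) (nat_lit 279)))) (XT.nd (nat_lit 156) (nat_lit 0) (nat_lit 76) (XT.nd (nat_lit 78) (nat_lit 0) (nat_lit 0) (XT.lf (nat_lit 0) (nat_lit 7439773040) (nat_lit 1824) (nat_lit 20311532364) (nat_lit 1900) (nat_lit 16905264508) (nat_lit 466) (nat_lit 5) (nat_lit 490) (nat_lit 5) (nat_lit 491) (nat_lit 5) (nat_lit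 644) (nat_lit 638) (nat_lit 278)) (XT.lf (nat_lit 76) (nat_lit 2195143361) (nat_lit 0) (nat_lit 6244896487) (nat_lit 1900) (nat_lit 36671161960) (nat_lit 467) (nat_lit 5) (nat_lit 466) (nat_lit 5) (nat_lit 491) (nat_lit 5) (nat_lit 645) (nat_lit 638) (nat_lit 277))) (XT.nd (nat_lit 78) (nat_lit 0) (nat_lit 0) (XT.lf (nat_lit 0) (nat_lit 9698527453) (nat_lit 1824) (nat_lit 20248249894) (nat_lit 1900) (nat_lit 15623384765) (nat_lit 467) (nat_lit 5) (nat_lit 491) (nat_lit 5) (nat_lit 492) (nat_lit 5) (nat_lit 646) (nat_lit 638) (nat_lit 276)) (XT.lf (nat_lit 76) (nat_lit 2868644266) (nat_lit 0) (nat_lit 8172670841) (nat_lit 1900) (nat_lit 34995803986) (nat_lit 468) (nat_lit 5) (nat_lit 467) (nat_lit 5) (nat_lit 492) (nat_lit 5) (nat_lit 647) (nat_lit 638) (nat_lit 275))))) (XT.nd (nat_lit 80574) (nat_lit 0) (nat_lit 0) (XT.nd (nat_lit 78) (nat_lit 380) (nat_lit 0) (XT.lf (nat_lit 0) (nat_lit 12638035207) (nat_lit 1824) (nat_lit 19880939565) (nat_lit 1900) (nat_lit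 13989898985) (nat_lit 468) (nat_lit 5) (nat_lit 492) (nat_lit 5) (nat_lit 493) (nat_lit 5) (nat_lit 648) (nat_lit 638) (nat_lit 274)) (XT.nd (nat_lit 80418) (nat_lit 380) (nat_lit 0) (XT.lf (nat_lit 76) (nat_lit 3868416836) (nat_lit 0) (nat_lit 10476692704) (nat_lit 1900) (nat_lit 32643385651) (nat_lit 469) (nat_lit 5) (nat_lit 468) (nat_lit 5) (nat_lit 493) (nat_lit 5) (nat_lit 649) (nat_lit 638) (nat_lit 273)) (XT.lf (nat_lit 0) (nat_lit 2270123652) (nat_lit 1900) (nat_lit 9589648695) (nat_lit 1900) (nat_lit 9589648695) (nat_lit 463) (nat_lit 3) (nat_lit 488) (nat_lit 3) (nat_lit 488) (nat_lit 5) (nat_lit 639) (nat_lit 639) (nat_lit 282)))) (XT.nd (nat_lit 156) (nat_lit 0) (nat_lit 76) (XT.nd (nat_lit 78) (nat_lit 0) (nat_lit 76) (XT.lf (nat_lit 76) (nat_lit 2038100696) (nat_lit 0) (nat_lit 2596521848) (nat_lit 1900) (nat_lit 38692225249) (nat_lit 464) (nat_lit 5) (nat_lit 463) (nat_lit 3) (nat_lit 488) (nat_lit 5) (nat_lit 640) (nat_lit 639) (nat_lit 281)) (XT.lf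 (nat_lit 0) (nat_lit 4982532376) (nat_lit 1824) (nat_lit 19945400317) (nat_lit 1900) (nat_lit 18830448066) (nat_lit 464) (nat_lit 5) (nat_lit 488) (nat_lit 5) (nat_lit 489) (nat_lit 5) (nat_lit 641) (nat_lit 639) (nat_lit 280))) (XT.nd (nat_lit 78) (nat_lit 0) (nat_lit 76) (XT.lf (nat_lit 76) (nat_lit 1831137142) (nat_lit 0) (nat_lit 3534428452) (nat_lit 1900) (nat_lit 38832415569) (nat_lit 465) (nat_lit 5) (nat_lit 464) (nat_lit 5) (nat_lit 489) (nat_lit 5) (nat_lit 642) (nat_lit 639) (nat_lit 279)) (XT.lf (nat_lit 0) (nat_lit 6008819199) (nat_lit 1824) (nat_lit 20450257575) (nat_lit 1900) (nat_lit 18182245690) (nat_lit 465) (nat_lit 5) (nat_lit 489) (nat_lit 5) (nat_lit 490) (nat_lit 5) (nat_lit 643) (nat_lit 639) (nat_lit 278))))))) (XT.nd (nat_lit 162162) (nat_lit 0) (nat_lit 0) (XT.nd (nat_lit 81042) (nat_lit 0) (nat_lit 76) (XT.nd (nat_lit 234) (nat_lit 152) (nat_lit 0) (XT.nd (nat_lit 78) (nat_lit 0) (nat_lit 76) (XT.lf (nat_lit 76) (nat_lit 1905744029)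 (nat_lit 0) (nat_lit 4794089913) (nat_lit 1900) (nat_lit 38392998808) (nat_lit 466) (nat_lit 5) (nat_lit 465) (nat_lit 5) (nat_lit 490) (nat_lit 5) (nat_lit 644) (nat_lit 639) (nat_lit 277)) (XT.nd (nat_lit 78) (nat_lit 0) (nat_lit 0) (XT.lf (nat_lit 0) (nat_lit 7654292500) (nat_lit 1824) (nat_lit 20678333956) (nat_lit 1900) (nat_lit 17215754394) (nat_lit 466) (nat_lit 5) (nat_lit 490) (nat_lit 5) (nat_lit 491) (nat_lit 5) (nat_lit 645) (nat_lit 639) (nat_lit 276)) (XT.lf (nat_lit 76) (nat_lit 2278215882) (nat_lit 0) (nat_lit 6395314372) (nat_lit 1900) (nat_lit 37338595935) (nat_lit 467) (nat_lit 5) (nat_lit 466) (nat_lit 5) (nat_lit 491) (nat_lit 5) (nat_lit 646) (nat_lit 639) (nat_lit 275)))) (XT.nd (nat_lit 80652) (nat_lit 304) (nat_lit 0) (XT.nd (nat_lit 78) (nat_lit 0) (nat_lit 0) (XT.lf (nat_lit 0) (nat_lit 9955756744) (nat_lit 1824) (nat_lit 20613376656) (nat_lit 1900) (nat_lit 15911161032) (nat_lit 467) (nat_lit 5) (nat_lit 491) (nat_lit 5) (nat_lit 492)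 (nat_lit 5) (nat_lit 647) (nat_lit 639) (nat_lit 274)) (XT.lf (nat_lit 76) (nat_lit 2965593294) (nat_lit 0) (nat_lit 8358823444) (nat_lit 1900) (nat_lit 35632193595) (nat_lit 468) (nat_lit 5) (nat_lit 467) (nat_lit 5) (nat_lit 492) (nat_lit 5) (nat_lit 648) (nat_lit 639) (nat_lit 273))) (XT.nd (nat_lit 78) (nat_lit 0) (nat_lit 0) (XT.lf (nat_lit 0) (nat_lit 2351034142) (nat_lit 1900) (nat_lit 9763330962) (nat_lit 1900) (nat_lit 9763330962) (nat_lit 463) (nat_lit 3) (nat_lit 488) (nat_lit 3) (nat_lit 488) (nat_lit 5) (nat_lit 640) (nat_lit 640) (nat_lit 280)) (XT.lf (nat_lit 76) (nat_lit 2114845825) (nat_lit 0) (nat_lit 2682326359) (nat_lit 1900) (nat_lit 39394809075) (nat_lit 464) (nat_lit 5) (nat_lit 463) (nat_lit 3) (nat_lit 488) (nat_lit 5) (nat_lit 641) (nat_lit 640) (nat_lit 279))))) (XT.nd (nat_lit 234) (nat_lit 0) (nat_lit 76) (XT.nd (nat_lit 78) (nat_lit 0) (nat_lit 0) (XT.lf (nat_lit 0) (nat_lit 5150454842) (nat_lit 1824) (nat_lit 20307439168) (nat_lit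 1900) (nat_lit 19174282705) (nat_lit 464) (nat_lit 5) (nat_lit 488) (nat_lit 5) (nat_lit 489) (nat_lit 5) (nat_lit 642) (nat_lit 640) (nat_lit 278)) (XT.nd (nat_lit 78) (nat_lit 0) (nat_lit 76) (XT.lf (nat_lit 76) (nat_lit 1904386480) (nat_lit 0) (nat_lit 3635661387) (nat_lit 1900) (nat_lit 39540543401) (nat_lit 465) (nat_lit 5) (nat_lit 464) (nat_lit 5) (nat_lit 489) (nat_lit 5) (nat_lit 643) (nat_lit 640) (nat_lit 277)) (XT.lf (nat_lit 0) (nat_lit 6194655040) (nat_lit 1824) (nat_lit 20821836816) (nat_lit 1900) (nat_lit 18516337888) (nat_lit 465) (nat_lit 5) (nat_lit 489) (nat_lit 5) (nat_lit 490) (nat_lit 5) (nat_lit 644) (nat_lit 640) (nat_lit 276)))) (XT.nd (nat_lit 156) (nat_lit 0) (nat_lit 76) (XT.nd (nat_lit 78) (nat_lit 0) (nat_lit 76) (XT.lf (nat_lit 76) (nat_lit 1981038596) (nat_lit 0) (nat_lit 4917405436) (nat_lit 1900) (nat_lit 39094947241) (nat_lit 466) (nat_lit 5) (nat_lit 465) (nat_lit 5) (nat_lit 490) (nat_lit 5) (nat_lit 645) (nat_lit 640) (nat_lit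 275)) (XT.lf (nat_lit 0) (nat_lit 7870550207) (nat_lit 1824) (nat_lit 21054002658) (nat_lit 1900) (nat_lit 17533526416) (nat_lit 466) (nat_lit 5) (nat_lit 490) (nat_lit 5) (nat_lit 491) (nat_lit 5) (nat_lit 646) (nat_lit 640) (nat_lit 274))) (XT.nd (nat_lit 78) (nat_lit 0) (nat_lit 76) (XT.lf (nat_lit 76) (nat_lit 2361428848) (nat_lit 0) (nat_lit 6547749644) (nat_lit 1900) (nat_lit 38021941033) (nat_lit 467) (nat_lit 5) (nat_lit 466) (nat_lit 5) (nat_lit 491) (nat_lit 5) (nat_lit 647) (nat_lit 640) (nat_lit 273)) (XT.lf (nat_lit 0) (nat_lit 10215674206) (nat_lit 1824) (nat_lit 20987352919) (nat_lit 1900) (nat_lit 16205651623) (nat_lit 467) (nat_lit 5) (nat_lit 491) (nat_lit 5) (nat_lit 492) (nat_lit 5) (nat_lit 648) (nat_lit 640) (nat_lit 272)))))) (XT.nd (nat_lit 81276) (nat_lit 0) (nat_lit 0) (XT.nd (nat_lit 234) (nat_lit 0) (nat_lit 76) (XT.nd (nat_lit 78) (nat_lit 0) (nat_lit 0) (XT.lf (nat_lit 0) (nat_lit 2432184022) (nat_lit 1900) (nat_lit 9941190135) (nat_lit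 1900) (nat_lit 9941190135) (nat_lit 463) (nat_lit 3) (nat_lit 488) (nat_lit 3) (nat_lit 488) (nat_lit 5) (nat_lit 641) (nat_lit 641) (nat_lit 278)) (XT.nd (nat_lit 78) (nat_lit 0) (nat_lit 76) (XT.lf (nat_lit 76) (nat_lit 2191728589) (nat_lit 0) (nat_lit 2768531588) (nat_lit 1900) (nat_lit 40114211716) (nat_lit 464) (nat_lit 5) (nat_lit 463) (nat_lit 3) (nat_lit 488) (nat_lit 5) (nat_lit 642) (nat_lit 641) (nat_lit 277)) (XT.lf (nat_lit 0) (nat_lit 5319084681) (nat_lit 1824) (nat_lit 20678150471) (nat_lit 1900) (nat_lit 19526266703) (nat_lit 464) (nat_lit 5) (nat_lit 488) (nat_lit 5) (nat_lit 489) (nat_lit 5) (nat_lit 643) (nat_lit 641) (nat_lit 276)))) (XT.nd (nat_lit 156) (nat_lit 0) (nat_lit 76) (XT.nd (nat_lit 78) (nat_lit 0) (nat_lit 76) (XT.lf (nat_lit 76) (nat_lit 1977678549) (nat_lit 0) (nat_lit 3737732905) (nat_lit 1900) (nat_lit 40265494523) (nat_lit 465) (nat_lit 5) (nat_lit 464) (nat_lit 5) (nat_lit 489) (nat_lit 5) (nat_lit 644) (nat_lit 641) (nat_lit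 275)) (XT.lf (nat_lit 0) (nat_lit 6381657961) (nat_lit 1824) (nat_lit 21202300936) (nat_lit 1900) (nat_lit 18858259498) (nat_lit 465) (nat_lit 5) (nat_lit 489) (nat_lit 5) (nat_lit 490) (nat_lit 5) (nat_lit 645) (nat_lit 641) (nat_lit 274))) (XT.nd (nat_lit 78) (nat_lit 0) (nat_lit 76) (XT.lf (nat_lit 76) (nat_lit 2056395323) (nat_lit 0) (nat_lit 5042121984) (nat_lit 1900) (nat_lit 39813494069) (nat_lit 466) (nat_lit 5) (nat_lit 465) (nat_lit 5) (nat_lit 490) (nat_lit 5) (nat_lit 646) (nat_lit 641) (nat_lit 273)) (XT.lf (nat_lit 0) (nat_lit 8088680028) (nat_lit 1824) (nat_lit 21438656359) (nat_lit 1900) (nat_lit 17858684579) (nat_lit 466) (nat_lit 5) (nat_lit 490) (nat_lit 5) (nat_lit 491) (nat_lit 5) (nat_lit 647) (nat_lit 641) (nat_lit 272))))) (XT.nd (nat_lit 234) (nat_lit 0) (nat_lit 0) (XT.nd (nat_lit 78) (nat_lit 0) (nat_lit 0) (XT.lf (nat_lit 0) (nat_lit 2513631622) (nat_lit 1900) (nat_lit 10123282444) (nat_lit 1900) (nat_lit 10123282444) (nat_lit 463) (nat_lit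 3) (nat_lit 488) (nat_lit 3) (nat_lit 488) (nat_lit 5) (nat_lit 642) (nat_lit 642) (nat_lit 276)) (XT.nd (nat_lit 78) (nat_lit 0) (nat_lit 76) (XT.lf (nat_lit 76) (nat_lit 2268805997) (nat_lit 0) (nat_lit 2855196628) (nat_lit 1900) (nat_lit 40850662098) (nat_lit 464) (nat_lit 5) (nat_lit 463) (nat_lit 3) (nat_lit 488) (nat_lit 5) (nat_lit 643) (nat_lit 642) (nat_lit 275)) (XT.lf (nat_lit 0) (nat_lit 5488538982) (nat_lit 1824) (nat_lit 21057652080) (nat_lit 1900) (nat_lit 19886513630) (nat_lit 464) (nat_lit 5) (nat_lit 488) (nat_lit 5) (nat_lit 489) (nat_lit 5) (nat_lit 644) (nat_lit 642) (nat_lit 274)))) (XT.nd (nat_lit 81120) (nat_lit 76) (nat_lit 0) (XT.nd (nat_lit 78) (nat_lit 0) (nat_lit 76) (XT.lf (nat_lit 76) (nat_lit 2051069433) (nat_lit 0) (nat_lit 3840705835) (nat_lit 1900) (nat_lit 41007502082) (nat_lit 465) (nat_lit 5) (nat_lit 464) (nat_lit 5) (nat_lit 489) (nat_lit 5) (nat_lit 645) (nat_lit 642) (nat_lit 273)) (XT.lf (nat_lit 0) (nat_lit 6569950309)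 (nat_lit 1824) (nat_lit 21591771198) (nat_lit 1900) (nat_lit 19208122546) (nat_lit 465) (nat_lit 5) (nat_lit 489) (nat_lit 5) (nat_lit 490) (nat_lit 5) (nat_lit 646) (nat_lit 642) (nat_lit 272))) (XT.nd (nat_lit 78) (nat_lit 0) (nat_lit 76) (XT.lf (nat_lit 76) (nat_lit 2346134093) (nat_lit 0) (nat_lit 2942379768) (nat_lit 1900) (nat_lit 41604397897) (nat_lit 464) (nat_lit 5) (nat_lit 463) (nat_lit 3) (nat_lit 488) (nat_lit 5) (nat_lit 644) (nat_lit 643) (nat_lit 273)) (XT.lf (nat_lit 0) (nat_lit 5658933184) (nat_lit 1824) (nat_lit 21446066366) (nat_lit 1900) (nat_lit 20255141242) (nat_lit 464) (nat_lit 5) (nat_lit 488) (nat_lit 5) (nat_lit 489) (nat_lit 5) (nat_lit 645) (nat_lit 643) (nat_lit 272))))))))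

set_option maxRecDepth 10000000 in
noncomputable def Tp : PT := (PT.nd (nat_lit 21778692) (PT.nd (nat_lit 19832748) (PT.nd (nat_lit 17967066) (PT.nd (nat_lit 16343652) (PT.nd (nat_lit 15044952) (PT.nd (nat_lit 14070966) (PT.nd (nat_lit 13421538) pc0 pc1) (PT.nd (nat_lit 567996) pc2 pc3)) (PT.nd (nat_lit 730314) (PT.nd (nat_lit 405600) pc4 pc5) (PT.nd (nat_lit 324480) pc6 pc7))) (PT.nd (nat_lit 973206) (PT.nd (nat_lit 487032) (PT.nd (nat_lit 243594) pc8 pc9) (PT.nd (nat_lit 243204) pc10 pc11)) (PT.nd (nat_lit 325338) (PT.nd (nat_lit 162708) pc12 pc13) (PT.nd (nat_lit 162552) pc14 pc15)))) (PT.nd (nat_lit 1055184) (PT.nd (nat_lit 568308) (PT.nd (nat_lit 324168) (PT.nd (nat_lit 162162) pc16 pc17) (PT.nd (nat_lit 161928) pc18 pc19)) (PT.nd (nat_lit 243594) (PT.nd (nat_lit 161538) pc20 pc21) (PT.nd (nat_lit 161382) pc22 pc23))) (PT.nd (nat_lit 405990) (PT.nd (nat_lit 242580) (PT.nd (nat_lit 160836) pc24 pc25) (PT.nd (nat_lit 81744) pc26 pc27)) (PT.nd (nat_lit 241878)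 (PT.nd (nat_lit 160446) pc28 pc29) (PT.nd (nat_lit 81354) pc30 pc31))))) (PT.nd (nat_lit 1057290) (PT.nd (nat_lit 569322) (PT.nd (nat_lit 324246) (PT.nd (nat_lit 162240) (PT.nd (nat_lit 81120) pc32 pc33) (PT.nd (nat_lit 81042) pc34 pc35)) (PT.nd (nat_lit 161694) (PT.nd (nat_lit 80886) pc36 pc37) (PT.nd (nat_lit 2652) pc38 pc39))) (PT.nd (nat_lit 244296) (PT.nd (nat_lit 161148) (PT.nd (nat_lit 80574) pc40 pc41) (PT.nd (nat_lit 80496) pc42 pc43)) (PT.nd (nat_lit 160758) (PT.nd (nat_lit 80418) pc44 pc45) (PT.nd (nat_lit 80262) pc46 pc47)))) (PT.nd (nat_lit 484458) (PT.nd (nat_lit 242658) (PT.nd (nat_lit 160134) (PT.nd (nat_lit 80106) pc48 pc49) (PT.nd (nat_lit 79872) pc50 pc51)) (PT.nd (nat_lit 159510) (PT.nd (nat_lit 79794) pc52 pc53) (PT.nd (nat_lit 2652) pc54 pc55))) (PT.nd (nat_lit 164112) (PT.nd (nat_lit 82134) (PT.nd (nat_lit 2652) pc56 pc57) (PT.nd (nat_lit 79326) pc58 pc59)) (PT.nd (nat_lit 81900) (PT.nd (nat_lit 79248) pc60 pc61) (PT.nd (nat_lit 79170) pc62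 pc63)))))) (PT.nd (nat_lit 1139112) (PT.nd (nat_lit 573144) (PT.nd (nat_lit 325260) (PT.nd (nat_lit 162864) (PT.nd (nat_lit 81432) (PT.nd (nat_lit 2574) pc64 pc65) (PT.nd (nat_lit 2652) pc66 pc67)) (PT.nd (nat_lit 81276) (PT.nd (nat_lit 2652) pc68 pc69) (PT.nd (nat_lit 2652) pc70 pc71))) (PT.nd (nat_lit 161850) (PT.nd (nat_lit 80964) (PT.nd (nat_lit 2574) pc72 pc73) (PT.nd (nat_lit 2652) pc74 pc75)) (PT.nd (nat_lit 80730) (PT.nd (nat_lit 2652) pc76 pc77) (PT.nd (nat_lit 2652) pc78 pc79)))) (PT.nd (nat_lit 321282) (PT.nd (nat_lit 160914) (PT.nd (nat_lit 80496) (PT.nd (nat_lit 77844) pc80 pc81) (PT.nd (nat_lit 77766) pc82 pc83)) (PT.nd (nat_lit 80262) (PT.nd (nat_lit 77610) pc84 pc85) (PT.nd (nat_lit 2652) pc86 pc87))) (PT.nd (nat_lit 159744) (PT.nd (nat_lit 79950) (PT.nd (nat_lit 2652) pc88 pc89) (PT.nd (nat_lit 2652) pc90 pc91)) (PT.nd (nat_lit 5304) (PT.nd (nat_lit 2652) pc92 pc93) (PT.nd (nat_lit 76986) pc94 pc95))))) (PT.nd (nat_lit 651456) (PT.nd (nat_lit 244920)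 (PT.nd (nat_lit 158730) (PT.nd (nat_lit 79404) (PT.nd (nat_lit 2574) pc96 pc97) (PT.nd (nat_lit 2652) pc98 pc99)) (PT.nd (nat_lit 5304) (PT.nd (nat_lit 2652) pc100 pc101) (PT.nd (nat_lit 76518) pc102 pc103))) (PT.nd (nat_lit 163566) (PT.nd (nat_lit 81510) (PT.nd (nat_lit 76284) pc104 pc105) (PT.nd (nat_lit 76128) pc106 pc107)) (PT.nd (nat_lit 155610) (PT.nd (nat_lit 75972) pc108 pc109) (PT.nd (nat_lit 7020) pc110 pc111)))) (PT.nd (nat_lit 642174) (PT.nd (nat_lit 244920) (PT.nd (nat_lit 155766) (PT.nd (nat_lit 75348) pc112 pc113) (PT.nd (nat_lit 80574) pc114 pc115)) (PT.nd (nat_lit 162630) (PT.nd (nat_lit 81198) pc116 pc117) (PT.nd (nat_lit 153114) pc118 pc119))) (PT.nd (nat_lit 485940) (PT.nd (nat_lit 171444) (PT.nd (nat_lit 81510) pc120 pc121) (PT.nd (nat_lit 152958) pc122 pc123)) (PT.nd (nat_lit 324324) (PT.nd (nat_lit 162084) pc124 pc125) (PT.nd (nat_lit 173940) pc126 pc127)))))))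

set_option maxRecDepth 10000000 in
noncomputable def Tx : XT := (XT.nd (nat_lit 36995868) (nat_lit 0) (nat_lit 988) XT.nil (XT.nd (nat_lit 15264834) (nat_lit 0) (nat_lit 0) (XT.nd (nat_lit 7057596) (nat_lit 0) (nat_lit 5396) (XT.nd (nat_lit 4707222) (nat_lit 0) (nat_lit 3192) (XT.nd (nat_lit 3323580) (nat_lit 0) (nat_lit 1444) (XT.nd (nat_lit 2272530) (nat_lit 0) (nat_lit 684) (XT.nd (nat_lit 1620840) (nat_lit 0) (nat_lit 380) (XT.nd (nat_lit 1055262) (nat_lit 0) (nat_lit 76) (XT.nd (nat_lit 730080) (nat_lit 0) (nat_lit 0) (XT.nd (nat_lit 486720) (nat_lit 0) (nat_lit 0) xc0 xc1) (XT.nd (nat_lit 162864) (nat_lit 0) (nat_lit 76) xc2 xc3)) (XT.nd (nat_lit 322842) (nat_lit 0) (nat_lit 228) (XT.nd (nat_lit 161616) (nat_lit 0) (nat_lit 228) xc4 xc5) (XT.nd (nat_lit 82446) (nat_lit 0) (nat_lit 76) xc6 xc7))) (XT.nd (nat_lit 327054) (nat_lit 0) (nat_lit 228) (XT.nd (nat_lit 163800) (nat_lit 0) (nat_lit 228) (XT.nd (nat_lit 81978) (nat_lit 0) (nat_lit 0) xc8 xc9) (XT.nd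 (nat_lit 81666) (nat_lit 0) (nat_lit 0) xc10 xc11)) (XT.nd (nat_lit 162630) (nat_lit 0) (nat_lit 76) (XT.nd (nat_lit 81354) (nat_lit 0) (nat_lit 0) xc12 xc13) (XT.nd (nat_lit 81042) (nat_lit 0) (nat_lit 0) xc14 xc15)))) (XT.nd (nat_lit 566358) (nat_lit 0) (nat_lit 532) (XT.nd (nat_lit 322062) (nat_lit 0) (nat_lit 228) (XT.nd (nat_lit 161304) (nat_lit 0) (nat_lit 152) (XT.nd (nat_lit 80730) (nat_lit 0) (nat_lit 0) xc16 xc17) (XT.nd (nat_lit 80418) (nat_lit 0) (nat_lit 76) xc18 xc19)) (XT.nd (nat_lit 84396) (nat_lit 0) (nat_lit 76) (XT.nd (nat_lit 80106) (nat_lit 0) (nat_lit 988) xc20 xc21) (XT.nd (nat_lit 79950) (nat_lit 0) (nat_lit 152) xc22 xc23))) (XT.nd (nat_lit 243048) (nat_lit 0) (nat_lit 76) (XT.nd (nat_lit 84006) (nat_lit 0) (nat_lit 0) (XT.nd (nat_lit 79716) (nat_lit 0) (nat_lit 456) xc24 xc25) (XT.nd (nat_lit 79560) (nat_lit 0) (nat_lit 76) xc26 xc27)) (XT.nd (nat_lit 83538) (nat_lit 0) (nat_lit 152) (XT.nd (nat_lit 79248) (nat_lit 0) (nat_lit 2432) xc28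 xc29) (XT.nd (nat_lit 79092) (nat_lit 0) (nat_lit 0) xc30 xc31))))) (XT.nd (nat_lit 733668) (nat_lit 0) (nat_lit 912) (XT.nd (nat_lit 405210) (nat_lit 0) (nat_lit 608) (XT.nd (nat_lit 165906) (nat_lit 0) (nat_lit 228) (XT.nd (nat_lit 82992) (nat_lit 0) (nat_lit 228) (XT.nd (nat_lit 4212) (nat_lit 2508) (nat_lit 0) xc32 xc33) (XT.nd (nat_lit 78624) (nat_lit 0) (nat_lit 4332) xc34 xc35)) (XT.nd (nat_lit 82758) (nat_lit 0) (nat_lit 152) (XT.nd (nat_lit 78468) (nat_lit 0) (nat_lit 912) xc36 xc37) (XT.nd (nat_lit 78312) (nat_lit 0) (nat_lit 0) xc38 xc39))) (XT.nd (nat_lit 164502) (nat_lit 0) (nat_lit 152) (XT.nd (nat_lit 82290) (nat_lit 0) (nat_lit 0) (XT.nd (nat_lit 4212) (nat_lit 4180) (nat_lit 0) xc40 xc41) (XT.nd (nat_lit 4212) (nat_lit 1900) (nat_lit 0) xc42 xc43)) (XT.nd (nat_lit 82056) (nat_lit 0) (nat_lit 0) (XT.nd (nat_lit 77766) (nat_lit 0) (nat_lit 8436) xc44 xc45) (XT.nd (nat_lit 77610) (nat_lit 0) (nat_lit 6232) xc46 xc47)))) (XT.nd (nat_lit 326196) (nat_lit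 0) (nat_lit 380) (XT.nd (nat_lit 163332) (nat_lit 0) (nat_lit 228) (XT.nd (nat_lit 81666) (nat_lit 0) (nat_lit 76) (XT.nd (nat_lit 77454) (nat_lit 0) (nat_lit 4788) xc48 xc49) (XT.nd (nat_lit 77376) (nat_lit 0) (nat_lit 3496) xc50 xc51)) (XT.nd (nat_lit 81510) (nat_lit 0) (nat_lit 0) (XT.nd (nat_lit 77220) (nat_lit 0) (nat_lit 2812) xc52 xc53) (XT.nd (nat_lit 77064) (nat_lit 0) (nat_lit 2584) xc54 xc55))) (XT.nd (nat_lit 162240) (nat_lit 0) (nat_lit 304) (XT.nd (nat_lit 81198) (nat_lit 0) (nat_lit 0) (XT.nd (nat_lit 76908) (nat_lit 0) (nat_lit 2432) xc56 xc57) (XT.nd (nat_lit 76752) (nat_lit 0) (nat_lit 2964) xc58 xc59)) (XT.nd (nat_lit 80886) (nat_lit 0) (nat_lit 0) (XT.nd (nat_lit 76596) (nat_lit 0) (nat_lit 3496) xc60 xc61) (XT.nd (nat_lit 76362) (nat_lit 0) (nat_lit 5092) xc62 xc63)))))) (XT.nd (nat_lit 1137396) (nat_lit 0) (nat_lit 1444) (XT.nd (nat_lit 569478) (nat_lit 0) (nat_lit 912) (XT.nd (nat_lit 321438) (nat_lit 0) (nat_lit 684) (XT.nd (nat_lit 160914)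 (nat_lit 0) (nat_lit 456) (XT.nd (nat_lit 80496) (nat_lit 0) (nat_lit 304) (XT.nd (nat_lit 76284) (nat_lit 0) (nat_lit 7448) xc64 xc65) (XT.nd (nat_lit 76128) (nat_lit 0) (nat_lit 10108) xc66 xc67)) (XT.nd (nat_lit 80340) (nat_lit 0) (nat_lit 0) (XT.nd (nat_lit 76050) (nat_lit 0) (nat_lit 14060) xc68 xc69) (XT.nd (nat_lit 4212) (nat_lit 456) (nat_lit 0) xc70 xc71))) (XT.nd (nat_lit 159822) (nat_lit 0) (nat_lit 228) (XT.nd (nat_lit 79950) (nat_lit 0) (nat_lit 76) (XT.nd (nat_lit 4212) (nat_lit 2660) (nat_lit 0) xc72 xc73) (XT.nd (nat_lit 4212) (nat_lit 6232) (nat_lit 0) xc74 xc75)) (XT.nd (nat_lit 79716) (nat_lit 0) (nat_lit 2128) (XT.nd (nat_lit 4212) (nat_lit 11400) (nat_lit 0) xc76 xc77) (XT.nd (nat_lit 4212) (nat_lit 17252) (nat_lit 0) xc78 xc79)))) (XT.nd (nat_lit 319254) (nat_lit 0) (nat_lit 532) (XT.nd (nat_lit 159432) (nat_lit 0) (nat_lit 228) (XT.nd (nat_lit 79638) (nat_lit 0) (nat_lit 0) (XT.nd (nat_lit 75426) (nat_lit 0) (nat_lit 6916) xc80 xc81) (XT.nd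 (nat_lit 75504) (nat_lit 0) (nat_lit 12464) xc82 xc83)) (XT.nd (nat_lit 79872) (nat_lit 0) (nat_lit 0) (XT.nd (nat_lit 75582) (nat_lit 0) (nat_lit 19836) xc84 xc85) (XT.nd (nat_lit 4212) (nat_lit 2432) (nat_lit 0) xc86 xc87))) (XT.nd (nat_lit 160056) (nat_lit 0) (nat_lit 0) (XT.nd (nat_lit 80028) (nat_lit 0) (nat_lit 0) (XT.nd (nat_lit 4212) (nat_lit 5928) (nat_lit 0) xc88 xc89) (XT.nd (nat_lit 4212) (nat_lit 10336) (nat_lit 0) xc90 xc91)) (XT.nd (nat_lit 8502) (nat_lit 1064) (nat_lit 0) (XT.nd (nat_lit 4212) (nat_lit 15656) (nat_lit 0) xc92 xc93) (XT.nd (nat_lit 75816) (nat_lit 0) (nat_lit 3800) xc94 xc95))))) (XT.nd (nat_lit 569790) (nat_lit 0) (nat_lit 228) (XT.nd (nat_lit 320580) (nat_lit 0) (nat_lit 0) (XT.nd (nat_lit 160212) (nat_lit 0) (nat_lit 0) (XT.nd (nat_lit 80028) (nat_lit 0) (nat_lit 228) (XT.nd (nat_lit 75816) (nat_lit 0) (nat_lit 7980) xc96 xc97) (XT.nd (nat_lit 75894) (nat_lit 0) (nat_lit 11628) xc98 xc99)) (XT.nd (nat_lit 80184) (nat_lit 0) (nat_lit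 0) (XT.nd (nat_lit 75894) (nat_lit 0) (nat_lit 17404) xc100 xc101) (XT.nd (nat_lit 4212) (nat_lit 1900) (nat_lit 0) xc102 xc103))) (XT.nd (nat_lit 160446) (nat_lit 0) (nat_lit 228) (XT.nd (nat_lit 80184) (nat_lit 0) (nat_lit 228) (XT.nd (nat_lit 4212) (nat_lit 4408) (nat_lit 0) xc104 xc105) (XT.nd (nat_lit 4212) (nat_lit 7752) (nat_lit 0) xc106 xc107)) (XT.nd (nat_lit 80262) (nat_lit 0) (nat_lit 1292) (XT.nd (nat_lit 4212) (nat_lit 11628) (nat_lit 0) xc108 xc109) (XT.nd (nat_lit 4212) (nat_lit 15124) (nat_lit 0) xc110 xc111)))) (XT.nd (nat_lit 321282) (nat_lit 0) (nat_lit 228) (XT.nd (nat_lit 160524) (nat_lit 0) (nat_lit 0) (XT.nd (nat_lit 80184) (nat_lit 0) (nat_lit 0) (XT.nd (nat_lit 75972) (nat_lit 0) (nat_lit 3876) xc112 xc113) (XT.nd (nat_lit 76050) (nat_lit 0) (nat_lit 6916) xc114 xc115)) (XT.nd (nat_lit 80340) (nat_lit 0) (nat_lit 228) (XT.nd (nat_lit 76050) (nat_lit 0) (nat_lit 10108) xc116 xc117) (XT.nd (nat_lit 76128) (nat_lit 0) (nat_lit 13604) xc118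 xc119))) (XT.nd (nat_lit 160836) (nat_lit 0) (nat_lit 76) (XT.nd (nat_lit 80418) (nat_lit 0) (nat_lit 0) (XT.nd (nat_lit 4212) (nat_lit 76) (nat_lit 0) xc120 xc121) (XT.nd (nat_lit 4212) (nat_lit 2052) (nat_lit 0) xc122 xc123)) (XT.nd (nat_lit 80496) (nat_lit 0) (nat_lit 228) (XT.nd (nat_lit 4212) (nat_lit 4180) (nat_lit 0) xc124 xc125) (XT.nd (nat_lit 4212) (nat_lit 6384) (nat_lit 0) xc126 xc127))))))) (XT.nd (nat_lit 2682186) (nat_lit 0) (nat_lit 5092) (XT.nd (nat_lit 1222650) (nat_lit 0) (nat_lit 1672) (XT.nd (nat_lit 573456) (nat_lit 0) (nat_lit 532) (XT.nd (nat_lit 250302) (nat_lit 0) (nat_lit 228) (XT.nd (nat_lit 161148) (nat_lit 0) (nat_lit 0) (XT.nd (nat_lit 80496) (nat_lit 0) (nat_lit 0) (XT.nd (nat_lit 4212) (nat_lit 8588) (nat_lit 0) xc128 xc129) (XT.nd (nat_lit 4212) (nat_lit 11628) (nat_lit 0) xc130 xc131)) (XT.nd (nat_lit 8502) (nat_lit 304) (nat_lit 0) (XT.nd (nat_lit 4212) (nat_lit 14288) (nat_lit 0) xc132 xc133) (XT.nd (nat_lit 76362) (nat_lit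 0) (nat_lit 1748) xc134 xc135))) (XT.nd (nat_lit 161460) (nat_lit 0) (nat_lit 0) (XT.nd (nat_lit 80652) (nat_lit 0) (nat_lit 0) (XT.nd (nat_lit 76440) (nat_lit 0) (nat_lit 3116) xc136 xc137) (XT.nd (nat_lit 76518) (nat_lit 0) (nat_lit 4484) xc138 xc139)) (XT.nd (nat_lit 80808) (nat_lit 0) (nat_lit 304) (XT.nd (nat_lit 76518) (nat_lit 0) (nat_lit 5700) xc140 xc141) (XT.nd (nat_lit 76596) (nat_lit 0) (nat_lit 6688) xc142 xc143)))) (XT.nd (nat_lit 324090) (nat_lit 0) (nat_lit 608) (XT.nd (nat_lit 161928) (nat_lit 0) (nat_lit 228) (XT.nd (nat_lit 80886) (nat_lit 0) (nat_lit 228) (XT.nd (nat_lit 76674) (nat_lit 0) (nat_lit 8056) xc144 xc145) (XT.nd (nat_lit 76752) (nat_lit 0) (nat_lit 8740) xc146 xc147)) (XT.nd (nat_lit 81042) (nat_lit 0) (nat_lit 304) (XT.nd (nat_lit 76752) (nat_lit 0) (nat_lit 9804) xc148 xc149) (XT.nd (nat_lit 76830) (nat_lit 0) (nat_lit 9956) xc150 xc151))) (XT.nd (nat_lit 162474) (nat_lit 0) (nat_lit 228) (XT.nd (nat_lit 81198) (nat_lit 0) (nat_lit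 228) (XT.nd (nat_lit 76908) (nat_lit 0) (nat_lit 10412) xc152 xc153) (XT.nd (nat_lit 76986) (nat_lit 0) (nat_lit 10184) xc154 xc155)) (XT.nd (nat_lit 81276) (nat_lit 0) (nat_lit 0) (XT.nd (nat_lit 76986) (nat_lit 0) (nat_lit 9652) xc156 xc157) (XT.nd (nat_lit 77064) (nat_lit 0) (nat_lit 9652) xc158 xc159))))) (XT.nd (nat_lit 726804) (nat_lit 0) (nat_lit 1596) (XT.nd (nat_lit 326118) (nat_lit 0) (nat_lit 608) (XT.nd (nat_lit 162864) (nat_lit 0) (nat_lit 304) (XT.nd (nat_lit 81354) (nat_lit 0) (nat_lit 76) (XT.nd (nat_lit 77142) (nat_lit 0) (nat_lit 8892) xc160 xc161) (XT.nd (nat_lit 77220) (nat_lit 0) (nat_lit 7752) xc162 xc163)) (XT.nd (nat_lit 81588) (nat_lit 0) (nat_lit 304) (XT.nd (nat_lit 77298) (nat_lit 0) (nat_lit 6536) xc164 xc165) (XT.nd (nat_lit 77376) (nat_lit 0) (nat_lit 4864) xc166 xc167))) (XT.nd (nat_lit 163488) (nat_lit 0) (nat_lit 304) (XT.nd (nat_lit 81744) (nat_lit 0) (nat_lit 0) (XT.nd (nat_lit 77454) (nat_lit 0) (nat_lit 3268) xc168 xc169) (XT.nd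 (nat_lit 77454) (nat_lit 0) (nat_lit 2052) xc170 xc171)) (XT.nd (nat_lit 155220) (nat_lit 0) (nat_lit 380) (XT.nd (nat_lit 77532) (nat_lit 0) (nat_lit 76) xc172 xc173) (XT.nd (nat_lit 4212) (nat_lit 12844) (nat_lit 0) xc174 xc175)))) (XT.nd (nat_lit 328614) (nat_lit 0) (nat_lit 684) (XT.nd (nat_lit 164112) (nat_lit 0) (nat_lit 380) (XT.nd (nat_lit 81978) (nat_lit 0) (nat_lit 0) (XT.nd (nat_lit 4212) (nat_lit 9424) (nat_lit 0) xc176 xc177) (XT.nd (nat_lit 4212) (nat_lit 6688) (nat_lit 0) xc178 xc179)) (XT.nd (nat_lit 82212) (nat_lit 0) (nat_lit 0) (XT.nd (nat_lit 4212) (nat_lit 3116) (nat_lit 0) xc180 xc181) (XT.nd (nat_lit 4212) (nat_lit 304) (nat_lit 0) xc182 xc183))) (XT.nd (nat_lit 164814) (nat_lit 0) (nat_lit 456) (XT.nd (nat_lit 82368) (nat_lit 0) (nat_lit 0) (XT.nd (nat_lit 78078) (nat_lit 0) (nat_lit 7068) xc184 xc185) (XT.nd (nat_lit 78156) (nat_lit 0) (nat_lit 2812) xc186 xc187)) (XT.nd (nat_lit 156624) (nat_lit 0) (nat_lit 304) (XT.nd (nat_lit 78234)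 (nat_lit 0) (nat_lit 304) xc188 xc189) (XT.nd (nat_lit 4212) (nat_lit 8512) (nat_lit 0) xc190 xc191)))))) (XT.nd (nat_lit 1787760) (nat_lit 0) (nat_lit 5928) (XT.nd (nat_lit 813930) (nat_lit 0) (nat_lit 2508) (XT.nd (nat_lit 405990) (nat_lit 0) (nat_lit 1216) (XT.nd (nat_lit 165516) (nat_lit 0) (nat_lit 456) (XT.nd (nat_lit 82680) (nat_lit 0) (nat_lit 0) (XT.nd (nat_lit 4212) (nat_lit 2584) (nat_lit 0) xc192 xc193) (XT.nd (nat_lit 78546) (nat_lit 0) (nat_lit 7600) xc194 xc195)) (XT.nd (nat_lit 82914) (nat_lit 0) (nat_lit 380) (XT.nd (nat_lit 78624) (nat_lit 0) (nat_lit 836) xc196 xc197) (XT.nd (nat_lit 78702) (nat_lit 0) (nat_lit 0) xc198 xc199))) (XT.nd (nat_lit 166296) (nat_lit 0) (nat_lit 456) (XT.nd (nat_lit 83070) (nat_lit 0) (nat_lit 76) (XT.nd (nat_lit 4212) (nat_lit 2736) (nat_lit 0) xc200 xc201) (XT.nd (nat_lit 78936) (nat_lit 0) (nat_lit 4636) xc202 xc203)) (XT.nd (nat_lit 158184) (nat_lit 0) (nat_lit 380) (XT.nd (nat_lit 79014) (nat_lit 0) (nat_lit 380)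 xc204 xc205) (XT.nd (nat_lit 4212) (nat_lit 4408) (nat_lit 0) xc206 xc207)))) (XT.nd (nat_lit 485316) (nat_lit 0) (nat_lit 1444) (XT.nd (nat_lit 242268) (nat_lit 0) (nat_lit 456) (XT.nd (nat_lit 83460) (nat_lit 0) (nat_lit 76) (XT.nd (nat_lit 79248) (nat_lit 0) (nat_lit 3420) xc208 xc209) (XT.nd (nat_lit 79326) (nat_lit 0) (nat_lit 380) xc210 xc211)) (XT.nd (nat_lit 83772) (nat_lit 0) (nat_lit 456) (XT.nd (nat_lit 4212) (nat_lit 988) (nat_lit 0) xc212 xc213) (XT.nd (nat_lit 79560) (nat_lit 0) (nat_lit 456) xc214 xc215))) (XT.nd (nat_lit 243828) (nat_lit 0) (nat_lit 1444) (XT.nd (nat_lit 84006) (nat_lit 0) (nat_lit 456) (XT.nd (nat_lit 4212) (nat_lit 3040) (nat_lit 0) xc216 xc217) (XT.nd (nat_lit 79794) (nat_lit 0) (nat_lit 456) xc218 xc219)) (XT.nd (nat_lit 84318) (nat_lit 0) (nat_lit 76) (XT.nd (nat_lit 4212) (nat_lit 1596) (nat_lit 0) xc220 xc221) (XT.nd (nat_lit 80106) (nat_lit 0) (nat_lit 456) xc222 xc223))))) (XT.nd (nat_lit 1218282) (nat_lit 0) (nat_lit 6764)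 (XT.nd (nat_lit 568152) (nat_lit 0) (nat_lit 2812) (XT.nd (nat_lit 245310) (nat_lit 0) (nat_lit 1064) (XT.nd (nat_lit 84474) (nat_lit 0) (nat_lit 532) (XT.nd (nat_lit 80262) (nat_lit 0) (nat_lit 1672) xc224 xc225) (XT.nd (nat_lit 80340) (nat_lit 0) (nat_lit 0) xc226 xc227)) (XT.nd (nat_lit 161226) (nat_lit 0) (nat_lit 1140) (XT.nd (nat_lit 80496) (nat_lit 0) (nat_lit 608) xc228 xc229) (XT.nd (nat_lit 80730) (nat_lit 0) (nat_lit 0) xc230 xc231))) (XT.nd (nat_lit 324324) (nat_lit 0) (nat_lit 1900) (XT.nd (nat_lit 161928) (nat_lit 0) (nat_lit 1292) (XT.nd (nat_lit 80886) (nat_lit 0) (nat_lit 0) xc232 xc233) (XT.nd (nat_lit 81120) (nat_lit 0) (nat_lit 0) xc234 xc235)) (XT.nd (nat_lit 162708) (nat_lit 0) (nat_lit 684) (XT.nd (nat_lit 81276) (nat_lit 0) (nat_lit 0) xc236 xc237) (XT.nd (nat_lit 81432) (nat_lit 0) (nat_lit 684) xc238 xc239)))) (XT.nd (nat_lit 812916) (nat_lit 0) (nat_lit 5396) (XT.nd (nat_lit 327288) (nat_lit 0) (nat_lit 1520) (XT.nd (nat_lit 163410) (nat_lit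 0) (nat_lit 684) (XT.nd (nat_lit 81666) (nat_lit 0) (nat_lit 0) xc240 xc241) (XT.nd (nat_lit 81822) (nat_lit 0) (nat_lit 760) xc242 xc243)) (XT.nd (nat_lit 242346) (nat_lit 0) (nat_lit 2204) (XT.nd (nat_lit 159978) (nat_lit 0) (nat_lit 1444) xc244 xc245) (XT.nd (nat_lit 82368) (nat_lit 0) (nat_lit 0) xc246 xc247))) (XT.nd (nat_lit 568542) (nat_lit 0) (nat_lit 4560) (XT.nd (nat_lit 244218) (nat_lit 0) (nat_lit 1748) (XT.nd (nat_lit 82680) (nat_lit 0) (nat_lit 76) xc248 xc249) (XT.nd (nat_lit 161928) (nat_lit 0) (nat_lit 1824) xc250 xc251)) (XT.nd (nat_lit 405834) (nat_lit 0) (nat_lit 1064) (XT.nd (nat_lit 162786) (nat_lit 0) (nat_lit 1064) xc252 xc253) (XT.nd (nat_lit 244140) (nat_lit 0) (nat_lit 0) xc254 xc255)))))))) XT.nil))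

set_option maxRecDepth 10000000 in
noncomputable def Te : XT := XT.nil

set_option maxRecDepth 10000000 in
noncomputable def Tz : ZL := (ZL.cons (nat_lit 76) (nat_lit 6) (nat_lit 410381207423445202908) (ZL.cons (nat_lit 152) (nat_lit 3) (nat_lit 203176951640280439554) (ZL.cons (nat_lit 836) (nat_lit 3) (nat_lit 107641157176562376886) (ZL.cons (nat_lit 988) (nat_lit 6) (nat_lit 213306477057289313716) (ZL.cons (nat_lit 1064) (nat_lit 6) (nat_lit 211372963810412383056) (ZL.cons (nat_lit 1140) (nat_lit 3) (nat_lit 105666224282712325637) (ZL.cons (nat_lit 1292) (nat_lit 6) (nat_lit 209400780298597913782) (ZL.cons (nat_lit 1368) (nat_lit 6) (nat_lit 207510714739841718200) (ZL.cons (nat_lit 1444) (nat_lit 3) (nat_lit 103735496955711186659) (ZL.cons (nat_lit 1596) (nat_lit 6) (nat_lit 205582847869910398706) (ZL.cons (nat_lit 1672) (nat_lit 6) (nat_lit 203735601724633946034) (ZL.cons (nat_lit 1748) (nat_lit 3) (nat_lit 101848329867993764742) (ZL.cons (nat_lit 1824) (nat_lit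 6) (nat_lit 201928531065339965716) (ZL.cons (nat_lit 1900) (nat_lit 6) (nat_lit 201851410656451964312) (ZL.cons (nat_lit 1976) (nat_lit 6) (nat_lit 200046377004213689240) (ZL.cons (nat_lit 2052) (nat_lit 3) (nat_lit 100004099291986052193) (ZL.cons (nat_lit 2128) (nat_lit 6) (nat_lit 198280850922938493182) (ZL.cons (nat_lit 2204) (nat_lit 6) (nat_lit 198205242678930648666) (ZL.cons (nat_lit 2280) (nat_lit 6) (nat_lit 196441835899796208348) (ZL.cons (nat_lit 2356) (nat_lit 3) (nat_lit 98202203038014974343) (ZL.cons (nat_lit 2432) (nat_lit 6) (nat_lit 194717286714498534628) (ZL.cons (nat_lit 2508) (nat_lit 6) (nat_lit 194643160985079079222) (ZL.cons (nat_lit 2660) (nat_lit 6) (nat_lit 192920816721728647774) (ZL.cons (nat_lit 2736) (nat_lit 3) (nat_lit 96442060408037726015) (ZL.cons (nat_lit 2812) (nat_lit 6) (nat_lit 191236697856855771824) (ZL.cons (nat_lit 2888) (nat_lit 6) (nat_lit 191164025573111207700) (ZL.cons (nat_lit 3040) (nat_lit 6) (nat_lit 189482200709032242608)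 (ZL.cons (nat_lit 3116) (nat_lit 3) (nat_lit 94723112165470437114) (ZL.cons (nat_lit 3192) (nat_lit 6) (nat_lit 187837986684676172844) (ZL.cons (nat_lit 3268) (nat_lit 6) (nat_lit 187766739347671698212) (ZL.cons (nat_lit 3344) (nat_lit 6) (nat_lit 186230738710229525442) (ZL.cons (nat_lit 3420) (nat_lit 6) (nat_lit 186124912001741613306) (ZL.cons (nat_lit 3496) (nat_lit 3) (nat_lit 93044820521414253527) (ZL.cons (nat_lit 3572) (nat_lit 6) (nat_lit 184520098439289470460) (ZL.cons (nat_lit 3648) (nat_lit 6) (nat_lit 184450248108892926704) (ZL.cons (nat_lit 3724) (nat_lit 6) (nat_lit 182951669321663327656) (ZL.cons (nat_lit 3800) (nat_lit 6) (nat_lit 182847917646675178504) (ZL.cons (nat_lit 3876) (nat_lit 3) (nat_lit 91406669137595870500) (ZL.cons (nat_lit 4028) (nat_lit 6) (nat_lit 181282021291288118240) (ZL.cons (nat_lit 4104) (nat_lit 6) (nat_lit 181213540575213075340) (ZL.cons (nat_lit 4180) (nat_lit 6) (nat_lit 179751944965729633334) (ZL.cons (nat_lit 4256) (nat_lit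 6) (nat_lit 179650227637309879264) (ZL.cons (nat_lit 4332) (nat_lit 3) (nat_lit 89808163146359136934) (ZL.cons (nat_lit 4484) (nat_lit 6) (nat_lit 178122786397584935832) (ZL.cons (nat_lit 4560) (nat_lit 6) (nat_lit 178055648440648619266) (ZL.cons (nat_lit 4636) (nat_lit 6) (nat_lit 176630617859473647030) (ZL.cons (nat_lit 4712) (nat_lit 6) (nat_lit 176530894988473888138) (ZL.cons (nat_lit 4788) (nat_lit 3) (nat_lit 88248829188064588484) (ZL.cons (nat_lit 4864) (nat_lit 6) (nat_lit 175173136858843420196) (ZL.cons (nat_lit 4940) (nat_lit 6) (nat_lit 175041467993663815886) (ZL.cons (nat_lit 5016) (nat_lit 6) (nat_lit 174975646467255662390) (ZL.cons (nat_lit 5092) (nat_lit 6) (nat_lit 173586783367200829932) (ZL.cons (nat_lit 5168) (nat_lit 6) (nat_lit 173489015846612831018) (ZL.cons (nat_lit 5244) (nat_lit 3) (nat_lit 86728215466274694346) (ZL.cons (nat_lit 5320) (nat_lit 6) (nat_lit 172166270644525533024) (ZL.cons (nat_lit 5396) (nat_lit 6) (nat_lit 172037183521800430762)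 (ZL.cons (nat_lit 5472) (nat_lit 6) (nat_lit 171972652613557143018) (ZL.cons (nat_lit 5624) (nat_lit 6) (nat_lit 170619580146808731264) (ZL.cons (nat_lit 5700) (nat_lit 6) (nat_lit 170523729636428340172) (ZL.cons (nat_lit 5776) (nat_lit 3) (nat_lit 85245891821124247377) (ZL.cons (nat_lit 5852) (nat_lit 6) (nat_lit 169235649798745578924) (ZL.cons (nat_lit 5928) (nat_lit 6) (nat_lit 169109093796073910036) (ZL.cons (nat_lit 6004) (nat_lit 6) (nat_lit 169045828199756961270) (ZL.cons (nat_lit 6080) (nat_lit 6) (nat_lit 167884849759827419558) (ZL.cons (nat_lit 6156) (nat_lit 6) (nat_lit 167728190333340772442) (ZL.cons (nat_lit 6232) (nat_lit 6) (nat_lit 167634219244732545880) (ZL.cons (nat_lit 6308) (nat_lit 3) (nat_lit 83801449821297721266) (ZL.cons (nat_lit 6384) (nat_lit 6) (nat_lit 166380477717459228120) (ZL.cons (nat_lit 6460) (nat_lit 6) (nat_lit 166256403205036023330) (ZL.cons (nat_lit 6536) (nat_lit 6) (nat_lit 166194378110607642186) (ZL.cons (nat_lit 6612) (nat_lit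 6) (nat_lit 165065427433677950974) (ZL.cons (nat_lit 6688) (nat_lit 6) (nat_lit 164911839760651826350) (ZL.cons (nat_lit 6764) (nat_lit 6) (nat_lit 164819711242408466978) (ZL.cons (nat_lit 6840) (nat_lit 3) (nat_lit 82394502875058594591) (ZL.cons (nat_lit 6916) (nat_lit 6) (nat_lit 163600001631797843492) (ZL.cons (nat_lit 6992) (nat_lit 6) (nat_lit 163478359952951564286) (ZL.cons (nat_lit 7068) (nat_lit 6) (nat_lit 163417551036845308262) (ZL.cons (nat_lit 7144) (nat_lit 6) (nat_lit 162320374372149033980) (ZL.cons (nat_lit 7220) (nat_lit 6) (nat_lit 162169798222123421606) (ZL.cons (nat_lit 7296) (nat_lit 6) (nat_lit 162079476145414245748) (ZL.cons (nat_lit 7372) (nat_lit 3) (nat_lit 81024686360799633760) (ZL.cons (nat_lit 7448) (nat_lit 6) (nat_lit 161072456167093770830) (ZL.cons (nat_lit 7524) (nat_lit 6) (nat_lit 160893512888460969072) (ZL.cons (nat_lit 7600) (nat_lit 6) (nat_lit 160774256340572460046) (ZL.cons (nat_lit 7676) (nat_lit 6) (nat_lit 160714639756154561984)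 (ZL.cons (nat_lit 7752) (nat_lit 6) (nat_lit 159649003447911790042) (ZL.cons (nat_lit 7828) (nat_lit 6) (nat_lit 159501379771416091632) (ZL.cons (nat_lit 7904) (nat_lit 6) (nat_lit 159412828715818860402) (ZL.cons (nat_lit 7980) (nat_lit 3) (nat_lit 79691657777607970284) (ZL.cons (nat_lit 8056) (nat_lit 6) (nat_lit 158435781857558022088) (ZL.cons (nat_lit 8132) (nat_lit 6) (nat_lit 158260347270663118404) (ZL.cons (nat_lit 8208) (nat_lit 6) (nat_lit 158143429086458697790) (ZL.cons (nat_lit 8284) (nat_lit 6) (nat_lit 158084981454676444788) (ZL.cons (nat_lit 8360) (nat_lit 6) (nat_lit 157050672158901480366) (ZL.cons (nat_lit 8436) (nat_lit 6) (nat_lit 156905943064297854478) (ZL.cons (nat_lit 8512) (nat_lit 6) (nat_lit 156819128303908412092) (ZL.cons (nat_lit 8588) (nat_lit 3) (nat_lit 78395096916364539462) (ZL.cons (nat_lit 8664) (nat_lit 6) (nat_lit 155871880053734408252) (ZL.cons (nat_lit 8740) (nat_lit 6) (nat_lit 155699885360700188954) (ZL.cons (nat_lit 8816) (nat_lit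 6) (nat_lit 155585259689911541294) (ZL.cons (nat_lit 8892) (nat_lit 6) (nat_lit 155527958090125018742) (ZL.cons (nat_lit 8968) (nat_lit 6) (nat_lit 154723508683748111054) (ZL.cons (nat_lit 9044) (nat_lit 6) (nat_lit 154524783011860368808) (ZL.cons (nat_lit 9120) (nat_lit 6) (nat_lit 154382891742641127738) (ZL.cons (nat_lit 9196) (nat_lit 6) (nat_lit 154297779232455399912) (ZL.cons (nat_lit 9272) (nat_lit 3) (nat_lit 77134706051924105264) (ZL.cons (nat_lit 9348) (nat_lit 6) (nat_lit 153380175193327868614) (ZL.cons (nat_lit 9424) (nat_lit 6) (nat_lit 153211552945255104596) (ZL.cons (nat_lit 9500) (nat_lit 6) (nat_lit 153099174836638783360) (ZL.cons (nat_lit 9576) (nat_lit 6) (nat_lit 153042996797632388702) (ZL.cons (nat_lit 9652) (nat_lit 6) (nat_lit 152265613039291499160) (ZL.cons (nat_lit 9728) (nat_lit 6) (nat_lit 152070783949205477348) (ZL.cons (nat_lit 9804) (nat_lit 6) (nat_lit 151931674861735633164) (ZL.cons (nat_lit 9880) (nat_lit 6) (nat_lit 151848231224298645096)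 (ZL.cons (nat_lit 9956) (nat_lit 3) (nat_lit 75910210156949719911) (ZL.cons (nat_lit 10032) (nat_lit 6) (nat_lit 150960137394101638298) (ZL.cons (nat_lit 10108) (nat_lit 6) (nat_lit 150794821464618536320) (ZL.cons (nat_lit 10184) (nat_lit 6) (nat_lit 150684646848328025304) (ZL.cons (nat_lit 10260) (nat_lit 6) (nat_lit 150629570339498226620) (ZL.cons (nat_lit 10336) (nat_lit 6) (nat_lit 149879177732274919272) (ZL.cons (nat_lit 10412) (nat_lit 6) (nat_lit 149688168820425878282) (ZL.cons (nat_lit 10488) (nat_lit 6) (nat_lit 149551787362122109472) (ZL.cons (nat_lit 10564) (nat_lit 6) (nat_lit 149469979874438787840) (ZL.cons (nat_lit 10640) (nat_lit 3) (nat_lit 74721357138004097215) (ZL.cons (nat_lit 10716) (nat_lit 6) (nat_lit 148827481057975584306) (ZL.cons (nat_lit 10792) (nat_lit 6) (nat_lit 148611282947728563890) (ZL.cons (nat_lit 10868) (nat_lit 6) (nat_lit 148449208507058856068) (ZL.cons (nat_lit 10944) (nat_lit 6) (nat_lit 148341194177362276642) (ZL.cons (nat_lit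 11020) (nat_lit 6) (nat_lit 148287197600078160284) (ZL.cons (nat_lit 11096) (nat_lit 6) (nat_lit 147563741538341221648) (ZL.cons (nat_lit 11172) (nat_lit 6) (nat_lit 147376477899273534400) (ZL.cons (nat_lit 11248) (nat_lit 6) (nat_lit 147242770587211015962) (ZL.cons (nat_lit 11324) (nat_lit 6) (nat_lit 147162567167913641810) (ZL.cons (nat_lit 11400) (nat_lit 3) (nat_lit 73567918094530059431) (ZL.cons (nat_lit 11476) (nat_lit 6) (nat_lit 146545133791711150636) (ZL.cons (nat_lit 11552) (nat_lit 6) (nat_lit 146333174860096424738) (ZL.cons (nat_lit 11628) (nat_lit 6) (nat_lit 146174278349635926874) (ZL.cons (nat_lit 11704) (nat_lit 6) (nat_lit 146068381947972613710) (ZL.cons (nat_lit 11780) (nat_lit 6) (nat_lit 146015444127105832968) (ZL.cons (nat_lit 11932) (nat_lit 6) (nat_lit 145318890251080790956) (ZL.cons (nat_lit 12008) (nat_lit 6) (nat_lit 145135298448073254442) (ZL.cons (nat_lit 12084) (nat_lit 6) (nat_lit 145004212848011961852) (ZL.cons (nat_lit 12160) (nat_lit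 6) (nat_lit 144925582044779242098) (ZL.cons (nat_lit 12236) (nat_lit 3) (nat_lit 72449687601382992152) (ZL.cons (nat_lit 12312) (nat_lit 6) (nat_lit 144333226313556430850) (ZL.cons (nat_lit 12388) (nat_lit 6) (nat_lit 144125423439424346636) (ZL.cons (nat_lit 12464) (nat_lit 6) (nat_lit 143969642546816015396) (ZL.cons (nat_lit 12540) (nat_lit 6) (nat_lit 143865822545185316216) (ZL.cons (nat_lit 12616) (nat_lit 6) (nat_lit 143813922720806119410) (ZL.cons (nat_lit 12692) (nat_lit 6) (nat_lit 143375796512645883884) (ZL.cons (nat_lit 12768) (nat_lit 6) (nat_lit 143144257294274047028) (ZL.cons (nat_lit 12844) (nat_lit 6) (nat_lit 142964265330541168088) (ZL.cons (nat_lit 12920) (nat_lit 6) (nat_lit 142835750036363430258) (ZL.cons (nat_lit 12996) (nat_lit 6) (nat_lit 142758661013586254026) (ZL.cons (nat_lit 13072) (nat_lit 3) (nat_lit 71366484015610157507) (ZL.cons (nat_lit 13148) (nat_lit 6) (nat_lit 142191415241585041764) (ZL.cons (nat_lit 13224) (nat_lit 6) (nat_lit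 141987686933612410182) (ZL.cons (nat_lit 13300) (nat_lit 6) (nat_lit 141834960568310124652) (ZL.cons (nat_lit 13376) (nat_lit 6) (nat_lit 141733176252985909770) (ZL.cons (nat_lit 13452) (nat_lit 6) (nat_lit 141682294072221991332) (ZL.cons (nat_lit 13528) (nat_lit 6) (nat_lit 141266523617807256734) (ZL.cons (nat_lit 13604) (nat_lit 6) (nat_lit 141039524384109377460) (ZL.cons (nat_lit 13680) (nat_lit 6) (nat_lit 140863061674567339288) (ZL.cons (nat_lit 13756) (nat_lit 6) (nat_lit 140737066288118576706) (ZL.cons (nat_lit 13832) (nat_lit 6) (nat_lit 140661488814807619618) (ZL.cons (nat_lit 13908) (nat_lit 3) (nat_lit 70318149808204820096) (ZL.cons (nat_lit 13984) (nat_lit 6) (nat_lit 140369219720343132018) (ZL.cons (nat_lit 14060) (nat_lit 6) (nat_lit 140119405853581284420) (ZL.cons (nat_lit 14136) (nat_lit 6) (nat_lit 139919672218313998556) (ZL.cons (nat_lit 14212) (nat_lit 6) (nat_lit 139769940487625483332) (ZL.cons (nat_lit 14288) (nat_lit 6) (nat_lit 139670151943189978544)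 (ZL.cons (nat_lit 14364) (nat_lit 6) (nat_lit 139620267452244960468) (ZL.cons (nat_lit 14440) (nat_lit 6) (nat_lit 139226970511231845532) (ZL.cons (nat_lit 14516) (nat_lit 6) (nat_lit 139004422242900591344) (ZL.cons (nat_lit 14592) (nat_lit 6) (nat_lit 138831419586486828428) (ZL.cons (nat_lit 14668) (nat_lit 6) (nat_lit 138707894697811570998) (ZL.cons (nat_lit 14744) (nat_lit 6) (nat_lit 138633799135742005222) (ZL.cons (nat_lit 14820) (nat_lit 3) (nat_lit 69304551921597483286) (ZL.cons (nat_lit 14896) (nat_lit 6) (nat_lit 138361868382417002196) (ZL.cons (nat_lit 14972) (nat_lit 6) (nat_lit 138116952826768132004) (ZL.cons (nat_lit 15048) (nat_lit 6) (nat_lit 137921135537290400764) (ZL.cons (nat_lit 15124) (nat_lit 6) (nat_lit 137774339722889895642) (ZL.cons (nat_lit 15200) (nat_lit 6) (nat_lit 137676507816580577224) (ZL.cons (nat_lit 15276) (nat_lit 6) (nat_lit 137627601452908990874) (ZL.cons (nat_lit 15352) (nat_lit 6) (nat_lit 137523760211399964278) (ZL.cons (nat_lit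 15428) (nat_lit 6) (nat_lit 137256915942694607806) (ZL.cons (nat_lit 15504) (nat_lit 6) (nat_lit 137038731365899260562) (ZL.cons (nat_lit 15580) (nat_lit 6) (nat_lit 136869120918434787116) (ZL.cons (nat_lit 15656) (nat_lit 6) (nat_lit 136748018086400221006) (ZL.cons (nat_lit 15732) (nat_lit 6) (nat_lit 136675375378488882014) (ZL.cons (nat_lit 15808) (nat_lit 3) (nat_lit 68325582153682167157) (ZL.cons (nat_lit 15884) (nat_lit 6) (nat_lit 136423974321313715408) (ZL.cons (nat_lit 15960) (nat_lit 6) (nat_lit 136183861031461881884) (ZL.cons (nat_lit 16036) (nat_lit 6) (nat_lit 135991883296679792434) (ZL.cons (nat_lit 16112) (nat_lit 6) (nat_lit 135847965831581258000) (ZL.cons (nat_lit 16188) (nat_lit 6) (nat_lit 135752052197944671316) (ZL.cons (nat_lit 16264) (nat_lit 6) (nat_lit 135704104782580370974) (ZL.cons (nat_lit 16340) (nat_lit 6) (nat_lit 135617801318852364262) (ZL.cons (nat_lit 16416) (nat_lit 6) (nat_lit 135356189290709857916) (ZL.cons (nat_lit 16492) (nat_lit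 6) (nat_lit 135142282842871282186) (ZL.cons (nat_lit 16568) (nat_lit 6) (nat_lit 134975998090455131748) (ZL.cons (nat_lit 16644) (nat_lit 6) (nat_lit 134857269823754576740) (ZL.cons (nat_lit 16720) (nat_lit 6) (nat_lit 134786051482665028706) (ZL.cons (nat_lit 16796) (nat_lit 3) (nat_lit 67381157569212638032) (ZL.cons (nat_lit 16872) (nat_lit 6) (nat_lit 134838080789035079328) (ZL.cons (nat_lit 16948) (nat_lit 6) (nat_lit 134555391566489952570) (ZL.cons (nat_lit 17024) (nat_lit 6) (nat_lit 134319986380360704018) (ZL.cons (nat_lit 17100) (nat_lit 6) (nat_lit 134131772914888067300) (ZL.cons (nat_lit 17176) (nat_lit 6) (nat_lit 133990677360869896288) (ZL.cons (nat_lit 17252) (nat_lit 6) (nat_lit 133896644386716379930) (ZL.cons (nat_lit 17328) (nat_lit 6) (nat_lit 133849637116751379596) (ZL.cons (nat_lit 17404) (nat_lit 6) (nat_lit 133781153820478942352) (ZL.cons (nat_lit 17480) (nat_lit 6) (nat_lit 133524671439947073388) (ZL.cons (nat_lit 17556) (nat_lit 6) (nat_lit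 133314959236183763848) (ZL.cons (nat_lit 17632) (nat_lit 6) (nat_lit 133151934969109106556) (ZL.cons (nat_lit 17708) (nat_lit 6) (nat_lit 133035534707637974194) (ZL.cons (nat_lit 17784) (nat_lit 6) (nat_lit 132965712804609005536) (ZL.cons (nat_lit 17860) (nat_lit 3) (nat_lit 66471220939441878922) (ZL.cons (nat_lit 17936) (nat_lit 6) (nat_lit 133033172430031332750) (ZL.cons (nat_lit 18012) (nat_lit 6) (nat_lit 132756026133418463378) (ZL.cons (nat_lit 18088) (nat_lit 6) (nat_lit 132525236735252533426) (ZL.cons (nat_lit 18164) (nat_lit 6) (nat_lit 132340713729887203312) (ZL.cons (nat_lit 18240) (nat_lit 6) (nat_lit 132202384755359584670) (ZL.cons (nat_lit 18316) (nat_lit 6) (nat_lit 132110195565013000008) (ZL.cons (nat_lit 18392) (nat_lit 6) (nat_lit 132064110006223783992) (ZL.cons (nat_lit 18468) (nat_lit 6) (nat_lit 132311154069111654112) (ZL.cons (nat_lit 18544) (nat_lit 6) (nat_lit 132013749031242901990) (ZL.cons (nat_lit 18620) (nat_lit 6) (nat_lit 131762295716995971630)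 (ZL.cons (nat_lit 18696) (nat_lit 6) (nat_lit 131556695517228021104) (ZL.cons (nat_lit 18772) (nat_lit 6) (nat_lit 131396867804409729640) (ZL.cons (nat_lit 18848) (nat_lit 6) (nat_lit 131282749901006658698) (ZL.cons (nat_lit 18924) (nat_lit 6) (nat_lit 131214297054899826678) (ZL.cons (nat_lit 19000) (nat_lit 3) (nat_lit 65595741210917929177) (ZL.cons (nat_lit 19076) (nat_lit 6) (nat_lit 131297549044360712532) (ZL.cons (nat_lit 19152) (nat_lit 6) (nat_lit 131025836988857899422) (ZL.cons (nat_lit 19228) (nat_lit 6) (nat_lit 130799572873008948488) (ZL.cons (nat_lit 19304) (nat_lit 6) (nat_lit 130618667965788036612) (ZL.cons (nat_lit 19380) (nat_lit 6) (nat_lit 130483051324094292848) (ZL.cons (nat_lit 19456) (nat_lit 6) (nat_lit 130392669764930974548) (ZL.cons (nat_lit 19532) (nat_lit 6) (nat_lit 130347487844549390220) (ZL.cons (nat_lit 19608) (nat_lit 6) (nat_lit 130607145310031941202) (ZL.cons (nat_lit 19684) (nat_lit 6) (nat_lit 130315571743493948924) (ZL.cons (nat_lit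 19760) (nat_lit 6) (nat_lit 130069048886389115240) (ZL.cons (nat_lit 19836) (nat_lit 6) (nat_lit 129867480063087202956) (ZL.cons (nat_lit 19912) (nat_lit 6) (nat_lit 129710786226990838780) (ZL.cons (nat_lit 19988) (nat_lit 6) (nat_lit 129598905929536847658) (ZL.cons (nat_lit 20064) (nat_lit 6) (nat_lit 129531795296098777050) (ZL.cons (nat_lit 20140) (nat_lit 3) (nat_lit 64754714004390580523) (ZL.cons (nat_lit 20216) (nat_lit 6) (nat_lit 129942267081694106128) (ZL.cons (nat_lit 20292) (nat_lit 6) (nat_lit 129631221445513781334) (ZL.cons (nat_lit 20368) (nat_lit 6) (nat_lit 129364837077373768482) (ZL.cons (nat_lit 20444) (nat_lit 6) (nat_lit 129143009512815973448) (ZL.cons (nat_lit 20520) (nat_lit 6) (nat_lit 128965651760638608864) (ZL.cons (nat_lit 20596) (nat_lit 6) (nat_lit 128832694268781997330) (ZL.cons (nat_lit 20672) (nat_lit 6) (nat_lit 128744084897053253900) (ZL.cons (nat_lit 20748) (nat_lit 6) (nat_lit 128699788896679151616) (ZL.cons (nat_lit 20900) (nat_lit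 6) (nat_lit 128972517722251522078) (ZL.cons (nat_lit 20976) (nat_lit 6) (nat_lit 128686661284469176710) (ZL.cons (nat_lit 21052) (nat_lit 6) (nat_lit 128444972208876202508) (ZL.cons (nat_lit 21128) (nat_lit 6) (nat_lit 128247355715442955174) (ZL.cons (nat_lit 21204) (nat_lit 6) (nat_lit 128093734307505343232) (ZL.cons (nat_lit 21280) (nat_lit 6) (nat_lit 127984047741373979390) (ZL.cons (nat_lit 21356) (nat_lit 6) (nat_lit 127918253002709204284) (ZL.cons (nat_lit 21432) (nat_lit 3) (nat_lit 63948162144826359002) (ZL.cons (nat_lit 21508) (nat_lit 6) (nat_lit 128339202258521578110) (ZL.cons (nat_lit 21584) (nat_lit 6) (nat_lit 128034255556384004784) (ZL.cons (nat_lit 21660) (nat_lit 6) (nat_lit 127773094411148698066) (ZL.cons (nat_lit 21736) (nat_lit 6) (nat_lit 127555616406680271564) (ZL.cons (nat_lit 21812) (nat_lit 6) (nat_lit 127381736257486776872) (ZL.cons (nat_lit 21888) (nat_lit 6) (nat_lit 127251385775274412622) (ZL.cons (nat_lit 21964) (nat_lit 6) (nat_lit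 127164513842207017104) (ZL.cons (nat_lit 22040) (nat_lit 6) (nat_lit 127121086390859858002) (ZL.cons (nat_lit 22116) (nat_lit 6) (nat_lit 127731026695318565142) (ZL.cons (nat_lit 22192) (nat_lit 6) (nat_lit 127407364047734689896) (ZL.cons (nat_lit 22268) (nat_lit 6) (nat_lit 127127112638144155220) (ZL.cons (nat_lit 22344) (nat_lit 6) (nat_lit 126890162564033396202) (ZL.cons (nat_lit 22420) (nat_lit 6) (nat_lit 126696420903804722342) (ZL.cons (nat_lit 22496) (nat_lit 6) (nat_lit 126545811680336475342) (ZL.cons (nat_lit 22572) (nat_lit 6) (nat_lit 126438275831188079416) (ZL.cons (nat_lit 22648) (nat_lit 6) (nat_lit 126373771185438299902) (ZL.cons (nat_lit 22724) (nat_lit 3) (nat_lit 63176136223573813540) (ZL.cons (nat_lit 22800) (nat_lit 6) (nat_lit 127147752532421619246) (ZL.cons (nat_lit 22876) (nat_lit 6) (nat_lit 126805740918713918588) (ZL.cons (nat_lit 22952) (nat_lit 6) (nat_lit 126506773563677081992) (ZL.cons (nat_lit 23028) (nat_lit 6) (nat_lit 126250733225211095016)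 (ZL.cons (nat_lit 23104) (nat_lit 6) (nat_lit 126037519495340088640) (ZL.cons (nat_lit 23180) (nat_lit 6) (nat_lit 125867048760836662472) (ZL.cons (nat_lit 23256) (nat_lit 6) (nat_lit 125739254170432383796) (ZL.cons (nat_lit 23332) (nat_lit 6) (nat_lit 125654085608601603874) (ZL.cons (nat_lit 23408) (nat_lit 6) (nat_lit 125611509675908310640) (ZL.cons (nat_lit 23484) (nat_lit 6) (nat_lit 126229150238682859186) (ZL.cons (nat_lit 23560) (nat_lit 6) (nat_lit 125911833917522197178) (ZL.cons (nat_lit 23636) (nat_lit 6) (nat_lit 125637077633609908282) (ZL.cons (nat_lit 23712) (nat_lit 6) (nat_lit 125404773639383673948) (ZL.cons (nat_lit 23788) (nat_lit 6) (nat_lit 125214830835237915264) (ZL.cons (nat_lit 23864) (nat_lit 6) (nat_lit 125067174733798457420) (ZL.cons (nat_lit 23940) (nat_lit 6) (nat_lit 124961747430711794748) (ZL.cons (nat_lit 24016) (nat_lit 6) (nat_lit 124898507581937501106) (ZL.cons (nat_lit 24092) (nat_lit 3) (nat_lit 62438715193767440347) (ZL.cons (nat_lit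 24168) (nat_lit 6) (nat_lit 125677365893649342644) (ZL.cons (nat_lit 24244) (nat_lit 6) (nat_lit 125342060390014341998) (ZL.cons (nat_lit 24320) (nat_lit 6) (nat_lit 125048955139978227690) (ZL.cons (nat_lit 24396) (nat_lit 6) (nat_lit 124797935200305691436) (ZL.cons (nat_lit 24472) (nat_lit 6) (nat_lit 124588902131804704794) (ZL.cons (nat_lit 24548) (nat_lit 6) (nat_lit 124421773960722914434) (ZL.cons (nat_lit 24624) (nat_lit 6) (nat_lit 124296485146601072594) (ZL.cons (nat_lit 24700) (nat_lit 6) (nat_lit 124212986556570896202) (ZL.cons (nat_lit 24776) (nat_lit 6) (nat_lit 124171245446087275382) (ZL.cons (nat_lit 24852) (nat_lit 6) (nat_lit 125150171497595708762) (ZL.cons (nat_lit 24928) (nat_lit 6) (nat_lit 124797229540554493764) (ZL.cons (nat_lit 25004) (nat_lit 6) (nat_lit 124486135108044040818) (ZL.cons (nat_lit 25080) (nat_lit 6) (nat_lit 124216766202247679152) (ZL.cons (nat_lit 25156) (nat_lit 6) (nat_lit 123989017188300390590) (ZL.cons (nat_lit 25232) (nat_lit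 6) (nat_lit 123802798752863372272) (ZL.cons (nat_lit 25308) (nat_lit 6) (nat_lit 123658037869099197916) (ZL.cons (nat_lit 25384) (nat_lit 6) (nat_lit 123554677768033842356) (ZL.cons (nat_lit 25460) (nat_lit 6) (nat_lit 123492677916294338786) (ZL.cons (nat_lit 25536) (nat_lit 3) (nat_lit 61736007000106669189) (ZL.cons (nat_lit 25612) (nat_lit 6) (nat_lit 124647360307621544350) (ZL.cons (nat_lit 25688) (nat_lit 6) (nat_lit 124277127709986001556) (ZL.cons (nat_lit 25764) (nat_lit 6) (nat_lit 123948396824069334258) (ZL.cons (nat_lit 25840) (nat_lit 6) (nat_lit 123661038735798633954) (ZL.cons (nat_lit 25916) (nat_lit 6) (nat_lit 123414940755727519980) (ZL.cons (nat_lit 25992) (nat_lit 6) (nat_lit 123210006374844199742) (ZL.cons (nat_lit 26068) (nat_lit 6) (nat_lit 123046155226724797428) (ZL.cons (nat_lit 26144) (nat_lit 6) (nat_lit 122923323056017109352) (ZL.cons (nat_lit 26220) (nat_lit 6) (nat_lit 122841461693242426614) (ZL.cons (nat_lit 26296) (nat_lit 6) (nat_lit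 122800539035905543456) (ZL.cons (nat_lit 26372) (nat_lit 6) (nat_lit 123781550936806681652) (ZL.cons (nat_lit 26448) (nat_lit 6) (nat_lit 123435529410295686558) (ZL.cons (nat_lit 26524) (nat_lit 6) (nat_lit 123130534868618771902) (ZL.cons (nat_lit 26600) (nat_lit 6) (nat_lit 122866447706073319290) (ZL.cons (nat_lit 26676) (nat_lit 6) (nat_lit 122643164359066173640) (ZL.cons (nat_lit 26752) (nat_lit 6) (nat_lit 122460597265500469406) (ZL.cons (nat_lit 26828) (nat_lit 6) (nat_lit 122318674830437553372) (ZL.cons (nat_lit 26904) (nat_lit 6) (nat_lit 122217341398020538118) (ZL.cons (nat_lit 26980) (nat_lit 6) (nat_lit 122156557229648475792) (ZL.cons (nat_lit 27056) (nat_lit 3) (nat_lit 61068149244196296521) (ZL.cons (nat_lit 27132) (nat_lit 6) (nat_lit 123310304877183914710) (ZL.cons (nat_lit 27208) (nat_lit 6) (nat_lit 122947331742247108052) (ZL.cons (nat_lit 27284) (nat_lit 6) (nat_lit 122625046559975865600) (ZL.cons (nat_lit 27360) (nat_lit 6) (nat_lit 122343322944024198636)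 (ZL.cons (nat_lit 27436) (nat_lit 6) (nat_lit 122102050414542714348) (ZL.cons (nat_lit 27512) (nat_lit 6) (nat_lit 121901134354853184702) (ZL.cons (nat_lit 27588) (nat_lit 6) (nat_lit 121740495974343966748) (ZL.cons (nat_lit 27664) (nat_lit 6) (nat_lit 121620072277571723536) (ZL.cons (nat_lit 27740) (nat_lit 6) (nat_lit 121539816039557328694) (ZL.cons (nat_lit 27816) (nat_lit 6) (nat_lit 121499695787266266776) (ZL.cons (nat_lit 27892) (nat_lit 6) (nat_lit 122863204728741378074) (ZL.cons (nat_lit 27968) (nat_lit 6) (nat_lit 122483612369857697334) (ZL.cons (nat_lit 28044) (nat_lit 6) (nat_lit 122144375579160643318) (ZL.cons (nat_lit 28120) (nat_lit 6) (nat_lit 121845361322614648558) (ZL.cons (nat_lit 28196) (nat_lit 6) (nat_lit 121586452339726949918) (ZL.cons (nat_lit 28272) (nat_lit 6) (nat_lit 121367547097563081634) (ZL.cons (nat_lit 28348) (nat_lit 6) (nat_lit 121188559750930038268) (ZL.cons (nat_lit 28424) (nat_lit 6) (nat_lit 121049420108711493136) (ZL.cons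 (nat_lit 28500) (nat_lit 6) (nat_lit 120950073606341870336) (ZL.cons (nat_lit 28576) (nat_lit 6) (nat_lit 120890481284408475902) (ZL.cons (nat_lit 28652) (nat_lit 3) (nat_lit 60435309886686648367) (ZL.cons (nat_lit 28728) (nat_lit 6) (nat_lit 122440075158087525654) (ZL.cons (nat_lit 28804) (nat_lit 6) (nat_lit 122044189442393184048) (ZL.cons (nat_lit 28880) (nat_lit 6) (nat_lit 121688333427749255950) (ZL.cons (nat_lit 28956) (nat_lit 6) (nat_lit 121372367562777449626) (ZL.cons (nat_lit 29032) (nat_lit 6) (nat_lit 121096167939295423190) (ZL.cons (nat_lit 29108) (nat_lit 6) (nat_lit 120859626243725340554) (ZL.cons (nat_lit 29184) (nat_lit 6) (nat_lit 120662649714617958550) (ZL.cons (nat_lit 29260) (nat_lit 6) (nat_lit 120505161106275588006) (ZL.cons (nat_lit 29336) (nat_lit 6) (nat_lit 120387098658459663286) (ZL.cons (nat_lit 29412) (nat_lit 6) (nat_lit 120308416072171040894) (ZL.cons (nat_lit 29488) (nat_lit 6) (nat_lit 120269082491493529210) (ZL.cons (nat_lit 29564)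 (nat_lit 6) (nat_lit 122040750232057395156) (ZL.cons (nat_lit 29640) (nat_lit 6) (nat_lit 121628890637136915446) (ZL.cons (nat_lit 29716) (nat_lit 6) (nat_lit 121256741265682326482) (ZL.cons (nat_lit 29792) (nat_lit 6) (nat_lit 120924156176763646076) (ZL.cons (nat_lit 29868) (nat_lit 6) (nat_lit 120631004944855808076) (ZL.cons (nat_lit 29944) (nat_lit 6) (nat_lit 120377172608691397644) (ZL.cons (nat_lit 30020) (nat_lit 6) (nat_lit 120162559626177801288) (ZL.cons (nat_lit 30096) (nat_lit 6) (nat_lit 119987081835361092106) (ZL.cons (nat_lit 30172) (nat_lit 6) (nat_lit 119850670421421341974) (ZL.cons (nat_lit 30248) (nat_lit 6) (nat_lit 119753271889686417662) (ZL.cons (nat_lit 30324) (nat_lit 6) (nat_lit 119694848044653678020) (ZL.cons (nat_lit 30400) (nat_lit 3) (nat_lit 59837687987505672752) (ZL.cons (nat_lit 30476) (nat_lit 6) (nat_lit 121237553091812320442) (ZL.cons (nat_lit 30552) (nat_lit 6) (nat_lit 120849429841131593374) (ZL.cons (nat_lit 30628) (nat_lit 6)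 (nat_lit 120500551395402252102) (ZL.cons (nat_lit 30704) (nat_lit 6) (nat_lit 120190780939547540020) (ZL.cons (nat_lit 30780) (nat_lit 6) (nat_lit 119919996994957318024) (ZL.cons (nat_lit 30856) (nat_lit 6) (nat_lit 119688093371849393872) (ZL.cons (nat_lit 30932) (nat_lit 6) (nat_lit 119494979127626470338) (ZL.cons (nat_lit 31008) (nat_lit 6) (nat_lit 119340578531212381568) (ZL.cons (nat_lit 31084) (nat_lit 6) (nat_lit 119224831033353631844) (ZL.cons (nat_lit 31160) (nat_lit 6) (nat_lit 119147691242874590282) (ZL.cons (nat_lit 31236) (nat_lit 6) (nat_lit 119109128908877029808) (ZL.cons (nat_lit 31312) (nat_lit 6) (nat_lit 120870023340715350172) (ZL.cons (nat_lit 31388) (nat_lit 6) (nat_lit 120466239424126644572) (ZL.cons (nat_lit 31464) (nat_lit 6) (nat_lit 120101387099171165196) (ZL.cons (nat_lit 31540) (nat_lit 6) (nat_lit 119775323286505792248) (ZL.cons (nat_lit 31616) (nat_lit 6) (nat_lit 119487920117968696170) (ZL.cons (nat_lit 31692) (nat_lit 6) (nat_lit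 119239064886434960454) (ZL.cons (nat_lit 31768) (nat_lit 6) (nat_lit 119028660001617709124) (ZL.cons (nat_lit 31844) (nat_lit 6) (nat_lit 118856622951797406002) (ZL.cons (nat_lit 31920) (nat_lit 6) (nat_lit 118722886271464317640) (ZL.cons (nat_lit 31996) (nat_lit 6) (nat_lit 118627397514861450666) (ZL.cons (nat_lit 32072) (nat_lit 6) (nat_lit 118570119235417588272) (ZL.cons (nat_lit 32148) (nat_lit 3) (nat_lit 59275514485531180157) (ZL.cons (nat_lit 32224) (nat_lit 6) (nat_lit 120526157254531848964) (ZL.cons (nat_lit 32300) (nat_lit 6) (nat_lit 120107019743915713430) (ZL.cons (nat_lit 32376) (nat_lit 6) (nat_lit 119726506753052255522) (ZL.cons (nat_lit 32452) (nat_lit 6) (nat_lit 119384469061160744470) (ZL.cons (nat_lit 32528) (nat_lit 6) (nat_lit 119080772535812987526) (ZL.cons (nat_lit 32604) (nat_lit 6) (nat_lit 118815298080332377728) (ZL.cons (nat_lit 32680) (nat_lit 6) (nat_lit 118587941587089314834) (ZL.cons (nat_lit 32756) (nat_lit 6) (nat_lit 118398613896674683916)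 (ZL.cons (nat_lit 32832) (nat_lit 6) (nat_lit 118247240762935381202) (ZL.cons (nat_lit 32908) (nat_lit 6) (nat_lit 118133762823858175590) (ZL.cons (nat_lit 32984) (nat_lit 6) (nat_lit 118058135578290487784) (ZL.cons (nat_lit 33060) (nat_lit 6) (nat_lit 118020329368488957906) (ZL.cons (nat_lit 33136) (nat_lit 6) (nat_lit 120205819983816254658) (ZL.cons (nat_lit 33212) (nat_lit 6) (nat_lit 119771629930035972130) (ZL.cons (nat_lit 33288) (nat_lit 6) (nat_lit 119375763345145084288) (ZL.cons (nat_lit 33364) (nat_lit 6) (nat_lit 119018064987345594704) (ZL.cons (nat_lit 33440) (nat_lit 6) (nat_lit 118698394582771699656) (ZL.cons (nat_lit 33516) (nat_lit 6) (nat_lit 118416626770480428992) (ZL.cons (nat_lit 33592) (nat_lit 6) (nat_lit 118172651053290492016) (ZL.cons (nat_lit 33668) (nat_lit 6) (nat_lit 117966371754450049534) (ZL.cons (nat_lit 33744) (nat_lit 6) (nat_lit 117797707980116419024) (ZL.cons (nat_lit 33820) (nat_lit 6) (nat_lit 117666593587632999060) (ZL.cons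 (nat_lit 33896) (nat_lit 6) (nat_lit 117572977159590972616) (ZL.cons (nat_lit 33972) (nat_lit 6) (nat_lit 117516821983665617326) (ZL.cons (nat_lit 34048) (nat_lit 3) (nat_lit 58749053019109657703) (ZL.cons (nat_lit 34124) (nat_lit 6) (nat_lit 119635238576675118692) (ZL.cons (nat_lit 34200) (nat_lit 6) (nat_lit 119908885906109463104) (ZL.cons (nat_lit 34276) (nat_lit 6) (nat_lit 119459938457070212934) (ZL.cons (nat_lit 34352) (nat_lit 6) (nat_lit 119049019329015178098) (ZL.cons (nat_lit 34428) (nat_lit 6) (nat_lit 118675967377188258580) (ZL.cons (nat_lit 34504) (nat_lit 6) (nat_lit 118340636306706385000) (ZL.cons (nat_lit 34580) (nat_lit 6) (nat_lit 118042894615188976232) (ZL.cons (nat_lit 34656) (nat_lit 6) (nat_lit 117782625541188378390) (ZL.cons (nat_lit 34732) (nat_lit 6) (nat_lit 117559727018401061826) (ZL.cons (nat_lit 34808) (nat_lit 6) (nat_lit 117374111635641619752) (ZL.cons (nat_lit 34884) (nat_lit 6) (nat_lit 117225706602563871992) (ZL.cons (nat_lit 34960)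 (nat_lit 6) (nat_lit 117114453721115631196) (ZL.cons (nat_lit 35036) (nat_lit 6) (nat_lit 117040309362715937268) (ZL.cons (nat_lit 35112) (nat_lit 6) (nat_lit 117003244451145809936) (ZL.cons (nat_lit 35188) (nat_lit 3) (nat_lit 58760693927333494616) (ZL.cons (nat_lit 35264) (nat_lit 6) (nat_lit 117532795801187633424) (ZL.cons (nat_lit 35340) (nat_lit 6) (nat_lit 117567024114454083896) (ZL.cons (nat_lit 35416) (nat_lit 6) (nat_lit 117624086217334288282) (ZL.cons (nat_lit 35492) (nat_lit 6) (nat_lit 117704004487123493718) (ZL.cons (nat_lit 35568) (nat_lit 6) (nat_lit 117806810264319656754) (ZL.cons (nat_lit 35644) (nat_lit 6) (nat_lit 117932543864913834708) (ZL.cons (nat_lit 35720) (nat_lit 6) (nat_lit 118081254596200378242) (ZL.cons (nat_lit 35796) (nat_lit 6) (nat_lit 118253000776113125214) (ZL.cons (nat_lit 35872) (nat_lit 6) (nat_lit 118447849756095178660) (ZL.cons (nat_lit 35948) (nat_lit 6) (nat_lit 118665877947511237428) (ZL.cons (nat_lit 36024) (nat_lit 6)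 (nat_lit 118907170851612837224) (ZL.cons (nat_lit 36100) (nat_lit 6) (nat_lit 119171823093068253190) (ZL.cons (nat_lit 36176) (nat_lit 6) (nat_lit 118746146569754250712) (ZL.cons (nat_lit 36252) (nat_lit 6) (nat_lit 118358042074763184200) (ZL.cons (nat_lit 36328) (nat_lit 6) (nat_lit 118007357410253880686) (ZL.cons (nat_lit 36404) (nat_lit 6) (nat_lit 117693955052828493386) (ZL.cons (nat_lit 36480) (nat_lit 6) (nat_lit 117417712099601757440) (ZL.cons (nat_lit 36556) (nat_lit 6) (nat_lit 117178520220003780010) (ZL.cons (nat_lit 36632) (nat_lit 6) (nat_lit 116976285613297463854) (ZL.cons (nat_lit 36708) (nat_lit 6) (nat_lit 116810928971793904530) (ZL.cons (nat_lit 36784) (nat_lit 6) (nat_lit 116682385449751335938) (ZL.cons (nat_lit 36860) (nat_lit 6) (nat_lit 116590604637945427658) (ZL.cons (nat_lit 36936) (nat_lit 6) (nat_lit 116535550543900961688) (ZL.cons (nat_lit 37012) (nat_lit 3) (nat_lit 58258600788888568138) (ZL.cons (nat_lit 37088) (nat_lit 6) (nat_lit 116939646840957458466)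 (ZL.cons (nat_lit 37164) (nat_lit 6) (nat_lit 116962690892929159732) (ZL.cons (nat_lit 37240) (nat_lit 6) (nat_lit 117008788033755688422) (ZL.cons (nat_lit 37316) (nat_lit 6) (nat_lit 117077956340747172590) (ZL.cons (nat_lit 37392) (nat_lit 6) (nat_lit 117170222938729883404) (ZL.cons (nat_lit 37468) (nat_lit 6) (nat_lit 117285624010683421922) (ZL.cons (nat_lit 37544) (nat_lit 6) (nat_lit 117424204811930122872) (ZL.cons (nat_lit 37620) (nat_lit 6) (nat_lit 117586019687882239860) (ZL.cons (nat_lit 37696) (nat_lit 6) (nat_lit 117771132095353871754) (ZL.cons (nat_lit 37772) (nat_lit 6) (nat_lit 117979614627445987822) (ZL.cons (nat_lit 37848) (nat_lit 6) (nat_lit 118211549042014310464) (ZL.cons (nat_lit 37924) (nat_lit 6) (nat_lit 118467026293731219414) (ZL.cons (nat_lit 38000) (nat_lit 6) (nat_lit 118064164403481185260) (ZL.cons (nat_lit 38076) (nat_lit 6) (nat_lit 117698427195807734752) (ZL.cons (nat_lit 38152) (nat_lit 6) (nat_lit 117369671244354917518) (ZL.cons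 (nat_lit 38228) (nat_lit 6) (nat_lit 117077767625220203040) (ZL.cons (nat_lit 38304) (nat_lit 6) (nat_lit 116822601866396087506) (ZL.cons (nat_lit 38380) (nat_lit 6) (nat_lit 116604073902879110484) (ZL.cons (nat_lit 38456) (nat_lit 6) (nat_lit 116422098037428677078) (ZL.cons (nat_lit 38532) (nat_lit 6) (nat_lit 116276602906960296922) (ZL.cons (nat_lit 38608) (nat_lit 6) (nat_lit 116167531454560060846) (ZL.cons (nat_lit 38684) (nat_lit 6) (nat_lit 116094840907109380524) (ZL.cons (nat_lit 38760) (nat_lit 6) (nat_lit 116058502758511216474) (ZL.cons (nat_lit 38836) (nat_lit 3) (nat_lit 58190360230155948012) (ZL.cons (nat_lit 38912) (nat_lit 6) (nat_lit 116392356565762953098) (ZL.cons (nat_lit 38988) (nat_lit 6) (nat_lit 116427269445294732582) (ZL.cons (nat_lit 39064) (nat_lit 6) (nat_lit 116485472790232541054) (ZL.cons (nat_lit 39140) (nat_lit 6) (nat_lit 116566989425417530600) (ZL.cons (nat_lit 39216) (nat_lit 6) (nat_lit 116671851318157616896) (ZL.cons (nat_lit 39292)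 (nat_lit 6) (nat_lit 116800099590763678410) (ZL.cons (nat_lit 39368) (nat_lit 6) (nat_lit 116951784536675952814) (ZL.cons (nat_lit 39444) (nat_lit 6) (nat_lit 117126965640186954724) (ZL.cons (nat_lit 39520) (nat_lit 6) (nat_lit 117325711599768649240) (ZL.cons (nat_lit 39596) (nat_lit 6) (nat_lit 117548100355013029182) (ZL.cons (nat_lit 39672) (nat_lit 6) (nat_lit 117794219117196660978) (ZL.cons (nat_lit 39748) (nat_lit 6) (nat_lit 117413724514264242828) (ZL.cons (nat_lit 39824) (nat_lit 6) (nat_lit 117069916019647278600) (ZL.cons (nat_lit 39900) (nat_lit 6) (nat_lit 116762658806485134188) (ZL.cons (nat_lit 39976) (nat_lit 6) (nat_lit 116491832381753040122) (ZL.cons (nat_lit 40052) (nat_lit 6) (nat_lit 116257330539009924996) (ZL.cons (nat_lit 40128) (nat_lit 6) (nat_lit 116059061316748830724) (ZL.cons (nat_lit 40204) (nat_lit 6) (nat_lit 115896946962333576486) (ZL.cons (nat_lit 40280) (nat_lit 6) (nat_lit 115770923901507528846) (ZL.cons (nat_lit 40356) (nat_lit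 6) (nat_lit 115680942713462520728) (ZL.cons (nat_lit 40432) (nat_lit 6) (nat_lit 115626968111458142326) (ZL.cons (nat_lit 40508) (nat_lit 3) (nat_lit 57804489464491901844) (ZL.cons (nat_lit 40584) (nat_lit 6) (nat_lit 115855797472435006660) (ZL.cons (nat_lit 40660) (nat_lit 6) (nat_lit 115879302405446141952) (ZL.cons (nat_lit 40736) (nat_lit 6) (nat_lit 115926321489089201218) (ZL.cons (nat_lit 40812) (nat_lit 6) (nat_lit 115996873162220515068) (ZL.cons (nat_lit 40888) (nat_lit 6) (nat_lit 116090985092162880096) (ZL.cons (nat_lit 40964) (nat_lit 6) (nat_lit 116208694185555489388) (ZL.cons (nat_lit 41040) (nat_lit 6) (nat_lit 116350046602827124356) (ZL.cons (nat_lit 41116) (nat_lit 6) (nat_lit 116515097776298283682) (ZL.cons (nat_lit 41192) (nat_lit 6) (nat_lit 116703912431919348214) (ZL.cons (nat_lit 41268) (nat_lit 6) (nat_lit 116916564614653306604) (ZL.cons (nat_lit 41344) (nat_lit 6) (nat_lit 117153137717512995700) (ZL.cons (nat_lit 41420) (nat_lit 6) (nat_lit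 116794571827637063830) (ZL.cons (nat_lit 41496) (nat_lit 6) (nat_lit 116472262071310772424) (ZL.cons (nat_lit 41572) (nat_lit 6) (nat_lit 116186082052551248424) (ZL.cons (nat_lit 41648) (nat_lit 6) (nat_lit 115935919543900154766) (ZL.cons (nat_lit 41724) (nat_lit 6) (nat_lit 115721676442412922390) (ZL.cons (nat_lit 41800) (nat_lit 6) (nat_lit 115543268731187007286) (ZL.cons (nat_lit 41876) (nat_lit 6) (nat_lit 115400626446414085564) (ZL.cons (nat_lit 41952) (nat_lit 6) (nat_lit 115293693649943265882) (ZL.cons (nat_lit 42028) (nat_lit 6) (nat_lit 115222428407344559684) (ZL.cons (nat_lit 42104) (nat_lit 6) (nat_lit 115186802771464006694) (ZL.cons (nat_lit 42180) (nat_lit 3) (nat_lit 57676401598807301788) (ZL.cons (nat_lit 42256) (nat_lit 6) (nat_lit 115364672025174681794) (ZL.cons (nat_lit 42332) (nat_lit 6) (nat_lit 115400283162297096868) (ZL.cons (nat_lit 42408) (nat_lit 6) (nat_lit 115459650574133661512) (ZL.cons (nat_lit 42484) (nat_lit 6) (nat_lit 115542797542022350844)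 (ZL.cons (nat_lit 42560) (nat_lit 6) (nat_lit 115649756672617238868) (ZL.cons (nat_lit 42636) (nat_lit 6) (nat_lit 115780569910675421614) (ZL.cons (nat_lit 42712) (nat_lit 6) (nat_lit 115935288555505941504) (ZL.cons (nat_lit 42788) (nat_lit 6) (nat_lit 116113973281087163452) (ZL.cons (nat_lit 42864) (nat_lit 6) (nat_lit 116316694159860491858) (ZL.cons (nat_lit 42940) (nat_lit 6) (nat_lit 116543530690209759402) (ZL.cons (nat_lit 43016) (nat_lit 6) (nat_lit 116206463538624500354) (ZL.cons (nat_lit 43092) (nat_lit 6) (nat_lit 115905230976700829360) (ZL.cons (nat_lit 43168) (nat_lit 6) (nat_lit 115639714874022305768) (ZL.cons (nat_lit 43244) (nat_lit 6) (nat_lit 115409811106627094860) (ZL.cons (nat_lit 43320) (nat_lit 6) (nat_lit 115215429516175041652) (ZL.cons (nat_lit 43396) (nat_lit 6) (nat_lit 115056493874591459064) (ZL.cons (nat_lit 43472) (nat_lit 6) (nat_lit 114932941854173765300) (ZL.cons (nat_lit 43548) (nat_lit 6) (nat_lit 114844725003149247538) (ZL.cons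 (nat_lit 43624) (nat_lit 6) (nat_lit 114791808726674366752) (ZL.cons (nat_lit 43700) (nat_lit 3) (nat_lit 57387086136634076200) (ZL.cons (nat_lit 43776) (nat_lit 6) (nat_lit 114883176488644951532) (ZL.cons (nat_lit 43852) (nat_lit 6) (nat_lit 114907151520316309532) (ZL.cons (nat_lit 43928) (nat_lit 6) (nat_lit 114955110985632229984) (ZL.cons (nat_lit 44004) (nat_lit 6) (nat_lit 115027073692226170110) (ZL.cons (nat_lit 44080) (nat_lit 6) (nat_lit 115123067860767382438) (ZL.cons (nat_lit 44156) (nat_lit 6) (nat_lit 115243131136027843916) (ZL.cons (nat_lit 44232) (nat_lit 6) (nat_lit 115387310601644911584) (ZL.cons (nat_lit 44308) (nat_lit 6) (nat_lit 115555662798585494096) (ZL.cons (nat_lit 44384) (nat_lit 6) (nat_lit 115748253747318979918) (ZL.cons (nat_lit 44460) (nat_lit 6) (nat_lit 115965158973707617478) (ZL.cons (nat_lit 44536) (nat_lit 6) (nat_lit 115649169016524978842) (ZL.cons (nat_lit 44612) (nat_lit 6) (nat_lit 115368600370682308256) (ZL.cons (nat_lit 44688)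 (nat_lit 6) (nat_lit 115123343009259667414) (ZL.cons (nat_lit 44764) (nat_lit 6) (nat_lit 114913300752899635674) (ZL.cons (nat_lit 44840) (nat_lit 6) (nat_lit 114738391232089914982) (ZL.cons (nat_lit 44916) (nat_lit 6) (nat_lit 114598545854861560352) (ZL.cons (nat_lit 44992) (nat_lit 6) (nat_lit 114493709779890168508) (ZL.cons (nat_lit 45068) (nat_lit 6) (nat_lit 114423841894989476158) (ZL.cons (nat_lit 45144) (nat_lit 6) (nat_lit 114388914800988934010) (ZL.cons (nat_lit 45220) (nat_lit 3) (nat_lit 57217313487038959950) (ZL.cons (nat_lit 45296) (nat_lit 6) (nat_lit 114446733178189199682) (ZL.cons (nat_lit 45372) (nat_lit 6) (nat_lit 114483056538054063060) (ZL.cons (nat_lit 45448) (nat_lit 6) (nat_lit 114543611298127358994) (ZL.cons (nat_lit 45524) (nat_lit 6) (nat_lit 114628421205373822116) (ZL.cons (nat_lit 45600) (nat_lit 6) (nat_lit 114737519518580607898) (ZL.cons (nat_lit 45676) (nat_lit 6) (nat_lit 114870949021399954298) (ZL.cons (nat_lit 45752) (nat_lit 6)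 (nat_lit 115028762039127084588) (ZL.cons (nat_lit 45828) (nat_lit 6) (nat_lit 115211020459219930974) (ZL.cons (nat_lit 45904) (nat_lit 6) (nat_lit 115417795755568725950) (ZL.cons (nat_lit 45980) (nat_lit 6) (nat_lit 115122469714467087722) (ZL.cons (nat_lit 46056) (nat_lit 6) (nat_lit 114862159809880299886) (ZL.cons (nat_lit 46132) (nat_lit 6) (nat_lit 114636763959492838212) (ZL.cons (nat_lit 46208) (nat_lit 6) (nat_lit 114446193772775138988) (ZL.cons (nat_lit 46284) (nat_lit 6) (nat_lit 114290374516320646254) (ZL.cons (nat_lit 46360) (nat_lit 6) (nat_lit 114169245084538593544) (ZL.cons (nat_lit 46436) (nat_lit 6) (nat_lit 114082757975691027112) (ZL.cons (nat_lit 46512) (nat_lit 6) (nat_lit 114030879273264673400) (ZL.cons (nat_lit 46588) (nat_lit 3) (nat_lit 57006794316335172802) (ZL.cons (nat_lit 46664) (nat_lit 6) (nat_lit 114018847579703168458) (ZL.cons (nat_lit 46740) (nat_lit 6) (nat_lit 114043302112007953618) (ZL.cons (nat_lit 46816) (nat_lit 6) (nat_lit 114092220766630192478)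 (ZL.cons (nat_lit 46892) (nat_lit 6) (nat_lit 114165622727356011408) (ZL.cons (nat_lit 46968) (nat_lit 6) (nat_lit 114263536779268047984) (ZL.cons (nat_lit 47044) (nat_lit 6) (nat_lit 114386001320033718688) (ZL.cons (nat_lit 47120) (nat_lit 6) (nat_lit 114533064374963127710) (ZL.cons (nat_lit 47196) (nat_lit 6) (nat_lit 114704783615842521874) (ZL.cons (nat_lit 47272) (nat_lit 6) (nat_lit 114901226383550677414) (ZL.cons (nat_lit 47348) (nat_lit 6) (nat_lit 114626159083704921936) (ZL.cons (nat_lit 47424) (nat_lit 6) (nat_lit 114385710690153313268) (ZL.cons (nat_lit 47500) (nat_lit 6) (nat_lit 114179786909408184110) (ZL.cons (nat_lit 47576) (nat_lit 6) (nat_lit 114008306987045712844) (ZL.cons (nat_lit 47652) (nat_lit 6) (nat_lit 113871203676037522030) (ZL.cons (nat_lit 47728) (nat_lit 6) (nat_lit 113768423210379294732) (ZL.cons (nat_lit 47804) (nat_lit 6) (nat_lit 113699925284006066938) (ZL.cons (nat_lit 47880) (nat_lit 6) (nat_lit 113665683034985927578) (ZL.cons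 (nat_lit 47956) (nat_lit 3) (nat_lit 56811663463292149883) (ZL.cons (nat_lit 48032) (nat_lit 6) (nat_lit 113635675254777805144) (ZL.cons (nat_lit 48108) (nat_lit 6) (nat_lit 113672725081839965786) (ZL.cons (nat_lit 48184) (nat_lit 6) (nat_lit 113734490937114727642) (ZL.cons (nat_lit 48260) (nat_lit 6) (nat_lit 113820997042506120026) (ZL.cons (nat_lit 48336) (nat_lit 6) (nat_lit 113932277321977041524) (ZL.cons (nat_lit 48412) (nat_lit 6) (nat_lit 114068375414852774850) (ZL.cons (nat_lit 48488) (nat_lit 6) (nat_lit 114229344692934447746) (ZL.cons (nat_lit 48564) (nat_lit 6) (nat_lit 114415248281429151064) (ZL.cons (nat_lit 48640) (nat_lit 6) (nat_lit 114160042492618574754) (ZL.cons (nat_lit 48716) (nat_lit 6) (nat_lit 113939066168709298602) (ZL.cons (nat_lit 48792) (nat_lit 6) (nat_lit 113752232652319397402) (ZL.cons (nat_lit 48868) (nat_lit 6) (nat_lit 113599468675403228056) (ZL.cons (nat_lit 48944) (nat_lit 6) (nat_lit 113480714330518862654) (ZL.cons (nat_lit 49020)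 (nat_lit 6) (nat_lit 113395923047334973994) (ZL.cons (nat_lit 49096) (nat_lit 6) (nat_lit 113345061574367960552) (ZL.cons (nat_lit 49172) (nat_lit 3) (nat_lit 56664054982971074494) (ZL.cons (nat_lit 49248) (nat_lit 6) (nat_lit 113260016112694115620) (ZL.cons (nat_lit 49324) (nat_lit 6) (nat_lit 113284959735644996480) (ZL.cons (nat_lit 49400) (nat_lit 6) (nat_lit 113334856763359680118) (ZL.cons (nat_lit 49476) (nat_lit 6) (nat_lit 113409726763300015428) (ZL.cons (nat_lit 49552) (nat_lit 6) (nat_lit 113509599096250292734) (ZL.cons (nat_lit 49628) (nat_lit 6) (nat_lit 113634512927831276854) (ZL.cons (nat_lit 49704) (nat_lit 6) (nat_lit 113784517243859274054) (ZL.cons (nat_lit 49780) (nat_lit 6) (nat_lit 113959670869556256104) (ZL.cons (nat_lit 49856) (nat_lit 6) (nat_lit 113723937150388012310) (ZL.cons (nat_lit 49932) (nat_lit 6) (nat_lit 113522051090833964116) (ZL.cons (nat_lit 50008) (nat_lit 6) (nat_lit 113353933519890364836) (ZL.cons (nat_lit 50084) (nat_lit 6)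 (nat_lit 113219518509098020902) (ZL.cons (nat_lit 50160) (nat_lit 6) (nat_lit 113118753346687994138) (ZL.cons (nat_lit 50236) (nat_lit 6) (nat_lit 113051598516910319830) (ZL.cons (nat_lit 50312) (nat_lit 6) (nat_lit 113018027684537634184) (ZL.cons (nat_lit 50388) (nat_lit 3) (nat_lit 56458088684223131995) (ZL.cons (nat_lit 50464) (nat_lit 6) (nat_lit 112928772663203639472) (ZL.cons (nat_lit 50540) (nat_lit 6) (nat_lit 112966563486807043328) (ZL.cons (nat_lit 50616) (nat_lit 6) (nat_lit 113029564659187300420) (ZL.cons (nat_lit 50692) (nat_lit 6) (nat_lit 113117800886686520652) (ZL.cons (nat_lit 50768) (nat_lit 6) (nat_lit 113231306771746860580) (ZL.cons (nat_lit 50844) (nat_lit 6) (nat_lit 113370126826480108574) (ZL.cons (nat_lit 50920) (nat_lit 6) (nat_lit 113534315490123414928) (ZL.cons (nat_lit 50996) (nat_lit 6) (nat_lit 113317672035310399092) (ZL.cons (nat_lit 51072) (nat_lit 6) (nat_lit 113134501921202652818) (ZL.cons (nat_lit 51148) (nat_lit 6) (nat_lit 112984733316382878950)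 (ZL.cons (nat_lit 51224) (nat_lit 6) (nat_lit 112868307488064873654) (ZL.cons (nat_lit 51300) (nat_lit 6) (nat_lit 112785178779061061242) (ZL.cons (nat_lit 51376) (nat_lit 6) (nat_lit 112735314589877714730) (ZL.cons (nat_lit 51452) (nat_lit 3) (nat_lit 56359347682965420324) (ZL.cons (nat_lit 51528) (nat_lit 6) (nat_lit 112604024183311015800) (ZL.cons (nat_lit 51604) (nat_lit 6) (nat_lit 112629466678720914278) (ZL.cons (nat_lit 51680) (nat_lit 6) (nat_lit 112680361646989891588) (ZL.cons (nat_lit 51756) (nat_lit 6) (nat_lit 112756729046929033602) (ZL.cons (nat_lit 51832) (nat_lit 6) (nat_lit 112858598826538316456) (ZL.cons (nat_lit 51908) (nat_lit 6) (nat_lit 112986010934750920258) (ZL.cons (nat_lit 51984) (nat_lit 6) (nat_lit 113139015337099477406) (ZL.cons (nat_lit 52060) (nat_lit 6) (nat_lit 112941087827732763490) (ZL.cons (nat_lit 52136) (nat_lit 6) (nat_lit 112776266679748842628) (ZL.cons (nat_lit 52212) (nat_lit 6) (nat_lit 112644487257403407398) (ZL.cons (nat_lit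 52288) (nat_lit 6) (nat_lit 112545697882491616454) (ZL.cons (nat_lit 52364) (nat_lit 6) (nat_lit 112479859814082131838) (ZL.cons (nat_lit 52440) (nat_lit 6) (nat_lit 112446947233324596890) (ZL.cons (nat_lit 52516) (nat_lit 3) (nat_lit 56155293471811034765) (ZL.cons (nat_lit 52592) (nat_lit 6) (nat_lit 112323434144274592526) (ZL.cons (nat_lit 52668) (nat_lit 6) (nat_lit 112361980784350064458) (ZL.cons (nat_lit 52744) (nat_lit 6) (nat_lit 112426241980177926690) (ZL.cons (nat_lit 52820) (nat_lit 6) (nat_lit 112516242932227131326) (ZL.cons (nat_lit 52896) (nat_lit 6) (nat_lit 112632018934988678054) (ZL.cons (nat_lit 52972) (nat_lit 6) (nat_lit 112773615390816591010) (ZL.cons (nat_lit 53048) (nat_lit 6) (nat_lit 112594036847573702506) (ZL.cons (nat_lit 53124) (nat_lit 6) (nat_lit 112447204882064120282) (ZL.cons (nat_lit 53200) (nat_lit 6) (nat_lit 112333061913124899404) (ZL.cons (nat_lit 53276) (nat_lit 6) (nat_lit 112251563178807436256) (ZL.cons (nat_lit 53352) (nat_lit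 6) (nat_lit 112202676718823763204) (ZL.cons (nat_lit 53428) (nat_lit 3) (nat_lit 56093191681006551169) (ZL.cons (nat_lit 53504) (nat_lit 6) (nat_lit 112048345870709471668) (ZL.cons (nat_lit 53580) (nat_lit 6) (nat_lit 112074297216027568118) (ZL.cons (nat_lit 53656) (nat_lit 6) (nat_lit 112126210083661924972) (ZL.cons (nat_lit 53732) (nat_lit 6) (nat_lit 112204104831599849826) (ZL.cons (nat_lit 53808) (nat_lit 6) (nat_lit 112308012006801318336) (ZL.cons (nat_lit 53884) (nat_lit 6) (nat_lit 112437972357178174218) (ZL.cons (nat_lit 53960) (nat_lit 6) (nat_lit 112276382996409624352) (ZL.cons (nat_lit 54036) (nat_lit 6) (nat_lit 112147187484306256480) (ZL.cons (nat_lit 54112) (nat_lit 6) (nat_lit 112050335155961363398) (ZL.cons (nat_lit 54188) (nat_lit 6) (nat_lit 111985788030069711814) (ZL.cons (nat_lit 54264) (nat_lit 6) (nat_lit 111953520794032912844) (ZL.cons (nat_lit 54340) (nat_lit 3) (nat_lit 55902046990135606222) (ZL.cons (nat_lit 54416) (nat_lit 6) (nat_lit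 111817198124936785898) (ZL.cons (nat_lit 54492) (nat_lit 6) (nat_lit 111856515697813767270) (ZL.cons (nat_lit 54568) (nat_lit 6) (nat_lit 111922062117558186746) (ZL.cons (nat_lit 54644) (nat_lit 6) (nat_lit 112013863088648375474) (ZL.cons (nat_lit 54720) (nat_lit 6) (nat_lit 112131954611465153138) (ZL.cons (nat_lit 54796) (nat_lit 6) (nat_lit 111988001704102817624) (ZL.cons (nat_lit 54872) (nat_lit 6) (nat_lit 111876096832593777548) (ZL.cons (nat_lit 54948) (nat_lit 6) (nat_lit 111796196112674696030) (ZL.cons (nat_lit 55024) (nat_lit 6) (nat_lit 111748268210729918528) (ZL.cons (nat_lit 55100) (nat_lit 3) (nat_lit 55866147165751890212) (ZL.cons (nat_lit 55176) (nat_lit 6) (nat_lit 111590582687904741026) (ZL.cons (nat_lit 55252) (nat_lit 6) (nat_lit 111617053060129199402) (ZL.cons (nat_lit 55328) (nat_lit 6) (nat_lit 111670004185116243396) (ZL.cons (nat_lit 55404) (nat_lit 6) (nat_lit 111749456828012926746) (ZL.cons (nat_lit 55480) (nat_lit 6) (nat_lit 111855442146718424628)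 (ZL.cons (nat_lit 55556) (nat_lit 6) (nat_lit 111728779879950416910) (ZL.cons (nat_lit 55632) (nat_lit 6) (nat_lit 111633826616867188398) (ZL.cons (nat_lit 55708) (nat_lit 6) (nat_lit 111570545120894980962) (ZL.cons (nat_lit 55784) (nat_lit 6) (nat_lit 111538910575760864326) (ZL.cons (nat_lit 55860) (nat_lit 3) (nat_lit 55697181018066298702) (ZL.cons (nat_lit 55936) (nat_lit 6) (nat_lit 111407728263691482326) (ZL.cons (nat_lit 56012) (nat_lit 6) (nat_lit 111447832188026003324) (ZL.cons (nat_lit 56088) (nat_lit 6) (nat_lit 111514689536165311192) (ZL.cons (nat_lit 56164) (nat_lit 6) (nat_lit 111608326526677303696) (ZL.cons (nat_lit 56240) (nat_lit 6) (nat_lit 111498615868335107542) (ZL.cons (nat_lit 56316) (nat_lit 6) (nat_lit 111420281829198753112) (ZL.cons (nat_lit 56392) (nat_lit 6) (nat_lit 111373293690037206542) (ZL.cons (nat_lit 56468) (nat_lit 3) (nat_lit 55678816512064614005) (ZL.cons (nat_lit 56544) (nat_lit 6) (nat_lit 111228459220345150268) (ZL.cons (nat_lit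 56620) (nat_lit 6) (nat_lit 111255459000014097812) (ZL.cons (nat_lit 56696) (nat_lit 6) (nat_lit 111309469147500882684) (ZL.cons (nat_lit 56772) (nat_lit 6) (nat_lit 111390510843255499706) (ZL.cons (nat_lit 56848) (nat_lit 6) (nat_lit 111297419408860177634) (ZL.cons (nat_lit 56924) (nat_lit 6) (nat_lit 111235378726534484070) (ZL.cons (nat_lit 57000) (nat_lit 6) (nat_lit 111204364466599075604) (ZL.cons (nat_lit 57076) (nat_lit 3) (nat_lit 55539587814252288607) (ZL.cons (nat_lit 57152) (nat_lit 6) (nat_lit 111092809180614639836) (ZL.cons (nat_lit 57228) (nat_lit 6) (nat_lit 111133715183435851254) (ZL.cons (nat_lit 57304) (nat_lit 6) (nat_lit 111201909678537945280) (ZL.cons (nat_lit 57380) (nat_lit 6) (nat_lit 111125111600953284074) (ZL.cons (nat_lit 57456) (nat_lit 6) (nat_lit 111079044797853728614) (ZL.cons (nat_lit 57532) (nat_lit 3) (nat_lit 55531845601913149340) (ZL.cons (nat_lit 57608) (nat_lit 6) (nat_lit 110959818945584727648) (ZL.cons (nat_lit 57684) (nat_lit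 6) (nat_lit 110987358720847054144) (ZL.cons (nat_lit 57760) (nat_lit 6) (nat_lit 111042449071283574716) (ZL.cons (nat_lit 57836) (nat_lit 6) (nat_lit 110981624872925051614) (ZL.cons (nat_lit 57912) (nat_lit 6) (nat_lit 110951218735733474686) (ZL.cons (nat_lit 57988) (nat_lit 3) (nat_lit 55428218070945508093) (ZL.cons (nat_lit 58064) (nat_lit 6) (nat_lit 110870342365043280060) (ZL.cons (nat_lit 58140) (nat_lit 6) (nat_lit 110912066487920915710) (ZL.cons (nat_lit 58216) (nat_lit 6) (nat_lit 110866902955470371140) (ZL.cons (nat_lit 58292) (nat_lit 3) (nat_lit 55425925206153112073) (ZL.cons (nat_lit 58368) (nat_lit 6) (nat_lit 110782620227257547130) (ZL.cons (nat_lit 58444) (nat_lit 6) (nat_lit 110810710798025120158) (ZL.cons (nat_lit 58520) (nat_lit 6) (nat_lit 110780900859602005522) (ZL.cons (nat_lit 58596) (nat_lit 3) (nat_lit 55362078953325754004) (ZL.cons (nat_lit 58672) (nat_lit 6) (nat_lit 110738342254266817162) (ZL.cons (nat_lit 58748) (nat_lit 3) (nat_lit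 55361792429503924760) (ZL.cons (nat_lit 58824) (nat_lit 6) (nat_lit 110694932476824925034) (ZL.cons (nat_lit 58900) (nat_lit 1) (nat_lit 18446744073709551617) ZL.nil)))))))))))))))))))))))))))))))))))))))))))))))))))))))))))))))))))))))))))))))))))))))))))))))))))))))))))))))))))))))))))))))))))))))))))))))))))))))))))))))))))))))))))))))))))))))))))))))))))))))))))))))))))))))))))))))))))))))))))))))))))))))))))))))))))))))))))))))))))))))))))))))))))))))))))))))))))))))))))))))))))))))))))))))))))))))))))))))))))))))))))))))))))))))))))))))))))))))))))))))))))))))))))))))))))))))))))))))))))))))))))))))))))))))))))))))))))))))))))))))))))))))))))))))))))))))))))))))))))))))))))))))))))))))))))))))))))))))))))))))))))))))))))))))))))))))))))))))))))))))))))))))))))))))))))))))))))))))))))))))))))))))))))))))))))))))))))))))))))))))))))))))))))))))))))))))))))))))))))))))))))))))))))))))))))))))))))))))))))))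

noncomputable def vl : XL := ⟨(nat_lit 0), (nat_lit 76), (nat_lit 19290609), (nat_lit 152), (nat_lit 253496363), (nat_lit 76), (nat_lit 19290609), (nat_lit 1), (nat_lit 5), (nat_lit 2), (nat_lit 4), (nat_lit 1), (nat_lit 4), (nat_lit 0), (nat_lit 0), (nat_lit 0)⟩

noncomputable def cp0 : Nat := (nat_lit 30439883840386946295884028236977345582170568439895077918603689286373644384162549175238996264586355075010760729017343733553441507419572419479591665503034078154904632115493926044072890583771687216506525488278805438998159031796903403162824315830733280150411155289752212534447246714934858144704529806719673180483363439878692676072947085264701259519365420076471529626958705591477775930471703036468614439947818816299225906227016443303750003508630134787716156681409024333721737983918138195770067307836551447803878429567458839170610522189194870708530133207687487723752065954323690275539157076084089162635057981330291232724999214572288712637720692868197253765386389965842416858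120238656563445709288584220151313201802845091496486011907885028996728357496878149848095574496623761428326143982348304594420328762482485119881293235570582020800423823290181757921934996999906248218081421183076980939947491982032186023299828036622354185416331057644390009354508339268431006232748697790249522441289367799663968845291910111864750574578395203492040246913808538660498707763218219933809556828353893712757027967226733081171557135696175431672641923424154831254283676855572625448052359117923913032294705967518658576065579799937552951708609654377891520121829638351113450167832337254505248410101023635606695982425869553585723196523786090689616250092206660417978520020364737624550424739273364202919904606803104350090791229371764665280406619875533250381118766952162253120987823378818006110106553844548170289245866657178804052803229080882523874594876608889697259748637010785721830754613333149991961998187250540998568544518645339831828893141361346132700554252969264956168625829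855615262830541788296363475052500296029637056965129263378404711639755888256853081712133992536283864928332587867665800412670176766022065954794290231233061437162029524846280909112459869366912777910440601089672311929630159290075049962090008183421123080312838846903925194762651545459643209653367978277929228382491501666691938335763724286798518480014707963239223040652235691160923776277578761151634289202617644109058089446340821303587456156464352206299443062556268406040288232887001679157722838785177157131952030787821913057389896865314299558695695513247181576909810088127251025622287466249714143351202602643411362432484871249986127844472287195136604154806811800664384677787423885031216576246228892105455647570543039324743105816286334320049892385119791973415011911976128042627407297312630421218495317166482427884041015022164386829329419279842756823771878347613186764044170777856508251739850733541122293665592386254196419322389215886790100966227644787031746199359989949002773395437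864601248077021166684420025345647537268648661927135467444972434528682031968261472619493121090904344252732815748570475271074691603637849183691567902478514854592768502543580235457665034382914633716649772089878112428120302178258599168020399998673840360043568030136534969475686181174450760252788785373351813455639182759672032934701599650712043747661041093989015996109661555125861403131456543147091242011469439281051835804183050293049479093718362775733526021271305851359226500937979725796561361751317518166234226924911998151205644404217964498746423353401226246429873225246474138746211796628474173436682366024932604351643596185174608298644475058597140326941584569961881983542197562543025126031654529969044897644102049114299381941653062847875706227173004440795927065890025715569594962770688393116101402224827923977395603645965907391397899359797315634193465457899177095350597558487928792164727006973106335215498998709524423873465314282390150821364115003124960774787557227942825560028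218318209982838425937469312599626484936308511176430583915900593587197328684769512353366543356361831253411829640094242872850248964327374395009167654023413927462422788800810127726234379404777114517416137097795512253525860971154234734496977579136562845783218669260008820703791737781568898373881651992614920892022390021540149334050758343504612624094378179293109748869751652699976669242281592923629346112376713031633927885447291199974568917081941859894580055738532152460001774507509660989562571825016144988466146082461249638889010898972653704972495586437247816268170051131665468997042937020282883597771185870259623884038404686619776229245749251926803966714588051232149990369442227623732965381621982367006380995596413921128324976223920688118622753663259092546015904089480118464756102355730398472274886725325302997019257527348182191445099499151278694734627752309897627207719947650111175747960468807952527312939231927606947374972219063120853701560770193876926634613336271387895964173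848058804221505756955874961873395574250646514861726502373500537418019162066561915552647946486569957566251103055697978406386253349540527185044286728655189403470413461930756987883423784757979133867623587076152847932657877447141649299545553940151477702759669989272629497885390471443412318391219557757595446785851276440208711288611233730070580177596759114158173741066449866759096640319412646385041875153004110740612736022218665437634144970327063487109487384690208400301265576092678067222013156499038830249640951620766467588386198765677681716226220003139362022330752247667702815046387898057983930833538595089252924181292092386980489444797367383695392594422470505230646647311374689629259818155689770838789612484768940268723679187207849525538622340766691658870897392062374286983801044737198657325260682256788045506955681954611891198565562899579942569984595185484705641292314268288722704430044981577519136859387934464070674896756999688747663668342451846010085851053762388241811071300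917150871302914364941379390235602451426480287807219203336587842153761926895581205166923651968570596628362038545880260084042880798151804732429252123801782507018340322623453862065612324124122771945834351104033703279618476202292127284107542264323059400455924095971376955455169589154983569010593263576103382269231774654876765129986961635270592162022649722222149665612493621495983183606725113424285611332497972055412139758816724939684914971573418884143450442297124907116747524454157461946392291848777690036712671847703482045805453300585363784928661714546194138295816231401163605531540342514782315512900873045117022237064396719623574840460782092282461737138801725170240143897378366360927864273580854073440892991903347944869991472843890549888172669464374597434445666304149384094852864297679365112818011975068856451718229803583485598694485361820294402374528454305025350721513475131232626417392356773606734481869813173545495068291738882990185819271893825599994795956489184407537087927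566227572190864724945552748383700311472286806917925481032948722068448298984915908248597687948942541561474702822963648364504752431611696439590283385239801881739663324466080153813765714461434554476554244937667741789446894601821763212785272819113870344528446843677630455851281812857421648044092280622210726413456570945835121764344159940379598353455087761504536082738773561568517428521385841915313085917468549098469126228580272865432873638317016962436374522770040156536542441110212763388897788804943406017602834509769193433408076886460753634333739409634096161382679431805164352574987762479532415536579165940346043981362652326300975884977448137980401173877363026960305701243687755865100163128593095215348065147828756939969364875638826327352795009109521012151444468705630383027801867350550306010523146253269653829879299952649731969931638701234280501946319983431011630060101032369936693686421843525966607439819308909551085841823216356414211085408155567197210695448305141123078723731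323308178013669679959439167242076892623924565790264134671215698962811551331798638686852222613213696214369192833579888486053117228270503026868654775885848243831414238530276699134847708696867245016432766213234363321860343408567888340704956594707023667157974375481646992598029423258568784505249243557906978920269402693742847409357924176261175818249197011279680371803254653173289730620947807410940956609065172162741094314780029420454363679848447643890013115949920887108701321466182899415419433990958773742042170588621060172760223396878484073390361908908505892025019939116396436797672228201250951669627489755795436121490265253642331216903199456775966516764326160212097745364888782838459205111073109643113211969345056732108905190374380983849666022429869969930809081291002821209991488349208057319420887944577409029880464555926802472099802188561802843113374625530874464606438754051599318884155897621907795411414560753876508816579324926376451303944964800486145793433416726513600359292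181213117299992573378487672563272561096136190978066884528907984652798711634297617711477233374053805636599612812095929291089774597552048895872400998502153549944529932735931941011183752636754152119331895535243303245677290768971700880112390978876115792119820001903115230609149661155017334871465277534155784548810373470587375916993632900631118934601679526314343074965193363751479610876618967260393758370619830840875792195980200958619110821671414604928680932541314175380861610744312586279908325289206568694126182961721863741032374609872787062773387937394299505012034169507099412607966096692584214159275662129966826693980647763009881649582131191902455854883979801855846636606990290886890851765715107449727146141769632760451508682332131204649736199673954616579840441915022165176662800579194459900824115340759599156014884146853708420448975471627511415914526596200760674348128041028026758766273091047406015244742474532964082445826724553189086618627792106212688237472115087070900617628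049665501629919608726892762720437682318821090963108158997999625449255961165932207645754276289095224341137285662166073210410530569854149695368559546188071455917213000763781436598694596976411491507611661014457112068374473230959602985304870424066738278800679277482015667548222692261092806256510538841776420564737829771263763609023863882964927296640665555428471791755039904347125206751118906003502879349195927053116322592232083179843426917541607607931369854406807971128634713658375636624962634229670009341593799539407200023442284555705759840369661253599517353949476720327524644860438893753613681972068223649026718173396817254887157572730613508762115464303180924839525671977198493480626388354681288361542515759158002162431913961045878192684321752503654503157170252357728118185672611021015493090963424845169703657484424844741865447674370587449000317023162799037046255555726968527295773504550157775464739866113452421968198620741063000359752659486062516600876108847952043555853693074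864869256608518562626498193391896358438431414107369432820325447304860157033554758905607171429729563169433928361372315685903509873567097780598969256256297463623694678574316978107994944938214340030930959627319537543631842290108844855702466043288039739882322085689655304146322032927292652887210923221444437154417434916773701827238758302377655415747170812048455240828105118389288501199881210084061592943511579661809135034040623263035158039924930882635126194984232468831531634608002161267437406197292889319186780568161888973491340554338612797555672453240788417421951125606460021557832889255644832939271787776109267037433128486748513929974581263808057849074389096302027586684109847031261625778439539458267983301091955293700665877525204103881556825926002279952608841002410997010779454991264616907761431880263414780983425641545249452228199187473368240585714393806433413303522131005984335874890040252682288875268884291248710342521180111037820135757786916801386320368543574938360743058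747183574518785061484345181664365215147916034316757512265974537255540505478047865953474947651214719620912566130863369913033178221439347896190386975354530131039190199612568796850359633034802195726052532839043125507711148491591547809251797144579878277962577732259270013041845735689765082718926784611555576089552431416040093363495608891623532959770409059264740807050375885654104444601976150486914646823723712534954976095716716627681301274166993075189968138193483041021795638331515769448894853843601556402303037691841413235289376054168623122585628236599748713186093804284360962843627543102194953795397182375645672675799673971114892829791486114219324640807035056389457269368475454101748655491109667180211337484876170054677097935034100098803640857788385362473621731766795696491609275032684929308078278393682221405917787996659208958040580926761629163958283212044112146231670191736316994294506446647487837728672662448644946372137618432156423903649784848820255117309589161695394653984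371466608533244372391910421928426759682079614142922235689684731150713545221786157808298027999308851344780695534754951261734610853162991015888469757793490623056834708353982342653579721931333585162706085375056910195675747051447131234972704516294658873468378353452206891488777823797292471451506465432808020719258416876621939191029137911940402607513327100172454987071031436181740281475895030787462750078421365589827867695050876550027386442428999338849216858892086850260650537036289453432581314152931116861194308939384627385961724781277838081027898751258815158269707247715179379401160088869402612129628938197956947767273116990402474143374659116459919671829165628440837182634826470826467232825853105595579059681606865931807960703663439997570858819929005293016983179712672204655254818812115569600579955002181335317947135394550457354418542373264622589947723606452628444048143125333593040414201650730696388169311922563919852274887237692929798472605546113486749789604573434676650840422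224667146288947241960795112474949332913703673725719480228494535314528910916067704130419257052081473863541719677294498457579459076552523063313906640628193406994387725380501535003955893612891707881536453262434719633071973108146871602260199887884815933370363916818510865959282122614571551812528208726037166360752500725457266791645491865302720249718925400032911546512759208133024095493555320450683096545529453842763223611319359700604395676074817786611054260679628697278894365514211718994217540518746889298791518704476928351909799250261684698539676732654250873893373808104351691939664458566373895485439269610609924734722074607270451950038340914448353725391720561924410278794238160602600186307515660835131639285411980965775868578142378952745948286789368125727373240421154911146020338969111121603749025746474523338742643842900000816187392762358383379718426704120409226333406132456026236846856482087341776334989297768526188435145847939298457770557727029589866348002760556452000615290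145386151102384516131367672738252328268762586057998461568472790828528809148698392140978189538368848354822491753620250842724848945401933153085206714487179959408093635561380148311592588095562594300859124166092928538746470076343959545649546707477770536657414262911571176092014795894342212363643440411371666744314617760318053925319207284589097153570654937419661259327456138881264821461946987797363879978870144083090015539634155941975171363407550667537401853962959094009990859086373977719770593686798096991137535416199814889447481706091932902371876963107113496621165239684153116849429116669036548794202557075578740493377374242140932431598581899966501387897781425210311510795962013516177085041794374992587943510487634014498997896718680610591073441684356746920265499099427716911219406193204447847484154122226546626932863447990715400942560008067546757328697783052113457890325011648831097660919308896096070468650524989748622555965129036331214211783606158324412159971435016198376688192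173690818067123320765963183645176519609765586168904238841779961941754077191662341032908190857937171176092189291462080062880577029242123195692680693216116714359509197746403596031185046670669408839324068352703233751287483742520041553112967059183940462985637278859219794698909779476634560409237061640406670246792193482362721184088405484270682879375619870365492399014340708592316253908126427947530259656841523904177371949303015568410686504055316133693123963526280045260693160208730660810860028909404067522024608730290027127913671001274186294558499391886750947531244076967606412399653253256924793573090363009369659630007797971613536148937221543146670817143891007346691640139062866113915638263786307284150565491266024091935872601431980858028705429495505538944012298329370697243281986057449148600003943234450487789279043595544807286739101004789764395341806412332373416098613272740112963162870653902600661693618026673100522724592140917919343581811711624034384834763682405184381987177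758775766215359437428031187581695393033946880575907838749572721124820855289085705670198523143750288905890059334303077368647017707265142411997128352368805934238050394832918928428959204955088706594614238302999079107279483838835138906439304071852399951202496789828136331228518287234598853821037698006401860760318227091524805309768850858951055998929787888471023382057968735252554021224199326562366738494115045535436097768019532523485808833495413586401678692856584975054350352310988263650375385148119648202850542088268991707253798430620642802289838147556475732187731453506951827550433168703838112847306241191753859653094284562639932984851480472903288347576168577994328066855427820767383762025726606958342554585802307842145579788019052813576102761624101988859003819223125365943839336109948226016503045512341459504528916291955646402558075612713797945965949672668883621822744708956392873745991829224216793625466281074054085574237982330953721975911263869663859078437221693491879464384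362389254614128478330758808006263584697664139859651088541785318556241629476505226609486925190205697860911815375221683622810948137538180149302094533954308483584705293342349222695743439748476416599222709856827121955933229162628440643528568790333908282808296924829922625114382577685937952398818708405069808083131426945112945015419391499604906327706338193721106353003418308696845595119695534346759197554016742281260554590658558650893381533546845214202217884604288924448716962494475853652880605200517971237142528)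

noncomputable def cp1 : Nat := (nat_lit 316142341401904088751845520749465577290828968464751295351932581886547241446933306437563998752699621927229377593481051300974441576709438570024009674988830138764119702312073902657466856657513870339736677404137586840975064320365309257317972378465649476057760481505246347656053524306396886197033959663561003215644637850730363056540675169411839891742666732070746281952852267081720154372419183213455682566581274489015616443067765632179238646315955673568363127954845173026201031103891330935139588302628090214459642825277006182313744686597042836411901572369312133596394295322920783529017151901659948148765934132314529983077443684878982835008463033471377389431046624079326790377123135027787613435189853305381416050255022158820726365557434223853459177915499012923117763638548105118414549435227923071667344439562568260134216031233790391870220617493427418664937638415820040966578032976804621272689730458558137535450216445741535298467854926542392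268010522047731480945039637101915560133141138643188179821711433291819284119587893139195517328072237836248352001963638703681633279164570413174996152603255513221280307369698991235442364105105645266619910810271370734811847776302280701229603397566843395506916566642557121984264255298815088872935320867898497156302203067743942468303849486655455241090212473068931616828059483500292784167641784287496127324352051483287997903433358604402761096959725543962846998082763625811743797870427421594901923611108205777609923512706109052741019005388384016468001712640390576676791625019716311059011497321724508830437278049155285037505105124565784791683666860066510726767455184964134992880805182829610071790255003993914867179680326015165103165570790328793519133823112723170308137178084102543680759826908939280348742144799063080828983377562448333411908401701710609676653610863003320256891665373338435909817231884707437321224326118186102693381612715368892617451838110417444813957493197304127442133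147995431562907510155032496303215194035887982203955618680107751291746044699925554729195846004692517536473341219102605992800999095898047901573115312725147047118900144740768710613820336007931541608741107959325371092522459483006758140525437070739822720724155200176407372896668669821780233280604906035854150801830515162236910127126601731916236548228705023156927837589535623511124808117754554713022290170451273270326841000578444255149937016550935084886150653717614278663186136790801508264582618528999854466550904195669209252500116681639608494923377714813121860650601984866907646327723007161949199288705691847540838155193877491458591690516299202233093755385631924554261517057255373624849231660758117526521424851672886145797162121068307148109559346966575008258614425322946166817246605136105718035199433787713706395645809217795911583806121952261494149550593647144511020784185045795736656088659873292458958692543772384394991937980388091151498157920289917164647031525723512765349551000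859157962995127448183004868853876706077094077507709123626490815795928740874168265972012115500197916342576746018719768099806494550322244590978712591270620977768651542591123433157997284171851356510086222490495614316447124752509371154482213992206353656273246237753274418159674984903285210826035856528809142470529933550143483254698954362889077518733910651132004977955753900815430493278133116057726584011447673573452402368063842331333748194920332693593625172740985721571898085388722807834346591394747068089746612872708170292192972873772154545272241848793037712486777242409770782786516537270491620818704313433482605922049393826875365593788788622574777181802589658820434795302572292734660842124256272393575976065479505259248047775397874478729674187903500723630284743635710930662480509041289243971247195483632802347520021003895309417426463193290416586002536691994947122040330497022507224070944864745536175384147137685955734311870457275182923114389575456169797295511310429083265483190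337274063789732948265123449725286371429005415265903871007611612586051766585984322096299662255950434692936253579745427190266774803923500870277089223249151095149652030676565915261690359474036157650871878819838631386327548706087276945373245010403192581693916489981039089155315503124136236297475420958578151068526355305231292626394138679979452798785056489565174178062052100966240275620162031401881007398987376795564811412935667681797288407167806812205923636068850606502258832632057654229028414552202896948902186784502207283913170764109026318738575358873723096284472742923008726951995323350860822435381486826403862914017491750918236923814045261478907328807511408053722996787605679973944850974808634464440708009567036460032839461174247700826891108812267563741212293177967518435733383497322927907606559080010337188998026353064456412657755158432136415681212712058433630276910390732490632581674135164980367209684387874042285671709895263416015570218908830640375030661647674682510201133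799785544945590603930012721714712256232121308273659710307699001646512412583799984164402645910652879702382743180030059734270538181800313264703359995840910074274234377129848673482397629809524634613706793768662026014428327942418028453621165567678181175362067641822762710552710795440984231812443739290432085517158478463499644296709171524617382273752542095526008279053918764534913881541989308085489416877933539627839965172692105132095193453032703689644278831069274141766976038244432063622103147731944516909200834788787710830346642232718846705748024754232695136140276924284874387497921700860675520557816153998139974805980280009189161098931396506434448386973778473168900576227826266078342025810731472665322742856404726491715150165705842967220724929378070023286763458806467395294858498350919139675068380054045909638041759129225458813777016646477710568769202191850055599689331982555358623203930909454917431906823129800547861786682267223058148678131708152270150042909724860046757759277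422694678297872288167105983513613869826638907657393636268956165892496470629727802763957282778121667965088760373045845288535115317550850452601554637205423721811471891584321120429641532812488703950047918560908728773320126666474531489644420033460877269246546093257708872213230891356955665037127103827597733186719456567399672667570105157405300214270663061105268605866180584245431537188637162641660954830598569292755693305818562776051295200538364094094632913440248836254627676674960776680732394598065922243501539609882604881140352340399687771206415658132217951721576287258151605512037683402556661872056109894011264288406133338438605823153705333802058099366416544278549476713064826861016227067744356931710894537697496220167259085049843867799276451308959327844471771849569895321231906305405687968188993467985496328420586740557606070478690864833274507230731823752523631468810755711010091552548501701426270471825409550422553147420546187981138394874099484034538490122904525711549165039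328040588852629961838288139936702951573863178909711706326263937769258483139726580038420120013662815196465457052082619381998090667048601609957786918732748473463051612984446445909449805005080067236997340607469495931976837625033305951437191095935312779940122577340170729555872497343483071995527292544482741746202715523115872163547791756133828673767675548330391845401596623883202057912605486456463759925300796135367353886798684882599731737129134107729404885219407230604393641350098649438220205692371666411480808071570314075211736265440341735186646664166648099799410299927145836260478544508939869292403467079551986255032668672173049833712576434001342496656305638454722914369344374280405345056314385547234268028259506047507682594186052873773248321066851020955929976330136086292359305221440181389079246211125985566913031934751167113504052311812274342983237362810705494102425940825590058370273023797645147382686513295091731846692713835693412258806675800612718764396909332492394491585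944632765315168304092735710813113790552054399251349473042586601846110242560848286801052795475222103958507747757936949393966283166156496612905316212152466995211303352314568247595769756864271812014397189650287682892127129895345286609890961373177226737120260672124111931499188499848140696752206943067334458850127858552631070066126484205803901990913016861322888018982651013586016295860229801128632369002992715721011845165628580413136571068345842655107545865305588514051626526121056195414433932278215496350014960177355545451575414358893949341271495780750124058789280597688731184588920597355874688355936908716716256537034032890303594295396180637740115164296909789569584040091027892225893012949191770182257668162170462830658198239933965176175793012165322456191265978926712311125566274877207698753106131162225083678255478003145139438778610692121097821718127707566461487644803397937953088615134371663189996276119028006787887361558772865845062382741034844235468163634520011376871491464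944154224447064018461106760423022278694198854718406875675156794073407839398491211687244023094787954908859295173904264979445288421891059776386776672575171667728989076682197097831815441699743856766967550814934381562151571760975496580426409268861502016178599022535591629227186356383115700155200283869979529271690060046683555779331276600806738812680587237327516072920146621096724593199504006780958050491117040400866945868190145314267121866424512276392669084442455322569361008195195688149648993090367295458557658501941402511763253293631693636217926125530728575022142571866517635770330993466651796853645572933626443754541623413835946309064661336263430598283918178776648392033526464809507534011303706978221653319561049246927414449699391215811175080883992238216104063957716119352927072605909632454885640036847933278019036938822326256121827899530806847360220929683728506613070620144342202158260865840454309407862428380036071132027316554368974735479396327683781605505700239846315427712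371553740242658562547051904596529549628726665984142121324884409195986577301836893359449972181450645504928421978247783920879175467948526117041231023259140718854645828497337461303977447187058455437852589474740164471301795912516201226656392668551653478355891030547564457951462011729207684628651429948597458320080862070617683593456055874533646015762631964695150838464264676106625573672507942231996891720086557799476189006757348743192673140871586613619158783204924358813227751689654841731637647962084196190426336840371470934129837024918840698916004493057002259824960633560441244305735954452409942396646186306713883165385180364249585785456264052537542541090836783897358855309512057244340393551967719339147975730231942092811602974885588838967458229004562913576203897673799408162285625591029428063383402626841995006559846006294182250598741915855162832494169235881331643215452358933760635710199292522323985961410554035051866066288101375983908029718051318282053559769773888911088970066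649529028433711816572933249357239210241034686978512335207184251938640970762051895796005440146100129434377898383821406052332355821838266603920539837667745017745126899941087432886674734129625512487657049769098228971212801496668651495494924446879452915650039495201134338410930368465291649178213481317069126732869704859575743047650343161415138194549765375770833232698602085758057225888944953737717802125825168934037614005382957668346533255976638935370409287360318349243226068172716866266619570315884583999295973416388784729363943340978318130852597919242289952472767761565210512001244159332017673665212155382323459588862009317461922817951709967855711175443058524156001917441058019118857414765169483700676103401112602928992932422428530591641007206432690373775379142124240506303313539066279836849710677567065223184669891985945487255871652772167020369843931051359126361614876389568205785392145291593616239466397421416415050721168101283916124528013445819590658517609411991377705399593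058314796252342662544406465683315664183273228042851842473408234496229993763384576472182374887420474513885535254387691420617834130542247198764314922478447522012117162350758464468998894026809173135158287879058903800137191974254308949195867253486674082879878494463755834277131106969275709422784972622876440325671817713655285359471241038064652329121188063736479806414288097915574756134062444424165365590040319233248802637260261448899766426776827047098951800752719608117368140079689115159458693841950277245538702979275775617480381151024134653256713620826084403025061476971192820489620773678626159426560946708140524527326323885071203407152691777722895399496643737828992475107363412698639526811941817075165580759595280472988052742231146914861130182349365052470479068320636085146393022174844622725521416201416105824708586290480209949702892585282662250383830788091868405100585952964624320584774206982506221509239428876658169175696996113567869334950904825577945666807234986562044551994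332645105706278812857877106533143752548045935941937824034548604350634379779352130109136363608633238503729566965465943086853251839290913653520789223236968500397719175996500394554485660584655516179821243800489534856421377878448474371272952072986225108185136074451144523361756909822990102141012057782851729550757344198257892503704906572859847261100255340011148415226849021594516078825995453321642584284920223168959344851308090121909992301148642867079962600486556144028875879601655734227099308412309905108198673543805342219254802665783217908526718147996386303469455794395264150815189563864200867055709734435638221750618751058303797041714423668349439253738288053952630146311026022098990148453768726020592129423717282496984406551125012711054897804566725207123686027362687371161436256081102963450563322057343667886825417460863969033569520743083919894506490055263253909113019960319795452676709409250839462991095740917111604510776514681434841668563078071658785617651118747085274696130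569259459719920943719559391295571641482157187555902448281066465967746597227677408683919834062077204484621101768992982962359110420151010960695431837553971558284467730147431827992918487530012792044352439577955123400206460862142988014766060149806646712823884626292311312659702507959980830545539647631740157637945139404271022553221555053437234968399248005160485967424302985348050842650118080229561510673943330675916972429116310996980448810333720871138930075203308868080002383768234466780475667785167695172059817861114056478519863839538583944489800332425524515207994070975294897266671887796532922368536274049795108694645717718661813585531345341513161687442061648720628092706338186132233773726433887834818166821066108404247584519767291333712202278914809979826634133908646161341456829072378220260445949122364013780184391504981500679651395568943656159813147514779046272249492341021479002338221354138680016103784893110480607941731156364363960426474186581396182250290057025449504467872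342653144968769726683237500273937876743322141318408818592136871251535424358684003617158366686750798493540818368260910437976315100312534570004523700542216847960441127267679987954700220490137689201053939979481223277274102620834783191455239965212347971301916806278942013431264394319745068500957155823381707765851359226986162244019718059090877792332821648089528153025184600673664671632973225826358349304415083690381892339777361220532129537183609282382984200999246902749890798397254547323229356945706421701191488182899861335691415053786651242630993695443480092856166631090399979889198979904541219531848805420624576355366227741585255675566449418810947924421825396170391931977136320461538276657069848461487439867041846140058064994457686275188020544960113137853891113782358778523808929362325242421364242106509113357258583066975634248034557636745891828906329110106770473596003674071619807725924840166587675300031690928735487660285484064963550493045290212534027830457159066380790198361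508711367641774437101594222054414270621059868471929341355046022218462763332521175075242264232630232528615121956710569717209828874353190127366722270530143801590873464860632414886135355810722395795086634429168643738175716759177176462931505731386974005725184927987340297207154974437984850748226001977913734055765800834535612111049435359823472566597553030375108917130518970411599557101585889733621596881747678454258427412544933384188108908602971640542613047080977403649395562991322253996699624259862704695962496733679130673025847349078945565419726155432929676200743704199659843400648969961962928309032647338991298562763945113325970000689604895664058798576885153706936907369425686810812951840841947093198124108217471172361232463805813729404636247948249935831085460489976131036811604313253008500971121224634479586935807712195263049070076218023279802830174745012703958489627816049924692402922968830406258201704948748080461731484136333984158510558362831689509377379086670964573402176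04010312382529298477572349436803496844998598556679538143919629377610948384765913456632828348346932450002677878145523862424901563771931431982834316348953512704786100855880701657868816117701136919825243757062367199719241809372820691751680336433880539376736506495333948174160374620463138318129588318576079257386943787365280238809435816836574887797405605367025307939801470988586436398368302781760727980972200653814379356412410203220009434622207679729342072994165514679842391358819861162437447864201586108931235510499418051429618273671610596148346885043605741350256047093357659778425416531001018283612746176918771779677584227160926810592080341478327614414088174713425753579380774498068601218115091921615106186642711866786285587539694139909342780159362153606018797354343594677505809125354440531895908902134860862991048284546475124980763763216135643559308569172299562777799680960857362687688613743911808589048460319700530203493707113945170721041151496284723169220651220352921802751312477571687080094213353976785843544722555294340992060551156701363664080087869058582363250580749048398798387138020154186129678930799276875195067655885026903785958405779689732701297792592768331452311981585620581728396190128250279524386616639488)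

noncomputable def rc0 : Nat := (nat_lit 289713526688585398306818067718484574281595995209076060994553721338613223802354172310333751252235779713280264458984747840031596283804556512194434255211082132935918001352603152137147680467667058667798689226704608823113417224544707474532343931192405925602263574794388223656907388042105518033565470678060913524158572256445510537670178191785664208521987334310705874889139809958379511664014638863472993501743111479159392962464141488694715381091554401300808961106222622698411887474186283850848672924458717402775100622008723028416562677225219437582508966280846356843275189115753715064758470482889855392102832679466890665322760740957638135694542237945287314603065493915220128120413705551596658443064130686445373194181322471935639412833973585795751835817059951630875848328094564715831755030477597253136377544323762079522200897999632815854769513692410467783838281456191112905852814910377423640075682324679349328442532955706608558357934881323758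824160985812810951107113949807194804791254588953051694233697256278038727887020751505268475618163077926839429215479233609396752837516658461226828822794161258426633809361698442611832187243483933990359105506043222660219363909758286530079659590726385297530774404813986429325574741085814673743115969660613881852175349727474514532395398191254779894556363423940096506601592022997338588474123771204570515781063370505832163297383670764830738098201643583936376668145299762948460959104614070761928500331051863992170100758075444863872268253306812663841706061409469596287651747860124025408759824649758341519364750528456724572698324411915569917598471307021679798319580012970483854209986898665186117874835158478014981848191234540497784702914053393592999457600937450700273535179850646472990526225873575906036948446911700634282143410852423050001074323373244689587073124430012511922546754662861491095926370949547039587733472771010889878685115674703248795783035447184072899565878475944979817285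437357984600183718463896893446127728929179392084794238527427324588927607981627524482011747508428485889546103872935062876450296446119781189375950981300375319880440867101728441173960083548194378375302626676527940773904787838141610508248317963087709006918568912198005801304707945489437987450949478258955982273131307142861374236610657260366235406866044812109198638261099741074106340532051324666831619592794273768878384937259778556164300289665063313341652626642594094682558275833155912181580989448173173458225797991566822335572205343374906707881781193831901782256738945249021487595227608432882923296319752157583031752683349127339393069818389063728662038819573112688495085354623754668862267038188985808123860205942670990129541149613194824113090225056972211581681018863773350983659833547126636709911922330019152542271302177628027617659668136926423810287497723433138857867719396304899430448998685078058916761720070718055768521084487949238041476450435683540754691088807580689057486917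498968829229299892697413082450668798632343203143237003344800269519012815476631854858434948732532844240491464562531160346446805384533261248576263184368139250625361311622299514652431913530705207491633650178732897465754601785493463239658513430037759960216043081708839827994508280458854636705794459689583976854210342310002476198482232544730204357958551147326012947950936272081304730201802160023675805762417497634356975869146217417016186521535040631894565119701091478280954213450906092012553802409094761771149876721120676555192292550341217211571881291979203597897230666203720153006358859444955415533361649268651988794248098366448704336032109165633310025736536976131732904488507648348648038780015991056728659044460284501825675300360437635419052852473227685207510726275183642952333451578055492557795079552487657632339812118904823183726484835344221582457418706712652953310522351272417252484996424895668720704587044916960340820288390297642264288807714894216933989379069314356095985015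577992912641266901207213416352109450483549494125071180137553186143580543948806576991349453565250816706272134976649602799568451142419117000916682707028803836898277126302008680412014202548040039493211035365180711575162026715332321308793515251750041896721779086448360550810293833234437146909406444434743919463570972290696013452797687759090982148780570470956617811351577026431065136412286738975878608831079338636493957902515963583012411355105555727606995356412450683991945240166690299406523774173251927453726778960730929754960599430071919891488260113297782204475347315495422099626006263140584889110208689258412495192926768937039351702451411323218295765440776804288564062164099200214470160554563295063528401489517426438597296310690297010778284943655636906008791148248489607333310643946059358177117617661637173438422947722159601857077365218133268995828831173509749243707760087843451942921803214802330687904531416911960615624014920476217361011255758702761948474894911652027880239453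010349292133391627470144007428927506356562709588374834207519646202659399740335326796043924138334789297488760131686052960871003539055916157375974219728066955873996504014500547261198497534105377708220213785431239373050840877816911295023696924698495674321774512935004171972431222522211086001250286873932875042741232795401191588098413348692696449786835726607526107204903494959638360629111793030968579699897406131563424469703394549478175764130613289732968254738006166254838174765247234438101343315432318310979727859572168470396674371236956990935628315880107763881477976223141297543971809057765833397768446877422161020687829755721780064844905201496708925712822178641006245616933834758472566629112382677493841245171329627548832749950807131604436974221704755452814818808976342206383546304767869663863684975802189945262419392411784223620272042754271327723915464714189488958496036254544332432403193351858623726138963606905425840623178091857218359472511960356523434785723955862805649234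410831658711037703419681359117606097326242868429893325805272718485303364853795120767381596849998006618846975732086413402862127829699646865442689399275400543885202354664383736136281099990340021827325386246701301915522381298218433472124721698312948295043527996462289389468241432945659659686652313024317842238869181523324897236943044356778538695353000915061980277846522236980870932192111997555238081666567523760518011020981827793276396387958326553301276741592086287618115650008710760500144705167931866188686100819757657843235549326993389814557589885619388812447861150402626712778080969894951934333034802526212635976750599651584697816203837545239276815485348757611574520788233737545510138867012077197714678502450581237522209420296391711897697633735050119224081321885781288510054954335274926561690848400439739047355858608637322389687260994401722236717154397539912687590258010778274827484973209266981878169196612640965084249396762604403631805319072270519928677780677248604806887595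375881966009255011424906047349594773922018282406700443008524157105824135310728277637935034578823680311292502005699032953715652841407685963065650255676674371143924723363436650551296995945471060237400153051905790600792516161825418782890964643447053158190431895598932944546102790174403566834379910701211359693785578276590457680183265920565990584611432274690597892881501737563299709670882474473140142847399469176586578136003516457229842531072873321962816266773680537810614965365964474499663274200140232812704785776980171888624024882112853745076260529586325896639992689615445183687582353279928207611143252444580706182371267309664530757461617918976113349787845864612548509593236162559192504847991350319474312050835009754696149522466845305570778849806618091908575369335146908346463364742364387406002750852070378476252630654617592476924454530399542604380522019443817482256854527053401753992275741767381131557688668579598150764617775759524507607381691087065544531468288198100361883273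368338881769676516831180851517160242923446870795096618392113632527291502139146602295708937646798894183272591793326953875523001080475301426788190598052758398888330557685311786906716240631991616371604272106306583264226530385349094554875163728175108675837710964282256734813254044705864474453100180807308703582092516402471726604439685601846472350112723655526648579337355820464397940823184394470253241272431614107029262950794708564613726202520445479611485933013723017873309370682549100210044841572032594796977517710577138529589864578505805028557386242513978503120393661758687608212292615026334118597358173600002640594087370034782248160138698059572531747452183836534751438572208944300349450998533463310659521451904795148625451227809498103980133303894517383591498281971996954382720977494242797053474909315338014063084658728768536636860130501622315007375173082544836873336444072241960652708050794074721082869292597737950102892075552174141145186914267582728303793431223404336201076898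587856786453241482646601546372787942101040441295598328095539937974361697208191442304345888703630001621215219439073080327644813185116668444360600073391468899809733491551604819115082632811915967576008920536766375210737688987862697221383829020966862884059291453449904456014668690892046629060646932815136593584101829161712381352137481762881566843879210650987090365044630185482718270548085556191105932692651480656495621334899131976864550762603891976356915349833563866050619290859666858404411425286476824529187797012608187528298501190448083293974172238498363404601665725470076565642978708431216586802521954107800294266876174006095319539977163597261797601537770275805238132252854285847053184163323946247609270375726071709327066779321407869383218066776889101759946480596614052530287223908794246485345368717900390607561208790119624099990068875891963424755268900268962956168283131183538585157358427988720984535772859661231784264285816424274851101652206124360046741732201002209632646397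058439208907317794502991122383756512707551996529972378525339246608099835598656705770060298368802714377196981624202334658982890131154436311188452474309782498222887534011112688253687148294771496959147050180263472974404462206655619143965885634950874154990903475012034569061478084993778507380617629136617730716440930472075114941524396049752900226333566038756483553993070658577697214631956694801584178251244590467607653094810999277933830176778699691216368873920460783941411339758601385254930775766476354016556810263666939005030030825530525136022899280490176076817726246383643701987325099373540264733518002674878507163805724572448009263023435171015251297506885824713356791509456778103717522550624825253399242615582436309505144244803641363049587824418232033058127567629668543753591400339016845153099160865089341120046562325303244603888014454757185425800996245563071502778650429360730899831143086516166176996919923430219490145838146662942549161440987040761212589522248125180022594492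443514449963640513500684701898552606114908162935065173177859250743453572764428224706717787575233639715283358611042250129570246567622329034351281105658062717833164323377479364900773685679878859757251860047645298965858977613022635921589291144900216871444602815371203014326305768469897303338289277507318872752292184045008941801397134067614897498497240759047487591652780335067353375448005957596228942364840525413913955709278068592108733915817278901428240166715958495420230245513843763215638136892626984545945766674590304515458543077986014274846815439810316726788604951324274509060159819104932498294000044641373801398067626782485774585482429772442282906854955026944215799055728855050218581608075721961937134410656500084040511037649575484306950921321844249374876441901929123942141718608945014210289712461808200505683552912625167246340450724627127145390233597181592856173482444743550093643251250557278311434832588445657917796626554561985836054382244612301407259565159784400603739206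195140250743629753651845868480542017667190766296718589920968990698966615682360410435085939585380447327974981611809988908363919737372868355635120790135480748294997385992258901289654436416730715717718827754219649937859509410058668850193959178504697049376681217667559581190587233098838292129591184131423342277017192761408252714574729253049520235087896621276362946705192272323150368321531660557855959089246760828109011554802770144829014048152748476096422720597991561891667398691688964480997613701656152236067780970069410053553501608575544194457974426662813488747397184153311319437827468491875782669153158279639662069925959847367737924604170266516450851453891608589893051325363483668457589559470376940707584066823754454378185340331981186739096937221228982191404800772283164425503892066809875376857857798294159411207742234918816920273019435687896305553357572535304489669164672510020710838588339750674740236507059367894205226755118480404474263384806383174903376933642512637635817636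464661185522782299214268486739312863268869719942759339398317731246737826227602400536496440373753726957695686905074219746728263987018289291746218808400337115845260280187111636872585406627259527920935446979607931250664127481266272421111521380484585701240088635526967119107573200502325034858068781794989525089155119393804259240963029473704297759103786501600373111670181659761594369283333917930124390115377734552387459071011048927409611117681966672285336318880764452761353844062506535247793754671898021807487420271332913317088348834135447216647949508924022740795505448692240926775848088870230840837998349466400315728391408158639684128711025993198862560280728123307080594076431367769437291216533295894167989968808633920154462142792611688607701622908569366515427495576272251370252184627438675793546660434235127177774769668300962352741384955764285699510147729463785459651346148486432235524265371635879844675932485650148588363568571739286413878810988607741195444468415961109281885456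837841460240996767384340993541780080473778842593382563816707603814884410079756923800394973742997521783358007247001007408379101038302211695737520172796746377863596537298847891590795989366251133731812053312247871087416969952608212186877923046551470997640791269545212213002503737378622130632496253732553534543116865097738998315027789430328481604036918113066568511681966978175531816073314484834669345359982110760690573897026202089457450670235112891705204072386017606773120984435124708517305151496846782739209086370271896512503498258975912853253591164068434948844873536742066146023723560587324128586652405120899183264651115753106427516180881957904792079936051835033926796403392258552620252153137879330663388607188232331526295758465407419306504215638054095669366233582087740437379844452523621106632945278461414367258477738726619866771854801372932617890215999095568981606624700275547286564801394701831539405707160562660744804619565615391689024935628835780834578911601475939460370930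931609110924735416032120441014721028042832955483391936658612030435520061605793089275057007275949044830054563648376561706394488120404641659030266045200837718598670442719888227025844425208022018729861610197172326003374912899067746861131418018707548303002551611891635034260175997245942234204459105196221800069860872276457569987824141939486481356077271342927428863310992470951986557596289197624687699676638048156462840587613348358939397984591287459940813580358932274714603111206363078464049915181449768189918787676526386799116884560385760178242683055569584119227290687323094566170138338148660845382223824466807566561998947971437922585357973985639100763025175362032516038439738611719399113629802080166727914114264160907223441235660483429816909519192281691695748605267367128114140520049759659290150712439005067409831628539086965220647741127710600269041465536953168575685304651472908835163294632228424787294376646284541394262613384689316001469267045039103192707182776474925790398218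440381030903669987228594657829242532904141365466713626403037152602876072308115373366343778245424868962161079457938574086812209359609557641475416457679631298376869545868208804395480769529958148256467733944461682953890289757761114355527651302373137361934979698596807432533964962315915242790115787124218330744228945283746788819123722815103323639392161755236397963246882074168593585222852318636758044887924590830515564798972057101149165772461279749392243125351821412923992718671550827714172862410805373711131336711906235702913338558323147931238178910979166272102782481661975759935712317635090576274363490670380870005937854499575318573234059396433470381132809174411209117649785996310112080578585557786286566883958731487038152499947364708388467298455605804304350720315400429875081312905143832583468034802909536117557201993226672603609858202081457652983450257838054061688675713272109567432774916150121256971200321244486838884999956643980392677140256866623722684048726782496909593163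20832674287166701491315573801792286820494384534764348005323936174203802573377669160606617786155172076654693133400113766040168713220367151618910512633001467921577700450212550988863444248365429741347286583488405369078448018394895819966420878911913241338864042414601697182914664895316917155281065685031145499972824298119012849761805551778180841253529356249781270844515234364907517144202309863073742510229728277672535313276170985425009210458520553698900435635489397810490158890189629408778303247144642148215779699246253459363506379349845214570849199967999359603647197750256300833445178616969019080827563363756984830469704672014393838324244454527798615714959558195478856135573939046371899844749185950994769303327668025537633076693955704030107081163036271380972474159325930809306442178387573876310688467142185099626436217892258323464830178457527128677924811598757112167542887452062113950695344363113881073143091635889800440299467832622824727668659075867345757101919441369394234871015020519872333776871885530443400035058263843907615811922623897807255630551674613009029679953110890665071927036677388146503743992264620019318251697024879154745971243688222048016879616130085498793388208438808768624942797009136498248308301496320)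

noncomputable def rc1 : Nat := (nat_lit 289751381191957054098731268651126843768100816592569629878793759938505901162292047578558171318265437651500778864476083258660740730960095639965787811469159058577675546722078036817127979419537913502513430291612382266822376919837020940194872392798483008820164691054797449762406734863330733418085198065895221327340530737215368263393486235922554249630255007197352055808594577419354216535701565031168959265222336662559643548499138606566017204646554689786716035228049184739723320846448258054951838857789745057046435354448361668374141236107911699420653212450683390393642852919395514792985037273117800452831036472243519013584078644390491360981344621848888784739412572749852379205811721357402570399731725031590706944616768634282693747023639931244100140608193995583888903365003631662209104740129199789219095489085528248021524310775198360038806011423440629844188901634656249027129338034483692613728336007677107779581596341431468468697761948318413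262709423459376261315656479570611941372919369437754875669569173444408565743702907921045763127675568416747993669960152848263125602550535640280506288705183371912187572157891722403480689854620368765417542112617269818194036756850252994805428216966809263794585566232666514857553654229444983459635565452526480730151714894039837036144258286506747382019522954977715107764317952524395314332033623564740369034059923472753086540710696833164285879697954795952525880397968603202050417147382334720475994871098806466347731432699115675751774791487969321596717514486678645969532491617348180549910476329001915627013157945827237150439281602081224074768099124693608551620604591033234376417405839894597594951026244361738369850700798200421322774273586425156223032416219298356728932941191086304226470482322261999303511598943548761892750480533585943727047217226193437408443738393305629687096826941750977155899014839213621323168961971968586141369229417778016171854057547375342428948805464707293919227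211780231257418115928822793680780330402716185479269192509545578381596458910536120159092338130385619783067881040863633362913656728494478520610352162990978840958212170990215280127259318999606551897134065445729009158646471361017469677841594132672982565841226137438517245175075148449811362278094468016604152825887326241268878284720535771025718666630253211608729262762320829127310435406195952467862777436495305328292446309775203137412969989399197234586032329875022613010326407451540948412587179857994191437175776554948154908696245718000933464215456473020510893199977520173702768111671510388687166160760783957793909769861587399685123011756159854294944776396881503462696032032155624663580496498463383936449820866785487144069847898845079852677535822385028043169348188519503550055596335352004484675316031545050397513322989365940891320784988793877251500375899993238254669913859839981952140408152837027414317354012344773095111122163577729985100390063182221035230019757082098431406911317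798791356366447839805410802088364869942992424751676319423954740040417951151103013224285791130116267252914547184214933189916326116166967199873237507868659660199871483068808919229932606494425450909147700741702338573342307018178250541564668951149930256209956736617494574405320659172525275113404616325723774904141042182630065762696393691522457650127194679300908566113220187912273482786064678573235414450269416510947264642630405328573785624054756752176000941627493093642252081959095117572916658696051940444827191701002297436950241515839020851636570215751595216194747243258405068470704457613446185842870001549530823738806448701158631348918536924892276208410288057412075369351955342440875870684487687356234246311224155359608978216130781719256165458912925624559479500874769837471044456997392194817754652173933871601008537007703233976067997327137451234896328342940659182800825463568775095376701960491046019495205938622198868959047172279784315535000959508656887553580733089152786064082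859344377638451080432516156316521750801252532693595819557856542590279056946895551596921831527844300959874483002192354567665228338644892490743621331774647671923757031852442486250274443088025164621075361367079132939568839544880344221556900333316144250281496954273132286022382190253142160929438701882358754401696920983038348559261907035121781658655136692754640397978391013177067337175463181201659795538930307963934237864804223263249018035387007267676926821639909039450028167284819136171701246835518399730199668973171360531744224449737456377506914480236370753641928946316824594649253780907164006280621875303551138699012481547284897793027684708570996476963766291676610370909874902207216413150422657302875526330781837288850540530040994444968566233988013245547054754965916906487619703306914207604414035544475174772387830914093852298278080907779346340116288517768334127339701165147953670980831968058549519065954320802082733743327942662361890906734925716839324432646114198237997669140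650385205272934277565594226364179707100029861139128937741618296476530631619662302379325022424542464020816908325643927188338603403979298902087465085615978968808322242184131533057205685521919625711779594223869548126150779233832756936911397706910938592565405291698168354398106639078816780808738769033225755523260519681093993555547465515427580522297428328427659571731056200463335255119909123934735423862523506415801042287613550573475805754644373644371563460931623521860787502838800610405061244415581403711148644454530939144303713457935243533468542385970802320823337958127114572299954108415494467910636978249354238450795705149368557813702992111156022873236972610300493491932342306507038212930767607903396129972038505132604135908953692950067654564954093721081187840615343351356209251581253090924540596087797667780885371298218911973502242650247050439203186118268006819362695662575227415174796684329968451681629379390351019151224907413594422912638498128106809620061413782824307136501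575973722934701405270605589707237105051255784900626770640461854987693006417578359341134919213078634114455594524923192330332161334591754221230661948142371427623300013312748155062009376917060017401381129700951422016687710973956652956803758137943116816687991415319672375816896422689960670217536177597788283239537000955802597376472325391402829009454000397534468336805183419900447871245090412482522869899030148049757801412369244697847244116395980816647350329271425451842247659336495263071496796731534607113387640570770514131869897786091369671225806212690783137396090377281112680690432638212581036464362030324073437084027797593549379568509838046678073420854003571247112643988491444440616601196969286756734074401590964499183309479797745158422895602880288458344838139799296120390863934354506291708340150051189330986291049810483187801663530541045572444762164648972709095803844075826311750955363486855900945548622175070072351613526431338259492989587443939980919592990391764039733462279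701151925590156284195866635705583510957097546322596709484943956615857072432619780152829028148142828564940494903268534187574977928539635688535979904116447678965608389197011721225992093610200572087515381040951275308023709454779695006366676501788023945919772208977787991474544174197515375773421111278269100210586805939992680356619685804854215093256072976669401978542427779309751550279781082551627438683952665302831650170418122488553732085922598728222005290606704753541369721626173897610985094319236245609031764954115696594030935803688909888022111682459645912172009781326394762714658771545252283616697661970649598462189681495129600498015307714266346755204186943159315410272000052947947440165361588173815494739507382200871385850473176512865452266545562800955159391571716154894893735070709693228948779347484519711369929933986592581168629130300220718291954300719958274771585173683825598227375157964187771258066043833405958115770989905565453632545065003390819226415904928918940608332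620492962405130050386340350248161410421411055736196418465086322909663395360987896666041833658189509282608774819826495878734361374913200238891098456799546232100456236813243115052629884106898600976716487087105487654975199522844997739235798278836151087123429129539632649764316664996061937203221867318857216391222317693921858340144423385098416395264078597970867618753051192367918441697577183345955954005382787452495731885143573171767231212554404748969755437411906563981383981396973052167330018446763170924831591974938100542865119588752431892098041960179192916720130776598653097267016426069300047263782296304057936772646752628643617738123987437585480137219588942920091192472970431593433489229290674926198020482496216701902195601687750387236982066254872267659815782396439495695461095710900613650469665237075687269420437390917805047675581769734626674958665656660212546937210012105609436552653186150509571836171410199945082354045635398320298792863817363866398994207335040984640800995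516830336653794760723461112427374097944273402153704963724405831757333446385210608612605668586213008302128052016293654129957112696577301757813193456546066995893752588011011936990783968537753381284036192366858065326224490220511221795385673799715762756874743121368546596364280461282985138065131412621092421473130926921770548379995715869574551054379793751323608067529707824022955130418962476964408152354206461991849114346570701895529920657639758999944518812349837098962588303234376511410757586347089451511758199872455170599304453389228663527075312007126161983202881174969427433667488029683178892928410034105226745291084855444057363980391801648428166825913007576765237253156866441653537704625279411326909865734005247145867936515256045726526531906799193472437410250152428988291371853936863299760737232952658831045232977650523872047406856969925436783806859999396115904233691820437988196579415646674437289894661517511562929701289494401433843546868197393089606077830871886270209728190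218498529014026754824302702868729775173682511629913482008655241642865061715523588351652379001248117206165642500502328398322241539721910068682509389640851162290963242962613314990892179997102501927404874756215161058739157869434868511676301332489313207203909465175017801528391981045283293072789644132722946457716365903653677559712131134968912227556089962773888113096286635382421596242403722023885472726742619196359401463510805606476745322028686477514364391102068953265082419905360482686071037976627641889951966240331759681496272679310636288799855132927982196047093380300722123664725406597893937114764710112129863125698998422260581076355913100032965150067323940236742368847474087293482697352689213573124043747029745118467564682712263422026716907176841859186702715078852048282485789242621987525959288844643219103903457818057943709155891004044436229557754865087911411008459412663869249026288024402217359549203389692616432829955861877963386335322083318837045776056269005904216906323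907864469322248259970247212823073854644351620167421620741030431553911087071903306537242611624766895774552686381546232449567979778275401883172117117967467234733706023829403970625675471080920470970030031041132005332906730042473734389328172879164044301017967231844997469102584305528571587815319812050956642789993022113085042388797294229413519506430248899997319773423952962740691395603392127721581014119205463837103165671739868639960955095059019943626289350757897739213060828708621654956371792604792994791815254780940072615687684000079244911517449282123182840919144068163600698246602724645038480051022186912363134339972168165622292148329697558394430035935839288147294104411414061967234498219778712864182346962620261722919521616079825194067795485265689726317513885436327688395915467506521191540190037130918406139142034429634241766814280506619543129947843065129957062600769053891724017880044022177181924152227218489607408043139935806834266780136718717854322725123726412597894237855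875469548633759299743109325701793930366415717137179793821187760593020753614015551833333148949974008243899038322146221188147898930098629522871827285251732177633961349834466192595661157545437225784636080340509966409503017183445994706463764086077692441068965901979182959096038406751138516755603074057077848541625500710948384304629639276057961155220909964313260354776833928223363462241668859969149543412220351965194963755237271337822289493091190813355896959261371409054685131552088053191556029047040157214558910720339383354868585844359105031537892546812819940279169794970478231291743089566683756311220772210482633422042693561060870660982458156376152433575359095973588379900402282000476366125301900031238594916358223446170100338698235197570133384021713578087708991702433725974521930321171017046552484343900809663308887915195539144524396802887068048517299869610830041262717192768003228836954124154060319320791387053626391280911364321162831061442342896412064098579524445459970476203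090040796506790296686819706025168016217873691028822542761441351577917033073710446485096850474325467795776464590182415707197393059302873944162250055537529832419886904016376466016389744124622603874214183168524610511881599971946732166104411100101478147565424757166757533968925475249520361403671690124426104873593295160692738372087716642084319515728602873804794122509448705514121014240333226585392012490822646546614273214281184961452075888601947196553267457279860566319722667527264636871665315793411568429589272096621937324195484709255032290894791197131005382624872906972273367227875162627623520721502283109873161250576444938625059621301561073864428436932274180244197654844681709063497573808948309015003875723716057828208707693424169727025118499297534026492322355698542306859640219707546992873798988269947894689446259666896896622138596750406370769350175588880734067461075114175372928364772935061103338097736665649502228850457808190670528183491962852290125499129489601304213762562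534758473961765081244186117343681863114831451380595449815561009843885243135487093013140882546071038566658206788906564320311085239465994553441275015105983790960852722688404035271206623970730265404791943448299107572049681011515848920520559200143027710556437958911678099585577013389150226340909213254807018828019299056852124902161414833779799745959653925535418097212271932788767798202033660210955640838751566190502492673043276080939264688585257053498083894311018832747450884653754864352982676666633637331205040325125932753381866298827341783044373244073521704788842033329004120386819544711963052698647005781230034520724241275137710941645516182185806021021069953380241670029749351282387423379251122568767625901505629431933957058412603217495320717366267874681818398094919779513650267087084193658199708118579155571861956058094734386380971769378134126082344291629370090139238233152882270532664740083217466618492339744288716311161462960544791539488036103298090392298590801392050196389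510649996256097831512701682176941168334933805356072561119334149170258772653830612225222866777368993540002765454948869375183989267678899069440356760246819431651799861245693243846451410125818515415054968501582857595683050548886794984955603431454153818508912349286747829781123275457119694430113582502682734337858520809788384415320232514419220535151629584748694574808379349702664719174654316858109923305113023297037255504414007015230543018793997471735227282792648667257710024762236552328248163987497319689456744119402133891579655944360023651440666642687933274818280319859711023671310530884567193635965112087391385819010629288083927899734497690793453205463366754494038857794018021738694958875767505361453502896632438092988791551372030923432581265754032719318844605234437038021744944359211806459179051591720985461058572585026203159685134052970725485030996239943060588938186116217830403632869933325464162935341954304897915140282433124782308641233358531684505402824717890331635024020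586028755355798392481764165494781394212961768355092668910095806405637997434679412289626290825652360685160881956703103776580082369417976677308477163483035150854852581199915840766341105382857323473593337772692269451542092795669616278091994904217192468780683383686481509704380412557356386841636732005117917808361749629825677497070921473893345293330650644937606355430482762802930240067209063258139228072303137889048187769964599370391080165413793112036800893287993666174957151355888822463741329823007624088138428106378819046238122770392345569648856659330943185052144873011710358781098809286722013761887031294798281948501077291151828706478498280580964343794561970960185976673621847718831248510245230391447641793360056719489941243620564727567091467593650525382340555476619231574861584726782085540892762805604071973556423736626086139816439660291497906997245219068169650896840569752096848123503877251035463915878328602980890098520825801327165974517945233113297504987426640428296722050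82009771158818915564448705551867507203157387060895541991375216286006920019047720844849320498244124583702171294765475935938615507544179347799375868554076251987107944661690740262240619436198857381614186493618105964031239298178527214437340430233250366429873441707508318748701236679683742215177696088840818302912823739378085876254122597091645688680189772480411895683216771915253418062093288751591762317328586143461567845623782010070037327413569015165049333714559267527904328887648138203994182557534500347054252430650508028555125283716135172520432587332376367046963709683544297707348565652345149864990859407307365438922774837140331811323579385729778232188847128073801465803590155202249566970689854735839838300469881111369482122153295231312532082797935756940011121960548209205934026526493208093725460037801219060238032580330037649656445817930091770032039434827944976999819898492958465961974446842562402657510755870223259650027778661514974653134217348077562009278018335562957409286778659903672750346602818581997576838795594541441111878782235798409039578967900805159111508724066362445121691330492619656301822467561922358512634005808534224030531413242241737772497962754926134103764812499502394017477294937436172935130054131712)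

noncomputable def rc2 : Nat := (nat_lit 290494248382512954520151675921735852917332136810458230349608942703618761310367124538361917485634347342101843391493092538782605452060396646985050412820899299116586495710030665136020788620498365785836456458743080894720522839943586254884449409928938891803219682126356726178001736004811231832532610167363795374498578293227296411916581520317157568609451679253183304055476995145376047829493879402838812137469442768699215214238362209934269655571248963113501317514530822743972683953984972151367970998419417553065705062016636784158556160709655952650724659301142878935379635974621680150743239179988475242999939857291071484604053971412686038931269325508288130693317262688230792222478321946369706568758914308856834397366583355362891853919635776792178399208046002870847844565419594028258336382019142447554232970790924762528198213700159602181627844165210839253425866373710891078744596904084089702317632480628020336932309063198283662610271284622572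275263682216510075883469443779234651334888173543898967991244531933781259158066176296417178634913864365947552072299462435127476921523762495716230685125568735036003116024101778949781650984958927753864075138437607961805055630728484824925433546047885834610920633742787649389962947623422893696504405937736603610208325443430775480688323196712158629246535822610923462833580684722143715696912542608525622667849543648578366016741980237688440336188284449366341251581662339251347825151454085371390150690603836642899256270205503782335714780959461447107206607930345953276586054286706787452776735967984539134638177519705405347982146384518655250255695505925154927524092735060011051717763407894955972773733990436397672981290536583093602168681082637520532346518918544562629269288490052789116667790655803962868512505903828685919731306214258165127169344809703620867976283062010016312094525060122687841238458388680439343466840581903500054858659238834927478732422214970139443729438927695488146678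529811558308427026410926121775543754394120562707865056622290260089916612981284549720313027478646480285692665218240338954378527176227641596801271552353031987540079574101189200514634329748269928282428970730027017156912935243696635346822554332984608863409599657031201771449465483645398334463479677773342719640957947115378623498538807738927169078065552662930244353297447285566465043737909296712926756643437010629225059698065957712687820865415124407608735103382578412882378578899893926305184292082121020970300759005163375675530065930261036393261701255827443275263418833955904073325419576477488787559745705202925918103786846069710414401936575076901239575038063026968091364809255101555540588585750148475033112274058196937935384918562577498294679680185245817479209565188343285108113568759402481380050378219931790801274919621079882424859544095188938614619377120692873307022354501590317356099988108536931307794460301797124697960527527510195448877443078795377276330337032050025796882768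190044125403335446719771779820182551850083000144790020486800891314495474075002375740288224572273549235568090335332317374138609595950611850310153712581615205747954882533375376877303568302392754752022960054901003368848228911297096258049993883042078251994927152936399029448604628930018072330683750897155608782155840574541525240724079091089651010153519999062734067284645075895919497549465497152823994730417923675878596904140456772544976934667413803137064719880918840791871182101925427135670225694162912862439781086497477911217325266729429859087277152081729928368485955699455336490779775811674300597117805787134055592530105716280287731037603064350842243396172311104027296017102621010010196498102837921761572053402337413393311805129857658759309831368257048727687334491977247810997011701795864653755388194554652382484305485244089847604416001710218153920191706577044623479588069411863026482210227465873493298611441460805308329272240381797454328329188152478427032590167424641450857016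446361489670752090056988196248344074886862046391963919613714045408732087250509137959359408912721539865554253395728339236633383805385475551873483665697573855384119384296808913384290211682462893959777276515986293658307690622896993136175481232141157473354114201892192432165589779381603042758206003944677915632994952936860095239361823894118944001135710506688108016067218596970738217351713707926467802627500768980418105510028542092554203186214731965997493709634371849827115227488825896542440684756600226332283901409223245293426898107283775328966572484899114188392734138961823978620168979401923701756424225403026215070455398921984596108083424363551437713366156359731683073147417324854820191841071943901889542667333824720992550776534703417563222666198241119073098911617146936257773506129471690619555026311784584043788233512380497259953143093351364678182352450293980952150626360181977170302035993916563510711781349871130012871646969135396096745186349766664819102165663885758524754870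387453324750913286436341866418777315634989457610246636490402516914207170711135004142324619082752538350894140481091035650031510781837033679083276296351063445760851785092390545336453463317525817031072419956430011442859913467625239818824995476124394138032711806738736442656993038494147793123090267103979195928850333537599760950123881923053303092293031275611563963572131575475803083785868613301585569163187874346970930561238222953074611661346333554620287993062114110735277055899484247254783502720254962224746610375145055309572376416438762813994072519602824215766600025251150040815512618482149059829466385208668540549273063323820408416622344640883386797841719176513413189131325882928425283075890735584210910202471819175000763849960684927373037205234357019090411974821294287616167868009418366920817131951855129242303981064773152452276680216641496465508585638712053135882640524228517355371078758944418472308013667678226383603551202937120099981470943644025444675743408760262527969143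673881883225549392567931209041016676497715441457944549458681589400395850249921678493069796759135633478868438277054158171303853331076094396753496568996402934774767670944021507035501417808104273386152806812253597684527259817700698208436938101086702934327454043824716602484168674772597865825478362172650886653238140776645235310413666294583863169041527315254501321451692401407591398849578983720001552812104268425797640450766297007174477946543621898706762340378658888749951337705225629602787318785243799756672979183337695519404403498637433261734474472046191522955045791494752325548237850695052521901026428724908099177072642235044011346914108633531996546654695208994042702788023121939925369777492412026588719485375866993166863001512153651182739134868180076119027695987777844282777004609822385841137962210240230542026525011948356275472288601835915162020387199272740645196730816368912725803804001206513276060984311491589013100687233965838542277279380956295032287789948554028172594350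445199359427418935663143090391942538879449387303053731698825265284332077120181201595448037305861427669724998340821985323738120807530035736690418214366483546014364178767701326474687172367251310000361394135602930195851024048152276435461817187186066103102823411478547556988535479304489085342515837202666395090591647154604674324870496993780517102264291672131493533857415168894489610167660994776803946226499277054471027069464565287030426966692114586156056464971039497825173151964779053877932337047239976584448429608785448403809311466565818071797732126003005196686907648569940686182979933655221519646774304620366858408101956864331500137498075313229845981190720755843751266277608351792735787580817429497271871943397822480721380291982645859098057181619934405188912541278762844906639069742759269379088140762338387181934479068005001599379610418705543440025894503736149050633107679071869852098394588835203319483390955137529462816305697662767657110813842747859842242838177258656323462554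824416267122527085996308821511136811739312573053198616702182968227706613245826944493109857449273735692691936378507551367364971772037341970243859465705993269562616010674137497033124764677463457821089582924625312403671966065810490768863474818028714824475716728139689432506841338774141734794469735561162716412767401320490723413732885754293401997695040702400628553980821489596045878795379805721875179524326472404363218986280636788627173368717274784194943362404529894914177206145048770334327429757874918617359639341360853092283657948065078056691712673353406922887148584603645946369288098863434004319804142568454121584006345263910140137767685366401573659842922135068340657014115474325608216594640114543134278735601954539101415627086862705822260213072791761377574051125976600914341224002242904176040906206150010698192985532269721598061583469588716942808185790313068933427353679078154690984108308737288533153211927976651322392906628102758053973241730018179178441201496935136946899310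504995061501526622171287864274786821509276387178589811444636767521786019110747713557218573691464432367828080152609830789374737201987666212438940498754252983173186148412441172410122695058538780288539662466602378328916901892517394188531425028811924738602300370159949204280884699609699002404573262411289817164147641949745951855525448412231521029525600256935234113856759787174529909329702361480365179846840361869637216131744598265642745764151254104086498818183800448859184232331444136533741174290890584547611457054671578276840820230727315822179082267466251005155617075961005330790264377734247528349187586318702510608770249597510988044738577617427008490476003138578696014579350520508938794684314385844735898877683301398530697485980806978813092106083284256031877598059804864687240940274008422194308067248252405866129793095145449649964983946516234327986152476283710762559228853148820544503326914434550566596788332787128846750256544475487269735427123887626530072135825013888780526863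047486082859603022565970514288156701002548385506219402524759389366198702704761529898178645731916758216724519893218961439423857491471803896698360280056260273055244076004775558355608480424791757582215283481075507559898877455417417451602200988782667293645329133354852002840619812796033739798685890608364248713179246841342307359043962875571743021798471388587618894382104684027397841067480347441837430809561122657083934405694785013055853139386055252655953306763524762082578606292163347963151991414112922366828325115270340251154861102299459394718965045787339142768096974310074795793864779039863138833896617532436647470975644506470957962987215233519277899134444919139293823871196148570032400194039135828283224481689033444045423027412482393337546758807853723171165503856612444900928318549024336165765801941833235268099916494698758178767174005309554218835442764672442553922777769636820582261572012139429106139559947297549222652979991979620050686282307862555191850591901635067637775309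754363094058649601173643724659762458883420062358871975612172135048353561173538625351175393638369830003571004210668285758235741346753008790924103736611213292142506815113646774124698323470249682900096710363289863693645067405086958220614076650490265042032627862726377196487214411149557152677835137052890151327346798982807446742823772253023176381666765245153425903022011535990210697373235146848670517276163833309749236937272885021983794837380408301163344172160556408603079976781679077205683146140819463005846777077318384911134697146190129458106956369755907820164654598460436250960978595204391199012971486187427601683089933521005130611648836690829605288797069192755934895561007249994707872799523223648698882986007662271401934771782349619379384180972396500180553074695897800531682076605610005309750625250550148345797655891845465883925028038625663008181688959837536321593175496550664498405952658891460508960154176921289362153146905230444255086643605920513973082903879184716878430560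577506567406737391667280489748311394651639539667131220284550965537871567514596648378075496067362990716744130718185502700496855145383136838881963204565919054487329659586256643476330842418512150560280263569096062120561310197422283649137748493438182730553300727047701472946989299398769128046789466965732977997985670360022881865881304904197417344162072668779262487597383662870163613455238023912660377250323828825142268583333248921413047442146337495713658558713114361348528504228673076991718566565176566667699476986343821968431443948098058413890829029192903600245067007238771000851530711827159306098047102441347523716648623134695894068575152301207207636129532928385346482316277504403624285123853890783091564332756115747456768798360511031169747780616259389067063635461241380243144676530192496714018664981778987016316557327544991660582808827026505842197603033479055968186549019025187438750882509022214323241589710198721357459749547301646030354494519553677376813293759542064720539012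658695117148589709915644721049276820251252924991442399792463414613771473922032769641218988178268462339717181766775377252284145641905604548130494397517043341395182175181577722599159224285016091361131236905362362848611089149550779710147977350938086807835024149112934128888817591165484179235181567956131241261666997374233198496217704124348122675341377128447621274280915608221238180641747525456935557150236785018264969964292998647684086828335721161441198152786492987293785401985785183283873836396537299038456045888281250953169422397973271396780883703063220197813163801295679770699551506378335233611566202999121275870185929046300330874980241813144379725766092590549138411810529101225670087810276297142917310727150458910428813172437382351903652089381976691427196464729538716514213703469534671662814772539205012789603901578547905995324144388653138110037421732090582800995773061639136958298600118975819041436673646582471672882250637418957265056715181280389091113812393138470977452148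829946221597707123876039573690916307538158474706407003036631274269413069631042373609496063004156499329080865624504377744181875688038141702673031097458851504775618854897753683830173457085605508637637805258765418642455937268620752972097623846515268017486027877640751502398742735697336181917167273747583890977313908834031589469520968766210447334672976298041187914793399340439054800644216563720177571899694257897833330119900035181538013894062098943612878064373188009158827940463939156164663375456290800841931764909473205683048892833468953329538050475896293945026907449302194567740642592308872096666364492583197754387471321087727647858314335177599257876046764707426534524947410444456125439470500624698006372912005649651510920674230129486341061701108955631170080038731912265526115458350646479928054521062873006986290921835396873893145933285755654351127728820831556583180910293432591418920703941565430818954366795806886949135220351649633857245360284618949789038665048477699935007782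980097292250215324325385516154171864393213534210368055751219672858043278859380010910552033026027264478931031731177784810046217998953228920436294203410558136762571947423019545945040587471176060077332297993311982895934882251597406159099776929559234916742740950495999710370413694471516147374856733705371138144509253373904474033048972340053749977103289282314650270007477988502211381354641918477583951274386352897765795419873744457616000677950283793223825472050780403544511177395743746131677343434530342905819212639369167627960348864277725757907226658874624965919420940488192613519551281581013496746515784214514399336523116913687885701324125911965252788434834662875884029510892305271352884206076630694084852898364099043218201785600742633672836514428770678621300646915261697457301978236963488611518114911198177005703593189594681811143951267432666180671983177359024627978696518516289025775802278543216327273212285757792478565520235449384470434219184718395303559014732628567046262224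475962192015087043106239135554756755954780534920232468003412283154514899333295743971068930041772337368978951834262590436854612401373267640708633504456379305164134825755065512904154330123277673504407211323419432251319299247902784253817332311703532827260683252833520032612816049829887791190438620149392697624158650722184671682412580746811681348885954127320580776264243625931908942366913920899051967711023062711974457213016380123625045347717415458584097282361666162849315339711417051624256475648713483812410983478786196360781335072005153500653940323190466844071817144450622448775695754094837386855681096775429787836746143911785950498433546992107369126214916183430450633706849665925782944008820568431521227860217331509841484390217570026572892207085831516855400487737460097233005790780701314172310929711287077995240286542252252947838436957303831372021021997613116081132933762153536002925811007511951921144401468310230431797314108566653255234020133057901956845903283839800002951530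68747188001726682234400935047283769612119166016762874816722864625585025596416194631172609953467052553408262496534431992772782251654151163136094039557642317423858006662689785163984540821034083564926823431018301164171091788561718013558977885162165947063864232109649386211895986267151064820386838071982485793470449153967837388100285149477342591466397671978168177706468943386430296314875389914958773574384051531310509361309215536512556507758803222159859827332200159298458681103633353449487891257223284175692172526491688714915626014398131397473396651112838839242958945403788326192390898581814505358034714794080485686415013302009452931014744267090267530513475548475066741252389078642455517744097518805930656242368308817814496014976918261644706245710974732923145113741318762043777328915966833146352652141062647356145156746034238329024631192014446620052845473272413425191058800843500284666922389727250114739241253792079425796786744181279129857363792003520706366027244802062710219746396424113258303036807517403353589893522276146178370040230145346042389135798675102083541371344921429394356689182772985086353305650259781471024304745812304434309214465484731047659026786811562754073587179730589650766836339370784772425757438771200)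

noncomputable def rc3 : Nat := (nat_lit 291240611111179892566742299375237931239908475773328018682690550437521700011143306198383189036522225946879425851784166537939901493585499275021597132472045110877382291422115392353777315163168263030696516137930626334707242833449464383415858713754020404208671283691599779391594690979871945586793803146063774265762015905303113367382019149673231919902277096587832880688228144404590829095611645144667683681062468935227308675118714797566224505855193461516854970007372029097620410355579513830482289864718401001623405887207125189769811158502489099375733946907272805761357164685755570368789842784405655507991615211008960642697134489619324650597736107255082851153329272935345955917349802725715262425985326576063763258248376448314483709883317943491329918797641551247520348595775223387929316148232398485411635984906709328109471287900264917035273787738459489731303832187909696278275869540263588672717778965481138803366717100515262522018789577921869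148489417206306333694876618996052882851069048461438185334779601049582319270055283646765470203556886195230066409206719842587721080964656389474650018063330410420128704030030937569675874890572286075603161832857720280528140426692496615258916694456858748289605739172004250569031003970713190626296195553652886256165842279324045408011682787355651482229708197629996484025537346747871116739796315887228834031497325866697329307395119221127378879902804443945932857826683822592848159465967786747441267310787991615453934508491303493635840862530478570890940499054009920201811822640321758530668576461558368436246046803690614432563415654572096913867355400977417545105325240477278841695572776069490464735992736713215427291240958769041473903473526837385814873811887674220286408453855354928858556804064491912393925954980992554415671085858406971063484459437474730181725726386869645704553208548271322333102766248004703750006770090261745169322879344505109551050840059723244464499395809094316625987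690726183193209424326774690378830206988101509522692145964892150704743658399657494333497035230703909617035964536678536068153960284644552051366403545707842412191971449671691149760255056578669643521735338960905890089053800431387976364402715671075738743705045398271330179475693199678889336709843175524816279448878536230067026875909129014864017787066495144193776261402865790930218303345445990313939004664202633823959793387576899770373672955200795441401567409268181633208937563995079181375829343234283146692669921094319531157700846960768333482498708964484548387735048284053819146047182436479822295058640738656995588610147644513827167767626729277842792910684612327654818544623677338108741222621117757694625942260722426405188075187944831631769334788677331729139961777332724668054153296521390833670994442360058162020233770324198097842786013089432057057216896310204635050143420856486902864990160765084434052605167858146145578451144907138316376764276951107880619327401716069108096613255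953082943484173358825284759826275478152533945469394827881741964324913794964279061560685211100953493443448459051309521777204337657803563720728297858006868864380149957706984179036964664452245186176652691140342964371175572823689221789283232688804658299304561451196057240039400038926889692480443055656154523441471617220976466126146665385347334766154815670617368639174893109934136891472033018503255556199554150455312299731912179611704289580388513899578880657618463240919892336918049374689575766813976317964619959815018375535645895678180534475663474454968179907603186737499252872895121546287650657378460225291766669971358159295614890519067298471542493485560969295814379056230535751371414618382468119695640111398362032994216030591597240667489546183240149582421859757173478615405673255160369203785358884104569395845108073595532857041926461829139143376380293068302262233688198822816790146295413723222189450066502953477411992206257987300358203481874752294651537561817872676525748364502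412516071274740615158343850229148623083064099762410965830948398218977478570766650415524208966457236167330683205977061100608356242478484957674341705346587043913073844254922160176482646690797522647953294811687677582875968896126645608081396465645993199733888610043838472774349226356803387431499883396927349789547038447131699616006507243689344676687753985753343638500025964427753886839828379692874554410735831209041639745110401777434489060862155700694374432419405727911369146258191208362019954228907302493318002402582664011248483775476762770561378257442342490502290149705697468657789754916746255205327837958821987862794958140957478829448804338315894777639217214941747864197666745474276722583292827673575828462498699856349564961730705216384916567326815471323447085054311405455322047871691696850021232553442851352329570151252086440071964013486304259901678466663322157551155976023989752844848967657043261831382669606255711856259998603836435146736092529131203419696526010737498978158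822331283569963373174472435525161239516211656813286730900441647479160154158635218958278511898580650453360479408289099308365753529662131205686956279368037184422682533325435730416509805531226568966697481339056434130777320860791328147442667202528770983930378333144935670546341179012897553738698325484421400959813587483029555869940052459497026549869573069601319154850292906795615245388530695943179013301104459752159110264857296940650263741319998558310214630430602536595820482141129194127082864062210217145457148352921242823978995049326110634221028002428135385395061707852414535410587399632035459377314443343964690685972810529126509770259958865602127805170534354490400551730965332459553501500546973971999802910332580081140480115334010481588520980533099836772199871046967259562865812026125307290939528607627324995097892453276856799090142639963225816497688124478757848431121932869946140186330406205901462359490298423867352903215550167102670227934495914579310905469582910150613349889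883270653126895189972146124336082277326291132828773653192543561147311509335917131041555363104659275391753457093772689788297276048671616945852614405827636269296861101383755586611956207004619704343126400594603969602578983944357785143585832053846875277873974704146382841729092236375668580280507661965453527922035022990439315819412841026327924859501670560203487549132332293902153918163889927985886142906785645988095514958650625047038298501043628426782064787919192258323820034998776410030291549515360574350987371662558271558629368655070606614791439143404524082543222393114755000900341038208101193591871981199501520940129982117864588328627511320718007505422428440090154630914833851995375304662215145448034780491803890652249131673114427853724278484003340384611246546763436499742597578681338286789153977710147034332880861483294718459067714759460849020024131998622110528588046950209905072178074044586022390106124078908937525726405919881270477233225709127730485264141708121637158433902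941063983091983064809663402075450431206815256730838103776285005695817886295559603191546931762825654579709197240461706152683361265611433113138133755967729767020660781971883353208590761849315124576627840236825228933502007760482930348654995318699378463344024867625441628566676670132257373920083272809921021094309438040428486034127192301902581322875086466696906688436879091265083665865566811282548138768140919588784635886909711364373257689513240278412430361308350853328988036553707993663947552897769937915093466482680968837169520636464935002279791072734645320241223764780138891507991247874740313031609605656675206085529340860549740058958791338016217497470895678688502674507581113275343165260084521886793701514958671380954309945221862700090168839092897812778805647705678404997318706649570288244656412024184838434757949316808136575833944825144575027628229745065758886787943536771541303514637597144557501922057285311395342314326659917538331650559209435950819022542054599576540069583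969683893192755998596788326924899994329960104976954998917782427043035783660541669574192001570217060401298677195448322879677709907895051930335975958524562856550836256496777258227995070185691468548918725397425952860579395172506205274865329935911691613680229599427069992825680326075044957737684665026709329219305794277220837012895274394933216100003200442728696995330433936794139585200861688617794343569755062688603258496121437264074146457283270491797927153502705403493101030155031684387887698366496688086655920725836748035699466122661602666533012730629150712922231794550808400561423636615872351140497155887046673609712203122252629582817157324433213921836983669452660336155117235310274658342534330890399563083656916628360006784964967548633235095949142553303979597456198544589269654835793744901338202875086892995797580114557223173407304709152064202673361808506109316549916013960991608459050672264030407630212912625016302433239879080467719617015544614891914105494734619987156012320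098514960219951987715420630385054349995538557198076414406596115820292954287929122490736027831240338215162939785910153171497300819404538490405270588937734534939492350378099731072018259225342908718538630169600661834461771451505886269179233837938820082125615597637739930749278199797993919123764350265188321625054412403806473354441732190335801583854159251152250566929459530399314932375254660952522324364289948373356384495261810107251728757724809931942215266015262136751890601427355379052235550278129546497856417256515778714260544613281986572103029751594172859344102445751838364728983039968741904700277019775941573301567779132374102913831953922667159670996941744793998717830068509525421995531229390311265053984713706589199603961605730354256660430365692827046433426611624112182966007188167507369227308150715475646573260182556752071160098623187626318070396663836684325323740342257183453791135394886775130136135782069145006816610917862237968401203917508282690166784365295553718556002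201553189691404514032506200039328533818277892913872964474343241147187680112570145739038334394823286184877799933121705146367265433640312891444758344531894291932896434988399069271531702747512296740035426889106152852551350061100416624621090062469432345537017151572004520106837753542157638386760132636738124559209256320793576885623005715679682592934590557883362290122444744165856203463946330267420510344724747401493736923710731584757604327550557352470956403254475981871967394947503252983741603360436047876746286631011518574788652642829069115744687382240858059809606766699625476178637680962688134815547792944291766306195463235922880542088974503876986649268256649458611474166899757195341997243268383370706421076486632206393960403125925390138718744630739299835849543538296273125477124930039379406651111729401781885698012764985818186604129222006234584391784508910891644306965887624685145722824087755465331231415111874703422262003979088832916178462623835736834776866730332979297832383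035574927876747410490353549768388584085226545270573740083531722437279193658577750490802638376578054262597142800125982005557805808687799872742508416491601391660829487271494862497908429986993122135413691204561454236247307890056593913229718058029628412475850799865664766248381390644572486836577884420532736991128937273684847043783503345699153363975712332843219480283102316798296759937379009929026113264556745805642279541978199123011144111626172930195987534292986856650911817982554285689274490984690433563780831310169454441448480431072150366048956863133685528519853948349454109252421579696869835888396763255054428647005634110933608357681916064150771668224785819792498098547421701372678002280877347358213510283722890578198042581526086455693093522353046742421409832812430646150246886585763662380973758349431323691941465800184798703273733715759132705681844577182971580716431776634295164999394210088526300889962653686849250475720713909724879019617707319656961837980367600507898601096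452525170257339680014921692204067162327165358316134067338154763492866718366522170677843173554440171727815281257019645519362543897727615852916945793648167060936972832764793061406206274627266497290047460628774314626668633161920058015905525265407168021691446692079797023473477394613593516234855974580116403001642498297977592157864270024179369212983767095560734363315736519887777396989413861382702177988200565666752344758230547670421129866290490047068626713999472249795713469218480786261577503424242081745790516926708725495971751599367054304253313208032413769930271624380603582111906909622872354856799600359209223226452281403622332242962386189699313343939578335621295970774240289892864754226476223778572196327325687305291645149782163412098824535098594506019766719703278392224640215758190683554512514972525921483809649242010357586202933522936052269119379097958209829647366087236045624542417017797571411108945324236178152882837479859520730184857022885352480588912611620083969368175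123017894188758624433302505263523579232406980072946593541395504968893273137787257820779733407955056923712290360781721262416289916305944130857413531743605622072798877833774086708774213635034388581145085105732497967314218120505047731276752298389804674140934904586847511901061307947389809302776350479311165912044613932780715723433019890837135583814477774740956303605888896181450375629676522479595399346459039346195733659028477329679032456270958910516419271549769724884107188724112797501177672036976765684139979216814973790291119929853597095018938478202757824377702225521907804054102443580402550869546716700773445110717062341590656277672140698671185149377493893683894069387297525494517563171853945010364855875828858494386790661379292743874490370215821194716529625732660869724623928838994774010596683745506449793517834852605608237182287152136174452363226765964990501213173360712097523605377571235918181675083100881690838961914568381339379451649719222655991733060050384216986001435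615819990440549469117325729048990204594124075969114228352637861859138346264588818238137583183347531762581879176758205874180354648961097601937466656360750159300559410776916297751530912392838514341573612775536027238328703795581137438928638893948599782930453909315912714600357532410807627154306352593702783615813167121850067677912724160123656288734954151661893431288808773723709374096849815948002692345415046292398746995040615198221113537542637731022450103246402463798583656130760064972642401058568558734013490453700591786698474418337630113393170584929674642739877062506789030262149442216973757614614567128380778503703707782522640356569261920891995415878168613633967019241477014612450335288929891747400943005681051349606521846236190456146162796133203864554335150103502871538258519949998167769580360426533096632473147642219542105578171278439029258801815586473722949773825073456291272113173360657005187732526251281436963535146506767707954283202918439926762746662642504050095512354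681911924639369135207289505089205516414514863069475522068571176813011387215422563559601163962614085056443719793916013952597071877921022009361974561305909473325594240258983998428288036035551562012395104025988040084472700033668554556326460053388655080550363608751909122097391952138164121207440864373964962747503263373971306777067132790259656458107723685678401412340714565711696239511748600776487545404251704346914750836506597385866166754565621155991781809823705265407418462982244391334800723180786167111506552133669265067345887820315425954885046875947966959518557099405968256079483206766521066912826311599127423575829546025832543136097545458802470238326448366516405165453922957272425332953898879540588804643326073666760198852980931195108494459056182360232621006333347849521090796110886809264531021658347414402048519874343793216698567314200345494109542213844161848058873187133968260953042920376094213938354507741584120687479656963478968856220535980497308455920116305037301489064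679947539208907738001927178788081313158178835356919526455734617316707398892318348342086532364197275106119894523213509877314574768264635717232332258007854543117504031631229176749251161397782447019782248699188109029310633720850719676575673643201991398327459608646085489717981650265071114239172622719305534718917547699078022174969559976826173981811294723581161485127068024199027509279998887208355029597773440171358981253641005410015388369521440743833642985698255016026760445742846895897492208317395937279389926170855618307950312095192322638248574692749744115143239641668525082941175217168218234241036239858286650548323450170241817457477806359501473773398735899738369552865927621982761677361283815935820709075983061928873383702910996901901679822486205867820257544295132719127676299226684936450129672384695651167610398991822534555312245156814110005179332049441273868618599895318118971662865263303344577107411375331745878929729935556302746639325376221464324270230953158115839444714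89176008154069476003662613843596200463433755991593725799547558972922186007042711382049403208374443166911650805203009281789970501828646243060391688615079288255106660497383887242442337867805801976066440410948135755247098591184724150870248747976404539323449090556867529873871379927842369401596248481195834549593751064497595516357795148060497716987851917284267008150177524435707280672105715341385929542664439146887105983382989782715590540150177861973802759403490304055264029157835959859394975214672735679917508927718966990924568313586692209417580725950153828992958204568069974719793255921244259862606458386926350667407504011669725261950240998310900256714953029833384672178621627111144283248390256112885977065642214449345792326661021203091345699012063925314045391624379876239524134215042022996502310989377672890526218841719951657799617441166455379037996406509762065651767856783315852537206668822786678607229899812229641501898589267687622078036593499695655937894906193809658740848612362060972598037483105157928708340825984093724791117235084346015506638875487313022176044402666855355947220352225012842039912300876895115081436456274208917793775738097569277867725188363984406466760590448684592310176495346400342213065263022080)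

noncomputable def rc4 : Nat := (nat_lit 291980328350746636817368024093169252702826887112146270975844010303927851890718111308919276456770442961318743860444421119821608385209978138229379846785919956104611935649325524754585516040156444365516882138803257063190101359471943858622106386719156108097751718371656709916849378009190942356241185778636670137850553777298183401729416079599179957701830700227226218149584882581170824716239216635338689483622500724502889956642872146118538216471230252516439539143669044676361634789479763417346380616744960391016302834184616071125947333661957248517399345689714057936107220872763665048159568768709991834222161114078564262017803235322778185203673234859750537139498373273530072425867536373367361441003648025612254190334105825522372886981404326572434883581990786516859252265095967864997493567435724384773414713609910673848974154837989609109970540526029917862217482959922162209792696963700835446588517661806034742461038279456437512938326694884640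021171209593121680293948576980622277094815005237466972408027124272921367599348438446925111859107028915707391686050366585879641978952097132493390720245192939589216731609511427952853087912357798339162141820724823913997356207436409224907029798298826084458910168748504231268812113489784798416589900036847377887632134770388452882682600144144301093781496188847954734462556191412771548888856636375741062103102917182775453651429753133202936627486182311325264405868834694875932315295821226332708455742863017253409846099935799345221884228756493069228110039303010515723707702492443931341259118957115465300336014225945144665073136158738682373776777607785911965613587812529617876864788908085098622946981083660404197613343409297451644047052199496813730852451886043953307561958503796077097870510461949979806963614679822245991338736947249248279069792834193402007027003293711459787238453669512968296751442080883918205408323600191480099444141832505707631402268220583511047448655192604374575780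844315341213272430911938456098919753618342953803816777507644754227556108203823098146422906738516765050614023387819652708070701589024178859964393708279434197511920271549908035335829880950543573675375473832843966825987655837425805623151375205357213685516918256656461010329549049321216572638272677768868564153987142804272296908745059609658705139416573318634424953732788478775504072337606348800470936072341251282373121088197668750979330107874811053688100476137137423400964719444140596082609337826522811986322480811742133339472290110336809695739835990334514820366460318342393286556785043863075284351594303398420734571150366790730834983742354171750032704517910827933250455670015744732419894676911654531197396769159392489640476905201276402973898347754258806717939754018327116757792024868448676078531403887916067041759929669526955473692327287114550520205873571406232817550555319209284784203148191734101518766300775443505281769581628584585530004056649095704490730385839469835190347169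437038515858327352791957490566531603732079330851254171705841065113830418327084319525761294212084410514879393731004050127319250737248884313157226822813645712316501253892225382772002699159481778086873467497226201612699601460129618362611418061193310212918543224761412164847553651701613813966578270663828343530700198317013741341433035995494176248527034523587562977443753460341321762935120726005512045913924851405359497308435257902058987948490061359934362372271983962498257040646924679284748533950752821257350181062471469420733846686030021985806236266214822391388505674257466651794098588973128727677751317888178465311622799285639990812735143010028377461774214950528182810192493762516466972506841905462604040553099978047684910488369475552212282651354771067849730178804387663260130823769702809262423773169487343332161480799765537235383300767032787025325299297567789534645317515028789880945538974761590769555993801389741483577735588945947849704799569676617072201801971155372858822842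837658156701985147645873865675782388809638735704078889678346531653960816890829296558664972079232426228346959422449068932048205168118779924534767268206857787027913770628568193284510826156425354565108622610198872590469426447966455710307894073556908375702165146776702097455038424376342812091677349744154134319989274409503937212149900233452438551378922489574699253320802048292952665534569880275553622235344326312433128760130792515793319123709471436420876472745904150928062401954981330861680233062976772389436598208856222114659711499507135145123836993933047046753258502197347167105357220639986133975159504373988117378305358232992074385989776067520587570985117338374528302293024164500935700076454750309839096433934762923230692754216605254255705646755004799095376426538672553996490291957926456249320392318447122273549167607612569146560780843887945493059021034113454523203840256488365758402410701575643879972350236003231021662590447227226772957568630122667267378631558481933730991240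575265797535806945771438080996128539528012949973414484469209831168689617407233155581659878401631446514133086392917903211563893928015441928847625725832532725864939529178782481130804348513111177311979697472357516255805916343103300490264566399216562082741360303171468277720822074628119198553950100575567017340725948915828161713525983276243058905104624965436976256610819251046511220829618147802088665979445626299874687692996989456550332531224968952040239282306525885695850883103752597026576511313716520486529816424441241347565350531189090849837252246965684708159839331136998769517677666523590817701322813609067128925419015527254198848349458753764108834078054170915574674748422105955044450937327983364499383057856945966903129452513812524647697095083270557119470938799865624461645774108766422563752722419215105951743304632261887125876239030323355019682022066681921567814528768071440088580377751407523218229036846038775818091134196704721607212549624438830493056898619429750120669280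816361723752808693243198196980757202680324448302406890299257304146251516607977319163924599554041328776261297919494237696532763225396596198009482050594317466193276215750010490533546422725707681612467110332859402542314523369494338378814973668529792702062823133177606440679791269261395332753727059770830030791384687014172657701343970694700132336542526217880515382758990768828899307836530528147351894020338835661544792716755539588192398666252066478223846577001956240055328866408527030742203926108891267129341065187390650099103403376903409389257906948252536978652626344813553331211132438369373168777637133723293657023877594187392956895532870896533132187339272242142788128163017161761237906086548658867076231839492557480219674897169938126497596318322445133788488494402029326908044669052553972332730410079724690363828123719359158830052383447000211927068238121016213589130982438173021694615155415904753116643371714668686600779970910266283626361233100975535885806928951039690452720754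286427720672746485525215453064935127183603141446180198333983650649619532141424827014834952435739522414790592424776235726785729348564921793127683341385170836747973180087916783467093508216448317016256051468797345852231115285900344548362631931988727034104470854766982555493362088406298626059417974457689063789075813875252425075013251240777925960822901714638528855958909250060703383304378283215764333241846878434272636597680871838986233998093313737964953215541096853681038234620389139651881057306259861947652721933506079285865200688175338125760903779398659542076710374532651621968114906977433067261024071518045084735458372194768739354028699889503293335760484639975929559018351498837658473893157669739447691179103684136808292914902287204083981031031992083591231295787087261992099733898145485506757628474737611069749518488939156693193214816329432004439045881972085606552203225994224299735495593936082056210176388199641598627816304373459291193194433158027812029925271300126316125308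602083070583260754882313810470657559434454421931828866409276907523514503899882461947542010430767096060775057063725676570147560117994715703769221058585103172034854814698699736826739273805234384605402724117192519120818305188125882425080779323564271760484334183386520705656030071178977947494438350941272476249418793355608621417604599232240260352160334862139721257542593474500692335212862257663379742809580255160587715092677308730135495436490845148271084789812721825899473825869062970464678722554106784877493626667221601778035516374281741145311364552414543865746172871142556546702705133478644850098445951764012610579525861434242507908091396027029557920576859033143402875165446629215236213111516223485689006129710176317445509925130551853428200707903251274277723969473535625954011660058611815486881473271188776593259045161459927090201242809177749006405156827086402648168333239298272465133295585219118831367399994607939829102103543411545580299643018637343093697819647037801429810697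129265671336935229028588307112212483234126039788530778442060973833763315421413703109453015110704628835047407653693375541857674141976219050577419937329706416298162839018511733376722687433427867266292186602771533746636321302601973432347856452716840846083692330974660045083542688355588758290992255791757076626033552890375208184761759294051733650193158371952359568402105346702117559668667474832589633183262240943518621968417933311854455506207738024208338284483639613917332607529703070648487233739710895388948172910859588335987155715649329922818450904325529226798872031061009671722780432424644939116437126501447584580865539680705744349687890648420640428199382079540463413571580229234299429486729772114526081316672334392718951427481813453442955277438601365575676796987096445330169648272448051986116172155672227795291048918157108296752460422453754860100125042670600964924724340189750785030849923848921067406029032396134827630085013989055264086162048984514559157349574573202695606843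320923842961892191605197791689716596994497183628437140150304120403465489034171304576280470460214651138557232470906385604664099667125712288924501155903343682507359189281516254855285189146213370059439994895272726075162935722427233978116820172524194427624565491208549050002290955563404622486691014644231142235565751219088346296094045629527598317911091565385349953090052000831391683067305810709511989834269885339674925520561587680733985134729320281615483729932730744618353706997306418549815630821391661294045163027427423102839892541360232693147422043762438531247621381961569211035194569782616278372167436765181112396989941953083480111826048001569943248971658517812736568579184054541987808045080200094283763457914700922236944638622283438050980457008800104859243438934283179253080922398665129451731750635982577732372802333024868362917293235016797313807621427639054944649348133588656097622178871477142194213698827989748655263401788405041414655759579753071592372393084551129961576642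631253299896657511647080342955096449834242978743550342816333597909552509881220010833131922555953996804819340193831088453415860338781646802525244229713412754853761221751841853289758108336816023023676365996852261252877010086388051858279187811651064071288474739626615743074588611050256724369313555434839721943696684641358342280553252428987729401244453610290218612749143125468918313905680358404881256114141044787178379202615491951185888192867344377605506044567303060570978424495651752791346106286396008975237394791111781105553442955251924262504851630847016725183204626331814331674699777370190667638979952773180515147429523537585608203500428971214828501419369165160896642644871088506532823563240181012476794444838300845910330966228105835029398902456934763814835004049745733280156869687088026231965852292486558286847555937776714005508530515224525651308474681684288379793435620334482840467732430895890913173477076411391647676467284426955963715173826491809011621068667478042998090517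855820188894735354137015585676252041638124198196954709270286648107757931569074728637884281333360090341663386093721734114443523857214829680452122407841146906077116144521934049685937931864072071575407335908952669570193844721899002701904394165028028445874871415055006606821493029650335489728339230883496006626182814215304001478469690931819360262297648012585744632083147350245180942562290618851909410931994045035832045827214831692411139177729796717848606587474608064404281599458710317452509909048989832575467298192899862583801783728189295311332739457849443744218573536548912967676209411492025856489447239557264871579402590248398056573198953593442262611839868769921952999120840718451192181196222586148059717761060236046427198180987619952539913876587800337714251229666555535707827787430594440309653722632383316224890821001997080736245743066331838060118137753134524159335820066777692509775973008658268239641371778322513766461349418253729609039110865996293655796622597855894655221859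253949305887017297141247554222854094410668507616205322723491254378683823069894661592565717977682403407331533565969722302630556473163629871609044461118181428371093113317972999434606221921288713383131500091641884907842951138848512733844294831533529417955904522408765544879954999628854736428284009691000919984671156979554103740556685684999252012239524358124942447638817185119413972831607611487566071100582132573551602258308861891016659909039636706627374958980421598146550519500808139069204696420478840063112628026928133774818704867669940909188068749649045276820252078154020464899168359553203992776003654398480012618878063091591466379728823482284621598947536588594815040610786211660855135486620083977662637425241772735236948128161479270027181804077891452140559885922453497341283871740821592319730001680315954131843914287703224230381966554577388639026797507157799820573437563632503610016368700334145391623381527489569717809807988428632571104277104992315293932013728112267260565083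583792107130645013308676998614079136557951941926978246159709620196218154319331706903056465761302045522469554143622764641245206053073869483149004240891511502005339400461533400873803797608856453182971383667479767431545326310785917435082049657287864365069499631132728696371294527748418403888263006253856486319576790077268450916867711034266477496143778828006236846103927292022876500517300548034740118975719274492358806506487590783819068862076926599569297521329547394296164419894075956230727523458098719317694758139372032574062921800512485283060165019759042557085913024040498087308277683486545635361984146994766240916784956996146954655220732383927384427484855091765417335494593615384231839302418033357458209643495495544272955034599891260376607542833188445625938222562008989134651968823923801702759078852507379547563227611790914021704514282838260384663924058415915801218180761029668391024561588589450529499328599581567954905667060637871170703260773695117059233554568813191112296835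179514665758052255319966809662941585960869885905480201441434013232516009551065965377109959932639676947690119321440776240013591048774160544187677152091023036603049765635223279126409254850893967835305434502397021902750613086466792628051261529452246186017792240893274366071615732417975217940997645921784743159784083380697509096801388089244605418340071510168884298014916000956447151394104776377473730304192233120596822251746450723997493509860941214604357036039484163833515658752000715355916839631718226128897736066597645567031426783045647743501702903052593761812958720168682671984888760415893436576452111449871462594243982657104271808597042019831821475144097391072533941213582512513826146854630361051712204053687802119406158175127828902523178533466330075639775565925518062597003765387395673914060193881728402105839581567124610625393751654411808896202237197404902043347654267454008591434353691182468983626716140326527076202806718708236364084092411129863685057567595440233755501862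225992848993608627900209008096324697462686826452310130895263543455285349284023490425600330590245828319590765412215546139879698828818819110722632289208437989772630355976190024731287599729760113891474652839148654520619244675373211108704321405844379934690391068368134135449268930434135068162792702034756587882147501285528682473557243186305650632294397543307216413571332642002733237655367514858953398841841526901306270386003232359258000004813670007092843557445961568197633476993611975875552642279399282441333419900090514510310061997008736534821682683456661585543319949854853477843513631893427776197963598102757785719104291216532362182641349843254150183322670664631530726409467477804289430691791032418027847877788160120028537762837988117007460577178820618356400167421940721824734026959433036438199695704285803210241634181706144495284728833383952585788293193472821046395756965612087136896736837965130447417585833660899943479535176212729044893714663712367612985548766620422894750133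48572867886767677564435217816545492793437275955319327378346980794622218045386667219031866017143759674165451791241681178596685981938602383311979990584881488339068717891685156167043307076170498675244974961289989670883297189674336424994227980965468004068455010704461069552998767468521311546064259091673690891636565032576377001554550358512630341274559158156812482084448030010829402855728245688903363042334748580352269489684881118115157316519269562648368879466485194145281262206106633108331486955035113307495645798888008662013643941008138067787194043557434401777830592082879242671124321066357620523493353439529092502461731461991659114191551354114383743490063233948294966997319412938823209560710972310976064646685432492654597929939807562026672479305530983949945261857327362205114959211916882271119825175292325335439264987245746342126130290666482420765945935296312618586245066178070468109783777465225982815448732077886250447580746656657587173543164831105419195136510361006941495592956868962387313627437670574015009888207690546615279409479220670151272815875886274626619492036669803251211590494259411931940803152256979139882632088968975263018509956721484815846220513515791567480235624249654080216556422827032105035450814562304)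

noncomputable def rc5 : Nat := (nat_lit 292714384306653514762290886529042682002542172167179597087555427808394786307084652487108575814796386414502165144086758770167738432664189514462535220042297329453503791659351813760505124068995000992076497717300557645849278471010665557340924841667274793022251517867330411013724336346794755495762462194706280357769985412334821690933015314047354809372122649999313891505009751025635248220444423179911489573432988990392398687465048219489480229003417221131959490919147945528999393063020863934855703478627084792908419352624875968015334150495671576138895539942874883335395723709181167531609756484907153758735453452478197496902093889644199953323647250549622700850145404988562061456777388878284192978533065654259385610456978649107115674430523302688777351804319860816988907233110832423126541226214452823463739419270788750251057206258097457503265942056622145285398229770836202004761405240086205362034287771089765141796270379874811548714571221846509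830459578694479456823758797197417791758799039951735509139148646480153703369876644820110392508996657316389273190553304604522827167025614874214682883137148748282847897460844849975988020651783374740421239302923172600591482252277605506260886340639025960305828671204725372171343954912149970997928310570006672470749481448327809872064320513457418509150891395796919884229565686719516581524063992285834661751233540917170969499640459112027449552079567024798781581904708157130283840459191734297537595863832365392338788115049350141732464698834878027399511654116748744189367520793785989766810718935887211362100142054491832073736882197528734550451928118657897134578258944839484297510345348556482290312276405895135540738994595794299002910108150881613406901298349749412067056103739245598265206537601072238495687578158087669422395028111056290168146474562920316219413417710887875620338053253515954110329230940088960886133349216556221205313391150025981073656702237017589710334274915801346390405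933002266284296256947163633992237755929178507203181051279312721927972348115486712272109940629978473235737691252102485050767307529083028369197768916852661705903388196616560178143658669474617312509359350281440886460763944775597159103116218078193727156169072830338904260432211341470789750948874985434448067721121634627668102859789838650654075213068446300247887362346226343504474762967267072051162372246001054431392569751142671624991532148673476001203727031757211546666564408216858820681731027894651794110574933013629505081445385929809602862874469857059445048188280462757795148219485132416732888569404016385967907369208230419778827070176543871111548675068335507864764188312837349577753975901782886733498836929874810197211256615661956268710298549030692352868277326226797476401028988776658734286464966040931582913899616665248651037729157825844529137944771217587023577221304668075135102150147607155505769081233405443805235805249179376388921056360009639488689149767727751981669401303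744118031576049550246355746392393935973694874210319806296453666728760385211260673515731468392541428714353954184926460283972138540977325368089943494436059628893829261755529574515483822602481695633012248781642561765063261461742647118163558682125293959795228332605707260575482853503488384220154238965839816230999760041201648056555260348713680289478273282141255837554144033570727026227725055379816222641035818487554226882757812782091628827916751349332412726204871723518005551088667266079762826888006702504059363567949536183642948583816175126513615388599144130142055875981272163821876827322269530429952094819113591286717263951454405564724759908466753611687365551032639237582573403515950698189547366910485396685620443473493769460126333263194638988671782842005620290672324163128843390726697316042556117993586885218437778640590797288356744616209805474781940825819295315353783793524223679632273755199110058541545872975336659498615568392535303238606249775842754638908992202932455731710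662844595846691978435648287787430694983748684882010729750392098550671667508021390431357492137212788249505021287866820597867440204006055424004046582676338908510054936716679326024234669892592763612465000337163591133781582734019917105606124754498475345984652796544740520395639953719060321316921022709685839643564830286845929193786937549538338455281738040405986324387035991674540894340640515736670503408627028527779135458031662535746115690056225287471870707968646874649519669054737736123389481028474083592474001627523919402089672406880192779286153900426876097952509621803815532020081174121843797406292901182154535969555584599099290960711978638430430602317301170141698027253646001109438175370821521730652067547789727978000415230628449342294503519615531440163512547803042301103218276946044834904749645427424753707715017983523888770594193862193014514794261985276785596447176068566313737477646960758955392989214217999247405835445649129420870913358793586201826092342414238228634575012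409140250627261411613178452274241275549853148429912770024627451679635819560643048698076757700809531849470267590031043322537776008810458944497625064767050749004434091015372949613462275002707101405256640153664433854380547998030869507269717234574768698627646245180271175529086064315597394814501689505219400448641356400254537188720415331761024884773433295987621943767034594731143591538048328889242850917450599883001976780632135760506185530167063866832308867245143383553515869016461368351311060672114711315413615487403056594760681440147366825150718126248447061536023595406154396616394091534515465946068184380570323385977339039477337137041232266158895985580864806334575834173227768292607254779541986126251360456155593989345872847921020284138452771343068639961668416316783209252839672345498123980211352746616646106612852097057228796343862832640717593916248388312702547109319800129772332888769461300772809344659711571914154234660675960960658244063755184823395642680988756162614537388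917314870732251969479132677514988377127309508315121479409603593076097937748346844958037524506370975231570606868494082096376838426919806056793099343797042613349409179918791968286450444536602329148825445694098562141271493420816270008143109406678041392265312783624549663190568015445722485771745111091971358433558870130901308929849862122314538693363005672025821672632776002452553690945213922392203507369716082007490969200250886481893767563023860272388882958700402229736385411906154536286120306961016455844696856233077118359804732384301353058884565914739222631216699959502642681423152825768414383352153837521958512614862364359721037363619858975812924289823751211104044590759962650013198516315114233605701337741844356926938100407172833296859823043745827820684169204801074246341855231260793723519527440469171080867454019732679259705257024200128030759606100961412622230312417541047922523054327985800084676544334543398369367700428429923565859859930399344629747794727599981833159016602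635777927533666835153572996394519222566010438017151394712026721610089259398443306917821922741160223741941679106178794608059127780627896123406276210206160856710133380315918726261048388167787862174127942173792821917979401854712605769244688789206427914344034671213071723278784207418169195218356762164620993885693136193222280686981207895004715994466183464026937084104517972173104664718113969831416238779473600738011147335395217697636907506570940023371965118519732560761165434541673675664415198236890999345104433514711765681467976948773514526625378015393165202019720072594752406918819067603207995978622448478799425073884127589325264505887279835990996619998499555924978981215803325469094906069785311579662520007941624632426326710426170136165578137513602679425450574964573924080506614424589330206585316201688264454313885498472653955583125160040178521103249109273780445505084232867164953243996912501670707057096301900713129482504498569312451790790752503000247066059974387209357469408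122846318687408417173114599197394329554559566426841852612386142187388140996630369882169253944725036530242222274863978205144021283702602628855032054982445683245669133167984301288181347864975731840570195874464748610883497688372730102625242811066299245676568826296363431014272952227661913721652261964634040637649862947869854044956650581793928597044713322346989504776468877513058186759326806798886646947271621584448011043117203615393269875125356147324766498588287413290805552109350777597825249322649248904131177619088110902534991666035031795436668099552612405978340444780540066304825884107843632571131693296788373912922542281012621557396928303240993357308443686933938712392173061069181435498325188623136015926071071092752103136655075740414651755802062749144705883354261802968501231158256390417074892180429242895017571150830254457115049314229733085852041912207490661162342981600719576577819064212500278132428706911288694172555733057162780307733297491247287937644638544779887460093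059713653796417618742396340741630042119142515497173983590047579056582345963485350528645513440609068422651856631869887039401089632525053820263458421850948085720881502859081712249539868573840072490197837260590533648815420958585176964709452403475928787375158636686296472740000874915808265779739553106908591969749990134178716989095331120718935957297336564096168807044796101136135138455437634068522552318711178900560003272445476569376546896422643326947550684353818720986764141849011281461187267234809974826214767298851535874774086635117939122308932634032613485967089894284310351383899988309077287808550112172489923796427164930165434136915785183681324267969554775029806692148918910067990727711007340241571662526142924925101896312615816869190341296651881893413522385474254244620779543958229105409269105392328205848058416382533492844320805316827247103038483243147323175004407985602782868329541024408717753432897406672971883177265011502712546309811566509068015824556974594849306209525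737656711659157936023295918273062228074056367739971075816798532853614020662595087879701024898075728467710050276486540153519292624141947288778635957137610139071933506383724237145551148021559616997212016524579349588180948708908546939619637367933974925617670709359148829860561642993520168805998967237919175214789935749041681181511661627538499452511476107708641508730150051369815687006290248824038646198490179911252953583894121975440616396105308196661984909841625924150096071563401662181143350655732355007548780668322126035802873978326222354605513517588677443213315985378155479205531790444949976482373375108625039677765065803982027589785308500680234003128022314746267820102433592429965675667423696929890478402769102222114288373167837791929422577888350430073458819938067290122922572370306368618183132539480003695635693660747953479284319889984066872111023848118795141997385442263585050376321496160046978861008045380960126041355492650222574377611503711641079715632391087809088843609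360361793382093809393299819172028376553156645666196766861096414097671346525547684492980541514287077565987558507159962265762140882856250206506650090967642940151112122182770333819678743016645691655319166966560239913109587931823117885885730788750706077094532096998539960116092214201427672469590455620639792803413949916094329052530157810667951767219897126789559517987291721425036213727578171887344228031802205956806372577106439359400809014896139245638553439612303905704013215888502061907567243418442853589138432972432960783984648918141834905769294517029494488639503717957789041485035919800818411594807923550563749967355017613100908334446768236539399298448277663471362223596935510886641141229412288423533137208019887818792336365779624207705051565407662820089850560000467628746028552008793688042440570667235912027061344141237645303769810205637852238277646588551416464683428986700578235715551877548830559419849145038167249837354989018162210361303496623239629937717842101889019979357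558885454158605203273509359148904822907041255152750359732796044300529286372770936816111813054813979200081722218977324801144947035179520254126587453581926868654063282134636202008496054439705380314816363438906762203913420353803384322046675846460149074096683273302929551697428584204291158038988099039897938800273361324520834582647444656061907112236698117199886717720372704393193361185363970924945391731173026786734497860744678582430784492766952100692385864594287235175835513669915691808516119701514110932076160524996140092537524476292796862404567656791203907878166540939854670273942177369371222457788735638935385739622778926377644067985543574439444902548374102913187700619621064882443646487110803717855756108313243393288900401420674529860358256702160158100827824566150525424214537334624010779882973345586479704274198294592848796336980706713786975987915589759474678934884378558220886447825073214411815757608742028327924692511038160257872350040643789086687956047233166169739880907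634692005617367603019703435934256852087056049041289596640862886926796193844271954864719726756891550593145163755843150986419846431951378718622500780526366464833359074629923252968811733330144925197872693209817512624018595073673436236615176908285818109517814728975748427378289045981385698040451188360825205900205651267798033111111992758418136995399679321442715993312387843353895416816504904778297634779282154247240245074359404457874447823615812070444486941085391581752482498391030086901680088217588257673761349584278920776465804050255876876004415560990889540663612579912344708638505664333395246844761593793318204961691457149526401094505374220822289994382890903228570981219653308673487119940966058292519809283123127105165456481805639931378996504356263917808092116930526126379553011857391368439452255830360131546482286815624119485462936290019254769704115912327503833258559376343495699018683210395631741706460730566961976647576778542802651585288493051750358012034458412799728349398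688427449381946417759684913630747276171513537624124139808443495639300940042179290562613383846071043121796991758064574941525166634186471106120786080304865779019225726446949604197462862280402068508880187860826670021192742262370759381857764184185171682587912386974906622925898003191260822026481071036936151052190551933405372769307976740711627692106617709015693843469254085175522295689734726379850713043357165029603646710831672168620697829433736051213306401286495786827967681375276889557293097756396265423975010256951199612690343277408811448562387395140677088718046502801201187940330667205027075573522229240127821170522269921586903193171944078745994110502986040099672620241241015621016011807172702067187283514568445289082248636687791337391334713861727903481370506779714339751931785757169010134672315114543103125351102809190163961815356125259352870830565685449162565370586186099391968096501576567796959455041114082793345077908251412318453025558422401058651015830191065618353896144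711461098624771630508905777098324601527975157088863260174424233622940802038029619036512073972968661530772388587953042333135475342172486089551636681709131347582166455386599631327669718749842505952629324148893081346043295829268644031534048885363941768063067189593612888306869675213716538999718122538686672935135230987744996182445010707987539041814506201475299985506155533815653211027679994625384127985162571018027645661768926646084477297425451763213757840020969627073516101901237426225188052076626441461426139644376553701233417366587582537923505742739852423827405384672400593433891487332717458116811968249101001397485321927836972037370738069106012166660664365943455401369246311235014926036336860955930116779699275302244113049213338546413940036086034988396170835812221860214067543908866859361967366266288113351151212618039187399499872336249744754663707364508157031207582888323736887665138908156052390345160582002489816650404717056241091287889536657469441261397978049849251195743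552182103163773222890093250327869447471008504997084206269793660996368961045994387217622066955296697924280557971387302554372920020067937248174695172970106079989524690831106620558083468469862513734408627101600941150821704477731999436062428568775862078618763632117599225486470507675734889137825393918326424543085436039065917643808258091651787457136935991473558606158989007204335599266914813176525951888424467244126275656239760070782057490888459385605703976415188979182392696883226746647617722666628093541324354415533222715278842544300272171870124288121188805630455985085669910714783305502346448589814906336559456916037634108831352743448751470024682460784649589196281802238138311584922778814512138159304026143898999199803437807625842517733523918158608156932129079895917174701277846216244524796549596133925270895752174531387642143123768169197910597700892324645010496724341699850631129221066244770339633202473206685457592274894014796813747774480375815514131670698146615399272336495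24865962721935865166954731592362976011410924302836505821201861986764659772243318504232903993281700814841674966457992514093991906052038288441161169633986600908415503624574974052754007182344152384945443013198511606117477931556539916837356578874266253821218709351682621492113189174655070117677929913147089984705612390210033955884203196878607627868269153395126208297383452924345365279461817796649866926536424197108906247416108162327073343883278404745578456608552243286556773725523376404333053393811499548602403746193126195986555632687799468835371827635331662727892009595491731467335344235117236216804492333659083103486330058537339092950515429245599498157077949817491663489601724502824615522409882490805770576704725877090674469760752018457428965216161879673699065718230640233585131892380193373733628337926970323460128550683914516036812915478093562168221153489524030349644314180988678301930454784484028731155835868739305097106107539957035267766716246973658687731816709445630142444615058397216519985023917567595760523134172038555282723167853796873433844619106314594814610059859356040434419617474915633825392558741084329148297438074804974085866343256437354879888540931954808195711840371551058728498600041229365231185286922240)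

noncomputable def rc6 : Nat := (nat_lit 293442965475979330402747296332123043539377353349658252673344114425886629179490417731438416542935622531775713311863115452722895295877350161912668182898317080348852418039711369660794298164184855656569512224318111811167419752988748298985788921507175627571047612135969310017901576223815038046338815014589011504492566894846694364980936917924999257877319025263638713538250403435674428096332905908846853632648815513600876197412576166763238993827700292859247716983511271737997993431419475578857918557682360391017209172645944183079857503418839515315035956367321050619828572374841466024245543665834321911209106414139956642001943378900334946076744257564433701421660542222260968707775973071200017063824074086660601090115172505376931548480108054337521962124860104934737081469094157680065414357563224790193277009731044568886566502005499248065230359677784915103314285184205924253400531790984554020346661594050503364622662052924385951061247481871193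911019597501609155280171767610638894260787555078643390410097321642824252394327896871305365094324918885305705404126230145109985387971932690789145110766338878905608413828073528871560478094651004109245427366285383639507480979408900454750512303330988930817702211927354700642242722877073296087003977932738858352020102220005434414419551063953688317452058476894659879300988086898476055455701601924975235928100671301661625286197483725528171956494393589952713750502724953630869043329139431699954248789955975325844049863713970279771325513375681691833746612512847447293118428160974153824652045083054826962100174960153551893589032781638755875647338484105690203252625226138695012491626211704340321549501171144400481406003403144373474484835202712131291457464182224415052109697709579339918406608596176870948104315141895503500491045322731364795702584199645251030265393785999861101859312131409053755766126364088556615667170750825493783177630419746980429036888443944425903687723444842714519674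948315905225933190829682542117264875320074868112767511388286762648368719377026213230617869588818770618119416714135846186780953380733451161819108109957654444393550571608875142202265262469484971696723866712529511955300111091665494084589177474044058806095686118909018445002761084170760622187714547568799440733881483197140270476071668597933846202946312169103790304695252866152854657759952820813633231793455728774949833558234177777284008287318038812118552197638041446643814002426297894218673202690290582702783474197036346224768842827917668692829244852511255827116206525582998099763475460916615303063155284748246758775204291670183760096358436822939522351915524854160358514820674589252846268799165584547442424205033503862233773111991908386959253679051585386456578942730680229061007380753600901315444983991912975945641272812177333877348449549095582595762036421072621209598583386435844525301934054399964755969148175350655042097118479283080725767709556244058690829325915926900423512077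950213145225625481321490758340712497997782790066771650278854931499194628738567632991342221633729554712933792289821711075745009448759631675346947460571161017339410735194526369642170794407895538627157685522582543224730143298874889056332574665760803329648376094603911207892736959301482034821600410667471364248135936448395246771214691445964455231752127504814284553120048585615215217974065024506848166404486991591875415170637292966680765585406263321066428710937911384898558067931404179588444822943679523312350694715275028811322819608911894961000462293652097987309781219670600946057863233291026248067364043350824090199828993031366565246421344842353492039650540190075137081616226446141442540044831101225443527048827044769498016831339023426363652137090169070961310596973605805400923782135448066527048676457109565225444985041555502087940823174851720044827027606522087673725319967468694465705873629874200535778095325022745202001392771177206808731595876717354755540049848935374190405999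972813735033212194126074979665611671288984243363466614380363412557151635706225902017830400885426954767576415603357282503466302851991568245104284690728418369468703292996273360023852061423622087879357300906156617112960876078045778544266876357643287717900850421810961079707500717205045318204487009048295414636712097790718489347238409627034734534291891544491195010555282522199299344673652878185445165361940309768295607674999978648104704644548581735479454131331013531936951004792190901537090601788858083703808175855576448262603637268998002817545330116570170009420550631033212906181345049162669741698509469313688921941695694774061488964827702826451888179585290041507926454470588183247770540575186801666347983568459847572655901189452672721077014750378922188973960554938152021049339104671701386920023610435001254169305176128466660964664376857314845500949357107579601237489452467004623381352039851820941996024461149864703614716667702915173637887239691557104902999695134184192891949239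754259672586029117239740568678206386376640934577767017761751730935472628733667259612130316813295431710938057841332547923768424580678830287387252359194175146776863988242049115722048102441713490585949749020208694371760193872287940357524706617807655953273795976431488687233685486837670029786178983947114609267684482572847124454670525133139659226861622773477346297829663058916157606102344624807254694101771114433101186885998448904452571264562345915685335028408226697992098190313881009170576903016623387912728252905332366788416274938203451968076983240908684917903970548631136045773003396714404998511134627512008850891239730041173424945839378186301361137800453731796654221654401883561263734076158240355843814404473766923859712740187249287241840722260876620668729554451252175015142534109638160014737163651268923967287909106334275430871806069384011076416783262947867363301402824812340320578835180812287985103072891503113857807452923183763089259748037097086676731416047605021684373069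653868281433835539431327262828022227124155528251961477174600156522316360364617887215245883368005886331014437436200567541983504349453720659296383592948986265532716376328125921863743217353241503844831005018604954479606192123531395282267121338261185881414232856672076897207364328074384939493786480380262949454459182529503199032710569666162392722460862498242318203577004796526057142742341871527872291380825567986775563615529931657154394671757568762642691917717144557553841127310005005984958422881136109129955530687416547949061186259451139580696928547028759810409229053788490920115796349029943778318827745476938404768475115946072989059534519690218923985495243186726950005836348605361381597380572489341090102340872735132135189511658663984086438953498059540503869654580785503618075878635843295981106185201080346950657239557290354487706969652381916773117292620229135517895948303965959704339143379376201567271893524898460910367812042614814059928951712104785724348621044490741815049653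523919098021610153865789948293689979256880039147922810359982969822819513296488834064759041618809798635355818643747066253186143571289519200145977757632896907419510619995272580928431804465570409080187481320169855861623706298507438970534576193005397851345759625211687953332791363069510474604108259752218393053521732487162418145684845905208822317776787365365863886533445554614392711457422459642467155349457773022055055943715819167263441326486814094781196407928752657579233553813941333906628235388298704548493277477485077022299239070128037221174714167519836607222229941081025573526594607083697797688867874570388430035574418804452319458414665939169191532206593597238972300636079289147339590520899350210901124985990579327930207005680223451087569964469511055918537531037733357153963306278255121092298852424738650977219401140686426156107065987214253129761480870747329268129975173818480836358741449998898082000975864751644435588167237097647725124616133503352183236562774197864094054447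745041223273082577304489609958247705268724684083630762698353844433519478392214693955495867305335537422927265054696085429481308651054911348286460876148213614522023084182012827152814410376948114621707388643527652533384918045136234503731735096306457696984910784331358720490732478528608950406582353681141173063376348389574073020859888986669265715730366783477167006932974300013528125580874122558959572780452727190101081371021831297922323921269860038352099454319527797606745352831762723001282740443677847004925592283111272768978956388817141854627597721318376159344421674687987191079595662819566552920801828117641356402469441932741400813916313874406856305966649459809042626147108196963059379750969871314745896225247089225987636158376289318479653809685605139960446708523739192395210947961356578754795191634590482866647768764419264276577882383395005369487866639934763199153377194179017077535603304661093390456205921781851788510740442439726035404184371517216651380443259357223462563180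649099319498333928021046440960500235300471044380059489977435148677451211482124101141114396526719037721620274427862625480556855405204718387281848709018632706586746157492012927813136003947687804173696973329764087614467846227623303974499076761976504411586719481683901504785110359665511732667225098254303935252441823262875394260831913808375777377414961929562025437244658895652387938531460747934197048520700861333392565778050706979312299874418368136273681200341264885179221808536596643278519705254562652678305907720349226194959010326015541438896909374816816581106065011139136078911174712633687798266722082410102231611982698053463295480610878153454481348052884481908533217922848045588866922327438679331166770089621313045500622255006919818009246339177397284381511829352556803017443540440837124429248145722388262685034838211073576994474398728438238294313309026730182490542994427076421778305662185142235981190799105729515925096012652507459966470488619022201286795097398156798383398815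021612749013855031430952899659058234516567692051715655016628506626577351340345648472807401299770453127442395869154847825770482152430257625017644371267026129499855402374844063530491859526376371982233451765226261365594856659157118025334142413123588017584387962773726760919183843956497788107830411968262176450224452279404895553233163313587091434427534362454444524151640166563168737902754384552416124059883400284359913726601328772443197960836526117208567905212136754238465155340928492858636545944504998057272173332784428414330108611831161089017876905719393329240321237098698301834532785153946751004666755359629423653266570353916350768241271864617195995849405400323644737441223474766545427935859851346449412815506065277922791533987826470790687098764141905634479806980546872470801220853691287202983774301520853133283173343743293962185382477215160880371927006950107589084033765162175274197286464652715183693535795809793059940503654397764104470139728278224123812202138749014455233666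850856009664791140568708100516101239609522317560522310695107530813842891093081597536603807891220290766155269620106257619211862622436760160559347480419880203476587367903043671851222845936008632308645449319773238784296528111325378237948343352460363940463301204705316213398835710132376566195684930042897770171280056410033762752672137438490865678106582151374960375441917321106537318950593850263452642450801778410912224010541436326090903350777209735732301009883344142262669845368913055566304052722073674398410715303145772936399577368082461742818541878826299810992702114480220510004708711565090136865693935517507792936042849924408260382588754711259064660281127651829198546344291245231548614363604039048436950101449046753983553427774070661346810615041729080131740009828136928904412691687546136136467285146588738499243763090071614617482623029347995628922426353838448885243186527065496664445227959529133019887293309540432837273025456710981334797178048068160810553218635814539483978540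414327044235233370810356189704671515474524018723925101138875248811199182410335577227941043381239164596499930424122067423775185369290359001166933979261412085677281937888578838972696280377068879313683126985983249552537126411102112983707349675455039139476567535254969060304195028142076197556354891661633678867473698518689465273828721133012142789628703985330250702271023496664366805781880118853963660849847604675880518117760338214820166425122147962234834324499327654308502550622871017791530133632086505836635104200790546055431586541297466713231290167042809746386665385821935924685115922517446327425119233886419077445817763419759725997252228823017505530262967516380667954343394053967276708166498633299157772419083979985908972663480578378845245618653193296795189766302876251782698562926202514888051924262359745417177542217689663982245987648900532425015677007090132423384518259925003802420124792510201822624557629381090678620857489516808733591788837778005213562461633180372813154396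712882079736205170317684853457522882729365672465990589280960872613418669157356983089246801799232598909342454440576685483640717796222651685867325775586173957505013364469417791476113558980306046326164692309400654913248355295753517591927272995270309471733701754317840518317553288241208225140076277140611918574471827989053459616338004621339858858969453404561459037258621669087090399169306831300868903004494875278212810162473042101990703549857495512519431781630191085447720386523907604033789797442144372183151036081531688968007923522959629664694470219919506709153679255185522946580060542427701659529782123877725914411107796851229711870367286675803895489301191804188172650784498174321809999692548012908470610727881318323738158563773525784838541908646666935435837143709001429877019213825268112936181153491763567640486365487168018104564860060904952395655982489922742122136557634473102656401778164247512375924965259035801462436419143949267736734857762812955515779538083128956835697580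572731618961289739698884204718516526584264990025628258105403115708528451401749941938046223162153598204560463190467231888114107745492941965639870240135656875065779680007532291024450164499055109114011196033138745458456271036675065749732987785679568939798786652026942891399849103164803904727298612789154833624036001430316993215708294047660142419564774846077972112511186146273085910741609260666788000919773447531014592712839783043594157328644150553807895947915104958130966800794129918099932419040810151547140991368031754901975527728012756559623505634907553464247043124139544636029855393288831867564023132062429618188695304393195656121100296701269270072296865682568678415972013007411646198836206396550215422035924085343807292498065735670192245273541955324548453319247384657217977870699692030127962605530058900146833183781947883490152482786262414408886432900374044963559541161530541751569904046074535126974409409225056121110330156782177979682104085510046075503509910723426398338974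500421636772258055193263689588064194546448066673287062572411828887984174734862620952226502063445146489508330534617205425021907620319126873328297510272427281871594777883370183524949063719429136229597745689076538728156911804851122520504956287807028639622908554611160213168719860584571302906444333776360030632035863169193946888385773468039280518094382565789355741152814526355705335254911377668528323349317656762116394007119491136018610902651904856087409959832419285462059793381023096491644731340591687384104341869820708779842086169735584967944797891845376022119213168482167052958512852339404783850183922606842458958689752795082335825581698213442610044037095462591985748267243205477613133859546043215514690672541385527570811776123111464462574707163454090732797295205021678701937117492701565220359152897825107375346030494043433627727247083856401360100965519065573605775269474187217766443893774634292838431140184629098670746312742717024965852815258967469087863756011627055007011820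474959099616839674515435349294029102813554389984167031684713237524155437061437581607354583141685903185343527117992364580207181625170289605517083184114737812070789593805743289546000522521781501102206860615166822782913213718759537527133883977769740908190636959322135588376085561028752720955365593251721153725248916265757789710607812234632894783706657013625179788150424900583667328550052974719463728337794817728618593707210823883290038119174954119556427110782266749873942736848029869480293732476608038251311819495626064111280414984162518648742484346870106857282365418841856364602748447577673978308929404851053325265810153104291138102129719023507466545488562746666310368326002246483379771961131246437387832541225877800731144762016201239384383171397150418535208780231498792857267929116499755330899598583635235798623026293109078706560843058632222589918334830181066561546879139013090956738978104796395993841617873469747128296046858463099009931865494753916477977347218804016618102314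70618848046823955560257452618329845274200485306795357346067636582326554547524138986055485543981140105709356456378285613317556896519269626393719453018460873138472495743592323479438349939518375401102622787456075702390643081786586876371914936826208584151661998132427759446898243923878346386373416551819288262451305565336880553424515648533640003214276266405911035262592996346184208672985711395706142742892992008898692404481930616565976210125263888244927779647044370881324624661750471090392162282520337250549153150307007966008095143247038871316340475704875242979114319363251552575507107669924961077146802187767652772127345690162120729025110841023284459243048962251026869375250045544041298452553736072146824620482426052125808432867362333615970060033774476736832745955497609225265352126534700015411686059398843827453449304811330862133112676474962049373107435517823816557945666442198933339131483784415818558712299447292914071275246969668176852807537256668729679833272652833996562720725614672775802376527451441482790428647292671632158836526967177619277488951937326335254195301966651409568440247196990656953289051095699351194094248973585507639761403549345178526225503283068062885204504936960254871447433644537807031843927621632)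

noncomputable def rc7 : Nat := (nat_lit 294166548268872005120504557715737737072559076832229472373855351078024411276108431819282611894906910807143473910537204939740845154123864889916570812354220944593130062186372037594361640231346322795935832006111296465898571398552153476901950582088937583272922589708914214137507410358685307111784029287186557220949262663059467580250837987047992438918949260759951906442486594342884665337943758056960388397188198268778385038641718211423418892481025281845595027750974558450286754201259744188170952416053465825421312711730660824255774681100741205921897829633551865232687102951031243021926140936007426119735599574802747937961245662662956309907973404808175064308759424577645882944486505583122013331113702620256563083254478867811291889572088546314217916763394268784207048290938716725945778336775304094558528847381418797943541803010623143740663782192468749915786088821005551053417253333156382503906359215871233106699414270704411082359857940206917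671456708209448027820376918807702350428990111810150809556001398539607625718217978089539497836918038588572473008558658063847754254766830824192182416182041098591621323268840896746211527729198183450002123645153792735782135720695825525080793541705007729527684248064807837896759356505953143769189225913047961659320923142246432215197471256201239828434867558808672190921989914425100563907762903088042128834312328949698622074538214755035760389259000834892590521580238544456046459553692593769314587585745597963676419201779544749003935157943417864132060832269438091799745225975833752146337940221947869918942026207599160695222611173283297493767489627807535513685015969986040441366743938054878641441924642967786658129487357851052199058418697312361489833192469672592504070374276961966292093777987199194971251097462852805710836856183533031910666356950270078674618935549243647424710925095836790893228926832736694020441557586753000167036893948470065903013756756071515597958830276420675036313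317974454684494513278529199305806296645762731964482960423676005923549733922488326747426796712084270408102737779555109670846933862962409331497928683058638493980131713452792070922933205705819538194034490918708630011894189692306550672585084986469204181970074135587697596744191417434012525024243572949281924198278035650922782522574782091675250481143587465670149713264185264279142765485933761425123488437401823536195912980306857462262409170567142700805897716971753981669977606099712612917229001314453405337992876262377872746676536347661078293983065694671163581666994797272963520721993127298209672017879412485837994384561626465197418835059791720181586675208804192823525628670639313923761190942591277780198739876359425286133536639864523612293000422282309986857105735923339329268687529174438982084497585376831231924455888364573647071321485887459775297649971826640922217971097196694067221413556900630298240312132424858508096318266672914154025999280197996824336342265302956394853809076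903328334937567686443443436447537432436545007442509349751681191485543135418129471533723548913602950241579682101544861497803064185251397292682526995225217170663032892735484555786562037658923336551409930105562764101296258676619516617090859124058200159629953508515960066793600352320350302382155393488846951306645961141644719947103305268461228968004012226836982129138586243411479978940032846826796420823884149424003001693274383648634380658897924551050406788941273083584059511736669321288489810702225284129309118212886108403880088413996104789178946267499334124195019016053250050911187625602000393293373628391039828883176928674290164128960792053478070826200390579443198775009888011764940813858082799313598507479238744560012990595560487293222945392608295258783998420582656710790161002936891773286416205422917367885755877854768501168851009031967004493255757654945555199920746181962299111710652630263887512519004592254805276423884478817449421574262203308096894586305195386228537806712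900299214682487391027792145511079083121206625967241365931167708966662093335884998031021895048791721769731925049886040730157115668838625440477853016099807396941962632895124863963121532430213508869354639698581055958570121665977637172282257679233600180529044854064235687338261591272988251434610107407029364035187165906097707823650927136472959026466486931175042444813087954794237245211921855525067737994208781740592100592527834696437617108812125020908122519034384769798754739602375936552224519321795499789601908379290716460798894074110687590309363885010484077886760431366342541703356193456998793873857036345744016273918360004183496909451950067261566802370808804386847373119490555675250863163268347879613142153046837040931528280213454952653719655409963863073327400671652908920768167649192481101597749760065445461887995959425725240787984058319270027316389127560329300600443208219691219992769520938291384360442611736031677805040891617902778914349663433516100048745413870498012258106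924246440560311882150428547869921358782358998270412167395738125916986703156848137879773087749785598607262215475327144858863929653099039942589110126596669626704483984652647621695864995448419492174295909740514995404143745468414097721327448462089497145176953869033895605673318480056079184456902340468650584855660291104148454776596293311608044728278955566739818563182432553431499484005571146758828045641607028959823102219084074926851912436872229735302873708964476122131347015318372481923914367774972999086717101578859620771951728359761928597502915471853531545644633693708675804746080150319488343410300381758942507601435681047865425931995904971322826014717067160705987328046874419811710509071181392047675770638493444559019096743545235460144280505615016957706231725734105529914457010705364444159966858314303042698467751495345809001392132371398823702051290252655861320282843198816345628181767299067751892349111086862163183753400803699247625492269907486711537476029285672087787053103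630310162807234059777789426530495397751170290438626792205513713132719938383256429143636812489579407366195740759804130684685351716253156013753752046754038100112183933610047065349311593609284071313569144637739240333712624945270913751589194985691090206583558962433323590351343673592684669647864509441886873780298523809376222690608861527312212253708433849135013393593032023911180939154928559837278864791836828067690633904873329591351144436900408316216854668413992510744744218650301350955635151870346638315509310003060531015989755158414095501286971557701226174410624925257080688557955304720056526389025058754616095546749985382174771945107448013899334504329523613656004739661686106417256087634229165928535643241788688774236379961848100398615431888028755410668399625233196924540530173519362170957352629541039701740380420486942855744743261155696868300814097061111412407678460861073015259148570387633996110974836235225321667603418055751894397350049823047176711648119776037356687878063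528097577587428024857211772090643148999490408804154449345415085027651616633180359552956948211675037391173245227158328692064367538200458582029505148158929119442743856108532571922088849834886028029439463610807463189866019305851091733396419667157551632791197790391941054856283225982774060445513917764739389054560528860072911586182272327887486690203935488839686764119979881179894341004979232914865946775435049889197595971249524673665111136573244203453427019141535056551465520886352780023713222698249662587585732014985270617944699176576080180676534679234387461414059599324073359178623127439311946252217401749307649324589058805115529282007929274598639643387026383151622395600215690929065394361519746957481219338929731057119498391986286255516147162491928491462490226720055593513296040227704536101944750312567259581375740891398065021699087704536172042571416214168089138400589403131630644703270876024835277447429477493648015144427295788545716834729179461174684647804024329637921335055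668957234611686536167097683800842682142492922417894088221395040329577981019161839230176005907452504450652406190126181833535449407502174758704685012402304555480140366335782225617184817453198226958409846519203482539055293460141231741663053506793239890957416303126856483472224020290240775120282419981826425131281313630194106714098112169231517200656065732440751087310977389255412986996326579447476545166304575195027283643013827647309110893445298318040028888522487816806996961958955265286303799398767950495942933535724064015522608356473492618930605784439052977561511922325376221220015412804717279869434124508934113401452002195980264770833433571824951299489798212563867740403685475345151711527833690579392093486136187559898743224645081398004910307637149908148256861731110132767845399317302409697003885673502911558185403755938225577275151321193741105485654049887052381398811631107826878232749419157267410745820460425303424150668591457813293020550366409353681322637429552531709601801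791719002449889075137336251696255670337249812636098818544282849347742180900775837188114862081187359687445130725168218368156580836024455738246376396185578053428837923729206094696635664724687905070605355003696658322292554240865630116507004908188182416358373308009140157405418069777726683687530598015347889320800402472654543544376962994808822593353959415162818257570005334125104857885250644849475009269585232298882878781912478952186326533593811041313348388480161438458430228041980857048649139928344898520942171945289719608098202004236693485440954840032739861571928254931262507120174187393910509375931107297128138716652315594714176436624266119402149466995469855943842449491769478346985851571708490545073622835042159778968756261367929484307228551196316723556931751638714003657661052767448277747276643340101115506843520855413012908347837291061565475799470112968853781838098137179868255722287304497535519657731157575685224347064791869811295866610350279080641663655774945979587774466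537302311931489691387682422451118831794999037075631834412743713554980304083577719955608307467230014096984953225313363193068613631956018760958564346186634282550480824588231072013180568604929397999636147932570042534182946547924580062595326654698380837644195793178636268043181442653471224551169862022758668707279495559245355742669451218582548157298111407118842012485093581288970621997175462202697892182041718880973058859352381740193242309828991737146994856523289272118739362205307294881287419942597407377500813523419272647926008415428313079986816953482367749974122428198208051436314220967053351763603674739463449799577175777175521813693138515576806024342742519665594825711788151165792045747648021306905636484751547187312761507074229401358930981852786408968248156053196747424855206537342333362172371322831601687602467714223842387232596272483205822631396715923813340849406363661234422332019281536863215831562093759788556300723504536824750481626026179594914841803482786739480947843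628866771640317384285901214015849236943680333333281497281242698543846825248579112467692644319568198578451409258776720357317077893884337028024241748055767718044823714258790031845563831843514777258959134110932239137099841094477172962812371283426529478257728272363864227967509541706895293701770185684846115716026322371013202821949279024286493170027970161597438534766106318116298395799856806386727938433126091719300036684111370415748241075084182238561095868806019364013594152822745526260482961284280429967466777319096704849409757270819630426833573222154247449480179265535790008736612697326105071810050417447280442477837309368227688388658426925555457650633003767419024060552317623116632124822326962511951116533381991628606597680524729330646142373040930661523825209538641094480050322861098964811493620750597996793878511277198761416851694397810639380819338787213070483013946759349954329865361806456414661259819555297723949121034071498421322178411281890334200246101295734535100928679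187927864857105506772222231803936560864158243043764521675968275063843362997553593450588186417510940516377543641901326423111925014331509088117291856825638091303870462974481540501682623614409856828742951509139842805875686178133394396178276205073563418274672348944134867951874764424903515195007443475865980337132201496392268555960363485506558038667242879304088177153738458296420855596048489162431461333546564660789627899039496254427843448276507344866212743774584278296123609439654536349702501963946326072101317155021208097226000091501929455931147947201283001415577739760284487796807513769500834673851965604635070453925330164959321292540046788105917205598137068931096993590081950892184432942371184425248661637615656556859254414588258393763582877561732062490210882745964368064168230971386635152855638917631755188933235069288059365344594230008662265008445184366509285627706709170976832098899750354757382578812441953185256593638971254821419246667687641805889181772805535659988460909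101786748897170356176140968375324813316038165613469795333294286032982719863629611108169296345999988913338360203097466390935819470471370389592892812841161907737822789791788420552956279736482161606099194230626979257436735837434346989771848310992346469692588829753796289231382978404550650510396257979363551941992304905689727086162247624776316820298555940763691247727994774964566177097975252717645135911788734886965019961952850487161274429325918070664845859846206942173494982880168380817165926769699919738982584170951897018509531751687227966118866318175095505278557698146445743492419065841415558050488958966878550279070907593671395949150905801326557918969143734166625580317555744158944688581198567574928241658831405090694044566361282618743899899165806419616891091580376228492750021783055831287344287884294380607443934320195402048622874737509069265028021318582853875737927543575937760329049772610296101299179991478297942174833646747551484815843512752958473126757296285369076526304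263026616661018669098230478429227060472508531971634992775467136184323340683424908755688650398374056682003753968808997012258449485525777843365630792090642741789082844107071172619503556721005175703663856096728943735811187549818977307953507222203478191485392357040525388598390714426507957060183451800644378007069786160809172029738612891497476307439448371212192762561747634902027244375361796223147979821310912678186419378609422165178562582891775432641458597215913844011304352779487167983616444429948301273812979429939777248785326717563878856130505971905018718035153443138317519008837557195916033088624722780904551913579191139212937413441769733455573673483301466025520693772606493366339056437080086288726264193161104089922309392216110755869191673876587971412932452534535047846117517293747780801358032849670622509265638701142213269751819211525227405440374350548735016721804291181835503272759873529709565785809646842489281057297676209096941906154568005428485629838105554418744690027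555150663711734408945454978885394477941999030485508383370648289971511814237752452534019766489736670222544060754559002563669600177722702521648512385997906631275895599637059862139361632509828774744119680461238316846078846752691845648432606445282290855668363024847794231371751379032517800535341529203866496734580625713929451634517061056444263419892588648814462547914882423300027843214480664308886072095023063945514662334863971149469430131158941602444327604579380980549820119322171731346602732672032152607934335753602295194570503277145558606637882558040018370338766443262285493944869048395657524636129667995317652531549797546671322415168559895893784923397133964874614040730695644297143995968536446454678145876203668929803667623959921477880257183386136863796828613102120525700354910326436563979182283979074927807555102093198179081294244621544974114534782455966840993163345958178185908382053848751623767307844245830704113476651879700232797096287854264592154796673406235305168805183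001268390865834914779403421630505567882754577058248501519069537072418370111020800090723365800356300884598666921363361198994368842960767900911347687331343293146243193785800143104173998755171903919053727320485175893352992729074351717754259783107455897897850588304205506922735114189342781285699426142582133379909993453281936270743735760125643287248479288475225764941251939937606819370175271646434168233431993233715418047172695062742722462129829852991258038845921788046867473054932634493377137774475327931589733456950594091421362476738832766852828643581539294074456672346975401544373469781237294216315447448056188743121755665611301524265206316740058510433466644340426640635016714407184343675255135357632033749798584699081605285672367114127484644408436840435516914829143728138774800834133889730645698106287737139593788948366594226945785346082493378954773730745480345803364372204862255396441860102499567187791734407267386648400584500069475944000787719590964922520779980035972543200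41100932323268885428023841650353178872534862129209717583164292735108194514961072566506187733918251594231640492579855326231710413260598331944575819254150796036545059357141944586279041257057894926135990741058314658963692592221444136185071882525810772982493733575357010706774799558672489693490430503924396606664011060615978804472046127558780027224528554284948704630550500981371536314854161668718103641692405425906814262541369345647828870391406241096857498981372695030608693240388568444844472955800495499206750343627362837047675419970644823798159734468306082629351020840730630327478761839037163923432007696406682945454212231459527379517007506450363497975400564222118106692474131231285173217679889969242420874636359888044299129703827369008142673363334730913773165151408368419317207590057767173811107239987028768882859624126121586324597426864379102059261681467367152370041216160691790201133510946264499936918684286263821938694928278564455423400703104804972037575484440347177377806902685650023718883879586421112739598478962884863303221652483991176248394110640577481539728475236199908595200866076647829774713830949002446075079791325585526849489453976723623259452193015033038181797448397228338551880758234056233170930927403008)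

noncomputable def rc8 : Nat := (nat_lit 294885209603761893891203301722060053934545035039099706980890881793461340531252748496710126763425658351186769646813628189060700793591599737753461720983131187213013261959902147752434277160436642425367937964401957577953184450395029592961092490883559100941335297290888298060183430592216549283237527775628489479940886968268177014987059987548067026825227204006186330876070555219257818428317649669994365784848660348920112482061986243986443425680522370622414090965620134338023390142695038128079940533070187904472765530085383413159739147361268199454701547140114045008016229647646985978798552768814041717272125603316773252297545214958743173409467398197531288542433188938945962962139450757830932291039792542414874793107057087401308436239925902869347666912427551588165912182506203732733186250868897581997837478374085506418207962005600049363333771151827119462143703127753047271245471880381466208196590779689431762449141632433495326552311202446347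710180673992416948135266410919648473151127725328732240005529863384647257453103172076081333040358617346563321342059475600169482186451916259459144225570753012485468325323134929049502276366490217741969290226593101937281866136381373367302654982911219109116688996928377869963865312909475632423278254877147534918681224047695898403005175967459545027258769086841122347013104267930233828076835898451321101031828832098300865523478992250510020752280924811194640461965738141213510748092334968710463223948380365284993223284845242992242482517647461780150576228217390325414400006902729502864968124142524564580104090894146629404057072507276204885796160939040181732599701149155224011157019286528952863240592836314227296425603149855297375314224306526309920454794313346090731035020233788071345743662349479637414106396555486367603080622647697018211180191634930195782105702080745934088123778981123069059180269984558801727561832865170921635513469542033667406603996437639732486962053757738285783363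174302619282888797605159909349456143350063517279436525568107010365547141900488770492362287408918263463546173230794067020468954917140436647066672720319180996188279777259542410031487535751650802013523903241035416764058325834356485360685466320823567312957811368690201303714337915301975280395931979448765494029583603907909954668149425123677001090361144720618597680398413099249412202049163070227075792191999595356349084620693074391634980022834694981485659677748171212494161478961767203616525924606772237221609850500516062273087856032470056260658341524920927120142059302457172997646532491487113385585204170442340266535157447102847916151655468967361509980393017948813188051883224631499421312090902000900115966167529910487081363006524734630288964877269432437757198666800631355652500342723545851193967183763843630850032940988552658624931438691392760368781118614531109104951110384116250609941214950284048868522621308021702034370443796420948372034994389439484934637894194313939927916088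142218158901724884528143649204989353493609451060646308333051394959654016318861123453219901015569319996144685023629192080424411473391327359633436659291313566714113419398256549436834295629591634499626724271169118187948425149587034180099097519296561284176522464230989506528777242206431798742211495939051592672320142196921666259685920782874500171810720560670243667824597335033762104631688452239993421388779048987698829168717838580555266183684733386889044797458567236464257098552517085329208446140748427476245704690806570057245049624044643645246158469677973881872134448112935777521167182528464449286724072983531139089408930420708786342070936952298266178737084327994264281347246695585443864385724289713913391621460039054183421304625345663996293295301251116307511732292791001054673777283937508233284786797252798144880942920654628764405599053476661643043980160545525001020873784285221277116341786081752485446078263871048131891322619785239114727880210711455564978201137753801304161856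393878599401189871217931967871904330768834090636473293477359598706500334915030497063336171920832567238337457745358206784049014726014404125590169670782558617369807844556428005255992966011310879875243167073427861294469061454877633560972708062348036086485793544545711291155163394664785913516673650702604901467559870018382302538078839235774130735960464102293323530707076989519087116834170996337697404025278720728099777914694615882333492556724620758827958203328728242864127830980443082346040293793130656870989631066538522971077306542179080901435345841567220459618169029648574543600998363236096319407546138818762639303938776591131233624341121596014836555558437030633180798464303414557712222916823332018827613029699111249433313837122655170943416782447765522908711052176566563168294647310681985215993444116499335867861353163077917035233951956789178587551481981546004462358739089096796215205115815553235808103680020929122250649264197065244687983036149159373405795737024989852615451402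355886906020443625446134409770325935755764767321096282322263232474390439659897043298612384469221194107590557376506471942181595666061151978982288749080679210475156774317459918701325586793856579857014666922033266292191068196966535525888677770342029413984654049781410664529134186285399358428185869262155902429449582174677668912132427017983167090092578513980088010247197137910623342690376947583515193820688515268450445323781316498355672123789086674787010886348129992765694892254985527662122439751450114624246341982669806692679899813219352904748976516509065488459525121560827306522101186572390026604983177188924071865680858478160372778662694998438210601060089440624915090034227783873942408803013634201383720230978238953702805919776085413997175178255318676235514157683284528118327959020207833371971021298200614098005980111668996679968322891529065417270745392040907573331038237823626397609355174045153313215537151690186334982909122919630034369456720171144624416923167823857996166931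527800911537017673311419248894083830041895052139056262568574465602202118316921601409326307627060019345366151117773064477801959721591756693566363365897934504964827334407930793416808414066248549730441650733101707036358637535316868803861486671321804826871032877190552320621106027786365077775802384915112283510249441606577265625549669146513578508053098330101939030562646446104437548248396438971938279512535911653499557920818244201407254471411188788931865867439709705982703423088236738831447570904250307779167115935558248049808949629633149289155305401857387568996845203890440882619486309498403381594312772281379546341759390762759577221973196025517222368449355454723628404024564656059245537358578495793734301303316771409811793423624922876433952051117230175835122302510299838346621576937223518184738266907134540763129013865999316055781405871845548999763228729598951870867065529568997107245287006922681083723322236925583272768345910730564974570325447140531278145483128893896546997241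332955886110522555779987365517769285275498007182415746091184855035415719507272653190387263221605335070294927336694806570975136057721766077073490056534717342189707504012661129217156320093016866817254828259748755956100202045100304980477516687305278154425071752135581749693648471237923975262032831001711058939063049346489368426153589188381028498425507164471738066879697490987962122457798958219606886379308589075264745883601135050730346358034593525724842970542151322074157535106057397569895366555382747945512307452694947340556969123832190896077971095808510378178356184673397987372479230461225263360635730773652869764364311560231182304521584044552534278947697758358721418485205567126909863498465294253852886277941882943901507833195193178234806447142618790983059960674771382273221203865679698037519246936953494016150010789196364362514726660813289980410293326394630654211738156702454972125565936500323316984358155885131492447095365753791096612273447712962970556346260320398737901687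214202845310668016005807133837635781680506534704110688687490674277625105465009719354589952859406132580543906543866615386342885206956144984714995886534733338484238016274518874035514172469504582387005521360850705330435469124067741269129186554027986828714008796628432939180748043942414981897740885681874272394373934672631849150597536717413493758769565028218052753016516663594514041886979588972166488526071431591118888128655669467426277189103028039397423415144672564135119373860213557883575501489380683508920669622462360816239290449618383885626893774335484712004513173940529277788535227068170326655869263812269089395862494079936897182109716317401478913836000638861735817828809578999998416561876998151072744909015360641002141256013749748731295802410323021173156691737744020271740188043717829562263874937374854110182092312117359465642498256024732717815745759846890057828553728055803940493203495589447818953804531605121579996766186834640958613020138673459795613983687089525873610198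124838498797452818242885655293705646860158421666293192861606058833941095171851425752912749731158557243454582845608311865772820105552734939242870185190790476652923259741259037777534793248923393077905398267548227802966177500785543748639540825800499416472017595862302846676488780615848343731564500893968096153639588150228526795460030777627363157821234049762538657305802713842063812590974955093121835663036455531922924961178170934479794413268605506136134412914423365563651429336241089368806054952405196137119333927923488693876693483033998623257369315593165521245719063494071188048420826942221919501963315135219370697328616652454322638904903921052943986868572111384725716624520691176043198833680480378423915363149536722789476440231557748934247679132116830856289618547561049186022914748019828528740909684232991191841950321517032052484885720698384045698920716224198906630630719104962284156448112697984572185700195486746909342382696812787098229627246653676937270994844657125450496239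033284283522671189184816185763153339143131661013848808863454017387146729173074345658947344879080581911196377670505342650607082643845510828835940252376875361507710541245176321422913785100947398547382739974530868686512113352654382658244617155140154398141544772113714548923964950874291337550095257246950076894472614712204288512205160549549764231976104343927036336504497515577578285345528455688073426470865809216437863863669678755049986931728677148592377350635279408874596886204463132450883709311761402677709006419404875643304823794209274650121028062410648948322458528011547222703961512868112366421684070262469085905594314300938707690761081221435665688805923138062600638826271764925333486945395152095546654378244062011478801238246856996296507452234558585254449765964860316481193163911519743285731047389634099478819713420781725452322008327167199193968847626992651666103647868974879959901452538186430399008662878287282475732734798639328008846563197733291776326194918755401088122488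121282111537529982922143268663716748474848103786292348129712064378774965255004725342312732255103022202243631342977928498650684514746433572839249311548205750922182280674767816350253612664110693578759047946993586538005090698283470087486161110617535793385068830464222639411407624261253296496262313748944943707542395180995209390333899682913908427127734262952364778671715656356013036194283672798440645957823323074097701500272452796025522907396190621969902420034035260048775553573693707720581912065450682963861378970049571339465865748024490879583817338977250830820343750211338470670360966790394675453754599005225198024719563701392946218940863893512405006635823864841097987129748252406403783437604318331933199232915644461794091757539835101871676926648746057637740881960123236828107062405751744729549252517500570361009284594415371575459824122298528156165671266152160787334113013958137306679225679006453879641873913439822555230161364234978277775528026967745962821897336874101613485925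026934852352838869656105750993909706259280678380507654684118571091003885238022121789380276431916022135894500812466064891533299249699372515535742800705265221090987973536502806360730789062566592686914213569306563516886368166702981360470330269597927716780270321803615890383773398421031603874338813563603789339312565075000424659646994929921833896622565160767894822204607571001969708313001536299819174487335876892183791687037350497575578693329222360456994236198399522979151068900893889128592430937447349132909404051644475886687157444613261124349193302367403204910100826406724144194712560135147618358404390585695398749979102432964232655618739095737160677049815728916631445746286391485468702168385690723965845860999776683717842965908944943600097309476903382512523034297023593137841972318481009250716631451024765986988450790749644600597444801397962002213138155486786277394025259794762519144448657625939918650111574179935035413296881524057560755814813901430951739830071757076796214092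354829500357717919247383419839887934767288287191619292448480795675994859098339574040730698090372354042807809512526199672199904740188829005396695866084536042957922232215228912956190823582826708348788477786485371965176668674396274396429510709165498288346778590696359469053758907230655473648019270903683606066666940734862812699021297796169462231387886231269515682142998514041781139718155685452488624209225165247401807216700516131643845539095469289059360398181195944025973635484476984361123621231467856665076894138534348350356513972016137408605748930745576927121935629878632830452346117517503723751098098655945138006954160063749515366051019443014879634438286760050899123041582116738179347444959249029877571690806396364960958607314754977463550445353762743460127759791307070169305946781023187391962519173312240183028430802306568980051118463204515546961556624358963120040233394340763510255539071352302925967325298485661991582581911716359417360527515480135788414346136772467070897215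988752905101314688648561706715870407883028067220714247562148613185218712095445085794563528228200447428329254923343391146872206844444189990724236531385949817893009252925672157927006766910399446192435657069080523143345543342028326073933028296222495716489671364241087623403931853119728038245348649684003546976651267136237957255317994833706697934437417668781280128370862160875408986046341960262470249977993931960388926649431035036769761882850048850065965483660197322857720149895155478925423985689094757723812181026742565601796784132807204836539944950062000192477397285476556223941730953937066880992685592115436158654664268438985028711423177953379857072298416477003881360635012804072124392833730753879245000069494661308196324804374732046293867165612634749796024752948366185239876518186918112731844276421696833766963150185722840578952089734547235847930878959385699228390812688293618629173707756303497161372373921314041162738982549917052648538088223845696114289895152548968006408317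985151989175556760574020739762288536876978720936598652657122273106013343856666436319872255007474021110615564062381793914668000793064567064264402242989997836049401602237208483192311125955042223828654108897195371837760361815732168312210305116683525327445088398376146405210474322214603679551615357987019345551573030331765763930681039868001674318051250745629399174387578023717707476194739305742834344349629977220038687178832265589037095867665873567237759388757317639922124208207756336733064363150993073611915360704217786268267440291380148716667500606702895236754075158322483072177394235438130092748348459125792654236075527099373858462535404826448858630267583492372388483993982097096467496771399879432415214874314249581840710672159345570937984540620427580783368312815773381307893719354944026213368318349681889785261133459353571752716407365493346900203658065017437900394390121283451973888407806604547804807243382918952843308555521486798928511399395274711998620458174315507393883816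314851517773133588611535689169948620241735537212516834839097062314650306328564582969675089240144673360955024400252333194980650914039986284343523558056693572027423104617732765201261241986278349610066762689017920502868386291349610808781008232729177069097234164890263677981972016835127363373567940444494067901283103108601446520499144784531985982020727829491743458409113635862360341632207298633576888256282714024237318442661821618274933431427026539780104641597587289736634578931439651929764501903516441785320283750384388389169206477772051653414750192253192397577744889307308618214446448406392796451925070716184102081681997075589441337098898769755764188181827902483409066629697603318694558607996656438347084113909121443777094626532753625554688322728752150397169738583458262164111559276337980953432274523818565702172027423910002039323485382074701749541606973437136227559279499104688476128608722834933962788509759728879573499324122781399364256212519764860932104940069530400471900128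81400151409522544493538945483602412599601919530227042597281097564521657737859060791553286088743527729965514956737459174708114425788201940606818693696339013312571196563769499194559639356524957720649804470526759354776767667690439159413246145658824467983834774024736320482628555307232063910793297289351795583625994385740437664928240719921393734221799673038327028167640554577884945839195506363736331714155737430859928500273761651814660141014566082275917846080453800166821357293380827419120075656816822866912650825328251890806238336229835875661068885710642835622333664029887116281271497662392620810289537914465099184665638815820997219470532063374860216958332530228078996893373775522241253734562296051990437043079704747001730854598283753983494680413860283381697940655637113691134163971325352154349029428000905787377369520193045691402536295198404577547278786758110606891744505216234149681085473634195895527982390509154804093372427110936152743326309135456422328903377596810320014186569516547297717445843952015421266099116089233852329307059989533897504905300617751191015471289579805195685765557306578135267826548233945296821689082204447422831262344232433669798601860597413915783748530536787955623882559193257603492445371236352)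

noncomputable def rc9 : Nat := (nat_lit 295599005584108377919417154510639446630983727436451220605348808121182185402505957086600938392996247753832462156345727868111703189437428256889860942502569921443162108049199743864598535199599476472907997520517037961408295431586167923979643904930891374854002054857156729858851361554500973584544387773070564793887984709705594653963862267609515958039486220024404285191678135190167331602500315464622030340178367930409608691406539338517932538418947172163339449303237723110614163754900040090421061960632765816109578175512955790608480497018432476751251065076635083580096011125184974689459558448715155732673475091658496924903563795233420053931462905046582446914178823293125141277514802467015474084390743771021978486799724545751153280562297959704342973961883740816648640953314593350365846977115921773453228027082469813005748999537925195907696672914372754720016046201483248776990638938633944353607438444690849164907246077354152918416350717241582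783224211863285602856928262632020887450595945140450009794442526461871359052261919258153096518039270908936121992763370357238780668427873138199996399907822973635540427923173856356437814788461590625778611978037779069205688055910397214318916883099561648932291932641734903256459672237732618826706465139053070047394974405360440161308569139103134705567749203736227147149474977896270577983004461035089823059286361229524766763315793816778058467035140506171666561338015474776929813055154894167771893363133719455016051516411077794771354760385422759286512016407197407215375971836851997113827209316037780705292687473801329451863950143307406574552586738336557964257208090809541345385834179855516516265174784494736667602287658678491217727375148126842061619414899986632821677635953677510253104670677456488922899148208387339643948398610151065609529653971826604124165899526037036043977017418411312835459807701679844695236378110938191139074363953319736955805442266909713187267028821817230876608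178386229821412616809131135814822981857811044105611138677092315729875334818715844033226717741248310417146728368300270886990520665380826603586013745346098911357880088205318732432266339801788048622572997297467962602771649273176859917300318695207980255240811918233010819071691114279120635323320580291203224062392417623416490630332624358279582185350891084237846077939929730546523011645112888323006496990450215989727725400212943920984074096340584908089125087366539727856641568693957876382842323279990107236308492531733000155075306391161321013329903319077902894284150479840164496149929534179881241079316422608980547882862202813444779351403021394835621746239707077553141118180671316398419037646985269222445948630149501623892932199077895939109577111356329384857384536885539895527609062307192581143949838727302910748762326700674501021275527374434334549812909904687607987774528241268944190387085101728957873191981436824298705808896118184627906814708054756743552780569318079054843276512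341568157868009368865779469137080712457015121167157691713073398492840355742955956300019759702866719800993150396907157688678126676853337695699104589432849106086546208242430778835401616665351142854917044702731159699926943459704496391116485338431205151870336775750400673962470841594133232143793913961358465548273496632250256911238295385200021537163596442700386660011899921321511357123595443472954074514068880858477473258457986444643673646343798521739572156494090390863240058668612348592491902839744736262658808185006474290189548851677988251939228955104505685037316292934965997457411207844651920990183640554142921232351912291155160295043282204655495129686861764418239392447215755528279769396312138520049208359503849271866560267811799653069701548400968685864444732585453296335662999801679673280946558400110176139549750996170507159907332393028346785707443323510205404344097425855632506148050649929771872861648629549508193857536812408717804461835973758828128893661600505517831493743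471124012761761223771760643446861099748575024558960390915802723929495959388523823062486945455257472301683205327063519828400733613864005092059815560201746563218056890942396489341763820831837449281303500102941791396788400647731386332823897145336092289079402429295837664651685161547759478773883863543523956713074114899717610316743461093295570272911381049893382215855590797691468358519396265794264650375445693707507599394266355500597933301492529245687884757844781941681944382976827670113509876494066573948113600588826001322538330171852336499894790353822586332585044232365851492536669009460678597603543447855428582210432108963075258241147238934189539299115298453060789805575612596845582024138655565038939601667901866673764544864152403698009774606021182502905600024810946241913494089898682517304329257405506296287060458752382912082343862372262374272791128862454221477653756877051149519442307162668482796177961597518646504165215493467600813559262432562270961587028278345892130185392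361406408946093284276814578402064237225797360353464239047418071038167336463603796658404062173409296441179827791561351515177181032471189797346124093723696970981774358947217544181129132665675743673335760680313370436909311002921832079472446970477115345863205955718224621078926241749224638651029258779305423678951843526822102660390803842107659962409863408783033812816202492842468145493999617187982845276979497006636246267151304684039719110917088727741735169951749977259979853259498471338944919870353661484636328115652125953459928902955046598402083973441640063960194534266438540710950012065577438056391550069400888620332901107401494674204096157251061971696061060291115134702329193182071192994643489079477673450401832344808158774179419247623464399892956801158178405355393852112612332333325314735756183599279793446327377194909099486818394383554743952190677269769167931655439091976510320092852880648923333183152444890630278591903637529251264851050925347137609392763025129196141191276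463095437092438023859424250978580777861109686782655490452898732214363294440313350283291964635936222322255037895073633511662207805128674980266049511144284131213319378805446206406400445672009726781358199918924379433987565670879493396315384951658981626878985223558664673833452770876663499174352526049117622565994597301982737851772751075271911905938832523755120178728323231659735879219250749853597078163016469440680212826251589461479885633855219211376616899446472310186269802761945422990935982383381160058578832003462258013129689676187205548890509113051797501089933580194572289159492213991603822890081287260130147310338873935405051097194818151891080239351177362581614820215652559525338612787085605090598016098497830380104425788649273339482022579981978716701827130157669245111717710616515027391730155042734158406358089531072845127468296533683325672120237625951065941901170379391408880148429060952000369745134852504643598027782680959808790128122971154331401028698217280476533940793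543193823284591880949574206620813874453200552886781759561347790166649562664887042784562402640599663857771931818478308210725128823331460139125863233793517823963464190285930175839936679612506298743249816452847071053925967062057445231418299558230896555066941413078647433337019215473510061168734585919239872669759799443842461020040990615341299685521752309153786446395563370743055396933712404353915030576886061218084146730938929915373053425784073438901041200316873471692315743752530524681006639397750696176578052404238621141311553900592464608389540969427235671145349875776130545063721109010062681149645847922307956740966580619492753413758885088781000709451535055313642638182334817283545102978842892392689879981965630735394041948137374172307363216151990299524678604786024287864113345431888737888214295430912085199158229516971264265998179627292346782795258630084796447401277416585127330396447984443222077595353811566197603815204143770857181795490082982286664516525273534669046187635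165313575875196702296334819411290282422155499651431346927884140269392740184902445807029481815031877103480156501595484136961807892252200413303778992233809603491337505416012412670645353421273725260978023207977076973262399622993933112640105655484983159832029021440596784292320072481427599774506071097853787400682872395170923283723723992327419448737115992062574311535326152021023817507548933990699779878966265302692795055167451805944509115045829253862090691696794143495528718399360344743389762893045022448510820190289043093333210224646869361325772776181313407302399515415296445711811387043792092725301048891739426713108183849400958465913994476639184402746395997106286786152429251446315019947843149756869675647797520302423543795968268543260749069698834135963437183641604178626541140924584724148538213081800484728929995465476253917188312877868861996637915971566748300029066483332375032294147950202132815745581745542945084992387790124980153274839119603724229029727999836061328595529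306960321204181790265464679499673864812314890428292195327346367874124894381426356449789651872188622322501175351415020898359409531134660361404147247238066448796916175470337097567655898480045649583319634797376364928099500253340141999726304658815088768412268152353240000647196560499308584404138346181781647021584991136111176688218539953189064144258053127119477723923564838371470400229130706167494633406544215015259433075946430030173753956376367660375770083284998551615493443448964673763555487634587521770410505545196862419287010242574592460763975898882392098635523104663415430629284200536230864980099040260435367760990814992078343789310103552057858479598793047649116211786473765723604781956633018522937694215218088841496977331412979571706187545253508721481680215835855332718959238550479038617898835647555766707618597931714376079118543006635856545694508055221297925000451090697252762305029205583028233197428749389209575659912906142572416683216345275147642142815977263033173367871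835074553851196622882991945523880345243255950083937960783469473383400802866978282267700708700698916464789895039384939648968398037617113508154587987758613528899297395532142153260370366141987156563211218862975076061350904145665448653354241868579935650532646165538490292437655664768604726615955738631731457648414035943184282208387162246993700479715884329780217607260040555945491815050860487289800552487026127802526444809854925963446440133810398000284006970364338031541265386761841459469633633567619710284274852227548167146099016011196697746730654751667253697476597412400562215800773028721361723219119342622488079712548854128026381617276889715078354894362356910728261439541211926403336675530467940857340783332998013204885709125093202292875836316025787887736190594296142043451333942911082088601590695033362479667500368584966099938110821561795691074760325905665532156154815096669066941077800307708932965111647361126444536746838074576331549260277545792437867776397322772275426310764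159247141884417991857301586865671158955042971760341591681172526210545796090782683764575509232535684656874512808985552234823183443151405989904490983677655102132302239827981820141268371565937822455286675322011425425715084634384898110664900968451565428600925422293181842001105746272565638989645916947472580819597118380441581087200762159568858256140663074440695071271559445549476854608501235805416232331846732707647598524479410413433700106366590412257641521726315952967900401595279014623502109609931516914462141665248466604793974440363914608122232170131105141507936297150795139325629524716513504228805676617851668464842605664670009141443073191049447755274154066651172623076523972153374174115153769289612945952073783284116396038738853599420107963984968768787176133800118086321526021313596655925672084739025009968829689209320808385880957927283632237261837770382626645232570053883597874130435813181521976810544930174657861990982444103264405067029761962907793009343084465144196504196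656965276870223981697451546428316372541106319947919853891600165311443775974414189175850637644688231152219813431322714342871900427434399031843355181461715025435390945865090645649503731373608601532421613017041986177037574897533339209396593250867912494942115531529606667208713485253414393954312871667334647139906927635980168236166674791707177946060176762041905654812990412641713369831367888865842961478081404793670926359006641769685445251476043793573623433811521433416927868391153881953172702629328788239807826691320693184336917557692780241498739269570532784604155215238880773163438308134929836724299564873344112956844198558886446746311059494181154556888683940046432239660760877069156776858897475957608932893643468111911953249578508684722533592741288685097221275628404399483311556536496372874383793545496537725903936460366237000381606421405808480815977688570296125795217303783067593501282066621212639264354876315298075341787435509182963681161641785981582568111049394552665171963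611086402628080487324152381849909622967205177440804510893632118025166000924468727353112986710652820636527252045264982004031096865058614978604802771556448990589876594668333259319943034830697438951064072499540496349749550920781350686710104897370442010906123375369098332325608144583628190104146986869933218833460382600068323457437185549039595138759064616017261988141740144275417546214047854796980809493718530682569821703574475512972540358393140718874702049488154882348852025938030126416653114004110978805160015632427256838275420844673082576637121838527080230310934641291150617442079600926906224184139706395551148261922268617853691159549744566262984051147909593618262238508536105748590061700688386471800438068485234542717327671309586771020326781372595698292012359579553211985573473869469828039956434727960080656282249876798795454394781709016976006073841952193526180505841861697332185298305708175563797644332810820365614836921503554549526190806153777664723199237003941489085094570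963729121596589372458658696505739267148154362850236525994335208813542539447511176693991473348915965023347742293413836818055294620635074577442444439010493046944961756081356307774344161668057222103775490060381736151465496774686327202788633059750006547751817309465887810570979785625201085152327584210564899686327724578216834736964484607484437756680083635706449515156618362142270908034745481360514526345102269392710665498673143225720602869439456569727490754726624641607197102796152290030467363134342543849856661243159752622584235876308353120894850495169768627207241993321467477142067775973616490885068584578731027943478740607910672083766137557283401667524236956423671392359796916710456594956334282352472790987084283652651874643389900098711324314334032621584555193228181332617147628732149232946970963220307582128952279829381942726101107307567650184316321131872148941623152283284931977229212726466160005802315105601390757888991509471614771469535184021848522028701225522446342048104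574901642391941397575216563451457367476257804244480761302797470411965440805733769203202012995137040407332823604785092565140481743331598817135845299053310889160753224180106090163404167395451702379766633965426245635248171421494204688045787219826493833364311513531718795185448262192450737222348968700748186120353155884168853974439456278600981767553593285206846616667657229851041660971506234458872581934060607530592857494290775481748498066053151548735038286301502408935953433364605108706948266032779132502836002678693398979282873050547004192120179568331364016631371199952696713096482910821524903842165467721950935209436596391797627976541097569984924205244921853186375039813015094860241728987510821580799461422792580619832620233169706597976328742666989311161558283183407710069696703431231968408626170558410550356910690912180411746230371709213594099863656427924661069077243266589240848935107189150591821846623393540974518817081199870124166630495867312842978358143859985597489107809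729403305412854242466672439550144450342846573791807763345226386591688337918769448065062224470817531405229073409055305237205171189759594374041525751206636122341846655752490972632577654242653895828528517383108943733860176063515710245711838156194199112418425508099109379418777865105783136389972537068482726501619605156694540075429247158786091720726244497258008209117814556882642959080455093088421755653345070217987003592826653780916673595847198251120863577806585910145223042349096709645561098379146138738723403245380352115745168901880052995472885455161559825825158374867728828541352060914350335638146804670318806467469116795062810782005565096253052989962743812928047502122203442262056320012463929188829860473039807612775486480598575194258012356407389310130325962366656654310921094839543423953496000432986129507468309881176803433615491479231382725237438921615869590177544059089939429322897000124034607350486868383963381516393205175013917327259566260392830179513974374180066299557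06099877415166429774447614875320169857207163253661405954550042827379783760817208484765975465267279939958592866420281324074661062783611692935945291497967974909058167552854111801142873284099963835029504125282519001259357351731764702303351932592149731982970377989664343463099472478407262285965224148919494625432287119107854632056844136311085757655456333028643607341922995461360647889456997425512227010938035642273931830831809509704777578063396971738615325627787622229849543618059046414943834838069320663280438221642123332174223318370258727085120184282011947532196867126994966861295592428742757718034944952021737495166263506186076921327042150055708434037494080113746248481153642442488907897433699185919304896961530893887997685093966561418837841308638473441188820637531977489169440047159170418854971277313577540385003631735453584279932515559910322352443333553336992492079849862571358879317690243262499885520915828565893067666289766634545885633899193823073145232227359822869314309555465357675538722819792126565480243492290746741191495766942907306311958271030534285428273727879743924897082489110194432733522906114634280437695045579254411364950009000864854908463677320152691001365174343775228388173614738263559566796156567552)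

noncomputable def rc10 : Nat := (nat_lit 29630788464037355109614303201314251128671600717615483121709090245410515363915661539298926245044659971381231887130832097794185882650752252111019970266899256753521369145400915521486256393976132807685322839974129630675991716745277552604759979514405397972019284185322308989002555057211968494151008143269920909432527482255702836184099511630434871430980757293826140162478054509099881709302186667318156655620181007332483706718527668936738922164581626931521002091684048884110752211447514320358623378171265784646011901660740739709402400932588040076100114396283129377429643106279536493641444203781891949996471416967305963471272590690061356197442561849656329606700679203961248922114461012860753863835277884174893058245882437145685700952057463875629895988747008843216961674109626794701089389541558535658106749297439747677680341262887490005462891209079057151864867160429845752343058586865876879028811216835150325287471238418930918852576929626124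464210541499242304077762419347501168400884970961991003944236025333644070849890438160649687236376691541827834224545160868557758077493480208767923195308683980002634056462819764227218187872896037868244216410367939735205128875192891167687933073416367209488843012851503151633844542764286808246474201160520883922617920329543384849343720375601531000145839603231703820181661446652764024281714780091933924721980824224711678004197920569732658773617679254337601611862937312675889865307906367291493605326783724085602731940245175778873456696990221398209178499978803914061973239147906115703574361728152731545270975760024213799342510039393528506314335575586965797377630148835329343259113097731510811996882605413528638364764794658121505457477107394208730092800246299068541208148109573762115679943483755409816981217312663563139158135752170574691962375967235314187419876601080331713957794744433841248819043984402280792623748438262827425834975829335400989256444194910528091327778964822645339126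581204312759871388571622536831018937052163377758131724335688862892171963471551789951202703886025541431876963204534884513546238646609229680504628321542490473789314391961171749088620835305872930001258488057602116789769777261318309353187501577921162253666473217470023346310248891536122613797184577233602995643416374284129939738180248212054927145651871196680329277690955122601587120545286282981301002407039350520060973649520817937306489397735142422020112860397618941637396285685887129899735287279782339250240199137548742954476089363825014681367552735576125268555206289248923004213742886241872231489972948189073168351321066134922914766324104174468258000768197693596432729086214374566619551703055767187307245762516528303412644658264678810896321279311967627879339488239225108310317577463671868810247426799081250585831765310749451216352535565395382984277539565553173753009040637898440437390412505670432525820962535024186451192218049135164286603585763739301844214766140203103127273588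787872245341185222422050535122343234087687933584308265556326981609025740854488640925492552120803076112769651263279581534306116180439856830371959005685422622283367524004254743159945048635118572998100323985172431203839798645584532318190184923309987323480067331736003837963610223422844001105155278391316744161347860412708205310518198090212776410685272462381686518243909557481839824611347936551208526845313655004337626416119110600390163689890116845309508844115193615742887388786594774153146827245640894284164872437257133868346760550931268097591190698905407806756915559322407641044098276585737440546865766742093371890388087215183146310464538420571659947741125030937008826141911960856479773178441694711640430021050794366074480030062437482648073549107604836180693098944960210810122856040528404090795751106075774439814058227751871668494491210497553509760501488402636903031021195212420828659402152151446370915108860390586773032971669796401713520798559179751491662749019546516131054577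149132181511387767615610262170713846139554654811497856663888705310525035404937859426201163251389301340168845120311107014111949710344858050576937456201117605892402258506603372081375039164432071768305380103260239375225086627561769502318742834620587658181824853290992969869029528369987985143115212267001450228366233887869712068932319181289959830592754959333737907990612277352987694746331153741510389610868150037023898020017690089778839840598434028272693658785331101567350550756143283967211760891520466914152340438247114436807789943437498848388530589218043620063308861327060522350766327950415815728171453599523324014181594696950397437657736641526031738428077801937864263199194467510004307405250670704522604109560601257011856225751923081783894543756512318353767154868305267713787326712869248970184761357540324528774052535891324185522348082789121433239338721492393963179228006275455877196432193724886360313966875288994806241080639970568789174948139027950535347300690441517409493075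535247656584700310956104826285132121722622247604654800105363647264798535975476152940283669901898965374154910062520071928260884066152514586081222287626141441052243769722180912323255949939507107333931339932002632418262248490714561545631044878241725302666272356512709175572481229478058117118466773910749500408476316336450308759956258969558506297819475726031774440825441837334272404131730499860267722700779635304550349962868690494828337489383868919715395627982170904803298710115131128800908191621317170393826750097905882135317949219026587791436634276853961440787206701205084111985910559231594863355209230918478845864948442606727337476272403547668358319209635507301804573929216690344599647542973142141503785009065460630107272738816120068447559542737406085587772612952637696035348100448828362851744042573930143807402431374858941284962529739127105453983052623899715163477389822821345328357488196845938527853403323739161672400099774075468057698622356797924119667910564964752962566765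806975824288627954975015929827799949224678352084246214022526047467309229059531295676422411089601860952190300104237295688816035241364597290107808211771091621695060248707123733125782328305393816238691192933417401379317643040266400825200513189662408868674621585984358804699452129921244875745089260640416525580533986185970904199545321219989119335089761200296348644375875350291360221819587898093153415451261208235735679861584181931368420693151723147814134373287468990793131636830169670541668021548323200022906276707181973697904293681378829368023712092446543435210536311904755131600244867749105818899320368589232766877870644861761055722010880173557388850290849581675105249244745746903580066091546579089947421928637003822781640829379042386671453848083291979367939238371330025859631162169119345875686310555030397876006591986193014157926681965816784726664411581594428978146162799223863318607935785682608802623682442462777275554269106696611859753686408893543289628239863376762332197945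753341305017897597984785095712267134010221999547812975026823158470953067879677010194878843934242656584681762601992507181407198935028565533437261806330309463494668744428369334053026254182624330335559718989242376891814156960359572127326094918571409447105763930291000902044960156527038418739044925576422736385033329871989201999934457138482135098376568307418602556309185052870067469879751159839305955758834345822776805153217806145471771134751087002708790283997228382092541257020610406099587509441733092748453903709229226996704919385212262601099355617146269704921526513417777861051925817129604898808056119456038215191930412868225192781869547954366550366982966378427798352651654132318112663099473641741044514727813305615921166860814843655779494939759219381091978982397219423082497095907907434898187436079292962765506584671001993861493087998272759473092184002914529587634357613072727212687365733613481457658397438757047725038979609374239112146547254117183559306830215217466143159977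384114755617924615236438521422872451506302783830304306504437523684163316089307421204631852354318548657889016001730713182062731201925449554247897716652589026961508280035121052812197721145926845084935738764574454988024130773786902173955695507507795995890734055840740237465824455884897608333549145418005749727830779009611281105168851610806591894195643071304865873592630971580463924904735385094702476184897308250740682104663752423148675272398484212759872374639850951808746095504209562632962323676452807454243153267160489002529355371423618926678120777416541135529687428959960066203240091308315877645506225536523513840244001306624262087616309904559842547328237857109098403437247049499016076177290252826860857999171797191728702195507877290756393221992233974569019476266601839891161816954481629025881606176744889057072268667519326662119602934225940996438806854636515046572062989344852164916238129107894291345513850006627190072958725332791545278626164717440842081609686702198689038221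552254679533511343011893794569408932664909486533543320697766194683831802780731072493350684777484572073936167627882463236613459733459794764308394024740773864675557519677923480984145044392564678811067255027253203097698543821101131340024318087311219632612359798961839697881105801570509388421210455425434449596567249680487457913680852388441704919844086483069634804994584781597917474143739952436811517350637069971426408963546987293994185630070978374611790640487102711528488187533174459270885951142152307243517580660064005962745475814363973897329186750240088301273852626593412925965600678903646791603306084127015088133252482284981420631098171792389320669710116061617241207734644715955277997822591361479557428327923895105217890969725888523557453538360687591228362979764614625635279975960462283828977478760030298620529802063024732516682196345875977079974754249724901741180493337097031742450062258334052140813198432193539671394887408493417539636141975301489363043146794861282106269946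235957746234580149182587233948103293162696987641258032052638772808376080779095308039522595237863592164441731220245880105128437968270010199624485024911648527339327652569799603147496914556652134875859441320552524728220828151997046385723324490153497075623755847266391266443008161591849271484599246053364946423505922815665396113079434705003906838008998195223028250089602868225924641929447341569479721245214563102737226870357914791680020235575938284774363488213748591389065079853817146056846889709946765381706022659548388831584103873920089918917240915382502971708985382916079148599111639565694605775588213935626146093876321652695283140737036553937690791656434849057812179704508191034374219859752416594257637300438245909595727032019575912227689006810610507258356462521727698141943783146596578127552200977853980636984279532276376228155451287432626219982325869237240212169740316265366043154153889391114997326021549538649850216057374960056527468941854876814530446252202615733292573729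223315436791990335687360849301660972638533005478551362156611995567577982964344104808829325368211916337512058991729835997620163003345660637298239703716776262318555071602654697175058011902724173458058613388090431265933331425338023739567300739059767664041301621831358462638642497643956999750664537740035874096136830765254279571784692040137301202845510142689591839570019983644457963076513686591441262965717625867747248244586796368507663020395006450192872760500680951357365032871331378835350533755971177590903386852996700006972005129517797317794318657172464961714826800649981369806796405306040733821766209115714919566685451127995308647673404358037456015396411251736751471252950441842105464521126271857564827214457310335538200565838840193812564952672139973266094486126029296675076765857822472068583186809831695656529630160385081234317481887975305310932743751686656179459989657418899914671993982752488590794572823875797206747987093337827019937630622416764737470218154549346403376255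333929618314359581575506786580260935998169088633765206652617090696607790423006858739589446614355713073785501514595185846748198042043455477938598922183475405373150381834323149968346595799800633132656988399432536576773159657364547046464214142954062599595338429323702512730803992805887723462480179513373362075149467848168762385649978317910029848560984625232760233488473834013279072627263924710170317016951724708065643695500885329858294203382526892201561724607340127214755683258820768769970162066258462435516846601285942961112834349301294746136520354408191986511974627793690141996084015199805339345815582413174095819692169801845995918833258109344838649491206249122848279382970349807632770054502890931656102896383630384695057615881242758271672417391687014204220092440246976705219026228125820135152729642291404384425311859379555618737945725936678881523414785710964655306576494257061197025502928746295847936480159150792040050582356151179323568471922094547058913499330285758269192274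076596631800941284519796737392724282039865280157358162478759867780438792700548119423237341696695488629825277229844863340260865106291982429971771195424747667980086333194105295065489275855984410209629209729015142358283643989781644104460885629798763157801184118337038981080297437066971479151102833881681645429679594509261794061259947679364953152768656437504563719453469620023408975777194563356620042739377517684096961155111845682750787687478328014323948885409414148003770119452685584947743817117662974615680453609434666798782003242776472622825591865682495467901773022400303176042409135671895462699032186085174413368224594680446413540660262261394017702078999984747837512319357732806110331592775777396639730267451758698946812198877770811272185442962088290942999316846124490653525386958091651688917223446684184166275306736546037697754045521076007200698714375507423226158241896194863487589928254406539572127700076351502685631973506611991988615790703857024923739948785705093175257409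828646824989279493899223436615763190468779935947712137917162963382723007509535620828689890012495662348853681766910356528489210251496099125624311400247608905676394153051817571818661307371244328704495297438504134482380191220648793750171151158617308246525981028715379786452920324296983261142885636964590968967513635208299239860765147136623693680148145544806067631463088644494271197356428402448231679752198766222108569042766117220153723749717951323437781549920123671556482160222307079023308454042480818806886965264727851775030592903232969843382041014064390323580589827343499571668277421096377071350035929116042428261297613666155226224995123966635871243132507458533335523969155774622379862316444361074648135044519283131799676387094668487791962469474418160433459209568397302846418318514411358911148879999236195484244132135684050679197520240843616587683721237858719498047549460648507062209266619083033701496394376426338215059232290882016305087635524127832518074763852544517363013045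511170010993796604949868463017398076267548521166538925102845235700604030010685543905631208312929142811541748244010674527081144290934930738160432881669337290541901517595969270046587538642445252289350148410058086548443323829254546716434131993214177623151648777197732282468040441025770973486899922706632042454892469333684064035534582660868628624708844151985215313850246929987594049111243081511236231223480039130425420119291677314817682691049915904336760088222004422283028058439564104854207102252319874953841758070181763674263894999581777366907201422783749590833382489351425382657336762812722295888889217986606567772659769082650003807744090055859816740857926053813530197117626482400590305500964954803825849868133720322465631508893969967638652544768891651176583326228862892301907875342529967739438860613327467403074108780990504787108239650942643567902725900234147085085415618068491330458529711475317559662227219037203696816876298018053969871243616493590662464172792966846856541836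347610090152959285966975885625037357139978895533927306687626973934752928306019333384174985740143596843942592929336611014432625896372192758615173523518891261392823858075757539116093958524373783220936404546699670424495143147763026043718807621053309910630105062914796197132109487877370778612719576757754689355961881514483790033247352845437798997529777232348141316127192637386851758400281878460757028637229621141061611294322716212426592512229445089193944407897893300453874877279932430079654401599697929037927740141328879874299557683638371823466757646781925573616832299638685683817191481012598447097278580210164840360902703692839421305770952924497904704347196106831115182790448300107360766688389259764344024474599488367687387884134310245031215228017429750923364722551886264797523043143901499020393582408669493136307600838179750262705249869129819053799953147961485739861875837017367913176788910090778283294794540553921057371138401054290125953554032953059426288937125142772210466089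049100047676960812275454007087492315480021123982160331282143617570011991701213013459691903403328661018159310278839262449388438400330931535820592850459241247930460558274750334183981278236047932321132871044829202920111937798833024705105894365610048595242585498249238872385121014749182926706842503185367985732124669320552230582000085715539146567094969104211946087476750430991493257775122773037933866183597387934640258469602843884799438648162821991373003087833713120439932771682279439566334645481733201415519860296515844543465835389591045103790609514551108571474329083885536422138456257870554286404161638430794528652964102176221935038015255184460708454688877364338715002792722839531533951051118073207902725309006473388106354390188637598426408207758551351872745641622583754142937804176696397754309780376335575867970130273620249564092261258865839546856393332721325724081856978511372407211076598469467786515422310621341685224225479840622142386273199971702818201934294981209283831838920761979467088085679841261557667970661813449203256963963202241976574671184885295721621953982941814757274808210284364685916091358277869913939886536827429729447819353409655551284916054721420051652328486488565021162963008957157847444433263394816)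

noncomputable def rc11 : Nat := (nat_lit 29701178909016714528318820884712374133837147518693195851599928190457790435810874118097820858300490215072016030631466823438339713531944717172984887075311470438766665348175940455826248931798546726957146571975240397356880563506249049439200196917835931480715078572828152411410751979852196082745876929494237326586988138901841262242928617420184825219562450881725199617589721072530277173174206130166324638012664416561823453467491383643092208942093513511657169784530192428511672202054476465289561568330810648625902276030825887076873971561740062943356191754133705093346753530888621364589130863370327448479647090137524788676185322704351815638115476187199649698409076509000115894198658201073863940583795798864846750449442922354505139557702093745228197353516136668100376662196281002707586379029556078762164763247515648259233594351636439323460326587528096793676352388953546889473260271164491361361120314042788024170345195723246463135706097400740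473953320269512981109622734704104166434395175775153837850789431310259651992357199385080615464297792208087194021909584268345418342599416277700169552941592884771935690298707528403130346043415411641198099292422593663013110554499983605009705339052523105697387612718652170601366347506604752803455682089290516628578650020092529887655027847045305593826106463156464908361084941091203055925943693104624163210661666203746134558287482955997265318581882851831165334952712516867274924411039906301609278964748571170546751222813656522849061036251100828145023569820473445993530162829981715131665646496170213883806274555665722793603377934545528724230901057091617327814042916024881455823149212593465224355035535973468192330811320717970967979540505286008577107778142893927637042594863710651848701171794099886992087348958399533000030508579361631000917265901267191138314481584476962335256049888058891486035284834187188992235397974534238556193923520143838290209690209123858659784540096915131821798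983000202445242773830944313108239202430913459883995641022393359703122091333524031460756101986786121529487454916808806507134885165123690164972075764496683200440715699831208757462412372977244040772108297860183116657499172831875484218460606774278294205674173277595814444637206354278624573316404353863134172917693317866032985340635757539637303598945656299051659241404215935192166433504291303457854035656734063216719390834899123918268433466638345945620046041573934190822339862917260776619287245211331021516826997757864960573950691178308566125325481026583830438196859051732969608302294349132712950688343519486273951914757435295345284948584989764490300741011167675550029928630216859924613152688380726924037577089787868752604414770267746767619321786425696424881468658182007207241750882672554201323277361120726967840891658656194284950890880761089912700261818960768286078740140594661914324066914104258696447021574066743132838069420169764210355334890814526491877499737206067850723419061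339980616448217100614691166110178211459150774737257679778845435567875269341598059698890289797778570963638966351215551362649995278298930959473782473851098921552809801048155446695443861177350719612664851823413143044419414041022782189185936987057191104852384337148804888396540643842022271066993793839147164060628448102856788586021726025294177129344064401698465874923921323842736681537138448114923262047001040967425317388908451714923226435737490878748266545743499200999681227833237245801842334743325908016185727107387031546967061768350669458034304369133924767484741878365712209758917549949639076392667200264418038475030206391483269421355681102933058044602172143525339610345953785280803277336318571430843226290321578761648692007198255257741650789412853848297008298820519691592778685537824661948952301355099586571748057769379821331480450255580126409762680615873603656505224283686268764216708936090387683392396750856973785030341090937151686607817758042704765945160624999081452261076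018683206102306057735034110193682605711527208264857629069741500481176736381802668637065807989413709211805306379989476353635826094502681202603071556516565483258967015221476597311610971619000037482680712100134265381429281402123847488586894989919851296060535304053201855649400797523550666411290194735024895725612914988050903885645491187632027320267669285178615474235042746810268991074757310848271434329265076757700397325331755057594383499304054113418454620985148436687486099667989033258715045193719470089128446303226349419543559465632418372989497096242758006954522361933413035174992442638430955169017986875966060209351434653723389509901856952102242044535383735090326101228249194550779533198083618548258400502182252614766826376545618252420829951127977876880873024560456244421679031131433880528220787003458118259247957538958656434720385984660658526117223068254592606351856390676790595818921366833812275267583071402271526519105329428399101499175485335513373123197903696077705164946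158342403706807366558282110950041115025600225980637167375462214915709133823452317596983401097929414468354870518526421183089356517165754862022181768753468718510703394813281694920272067984341492841474838569076428783330093586099155264047915841844307123520153379006619985661923256322635873233789344573390001844167593093387925103314632467775820755465553978017666840749577917076580724080266739917414393440336885012855529437596574927812525125104563475342216402867311940251365034697928101321674245693833138304785982623315536246319103691743730577983832515771508680889136202529710248088136663717671734828983122862997865554522698600571307475786553500899220716524736149144575777731346493972431482069175142008683410625961272853558262015854760017698889424772421231467719403443292834103356637703274072141102549446225703066008845952103221040406075302280813833663468460402771481562602800695703080622675282913328468285907240936610751962495190416489849870290997841665576983982861407390325303237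933333116505945885340423209578969798753058355172841056551655884750696409205988135750687444098648345366903009094878663355918674107987971518428509893264807321279092554483549757073276793383829545225807786739821115229106782837622784570956856748009996705494856540122571983313001505613601428707464826287549382869656696662127271335402602818026379817857727426315091209680279812630493432571935711656145919568811722877570262127691415966897961622298151454259468470107964493187804010422813802479612822765548902421538477855731116969303840345506986002076137291482195968415366219446650919559365351132874798193306185471456175294389230655508220543696870341574294263886697126039735852248841917542000774747398259599262498443192715390388547838349604920395380012152586193720049950046159926323180834377931093298071533647889035822621010898739928644552487730990485281385657472415374952600031112930595731579234383153022210296298228923432043334807148139244411669294626792297609897080637731965937275465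812464855293661268041832582272104339003752611043587855159211702727742709841012686728961493281633588328522098702725666325850894350963780206746825554309292945061541174994418413809117045722773499882616529926117491457562141465409601706504321525517370348711590733261689847578203287750553255321118885815355058658853641563458282689632976075965841294837651762417063546568217247848391346932123301287886137828870580292373395846868231639894435740899864293279492202761507923186896112058925468318164674863762350693471435546394502983932838677901566442125657623121581242391704734051134450124712942757051786942913484127078194221404654440226196337368112216005418314056987309670826912408563182064650622663677785710326035057701751448504428482307649529043205605056149066071825986749397728666521908444037436337306283968503626858074754929815777091074996816768333204160252603562330753031490393071785463229734403429511242062983092649523825377808087314210896970577766087600604178051613827126075952018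338957735621710978936775664982532653416944612063662836098693189741525965972703777843315888485854722915030332691005822679496859073102796580845292222282970830303743752091385255012472707376400219806974410506907831959333281628418852304921837498288350492742327772201369524327633272539175409297191418864451048751934816814411004641427049177584881061753810378336473735571350449477943889908114817985747237531540243362071084908468907483843187154897112954203619419399763777875203135334041466530029598722373035648165526896892058571911101521534567830966417022913009483411016507944639812774016715965192338096357563086955705212004953287839555110178592398998393337192878313957006474289420063366215919759173394773483739572833906415342080392900072377675528919623213886509935508689004312512641153766119187907633780655174310099673524178432673116992476289972893874100308387836384186174213998176587421593467091792325708688733408283803918032285984862264339330939450513459570156510396187659176181276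353514843656798177079195680663156042437431858264034323230317307523124296115131541505634122835262316657526585454696448900041268981114017054206126405211897573133075113289130330820203254566946618748236347809130801242033036898642421024053617784577338338646321626121925603431957781682743573360644893073605000843889052047459142944405312098918422544441574690578801520512861916972982496580630419991886141050576819811192653052238226976127750695489130795945693734752763175946984197961964118640119946301133226327680585475183084572966525823284934553369626636335411803195526676408173386840926493734776424378342486530024925416806253334791275090217459052140802205289920606292457689765371998223948567115525845920346146909475708526566379096839811435846979917481836583593727031962854312691503744786940489292078510572516066697683220175486677194807812667910069167482410965890603069481264745026767726158965871209399661621925600205539590732422968971960661927620801982297221266574982376077607553961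214721767370874911635567996964229123712473221264617538398005058663254999979983792940458398096454998290862689687489702073625398799213330121465601414896609819737764467293560263337992509764209641955838131241398541038035652325259122180378594437900707722570062834374376354197406065938027891477971034521144450323354717455339758578968522024255354931574111545378130924982340898056419525388511692038690602295832001904669858390540469813750645048453002193896366858683619021429490211889057966246182634400976892587101602877048092036071898930724867539679714350588002966564503728550484419407833484808044236141070631574994529678867297738942785628926863589858732938421634887625623799826081646837498761197123581824190179320728477459069040356348031181680616363219157173091589836000552199960139752521073999837634299127899629398634251621757213763120072596064943095003626183971515269148866958634801224623891732307421252268012150373803009882692702417052257667665156373095536065909777224380400943777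363720628678063515665413567015898874918629132587863868465434783723311009238687870684163836212406228061357047830177778676967795686862078814794305671989112576309019944206330837473606302226290075520010751930467660730093967442398143591498782494449912818125527700897440329370693384692696945038954565699260115984482742173042402600173112216221982264290002953309940160917285158962631666119768845131080819092579935466315285676596614292197773024651214844877076240937554210822163853584425507972982586670504697269879789427004992402940311486827424165580140055902826133709966467445795758988987578583098887946136185015737490803225585567605927279477854964031628497563069102186324267602425767161993990893019977875565796366878072564995959714292493486353041811360604217095472925382821274952537027511044094127282564526725209023467690059388321801718648537269992618286452370201808629604139989127561152087555589770658952409190925327383926178724477802909464612282997461190118666067115677671256237242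569166018368494154943676280263230665462341790030644534447795783951737184619490788402271733958341826770652456299232837208495271455956870359822536724046898362154820342737915640396041373017005731997086644613848847422029703595006067976602105432527784870669687043983743532578571596855780619850259908000461038331500895993969948375117824631791417352509448414981687845693856205711210744320805382502991690292762161006954288104367823607517243824852589426542282577586912544715223174143059100928566909047637347784982952483129508054538750158974340567961060959237735795734148276722953655030384619354226195446227498008218255762733413290737551064596976651925528650105406352870242846220164868123848915629811299856496088969689165805615619537116439731219143238646639451422190996481350219853664213942984087448891305815401648697484264813922342924003602489327900488824015589150621493142974437208815961315927133043273253544274600294880360692995186545611361169612722889106399636387265037838798375550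912010490825790296145761633092969325751449603987858917840859008860561078068171393435103253817835175888824996418729365590231866304388429427524489289629398440036583901578396198822921516599825251985999025630832340078588793007248278124139429849309123861733850016347033760574807896878643522298334913527939728724113141441193481517805900343203085427838841389009259805736688831868616703686363372287548697755832546913528054732990854217039584771033779098485503242247769900206212407161830654656904174076513859715508010435109705877603936381792650232749179551543103365292609558576179638531704393601868747230326299408269096792325065373713669466167879756173221668068433767315840737659055774439477082701996883258491939113955379242342131657163952469684133292372758987344288799632536533981145080349310383042721530086217911898750200763173773301833380496315062488968295490462402658510902471020552670874059134004594691804708566827615709524627485017889440574979283849515098286634561079360227859207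252937876800972489804019311390187953738740880210692157660063542912370105109799768434376385726078249830100940817990041630184559066812676642018761809941541632407826878355926537892693331657491415660667050898740222420028445592446842782615910372845685532441299929053710184568572597152541529527353815672600641770926218667057323595052117488295642519194842875713598849649747024508078254325760615459720057216816250665040829825723444755323020057399457632642626459107762936681562442120414806666739745127428507367750021318680231854923531286364943094638025192149840566317163963031364051064647358072926352707322020512912402532925631983368094877505398066207539670812091846153805342008406839337646174960079954071074645688984455523798489680609547138243092920573754978150564717372466668677955143894448862603308610393675361771033655100805091392812545165715795326497223502505717137404639717824070977573777396223081364827236947894194127684510897012531192814250399603012405793950238125084729101663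987183616411639782278686961857917205170311742276807499029773229520689812145404640483432043616955531171851954189761924632148713248755194744376292039012311918424485412304928088016208488669626574594657850169332258664060950769728371751140492597165704241598187485176161089532777463739433500589354410036015026114158525451926447274535352623151393954381596892932698715077374539037888293712254951209306789776324557878328568159011627868235069654046754696097916921137592098772598731172676915525784014789336437304894860618806567783422795395918268659973450383140643365137857814764883288547235804263263664155809385960685470170592744122160602262256610298569548736735945982671199093297458919310545065687820812282871217423891530765934161966824877984715651832379250131080465229432512673074148784299723549573080162238122090413675918814365336410527741401627510063923211647800989127645549693417628839667561131914149504389104008955465771225562462323073383533473859536147945374542463361108677440938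959622948059466202140878852769578553545981780588031099762978901125102133869474894307194766673409935846125457532858273820803412195086377697235001773391609371233163452028190163927704862092815650352736403175378959558523263083760064415001496507298821036789283047951421420469696351420905483950492802409747987109754347656909373342108646568753078908082098278636071904228849077463033623744671014971031905387203434593090934671958012777935553101250841241901873106964778764548616113708697664048786957309843271941015232630840192244996088606167104495665586931781074970243392451373993740680658144994249732444164555768646413268978128669694341494942975974566687861664874700280077416387116531254641832507503095174278809513279776661806038622531172884729006499896312146964338215512578601849880445435717086839675869781369500386178368789707291156667929264482937008754941016453157435426429179727539264662681205994267066940615812776413963800306245687875448278367707974913767212359346549543101465773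533646369056029094306533166137032803051139483440148608815236375105469887959308344105972356869746419530590870147111027731249219608122786321330147757351030735685602317457054829538430527981467089556898700553998700603142709301538753533382478948950447893158687843215555196354114244575808440604318037735304885739736470760071746881671197564536043245372216678774086476399740803968374102474640972747788630947718587713442625857815479130946214035859190788402809102884528485832467839368528567823096755292286394765621123383094635219353484773888087876329379870950508128251918758255404126161419667996917425738750704098981113002272261421973445632283387626189088573563429003107132678911589137816148666907216185091333231394000805212890939846535048820953455956056260881471330587508663626883486396767341417011849789507729558265930568179302285634899643976423384360926624585567437935522928035269993421934553588578975203041329285166913893495837377493522537904313096587853038916320997875910783919731980952937336692483628767402278061529825591571318532580089482959537523915485044592426057013546141410193529436152210129827538790795854172144754688025526839334482373828525734934508621813983238306283538452035575786599753026325866100548721784651776)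

noncomputable def rc12 : Nat := (nat_lit 29771065598053181515649972132262210944333837734434588261606855522914730461128303464897942300993940168889403229571928517072333395426322302650446849804168926536752640949651092990971719214089150720284842570672260406148571662671007551041498966723042821501396365965760462741011948991291510255441130795749300355523917334813613627009045992499909636810269470600741239131864843306036455864665977806657782597138890214728679742950847395265873609611633369542381442996578677716698485657704229397074847620906751553814107840623432452792193667975316251479220549467017353879715264245028528406239753053994295340900111150768375251998855013941328394936468459420895958268356697018240503567629397026944246595393858351414398170183791534553987394861841460255487326806803947017840893084828531946820327810843405980992395103356640482755031560874276000523703790715460631879229307966092244149617442523126943032206136449573056896355486804664330154908581335202573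327362095348827977181250855695224027683037782835919415499241525657057406921885801060617414847863708024517265430102762810163002386213315547959713984808920848438604926710940488637804393355583727639389883491353655987055659782484783980734681326523828892858905770408522755293089476254607223160326901680711398342939082285813825604009574693059190024237715038089010412307963467960157974825703618323643837868916087964191299049681274849445297320080305534593564050246617821699876543794178622670049416460572290921165182903258709143582259010640914083623687488865047344872264269803183321016905650132583983681743973513671279824639543993448269490411840957498047241002576688105846708286677674379885151646914839569166325825398939803101094454638853158190456099726530570667460161638005144875875852638161217611827261567080113893830965420220404403361250892890857647740105617345214056240805035946824179937330439461378703950125885268201258453931866519826801067339338518397755510972529176023498270313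746493328488825070316301348049397913650667965756619774279902458082852177205207861840492911190340808321929239784530207371615795190172613621969917165147571245803508207245811647067357324335054487373119756314996187676570277911987026995785895922412156204104999678629861594435105925059487627184553496475667101304568434840217846534627542347966559698772555718850297742251155393163142074645522219066172052298412754210305570059457293801376468740756692214308136974040179756147054876816954050556448746097218354729346395045221217302215152400861936298915055172097927149959561430016972269117378925800644499869021344669150987300344376045194223051518845575615707547782478108289942842519884935111448974258571276086771518737004950812000782926949054122207363418263284007296311208961158869482839090317501477071423875116329894418270566326432288516766878968320255153621074589142412755521377546426581657148224203555186573837785137686716958136462621148222080726563124477093948510814899328986549454092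587457598358250840567048954611491638106920333864105286431452439145908446572650511204725598033703266097593639261604649387387954804208638926077302412873590609917632954915505980209638343112468781930583868456932721508769313057120395281581823362835536361900044148714116966393495069063401670073464213292438379797396443817316429504215419239831257334036134054596749668462765722597497618679335754035039100282415271592086586555687916934856567062073142102384725485068846013087863952968601393812210162961275409966531741606342918825744270669697325455531218725949172659714470350500080999875908004898792690943417066450007667332146432015436792095615483233706146757271589353147472360603208027817283640300392842295625553186864303545088603584077176049382786527804262619229536104696069887746848446102198075163746380536875031325813093763812662691153644063077663506295020750139374104088437111116454331804900872494807356850517939846217318139704603512107997859502727915589403954535944780209310745123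787651225681620247757987019878364463466928037121139593010657937622333719565483642417515657287136704510159345285264095111629455683432701358780228097325652599356285976028310365481511033474310147486717111964723503832187958767888429828431251210649032523128353094921614528207437651650504299022823577748631419187494732148920719885788144508895842191737311509256848111656421759786821904911784099957386700059681393864653435647783519302113641085514993176677093330738752203900769681762128139998061636175615129931883808970553999526856940942483422270408492773299983206271819591395757005148445922653419619651979637171836292237679236336145772468249950079043801154187221895571319947260531058097090068608629856135212351829460078700232970789796493423204219663157800541011439065065996313094670837408048411924938074863725784121647261386253709601468541315625411423508599573491836180373235898682784973824761106086642294357547426529983657324916148559772393315399658956473502330639028571198025859912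244225565145630422132701494336159410293886608474477415657938618356837184768173626834151305141831990497028210029482780495812176854611686902538385933283462351758123063997653202185259606382551034730983936412629652503511959452666753187640566781513342796970305081476508349185980827184684060194468751144714709080506777452376190680323930890110783613010209147933706719155074885296946854355009877298607612294115862813153764541467096359543290593494468440488927023743626485844564894343040011343149493278352762681498438174727937082635407233029702947801242807809900126063919023229017031979420189540432522839820194681528917191228787601191234560564427414700570774826724126701377986798446114601726780694989662956847173604038345049379546998926015552430003797725241611912905068471912435779106595811982453294875354219045451946187831379865977542842157283607340271018018227323045246715911475747453599952479898259705193835484083700898617236090515474561765880683885057651007305848623622328990259710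135549469199626652338617588071797367211401246302500924378366071778540563108454453680597945211564368583739457101371331173659182686954112770076699638374543672521564394310307712220914690741812279012838888117721930950589940768246304091701374157355317425060077123880864014946756613429837981773813347504591174381612674472373569752092369433545087713775017141078816134852072600661650261014587690125254903590859496570807737628704645685388830641538548605822164392147962468775530564527108518563637718458893082308670202147931462158892634301317832183482355167597015146712696102302082413060997478760180602206180092804974271862910376097747636300408404567583724904325722512364236412275554985735224026816138960413239339285434168435299552330056970067328841686731745732899058350187951079564007127465425541222104143259391193710881314175331450084359359387793366616229001050879415851679980735282946055759321604186820056613761671540030053334103676519127272595217175488803979215673345360817245900224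369845955975388302685325498561886255254290157580292502258272378629883663499387370023868441886398645120615417972165553526924337737007469769838088874352489745212209436315864064492163553630450132727167534359946564291919272280089969969523517949791899111639795217060655879456131696577471055878739615748910936723705188135537164846800880910584053661281238222940421547087514797127638502201994336783961892402056817895480133621425242965195365360460753205831128557199647854415425347653853196023969085969329226099910526323585209217371032461485930079437335252161852891941277063252702412318710907868417528525424831479591009010568567500895094369983909868977726741779009378835060532957734664450641810227809981721864844096824185413096126748124074800836577614404638796707468786665737982413414050391813017608004340824240120711001923273528249718924075036814352180565446749282497643813302692350950114027162805237748990045195846012230127173526744813442526472126402962623952380716495156487481415607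541276451631250125896089042113446611998092862230607431222856727988397593931486616692843998709827411133217102982662422603832911588081565716284133031579366259041797432124071159284336064903001566006922406157529807495068404012824727178778694449741928881674333413577208176077123787952333267325702482912876058788739623568350919881223148918419289173284946508576403851217077523688974848403057849404141571984140263220600451607273835190741526595919258081505730322361648555640643433326988472927559559259263768941300321646888975700844036398206836743252013787482455136127936903650596216181135063925879382883858111568709356345467767655480179308847006183879392274356885380134906713977246476625120981494984595875745907240087955739342195661621512741082662568058030613579336855293676309218505549194708655631700476111320789647844513586651554619727438665894506540057525043011218231097571656631537816045120246433101998176392917709696420234850767487975473956426411814952152034656565436164809170519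195348205242525676950669984157135357379944939397676902000524267278988443419939471786036355788764914393486466631369615870117179541720521464445972938865752959867912199470325743124427662870315327432453117910021786514163046648082984499686509284103016074719764783427592644269619048809255831996344336294960848660297383168766566048966043758248072152282545725442048655563649167178317458944224316673340185731733025227085596295378406095445360804044870884972958450046646722341675119830437695234360266185415820200526987149150666466142553307811051637733935409444366453352240341064915541907908800039574421516199134765594725612503624307401775916796419515163806072280728563892074808549942139780931958064736385724088154977482702661045827837748772504737940988542301888081035507877921891401768972303013693727165144652036455563963302500105180430735903087555335287056446546952383635485174365119335322703155877753655620903876429002594625226262075212268077391321873907450138143926737112512062598490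360115914601909839382386278266070467621180304436190118969646448454200421430822882949748558102847416813604490865861556591041857050063231716168468076722306942066524297497708650892541998499082482626810964375633435302050794814808482841630481212459060592730991011562602938670225929877034940988159658326131263572457958912692466197272896241181798089055370899468484655160717147360117615827748803889837509396959441959887975982493201662727560882201579676563217546989353484313210684023761772933872139815686347964552970319736360002045794051892647612955055853659956393702118764007999637175703939029889720756631792327689317576231714708343251785219436968910660725907749433818496949694340038771460854930550780985803134839894763853781190852116295889761780219744878206036284703204302295397648836295661285645149783183279752418749183059775496541997829982271302231958776846605311708863898507375863608631856103662807631111389568078336432148086141697869966325104534546083145023712297276123274366452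960409879094410366941937653774612514030540288179643760516497536834339856727956851419824304796421136381112847967555748468183500871250068463824326689492070171879160085677059354550538147561748763275716397913465806635658135256288217456607408597037555771988393880671287816482492725799446559075794441940676461729914060145757234105582142405185844779481230305336515981557335620205158556417419324779129095149413735029379565335847386165394675685103847664502693063007059867751238450384878821041411878005743262520147125793705604195020594340839074587567272543609334605221597100494500349641899154822974593782202774345939600766765263889229282278540536521368389079682259795764290423851970348658947391607897190115374934640622682577110441654864525032604556565550125854130982771845239182444558471912314891484729080726877081239903183217152197317307701864123738668739126374540400022662376723898725762545535578118357039934625354966559596888435786107007907593352771810380746455867138748514472550359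457112555422585160083035027988788213582185151915214822210743847777837481586969397261571527896572309698820083359756402905989624762403276855981130112198706089888332585446119171803463829823859319062836577423049860571637328716217555794216309693592384733834070318712974257852626924041498723376061097793392422461114536910290099788138678733902086128505916119608343362574703103511334636985912854873804413921236031545020456974054339471727042869709851320138674428584970252148510784848289981774960648890146824766674009826873266404590846788106530946809354699440005919197285233084147414356249281313418747730223668790455934044210148897493774243742094607567124459192664272380940369600929981081696537886012381614076353364844831772160728857070655722419356410004134507472380006742658164116375511465189400458138961269091552826437179345666756665487102129187931626691120479094196243582945086387256125712501170468828981935181882501868442782721186334803018458179959178809232376870400185602776291651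111627080379147515174960840909540443945169164657667054149034505033609390296648839847083638605937721142210429418392524139809791824488384289106796401583619828181639963233545921256041706586594857385439161377430322312824127232743482781805081253810059544775638959362607158778659145783481591031932712606537631684945400826181646817703937355084167721309006301624181353190754696419176548236298387608054787720112924027106468262307472977715501891853534384986247775145394537548584819804906327475579187226818953727074474210940976617654534735666066038916255229981989425554519812107352499517879350670667850479971529402655698546861551457151146196747122866282699044371896940013339820681434551908967762642059770514817677168752847426292412515368005293162897739804162747385831540582562125895495558515237222049338219366834147097498035743190396741005195587812296661735138833759021088809084528301014022229431381636977005296653130541747806450311402066532334355585002381239062404751598888310489543739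444983425897689498952504670371753099991171001898048005453160609317768759436572802975303908052731591453290529969230877544475202677864163028551233391255635746555320400097084438638972844626757192737427190974659322834270238916703932249976129969921066034802366742129240146112708167370828371153617394650932115432287502531710451840074711834900705248066245095411827514788060403359277357505603391914454307834538787084441510745186125035577802438626865176285112640835884531662425639704920942092942322297520092054645616298895141667306758067496956623421725888875059445627491546459270060525919378290377078955493208863630541440167819440919812720079506114703085042625037441820157497247066682890752166295702377889512437326546848269867666300893155688704866146955460886249431570845520642018518594009127532474562498691150148619787662725006584338256903021962935637919511781899308387555471358647738248608137894799420325263384241756987276259158394892012175723795918385851399785595987241559148866395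231590232378402766221566812835278049859221142776876101632441889831340985664097295960133047684282975832693073094718423812165741607643186146016978492785446134503892587259313856406194370485960739085777860422280838271883685780050758913531308649289046028351371582747167795633981952348214543255250091603824531051549386085629297544290563668518481844724081594148838708472960202965030041736362859592996809764058054809703822262432045862755642122354304196241747672641440614615526171706676916000845389845544369279726547973544977991682200910536516252459445229516465671965537824141896099874959677728169877269497043091865584646567874269518497315602742316910653494550773460288313730749172062756477881548551345489110225812478089884457878796234518124070479319738678200323544196049079981818238621071574858236272716441577817024094734438012340255128363824672875741659888484637953657032756700889101796222817393992794646992134405144989315508266849963750719283326959621746190128330447788532317423015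551774275654225063592838735623952096898209983438616239153291684784838790069663308589498238886449961419838940341682135243841082035011613975596005329210396747237460693905264962252637955850650606307134702994146148806228076117985345114390648926695206760613337694843250640679619004695392007243493025931867656405836056766168536186720971832406490366050664571455241181010075507805774589142416409724784466732815349660467781919360441040777470908829501297032443756652155984757298392821611662138465126693883054059880410016043331399049059885874714695028679840216262677310377355674126511373431073175836840881397691081302485310501270136422186780945083660641794993413952111967049220106937286736559067522236361718901957065551880841363844485247646154837639120231926079197715137363033943873571034317567792500880595041049243391550904565723301714755457835995002196220140124450225986213801014729878917984353587389786136174745811782525888868154644305693448336999504561178733226746824993313901476100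619165377170204567719185359872052371771558454691382048095561503031138803698383177266886911817123802890159577459031742724157220153112377655282375249281832459130668307850760377668705848768717745815901750732536029153943816386765690097500937787616601227261600493199277327458780122485172301797920661453078506319835260458407443410411092540527372351695201010958502201138061300818641439429190612005267630687369101557179976449907241868364441072785103888250395823934302680946738409469011071356853186155286975242473493184873952418802817601660043351897184790293308270547139049590517836654423118678400194559706781663500808130957474588653235683333348880455653238731503397161810081612545831938166314858484183345210618078943466589920492342996143432589850568979136219694839592103905346792557264525913573127304024904815215745035847454227805984699530652892619803967061828714394870329951466397917872780866418281587121516218469056763198797370165651505066922830316706464147137090136965856957512881721200412268163172788202728231401217615427490115832494125429129650650217631708586792984713108322724332905778623546407764771610804147519447374013111614162778075417323420308725756338359056586037031534473576776836122892278307285057804233793863680)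

noncomputable def rc13 : Nat := (nat_lit 29840442855892103019500595348654297184518925940866378557882198256582850093041589162254303641370727522001566100577336791010824692415116351545188891241393171860661116743426285275069396247335407628024571331345437864137418606507787155615428449066548480147823862490601795489127289572426680768122080710291512652544613590961677711882066846559695097989925562326545063897124094484687995475224012119472983937182283509566940155429203392187205911350284952729018736455525171031519120634558056787902436523977880423043536574046220148196955526452810791273509062071431144551226679797112426731299849174370696769077292067272978487999646930117243475655023002710733981627858536119977834688576280349176186157872101139460968974648816087571606667342295058611011494629102827172478928352476214709271722777570125407761147311799162336557989561984009369220462369648732566692044289382879043954919766691689081522389915050362297004598199704375360896352163577231955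938379950769263527315664933073516326025820875883682332092261242748482587069839483071511296325448837420513223243735574609453361347028193273785905186480888663758162294114126435941897986173621318343531231766198428351227930673828072282941190405110752161506626486084756855109954943916156824215632617525817864396576092929662024759980284226255719574659192143937595607887900122410419343365178316083653197910787624000611115360759590423790060477540079736207797236773418508480628627685449511430972185965158800112225915422600115665904205137272223278997032343718424323495263192865490068515912561484096010133219979950432764099670092152274714788705891547758273743361114704469069023661646450477607272999035742715100806494062257627291819007328243124984691953480241641843400291327626582366050511078465476952349460946121335276551694966197882124183554946026583923535677673526028588197436991665859253209339115442893272608866669525509330517123023262957454055222757860219509565846470261688563434674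204697725325512519756287718382711119284611292384756685942210455001033765131390305422847296252654969445923475274557874027682383371520621228139250410570824769222685366362311654430689600240967889799583357967602761105640247936388455209509075994134594264928223174009359264793947097395831009006916070266730951071273792157526328773401214095230080906043168024256648042939074976450542086120431394768113282511216358110206420838456333794841215922356242113866989404672030715456678256865267801571634249797784413034069800727814837271056594972499601290631883092357157962984176060338273529348090856834814461701327205950616967749306012610707687028363513282536396333620631442473878905734726253463863906384225663001550974367860358729172190915792234586787772559443077985607162200559978779018058064139859338599112550801707159901149948172216124839636829110708709289675999499066930984679129188812706862570430096997469133690261348034031523103219021443223074729469294809303839092448318794778520039765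927050623251037286552741911446627458528134946238285473738506758306204136847008236853669124963116757156388231810925049912980471815496631512557387976678784011116465710995127287893844496378766141378292923907823552079760415073791934145721109822385535340584484094504533787230576650402966786138030130624325383488806047014000254718695933140923954968470578673432941019021564880303380762334378747012849729928526685392578743532183989975269033162499483486716329391629779469685348382046846986723993464758449752524642926543868613634267616200168871414054220041388235674675145326006645135899529488656015165548892729604472246694976261995304759114506018530499314269014326930659064440152412111960837890395151486064415228624604103603411602223411965989663320410610895176311940170597941285749401928490510525048495307679274054503044498560738947758137431079869786328269047284133021701964583000159267165719784142328607746885026394066862422393265007812611089471250469522429503275751097077915112702230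572229572421908277208557332233119136136024846456252591884197016842461182431586103122076364943501307028264047259002700329541507779646675235301064501362087507867763244258693331388992684313669527982623108638830001435009997938632285281540332045543504198903288494809190246848275681478312065052522675547169189689324015013049424576639271423442965405814010860728274830137479852115226139878643282720666760576322796949999634492482664437724560685181607217323714993190503435952208639219736917280397358461825412268015637976955897807403376662084660616508715542614726058438565060330752730874347327611761803705047163148934310941114665982649597577615184181175429916278103994577543810241514299935033556626750966814985460859240982027432000902024171894055118356220096731560789418343711400978990336351747199950962341754875066386476977368046298791782132198436681237498682266855104381049895605931317855641874055616792439184460470194817522679535269072000665728772015051981442763793979698436906234567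227826947430493791370489437298029798606672036960700312338867354508788110234281527480351990354257187119622430678726599034208121959915248582305927451001309446830332875729439519372836973432882689404825795957752996050951058132919943001058008583943741393466806269018932456154625384923441190943686627457490855424770648750719847260188073676419715781789538144366948574036471432308631190062148294323790348235268280824167057205254842359030717964646510665265723062486417861884718229341421047378384470068195563365718918547816195208949939543133136933319596021207260998862478400988156834710522936192757710438463216444069041780865173284417952624508685239188559718562707430177572586400130163914051117777422892607115633881287514317808783788934447579681128523792799839483072724997651541508388787451928816216044147015987364342298781883843075204239435785059269766985802478529885072865356968977759775795007995958541559900838157412597475565162961589698134919152381429751101602612360759541050138058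011809920491998025187664338536300658729552833164388304961216742382040047221353122532030511454935856789008002472959514699610562071827216870122447637452036898210392150421124768470133797847488930460597268003110161366253386417901420580103280397518377759419111861792805170294763049220974164169514917337799326692772086232594978358966606694903710989748126442018978073131882943813980107163405509684673486713656656061733061037400193295114173951866552327682679790467750379071123021552793202399501166001525599471805626867716719771089489748376160781949239932392382484403325010520829911876350918950409905384650478823692640764862106886764172278401555161474858350731747658062374840361697231210755875419137148544834241701763338475387685684634784125300442636306633274333534153883806164494476204525654820092999478984761021058798465331979597034131478669621022598286636894392268790930344728379909306537950568013673460353932452386887430243168516197364135546853792581706899522161268774061856394649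746331195434613473657963857043819525291398252482929179181264682680113354642583918965299129943573844020508412868043878520662564259045408459120197411411461717213884872393627792760658210906484993330909453399937030609037778445915482710329878425466035948028373427702895619863924183992286123030220380923463522830717999133183015711038660211085503049260892429295332185137206163683919885241522683532278817579207399407214460959445445126663317087129660291972469939430499031442346681369689239111219257291929264904900836228123527500132388299722813172271509252290274760102576479171290717043164941764139379070326800648934433408646936789069248313643939450202259556368275150390053702436328773943399938209992832926451358265870982717051449016874555887335535226352315351168236081253022523084737851355728116493298590030611775589626728323011948092866919944700152948196132646470904129492699816520207659486178509086681697933531493064827057610908446131425883663820259055762862436847299566564245628600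241918497733836408041840046754914587074685883181730186447337664147947847034696492336034492326052224423520823496506230467274471240522449115554266071975778626860154335953126058969711904543899215770969906197870782549179168037763550800719058138177081644915872349823064721596745314292431840369684255440695911926056212965984453535062452178471253589660512389732488480953347798129639348692374880573242520232862452957540653058658621598636335511837707954240890310901580123917887587326102903880351617580752176562717812424873148463783137202072601816474382054889506311880954218909289111184130368774005925854328287578861743667739073213137897750860976802185324532178718410349312396453542227568231837951868312876505927523695417511454927127297932814846824801057329780328399638007821288888219828065680667505991469184267689201742012137734749935998713569587984675310258149952857781434265499038792635402726898484224678442321894786904937603857460319852393889816156434609904243372294100692495463674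335178380506256385564307883810280143949507071869209507129540342546423615884148122783204527862818656555143852703346017053547549184610992689013569894985520651327677483321863224953052754009461194210042840477182708167562923527377510960575209585579236593737862981241454726240447316526453726490286370292248958372602231083283560325197942929385118446395009587130287344841555932861956454190655320266451928334392190829620193985883935746303922329540393514910269098417768580158620488107981624415274151544396891331169308362325651367687448711482585024035475352854525560536920741166952540216908352237187158695811625765799642526275099412164461580262321587332836389870816245883454076169567552912121850860659158689171705246637012339067747193684893584633646941667487002907532106008861837088012176504570351674481935501140404017911979178941274440871516883470545371510166316332924913147854199518395370872369540985773308296252272543935890407670886333734552550649057154775853300323845221532846871322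173634361795162609788093994832780601359193138556495244879126641070442465367417628324726845290802927994319918733421272151280191825723348474032758505613286713336886341988732182467860727618571928467697624377996800465281474112380573535934448361198148273926403759399576072924193886159662987098788929397845110138839088468437116838692595031602323048586436084383429113848978776089579859607791991855244564987231047686208426671550847646481193304032907013514909948493585615857548590830814564497004677881360685554228051771050943804202540222304169724049752413484506755726355852594854742163694275723424476860129603940013715219805837539231794567394281212812636542294094334674976592092223419796257023745136372420657422741971138299421628871735901582718652661251834178022385056450127882822107672234417407915271820412175876366348900852941427806347228947631727793122254472144607006101693264979322968498348078559373056199067583965830583139795201235254232514293937536993900606644877385935756770471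282671373180808837734366102728975447146299405124796266588241842543883020241167312762502370066529235822753296506517502536843507798007790416531988517441108358413993208209053497576829875516042878502497751537883514814738847154659118616659681119909325569027298626392297332060384682159691007817325390052692023640895090289461879787745564383484468171515016940895206354367687430794305971468270866083561725167704728355086783752298657235773406328544124563629165020303437896164393138273901896667139641198359478365510632745232222656550990237294216083324729214718311771197761902075924641516442154815066603031901060608653270451939778354488378541213834988208522801935585801863104916468346291364425514565233870399965348792807215560173487730425405129573614117746714830875719791030022774737643943798150819817922636176670439871700373341024021242729251543594953878819565154672804521231340985391136781377719739385658371536701194063812125816353195094370317096789712817295029883582264242233540440221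389371227268008492985759509359545138918971923020995347578845287486806048334360414886200959205514125786779694469866241029788805650891245302873318387936704597616298185907038307856150066153106740538640132608827548954943807254849058065004363789518738169428293661330282711064954567305533809112816605504579689232766255087972266387691360472673001390000636954600731859638500088324218540364858952265470216352660517729062082568860119643368393320924859929319166155403836535691533746954406254378938571332756733870852406727306400649511551028808651225490096374288588631528444727996485968863111705951042416729225894705189699751314821846867216126308148962460900318602839370918838405833469858826149509433433104020430343942121174679374640502788053618771649314219611129338535352534943987464172708410831596739295622048284599833921233417400463369902662941011571537637145796105357803065409629433255983573342324782670213162213304788840486931918702967939490975644598341123384664829905673222294778626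694530513174474883671541870998686720934132192620867838040336346256615332869761042132564534081350863596306489164300518151461490836993358125665006317893437133293521817882005451965957552116584072008833381714627871888706960777647862874896005353153993564420284205722529475658138121258697404126288119571460713247101280916877865895152482431872983108778690403299313011651919507542547705325416332328373059355634769699656801432696046475756098751242012944382359338042894246156398614666208842693726916224341800938344449410332590720101805769736813381540116586312984800867023359584963361264346455643633586746088111765753705889160000952063310057360842014169462350538285638476992605310589440003803750733745975416361991905725127110394874179255126871269717067488539419763051804227026376515762992596345873361316187340362578625530921207128059736460878401299937312001306997867923067794598265986405554489345797533183749349777424588714060267707325132082448963392087451869865241472098761353398534333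482827243503656306905153562890943774985009584924060419752121666498784014781892033166728038389215219224911834851812745261159529318500018077659555383897919508827840294689263871609511381578331361699191549362068378205420238897250506775259587546426523405159430030094501117914964178957825952208983005035222684951890893041193989446643920004259294312176348803161306531124224553518515583077043132701188695494786749154149630888796761712843219696301535537864211083206960265302490917119540827737191340803397226901234224088286823154134167187652812432570694378329024705049740128045781000491429736492370821248736338881548515037665276337336539239181975617427293271593370735593998042283450577626664798520399944107566925297152529216282904724391685448936678883860787279615893606303544159781201471774293657066574321253869166353670881286402668196837339605877623615348004486180967963483915783824633503124452597010366525921870117617808583055331315061445446257881226798835752411710405126581178800912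868023367244316870515586626080379796236521052007775156092607823022876720817744043475342552686588879921517592531480385475557186296860473974452608002843448155378914835743952091636533020126526042927076161764504227420055156267297058625057261086810098460713508824431034040470488047902090791675213389982704218715329642405701296819394130817704122713169522823388854033921594125944872635356619575024170159636430258995757304724278485813758796620835712695140754614435113311739998507987231620118963596338919883469844286872559002312355560685319722583014648580115502704719796267170530438459929186046866511069361600184420818497378123821268520227193722277832522002323179582629140748984578379525987364302153760996019028372127170844603457835366159289539558563775228399103633806291044356222958690193982646668465324054870240229679861914716631797013253970838900956475346691904303650472043577055622915211630264741955836365398721250736237246806463023631642060677219153385186413255992365305678765581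933488168624814194555398522522548609466876999360372174259478992107133017708045135623273989035424973236999981011743026723534936525386384454314603333493166016964829913692498815852388151652194833000991458410050219234932762266797874906571589218788461438335367193144487056991838815913189595023996239638592630273712872400345201660043586243834182128686008622448449820755243908594500744489423963121741052760811988754301692858854233794388328091570413749618874380996806265361108631867900793094586722575688043096204196117322451867588646358560139232495156976483218688644686232102831155937056744732697774188673302683960845563422952594920744153594530861953006418263860517415799738175026371567603381510571461517527939019311640205920331250262312827664253667804279365809351250842095285086550748062910154359373283194718739201535372225973081264034509867063607081809050850935390279146261934141121130450872676230430644583438932693937474107648485439737964837953905825942419717818217536266424361216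953000073192184654910881747208966846097903743413555326061789292348845069042858956236878007318427140804313393599932310920743910335073368667852969039833138312748399852149103380173824819081874782320439842744285081519532236286693163262049148493248294946694860815805826779547723546614773460426552430988473651671555901376543549656293745370548566268679281540301369498109423286493166543289261983183249563240902764021831133000618756636413519614401412246557565696798319180374706531964868918851411925889286559384137952753977496410116414882851876006881607953311277423904938314060033772582157004062260642222385394416683773655602201410389035153250171818897538697707139441027258543086025315917325884377474247186094142065410277705059449559713587539664565523911129540476822245838724535779894699335427953715593631012050500525276359740220745352543724809609214602952152039338927513161815934611459681572147830310689826656252879597082522484661295373092389374149116443397351204019715424386707282122557555861302804873532418260259263445960815665607800800771668295658332148348336656828236461275786491888690384782973553576349512128033433552839163794242650878252484906542039340166243171032840377705569071307727425319602162833419847346411693670400)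

noncomputable def rc14 : Nat := (nat_lit 29909304261111266786082137840454920426775472689682341536747922060090602457606693464558566618055661749256955997540110785972232125830499892531910817462992437729278517202154376662626495911316673623511117030794865051604506074479321768210185505914041253272693872375342266607389711059499271611904092416593575394376117871543552512348177553994740336955380833335072319685344240777773362037048312693727990156780666384070666024471296586528039430187710961330050074167031512795503035778658625845303442015446642533071844751373500460878868416117113502543042418965366490783050741980845868120424491175996419167924522019082456905769744559518070464201032343594748839304722428426569237044875070157612393524151350338284547436346015685355877031828064545830249719738491215672826735790361083991068094381039670504144987594715555575213637208576046998387791822447821034194172975866366812669386150038214800962833176714526785602752629361041515651091164225704317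470832970845238839424587622098364489122328786415139131152358533137600772777255322245899079166740067787429337618984812258280154168160150682887358326104298242141282633534506933995851261549263703243447414105806248200398551195210016911867386790704876938235112556683304122071195304492604169983202301656467628255160926232623006547510553375321145486198454712661486604268222593785943514496526972282004172671729041238228991242152553179467366104670942198846178222588583925938727090902634329170280064823343334410690724396797903970957321280443465446507166573717920464262526408912093714213393332278839306007368937986080454461465461051543000686803726112551736074433987002018726326981528261098575133034803689851917997100002239602894892613749519422409435304435827488731060167091316930139080609778895135672388003345941295998435983120215879416375609509402886478815775424508945845700217723059493490278636641998742295051931310972591891920194493885069624136898563535159081668251557049143411012611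374443153510048132919631612875302617623604953757170788260930564286594161078890767888393147622252649481228787166765765095921504897282313511369405719378604712859834867871478499389095206175156452846233856918029011820847208216584803403103223523351293290747640016924587445478299662503526840840651959577069745657259430519014416907199399575091745085577321777510808473623210461392244442402171133747571251931359256418132906560448878766357083907721800486162079767091492993412053370335855801714275392256901936614562914466530269129496792057422267441535983276858437076291406463384219812222741174300639719306106062527026608747486685464570643607853856411781031240879983898939603633800515768797884384237695808864694187440466651101579622717266339846918902651985479758405507265581152112887908863162863169800753753839900026695713781208578125193790380334758832244571691905784001921475377535432961851182767628138772876113705049006148657169576723073393903155244460537381669758436620794189865938575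006132071006083248698117807553118120810869437325324223628021221273216033974007051319237498658697253973624908278164090540821544430594194274150643898820986814768355957659371269407755615763519959507515677359886500341263779208304880823981149862011128890353542425114402533962230972549449512554457959604400269303616411506430419802821848272521459625496096943483161714300429070831868741894126275408506510423741694559257765248816956346735869851868092708202179220716984985349429812225395894255265172780066305525986572170568473738556536166444419606128072213358808206274162134454877715580446686021744191372272462067272942577689046161780279325232099458280918774433147322709571253322255977226964003758657051485844187481742783398991027448178515990296579087002540042179151811254032019401800778693662352383394184680202954316823958819055763541596697198889307988161926362414602292050754751044730401462658597883613948001667662476266573199704524981989543520539474345110858509981422439201045363572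206255417513748700053895774213100510404499933641585214321382449929753740428988578950219445692026011646086154230349697944498004914946762579593815334802711711782562465110038708128739153766275005625317570696768553679661416984927155538759507067092401687582442422443983707264976287423155076534762400122203072416640845539141537438953553538093001329285951280689912586553946007316478413260412968186687578724507948434396938284488744060639995828332648949582552830810934068865218528166024457258830151941111674901743327131554659047937758401397439026035327016282909100383014079321510347166607213661269537121518322632421927076911637359217044399965047432114069227541887086728862865654087633501473786224762766762028598902437649418629050579630083780245585344402543668839769121064513731416073699512998202214272859057765670970775897282176811247291250601606595401476743597513150888366701289383300779408184501165760617428106145013336251872227391598313381492604504933131357695746794146702254535055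177381587457457427904180504432289378835643675919171993924091760875494965230998303466684480816536244068587386274914796423255412394193984885743180721128004062911151235716969028985321428130669008098505460741151198942789453273245890548026064699874610998136651068480036017038825824667174568539510549326246475272882833711340823736990602264307318789197832742477382156374367077476268868690128348088525078701815007551329362356626196698628224213797894154071908869091632032016560329794438318382592373078717984181463396209665422290927541011380758719822168536326751289736043440266710002970843297958274567439318876721621425403652976698678928201331254672547334812096510190729744585829141100971704088103466955470728160847371821356217516410462701212495266847455733410954918177105313773586901177763278952182322717482666511406347056868459429709275496066817664829846605694479278013298548201380966945953691150147446750113678162914030250520100845136827099756152432858204485888002780052393053163486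691630020201600703701112109160789032975752172898570427318881934214583469133072394453126975084619142684707643761464476641195921598308251466384081876086901386898199195738914936333106500044631691796139452302396879663943965366983467733438174761668321056816631038453379152312587724867610150220250238396977087653097516467393971569497618930875683843603120700305023817245817690146472216105860592731920945302600411092889972447652645650563543980962710246485544064961314683775465361083645147726259382662734997613007034263889567402935538298071063570111636568076818751088071772908188468492239038283875346666670928343492240957470149050023872113573866892065798613200384511513399861736875281073759268052170034982142014382363557894260116955879998359154033103755580591583912792256150206066632569189772881510974661895102359187120435877000133117096716148879169994193500881012464591312951108420149089910577350135003165891301219136099231004931813854525698690392118229287253222647636596932794119999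547592401894757145649641323003829040133202675839165602989917260010014643756249320751121079440279895128521516846477948789479111590891375789392481009772622833720437415023522462441193535413699330805404372766443997210568486591159389045146908451548783805417762435932704279609955452079950325783723058814941912765311154144207979863331405285403230774165336170656781777985324226853668549208478741380814244581984824690062643724758200910446990549237167523821396439384553628602633162552763827781725581436698798070348619675260476689342214579288210449331084419493514834034368983853204378040833032853971029467960393875829951991334049823348910934166130460065709788226900877259326979418338634984098591798377327315227085400520935899792167903726890825493137370492679388630901127626681553468168203676878834074859609081953124888582713575245258974196100605071358716896383768545707992870739525953467507685707777177112935575942931985199537027881370454391466747135776183134878307804282872708510859459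400225850302962669406263637232741964834602166880153335274286225261580106562492010283343518145371606313049296949981234609822937967258045113532589876084530725152264203912063952391243530807811885475103758957158023472371799116924590694870518243503898052754588485408437760614022055655261404651816987018622349031038297282255185056373652682577442809841865481095940286836660986946718798092712174527883823427852331995057072659593342933437516043594568192380779935688856094673110843741001487805836919868987326053827866038176906931497504813731164525314975519523163089833353519346279595233981173348175560363706029542959221288777107160171022275712063049414007073894275651720497203242685760768171882399822122619683423827261990412755696521918633165986122383143479924689608964219891104349982994587310181038943500518962618931788341387413436944099439091079382029249970803612028918056042951492479695482674648570953100801474251490463319522594264240819899533671248259840301048454251595991952959439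433754828796513897539358925106945378486492936618474121580715547810237958513905977479562119613660402531565396700526151627370998078721929007861008130532273998317919165344361181175049843952117236988885247240668579493388746887554276603972926515837327543311368692055390062278516326779167635555894380676482818399740868073078538609499157831361793127976300358230722249411115888731518151537522857929513569188229925350059610974162202302229388528579127833453377760657408809902653600155610595218026629966092164476017824811615907069594172016103991630222869496128229370929412065079540318615918250833347068752495401734712098363813797999716714243797434154928094700684002548455870528245500236832104228193960086845457645968367276982775319095217136837976248975736480463146166921482816408595258938283723871292915824620442870349228585157851380823831792999867995053598061763397185480823476263868617432487316646079950808224223327713352448913906189050594277917822386663891691452287051343416180368074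281913626795052225595262009213605893440309782012247777362300256015300298238550766165354452028126593055016044016875199950366680621381807120571682595752524541572805190267166760588740953433922729429833173530650125999097901240133036205577105988242202385648626093453386367865938942870284022835612682505374458864440234936723374981655065394450147805674331741556385154148134423182647289667983540592303672211996946506593458949504811138105175873370215535189938353638675881663861732995394560433865823317412888958897603733365969078506150733139174344063839728729569824371093977280059257645840125713100595801329834959869724048709366695200990358694578004897901550203159280345327263401224263970299181764278723261659536077095346361695622092063694901882767731632815484381468629626608538773932193051695815915818536471691048045290537280345965955120175909102715926707907472445392677984912435221206177007989159941879543726929386926598074722728349550114604404288884642248848497963749283429379818151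875525744047378405724715929505830043693171559958538723274119056255045532735451042914850946797005117223052496233312513914318694926806217286056668570428386510671821822373327795675793918132793399085178739052345049023146838589535074448738830169448730907071233793777601414502368907629953104802899828112840853463302196924155664923665887020345305326603241617313556621990797679241041592786080899522878403897464173360019638426486909720866572723288992742399560309043406350593991172131374824108795815600509265338211317043687466118485298515526691703665819698535811851483930993633495001504765986034328968260644672605242226753064388203042659470025105831606104014140806065077438496011607961568209167311710295754162560923432883476129663559981597107707256509516516421689736388794041948322059018353787719809453412241370497473349451896467623383165457043816820458331522870124602807462885313713173352893300472111899227077778348493964203997956010558003940755389756219701211076904628704290067182097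276331985529369572845044730352549083502884323403131047273157796064881283673835898531400159825196008557073641754801508570675754099403391545087728176159260582646856993985950947944485424866227215450951038924740853273325038794593097132128385089129506696403726383199232289308003445665151735489710597637075914884952069906793147986413862948862321321584601532093151085608800857571999762284489808792054655677215764865159097913581226793372191005358478838314719302277728450413708386246284040097600349943473904419063007977177825462113394257147294419254884066218140349763669892598249032227599212781391323295222551856462487539042464552742389659232616735487645506053050382304034882837828147398381658374386733541721973384993316938895151626221362421223173726838043938013194647646260249390234285215439709833659970061332441477490178563412955203534536934297557902320755836472847115919624796475332007231012690408061184512464118500712820011890646325953550924714178530009740372630327174178741147420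483371697777951858660861389085154488684458110052792180245909975504132790104239627092825836870253388205223034544305652356994339161387452098222943355955898084968989126945614978765918494364994141586459433906277618513220082737803872466583194836414625467527903627618979068233888430631175550644676897767088904071833705593791083523988925467686814119085902142154768286054024651681409169872554461600626693698096752047149058375071244513978365361332526256235340792040705703047201960075855141116833892639807334742415128744119303089991709262834714886106583143050592774009963203565392313270121349141764333089524312956642821780352137806936055668681931786588391400385319713444853640570862294937070472872431163291173224523529511525683967466604018320119120620605356125676560443989617574307908230601375296428209595997584770097901382730326180857583545578397191798404768740819120443212756148306547667880538663555364292735570515896582019765115508507542596658436099444511170387077854443796239614565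366925614796217088284974363170144098148801654057912943118237943844581104660943654695963534730582170004165260019496924098213868728801048663304882396892245127392961345075345664615482021666884107173088856699765563546578628372103366393712569214068283917709820130908107298895293522009722773436057849771292061347152078620155861725423554401882480815513329494199397344546943137006188681844347669827145188489979936517861145166191051466219186688298693771692223551270906022185384740675797516927753097184995662370812122550534744545845303988590119326533186365813862311462915111066767824738011512969199347156324171607885361402961497585945669133121886587427491834379671340912265950844855502847737755687363386631790007879912319106298059766541733503637200044137383522691178186061699688468748491949877880081967034129095163062195699865420336040944484771977871582596326167818922444053347049909171832298385787919712990159918317620689101988992706478245678698530100870494753121197408410814428079163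974194011336189559150487014022541626487121186758714652539530028264738839700730694951732356405687623079689621968950728655455364486837792997909363129967009373927474422909007192708364133815784986764731891840847518648809499084974498518723561696042347856319083714107024110425645118656475581567001863105160133013812869213226767742675541267789683239203098030246321287187254330069182685924804759337941733996940751106057025452471930119117757224859349478369072324019894653986571398857244282331707178905250609063322017587353673957160916809215230671211800641923670840450960177891284827590321428036151242073683473572423840933595055262539177916273444108339294707691824421178562088783872769488299284258969909178404688274687222146333389415109661508214687288581707160490076776345436692977166338383420054125671533817673866436518252865663837974810006572064712565815223117987538701311314188578260240072403806317918419733963446342233593712822406928169819737132684396292157795429119061249035636659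945631617317035539293032127807021461539540085153933479310451432852741820155712819712248696773437748987381519281587844654086260689022750489288687594893469299054161348453019616913333718049265262581250880237638764673012721580373056341590528295547950594016945850949917857152846987626951438068665284616941368745179410078739496620416831706691019999159125353008502401673033786947292692918131683050202788669395058118558034118229937408856562868931970241737448670955066491037760533973305884174426404746609733417934317970274121884550856864027262729796965836419062068001757570217218359367880014327247437549281644533421663109444304323099042453886903160930491803989444142689055932954232295314628234167043989468720878340517033517933426147307032220457161793600815129296441357146606956369739281411383076931139196131423736423521325504477711956405212140360099795233111480178684421735011256140900596197462883722296546446242852369497118607160495365539278902821897440816309613271746912199722755029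371148599672501349388130972346274742032897799983347158752160248179441266248756294166033368388575250016715780347844718918993154919676539272253249052955588564980066185042658640745215382338350133209629378340639631714170643601913024764428820993430983585218326121112841795271303784958730889563138314414434383273211018065017084489480925344977520594695068093410330335016229596791245347707062817552760859728407731998161930824651270337587913831248244266054353697747699195026482054775481408300682714128420467261928411005160341190661415364732113088470565804629624518841877004966189575893153441651515992176282717831787636791924474328638091240823579112317983480753461732171742874188496359513939209306188596864936292654770925369621883962389913861694302725069946972668427504827470991559439048815480540234028369669635201259398094696730124073652163306675257481677915545971496260028171348666363056110894262843584617635610144031744352900933379475295016170832257799613286581165934294816455160420115275333326763747686884544784138966485633231420524172715761461850693837688273045026031064430791903609776201868119695077277814490315983440307306342723829238365869635514203966684028961788213555234706404113445316957222794543354743503710748409856)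

noncomputable def rc15 : Nat := (nat_lit 29977644150746654089397191733287039258854944547203151309162153806764770322557541117674922655570588864073590846352314519209809692196803859483090236020077086597512133450437582474204120859826829189628896722153325309565892029458875374812002896226125840606496228363091777100509282797347455135676788946371936145880341624559601277490199327628056559232804996225788806843247519378358908821000773806989252152181044424147667682088293169165815512817956312277840160973602168244541104472603354876238716351915933256828754456803902652208190085539014300438367637553221595713810571697092945395943573799875025655850472542010214605731265697474565315029455531798305781768169380667325671935896938918411959193899598765705335644389980492547918948676730319789702975719623084115330854755624074288688232007962530122249846030281179529462877708715238045957240661596822017870424906581779729084595288543220621599206885032723791112606160415299988239361815589629997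275865340664220057029174627466827771183013482870317775710019295498631112372768650290311525014409096306089974319524120313047938104106317531505228290700202582263756292753726507087474799608813024556684956768379280019414019383578508838426699662000259036118771805823123047055624141860837778416360974233334338138352945642391546129491167798514278952159826393388977651837595961558428210242074354441225479931035543089019554329775278576595052238690173298322329518218983798056162371335463639826601941102996901907374600282344333646257599511393224473238455566483095466647417356232632652269248675267788695243655523455046071445954890680862407295788917502426649650100696544318669525216045883769244396403716189236451437398606070590245974556977033001952463669682021696734445871493572968431619465789356268853424433336265575883752489109161496556420404301345552666375284779362679593819358432098735963325401826299461647648860652374103991971976727312235699615073314018472201779912959592881201030635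436509245477692029638221245393643425739971361403580391305823937541000230895555915729614341780951053333040469638169855513817065075959279630286526272164623189312616912055431778130773094424575319968644574374182547938372511699242724913298624961819275170492584897315892585322025479603541872169960829163357257487931147722356717552451535693531703788837830224913897929652119662975272982395372093756347703897969326193092903953788918211184747928496701853578756134742005610265136203803497185824552424591532331959580893088947279791683347119464436356241783385605216973101288237276340066703717979255270066641739313021769991210427048228285278447305669816295959124317758313517707522699657904680937309811862814804283868369813271334350102171625852890961537303710729118830510934764280081883139648102153795300489943477290243797579475309995484480247179030924050466895397175489394842732101682210422112619505951517294784937723088773077549311416718902038709950455828404266471392458054806699296639702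151182549985007523458396044810244852421271727497056088190793669630673807490061215893234988706398205516879024239160373754003144279369507099099627959801320146109503038687731243343436986746118273615523659134181698365163129323177725578572177334931335809479498377331196301901821865825004281932904434351239589734100627068922504698609037235141566046894831283055344694631628950538373142238586341214748231974472225667715958268176417103587672742809649161547841841382805564090558071627348183798890706481601080025025706078851739962389773586486931516191233809799161239810921845032540433940776269422225986068508593196454344103991227718220191571714449196392463811647602607463403479587667023429709132505738432412462274378441198646758598431972418391366845294393200750549532599586911718271776216172421596473779144895024470869472563463652149749134949279152319513154789394457189037618417335446025344018281598207787386780328574019749581546374945944359236561108585315480029402469919426753586174473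075476444011104836774962128327761459248427353998381587005442071822496619797622249728549224740598268722273348559428526320949638307826794217628812829108457702980766352394245415883721632406946978578597919142575106232383326472650002186723756058015337622697501918714286272392154309788257068872938330488084595267929600383031229327313820564326641856429143486097091201466802635809974253675292388877461982478506321320321619785715343685544333200222149429522691395534648739320051012751111118253931512791683784051087182037821841092787053042161130985764169277150811325977077325099559335602380525160682667767809528976446995261257718381349794104514483445891372212543490121947416881827669432798294476388436521941741587960893123149595458735549081484951230946816584830585930812490677930985171656423467919755976176498543388725717247853104936028992018184090447469008556319468574439547807124113575163643582119979951415475525820970922705323600990538594098534453232010431740592717049917681660046387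595511109117840889638575615936248481748942855817495831545676669209226805603078820682202960849286826034717047414074562225909419528269855463283740956812739877770953490538134359456419777108770873081503645675622944154859158818666702712735702710339946635577828508731815189398050706925924675576167276644082565551925292896446556004280013829365770717150176467135656934692838771770068659004637022421608478958656742357154708750975497179127131903665480050744216117735137338723104672319313735000190807245726260551508742164426706967570668235429644328819960742467983984470862628771799414001132128505345367461640554892986979421115425366840994429413438087799132424425004753362823216693647815390265623582957458277367661241818607893726201736726447128530371437420338682279645152248288675000685116052664660371500313339769139589984233902700372383817548723341961244355286424602438485653850029489525475236492174142181786786935958522064953401672104245250626895737917454854182497647607925113829870271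356312394671195507194821024767604204793214452522405129557815222225969337830559735905210587680213711702417216675256564494001747913143291728400383962061499661898988709564391609502668466918958556049727322270696461020499077677288397686366430412745609403058822731618814808429813754788249445268641016149730871297934395460408480460314896039081464783129569594174670543432994782357264357501929700015701718980729398909480946586722164704830044598996710418340364484565484673536805166183201347205687889424255268620053398495970638781069295977678094220281947763612613869698157064819718732113385571128596853378586762490068727912895704377692056513222893148366433759026616980450232483365209075608974526308751387403776182303017047111373825191703800067117020816697220882537077522962364033604402271440235461392290134622481031330454150700532579694680993021177511700815244413634757461591103880383367124877893151774668119087573569112173721320408772034408073755507926813545738920803402900563161542776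075501249795041661019399154569027133187403766114344720811736911401833088898866423335436828347082926860263748370856711921546558392105264086723407239762088560984931216386680168558515257701045579623792362701753586815966437506240803229824449800171758870492847285244154953269243125669453694407552515025083879854447879955522826912073041679063025214860360274544355125626767751199696299649094714915057960396906931180187331574094511494628811290825671986260673980022248794917126905172690352273897978230888847632214165523730078592575240005686218270214548453529177337386410097333853624046442738450842779275472513256091743400033103075412958421223546228984722451917760727820149755806299764756108321135754157095208912947187261751887886918919927627052511466755205320643779186777306547116485330354795982794859250492596182645686186428288643954440468572572680966972711478639172621300936612933294463754307460391511306379569288841660255299028239020329178515329682623984556779043886893689435066680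094778689414791034262688701920607073652087277563937162342949438947775542534226023265023337025361998645317626148253783538756508100566106563575614360046722859241434206142109176558049515508663146007058894546829359169325721724960427503711194282747613339093856302042006936585131934276961006810933098975074305954929401748518906383864971110284984426366448229061496103079611011002665868425295690971875493478678138444538651270705129570187946926834349271299981620645279170309099171033131939712301096339583705279823597595409642908596310852644073140938380945781288405903479178429265227645676950769300915860420203874730608448041476523675576483471177462766523024742701727486970134902920179529803214152759738842200791950254660768168907880277858196574620972955171694176557146342444856002408525991895760060330697487003218924167210534279967762729089990022632231237535077892391531032842835329455598134889282329310678239918802456615633527439324069260669667612847487312921961465439133691258164955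795275410792651210094704767444138978481547499005268875043953929007894793942978081415326927337209392814194080929832391324928903129468581856954368023720615545837615599615067502918713427295145050312276565756117651540111170041961193903061155321687039861562273030684829098416002960221502425259931408903334994866348374582505276719573640462894548458000770306253409424611908816660240307745494983475458129138991377424726536284764175430609454945601797565873428967940024052634224149845977603210759564115544940193507236337976305450829502436354153766540963128960784774940847683628266562709871860141845155066448327002926156054727079798754857931706265876316676158172315816235996003366885359634208346401783700569459383309575302190257339281038142342374897055993396678457793993488148437659193769853108809219055303435921803435741955169136899869430828197170465684042310975745132447344765214990932798044437127205151546485650395131757242431318295658006672084011228156698906519938969831392864391779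338129561322643297678602843876616399567764644689664743304353550056386787331262331755803674441040561968982450366042925149890620567139151544055355249132461971654164431927353222212695994167197442752400440712230012347234721337779563165785323297355876854265011659033626850490988394155622319474115333663714866359963535986270822428978844760306289363609888240655075249531085620759066739828917735314234553932330208901991842768262319792594934444267764209960115594819197766126822898521036636779479091526169795819480773951382648131806056925471010479831300313431862908278360679347010051825201565829445126657751666977632196078232669067461543763088845275834520822994874398612149098067040693876148928652552611802851198740028144666213379704261819462684642606966757033512821347072179113474299466807710066292275599923612755005334292102721888933754532981055566565713299714747703899965585623840492992761906747291414260002737608650789600516662094483521222742319039020497625627552583910680380120618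015764440062539693567848147798683542513499945958785833277691724103520333922453189019680139226507719550915982265994168050737695311683605781804231129567838679593655155684784215776225443293311770298668714909985991936419791514284297424920813412069031334045793877050933896717568699531744403551675402011449416655399423557707826847054614518258101091702160499134655732903286247714321207874425927937435226358570500498360905313001197228351738299744101262344743122477412038077208799287354064001729732817451154515307603739620077744764221836803022348580228148111119837618891958011086428819742475199974784592438995428237934500819095826748490378285663307610716275309820391838928881076700663313578567779935356183494351696010984492108062868047504949300160044559435088157517115162555876711450390769683629257621157307538734513222830748271176216509815002147224511241534661482509110564890201890499839118977883964631075957337239390648857456743222948142050970446536632486187456071175341417424811771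737916376462481923002366111376671208597824461172275071273620224964924204752321601464174878962288616278826568622876123913851605698392010009703383853638021993417979185057165999613588491052645763984404900033465306154732048080033257114987952360137509800277520866745870584509899207239389456609707675501587745606339154788330644319759805839367677154063772113992146073924013181304575987462818153935280913037258046617137499827578584218521206392031485664531611243085358105572380639093162960088013834902275955652126291511655796799446471844182364028763948065026892038048093866511816345342350672855572598340097918022597294164232711540026586450707565437439332570538583711368761312379880967808850510443128856432482035456579476278232839325818282769160027660476062473283476044090062060176967630397014366082380270115781996421543851291393546859710430816694517535278348076366366126529580065705540269032549318484737636476209526008004867517188177701567812478473006772890054173120001754844031877140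179482133224970099311555970399090922265202348974370902521987674836324266173523752878484148880185168840921882369718894413737525557871653697237819959643573710977898542136797036894201249954865687613733331032861396856246728458017358800192694428521564135440505959063424714744833025481636578322103781201646227950597483928010770557261879268978195804863050084528590285919785191196530219361119634081316859148835668874061056542796652095101420878233062105445049720098101004879173926487221094924777884503834447376442625035273524188797024111389385275855916804949558743006221067336335235796435869176135542322504125936544513289735428256067861192477319896182003186398855832914243754508445346119799885417345066389040366580282779338718941502975409047963609240699828264142738746296375389284375994878070088099275745717674990876943743244562090602402059341724107073446744344002736090850263951671466898258120542593132650719797012196213957403970439631649402358106590403736949499579216205908228186429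731856691620037925664105631948943715024360450047433575427118807881593379391152998067133516525333647190033060049448079607451159899286562914234283853155546631116411686763372479255751065880540120009976472025350638232646911148306244874416369706691583240476531355421740338964054581644662704399622920599537669462049447990285163056922355412041188766546360711813320631361102936480015275088309445707644850593023909504205787941594240868482637413935334606401487988252725267505007936444978186889742558271265550837297189392191841600720714357124543803059587837587701320027005121414444745109133569254956578145100010676077402125102178775903478248503874336024344458359809737779733626065425676275644648464361229594845650881139160567835493988270350170926503461710004206330501404780183331410035487167105914506222099278987990352155053245887625212645637969711538440581469973550778262919676266126582337486040995152946244831495847684164749064365945717382005363984163059984615923968747092887179644764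812788383019207145194303835848405199481110297872262669109527489895669289046230020271803486559082711885338544091155423448371744220988945668655008470517474301425413953121144088601338005460661939889941185701418992106612057362046958016410119461277389732801825772174297416026123557520657445710639399900519720289273450014711694681844812409228521388909754352423685444878477949500899614818776263927234877633730738680009807947555299645390687341914185698517251041945355482681383228381341091662773803672793828707982232057147408099703648754370156814337049069690447078077438445243814679120523949152813890852702035530143635629738216712884964899191462358944148796469903375694424178188952823858565206653321744937122761468589121163399163447704749781717272005063579448233787985254115751075505942273142248740338972820715097856809765188180867394194438091415004938088726073958001858431635990381348921285383283797027761551963174893042441015062605665925289137410904043050303905088238866669088875741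200780242327666988932556651488944331643323646490562328607248880589104580704026269816882448415872741906863595968483087480806688855229835697888661811873041288063152132637058960506131525659368946739640065381222715846345769794239943805737404494236350601694945798383760362311092108105435247305817239927345666865504176405910492528603733717075986538452261486552068227067705041848590785807173510273022852364414521825570793671932889218522802581025775371453571449659781632954746539611672438143068996203649119351196398100187841345496178537768998750993440663576352603651161256112235879244061227181294690728798533685413737017349672334890815291062375488692218728132150674865641460985181036061297450754809290630574513716900304891775985362150030423997649579383018800383795493726029833815414752550106090979829928922543904958943558287458112749063998332043918943205751056554091770992420044538361769421688204465799911083257014905485661122280187344031887771543220638882156164450396458506619605784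351748365068183885721846797848660083937172880800807199962076422887718608271804264417607487776308741197177308878325266546984579870398670697110829683511301604282561240239028401287861568707625077197726734560513024405750736932150202943163189035724480811775233190060413293952272061865555912635308977037889573770291788909910196971524468718081670955291362142499109750612797437417148671693625575093077930068095230606369204121551652563600896356341489002758268269470763160755737301702596800088864902683295649141126600435692806670961689152215016414516467170655036200304149060371544152872637432223602713230241726314860605505708447256745436750940244048584472387986064302860470051475156490190648736340424496289339511841311103966195248087113017747209604967429960791543273284254232687636227052963988438428094170875472207864082909538551737201386184282147765953204598052221372826248706978747032093227763451177167620908222403065813374800357647942599238523754553561803830919011273605447307562902759315038948847408317853172369742958031477361298180747031865538195589760620831649318618220015766907535174128210112199273695151301798156510486135852738620350079617842457555960643224446487492481470220777029829726635622023998848227331131744190464)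

noncomputable def rc16 : Nat := (nat_lit 30045456681042392022440787099243473804184373090567494112948628807581590895175011311417942348558322800387414891056961364460763770216058556707979647425526775552680561732362975288083190409495489071194229870803916078074853157659331675779416038812936285484611699341529688630201480443345726831284856224149774050221692186768860390350593653635766829190752317287128785077764398140186749311247849873181348782447115404645388404320731321090808589264120281680718542064770688315189262444370736443691878870478076617513869400178473636581511508052934510452509347700803545240020616276992064115263966342114190336883255845884184606179186936025623737277695677911238841985150248158221472774586716828642176020038303751113733163640083075845261077518070705631009320453752643827555828571441843357091520608939602608017753583642266892564034862223899208950218847852672863886901651191818588728323702559621542781693141430449216803707790913790955752885043376021825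928958629959130694132465404783349075828881767284409199204229908377261844806896335869742100974589578600821353777038796298640293440676334986918332335614997885941940416626302256149441924526388511983182136353492605221427981684851355307239328736803754748493981252182915084185399784437643988408942423836523988660360424073013107433144114398819004514581211998777878174997741734892006276918999502468304954073776334993807723471571740024743230046805653073063097974323935201232669755892278370908307737160664397797316288238371632166402026764457317351884459708422442785785905620682318032495964339392168398690514707205164895943582019667813659568028710111440112049362240427075543923416258496000661707813524206102837217473497283062352329205027679517684755046697178958471945032980414031285251773391152911615542887639805373229928223740039374015204216246493739014100280390558800395770658731155357386824663920954581442748659752070658553996152560561728457847387811740466981823547323523632139694435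841450832222052154030248756252884813847764398818947287873439426809739685677581322578002477208640776201894185833780282934757508294664703891669586667103354692704808995573108389767691836549855981591044749531718416924238487024153371275662066381015756204812252696836457451651285703319723860516994485571544321271886169478866018523531624608166292910511103143556487462537515132819231352152564129735885631810701605127319731978076566495548764249927233162929100472407798655133837794558215492286799435564799168635189016408193879414261969141642395525130599107349190766926963602161874368460130812895751652414910482723902935999445653866569071308195135893402232276317963692286685394278985722698749105086038282872183341970083240433525225045968215322323417697737898260586547481460818096033691689734550115307089805474990380262997187719637585205216251257189999128293793411529303787955302875466087509381324040497307920716516296532944453325114726761602295912331649942669117851637221878821851217996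857275576966049258962922867365188573267474725907355412473620062028340990343038955976612769665170588289778913123728904732608381039120460564087733595237784983121534428427298064424423926682613724322007409890029318101646450029465458253938065233019724771854501851719822785634282496427322611274114440648815662415195230216978078610038392068404198519344786319619068313321207346669445260278662576081445528739072957978329822668520829531908189972633556705218283743304236907317230892372596694798953829027015549702299886318955464927032156805274643169386236089253532675389955112843954590981128661210956769072863158294919246054953462051564832124411016998706014628803451705923360191900784017051747366951805659668186708896435018933650272944606973735967399645271773186058253133007007457256494768013308002991861048852904416860395262291276936024496736803655747310941023169793233556994815405716377356216925696214971716071480217231697438523003290879429518223188443416134148470783274618231454026904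234500017723707283495955330442175313909890102035252155781586852703361670604685828348524949832499892278341212922866523479370334477555561984721667046326073232047672865378912316281422839379793412992166249907062877504775739330349886168708036794261935475482444680218621662869624211421773092885170896291868953889036478709730926744963655580776267123650511206209358222621606556028064066914798989756229956949569875896517396196347663750478219979826773093974244789786199233643680452202032340506005649966047707481094496936643641079563234103285112056369251280276756260112983874695367972358608598407245827467413601433685282685875917590980334456543514787820005774444456272931187007181303061464849657987942852479035253004704211569777678031255544292865554829593548623779099060911642957288001020352424483572242087366496851485218872043383840026513955311274543795983040256288845459826186560438676333570188341745577821535557446150520211857156713920584780489491531246002251345105882268730636236332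876679248621713081492932292474550489130366079463578879150954662373802239093532093524836396362634994493840850468177695221837092976748870381620432559502885788051289032159764912837363603454413468046171965117649585345650162377562210533614517627786327906893831984132577818721341465856477854046654276327264069949634824275262291141865784313381601103151404378271904964700597889417419933976435503623784208240332377002982940601723094369337913051212603604559401118783331005264860766754590623516572617587762317212783952407149729098670869729198250048254401776483017974293765828379473661799303965475437450877524399760891647999748809490344545639105304051757167054185651529565649440561638473564063723246992836177122215521252262096730094668420176091192197960648441525369749463117478092672469810610033124053747500569662531118431298494883893114877358705254166410588025921067642010276494756595041018356651536925531958461394401592859983098704256519910442045166757308058246277230600793006857833711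919876609570130267636267830955724637076776494632383922529802527003301545560035119027425266512277803909210692355215422031726796036954484935742780229313608011077064958818170441675819739386526151959154782684155992662136338877656344058521983227288411516905815547426201897314876328139700578193100786492558650756205429110060362263751741519883545172498573192482502323856210338119930359064610969731852001908934022891162902070126793898623016954081135223913574994119981813447883690126494393352702272227299616315353421397647088139298018169341585199032994804202329640541014390095543977259901839385849899024448319252308981261368194166297334336322712106914341378892443005170206657444448213390119030874149093402353032394541278855841009587916970196965317884165774753792247334326302555282299639810695464628645130589070115937608200005078697381293243758667718206462637046406000211924376482355863493602123366141990512868379378096680967980705666112135820120231807785452471668279273592519763361656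295950924188929507696628400798810914200245446773151966826655662423463274101519524795309102355964299509891568144453649023716982232719463418513016236187363095188599380442094705216839564755645941582165648144299596335710792015098100524881242701887210574102969389505621194480751623700930945590587240968553445546563887158105908798000656083743248465805251052519905670036524644659985458906951118439713103363218539680840532193802262514491806577402481559577836088063065365000959283943327966523867042166782353103613531955606838534791186209297416609789048128716810865566765317588710661761825064303286975051537060751005681819510359615540346150618716925086307449341224650333224878324291857002053528891263704161853868201358853251388978274692679611726956328447173655076410761850901918594455408770058911341045429904786986137679170571210569175281375663840280288350708974456355380229060654489979409087163163814928970606356972067593089184267575217735330575240015903181218204272960257542942489510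453664683751576422128974811977249835536253109534638027059582399718910386885351774159845858816038152701761893775284880524280875950141933682689001228477589165977487621622576909695062380377984469159132404961633376229400825753774322543448630541203323346209877886943822127678884948636240053296027002171330055416820818110188218434926754131469821448905995204173322347219559685785347991993495882837229006654210204663030076791514622877594832030118830070064598225782839787869729954724080959416654741425579486434231314081609523674162647360588048048632957569945168171733459955511575073144463516171405732389198637338525303866747576028122823566953820534760494106085773726647065425570568217986568250654451933892817637433354887654675287681523862962989219403024642931962471502039448746847658175505334333005893588121732181841066528424577686579121152742673554364370175076457923203724323912782161774136467837566005393526096906149313682827978998459900030609432546621889664937988058886975497074666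210719549493925626706669175840599147281109376577030370584581029820469044625810137561808251281716380537958365200348029407309051895828895638771350742359583872240120884496490292306125428760783681720795535873288446490499449481148644558787221905038068061051877967656760577218105054035301177746749244973670039865302617781452542057353699873795281855025119370862826031911486471315067569770697917835384730068822787545096829110070295508805726267480923456557538931844937296905606062185743470736546832160776943257022228747853563824786631249217927740789602683283676306883476447903950145823804495644423905274911955201474192070123970638112666690653742907559515635929176679380313356563447206353691565122615649459207899192196514514840786622206040073277465268394240373160968602579088919057232528740448219661703786408217237177552686467763492921855777317948250822851973792623621218714052197800003314197736004769502237258201869351945313372127811103609446645736473863784199432786991987089100928077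728375211670466750919775506562907109695945017259110721896665522271283180462743135196778341541242925658935564471125120570073017389978555077361484024455732089449327443743748412163760553532066712487294662006618479842263884772811032463907935666978582057045414461318594882044981198472384139076994927793220685893461214172250013837138424903048936007033422452988090852301860129058260519588290577784043687666432061410168638549837757813869757394387896460325254927525101517404685586827224090844090296333019791510030999460290290158283997200175254421697992074613747347047880905952462806344193950463441388709356320061477452110123523945458455432078152054337653383411303248904840696454822537480839709088975911802716595389455226855620873172379866626030974187363705002052492036634503837645013723790529174672388869341314633214222136565817060127044355612504569312050235192684225499980841202683068742159601721703810230152513826762454732451784932850517842793258004943236938539779453996777507231063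248180982021172151992025194956446966066874294369168453617367705205941107150781607274961768368968144793805401296705170492789762406666665324195173071970518221374316656127898936817675412636797064439907636046139062360959026632504157936793624608257579230859367384268686059213466363462733649635206820413109778536203377100465615708417018602879660910408404526732271960537293313987285592665021349521567799180225948772498694897759401191541443891886689572485535398469702248366572234261044618658558393333966769223909280320108677812689329371902556111595936185093587006236710430226333719790822521082225847887184209827785102894217221132104876923636900729599439044410761331208328608222798508751072400253203452577929447031198353164173055087013642577744604317063220644060059186967016547363354444557971041686561545233190752025204078404874134388617683796880609580354545042826169198599607179026569735308148932064614939436819316994378929009581940560131073282636775531044873476681682542431790189075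610841157269459734070854396223988292501023025296064905709527809776271980208307698905427391863883389483783500564931637424881414295013641441853057374500071069716757694584874732770020906670047439049550072070536450624014721661845562381091341004308997940351037495616861747200271319570951340925040830902600971062419569447580947252308724600624439863741297030288874905466546480720006053081361521229111081254984455337955307303009790631082283088975450687139868469553235521372803153688570702126150134129385299659706809376155106934613183312382535869595530029145777051392184759448634737908725512997330796733006463567545222940932945469773069034171273911126111449013104958387157504627633428713199848874163982435067319985860720887457569768656011833282118602752589431331948088061838900976050982295537451267122327606477079153548878609614836142324287888561889708465576492389378853938580862027979430610021085012171724086076446446538572027181287609295067494214501921696454019271131859216543615042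038797810321464151481172171659392667773774628957188749736158302714971641899464723810289858733160238062687548581366873273700025994564919914200287935773488378096246331249099087688398876992959231023263169926473441812027057525034528532318902840093838042710862989073470853558683245439150300500557366584963581015999070363315133027622234745604817320734919095711261434663935357691617014234679898398047350780478179778259791640347387107824385637798275763681144176076910728969006192082567051099408612846188644886300084008358270430296807896582389544289204832488146477788472571941718019818186762274809868430021660875933140841263914870395173280265756348782740295754980796110710328996140733950595224582528664953494075568325636006531074462340971142050787632812763441395664022086928669458452188665636187535788918178703341079222594853231792474878131656121590675590069811058779047681863593899737058907257254655619560244589814474600354442971012751214917377043810633040462425715427409985946917895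672488570451911837202820231986668857780353169886799133462859093648928807256433473460014291374001887826183210684799633100895538185040315726379512814497540309813618261899517090656377626550359074282211178324248508366680384954177272332143766761759165474593968477901856495565478738024934631506241444641154070001389282954345925622523539530287581333802428455821483549753943969825937256800209892144705274554203782257076959053272915679217702529030870854719591178895648166785650069978188396853384812767948219344796625505657665365267323383098331273041675288289167011158457698948529539250107195598518479105286510111571712742455331063835931989030290497400616476958269789934649411851023261913813156609221941934073878908064880155919584806258568158120996729592537800912503913819261750528025138172289824892518831666260057372805319239639928676078293919282284837414797555601386565348710730255016642489986344403161662829003915289037163125913899097297319855317316263825044855690259568039457955960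563854470355555962488208134865004223575311033329749117483153002930703119718010553036695774530233979308025865071739315598526926957204969425485209254841531083114161266030186673727925546945737124623562726924342455868861722221811195659037348163396524403795681522320932477531743039393947557393964011529251550060178370520321488337108492913753790885998615580931588580487328684708579192455665755337447449970779347172623835362127370607997401812375165401480499536433959470139898309802127037316170615824779765269191457422309941613507667656105207705350138271052882121710094633568182863741108509143974147241314731203416572798088654076292524071412832642057995966404951341527698022645013107259089530337276592081919433088849259705404242500249395546824644360837252471000084650887561915386100755204787607087951731888965796394301093303943766503994911663140339049941959120379923247887801213458225833402449286381005498568379935007729240423814649227379510170946278817392442356508736928272277569256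592075292947353411429951774606832788526904828739379868651752581485962248944897823281165673483529875530218751541621454400429535251744776852428150421002887116469029442331030679096493305095688753133479372550550559014642956844616523510687191515694273889967790815371434788235404336570154873125351746652420764461156304393263513481213038584003854884016560803721142073592646061012552496174388368290721365578112720139445271256409538206049076608787635120929199341249811991456774823037162627148950540640151135492988839400144107405174076630336443709390007173130788271949598213316016425322501889980796618735566504645814381586451630950934782112535154566619647229088406274515892840549981543088183384710320554938790096615655158292332856070657400564165185555310235360848901318895861310170224320911448145200312618115268728266077254361988464433307032938477757855369542585079310935785982359492083800881025225145444778702403156171996551297966663551736923542017686788530508879713032400737664567655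630658688184967848107750992224712023283777507541780758777383022358781164938104762097135127968732550317428294765465169924769565203155148295343929027454654418292377526445426003011989894180964336501985098663944198281854927356225706007057794457947696758723738293994652538974305139217073670916968372894117692110499091199020430175654932428005479625289572553217457226333772499495111255785977645501585005018153047820449716904459297169947607899057996000925866858742528871029655161096841741314001970789920384005307171265119177216357645880242082379958620678869550086914906201194678523080505730102908737469429570679739006831309295396195840714981988041408384035343843101790507132409983670719529268368655507744425247593159536782350679936215305402729577303694530117504554404994323426522011486907515081571524037369657009069595758116204685165465068449867297679342471753888971663547581223816751798562529401070202385472333423307329554027074756983145206453351526083685266557718371138338151138247515159443615903194256200293878000214456064405976073307763832208246606702994221603261448333048136542008425650994629640880420779628778961849708017518289306008244885195365486349339589516932818273286444716210447245450181780262851528760551893106688)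

noncomputable def rc17 : Nat := (nat_lit 30112737244773049154603973453509032533485992840714588177845275707211949068133078723468077700626891539570896000874104736432431728251639372152027229362832922471751600576637007462180294157497519440961424783583187375230965528538940905982690673139151413318045518771546118662979559001751013301752539696899260490487329907509267294547210544961745869740122066222943911138368970533060546437107174636794521643117008708229811067306668592934567805837490507052695767508469118860418834192596537315164268006143075986382848608099862016438415165925353698205465663191643782153739496824839592809010386772687539896900395407804252551785573600004519118267967059083814679964475753897013842735089388212734212453155436010580792403848921716566988629679506483216935068579976388417558518802666473600091104107737262436377080057538576703300938598765277836275218074787252586277122393330809762810230309346845907393498114990905484288758264923408439831451499668355450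954819399719091845325461325661515428310102101764100792063684691099080226155744050671104029386485358715862682583874712660011417681805829275611847804428617033341481166328561489032188027123280631148804682964695400128907431356521208221769759167123928161135750020585043624704570773919927346035315967677430409611063992839916605055546465979695105836093525361102896291440738933540057497901747332235032897956091245872083980768287100178908808114616341869765270078307551499222481112650995996104839090038303571209338964539740067362222418605491979676173049113842585934058200969315691821110907683047304241425718338194051977991694627921964961858269167862981307186733000899066060965322648046631070703212679954130867335566328365638107940277480702904545281994056937383516083273309852116368389437782046804101368756654359062956637211556478348559399058635786380074520939608063639938151201079784568974083185164288573256084276853297546638342958665646429712587315006765599083603129097075315610041225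525913468759947276000370519817183761684446777138287114166324094021029888720800737068555241652512734838274788821707330229958434104419945376252943545232311528029086115376510219449814604932297682863986636219527783395717934911636367137749898237382084842445142643714065189745547991624971886761232698581948054859957278436159602363054944153920455549458293821949323194070073277422049709572750450079584177043806018556797240431746199755776373240809367539561256479979879509832298868185310257062152497588781629782194008189066867543548108729666293383248004801062431833195957341224770046525334143425601576335647706782349190882167143661574988387013872426565534991005713314924794999505354665834060991799405523073955444929718272289074459951567785772649744621908757309124438259456567897166587388545112418236032680641299635021484429675969450724673658768508448719548030070166954640784840013778310955153592991304976725500212439774901373864503604424396278309946716603704497427237987199899808916789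833550729781213786914927049367257243863196976194599762258841732024027531532527107371505081614693703376824830200198639943925896567275054222785274860544616865207539690840758408085894164245967660818423654092749822117985319809821102364913760532675083411888050679227505859364905451889933798870300774923381879476339835878804385067108612217021613755645452110061028546740880044726192368672456282278203899675955279789343109188975078755846122747876767979971961323182591006242569905776217873584015372022133169514409668981734844751033101229599979648781578935197438713168097992783914492568764808740007152217933828134111635936215625172787397643208269293192259593249580304067148932637393499768655849060283755087999661664932048181459143376376772270788184462457976439799915811227699873285106889917862088638204833768394557815863085987459349803837772734536920015109306350091914408910233051661814659849120019572393940125665585068413680098298785095576519062741411855347982823997893343422941791177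249818318769301854750696136831217808322606454425581910425791308481625169600214021846560187689034190168188235203288225313349562906581319126104912473140650997402289936117349684702356569259276459826831859050358415494190834200589597454346665443287350124176586463991455093465324203179404143862161159978506366985742328206802460205896778651819444182832354712830372810781404136238368323026203457884343714478439659486536897360276692718628240580746586093037198312669400301656285945580665648656195250457891003008184918722003192759558065735790932636455428528031113201067131818164837474423611236591316594108602438916942482699779475793783646338023851416755322707783779523292162857647674327962070591968255089740997413139216928071922720548986307005418748496621924758193913481717735335250412030595758409544304194932609323774551374998010517757107326324871576082153705681168795174972316533364104921393478648427734614617241925484813568695442129917015730694448040450679531440529676730444649337432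024866802138284430795922609430527915296701243851786132147724851574200798307354180750055173923087803591481394573125513460397129489115098680793544654457222983707990272006870147201627440149123353869761565839475512358456536991792040051948885252907219695993434302166927182463754569669740140117045736270876896686761772034599593551054285201414522417200919461947767818952459208541457471561370601056583113485290110731121847196430633572071585595666426578734559471576517789716943572201341723828586298299018487308490867392123671267345219565632447079222459433164417995145412392006818646295151915516904958313510814540693471687299480526802797549963140222788225042061520741243259577317400002546844910987864845184616334633953715038044113934214353928170970812206715483628536132623702121098149035555803394233792083248431298260452761099446017881780747053182661373370353254857843259778774237933007089641343428143215312760741200157157846747878060881759395525188242807685848595335493891908392065766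793988104933755691743886110050812273504242729611939790585602506961441349390779211923758021546616231890325906131917149536182593583899597090363256439820205290694945264592064491102347283883853833730345045880183484136118971641080906270652797612951755327445853806980002903934408092403034757960446633538929402343351263677077244867926727968117505366186163392122022973327961067534972828017564853962220112878563755861666235656736875877890247454510045184835282665762456568594118905893491489542229407065265640401932268490272716601382674043094417377677330330000560808346741043489478181855429585789301845838402613450406893546340925343338944221210416642176050265190740014449235585543777145789625772047915478777555781401249229465396794353120565596979972157192421196510511614646553426509333618280477425006317756286104508146442989252901197567642320121007410659110816168272681395059210939550181669974932727252131845345221972670005050278857154553564246335298854201498632002250187306910287417833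157358264922864835269636727395564855860354652551348074544282398524186344509214990165130276716172929734554740020469183820724215678745617239981015085860595200923628714747235415199353050972593222254450587046685893839855810563967759436166650048830762867882156473845125249872144941906325990151697498098943955926633891810981558633182016549357379434508032561783523168650911716729924232225937216953822856384474446593325395480225494591510697004761158395183567220346664943557436948105091118331041241607228660229308822508577050031822840001912165610347658486546024920861510907058548059578366339234164714502398900456440307896204596059375038770984183979413490370168258188256505411506056273503068623242176646807688373270883387469472061648545837876310912646336594025247398690825929680534656138658356312909612059254738641331902564982234147460323029207090725583698385163568585814805505362990218839965058542682365612041418626892056726132486354215920638110983738641883912635200413503233614156935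468910088365428865460184549747668656083236232525240514248661405076530277368183714302876724784493803830185161451245741701756900497083645665081044224860128217617530038192279095115379637635571599664758813649905897754040513799879923677273831995346238548656545774077313133833245730509987608848784064482736138899898196542592475803261763521373047588418476352024157370106769315847252999072805667249073368228347561716778026130025191310826669484933928877151565247866776312327649361430640865627187704877968888027200747520449039702888624673068299320252303589863803229500169000490095741087933894466864157706317293095257800400693496495418139410262422216258710414611659611728911501320682969052991516545932768339588749324004954330350129264258031680574638744183714651069832215322769225068379048052075510183253638219699439026640152026489568606876956544291316767128821896499662457460610851459644382871243899961186281915265469822588140036866793741549351421597922027387782202701591418109481482776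603881619662628706891853954445165124696455816904058343544598987255261924393719007096186146880066784981326742773466857780468584811789511598875958061923987490127859695729410918870822972551958881081850710386163596458885815190191373286023445306382430391262552700745251526572786032139548412659931774534120837432891293209725652920089109387601056501959883038024203807775195377310723933752339685663758361727732674543873065641085200724098338941525110706653776840923795625939459809825141305542870693815059530475579276451630716422559498716440099857380732645854434635254102620611169905180324588114375297763609967280908974836621114641335725799214423345021711477066156020696957246282912232455477936800645629682876276441289524090055173190786464351020229124685293398352491087097713164065840480760504509368180959654224667155320066925576806577726841013032105935589751528069867082105792392520221724415008410020560089879795837087496387459553125001908429133239539151847250712639694350964170993614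288015127150380532243950798185819338203732607172787459864490118843844396796415485139014698885851437368036146348408807825959254899386410488519532258163105270311819003590452511438965903940280062823453503349278990183321722222254750472950181082163151227044374829640347865707226240066364747308434413299551930794819158124171342852106271782623915501265438589714585943333490024117840016678340388181019497718517739162402559730164446635777692481397328458654083697512171669020536964739855047295634707504984131071905619804470563542418396861477799571746860469062083777484552362218005181311931056234544738996980202384178213829795175696106506142052053475270270214910173922508824721191464836858017464793044161972063322543307136447643210349351833008872905283966144016202162883379633417925340694146872542341931583335218994934831587634179541147445551647420317075403310245027438786514493647321642437730683970730037668258578520554610264872211204862436718164919138140841175574443226346397466766871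895018693361334115690448775462990583592990329995943125255216290592734776087632845309952511059340079763782469180351980330810469081904689528041885082304916380862673158727214554033000199348972486383572184397599321808372412886859468246001166535595249763425639508380265970721990277332762827583337215589706461109853612320238754611153606313920294123505602754920998283241409571091427806697702244510355755588971888684509618846476667995736428601319352439610252743969664542841773160946380089709712500857587616263151466174523422868267220900380976002240735314078935676724015760193324835519836548612042274859219480250726968688490047803811038215565830836379646932789677609100765261786884421304834921452598485404731356954742691316071797358859828661706883417738387587031100208333546326376355484295910388542615057765625809530717069070501141925155602361069641440225064664028522512919178570894058257305829635171931413849683108967092554182645352996640526829758678639707357674230447120356451954067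008735187991695972406554671590724930466645561278520787770301910930570534841350856721670454190367080301454770521865967839999542049915925302612361635863711556013706625660200403358378166098345597958853119057998986051365255867035935459820772904404849272371940462536563617400219398445367419244564672180086615362892324559693476051240878581388564599670303128411528561667858009525964191908909899214660808748979066805586796598430678863780470571663868141251199324183439974080929364159976233292939210942542018176570236586313021918581065328885510459445303327995421414126847474764933932163999431355195428117284137129992906097450196000381298943521825056773010550514460783965002107912307323659461672722408051045045995021939588737736029905553080787989387481056296810062141777772121140332413647779667574347524627317264352276895252169665821599475419738831837493735157386764217931690815075366789759631998293253295517892924627257207265375651921059960792141973899012694984211111743233288657280177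774118763435188252027756569408213020003075008100825547818950853407182196161942733746585632943516866344543289780731830481255824478834850195929354274962046441364820789276845815071839790614184476910041258100508642639788167850650111762305486818545800497016447605112071626383819656727099946725971909098733428146294545773363548397325777798401638883893557630175605819197222371477518084099511841369943473541660363274254966375583526833844726030305214639819481162438818327099487602526824805373634332389088435909734358155342105304881731156834062043146333361300910417014893899644888463702448574444708170942359182768408377944862950176199704081718784717300238308733331919501531532468584839566576257427262263393025343643404475566432176292550437231681584050490225941865732866906485535503240848532844155526843481818563821628647195729152566374984413686250783768459293165571792702621470034110398170931020482817065326296645883693239191773749746943710127756566633696680979763547678299647855410409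552327757577375628260057958837066801311683458721604004288710689773312202394752828723803014494862240833799551157545649654099643252775985300979276194022634131784392388061642845025442566471596052535995128565968867099784005648551516724745377521632475748209717877677485837580853863384123990351467444142139585037128220901214137366534303614434348833816651834560221821210035331713998813106818269833784555920246938839960939092668140234141708255664756456650117133858168461655448676165209688515454802405560994063954577816545752428831479028128857676277170838443309203394504425415805075159194967856630091528038850459708935810254056176896194981915026295821624309559853804868906840946346944274627043060723479642810434520578826708531545181789370449403091220944000610350608007646499734557532594756830671014075550826034259361371760728888050236996896817214795083301158874774844822102457022032465236310218278018063265437770211180416979050972802746882511597970332522762250124881622730073655207323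451953683217113313048254331343895944317816255253325599035965437112705212943130040763582881403306011631640768270150198511149106001958660822074343649804212955797474434143659606222730704106035062788866885067357213677716879709343599905632645389365571187873646789923864529867695099079813987131935391529729788552042190486552674571635664903039694886424649753168135713247048745385165796924156116539297204965757229963186970536004392527998311264507547313229025692312621386315721329249197432628770693106734328543168655858515521178362192842403934128606947105472903508503708343366754892520026835129325755836735534670069684183731319292424131336555255751611601305828883404710251275146093748698393413093986622575060121113738831928773325720360113947626834182149936623980027682989908061901012395460327592981751619013429363829897780165409060382105171891694849825234771821808643763343921393779146861256086751965300218116581016940654307032428047195329946936615321510430491472080751914004154110368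717702167210509795650716383864520306092442391659377776872884267398748316616022006986428417109203137629843855573478107056945685046255073510324404965027527482699101780827944537780037386358237159465359381470294782515267789786257347204958527577013122039781056226079225458458708647409355130593813568072806451559445755948949016215722006122160512329629036744190600798536974370733359470244039840279906307027044300478385574057333500907420604584713492315917496576915523487990339445661623833511729308099282296989493187828519303107175136143844999088624814084189830041509795181593545510920339781724658607746352870539973398261175610932679850207049101019468857518816579019762000020604125035151384096314802394085291265812048986243991027684928976836711370647876063141837842709593027959546140569867335377566034566209121803076496863687506340732459407413176256862980534403892437415618787959380872468356863377524581331070890607178237199320560272752335379797916938402809163530795956119060107731029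324080847037977710987320989555757963522958271100466036406541388498264819954317136132374261496284291886009161956565874806858340863454146286566582060305867632831473114093222111560229010212609597578577771829753631211522584032733628874556489783223795098527486308045621597577997367706709359455710722059157759200530205619138713182040933804484892186319757546529668091201757208284261991171916766450650815515829678850729962600343405234815480038475020666215160207076359101783777827677631811579498484356631834462840153981937750020698428537442611002741872154777790039307714426740117592677957877163544127263868146489377623633995653879767034991783050483098433316166839560070650904932688255259010458985965942075591709274222810840191216886386928077648974147756698988274236909805755596509302343859428793767492879795668305132298448537226900131064211263242617069575094654314101523630047465862381702737128682866573912791693716862543231733342209698991746626218973770488080905818028927559168450753819184654430527488723706865536475553542061670533433217061433631628968795627182925193291126770082205539975615058401445908483792593234596593130656664822522590556168838276042554461273076831949164573761090518692392017676174815892765128833131085824)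

noncomputable def rc18 : Nat := (nat_lit 30179480160323500065629248091103361184537355944087927913213219358374985402614623517189495672866681700222959596267266946335599897968122387626847422341497015834238768985951889959867535653507775002537163166804620092849035983592468571725372281805371076357320448305043770488532718664279672178905921337109090305811025387218706150002998125818212194423854091328751997041246153523403407255918999975254563713714500267253622715715389278624215382983380917275640006061144087205022475921614359023312942287121451868930891557846799156199905183416083139101291732588045517776238579561346214751501399517999609048267152363918692392928557527913970891068495844928537159395198415117095501870059160739097143653384184738865035435324098750593592008353643132280948758102089204448057549281071684680553556479504718670328488851267925044629902789799797824954240288021706549731934186240297650710683880263605139903721080554551909538140467696754733254867933898392552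895480153026348234411154930471418270971136364038167589011956824082096187023058933299269795742198897093153610088273133288559646322141693846221369439726151595466745676977882313894324388054261370706570231833604587093016460089200961796016079914793887072672548781466796928699988536950113482262657633152961382254400048627616405409103657137766035550597382116768616953980543130884333905869886675071316005197512928532847303839569057105137779015167598216500444015635064984263840730632281157312848371455078652277189136423087419973310078926231199115537187912230760490482375322209903252985435387403341283959445489956618817432164955024557090852554181905981771595627245308906730779378490142402223661657290554765043374734350253413639755583456228595553893170551433455989916084828959444603901005308330084847276280775166170501279075781550673560217089058153726309599032681834009930414923034231444250073991683438953009929351645422204152509795574453314200356842592735287201614962729184728012639684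377426183660896964003082527353047898789709945664604578777121608131351522443169750540480734927733122693549538700531951645855606162111211132259892305142386849604614925582911282819241339790190269888248216699406681958690913977649300955827693481423704141435647196520430444593346607356840359919079807433859374704937841123126031935678292130893407621833685415002388522192642328219731040447067494381485428040491359189235229619362111888594383376915594099673977309704585277467439382694112747072484511365673460529726012890815363520122485159082572674346666882233349702927872275426404238268456162898503840506446943538359210891302783880310558899461600142095102523404151305287249806560307938826823217249818100293791175028454296123668130045302198281064339237008187236066043276137999384534706155143908022781384548275434253000884258919347143859097770994719508931642109180492365004577667085944651531334298345169467839032285382452143995456475473430427376765167358594339240055988697362610694289861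291839515212073804668006021556096054309767478918241489119270156116281639851140448489612724306150954566253821461587916856675701115164913433101627761641169774983354080543636124205286451179089645918419276645142535473015425544227220618271634259101242615911891866470714544506579095964783756165040549446398679745577792190852640629600350738002869967039519717626755505107848917339374346379250180871410523909305152166402924913290783699255611843615939426417546953486733306282748532668435490823221420280706465222229715054595267341108509104278402656395210625732199370162856471456539612416552358716256285421978137815076927824111424706130225744842370160799875766255530466687682416743722073542783701693713218991341119638727501528784121248276035692021646807157513998570698572252131622998084451496578736162424159701058594320447480964431935599062010462285455707690402498303576465151738024375071091409739481967855562516697499077975756169835288469390927545827257604578425438048925384948459050858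568233668148110428576542447097172659076879389358758113732599875616353473148398699026288641426479491713180574358550395982882220512832805015828211636417527207734085689970914444452216908430696251162145608232960816037827814292523697589386277443590874154518533547155671413374953431448761474781257075678964186097045084416988881403004943248509075377980098867066001254673301721968220027190141112318876998457037277111297651207689353729507868389564611947429774258359231994241476840697062106611640351437625849538280976677780451200898392439009040133379132677291007059796682529777453494892646046809849142990788607920388920715667290949981293791506781898900417286347369398102690202457581024823922434220998266662927084947048888169093975760118052168233650981115545896261934754672967586929907610154172342173491051237710168336275056886907543003107964312960697210724169626086314152648595929187554265661893656090096726822876616521755091281924415368082269535266066106547417695590740597679268918383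878336230234645572059055243834712573727247746317467005498826366773888861846803384652643664995575046863839775838645402187162641508735148849405714418266421356744550432819077641080420225234116674847676276654928973290258652908044380168031858519953247440429530094424461790577527199813717493826819894911620995934728203146420222729903718616767335124809248604282447915459641556476384888626553952390270821419496459358985871039088021436889101591571438884198679928804358442173564815823543027041782226807755264387461823113376868780969828415813101606437440931892394869776082043646320072500095258686265676248174423740009581184096627599557319922302068562584354185917693314240273097969327624825338851979823562611475651155412424394033491747536236893715835987706380026128404421535841216395965258606868508548295994636652749844668349634886139913673020917625114617632082264498689472540404470679542604405390933223785201781375756530174504905104252317904335433249345927704392518934262588493084823770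767744996594683323295537454139874228221222742047654418418623389876453821828663164138935757449569143345527913177946236312168398145428806181049792412746633222011786315259442811938549381424317079356807347722800939088671748537937724956450788105896764019777984359759319301693228785510916846212338163855077422064479188918374255799680600497942797748698156875429872860976224073120544607482107914100113729718000754634420768367714070788949689139496234620787804422311928208851893665390599636556933552663073831572316779929052791828799249721651557786860298844486170082162464646797755130762100544694057623062390839848707263463129558301580034747349596027152275584447159313224917001896601048333084040602974264254172403470113291598284734946257146873320886936524642441531093963816573150239447891457028622321146524550257037284507045065534450722903660647385170698421731420966281661534110233139882051338271851527218162922750645791412989106017081399570149912959644105348208273148173875555606066544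650362357955381775441781311410726463776891482245378633733716248439344035170681396590891829125165803609195407731149503727316278645518953303483766974525461500858918762673806608364110103761059695198550582713467023903125273858041669797360851300300371545246292084924707725514320285047399424078113205698633101694807426233308100205422408549405407671145898287327604360733373695936585418654300363248109487977716355578466474939783361585944439267785574976743195187637268131330839907770152565433177156520791669604638356003557112469367135582064644232292879300230346001126675535597200793804683092880822329632193045185325158291840469124280430138779420782495737419646873913512427512320822721373081307406798390254523501621235880644658484073561081687908640956331839585468660062902516850946406279440751107003267135239302959249932086611775354463859751231320771763759150316085161709236975920022452039288114359067638468929968524215123018801419696147745857896146538625001438935015773454912660596486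200961379020077076949372996068849042061870200966385851519346678943744858614044722824897898420223532394017538382626511509140528221837547694525925953137380115557380846340437304384012333754903438606113849770873541491528070042794849276005948171844889297900243128896347689257652476715495726641756455598569543920469906639874549253607762744188710049925647391932851668200204595447437175218548200185606277830972297200927210171282843631919109034941941698551146851539367580061905776614791738262108285903499850261594580503466467336247490903739158654052992106316007095302859721659954799363094066325602371422752016951581288374780857232588933636039857056830183554833285406802017095831390403201657542992309720135872513559348428004793691223076055672516507996248855241606722616397686899030408529251051489407541326859728829309097734205244883976115779524416517180176028760376839082062192748940506512363744820809707949610285890142569169536913728930452337623739079712352588141941819021229250403776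561044633199552178298021671938710093758144301165282266697517444610771733410209913610747047684101198051095941673046485468231356747668456484837736212823258293184559556949500631811722134987235074232144545346398318960375639458283485481736374444861164437060549524151848446920225212857355905910868859293970593908502169316085549587666970132659028898418382396243826613514126736238033521834965852010317041635786377266066426777544223362122242378781580277635386394775481773975985143999753417379894495781702219706204672072460497606374074668606459877819380768378626969411278137124066293416360013158423741188535657200270369840710500926170604615490343451978973148979541419560731140645504569771067672347355546936596880965801859690646750876406325255253411292518102449244722921563658638943696034849457506809112656174600465085681443768755155083922191260475299658608649492849638433714478040685972327846555199691314442519376524434699066500031617741151645851476946871074117305700325393222548219017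555012594867448332768826676079433824101559281538035095275595526694402158492251123101086353255360961061358727550619889145074771572464477194328028703481999830358180593308133297917600879936895026366590216856737173051350742395800192364194573176180208064007923343658993396123494190968224116139376497793299516018494229296171812205407562904939373842014238904637253214008531669998840880826484027596142054440752595298310458173392421454026206870831480837670292188149558920138862664924259567591966855798998902313818215579259704951770149809087124635898592617393316883518641961243583813042467664003055485998145738438974213495247288549963978493220692672378123418978157734502920379666206829744505426687388519464578677713981970055914201580947948288227239450906369450418282989393914693654281685932629999227120832698715408671964765683351664484799320083451085066188401266217691636779167951288905707713481845879323683781105526539818585610631642624115713140768210275908072008935317597953423904923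473820443610415057781177986989504571871425177416667720696970088934430815835933172285448494417796697260556672124145186890620276714379906609494291589679531546597203803609889010698924831447289563013547855676520290411996259921217568704493589193123489404190365078320027938398123289033813020926991719244076023564289228095503765589467719438986305121795446434733286794262548391098337392985263208739501825832641594054402619768931251990774936906031150491129036942911111140522262108075937621250862516739271391607305761039763300534407046709225169368034056363306816124176643418820764878651641286744860262600630974404056860468913697524946827613968496745326596572290670457425174614483226644883617642055443681196264312990125992888380345753514327925667698640672092405339805721190166245702669403674381705669051262163775361168969481171389090829835219072001756222556069022798697778452933272578567418901753999428940429070477367713960534264820219081026563298013383496981128267943748822579586522812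130315239075947432301192840515288342961675074956975065464019884525195018070511966352745123660971474543327199477051129967708644101404557943169677277390512907948258270003122453731199480223577722533057582225745037606431085993328835455858846283043262594030627610738097316553922062458193648304408917447869019566663893644638166234446095604303564971241563445266584289645171670321204880803705964547401403946037786336462638061408352401966794924034021259024777711164772701647875624725080255164749338799518981596531299738448331573860477498725606014237898701663428081359538686006473663581290206295331177045250407998872556309568110793185819943334986142895635752525458301244152816244344068685601702187614740332221507521667215224571869174351209605337981782757242343800979963449066104654268114019745100967128631007480380103208004743802451598952241903826661947475950625271372145290726487652879837549434179300274347433317929715708464530805142103239629063901322318410815784385396120616437121090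308935318356259501204781769361487560446160195209989327977967264309223267685461540214977429298666820176584616070931752735330223543393607482833956061495407268563135980814993642390339335936272155446070173301631108453045798284739429918416443544983045886427516770213096035927797056045886230134595658834569545184081907270076759461662141741665024074317349220452945614305041898781103836948530007522283365659008633284455170983557994545481919297845120747732161105491222288295984767033122375934849163084542985166021718753572281675532616361845071252343822959918835345536783924611571693932998880266630225398498887259082048108334907395202343035753351377339863610720243470904821630653539237978510007770371572779964956505697371845110037096264334324616125905972789534213720364019980898222148087379901174921900367308575030837986640210912260765183216116431826354563443600969682244758285329740528873827260368782452120434249145640578812064961650732946198918273287168696611075385041190204712702484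863340384297393043144129073130429456367370889298805564132832450647187319757328919713243879109088953008205682193906406865197343744056900399707654343328303499925534445376508469410128555130407022231982128212802687314333400707330684053363460037867503428404382715651094994330162557074640980252038253785643504084167301440367366875735973270278332984571351938593486520677244790386026681505813982522531366382879298746076517000733685568031287521781492181460890713653510728319044000483758940766473138682036994338187359016555959601732483714557040411042837957828855458232021327176200067871119844606640607496359937334466749623825133922172826183451112886287635252680288340209536026401778573695240152630314464655646883703346291858285419718549096894603438230618401531594182416329339796168396373645196087450439738027498772024209298163247158814545835086021428220681604323225232943288825939489062532318133739844612360747337622206901398884678532694235107338852712848009249809584328378447720426379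597433391476051381578886142913518039845778741925778988691524203382640807035092843675469158814095188644517158989132204499258240550237094600350276733762153260615407999080702225773175645656334486809875433989111160827291415125518492391443325945114739016254332563619892359705210777976118399547875652514010555402080315921747722007474351326697043945475658616534735409314306484762454083819080592389939064567549313361866537335203364289229619738577078866911385546447070430987195291850030228034778877086097679268287378768861762766659511905368051457238505224172353497681655824033592886839570867261021657902351474546832217434837788299047417716385394948563490682470688508327648713925984417848084484439203088164399655499292397329420995219458714723043370550102659284225476973230653822461629169058037271576146733697419906206432513928580202295737211953408139516612529851282818852394416891296845189667905723560553214425494240717510816824296930143227456848057106378804859561456940532644970089993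744509847067512434787541297263001840286464256213636614294283185058112864714776097064275699976262892538005288597376578910688749881351585820892124892839999956062950031653054994410057394160694467593037911896384506306298666811344240067017275938412017384801379422243941226488806204323575376380577413688713103498826620869682256638329864952043034455336969689644319040086489454888306062362590034068982700420894465257433466294397934257489284354633623397511286489887597170639214053303417894898369393602144623033202223066974187717479585770249097244349309747383046155792154981799114365909645613890086567766182603579038706338205936269368183492319279018643208976448452786070439512240333114054317110342536303102997169383489195457078851252971907750374696073964420791859395889523238715635451006698198263056605676011362231536760722190294064184720307563278024975259171385927388742478032606798661091207071516393844198244593139095971240235682313327544708344152307612980335207631193217456033968118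314070628068158367019345334889853949382311137119149942471836989136350313423715016794321860166866658857775422633335709979817061138904672229012148872466905043535078593052780049405365527761407482066510711626507383855356303649015882292037920197752655100231464840704859255791973336130357221981732732485762583940470041260275118760631781182107492631888215096157055918925863821070389740327920381840335304253775710925235084484508719584202192042234483509222726440388971929942188563792252240262579685370134763831197464577544675836719610059265611852933910771574944428136747610230388045839620921618261817325453202184450607693984979436764633383256641937659185453116722394370544334641443238084798861560288851139110510105045633960023412585359507353810005820168949117715054532878666803895384911052564984712631615629686030422794819438776542377585210911598524635579277137297473521536595255559576804441480294438430827756981089928494213982176867615167133017811195278308867376762936319702922905544489615903634216222777133066173526612566130150695053603741783419920693195778874881267116991098209157340468779442423528055712522165864742201221598180587423428179363549184827994629454362059510913593151714730509712400087169940495804918222160920576)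

noncomputable def rc19 : Nat := (nat_lit 30245682073610977658938390111204487825899741545815643956993074299532001780740395054544101589859847737753539964607698703219932501066589752960683796588131432541930626718307429277530422051633393475392604031467659109528051589955414544578579120307520292864126707178194770635269962954983223843433179540108233306129804016224121628611715095364780154008620255449648092369765173871221146648184917823663447505635639408001297642183884272091886991579187834672707817391316102804658146039099255702107603864189070194517383141342389573347081846143653911253175112641434315817486467660556701070778677652565636816748527267130924599593264185064191608058132874216786872305984251003992631809854962220598164529162418945553890082940035449381107737613907634583196273519115413340287521985812004476673722894102386827504825301575438135618771829153076067645184966917450959301565894770848304118213155982067816059011185346267735574868272084583973929667032192037695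990381778483662625310905958240876727576926521083882962048662848130489952457219755861485323280749495803753124189653992993555351538762568234068679476121234804448256064339914518066907918175321172090852928340548220323482411785282090209848604367851214156113464549436568919433234039050907790586356066960476088500492732333046341046295488958384766962797979935882251837456016420379876796236247930049580454448598332529968283815737589614580010184532397869629336906154034145714503902698758956283891680134183964474530672294403486948249435406316207284290203928584903820711043058693380174176082260193930123868176284442736459400495367634742128769956075154394488149460831029466141989765709569743694262959856150174027237621490248078475324075351203830156533788585010021996710217633652787867889521711501906344262812724135165934295720757995347819586111413644746581762038124540626343108904012066976660204834558690720180744026543703909043688908145578681075041776541982775173287806315984405520326030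199857821610789290032827663538266349507050888342885240758025733003964411826740091737716433889524463088405033433805988145732214593684084200635963045708951752216412845864564539194308395695563770615277475203416796002234438742256135386037647405267806375202952580337692616905920092914868366856034511564694641319431506744438134792287492453742263362976491636947257575177607579190026202161561053307125572047130999732699908461073188767894225245548291447067967706034610981343522036631377243572410666966613662793882457149114713117336297437647639626484758189813104969046596652690598891299282691125303984035953054129384367759841316494778497891348547937630900178278423731167577245018708182323239084188433395113230880954869781971622932136355256456380830946852969923385631432274751599676127413607458843593405656484369286959068060551457664385679312681174047018414759628539526701369729360054465303299025023135907706596380262038489065522773027376461529261513595224628463979400610768842420385275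939419834584597338092323654788309615114926894039630112704985674834041702517114075812946968060206210263954328587346710274519531699504794578868191257556471729686688184101138149658944553042803519717246266383086406648019131447374764828758900281624878531229597097797965036295263313791825798569127877310762491559978360748751130185881592295428392493868502556585288620293999785107378132175267877348224265403082393835584667753022055001492237647762865167268153392055032303890445008666355713012904105192943629935659049103125605237548960186751389989751658935624298611926166842866465453319153202062149200714428639966073975823275130454877280756637239560636283662780734918563708950734055405562433302938891557398940051172029972764294918330853404487040757505141138132020839914463481887627177060490154314549779325962276985892136868296891965508653942409286917849007467538154576978977637008199100599551660246593186923828016347725298374030896391983506335294947952103304620653932891171120167052078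975318426608894560057914734628028262527336201312166599784623482490356213369556289787547351577502414766642628820571370161069451482699160881249493093096783252776546991793165075476770447808578173912293611769518826027720410374673893474689996655375291141699290929584760019309344805941267440956472776746933603013640545462132944548079275774696838685850596814570778104463148003378981944370186485691262321923155037885312231496831657853649637018707934018281943409162547681265168506273177078223060679126508137008982917639574594475796640158537757808348965720455377925956658522813605756741105651103534837402913109275322200369920113702902155734679553407486000503375408538351143888598148000291929386399926264487343281800857372820561074392489941011775270643278403754613076539854709607895178261643113590181946561321808154288783833469303916276124384243298843873935191178959895177992809920751195517971334736563848564604454282159607167594233195345713366438927578849762751485924946018188835341484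677587812728189072437706541324535279338082059425405994111273583034876477379083400871914659839653903691670810802507284657907289144554210436202027287881838017459200773402184898230582144502253951747899628429539805862917766559020336334260644112994178335430522030554283940164954909860197188658731924100536245136542627053518396777812696524279970390039776530949531692443003375035407569941597215671944165557497924385942259665640338402293637793718066471068161708335591204686108361837082318094145243895474544878497736207315541390427495868120554925632077616855546467143499737929294031858071336179917087797776384549334312645045856106464265601829890923665413167763597621753823548604818489263554307318174833597257474183411389730473979231645556829133069585914796784503864140045739360501590221496111148274677624685221346376205533770096086461987052985474306922068918681903299418743713075734214825147405779177413876880226913203537905116681929902538170288679564534755941390951420572377204429225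163402099690803720155732498617163410442906578392091450119937153238802348609667260565716104801502718564485165881436318652412935292048253942254745208920432431286549063763737078827871990564609675472030102076597075326468988235244020402825507181955972494066954789930952059548405793984642598819761568056391633040208190200149963358349370355250129447871016577758254050206712339102113827183311640968441829635177527614970822583693402470800517260348724070085521298693143314484290232673664593137301927140269078752449136833781488669685184202706134020708667925360980636527576074073869398543055785696751417086167766316441686794201491552853689701176878844047825097025908798338496610216847883546938943359886770990290932781352606873256421042872844261780237874069443289345059178648855522740536216354441444180628193798877355518286083570212109451092264795357231542018682730792401449847173055308786356141047014118791843994364359275596592242826079126793592782939868019442203201729154431902846661064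449606807613430957003524595922905285296809425124054943660520435742252253590185605699880215931126287366695552838319881538313976573799951509045362512217488372006912663509966499005300373283581192400106864750425659261193719510951891057767285546710555962178942824818392576055163959978355768445923443857463653744412871125227381948318206027645846868312462769949291502204178321824633436001877292353261160634480226596153482969453559623287862166940204359093384925219087823168719770069469724391610810303977907543100481315078574591455520506311236761335968848869206504294410146216276890253480990537439521041265988316723082275067042365160671621722550994044514145572223327788229334081895190234178774603683074215458042911785578938078946714295369949581952048785790202491315876475348239520490315098754056696624977714171049466914370646093193786996286886296346749504015343080390630290434836140356394898095581934780083622033742618484465746628236628983369117232109198607884836604591464592553673697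780968975789087884121990721085256062944144072944812389835609358043740877759903840213122825322942135553101918099672977727236054698109917755872644601923206021147111986450703697479873174470706958938374651526342242197495170322635213474695750845286098489634483647305106321341966276150112249212160856212587924051054776854854075496800273842076961584337824093512780847756788092898024810240234951839501832493114503046057029807438736087237594520794267419461504011470697418581040214217709528457144169520213180547556291028064274957389146491453182312402989250558465604171197827733769553769709653070336433778157786217174636012908599005882280236096436406698044213507675169253516970666903076637406749429641534614237399668427418046252355344117107976445733723603877179323455481150189105100835231907075051043018108373216665493001678676761126267649455840823990280974537055329010992577967601278150363028774142377147266446754906149825801877108990734762795109032726249500274459767615473340855815569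973443063422217972266957140840606559874198605215305797151598754825264335051325346686618720612645935320322690505318240116111465119350377157566329763038143867031336052682784379879304712942188302868892665327332420997144753202522952608908026591400822472830882848681172659774885540193380072239000513967733552142443229053326884541928187686966170190512537180141196966282037309316749532793613307739624449235441237899928886714749635711419330952935291011900395792015827782389654831704595944102555900824247749253478662942503789219879985446416259239545890044856695987028447180226466611896699840978879792015786857512039509282223927614426366730585322180383739893553490023485164435383587048523551968691968783191375499114821846220705339508163358167668597656592234075000665789971802847304423611334711239753082431061414303012261319596388411442047407009139546091336159586875754296235588712794076634885060618032136744433079129099943382039775456075454098581239140479352461361072617804569870607185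251074063327390663643136840707053911893617635726075867858421581842540227311374151420382560674689920462216566862026898142012302258218474280630324020337268951869968587506152400421774272887696810260316270319587249674858385990199477889943253003474466423465007142345189509338226118759143486031394372103140247299552866779231480108154759403303532010233498459177996049973560521140043221416050123364415425059160361302661111590492017918627792533217204326982758788267736182349746036303092216597962787377390433330616359832504489677715206024275370158653030469455104217104918885576102453158412801127569210131115468463463291801157996915884923611104596621891872203572612725102880259232356227579286443252136984695265454765439100747800680804078144568376368015553395923565647252885996535377909768910515300078786751895652264688377065981302000086592555808777261500492364169731136158994273219327916199443473857783973483007063450895692891939678899967849718986530428471057186556161985173175995099732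343036343583375679431119378059059222390439870250996678220970023357629706171229920361917346622113632447257143227918910950055441132060620201758364659919260318204733966930530306623805067668269579164680783777783714902481041786625998103242406785201943381637044579849701147792055702247647840268642954893965971800547349631044481504979918563183943620433211751480356397449366060140053676556769103900608899828151945865527709154582197253115604097080724841887112948991655326915545014488750952022455853027638665825538571144870182520625050404940543486809535559582197197034787133215943777363303928159447000763145665280504954959912995159230346996455576008518328118296002538194440859514496640667236287887869481885069216542801966849400589818574442514252368642051840256810417605071546788231151403710872059679335632400610970378594526634286766401894231653241353813661801036352233077991962685193344349676349064702412269367524388352083787655597355776461327755001619060418788564084046661678744937560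246367797962748933752463938235411233118856926914769861249594028707366700822749403271907815006568964088704863458666771905330489918846805183661285467853745203555534729843741618691499811740514056586687761032712140687929663896990208997526830772736985448693669960849421532514973693040547104963324574064602621098799329692852405900301081757043769494304640778721941148098551496509558796713366299656036175966836693496404186860125677242278911576446671534774266946985919002162940858474811863701260728941254300353522381523856255700893354497904643803350902761634332990997320783274129691060176212521749270320572921815265932930259064119890027100874970405363069722227994854462461550075674611802889816183666459571478393436857441612232819217934276199730059313047496425520639387758645359846515392170674274250961986089360665209591347510070928722143141615146834604181912563957470237122942923846018851253661972550864869805981366921091616072391303358911425430045132270493251967569271957603633168012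612135437930792413765732453043010981340099909582655792297670162250779728390192595982096598032021934116356254190365609935196895663335940832103319234651157884997900877585798549000002714165516804784577874332712602310370164914402379000722395932704875172820263093963591292620041052772630096892867478809948846368593472608024366828594760495337224708336124530847355359493950734154457130091121052761233157611539340220720560930678943288792551182627571909296914913755363523719762459461546410552210119083358391835485725789828297952032224299355944855352903460479313100544450595773421621778292485746206566432868321465630761425655695532482013615423483670110977515657796056639210831104762343611310108374226752868745282822098798305477586861134112029038646681493424378843905617894113702390045382164589200554506393322359596523923354526438217236089158783521590796319899924039588822441218632033691172135260503444632671902480552270821756092004147312790778712934642383438396395910391989199705095117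168024093349351145778617786161389638959693650666348546067505041960140594510896253452495131187442886762324588542695911115423208853442824138467188287603566132794924755575901543409395988423646333848691815602000575760740793570019604454946555252523188605462394607765417003675133145346049437198473295361539505333211095543774227952672989854997535025403642101003613007079181670400406576077251895177626509706535437207599604532030244218429373804493451010498057968317134864872406012351500583422663812441450135981764543621471441996200079127927841738454737462653835931086871301231970907401494620915567170676365064345381610772743933798130157035895083312416723786909362771706880349044242240647405726458237068258738677203395160912752236154330849254667508077530510887903635055102913977893234088374968405261774150304688074452414982598280090983896658091810217076840052271789468286783889307364561340818206007008221658683464197701920212337145645501906714369483141358010560449390179317902590577848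247475621885778450518981196615429563138833312318632277854069933268230861940579242808852693584834826711134188444121681664269920702525195897846479277384031275022368329038965237335982537548225155890650260516399944289902762746329509153766957332790377991386526394004622591516144504208178505191344470013668227048664605591865482509615572185841834421031457083322980145666880562852940953522040552510490413980527962088290523331509298781428662084597420896196954746569829466589875205383135886213544359613008952691066304729618085732247136359968297103865033392420708692610816473806026764774109926533507479105760234126770758415966255081117866763661287594570616029688163014812858325104767506482233706671246077639642571845585751972645245138737372284369275810674780516324730772895009998206098808580276043153918077985678284215828881537228693376991586905520704437784404935413417475690164661154560124381216885155779293539235224088976601206417288339677014526177863918453622520893696592669271971778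795928491276375146647417050137819582130903877985984762024308393834359063651494570222613059632428811553132142153719914976264081354281819050675999484281820684160286878299448950734844535856450345925236577566462686166212726936981658326630133275274631832456092826092987820439359114384618149395053667277353392287558615377568467847716224194320973155416175882315453881894392459469148541140279131799169649899744114855516290234807422642965425213701866535710649517345467388563404412956676958211758238058313104746552199536961836330901705984272978044167594194934051997023148641975875715878337694701016097187282826127508423369703287495294586916011404170521760939543550640666609663413954418536133034225366322979864468263863433826336257621194985365038553576287271806119142954896042466557700204413856929662126551034888602372140128232471385421241647757685272631312760343778934701156121471984034974531170684068706263612281827683907729711710307944858584103627283792710640018600673064239300621469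464560859480300082572713774531620009978734104785057244531739707113154170020167644720984940570461759644852239300100565340805405066203051318117153143398505162758843031863822487084554902376230014440157285328647442524309598846439864277666975162231424339147914018239250537347603726862374926968153284043356495332356110367074104798630549014475850607841474160539967054774213528373500714082678534948741612215803329252343293395411075727726419902686585817946329708651937793018041569532717700280953230988753157303127780642570054364041694851102980272773205862511309128090458699566543217853455216664594587936028611342058440348272006551957498722873723304192718236081690771758423509246256000120553582681590158708762896695325412472946373701820394062409577205896140151308002157658189923595861487587003614827704233429798971796617746128444233741968674663325128880970445218604767833725165421348016276553517963953013537356392658316270785224514033635256884408390365160062535673961181768440219344733725624775289948946136345163415114799497318121453744483558853701161595635303332195029994274026779245363380115573059784993179295499612857588730669076448624727337536746612314322158369618875970219804227299678524193762898993482613602062138387464192)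

noncomputable def rc20 : Nat := (nat_lit 30311338450296223247615921090287881579192445083645397333503529953209994220440288181754001939479663787724797828726710538889772119116327602690217452035965368761957146598162772915305748972696832911684681743425772072622018329730954024709977145952667092294290075328853773092796487748972470550419361035387547232668551283289859872778847235796596712424527886859297924068515921191805445378844902934402094138273983212050185890583555516506791845760674779816736369462933643484429837017020827354953034050334451260962922385188020461340850852399431788988450818277154082283887554817224053010457530378415526224052291021365246431080560487664230906850630091290518557355769294805768561514246292702622910570900705159092322527195852339864376888535565441296942280333353963874533481800295812393383328084170308977027638406305413221464005700329788079378874388520879150322453160797093699138552040423093972391505177421739646092352403003310769655118004903346663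869482979936981019473374269978819613555543834748706305521156018361406938293895336921601753779071271678268855623433084696903122443064437855302676484493926745896513116015864348165390383486127640205134847089247915713736829856231041632872391505421543882745788290373040545315569587572696013965760123644343368829569615307050567877670636926975088292143455651889269599158938531540522264770645034935684464703628243360828281325747141576588668852150427383356350391935293199594132513103999790288161230690530109864045228668236000051285676802348208797793632085973073738196880253780185212765390650890245602746753961889053243420622781243153594379093845193966910653417840329527246125849361183179914450750974488134309284229761476244225744872267834660098893856975071629991746965288739276111618557048307230348671697174218175251482741566321208650043085836831442246881053168181680239978183755726260096802902729883744111545723740216920791332807327365080099009238534846350808503929960523854827893440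950928638231798576580326083057241713029954435463793554354600276759523871910075865352801420041623609153612880866235233794449837278497546615545857572695016298122456357751058761283202984575359751049407277713956659157342143845604947643329000000490013715428654238211725982318021815975387925384805740421272720032793833373655958533449294699973504421417694846307003308470112533635812500471596280123587739723673403764350094850664239017130459361116665282312874986548290273534078502339539982107283717966691861920653010162273312852415801052936189993064893184273927336549077613710588507861696340331401362566751927287891116548400352707895597890135358390065012233596684555814111805908173928888353986811797839869017156110613522371852594855111760800328639163255287364942079158201867942253571659589998041445188111315398305822435583751596370247010890806933148384254829079858857988194499900947633262615203866701880282609950724003815983309236283196702136428959530311741933723614862784192262918281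007153970489441849177090534476338869769922153122466026159284840603179377785947776922224853549726087499666916900925124381265714452928919342099620271343285560216690876853972305420569835784167622723009007258841907965737748972832137437248214046135451614266125002228099224260138021879073863968251792686207500340469880296862977825021649759588360966383897565890319330015097603091770803853487965694027228565158989704664898366784267792483637231814890676462738375227415528086862948510211292226487963656194152548625483916095578790590959334206218288499774647159443219472000665123645483436018645409863525366107001770885288908849261842480415208987582595605670305292358637241726772590459473663554181550072135728567343731729786611649615228898880458882475347013178425058600471623178136726120810767507790392122620278343588656689160449620127913905427901014809315505306161106448742201691148378983820314381676748921817300695274892021119404070562894107437489481885630986290200521281344211480750767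971477999211287001062321731979999540548366786907573885578730149346382359474911967330382739903121397014380459261059167142132877966518252545646199566102118523417574371235574753682677772575337652124355070378701816873306092932193697689835095592905854137020885923776892018293573924894407751052630523276511303388613295970416005795788975377813686293049318358546807748713644303086215887074308439130601551349505942757953752946590922213474753772464655547703210690102339558553826542892902786244556474875519954077092533203078125511057196875103695469961218983390580225208026604251216211054667975190189077555970793575380724310752554846049809491078949715473112663126188130873596195882192097387223262439873680563746871386856128697732416530907264252116941976603586298090130733913098727688743598968375644899787158664071158244592608826171011703837836301791924956884417176368329736596148983050538852913998857569555646263490432863647249294012207918115759805220091335469692486232673785879108569731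770548404826512854839495716282977663067432080824378530312635785579704477769952652579315208005503952169623180564151306906317894427389450596847449334930092925544615569741994599906416648489855677920059170819294755524896197749235148112126191804079322431688977501071851332481568404427719196179781482821724936055682247749252816346866522762929399054104957422424246511249121751881455096155100501412660018005119412554673009761944557992767703914804148800152998630536121294063313621061468030487957780889046096455768863157800295440041913389887489887992925151995935021901709359005033679001859730950924253696316890880052746002365182202602315447094939388547256345199411767126158388489695813689979652538590063408223155264268973992540680660537215026901327411249719263663709240515152840294440217339477398373469472816089020867785445018936316162183326053407984306831779084914549427608391860727500334988844542057784922070572396614969038490154060516182419854884829199349701805298632896215317661300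895316956993479192506702058055243501413945067890085004734084626162882503040330180648248206345215179894423665470053937581731089648546017173252452924555262778196145096633554070367216743310623399626635019722166986773423778958520098312962928155127692317365684474318587123391075527563574468015724466069561653969122257508865674127565792036218286545070564053013185974624881309793943953439287822248306960383806703439308423068393884515851229500421591219823506015284791331905661822821730118840475621180656617821176744465788441779492998742834492342152469260953688548880946382688833728031037472131669714344611843195074669513172112429610110463676062498555273707244055991856255466300861215610799400397457860871106329274920886853501761892500981643858761046615214687275759529302915329198743643695480306959855853149758159567884793605215071851138432832218602915018864156094652929982613693789619433183285204607168888386194025448447621690367052834626084010640783957373843799944686738058031035775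948987417156364181639252755531069507126361864949721387135778053807326857044100933475733164214276726326089817323094283808679415552567235921590984076811996167969198413751490848499847233116512639061803340995978001187042536709917913451812455674123437951339277866699424692828845448471849287040703351943275438039130774760874883885311545003602368724274624897617572590827622455585371317565291670136380068451021497817937645743028484300394949677309381756274494187071425501496751536223549516572842873420003827152666220052238717214515013843216331222819823478935110097780661498663054679646035705169350489718114151948353754817228923392188083316611838286255800752213537691246446682612119006394713500336229316416419667634124870988676732985631067379964037207128844804728395009261498797983816606562459170556892594529679251449215965068705506262793902448737707385292637442342731715492127265406192362067721719311141330983398952213325893368731801000391400506405148879854305730012636138119242706724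121042889919835424959162774903663879301030737428775918233113812457319558390842162457412625215120336920759058575912001774600002767373380493581279400571956968250949963559021415931962739251579103732648776139662221248725188111923466677068344834586245877552367457650494768395145892753527163100489136032225360222849381190073107832051590629971497696390192606539826424180279053759756809171668701234488367040842703203443231020517580424773090084603360494041377194616447122280525770259608221166442558495707194638456184737581425105608477291577366072831470788208658244680216819894955322504649206020891335853089666519951340910889709394323771515015288063807605798935282050473317742035687100777296829103645806142978888330009117142693141817854429357484310874800021013540132247551846846441072553627650029370512680426242820754681890974349821867423340061972465360550206242415693472285260133668433496384647456894768122503163053347193829716453259347113182101323610391737699411806088231820774266303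697641199423341033397564047998836341728263122690736438057827528530082496629225860860147024655760217317633019289649800993890322136168761702564098530354392625243447562151323963927195454407307759383979267591283536120212822797032894010296504683192376976532370864633145813601365211063053363368966990508580044611599789846790169459802271557544000850009406247354804745987915118375829070020268539206642765193790348360980593705323005822683085377401564926394458016798660892203426780819446259167902379943900055866111420137825693452212797330715986887686655377218009721489677078254947491715089329547651238227470153159545479616169144339547217353196373566453808615726164067385944713495309378957867854928350318244238140245379241590365358028753667242103521621199421516014556622603193567853925548195905688868727765528803880245098818624415527365510094065673849809485593571406117052233579724939788662224613772300387406403616255380085528759768254966247453373431985770756197855290203717373471471258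040744431906189908307520717031044900745627958149094680696675203038551371166915680360553600751785816915926428077300548868734914684000024345236474861559894679242433574948837768026182156588792333672856647940423622719094145284494663605597440087953477332650604208563021277738163105905074297992795574133625916924649956262287824344518248225875397706095222140850849973276749593235104751138944627336380466032037974209018400503575384331808088116519650021295304049628219278713960984900932988555660468650748009902514952179871846372271453892087420460986723861792099624203154248803309803225447661994707132091696068901552242823133064785560101693641846645377077338135482193002920909844273941732665162750695759931581639422416499511023719829847537905229076411420013084598738428258456245573554141800720904153453356497953984479598059291821948270625391742683308025546563685043293665212943866955493737800088929712576325358795943387289626587376577714788810167512095218185430816634100702920555455758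656124068549966063853287299427057700297053594163392648845366521887179364187106099019833256983145585523866981379217591706501587048577152264746607943003920742348495898818146179255644581003048106421109677885814556613267553199394949092169794508790465511027793445105986178283099601061265603031978247238091302475576850125344146358637682311090126113606204082677857477336043782116637029756022745067233223481474215067085257801221761340483129689089759115649224897892747397257232517707432650011840034910302566852222597486697971500693109084626149570518472333628672834713941256352589458998484925941222916436242388576659018224949168620705663128290486083464560467956917039326354496557869191535905742935347241264593175921633596351714933738803951304091142914068363156992805307144316809535190529125002837819214317783025287334182912077125780320794415519958753790808944461947052584083156734191541451678193659601140525061816254860959219184391847880208849573138786154725954792565338421237223738369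811526764098671915867983539012143070552259218511188791394040396686508670787241206346920177496651296914464118656189965725268585570124179632564411125476539742197357382765933076446046683267928596368554966838800603300945572432319423788310962844544771742720565781546473091499267947496311247424465083604785555207527020280856775315022801018306955910015293473150612789203537685690524929768917916975752436170131466284381763254576551993866331272911713278256197283764247637284589712944109880757642972450237204924843634024004599388163729436844175301290044452407473109835722496007274012476233048269520787368561203816305051258019362203834411977702967823600645864790350972850391579655811507273463756397879262341024030001523832804451588980336118173589025142630708210891614565260222513151563660326552700761100341586714882739167130081184454883532800522511362076113715989667009208723674045657974797031072883981063705966639803151732447034054101829711527595711667421558104997734017037690423950838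643467221662250758253666173331474807228435206875091094802457615597816578049281006075429709133475174326189041545579668728110839332738856722510800703895878185551679937731337951549559309403938002003005881144232998725578440118907569169877044896151602551446254035706894341859835197092874700079821831226581134321278432738038283397604140001202181234111273660368688785046307029985718769985042589464604338329032708274818092994926423384765119702830034046919631270194312349739467628929553385682207235532857238557206512099241396481514552367141973842457492065590666879657163184190268016236314076217881918951548951352660594393282968598623248559196290345820019916943175348898730046925117794964866901558105847526386588409309281664854967373178783452275859434404394874748638010116112314913665068145569512467572312643732801895785360552527318766703892067398254553079244701963398585238505500239762564740298147420501918883215332903825777796098140377600868535973229724327835170594698362117334962172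822990467271058691710115182842510008934447344656644274401319355039639621249503097101657846314348517872877711714715539641428997774589317624668062517219687118716029344189935824644942841670884731368624667257424005871654959129770676308787880695063025423993225435283796806342402473847150804717177052506242301900155278663452720597254437724268447470776296073986092895187357061900315036829953468499024238497945956538917181818403556272330438353097707927839828685080077685800280132130054421169869223285594010279561413380594271674317156735941336931373095915689659091883345091121262517917174185000074270870315513893214051794830104887365200309791791709387344078726785355213522666075761295482760879447241660306414527762022407715169804383272902962761403442167442467146710792385850585581893182988806328016994788578958300729855665932074443132642484537510402330102440091279186466296320023075985880627954949268736287230467868648859771810810823709044094036374723585971604463606492720141405353239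106683927296557963807859240803927168625197553842863337589816926457780681615413400067134692538381906524764304651885800246768316737201065382880639137734576743330185543857267264807286685531889894237004789743562651919576194248530823577155435177381902060894314458065488462111708811388025838461394774850416440380342308105655376730249117178544942054694414742283112377940524901470650890078959029581453353498582442447909821873971869516753049150542911315778336323709723418882087177169948231654645606982708301766832768298650936544695300913455844942773051586754282515728568226619446573123144895736380040461417146426235571201695270673436203548620408204374199368198651302744518319291501715569666569853597521816553025684401962111777883170200391896229083785940339630425215497125239852062046485768049637716962539004666034864577823164892920789715456691168728893569260070072851146473824367987662063908123506356375976892206181294603878013931776708672977224016548302818883912268622917255876719524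613467747173527822406128115984848265862195435750578252662588524242975992017689579000779077718209406896642512932560853808393806326866494951141040648354230276748405612411505378962302400754068200907528848355442761001435247643676490851368354768930357871378348023828068175030806197808453634457863520136173165522150088235068197105165271136228985301995127436060754888527277126786201456297125155908552725558230375599969536605324133068103073492776841014128117832295103090730910784138118714378179061015810170632480577491213005174363577406622281422074962718674976837086019660302397013360817249015267187607809753267097874945272272728599430722465724680778242049786339630179087213496098172552450659305609969351446487997599041019640724114770736234736844681819290307159073333009821864415596779250006200739565953506933747763421481975742616994077599518894988966787644278038276274299563730701795059373054945412174279330713305529940941263256917870464731857134477652277860642722285190273378183664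487640867141274002880616980724764161525608414709031745683448812830574370505937332834234346527910272596656634969528545391588524613276376928219543306430207265505195648448872922636567545878208119118985442643570461154929162865465226494552603661364833694865083068698225830293589469074609423148158245446760282060691228985129926297039956703276556545722290411731980311784680734803770843510582498482701304034896695509244181610626437609127231202506077192000628758664579144148775941104542914439603173179872966668339291435063557631661416229832021078044037963652772441389858974898610576244792920106680019124091039328555457928811037201599912708318007501099639922463580929597133650591380852412791015899646692762331972109497347000650935466817023555421863322383516484417102950017623021960279379020161584707848390149824075167685811773949619154220152555689142350273120520028988284236962200136777850446600976866310697800279912397722101008645025750246495228071131752560081082779268133707769816599916576682478834755524720067105748981982815931531083619766756641596661790148576035367515949153826893376693459037990477495889056110970688895645930584395963214208030514899985984798468597982405477178079484559121160123041804250278701448566679797760)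

noncomputable def rc21 : Nat := (nat_lit 30376445955279163453258245947310736010559319082715478863148021558235023634297834927710599462111768882879812945022685109372083579584744207103900716268595337520708518084633456785384235231209987741325623516564805042296515421135446725669489734237991918884075177607375412389501224730536447873846189008083850273167587593633001954570662365740942485369588144696058354530671407398391668882710619765789455913105811295251677447482940778525178501617765437410150956813043625251820409204055586946627586896433387636810918890967648122349347524616314436167649190482244647347170348729931449081833693990386814515143904611767974020173091373152417125469176702421466168868581152325866316221217962650888281026885312364156596719922269751978296575148427618671762807016568604948047851140933724425885944228451433669852240676945040338802466314416155935139499596571503102636113887602099823932466408758757017869722029614184539136358853597560098985217489547649566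501177029108897446875682655717073291692526971593067498653250305164544686298449439904772342235268257369142915513486284824035152099905964131022329934255796627753750076056911986404393943201660652320237616911852425457485633751271057555547299068285332020470880059278609166023933933721654526809746741200674633765813991639515436507220272806466262890110021593391633437110184692572168785586991429520004927093353046268722328202162236277733102606068072736510418058861031001078475526629737318382304329790139059019817512452109557014479147744020729493116069995622192637621219967210374821046837562764040081593197226477826345376017137279317308392738851572131865738457341115651884084750759994471578314146430398653376365567449890434418664117853926873316777717896373725783025726069031803707452197136074443987232647468385282450613372619738608228140851851689359942380823263469624759192685241461663059521303919969386174777120179237432018454419448073342126061741015571835391104853989926735185969222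242214863490148427018583779051578090549280115087180169527971301413755623545681778825260350350963350162062230252268595231766225308589521437477597605715983547598654884335003564361418737847593753239263996935630983314859078425020240570446862234258786014162152503555995860602193904471413989876634792847563609634506529653181410200803501931059911410485835983037416519494687491811312001446592059294753571159135237195159910427405907874995345688327129370124857334913678901681657876144546491510029750883748738511413145346576144718529775243931545321871083160706782079613071722804799847251602618408838148271460025449049550381329927021453617765351559460447182454589565497180532718292126104959040188266259325353056447615064000232520515132213950466953076491812198810325619679770946651263654957076496987286538939321287553031441837576227536645004214720192614002852718155504941013894616139427089738175072936218184795112417430516420337063187253638333021800738108311801920461393281988947552409490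929060127871217437092660800118998993800714527349908530161662256872043654408659134705462436487855877808241331392698117934115613281712450371862250431226417385807962617578982124449722800814765139632864230765179617775676398720162594996555528441983647189601344405847440101739597634755240763263895437492422879260259102655272617187406271592179925403046540863545334131931922953530664427966685151058391108049313172401480076758461512195250685591693035566355972247351717444516332595374210943156335385629081300795013850140165682963770138050395733650998900470283129881165611827039196913286065756631248836707961781667479436876085997481428051141824078388166337418635776087242800775500556961879127876506944732535147006078765469732733344444143589477983299990218107662320263767762604216251628049360023641619712056191740569418850888838934044176004293470515451629404716358572129254361243569616927256714355304150621568699513691541368964160259475316888459481198499474203962839134487889614161521397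608890953582383674119368174762156781544653144507874253647350078205238484672860852704825624794660454221153678153740127442770741433759743917439855976218657913103815297460548816504022921498853422235174109068899218708151605340449477519391383338821868807793935360523666601630928617507278279097845832538394505581392163808552768350738576994764969359807942772544298204585552477584836155750240754948982479601086953655623010133123359689994740921908665855763293917006010517397063839518626245823551381383725820379128373013420547044377270572488310952206977826358511019891927414087872829494668211651412648118439090131144508911096682188221015635251672698550862370073898136100494919695481344165704786559940064225168282579525937718780867750610483106182501900290709234725958177129509887661514389888808031868422233654790634342337675699391920153704903582394385663995894428630105957134278319446747221411668741772201269964303217763933916674282577536773590741565449657728430137168995274803670965555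514898816643741013936885634004096930749706585596498296551968855737385677285341207098078376222655054763418590608679201822322094129288841349540342892302558848225663897180340381845957184616634850677299895816344734118335667776654472293386873527515207027041354986738331962080100410549160287332771940087408348333034937020214948912236062120579591889609097960683587070328575483922105058836944239570665710412354631482814314346365246072864787088199690126813180939242765115968151897572433838445707256562852847371955183064610051133657828460743935932690218338735951104914315482902371146366730395076548816926505604583871334618767502343786183065282262631281918467786290882721589331911302131645769691419409725596402666557634295239620245515479178580387203992898432500384009774834897147723376606669289170511069164296634629121507932823834681936656720980178526996812338179544587874923570572631263907153973210108673430070831845021797139694535124848386994074178504495892613966659188739630676101821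054501229556702868386122052831243460008097413209545491518209761392218188724146477726232641990207354905350794614565450003850706360549498860931664747839852755083872753476858137149345389130539460633496006241448981933012925441300500563928949045424225514932310659403642769968655031571338804091725345954504086118392775408403540006308592760127992218792801823677987880805014146387759505967645332989174203144154872875215324558707980536436581829584055709793241784281742092482362462372251549336296425874857871365630523489991754733979703551546160653911431611045317263588860514709375149627205353513324991814946277046861907602326995955217904810797402485102108543312396495678016186642592520469113550552699588085671293552909155735634487061425243721674350978759387356003019865477871451295359199236942843877057082289933344056373909904678953053391704192835974695935301518765785694366154102452448337894450919762402996431663084697292385593805268445394221416758032714617071501324577224235941579189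594747861465477372061937033404235259590972893049728849476505266040294700335074541625648574217376499230736228896304951087496106893608078661871428070983942560338919744505850881789369145308417736649007677416569233175128684356979406300517975074345668328747786796773406396081647105312640191652754825265019111075495875035325510740839433891517441438111373106488106520690110864132458096179009895348974751876318550647780983211788423226524316782178788786227446059829595593612308237997254252790170366293905185488303409146706266942949720052109623987833698680275900155806521158193031621052446712761611029236653151105540245238692930176733280038825398115737427525890528857712124268872591688044217653496903477577947289293526358406288102333698382925904370830095475766064364888140335937774339459198467839331488541854839387376833747850676288634487288466036308505402628190480861009056599831224261003615217946856721161808303803333894837957454835347976198804414691564837405743840824100617939446395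499438636951873711069286305015799001373263136309371129821291304119008393471567796954012054298450729690592709233901871759388105605579678736197999744760640893655648317984269137227481965901919583998259670226471693983595273747990591038523654167440957641424751193140626127504607720368826751148651302616315409230236982171071359601929124678748191346423404333900121974044427280195384529604022954123003355870828609805265781983229732511531217286608908139732254319438437736106094993987602192800485893677669147959903791937239961266447824550035801548236142193684919286402555144635604490657821706608397420627102763680385099734374623125291848689040199054925537900016402036730735454380678220484081775127616817369637513667792841015852981930339882832766535250496724488157260437280637409345950029223739960976308539605114115455830794751637896064798156026094288653266473888387678982256267347759534588532096368284381546727259168118254589318475916949564739054719655693361263876311877220524413292354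182626501662276361632889048415677025197455669943405182515217988876156859167054889531743464768327522917231645009756021744874983163685040496718834210246698262629356126115672741294399258582243655943935546628295510920192089840235258922066029134025300982196194447931056348650970738509771389871507830733330634808130792958214128042027331655064593886233880119615834080277818491997645825296577422718972417737761582180348995884755876584370547482976316848058492964724757808305645722782028210490288657278587443041640141814545167023703674160353876891171230073374813151018822976301298540155242835654117740782281945639661977635743605542960076364854402458699758878263973280806521558005455751872325332949224982415913725095680994606989412208715568496611471837433958551200624997525028433197017334924579430721598083729135996288259594315093416341116968399723726951770446499955188256024259874904589693571143214244774829758760680324464208595413810909025077224285446898211253141145328093028886048636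597182502592467066564317122731103448828563223291729327238807733185628642888578983140874520675914094947400384879898031301482058667253958263596971390877882598009554171556728154594078014204501682545182376012870230395039576110053936263770775102474549101923530354637172340363674374853981424553131878207342167019744978712268981610794210396708421965042242824769258393509372774729035073038440752390650896797788417797452806339814488022874372400110741958327058102133902510297034676166838147218264974438931732736489210002367818017346953863535483119489346961333633452828517257473539402463189361180771989681518062183976353959106430362302105068844010231421743211636427324658110077760620621211231981698514916157489141955369729340024027927120092085132580258784136470651168401427677312660900571854707974422808087262656155404467523412868465534107605991412387257211007195789757469058588937703074122445879437315267908972651375750799462632121350058323691753345806048189857480799130202435185502858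903610666131196403668086593154760462481263336845766552660349598064985040955970112560849735612116978974410177203059812292908554966431185039684727201099229748230956232546498138876316363014215296976215830573263029200627141974305483112183833181497831375062495662972470382280759441234492871579493268704976594451830838742241565725240725525457301903226242095026743510195919013057890693399308727310548952047476108103233679797663492608245844510404696842750280134618224852724566918182363876307975181394229525693350709884640477794919216423858540510107885673057645536373126653181225392947434133313890035903709568993341319036276937046700431122269246967564840533869807961264664659838208701754683685399642981166906487539701320247017944612043268956754533093799833436862105251320249294430515291466521099332816800314316347798377569456066856872608510062595694608785113089635458975997539198671332534794741404414203736104014592606477603365727911285322203518824359429190175786864588151382115786375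058159939997773379330778780221252183229908545923159959009531722411981653262347376875363074639687669449505083107775019895366724559345137052364833550527794472034128735888888449883852372082530387596205066824025426817437460330436833269784837743513333707736101058505017948803814820403701081850284515592157928082451526699549759829235419431405872722117156036693392037172949236503926904033063847413217320645590675697828910495238500235230534399787376694555018467053635174773374720131988379128836993066267132093395823600667662682969624741753312338290255136906257619092060790203076949704280749400712399865209902486204120707248118165236591916406534087046218740638600826089870945579286855846473559625778546749832946445255560251291564933698456826920240770251059992745076014207313012539003974584239493679325436937119640741571368422920416200908506610898318563398069833199619343456776711975854104890534633303118820545777604030914874284481770634708095360197201124525365468565072340994174109432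100839723850216483048914771366629889409453364768279873680707417695568344921733641736354455488024925702819964073617604238518404995910421087018116148961743471058433957745881705346154773924757278757921097128152087866098054559135519730150943488667521874061813053822486027700753702350383396777934477935383350422637174875964460494135994038348990911121106112272670242258772989451556539676519272387693447740355131822608213719744380436187146927797419896632351885864160665190992486615359541736154462428383126680397098279941744185220029083984068843631251690457324730650400343129092125186298164742154817090052484098791103109678026367048807982786963532966650325220314041109013980319219387161211023624282680315913463414465098037965933379428531691403336101252035397116775745528852846873299038768963462427784660635628924256517875888857554218909220947510823859355684437839500701340192866802806769293157738351300091173032758659213012971672135881653299780078392161352123661551690141547837955639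725023432072541654948829039723637083732378929656832688047326872781910339955219438279544200052628148767472610494101640012259197107065464053121523645654516341585243280415258815830674885747375429787303387105531839451095478619463280522034737924993457216092276924847768852265309851017056945097440128483032849893068625594688708646924055652102886730168422259212412311457493200129362722423745695053242380461645141897236439826077280713368254253939082428878079047715877462173341376904188209815846935037120948503480439259424102559255999967019668868127698251946636518824104094386607186713792187837843252293190132809524105875064749429497535697227167605945426487769077586375816841317260162286271425305399399014586042967313282242879252951788403630781685205723621157351503208040863341412512937541967001379574442115416334351301472832099317708150871966423410983409232601343359705163752334929712823669524096795308121783719298232346603282590325316449971469156641389753395348619133124161840566494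846691835849004838275669123296192524125940918669973214735696233349554677115797766514205087783660259110068559151718554282540852865081991512062555102778414726109942906312654328590115810843367634435651491191313048291999612788587609837516154447800950722545324463102692201226864926424328405508050911533643243528194639432015924498658449818026477053188853056419704936476619839466695876013643656182831011433945891838156333163961074795514482057820522533444380579877913706826105836188258531598351988917907419630724464201653954634470030293262455483017696414387039776994397788524409715019532798904605187033630295856642321202478206284054944372222355547151271799559035906000371721869315207187617002065084665864204518466935708901591093106203246858701809898433515456421476440618774002700014881460499760898919218097128871066780251763089840955036301674186317873111550113651143540511918640508847882539467184285463217802040221386377123158923246799126112517841093315436552879771276559843032215432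800474940884596475830003207157892765868752070289756056024659963247241750640564280499303643132937910590174645732853942300534917628137630809979947032897636997396300165875962482210098619386631781715175541827889329404392604526626043849115716471537699263711214090553227868644729762630611442747785125701586001285828494605645172341056331896738246430954603004749575926996552325667144587849216380520614665549000694353943200186408817849412831571500674921155048906099891883610087402491052016581197728878829395068434428986694779270562779620823759734206547780460476979230067345712886216960949484696294758469491069586281537933869909435604291445748262105244992684186567928243172744729690037444395074274383166020431453606500510121683937890347179554903281740820445491402095970578779770553256145079428926679403241244374464472207778858813173191831491248086575317363790608518938093576726588814558600539638577730649714852887818198239598444281804007650024045351655727071854832466399272014793481395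831021997979004099192726450322849935616481653452867257375795436437024645464302360711762623928153181421954513819645033554106453204280785660979005360835624226224764653964725270602905503402734740706478593920154058849890139396114487546301651994318258072708402641020471477988244284308887457140748344912538117993736853987483004309288939196728801263706051534177145001207851072977366921208710994904975566721523782524027850211143615582300883463806099622786226526723000850960068581096655876889018874207212616835494290397129769269032081259489492726862189248805435781029646582963534564103140364911855570374523160372478538184603271125474722015204767941419104470033567326907019806607733157151286828585341951722775606121414131156041509022152669699194413876844298757034374895064395074316332193119207608895261794943704137133106123278738341189531117067488267030856534140395569431460901354628838094713604483217845346427377543173126458251944214779130339476064848229007345395702933728310118102683465376077808687950050098040775557192466844630550678833536551842448272727137295283033501685906381955983584633954277091269047289852762978075525315303140608921277420822686727217367025086209739880945229353805796597629181432836001324358062076592128)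

noncomputable def rc22 : Nat := (nat_lit 30441002124416456504232239506474873903227239855534736331385479990323411233319869423226634421945566486750227379042970245538863779840515200078214521925874345353567408944455034034513482713836243587031586590472070996948209946964775511107755422919339713309040670113795928256369858397289291939079802580557725496101779686564480791190564225662481529040677069074303366219282585078543976948579973291364383182721706444500308931443323198091433865742114465472310405545701630988319513470701921894335597385953051325189108304380782060491058018215315517654238659586373806459214181740597844582353329755472438649281123910649246158721802645266636229708784491991759023463115850992903578844318736449857478733921301435107306286446353527023253587272203570799143968245543777261622403428777074456388222577639743103416062555561297794818780478338905101605358213145347307815780568969632990174481477068390400209287493726896976567251065120034848341696115929729040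406477001135810807756733740108244590958529136352093048351012335954007256188699543533823696930116229381957690957697236073833529803553413357686232422022315140186528504894732144563334530290487147230329279967297626943391728933648077764347202366776936649821516269307611833605581864672660991550340378450251112443309342244008467345768108505190955786666115105140382164987234420416581518708420239770344915212709612721771243586483980315960335741922285749045976176495732871138827206667208372945749052874560510062590761379709061076655508672198430128032012275553401169747266550341284943350223797267190753652413655250592607310195297693652955613452948253855778333206919824682201337359842162539446559969352369559298457795623650004131699432197475133211178277597828692645366995292993913767524590990262011428735369535369740871704406266334138645902849002951242776904058055423097836161810172536669531919873141532798015189195454191202790172275889165466877988420602572398021075020375830607101356712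099983493055153332388169320035618397241780445646749168883213125857628504965642760144569247221355352546316712318228068638171248525804156737890637070148689259858395214074280814785308737491712558131494037127455528745175384465781398209720952685979893376795256897290325085473151045329490612360376673622287888137638220018478794046026568475844656553150857695886915742766429403688219894704423991692391474952483784442505762488204621932944385385244792610722466808404185216055834788229847098129716104562867417997235809421368142731351332373826555228844188661735325969122060535547477040924146650735152354574116450972580175833665870443106879665170049828500815878505978132949646872997299680522673997745341084476901842851667083659769109843077053900904089953870623239038008732154256111135605516558539684331450094339528528550672589288144711974150120206990329989196248070254154870207122150514810180324185081209205969823780601720214620248990847364853295645307537802588282124149533673333869942419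157904450219176729469850867997077668725186682931185148029896786894046349365676284161435567237537883141292349392162740052549042294774728717996906933872508159834407816556462260906336954623030468440574217773491339203112203598367762771268451916276205771964646842672392259600668598654810026796366230085907254096513515449797411082373493598733016771780379384584951157099208364744362016894389311088432655757693185146944508056986713871980909652591348221365848834890484342504560395160762858285055851185137490700684526454405534502942061187212705191913727923154243441457493911916860626004173463774546983974686195146645775000342732295436030870012838057890457294018626835979066940415706770610249770872894361305130511412417714577228518400466166887947089160619752280780780450037327654693940322960808742085343570201309940312590212434879618171524454275439564843606038315490181350942668095303207773304834287619893035811662851782878841184023415714515772633032512158304546799395188123814066344889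968135895432389803571289001935780454020776140763148336125764592619434869002842488729576970960371607292304768020987247438446533193874923108938261622151135222560162134581967493142380183212658369579007044889221390129231599811508316037450095734844738094322188474004041085105987651433752153433657126864961308061936289181138829985060261237181331241726370927367536055042914416860867246220082429995041030568987799283715981046209719637920107527512652722661912402217276712198827036460212727918209443761398340503830317966980310166092623329154996501143109152944471661321610059390153246901289631735360873042740979110906860945455316269768686871659194629455195019757342948508327459961817522094192730400673644741758210781466983951338876722811644402541752195826068486362269168471716372320968690285065279338814131317546991049704054490863977717091645124047908089902787367873551164797091790384261387819004896741836043751585265548077649097663206265036218177503905087773795250330946685776572014407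002646951416054697693765676761913189037654918174521860491077015430536477678067950231462919845480610595528483822579185489463470220612143557687798386113496637575729625571385520291041679874650174524479808778747323572857807826393084543120248776589120176358226133571503543863484588419649295788324070610736499047743344262605442966776821226956643103472441286140774341297398426351689486389708746213497436669552640821227856540097451651079153907836242023359740992151049592754615652148696116878751895821118266049139376177729755559191608227345510074768568206277651757652987355969539639148303625908547238356950866002367634495583042983899134211216314718560593326916604795087512497281584600421744677467206278247688420325493550394982967813492251502143614265303745976264695221447833815142544211802830123210999042234390616611537939880236871091692451802301301813860551048811581820964574876014531986732251869091900719893984948725013734780172695304447260353907659307469916068710215739415464616123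020821671012555334236429576066818691592659636261321371503981206008270466720865839745390431076231578482396525830198126050029174962356806699212417446992278180601889559084394546321072996173866353602609462463626227792709917391454328543996268845542467924666499446422348809286790744289901534974004660358992098457224142583029206678103844481418616561257065265887064563942628124221154708716075511993183437356617754652171826510782325486948150039350048383381632281712592388602756351816664601137163346062616766359520327919715693657727823274395251980992952809598074632666725036164848596700454779113924462597206935967880376587744032002097236808841501012195214461556150352793060076065321293290531568720604882839034752468437609369379296592286362411294680538158069657877390471556807113914959605042052320553922092039625603850710331712458809478027825427671542776708057652564498728730835346470313378142159255931502219026672964795415762810920089881001486065542302286971306609267853207222180247603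869893477427123133407770576526510180433003637187488650106008634101140105204281348436754780261765326697445508629286340609392905271056694472212100813847792869588580429462153536338830759272139037064824479591326365540827053398252933632696426712099754683371780814006674015607813560825501922196623861952001142412514308307838455005679799119245008613926787904687667265450003161381518553811894531929460186354349983318051531715634878458641546969969661253954938573610809230407230445971799265265055365314906750570639815969695729972930507133170865421736587118971391213928612621157322118025365495170060895377580601852271163843338613269902352499815756739000623141768614828654384293414857119853227733498091366410758400817620794826708502861374691803719558228781611867057011548521083056845564215963721764536729838788430529587596515644536557718489757306108579197400999462741595566662937299891922234803098251430117794223975554206261610636702028672001324006684315834632623112782131647540097365646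198023579430796740499675192805346928931036706646635715001012609160281267905356052367900324655007281899047259485779535062711056035638067045246693088368809852960267988220858850708634678719567445467249026493451379200457303719165640686442996084259002606794399651803123922997032059415416841865455173862001917172129578025139053445192170200229430166033685401400138128360571232675865612268690777387260661687755386770046386895534671804867673882946433914235997716228376526072615475426142292394241281129385397892323935263461952391835559667719673005335830198898811274690725192285367483954247967262491250564436221417695803586331441454389253468252281311607319410360665434623838923715870409363477106528043555684461879467357775853840675694338960033503149125533517818294109942886086700707862006265698515451895336459805725408199590112449642815738432965627103436227491611995412772323639841635544817351278766324722122605813566438590461004966341978137533277529149324194157712265577742822841039922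563682367805948442159679189970244947918111705788353506854788261587923885760578518826802948140502305233422035568878792995819874254202916912159173022921260990099673288149869144369919348567977077588886608579861797983178588602339365757273191654259535433941359868000414366458664538233223025260356187467285184159237820372487512501967145113821154304476010747105233153801867641708488195265330175371102856141193261414221352219953898956498549943171481593298541957635118654630871242000366088759471878337608221627603360789736724340544441197178515516754598430878095750991338518947222489372520462024744163273460635877862509341866636972611032166821597777637559869483081827308990224268043064730338352891733979523370104421142395018814893569032696658048542966818312369121379530902700371933144311458002778695775213360058715716167626597787379555438282452686101228374994677870072724183533438542665446538654267890924666367342115508820466622630117699807673119403390520406559209837569588717924097422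733393969919382876132658941818384310085153688224631332677593874396371121243567732474799520398583606476021489647159102221489417259041327020052374949557375448213003898586120966728122749888428270543186614203707343842868992398741018306384882062145020779991750002052672810334837689280509951310858446294699107861041433473888761649217814593352834620510848533268643929528783433061812264830439848190506555170843192636474667963020719195763130856519081502894546410661530851542473743360103807920273891385587580239096027441194421537976926428156299436614969296387373818290427632341065332402589992064861178543403042781285805217059117862066915506039364006999406215304224296527533654855030594118737436263424626374406031179899470384958038275653386173059182332375026669929772283009737549903773309507095356544948329953835246172085960196166672555518260624969789013852462346961570109545832392983198417358304916071885134967399015106772529805633126373858139364366892374839620982335233024680894545670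674034251822438110945770384597330988718190157565821234774217957129353626835366593747142579271675643894603931142941335261226827907059348307157059788648840819320357404254873164690433859126166251144801003807754082740151741671838595906562219859955892238243596104298489226057310042607516395308369662226041679877295834851993253735090259110954395074948970133368571052922602342572160364701969087055791751731273346610207393960754853998822756915135183609515443606271707375361326672604746851934277546500638930829784792238527662960063462572070073571205113410467909267741581396219210078346240701096575857745504484538251037839543158321290460238035341008104346542046912816371558597379484383300130860928796263851700010593088937338760702644038835013840133806164430025622372389392608826893466988340637634822282853121930024415183985700196891016568720276884922394343025298029092766511323198281222016068992554008536425328864504098532143686367749022189563142692160818851535023861738987437162015451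337605962614568977779224264963904079704327929675397267158953136649751018725646847164487439526961622635209791984577088981153510052506483720548011994177942255147498356565444483263446539224303651232015690666408609919440325492403277038292930479724563371458060397678276643904947852976995809333342263415696440225971756360528047995768204556244470759246172067318419228817038783580024454237711610266858671295721042428645687918253065149835501526944029638733228906663194416138273101031219217444102768202326719110585017273991823278131933433603554445892924132709157141077247479173488084374386189694075232880299128898966276006208565783400512844977009376949260826673669093063741591023450489585592822021994156582696116082343216029889425061074705339834862720485716065626743952817053171241687567068711192021685621141742202769554880134754725547958940733866511572031410569371747695969624141459325697254184773249292406040081690451920093931912250881234079281157753023772542824084548066678129736952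786519512496053582166194008695919208385534740103915347160654843413608397577326707959150157588357338266497345278559970177398349729678889635263963513997887938707598933346058716456653447938604763246012516972015256732991755090071083136633949845965109889358920901442884032922483171916183407918877571046166745080185160985223682678159306566319472523370107556678143446146379472404190778169560762951062005946447982842561721255334585093288998666165733714998318729285459002827278770790929359147383738451080507407824210048209537835017412011760533032085523277070414973411694823410039299685793197192396582982441975389673900339829397681733999728666740475964165527199782970503241653216107858140231004985490230152586502539962781933958844235489117599204746778928023176324111476596377024137303409777785373237425143434533203956881185266508245102708897989667814679176761688225514027256270309955633919022175441528538854933432199850800990466951680885755828349899249947651266687264265852174552732452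736617283865814693538930428210476868465782438920978696335742400477723866732019784513262520191556146931848343139781302274771191932052586247512574895533593929150978756323321067374012227756235450513663273622540757509142795837287256527428154654309349180343364403550954159533790146241783051675855549958870454248164137353794351842814396640862482899374000213071265444042401385009263639815317123780851788241647869100231017779455210505744294054165905547194250067269017348925559068508663972568369981617441577076716920971491809437122712468678963845764693322544716777432174000523792343715359596739640094059348233936490402110142711795527354320888030047191942715049177340283536055957534914524329177669703615678724438263389077771309493763570041176299495132765490661978180410492907933610773017890697675610175805299549079137132889840114207220051703064756533572190866633156240622656624098883716259572380032971194543278943582726194576340578115536398914258244391142983676971557695820693011668778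182992316031141673105159781094647840312204267286800626027850663794834444714413079762900648496429487419264685936858369441424773713432235975401853852472875114929491711283046600610199852869949761588219126570232913298580499456538111926398923768935707114397750984913208619221161174732913859546376849950354593051571562919394050729387599619718523175717173020617516615214700583426639982254859446945247651336589342129127104740096035339731101071554223015957520619482249630922122208958719158422006645796387062314260899276760897644449274969802815854710658459425332614468237344857521666233847919875369858211762350099545819027098938138016765553962275067147023050123558448531167575459069618089771082377425117552247162242963445976988373439283405857650743055037361207471250435674859451713833894393286620655755032004618992575376802361479945152654593181928146849898947751460027614391707667251162367060958107787744275510770253891565909809063900733907661060656187185756373286305808479176573156066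532445245265872937035584887949021684461622588733838613227887254649362105877006035790679062893617761787451080129977718353936152365992373281032484700529146496480068207249644693105313813196842381078654707750057525346313995978590425646669900392764584708514019119855467306393937820922712249601433155804250971090550065294259648356841054897543286836647971747088494828252780356234172367795748462922080002009584611823548560622884033846886046277137777868516916149776673374494049051779306545818647370050465790546515303027991452041276539143577347267883363245308661481587757390116521291356244417109790691766146853609282612296214681669010728515710145115067695888771895412640651222907870830493406984985487744013687101857042708251891462964909402789163656315434309368668980067565292182764201146836812427144650119002960640027315914994427525657876159240849650964895882590218442436432390200716529997326744509804342461213974546375600130749590481427899030868109910193043251520086381491235917981296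454872040200646512516405644645215836995979772934315876609993542070975375008463489953012432809056119467753116981955948718282380014051018060602483632726071694631985409490459354947173155120162222326283201600620734041400421700913953434124994645507882552581049154998126128154414725310808935012207905015002704663207461576370044887804790892578652621499194557515311716739070805052567650613472268600277921057428703693447924290790151606374027566630913382028628986020839619934164013845649308213106240477303122277203965428776785928679727485454182733890144005154252606076205565886036729308371655159924948462138706788632214110930863755467030559567539258189714787680126731352697458254919979678474281384183258527919591632205766015844909971880762491487435456284267615241290664030178173315255608462341903223143242841043185584971791659133149227726725895474570394069408258687147624901150340579601640244047172919926354215156065122125654915745395662403526278655500953687908591331212267026837669105027685740559713705242939570540889190637891332305688221337376419004379063411314861756429113742229247679437742415088012237780578684189623777772648534080772786590670631467863658663852825760717986467424334669931966582138115772366644908535607984128)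

noncomputable def rc23 : Nat := (nat_lit 30505004044074740060765888401186619498066783830809870363938851419852920199851650672282417924288271620753308454920654918335513069813021758080316443163497133170615634725234964759438686334828245375506004102596809884938116482662926828609229480053058502796992042724842678276801435022776654346053583666920687378482640535039997315350512921876254375109904592597542414667497174357215390893782044715058496497310710408499979506007436113656186502423403042607458080903920743925184195113360547400571307323594093566715824409869746028380483140636132922746015660814230975188716156189414591213351664205443205101092376816949119295316841343982384107403421143442877612016680432173654233288308175340092627657648494436508375161706666287865682444954354739545901997361701284540685290958109316487311194293478826607097600059061373411095039754811154942097335958064188936324829862705711832503468473087802821597523117314945031205662721797005481877825996143854515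861994149858165767423578937281575500765193756141204041534444796701101095065793155076747446514990487168128235289052306494154677755854011650589386553728641571177328002402590817532847404454628428997359890435391809376124178002404278486235401843272611397801451630088268654071580367313173896304099603466872098669803723718909622612847345170386951622069337188082893209230551233393871469633867144026188846672687082307029598424685121713588479680089925135097152795670248256138101962082900549016194605347568957654288034679731011263114709339425410957363193582293019862497953074933625803667934223018753355159350256992664520250125141774821825786740872094442430094113784359282755789947361561734149823892577574518170791059815134720890328355869541886750839013714923129519674469890461704033256294576310697141416102148084277455532362827509013186742032114322955572280558562825828322532386717074547661146745115611168786968417904308432740128758121771203780572163608504686306489648145309825178309578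920758038184581419360622849861088489772323435107908021640859640994482768463305380148724769503874222141694061904775360528420180704636800937309462205746007111923100156620333231540680153161108871075998793979651197561721442063268904566972223718848956170656327002200851906433067770128768006198906887436497273542095047272382987199261828357400041004673405634426271989824049676204461754650519379397105956566246849728462311716374705209224887750617340828187966758189538800018529737103081672219616089027482922811684901606243103998962666016066604269034862079223713589075735950975010799232678472975009889522010054734378948393128067969801112967861032187323907199374168583099009201283763754594133806039750028544120705895755489463790092618508582983894486040131694820865868301144388643855294059846839121965791705277872889745673335821666793543264981919503090633864734756139694084738420865559609390914549123964559795363210248689752542086972458822380368163267981188125353375456647487986146213529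807915199228216718176754280278730290387035876933153598888126080699187835807922380388974876296649843537309283625369752684936348348616903735668057907971738780608190514717221491674110809743039320749867644432930478996102429813624501679089169911505076121491306432979354864404680592172417954860589319742979414663601830375459662308060461370107953039632843580316793054209537933772920559764293581971500716281134864086674498054412253609401250286745536479052498080657214026401337892618795181412415809693244639204358596055283698059155326590535243980997989124897094132980948574377009659021857711523401036590748515741829430726257876639196691591618325832450758357230588262145931647098920236946148882354774120932586889914861574190274773133787271283413533463283843084321434575531467237540735471007685929603252734872690523690116281480762170952234211775082639106087952348156228372000642109009790520328674657754971823189556912481953751718817231774535693339139674507202955222258513909063341714567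219604989589524189790143794616453007469569722255168591986078378038794604761010486915103800822964011805204236747385772583284541510941304460946648955740478355648701395872876620652761959698862484830479310714562602482251715179543445398556268408145222203596732153941120409129495288134307170078375253894760849927443015566792012290811402948004642153017023490907887512188830152352680779177432209256054001941584054323366471996749570274730782832912949989619930259521626389666449776633142604030214100687103294989985324872243229734778571975535654652899062394947136637471897785383732106898943345698921219309210860457444148355672173239781613960087180379354754690257651032796719289162239771498370557414813626277571074178933722635503520262556907406719590058560753706345159798650356588494351727680957585436251968091272567733079043739131250460173509851215450368429640541565665043390337524325910414755344617323794698036065791184034822405262828650295229807681089139671858760761139947543403264293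694013440003912773326972954022965289844544139228408381245829092875334219394995638658704242933053911436848916834132261940275394590635998000344349063677467944954782428588053937609051348876050722416805871816440642281097221298315299518811095311441483237232603765113053771897448587983741741061751004044904592574909127752177875419172537370395979025773762150639439015541843454083101910436603522330325457828453346660476417533015245218146880549579784776109762690404655216807920676330966470360609319317634038599925936810816021468796262477899732171064718051715958397074413841021432510340538600398648869141326185707130842866639743161329267977339617598246023419511009039821445071972645041331516996098108863847732816524408855729770101781829039261865872144857781360009670980979090233182778151546078321985396879746728578952760988908846047724229042823843359512725559359415165903372044336697535745617540807627366296914395535216499621693076790163653902697918996007144092627692702205561968973450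816852830547077897423448039864402422793237685727244325770163290567109164767487073420385763417474767104312416306415368279597903354634590477275150425178555203902969178193644145375524577686949473449711426048956409831894982536874510904870618503875970618022279317462484341577729868968191016650046856521546202098166581936965957570513108801961119878083498909171557586761394668110978956151867402237905203792162247318075689196044104516823440457372888329260874138118270867334098652780683852306209212059545103433090338399563284898056091701673489011053661838872572388847035125705671726174142928460111714267564148013110785897750850852530193679251439779812080811497949426586490966239637271601829789185669016759284116818995612861460499261933983952118480486295348275694298160705843689714161946232279035368389547527125829849627795668607163214953987319893047127955266261009129857654642221834698097892341766248262652071876063546082722851904473454518263638958502773343772438393400610118818857763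952441275707267806821833865557169506320198385944064431490278491547249284976125889438129114579728433176400817852701438479002087669323474885861994098035954290895064392122431040948629493981283491180275461557272241517404060819234784590895641997470360289595785936824069794516604059633644023560578069964848960618021826216064590969381712933639530743746573381539892302804052766931754815320994982560361296566165960219727838186327174030496145895616711171185468048634346016908709825429295872532751073154024994440418006975454164598478316740926448223965654128926639653672525362161385221590851239861119398393003625056044942506375844625781401879163189309428844030734359440540089702373404128455592477021839615131528589353645559418215620854662332059541633023056620265233873287313673137527525063470243085477067483551754996451229375964034952065537584115102817593199606191835657586596750303932842384273311355661799884436747801684884132464173425899346064361679444951050249428475721363923506998792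853092472600857559754213454448391503976853961535119821545928920628939595084394144951543043556879098549937779429260434104284375596170630254616485080235031901449931338060205405407675361917853922513975435545828226513185269947239439122046198777003207802769655439373250568981978656027110653454454098873872384766000312587409346490664781398289936692618396502558359587684154695661939003205539787138676071424198273669024168084513298343787522576922672478409220008741436660374866339745067658049028421565608517220885561987503853430696418569576378387759374660640929180019009742547407544904166399246508449163979236143788620542600966622380523908124455285388755764055598140821712540115360075093335739641553564148652576910895256097377742087147353882553197391042239115528335259643964857807656174264477719252434258789913408637887038741567105796136342613728881244997355995811339541719758659321191412364507284511555159639842896393387607376106495202954770383314510441783825908097530204235316584253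996578697306521968312498239854117761063362916697508133598069613257220580571619846973051570642346699623344862100753435955431392513977420462436944196461711462827667718060515225461305229126882508717180004658032012260051610531694624658873087016868575022822650657275570865753774499642834850760244051479253455102575321091694160093547563799033306803736614078392555852586506471206068219030106243486978178177057663717912295462027271964401744139375078699859679195957662051069519162831062324004808023140825180725471204515446962193431662213294209111202506334280498205890233118619128626651180858624136312514285981761802944810687076582355418001268785717334434771030045119241580872461451258295376156568684688911428918784255105587529066899198484826341626214824493142420928827726020753127802871083529875649003070639532027078333487454107745744145227568740723680994592125273777019822303958952526963840041137956929109260483917455852790907760650376573510505574224641917357973654618728004313059245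234859565427785810001863328106389376850977709159000636233039609950954662920955177733301323034198324321387689908942920589107375713224870186707424291596104511398822245605505174937259431897973489237261809168600441017581917212336969386718221096358451323167701834138964810740406487215499565585983921351023921377264441043131091362131999548363321082864577651677547273430245491991416706628747488288331676349799678803070843463253120314702161876647915541957099738707269038157936934094303147065954115304393775863517866959762628168237159119774644894125858195989894473935798492059860845708636126841895787650672502392296753527792183511799910989175077376064013558171503055739327936683308490884972030560647443195623690339919165282383725924873481861976773584428188609282525850211103460431173065556674308314506996834194830657230858223241803681368795328860505100051514732770032282911496737865038376817104536890928321802244667688626134711172946514641928935951622186098971972281421378620114955326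617386195371651913517226517861891952018682517802969249128463471191709198996749851656290910832166194474483599306690406898001142561288967940780908931174525167459416192382513732009516199642570565866759015256132066548891939256385195035405338862917947350758915222105620759372365797016490526576252193804402376451830455245721701346083060644260653335355175543552459922348632079462547672448907358597082007808068468257449104848519279785686422378243908450953494153630149653745716078756998250474534024888307280854308553441374195542732361999845685385352930630223054439703990709581950557527768655409621706167897619155470412403039953166548868224834469105225188506191592594495026280491257483398891770482985338396377055599128514511945296094004018088688488262926541702972601699338302168212324652244461028819754968442648601503858933539712419689126922788795567578270172912449212844456863456567754918001665256678832497567024753667414466227854247220740912745000890048507747804578683307651066145304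163393601114319311386569473906605531124486648474658028231233482838080410390824079292321059314049438287728514795366927551380739810398907465074745768151150911272464802339552724226599814792581888066248370788655264975950735769970193560085998466106940503171229420488439655712838505450758868442352304993629838222355839949145881381909648792184967791208182366406268173409965084737810456860305449189724047521283224607994850550555634189115964333771042772171382734206243186511420258640368544946407307309323265600392311187976351362013877722828227658524985236764919643809809257533947824148528360871455238463431501528463755175619931194075887596196826640042210400727273597659397160578800917424638707420386222593391883408402641590243604291638458599672742590459747115057300824677059216559645737541853956813959674265541613822746263359060722904748465669572447697169722152101156517962139704640059706240802450251739335257393858837805815881731573871356197093853709652490595647985871660751625751616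178847530251925334358367999886693124591269300524085761822409306761538024043409959984618220295825688170963335907697939764069597267627237672147581851494475959177300678448549222964036129386978884185662923536741636215827002225625719919066457684990661404736036962836954554561979092076487880188005538587473932480831933678847092083122158217770566885749814962049143960216702436402515106790416547225962450176642652977167765309618076614006206789617182772709304982422425755334992560451021953600151866658876280220475219662557284139399021298246954855465885101386764852689700188599129454662347966911214012338707392636130240738309753004517852574947609828478187017205774417092389500709441770959782746661907166697868450227103143162662556182394212681865694159194173564489477423025179888483100681894634058075125677839090186544774306495320744368762446950504197951183001268287293933026589355747497024135306783584218729094082321684504238210946184972346804360386198163455617115740431603381647315365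242341082958334106147650219287538643991721769416309005932323649740657622307535629384955632654116940232407503947331083808642910503585546142828545423686367147000160459450616950696585186870931957263836380323472955944384562962960905700480895362652637512401676591898332399620184382846173517998259250313179708331298580918305584464329569841845208549466218149882372373166156966878206239325199276935426230605530307178169338581014886987457206827668029120116589371185050756273155353954231151477111121120009772913322267013895866601087949087721585244668183769169031898991712511328425499174065924847151859463453072475592476065813330218327031672152094644130909393786255524128217575248826034485195388735044780140298312593504622979859308850229140204991236390173802010411938644775724455793732196821902585695682493358578617155067733516302161692811154836014604992546668939081905753298462740972933736048194738640814577950564775720608098478312032998602563189691946633484805045886728890276631007501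915928296382570227632026447009399970540694819656772626251742030297048006508024793041926601339424709697192002291066470613030008228345271952203478481748737641656863619237892981252491373899563095182472670466090584056928392718725350767621903349271576601926958050746073644224599230400796830952579948699727172459102090921380122938437038535228919738074637429553598215466583506415000682111120093022095709146361094623318156451840169410831856851656153454178416896823328071855344085102231373479007087221299152144512045762285405141635620037824497552458238868058566945818155859933152959240921969965451742594319008633637614041955166072683610943016645707829914781866847576460343529102510282795611408339429052023223260057550071892310565280991788917477998250343866462243067042430746705802539310212728350280481696564176017469222785980517696660508207072271889252767427646803199552678696687188335933725456355566898171408385599500163056290421276157053066288845067260389866396989278939428172036666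467781059405586182591368903921432851499984529571460460983774910597605850561962601772447869447512444453581062226179129600823134010003856856366263205078397509193627592892762955283695889894512900627563453651314823012964799098591156620364243963277443920492261492174535949400017789526012444239999965103048962010866568331130329947018913031435379607873802986347843605225397538135076475424559567480826204140151204659170297044099115219413536413680471277963177346003976495585858459133778324860696055626264196831718095929894719238471355636136170521763651546398523796019701046656082242888047286989999201453648567010160265806147130791583787841194146672531519429682151886862326738031780782936687469554577856165173738668864889132916417905893840815732627564664781889028029673936776420884545740883968189900406364229907083067612357062595772930269089611756106315473472084474814991850946780889415735215453020477378149126598524971404941431455398114994651041532749960329253662453196534490554652769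618748490404276121296154341391802392231566266443358717581559981452637060176509649826066896949683160147976201147638186430921402544052427207526242555241090061654484749732278089950205525615351412127237973225826647396894555511018634958592578301752688309285242647262265854282235475474454933065440825982828553599751447956974423351274300189217666164714823700684065341614962904758186717435430504844778958590090241397790362937649744086523605516347189765637520573711857467817323355729435949678105804602132373713727573667702957687626148620920153373939870111635448241080675735661215213764844724217835210791394426041801601260848713240018358679262455040628712362481798430146433888266518188996771510016010718098042195229523711781180376139001506399744967010451968067500237808581628516771122956986751814379588439041927985614254018422852204437653941158233852781155713661339137285057903453923291664774578819221307333461684491986858645513585957953262788672714073950211276546329231967918261528674063005039821879843175330918133860176160411468497489372635098738510457677167709549311313454466943456609306315984432013681776198670904686786560613978241476301009227712102804152214114190953672500539236152935882935492515522420021771383513777438720)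

noncomputable def rc24 : Nat := (nat_lit 30568448842233496482496271785426204020970326085996166831643673208320323576742278262609857839657703816423854827340845658355029229299934000439827862303011479485469177438366343511881885192388915806032720367640920590474288055808429783788900991206476121026558255462766848732151671842034082667057221533477817153328917158565095606147041781576011018553866386139371322322317507752411018892100523473471090449223290964595040562268855922492663807064021038426809124482867754220019992084242052131549103477136067346823968694134765147746746176297688144122698647680601824660566279397122827853645137033526235533288954148008929842958594507410654730070835410742524150069858181229821778556173621810501796905764144905844123007458505341808588687689767027393908838764514641053430969589589204036532076576607142396486067483872074887852602432997061093175921536826961881002727881989461306694788829611096527206861799499350874263717700754403402829491163341212022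382630703773715709810194134131231741443220504144614920323594381677681722914805648320255492262487088672437542523981173539632429996048674183948683026560710369697623533099752121852590486852858787382389852860784729251461666518026483079627113794586786772422427181707442135654793630386358726260149279403380669114840677011820504386254616371334479875413812628671150848623205496950973195786410189380691779209734207723350295314517529604798733329041043639517128229424872054859041576659596239371064061831254232596030565714814322544408451893797507528453843787357267571478728640056369800054656825822155583039541182111524203105259017482847306478644646850292199932755611599638713741035541649430465750910253142873030498634271878508067452489898199574307110392328234025638461556134075973084809791125605739692534995723448353715898065945490954312925012163976204426920190526181413055891161094512851963531800641868553494631841336636181997048115478854034645940528050356691987145750828345736772428507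415333571109621071139400573192089988941475755963244009547571650472892624076798892534902368031183217452922711108602089477473558668448045528757151225565715644013047801912332664286064922074529117652608460887677994640256837718375265142828266577931578503942873749865287378067120538325985346815376477830983104896145127845060202789137232293498094983738351672836514971964128435622970167313816006773190377478418006418033993863085571264722087760782385702315364115934304211699577388829570340716392567167392269464861138053977886134318439407948436441651898949809276931256145081396607729719180623216929494928083498566997249187017960729817058809866000885500564267756698189101362744419522768832916444654251762403557972650279291984929185374758856633720563730566280855099708005734923335118292961777637245709514835065227723573582051922379165925841847457879585864219234829343481171867910706283000261614244795159031754625868378696879476260633898950996200127443385424570918957443967243283876240316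643208445512937655516353027413830810738903810945991279914410571468267686058324585878725964636535796860286353524482852672664298303607686841947596848389167280571310720294954977268886594334293224324036479121014775722637944835045304463785525153908943185451385629050401780780479632419786096107641984831243739208979319870319479996541935542488320818349642690310160255286824079364793264893345834901592575248570411958193132136748050432025367060652756455778566402315240350304902175039859338005134160415662438598940392441085573723090621461503169937164095832918758385148682536598945372033158973443149288236429855921657528262541710806478660001026672603086060164823770043094945005435741341972888772140410985810478044805055488852222758634082522745301374579393122043276118988395602078313431623309541575995934924191408933520844293247835397942477152570405108789209002097425394441203816688426771557214359858854284056866342456993722558588934489826644761540854167613911691088430515299447081828099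603748030848872199058034138939525735808034314594911250224560657376112589171913760844586553157884602676494317328012051496107867010893839100055739905693562998861811385544787336216023809124158568501400982885094992891674470498783854347048535547228939387127745970639372389244226643793731920546726203320596158052025614764371664167611296259665563560274196590478019446256444027709319135950880427105173627367123655271655304755912688558110882118221112420918309406850330746698186898092711831518216585176839569008807331262158491993809761894039758897326855928048457341496082788765103159155147404190667446552783371700638970797155203909233597372873034361344145161070614904556246397709335602892466142306889186568740448376043986447738159876793908616603323493734067617070507901683657150617635535296723390340945555222462481510120651624694921456606071230566042135971854302742878666664352858955826339327097244614762020699037820511225481921714007369151566817161748007927306150359624975905732505463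445173941025931934439226055203488371986455904656098409272863349307306267207070628997617683820764386487881973535406428688204766205641256423952376412936174745327790431325999315669243283505501244454531884047739244364682726605531588666433278438371973813448672880850746325241832502303127728048823384251045020136930891865358652508956161574063367678152198865122613998443346580623011892811510103734848312214334734408086147549711201730357867202196820435596455141541238152273265477487854699527142719220923338046457238113768929639684664640565966095017698590754509156590731984568780607853679988799899179086624552286891035388766374775444345244733592395346826067045378626090126319794258950511477178508657167552901907714907154019400309113798004529720489594346594913557822927616334487095894096938837373014244492827563825871779300281974877119637001606342167789579068517634233506041091090338091501860057723927257901243874713589578713455574883543486777337993650761796129246386021235535067417248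909747525497537279164519017103002749904593460128631449466519183665081931243340961400502674780263644553442421267327518378965475984177990393048214488523657582538387690084768475819890644714938491315522940864763306515597526083597813028220309229907436217850767822204330538986043135710746653728168980064053256594263586906972814762936813708323865857212758700949569407190732924968162337105019586732076080353040710563539071618483443293717527928928613773850278603333724935687906562397731358068668784465569847460219550294689713784931334473199703117713851357623442944783369902696663255752710355227836709917407123876467566446399814577724203931097866188060218753308909622540773814639643525478674598238201142554783720561330563080806108812628891659522209193358795156053714889506674903992361611634603025242384937910538988366529435454334005110192621601205723731438427542932763016875740548588321216538048997744861624516654241315523243733295650498922975007127301490401237026808324887790841314418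832260861024008313750502432446340564282722176456759507958867965617218287278658963570619618078446060735013479713091355978721114044321185369750644233838365791321857756657356189850567768610635626402025609529370810872824371818693659161034749136111029349835039942157520087388642872652606235209880478355003195929296495276919587552963123282361769342408863790313317523712269506863051317634293469561686612453897258678370191361104367877576285554155165900138075878158043818088609497697519054415291038133892792654207520635455692232232953375569141931626192814002558894290490327285907569509397708418877579708964438910352802923755832229948708006725229074797141099620803414787191702878203511879684132008738721718301369117064241993290040734534571790837695085315457430802138745137581390973698544326799442997105287004692535239782924422439033358585328104358522636796762718774788782284141958439318682219589991834915097046481164532642043507579042071404063838950442766537132206211213259004587899298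937482411804109416519658053691442019690663521260951289949590215320875527113102094696620705825849273379868190453609573415040470482113190629803339026205149769534678765634949874578555221157047933481556688942771301087087925694128981103355343664211021252332743139701005863941823757708166640454431553932421783947190591299418043799426559868219971717160530608848838456373229572953758441799448376190797184351405353079336299557583351054454724859787426351086734203947756526011444011345849705229922078267265999630700899968170625069574392417541406944971056089940150963619387587808009820610317865969322922115236639230635220457009381693175242541744301618313798541113986917853487060672882970776033869914105774692207066916889146061635640083134348145251060149399743499169844190701957659829019884289752826752237606552399983349173326911593138496301640710130166347465980966231563473924628557073218969990180370006188822544020572045888263225897915884299341388790071230977743546275833107945969719015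470329193018279692813108513278189615764358043889178244084932213668090740847135008646338298771761110153191414970309957437852030569025190233348395011998811340895203479921658119974904279933728329683146428121107416393004553032964622485650131492201496665940016369138969066789394978730472035872171845059865738339905160204973666780105509119450065204696600318031442285709886733897051284117409441929921551029073178052683435729477356484964744778774724436839501341203178687610468580496046830751839456768629682753080521113173467545136296259422925234318817261699572141307803520750147951167655316144113777116133356713790860353331064675174782805820713121329185350002004266521135789734498484231828555798212915898146113541241790096281415493983078905275674986038163480638130169131603073850733724694056658920329282166576847067525638012864783731751799279890291442606942057929194883842235221720842680230941552353453496899576059250505993276018491099986551863938864801714430338739451741890883214598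258104407151224199156654275823122716817869461609196781970313826829108768215620761123814750626447838357039341293637956412538700766789969109720690791791395509379781760282635181706484002355070479805643446205181937324479310128336255158221876640191153314883882986598941736174962741059723128207669973912670047104276839158797283022563462077251249011525983018954552350676529093464065202553138808966321415074675972579598363709220252263140019371300071343794780037764459372846312355946830281445204270487553323566066771409410032024392438541258626589619846923912771144714246339828186736157568684358780806842039530924808679425400105352203441013910152364220917433792969189359424879760566628152269927114969687077412087672896638467728524656426839662539343725000349617779310999178561039447975637151954041227749354007010465773565654788511241240408030430074153988740105553350935029118259910365337400359201486864249362408085671920010894354493964308099908245051437137806471183472123232133549770192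794177600495039934075541551799572957290861875880508943357004072023914708684647081715295262330120251641966797697063748748043875006084941018982471000899302354763673917928690966844642093554135861644301118608765822243841242078263673684212413868246196085318183758521007907921037562681673163976194399068944068707842810638036513427665492411828499967261325833755184045723439464707883635706791630225191426523122959244282814971506217273150178351367527447758765821630663556130223065376875583883453573057460412124671857974367351236864465662600083971277295854353338962142955833752681412259437086804421546372688316921717936811686155814574619251713926744086355994058417608757314484806582705779875025545970831942735849951610638520278301389989777534986119871489543593809623579739075270171467105296688750516072634593029705113187882060328078676418720638163793124504303811326364012448518621908562940742085518238000619286892989147138711324821119383637426812415262132734868324829660794362568921816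620668706354164827842447069582060525411015485329004355002971888285782645004612355917032400715298971491965342662961746935074120989550212474510606803434643369711064914840717482851496292667796827035231740926405036951936523515206116479636447107785867932110564957738297008297564300300888331926525327541351039651559651153604157502800788142842513682863482487037796179134379541760535760199892015538611740349250288129487408552549253427489663245751122782386986829997035881785379152577015892957187996651218663281694284650358765318804644529337672386014313992561134999545998626836484482370314008674415604905749825197748642894572196726979522374543743113412017410371773191865602931723804529739830893782145597650956714612038974101166399291991671632924775687900432388435364972558999511643208634752105167437018746939778912617211098806806422292680413360361117486136393985374569400635581406195845297647144128367000501962806738435495607204716999606905702519871954887327389913623703976218594112340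996379996645911328299333250421242563179114637349292451746006753111833513735271142708308497894430930935690067824370747066752446711540369056952197564732012670709235380690593718083133753385002517720900700067713094330106075252171402683583466161831134105019440057280512261351095086230288346215305423543981383099091859132226207823078882506121039678234683928378496329909960709591454024790829169743890515123140756330217062879461443302106701623917371192009873610357177576703310517114281857342641248151987272188349494303113485927420632903372431658518997104404626107136881364320861041337761072438764325290901741822310311492903697077606576233126751458095295937647122043457242229762071889596939468650281824716934519359214153565612309209692221085471035399506426084874104267670120733884173447688181034749569341774639850077982038759313354819082839843301935077152562900512737362915939045441695782342555139330520586389529596866497851241967629659538170492679476573045642837284257021606680248556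271387163823899028399613511269136610148054673759794603407451580489224010210631934958864119585576572170262173394340441549322422863331755010351129667137272569746925836162703550712247803098139477485107485084042813499777565518356625799346262346756143842411273629655324578431515506759224647003538722601382940984405282767761632969617976558929723771038523247194550504934739253029570223827250583928255090610021302390659389028670395245408939574003487788754605899252463180399282542501443914682751773839595937734506972181947986769773443979787992951097691320395649943537304975966200714324906636151093515063584129909733900729028483171971422781490518304194733560391613869427362386797299681211968565129486293113388985155266876439864747663329798718881693259377526935585443977330452653369453687674895670775453939806345400251731976748369740407444163482193984060784889479373110398799292378543081021555341452180050849055828998649896437467844748456940022703225685887828758890899026691943482276351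951805141978344656522784709138752603798918429450121862282314469276852990346457433450698481806511628655321300406699412209031768236249831214280665985084595191678459999705644309106869724565383275441663160958693861892546021900324390359681306263376847823735125529601089868790573246129216113032571039761445577334874012052556249542070312539985623682515787597940449241548492997735624155199774665839983586199984360582474242986778922285114831026208413749123963517611584094146380621147570433773612584735866993451685868075620357596876866783246433807649438440232508805262582048202086392142680782736933276681040985679719843738458308704915593670714909157386354476762122731694686888714497815044925261147720830580147567754770002902527966271934554177400297705275037661573694698492575210586290503982623469907734350713305616975718141687050625600734653156730763748803066706381515511735866513166738275062615004587899495298531647582606935005055610879919155879229137394082088512248847201371708749249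603524493947260231361554968145236688351384238549738650577502872415700921149145947112533451485415214998484422494613597429775678108081557943064123219194282747904571207911796151618662964558862636614796067180229920202686470881184831834467866930148418183342996481264937834005572651572193048701605183945176039747283915779979047911495577818789797318799650171464866463596002838787201238575076912306139832611548609497616459105262691348454710893874300132933569246873460813814104812866028875998780099063530819534132721277483753841551570638324318898422827806225633429778922188184447961511471173183907225634621403779619516707733471823156986797546496518234268449434060711058385086764725455795599796646330604686315728657139779008911861492916337295172616618694367101871408028493682676555862070902237883425852096326961991584495677007010040894030484927375761457365488665854517493539880106409475520560629641923704068383091367431321395178967204238589959150261615385128258624945140672241086580441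133038787148023006525249544176017340489944286651819510887287235585330026314671384269156826343148513069795470106056928903284304796296947272585126688854010931025916772350289134484806816166049980704949188098136864982208289352581500136363542982167054382990142851812962206256689892485344014328750803018578287501550521112425094516919460840147425478270008804190017627704289311214079185351922449640355228996846836343394227714432951913154251712793436971185094062701221029535110298561755888670069522111266695720495744082117305733985268926493790305850689986110028487253598088812606069628513528472881078545094734385605692651698005729168452695843264474961125276407931002670037116859577505174113272209913602078353869170950685184651609272460143892990527204562225240575638804702640717327792075165496325532420503784574122096635967188037415499175038133479681244995715883352451750611727706268379452206549882906597849664331935383748661536871325245668271558609991455686686284019933325496863250201724126948022714485505390362209440915651169138223507350483824570562284032071106923165489386793485132981888475384532097286920684313278006082933271125125574562943350399609491720544957481633235309056331522211154773144829206789060177595887490433024)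

noncomputable def rc25 : Nat := (nat_lit 30631334757226810190935033177218132367205412724232541042693253622378835740116543085208917336548246523785784951961839716431549818624357321237194085090005753696461878371017020291304782417986874435192878397786285318464810720598598986605064479648670554939840957988556031021788634980661600901881354596098295789366103869660563612646186253658863583392399194738866314878867640610117883195227020327582102901151605255543375340717652826785480852842536305047060319941207636672581741294798845222974308447378691239221447520763011537060879142936588662351032624558873112987343957928017676297969591369668182069039887551421185729051120559709285351768955312217777554993059919812261862073433990512774686801916454971510566727527768400914656947641222582640990240538235293670814354945664622130111654906183015776578317079014983357364083629730174299744537384046263570942938837357514267345384801123970788508355151056804420958099776767799358948978875395884540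086418139295468282085228413740015951846873604334455798228680116716847598191378593836031371891786436112213844489396499333197296787835619021140187812168910949623498202374692253184967727447860005125768099420141315747209048384392307497966583819680434649512841051729089515147909370074797724195833943661637320051250682849642588077377938004872486165177213341290221987631140422670482356819520143411087666357811705640512028187839496437003112380416353015297354656755158639839427902458417337218053833387824201379723158095040440379332570547873137849789857137767000412125571890830718661555855025404149165169662780525791470047127632309928997994240785146772924821927318287220315875173504656902862804633109350017617494318769422771100580695586258126608011328314263442894744815104362660355792534936464809862073363371379768979593363674803935579992811509009879918896498895667418287966347437116476066942350843943237257809029991627317517484587205956110888623967715475661905665137471205076078492317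312832871356880272790578216173172751551118499591991456550822010386433924532638686485023338255548865971573819953448735352207528384595034170949919995530322122537516763765611195276228142676129771446525569179861399189959172700233488736154683735595459581464691124915945005479656471324856369711305087324354103186269719780948644436136000539905610844965364758592796081953112165807174031482443362078054422654726257362146013501379947015342417085859315037148225105734715225302259750048836328914154307707140979448253978646737548389161992493319289876849625091485713214821998565947368017953206107847226371363185034761735464004505015912183966980442394370846849293902277164299886073650593522223417388514403245552550247282170498248784936380434564900352888671572679051422148394126813874538799906744817082127467600018461306655257238669930438773478005757346077271262925439584644060709578793912617345069237363154922047616162272837906223485182452030501533941821078373317646770025072856912735629760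743692442052964435327517473751937079325443841725957896253362250402938040379255680617744583926287146303026155222901030069817873966509272869435776013409528896243298267334715418130328555428344659735214595370423586297767312991649232746554202830041277615980817163120736299746546879917596919702683024976125598874853795679456312322724590018619198263142152896881864542889177768985815596968284992860672073402873708932983159138232248561493613097784181670421783646308484315202530476608310500410374721772807716539023795210307022328516888661538780397002999124119848536119182433127924706842214259475283986690597634313586729440713127757227656605001264637834921624668694988723022473085660160262336769712200640013982455162692541989182619264924366448639009832560183711969018756647383566888001881244959895123895353162784010036892145481572734402767549158792864452619061649469942125994067020728401051491326504272574879231607720609072475094666697589597500541452349514012558668762670539754496819705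837403785360442716447074565891863746249722242022045829859128143887811603191145618321670980448714058799968506354807875697933407846791250845882829154004015212255569406843992178369322225837791736810371605283287520831505542393777948646618483569824664690944988233949820927123874664176852581726091515626522524785227742408228485292665173501655164749800153253106281158067869432645511154423881537479952206016215614660185077310071081393572795526816236188049541402496453717407894474107961476733008966442796615526860514520152546214176108083039528685555639206405953332927431835950887009132382948049303756105831142695452085836397706571814121389406346696147260249101800547631377616449161512246455395624493461866907144240948118558620776231521717157753247825775857391671185964052685317586631837221448812584720096432729018789100554560209627648477878008358811646081078593302796678786885812206419398981010427870304208275532190575509401180742321681363125199750411834819353558386417926563985290768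143512238668563591167660353548138344148558177274566766599342407901242370474555608801134222900795192519581569627236394593648946728310035294594654060395871638420047476173924800062286655932591029307639978817722074615970912678541704464797340093755406183291457632588667004975999672226871468478146490836409986796645666137277570545773509975637134646338360053422894605539945739519398023584992406488485136311344443778970236361621995124034912893003102032441504195049743816482256258492973689982694500179628669178704567271703554509526412130970345503397734118761494506684804343162520076971294600391561973076248679703999389874095873772477464429818523392188023923175411259909972490637800869580525393392754415731044237239985377896571277190889750931943212084105265288964561016647045497380234868426142515196092868113154037693416320242970327967370473069501462116206908244686436477805106457931709237619407480952316761920570036564668143666227187335054512600181103833660827993274028425184735182392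952065959952228011238578379102579849872275913909325525195978211637061717273111736202707761450674421430784194369856035073953996310402890385187645749317592611671392723269189818980681523570868094981961211221163414313771007864144414115151349661573979060527374463010603590204873712547464895382617546059028024859870323609362298907572523663831714772549085833637147487027719736894815041392008780967161540883868979041698626301878520434138021946855924447600295754697794097368575353915784941026149269441673675455183896278460675641534441903469852562632633310626771576646115503404677470814657391535557322096884610181319061491231632439328281412865422050023873119522099194410340593784089650588909626916222272501336884912241243450933273259991368926037176875839579502805948741726812419760404158688917491722907263295943658676199731104662334196317424830542191047223772836281465410202696507324791618698709357073672191262748420829551712356968949320535636594071161656083467575508296084902479660637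094869304195222900177159444770393737559033486360380067106098773596432336538340716329425717507349810220834531620982714128430890834100840838009557924745203048406073772856629933050204670604354535861737876144775508923239879923004621794515994550024211881191672640804985384488129654869833743899141928894764092897734579306697678335145359770190933765313751653808886083099805082580093295738553212070133767855148770691228567341508804965623668697585883893875181059415077574344169939849657707254617765169749248936197119344020893153399523328022516814454802777329982812502482921462372694137022380654541679111247135362897348347109841608290693098605879536852163546832315282140495238352375218188345719715065907908692698380287619412215076475204961798071982739843260595598667156081932157073320282928522676970228876149643243140549792604991276069390003771626894693457669037428925159563174164208856970965117080056083944195749316873072768317298761122268631582286265539586441516493672800091157803403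379841598761683457052361627396893450926807050180112561197118080026007543895307281462506982935324090333120561872304695437019868987070701979539408199280554401017969141532784977318395895708669626072479151714234528202387852850128499050924958857060750367780174840682124865628605459340683583013841486357318803131885694701962729546884293983689554593505539319115376970189261197547765957256110500122405145248027524628438201596698606099626318049490306674713787697815133968326706164157353754652920991983728785448162952857028334984990124407825355315761161141588985246101365315524074901814747306610405618640468862329061073496697345004516715755120137668106110758989108628822529557099239478563925184186885004731592431947176423865154428457257327461534803176523717183935063397176128358350963048225096904189547551161893838433986292814104380997362480604258011940328513691979860033395252234190362753524931835246777247654080475546764670472136098440435405981444691022589868245867088109868603383575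323749298923567598360044785879163165125857342108128988232908466390256758456111506716489704265527676017306413329075586933651775218990595234113386303021230767987719195236711993894046176255651778511602503835510399873166255598290331047109308107880009025473939766914784989628528292797998563544388061909167117530512697387522422669492888112406334384373820674328364098993857089058626841901553506296293603368384395151877986416452692727583719175811690411958754562561904057191449502668607550229122732573750575020081842638443973682705151339690777306048052838910841932768944836454807767755102442885400728592359310634043184512443516770426868641499005945581743025626803398668977553105216313446511735068320012897955809159810187086825676079261043151474654640854630472098421401834898310284303738457434295443676345772513744457528912806178357009591752629765614180677421762642648153129378059724520731260481113061537246082200018303515367412131742868449262303627041946947974739712527756899409620093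118838295363568149122536343880236678258804148025456346749249581205489047440045272116955097536362770319709622411532575628484544061671271833530465021868108997471280239074402718948583790663303126848359963335548086923835664511809481659530130250425693672122035406738003001812669777734220466464054689040554887167246599323235026527798374823842296187773242387496357782732310446610309341008726974803138662535864700401084057591445603074399004022287941244646258717988456141717930376855236833990550460211616693461667260905099730228176656498892909552519035510514444911071952080870031730227091300518258235361628378212602168879712709186356039928984290376502644009946602705125325549693030524219677706230108137701633186030793972133158352962470919829558622832562948359902726425997377770744603592521450687268706841220895414051135818057128099015259634790423391977644141885555021282567615432466887648131080952616924133349240709267248297240566611505687847150311782168505969464988218562994116591409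815022693854609284716511911571852595546538729526478876522067661890913426408068033062339203345620046762423613798003073963351480988127892639432180714960616249972029563162890283616951576548121041024325609659248253012942684203993145746798177111637899628787787396983587854352715842466337443457188317224470472716166377208197038381950899594825121820903740331834200516127018218977877295325952071713286561649180087399285201558775041070232090468200580381534410898357958667916577035060801032643439148519625190256293863105567091610554885791675498298541035212698262755744529600812963404019647145315854109382714056763205262523733126561546755989111045954211881053866342318154892321090779022300178053633297493870972546975251538410495943113847352530028830095006590928045986618152454707608218830515124613478373116781025759819704622000516947289834634810012002466923499892120055167274389594997747807766315706913568368568294400781633221833578046712367556366945921110303790620362684793891196319032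874803957593111848818629731901338843888007253888907335568587056253547464597683546361805061375876438359011078863140699278405629899091832282792019369370959677316775690419994104455878227962891071246624625669089919704867560337869130687490340906315334006655724660241567396328165289554354295950012429740213280065052228346871127536345929012458691446724941376828861556880713510190243864051322266810700043320331566006781371092215702928643319754207711208962834813679399846980001381163457202196969397066630973370286450205181162024387729430703981901966509014479722717217670970814745032423508309829422855736074573706009303842758640049547710692855150528189826223221167206528678357473229218324873997230824572820995382493817207613174961932902385363163427687877446056038233201264058218887269451921156125085104490527305924795903349621530714302649107625676299809036529657964216892950194731999985935042478584723757840950672820485103309919345360948728100286560437587812667547486814539155572490627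596698895469955500554201339261157162880316470828957470594789544788424986408166375317264665133838958616927679632761095029442712082954646658864180327498713747961608491778792158191056677564829019970803976799750357083616255289931902150184495357117872722993207428785159351767796047875127400843191574399537852351076539242184733392370292220441887550054002076824439360613757504686556461270452173949815821895783505432106731392550831648564074040771220704922989205972066338607286504194823807012532631160571929662636495582675612155544831167700583503431216952206212167906933169364489880997275411745796408442800823670648934697591620778043175885352157453430896406397896105585338735312684159497375454030744703185132830799133543388478159804947656014809827323001124038575793254180330960809924329139964215791694021840637075046721242534692310740891345904995622902734148658984377845069706003084691557008993516525252383869235597701625541427276714200633902954884704273697459772685628828370968626377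820527933327148594331038720113985665760934776513332577474772517938596549467410041701258358637675163493563900858183005861452212328543158792976581159521938201508464094398396297586607274324289817454482930523330398001017678332631905580667175461086383346513275222381166545928134727028202389143675104983185027544506962889463082042224084527634946312004168843451205608773904899110988921449128465273503443120222846955008588231110720898801751411553540512431303066899874567740572347745721211174168719310362174235062007221008382283635933062816808711304318742770231824327666375207606771263536059404466314691408158866715603042993400682181041256370983427203936633077286842618770678812200276534382821375210321685455795788532573826824439527863990702577994982038283223420342781674263283711857958100395904506386761177304135984384636041439099903068619801893370501167023926015819218650136073817425925508525000045600043376698981815998168946014779317049526333647390453588407357958658541599898013785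861949341135841026411993255437598791930784176919695467374221975235724737581468347591115948872023990430521759051158468835999105106412860112355057132599215993208435564819790119898617575634772602713013182300680122528233127210099606851190069516932260798850568439027756843722536780037737474577555881565407092684698539847069428544743817769103030062388329767860297366045841353004348613111821373023944012861695235094574948365666280408861538915866630233455768178404645458895532399052576067839417094452989979988681646029547680021625805046095953749765767990696463020743224255302387924037855188529584829563270682599147583020379221748865774613799079101197248913254091247962728151331379940438212453291800422961732898481608526081032831280480317835351408155687814896068701693440805689690403777516903251031017365592398959294670762471104153255695276953363310902568221015220308200232928572029208498913021068624665686754080113305952482914443766461024208967210941648818248810335942906121448172527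637339257102392124346977665251933059238968393282130955387169475410801315438271388454478870984691337349742178837480039371005730100008458145306389203532976335281671009554479218168341164410875661456262827377551410348163822023292426840642196837681160883234435635658413600939350055051037945155875242324222274024711959446477171282975042890511496997932609304318161024779932660143348112812281147973935695132380324589471772741898078905891178822953865747780303879189029609207714499922084315283201332018572988804817177728213284870647232423649111572108976387139852525331980436323679897581527057975330280717387630002963058122486563224452525286639988482784107707485717965039199651565556102353308557814425151525397493256804004841247311861719890833513097982756964174543173623775955918760295569228519924659320226355494589777441866872147605006483653670182998113585881422296026346401063575011146050945302721270636808097937725395914440820089844993907634274133550524355371440068373150440490447505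847024644071674006063159543502902919484885281850939399946492986989132399867509752518169692580264192615456459923577745240180151449577099966534147244092161999245348145451107672144403768202643902822349549968599534733884908723195339865762095213386737649290382923630306398966963356128838786377996514273888630803828552905852212056174306967895889011725120976895133700250355809713051994435533737323612932242757287298913469660282895838289711502219835045681715675482862127103655049485516058111827370629547817153195154521331326086558214599221168575148042214878091424269152856528252447014631744370091670038282829617256293060783356001106547997196174458785342874070892198136742066609696102386651861713614019344148452613336692850401002946837048179197477268599865224232608748103429989127613418288669947422733842695897670858649391909933866662185232140605373608454490937004833699520419098923887906775015802645891380633409680672143425902680733328400199890838197260651587360491301963709718241821672240278116079507136125808982711411509203236858022515793065227074434948308926642009188933372404410515797917544528814173553548027313200963207930595636290424893332310064179203545497371450270114553392452945275404368386177014797973969972351729664)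

noncomputable def rc26 : Nat := (nat_lit 30693660607006222625362439601195121394044429536868025873086253446115021549507961017021712915077430200977868607302817628000858506426457937836646654248380730377336601787453794801875430520290913139948816029007512566751577008593041999721497923475866934683051129357017747587576724215716630945882056048863506126822985241834201156045637651684613541447904561177441364343339012045835747176575739375319016782445330664356179392530734254098351887221757175643945944083574044851858147993601673485528388930714791404546367342575182423600276035481757658818241767531396298593970897594776663733905959763400156163873266619858164362296347759114318188155616246407808247522364760713396963789554180457582455432290253787432835543268775275624216562424238963270376353485263004575055051526748599412634685546423539568603499126634943100615224087906749434275892576794936866860616870173547115469013617084351805124302695351550336664049794641458087908601546056029791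593765701751177940441876599672355670743131193539721334026011169536420764572123216221715786499882156841242462228536706143013746160966448752372606407641861211715213865949203801991471133315463415705214070502934399322855315013612627181880020664316121549152964388212005975546508505981648804409322637610148070804882808363149141961131597570977798219145281100476139365465533279115394971859529402061616882071342678756422632743531380450557631615765808040976949817082070251648912374480870467071741424122166550995382684232107034778721617330897638848205156785209775776543110678745278633942811431818301238434432316995525645265729928869610781505951571389485811450142200530141895421367201463718729794729259279765711280792909631950399905899703808376238709291155652047095489597644608679433649102148271025946612151263825119268974141906957634695655570539131771392971212856469682993994777859704865464944990460591711725544266185142677714652091499916350395620135182922212766317678157745807944589748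695062987712010112381971295374557784551018401447539592494138022714570788355717196021724806640892426578519326176505164154388400003650807455040733164597413482423541037679782205760157383664316612819536197007994637381638765866489681990121264929058549656091667687195941212135732880173524557755299600150265701384063277846506472789037594581602277507097967366349773509270380569045839558371436353528660994951503364970012761333728524124235344872037030380277758437368738436223951393601247507903125776364278388660745894781826230124240559991529659020140536940488166321358568434745662961195999092841049837399076628331707099169272300390777821358609193556800221795276915729985917827848703380155437505418405719506572221108433386609345323133179380415970055076868071823571626010114922354081049258369193662733011468933827747570571277225089255375042711379389611515417637663885480392844140144187508852878907627354952034570547622964549887628442140298768609845518986279406883634141507222346654346818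050102818300764386514808859332402266708931550054157125835347580676895868424429073453647732359689188582925836026448416282623979602783949311908790902587693693131293544553368116771781419421544947536110135760801323565213686519806246707870711273352421278215395183762319733417165251856586692777592270937343516679812069555083353173216493087790507997153254347128602498723058017774538593715584114254213316423647430702520845921112016384123628030432646840112556077593389284170397624322439094953649537812549624410682727701668456203901520673789170140540351220737971571202184845796221866829259117354040672469796691434847472811642481334925163414060131607727882937470899210584751098665430808256446958553376476681347069954511345067312899939327805646539275239053890767945695673790155714100932636209846815175059357658831026064453589672273709109249894165880141151663448613161068577212177438771708513420457442182640930482915154826024351899747208364591466684111178050063917376992962871518561483887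641081332486262148662587842948819298812247485125099290763692270398802790176833501538826276808149149821383724403841869346290819329159029794110434683083110175336417203870485004200443159165759394729115446529488643489396422816198331672163912079216694962882083068024869403440302405382415743203560690453016128641596316881290951601429408539828934107259943733132803352381771237349821225129915087996167138091768071969642248907171476300051718797373353505874701236411674284902628230600320359230140730405227396121551773716746845403681659309506189949379266346182899785111083541136931572591996414354887288000572270577624673102328842902434141510447757258766827081976885941384892181474168577451192785967555733287285074920117532352408562459829546544037292569298037260595569634449360010877165582686386790841840850999641618615589652267465527110222834441224295175346068741765386879131293502966378349282874229387111450785711837201188589782924645555530072998659808592797077061504916065438767201997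689158932478489139444261228837420622984778376853444117081283816673134640755807192319852174530204877786193625976729341617545790683133771697599106228781601476717601013541835164890075248163993219127467329266503370712401472858775842665029466012132515015103333382281218564229949140338301444533354230220127264603115548791613880372889895328394607931621929752495816917972681136764075616787331992030776581283347286432508049202655337780116301209910452663595514223653183762954385904730574714428330531425463962761616516036455023950664291623259494972873199444677266143027122838441990950892400662529011120857352653182101673842164786655732368205004452329448678699612594358505082139815054718285402146314057603744213634907885762086267299948512110408202809314326684542284548108125527139649690497058840033839848570214999051002173173248805205660214695659509772529679751490229445915328933869663351457825569959246747328663449771019437742206190294447651004441604778935716728786402492984837137940421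952896115765199238967278904574887819642209076184342803777694838828543336919304952580444719056245451530846451864092647098347956877025636459501103832149985552425457043625068825336101821077062267852520122920122871033260115215797689100092393245171261229393472484792759949422969495713996899990353437033987871740380006225009603303867727873192250781468167739627277411344782165727593387279507354978269328156216087561053824606827380331766724824011475774766425286221529819423553299950186898608970300005220259844050417730832515941404951656034961499044961668082447930502589363201277205993568725092906649006730733967196068383383865670777010030744774209924315778745128978160465084187831568042642986810956085990099199769991648140896846899706176244846585907718632536684414336128828428147595637915282435736030425316616083036650148982954402881842880856466274581635764601263076930202086652872217120824432566777760309558725288211018716854372669606394825248001948933611812436748755417316395254224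115430547864530565070245135703231205810173850722248157642252712471165632913644579873607643999139753418145026900755271938290408044042243228058754906530528653700092642116822179412358049544809492101396795039541899421900336173971641376077644771111905548402446815664556163251907357136796373511104599551120687469603454661474656190076830442899782146554227023877404060370792542982244503803323970359092911893457512169098691008869050115432666379943999314501112433372474360684601448945174643673066172497658904107882072412875770976843289109487218935173043852798750798000465349451069472838771713349780848411245882792408666363120231265849617141577057010717731467586563820313579066219382181356320142645652933895479534544017785563337435093704754242138792082871641571259893863561444939428298839150335146775150820491329934767219819789734167787395369278440748358703484804660626789951395469160871497170916530693371868601540958942775283562721991075982809898971768681284417262516992024590815043625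444860918652527299920618030562461113503954406515623427010905595911230423286279255291428315259027851633323176725586281581337580990728129559779547872238979843030284061009799017377074474549715227548468574637602350663942985573200143903162014327001375304526680161603246185175936292064400365724596561555951256633373435996213212486585337624324468055822019461792677158501197925867494853091722252751724465626572863112433322564218227150739343179460861464982942434797199122393976041297332382490528393009530956705570817704185306790571647536190802832179659757397333900408264821304752884881417286771560405182960684545910861442072678080037479866545249354683884262319308755500423641934806236984380631052885269834040571972726602220821721396079877154556464136103780973786184064692162425078190237464698644883897235018540149806813345766939072156231415639526257275023594864889861800305056686580342704334826951927918383204617797934431113949573224793167989902843493174644910059805216693318159154688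122628607076426818692221359052553404284934340229751521104208509041171034618618434159785193561564745463103355301454100916217661704452658161834872360149847367167968631761983609801937089563974983592748669773740597727489046089213968499055267924687675921563468877500116612652703720192711195464062034056835996613583398694800203541937889419215138615087312420282651447403426105495444813086834543278788211986413610945215340898670866794174859107207946955947329864320131477757493133691986227842515519887654807260201208096886645683802791203306806307336794834758544008135684803662915993635523409098002609333216104358763825088945470485751978100352973980133254515979950996959737124206597633826273343886932640800143222768567030799602970119584535994542997080818341812535888401030515645046280253108493073758354381328618116816187967846536077978732579337738174945795016948907063986993595889493051987337635831433377636749434260915666678575590916091438925395462260360829098054390391530824425897779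224325721383240607449518581624417471352777305423468460009305246256939926147112334170986133550974440545912600692930282561714766823357244416034889931787897543762983480016937628839085483363485827436650932157589516325326624762987122975741229734328465325811264971789244450073435014409653027337030966319115933992523715107545462077589683707084218551044673794944233749145294735850171675985708795829846395491550563176683259303950039300276278419491848143648065898505816277268477952835957233413880031387276745224645936486014168667762795907644961960072937875088810149390812100651498084147064493841898844452943822769094945434251431756601025133436596300825859853771734228814632219494954609768831473629086639237685326711590778330780078816017934556391529429329993030005063640882220235508927693050278696828419111353877680353652523064873135089282904011957466889488153963299689870754170709956945225173882138892996447685549468614392413045387040918496120790150913629526378995751408558121538011341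540751029669904277581253081815576733773402097109401680025029135891624223294031409689431168941542175700384767949312574895909921551059338242074347722872942640235727370890929150388401081814613048586928779375278603226594611321257471801804317723390901086896504818328038992649637567745456901347081186964429895743299251924563390429538475710895601377359031860174958262167399012635911786720738271552821736934988959154280197882346418571367208326247230670153571161159584188352004478665444799445485372325919992740755557067663334585729337706407683951901594959969616640449980917879478915149418799838295724589820680498397874628596158517284143324910310808683589838466124822669936829629104434038017131881220631089360294336181146772586788859712430905264819704990885202375860076238442793851746382377450785427540879665047564585871834823659442670854134996411532763612327081085535945129779648661161679057709452059082492736472562223711468204995435238379118261546753003414062638961080855606326857845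147835770047627933655148386091484949883241617599794255689649166740269181405992901860416524304395201977699921781039924304534470354437497067659669373863558411557732235611105997299286772372873963677844154080570052105779433224671442950880336802442542889586140612279088757775156032728081069013166446483867953069126074866106981997109740147559958877238913563823229624689453054291258977268243556755825565124180178131541502078445647600814110354145259849391184053390418489020842976444942387751843752765944298691586771251263447178230370342882299616839219807380954171162172743697790003628706719834092549076360749886895110197325183779903487781027995422778973262558565398921840095157822721997413385007750663834316276358382675247913432574105264104467193959584068274296473113147050680785462078450970093633690283916346177299761844244261572310902654870401446532978815156486271054551257038575144659732802588606433111231437346758758411985555493038262859395803634312365843201230424407898712829876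740803675978201709689952746209293417150023344739624250630921785429202020610780377535822711912090410395819284165819578749276379855052022697734173876554909757910317832344455368908676843320643580585423738357745490524208448318413978030331551259240047778955044682423104513944886673259380762785735510914054409882270170273544478041595665095842304939448757196835274664670750625715423344627252756119074217363812065614111827228125402192758084796332566107399996807689387905981827521753973667772600526872451779925026557426355139898788323309963073265365071102558765959147934053680358645993305828718331123290819420178863234545346546977608870617085783131031717485997913607439848053261240935546543843950087436979200699984300580454477110700190768541595286988895323897019232334640864903659948459022220041024138953054031549724912641997001659958161457975166036625157628515437455576821031520584715458525704818301460641140639218719309758782740757687955957642906781803702252792991913655279664726287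584699379442942479635707515172460863951412164188241932084798519289275872849968083458782671591359011489981063220019802884883451893383349277718585930610783379362186932010082001359922411712201349524431923426707992222593269959430819821494900701836586854719615219878564650889165135887994252555141319369492089876990880906940847276081532742995437358390994349475349703973742259597052565599258911590062484015821621413095816874223257424128502432420620882879148853584084040512145424359151833754552616930008879098953251770818097398575636563197705886126972955115787695535272885641552556273325845626700345710884517826681747170831734938541175665532199320168987433419893860552860248777388695061385307139813013121180446684408336973179531096416539244457304277178925156283964839210258058833246072661754386148034774471892397622543453359460681866306071345847069698662984029695555511473350846131971560895929647497321374579581127341748939555737395788158032799706005919157825483679054729567701475674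551692583987329176289428130239267402011177388698689704487196782624449590673594794398231066928685715469685488152432999104997039167979720962659517305491218865076564910705960730185185161728926077194360860135685721055122110201398718507502158449442239928850120460292446525031508091483012818891581182301685797307837552129481146038651388827736402264946282541325014676877642253369762583871995575085368508714796436470594319271868021406573457172532844777603179716271549655223654773068369903750981561965759497044805290675494126309350713713816526968107653497659935713361494760392885317726785501636403256002740380946249868513879749385250682862307715955339056252532737755427242566740303048429541187943572246519565037055443264387159107286615378265793154758158147779786116300882337019690413204093505031969918869429698734392947028891309696640532513078661446170748151449489052074397507898913723318040822321087808135607363014940055718518468936289773579540114346278616551388042131608584607366221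143872735063816290828032201149870791344259877970741884988785810881777933423040917262791578753650989477266325799435184024729286066375616906873682514799405456955164650589734026626716607643050893022922935863029407434022004693058680783871294975916144894915576467558692198178486078039464835667266343411703332955268508881079297764375647128811944166685233154661435899544744507386301902546153178202897466481230475112063338966586161604587794681620476571803031061151585487935535103442704181198748380505272515929642838625883646352039891027173715632882883431040588786000479707507838349475052215064325444186785791583242728354166440426816882878272838025995446081583405110314309212101098360865587686118138071902395553614998848729658931161953375178529183406557817938519591957184179305823036490928310742101183035597866210337858821107013006017894120102511259024176848566639931303871002335231893121436052748482650134721833820120483793794794755564440218784402612457265316110269940904153458315803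082915474047315159521422632545541954203917966328653806772228958810845135433314665290360372794989863332679314653727203666013034199773774100796726505916455192752059003351959504200562675144635956465893908500130463686517596527523406571963828228961250333028280890965380657316019544641288297298950008801857791668123232851066001260162239688861079735596357680321551207671215756059221149014059109993780093638960701566454701983798362677627802208277358408165088954298086393452945340747811488734516579323236495948239306555411947948465087252781790102036847173537160988761794609158169926329955373379010984862384376569520419741084528320351685694127909450504286800208271917787275791266922324327877891173186741795528524369286728714940619935555917612363913266171722099385012859671693894419982485188272290056585923308902199289291497206405419183608146604651076545717932605143782395118183808285382456807880096370898430179681411635387934064019163831158686844800849123327012360261515150873285566259560572295771965839587188496636637791977608981114915970949995710166904245241018631016368970126702323042910817381376064299332629979376449696402990765386780038354316611641609130344227999209884448146419667681427660595429490322848238428760628527104)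

noncomputable def rc27 : Nat := (nat_lit 30755424659189624108087328180997906412296477145880158502989270449115561856984491877391112432874788889083455503824548661479038288147993886773322424215494577609358520550042323744284940952854628575352536699623577344136576272853147341411706139152442953243638079146774906943723235614428170880411588485766033085812885868637152319280335858004864334242070475575653410940889251115020384230957110744996684707854348627133305337393525197181718051410928239583743673069265767875558604250046884427153496966496031356676352931730940227519217277383898823010774997451208652283221755069836747657716987373590829621642958965461692954304709383169458045054506831579123587874326916774654012437267602959101882389238191579113732007954558091008298041782693940367624856580934712357847676826319221530945333596987592828137703151282938533456067134686652545627465189551248650152775233114858496104034636434061668421369504303405357812525434347725915027195467834538829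183983730703447500549175181415596073651118060055919500850583986580445959646774294866377535325082353344920498332566816495603858128127937903586395651444126775204661372864507109166440842355000035998432141210104002577375728646324469243464504609257668249241892696664564276349895318922295864544472196512389868801577321541860262277735141837362836595614760958958387542444654397398083477942657050937359558929092366856294739306464841446054954813618235629140498048047855289505392189240991095778567075413154308655677858311120425613780042918909539814960323159894468160121574306078259952751667953002356066072249743876532199913742712771830065433895107305526397911505524789510125941665891138267873223641057636027384038482826082515862237502833195387691339461614792960604297760471292393573783006378753466322553164893595782514181801432041311883474066760693289780398761689056298615673730639885896027110487509731993465653117928844326929977766617297510091186675880747432375130526551201465812201444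274949574628253352079060869728823340805870337519204650705914596989812104169461679710940380857118901099937200935262720698610276066291624677398303512113496590087453088621664764197549888712820983508137863454061735147190218472678784815926223265016583849881142432862702279964186407046777729178431864839730212899249284189534972288574281230354291440450667887668748776462691154626413205805335243243265025624337986389508502323785995708062840112978903296780206341851488974927990394660002251867774404887905069416635565510728184112426183814186641881463828634519332357225182681305134908961946263696875537588159246176863530823332377853173238561802079802923149208575551756529614932760410744496055162059626436103337089943007707355470822089020148873811409020530663840306500165963680027248463243007887600325301059693184436225192424630899800505367912398032423755598274583338786207826055921824170306449009953971235219887544349360779433946861395253016132361078936383638908468954484655556798642697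606436062954384166929330873152677022672342005279035509172674324644603517481810399180700198299050479903264725121528763638658978503825133880529232618067125592988723828492897325681889716282217856239476290969551945259401648537395705563854379852824187819412057841791715156728723249329671626616497153882861603449063121530836643353514064610210571774102883523029395581292096933467290057342978769066289503023664751432804875512962784775979317229844116147687609117404009724955726430203329710211696632405789531776649305598424167705409515087800274541947042306867699599570368411538754011542648160837653144506572912380986219360746923771328513707136009610148701838780667573496186409710454642618181115903803397939130753554270072100935342413413026808512812933288427132279640132742234284738573293607291086963026204228885756653952406116302926981121415175360667431527870163061777682465908654448407488848248938410681884154805090700636468770475613912021892533918600068383353614795263193904156186327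332975281833892690395594420198305229610602510349507224565355070636712804797799615584192656815536250277665615109749441770050471354499708422282190784500488434427296747785883135821660070090828598567630782632061104681044869293941791967828343603325769200281767835983257190826184477083474854961597870391459442992108364266572704861185041360378734058938174111328067359579766724354393761834714261424625361435790149753303426323400440700587566266368900329659261533991971099542738799322789366077440944688322241677218950347131219133133292641235940232219196448034683497478010301895141541944328038303555661993011322748878248977844257963540401202997979659564521977841487803400852066134037048572425418684376614625214288706012492539472839950017341752609752701423062181238402160055326981220784551431910130619796883029092374616245550419391407547224179095973088363950391726047616796656449141012078053832806831491309817147580059775356272860978091208708048535219130927280654411051068370630112287550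670498879847839455482883942297962835035474351735339977525895527846789666262147249172693243487931156293908835682154374974899853861272412775139457438241827155401888511341968118923173195272727859809015298207226893316875917197746044063501450710776142693283463370095377754891619963595448167601716675681696425202323562578863942709413150887744511034278462128622076914456422890414497450021767622509344242178718479848124459144216105134884945824446240930943968750536460832240738196945955000149466720277063604182057444172189487230533153005162318232950949258135438349167867605255056488128732088548977023242332943184824629910566954439550835845680729310913762649961411079491156626515502058867444243080628059686146970082497997980186126618230144427307670307699615055665217701352810453303812687474781978188297324591278971114127961835578888542508492988122739640891773924428000647452388219357283088265831210787640817450109901793438967380241340082492002719143916515880677609596088784576912978761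867604541147394232052436400242239872936252246820725641223623761309295812008560319880063934594628673010332370338064897770368080399294665326785253043922442794017374127175353726222991493838425713730918960547876878837766757906963877090312524548715303655169466574391149919468927407545867618567718764642425636178373765585253823731325963530258123255405147278867344250245741796417540770422504139482673166972320183703663625805604013188854893138076591997636614057759089243388033163599899222910322070776613772469025119002383340130798869287655118961612182587367843797193300646722430240131681328503386269611446909250102269805061581594567916439285808965473013075211659131840112074079864040480705145095030142313516926256604531562678735272831459763716391663484442950325459233241454082125691016839469684060861510959321427823232143541268145379056997395180942944856172031485753989712393708220766053240787689499572232065788705750494985473966446166258390130688892498606536361390504386901039232477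858356323519194157718536158943906317486409245497685455463590809340210187939330313262811938760734758785933605026108983767266850415752757183815144667186760954468556059204962271608735741278565659538448514592821244001182239420543349826710131872218421735542132234775340990316964749599809277430534149577193285582245420551212924032182473471867419722587125799075511359827397124597695370821374209352760165195398130114632040575256076219743961953330909484665795429914943483058250319215956192221375540876774424148064627110055347432873553638133560121730308061056680617354544229018337253277648519206790081513311262936391833213252062282019130462573050989162912223971804501092703052661611080525546476742740421031484515412974615667442979164893059673562142384369169921915988460623456807355998017999115796677616103500944386908114803739896201204784034287292818817374712514635004045143512188605203933970576354418726185393913839180120354670966623020105896108179207109552956516352158256852354907026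444849780961680261384696821421167414321613730501188792647024536281497126233218311252280002321893272854298149982590399447540895794491553974512654263477898760738774034347416871519051982665347360048494676793655270464432810520801919546988847345072028299144306751130336925788495948255816332644061413630359910256946897299919049095185018906259724420715708934583881501632971601089807324542290678710408634664807597992405491478119358811393279629005906195776173705964157081279063797428810923057414183742753512792660443816859487056892428049397871058857856669128226458032580533285395216774983545764365379115195057671646041736130037852516618874229776243009649039757964887419689704181329944624793769560954197335883275186124874367892113899678116656798280476346511237445157537506824805509902320431243757044714691005820367514614896947131697878829504593375400630945872789344734127080258366136277600742568426840173773449137502864177788315553447426453494602902686521476017924798839528129712488332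056999349040286594308061292663714206769752061365744418550832424763999480678303983705400596763577168460709492860966284627449005500571134977918421775845256627388382489156168085873974588340430940488334679864485013458997034154637874906037457955611156975201947386657409693613662418982828661419413164298473375746856223833527504897455714922488406504002936016039825795013326897807905306129042622127976673103573257726396631429909564360943585089845572049712369754658339398409189546088021519549513916336607652383423628690379301986081709696086544685716202750995854745554424094685766869267446903912464652830110659123792263712263392275869837142651507453017127849177476927838343931579751014990142586969942961083600643191979029090067014324596290371430774956031161669736188292641609253770260092574390703773021926376642440237172728097564262449938931014338178007830094394651432756325420796626732021299802863767445134895027780536752113042279157873946013549845591262406534218341135598207092715658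936426189081983131722097999786993838818120324901706631181806647319079945942541165010117885098779296079584963575529260059683196486849046615906155257150332193394749022954362111283895538585539939372246712657055761009416864642688104306513025532065524601658795452714705406980717833958832764302790057043613701499464614640530380469047213669561886956736477091504060057759529474463346593805486647826984941145042699288155178440555893431581431311000971561826207026236495731364340685080493958702714904270787677472819490057241882173232197357652692952499815921577522360177093294398061045999650426885709383494737935778866207820536586577432322333980308180532394050895218953991697856924119481325315174013899313251624333020141932664144435785807344486680543205807425037094142561936666949892672523807218140912567766520548139947955473703700308492782154360300537000751313417574264722842814222661518798159862599212257508969707887634669565866862216389303710505571948641362306586880276304235017305967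726886413659623124077878656206650198485188713843164046613685402494077256792788913689601334794702760048308937638894589328180028033001599373264767038330719850038434034831398012964022316746022284238838535177225487764344096363639732222363856278599459487443056357266923683292198703822881171478447390835801226179370207256185134061934062830634182832717612531420728277151605590813500332275549963274965982798700557013956171178766996254251208808251283769760590814719917896897688199309123784779606299182081891625768219069028325568760992508209726096269578806591266176527285884336096309396065405759176816864131686876264588720799410810976376391278595566120893356902128594494485409497211515575722718293821727460368301173533742629141934923127716587573037190434540318034018001366108220029725663165326641070828615759145715010996844591814379196287726095476911668972959862834325761037418823672152167737043797584051049424195667552385736878012114964255492709288058164560313922964928221260946134022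479448320188594385481271208727653410623019605055129613632883559129026733502915032006703566794537805730702147432340477662499826362422683383127611469972126501169683621634129730904960209008985949491764478379431651900798006994720576272819203859062423553920679566410109932592455372379968992554652109655929482830506233092935934292000419467603390591033942963938392825750756659960055323723363342435088607899065249174921095515726254351416959023940956977073174460586254844090740267577242011836291631698374311022848333686239172726408586349116234999001588228486472360525006373857421707610275304085662321109219034213305188078373858336033515243196737621662225408312365885741868622204157170355602331941822108621546081721881463910186116433803826184590605176592945633018372167275638818771311516221062536758857048528366839493967447948843269141972690629929309046142775314031482276078112049340717512368341057472953881392924957981054246934887810839096430007927951030563739724909284836085404104360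321725953444258923498635655620077885696597141094940782313330238061430955404753540641519753996966159750306527788519925335846988150938139037435339555321259591237501593477140820064915367999353709308578576185270167949740958905436733139659866205444956851431823909792116578130754680401566998820773292706772714912948421937948551709422934601521036573879429274434816956854879911343758930473720426309330288975038761348867987076455855244995435429016547707198867793219509041252520370440283149274751647401105644549167922471008664072221432096966819631569602847312766618019423106408714649268189178580098002063949769327685583625176894801881513468392319344089520791427711641877870843662638354216710661004777896479243208552018518191540214510703815095147322752367052517855755945642819523354587235694253825188302518366339574436365832461295196401553599613034540096005427340792737221929461198588764890864334201968897870071558133036625551741543601679793879902413890743578628904598178764757951166207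315085772128746288847384320448615603729556552746424885680029856884418048561288786139226692629052416657525386622991568017368803688176059205565692957713070547272535885230468350160997289125857704954094753751526702436710332341643915446994023619826268457293060795361574287609039251914988642495292314839830720235618253967046984789854348016495787350294115588016197617828371104334786647782963422658343244195825811970582176480347522084817817588983141220182880366853987945386301954916036917849444808358435088692489171836717502827143235672031432696979462541005830700053786345983410377488660414164878749866145813222755028511770878130538487332469212309624128197328051246439088294846385241897803966969951962530683138442736013806889210431464807633076799304634071120739998700014584466649875275789773328426418670249420206123302896907566917354942993688505812105692147632306014408066441381072614175628191754059498112834043870710821919309248243213903233214618496293308389633048360647036864929094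561768220521332516519645125334346826373528774433207904448462786856768096178927496098802397919238488573217341036500843023399320527534392952786698655063390059138730262324064034550925682932051585732804748036988418510603404320841258540481674516830023853447899682579559796256614038285206851536876837638925699168550093908037215227413905515692542598454218366710786112048884684816782985004443951384964197139949166717727582872091500912612757010241915821936638210742241427139200646291140903012693276844203780578253849640538753267482724123605738989174309791750712579084067306760573321432150276566644046940469828181138892621010530033694453864106390610408584043425926893133844843888063874337585498907614602354331418356765192782640756561192604377940667506699108509012194329629635384768610537554978880110627900268172330257216410645537249061819426049580198216810447708974827977351147314487075583061763393505678441180015033878405477796072254775185538219996284440017158007870259439875849674858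718839153372273776063608684462878167235083472737523929943097755338489776472762591980313387744904148269497594155649050967566734886515313878156162955313616230403536491619172958474153667156342053570724911276292646893529433403577885942225031154087874326435113108109929790626894901643799784637394815242016660369192384814387162388449636002600471617615381065610749579416132098977849804278834112055152302733785776856657848523455841680983338102858750366330812908481711292738928037055435691007850483553052837512734850021991011032488808653789585651772999030371417323530604580229964421854040958499406954574402042727868848140219605702971525929353491440350459211978449132966300028300971833561768065856971135154306040410302677859934642095411073900884545890598356321967393225419284463189428510820580346698324734306235767483997527760817365492429469907027091344819827938920773051812209134388023677639828485546061688520097473329191507017311191936726434051217373686323111337390822452487477505531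604846382277526635580778878963143949592602668239429269617921021733523432206277387240684583764981586706374404317999024945092444669694360015738599328765161542821123415789884774775560052444784477196734936633444032181966848901086927106279498951212724938675262168572612048837463440637466836635025878961607414376420154111280929287817027000116190904202247669208477726307235261447135506564841943611764907326521264366179472429689940188555291197751853277387219881523349002349932297089521689270356702529639312386939211051999809724688936729769081191369948739423029057384374799631486940839122115155237303653486439751177292891076802002166512521446213364674801743580277443575806136315169872574585513145874497607313744952682451658138170769737074087876520560433054355370833210685637214431256853237630536672568886537487847054997694660979988065919290726078148920059729105631469877129441453157787010362146513229731699283549282828279359257655669188254964140506564338475159778911722324136665037582882226229961281326773413168119018719740917151499966090641721028162967942077379278899957419878592419124300039712127987780407238337490519207680368387829853190670073829007725440971636695509574033014352494808251553327639466496110774671185861935104)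

noncomputable def rc28 : Nat := (nat_lit 30816624806487396729047920050700098966369618469231917098638949886092439154908460189724875605452877930842544726603453540314143465229040461314835683896859629547044291062160052586866229094669477170499770289583086108204877515382589911784926111298133857867749723986485219046609604329371217221507510981140973770237487353996755959609117073080584054393924132660716999004648288987563155767109398574564643051237836837674067499778141463370132681515200403091494798905278746936875743981373835507715488674872461350317086270563132041067155118429091094331557936145082241687286322299886257970339365031101655252832626157490193856780125804830616684093346889781451344803295465684218319141396963388046794386107162814392918608846633852122119972157331294977830487847205948422131865503950412857739918186595393367894540898603372570218046390731384230686871920012179869586495176030845852741080721156669673530314784786998337740945184990075460169545067346031770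943078854507954362611722881180880810512433558161983531404158962434327431078611372782673016226299359324612899936709295983697507232534363246185750562500492185085030676171428707032537813666175106166903708969743552928929342593613184452183027756819563672739914086274608920557814711194528859260127701572695627827414880216046544796332400785063911086219346918591026166408428777086685502961097093239087580424548348604903901005067411539296816221291558039004044494956107209571681910577883651272810910617477850462228674520801657716582024145548216867879931142475941117586441954176687175705133892457842333401578029604999876680840399676144552677010859802651769469111980600480217583378634553651778287163127279888231751424975104808446322468297269797451621151659875983244086606597560838904540297296102279270393986243768553537734061829180915019665632598403205255466752105430483581109040673387957983140876369818061870269613025208024367955333198908079816779541112128891378990556437897592119638629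764802092388020730105751998574173956502363384657611632169011908170041529567159082716194148217834147588097833141899240259046973974137493045953823863046924418067309906062656796145715186887053361005719941711176543743695568844498312018244961181437810109347379969201330665396950620282803796964057276711869852581226843853274037009710066817070990657571840779844429607036172744770268425366991994714668266587105361026978651461055914669195910771499271372589659101131507765764393197906124255349975574698377440797982344452811471635048500610264875885101343434169634301572395362534204477324910858078389675061580354673551350609377925767741548715027745030121139948578544491807224332749423562882743937666369238219620790811598057714569800559430182229166912000651571245891853731784026503612870310922962817552256077186422933922372719648735397381389656529938026012246904620346391441155307491000910152551006488057277364653425142478463355111257000877123382109801805430141712588394390062594001427125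091445688112732085550857610690713148539701317233956763265025819219983010329099709667021798511070311558437124915700523911538312334849986050576917728131633124917744425441264807353248476765701938021824557617426732423887399725781411540008686879905949956925604181594843898009878847479574403013038539529008408058485781237148583283518731751666415467872546915892629253385150978740813719683843151885077192031271601061318117054069057814435850969142837224452041810708136967989779740388925486988298093939633731566586371915955916815506242306102703623124336004509600956569050554362668774836774718533959535247223422154547678974734183352615197593469160932567570322818173751450066062685543946549566610927800569245843833460791762938277691048616216630723830795091229272736474690076629780916608277169709775759159696113866164574788739338653525182020707923703375466640272106760140935266986814882585383224971495881539516255139604911176496059800838219991977419914474355581907753803903522932708830146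277450011845816790944856348398949118784102044961634361342554748914548949086777788798060787560575716770552726437993910634948647779177833827808667543751882333311901124246611698775747197998708269037919196161604603767116790677047877974229529040740822554216114578435624106297293163468415262193960900579001419671988802821461190008065622202495395166028506231657896407690996234054030883899828286386675264936321294859181905723086184393106807311643234890644375174839752182742707092812061314578042779177137232092506181060810813205351701814196299440694772172871708711664356314161125706537883949244847142579326358577304159220918595525911798599866971483595350498957407044395903655237556618255710512240651360459133341066650944708976744356362786484161183921289732017432530073261856749326008197063788062455186319857889695197847413742374160531535665192878406621162373202483626378598668362669110653777879481184819570199615774768454183181293749241860594628051982879044352227706364676231802210881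227795104523045813239573626907641040779725108630133797250153598132287994681804740823780928878716962159358996367871695354630391982853130808970882899722365055073940532038342864999451270292702556571480413580209318490389500523022889137746440465622413755115034393090488347044896553229961554643307614475406405339035185309020585748887295708552367556151143338270299086258583849792841397403904904215910238314895053174678277546391149019023774019310303958051531845484669368823935693520255684754400395799753041496039092936758561926134568683858531211844620173467701678249512660443816497361761032166979611141799035708807956591284286286009492595736865833118452302950568332311299268681378694650237150926219215737082398213717874045444287468042144991956329266502424983302200732525607464399051536770097535084493619061436376668571812033282190356427526220038901210504699200402975171345963692098994807731871573755332159474310563049148445523656857886210249742049881000239817134326296854449499786048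834001077837575009774798839687034074482610600226810306666518337568376792459004391531138322463528022133491951260342413328643909700015807075158089698857685855730074052493839730858191857154797621255265564890917784646612649748564779381665709475525125438284817845911353179146344475547761761799226069680556906178408087355617637150124052403495026147704878964843575950646085529043474694336828163524752370098455896598360877435339172573064641014760854103749649382335316522112754593106270135020922506225995930631247939459667552307638080524058653760893734903144133913166261690159018841781217404579274256231708581534806173963216387268402662971115407334690165686280407502311821945473515287626755341387753177864060310710850135370038075131113481513031084481729117607716067098232412315407490792411372111925499049893068707729844947673954384763253145936924422502141998278202806895814707191192210974643784282180212890054992461204884018706701432236303715567737844367652402406930055253062457967167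795182051801654157086169732057843057869164805043349513247135323110240355138055566275097259583578816301295606387678291045014658062226643949373791369656642400941150340592298175811139235653817518774946272709066822096366280550930894322560494296396047238973272536380404685353421490488438949992056596705500552177397328545374239434623217886421699213665190222277147706193002186176674950083051843730000470245308440641341185977768619335683783034105701422062655603883391933242332450817000003906331775964493599160992586547339235607327279877648776830192632160673639560893473102731760644448303362373387545421028436695652820432343117652953318636988665857405953410189926259254878522863676556151584446605899998353929973468602713107554899117766790461522802115969698435462655516846306216603276387343545301144929458909056731597699044878640200690943180084278698577662636504458008288860213244954890800556511669254407618339819351219599089378688428651708168075889234496784276233556870623175889631395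557937689132659240691779463070058760373059532156960111719334274037582692998710105602933772132107678003065129375910072279870615617456972217976912350413877828218966378317041407679642712830853076425823934621033586184608354499541709696549907416506999932320743260403881063994633666815939102226481317902838038868674716093015625111490618840202077367604002473986615083798631693529867319807903332171642649697122582588265014801369014752531994424391593091451451668693024600696073085554672421944563827075999775781324210374603429619248550556591105669061615967468558458441713230840910051946644918740528452872646535130396734864906705070983151094854792936568964067514496851814623272151365068598693821012695565376506010488045163320935490894037480133099918308568425645326764359350055070587854865173513042817920129709147821749440500745763995769790659749681463410925053625671799541125840827734010873512658871282970522375510825651671449953487334189213084832388560075104401010407369271711272189670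676962097941467745342492426495798980993777798384321053989113838519349142521836810195099084623930890924304123060940473085985088760047217572642431268798443346939297268667495388577774587137964401330810288717928340683677545345292145865690768291552907695384049994916069829140577051529199729930542413805409646843616992065844721646111898649465422571863767357193730689572501173176738091603698593622478252346879953899207480648346530183256255425413433810174324346815815638764068338995353804819663791471873934277300766891915869184706021566799823391055891583391760656437142237083138318730811036996167204652785539983520547926718949449962341992784341569305096474863593217506572311469987206323136856276586558977845217120077480096063927128559587119721148802511941889218093065941913611826551266959355671162081000384826353813522415321476860838877726937357608692446929945680354651710825111574687459173467325439688298260553526490218498665712780589658564960796241792188826693965676544354912250838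468080979518065975528973249802847001714060274091833896169438641348922120334477547756487633188640742640228602522636285157748797846585541884619461623183451889405982273969121357289816840279412670004972134176633317951940097262899257339483852499950604761823360453763965533864927095235242879571338753298630425751754415377381446319990455957465549218783247967112259804390219452651219599310181283865023225971141890654980955888308313170263207796663943456398427293027832165799693226813958771840434941958095502406224816983486674522630072954183243538364325569663385273946982592840980779562788216943182359242167049918145402448598547669777311659075134692889159853648343390483672123451262157746639315905366731131568588605681738351663383700270973046707219022153547774685403696480162033203922658320798067434185879955725596291453034174604423127590287765463257719857178644886012678166421548237072518446478586350319119379843531120943670762533031857632946912610180923176552032430904344983081422053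825785905448936503302562322196786594293807567841046886149204953217445767277145984623531495777919805126777510653603961733570450399669141772133413472524041623405682569145183746406632544372905335352468459692302769499810581007913542965106218177972957635094553902060402604538566706086633297270532230016678963817255453416451759233482433810844937865035002348444626072156170031473194142618079002039697902956867783861212268005759269812387150707424816945955441034819250334205288366435014821646056635599429768637275490028976338168879143362929264918137381567638329576019447349250098252062482343819181771986710754573903563144109382183794091950612321724834816081088604958263702418381534968647533364555382645231224526060085685666868646923368483596637628207073835748279424141404699076648260845262084318141922481611365251734052294132174295838336028931251765723226458143302422269442336669174085224478267349713375723652815798511140146136313415285044489480584344730395603659287065564940550055077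817738528206020888893897279291528149143525586390895751199455789732740982201442017532798369283739590632715060232117650397074981386967329249915793287510106915638279396806456772640808457255447361213822270996827398822239258891996782866891556364483958732261199617098365729575641480000909444654281314291141630361068114103058839231617207933345175923232936150366069819096109841941224489303720503371055925695915176897534647885104210246920634119653749400671315162968401101667028621593535622837750663862011771039657955895320452570637222324371787429730780581195969348069803198220663859554137860166813670488628332749634407083905208910623115204346366735769119105169078753263818891664249862268473246218714827910226574668610460859308185429353975085136265908420687833535276212971500742017433357012884860647623992208006991347693985045015157048534474965780266657195065568291376816207934756371914956375925950168622919493064274519021015637408178870521682999988055045658808283197563335787072684581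323875241601134065611607340751890256033761313716425585024206198830143791735891662083152298109041814974401595475369073714096487911640330770883261116311093921490237466592704688368877351536882460019288719158258971510634819688330448051975857164669075419888480392853748354445699877474521504761251557279702279590679352013079327906786666467031174709513307838208726734397192179687211703891892034922665665058550551073683025026347154082327389048838633862669807553482986651485133778684380213157129797623658684938991898515518293932868937239891558133343303277371454194049350264589100915427250341737455826044026544691582227687252752568385165534011823683786445200481227007701128167055647083955724515536528324548157664638635927993567887290157879842609227946451170959282453543989538931224127103831130836910822206869379098724964997342383855357291201846096602581107306507132574675931235685581879263787329686130918793064446204144489999023652832763476657422245678664431300686813242094492726677284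956133851385632953391096332735830321585079248506286860198982164035086873945714116840158432165982396163260257226722198354012543962542319086506246460538570132508424501506366152803225759068219258574856956901839142499623285120649913568172004400315854085734231279433659998298297186957960144597680108310352212196965321055072656378240722049956534284721793770249086303438576493349007242462643650838068678594509801962164314945838785133440222722888528402836224042155500938070481809754505464711588435913979672497609022679531647875234226973403168912686919467950154175718621219757047752970714103614768341603316557517933848756686412525637337012653953240563518798817900685404707364656111627091686870692381867324991990104075882059749106608893199739101007493331964511182074361074593137586708298389441844076286271119422011418725068582651256886698794572491020760848684165545517315762534965118370048412461743374429901304287865150042778463580005656520391371756063355516267125243934593623177092746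248300488839206945806572398157302440979315207864176156922881259136164131646120694465633787171444446426891029195688378410501150258554749138996907362615841419070255263463828770930994869765448849176193328614406900106789084505249777433857385162174408066600631058021459129919359021767657165523778599665773016268452533234409517461688508262565339501794804610909342473474820511819097846848710488402808694121333809451662807949494576762344829370986811351297988354237563130259504418082188660822512042452110106346656032492442591393468950550980774876689571285641346277533340676940320861745740704390295945601730798751346345322717020830676392736443903294530244826796374530998968864458459367911328224801941114012274502667475473298688995416015154017503002397227139862013632133502291127662178615958224023298494043561403980197961746065498783261299420618692329630794911708652349929078428021259404884648696726069491401203632909850792737781054302374117967591592664329307991444482569178138630754632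468743173359993557782362412779438293067907555470078977067949603246876302167337058128367300874070663060731157432035412612707338609637601776981744165859992811680198412824044722362184811543451618554349744608660137685856906366764414441638000810800791514860542669603675071492513849193804212572166901062197561187616972569759870871053201765656819846244632561235701278101536780404409908143217151282348953975756401505574579395781715132710012738945510618368719035947003272877140311387844659947549001767962832868789744089004973255796060609649459149766346984384510235653595234731392442973191888292227597667532321010468274727258972871453577569311555019301238687417129147799024912272798906660048840997167791242841117716208998283132667499467212221688149453327173245257338656801352855566729815758217213493665346926177034862691166930289158924127316546800566752472776792236716533832736148333370444477448127559757674701722113501839355523534868324147523525698664521863934020602689782158291179382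080482321189567307291269856405824041731716467619779532454200897599382072186550453608175696633078897182161823997285987738908021855666491648587910688573396430365536575129241253922131358753571204265410967017768586044159064936240176189560158393203858865027974143336334863313576427534265595809906733903918677126129223715646967681855001150958683687146299128348613876267857314387468350330515570105095736785489333386172471818204030833636777260840664984591566156204645728321102727712556324000261924009645763111608229885518540127353526334731481202417254455469376439477985612422166804773763035744097330242173946332652245145486952076684851218668578002232230216328444412275818279427229529540447958217804672933874425526395086947699695141251122438075882004204479870948169423785932726464606217989626980831591528088509676894127045518651492617086442300067235089857667020907759864474371661278437421662806728089694863332716236583756314362958489189985279777761786679150379922477784001862524684284535712407612654000891246152190053883669852892559136750076406423340292228437938043460081599592769618489325233215831495379014013522409288877437477127208386709231872086459097085235009841247073325313073720286875717692576614093420553888321257865216)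

noncomputable def rc29 : Nat := (nat_lit 30877261347383207721325884791362102489569611641766105597255789131772085354400624494713916182125883318423747336675919213103570368125611108880555709796267217180436348939613279294422467530884374548884673426397920871133927697211567667577717423117501921893750963192195070506065845461625942082253676710582560363261604818063546745108913877760520107988811249520199370346768556099374650966471404921081548783608144805856843744433409822734574732541621420195873022372302327272497469900158181202434102653345780804943510817437452607737047597288498056755103333600160417214133083462984889725452614804764014237322652124346761303273539696317848453026557113391050085746873351117432076207142044418621880472762092502363414582712136756242248020409065731079486554628077805637877422133436327046788729489937213577143239491085534274652258956874613713590058217260004308103210942148809049582163502908280859287166491835681287964231345948684010236641693412888031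346999895806947755311966438567608642040910771522706473690427222849485509755429772271523614678638496141384783686804096213051735845763791596918665974672550134848369159320728449413341918722377617365093247998990913973622029513727641689009502602205113407957558784872426757116970608356798224501924823114760672000432206815310112362422481580175053027320473353889332573453187797932180283172469368884711547264120127655594412450535340543312937216439859445751961383224894879551317345583035201259721992819808497097577780362469111608000912503657992991279251348598352650360982386208906814680547630041596808279148406084208052471716737235276840994305436536942511559718750886255778072788934047609757461192952929674619997422551061456924636466116560713374793714950618184937575263101316175220597298732528210302051236666387150153259940541019042399494379174308055190815097167344470513583694096118278661887034687476323476089906395555601860909582025036980134810599094727518088771218702067030435411387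398322849744904052082913590456857914217754758397309378857514922286359787063562281181046513255748559860317039638883735004107812828689980716298149556707560358600563949128425421535392740799574806670952330058165489305835926551793197314262500534059858892222421529502881528504502621527044631218769844230265645311424392633141166573053132927201161869125995103020722678270579898584382422887751839743937284260249343213844556249812765601044250318221889519193146595857844177995595956694002383481870682629142384624256977293208100682665536922660239968481412189705900632163638253917969243171064796802796205147067864573830351524301786017193669096571191335763149069397636046538574336314224592582163937263423475257694291215458989985264824721849623737123302602334223890357980861681228873310559462003169743700500319957813151302737608663146422362352593919651276132972691102047312167004520614471415702816443002375344280418087875228447889456814186583900499282608866934861815997940401494159847007259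557542471748913819888558392788570281858588835941868569746320663145463482857113472092899878200225567506488312694799442302379607672548740551252302035522325176687271853373825261098639098816973569661028335577241608820960546355991952263490599445978490709656280157376348819253492645670952180637660138176348196022744082899130135751639078591605517693973778080995686061898710021826431724863925356226686693028718853543195829722224118652846984812907939977821334367264220157203927894328579778506404904216313827072574843312584944217804364171731977640473706065598378245364477342901059853058413269920790384603346115053118134731206125844600831939395635880968983836510245356523751392805664601413247773321602839261396742257863789887623553870282720672240126262581766636446011726884382710271408035206723014859149208169428923580975781605711239534222746091911882487963638692495001819261407204189278901748112966024770295897001165190306934807227701551743093554853827333845059198672853260895576030277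652239502432462662992842964085482700913204434277565154530953390007138722393343599419706838264542150073022672872612900835335513878870187146466810589314906999520850963316502611816531783294233848003299220491616967764575336056243528667844419150078142884717622782396870995821641653429263435467116318201145162056723835073861347038221957755257006423471977372961061017565604708106306947205582468955344879579540563029571522015404019037436090041306381379864247892078427815683997865941370472052878050765712795396680606735466311633009887757934356468223524111283391306346589730828212881471257904979455322823828055889806693448466091787344819640489712142790414316556589844809948633126053627698932394827627491431638176617835648612514549786284862847711778738381301495467199065394925918965415458349757681739798519354385944016234151767904693133615640736798486455616609471121929767196479789162159094811554087749622287994624369534188772498578962864421868134434361169255439971001096676830022606494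400522147717815739166959973095509374268320196553479275090256004164831691357621365800743427104033293757275976725496191845741902998808165642100377749864274526988710234193631770255911689371842272299822525019562227252493963120439424900793960873448811519332661488193704555424064750240247285749276204078208825383104133553542884438420975156878578694194059539053424237104230422866689985104929536969955214579749229422823407374017271560750901895466826662295225921331492566809884298793822984392357007754601630999034614040851035268443789470581388713768490014103726584822519339918210422395874209658764503800553648097886806706245127599927334266499519365552529647036144890200541238233638294939980912034662911782874993348306244528258489740409872894770988162955730882204472935852834102664115692809828140919079128587366041181330383871471430625318000927456384542350477575898919738729600676048539691601239018621883334112280084158281717939336638987378665320897811361456258094205227043913877617050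559117514775545957751151628510119211186503371523920110362791490441860706447828006655829757389567541394146000899306028644229477846354664548340097598196352574032372724572201359889923308258805783549208187143344446755404898171762486766779736003799439817580516096482825997136015126899618759763201312339824601484398395491247848114055932927020542335128123738588965022309523510976833474873753169608806155182448098044778715338730653985850609424784582188419897811619723994277371330117764887892276849545551009398130544266580014365721527459132704453578156598203593545172975442690962808311719586688822886254909647640272897237794519265883206350178474878236093061537823177943960073158515473427944747179878163981715337955909796409101107215553812228424917822602302008324311435147964955897630908472644420939861924478710084650075557101680412118978130644352607997827746636373352509083306093111961504069960348696438704283011036162261822324501233716019170861406608755756057849076604726042559171706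589637845769567387638725468517714754992903345055903950643391522728638100642063204282563442055084146295615298637049734800150592507815278025423342257270866159130249026378728442879459450261146656619303413368255843241893809504977251867345326684526073940210624820276755833999360743927854149826120844507277763150476697071304229842713888284545314256828386828441789273042342086542991549290519946291920644403015238273534351401507049917293106812161912058460194748168656781064694703945139020925136051365395536768150287457177345331879687005247572646642139427436972297602815366162401878054888609348463595648020693606260149494818098530188184579563695261154885699428629276232231223739435540936755037327101303367557359692612137646941527542219038148422334471964324442974816386110421971557340900615758687055286645621218610657320541031358494048335939256082237211158540265123217476715420630393965613152016694700417298349873554569351054810251456948034091818178181677861169856859709697910724250537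913269462530555089748519783720129265273741684931262734357076034349342090196957503936850718373057677292377810339611924124042049152925692851171023797058143573927872281967521158317991441436304932767708250125839775746791073977170057180833412338078464830761352419392478686879824346756167510667822192711598152683148980336650920497346973545967445518917248632110051183356610269824726500428498052919454353487861432568568953311744186323098147096326483390700778058663925698316063282343838563193135509480812737916298756953976938472733475397305904235069676084245777572340798322979479674067185337546134204851441944397535775723858934226851971343296661411300136325443025596183382070971325965183908470398799337968858728741423547882076010790218889575723558944912257139594065440329074477056972427763534880751457039977695638619832751038212840025257371762958499972513172864888295934321897924722985611030582168096836169576186029558091481331584059781202571017661404316729499416113372903076301287620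513300280678846227489347273206040561971902572071595710674693137021744781055136460936032315330509852292871348895244753192357586978020178856784019767874094459150860780622466159528282286486884241157756480029229636389300314609681997433817655043815956709864532982463626112347503675774866367567673458352684473406359536479590295450422990316663050682022437055660315157639078636670405360252937746711223343968694967307901870473914386377570512154246028922189447080362722824746323932954670364490595031331918714614276213629396180788324402986296414215916084690464865184643765552213397551770585700273632157164186951126956335580763542420295121523344870398447898221901444324823160204202756795702721984939607625036994029032354732558068626247613231129800812505717648733195403871835679273993761973455264543846048002614130938779775087282021566227300414890629881772406905453330224492190227299072945208797421355245169317387855961177501074520834905692401314960459348160382102213710412862181636904262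086625605551130629173288225050084089866784949056529650422191146421772813262463625048427567665767165672717441539045319903911626438521319837068259475418682357815501810836248171025028941128834140200882322586204254881270830217585853487141220496081368389253524592307420102144458446670049361557554492456614063979505570884651286994435339191182918544166359660531481049584677229964136559578828498537823838562933274420959857471870854242343700142476154731332519293373859806977910993301820181181644095136222940562404877921503981257894429620498428555840091354788330225770409858166100048042917719650946494057841348805099996003537284167957054793806505784902706890351212085132107584361222330620840930618020693116478900253659385164054044671409475307314426593913413603306817922460855505949238639202801364931855009440348633408378826007290910253656321482021455952578072736254673148004833095780628059569621013415790479657982471309977507187518010055333031901108709028406694667951791351164070448969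438814993014072113266685238728256905946879596981751288101005828204101220974111292449551700605389147799897973742451908412056841566432012677044081739894592971819482957704218185972649212587901703121724105493413871382845574619628232456563138543615481627865851209420483815331379972671113314542785980127633530277853638683463240042894092544510229794664211780364381531934170372912321381461732445271389155955785863056279558493594469944955653276692841712285425891797228414579403855952871118587166078748865550738865813079624859771461439006712485424344815538637988557285286982875606440529176201163688986188921383505384473515024842292979733746792586933610943861043626778916311409222067177160380554875663430086591826630411473322416050732884290075569625093385046764734473049951958307559434207876339329361818206020092629425764493723058411021507264234803090086067507342469837816834051684533754852551818948942255854519578437462353128217086123357298474525887762603505116165793902839173481430552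312751622739771953032329434632898913692094787513461696690940697068630631767161087268594137550991218468474126769106196879419251128318990549409933787375298486890951170328803594859525459511061119417868025411768602835352428565086482318272904960563047529553379626801804084568946818886790295537680029707838707932345849290177118755566302752471563917677074996245311704129197689633289280443775746276314104316456529559793294523736477606323407166249360466850650401261595263243902167240467793308844879816007055841993721781034322366351603639627789661937788289486313554489810659762661734762914584515824289022359871957333662493035573718277978851663163160712456367026049068932059541053200862897702359876857187429048198264671759666075318134132801763581308275761106896538198989374354063564280978250489425061961063950338443619181897833635478534361291434180659525051165327321888015042170787808848624323939001958276014107605701346300595359816298836489563512962751515725690866652807580294776710141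135708786643070382711532530555969007380859363960946386116439595028478235607423020691402603203271321082080997980092954501830369685839092317146887378029088204133442944251389804449857451695660695625164932446451226393820308447398932392890049819161122310448061904548863220763805239511726990443979469685768723831253645563511597417610199536339001318933176296283165250596887694649949668710626754546392031748561365821735223624450940858763902158759914522389758008580619057655121628909343914139144973314132746541154098579768034934257157201429650560639147519900792210501118628685299913886146410695088027935835068510289202226485172853407315668696384937531382622205836582097401181332062020797450022474723527463707820306934520542494893185122649640157670170996728094439428436732264234744646713899141016651838876528953971467760316860353952093257530835277537639597134909445155496959866661828869868589055105127146354262531705312951618087086177288446255767115389446288517510001090075090352867324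965906028515171538236652896889512910967461334002320817539405597851731873527221439623346968266642526669607820774528985198257750863935960659727676908889880242881614834431974258230840043071187673787609003172439916108177898233188719586855250320248444206167738548402079085055118733207146691456527452882674894757765188547121548973653349809538205617990585679482324041572693913408109696643878552535347404542110521357060761486175930616271895515844138855147619156764772323863277427328009627259922901065182698625520767984588305731091268122832720978146731958497293904712090342528705942896604390065673693230474758733841574635208415496538394432051220661023050784194668374466600227140536419245912703105842080511449413692271140603856591699536222902476826436920630280724077668869131003871941723709686348190604530090765639496946323093157854912591770770964858366065948471199473972238823039782114869849384956378637409872364731423563323807994817849267623407101331712008947235303851156891710628473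907729118718384275106310278143902664699993034077417292417203870817874267760585852960611278046443281417155769450209962809378446859221433978255312707728763440254705345986024360979893283388285367258888736268694332571052312018711837991947495215296497772854617510832685648578565510437658364727662396331418693224609366257715187750229775012743751956079883184265574427361700791123045094267965313670687726497556904393242327865380173975886337868562446626284270071571782845002595849958494946103589139935096381143403592671130590861873124390507307328284844686424379196413385405154992246187168720619410083800818181504589214781237242401460176906828817333404788189228442819565006325439182963092668477443721406245283434346099532570934113203425901995871221538084705921346858033041167097144009395110701232004792234107342013811331500291224106719566831207763898567143879634717514736829859959746898062872159606612732845524820114783037397089589081714754942120094152238682266783927866347215351038641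126919206158866784392070213307466803544021359109786696577113278960866081775883707931692874289386898747275208469976318522086986805724671814859289963425819498233638067687311421923012093435699910544310660069780820933977530345281976047726468830669786269615965939519595221022979538013546197307664104703961951588142144582696880680523411947982917769779166062810167117601189127614343059405959353804727832830640509839633225927744008221757045930635878024416803510610309639825620844148545375711207930535575317466529439014223674710817465743059783824969718947567413047924580145056975803398432640498308827431029526863407680250444685593700620128977103261026342007694793087304344282329930011225849490526193301505765619730921263569702913354276718697901713653129085483633131766320684384353169441723569450697346768627028240621168667355397690598034506826148277630648032233638397339219048018111195336901161922594937828974579902199486044686767833715912538995384608793301760609417422638814136726753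221561721949233898629523357745703164086858205541083290634581272116165320553969490517874978841615455856146395252564913696259615418938532332715447980588222310065981560556924876656421842110004646248570330278445935726676984930486042863934172802869837789393348341912682435480631111123272831579000996477599688349317346199622324135477374136369331671007999361057257068899253066307331537940627890494420860061051396092636458123870068535838214297399551647522332442676308553523272342197085742713779968828199863984434021887763411071148151739842428550256832483396847414093445405263259662061814625600291634920905390584158114707521554403043722359985609402820059085319667146053065818297568237402751133459331019253637164313653095776920605566244611174308653161670333641134177082911978892110489370613618051519044847857107598601000560593838283610527685791808415285471817411991446395251356995985696251048381148979280512564078325621405679830731266185892084734019641621262131187426962674569881656458396847110275207492970058377737595156240793562968487579213323848083566172186667563733697680654057137159988070736546311309885723785838152261431797894888182220301457736727542306834077772446624681145791293044960565140387575216527037832246188834816)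

noncomputable def rc30 : Nat := (nat_lit 30937331829703719836119373519507563584605188472076788032878154557224666622187460131532342536523744412016854520738379772189283876208187021483853073880855928590999555622798322209493293252835223403767839008039065383278997392589838024548432983359633276267956618997988319029281061433064389714868345972447526378437288532467557176439439180629587463234174617158257715357218916737895977125141004548975559892074996940425008350669171251725766630303115154777314568498286145575134202926286434061690859242518692605960071981100892978994795213512669910715887506567796986675253918131898257357888833121602779506219949842297747675555018575640025620750828723946974936894397192872006659781344703669341607437563874726420468845296170361871592176613215942752063818581612897928199917155980811302944598879527965757579156761712279156549938749085377701086969452345015551935154640590195741027937063853010136478106704963590185680720000755995359203500054638894624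818546886021413055178989586129873721542697153190928264186676280889897986592302979837914265425589528305659096629909142324912239513508653178719248807837642727601401233733937079458732505143617974674360311740313212871977749829440158800183955337630426644474647575260799405711326930928527190579405810643996612810146286862492437332847653427203589911360515397638215029133511047153101353515742004652632299565208676263209364898129957023381215800278590017221807873685765701277579721365714679630719804661106770472081992114668933460717313465819935643908998680070993857102816593945555367510896126584392819673424094173997240323148171485320198884841955899098982141775368791050517046852604808324284261629157526731933272793504223972008455591043935004128819078101835729235285121000391483345331525691921648470934985081652767577274563190302893896134524047655189920483306588506660958225718550144214373576532212451422373317187323308091107376160412894913596547755530646642163678575803060809461237854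397777834735328479022409430550743412774650838078548665450107217570992038971484462012411720050173032252868137559736516414988999785730311026583244287574311174560720688586470673501558864721709636066976824240620052855229878120690828188311943741198129331132332391859429455916030177935924001299818787178485833707908943568279730967649600666457672720623978610887375946146243400225642727709481836192335733251135027629396909219381263945554269792850952862121679100989354388577616151357619653225225358009766597021957439036344536702770283941811421388195370673639308260225939593677781143830100400846602427589576208446377492116247224782087998346448868048343048383942571592302154164424708664091702322810069276149292479696408754251969974598404170530612570226241819272974351402774284675554033621791953774342273272398245772425844160670755403549535248233662155290638642010647540305239115599248329755393968982864707481410988475908321728732712287510248983081721883761693419877192572842246773028965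776494919373298948002620694669937366420211742898171987687501288264288230305956020289223324196603420301226724922471094473688992167416359134184312322511968996606737991364912328585868651798532206250725873476275102763704747690087961675120759636535318261021794432728811819489636745405552634913074021853169327773480507197513180817228882066645499585654565294980793827038376525900970662457980634322884903465103153390082614882902672206006657007589654342002541089295383551611955816507793817756637311248620983991941494961385926328220870297448395202030465876105756831782546740465522611749765966045374780968526184500454488586323151537484784874813191243402226027810261898096769982917728981278762847992641538408427171705865504996679352286350057842494216190148101319887059197845295479486570976313225424469163424786776695381334851723175790597399172005411281885873748510288315510317131028569476034484013939432410281600860881559507106134871228512679149507002874053766700551759202956314535823701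528111739643268766834387725967230983154209666767332620716357138722611066595617881275475670419926443441248782961270100421066796254539203302643416656086364771801421189592312321170938446632259878123129708271088414821696711446899682927892784177373417220934229327340086934669353688039632508658220551686727083164948676992286043470261756346392799162416044639751326514349441471515649680055866854237881849363514138660340274506023672370545151966124477715490257308876266362537072044745226074847902047035234953580238978138211604821035565583618070789694224610192808094056466223590723183411961260079759927811911988938462597521660703974208722023411445468974409303914524811229775614270087690259568507193043315372319273198477706592628062105027484463765387480572203801241894007191441529877984170565411476965057800783432639949036136402727461943252317577849579855410712427125582064100570140688120822265928276015895741654817111984456134863970596782138929603459063377035644732110075865744283776964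204992246179080786689119406056035484075397422648980213850792517887689688435685377593514691088009556333200517816354389772605748979680035802556049426380842073036702139466420896124173655768979657008222613750277495884939106121740705534793922116445603978644516272848626672757057271411398004745112368961744013354366769654345472829289808183315343936718644415194443122424527257138255117951628236638440344014350437334663723920212898789152891093996228153540013520611656114182347873425244162540402611391717508865323421927724207603735080149944449549719384219220707706651586187193719846285045058467176771868731851911801408061970656523597797204411672641473840392047026347341916623298938318149647944146049158454914739868376907864650803328687581837413912411749713857839275249507986551732125931051385804160878296623027505106330478228435764555532905255238093197868797629142574397069855711247488198715243940346796014306457160750373906602643706046550216622507745023349657046504753164687300504317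309654367843561740033901471136961027987603213507855202750937488197773349530037296422930443678756629440940552764907696313830808067020759209780868718608902214567640599589886432397498410626333258321158450508407442866484092323241802514041429622896353740506316641805339843751722180176598788103574223298666947093662240368018318219886949640483677064087623400585985273907779682333712842326428512129502122827415354615891279677445071611051319569407327622544520699206452206627431929045494716195788294363525446075552272195832973517636823075526621652653294261626222364980537492091326308456399723166543002954948832527500718449275276077845917693479382691321866312318576368490436812614666434190719088624125423004808938762290300243719021407180489750792941369754102179116310363758824305450811290902509535600636791336973773053286412611488545273974761408822293049338619848982010326681039465083855863916087074936571221495916809169211632213413013990952396026490217737600593275438424303468017637238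982739053830387365985952712092642108063794669842737572183566621738963033417406229338132115730909327388617779281106269102140926375141751829669583905643298009117054889794136939241333102885135246700166739888167848664488030670464162562990579828520940949085030694519564120920642668197798181669260325885698576447284437291631068028664318053599061412422433646545533481926765309509113033601631145995521394438841299885704484140073329390983723249407058246461219422556135467564852106248031398969924049318494052910935755776528670986016162723263136034643798285795993383815593987418325517722962390956949502212680205298018895577370705651665923422629860038504640813331159782560777412995920984375993558599044718221000015082603446334169530944761625618263894982963292687256326554662329122162037077813449845576859533084348044975843227539080408553560333192825153816428408492780062556110030993884076350488933061322434246274593042516370986933147948893593099607484762061411989169224458030709280130689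112584091429191926149663076101028166197991508697041372696974271958118510758929922341431736723594780579194165294069485836057913167167621535648245118013205967977395580159198293709471274891398337258187699793150768411048306261744837187197116560145026621518503667011758405903460667268142599591820075018995248410083052524403038982966651552569198963431948045071615423975615542301858180934664490762701345536994051219641087672619758166240104071773452095178537880999380203806098263424760414783517470867446471808259185625721644835016634982882976066048487464814274927310027274962374668177532356642948501148219740247538341044849871078585303945273682178691407785024794750191605133632985011840184259293208810093912257434269142128151686579474367517535922361854053976561090880384599545391320148367659322321845231536392382245855068333074642564313063682202488522426426388686367286984561550747762364684876152898383458059549956684036589861586621730318631453874121766859082919950441521962393772458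788453990923984863559573359931270767602761542491361728733467744922853990533898706835892297854991032222351982418307965519888921053900443576929715770021269471962997602044953952295575511015646922683006226588554629512721446640880583449192562359731180555507127050081474470476016150215555977501514911548012834684984099835451231850326545536773742260614073561479413021741184085915178863702325185597271854212850586035980203565664472572068411204371078095358216875540553512905228370792409767930239692034409533536671286540269698621149334741256798325052524180975115897668792713516782315097186328231836038246096108473936220349437002290589822917312636889730382537793540089295247017709010077579461636307325569565277479141693515346312319091762239954201081797236060782789101413793037404640900879885063954708947733594660545764933273327037136223695612798848282230929694727654026697637666651355049475299460010967382624216836785817439975526464047825809161698368504803873623347957268287227446721276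785889240037282788042718996946142698542029513749040465542284032119066458073985093900215200942884679264123844133568569518907441974843515147332849910362134292660652886987172192932252216954210672676454252211559261125127799879062798433452437316459889148453101638665310942102454968633119610773683650776222118975461687901129061727473958580908603298507703219791366520919405606793415870677272125182646903004584261761971368960223044049361657626408614867838154439161529041024251576231864886254673622035795414459170299874595014248683394061440136617471786045588764473652774005354344257177205633342758991365471127610554265752460576545175833458486136032878626553079977010615190866389390204521259372760859748373051717020602325664214068678984759001321360290186436043177419966133918247775895746401868934331153380087825498178894610826609871794396928620020613639262629042164550964617180493196430806624863304895589559762339832363135150384027355115710436543400435215778842150248074343362138570574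655624355798020826323290567587587007427737339503823897743608436345169084556200180416292733065065384928195702743771642883716279168797028530113022585615388953512488848822864011238750405706353144961416831097271172630909101280776107565683652366084737363812666629193813814496518802633304815362663202554482255033074177642730445921221440563913875684304987553510810974576485856536065461200064936881340229406629194005245074317359374030186360496714979910087261438810337577403401741121875384298670820166036728373568003540123874402733293494874090585872482743520640083166923947166008807349136605101661255978725952148194913780972104021491568214382648520158976310167297917773302435106753524864052371419809356211032103483311671868920737739852396418339934749867938363405691670435200395548647005991860640253820431166704669046991181261875843874934978613384336169448999742454850839066737148701697438183935027377208561186798694006675610650886953048624621229443236609475731993099637564684643396112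398301758087182780927215566391954740473774592223458432464229409838789145036401178801581383367955969782806191018238100129175049567332012707711581081994594077216669990886543282148922407186856478956760735138310730430513685096418738488797449029066692918982711141332134631226378495123324440918097199886779709585122673065302115977264527027448295752508301911177895223285234397923792237066337671786612985122139794573218670812249998390080915889289686859866064259100624656528134596265611380824960095407162977829332638113534390119918734903485300933871450708117542567689682580394837346187319979412699586190629935650721815666150501124056735689373246320236165457162585002037314335526652515751218367430389005430424815432938773257612991573267788894711861234989390752888436784606049389143293534460436584592304211498855952355725806206729494610307040181258746155857128581951410403737802890599842570197247395074869074196365260561036557815638580427203381338325362281602551616701656101818614992370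827553079157597708134778104015976040648674980190559562027993652721040789917669237951687016927381778339716517684511782594419566139153543372446045291659115074973780036658797657332557920243695754084185873420947645376736475952817388520406835210470937384428165527617963239090487000967038313267043719961532557499545286440986486054308683231010490031332771639642043376038647178470942138012088440036240102688059011719604723769029817589774054580172609988423998717232666580614689107643299279531584755831971888809658167211425524483291194552811521149498509319969060152094274007112294136896952193683053273881968002168398249377547031353279474744098310368305514446975177986726455171290860258456316536425913921822248772178948200341127357896022190226043233693493352644094999041010447339232342838432580077354203470294581491451915719710845404975862769858724245311024890092639134261214382480509776012538051766999931028460742435279432588859501905764788346669002991254946914327371537639711348798282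860973082141404509686559574889521900994889825629235296316359486050345491809746204015644500009803534943824512095038364887870880835094295436337265229137346447999547820954200865626225855731140443548636822584774380886156728617082005893360428464312530296629059702670747610337401741282461411697879450028417870020237988311152040009919880280954025375372320428555400261237610719775664695076563270542385588490684359170761153687009037650231924268946067361514722207435007680364556606201244127531344241789443176203345344423925253046232562722113305352285807255788057511250980362440858566850887861486766616569799417093667439294230081480697758062766577762819773883809736963350615519470537957310573978538454990798557727342259578924051335627111110154421958049373037323681437741690670680670535355647113720470122923249419100448092702117087278508192662026084139366246929063073280248172759204701671406394536245856981703376610884883538247565759402541630008748169936013696076290784703815724645353351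472217120530795716330728364175945349578529335538385280901293896746019033363287305574365457576276410982714783834521867007985978912831672159089206797354286880879329148586678974846257970500316597467620534001485013298259094277820390563277886251665814302020368718975281076101614961174063953007246356546833419341459135481209043609651638436938180350650312826720922954347106321870431526573481418761472923249641653255966011227456859359719846362341687805968335999434753038338965825629734416037462997431650402102260126553558772897591993511417400786339721939792222940781405922512323493380487954475083229988661166542685736201942583288789471041457506175964094225676921616416406013284787529545377225716522391998759419339255312774088351493920219130824917642953339726950795036133643715231358399816575331267252919867936039307043871345950058767548738129375183271519120231806604487347406412910597154606419797002743775707405548447768862279698182860927509883564417600908389470003681251120038985039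632354549298734423940606896270251726149214390618208640208182888427915898065606149277873712864963199855499265786794911206421966131062227234685846575683856580827446285030277930931560618426611081512318436663060480590675529118578885863575034849479750899935130652958205520358378776164543218759556299042479803224941296132924781412069206821178785656332322154499864207171353944223525705053955602203859159435744923499731718682932282518728590270775108823621473083732258693117995508133821933832522086408650606625931160713170320228360920798659361710480738512322931750619599700515194833311876390209441659505908829947603043851914823593011218803570778944871661703647709128015059567445625314156821826151664750701312311034213178652609474511831712027947240714080276778134586447183148418723493710664236699311886155189294305682490268620165926504209876553767764298078305993992828341101181657150431338515708498781546538798396270385265262809092033901148465832330115485295985719709796557871681386600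765746772304312540704477290557389865776331840548294767139989318865604516179832361996365101423848668637610426848503748811208394580359872513963758495216279387712589178694252293310633066984654175805881909073578754914474810693856922210977963884187775263762833182066810084849410358317923315074841424379659654796904717964596649416162387129082534721356668122679594315022561697231718284182179933228872688587826251525274406449785415793493320041440734080549972259718874071212289861778448153381074952933275045629789063465013818807250791202999732345350846378792942414607182731398292297163659669833585754049421294119832625116561515938009711058371506899610701453063823877877136082783661568657242812576819708318717508583865946245858746960613835040447142768450040721279373327912429555007004220682766694315943977670136591024159563741105444002916602670525488902818787007250658546055653440097171385838931616244457345387493567161285488114114530938017513682065895267829401621231979926525575308432720066921208441482527888164689690540571048386259803192564204964181636338134364624163567502590675183012623584151755459636298217134945134915884682120175685328630849545606070117851308663915110473525974804951091889839471533587616875316323251388416)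

noncomputable def rc31 : Nat := (nat_lit 30996836924812181922891340676646775305604124129447534427246103440402671662339497515929312886728373782638820433667065230810443563235402179370544201302165930174868915057634096528969032689948696017454838053693690415991338649312123077665920403892363914869810604540687143151241226651171717663737495880331956261468492998459663347747898266770603983145258679338468674783051679720695399804920654941681682233747932737681523941515786882331967469940573353437811336153032227474323590770270207885776223808910172891235007109469673873245561895401401168217287864029558501352675187683591373783358028691987526504260379173070839320386618926421291601708887583000700682390487731973931984153887335197368491812108641830593550055506634637983214999125845791111057607709745836705824275486391019223432848276905812426124772225295639419742852101149213426653092095491762185297995822337761410191921655124426226191882227553552344273599669604349527088520123665094034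544433155176974002363552588636868279640745092022142070298357454046998985917967275270177981227521414268650281844520097470457046124717520497541010023365558629574277718154297088853759561547480499748833237647876571128773899386914331526053448826860906420263354378983025514952069581564046688018372155441624245627422829793682572097424104771921187358984213512388475740237610834577156788280396691218255366609451853526231104585425525516046641841875983314218923531688922420298939406628806835412545776676817848857692072347835104991878591884782191671674846345484902196474380475000149444581072947655928927276891476544871971887050169908340548500009320544036570707692840730959263603809298166196663722239100606457649198795627873061861642748179507377578445709149624809060546966294502999572376602355288541405021880774913482088647917253891240390120897528593678568395842847389073531489858150950202484024666113984765785629467889698532754129439102726718050819506632019813430369767290900472235017574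234941778829872993970780922120573415152833105281639961763454562801469195065028386201248944737903127926670519077489542041573880488902286136229141687808900900745549821129043057807264120036923258219923941951207904561981506917642293271713098129922537021038531114925450532284804234427219228762819702976550052318189171568153660274445627998158214658275767090546134826297778029299269045363056782795154777456202577618112696043726444086426581020186245158805968566591651504370111197270194258043421894060844525582523557146048004089448403787128795742709466649059158758235886040234908993783338848693983833226453416509292970391344149735671225899149642233655000249770189183997230222257540003145527448632711114386828521305668865248099958575015026314488621743816548005656268944291608069359923773448306328290225650636496389018335049462933801901235968817672265436986364281002495764565254312746642743818670510556762777557285094992218574318663680765700644236493626857606739406627472967556012472065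481137782460733841166461411524846588110282162804969372127450004247179880072857959926796481500011340910839438592945296265321275268408135285652129697830030211026847870560152572931256870030008900569217003602340301408974095510579171064871733742988991683159242210441550115182384500062196607694449041755214328433197310405041216783991381408387126857411509189701340767189737133461743772414472745232925003050507078309641359928687134396990257088232901001006719717157433092977853493676634231658266523418999474105544014282326050632134976184691236098410133643830195163684963450697169564691669056043837352077030902642311474333956869010966025370620033205935267345207083556666957257028018098933805694221985205266647452863802800256613122354052816877654386313125586973338210427909952317007920339984787370320688907638199916608555463345003130771793565004084871620265118746524169020611286331344358833230051664988113553994650700570361002048087330329681762597611002826635406873016803587635824146996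051130149728842738445311226430093558384508513062027246852054769321280071185688758253772427853388080877454985276761597018555745964577300645556698958988573080670655086070205929568857234095637614706222275271205638010336314884621601473940512078771121072748352142415568977095506066059225499516694619189678972862037804938849560647402129755439933869982928034124144481836332474494073338059352797812123577067540621969713169618550324162324244963111554304358746526389113861041697148628631612893948551414819667923872918922253848769643862524934479773425688541081537990584764012166522313195957982211559263320474527470907298356210802227113244134529178282410573847394041322099502654413241630748991914143572480314565779414258220404691350729226021458596880918061891718856964645235149175297326111048250906173154504712339319346983398729649221561981641483820711623211326218871291185468139640683865623252236562342277705262396133694050803030337305235350405440014429373061490024195235647944823627557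991538659656459230433700005082754201398164666372349115373626568033072850420738350014144885889484049523459567762463214080979875665079476260459376833684996097635495181501614813845388884670023686458304595451849019492777814002538010482957714433877154977228782380312115471756857523271477007589256042474079641268382934594025235210262275735421504035643775474091943929329456664672959861117169625344729843729066620756841407240615036898016666840658426349699052136561743586201711013710519032752364956412776322134143392078568249239185215070703196260256303511253951779605716532840027828929608504702550879275189795888576039352986192634023712554776627684640121943734256919111020744659158712393866733669446427035756181660736031016290268229598805393643566450258472798728171763399382406222110651210007996022680063324742706009794738739088786091545623760814033669802830665148745282573268308271185814418130004065299899939244489888349493097503777996861660088722199930321397420813855316048418220390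795983301052266703342504768728007707283151674495969244745064502787254351100487268364618702728072205177595691651836612051685180694249971418691391006275900574327122109756513813031481781333002623087381698077857906567851830150488543650961473291411877883655047547160058998616374043478125313057710112233237040815975583932633321268053172405658308644424648739920345261209208617813346761922277338846613284549207370376089436270959233512486169107403014743989250905317202672749563064998912942119626287208856086728648934131375980400963811465553686264134278875834059447714179307685950724342853793760193324790289766742974422271727639614253803037459742114393838837368933347660229294125267809765619773119153524468738698027181151728353406459711233675781778693470640557920663343042957707616475844043776647179404291917945515982198886271197742451764942827785000999798290448181068624350035280016536889453144747059506374215404177464580947104419391814077292808061914957076299331153912498639598248061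355069333828765486698361993471734993752923190407987658229339129471547510868644210173967560351070343260708574045140786506453425421754257013568912823994781925716515495965865562662371151744446910559535436096082877533140909696259432315265234168586017278266399515834273152161648976492396817303068872912782724502602759053921247493845298887052137005247824484378035727425268151133046535322637782470555567101099722313509317972695268253316301167343398721825083179277722356202321663680165470858068543585033760948309378020766820741738716368714238816683495002949343431219193696067986204042432643659744376037692662999522281026644309674755685337439253875967469934272479984309797488354157772408867141088377991639778648951143496944669326324695561089106730145717032504017101745314728600825211719877257345533474549320591148960554126360186962274083118140176158937310800231818216913754232199585894989754397539411389807854708035126730614646272457381793921827254612614338331359929055583754233317609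428386719512470949711088942027315688630799176172016702839508373107108832240479339344181091273641511886760147053073729412196188987888717145059307321026552708250496802268234785658238679168536558223798948583816987297319334660227958060147828907807323874643007928744819116405896450771607270661337487792669594641066407431532613351928335776809315814285085930873505144800916324440294057221985206338166744388443831380154658889207777201165489287533599420803005351913565793419188771942952465184104902472932041471562502927115506326014846149411374747796005828378569121575401240805824820024004812188021756374667649516142987805790466872387300152117149279735199159669423041975826329043074513478828664879335389401072773995510046923082573963870072579986656087046670838104279259064712663785137437752018528543579726082970222375551535447291576760033247579394024399356511436175065189940891860388216951631491724025838598297492563114450380069655963832661047727274711089756590390574898689099498021127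638859828411633238403857186728876954707455608258163015434033945991156223940521690363784376444218697096687177098174417998197725314073882640938411047203253156601280112489124044052635237893173538304509753336906524558870034546022158352701913225251853246424621766856558771150567335969512154059392621161583306244724783277999033176227245582342661314046692252221298599305066496455175320301737987426826035365596241601951318504021321222884009450616909331827914081719892350590714097530214252036541642516750199307710019549337613861701920410112717748976131998798243806696162558052872633534212421741176249025538061654975015079924816117476406510067456775579965964618161142428438995511862954333078104572470812337903128230463978685980645676517548325443702534550169306957112829529113230912185045061105585443932755030296395282721536441687614169110508035258034791084082877390043835380718521531150938750290060144698990146221524648398683419969279546530473216458000897632900441987536559096299906624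453794353535537834407654217282300384185623702844301674191376567380114598646923888685507566337124326763325365682313591763224687825337371658680817562314519072928366517266352170325585580517361589405556419403706098553427092751898206149014991494434227839170566408686624909799935136450290325444929510220815895909487512431777940785486649817057250716222387296773375683549200989841329434698777359002686166465600354959224230279037736069048105736616029532869381087924462275081086536143659336491097367881480622469424932312223189169557540624400054937094328107068206290946847356459484765644261850906629529076878632673002162146466048536480475978543646768702401100149479426707471164979981992049544672072881565518689783346398291147582293441958484276636689355849346355068333255653617707412999103433922351789216095135595219073822813328724260008130224158713500339950819284966146317408549365558434688569984652246104501240703146223756807461369941862594070965577982934207815992770180941429957150305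633629573964324707062557790948263335155853758252666353284633980646827692237128613062552811860267578652293645526377793615496608260851989974400191237332770156726904046755579529784168468754365114315383862983254465689293156413173398932943000921959277387907392634043735039936911516008757799346300025341283878465123247209976220605326822157726554358196959715981905116616892273177508101267908105115663079528234383793430077625937563979287016954935154218829472391378516921978208988037046179437051361761730995777519756548625693710168492065486886532270168561461377363315189438897930699366753940585580145358795198419418703541232669900601207794825952857351721795948856376936341409429412012697509778262147742666771041735519451014459066091535199008116491790671024403793082156035573782318034744790805583786755097030437586279844998602776697034052952112722861389485965077724988705685624935824696625201257156877938993547708579189262344583006104890890661105223733575248293138826185194901816753787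472490702340093902887320156724902008222733977493795864884067450371713343945624787595939451417275982009886441806329216475494489627542559138341990196319583633212377973733903414823732974518077506261804810207328229221579576400859249727966955630211897896736751712124074430434857623731726736865247552451358998302669338997968203517021108340761650531383626271960158688807673769097200776951535477229891227251325450761545737788249979646176662472059830292340560593816375672644099236108947127150256662339105158811439782604753690107622266630017396057037559086410830289951275160423031406186268730374551448929852316764944576489145021402779116152795476486451259459884337700333753876995704060207712116164927441526532202883033649861267230892878911829538847295764303718112911362448446657576274722438969204124323127361409930513222220669245557556054674263811321482788999969151591274422667541044125780081532906867637715114153548638080016340195723042020797646060133814775750590550580822176288175449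102618419995445230808783773576228006560870959118194553293884067218863530706103384987810153005754306523602305300817248048989320744658090981545943642682350758628424241616060743455212679861876819762739623288277918938030784953240853828674292508082920822674086918111540855070736393893094003319927175696944246196840047768564913727787331480180981448545461209678319807680311072528519110569783952778767843877487682993436692744401455382879463141231056128161237467611700763538673004897149009407164752831324060381775085574868108011336997103419779614465913334759117149240685091685095290785411979069293701588670806111747643316334910643546309847268126848589735745422807668442605188775041956614057761352199987450252603234613708396888241548809425657426658269178379995937603740535701533515179393948559902060088308445416105735804617476969668730362407726736182101841628297694186614772258184407379409740996640563217007043391367797181962816408415293208002711900296232591219191537710078331885827782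871452172951745552359494900767585225521920385644802880069957668005346425107396561841801975971834023616116308665657044429187017198147574842521290283730213480812831817503189027382918734883902806093719402837563802574467814632945695899754426344946544312636660434942027506305941805749283720979665960632679845946717889435376796274668204047724828585743444647057616313481802894393090438647348072875730838453748880899312379251517653952954332603401800401155284488506993486709710644098202410988226900731452633704961437565062997261614272285404333084334051328354670112644260382598895421124344904797925288906059697903022928465489039515698360849319052995248336242449774719270441151178060927829226836331780852758456743557887023266238520747139800442923062101278674115041414757643720284911647748330666300182357065774119892087040773514045726109327426068170186445286979330447396805028745906601155386666683186376216855776011880354821622828294364669613074485292872860561667429914075949520524584529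785041080251708688564894378489687333062387189296276808567087681747699886790475593280087384318575498265933170635823136449584539158482032816156778286599348895374009619274531960102409026244667298286664412593645877865479487221123427632452998641312152654495386413015367415366632661278147014057437001767426005390054908549799009528188760270934626768830210372560173543325600217427129594514766900040423961952455140428342372121031353281070939990951023220395020347893201116496656889673379273578592994079413886239293065034332075579283251029063641004318434050857751292051324607102351920743708878711058798118005357090378385812394940932997778134310585222271373445291097585602615450887110585138898969780928484021866300615124710303160417424551378735944309444481302720631060866177872459754391691509781841588098000009114204645061609936815929179573061597804005406614289740763821313664224858275173206573841385601422234970937392838751773740826377375647104238066646769379258073677507212090270585305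745634717346928209237549711296586663530534468873338672025629026666003155037391545158441629575615813292768553433718982702094401999221390115228105788357615400936892587802438699850239036683484028792983897691725136508085185252639007900935877171823789904738439114753305842121280866226303252445936052827058959585154838895299049426129556170204403577719563893819704570850510157012369418331337067905766779846282451743770925631536419921667564959919284926805516225803501326482940308537630629916734971840677665670633778830410341483013262131100141536867207665696335507526467864462140727141365827297918492902626222130332020393378852256832238748165625326289269052548434253131603150894394980171942665182189104674627977833333872269115000161614438367250625070754071471031865120496834791879391383450310555696506355475825765022013902045709569775029902893186311733413452307760296838566650609824352527436085167109091935782484298921289615821105554601479697628440783275074347313328036960196735076517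055488636932190335672565359067158040990801407103211044252918107444302800562627558342766728433030149550858751510044948140811834274059866266029485599931132515674378044800144308234202344867340567260612871949239668491394840268705090833443496304802085274697867002103273579644006647381792962556139929045582551564931600544450599113886507824543616230295074520130226016690579123209473915817429025944541874330121165583741701755883315527890749110312714721146869255820259573150123236700467145117240138350760226665712916303027635798484208837715024795044079272001514610928420236622904502795004702182734852379026563389466223325673845824803203068402915407996225919111421315974358857927142097603384856999772487552413967252762277620732017949873692418369562783245098373533912038577352469239214826053865329427742841710025982378364256974540863460422707406467880947199722509387033090858589084324904861614207418518295115525623255596184476468441792317897860168920683668161767333452276582580183305866684511745887232251899162042120248308506308288436298070904209564595163814035111896006471268439770461682887764092764578429436496285628891455019378313882452479802073234715195358455424298994933139415365637524753888699079424924144925559024034775040)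

noncomputable def rc32 : Nat := (nat_lit 31055778658123989438336248825916004023964559397127585790619193453413546050265027220123911081164459866414734030891282939982758342079843443680734032986395423454367998179644710673877062186620384642597708936277886741949161796654679474173463830163533820335912082977777426074496059626726070311127447589290784574425929696272280953428815308359389366056483816498958165548286044621295031381695460475625284618031028379322785668784206717677384960900338399323143504131313640925099740847311495693325146602616014898400336770874644383096014488935394219699556239801917556871648637230535342412602571947885592686980090638350702414989424689626169422176443935330042114621354691946747418116539640273563742531118229583036702104234704042795020940295673141195647511028542441587813488284170800648532619824436629321461715471329320525589787966363414607074355191814127785090235302403113840166198559150272127704506213002803352603961668877098987629727611392641129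884521106082993570210265819884986563587522324102559018177798117187732519830066615146197589394987885646890932935997391010146683446105816455143280611099235861486714319053789607523261605628234132115411933385024320469340214226510922083683524552218359262389015189975621720244025302051221798030108424532727770994786665883243229464107303653977277286222954691968019964688161395577556509026756641732230261314657704900715066782702083667371720107524537877046242538214949208994202467071737331029364730664865484564124120147982212229169613627094551553781036093923489028990803583398422704889778683534502081306359777271675264090346070628384286739463012290904529091307841532647069303443385621395873204483617833721705980504164653209576299821784304375625951544631735404305207379023462661651620092392103978945841711243902180761969703342452421461315919917986142875605381207280559210873723218281970829643602005001018139974966196595751376662463709103466901607492164402117399546011721278854727818749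083463178390203281590662922715883049324262710685448262133387568276927284819690663485053948342032611385740261404686520440080862564580773664563238924231064301987142368230884137079296194891434488348500758641907383058059155202723190796971921165237512895917792187460809467262342127077841522949406695368357926020745363137635762775475897707628197146162031767856030485694416899016691317011690145927805775635041938332623809893544818682899576264226685077584727503797044826746455032163977247270035873729641589120952243513945500750093439461932453269094863290924804179873708362441747409005915440145969511472530862668549777330953308809324545027296674165742855257189987531964750607181746179745388244811345462771084278122874883656930278270341537324301060546009806814425285167618697495018248255132979462919318409991361591457224310096887647353934092798148393574252410750557394895451096311510737191380862727239965321654856361378927054254929601401144049737822496658475093138699531438500436333027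951862713782811371379790663337510143777367685452245828137140628147389884843573530091738749999301559955131359803424399935566990920015192456313028981844453224044598444211064071125671899774702182828918228852727575427944435533271289923517205869501073016019813003771295675458319271125789512187632070795173838057222261369893569661799869991575107139375157157608743373587131931220889310519171003337057002336564696433321339725938970854249014051263673444669319955945917985541690841483496212063912213305095742325740260265611215217051243940813211677760813482482095946339587379098500566289748193835728803082783046252938765470076099885599102925796632247718758881206816768397457559072650052948420074125855074795222057754860354776459242097061711928490977635657790515599038482058572881077564977556388235726173624358357179545417569107607885611573934785713667821341835229147450477354063789803650564096233272606381903927389592790701473159904268754177470134112075933712859268567906942803024617933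738873731782350259240163277940886353178882112375847023821712487834236597587647217320985949524515372003396979763611643441518211198716524327684642524657680661229948971801232020908401516313556527161699079151517373443419837771092580563355342020887648696823619226242630880139438126399048141471136887776288115211257860098244715915360622242959122229263589616397718364397574562703193234080429501561753845707118482855040670182041229417601935106437810335127100783862050319063881572864523095844900962191316398374706210042696129033554428046654103218518058583407408254475993334887779917321180316503761333084571832191985832804899935042781258044122953210186556043218987788481690986506269572482687302429279406332825743444257176270075304381310824198137144116320536889966379197953274966043547018496347546894272960157353086585230994216008246610039129060785695559508067362751805816788511741259958303644413362602717665183661692261585825705344252796459359434934003271834287721470217806139179601983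910959881624822722595020928599716300215495787135718275746408838663627434602039061046097873257588602045022625586404649298814990484574612109646837857477249083944185397430350138686396389998711372624850324424941432949898221379108058142089909420822231825628177246048965848228549722782161850993165987529907633812084822829499874355213477098298625236703366765638452892010166205702333026813380788532920707758686278873194558321301626476956538841866144440300586605801736062509282584355927545259042627074481962940813168994383629891612961645054233140964153658165686317468152961797732178041127528858605306083659211509127553976901585009096808672069156043958822027575834810741438854510881651561874290528052462701143976258965155476079363015478346414318156926206492990523997185245669839875958632001582185918128576854379073622026989415654452781536332086174527855628351393901893125947801209584317933936929602785275889175076890537728633734343516132807602073233262192837758332869679774499914988449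309428679187705140771502992663190791512650671169659419980402393452331177844506107704057346709078767099576829474177753985450897670822202779169561832861981457352693301700943047868035682923650830575060858983576870269811401820843386103652237985902168152014421543112538941815974692189773490011223001522995366030672584710417090396525040583022819170058795072829397569668161975540525237723053021539559331134210203512561509669294344136872526718398193807093464914681504719883396814144858688924037843081967799631516301605496790638430060864204989513549111894156683450835696753716674302178330568846560367518808913193577197573474876396850044315955203584346769297655377835830733705128549090546897789011961799350207248914324301076463115592028906183806950335830682831766839843869778615857777830603144231027176193331194016483930896099048250526233362500560754572881768810336824695392980029523582341455013294702631920710458268214336591192993456731480047971356466145106289478734548566101058496310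402527127303207730301437707182481778893536679690091777672130931969627409901019439853145368845189770387604756804514990555303590073463608922861451197681513798071749919827096230583299085933927527830322456520275134983044193299657831551499436871624887214362152190020614357172957697961514311271908671232355680994895669285608978089565915000150712253741613065998170591766886455292285950556925678374520131318277840392487512798942107206491406246570113166885757835223672795008849323100333093547434980850191679494949623323517925331090661381283341114373122841343993969281403460187144330361852937259195365908317274767531663327001499342690836346310434806622804960763719456963660706791571861766702927613878085321724710780454102839345791801174143759722172911126633650508980594548128629535028129236246506995319775386748767276322110833613429216848710593885754221317306901910373004744610389833447835118198966586527065416116295229911696146615830024833652679070472959928941981483119201524503320307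838855132383282164722368532200321156320021488209137140435824514591709904601108175312820183317331501261912728455110151061432147771206862552409028535372481355956923308988625918886243431850432703260367927154891616234153359183650721754353187860534467257041686054961395406140393523838135969501339832494751703613169055647804239994081744704466948190810486948666588655271626127523029784955488485896489990809532437558751125889486520202161366443798811150762333666602243453303822037358815147079440229980857778479494789677125935747737424830677982759437762644583758376683226962718672384662608382559770168966937456535859285614683393239512840583387594930296187009185718960853791405929628332007121545163803493977693647114828582328219350369812958509942886115367531170977594421845097794800718495877377947415477722752915826065346305722717214865287088450780587381930345659944626341324960607259369125040449139578079551419135009837952674916975906505010361593773427385534618637192040490940147623659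312809975097550074428835043026693573148433527798656414610658169278572049013617141279411322316099057424690760991104159142518823692756382127198122919628803159996459297420517448154250145546349551416149495367350220528563180436031511583257183936984200483755758018787985253780869241127304232691908214566147589068501218592542006457444008993920770180934411817689552527951084333619131259375492895933452688732089020203084177470451285619417578118153633261850558160552248760043786307388623996110815490409768400624267663025144703121492598117213587097317223875008679428546437611274799529094621707114652496735359483747633540342011109604434039894008888776403498849137180093613017667103864961606690209526781335536556670411839105197094849138480138839106631445269311728872677118451970319202130876343654113163523509437203216559554174211189985110717440168566282728818388965469861210925340600918034409006168761549423420891924458028945067113710227379229775898678779875621100418768501338413076934794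709831403546461647297586755277658845605597792958947013374368091293029383876107802842906675065379229960565594723524097445689764630451224395112377327320145754162131692114604748793206777434039331843359320704961158105501487190357034844133850385156981345364059557466850442233551570046988606145371008838806648681230156506553597856987526514367964790409628108628431820878782613504869008910934622738928437898599740488638760464256370265846481440859307598906046002864558872186742361856693002879841612622445446262022194553974347276711486691027160966222839316931648514978655347574951915414427680870310777349489064083044030189067165153117621312180610898164300184187241208587254765534793688974419915360417489964162999852351156215093219905299550768916922925744576122473465438190092040717818611857900241751591388405202358489142084016431031841432197343430413669863141648308326904026163740524903567604982620803719178926720134749899705242728937437848733176093346799149775731450792672212665987944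507603307089956933373780650290034514987715498685198208154446195508559109164630417342864162413191149378437237833902854587940806935751554002943295908141193897891527040756278471373404571250706345030377495332099538104215619572054268343208023160066313883149347588885650871601387826868067367948983620103490951554332807688164118102436784849800523303190686247552505360525233687141612273034677643297819758382212456694801307929232272108135074076008817974747864988437236391018538172597646771373973000239942077072542105649871434473030700121637736812337282128552481262495921117257305202060195111655170733985929502341021639167727239744352517425920021647692208235044917108168637746337083050885840501945668107898559344153063021708586932981011674416176562533943455807695740355393417804241127808962797040712635538142854927506485090364131723313025976705443654365149135335166881032049077825279808135326563838795699219255561504547060014333501015948985156565551281662894518887509412083665845473360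647513343643492347940732373365076339695141303231358241235715529693912052762184960069884526787301812644358088247252495852289395641696976590198081482728054074885032971882330942162173408594061458820708132306197069870486132278349058662978416844890107192148202107623856933445651824429499078934666415515220795042916087535670298016449914511450390803544014799817431319865197513096558198208836227258388560270047609143787845992547177329628178428908025264827023484173246690695013580536999393056686051546470409922335692496887885079503310434419474575781806957012492211084034027784107740791356456503671547983143262730502248710142714906343878128533670792871145723090427393213847122861332422437514242155190699148710468979685324472923883353904231793053591336447843246400063508097815028996823017305197776916771087268494411453196832999981526525574533560988491189196759407018304653144817855243792158670869408717987910853179855044500142794099608909511227719131007368607358150484570711008594799625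527033259403898021133370721297467594375871673701127156709202611200932235100666716971994000996313467029243992578818455627040754305703507179986347316561788106812475604495185535375611885100649510140520846217534176757738165471491362046995907316423891683565828008316675593411456001989449666381977474789037003882100180327722189880010902441432646624443551279177304431542385451852814937108352477571528708815712849395740433436739516240800945792350635074622843395795612414530736663252469138016021573150179576839924159006201102740987684430564272022500358549851510503878222333807625483676968074837191190842919360483195693618458317220604889593263135255471618459097886226976771779542713807375172869901264293450245550547785311688426969447904062616754121598288188666979880901179138960203929539905990378983212552215409976191453352604584617265755851023219907076421867595078112359521680608706620845128985618152858305238695978956166069809689043011708246312039923638695733086905337925352530223190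795658062374930709821820070633519199749028726249305432825449600778070817179128602120844889898006876458971366173488005390066146317192700694834964136213725139474915559495149352343574772641844219365690950433858716865266882101074019676345156963248315894345363263322648164585371665476855363220828745879297975711516573877838312664181928583314141565637060996438325571690151329920277026286738542444081106184209009149604738164413670494897163781144252411677693844060680480557268810406876406845895101631700179273299313667127188031756681914366967951750866521240369163394139550024521002605547308664791188692605734213646173343385344321543545641508343547656346163426993047148873808188966345940209494762601074520572936459290391917319760690139352363694829386771076831337891998758226138296544600506567901758064352182169359072256162342573443889068870294862094654790624660930492204891511984565322343560391141920087150009921754756005111719693181771303324531537241949914262579384061513811338317730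825935471809495086515015663301378250322198364944991015873612690854560478928572513136922256112603405677666840118576415428050940223802576263841648582434954194820560867375761860135357762984606684411118823483078347667655159567717036085824686284361394548464145308762396090623553034298353183338655482753049609289425475235292276390189176951550201850629489278827440424838655571902024898438458439342463035046434313531812074864885289442445175976432298483424446649554900672915638001183480178325254378291913568396646833401805022737579059539969737120023841156395073130384766165090277146820599565952099156916911857705854844273499668470492030472871976339245787355172748317657303319705761749820949083767778938950449074666913149999968291839029741043219407899599856553413235000131004784283339156623231555852895993551584844003696779855800108596353454414764511712897553703862737840068247287250428658069182074893309033374681133051450006090879230178610400131878304911217676668390455160941089919893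533360333376712692182220807912630292201366084709595300009141727539018643172021630295703951130676686729142495160834915152465901388575004787025944719638420819370837926551531086177270701993730313144499106938320399945228614406917090054758340462598803487662170406093138156675667440769904988928327321174133157054489160350618234224644079294648346048433022230162266762268927479523245418249426308482192515792980871211997856723325036108288735773225770789121037623706700865109934136540719004447351420471646548510514406872536513381959874191313094527215181106556574434914479496464135700741888525496269840034580298833438761672980400149023132019254788538532211629917782448127990853749793387004990941945488581120493636935085614098126839071729018217489034073877536038051652325305260064454651671126820865021681981725772874866349892186503659064917602861988686554168650425850126007053053545658265905419472708178744072963156800078335081740233544804880812003592924605672386877667739831473617445581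965891452438224292652074430320511855225655139514799784064207028102193329205959516018667719923107848919271096220957003409404662201641842208315903949404844396838216839149350102163042287123649161383853476183049692519270343834911445581538229907390019001206555990572441704574834456910349291401006710570257066687705214419698800438498113553866588884927047224830429113960239342220504917382102297718469317183247390315344141345729132878650711182923073208624196402501316588549147025811425045912291230626252748498602437809935505211819250872345865052685389811036759695758650380902367476179262760299629267640566210389036548836321228524698095422935319817543636281406668321552503046014545966507563240862714387890720625574219015038517850956927870704956894760285777852587816722588582608663489910020390540659819888151187374056402813719175313003551041872559881370098891946204174416269331128261596311209087555111813125806525225725824088481154839538746816066804131681228880857489693835687731230439938718404037292808188407586682761345369219901762885543860971764215681983565621075926339152697480613685552325173809582475128890980295606295939228462872268296886597156756926378656049028357785839436105059218150740097697528983630564348662126739456)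

noncomputable def rc33 : Nat := (nat_lit 31114156447196552850057260846447111350935816895644021305515343850019658919883802005155604223996888805535923739914679084077411317579562886853809253118978612358102689119860639856540283048855873382247291437741263507238099012539934202666552815693388370544706810298590838053913086416594200330392866822055747745216835915916924319760004438913906580871381376231590070832363264827340578003331867245985442307463942715874952786929686326164388614838653867836263959196511315607090149013220642854701419017924659176980678032609808870280240649795824021034363671397400977820357377157489346112803467965409758996452308524071687009696553582028682362610752496493912303946602982305949109756035735513071876163684011071116857672058047336975622336003478265089336826973944461631841916115369860497393393897776016909476839818922581115501919406463729271932318282933267068766314707593905420610721464854878569357477444312606162892299527430521508968530281391316951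880780279301858006270397676260979089426098903387058289763175230681672654512225924181641165745047199882992135926434238409593932687004752527005832529540044917378939786595849918894882751540024759325669416862333364226416507498235671485292975266845076232360557637357842710118208093020108387178668778490040798759366031545111186012369472562196628069017893612853166860941129408390137414539467525065641111526701236598210274224047707573993482389013507276661273018960269041752276139882265597303570258991371660092065517463052691661876996437244455445043194566448436632180591790346960751002143185404467560579845961618891480539742314615021687434996896073668531929450949774013822888118931013143824909663183408035456125728927895982724493647505096549164817543416314084739203330979121815506958060212913707936502623323711304201951159531991907839451956369207914994754444908381302665118825418145388637070518883970728147874346779870802345508585628696017565429867073260541194902419466143347690121643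091455448226313279946977421051495123698494316740700942720765853298475263781909391685640726974680825518162273866760664785649486550316552425285794330895022817189994001791019980533568123811402318470895132077149134686094455546483323387096740899439703436264950692367443603132250047483854352370545985049508484794775138959913485098589094822803273849459053388436521654207959120631556776242598262828374863446198953475739944978272591111263721867929646211341893262141373407644067967764007188842868298795738181448607976107553519504543753086250495546432010266218675585748448755763939139549352261214335095070529865676616756884788671601269555651714056006143503963169382592348723119711215224008261622579913983999730902337862971701551365197153487659168765359991785070574607441303824000663022087553476983626482572144854996051232615397696400630808881550590169468601761353407704182864796868452189473699084261013336697591085614761083565446150398771665772659029157485525380270863700022841813947155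351027710192556874863915028793322668197816775345416774670554766879378336476046769197183323381402613985673695224596750424629737345516338185061283573034847639981886461996467863517950677662359942397523152213938562020535313324806012751962086136687406159449503762873618390783032810821367337928336690006896607752959353187591686611990668695919840349596718252693178813678509890317479696104094157013665486596713563170488998428581129634162323825182855156912427188460007860396875241262322836935448471086349929355142720486052514675975711411210238095485586202781863260649418642254376307211636574216942961317946830748306222344691343124419826493647372094301989328992898948537112419628568765176165552618126917836873787023207371229129416399451284661640276503452428728972011259183663392182235713713510869616496248514954927678391273772820804841862806788177787853629759470600091177720270119554428554731014785892394829278437425717082188532470977474302880871505636250118730528141030943757785740589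316118004354874913540466969759000166033848258536600351209732995308638116295583311263002864501238780637162247649064611325190421447822347587976120221861136065633977210461721595653196226240189187738401722726107848359408538681525060350686434898283673031612660339803955796510054027651469252959692453932821344224982134653331042787440723286597650495734149937329373687240110013096471241863493909649372761135938061243035964729873299107341960469579069805885449277194930423422770213671603684052097319677920511511916857032112453624488560088333518749493332587635861445933806009801177298314707359679993528955561253014387044218256624471609279281728767925836697033364162594190983484212086167865125515574925864824292450728689401520552010611981160505233343362905629613775853454632277047874042277391479778691773568567067901372074390622456078588291334402670679207731514819308109158971662243306871963149846048792969747401585384718382970022264547115233118288281427080905739124275558021521859248432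233987695280976036349673112867295118140572457370810297707985871783482531300369317681431245042449373992695612263397946675385703435075619746475843040327877697696211175560394325669797631696100719414005080257764277486219948294836621836667652951122270610594520733551315979833295845053851813178801473907900741255546597982597939042012652183142607696450525621669104175278376474671257333438673491987147510555516450522104600910669678054865500134218943313351427525357118708912523811474085682072357839194897970179633122301644103285629858744961981529862490686210901993529962670274006950584796229116011460318874977392483314188064490608223854658668155544522843246410383493407123552150735123120070873842305954580579828824907142536863657939752984021264238226882352797963963236677679473462289424946079976893893577785902278802955742693817467214545656808092236783666412922599407449698053529085121150233198386272954385122731427454326347647817548908812903071084067596243013982117359219400949448596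202660797893799264190381221031235095601768595281656183813806847274954820645885556467166385399790378047720859816065972566698707691328182335751815578400876768044852459245204515714747605834859939540174468386307680432927826173066530117767745968734073199279500737309472973139917240796071168811862749980409862462733809540611642713539009414797292122147993836133856667265537490352710039458297097085457612137425967410869796771021908342154089030928330896544731592761977291945297252184050791891442765324030400559619952609802883161487718025726091508990802432595184870923662982186632771013551297749692595682229350138804902015668274785163143702469474587841838814380795456986649439090371592820806901200333928112496926452146966417685980816424469673339481651159847063771655624333584803654503246290355226957092651096788841888782837179648736131905672090425299937809887680271758290934213350925569739096352243862798814963416227657547736478253012752432127597858891598875843331008182604960363245516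642055458046183156979933250274441424968562754426889489512224919301446576090590215972958052136443060841620451230832447435251413972046484975589269988341351974331845545713515774157249622027010750172157565978242402892430314389795201880569730642048370199878580537950152238806790205424836691541883778959409436218426136443558086389169561940534382421357183799314373702169017745453650935309064276164188821571601291219801649881395961842805393224296250849814884175107423352411230408888140141714323386262305514574242866697127713831776873671129757456560385735238310889918650290702910814393360340367234187376587879858380602189236240602836638763547794170493547423422274424043838672932109730790307440455572077985768290023240464457422990538729018670868036063848047719614346387979510659237780187146971112106726170790315018913029828251205894960927348208480150137366468868422669372000924563686006367625184498311511425216423480011138270162781110517105809589097506827221413094798358963348464258840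494007516986598846356840515850265690833872938736571011477899842881748950125196315345439372199225258288793037730410737620178718564542613945073067468638457989990858037141744699670459523787077814368983123627428599435549705188683273696968167664074627019211682110226289526617834426117019042381433994257319469605394271834685661272760559290093468455738444300874499066387360890285084594195474772783980354364751383951985247493282669144346425929811544155255923579539926486406751528486177213162562887059716266455629599062030724772297795107275596097520907155552619508874855564335377577331541214526698298548284767094856712176241722938703470465207276738575647311110137374131485765289076479477961246414294983507650929757619168635359248295345809819516867317091817510131156419775525535531799035733358351437310505733160791686487119291248194079933699906045236372875209996073748761443991577107556482796271863530809051141422042201837574334624744535112891075725449435766894400405433548527074910437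318490752692435507754266272747948675362771543524429452960213729967186776703592382443601478870905051707947951573692131771235567983732280088499918698375447951439411545951364748966704889452781496285771754093205329979288422960603710864145400731485555279765763213258633898958753470334865554728266465794337760215526582801159836074770690699953849070526914258163516706310842620456064142052773058870137629649328564389965592738292407044328973574029177827319249220534165226505032115215970407559071000090039663560633606429810372824214737097054113670660421389778156759161584572735291370843552661886350282540893349915716685422405996058569933769650863030997337324575118656125632906228481320397411006700348629876781478842924658363994438240111861425543039468683791888301860491234079181916214774835284960488598156639079617798952697276430520289057238653224104274894689671348308891201941194004663379112977552570105943539276647669309725962701547587784152735550910253864895111549876246626511916939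074596149155103701085124567213668286084967705739380121308488503563816728567610107088386856193574873092251296161704857067843425186405826133758362507807302991770929245450858307475507233203235835329358981855207454912887174163603232905490115869333869467218191064918612986582123154188082414279189603722132408760191473609402223219528191562335115862140816184867778727721104197913457611083169144123287415877851991279998747116566267158933479132975144797114849660209143471432265093268908627364082286262198065275065675820219377998306755060118739128101299042449825841092341249175974108121471108351441069446081246747820491588547704313833066962023539060656215043312235857970360257842638528706710990971337004371345074050506712212982285447266190204841664607575204628829886459965753339165753135153749660270097591640119960343888719904125071022475269656148958514112835708080623172780091014594002739563436473104553794036500565087955834198866102900129459822032215143592957825082915502090033531999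029259751640785696094982840011866643975535011160346493378329652989325182872178363863881321101921253660518790052419110092408598849206275704050396149531717778628217735435779352063420986686700077589441679076346369460838734836299781919224906119731906702386888609012828041135728577989858921586136400090665984017356056349496336027069848107523053756462887371416362621941607508620391701642457397744155378272948799967489616213024776942537496526817732195381631223973821730491671829993153430386960085401647671627408866454239390459598733975476060599455358678138196414154062078552349024677050378233901621826011498155737689398992197906423945151254124109581629904724263050768799713210361888935905514874875076355198872718818991911587906724603237204026569870839720910718070937646169101688201079238719434476198731156237725737609221584427145508347527719311525183034747871176501533985864552426942206280230392410764358079349731978162747289893592751606151464559304611522075536250543860055086783410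073691506007260311159599004261521337585533531358961776826747230376147747425125125078563389534583451658519071930612467521476381741136223286804817493988542900051405846211818253561443214008642366783843318642831056502683591930772343404758291945558038777959626163583605366193590091045721437526837856280393695502929217238668878139584786315348610114610592429660422687477087198329426754166581207600013400963221748336698229111343046945293900443950161204839942506745023575929319738780459866785239495132167321993060984749358665368227615186071356155728295216340086657563110029876629926533481460367413463513684557505300487563831323165963677543267340524183982325844116969306374510658092992073546997403897556193647157758177312833744477482915521216710631106241822127717638198102836881980032206868814239222162817383422257393071281421582296884181293813393599474178855735721982790614035523192944195834019024853658168049568020039756272115674933413304833761955564638649411010311657481066285569116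010797313127246001409338208906433405109894937663955632620367244971698705196477455075482295977357214566994344948940993885440368210099433951746967594842060043057210471700315798011788320902043767863615758990701818290317340309484943172348316049402253092219273540889308006100754845969292337266909399644675939197032617557060207900673502400785495677509029587997550871777694977603423353101715686463343463943142178031824828561607412779935888568690161828917298830947895509194636432821414051763123568868743669608743796087175669034141531070802695764441279834974420699833944840759713330973067344885078959420318672321522103055993284520165270315282441432413856124874280503807261774464972331298906726018212213780101917282000187994827927387902708044157112338539909409193963292227648181244800378902987703696501954343583917024085257783665102494446193008950094249429022695178081973815947295560530577775115673689017219690305723814854918827133541206024410578993693722058776316563633266037433691514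126025626370482366361307866311605511577281396436449603126502162069098142022286950113020469235234801460254422623449182291276844558874612304263486469687056840914204298008311779537291973736038515783795872624418863829459630414792136342267664187322768116416255110844872412936932785973546568671398162125391858050072442462817573518366205336272338006702930521957316321234898456794947954547439081919990166094124815142904242690309073617882462540500655292714818930513654407138809900886427410740495256117851340845825921979292450779893289867039702294939430698808919997303882138813988893579169084214280331005436051001234599910102673750400498137085422850546921726698006575678998597487011017595256493657708885004489576620598162162941109550552785791241053807539184108638453234541170188326883049304188291942578056070163398751967850672518669916006956229991588191434682211680060876788725776588909023870335301881325802514538619108711613860557402216070332324178023423312262647928342799331271248595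596195731165698512948088489978528422693603017131432174431668535599246000033281013390627713285561186739364197012110330047112949440212188064663274669976389262354123410628666516729327084723746811881550778265876979840478025497729125873603935007293590913579937286332444689803722975027922942915959012603150004070584697937196727141914525506782451389362529754579400231295750207694329241148943754518961420650251394745254580261026165144585850482266086339036094618681508955925568733040671358845861702077656789357085580243959703309983641978072705587383851122862640903989524290334930966619959162619671118346582574443581477654507656929810749517048910804255038463698775566847240310319824483267901955956731674673437981668437922571930242007523118097683852196130103676372893581704933409044132111767541784737295252939991649815259111871581572543595971412033241513917321323794989494022020676938503802812866876435658676917506529059816764371711933372517269440963456470265593782276664381903001477502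052383263775066154286674182680225741136608955846471420152677165948316105962451851606147553985979115724776268629659804564810155221207316522397657482936274767806739653903664496089604327081465340016348026106232191467852162303296565591404025953128769788549292875018014071100719619252333586152821964352405653120351287910406595999141462840243013574365218874155488760884218682059042332058181656857527544285544382293021693801434365888878931577878361270316391264421231532092289841393875784382728435920702379757669838004153163425839247845523434532046528549560624629195919200355681438340459055838444822044519606701988491213106231706678215657601369239868000009696813169567851317696011349795717898022752549554042558437632760437585704854291167705298413184697435373926331137756084204174355570412964837559143480351141560175239102364252726737082306051123055780558449580983505926120731487561252494625777132852951002171419932692917135739245178072802095875605309449335885597992181469966373602443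939083201795168459463260044026471191041697430746736019674007747421763665217088636487324678473187148284346469943212172097527025474154082851627398474037669118048104177127490326895550404138254461761273661676371817996374080121425169135009133128325682748138475995029116702860149813374270301046986694577209994966390148752789585519972362142441551230845867334728419610985696334489572157873370668970027417033261189542922358307272690607728411957969706407799736468712719722161939520960859555546481097920728822366796983161161968027698499003851805081270117113026793889603689477330142649110520499010946780276811213209202370437892901574675498682508005539462001084823416210232457805109033918028782057572591877218236732795556963887682886520939609811260709039073358898197885497073005838500997004475551246098728535686779673361378915830199878563997130711071915200205390590307544270755070889345306779665120124252219486051108615904037235663247517570473056629512222264738416796533535842088115802068318891406489974609833428049052528152668520989283184620502694731249056664462352303791659082825780951781469054125013415196332457033191059472042125022955911724937318859027656640433130166456941095743655158946295451941955771723944650206880091602944)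

noncomputable def rc34 : Nat := (nat_lit 31171970145013520330607583559265260037633772778384317244534805822537765351341942082199274390842029624332886509200911446818262146490418444146517279688587017359536278836285505303580153470175042291282109514783717560605511767755394041765075756427989530979169327666377430412553571663856045509658377427131990103011032198894394870779898856432130146798647852294619202365079506915126815379697224940559787830674158048009976973180763594540390166458507419523971281401131717816617006654520189553391850859380425908870501623659948042933923333106713321665565001813640351674989838521928685748263728483677434236191445406667257530797196158763418671624793244864809945500936543272203237695274092103995078848525338263777306381236338517259135345459984648571277439738992246085912908779297982823899481119363636988984838878578358457569769343950642901638141298107302797717710141764995730167200560763777347503474807696970931913616855422639590554013017486424047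841145360595244992201563752766064979816940664349452450584501878446156839967592085222389315143388648083914572617353963838676802182572650826279596990588127335494374702044444082074764235825072133732334447882091705103367091934919212939778515246376363681205876345376362064603447073455383578699786761702742293977166426042362764823718477829802770537396878937757726250631551590024967810143144979665828770506419332740526175962145661517375918137913010056486362187991631816211871739639184709096797223685675218009026112747351533540320048152870701581504147664870719191298672987140723802500614928025000963327434570538536472729731119021450518440992596903137398701540914465854518635691698109934088744147928465136135509998912271246744710278437688194414110691111206759304481395096224304616024296964526320040817060829156492224922758364695145835412010549676805885570911599232008691990841085989892723916390337780904099799729771666086095182732411749683801159798124583472963354228776584669013832758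724935145609695429775273716885035423623449841663590111644941673473818958197281188109770873633921100014188134306751329479799710152270072522674373504436872601578453715892290775202548813264599230379585303204424324820255581892212393452633335332480357294389290693002268848698483078640834145226679095142563944000903403906813649029688397842723530699200995487189574013078789661977386346691533212778982545649722674901197602576207384851808764992641052572235162797856519254640526018969551632850007115025545524217282869989958491166607963675300792191667228573269505480048244961851868903339942593272856390632772024090648663197828117977615627231392746951820998605208330898434718061889613424728739818876892221278776808255003772269204726320608095630441882746269157375514111459726825199485482400146731302421906002719719468237290866340434970415050681781602038677295497857328206545935574490211472985000268928731267917939714736756746404357528749919446988123706418040714799190859703366594405533937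667096724804365457576687500282097032147892713887546410256970304164958160125254511613561529115004686847896714849575805596862164448790823697122562269673846588680323491454568303079085108521572301886554962343764903696149642295699505617459707508635352593306349076553698653147261717743923406436944573463985928482122065919400515399816823438958982596812475181925973495076186155530045982933979748133051494807591881822425361383537217409399198514102398336830240418136992212381316005789154747077818221035397471671843402374166030171929649679378541050262050520207508739878366975048113012031098348105261628907105639821897576235351825197580121101002427108916490082135245689322230597716839376148596844838891834444833625527836381940890857336064072374584143271776990535968594026069931780343824975685735635971453571432548479537470711663470552460534170923844952623570718996230251921079485579377578304760351601777978130965554434624158398089294805920417891836411540979774531214472076769170912855398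057922565959920627339077763571519803175541518006155855538988345003911098648991974859063711323341317175157086359062226496817506676564604468736569005119810454060326378661870532272185753240573188340759751005164390104808185355541611354754802107823569636028458046396522405183713558755106712266017111444285092672553242048782773476378420372411560237917399532088665555700586144271459987972718445493969977220286762413428093529261910836697957390756292469645554790842724291183948595909390444349400268211780257201040544514563976296992710496106471455592989648457527750965823009769492668050861811407288038838759083504593631298558868462043463202128282482581222797280340122079564108208471791608506817668826476971660979507163854035711431527089008782755695691248874467299464589339165566585086936809419343799725441515472113039920992318532947512295693713618730577942589294533073853290480368962216399524797656259871611787187666031205504838828895773010032711731148885328558412901902940814224787495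879920885330348194350930800124826706867114399733396252182604155255658448872128228547662991989432399138442630247060442709088140027617610915011687492235670833019013638708998107540674980865792367773143698407876917640236505737854509716357269484638619975079235574572948927254387629924788118609169446929091890834864103806677063556791617140070913031126414494564178861279743651696165250368688402465368643737922997150904395814350321232239136674620751995073096417721603996394919106420786918423326185371570411107224207333803134575483686205390377202626278828424540203211940518476331452311608888162716415056433111707037972353423952072897413827720076200283255635589993910705366074065389352176748534881024049549528544672364655673120444316923959383866971992753428724456968460017216072954128419894489211556001703577477850119488780362978827109281821825298352250009469637030236696738523036701168491667469585424481220014892222065903948789647455065026029843545788974370915991756371501985700709509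070727188195800170298957060777103394937812486410483323273998195333214101985443660219797842584065529538209493731332686260364909756842099790549429515981341062048072342067751457297423215841230031962905696814927361331143132731146869971163218477882621779468486391367991173317353679374153755094200010618167659187582401641263997249121234890774067958538793102867134220846424655288878244894306684968328181224965030796647320384792625817681609232951268121428117058684208037699711846450861601705090798386443825269859854394092631493648931197579714419780919675405213199382077691543323245691559110655246906745293354470169252317475168508883818174093230657544421745776746376077419168275533480461271700916221165169477509645848398350760093787091752764157510847405721160701571206149179390986750151860286019469953981503363967992163251667666978221733429182594612724498383760845788281314382197223466948153328218822063251519157490992413654456386521995033816894674462555694866708429449997336514438808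079466493242957973831176921496451168446762703671282460485039383606173072117855499521414362369971700571429210835440289183712316594983265562840070378407632626525992375433449378514748659361927361160051172847584638141631206660195245130262409688528770637803620787130296733978049742892715325821163145082552322309135476899048912852348423383181521367763814912298580828067257523714633835739149864290977221358890857720223132168890209824302509480871799466835126594392671648672026712604030779029018045236548407054989998958925208645735080212433685782865853719761569700340647308786353375212965504598948098369842443151448058128959774733697071510185394919726204541995056452982779255648356723429184237498943680652412603862450385345637001851403843469172039558410517238146066810984191369241135388381402538392334994170164738428792235121598265212131456277708512779796637229222401227986909761847010608931706580410436932836292327643988479149038347783745441403376958936241460378923978246631972379810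433683412385399289971568631896529226196244658768357925588493234412986098498827730908635755716043546765523076857627138775199642656851446057586014081107467616668975422445222255202289060724481630491442879983654853746697266696246033854698443810056058335557890633570280265700967987878555410666467638633021905471178071658775055832248791916293217991289565117160881504087555786223113800366778187738047815502507154604488353807140782354206616056445838844766665711500445369195347454738255009328115907871058642590908492396122947741467572142627231085872106645390422896260125611369971067648565301992913284624397345100451256832938708112835961428771545491705916217364268730699921557672574216898439846581146281860990276378406465993351595402766029080467916224426550024373513730788629067844717290029481804946021678995006375776499595598569783350448862089763192010891130674878274224870761938174086453773609765627859120542477701607333278481760852347246872433776332989459882747510191086722725473977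342394595970813243102081905798158262484496549314837563079268234823366676015520852673533175544022751256860980497872179747552419590426406512498038346704393630637984919194574248203368353790796292334408985312479407843593702172176560383399436629533356217622767823770003523545212900423392098011424410813408053079525346516086252784184293616866738288330046654712859385963732382907516274530495958478931484590785419722078017594011154940072121151179504660350487356158021075210848657771045473682761892331427623013747151679407129497190984124524631528038098084503499891618090558558879390069790680764192407830602406780852941934894105678455418596749090871299264568669085359293941496495930173145083696209014986491418333789820284019227117544794986090235238176265262839586416091876035240597987420354530386140005193426901850435107338017069559160173766388458079712052499178438221347741535504460745234428778719543922601435840725289843042483405803149324002038991926767252557845469469775902793348887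028847110079728004723972697006116664684891574964094666780729946597810821660135273314491222450758749615621051862419390602483085290747621652656948335480631394251802947902771389019800871204773317883875108087755554164736269815502464235393050913833158112121723049610300114053865063396281738736099468779370550528158772038399923644290390679402750766318936335824796819503117333706027876163857173772458325838539688884499338995301474376508855129734257302889276851803871421405746624773519643331051860805129061314143294517584719239382972761260825238688099410840267517184982459468177959706403206581726196899874529130623247750941151326144878728709096433731708899254324858889157109344979642324016328742690238797072089409603925061961225903717623178831164172367287372475894264254040825136210265681202249581111593043027715125271433582646454220630515888329502366390196072239310214846145923264628210708107650082891623210658104466456804446436007100001736731161393570990625477808801612327599200418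730900760656882388862927122023217613660272543604018283065573634682313680082902350985293738293421070909732004274067674068324556793080120686919078257302557911590106527548344039405124755309314646231941166435696954383321346905292348931091813497580837684469314098783186207372864123279592751548960208356827180661957158674076618176216676740218951991209363564689712913268725850657800750757573113799726726874149039929732692110129639394742942275495179311007480917293357091481007002880056422281008153004079508476251095081498809972028937276268167000686605247103032135685367588855277234633380218441471539889691023208722955996367974169683357170549799979583517836896433966833070634955706123270615102135642626894069822557564440417516159227605633183333607692067314933318595246250473135363306770282434799252062562936264099243920646917244134260657171354829230473199812946306041619147992107809852242651808550213574105954836331662711417700903500138658260196853194765351705134746302949937186035406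414847076148883408409867877163866340301415243984810488482552218298621403475353274164081646070498909028763875280802801516375323173570066576062172995170270616910851152267225941607735189418457388953766829700927695136670463426807589106595494303297668184874091537522467567840968220944459806990772555182656931015023790950726999906958930665631347842965108093913308865558660930071978264644186442610855689166036129896833177248035376929985489175556043974735999787951064369736546563031672767939186807345755174874373084753129562483102571274118723081064836275473842597700159441409560546434781392785357965545606468567815594586277089559652678443473560955789078637123076792437504269224659266115616338726589152680800134566052651768513987781252537381928970727065993095739312846145303872049602311239719393059239765238542769595925086644154719874164603282978629364561791824465365690913929268002071652495069415516781934001996124819724245726348729842522268260061163891919847914069965016395800513484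933611325303151571064502756783827342871809095999051343685552698275548096032311742389575869771832404785364098873904906156238020986235544259523076555277381676529652959107109931262576712141410784771428536836841862027775819535544213198763481457460992025460648213357583161961903421902365458335245802446997192015677002500914069316652403951737671401410520690079769977422270344973804538383894960918046998687123878078602585861015980249823674360058158811361392756117371240025972627179058001621978452757547716655210008784257213950830876365210160461591073318349444513020582860685139683475078775798149327955838252816728055624169044179793665575060532464058814631993437205208876890406819202046960367430530536279454884274674775679484335693825699637466064360405678229362030169069901928348128150629851029234615327295589689587707574235091996788673502151615563884908326028371388380534015897621959859497966789837536809523309483475280347563463530709421716890651885719568144316971320490182683338132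466141527254724785391003806855826915924987230821591523710941317609592141355670836558419481455709384497848312983510244729656515261013523729730356186366036391873305249822245411219924737337203043019398055849458523547693591819190883645222940272566006550024917839187601986487205438722424525102047393231111033003385398229876637219867584644990706510344478900550085227022811562766186149313729067908968404940294945066515783186172025037817262294457854564944112984940893051068814526086398422091719213109731069709413602903415556193945749690387753565080426065863673516548878890609673493170388955324521972107792881583424034116785981360977940769237006531494375897244750523307686537694274074227813534489650418244529483299759888223341778012977300219150517538911796951686216406248660959005044803664926837274297208135567822330673282897771235873585277823264427006301376696380343051319105133060621644525473377396148136166880102544927142783781528059695808205091122032134978557749215781227850113164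172013628387251758111988264734131072267293533054350226202071731961312358152246749957356705237198730029946938005408254034589861576942440446043742550175272705804101943257023156642163672065252975682813901026254874118005959867523810117923106829191107070262153666851098291660077695790495312104639366657657275821359136719552817111362998026911833307751438869942255979044916618792670341875819119375439665050586731418907381278875667006285941806758108240212176739264957181583676049769235101461610222691921129790905169399390911420980429499088108200656425830878856966092299883165295543119240561630310427649588580027021046981535425898505896876572117367420729983009681273780329731493599075610414782820332776738864055780927722715256617539071158988911947806649168182533632787830026847112817144694891494814805488613718330544481590825602261128849639276206531001917200530038404739777204144310142687790463047150913188446900894340106723720778994514351383568078459468954452786405396800431050743098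761132944376742192285827007268375979921419321722327501632625137488904271965792070352560523438037951332202231675466300310620023420082389627163795247163324436865037319987737637575481349490869406599241796962126051556480403808496034325628206560363884654280661837692884947041295762378041222994559229062017363029827863631148248684479587823000600257468992676077500827788435439692428592441639711138109227123851180472858715933547689640554424496669747256130999110216911307864754097292968747930696579119104008872003978257975422871192894631157126796309741162269306564254872670200619192106202234486023516264141909137900739378761029578704932928577173106229184226597981613762300202289638193369318701001707813299287597924599343379294789173768135075845433562854340979201419741949769521947310968200512158629797008496114172878203425910615566905731040802094593574869052059560940011699787500206323364830441770932123119757054175121915510027488620422802737688483503048035618133910346629950048786995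192973021255494478726826534326337943193806607177201102022521304107665689011351265219782516246224144848504829612663286254144386541777086024055009569014478696935086809113748011359071355586679989161631696325885237868947944383071781710212166766474689006160027646570397531491678442280026244023880074754106160543125123773417616508145724477794666681956666722241509754406422278303309416471962708245660382627221258753654052389206483928001996513585776376540290160286720588941792477236586163028457957318038969429982576060465718916758874580908423524085064679695467889159540474352477480378809528819717460191933810693646461024293241985936871249699719745306701288355159140888711566523528852075100290049184244696173784031616990265607007141438341504609641956816037984540661902962174270744414795317971837612141112455721953292870135594963162131084684265304794828854729013169477482892958994031343271804102399257986679016958238959262109437385657739989757965477025954720845794735440414553442717387326203951805467747957975126038023125972390442568544375468753741021333272693981283486964440250547767534833027469736968114967797900051898164311587226705335450077235160612152989882550464642545388694962981801093225818936862901779680304652974292992)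

noncomputable def rc35 : Nat := (nat_lit 31229218257176538396101680641443507148582557670456508960038532443145132213122793922909023266808952608126776693914130625172934415442466270780318322297695478701373767990121334447300636840665307475179118526251703997531809172986477812724925598947394034231149661547847570996600385246172985376903131404366124244507952256027745109021857930954118833978611517030877597723476567037920853480716199519474464452911583254717056598876117632539293011502189268018514542749799611748725299434316357652184905255476552146277058044867081788581430745817792027261053625068558413056733493175208660653524433206943007844336719872379901044461552924607056463590293494614143494539241978774396395667604023384100453338970890517847333939072886494715049396288895041637194974886584741883975112361888832107454646124561533120933115594513331233097284632393907697509671210243615371492056554920732581967967978468353049270123872382870542859774323561104271415595247190358778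506122247747567959840327554453830258215003199356574243924075507499079987380614746362086650634577286068033404591795841287904515489739906790142159783529270980954805929586965760950773722752482221928132070719857190495974088949044110325369490926106715766867957079293567804820953359633925601141430108939401588462986597415321417257573691216591103695608934831500879522581114939611479770000515140239131535450039083678897906469490262783643793902349172424550900882460614744675509805054809591367374854567302824054152490359900989009528066030932157573639559613638706838396254584705453707799086819575389253970642844344753348053781884256776169304049508536659588387878984650599947588346350264165317885323996272049686139369651372961097776889779437631491029671579272369767187633128832360646085358995123969376348962225573385996071390852315570220701145169965865418293920122247717106801818457866276310132059651262609196370597870749845305274163879917567372215578475660449734259350040898573680482641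407684340176131442811255212205512571816712024367113008846404500297860638044879133187742321629481299870079165884726426614121115679859455837001580222991495323948924362047994194783264663375175093461745355477990322615818910054392527983081607624630617092247609704997835326508754081135612281514049175854652971374054178630247915482810253017947027111322684853297931186805349166022783877815317654185206088222134959925216603395973431669844411346056629521556156330553433965047331399835361517923586671768876289956822020453069904647261377323801257939689527742658792768455985188429699718821483439248826243336405872104307245994976011074280644937947903951705528507890810631239808367714084142039563261160705545347653988790342739216318355950371288767397347846012347723906266062849983133788446449677614591229365512960962645283460628322888265510005562531297116374680501782324274458188784438710076299634577138418930029488437225710741761948264525837799830365385134414450212041587422556423421656004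272418392622999542993884732534938537302230298321625286514506814086106702102120773707249995997736453202746377250321327316471766649689982133399957315197557024757622142476847171356643995143188792076614466054143569067664853584641302400629936729224667453561888517377890435825928870421291023694086401058885328048371700924223045647902920403170673725285109967280181324685209676381495219352754000189264894193933179631809194278945618709318526285690936420030168994210997311679749147276434469270687537670330827443812065333031024685952575729584217609086925817355206801431145982336422306860702292975207176767486318133474473651885564673810890417742030151541072426936380955652917751499313288977882968738434437989600106006019119790351710370949862319707481161915231970755024766246772326914170447921044069818011165702009137880262636129095619211619661144354358166030594290756638908958158598185578969822002463886557618635128913315834961325329262157313374720959207555152562222723164003819593641836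287385401632376670231948319572876077423304107252664299865736444551016153843346217534724116737951752431960053191415476121326537006521897302112907878376173244595733340644083368166927679561649798453218127808168157310962617388144934645316202276288210569967439632992251630397245689420772846169781802610133787203479885420219589126598434463378003434180566013856921985050113345219661611216382900052403021084296823484559460139380771884319837698894246439680529881583831502300155457497809628314229482355089943833885693789736517897653702255070002575590554881325271772318850143009522852282643556973459114694997714074635987725132537804558615886488963376507480167740053544686399758198208192539954796003065050489687000384946838430548433688972098163220752388324950545528358409229743198749600306178874036054822579846931070163860269298044123733037830656177121563723848014954511802763860516568545552629017106547352333797232253780244441033708768552374060647844212775400196596921343366644811855170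154138915110927143241208128798398832235643307960648883257016620152016449031809803767655214205340086930527171078017275223103336007894134213415510702576621414676932713293898049789071029405033743903892073989633201273283410109542075864483318099334626330356391541708962427592322325231734396786497765410321500162951087023016896449838270771052588602020749187469556320867547113529423006508951950262130240003521050321063444370028710266394192267981205148183186251014630510939627896150593856598854742754317845430563377792593541903721525854474507194933047507814458714701699963724345840270440568316561875263035338140926821623802533093734490406408645862880033219975730432189290369180669089253613445068660792639971312635627335470559018126151715217817311084412998761262034736563184505089567029682224601781337210779766121962862793548838871131357313561342785680434024264510445930315748368205192383614289605401689960686669237375455061380430157660217534739109994567850247647218488413415791056219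417546688819125720662827429029480865424992836925090801979776656321332278793307541470662228311967837421832579421583288313895652964090061585055354259375049437879490063267686266784028838586071932335854095444498496551227301382996145862683887826832404793687397441729981846720678364022988058164742597773435327788545297049213828995085706262375858235418160165570494222918411777111322131420710233117271319831605501509523451749845791414707713241377472508162625109386448045855473970060786495422621967964232880966294397421536282880066624337352970101930158318695142892158781544432276229921878350845622788921714119453098987009116138509053079365159643126931437420121956579240923800757725754922803025240010740965368351179874186434408951842244617466380182696876984005635111369321111794818404639866406530345519718107792500949499331942049573966480312442645075108262672850191525075272192207324577654965832063163063311124003280356636570978072424561454631839817074596129718637876242099932491150319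840135212883960472547719875888337680451938974146060249340303729299076522159500167009003343407048045825392710015299212861423434554309368760499370993686861953898512759233817272412054528500422308536682010169314308814043098807025133203016771504975101594982093487416974059482319263615108054456719502745614172472804733552431328457096517321610039784547307841462376845149440314188717609600461973404554885739596857969400237891263169225650948684270333867353143941801344271459644706668660109135144819681332536643631952259717666849209861560404300289226250699300662065824048103499727419871093995472323382078968499137918577184506434474695057408553106544956503412585948109316099405068230089152950540161896358195426485918966938728355483514451600410446017876454133722016208860900358569185153367704386358263357729191265829293130174538121570541888832108446549673496121332460601012844249962560950750019430511240900174183083034506497901455479816312984658360189522551597558692431727059720239724257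333225531954832243631793001203394702671545381186110364258384268351694876647355610672117875723921608276261612928253267100581762789281730513175076648090252907916356059674169187682717406730121726460902529798954725094219328690373804283615602049230035210097090473296564474591404670992639641783070178702865877120356766875844870327122650247777017365485279045832436723608406599560523292564389199934743208116010969337561951592835193107082320137275279587092285857493910393599452396394420180765817463835088112160585222021851477101845010295260170295259864866093384266072929594651140860977337440068375868584987347637134131401777074389997050055043461694329364860485672473724441612331690590923629436218425588554040815475854070116789870548661634114049764621289296838189418952895447254913719039367893447993386541724092568834196793443229826365833780717165997616114972687062191156513163821520485561499734147847041590836986577794630386084561270083523230858252647739859576649592664761682462539776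663654370853758513084147454367025482975215254227191205802315085181790276262098313748385035744010219466924889948432833905599825639255696811532829990401295888568078451054565546867979180470232744664688068003852420020548218985214307395539614779329131551984128926138384072089677257763902786954023712238555423047571569732682162969199063346853434199508360141093260104840010088555094323029946356494655400776173140295732969004015079334109203442639139596235881686197257121376951696114040826602489616064511720388408528555607743277424844424452076447883782839714847408045512488067086544130116675871139878986890507337041978445535822475023343632785089534647768322995483470534148882268156388543798054448694725689972038009742786427685903084893758202557936465974152400538547502285236622370294067185994854615219209395745306529750553204536124531546037286728776150101162378754301659082465543346881228654714479708355205764972567634227942825992144982867025091654157617931666833957693328873843432926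630655348161676024184271681569522541673680194467707427902153531190106645774090423460388751583679062288439510713108849542782296064155642777651144632514076862291659876630130046154431171727714979127294256100911181812433810627788784863419252187542000706050311878314338427046162437158580965257944048090715342332396813514896057238920318345702292254443277586292289521584582661824387797234316852626498481898782242935642228328519645184152844148127126658130449551527585038854160870008070045016550375419294025935977276301317975435804184463360219217561157265676830206848333562862346339313146840625741326911392455094142524341160326693717356026998850716165291426329036487763317070515437247149734994745489404768916489184134654815076505675682525413046325860891060105939432048647584961501855262769799345524132307135259735363268649112080560924841535172948745090727693686613568429991276253379777815477069407916584357567766084692760522201258071577773282248364946024590166462063749326514173053951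689757397961472969843915070598371374237696693713496102106680302208894693096063041025597332794760238255508448714009766999914335071252884467128520283428764871217704932105701269214281792360905333559419916044132294479688507017951353576172050975646235488688831589150405103898597489036063031467964161253544241231959194277918712437111917821656570805776499234929776635962164607710204088579250964905887854292671608814170466713768375978105064252868254612210616848487791492086631366372369712654288592087705256985696688193497186669636898960242508139498592979635324632300208229090281397004623003804856837202298699884342412577510086318791347134643252900834667341045989605168876800160194255617715976685045516397890707269634556758051610056825426543904249247928286389118711043048545945151756053462686128529666555176969037861801939640398714145854931318248666690245205556014307766094976339882194413964755348934674035745427589550492043089184930575093403963112172023920069003135657718899399920527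180505225840990988587282936232877952518527652074088770742098227452785818356836828901025247545497978895833471260090747950149125175581270016535689910575181946774843406336750362042690380711249727416029005809639411257827912393637451702096612712555822022581947725965680422535816141765818839090274347996506987297578625599828265942817312852057690114475367381041187709163765274426347755361814054569705527419826924051947067736299153375890999285363091238087935892648904491968861683181738790349104038459717582988308464383931914135366498568816594383523284287566665029598307288586620998633322245653233769507461152231605486454856485818844138920183108761966959272459291284016580576737358277383991111558799528837447800472236998840230417132395114780732112191621548060607469371002395181942981372988942491810215863761065460412179576432634086939772468591266348370102643314607874837503073785535450370097119187533591234965918906381901152314175400178270749343487694732537487178790342612212671619428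442488763968115389016616075385886257261937787763416725885025980004901437618098453667491823499635953240842785085358365043956443760705120286700345426512905028067108394341640091862550786186857332769277865220852026379209783533199533279456072314144812432482792121516263778483299979355911348766895589751449796972946854198379550794517643421961293150845015830123111476868210481175951264002837344373934615288664807469360640830078059243510361399219554769313463951295271064677835765255784464777127350845077286030904882426106493475376596928234486195355370187940213313357546000495576999246819598702553259414064858631476000095264857232478549821107258843577585032016108274677065249797977692857764627743938377523009133121284156719209799316472209225466570361256510819508982187409386446938312343435443364381322217197985101423217825384096519683959887366655928920531821729731570084620360428463114953574173536255997363849721080746162087737996056173264539686426906615153323197935591790993436848914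395553531709746871962320011556612997228519799714592183005574566617094533613919395280252018043942715273359886733505046532596042175177789186449358374433602497928672393174376939868057248186277514022517523989914783806201461205629608295699535411819575773998179591741513051104344110599752224956494239856473073968400100210959857629082969224400458114550447764245754748021250537713861492631377229007059939511385228145981581603656851941911773424813552729956105222094773475954408436744144725998752362305233085203739708593236661271595240309137697179887935885943313634253231881888469004188278772361493290881529939697063200927330506801995859676156277121291920582524676588146260047546168939955344142465656094622097772702356592193792215381045802293405024834343449364231633577989803271868270817565695259313278523679430820858343995128236622074284726345519447564266751711637347496407279317775565419269812483899834211804721531514134458410542065080042491968522067808728951434874170065744911249717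709355742100199205385744798528431226270929831817585081948666284020221248304970823952630402832918387406175638007740763006598672803734874971922595570746551145781136207795814716924025592706642343449506452670200690991789917414797588949301194188811853229340838483603365733310658893150578627107522452055644105925792385434411175440640477810001997098847423859769425723497018799341633776560177280106157412891267657062482004726512093459543370120060954548406382144040152920174610901669114754766924961991058479796306485273619501134728899757433302599301364208582319672372888722483926940711892251362464553116934501378701415028575453490715204811755396224983307378630429088199894612716950806221987945216608405681225201254653381909484387807999352499677686615926273037399933677325115728453466350271323481998997963147521566106822558356245722501912294431732785166175100728073363929621163280693634557305582434126501815112424825205474864276907678092020069621124752725300289454720084059235881031431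169788313418851171754590007246590490996118362931858721028876852701096812289275660965175950492459678779590111740432820389928734863137054370184262377058918073060470998315302840135099638305233124956936348054312250350865819825036761175744335341571130496006651021826395795617672683486336965706151775644971470542172441366491759635071359396816398813006407019579477142347568567743251160186014363527927161824634687372326252769359379365643294744431628929644286005196550652339436510528349185675118390965826579329965549634918495287130897208795076317433838284652265073934942934596260732799382233029907871827006782040172362529123786594139819172625740576476596801710672704856385099269543234266889711100204269257191954132307801574309669381933860946120628892341698513156936732757743653425942525268890128448708481155611198777942630806326453995576945323272166670330487989112751316121793056225721256454837184540351017135895558924242235906756754472352745673943188664539125652265192093134133495716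284669450668286268348314331340324057350875266651913344336722096706177471097189820392833993891537487571023095814722452041813530770062630651694696533192328727379556264954094692505508430342679214500201039660020143348613168881182219655558244265046276357303074050437380869778445451745451640197476028037779315842360220339405148856792422250792156850437979002371117597707525350833453467768632580159159536739713558488687642926233707137101946532886485568949627521652780645928620499851987809403648149701657593664259184450464130005495264633058943777310738607246187542037280538977331019306632601806156611033918387235619707076633179964926224714185367545992535049105137593817452470590768310151404635455746630316432871822148211291847032918011850616879034565702200174361442786247483556285307674484030148513657435968799830549801848098887830992133008402652212787756151914325191349738928797105765103213695843102139675511537844979120485308693700834431461192898709706362244649200654187159191810723551679301591977887423963440719585283587402915774696180898053086458134060941517359748450870725658663825494446070243716154436200815102620820315453976226206867341679143421136155903528397087367873699156604212612472587672627079438907061757489971200)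

noncomputable def rc36 : Nat := (nat_lit 31285902099621844335381949995435362837511254809510361596462611520691795584966102701820976030082909250944406916894885918095724717583389439309293717954972287991525674242078786037881735303665841736643375780045182078006608855663210854568746863222277991626700871034282882541042389951553341017291673008730352648002866667096585039905920444232744152020097269904824522701103027294460386554584486393372593767455549047800546878452640565515069248787726460099989485119815470554684546374057255486427304666147026819393357047868812160801273232557974526449673915736417897310612572226915202802850074872925484504411445676677120940142117721395298281054156462825016363945794082014941462848737067151698236003237356670254348779017859198733183127242668087896781256002455924143515775727572841660725085091150162189442191778448600377872394899250054405050850664789411254531639639618694389999102651559503064858464449433141860377084837720461677696403483593053994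298663649253116359469328207235867674840128882011075920278707271832692467953185319228337282033403937961923958384155968600476204770131096204586728568245285993260645817012206137890322254728027859156368078890179497412760232425753817098371853386428617044034415633494521371288076007885671569379192903693676437623093927501301706672707830705778600820995353021431667422410668678516464365826248934367754114158167386723039993838509175573369146480470487331550511760937025430974567196936233403582313843969514388447190643429171061300073603276686092428451801671029763194784361056656928821517889561260116603425290965426646447377109874113283834279032019173113759622365163038731033725730368838236401781376489046624463246418209996174899769723285813334491305442845220317597622763559459013924305346408550295841171521935459875522839106946073297718007726288577339614498121733633471715629417545127201552629970734832155337861424456090038870374412457813443673484533345357052978373049813987849414392344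239368994944100038925878476871569108613081999295688319519842065721052786734382570723017412000374592428023206032111579137957930191788851444179939849843519123273206210888545598649438744142263599049288471037932294091181289765584987329953487077320070239972831218039089588479788558134788181097353568143687037952016233973238994511098588769025520720573699638105324803615574282861291369403714130364738172857246007456641675205460608613884424158022037782474926130317554693356521388860035300716270419951562360251748292796695246271079842023978138927081405909342014745704804211324493214484100755427490678908202122705985127863361878405634164316026560037993967915991579736214067177312387871449974275156747139619697989361657486239619392792504964643146776707302236707235259961290343968819461420970836868339714069898981950734380439982237617282774705288472099368028712758444799549647203522889361418385241436044466808910705244383787121683354100608437509456713634328221189498030385939329737702309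198289388324227056043478272032180862223271647482256555837347919201031947578519568384840029508542049028613026694305728119120878647915660495309279603417455412479318883452501091241335338523245275010011220373095627322142541217503111912884954917480849432917455991237235012243708192940264786436458169766135640728837988650799092939161454270808351817147851982694549107399375969937076697185430078537578768973796756743740409001988850338374482791788810631712526349910561428971369900632307183052456524743157755413863701838755162389354005659249148388686536928172633802424713777520819214766557647269253914955718075143910594771903436346410676345306700728035541635853850900481673298576730320601604380220417539968827765003574340038704106094554428943138255389360631698107172483788989263889950739378490325234022669958993372828209918717305311521412086184943172468099778569006457887924525152686322858830489715434565352272259426571492378713960651932467172633646308432427642462666021044795037668527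300892514797232796759121908241990317321765981481118480310125605896239064496366822386956547437476937440487648126094523161048381283657760147779169762357941181483439243881849130515603914455310135301503484345702995051651299343757037648860269637255248976068906382342599665413139014894660316102609436151274262997290640259252016003127825460200011112704746798629162309877282766417819923855949769478510992469894496262212565900856028638347938813214030561802570565206484750086708388596080193159417086012510069595787800084466043504111288012226688587774116332077100707528513990580914268455467128712536784394055600536797727644605710204911145303464120965485258789238549982355296494633787231645519087856685242639268740375909082317196238946879863347504878342533570629666856696359583845826466852876902874963757792164479300846871399041167076847972212076456132109741578377289542018157138739910720030104824196646517153935652550554291335830040642261421940836255993331144101600006813499746328651178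683041204613662452877779473376611588888200000379335640524934453887390874127558085545481144751113804166119183518947146800462305046919052887683006317738562419898852830970548302494660410658929339499859217011157044735457279915217868695106883922076688014169489424242834603317173645111542556358413239873331363597018430182234657757326978096241686650145865121979180948832259782494450428588304946968473597902873853869108267798378277131624904743032237301766072382458784348978984704452776395268190046236732713291218261845428521455331141982987393773151088518964988134248758373485232416612765855505296963043267328744741552828362830565868520649078325246324315018032890390229152287752690837680267047775498105039808145171230177062689722177254488660078824254017615625958174687708525733204725853771042085370218446263890765165758678563732716084153208776177086011460659930729008978805002250352092420773791059622691945382437527074244664675897132044583884648598365253255244328320482405173137877959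970398545902235652171804865513193275247800731835720551163559970283485678331508469160850067543955795179269563242979881720213028714284688070655489100003762410315822396724085528538078118341147259031773138258443859864403954801448853557367106530085570811265385204576592229279065710692155568354042402603367074592782656200770875356850870478261899006967089340064705116404043441084905499631319223853490474211669070529304462988746159164336275835246319618744308212657892570342948092990515163462332894555299060218856116482801848195338952725012520137108797422356518828097785039099270570539589439661229905970277957026572860323274400348092399808280857538975908881891028123639642732936792211822841496066156235065669831578748586988728033595709417550337212014659382399449076612127626716253228676974259177417010284486415168687494593437108401113339593357905532281206275177958759211117842030001647494350469660488792563951615052365475354603556710195380444778672162051226502718604919426378946094387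605078217004347917481318581129988517824324382379356646131629489430344308791249257961465007851051362770802258323046710442908465766634535409818543338619995130036332112715387524365163629508348750831150295726272705512272740365047438566757052551684914588071856954166633578020845274301051793646239333658291576148614787085109603327242101572774692345660544599128790420058003057799216922261010447086682221911626423703954056434937469696471699304370526600739136534408433277743273068012224911369722143670061493206503066873138269728851441696462924104478989061897691584271628637802158219228778067263376773719088445469289483707096872509918292224695885892388406401182263765447096578536967659257139760468030110015525059734292550168838396351223349630902711849273557767965412091094675465350200279511379677708543258491316651259935191344133573005704610002178408769879252477979616684381812465381619603942591006144185454083811322824421303695542133023353467689043504512821970312820776013579901333391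462177238404483457054271308267321380086770610784010232911587623687765555697148662838732672550444794808636729649769337119504660513696515937625264338713094399155644503047382104894872008359183974202859157229085804167847807664183641706028300701925072862890812619484817895889070732528334446772894031074467743321347494244004418036098527549272427535813806316505188101555914838553301713804191909049349771612338365122612117732994482214515132972046578173817707987173317163042191463937309493761753881202507286289887523657122789235517672186449447818152142012203756481616273606523595053574141113178090553065530001313761973517654113572796810466995216248526846008701093855221499013656839667056233791765606794484843945472231140940160958266499711108408373250112521505471989812685776116621239961844735495916643223556356110895530754323333616958027423370678535160664486323872621284290987406166718595717050330860096143059372067843099745416586969287659020691185133509284970662229219980021718972326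041734167548746351360633577288901715174859943039051981255894488796520958315479006732752148356037082472723832830748796058954933716729367127436449474283717085960678125543383852297516761344459131145653928460821886526961102393541028748441077231943372667582422496078583535314623297558536629055504088261575291926893638069853553339435356609336721467282090121252071969105315454789617083748038062485558239129381289962601156923566049719177900764878211139599863693788801028217540192079651307435191412190589415297081595991921596038446642864570059791734819459105926325399119778335250021753557252068371141972871777979373780294077959994154052896145402036413511754462087724287429267320369857779905887269703033214648571241042595245685188746621482282466315394926247596271572209964701557380670244759753712173951930797827733216200276281571747609296421006776535322007412984300611135811916155613352128049851842405041210977952602291660233138547516613334126956565485644840177351007576058064999358571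463757988983204170754448315341658261470657558085882309423428078143803312680546334769038700524994137444946317288125337789477183820096146362186159332533497921560819748306646246421991407255475669535553060773517115982780115289433139829414256610513522838587815010209422183869883629750825576713346355106452669517340306495228595249321662523239545531762949326829700117128361372052482234662456298228480772466760648933766142340424958920957092188993878507857591265038247655845842538613343587866042687033780490600100462488103618033789126425855122852078510764157511517923482611696941142013106722333173258202673757844244565448524395377724269692524720465054922167166033055966922042570721490287748084555142803454239538850388557752142563899141927421225381762848531731583401263984006230976979997437592195742282391157077529859145243691247740151642289261437053213786584898099628615203788777519992860861665281267168755960361890100537051359430584245539959227553737234548121729110274731424998862612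234385337670807558928230583200462316771536133807002797250840312633892141943977327693872830320039584714344457493583445129887064200419363042417169773519580695927139400062947855470089169039218887121494238053323456922926332044876329221039637049856599708462935616763231526607696349757853868745584009482701323909793916110728784914390076134761467034876909295132574348607053446962133246194690673385108924759451427083065097187478189319795302832575131891383729561970106298856318639540175872230295700912172314940876846117800479155884793964805939981228413469820735057530928340164652911295659589475712920315092433517474741013629458442504304317565875382279673525040236773585112723739541135820142294898656927874022652541418892370023128519032533318849874513635114577470313790240691042800558337460483696252820150666237753207813296138941162603325707344503938422013219232193300293136238922877571814099129520783304138596263727262102840416113400606000835582591249737540345014106277868124115522547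381332327048909933415594129953555810919620766994252959799614520540396458547522762230250933190366660895011855986475700945950420298543687885123786313093261581429927466511387402720084923631711306763545613647398364627615202396925079765031612068614485798685473481657516570558426430106302504879459504560350252804511505165091756880330464523049889432964217745054842018427833654199593453212993972842403471561787482185305088841792532256294738366773501355176413316810668685486453497626826435310039101672123371846366982630982707790616699531126244632310543433192375901911356575205198287382693218228451198185092905994075171654977685209426621316847727942321996151976171170111169923853940371873518318652285805066364054992250332964358585602848559290901890941178267317444411098153978554189559607090640483936660196657448740060050986372559314081737128077535525050507158594233736088919806754696042451510487706977949997449793331519004999747842632761292067527555617426660501407095232586322103488384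531484597515420924061955418149185868532124252357857524321139494167108179228203589549344507234154640029964635992882151026044113619362025341420252709963227375058437339929459321336643728749916776862207906270454984310575898260430806220392854801910234803867562747668221039037021560026453724828889626955655686872658832015208876928395706731267784427596000968449328006121071160672107298815766357894591401863633405853957724126398027520035457033459264090102334184191348968883941606119630398207181833136963797886838725620287337986176637452219751805236365676668538969738107777011107171606254591714418417740366430419652095496685386985959424911408321072272769577051489995954181720195486807034409641257622502989472733558294827510259348467560661807632839575504165245784092837966446880889304873033525629049446798824599720650755019860824273077026289341346852917817409802736886441279546703238109962940703986700572685946069830895621437973370175839076776017948592942280418080886039123997835834956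157648038262827327616791514249966904906116893527034040638467330993630337441537447735549513743614156317457248020529154612752261704165529043419472706043889608200962168706697955619908852300173978818634351377926591320425936954005418756407920715195103841261541711538006448277624256509344504222875501221863529761203714392270162748052900074130765286455936421998211822188959208662329097164937508187324584245601789670865054587961472145134417350888024034326279353776236730483794442707708596795726516356643252306442147679671072984492546673785931950958987351736362864525912055945871799650550158020362164350289758136452526699151313093852637071046816004086840176643718382938414998303723419102263228257344696440476161871566756482676203134542113773481005122150810579889901774846806090212368463692784937178016850333237208195619660488689409269355518212410723937724255418456742949475874798719441351149258743981211810722318620887601212509938519879648687451921684964450716212021162314847719159012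641251732546505417149852041909435698713312877220472559237680752730362878294685586037237981347812925254462134425937271476546169190321564000955427891106292766828350696514505964427290440260624276448997840288189991541069817560890359339507854594379079553584267653138293151407627788655985627855391653563931372358037773000528379911207176498355045951501216480483296037624763259103084859546111717140608415595011238673008081683393847817500610142918216228987509808036747809391241252722405102823535141345319329202321883748821825074172496205889917491694702707147750716617782532140095807732977880476719660001035826520204842402922175940917300697019685500491775942704332182360498667616371067058853088734701271445948147182050580363046219711173065452623135876280055162789783054362834598853886865355411152235382205531916352745130064901538702417237676632003726796436122027810795429503061965368256959388567420508185071871195427570059596784100646546099583530451910137040495374612963524035665570360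947615607316214487043925618544131498907233353503747765003720958220539444279901352664972385048334254153877299000683009815412690147157618853447306760085536628619142278679165223641289425242902746796652597044292507528673124222102077412901856294535409557906803762908348831515905973022851868397274181976755741147174873776674568848787202927741929809776297890046872045898878289236570663927400134721781480206980230954278417035099278676810106527955376775225445322247683062396394307095754251634463989693213983530007399674875320701497264905679067540007763695443132768378735348592341802585652562272514299661564981782016713575853607931368148689797134615264848232590783343297099978405210200747657950492946779236130844124109467688462405476950579121129649560332928333449229821780208249065387008916887137350802486118830778857687446235931577680720161552034014595768176432849958023716622795295669031299026243142310283631795238661276542478027195436830209268976716143866483588085676792469844742180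824611055178715623593255457175622859921061007784351923836090497073303234303657939168804446498733754337488298357346349220854771498666496607182591552820165467812070216645730698059892098407006685549027372959487329631123960100789107454930023755158257418158351683214512067492867685598519751379172609972666252394260738514327393768993776828476359582018370782810266189990830845414997699354211805005169035086580641272022543597795809643283279115163789683469610014352831172206188009982459411198481134100989494563300321443184608071588306096985835701245628293860642461609644043362250907503750505285332899250268355990969076942986678130341618568827935446765325804996433167311800491988237555046864051226865169862691671188429123576200010177565959308137163970724425091312841954558540572178334311570745127504398023228991796457970797348433091798184212474986532779362217546960534255856936578279977207030304533228702636108741521171881766525881107961832848106067322216618918517239824511261902495574810110625498337315621029958043858327917098813915027828196802789879267582220198440961065256844001155693205451954462701769459811452325615624211620307682540233783891619856809789304677627438929597992600282008502590761311233789685116649835721654272)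

noncomputable def rc37 : Nat := (nat_lit 31342023827599087503360203705012691611519114258599270855159024011181116100662683759827492018302123731164166633374208160986070370124403511851922097874202906111978833586070645666183227262122755773506778941336437038559850772168319145629688940043993768932287418220404546698795552850037605044588260998733871578524055665934226093690736452591644578967306700529856434736826187173299526490298789811421351697884369926754601901329187178341356508454096449859063249444884936997630212058056406344125739023918277216926521081240513815568391784489862945313125842199513540682906660955784236503340745016523829255641224713914730573881286596174797695495976104851534696048469393431683564525188016054146835593110910472922556740209562552246235588444496961255426957316866654046478457820265170816784722379675199651131132318356052283279571776726963299999000307740796028134917496950476267601092212320057348409037113895196336088688309925855296852880513135321105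740228855114658334258207015749130966531332609559640489378627105215492896584733390537230713882224158621583046692272784398643642309762929443666464096341575518947384223563096745190942328422490958198719962410943973837054814229268911772522068664293943070044971401511308891203624493633953395605205808354972718902134616797373226326285444912642070696350014921192452078428350525190660547425188356372075608761031526717409549437156903763749311923395852673858745999139518054314430421899599522977838436707138871596805338163520673648349873839831808842553358567434071417943035853622739471858855376352407063252219301348423077957984822396368951618630065453506262047085029287348078913620445392339826994467237113722465063967739361641755037026412463893988881345795879031277446048635373390776021026635904333099129082769234345010923498992344253278428769584794691193810236243813452894297688534746527911600848683851310311032840808917215521771085966896776781213769163146368700307057609653852489786464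443863610255532825427512384100343497036533223908408392772449202217638427345146520422868805360816368978045843995758733597586448834253306228646692248217519174854959699761169813600923777792826403583033479121532583583181185426549834004825656784082835900406616133762137926738654972458762416400993011116856135659218952160369574143784474823288946307025253094969402982444483039341843155811754417677655720397847195416569075273219819973790989737514277321272210626969514372786336719144873671316087159023419774772572890693711120213527457357237926696794143144083444358023707891440855321623422163746515469040755318572912127005416925762086999451367570140233125919530764342333005577737700477738769435546687733563759933479408299288181807627803009691050729584031062880057303239652805117776902697814684965934657624853702979247903858293912005395141733153640515138245636784580630314520059760648926160172359341747941587356232945817040777594617483563642110313292322691774877588062876209636093252180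236417977303131272611267273042252655358331972029376258198802125855447292618122907268841029059394518541997480602058848427689558196854517079810392519526988163624837458600835375222745357561776224162280894927346014037188826669002498667932686444506494887369229014889184068482782885785342429646757854223816303429964342072599893829050052005076414482153710388408465275762012667638509174531217091838872114401556939552755226768730722270854514713223293637273723486246597135223068689498818331952274789175599292504560044880227489359486278564454059678355642928026553762397764101624281226137603705780586661832774667426759238500544660376176782282161778849253149401241478749372206498242917064453965739239967918337652517653143121507011445999821224034482199518992385696346542349008981348959024217124926664241706976901647844700669757844756941443394377266175318736922309796316970537377066957750359507862099643518045401843972685208176790803850640600205977122847955501868095795536915234955587902162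330883272609235340901698528745629905133407899656523919281520295730790049515532340720715271116011175463250831272418081161262474665184333526665107650073050390503741751597226542143672017176368951245999567297882094316301493759161317804280904972237151688726637155392432238025016691810933064749779643743084290577916257806473070553617233660051253058091308711273153413060831818268184774724611805334626666431298971548030407930946606947088852535080696810175840126074693617892760935543001896533742712459160516979366801078750522955131048071874579586455259592203032437774109138819194779638504991591805736070475455723639929710877109026524286167305136956095431438342397152924058128051585402132727790659833975739568949383864291923716439514874789687679496510203891945391267890405387761130468992543094725579577473176733345641771792468830707816250808012631882044159647871810834097120659979853376580596879835093664095915550251846843180132139231594724188067739914075872664834422341094449620259563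964872040706346348307463491139293705951902291768770046021595644601797379888514306520298486819256300672040495681526242865843994189304443184187485118637465234566766434143121703141640604276514513849389903244284053738920355274368204721987245524579320114296236267655250390366999407751046797529678011054032919454944644382226902042107420256419411678172937528258279762515214230310622243958659421690901180584315702664272943464165107827865549169229125414792999910607597733360218728669751988577686902527010426238810100894997329269250280514992840985983260878536083675848477106122320622317249859477776146093657983886784671992421565521404048970858936085758585175921948653241684706048459642116973104382993141198747417544441833453944473774693782399003304698970769834864478452657838024662874086639763760276454604330837334427873827453942513283758975054310040248011128305263330071324760278105644079475269940603715032654834365674666757865388561886300423635687969549485350397854313224074427708655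749761613055080147481185796470453186904712644486888423426512748731964017281384048939315000639202090801259659953058298125327151751448083619907884950207692000579592998703213159540394496909036934835304034941979006948749225976927489505470982957967792848599516692613237194422586235328561109041034311901566120973557163133226902995606206433461321052890154998524620311253034083846943586148187477556869818543824403198236987068037340859599481359541078840729831236717978134137259591946285940137076093720869258479600904723304883617326707036543159315533257051154187377397577911168602356126872927398139159034244744771012261665063890502905586192255589199866640761193795327970388707519924472897258569020518541037015453302482797510529149812156316550533057732879742415814274361065101391746317094045193484110319935290806506695249139158809869105992430632807230209939322917114426154455797118193727839237991598282509009471701123812283553125324160056147696234475961635866940722935072441954583427357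039553533977698250039690749514499255690142738384735922588865762755363963884073146462645379582793480083355238784965678698657547856918088902368265500295776367574023718061158135850225632534516426491932062277482148754293515981713857314065995910884467983158224537398493615623013726971427205795246809352243923009160044955904780067744412657815606069697700247675362039220968503743038404757921760065222197727817579153686258078760994651579390364800006055099728966054100298688659930602269024256859195636885292417233013195586503939392017735355722901138134455342741006762305257855825058912491968443231237664979178586927504648734102440830829646785586254973780899082568073586062723318820226319190928695486592646301138641053273077470707289008120910366866300433097017517925972279575236334200130768704486888852531244413404611930537041348929478598213812698172732457059344425072623635739164942478295023188837541722029486060712728314285108445916369919966163521400038193557612834179066423781780916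123790452985507656427793765942334679309363843863293062058081743777046282889118009192677308997120535156462634467989292380097722176146507707721063355183255824711548787719846937034818323587632648631660716441986198653843564502160460364045678643459251260042529608773889224793567263596611374998238780965869516633642659113731372837510857662605486838066659637105548813876930551665300601010167110557484766496779204937771760198916231505564925414436187229679966700258654384683003912307454985367742748547686395590929740583364920470262080610247698141764230746519910926364468569520980925716773608226057452621437058160833762526093203104844395145140567386252168967195289980600603430362567140736384553624969488224055512832172646650084226469547826730866461223869371409851193059116437670649994619366770396496299658844636404005750762846741271426318099224380088634212266848136615882170191398938724076191450970810922140144066807325327702134458111224880643235274044269853557641604820844950287992220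086465568081741551308042666544389933615396425861703791039190895143286533730519747792736848727301918605248058567673539757185561088887534516323456761183333700794625865606832913365593825105742022332961222674625379153442956546728698342743484059902031319824133667543665413735000958814442449366932683693467540174334631207854114724560369894416635919958987798684302126409553885058343803287577458709261520459820061750568543911235937223763704488868183974344852020151718080365531371281659959505331909820946424314394127987020296484412512888941052097753771846158026783340384731589972806784032960274083203577322274522817470237432082646420239737379104770080566559318303751287431109792133142280059405037762259003343824767012238722607462449840694401097209161442137693449564812188965206652134481258201561644550731975970235254201567824963181705850610311474430933679138123602176481759930845706000864177718882922829199287246722920873126363458566615644110542614767551863060318468504982233718970172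669775679463404013824896387977741437569902415217909311686089746983378458855219250917496764636306091172021164843959392739126029390421578613983939954309976333540103995626559834027326936346380805217391357877898091879341871643703690497628627566741665060417269729103051033216202752702908589776848489835982435528670413762611692481043347668217699096548085183438968484267528504772405374586424754358653615357902810486134536548521972497386998483576155071364308796871250484075251090675652247103593767785757984239212592656505679866297132583665228791964579761242641509398570485227406225183960250833356383267059922205036425236110781773358065433393401082388328915382998313637796521037483532058522417589443179024324717632808850909939808949141399314048123472965812171474816141620511753406006973373839267593145107335013873018370770040334831252086325257426616532998645830450604852056478355666744770756683664288245103756394559350275654072038837885952696470070761598788928934262749020684631739877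339981560787834340469309691304355748766884293602505276392220710605691080233342998642603519765057525721201631026586762838456537088100844496328816042445494956465597696491898439648483646029286118909180020601161543721306905189905992795360702164931006972653663243853264098185884534012602036608817576844920545063185022887122352963314680521333932330260878792056510379738363136890231760384020173672330008626310516043005466970677200876898368015952811770314974558178860078254447903420576443076082568557688327330633828510984749375191618657229721314630828945227309689983063010954211017329995631134981817669479741747591447042675446221335438409226642756430034951586180157646727760008535025678944922582232488460994400076417965823113621953075398848796553805788461231184388504958775463059518506126001572596072906631043904637951266799857290878515873515927041932570886002834403959906611477989803492208987073011585685923725150845067684038359212241934304250703486592665204765741986697988649662307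701130322416787285994648477745039441502528347601883240243347316949452583630369560577826210765673462307671449001933215294664918060831472861848119453873830576658144784353284518992603255484759209078174244410939968421082791438801933121368736226211497850738334984997276728077103702489311216973158233517826179095924668068898038696184752418576529512246003544101622731420729340586678029965904571939786886666741432119529892237189401805193739439045762475762646947817445316482114052009966470120267267860038900107787932694526863526706290352911947980253566524560331701077702988803179974406400115438482816610872551082129614440935434961308975484124892948879718843999561326426908873937368937001117164029790536628374091768036199901763740626468626503978973452981661685154470550005178317972817851684121267978296218928834558964339607199132140178861884935284605253589631783051410892700965666913407240231507665683256291441719554500169305669234203574133438238586885468368487439745276138615385598526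857798410959428849312958121022637055150335312405963727795911087159457553735129018590449205282013590948579521137975735814547637566940504662570331768879930258751646075450739513135956254918297768340255243098066225047383264818898505251600584789173765964478180016131505370674320552267585454318490056373245937288582854919863180736097616505993101746623907428063602543852259412153240714513920025372572505693973135916255485077984820572557564427210905352167944177396950047621627328353252082730883864290904309790074919065091154469903332723333374633433629319882695792930150647178002143331292158741218806193524380954528990454783734561975751667155410899504771898492605948804330237193526212977118019335079141544337767364432073389239022541124550952966620978380472460659071317824446802595446273781667107079789125063001957432448777727856437331651600034767705886570556797543153178272739350540029161205226405965175106553613795633117804407720006943165754637582902113360529184749753108758159063117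121285361068279890556852065386809207179183964908269070611657332066370468424433502256472217718919772959896465542112134237363304901250477635649599691091068465592514885765399768593446316493222725471218944791648411604519882265558866998189630932596403418307308005152364138499873020967156763244524314427428703387985653568661986115586535849825141824904184216287077780087208389884406771003118560702849419378053377951264078110223471244045641283028649183958304170279151742980806226168744549964001599201472137240884003850327997747090044616301870416044486266959893529876435028792413787040969799831989471340204460037408458454053037009087681420493048483015973997877338671521210868819818963726182232453920548189037412445616670978786000341945666824406058146226402121797079508013743500625530586825243547435575432767038710207241784585080697894223075364789779019135932822465482105276532220073533329217865032686934851362966378679416524653217330980522644405522408894345498699000659412051908995650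977865115343083871805789075015868886784604210358792348839856835991342299755785669933994921524689890415087358962127868161535004987466481658838385148258723326117778427504414005522522821562745322619792243419381520888573888437187899312336343169940656731908317953799254736166225542848207420292798569772454473571096071456547954264787113150734651139219481903065184556129359434199757371233062714449417981361636790370839089314795009090895735434347616444205657748941050852267292368704131743833386731587715474822947680048004423313445662858589500344875763035902658131888011720819616068854588691797254302699283678796499658419713940510576891813946965164775705502339171547863668476264267834154012176534070842718100261682882709840799483417093892217719615800952746200942695754462064050788403825461807013710339789624770722968070371790742057894560993003906219328897502914478275699676687951228570136447485600919982550248362435451867413883283583139186175949355827579108115305768917802715983391135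973163451335701767426204737364626335025460890104353549403549103416159762957798302962538341619488112922705013758706062790462279449181445134343197752953241800868934913990631088282794969539172647725300840657313955937039272361138037737086915697933131655386738603706542684358259435456587146320141347913569895125999784746030086496954144345561750840943196728694540653628225131161333704638236629841890636679303941819530114600125585397149660389148972434557872595914987269986112208481255643126625164961699955544245377408624301030701020261239271145717869286856625699681070052358432250183161846720791241523937501817664917598987570205015784925669940107490762364793524523853026968180781276419589023856104554812020317816704117980994126442701991857363863173279659194402611094572716790427316228267396646512856620454305717090073013545940000395197348925426755136496644449672508847385000918242764119250625193904535870648214982545022694018299461750265151013927744788170571566135217253050164744167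913494478581834389886728966854186473203036120551543524501069613281909049768490584182810772896473859268539725752773712665724790476986875053047317906740814102147335079353774514262151685899574702854603014994975961470484715135857969060046911663506849944142403853615145882113641487067940006585865666457934032541417795272281084576708384613873094718191129920360551768666363828736330056447162038042573934177687119568884531494381345516693750069063963095847609548646560030962596121731850959236224575814421716778832402054018234926874103349715873194659087939437831012296023453891835304612972400492354458578431447153766852166212170107154305789283815561980458161278806974076062261988353564986563267968661651276266627971113756184148084279739360534134203990049852335818725477773526673834889132415067640673217305031251743160023008059624600925567692394701700491231619350392368865171012974304871719263576714853840713479600614646341233405536511049211908947180691914296164047742190343340444764692086286346923682935993627794694802573184444082553258297997073901943636523645402162030275642615124959266264252943903929016797351558577490814155743557675598538686754911464395169457436776104365364734451246759339845921030843418067151742290129584128)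

noncomputable def rc38 : Nat := (nat_lit 31397583857097150232723561956901149219033712681614547400821529584812509472050453466712914775379574314868598308995943493553288638397477103980696731044457547910508397063726443034099590638006540758351262077792290572643204912162738311558405917709390786704541545417108030820981959324762743542943717104171958860507937589273307923767383008089453878944508319637679729579083497199159669221842725440514558429408421107010370542623879236258803946822231225447087691316798266566715351822783371110988430424487938486869684106789661401978490043060025142010813729128815301081619278968415842334421996326977616038735478856781623072790695840987345225692367592718540410765678190319918913119080155395021922783783864379583131797565889437597400868781800271033204311237266889847010143262047624129238039632834316029046953110814892419865297941019962964288082499636582960109150017945987250942038143022712456056480291746704682111954857545353574933576905452287459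480030397729522566196542492233105258841346879841490224207029452233805793728723208951696016302938219987444496667094694394017062138521044650714214936536959995668654538424439565985631008947312146742891727375867965872994733345876112422161553444608236591770580913519002387617632026598927813251469631195085419675100562150363080571231276114007833963271024300856948486703707156859002404482180317529670200107062227717507496016327385325358342556743700905902296173504433474926573243005920284718430198133241102684959407464829369714479744146272864337341113043104831335757128481552148424075330841995442061181901160446384556772910421923203598521495807543130238547494312300516634226132489150954381327838829603405962172835761833180990891066602128317156866747536637590551830231902491017064053266884896111233293022486556359604410008696549165149773702582350755406527331145833016451154565673555936111333115535942087226246547837886665000810698276079683924950233143210165497861573330986158563924271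317280893496743625398520499488450133205362260905993495583640046878842337027396051102010175827448574707592171119259608254274532674011274835211672452432148151866512137177271357981829130830276147982366787020560567573622355466166493900102740992648077844908004082345724348291516357396466576791215237698972711274818776908270715024382625958911072701987837596747486884379674651974703454330028329594097836910157317343880524811978948171878967919674224467719488813073660238948589018502888591899924662616237805966584121151687906343360249890648097201946526478354859278841783269931068988381126626830385494711392987456802594418148373323992867382968591473282973805834008400585246429678903963086472021293193015964721326674188604210700915504188285828620936587720119526824613281330389960464041637937380245892242255082563626396972037314723706164127604608227647005092144481565209107014551565408284511122079226744434371478949097955089161961599028405292259007897556069879670442227977318196019693938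768108573211189015362286884318570047411940613993381578533601200285793282395141008279554624986484841070214550401129698371356228675255827373011267349841446211392193750700593385883206808704063591736905089046260787901714498954875148869344588386158383357871319317846086058285163398677964589114915540514896574617098333808311711330285595614965018705619134555679272286568782191637746735473173005342494157702124515665135895952047625681630909621053956532581499057225931679510514802527635621714291180897914337364804763410699168241927938299897935107835895190728776438436264562029697558948726023738031799987585934107447604875859039791409868757086421821943484912611742041025166091077082181969048289865251469652745376888746246341236710811070971418790237204815243753281857581560546989105234907484937133045804037994490906370160840847496692522337750153176011465091743955316179534741988539027869891380276314651425016084759568985202540534582253629721271886063728730531204579741558501908081490571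543494301080301928305804005714711492580865462662182809113244654772551093616913340986990369228344060363511784223541945028457737541314849353263981765453415908485134157042832515375389397789506316365587522560524295747495519976882970373057606921769530499108071531981179041108687686024863069070613826054473761362421864559044021544428270946093700440367582207147506649684888535598185318724308975930907054981020630917013899102348752185724340494673108462480188612073563296128721339668355983272203873075328223464463692420884084230643879699106958365046276492711501770609633623974597190454464398377694682201730504998298048158850848509897577608728568127340975671540711141380436674359225942114904775209246258768158425928486098242674164491134912602830940296515887290572760584226933215220360373060576479779291201965384742950721221413466271289277372796792233332687582625490429176252964637296250799317676142696700763723422899641255583665157981514298823740938361208949844411320521728592499146580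968634064712191182762501676656997457485494694654147126365744229128437576358459683026975290916188264598759183928380724813321912395960055018718327981316900430146641213198717871289260679627428962063363100495886236098830332036592747617216653615295881842486238383450422106354053686182995280525644002457385123707866998093768792119622598006979023236745654209168704483154171078654702634851591583507559229350790782553581232074453046832634725540974928689184533905805956112144309574687455137315407621217213522295333612924491788894509266930079519775695617197816100926136751128592693353929119674248178070204778908831735764429078315090010602293863495434876843561464622082564609250986948555020485319377118655691257521475592147965346338262770756847398618172993172344653927385906132387192998142509555874851924527302191549873922902342826803260246394043632467847519654899918810954238421288779565218732403292625751595326521472113458739830391009151641421403821997730973248974095164845103092535583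023469829080879963129039810251126981070280067635741291843938528998407052361196407167493921781277260878490444262085960501350582278935204433759099361133664394026150694235876687877907975254198525889192316888672819430756374673339332828319135299197679706016130431667634891024434388047476904894492990076182588924651978799230248766627195456971055193919067888898040529473713113167283666824890722034237881342319954302229025092997870183219509700679795943011119104822071021176516379119582099972276555147195913789525004429909908174471668582214942044894041415650633889911744471332263533711602933348869212094187806224928994812997053198818901038591650300815511089636479736936033521963020700397117057398057843780732739941024039412630449179217440294591433970483253149393396275530172692519179112513545111722967983697122474114619227526293300870187966817269286406887549880445166431677446574387107030678819198146953656589701857801729361843638764970904465251477564901202841547948726610756909695940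916283228498140184822696338366617355957121600758494992619866205047743265471461330968930702161182473336878585865749986782700073566642990391253767712123995217615910531258443699379651535431947837992538722090281991998944537783395112631045983272116650350276395056522406168437295166310762591199195319322070696925126971499658690279023909653018009995835483656399970701519852129303991606978371914103797419139158314056294935330418835752311482997168343219294253736424979053826461002026705172097855815294117243537044702578210635934685838745047155704468169652247654615819388683008828622760928852874945678322928244958007253560171839324038390432868252040904599028598213986412622587848385004295676338265869499007617648020227665146080828629031033150546121450182188004495021945850336915556067230286833162326522424837719438221513433559425425376079502835543931675982848880108187708878650834930403546667474018248019133032280964003836235286649572841129132097159741343103186488893493683118125510766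364738142465276297379958298546771878232392128939904607174917223482690264937750519879994736494574700149462031910356466334231847214474139256147077442856487662987728107385916811347499674464166612404169915146067161932783470021863048492937659427685596371847469906798134119825105484556322234123830620065888602635741787173228593573106932452821289057416203779101867841615967333026989207405424752503764105353690280478070205850299782875331714390687629361913024379909501730016385094402812522743479873421932360577258081220664553317996348044348559441004032892294860288327636469536300383148890708360217660916426697459114576422855156754261901457669401907438584824370795675094510582898897522004549366036058498975924033115834822061255012027635318641509251190204484287215655310756216382658167117126980893083193337953100096769473591498794148605278079038698546860737974625224246020715901679078828180075671618449753262249982235100597348379455395035013437437494389889984877885802786807251287904636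717705123124997506636965589549976079245394415456905520001435838005839857734572595663006764353634007737066833412305907218754401675015252872306347381200784948829735788423793250278547521172930341867374555069901054663357664542858472876077851293965360681049102748474177371831514598482422448231510428787865114924704519713397331645594926026345175827993385835146854706374874139969960332157675110750801767682307526070251838663316856398140991054379086820040947474087852011698905988316256737631871777735256658272750334984622643568849626261287976336463094151575204103266818650972621303233582645429917638972376749115611387432285386366473793860414911687127140294588921235857996693241215223733440303531139292124208018033207557339409259880867467448210668262317921886034288247728615771573300926597490956407692892337624506045470929940448926891881733472708353479755580831658516590631829152575761752506611697870608761124831359100424172040959276723752952385985232304317709400991728762964788382621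788185510733451904145387473323548245063479087196794337396531173791087384343668622773412674278493247243095093400652648857440690713609725405878105767291787155331757860281498746459052020480240964735347405816892297471124635078600231151378500887638928830496407662862700733974099004285727360949436340047156250318313311354985203490076173712092806557000298437128594187743284949760611503290955756298442263019940742073422226526225889598510700500113542623936820197604683161039314325215163090263202151870540129364782221299642269225255448800715424256830247928099645203487424636499868169259635576648715881840497944652186842267370967359884157609038836022718966519138589522479882782876958572068618374685691086308064617347297698155316369998108678496353602891749940380180418888526099696812379383627928267870476021226126647512320800007210236209019879048387186376230410853684562748304402998235506119811579156880517545784748868022043504446296296548978318155962818276259944177113027675253093390173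574765815816203440833830165228830449587021427258162629893144052207003715285076591774329767743205555164663757928170472755238962200576348025934070823868108062483307611522823096921358299326425974803339509681450157989165832601445078054143844324974531328975900374281158006215909335141442237728867953875369479281475327405064918304067015953089212225722405468634623603994067096334863088306156384167707640343451843472000415158283507346652184213882091684817344624521254147394507880351692477173726786029818931974470100602233813174903498030405334085548457727058034317450590632253111971383636722918360726938080579622542476127294938613506352272411451494884711722479967949654346568986810242320240437812655051296484994220960816939721990717038885695725598293338445962070699490640091294328985052350050142096428634758336595267224437289291357350108846073661689171029931723219586038592059798103920771660086330300256937424193813871065648623874016857534713953234777449262353464412316823907835387948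189123782393001213733519489508965902433257860677785385554173117526394698067952354271863149735169015836758832498673360948136448211470101787694795309720678549526778918603223165460330884499891783192649144773524637882469078727088373422062711903697002162105281857383217144084270916671997589519640442975700655919705474672716763271998198424576028632251985642881223148714125794455739763191001063257417696225598603950093519671474990455676603036432550699292524283627563358637733943425083980234063191741578853066083106109141888035543051750388211025318318618675134599959530895901499385115794180905935470300392606329617776675760985427799583187742157890547065999313916078293653930725119223165556001849336857786028653479517115161483206550474939542514226739829939868069669835261564864055580878094322270785224139076690933434386743698388716272288085278376767385077223287015597479948254398436418560129184679485077087221405638112869874693312087654405358307160939266018838086155884121395892169808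005829870379833529684854815251151084146055946542311916736918271177255631471582183775983122050154984083516988373428831198001801406487843804586193737173202606554349568564482478139404683638205166236524253906109954307443633697581155171844356003284441292524995381487666740854424862176812896712399258391236313258757461806738762936242919395545486130564115237681109480323409274884288913407699128534004715885186699491425299345633822487593495541881522297542507712154408783206515052278862298162717810969285846715669362043103125695391266350310109557576647368406454681265007368158764437482334559112945450086907580629214064887509948017921045132351348038951700357266917856794954566895045383055187299944627789799787356937982929486105689798260447234328967660925901954797616956284697282982436401709214908743733462768380227959769464244629472227060034190944121349843569604018752104111195576076775423241372320060639335424117616633636050130592282349520907968882109577071635185370413752638752502638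988345744333136225447086051394014900779940500071098716869286050654984280450434860544036146416807452603312480458677044377834564314082291033660106080608933457983031171460369972175901106177853665399698037352706508590192099618455685116375156057349343231823112700956143523888609634724865200977937136189303046179367155742705110090933366660456644259877188380679883157550356352181025477958085805960393666870915387455313895593767217266615981099317199958518987203359473386142529560969374710620792513140832109429810262300978041681001604218056150474677537659667915500737998356594581366557833204614405960798915419475325823822721104440929816992152578009424754368680499510605445814984298336064197605373819244258289792000038959856332099600864080775119057876541858155120109652855663723163846630184765218148130679280323786811308200745878143422132673120651732656627618966549150223968435871764522179094907110823028344217731191366226924466593527839760530703145797003916558536063747669528910175344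818887965921114722111691659677566880330136010793779353719661231871188238423744845969953323445085962555996508366520260542321383331296469979357245696736830807791143805772707707368743039171500998558459590004510716625810414204943210713993626261463962980370586522086220634257213254426921585315406718459950542917152452388261141012183429903859251356796357182198119977051124598217474543418857767346537026665311135654818958326928928231361728695366196941185961219190173684193597390113771662646001478061905524186816448716622937553088835310349963076458857456187685367946150011162879981842516741369721344578792321519191002059403862224953726448035107032381823479021401189336722670879479289841045294506162613163856020193368409333402178014095995065956774078174369879520418754364022747485001126668600424953841558407624047570180271091489562773447145071875870785138615139727571315557602021293904305619119626503693579402186225781592061592111261639879420678058499685308532950696059107925384379351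667417510057746047441683702167939909181273860857445734288015757569794034577476411541887369601857619350521888271534889156635436235870336205531066603315365864473600270385478334738852164232435118577413341339609159571691370877868992076055277700486526023543267208104046108011494682778299301027662431938807185693533460890955181616092221393482262149961090022276291963603747156388416878036586848449665562372328638134013673009671376909841712161035412515679066608962399741151353687487489211252934340020146592993711097106986541227098939166038644970415117211099170329470189226967726718508219782162281517489011313528010429671968378181838437464327326052569921600638494599709593762164122410768534436712050906926321919780859051102936411276593912827304768421189718071956950839355554618778050146186614795881197050272999667230430182205733204714190316095588052724328538805282432627470350062498096192505177102406738695975687922060180230974741544061216596768085080183923536758274109071788160397592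332967596041257587537359361744061626695065474165760670181696978169716950390921987992455240970332318453143814525681061319801318903438530107540318818839531479531003853810843540909894541634689656967280678789184015252401666362553729077088867890670933784521065856316207620175283133555103183991568425356650840122208737754406105743006557443260655426339339234821494842962065317032935049983400864280626351341853625771590554672757419636360458584619977699683238811362246022901620025189241156060949295730095238595910455457202361266553431160157037514535826877948855509935210866523030905948816365673122653358692445474327675585791081918550768889399253430656801581065612458172915681289656985764812116488225743076527565515471968346470624987000392650506591373627014422291624695727227221133984203388047308951865951134809710239638200127627766880127506231320184111262204894736384300736127812390442877802769445783874349374124342620566006888594383784412300893788753925846371838608579537295540780700358420755564325395324445401006546418297079920981876264824217471117806878080445558978115152418330628596258331893658645892299503316530441622881578377562255445657821194260935230648185837908927184461097180342591633109014474852901423077174699622400)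

noncomputable def rc39 : Nat := (nat_lit 31452583426767699592091703784242564142554998849000029432159473944943472884914787833300853088772355488341201415273769454045941455377275995447030564754437462457140265695699397304651058471718756016539901688829677675694532631652285614982349020999356188173968373981948081978125382375855181317236007080776510873155150806624086220545672587673319378178982355391253985425676544908786703710903222303878419891007516273397891937154252798556834288080629962466531321657775539372737854778562892639950254382161901234556178631337758864285341689457528327491180725255802490655150678194166617772458000369987952382683035106159937066419701122919512573379411611192635536466034550228548973548289081163386884953882747745685006977598445612911149147506829810177531043605916477954835310996981931513907953420220532030576322523299761020847372397808542811494629330310823735603069518774850801146166550881534462767382363784399165837621328677862812576336167569729138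231216644527298117097570053922011465063248886728941373779470544269061049207748593799417462384649856938246993304466457366051509482449140191050987099868116456093833183395127059778308152129390399467807151161171609584915971594078586847219004675116071302242888511953408321943562891582593290604678345705675888175653095358888396032235811140615492750734414942980944285456651001692724703633840312197111052179004810885234676622957093744643394045432212723434411231802068903129700961412888386684830142029603400643789200630239134366368894294080808475368546115515665312099643822339488926344669188689959929925517297329392978788890691117759288493698899783962375317674986265180104963285520990309753276932619811577420427060127295905977355731139782465037289401280802791200563691176591238287585120465826004401215478294461048656192859159923834351715168579242921380465960798209387685593790292176259417446191544075450999377688211071456471369915081369471805012712800270141410845459803475620924047463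604321022403677147049292268121374849655965691180379846047035374859800556374849959671073542957095333125796999875359949761054829716075731678846887986887293956743249887843986161480215444108878626184140761791598122562191991330096728155699035053014959776413572435879661437410716744819325187554520006907164651662464659094691167682919000056877497288360857539774845965056855054585893930834806275761342760167619275039285724429880103243082680580415462531829657373848473467796269888949044019859123144717331266458867834629889152011577578304991138775407436136953282238422735704023398719041161885691254071047437701291184735000770169532268981424370982787506288953761796194548128530455138018944420008893959138599649044086614712473176248198473919747729379790215960291623250634486064237085592495145169422067145209767124425407547407248773181285063060203556143682727813713955391811368500050709326552143816829679581598633578462329682229001359739437810466277793196352997114031277664272427175528246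014585061821822218963733977445762946704118590238021975749905294034430260930860944174382708767818778137713964080821730047227170463469406624771668927623854216317449989470568339368028986247708797268093140703207515922469730210453519287393052321913505842485413216859646379079113952135619012166418862707538951355023598640047240386136768040317757070486461469045275301321704397998279599080600487967593676910645355444266390276485815707916873271043783312999133951449383274821719830356938898301846029504390496812422153346949649863361176613343961385742271259777778504015312963471532849254111094630387415782181932126023992542625751838675896790756262279252150983431140806874214183773559167067940529243091563597419501399804845267729858843870567772284473298131630084029932789686315228202620288715543118762819574333815789901656350838707598105063859724805327690101977281866112208687394346661052913640079443317247854949670592741784759162780361451448245696163792145961352690148778124951417109629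840367363696316063913352650742760303920835413514405575091927032660926392090570794790712908415719728147829522774936845555964472742624962694158591094911501277686530698712906770855289822222194859056761782325913928484771591920392592658766047326983189800368489149070715015801450969880946522254406557707725895182417472176821692028012280303609482376905359307776317944173461979640800626624787581735663952165496817130817367744715116849910314235665539957995171339592594639298883272172717640818614483360220335442430457962375591629457132130677059058264852102285153939962299143686234160100799847836152634365580680357765072260319691093546104345610436008110175174998388416809711430149274873034118022751644895145395492311026071087399714461767091846621844735081885719532262588958766558855847289724421903863517781588820046968685453530917665509767062061691736937874222356508636561050248368794448744898141830753800658861487379401450419173131195163075069845739091419007143646526535114795395453065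364268218012718128678839583421455534435545655394156279852619897727700776691816597386385953328097371746912199333715970404168662137201619112139311658771979683181387482462735665929486676272896625369941050884505570075967486430014849664174362310093508354905839627972469111394001849740092565200083943851310334360143839158822558373422141527886975530884238916476340922027962426658498463215933408620251542344966532102011311532655124080613150734178738215719376363239004759785430722827908953151389262919793343553336469893682155673517354735738795951761326470210820731919080479577782168991685658589775071494335158342064270854128752091967676688596997052701880298840009750533172800465028320041021353566728851682281225982632769966375274449550177417343445378968320674502609246092069754884944089197835280733593533054866941149459552269706083753409407256016375505644005217679470246326282506453405798167331413283842794331000365438596049871911850146738541113521330220930528247818729085200806141721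069133935770456728719093779738095293400122249111699137778554376066493637993392768766571156595179929372470186122798669615396330953151745790493257033246787672636831329042318454751659443297116930717386246126230213778812657954371620567479272162967434573986803052616526032890754035207954873872697314241179181446219423297144792847929374716585080059933072750690007390281446370822558849930826899299191479582981664063140319749731931220995456371625954684643227270384059188830614311299599029292416660885654099867168617514391229679079403652445535655846015542040963495487559700757625836268414757512901834407977772273162132089894260902076298192655534783297254270782190639838600260060520627610277291360036461886879894745830409058168702532240356601523399050358917170246863500328211644314403526185335732821427190743904876480955892604558941082414526375759849880796435798907514417317465497452265633346818706968282311110509740227076255199845785470111655157632911073048523143344320711842774066758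070609306066461634479714054271072579380722357897055699007432485108480985078620319282008036861776465482125999571192993967462188467760427228955382986969284224297288698781517171209123778111564874136796526048287678637933052854522715483021264173859521591967665876176498731590535904228988586055907111107396475555485021436361496674283338296328634566395129393357863084307429876976581924900567420332947692491831827554636638544318312875884355519027897075512162479583161760363368003727807250901524444900206440980004724030961873137788111131054328970074073342929585548639734455291472446051112915679234384231821553337819509723993733345799092557079378942522642987321230697853799152249297759437858174366223201071289645579068208873850212068608913670087556374847014831530424092974927568678154316785746261435883324628225791966924948486176520200406844933652436717501702423637315714444509280382031052253237095663684360982563055175405718125447384877597996417596805493127096318690316296574621884531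202514804221599646922387373631304917225130749955675029666397266257335306862824892900012965687204810753313543579574456656537355163267948620726066771397255253565963634045494709975320259772801282463915685998148958027975842485778022332753641763081611256404750405107000958767509005832929303082971238706342373531011979316572751134992820956138468602721178728128083436073164679414724815747386132514343330580744458739446183946603638896448808899959308578127388681955506146298152388963322608911070190927965810973075673052073752165593039459528754244976928587003406847838806182436579709657374912816231208516658256097188012455290292252502664841198822845713492528383865249183875448868381598175093432352555684959473525679935775780906749203108017257633732753420131274111705805628353474164913283970314937654603667367341045266607541996779157301354234463112837680651329302061530522402100264482763666057827484588935661380860278573130671519733141761968888668852438070844209143622801677871472786423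093870227795898812934857243052171593284336117647251824097150617275249485207101150856975207562951631658135108468503332186252084258811357891744024559957414021306453803624968230915061960423429604321504044132030574550017660521796392563690127538241306410664201155030887716045812670705181355396860235859179884219184081355390282177316420576815461463714311862276080101424640354204668804310107229974099083540163159380997250654752777870770042913311248464564762435677118849000860547375217492703379713590205326736184395396832749856458432809403390924061600097509940900192155141156787780717243975981332792419551287870432761912987629374586428485810295073071319803450829148260044443481372689136793965765754977772797526979828372296021627443477697154101063614607275814825952281390477916747761950264274426398116313139397136085157152215873404046347318952746357802848646651225151752642160140607397199037232776788846400592005240838842759243621012955829349765462512407923024897104942424447625569390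301043606050448322797122765283317555264181789273726494773833776146306980152733757064366695743083184517355555486100510377145865004142322738876677717668528413963797523754491588555338345584856352398388843629154822233219885416375356580813596121917172437407384692566641746735170751809764021921686244980624336709344451351579316628969820790326230469933419914248251380651867446341295494885106583098610459911358026179953056814060418013565045608701019164058122164402773519120111950723814801862329510495639002149842146940217421875932197562245366938938815227063265119861796014031387414360932321387679119693347276774636385528258846305557879857455629558976283713032509671552633880550826336313415705936749018376621136994182873348875229582929202657176384408090633396395486360043668932628252057392123038945784154436589114461967580910973387209363116874323917877541909205555805253973525740436383540540143850041355693785418596275601644084215204673440541378081880781837000516603894884286520285911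423574645039568451253873043561673355532369142420551299455608335064942118683756985854819998854468735980192437801275442752469678317668382498119426170660819571074703876778124066100172260820614098303032537642794323929546062308946276679090069473508172641789048885029717333442062336520497325813832748816765012007027934192920944223979502364323726827771978329401059483431468291504743393819675252665037842045409579169056274553881906863661718635416071630203638250421853286416434068767382759515471737374393504217901529364494390082976377727269096566037676848218397390209417892031568652725830237356852103312602820744927308164877023957719072444657144306217089999549868759072585718840781519868988201436420332561057596547967611124902466300900693970037880463821498231792736300757083113787350253415835114940139883571094054095078021562620085917422469282075728116742180742044642706061122821286061010857743598867314013089909188904976599894799652554164106375443786349751037467037149915864485016423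469022579574869005961280546237108723925046378707158708537107937579487861374105119610019737925450220054355165823803915123858638425128106065836023557781386235890041127227220169885659385355204250543515897621215595120844240510928786548486193202095797495100956432493648968733318427310068205991958313825115169550123059321192023054523815564945064714252840291553339704977346642899570638668081211149481826778836250912409924743600349865913551497946553223309310404662584512381796021808845053893450005414597997825484145871809207878006987023155278344670985047910733755405003470821930686775275056525751624360643213631156486792462311169959367769939415731827069987116038662661592509711600196615974539733830539191471526482172997154010209561820021141907991234401630370009693838869939848507229051982351151182932145919978490140380933696649912068009030923773456008025703869361584980444797256916415676349553636651615584719470819812882769239372845881766754744166647466334396741513866104903693969112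276324635389862240698765848245381383313015345503099148984428371335977442586754509233878262978853636139243759276148291077605744469676765536493788422241672546337769940258603633679131452003887668429012600821342244026478186017472146009096403155124282795157732123571400583040280175872967525124468119139479953106694293335925668555725839563984291319959033511003623891947404005775194627929546742348032812017538711737400334574205301043886107884992561685252385776815728302987987108796921099709102780551197277493794824345288371922211371594233137480777058792244381611063991972474840276593138488816132325092250250679513659401448964219862300961263203545688124221301649990106544809461697923320700130990431906720184571948078533398946503035230289256515777637488339274002799228861299119844784579897489291281042219135929807756363272563988354571959668954854703945520552299796330691827394941418292477603946318942676147593249779909267581289691481119746176781653396960122491132419104961062400956402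172951417819857395291437114833994555670177707313435687144009474040161163637777901683289523258547701877833258769340295672872872110212453554271383406807376662682399132204754408171899251288334029335209946420823670201422733380655631052051774768088596129349783093326488104429516755644249784298721121772614569367480527551482658705079267109910687346693193741233428352600866514310145307508550897946914356388894859213775352589581298444015387351991529378504314942276085411982765665298682115546548102365032584955621182931157731070297351247028143417756430661170940152293951052457100288040549523862730218457217980513544560970586424351758640922045979488737810909480965498485664286604216098721748107776291650021480638438201787603321604103562623120968416210671827923639496081588395451343815345341045131052507353292468122133698301601284806604276636775787744428027563853990072280766406817982412976061998951136536536450954712043029801160620795711642426960122414143837150619999962481611346676848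846762044002942135259413738966381224555686021760347132585352725257331824243016223062227398086160078341601725095458878218237969405773555549920974539452137281184574218512560893649474480456333740609007340822453189405311349198515339827509834101907014080008408131842784728116625059814606049753310713000540333203345102932807288062936637828415917996770295442986927778870888218225891636681137876092262316351941008983945291398000206040438328129544527490702452587747506543893347825249215596544734082486266957947354002341873048813360312042744558516663414806566987654861260419327779291942676771052218144854791681591942084049188841699410873954089567017462288358792204839865212022924533241099684911998112340613595404065371952101344818511975750423934143459987477010516930125312981494841054363253267255635196542490529122403399355371644581183318888043146075663752627351036575674922276454464511550047983127617296491792721199725734140680881616312988940726815237299427328201883382600566744424424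025363494511585475388587261770864656406922004607752307879729079281800813844475412337732765257719769754502413418453937558368253797070491251512091969180743519117460414398750522965107993343085141264390568951672337423886543872200722020822750778389163443255996771958924821467956248709665396480155983814939995880225714088553759855995826871267597445824610776163657052155312389493110481043510532036625060421917366915610675685019621579964838819647010554134572343466072043405707225945955295995340469155579445072495167263345266058497174788839203591138948739761323846616808458279025348424416042100506469470815849517596595783769324023874157647169384608359963730480095937095502324460711060003705261444235545221393747939874166654691558281764694521876742254449518844008747347744791898101313387817842253930959581409364800823365187293498285960200659542667538680079834574763064437669987528311441323463642101071627965399256551115469025415732301640971318020036455894322547829332702071809393110149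668809096554296321507361393422218348093107015357670389969438716836848258996224270915402623811660873506228781832414759822737427107085929976302761967997731297847314009897207471706712710203971970433561955598695643159637619991547904340910007876930933868863065750056760684737535719196638280558882932020767428261846843689549461539568068747456326443871061910898079262685861783665440283781574324458017258674407979698631821098458115142591943480729736022859133776820799114030499368158475606773071382131477298085268453812254082701783185298291720554754160727855887955333525402273982803456852673215274160451605400120752921520159728141884088536720587910883497656240421342791351267448056738567648511976914708719582583039923736437830300767265175686879789078926983583989089290435542241416648698837076308248583847340420951259923099804385135480928128017098296674309731669317259649912752390510116431693770625272415151634603634111425577407708871603797888541285522451418203129835657904927331309695342286189288586213058380493731494820497639062447772469897324087972502722035159430172676737363191886348349572346281608365337968701013460310255221172921062887023935555414875394683192647808645947017787136767645824278411366135595971803572967833600)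

noncomputable def rc40 : Nat := (nat_lit 31507024116194524953716098000957584122190413146131770532507305803337650450423944955649443898868958588533972019351190639707002650041951819630605912102596868127216876536089493052874983721584708145904366170575516930829288919789876304576780189606314538883516097415357410159002703086975064750617384743976685697859820224403302364493267790918829191471180942211344935047515286309494534128382658097474333481508925048097716690398895570904338361226315308833307914058020753354811510894725121850434397018255905125982699154688745950753153919599429634430071331869681998706603806636313660045639696743291584063507555916248620276214174914308995152653419713666256680348270777126689394319476580565971517477355322305215423959495552477356131014276302322597503446341456619030489505981196651134249956774651512931160952775313281739971573256432425597832387367812856107687415278900543871688373597768708379255074838782021561173205777585609010525122032198215974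198541642873887052010643243882988143844251498076448859970922774998788855948032879350869651424031874299781055186720122988600736235607995724699003672930505742000452497214773272409565621146563252787712172030986869698621448255632425723199070113109574584240780674520794478398795676832957206405495891961478399228472779590464806386150162318727372392204430131865204193142266228137865353826363046792046756864277923241841569218302058887130449887938097679540443316057565495608487428710181035892273993362117756195167883232912414184618422592637062353675112940816862321229714246965415673015719377392670620518478183541980593579151211165803751756001525958793739916110086250768096706302536962916263541964116664675515685395309305938746268898447477845424362858079853767159318325555056026184919369231841614098583351591886895259269663337580443732745868454336781704451364473919034395085857921642482895443838673788110535505035534519281710173068075632715776927900762501532615841421723382593300167511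384094587099028719228931562793317699209483410448739070224444455927225464045512072693595602057149844170992704852250699934952172969179572287623883842737717886364781592830733824709051286825594710790208197975163555495265015059027887761257799688207294354301398608452843764622359266111537108470028371621778974314293178659084336919149467450358826664912632769029118489863711472595036603252229815987135734243339829373999256765456286659644936640651851428700867938426259671588930605895402072732245928387371138475100669022390303305050304476761399277014233876154146682182785514381597314328125324443098177519720182959275648686922514741315531051430983302992245122650804483831331848267921417774541610946597145827916335406740450080912535717478931448180205950477497142898984723127676906332139435929928515648266371162975197274675611684258717236537670257108917171522914939932504550416122629134919639238580863859705852030292070491856478004303021258978236940724780010027176387564130859329780437712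905805059341902261145861138348823797440816946972737382339346018166573870372559821196361492191882850123522887253245066743393882499233192143079348348293079067873913784800389970363139534278131429707212766894254883920245128216275085077119162589380805008173395311322031644179128338250862142784336223081209215887603292812668290306333360694319483408814134646449161993737682131070742925703869547121084516167266997422946086836882388238115417349357945744955949639518489568557848203525381667794158089936108456842290327722756531085436557095797865992175063083009648795644635924906619974613055498320752521341853341712509732754574874316445333759321642812064190591587106603637375305414045121203080458069702547752337870380062419849017236565023955721104387599133519178754374111514156438507740966649956120665157732822264747578471601403943557197350279366632633544947111207890755365287189562400174746812959088188333313036792490585646812755407868715329087908191436680606279922431667293394532564838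260646465874633600649989471652875968497805366751674716157114139596394345069324733592590710918662852752198888641468231503123804130593508117642673678850283693987646342124338871240373892568345397765168677956559633387503500608246553304764729578786389258391430187132213948634161938151221753690299097849195196784015868790533207641518325622427175234746721199901266683299489441148375216631787524933104414311678081842832735222793495106750686641200758635245456759374013700766464056891750083929564063564209759026907405261115755950230848772333871112364045047874315330206581902648749073209965165628086837397012544644060894495542096561582165830819562190272633708324130363148190711523159119130295185916647154471885775421935636845428993007262808229553058449601994468350748314399980568411733634215027139799431940513109411271170642391124372371228750165522142233162183935033662282346818568808435131595590975628405450178789157492893590151473967430261991108362043779564978786259436718168583278892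380894274412557113407885391733293231377925340702217328341294742556985934474351998093800421133579312707865767787034099398621735350111488737920674163608455877425251995134279080090932782491854441537358938505660295416822762011014287024002116035622546944767570952070347688717340610972549743676662669253488283974499049078475777883040216448251886723166122341501066824738995177420614335834377473173360092343428013842006802429909138298384876976587240266943603361786136969038994466574683853890110677432711887454859623269191323772098963535072103981930414238410523868064254244264574248810919928659284516112527287057039561164197067307779710606412881688729546914531806942309379691917007315648178513647207030396456474636168268620375390360298737980622595921991404856360199638353943554436946431296978902348045923121091967185911991943496027277677536447870586286686306994329006428302115194727253994336896194958319559989854015877703692192060414007466044090663749039385640473116013751484520520058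209369999078519579807224515286525678257611099593659523275498083696209949700987777750740911717372926436458750236120107358830968275155134398224352496828187570275843582204557578220517989834425037624165791908677115807603457901490727837862341639554355597067845158938364510099490904198084625336101086004319207152434103043497114580729020159954404430457170477034447784285959081257510909846525035016209248189721255096957052844414840912725483231563296105573731369177278817986144248500113769680054782678199342568613885101137861821743394496934378244774759200195286826260192884773645533260655158379505658952807812570430545378462056754316867275978325960283445007986420474116904511837853993469150727528948367727138238315031865018698087017068219864657792315237550741018803741977332224531719347855962509205905031793728850694288639614329729780461954303959010092445711103108879190798976665737339738956268520375081322181308261852799084626788495352894767087426582888821301349038062575776589947292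424840875404262206031933434768522927903990719938156738115513999086800344301742445453165383757713386419286969748568152046735847405346037823890921838490499167180425551057335842527525522839474416020782656230141960270164637456679710988798998064002458384909350609367601802504033159609016538724773952541819192232529662326726138816102646848669668557598309129059926138335914665791817323256703814693726617322814615589391772424544119370919254905251385672376514426010041105678946770444804294177260110067099525025161740217214989002981431513501896059073978902086062128842350925456660862018459232169288696778772896420756612750641442109315404506385280671587218911939257616242729624605822018570303233335736333855551285498922547188987453512254433736490140367708948704896378097172406130205158488117091130556260304093115481701586179967602985603917213992759539525412444661836116092983413222131746367326800988822592882029207674870283928319686087671643706977469517452206497221559070136542970390190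652309418400832434078941910869399341347289162541991428661524208536327430183286996980941415480034491220785544801655292752634806801941627667304430860428780350354173157201475819557833674718799685412081753485992669333812761549349351625358805846335693944978230497804921788419396508346496083420330247871023220156257080780584650479819848122414988707249116032659431349380550079638198348089639339449519223480773966439814441179924261499363128257503209454482825112461781101471304383522701522486645542505092941165931513334667552979683676410559451372773794008166955308963080506796158075849529783992198700131062834294748618596065154467335069129967983287009569552499383836229569016727048441794878822461676546851269977497347453070060676473524518262525781342962788681327709620290976757045710020218406444517594794639917393688224845441626751281353519396953365561989117649857672395046346381165899208434708771668599936075521438802501190108989782312989703963313073724773612541846171846229940337662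685788356905171442566741965836854649010252628496047825418794237072855498899617795294260588876103772602281386072641168670781578136189556385250751599942881300339144344573135959647396753055639576390526026021557653015858772523433917141142707853719425726928701442220972028848393758920144681982048502168996183676217940750737412633304982484175091302712722211583255781102268423002036607278799543850036292558916615659322407225889454398956752125904431191700135285406651320945213631333713187241563399163110915380912781413899300436993638996366649836176346562200699741459061351732677063470226278748061725369333206479305323070454584991697774486595476017629568784855870158348742160763187821654907794719029340267911150872215933332915187324494017598179585839761697353394518305089101852835684726394277347788622755421645914477789307466719681858202354867801683907588074962681433473250842912724424849087554942363417903792445611477869350708499273048592150131131512724358318315018902427375811638728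602409703966630586103334865198984739513786149584670059114577805658190430196111133011024545874937602145507010111706590189645165087929223841663415117028557240548492272071137154650823129517286491351092982386266891780522369643396854980885833287961618447928696742810008217158592700431803129323594341511665154984792892837614086065531479301208174301248120724427716350044373968984622548464566385185606287913325246839090264449311774229184157619397888914435045179150057037622784632870812001954973168871692540259093436791360290043018751959337135265529409523599203316664789833845088948145518422232814319938903406492196492324984977065135159788334433027025127395034282870171155945486403977933445795851417693158760810912990522784277378013028256599149782120563301626586212687743806651590287186922323457777259628046529838036532199836885294757435597241667954046891327470090174971358314926120026070301975472266617091458422411541424317041313466068582405662023860569155348406562408081723132097905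225788189362823688003498656666986125208750180000488851034045397891575070219564964806155702596652788309429136711624260024087917409893949249967793082913814423303788172014672829850617247712491771831643048363517399291148914838482049515314419661797481225954971629141016875479466605543388514246005058119880680351810460379644415765368344786081627910653097856314549994222516873783762212948115886457954273571962351633871873016913423278820887983663731091242583895530856200859477284215104021082493997651802735084125516911846180013594793331241210886210520410548178998782482821765427373896626086870293340482442296203847551605125577547362776938327830701914812265327685861826305854577097107112471127929342068619515564147631464394783713838873865035189408750062423284197062929699279103902641305216699572285644306961971292835746666987628603340929703963554128092626987154001132837116749481570470786373536371673539757322288274084687744216316949111863837287406669609731690208031489028183694189432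428498225984330882605652037996956907698614569997423204022094281522539673831102532326051608296951639760404227913603589743557604314515907745236861744578315207024816403696693119382273139869671040726141252539260520088581494493747940870655874377305596117728321361879510718797115089058350335541828519869253925406360545170231485119118825098503161768418087624479969615848636588646807603366545571929700440769901494057108070236806297393355149639911228402982870720391421721174739417743542738226935091961618781452467826056301734009831954247235296921039728017588741940802430472302069138866138094252759597040042178748001681718586783580829483638352157020932923192319466812608622887569610506740957260068737361808300394689055120832753717164651602509743713084440856533684032117347555545297710265126007159308901060853579054415208265355800564881668236029079908917055034480384589488090224329098888893302664916854277516947223884739264290506556171376270356397734559598371419089705725270363026092704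415448216883623343038327451616982889539200609234603703418482729604868940958604330020310476401078106105906718386569648998328909751851799634967958424422434769651716346529561685065892600133347563226624989921681901893943075387124771817985371773215046470107245862612101081372124758338522121867068743284934115958842004651743198571877432456684696536774025755277533917850999756002680572664134580785994288327778002805506492104410403179358842720891327908414868907868171533056808086380367338873819169995414179631197924785601038311325677966617720595019576412108860183842098368281661007613513962448719230825620349424954521554550393495787299447095269487169059810628434419296380686416634158719211168397702397057068715461549460412527348226479972389251909004393685422342575471803492457686014432206288470652176585084038950474202327470710286495080898863586377709073547371378680450581266316604211629952427877725220880927549182367612974198830377439696553049561536793830300875239254491915700300902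210323883012767647347356650615373889663587455158359355277056366665020187030489390515392921867891737061494728085362934279682500450947020875017853877025406742383530404444095725625166572325700899400540662814695976072624581338762610122101505348012554070812657887219811283758350126599511059112615806628982801437587448291646412855401807168377787774022552867492145320337748069429865912524173914741746180770516281303749322054635159200857580830067163629094738667614398368027747714816764822254858364776004892746031441626569756458387664900615995904973541558822747258391263992723092626538012193775250570058002521540621325987007852950916657670729924897423402372777978254076495795262041117802737456708984293107081397983067855523942343274698951298677098128520472049760836550936849836176383218084518298463700830966758748917840233644442685178865443400446311467966413812554395598255283849425736888355499666781182853893981586435606921048952345011354486404839467559400299398214266797917031793170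805433865900198441284310891932096815010085196800653382986991239538747717741553877925440766946850588049158947553510398906034938451333112705847658515417167699037412510006694157918031016503869416824994704595380992081775612959994772586642610529104820104898401307552893366409294527173910977223612364446082284070531157969724256414670052141311359222016860761604713366538211719284363144240191274625920041907031495570150453959524615973654215593789879784373088723385718517854499748693104831290246343889603162083700209981853994260525621244578791751523746565310696254558854504126160647493266764915883186423710321888146372685058637475741635714334266767302961582001135226395255669661594923238208084730468038777715356078048199625630853899528391886424542194559110800080631987599320863523833088687417191727643488350827087011950687203759469322160276025090454016989632923664735349436253219955321346177260783977630718136402581257031721189804344525883777940456111484228633207520686481878281318066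481940976098463947285191908544489623813796080914790136874414914702033147147273050490809620097927620562091759776804316810965800817292268905998204026072361128917160629589272266976914803414887442608880721022962564855723880796067623587806650913792593940625568569145088664678333825122784449031590480043895421049474391516903081638183265021716031188945883022270000270518534805238326794766752474627729088646436806935234412974133161249205920231205856034591011961466391109202579205730203917854859477007679256167482286661650773457844216880565074790161614140937311136086448508135970530850811323626181497534578123062064689437874169343263146589501043294195588525340212933001722427190270007792617538739112396820444897944970072026088834427437407979067569269925049335970193390082703885807637817747192813545602153184719798581154426955084878165711064669630422761478029188814265970131336805581206247331311523061096457884802248594854992698313607079215209234861207526119033460670307254023279413673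214319606796123208932567050163375422182363389916954875100822461039256861015873757719339240695212417026726114624162220965603029937902832331328598188585917798257141708689035757012943203760304276945456204079557700753225239758971696051726247775290776863914342032767239048626152706396605923053804681041488026413922530724129643873833544718051459146229658993626212586415079039966303294584950742194880844822425380109023246879886579873330364521239280757509912252186876674047634962497755579183797093538646843350262619379304009171160477008510716885576776332121911632612684534000022703817136135975170476459218900924443404285477828290225597059073830817275856323426873531135635679946534974570823709192655987668736071532468371721085624936037715704925476947840181067832542004593901331754227913889607280623403901540448918111435129201150850308483848780402335197833839817234123169762057931965905689583357755313336445517000939207514379367084053651444214220624576686276282874562679318014080470365255362363942950324341179935378127049569809962728047801101065612963719009803493768435624392479007748594447891926307489751234715285815088217085251403443065901959167384305262161460322575415835721258648387680534826641850320348826412821439445991424)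

noncomputable def rc41 : Nat := (nat_lit 31560906802124955220922822104527439215900921079990009371079881334832169008586198317043337686625452615096302019954874417541962676522449976034529626964085725625199553793552215553356080331659588950734607212606780144971294313921917632459455321522259628903316770213811669565095578834679369894082647426898138166980336088183004062472076238358880060307001422300638110326085362200087627219252163283300316839752254787347671659647767992836667121737419080349348715400602039317626514055818905084478396865357264793705908015626635211056027020344767916199242007043854256295155016656386171415721157063420195158720864764706415051861224405126080136910909492957314786962307652931407576379937450356225954737735655721434927425049430910514676142868844141380167168023692439116849084080250956707938706957182802428860114885430604642302620936683555693251110590082437877237674287486286299736411967431897200871853658702436852896578356369992856572017506240837703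068000271517840355061251599637146935924114036074079432270541430627815063396456689309684803655692714884621918140281905224780109109025600587531410169021698715433168472848369528361487182064397476779184471876435595734444791333376821179619793796703649908354180232411911343687985982737291499505238282944349076001965751801929456168748284413160461020702986930973035761434238841110217156896071963813949130375137284976992188447200313126510007899671853355784099074711380991756342118672683175247703647221364600576975537711930166823227696076847239405647659724249992800543464112786850855774709482552739793414022073237610302539097659765238948996587578309318687563064386437775056981677572599256164209070553042376358193461850190867044129884446106681378722717163261533538470888458435764513591700988716856410204519070044729438453092262373697729539296046020525329168808878615436677790091707409716722080909052685031667384198137223386085086417537565327255860491863029591116484874827422086113750088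630077201839357773227935824779187049318388975953213501319716322557282977554677358781256459422432473405153807422815376610991159618871361300500394472616587365197402083929102741482159519283110096115749342932631538677105678027920329679198418062981066776858266407353686612223229813658085776365387941932331191889492824442501163081318275262617045457646698857809569604729436997368341684604917453995487302903786531330815766413750026461110447104746731879879236758762444262055611868703758009592074958517359599693042471827287121379426929638557183548509761167217726577607086676521296500374746354208343204171018973480543972307205324369442873130861390004957538898382022441218719243478092265058265623755002119678622007859991716327043503831629953873813849339564817265409315277516829745839826286476443227993280249436011376353197303992774314852736743695909999975385172350505031237400205237456539292604638871752413761294316399942858665541757480701243210794772742216954371594421914792864880228149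676739568496110433112220179674122030114465809484572085984845200790082545825098513837939741438006656108802190744736716954913714068107443382883962318127833498849420870726288211213973528714921172191242901425254267271781682580005640352016828435246535962708322111965921444421397001249420850894310216239824349123739916504644189366193874929276975675145193652457016599357319571002498710200631677849563979323518511093519487072752482156988310405202108968702631235807082610716891760002643165810468846597781733004943509075400358577967102724947027266555671895722123824166488788037169864941669646266791435959832753216445069934598961331923540621111756743755513181551917170711175185680063480145954406764457147294688826175792544764196417795183168349230261650403924235524673433840505328147241288881154804330296295848024780617081427250123871012277057212615568641683831710331905204170239466886053755303225732255161701386514315811256401491499652809158412479392400555200097181858719769488448583104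699045590682965727021135915515881704041605248888860542005132185841706855243753117951997398950772810297841536201246882973483837519156647316891554906610888464509165788363730536436138325012518508440785314986905848722105191652856462178814164669777482269304199044839730450906696375475378518961538383931903606893233211597893266236101961631691630357795866428705375504309090370218706607947674448050273172156132913122268242987281595863570747238392601785320875772959192017737426030730683771117110899358509729176121731906363445896676625408474032124039071295992521992739991401954162310466417552350563227967628983641705813277402535332526752045884471515834454841490782949187092247154534843104822770219125063008704797681152980756022214201806594429570914337127847793476924072729644298330217035824531602518167530869677321876768564580760933932567545437708094755002315249056481473072489337095297007278921867299071153401605371211384508904471212816806545702308827851248222414035930842752296751393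555338714033363386939647643736609938224091706008591362892793110368681057199397175168227701653101219025265193421638078279390537805212466795088270653781791911265883527554041794128833351180339160739537882271592621474745378775969305796620714185265390449583930960125362888857202831408231057900073284658746650934927230058387864601323809542278880856985429699962110176972664377659824670179858519209369834765483242290495214146421300709537282825298784199635780912262139952580758056783293290233984628232175065402975496812254520452668337744622093950618718103752037004743812708456683539758701731240098747400021385894655801256977988652126590554320264250294903010606208941639979219855314829316200439960214629524998475838626566242234049908819623886081034118149026994092778798706386409476185466926057673202870474869593986705296507121240036713452690831637056563281912469292746691177896709391717991638233890448954528842281435744042268753877096037840676457393074579301748385420932514734123808244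117788631708271028275316776719274973367213900640829250050059504521322306832136202985989955661066921528505777063225842800240871302882099460340168998464488006644458407292965272773286651020291130818973224939527294828886382043197012080011001923088288845735390408617677918319399498539472134917001079537054695548193625219409819271603308785789864559674903598233710266924059104938697451604266295751695272618310793373085405291064795828351924249796911080049553434423721473745519354156875467821092734848003468292948724072536252753331235216377587612381437582510468373261582701707314271596863462288134059905163490623855210914531462022377255055822479183361924041232936840787056673960896871299450413314827760573378483519837136160527386048035492072966317688415727987445550732194290520792887705006311774720974638744555054832505216921097525937045744357067668881639245629975012829630839626504761240355691358988706764775514819483291776809551511719465875354609688800279882879865969474156964049142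719995130639100098850137624667648015455657571282538042226551921754857514600929114734741851972129213040194277995121530107378017871027863593075972056612590804518846121213354504477096539687978353662888318922012888988641077566005757971714206095432162786773920118588359596314267367968791994760233330024354034853562540696979644794390308875856149985476572595144354287950456992759205555304674294629581920870645275159744036245308220909282277335979243706384137962451496052610265400274580361183307214325271790466498341666301792398391287464893110302315412829378752287373345370786243080622927298153816735994134459174523705116601821949977030275933692408103526272366217553044062659514606963523117839474705009441805384248610297084804037753084650549187698887926200002125594325489910353944548973286022895173069322688145366142730926703452286666704468923579765754948204070929137741568552795117506486229657957430802313928451714768634486013130995473724392871898920986564516023514215825699158849366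289001463689991372248590064472973105218874637457980435541014318229905915479555991637817558830633966778697290241722391344166099160126423307738031282295978861132067901434923586493883470751924750457974762082735706250992761437659404192309626920976670512367241548943921502053609726257913501886441321697911772656843128211821377363249730595261257774740200310487778801790263618189586315230373266697463896207321251255898497556592723910060073908987686481036759650868358778704388631459532692321181101552028434795941968270165059115563011922215909689564517640818002677158633873870176883933430938332990727463473645782535592553664535331601934532104604713031423660542586883440437749715744866436186100664360940209689201312045637213504229042367609153848602758629442069567460289547525132626596272792926505404943216935623681001631592525505089208235365400456534652078287616653250208808492734912034539502412547866594160779792369573480152979707727677042321603081500639536218123205537202803615067402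382177836784401179377776085276574898130351389986027282949294967246827869426067205383608350486759270263199782233772311385561860232318892551408857282361891686552676201040170541942549055890105846748041938751726455828896236536070727078465309783921185028292359418258216956072001228043970726061708717556288703433598859314145456486684564983628285381279524451767587263866727522804667086964336359757946695042891833941820027911355650563461864474642704501255788815854765526563133127634371770741793770573030010655035091509147680584028077703147473319344533448859361984323623030663110218083635936584608712791637684662706716745923494221496311056190078096807297079541127633583842417368425829704041392946886771308516947038913633368120644766100469172826773151332614238092362960623950914596166168410908672747361603280483509945660984883870388684754344021364352119695736630144145103155137108070641633283907428891028124062427612141055677764223603517602970410670887670457583240515896779276581236110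186869339893691621974948906569039824828960237740632890659981588306000685489327452084026360907939554356985717124711289860412880599288476025657459818118990395537231706308740173192213886218906989559832511300726170095076678409473468354009334247219283098580247225514783147299196661197857121061078118145231865746428780573178127393821398710671168961219206373818780659487652869028935111881285324259619048815755905254584205603922001812721857085242946178352730224516773711829855319603526800591203075573776330301070625097645391506646217509637847022369901669931139086461742798154413190162794883651436709607007586206729896008715793950068482552764304237930824234205749242955261377355478855112439675812340539524006212625017821647123193293316109364608647851940952273213215395931239438005709000318863424881721722869441433297522776615469696744145593597134259700774662421599673984466176167515235872925838498192723280291665265828162049502865349705447671179914858458152295894296417788926028559704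688279778873267712465102868093580381101913971620597424529794576284314456265188678561457977763007328540553157762061312990793152844274654683398576035499016187805958178158508671204700192677987187590956342391438868511697427107609803934337072030931062027312229079516015680752932029882020219610361218069387008576054264293339358263992665137117129711644782084876047772329752746631575588187950020985623507202432808181434853048960290764233423901545908413394624796380164749070555593653101210776256805940506877926561812721279028059546989884341199930940669171471250284557392383080202069787691351231334079305459934953492841823679303019187393446911156917191473702421005484614104519843967304159758023430720880810792348962267980828152872837022414152943654975042503336445910480682402705630720201904563069797700185538472788160962854120484258125711812379306034774059139760317114857049319667117078118254669112478066248467423654225404860833714249759496917357436542306501319081052250995710918480030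274785920334450363972461033152942791139519769785670743422401778309074596774319429358878290004697070130774467017698886775177793699481052504987013201188993274795804945566122546024826599130619984554005079203038474649635648687223903300239577616139477455062842167464306799396659488473612681399849948746462769032251347608952346934098188710047438610720815418244190773701372895824500841133876795645102850543793558887162705340377135350714651438112748240416937386963657543923532497518762540543309863283866791702441256480678328929382869721364639959006283190581098255696461355280173865728051799764859328856834441323851441632472610455259782798902253929586557528555857215460366459677399631073516096688298135944859144600375912039164841538701834826071907901793161779852947195251494229497570158186103784493132672993338694034864526928377355031838559914571248763683641229537423771838389030339003842428201050941800033044505715124514119719732132116126187569544955421590751734659528670344149785052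883159328626498519175625149600665164251099573268220517896336652365339836615839643957298162593729482058899468897224905257080793143826736143040673982380024439286644777327659238714733575227543777229296933538343418507434483494757529716912428828749925790510242695850316952679515411001306369550721384721043745097831263698720665626761852900109681899769747860209131733559812303234401570240055712339649073114135520437899190754287977318013632991641434578635068760856704828487468771450586278523762058089217440735943135925036167491108043698470036178304071747909846477764183719487893297520431544580202750013684052509879824467845705050028654641043582758189626381004157920918114614776997144916390842079520065332351566325527817519314352533698894270441425908510502180202022249141534974752216981125290569368579749894826192067767187911888418370805745443293282862758367019621272914929554245971315792175850249591173371378147346128246226723610302048722086033944006584022190001231608052571358622123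803589410869058664678667817126650854399206159353236948758077423741985955552906018908959102701734265448426543989576045729288412808614598276726814238669538361967549494268399527143553098227169752152723984115205079262123236946604997973836969103883548219242667620439434857234555437321410169829736100478836324583469197310233987240955975327118581422971811789509544439507430596384311821449077199170233961299287374423477656488541164206209552139699380235251366814663906391941180283458127029613598993921026622102934542085527752706033953216397781624448502447881016916456819134524793798020117914129262383428219247661621466603455059075735492854261363794708306454348946193912078415009036639020931065980876369914513923725412548516177933981048414015361897581363658420310966963951737065699801598744329703780812932347575845778144851483610532843601575251542465524884999200948626591646496037790483735640298194419771193150689943875847748722257510941913484044920399582522539088265884676114800245102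821348101001211674266392813293286390726261999585852098933743824033261744563468405884910854276216916629722869987616739974192295519224620514404223855182301102991070100546324658772693813586151163633633425923288772987400466359336426494063814438805368098455450880356633498184776291618064022832169964900151857875945537044217507104993178336230474673911846561351190145506616115205429174920386525682097340794352746272632505280012875897939173820627256724504385259680630726724214317334609879923753874136753979497678217238299951063116229303986942439110768423334269356835848936127566637472081975325451081116094900383465831473962632696801730369217241084780854557951279120409743258802657727396649960176359965332788250352749558847001016507555749020837829217282376238394521123846937317636871922550250504268898583041497174055897305798879002589283663769374736815406329407558270391648806984492966692154786468529749080484711190843612815268410838311753307512986446693006728583519461842633711086095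432445445074239845872662499556954288839530777663079955012120375683918285547542183143547401451637182756325713945152052911115591499288590087563383960047910359497299810055955469952508655170162679363742549639165571617216143509693762350551440200259551779421492810722077325465791385495392958520341520559674168338707795340313452554299162340528528713647766893848846677027109925255329609779706088684718706012097271795406846987864399211452198723598647039448668642695521785970141784447019736695862759290783178875052496287186531068526966230774774635177887027816699287129888623721024466905241922607003397894945200629186188295271496184781040818156376761058483397138171112035710806194261206196366014575418074248803656139168914711430950827528763246597458885520100067891500515127354940785758738067576267994022418511948654450084053095667046121590245808606689998161130001213750103540584192452004605037780923031641560243261097691952496743523664905493520039064365105664357191044651455081527399967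993210133776031124003273358095485649302138166792415714762261536770236196581800095315904742485087915903706385971801915591325380651952813051109586414165204995932487163409895791604851954463353133507654373560698650414439485276672396264980414025708801976153828967927608984572993520654645486653868787272384564909563166099703782519683718674844937148686398626686094019985507613867872946758469499919570335885226305477468811288176986900258449591157052895951967811873182738254082134202838476385595872239230209850430916291539558853708239429720864833879658136977534217779449646148154829161941141906536371244036357774172773657141131353278452121523406084598028173531031600185176119744030945376594508679992791735499736228737267951403711430393636247122415201162059957605212364508732306515451765511058035245888806257439518548086369268253260729512275743858566322659024588775940902059071176581177960587306594371731048568760478900067564931234769843305916959967965229167657878687014689310080974024875465842788591473374785794564022868724334668552869133703326308318689335918641101084544066742461651256731112519554205648069900064287421409466333128781941025501195969987540212803622908797420478867697116581420579589724277489157705403957719859200)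

noncomputable def rc42 : Nat := (nat_lit 31614234140190408875184552074946557729082896846475129535193258188654724144693330643756399875269962192722937759348105130097444157670943857002400967498883013876411970231207390265746685665751387033973667740413758684097506432036530925731797237846564947605776048150524634765605352430639688619703395966356100321564463785073036305654067516941183989174266673207074628195285226708172015437241918321345568256658127448901561644306776563217923864631595567356836312795484517302620103110389133093513958830262809021445964282527700618231374468659704283641190157236931213359639429532292078352901715190165994814876593413231452998307744368487898283500846303347137738943104662407932679037712313502778761343518985330538141605025502215882072636555743422385345917791549901292311776363854810511841454943522792307166734443956256826013421603123379039187022061749342741866493763841582004096657803297680462127268973045855813753545021644574153529846785492654239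226801052204773148094503963710191556013314113864318817982171143329181928411958789313919551732807223783624835200196363870368163327916457041317499615260325551322128030736969899123544236410510564526661991081027137073481184777630228070122960339756684339550691656664255712198426425529881508887293532086789849715630220306774394246830384948665545524109021247306893161682805948350029278416764178428749612732435205148328799790343335860440276109695972554396284699808276362581174379787042742159490192361110820577760992351270610905274101900538838401646800171264039057667679162501971631105901149732172450883043727804915528503750510512456578479168366686006651072676745518496413499288080518282961007179025500399391486717968032601516510316557079032879351913382311272317030813717808410254368075982690893928034874214479906308082898337756244833341190840170171060967665361086300332025689166537333843590981723188470743732122432611818610269338161271536889261745183811041744481395749319730412744213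314799543156290751015503249630321519403588798220395561868010775129174604469992555472919584600469251753647334121910260599280099909589804790157311531272514704711890014474076871061382033600793154160874110795932537109252245948300675814052543707073982272072415520017640737289666866982178023328060490603585415080183051516223691012712660173191623654822870502315692783758953562351112480811775455471302229017045127327032684100057844425514993701655093508488615065371761427866318613679080150826458261852899985446655090419566920925250011668163960849492337771481312186065060198486690764632772300716194919928870569184754083815519387749145859169051629920223309375538563192455426151705725537362484923166075811752652142485167288614579716212106830714810955934696657500825861442532294616681724660513610571803519943378771370639564580921779591158380612195226149414955059364714451102078418504579573665608865987329245895869254377238439499193798038809115149815792028991716464703152572351276534955100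085915796299512744818300486885387670607709407750770912362649081579592874087416826597201211550019791634257674601871976809980649455032224459097871259127062097776865154259112343315799728417185135651008622249049561431644712475250937115448221399220635365627324623775327441815967498490328521082603585652880914247052993355014348325469895436288907751873391065113200497795575390081543049327813311605772658401144767357345240236806384233133374819492033269359362517274098572157189808538872280783434659139474706808974661287270817029219297287377215454527224184879303771248677724240977078278651653727049162081870431343348260592204939382687536559378878862257477718180258965882043479530257229273466084212425627239357597606547950525924804777539787447872967418790350072363028474363571093066248050904128924397124719548363280234752002100389530941742646319329041658600253669199494712204033049702250722407094486474553617538414713768595573431187045727518292311438957545616979729551131042908326548319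033727406378973294826512344972528637142900541526590387100761161258605176658598432209629966225595043469293625357974542719026677480392350087027708922324915109514965203067656591526169035947403615765087187881983863138632754870608727694537324501040319258169391648998103908915531550312413623629747542095857815106852635530523129262639413867997945279878505648956517417806205210096624027562016203140188100739898737679556481141293566768179728840716780681220592363606885060650225883263205765422902841455220289694890218678450220728391317076410902631873857535887372309628447274292300872695199532335086082243538148682640386291401749175091823692381404526147890732880751140805372299678760567997394485097480863446444070800956703646003283946117424770082689110881226756374121229317796751843573338349732292790760655908001033718899802635306445641265775515843213641568121271205843363027691039073249063258167413516498036720968438787404228567170989526341601557021890883064037503066164767468251020113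379978554494559060393001272171471225623212130827365971030769900164651241258379998416440264591065287970238274318003005973427053818180031326470335999584091007427423437712984867348239762980952463461370679376866202601442832794241802845362116556767818117536206764182276271055271079544098423181244373929043208551715847846349964429670917152461738227375254209552600827905391876453491388154198930808548941687793353962783996517269210513209519345303270368964427883106927414176697603824443206362210314773194451690920083478878771083034664223271884670574802475423269513614027692428487438749792170086067552055781615399813997480598028000918916109893139650643444838697377847316890057622782626607834202581073147266532274285640472649171515016570584296722072492937807002328676345880646739529485849835091913967506838005404590963804175912922545881377701664647771056876920219185005559968933198255535862320393090945491743190682312980054786178668226722305814867813170815227015004290972486004675775927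742269467829787228816710598351361386982663890765739363626895616589249647062972780276395728277812166796508876037304584528853511531755085045260155463720542372181147189158432112042964153281248870395004791856090872877332012666647453148964442003346087726924654609325770887221323089135695566503712710382759773318671945656739967266757010515740530021427066306110526860586618058424543153718863716264166095483059856929275569330581856277605129520053836409409463291344024883625462767667496077668073239459806592224350153960988260488114035234039968777120641565813221795172157628725815160551203768340255666187205610989401126428840613333843860582315370533380205809936641654427854947671306482686101622706774435693171089453769749622016725908504984386779927645130895932784447177184956989532123190630540568796818899346798549632842058674055760607047869086483327450723073182375252363146881075571101009155254850170142627047182540955042255314742054618798113839487409948403453849012290452571154916503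932804058885262996183828813993670295157386317890971170632626393776925848313972658003842012001366281519646545705208261938199809066704860160995778691873274847346305161298444644590944980500508006723699734060746949593197683762503330595143719109593531277994012257734017072955587249734348307199552729254448274174620271552311587216354779175613382867376767554833039184540159662388320205791260548645646375992530079613536735388679868488259973173712913410772940488521940723060439364135009864943822020569237166641148080807157031407521173626544034173518664666416664809979941029992714583626047854450893986929240346707955198625503266867217304983371257643400134249665630563845472291436934437428040534505631438554723426802825950604750768259418605287377324832106685102095592997633013608629235930522144018138907924621112598556691303193475116711350405231181227434298323736281070549410242594082559005837027302379764514738268651329509173184669271383569341225880667580061271876439690933249239449158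594463276531516830409273571081311379055205439925134947304258660184611024256084828680105279547522210395850774775793694939396628316615649661290531621215246699521130335231456824759576975686427181201439718965028768289212712989534528660989096137317722673712026067212411193149918849984814069675220694306733445885012785855263107006612648420580390199091301686132288801898265101358601629586022980112863236900299271572101184516562858041313657106834584265510754586530558851405162652612105619541443393227821549635001496017735554545157541435889394934127149578075012405878928059768873118458892059735587468835593690871671625653703403289030359429539618063774011516429690978956958404009102789222589301294919177018225766816217046283065819823993396517617579301216532245619126597892671231112556627487720769875310613116222508367825547800314513943877861069212109782171812770756646148764480339793795308861513437166318999627611902800678788736155877286584506238274103484423546816363452001137687149146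494415422444706401846110676042302227869419885471840687567515679407340783939849121168724402309478795490885929517390426497944528842189105977638677667257517166772898907668219709783181544169974385676696755081493438156215157176097549658042640926886150201617859902253559162922718635638311570015520028386997952927169006004668355577933127660080673881268058723732751607292014662109672459319950400678095805049111704040086694586819014531426712186642451227639266908444245532256936100819519568814964899309036729545855765850194140251176325329363169363621792612553072857502214257186651763577033099346665179685364557293362644375454162341383594630906466133626343059828391817877664839203352646480950753401130370697822165331956104924692741444969939121581117508088399223821610406395771611935292707260590963245488564003684793327801903693882232625612182789953080684736022092968372850661307062014434220215826086584045430940786242838003607113202731655436897473547939632768378160550570023984631542771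237155374024265856254705190459652954962872666598414212132488440919598657730183689335944997218145064550492842197824778392087917546794852611704123102325914071885464582849733746130397744718705845543785258947474016447130179591251620122665639266855165347835589103054756445795146201172920768462865142994859745832008086207061768359345605587453364601576263196469515083846426467610662557367250794223199689172008655779947618900675734874319267314087158661361915878320492435881322775168965484173163764796208419619042633684037147093412983702491884069891600449305700225982496063356044124430573595445240994239664618630671388316538518036424958578545626405253754254109083678389735885530951205724434039355196771933914797573023194209281160297488558883896745822900456291357620389767379940816228562559102942806338340262684199500655984600629418225059874191585516283249416923588133164321545235893376063571019929252232398596141055403505186606628810137598390802971805131828205355976977388891108897006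664952902843371181657293324935723921024103468697851233520718425193864097076205189579600544014610012943437789838382140605233235582183826660392053983766774501774512689994108743288667473412962551248765704976909822897121280149666865149549492444687945291565003949520113433841093036846529164917821348131706912673286970485957574304765034316141513819454976537577083323269860208575805722588894495373771780212582516893403761400538295766834653325597663893537040928736031834924322606817271686626661957031588458399929597341638878472936394334097831813085259791924228995247276776156521051200124415933201767366521215538232345958886200931746192281795170996785571117544305852415600191744105801911885741476516948370067610340111260292899293242242853059164100720643269037377537914212424050630331353906627983684971067756706522318466989198594548725587165277216702036984393105135912636161487638956820578539214529159361623946639742141641505072116810128391612452801344581959065851760941199137770539959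305831479625234266254440646568331566418327322804285184247340823449622999376338457647218237488742047451388553525438769142061783413054224719876431492247844752201211716235075846446899889402680917313515828787905890380013719197425430894919586725348667408287987849446375583427713110696927570942278497262287644032567181771365528535947124103806465232912118806373647980641428809791557475613406244442416536559004031923324880263726026144889976642677682704709895180075271960811736814007968911515945869384195027724553870297927577561748038115102413465325671362082608440302506147697119282048962077367862615942656094670814052452732632388507120340715269177772289539949664373782899247510736341269863952681194181707516558075959528047298805274223114691486113018234936505247047906832063608514639302217484462272552141620141610582470858629048020994970289258528266225038383078809186840510058595296462432058477420698250622150923942887665816917569699611356786933495090482557794566680723498656204455199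433264510570627881285787710653314375254804593594193782403454860435063437977935213010913636360863323850372956696546594308685325183929091365352078922323696850039771917599650039455448566058465551617982124380048953485642137787844847437127295207298622510818513607445114452336175690982299010214101205778285172955075734419825789250370490657285984726110025534001114841522684902159451607882599545332164258428492022316895934485130809012190999230114864286707996260048655614402887587960165573422709930841230990510819867354380534221925480266578321790852671814799638630346945579439526415081518956386420086705570973443563822175061875105830379704171442366834943925373828805395263014631102602209899014845376872602059212942371728249698440655112501271105489780456672520712368602736268737116143625608110296345056332205734366788682541746086396903356952074308391989450649005526325390911301996031979545267670940925083946299109574091711160451077651468143484166856307807165878561765111874708527469613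056925945971992094371955939129557164148215718755590244828106646596774659722767740868391983406207720448462110176899298296235911042015101096069543183755397155828446773014743182799291848753001279204435243957795512340020646086214298801476606014980664671282388462629231131265970250795998083054553964763174015763794513940427102255322155505343723496839924800516048596742430298534805084265011808022956151067394333067591697242911631099698044881033372087113893007520330886808000238376823446678047566778516769517205981786111405647851986383953858394448980033242552451520799407097529489726667188779653292236853627404979510869464571771866181358553134534151316168744206164872062809270633818613223377372643388783481816682106610840424758451976729133371220227891480997982663413390864616134145682907237822026044594912236401378018439150498150067965139556894365615981314751477904627224949234102147900233822135413868001610378489311048060794173115636436396042647418658139618225029005702544950446787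234265314496876972668323750027393787674332214131840881859213687125153542435868400361715836668675079849354081836826091043797631510031253457000452370054221684796044112726767998795470022049013768920105393997948122327727410262083478319145523996521234797130191680627894201343126439431974506850095715582338170776585135922698616224401971805909087779233282164808952815302518460067366467163297322582635834930441508369038189233977736122053212953718360928238298420099924690274989079839725454732322935694570642170119148818289986133569141505378665124263099369544348009285616663109039997988919897990454121953184880542062457635536622774158525567556644941881094792442182539617039193197713632046153827665706984846148743986704184614005806499445768627518802054496011313785389111378235877852380892936232524242136424210650911335725858306697563424803455763674589182890632911010677047359600367407161980772592484016658767530003169092873548766028548406496355049304529021253402783045715906638079019836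150871136764177443710159422205441427062105986847192934135504602221846276333252117507524226423263023252861512195671056971720982887435319012736672227053014380159087346486063241488613535581072239579508663442916864373817571675917717646293150573138697400572518492798734029720715497443798485074822600197791373405576580083453561211104943535982347256659755303037510891713051897041159955710158588973362159688174767845425842741254493338418810890860297164054261304708097740364939556299132225399669962425986270469596249673367913067302584734907894556541972615543292967620074370419965984340064896996196292830903264733899129856276394511332597000068960489566405879857688515370693690736942568681081295184084194709319812410821747117236123246380581372940463624794824993583108546048997613103681160431325300850097112122463447958693580771219526304907007621802327980283017474501270395848962781604992469240292296883040625820170494874808046173148413633398415851055836283168950937737908667096457340217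604010312382529298477572349436803496844998598556679538143919629377610948384765913456632828348346932450002677878145523862424901563771931431982834316348953512704786100855880701657868816117701136919825243757062367199719241809372820691751680336433880539376736506495333948174160374620463138318129588318576079257386943787365280238809435816836574887797405605367025307939801470988586436398368302781760727980972200653814379356412410203220009434622207679729342072994165514679842391358819861162437447864201586108931235510499418051429618273671610596148346885043605741350256047093357659778425416531001018283612746176918771779677584227160926810592080341478327614414088174713425753579380774498068601218115091921615106186642711866786285587539694139909342780159362153606018797354343594677505809125354440531895908902134860862991048284546475124980763763216135643559308569172299562777799680960857362687688613743911808589048460319700530203493707113945170721041151496284723169220651220352921802751312477571687080094213353976785843544722555294340992060551156701363664080087869058582363250580749048398798387138020154186129678930799276875195067655885026903785958405779689732701297792592768331452311981585620581728396190128250279524386616639488)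

end Vale.Agent.Lib.P154.PChain.BD.S8
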