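import Vale.Agent.Lib.P154.PChain.BD.R8_5

set_option linter.all false

namespace Vale.Agent.Lib.P154.PChain.BD.S9

open Vale.Agent.Lib.P154.Chain

noncomputable def pc0 : PT := (PT.nd (nat_lit 14963676) (PT.nd (nat_lit 14639118) (PT.nd (nat_lit 14476722) (PT.nd (nat_lit 14314404) (PT.nd (nat_lit 7091292) (PT.nd (nat_lit 7091214) PT.nil (PT.lf (nat_lit 76) (nat_lit 6) (nat_lit 1) (nat_lit 3) (nat_lit 346) (nat_lit 87) (nat_lit 347))) (PT.nd (nat_lit 81120) (PT.lf (nat_lit 76) (nat_lit 6) (nat_lit 1) (nat_lit 1) (nat_lit 347) (nat_lit 87) (nat_lit 346)) (PT.lf (nat_lit 152) (nat_lit 3) (nat_lit 2) (nat_lit 1) (nat_lit 346) (nat_lit 88) (nat_lit 346)))) (PT.nd (nat_lit 81198) (PT.nd (nat_lit 81120) (PT.lf (nat_lit 4788) (nat_lit 3) (nat_lit 63) (nat_lit 1) (nat_lit 302) (nat_lit 176) (nat_lit 302)) (PT.lf (nat_lit 5016) (nat_lit 6) (nat_lit 66) (nat_lit 3) (nat_lit 301) (nat_lit 177) (nat_lit 302))) (PT.nd (nat_lit 81042) (PT.lf (nat_lit 5016) (nat_lit 6) (nat_lit 66) (nat_lit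 1) (nat_lit 302) (nat_lit 177) (nat_lit 301)) (PT.lf (nat_lit 5168) (nat_lit 6) (nat_lit 68) (nat_lit 3) (nat_lit 300) (nat_lit 178) (nat_lit 302))))) (PT.nd (nat_lit 81198) (PT.nd (nat_lit 81042) (PT.nd (nat_lit 78) (PT.lf (nat_lit 5244) (nat_lit 3) (nat_lit 69) (nat_lit 1) (nat_lit 301) (nat_lit 178) (nat_lit 301)) (PT.lf (nat_lit 5168) (nat_lit 6) (nat_lit 68) (nat_lit 1) (nat_lit 302) (nat_lit 178) (nat_lit 300))) (PT.nd (nat_lit 78) (PT.lf (nat_lit 5396) (nat_lit 6) (nat_lit 71) (nat_lit 3) (nat_lit 299) (nat_lit 179) (nat_lit 302)) (PT.lf (nat_lit 5472) (nat_lit 6) (nat_lit 72) (nat_lit 3) (nat_lit 300) (nat_lit 179) (nat_lit 301)))) (PT.nd (nat_lit 81042) (PT.nd (nat_lit 78) (PT.lf (nat_lit 5472) (nat_lit 6) (nat_lit 72) (nat_lit 1) (nat_lit 301) (nat_lit 179) (nat_lit 300)) (PT.lf (nat_lit 5396) (nat_lit 6) (nat_lit 71) (nat_lit 1) (nat_lit 302) (nat_lit 179) (nat_lit 299))) (PT.nd (nat_lit 78) (PT.lf (nat_lit 5700) (nat_lit 6) (nat_lit 75) (nat_lit 3) (nat_lit 299)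 (nat_lit 180) (nat_lit 301)) (PT.lf (nat_lit 5776) (nat_lit 3) (nat_lit 76) (nat_lit 1) (nat_lit 300) (nat_lit 180) (nat_lit 300)))))) (PT.nd (nat_lit 162318) (PT.nd (nat_lit 81198) (PT.nd (nat_lit 81042) (PT.nd (nat_lit 80964) (PT.lf (nat_lit 5700) (nat_lit 6) (nat_lit 75) (nat_lit 1) (nat_lit 301) (nat_lit 180) (nat_lit 299)) (PT.lf (nat_lit 5928) (nat_lit 6) (nat_lit 78) (nat_lit 3) (nat_lit 298) (nat_lit 181) (nat_lit 301))) (PT.nd (nat_lit 78) (PT.lf (nat_lit 6004) (nat_lit 6) (nat_lit 79) (nat_lit 3) (nat_lit 299) (nat_lit 181) (nat_lit 300)) (PT.lf (nat_lit 6004) (nat_lit 6) (nat_lit 79) (nat_lit 1) (nat_lit 300) (nat_lit 181) (nat_lit 299)))) (PT.nd (nat_lit 80964) (PT.nd (nat_lit 80886) (PT.lf (nat_lit 5928) (nat_lit 6) (nat_lit 78) (nat_lit 1) (nat_lit 301) (nat_lit 181) (nat_lit 298)) (PT.lf (nat_lit 6156) (nat_lit 6) (nat_lit 81) (nat_lit 3) (nat_lit 297) (nat_lit 182) (nat_lit 301))) (PT.nd (nat_lit 78) (PT.lf (nat_lit 6232) (nat_lit 6) (nat_lit 82) (nat_lit 3)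 (nat_lit 298) (nat_lit 182) (nat_lit 300)) (PT.lf (nat_lit 6308) (nat_lit 3) (nat_lit 83) (nat_lit 1) (nat_lit 299) (nat_lit 182) (nat_lit 299))))) (PT.nd (nat_lit 81120) (PT.nd (nat_lit 80964) (PT.nd (nat_lit 78) (PT.lf (nat_lit 6232) (nat_lit 6) (nat_lit 82) (nat_lit 1) (nat_lit 300) (nat_lit 182) (nat_lit 298)) (PT.lf (nat_lit 6156) (nat_lit 6) (nat_lit 81) (nat_lit 1) (nat_lit 301) (nat_lit 182) (nat_lit 297))) (PT.nd (nat_lit 78) (PT.lf (nat_lit 6460) (nat_lit 6) (nat_lit 85) (nat_lit 3) (nat_lit 297) (nat_lit 183) (nat_lit 300)) (PT.lf (nat_lit 6536) (nat_lit 6) (nat_lit 86) (nat_lit 3) (nat_lit 298) (nat_lit 183) (nat_lit 299)))) (PT.nd (nat_lit 80964) (PT.nd (nat_lit 78) (PT.lf (nat_lit 6536) (nat_lit 6) (nat_lit 86) (nat_lit 1) (nat_lit 299) (nat_lit 183) (nat_lit 298)) (PT.lf (nat_lit 6460) (nat_lit 6) (nat_lit 85) (nat_lit 1) (nat_lit 300) (nat_lit 183) (nat_lit 297))) (PT.nd (nat_lit 78) (PT.lf (nat_lit 6688) (nat_lit 6) (nat_lit 88) (nat_lit 3) (nat_lit 296) (nat_lit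 184) (nat_lit 300)) (PT.lf (nat_lit 6764) (nat_lit 6) (nat_lit 89) (nat_lit 3) (nat_lit 297) (nat_lit 184) (nat_lit 299))))))) (PT.nd (nat_lit 243516) (PT.nd (nat_lit 162162) (PT.nd (nat_lit 81042) (PT.nd (nat_lit 78) (PT.lf (nat_lit 6840) (nat_lit 3) (nat_lit 90) (nat_lit 1) (nat_lit 298) (nat_lit 184) (nat_lit 298)) (PT.nd (nat_lit 78) (PT.lf (nat_lit 6764) (nat_lit 6) (nat_lit 89) (nat_lit 1) (nat_lit 299) (nat_lit 184) (nat_lit 297)) (PT.lf (nat_lit 6688) (nat_lit 6) (nat_lit 88) (nat_lit 1) (nat_lit 300) (nat_lit 184) (nat_lit 296)))) (PT.nd (nat_lit 156) (PT.nd (nat_lit 78) (PT.lf (nat_lit 6992) (nat_lit 6) (nat_lit 92) (nat_lit 3) (nat_lit 296) (nat_lit 185) (nat_lit 299)) (PT.lf (nat_lit 7068) (nat_lit 6) (nat_lit 93) (nat_lit 3) (nat_lit 297) (nat_lit 185) (nat_lit 298))) (PT.nd (nat_lit 78) (PT.lf (nat_lit 7068) (nat_lit 6) (nat_lit 93) (nat_lit 1) (nat_lit 298) (nat_lit 185) (nat_lit 297)) (PT.lf (nat_lit 6992) (nat_lit 6) (nat_lit 92) (nat_lit 1) (nat_lit 299)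 (nat_lit 185) (nat_lit 296))))) (PT.nd (nat_lit 312) (PT.nd (nat_lit 156) (PT.nd (nat_lit 78) (PT.lf (nat_lit 7220) (nat_lit 6) (nat_lit 95) (nat_lit 3) (nat_lit 295) (nat_lit 186) (nat_lit 299)) (PT.lf (nat_lit 7296) (nat_lit 6) (nat_lit 96) (nat_lit 3) (nat_lit 296) (nat_lit 186) (nat_lit 298))) (PT.nd (nat_lit 78) (PT.lf (nat_lit 7372) (nat_lit 3) (nat_lit 97) (nat_lit 1) (nat_lit 297) (nat_lit 186) (nat_lit 297)) (PT.lf (nat_lit 7296) (nat_lit 6) (nat_lit 96) (nat_lit 1) (nat_lit 298) (nat_lit 186) (nat_lit 296)))) (PT.nd (nat_lit 80886) (PT.nd (nat_lit 80808) (PT.lf (nat_lit 7220) (nat_lit 6) (nat_lit 95) (nat_lit 1) (nat_lit 299) (nat_lit 186) (nat_lit 295)) (PT.lf (nat_lit 7524) (nat_lit 6) (nat_lit 99) (nat_lit 3) (nat_lit 294) (nat_lit 187) (nat_lit 299))) (PT.nd (nat_lit 78) (PT.lf (nat_lit 7600) (nat_lit 6) (nat_lit 100) (nat_lit 3) (nat_lit 295) (nat_lit 187) (nat_lit 298)) (PT.lf (nat_lit 7676) (nat_lit 6) (nat_lit 101) (nat_lit 3) (nat_lit 296) (nat_lit 187)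 (nat_lit 297)))))) (PT.nd (nat_lit 162084) (PT.nd (nat_lit 81042) (PT.nd (nat_lit 156) (PT.nd (nat_lit 78) (PT.lf (nat_lit 7676) (nat_lit 6) (nat_lit 101) (nat_lit 1) (nat_lit 297) (nat_lit 187) (nat_lit 296)) (PT.lf (nat_lit 7600) (nat_lit 6) (nat_lit 100) (nat_lit 1) (nat_lit 298) (nat_lit 187) (nat_lit 295))) (PT.nd (nat_lit 80808) (PT.lf (nat_lit 7524) (nat_lit 6) (nat_lit 99) (nat_lit 1) (nat_lit 299) (nat_lit 187) (nat_lit 294)) (PT.lf (nat_lit 7828) (nat_lit 6) (nat_lit 103) (nat_lit 3) (nat_lit 294) (nat_lit 188) (nat_lit 298)))) (PT.nd (nat_lit 156) (PT.nd (nat_lit 78) (PT.lf (nat_lit 7904) (nat_lit 6) (nat_lit 104) (nat_lit 3) (nat_lit 295) (nat_lit 188) (nat_lit 297)) (PT.lf (nat_lit 7980) (nat_lit 3) (nat_lit 105) (nat_lit 1) (nat_lit 296) (nat_lit 188) (nat_lit 296))) (PT.nd (nat_lit 78) (PT.lf (nat_lit 7904) (nat_lit 6) (nat_lit 104) (nat_lit 1) (nat_lit 297) (nat_lit 188) (nat_lit 295)) (PT.lf (nat_lit 7828) (nat_lit 6) (nat_lit 103) (nat_lit 1) (nat_lit 298)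 (nat_lit 188) (nat_lit 294))))) (PT.nd (nat_lit 312) (PT.nd (nat_lit 156) (PT.nd (nat_lit 78) (PT.lf (nat_lit 8132) (nat_lit 6) (nat_lit 107) (nat_lit 3) (nat_lit 293) (nat_lit 189) (nat_lit 298)) (PT.lf (nat_lit 8208) (nat_lit 6) (nat_lit 108) (nat_lit 3) (nat_lit 294) (nat_lit 189) (nat_lit 297))) (PT.nd (nat_lit 78) (PT.lf (nat_lit 8284) (nat_lit 6) (nat_lit 109) (nat_lit 3) (nat_lit 295) (nat_lit 189) (nat_lit 296)) (PT.lf (nat_lit 8284) (nat_lit 6) (nat_lit 109) (nat_lit 1) (nat_lit 296) (nat_lit 189) (nat_lit 295)))) (PT.nd (nat_lit 80886) (PT.nd (nat_lit 78) (PT.lf (nat_lit 8208) (nat_lit 6) (nat_lit 108) (nat_lit 1) (nat_lit 297) (nat_lit 189) (nat_lit 294)) (PT.lf (nat_lit 8132) (nat_lit 6) (nat_lit 107) (nat_lit 1) (nat_lit 298) (nat_lit 189) (nat_lit 293))) (PT.nd (nat_lit 78) (PT.lf (nat_lit 8436) (nat_lit 6) (nat_lit 111) (nat_lit 3) (nat_lit 293) (nat_lit 190) (nat_lit 297)) (PT.lf (nat_lit 8512) (nat_lit 6) (nat_lit 112) (nat_lit 3) (nat_lit 294) (nat_lit 190)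 (nat_lit 296))))))))
noncomputable def pc1 : PT := (PT.nd (nat_lit 405678) (PT.nd (nat_lit 162552) (PT.nd (nat_lit 81276) (PT.nd (nat_lit 80964) (PT.nd (nat_lit 78) (PT.lf (nat_lit 8588) (nat_lit 3) (nat_lit 113) (nat_lit 1) (nat_lit 295) (nat_lit 190) (nat_lit 295)) (PT.nd (nat_lit 78) (PT.lf (nat_lit 8512) (nat_lit 6) (nat_lit 112) (nat_lit 1) (nat_lit 296) (nat_lit 190) (nat_lit 294)) (PT.lf (nat_lit 8436) (nat_lit 6) (nat_lit 111) (nat_lit 1) (nat_lit 297) (nat_lit 190) (nat_lit 293)))) (PT.nd (nat_lit 156) (PT.nd (nat_lit 78) (PT.lf (nat_lit 8740) (nat_lit 6) (nat_lit 115) (nat_lit 3) (nat_lit 292) (nat_lit 191) (nat_lit 297)) (PT.lf (nat_lit 8816) (nat_lit 6) (nat_lit 116) (nat_lit 3) (nat_lit 293) (nat_lit 191) (nat_lit 296))) (PT.nd (nat_lit 78) (PT.lf (nat_lit 8892) (nat_lit 6) (nat_lit 117) (nat_lit 3) (nat_lit 294) (nat_lit 191) (nat_lit 295)) (PT.lf (nat_lit 8892) (nat_lit 6) (nat_lit 117) (nat_lit 1) (nat_lit 295) (nat_lit 191) (nat_lit 294))))) (PT.nd (nat_lit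 80964) (PT.nd (nat_lit 80808) (PT.nd (nat_lit 78) (PT.lf (nat_lit 8816) (nat_lit 6) (nat_lit 116) (nat_lit 1) (nat_lit 296) (nat_lit 191) (nat_lit 293)) (PT.lf (nat_lit 8740) (nat_lit 6) (nat_lit 115) (nat_lit 1) (nat_lit 297) (nat_lit 191) (nat_lit 292))) (PT.nd (nat_lit 78) (PT.lf (nat_lit 9044) (nat_lit 6) (nat_lit 119) (nat_lit 3) (nat_lit 291) (nat_lit 192) (nat_lit 297)) (PT.lf (nat_lit 9120) (nat_lit 6) (nat_lit 120) (nat_lit 3) (nat_lit 292) (nat_lit 192) (nat_lit 296)))) (PT.nd (nat_lit 156) (PT.nd (nat_lit 78) (PT.lf (nat_lit 9196) (nat_lit 6) (nat_lit 121) (nat_lit 3) (nat_lit 293) (nat_lit 192) (nat_lit 295)) (PT.lf (nat_lit 9272) (nat_lit 3) (nat_lit 122) (nat_lit 1) (nat_lit 294) (nat_lit 192) (nat_lit 294))) (PT.nd (nat_lit 78) (PT.lf (nat_lit 9196) (nat_lit 6) (nat_lit 121) (nat_lit 1) (nat_lit 295) (nat_lit 192) (nat_lit 293)) (PT.lf (nat_lit 9120) (nat_lit 6) (nat_lit 120) (nat_lit 1) (nat_lit 296) (nat_lit 192) (nat_lit 292)))))) (PT.nd (nat_lit 161928)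 (PT.nd (nat_lit 80964) (PT.nd (nat_lit 80808) (PT.nd (nat_lit 80730) (PT.lf (nat_lit 9044) (nat_lit 6) (nat_lit 119) (nat_lit 1) (nat_lit 297) (nat_lit 192) (nat_lit 291)) (PT.lf (nat_lit 9424) (nat_lit 6) (nat_lit 124) (nat_lit 3) (nat_lit 291) (nat_lit 193) (nat_lit 296))) (PT.nd (nat_lit 78) (PT.lf (nat_lit 9500) (nat_lit 6) (nat_lit 125) (nat_lit 3) (nat_lit 292) (nat_lit 193) (nat_lit 295)) (PT.lf (nat_lit 9576) (nat_lit 6) (nat_lit 126) (nat_lit 3) (nat_lit 293) (nat_lit 193) (nat_lit 294)))) (PT.nd (nat_lit 156) (PT.nd (nat_lit 78) (PT.lf (nat_lit 9576) (nat_lit 6) (nat_lit 126) (nat_lit 1) (nat_lit 294) (nat_lit 193) (nat_lit 293)) (PT.lf (nat_lit 9500) (nat_lit 6) (nat_lit 125) (nat_lit 1) (nat_lit 295) (nat_lit 193) (nat_lit 292))) (PT.nd (nat_lit 80730) (PT.lf (nat_lit 9424) (nat_lit 6) (nat_lit 124) (nat_lit 1) (nat_lit 296) (nat_lit 193) (nat_lit 291)) (PT.lf (nat_lit 9728) (nat_lit 6) (nat_lit 128) (nat_lit 3) (nat_lit 290) (nat_lit 194) (nat_lit 296))))) (PT.nd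 (nat_lit 312) (PT.nd (nat_lit 156) (PT.nd (nat_lit 78) (PT.lf (nat_lit 9804) (nat_lit 6) (nat_lit 129) (nat_lit 3) (nat_lit 291) (nat_lit 194) (nat_lit 295)) (PT.lf (nat_lit 9880) (nat_lit 6) (nat_lit 130) (nat_lit 3) (nat_lit 292) (nat_lit 194) (nat_lit 294))) (PT.nd (nat_lit 78) (PT.lf (nat_lit 9956) (nat_lit 3) (nat_lit 131) (nat_lit 1) (nat_lit 293) (nat_lit 194) (nat_lit 293)) (PT.lf (nat_lit 9880) (nat_lit 6) (nat_lit 130) (nat_lit 1) (nat_lit 294) (nat_lit 194) (nat_lit 292)))) (PT.nd (nat_lit 80730) (PT.nd (nat_lit 78) (PT.lf (nat_lit 9804) (nat_lit 6) (nat_lit 129) (nat_lit 1) (nat_lit 295) (nat_lit 194) (nat_lit 291)) (PT.lf (nat_lit 9728) (nat_lit 6) (nat_lit 128) (nat_lit 1) (nat_lit 296) (nat_lit 194) (nat_lit 290))) (PT.nd (nat_lit 78) (PT.lf (nat_lit 10032) (nat_lit 6) (nat_lit 132) (nat_lit 3) (nat_lit 289) (nat_lit 195) (nat_lit 296)) (PT.lf (nat_lit 10108) (nat_lit 6) (nat_lit 133) (nat_lit 3) (nat_lit 290) (nat_lit 195) (nat_lit 295))))))) (PT.nd (nat_lit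 162162) (PT.nd (nat_lit 81042) (PT.nd (nat_lit 234) (PT.nd (nat_lit 78) (PT.lf (nat_lit 10184) (nat_lit 6) (nat_lit 134) (nat_lit 3) (nat_lit 291) (nat_lit 195) (nat_lit 294)) (PT.nd (nat_lit 78) (PT.lf (nat_lit 10260) (nat_lit 6) (nat_lit 135) (nat_lit 3) (nat_lit 292) (nat_lit 195) (nat_lit 293)) (PT.lf (nat_lit 10260) (nat_lit 6) (nat_lit 135) (nat_lit 1) (nat_lit 293) (nat_lit 195) (nat_lit 292)))) (PT.nd (nat_lit 156) (PT.nd (nat_lit 78) (PT.lf (nat_lit 10184) (nat_lit 6) (nat_lit 134) (nat_lit 1) (nat_lit 294) (nat_lit 195) (nat_lit 291)) (PT.lf (nat_lit 10108) (nat_lit 6) (nat_lit 133) (nat_lit 1) (nat_lit 295) (nat_lit 195) (nat_lit 290))) (PT.nd (nat_lit 80574) (PT.lf (nat_lit 10032) (nat_lit 6) (nat_lit 132) (nat_lit 1) (nat_lit 296) (nat_lit 195) (nat_lit 289)) (PT.lf (nat_lit 10336) (nat_lit 6) (nat_lit 136) (nat_lit 3) (nat_lit 288) (nat_lit 196) (nat_lit 296))))) (PT.nd (nat_lit 312) (PT.nd (nat_lit 156) (PT.nd (nat_lit 78) (PT.lf (nat_lit 10412) (nat_lit 6)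 (nat_lit 137) (nat_lit 3) (nat_lit 289) (nat_lit 196) (nat_lit 295)) (PT.lf (nat_lit 10488) (nat_lit 6) (nat_lit 138) (nat_lit 3) (nat_lit 290) (nat_lit 196) (nat_lit 294))) (PT.nd (nat_lit 78) (PT.lf (nat_lit 10564) (nat_lit 6) (nat_lit 139) (nat_lit 3) (nat_lit 291) (nat_lit 196) (nat_lit 293)) (PT.lf (nat_lit 10640) (nat_lit 3) (nat_lit 140) (nat_lit 1) (nat_lit 292) (nat_lit 196) (nat_lit 292)))) (PT.nd (nat_lit 156) (PT.nd (nat_lit 78) (PT.lf (nat_lit 10564) (nat_lit 6) (nat_lit 139) (nat_lit 1) (nat_lit 293) (nat_lit 196) (nat_lit 291)) (PT.lf (nat_lit 10488) (nat_lit 6) (nat_lit 138) (nat_lit 1) (nat_lit 294) (nat_lit 196) (nat_lit 290))) (PT.nd (nat_lit 78) (PT.lf (nat_lit 10412) (nat_lit 6) (nat_lit 137) (nat_lit 1) (nat_lit 295) (nat_lit 196) (nat_lit 289)) (PT.lf (nat_lit 10336) (nat_lit 6) (nat_lit 136) (nat_lit 1) (nat_lit 296) (nat_lit 196) (nat_lit 288)))))) (PT.nd (nat_lit 81120) (PT.nd (nat_lit 312) (PT.nd (nat_lit 156) (PT.nd (nat_lit 78) (PT.lf (nat_lit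 10792) (nat_lit 6) (nat_lit 142) (nat_lit 3) (nat_lit 288) (nat_lit 197) (nat_lit 295)) (PT.lf (nat_lit 10868) (nat_lit 6) (nat_lit 143) (nat_lit 3) (nat_lit 289) (nat_lit 197) (nat_lit 294))) (PT.nd (nat_lit 78) (PT.lf (nat_lit 10944) (nat_lit 6) (nat_lit 144) (nat_lit 3) (nat_lit 290) (nat_lit 197) (nat_lit 293)) (PT.lf (nat_lit 11020) (nat_lit 6) (nat_lit 145) (nat_lit 3) (nat_lit 291) (nat_lit 197) (nat_lit 292)))) (PT.nd (nat_lit 156) (PT.nd (nat_lit 78) (PT.lf (nat_lit 11020) (nat_lit 6) (nat_lit 145) (nat_lit 1) (nat_lit 292) (nat_lit 197) (nat_lit 291)) (PT.lf (nat_lit 10944) (nat_lit 6) (nat_lit 144) (nat_lit 1) (nat_lit 293) (nat_lit 197) (nat_lit 290))) (PT.nd (nat_lit 78) (PT.lf (nat_lit 10868) (nat_lit 6) (nat_lit 143) (nat_lit 1) (nat_lit 294) (nat_lit 197) (nat_lit 289)) (PT.lf (nat_lit 10792) (nat_lit 6) (nat_lit 142) (nat_lit 1) (nat_lit 295) (nat_lit 197) (nat_lit 288))))) (PT.nd (nat_lit 312) (PT.nd (nat_lit 156) (PT.nd (nat_lit 78) (PT.lf (nat_lit 11096)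 (nat_lit 6) (nat_lit 146) (nat_lit 3) (nat_lit 287) (nat_lit 198) (nat_lit 295)) (PT.lf (nat_lit 11172) (nat_lit 6) (nat_lit 147) (nat_lit 3) (nat_lit 288) (nat_lit 198) (nat_lit 294))) (PT.nd (nat_lit 78) (PT.lf (nat_lit 11248) (nat_lit 6) (nat_lit 148) (nat_lit 3) (nat_lit 289) (nat_lit 198) (nat_lit 293)) (PT.lf (nat_lit 11324) (nat_lit 6) (nat_lit 149) (nat_lit 3) (nat_lit 290) (nat_lit 198) (nat_lit 292)))) (PT.nd (nat_lit 156) (PT.nd (nat_lit 78) (PT.lf (nat_lit 11400) (nat_lit 3) (nat_lit 150) (nat_lit 1) (nat_lit 291) (nat_lit 198) (nat_lit 291)) (PT.lf (nat_lit 11324) (nat_lit 6) (nat_lit 149) (nat_lit 1) (nat_lit 292) (nat_lit 198) (nat_lit 290))) (PT.nd (nat_lit 78) (PT.lf (nat_lit 11248) (nat_lit 6) (nat_lit 148) (nat_lit 1) (nat_lit 293) (nat_lit 198) (nat_lit 289)) (PT.lf (nat_lit 11172) (nat_lit 6) (nat_lit 147) (nat_lit 1) (nat_lit 294) (nat_lit 198) (nat_lit 288))))))))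
noncomputable def pc2 : PT := (PT.nd (nat_lit 324012) (PT.nd (nat_lit 162006) (PT.nd (nat_lit 80964) (PT.nd (nat_lit 80652) (PT.nd (nat_lit 80496) (PT.lf (nat_lit 11096) (nat_lit 6) (nat_lit 146) (nat_lit 1) (nat_lit 295) (nat_lit 198) (nat_lit 287)) (PT.nd (nat_lit 78) (PT.lf (nat_lit 11476) (nat_lit 6) (nat_lit 151) (nat_lit 3) (nat_lit 286) (nat_lit 199) (nat_lit 295)) (PT.lf (nat_lit 11552) (nat_lit 6) (nat_lit 152) (nat_lit 3) (nat_lit 287) (nat_lit 199) (nat_lit 294)))) (PT.nd (nat_lit 156) (PT.nd (nat_lit 78) (PT.lf (nat_lit 11628) (nat_lit 6) (nat_lit 153) (nat_lit 3) (nat_lit 288) (nat_lit 199) (nat_lit 293)) (PT.lf (nat_lit 11704) (nat_lit 6) (nat_lit 154) (nat_lit 3) (nat_lit 289) (nat_lit 199) (nat_lit 292))) (PT.nd (nat_lit 78) (PT.lf (nat_lit 11780) (nat_lit 6) (nat_lit 155) (nat_lit 3) (nat_lit 290) (nat_lit 199) (nat_lit 291)) (PT.lf (nat_lit 11780) (nat_lit 6) (nat_lit 155) (nat_lit 1) (nat_lit 291) (nat_lit 199) (nat_lit 290))))) (PT.nd (nat_lit 80730) (PT.nd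 (nat_lit 156) (PT.nd (nat_lit 78) (PT.lf (nat_lit 11704) (nat_lit 6) (nat_lit 154) (nat_lit 1) (nat_lit 292) (nat_lit 199) (nat_lit 289)) (PT.lf (nat_lit 11628) (nat_lit 6) (nat_lit 153) (nat_lit 1) (nat_lit 293) (nat_lit 199) (nat_lit 288))) (PT.nd (nat_lit 78) (PT.lf (nat_lit 11552) (nat_lit 6) (nat_lit 152) (nat_lit 1) (nat_lit 294) (nat_lit 199) (nat_lit 287)) (PT.lf (nat_lit 11476) (nat_lit 6) (nat_lit 151) (nat_lit 1) (nat_lit 295) (nat_lit 199) (nat_lit 286)))) (PT.nd (nat_lit 156) (PT.nd (nat_lit 78) (PT.lf (nat_lit 11932) (nat_lit 6) (nat_lit 157) (nat_lit 3) (nat_lit 286) (nat_lit 200) (nat_lit 294)) (PT.lf (nat_lit 12008) (nat_lit 6) (nat_lit 158) (nat_lit 3) (nat_lit 287) (nat_lit 200) (nat_lit 293))) (PT.nd (nat_lit 78) (PT.lf (nat_lit 12084) (nat_lit 6) (nat_lit 159) (nat_lit 3) (nat_lit 288) (nat_lit 200) (nat_lit 292)) (PT.lf (nat_lit 12160) (nat_lit 6) (nat_lit 160) (nat_lit 3) (nat_lit 289) (nat_lit 200) (nat_lit 291)))))) (PT.nd (nat_lit 81042) (PT.nd (nat_lit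 312) (PT.nd (nat_lit 156) (PT.nd (nat_lit 78) (PT.lf (nat_lit 12236) (nat_lit 3) (nat_lit 161) (nat_lit 1) (nat_lit 290) (nat_lit 200) (nat_lit 290)) (PT.lf (nat_lit 12160) (nat_lit 6) (nat_lit 160) (nat_lit 1) (nat_lit 291) (nat_lit 200) (nat_lit 289))) (PT.nd (nat_lit 78) (PT.lf (nat_lit 12084) (nat_lit 6) (nat_lit 159) (nat_lit 1) (nat_lit 292) (nat_lit 200) (nat_lit 288)) (PT.lf (nat_lit 12008) (nat_lit 6) (nat_lit 158) (nat_lit 1) (nat_lit 293) (nat_lit 200) (nat_lit 287)))) (PT.nd (nat_lit 80574) (PT.nd (nat_lit 80496) (PT.lf (nat_lit 11932) (nat_lit 6) (nat_lit 157) (nat_lit 1) (nat_lit 294) (nat_lit 200) (nat_lit 286)) (PT.lf (nat_lit 12312) (nat_lit 6) (nat_lit 162) (nat_lit 3) (nat_lit 285) (nat_lit 201) (nat_lit 294))) (PT.nd (nat_lit 78) (PT.lf (nat_lit 12388) (nat_lit 6) (nat_lit 163) (nat_lit 3) (nat_lit 286) (nat_lit 201) (nat_lit 293)) (PT.lf (nat_lit 12464) (nat_lit 6) (nat_lit 164) (nat_lit 3) (nat_lit 287) (nat_lit 201) (nat_lit 292))))) (PT.nd (nat_lit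 312) (PT.nd (nat_lit 156) (PT.nd (nat_lit 78) (PT.lf (nat_lit 12540) (nat_lit 6) (nat_lit 165) (nat_lit 3) (nat_lit 288) (nat_lit 201) (nat_lit 291)) (PT.lf (nat_lit 12616) (nat_lit 6) (nat_lit 166) (nat_lit 3) (nat_lit 289) (nat_lit 201) (nat_lit 290))) (PT.nd (nat_lit 78) (PT.lf (nat_lit 12616) (nat_lit 6) (nat_lit 166) (nat_lit 1) (nat_lit 290) (nat_lit 201) (nat_lit 289)) (PT.lf (nat_lit 12540) (nat_lit 6) (nat_lit 165) (nat_lit 1) (nat_lit 291) (nat_lit 201) (nat_lit 288)))) (PT.nd (nat_lit 156) (PT.nd (nat_lit 78) (PT.lf (nat_lit 12464) (nat_lit 6) (nat_lit 164) (nat_lit 1) (nat_lit 292) (nat_lit 201) (nat_lit 287)) (PT.lf (nat_lit 12388) (nat_lit 6) (nat_lit 163) (nat_lit 1) (nat_lit 293) (nat_lit 201) (nat_lit 286))) (PT.nd (nat_lit 80418) (PT.lf (nat_lit 12312) (nat_lit 6) (nat_lit 162) (nat_lit 1) (nat_lit 294) (nat_lit 201) (nat_lit 285)) (PT.lf (nat_lit 12692) (nat_lit 6) (nat_lit 167) (nat_lit 3) (nat_lit 284) (nat_lit 202) (nat_lit 294))))))) (PT.nd (nat_lit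 81510) (PT.nd (nat_lit 546) (PT.nd (nat_lit 234) (PT.nd (nat_lit 78) (PT.lf (nat_lit 12768) (nat_lit 6) (nat_lit 168) (nat_lit 3) (nat_lit 285) (nat_lit 202) (nat_lit 293)) (PT.nd (nat_lit 78) (PT.lf (nat_lit 12844) (nat_lit 6) (nat_lit 169) (nat_lit 3) (nat_lit 286) (nat_lit 202) (nat_lit 292)) (PT.lf (nat_lit 12920) (nat_lit 6) (nat_lit 170) (nat_lit 3) (nat_lit 287) (nat_lit 202) (nat_lit 291)))) (PT.nd (nat_lit 156) (PT.nd (nat_lit 78) (PT.lf (nat_lit 12996) (nat_lit 6) (nat_lit 171) (nat_lit 3) (nat_lit 288) (nat_lit 202) (nat_lit 290)) (PT.lf (nat_lit 13072) (nat_lit 3) (nat_lit 172) (nat_lit 1) (nat_lit 289) (nat_lit 202) (nat_lit 289))) (PT.nd (nat_lit 78) (PT.lf (nat_lit 12996) (nat_lit 6) (nat_lit 171) (nat_lit 1) (nat_lit 290) (nat_lit 202) (nat_lit 288)) (PT.lf (nat_lit 12920) (nat_lit 6) (nat_lit 170) (nat_lit 1) (nat_lit 291) (nat_lit 202) (nat_lit 287))))) (PT.nd (nat_lit 80652) (PT.nd (nat_lit 156) (PT.nd (nat_lit 78) (PT.lf (nat_lit 12844) (nat_lit 6) (nat_lit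 169) (nat_lit 1) (nat_lit 292) (nat_lit 202) (nat_lit 286)) (PT.lf (nat_lit 12768) (nat_lit 6) (nat_lit 168) (nat_lit 1) (nat_lit 293) (nat_lit 202) (nat_lit 285))) (PT.nd (nat_lit 80418) (PT.lf (nat_lit 12692) (nat_lit 6) (nat_lit 167) (nat_lit 1) (nat_lit 294) (nat_lit 202) (nat_lit 284)) (PT.lf (nat_lit 13148) (nat_lit 6) (nat_lit 173) (nat_lit 3) (nat_lit 284) (nat_lit 203) (nat_lit 293)))) (PT.nd (nat_lit 156) (PT.nd (nat_lit 78) (PT.lf (nat_lit 13224) (nat_lit 6) (nat_lit 174) (nat_lit 3) (nat_lit 285) (nat_lit 203) (nat_lit 292)) (PT.lf (nat_lit 13300) (nat_lit 6) (nat_lit 175) (nat_lit 3) (nat_lit 286) (nat_lit 203) (nat_lit 291))) (PT.nd (nat_lit 78) (PT.lf (nat_lit 13376) (nat_lit 6) (nat_lit 176) (nat_lit 3) (nat_lit 287) (nat_lit 203) (nat_lit 290)) (PT.lf (nat_lit 13452) (nat_lit 6) (nat_lit 177) (nat_lit 3) (nat_lit 288) (nat_lit 203) (nat_lit 289)))))) (PT.nd (nat_lit 80964) (PT.nd (nat_lit 312) (PT.nd (nat_lit 156) (PT.nd (nat_lit 78) (PT.lf (nat_lit 13452)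 (nat_lit 6) (nat_lit 177) (nat_lit 1) (nat_lit 289) (nat_lit 203) (nat_lit 288)) (PT.lf (nat_lit 13376) (nat_lit 6) (nat_lit 176) (nat_lit 1) (nat_lit 290) (nat_lit 203) (nat_lit 287))) (PT.nd (nat_lit 78) (PT.lf (nat_lit 13300) (nat_lit 6) (nat_lit 175) (nat_lit 1) (nat_lit 291) (nat_lit 203) (nat_lit 286)) (PT.lf (nat_lit 13224) (nat_lit 6) (nat_lit 174) (nat_lit 1) (nat_lit 292) (nat_lit 203) (nat_lit 285)))) (PT.nd (nat_lit 80496) (PT.nd (nat_lit 80418) (PT.lf (nat_lit 13148) (nat_lit 6) (nat_lit 173) (nat_lit 1) (nat_lit 293) (nat_lit 203) (nat_lit 284)) (PT.lf (nat_lit 13528) (nat_lit 6) (nat_lit 178) (nat_lit 3) (nat_lit 283) (nat_lit 204) (nat_lit 293))) (PT.nd (nat_lit 78) (PT.lf (nat_lit 13604) (nat_lit 6) (nat_lit 179) (nat_lit 3) (nat_lit 284) (nat_lit 204) (nat_lit 292)) (PT.lf (nat_lit 13680) (nat_lit 6) (nat_lit 180) (nat_lit 3) (nat_lit 285) (nat_lit 204) (nat_lit 291))))) (PT.nd (nat_lit 312) (PT.nd (nat_lit 156) (PT.nd (nat_lit 78) (PT.lf (nat_lit 13756)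 (nat_lit 6) (nat_lit 181) (nat_lit 3) (nat_lit 286) (nat_lit 204) (nat_lit 290)) (PT.lf (nat_lit 13832) (nat_lit 6) (nat_lit 182) (nat_lit 3) (nat_lit 287) (nat_lit 204) (nat_lit 289))) (PT.nd (nat_lit 78) (PT.lf (nat_lit 13908) (nat_lit 3) (nat_lit 183) (nat_lit 1) (nat_lit 288) (nat_lit 204) (nat_lit 288)) (PT.lf (nat_lit 13832) (nat_lit 6) (nat_lit 182) (nat_lit 1) (nat_lit 289) (nat_lit 204) (nat_lit 287)))) (PT.nd (nat_lit 156) (PT.nd (nat_lit 78) (PT.lf (nat_lit 13756) (nat_lit 6) (nat_lit 181) (nat_lit 1) (nat_lit 290) (nat_lit 204) (nat_lit 286)) (PT.lf (nat_lit 13680) (nat_lit 6) (nat_lit 180) (nat_lit 1) (nat_lit 291) (nat_lit 204) (nat_lit 285))) (PT.nd (nat_lit 78) (PT.lf (nat_lit 13604) (nat_lit 6) (nat_lit 179) (nat_lit 1) (nat_lit 292) (nat_lit 204) (nat_lit 284)) (PT.lf (nat_lit 13528) (nat_lit 6) (nat_lit 178) (nat_lit 1) (nat_lit 293) (nat_lit 204) (nat_lit 283))))))))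
noncomputable def pc3 : PT := (PT.nd (nat_lit 162942) (PT.nd (nat_lit 81432) (PT.nd (nat_lit 546) (PT.nd (nat_lit 234) (PT.nd (nat_lit 78) (PT.lf (nat_lit 13984) (nat_lit 6) (nat_lit 184) (nat_lit 3) (nat_lit 282) (nat_lit 205) (nat_lit 293)) (PT.nd (nat_lit 78) (PT.lf (nat_lit 14060) (nat_lit 6) (nat_lit 185) (nat_lit 3) (nat_lit 283) (nat_lit 205) (nat_lit 292)) (PT.lf (nat_lit 14136) (nat_lit 6) (nat_lit 186) (nat_lit 3) (nat_lit 284) (nat_lit 205) (nat_lit 291)))) (PT.nd (nat_lit 156) (PT.nd (nat_lit 78) (PT.lf (nat_lit 14212) (nat_lit 6) (nat_lit 187) (nat_lit 3) (nat_lit 285) (nat_lit 205) (nat_lit 290)) (PT.lf (nat_lit 14288) (nat_lit 6) (nat_lit 188) (nat_lit 3) (nat_lit 286) (nat_lit 205) (nat_lit 289))) (PT.nd (nat_lit 78) (PT.lf (nat_lit 14364) (nat_lit 6) (nat_lit 189) (nat_lit 3) (nat_lit 287) (nat_lit 205) (nat_lit 288)) (PT.lf (nat_lit 14364) (nat_lit 6) (nat_lit 189) (nat_lit 1) (nat_lit 288) (nat_lit 205) (nat_lit 287))))) (PT.nd (nat_lit 312) (PT.nd (nat_lit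 156) (PT.nd (nat_lit 78) (PT.lf (nat_lit 14288) (nat_lit 6) (nat_lit 188) (nat_lit 1) (nat_lit 289) (nat_lit 205) (nat_lit 286)) (PT.lf (nat_lit 14212) (nat_lit 6) (nat_lit 187) (nat_lit 1) (nat_lit 290) (nat_lit 205) (nat_lit 285))) (PT.nd (nat_lit 78) (PT.lf (nat_lit 14136) (nat_lit 6) (nat_lit 186) (nat_lit 1) (nat_lit 291) (nat_lit 205) (nat_lit 284)) (PT.lf (nat_lit 14060) (nat_lit 6) (nat_lit 185) (nat_lit 1) (nat_lit 292) (nat_lit 205) (nat_lit 283)))) (PT.nd (nat_lit 80418) (PT.nd (nat_lit 80340) (PT.lf (nat_lit 13984) (nat_lit 6) (nat_lit 184) (nat_lit 1) (nat_lit 293) (nat_lit 205) (nat_lit 282)) (PT.lf (nat_lit 14440) (nat_lit 6) (nat_lit 190) (nat_lit 3) (nat_lit 282) (nat_lit 206) (nat_lit 292))) (PT.nd (nat_lit 78) (PT.lf (nat_lit 14516) (nat_lit 6) (nat_lit 191) (nat_lit 3) (nat_lit 283) (nat_lit 206) (nat_lit 291)) (PT.lf (nat_lit 14592) (nat_lit 6) (nat_lit 192) (nat_lit 3) (nat_lit 284) (nat_lit 206) (nat_lit 290)))))) (PT.nd (nat_lit 80886) (PT.nd (nat_lit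 312) (PT.nd (nat_lit 156) (PT.nd (nat_lit 78) (PT.lf (nat_lit 14668) (nat_lit 6) (nat_lit 193) (nat_lit 3) (nat_lit 285) (nat_lit 206) (nat_lit 289)) (PT.lf (nat_lit 14744) (nat_lit 6) (nat_lit 194) (nat_lit 3) (nat_lit 286) (nat_lit 206) (nat_lit 288))) (PT.nd (nat_lit 78) (PT.lf (nat_lit 14820) (nat_lit 3) (nat_lit 195) (nat_lit 1) (nat_lit 287) (nat_lit 206) (nat_lit 287)) (PT.lf (nat_lit 14744) (nat_lit 6) (nat_lit 194) (nat_lit 1) (nat_lit 288) (nat_lit 206) (nat_lit 286)))) (PT.nd (nat_lit 156) (PT.nd (nat_lit 78) (PT.lf (nat_lit 14668) (nat_lit 6) (nat_lit 193) (nat_lit 1) (nat_lit 289) (nat_lit 206) (nat_lit 285)) (PT.lf (nat_lit 14592) (nat_lit 6) (nat_lit 192) (nat_lit 1) (nat_lit 290) (nat_lit 206) (nat_lit 284))) (PT.nd (nat_lit 78) (PT.lf (nat_lit 14516) (nat_lit 6) (nat_lit 191) (nat_lit 1) (nat_lit 291) (nat_lit 206) (nat_lit 283)) (PT.lf (nat_lit 14440) (nat_lit 6) (nat_lit 190) (nat_lit 1) (nat_lit 292) (nat_lit 206) (nat_lit 282))))) (PT.nd (nat_lit 312)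 (PT.nd (nat_lit 156) (PT.nd (nat_lit 78) (PT.lf (nat_lit 14896) (nat_lit 6) (nat_lit 196) (nat_lit 3) (nat_lit 281) (nat_lit 207) (nat_lit 292)) (PT.lf (nat_lit 14972) (nat_lit 6) (nat_lit 197) (nat_lit 3) (nat_lit 282) (nat_lit 207) (nat_lit 291))) (PT.nd (nat_lit 78) (PT.lf (nat_lit 15048) (nat_lit 6) (nat_lit 198) (nat_lit 3) (nat_lit 283) (nat_lit 207) (nat_lit 290)) (PT.lf (nat_lit 15124) (nat_lit 6) (nat_lit 199) (nat_lit 3) (nat_lit 284) (nat_lit 207) (nat_lit 289)))) (PT.nd (nat_lit 156) (PT.nd (nat_lit 78) (PT.lf (nat_lit 15200) (nat_lit 6) (nat_lit 200) (nat_lit 3) (nat_lit 285) (nat_lit 207) (nat_lit 288)) (PT.lf (nat_lit 15276) (nat_lit 6) (nat_lit 201) (nat_lit 3) (nat_lit 286) (nat_lit 207) (nat_lit 287))) (PT.nd (nat_lit 78) (PT.lf (nat_lit 15276) (nat_lit 6) (nat_lit 201) (nat_lit 1) (nat_lit 287) (nat_lit 207) (nat_lit 286)) (PT.lf (nat_lit 15200) (nat_lit 6) (nat_lit 200) (nat_lit 1) (nat_lit 288) (nat_lit 207) (nat_lit 285))))))) (PT.nd (nat_lit 81354) (PT.nd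 (nat_lit 80730) (PT.nd (nat_lit 234) (PT.nd (nat_lit 78) (PT.lf (nat_lit 15124) (nat_lit 6) (nat_lit 199) (nat_lit 1) (nat_lit 289) (nat_lit 207) (nat_lit 284)) (PT.nd (nat_lit 78) (PT.lf (nat_lit 15048) (nat_lit 6) (nat_lit 198) (nat_lit 1) (nat_lit 290) (nat_lit 207) (nat_lit 283)) (PT.lf (nat_lit 14972) (nat_lit 6) (nat_lit 197) (nat_lit 1) (nat_lit 291) (nat_lit 207) (nat_lit 282)))) (PT.nd (nat_lit 80340) (PT.nd (nat_lit 80262) (PT.lf (nat_lit 14896) (nat_lit 6) (nat_lit 196) (nat_lit 1) (nat_lit 292) (nat_lit 207) (nat_lit 281)) (PT.lf (nat_lit 15352) (nat_lit 6) (nat_lit 202) (nat_lit 3) (nat_lit 280) (nat_lit 208) (nat_lit 292))) (PT.nd (nat_lit 78) (PT.lf (nat_lit 15428) (nat_lit 6) (nat_lit 203) (nat_lit 3) (nat_lit 281) (nat_lit 208) (nat_lit 291)) (PT.lf (nat_lit 15504) (nat_lit 6) (nat_lit 204) (nat_lit 3) (nat_lit 282) (nat_lit 208) (nat_lit 290))))) (PT.nd (nat_lit 312) (PT.nd (nat_lit 156) (PT.nd (nat_lit 78) (PT.lf (nat_lit 15580) (nat_lit 6) (nat_lit 205)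 (nat_lit 3) (nat_lit 283) (nat_lit 208) (nat_lit 289)) (PT.lf (nat_lit 15656) (nat_lit 6) (nat_lit 206) (nat_lit 3) (nat_lit 284) (nat_lit 208) (nat_lit 288))) (PT.nd (nat_lit 78) (PT.lf (nat_lit 15732) (nat_lit 6) (nat_lit 207) (nat_lit 3) (nat_lit 285) (nat_lit 208) (nat_lit 287)) (PT.lf (nat_lit 15808) (nat_lit 3) (nat_lit 208) (nat_lit 1) (nat_lit 286) (nat_lit 208) (nat_lit 286)))) (PT.nd (nat_lit 156) (PT.nd (nat_lit 78) (PT.lf (nat_lit 15732) (nat_lit 6) (nat_lit 207) (nat_lit 1) (nat_lit 287) (nat_lit 208) (nat_lit 285)) (PT.lf (nat_lit 15656) (nat_lit 6) (nat_lit 206) (nat_lit 1) (nat_lit 288) (nat_lit 208) (nat_lit 284))) (PT.nd (nat_lit 78) (PT.lf (nat_lit 15580) (nat_lit 6) (nat_lit 205) (nat_lit 1) (nat_lit 289) (nat_lit 208) (nat_lit 283)) (PT.lf (nat_lit 15504) (nat_lit 6) (nat_lit 204) (nat_lit 1) (nat_lit 290) (nat_lit 208) (nat_lit 282)))))) (PT.nd (nat_lit 80808) (PT.nd (nat_lit 80496) (PT.nd (nat_lit 80340) (PT.nd (nat_lit 78) (PT.lf (nat_lit 15428) (nat_lit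 6) (nat_lit 203) (nat_lit 1) (nat_lit 291) (nat_lit 208) (nat_lit 281)) (PT.lf (nat_lit 15352) (nat_lit 6) (nat_lit 202) (nat_lit 1) (nat_lit 292) (nat_lit 208) (nat_lit 280))) (PT.nd (nat_lit 78) (PT.lf (nat_lit 15884) (nat_lit 6) (nat_lit 209) (nat_lit 3) (nat_lit 280) (nat_lit 209) (nat_lit 291)) (PT.lf (nat_lit 15960) (nat_lit 6) (nat_lit 210) (nat_lit 3) (nat_lit 281) (nat_lit 209) (nat_lit 290)))) (PT.nd (nat_lit 156) (PT.nd (nat_lit 78) (PT.lf (nat_lit 16036) (nat_lit 6) (nat_lit 211) (nat_lit 3) (nat_lit 282) (nat_lit 209) (nat_lit 289)) (PT.lf (nat_lit 16112) (nat_lit 6) (nat_lit 212) (nat_lit 3) (nat_lit 283) (nat_lit 209) (nat_lit 288))) (PT.nd (nat_lit 78) (PT.lf (nat_lit 16188) (nat_lit 6) (nat_lit 213) (nat_lit 3) (nat_lit 284) (nat_lit 209) (nat_lit 287)) (PT.lf (nat_lit 16264) (nat_lit 6) (nat_lit 214) (nat_lit 3) (nat_lit 285) (nat_lit 209) (nat_lit 286))))) (PT.nd (nat_lit 312) (PT.nd (nat_lit 156) (PT.nd (nat_lit 78) (PT.lf (nat_lit 16264) (nat_lit 6) (nat_lit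 214) (nat_lit 1) (nat_lit 286) (nat_lit 209) (nat_lit 285)) (PT.lf (nat_lit 16188) (nat_lit 6) (nat_lit 213) (nat_lit 1) (nat_lit 287) (nat_lit 209) (nat_lit 284))) (PT.nd (nat_lit 78) (PT.lf (nat_lit 16112) (nat_lit 6) (nat_lit 212) (nat_lit 1) (nat_lit 288) (nat_lit 209) (nat_lit 283)) (PT.lf (nat_lit 16036) (nat_lit 6) (nat_lit 211) (nat_lit 1) (nat_lit 289) (nat_lit 209) (nat_lit 282)))) (PT.nd (nat_lit 80340) (PT.nd (nat_lit 78) (PT.lf (nat_lit 15960) (nat_lit 6) (nat_lit 210) (nat_lit 1) (nat_lit 290) (nat_lit 209) (nat_lit 281)) (PT.lf (nat_lit 15884) (nat_lit 6) (nat_lit 209) (nat_lit 1) (nat_lit 291) (nat_lit 209) (nat_lit 280))) (PT.nd (nat_lit 78) (PT.lf (nat_lit 16340) (nat_lit 6) (nat_lit 215) (nat_lit 3) (nat_lit 279) (nat_lit 210) (nat_lit 291)) (PT.lf (nat_lit 16416) (nat_lit 6) (nat_lit 216) (nat_lit 3) (nat_lit 280) (nat_lit 210) (nat_lit 290))))))))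
noncomputable def pc4 : PT := (PT.nd (nat_lit 162630) (PT.nd (nat_lit 81276) (PT.nd (nat_lit 546) (PT.nd (nat_lit 234) (PT.nd (nat_lit 78) (PT.lf (nat_lit 16492) (nat_lit 6) (nat_lit 217) (nat_lit 3) (nat_lit 281) (nat_lit 210) (nat_lit 289)) (PT.nd (nat_lit 78) (PT.lf (nat_lit 16568) (nat_lit 6) (nat_lit 218) (nat_lit 3) (nat_lit 282) (nat_lit 210) (nat_lit 288)) (PT.lf (nat_lit 16644) (nat_lit 6) (nat_lit 219) (nat_lit 3) (nat_lit 283) (nat_lit 210) (nat_lit 287)))) (PT.nd (nat_lit 156) (PT.nd (nat_lit 78) (PT.lf (nat_lit 16720) (nat_lit 6) (nat_lit 220) (nat_lit 3) (nat_lit 284) (nat_lit 210) (nat_lit 286)) (PT.lf (nat_lit 16796) (nat_lit 3) (nat_lit 221) (nat_lit 1) (nat_lit 285) (nat_lit 210) (nat_lit 285))) (PT.nd (nat_lit 78) (PT.lf (nat_lit 16720) (nat_lit 6) (nat_lit 220) (nat_lit 1) (nat_lit 286) (nat_lit 210) (nat_lit 284)) (PT.lf (nat_lit 16644) (nat_lit 6) (nat_lit 219) (nat_lit 1) (nat_lit 287) (nat_lit 210) (nat_lit 283))))) (PT.nd (nat_lit 80418) (PT.nd (nat_lit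 156) (PT.nd (nat_lit 78) (PT.lf (nat_lit 16568) (nat_lit 6) (nat_lit 218) (nat_lit 1) (nat_lit 288) (nat_lit 210) (nat_lit 282)) (PT.lf (nat_lit 16492) (nat_lit 6) (nat_lit 217) (nat_lit 1) (nat_lit 289) (nat_lit 210) (nat_lit 281))) (PT.nd (nat_lit 78) (PT.lf (nat_lit 16416) (nat_lit 6) (nat_lit 216) (nat_lit 1) (nat_lit 290) (nat_lit 210) (nat_lit 280)) (PT.lf (nat_lit 16340) (nat_lit 6) (nat_lit 215) (nat_lit 1) (nat_lit 291) (nat_lit 210) (nat_lit 279)))) (PT.nd (nat_lit 156) (PT.nd (nat_lit 78) (PT.lf (nat_lit 16872) (nat_lit 6) (nat_lit 222) (nat_lit 3) (nat_lit 278) (nat_lit 211) (nat_lit 291)) (PT.lf (nat_lit 16948) (nat_lit 6) (nat_lit 223) (nat_lit 3) (nat_lit 279) (nat_lit 211) (nat_lit 290))) (PT.nd (nat_lit 78) (PT.lf (nat_lit 17024) (nat_lit 6) (nat_lit 224) (nat_lit 3) (nat_lit 280) (nat_lit 211) (nat_lit 289)) (PT.lf (nat_lit 17100) (nat_lit 6) (nat_lit 225) (nat_lit 3) (nat_lit 281) (nat_lit 211) (nat_lit 288)))))) (PT.nd (nat_lit 624) (PT.nd (nat_lit 312)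 (PT.nd (nat_lit 156) (PT.nd (nat_lit 78) (PT.lf (nat_lit 17176) (nat_lit 6) (nat_lit 226) (nat_lit 3) (nat_lit 282) (nat_lit 211) (nat_lit 287)) (PT.lf (nat_lit 17252) (nat_lit 6) (nat_lit 227) (nat_lit 3) (nat_lit 283) (nat_lit 211) (nat_lit 286))) (PT.nd (nat_lit 78) (PT.lf (nat_lit 17328) (nat_lit 6) (nat_lit 228) (nat_lit 3) (nat_lit 284) (nat_lit 211) (nat_lit 285)) (PT.lf (nat_lit 17328) (nat_lit 6) (nat_lit 228) (nat_lit 1) (nat_lit 285) (nat_lit 211) (nat_lit 284)))) (PT.nd (nat_lit 156) (PT.nd (nat_lit 78) (PT.lf (nat_lit 17252) (nat_lit 6) (nat_lit 227) (nat_lit 1) (nat_lit 286) (nat_lit 211) (nat_lit 283)) (PT.lf (nat_lit 17176) (nat_lit 6) (nat_lit 226) (nat_lit 1) (nat_lit 287) (nat_lit 211) (nat_lit 282))) (PT.nd (nat_lit 78) (PT.lf (nat_lit 17100) (nat_lit 6) (nat_lit 225) (nat_lit 1) (nat_lit 288) (nat_lit 211) (nat_lit 281)) (PT.lf (nat_lit 17024) (nat_lit 6) (nat_lit 224) (nat_lit 1) (nat_lit 289) (nat_lit 211) (nat_lit 280))))) (PT.nd (nat_lit 80418) (PT.nd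 (nat_lit 80262) (PT.nd (nat_lit 78) (PT.lf (nat_lit 16948) (nat_lit 6) (nat_lit 223) (nat_lit 1) (nat_lit 290) (nat_lit 211) (nat_lit 279)) (PT.lf (nat_lit 16872) (nat_lit 6) (nat_lit 222) (nat_lit 1) (nat_lit 291) (nat_lit 211) (nat_lit 278))) (PT.nd (nat_lit 78) (PT.lf (nat_lit 17404) (nat_lit 6) (nat_lit 229) (nat_lit 3) (nat_lit 278) (nat_lit 212) (nat_lit 290)) (PT.lf (nat_lit 17480) (nat_lit 6) (nat_lit 230) (nat_lit 3) (nat_lit 279) (nat_lit 212) (nat_lit 289)))) (PT.nd (nat_lit 156) (PT.nd (nat_lit 78) (PT.lf (nat_lit 17556) (nat_lit 6) (nat_lit 231) (nat_lit 3) (nat_lit 280) (nat_lit 212) (nat_lit 288)) (PT.lf (nat_lit 17632) (nat_lit 6) (nat_lit 232) (nat_lit 3) (nat_lit 281) (nat_lit 212) (nat_lit 287))) (PT.nd (nat_lit 78) (PT.lf (nat_lit 17708) (nat_lit 6) (nat_lit 233) (nat_lit 3) (nat_lit 282) (nat_lit 212) (nat_lit 286)) (PT.lf (nat_lit 17784) (nat_lit 6) (nat_lit 234) (nat_lit 3) (nat_lit 283) (nat_lit 212) (nat_lit 285))))))) (PT.nd (nat_lit 81276) (PT.nd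 (nat_lit 80652) (PT.nd (nat_lit 234) (PT.nd (nat_lit 78) (PT.lf (nat_lit 17860) (nat_lit 3) (nat_lit 235) (nat_lit 1) (nat_lit 284) (nat_lit 212) (nat_lit 284)) (PT.nd (nat_lit 78) (PT.lf (nat_lit 17784) (nat_lit 6) (nat_lit 234) (nat_lit 1) (nat_lit 285) (nat_lit 212) (nat_lit 283)) (PT.lf (nat_lit 17708) (nat_lit 6) (nat_lit 233) (nat_lit 1) (nat_lit 286) (nat_lit 212) (nat_lit 282)))) (PT.nd (nat_lit 156) (PT.nd (nat_lit 78) (PT.lf (nat_lit 17632) (nat_lit 6) (nat_lit 232) (nat_lit 1) (nat_lit 287) (nat_lit 212) (nat_lit 281)) (PT.lf (nat_lit 17556) (nat_lit 6) (nat_lit 231) (nat_lit 1) (nat_lit 288) (nat_lit 212) (nat_lit 280))) (PT.nd (nat_lit 78) (PT.lf (nat_lit 17480) (nat_lit 6) (nat_lit 230) (nat_lit 1) (nat_lit 289) (nat_lit 212) (nat_lit 279)) (PT.lf (nat_lit 17404) (nat_lit 6) (nat_lit 229) (nat_lit 1) (nat_lit 290) (nat_lit 212) (nat_lit 278))))) (PT.nd (nat_lit 312) (PT.nd (nat_lit 156) (PT.nd (nat_lit 78) (PT.lf (nat_lit 17936) (nat_lit 6) (nat_lit 236) (nat_lit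 3) (nat_lit 277) (nat_lit 213) (nat_lit 290)) (PT.lf (nat_lit 18012) (nat_lit 6) (nat_lit 237) (nat_lit 3) (nat_lit 278) (nat_lit 213) (nat_lit 289))) (PT.nd (nat_lit 78) (PT.lf (nat_lit 18088) (nat_lit 6) (nat_lit 238) (nat_lit 3) (nat_lit 279) (nat_lit 213) (nat_lit 288)) (PT.lf (nat_lit 18164) (nat_lit 6) (nat_lit 239) (nat_lit 3) (nat_lit 280) (nat_lit 213) (nat_lit 287)))) (PT.nd (nat_lit 156) (PT.nd (nat_lit 78) (PT.lf (nat_lit 18240) (nat_lit 6) (nat_lit 240) (nat_lit 3) (nat_lit 281) (nat_lit 213) (nat_lit 286)) (PT.lf (nat_lit 18316) (nat_lit 6) (nat_lit 241) (nat_lit 3) (nat_lit 282) (nat_lit 213) (nat_lit 285))) (PT.nd (nat_lit 78) (PT.lf (nat_lit 18392) (nat_lit 6) (nat_lit 242) (nat_lit 3) (nat_lit 283) (nat_lit 213) (nat_lit 284)) (PT.lf (nat_lit 18392) (nat_lit 6) (nat_lit 242) (nat_lit 1) (nat_lit 284) (nat_lit 213) (nat_lit 283)))))) (PT.nd (nat_lit 80652) (PT.nd (nat_lit 312) (PT.nd (nat_lit 156) (PT.nd (nat_lit 78) (PT.lf (nat_lit 18316) (nat_lit 6) (nat_lit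 241) (nat_lit 1) (nat_lit 285) (nat_lit 213) (nat_lit 282)) (PT.lf (nat_lit 18240) (nat_lit 6) (nat_lit 240) (nat_lit 1) (nat_lit 286) (nat_lit 213) (nat_lit 281))) (PT.nd (nat_lit 78) (PT.lf (nat_lit 18164) (nat_lit 6) (nat_lit 239) (nat_lit 1) (nat_lit 287) (nat_lit 213) (nat_lit 280)) (PT.lf (nat_lit 18088) (nat_lit 6) (nat_lit 238) (nat_lit 1) (nat_lit 288) (nat_lit 213) (nat_lit 279)))) (PT.nd (nat_lit 80184) (PT.nd (nat_lit 78) (PT.lf (nat_lit 18012) (nat_lit 6) (nat_lit 237) (nat_lit 1) (nat_lit 289) (nat_lit 213) (nat_lit 278)) (PT.lf (nat_lit 17936) (nat_lit 6) (nat_lit 236) (nat_lit 1) (nat_lit 290) (nat_lit 213) (nat_lit 277))) (PT.nd (nat_lit 78) (PT.lf (nat_lit 18468) (nat_lit 6) (nat_lit 243) (nat_lit 3) (nat_lit 276) (nat_lit 214) (nat_lit 290)) (PT.lf (nat_lit 18544) (nat_lit 6) (nat_lit 244) (nat_lit 3) (nat_lit 277) (nat_lit 214) (nat_lit 289))))) (PT.nd (nat_lit 312) (PT.nd (nat_lit 156) (PT.nd (nat_lit 78) (PT.lf (nat_lit 18620) (nat_lit 6) (nat_lit 245)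 (nat_lit 3) (nat_lit 278) (nat_lit 214) (nat_lit 288)) (PT.lf (nat_lit 18696) (nat_lit 6) (nat_lit 246) (nat_lit 3) (nat_lit 279) (nat_lit 214) (nat_lit 287))) (PT.nd (nat_lit 78) (PT.lf (nat_lit 18772) (nat_lit 6) (nat_lit 247) (nat_lit 3) (nat_lit 280) (nat_lit 214) (nat_lit 286)) (PT.lf (nat_lit 18848) (nat_lit 6) (nat_lit 248) (nat_lit 3) (nat_lit 281) (nat_lit 214) (nat_lit 285)))) (PT.nd (nat_lit 156) (PT.nd (nat_lit 78) (PT.lf (nat_lit 18924) (nat_lit 6) (nat_lit 249) (nat_lit 3) (nat_lit 282) (nat_lit 214) (nat_lit 284)) (PT.lf (nat_lit 19000) (nat_lit 3) (nat_lit 250) (nat_lit 1) (nat_lit 283) (nat_lit 214) (nat_lit 283))) (PT.nd (nat_lit 78) (PT.lf (nat_lit 18924) (nat_lit 6) (nat_lit 249) (nat_lit 1) (nat_lit 284) (nat_lit 214) (nat_lit 282)) (PT.lf (nat_lit 18848) (nat_lit 6) (nat_lit 248) (nat_lit 1) (nat_lit 285) (nat_lit 214) (nat_lit 281))))))))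
noncomputable def pc5 : PT := (PT.nd (nat_lit 162474) (PT.nd (nat_lit 81198) (PT.nd (nat_lit 80574) (PT.nd (nat_lit 234) (PT.nd (nat_lit 78) (PT.lf (nat_lit 18772) (nat_lit 6) (nat_lit 247) (nat_lit 1) (nat_lit 286) (nat_lit 214) (nat_lit 280)) (PT.nd (nat_lit 78) (PT.lf (nat_lit 18696) (nat_lit 6) (nat_lit 246) (nat_lit 1) (nat_lit 287) (nat_lit 214) (nat_lit 279)) (PT.lf (nat_lit 18620) (nat_lit 6) (nat_lit 245) (nat_lit 1) (nat_lit 288) (nat_lit 214) (nat_lit 278)))) (PT.nd (nat_lit 80184) (PT.nd (nat_lit 78) (PT.lf (nat_lit 18544) (nat_lit 6) (nat_lit 244) (nat_lit 1) (nat_lit 289) (nat_lit 214) (nat_lit 277)) (PT.lf (nat_lit 18468) (nat_lit 6) (nat_lit 243) (nat_lit 1) (nat_lit 290) (nat_lit 214) (nat_lit 276))) (PT.nd (nat_lit 78) (PT.lf (nat_lit 19076) (nat_lit 6) (nat_lit 251) (nat_lit 3) (nat_lit 276) (nat_lit 215) (nat_lit 289)) (PT.lf (nat_lit 19152) (nat_lit 6) (nat_lit 252) (nat_lit 3) (nat_lit 277) (nat_lit 215) (nat_lit 288))))) (PT.nd (nat_lit 312) (PT.nd (nat_lit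 156) (PT.nd (nat_lit 78) (PT.lf (nat_lit 19228) (nat_lit 6) (nat_lit 253) (nat_lit 3) (nat_lit 278) (nat_lit 215) (nat_lit 287)) (PT.lf (nat_lit 19304) (nat_lit 6) (nat_lit 254) (nat_lit 3) (nat_lit 279) (nat_lit 215) (nat_lit 286))) (PT.nd (nat_lit 78) (PT.lf (nat_lit 19380) (nat_lit 6) (nat_lit 255) (nat_lit 3) (nat_lit 280) (nat_lit 215) (nat_lit 285)) (PT.lf (nat_lit 19456) (nat_lit 6) (nat_lit 256) (nat_lit 3) (nat_lit 281) (nat_lit 215) (nat_lit 284)))) (PT.nd (nat_lit 156) (PT.nd (nat_lit 78) (PT.lf (nat_lit 19532) (nat_lit 6) (nat_lit 257) (nat_lit 3) (nat_lit 282) (nat_lit 215) (nat_lit 283)) (PT.lf (nat_lit 19532) (nat_lit 6) (nat_lit 257) (nat_lit 1) (nat_lit 283) (nat_lit 215) (nat_lit 282))) (PT.nd (nat_lit 78) (PT.lf (nat_lit 19456) (nat_lit 6) (nat_lit 256) (nat_lit 1) (nat_lit 284) (nat_lit 215) (nat_lit 281)) (PT.lf (nat_lit 19380) (nat_lit 6) (nat_lit 255) (nat_lit 1) (nat_lit 285) (nat_lit 215) (nat_lit 280)))))) (PT.nd (nat_lit 80652) (PT.nd (nat_lit 80340)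 (PT.nd (nat_lit 156) (PT.nd (nat_lit 78) (PT.lf (nat_lit 19304) (nat_lit 6) (nat_lit 254) (nat_lit 1) (nat_lit 286) (nat_lit 215) (nat_lit 279)) (PT.lf (nat_lit 19228) (nat_lit 6) (nat_lit 253) (nat_lit 1) (nat_lit 287) (nat_lit 215) (nat_lit 278))) (PT.nd (nat_lit 78) (PT.lf (nat_lit 19152) (nat_lit 6) (nat_lit 252) (nat_lit 1) (nat_lit 288) (nat_lit 215) (nat_lit 277)) (PT.lf (nat_lit 19076) (nat_lit 6) (nat_lit 251) (nat_lit 1) (nat_lit 289) (nat_lit 215) (nat_lit 276)))) (PT.nd (nat_lit 156) (PT.nd (nat_lit 78) (PT.lf (nat_lit 19608) (nat_lit 6) (nat_lit 258) (nat_lit 3) (nat_lit 275) (nat_lit 216) (nat_lit 289)) (PT.lf (nat_lit 19684) (nat_lit 6) (nat_lit 259) (nat_lit 3) (nat_lit 276) (nat_lit 216) (nat_lit 288))) (PT.nd (nat_lit 78) (PT.lf (nat_lit 19760) (nat_lit 6) (nat_lit 260) (nat_lit 3) (nat_lit 277) (nat_lit 216) (nat_lit 287)) (PT.lf (nat_lit 19836) (nat_lit 6) (nat_lit 261) (nat_lit 3) (nat_lit 278) (nat_lit 216) (nat_lit 286))))) (PT.nd (nat_lit 312) (PT.nd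 (nat_lit 156) (PT.nd (nat_lit 78) (PT.lf (nat_lit 19912) (nat_lit 6) (nat_lit 262) (nat_lit 3) (nat_lit 279) (nat_lit 216) (nat_lit 285)) (PT.lf (nat_lit 19988) (nat_lit 6) (nat_lit 263) (nat_lit 3) (nat_lit 280) (nat_lit 216) (nat_lit 284))) (PT.nd (nat_lit 78) (PT.lf (nat_lit 20064) (nat_lit 6) (nat_lit 264) (nat_lit 3) (nat_lit 281) (nat_lit 216) (nat_lit 283)) (PT.lf (nat_lit 20140) (nat_lit 3) (nat_lit 265) (nat_lit 1) (nat_lit 282) (nat_lit 216) (nat_lit 282)))) (PT.nd (nat_lit 156) (PT.nd (nat_lit 78) (PT.lf (nat_lit 20064) (nat_lit 6) (nat_lit 264) (nat_lit 1) (nat_lit 283) (nat_lit 216) (nat_lit 281)) (PT.lf (nat_lit 19988) (nat_lit 6) (nat_lit 263) (nat_lit 1) (nat_lit 284) (nat_lit 216) (nat_lit 280))) (PT.nd (nat_lit 78) (PT.lf (nat_lit 19912) (nat_lit 6) (nat_lit 262) (nat_lit 1) (nat_lit 285) (nat_lit 216) (nat_lit 279)) (PT.lf (nat_lit 19836) (nat_lit 6) (nat_lit 261) (nat_lit 1) (nat_lit 286) (nat_lit 216) (nat_lit 278))))))) (PT.nd (nat_lit 81120) (PT.nd (nat_lit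 80496) (PT.nd (nat_lit 80184) (PT.nd (nat_lit 78) (PT.lf (nat_lit 19760) (nat_lit 6) (nat_lit 260) (nat_lit 1) (nat_lit 287) (nat_lit 216) (nat_lit 277)) (PT.nd (nat_lit 78) (PT.lf (nat_lit 19684) (nat_lit 6) (nat_lit 259) (nat_lit 1) (nat_lit 288) (nat_lit 216) (nat_lit 276)) (PT.lf (nat_lit 19608) (nat_lit 6) (nat_lit 258) (nat_lit 1) (nat_lit 289) (nat_lit 216) (nat_lit 275)))) (PT.nd (nat_lit 156) (PT.nd (nat_lit 78) (PT.lf (nat_lit 20216) (nat_lit 6) (nat_lit 266) (nat_lit 3) (nat_lit 274) (nat_lit 217) (nat_lit 289)) (PT.lf (nat_lit 20292) (nat_lit 6) (nat_lit 267) (nat_lit 3) (nat_lit 275) (nat_lit 217) (nat_lit 288))) (PT.nd (nat_lit 78) (PT.lf (nat_lit 20368) (nat_lit 6) (nat_lit 268) (nat_lit 3) (nat_lit 276) (nat_lit 217) (nat_lit 287)) (PT.lf (nat_lit 20444) (nat_lit 6) (nat_lit 269) (nat_lit 3) (nat_lit 277) (nat_lit 217) (nat_lit 286))))) (PT.nd (nat_lit 312) (PT.nd (nat_lit 156) (PT.nd (nat_lit 78) (PT.lf (nat_lit 20520) (nat_lit 6) (nat_lit 270) (nat_lit 3)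 (nat_lit 278) (nat_lit 217) (nat_lit 285)) (PT.lf (nat_lit 20596) (nat_lit 6) (nat_lit 271) (nat_lit 3) (nat_lit 279) (nat_lit 217) (nat_lit 284))) (PT.nd (nat_lit 78) (PT.lf (nat_lit 20672) (nat_lit 6) (nat_lit 272) (nat_lit 3) (nat_lit 280) (nat_lit 217) (nat_lit 283)) (PT.lf (nat_lit 20748) (nat_lit 6) (nat_lit 273) (nat_lit 3) (nat_lit 281) (nat_lit 217) (nat_lit 282)))) (PT.nd (nat_lit 156) (PT.nd (nat_lit 78) (PT.lf (nat_lit 20748) (nat_lit 6) (nat_lit 273) (nat_lit 1) (nat_lit 282) (nat_lit 217) (nat_lit 281)) (PT.lf (nat_lit 20672) (nat_lit 6) (nat_lit 272) (nat_lit 1) (nat_lit 283) (nat_lit 217) (nat_lit 280))) (PT.nd (nat_lit 78) (PT.lf (nat_lit 20596) (nat_lit 6) (nat_lit 271) (nat_lit 1) (nat_lit 284) (nat_lit 217) (nat_lit 279)) (PT.lf (nat_lit 20520) (nat_lit 6) (nat_lit 270) (nat_lit 1) (nat_lit 285) (nat_lit 217) (nat_lit 278)))))) (PT.nd (nat_lit 80574) (PT.nd (nat_lit 80262) (PT.nd (nat_lit 156) (PT.nd (nat_lit 78) (PT.lf (nat_lit 20444) (nat_lit 6) (nat_lit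 269) (nat_lit 1) (nat_lit 286) (nat_lit 217) (nat_lit 277)) (PT.lf (nat_lit 20368) (nat_lit 6) (nat_lit 268) (nat_lit 1) (nat_lit 287) (nat_lit 217) (nat_lit 276))) (PT.nd (nat_lit 78) (PT.lf (nat_lit 20292) (nat_lit 6) (nat_lit 267) (nat_lit 1) (nat_lit 288) (nat_lit 217) (nat_lit 275)) (PT.lf (nat_lit 20216) (nat_lit 6) (nat_lit 266) (nat_lit 1) (nat_lit 289) (nat_lit 217) (nat_lit 274)))) (PT.nd (nat_lit 156) (PT.nd (nat_lit 78) (PT.lf (nat_lit 20900) (nat_lit 6) (nat_lit 275) (nat_lit 3) (nat_lit 274) (nat_lit 218) (nat_lit 288)) (PT.lf (nat_lit 20976) (nat_lit 6) (nat_lit 276) (nat_lit 3) (nat_lit 275) (nat_lit 218) (nat_lit 287))) (PT.nd (nat_lit 78) (PT.lf (nat_lit 21052) (nat_lit 6) (nat_lit 277) (nat_lit 3) (nat_lit 276) (nat_lit 218) (nat_lit 286)) (PT.lf (nat_lit 21128) (nat_lit 6) (nat_lit 278) (nat_lit 3) (nat_lit 277) (nat_lit 218) (nat_lit 285))))) (PT.nd (nat_lit 312) (PT.nd (nat_lit 156) (PT.nd (nat_lit 78) (PT.lf (nat_lit 21204) (nat_lit 6) (nat_lit 279)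 (nat_lit 3) (nat_lit 278) (nat_lit 218) (nat_lit 284)) (PT.lf (nat_lit 21280) (nat_lit 6) (nat_lit 280) (nat_lit 3) (nat_lit 279) (nat_lit 218) (nat_lit 283))) (PT.nd (nat_lit 78) (PT.lf (nat_lit 21356) (nat_lit 6) (nat_lit 281) (nat_lit 3) (nat_lit 280) (nat_lit 218) (nat_lit 282)) (PT.lf (nat_lit 21432) (nat_lit 3) (nat_lit 282) (nat_lit 1) (nat_lit 281) (nat_lit 218) (nat_lit 281)))) (PT.nd (nat_lit 156) (PT.nd (nat_lit 78) (PT.lf (nat_lit 21356) (nat_lit 6) (nat_lit 281) (nat_lit 1) (nat_lit 282) (nat_lit 218) (nat_lit 280)) (PT.lf (nat_lit 21280) (nat_lit 6) (nat_lit 280) (nat_lit 1) (nat_lit 283) (nat_lit 218) (nat_lit 279))) (PT.nd (nat_lit 78) (PT.lf (nat_lit 21204) (nat_lit 6) (nat_lit 279) (nat_lit 1) (nat_lit 284) (nat_lit 218) (nat_lit 278)) (PT.lf (nat_lit 21128) (nat_lit 6) (nat_lit 278) (nat_lit 1) (nat_lit 285) (nat_lit 218) (nat_lit 277))))))))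
noncomputable def pc6 : PT := (PT.nd (nat_lit 162240) (PT.nd (nat_lit 81120) (PT.nd (nat_lit 80496) (PT.nd (nat_lit 80184) (PT.nd (nat_lit 78) (PT.lf (nat_lit 21052) (nat_lit 6) (nat_lit 277) (nat_lit 1) (nat_lit 286) (nat_lit 218) (nat_lit 276)) (PT.nd (nat_lit 78) (PT.lf (nat_lit 20976) (nat_lit 6) (nat_lit 276) (nat_lit 1) (nat_lit 287) (nat_lit 218) (nat_lit 275)) (PT.lf (nat_lit 20900) (nat_lit 6) (nat_lit 275) (nat_lit 1) (nat_lit 288) (nat_lit 218) (nat_lit 274)))) (PT.nd (nat_lit 156) (PT.nd (nat_lit 78) (PT.lf (nat_lit 21508) (nat_lit 6) (nat_lit 283) (nat_lit 3) (nat_lit 273) (nat_lit 219) (nat_lit 288)) (PT.lf (nat_lit 21584) (nat_lit 6) (nat_lit 284) (nat_lit 3) (nat_lit 274) (nat_lit 219) (nat_lit 287))) (PT.nd (nat_lit 78) (PT.lf (nat_lit 21660) (nat_lit 6) (nat_lit 285) (nat_lit 3) (nat_lit 275) (nat_lit 219) (nat_lit 286)) (PT.lf (nat_lit 21736) (nat_lit 6) (nat_lit 286) (nat_lit 3) (nat_lit 276) (nat_lit 219) (nat_lit 285))))) (PT.nd (nat_lit 312) (PT.nd (nat_lit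 156) (PT.nd (nat_lit 78) (PT.lf (nat_lit 21812) (nat_lit 6) (nat_lit 287) (nat_lit 3) (nat_lit 277) (nat_lit 219) (nat_lit 284)) (PT.lf (nat_lit 21888) (nat_lit 6) (nat_lit 288) (nat_lit 3) (nat_lit 278) (nat_lit 219) (nat_lit 283))) (PT.nd (nat_lit 78) (PT.lf (nat_lit 21964) (nat_lit 6) (nat_lit 289) (nat_lit 3) (nat_lit 279) (nat_lit 219) (nat_lit 282)) (PT.lf (nat_lit 22040) (nat_lit 6) (nat_lit 290) (nat_lit 3) (nat_lit 280) (nat_lit 219) (nat_lit 281)))) (PT.nd (nat_lit 156) (PT.nd (nat_lit 78) (PT.lf (nat_lit 22040) (nat_lit 6) (nat_lit 290) (nat_lit 1) (nat_lit 281) (nat_lit 219) (nat_lit 280)) (PT.lf (nat_lit 21964) (nat_lit 6) (nat_lit 289) (nat_lit 1) (nat_lit 282) (nat_lit 219) (nat_lit 279))) (PT.nd (nat_lit 78) (PT.lf (nat_lit 21888) (nat_lit 6) (nat_lit 288) (nat_lit 1) (nat_lit 283) (nat_lit 219) (nat_lit 278)) (PT.lf (nat_lit 21812) (nat_lit 6) (nat_lit 287) (nat_lit 1) (nat_lit 284) (nat_lit 219) (nat_lit 277)))))) (PT.nd (nat_lit 80496) (PT.nd (nat_lit 80184)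 (PT.nd (nat_lit 156) (PT.nd (nat_lit 78) (PT.lf (nat_lit 21736) (nat_lit 6) (nat_lit 286) (nat_lit 1) (nat_lit 285) (nat_lit 219) (nat_lit 276)) (PT.lf (nat_lit 21660) (nat_lit 6) (nat_lit 285) (nat_lit 1) (nat_lit 286) (nat_lit 219) (nat_lit 275))) (PT.nd (nat_lit 78) (PT.lf (nat_lit 21584) (nat_lit 6) (nat_lit 284) (nat_lit 1) (nat_lit 287) (nat_lit 219) (nat_lit 274)) (PT.lf (nat_lit 21508) (nat_lit 6) (nat_lit 283) (nat_lit 1) (nat_lit 288) (nat_lit 219) (nat_lit 273)))) (PT.nd (nat_lit 156) (PT.nd (nat_lit 78) (PT.lf (nat_lit 22116) (nat_lit 6) (nat_lit 291) (nat_lit 3) (nat_lit 272) (nat_lit 220) (nat_lit 288)) (PT.lf (nat_lit 22192) (nat_lit 6) (nat_lit 292) (nat_lit 3) (nat_lit 273) (nat_lit 220) (nat_lit 287))) (PT.nd (nat_lit 78) (PT.lf (nat_lit 22268) (nat_lit 6) (nat_lit 293) (nat_lit 3) (nat_lit 274) (nat_lit 220) (nat_lit 286)) (PT.lf (nat_lit 22344) (nat_lit 6) (nat_lit 294) (nat_lit 3) (nat_lit 275) (nat_lit 220) (nat_lit 285))))) (PT.nd (nat_lit 312) (PT.nd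 (nat_lit 156) (PT.nd (nat_lit 78) (PT.lf (nat_lit 22420) (nat_lit 6) (nat_lit 295) (nat_lit 3) (nat_lit 276) (nat_lit 220) (nat_lit 284)) (PT.lf (nat_lit 22496) (nat_lit 6) (nat_lit 296) (nat_lit 3) (nat_lit 277) (nat_lit 220) (nat_lit 283))) (PT.nd (nat_lit 78) (PT.lf (nat_lit 22572) (nat_lit 6) (nat_lit 297) (nat_lit 3) (nat_lit 278) (nat_lit 220) (nat_lit 282)) (PT.lf (nat_lit 22648) (nat_lit 6) (nat_lit 298) (nat_lit 3) (nat_lit 279) (nat_lit 220) (nat_lit 281)))) (PT.nd (nat_lit 156) (PT.nd (nat_lit 78) (PT.lf (nat_lit 22724) (nat_lit 3) (nat_lit 299) (nat_lit 1) (nat_lit 280) (nat_lit 220) (nat_lit 280)) (PT.lf (nat_lit 22648) (nat_lit 6) (nat_lit 298) (nat_lit 1) (nat_lit 281) (nat_lit 220) (nat_lit 279))) (PT.nd (nat_lit 78) (PT.lf (nat_lit 22572) (nat_lit 6) (nat_lit 297) (nat_lit 1) (nat_lit 282) (nat_lit 220) (nat_lit 278)) (PT.lf (nat_lit 22496) (nat_lit 6) (nat_lit 296) (nat_lit 1) (nat_lit 283) (nat_lit 220) (nat_lit 277))))))) (PT.nd (nat_lit 80964) (PT.nd (nat_lit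 80340) (PT.nd (nat_lit 234) (PT.nd (nat_lit 78) (PT.lf (nat_lit 22420) (nat_lit 6) (nat_lit 295) (nat_lit 1) (nat_lit 284) (nat_lit 220) (nat_lit 276)) (PT.nd (nat_lit 78) (PT.lf (nat_lit 22344) (nat_lit 6) (nat_lit 294) (nat_lit 1) (nat_lit 285) (nat_lit 220) (nat_lit 275)) (PT.lf (nat_lit 22268) (nat_lit 6) (nat_lit 293) (nat_lit 1) (nat_lit 286) (nat_lit 220) (nat_lit 274)))) (PT.nd (nat_lit 79950) (PT.nd (nat_lit 78) (PT.lf (nat_lit 22192) (nat_lit 6) (nat_lit 292) (nat_lit 1) (nat_lit 287) (nat_lit 220) (nat_lit 273)) (PT.lf (nat_lit 22116) (nat_lit 6) (nat_lit 291) (nat_lit 1) (nat_lit 288) (nat_lit 220) (nat_lit 272))) (PT.nd (nat_lit 78) (PT.lf (nat_lit 22800) (nat_lit 6) (nat_lit 300) (nat_lit 3) (nat_lit 271) (nat_lit 221) (nat_lit 288)) (PT.lf (nat_lit 22876) (nat_lit 6) (nat_lit 301) (nat_lit 3) (nat_lit 272) (nat_lit 221) (nat_lit 287))))) (PT.nd (nat_lit 312) (PT.nd (nat_lit 156) (PT.nd (nat_lit 78) (PT.lf (nat_lit 22952) (nat_lit 6) (nat_lit 302) (nat_lit 3)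 (nat_lit 273) (nat_lit 221) (nat_lit 286)) (PT.lf (nat_lit 23028) (nat_lit 6) (nat_lit 303) (nat_lit 3) (nat_lit 274) (nat_lit 221) (nat_lit 285))) (PT.nd (nat_lit 78) (PT.lf (nat_lit 23104) (nat_lit 6) (nat_lit 304) (nat_lit 3) (nat_lit 275) (nat_lit 221) (nat_lit 284)) (PT.lf (nat_lit 23180) (nat_lit 6) (nat_lit 305) (nat_lit 3) (nat_lit 276) (nat_lit 221) (nat_lit 283)))) (PT.nd (nat_lit 156) (PT.nd (nat_lit 78) (PT.lf (nat_lit 23256) (nat_lit 6) (nat_lit 306) (nat_lit 3) (nat_lit 277) (nat_lit 221) (nat_lit 282)) (PT.lf (nat_lit 23332) (nat_lit 6) (nat_lit 307) (nat_lit 3) (nat_lit 278) (nat_lit 221) (nat_lit 281))) (PT.nd (nat_lit 78) (PT.lf (nat_lit 23408) (nat_lit 6) (nat_lit 308) (nat_lit 3) (nat_lit 279) (nat_lit 221) (nat_lit 280)) (PT.lf (nat_lit 23408) (nat_lit 6) (nat_lit 308) (nat_lit 1) (nat_lit 280) (nat_lit 221) (nat_lit 279)))))) (PT.nd (nat_lit 80418) (PT.nd (nat_lit 312) (PT.nd (nat_lit 156) (PT.nd (nat_lit 78) (PT.lf (nat_lit 23332) (nat_lit 6) (nat_lit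 307) (nat_lit 1) (nat_lit 281) (nat_lit 221) (nat_lit 278)) (PT.lf (nat_lit 23256) (nat_lit 6) (nat_lit 306) (nat_lit 1) (nat_lit 282) (nat_lit 221) (nat_lit 277))) (PT.nd (nat_lit 78) (PT.lf (nat_lit 23180) (nat_lit 6) (nat_lit 305) (nat_lit 1) (nat_lit 283) (nat_lit 221) (nat_lit 276)) (PT.lf (nat_lit 23104) (nat_lit 6) (nat_lit 304) (nat_lit 1) (nat_lit 284) (nat_lit 221) (nat_lit 275)))) (PT.nd (nat_lit 156) (PT.nd (nat_lit 78) (PT.lf (nat_lit 23028) (nat_lit 6) (nat_lit 303) (nat_lit 1) (nat_lit 285) (nat_lit 221) (nat_lit 274)) (PT.lf (nat_lit 22952) (nat_lit 6) (nat_lit 302) (nat_lit 1) (nat_lit 286) (nat_lit 221) (nat_lit 273))) (PT.nd (nat_lit 78) (PT.lf (nat_lit 22876) (nat_lit 6) (nat_lit 301) (nat_lit 1) (nat_lit 287) (nat_lit 221) (nat_lit 272)) (PT.lf (nat_lit 22800) (nat_lit 6) (nat_lit 300) (nat_lit 1) (nat_lit 288) (nat_lit 221) (nat_lit 271))))) (PT.nd (nat_lit 312) (PT.nd (nat_lit 156) (PT.nd (nat_lit 78) (PT.lf (nat_lit 23484) (nat_lit 6) (nat_lit 309)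 (nat_lit 3) (nat_lit 271) (nat_lit 222) (nat_lit 287)) (PT.lf (nat_lit 23560) (nat_lit 6) (nat_lit 310) (nat_lit 3) (nat_lit 272) (nat_lit 222) (nat_lit 286))) (PT.nd (nat_lit 78) (PT.lf (nat_lit 23636) (nat_lit 6) (nat_lit 311) (nat_lit 3) (nat_lit 273) (nat_lit 222) (nat_lit 285)) (PT.lf (nat_lit 23712) (nat_lit 6) (nat_lit 312) (nat_lit 3) (nat_lit 274) (nat_lit 222) (nat_lit 284)))) (PT.nd (nat_lit 156) (PT.nd (nat_lit 78) (PT.lf (nat_lit 23788) (nat_lit 6) (nat_lit 313) (nat_lit 3) (nat_lit 275) (nat_lit 222) (nat_lit 283)) (PT.lf (nat_lit 23864) (nat_lit 6) (nat_lit 314) (nat_lit 3) (nat_lit 276) (nat_lit 222) (nat_lit 282))) (PT.nd (nat_lit 78) (PT.lf (nat_lit 23940) (nat_lit 6) (nat_lit 315) (nat_lit 3) (nat_lit 277) (nat_lit 222) (nat_lit 281)) (PT.lf (nat_lit 24016) (nat_lit 6) (nat_lit 316) (nat_lit 3) (nat_lit 278) (nat_lit 222) (nat_lit 280))))))))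
noncomputable def pc7 : PT := (PT.nd (nat_lit 161928) (PT.nd (nat_lit 80964) (PT.nd (nat_lit 546) (PT.nd (nat_lit 234) (PT.nd (nat_lit 78) (PT.lf (nat_lit 24092) (nat_lit 3) (nat_lit 317) (nat_lit 1) (nat_lit 279) (nat_lit 222) (nat_lit 279)) (PT.nd (nat_lit 78) (PT.lf (nat_lit 24016) (nat_lit 6) (nat_lit 316) (nat_lit 1) (nat_lit 280) (nat_lit 222) (nat_lit 278)) (PT.lf (nat_lit 23940) (nat_lit 6) (nat_lit 315) (nat_lit 1) (nat_lit 281) (nat_lit 222) (nat_lit 277)))) (PT.nd (nat_lit 156) (PT.nd (nat_lit 78) (PT.lf (nat_lit 23864) (nat_lit 6) (nat_lit 314) (nat_lit 1) (nat_lit 282) (nat_lit 222) (nat_lit 276)) (PT.lf (nat_lit 23788) (nat_lit 6) (nat_lit 313) (nat_lit 1) (nat_lit 283) (nat_lit 222) (nat_lit 275))) (PT.nd (nat_lit 78) (PT.lf (nat_lit 23712) (nat_lit 6) (nat_lit 312) (nat_lit 1) (nat_lit 284) (nat_lit 222) (nat_lit 274)) (PT.lf (nat_lit 23636) (nat_lit 6) (nat_lit 311) (nat_lit 1) (nat_lit 285) (nat_lit 222) (nat_lit 273))))) (PT.nd (nat_lit 80106) (PT.nd (nat_lit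 79950) (PT.nd (nat_lit 78) (PT.lf (nat_lit 23560) (nat_lit 6) (nat_lit 310) (nat_lit 1) (nat_lit 286) (nat_lit 222) (nat_lit 272)) (PT.lf (nat_lit 23484) (nat_lit 6) (nat_lit 309) (nat_lit 1) (nat_lit 287) (nat_lit 222) (nat_lit 271))) (PT.nd (nat_lit 78) (PT.lf (nat_lit 24168) (nat_lit 6) (nat_lit 318) (nat_lit 3) (nat_lit 270) (nat_lit 223) (nat_lit 287)) (PT.lf (nat_lit 24244) (nat_lit 6) (nat_lit 319) (nat_lit 3) (nat_lit 271) (nat_lit 223) (nat_lit 286)))) (PT.nd (nat_lit 156) (PT.nd (nat_lit 78) (PT.lf (nat_lit 24320) (nat_lit 6) (nat_lit 320) (nat_lit 3) (nat_lit 272) (nat_lit 223) (nat_lit 285)) (PT.lf (nat_lit 24396) (nat_lit 6) (nat_lit 321) (nat_lit 3) (nat_lit 273) (nat_lit 223) (nat_lit 284))) (PT.nd (nat_lit 78) (PT.lf (nat_lit 24472) (nat_lit 6) (nat_lit 322) (nat_lit 3) (nat_lit 274) (nat_lit 223) (nat_lit 283)) (PT.lf (nat_lit 24548) (nat_lit 6) (nat_lit 323) (nat_lit 3) (nat_lit 275) (nat_lit 223) (nat_lit 282)))))) (PT.nd (nat_lit 624) (PT.nd (nat_lit 312)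 (PT.nd (nat_lit 156) (PT.nd (nat_lit 78) (PT.lf (nat_lit 24624) (nat_lit 6) (nat_lit 324) (nat_lit 3) (nat_lit 276) (nat_lit 223) (nat_lit 281)) (PT.lf (nat_lit 24700) (nat_lit 6) (nat_lit 325) (nat_lit 3) (nat_lit 277) (nat_lit 223) (nat_lit 280))) (PT.nd (nat_lit 78) (PT.lf (nat_lit 24776) (nat_lit 6) (nat_lit 326) (nat_lit 3) (nat_lit 278) (nat_lit 223) (nat_lit 279)) (PT.lf (nat_lit 24776) (nat_lit 6) (nat_lit 326) (nat_lit 1) (nat_lit 279) (nat_lit 223) (nat_lit 278)))) (PT.nd (nat_lit 156) (PT.nd (nat_lit 78) (PT.lf (nat_lit 24700) (nat_lit 6) (nat_lit 325) (nat_lit 1) (nat_lit 280) (nat_lit 223) (nat_lit 277)) (PT.lf (nat_lit 24624) (nat_lit 6) (nat_lit 324) (nat_lit 1) (nat_lit 281) (nat_lit 223) (nat_lit 276))) (PT.nd (nat_lit 78) (PT.lf (nat_lit 24548) (nat_lit 6) (nat_lit 323) (nat_lit 1) (nat_lit 282) (nat_lit 223) (nat_lit 275)) (PT.lf (nat_lit 24472) (nat_lit 6) (nat_lit 322) (nat_lit 1) (nat_lit 283) (nat_lit 223) (nat_lit 274))))) (PT.nd (nat_lit 80028) (PT.nd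 (nat_lit 156) (PT.nd (nat_lit 78) (PT.lf (nat_lit 24396) (nat_lit 6) (nat_lit 321) (nat_lit 1) (nat_lit 284) (nat_lit 223) (nat_lit 273)) (PT.lf (nat_lit 24320) (nat_lit 6) (nat_lit 320) (nat_lit 1) (nat_lit 285) (nat_lit 223) (nat_lit 272))) (PT.nd (nat_lit 78) (PT.lf (nat_lit 24244) (nat_lit 6) (nat_lit 319) (nat_lit 1) (nat_lit 286) (nat_lit 223) (nat_lit 271)) (PT.lf (nat_lit 24168) (nat_lit 6) (nat_lit 318) (nat_lit 1) (nat_lit 287) (nat_lit 223) (nat_lit 270)))) (PT.nd (nat_lit 156) (PT.nd (nat_lit 78) (PT.lf (nat_lit 24852) (nat_lit 6) (nat_lit 327) (nat_lit 3) (nat_lit 269) (nat_lit 224) (nat_lit 287)) (PT.lf (nat_lit 24928) (nat_lit 6) (nat_lit 328) (nat_lit 3) (nat_lit 270) (nat_lit 224) (nat_lit 286))) (PT.nd (nat_lit 78) (PT.lf (nat_lit 25004) (nat_lit 6) (nat_lit 329) (nat_lit 3) (nat_lit 271) (nat_lit 224) (nat_lit 285)) (PT.lf (nat_lit 25080) (nat_lit 6) (nat_lit 330) (nat_lit 3) (nat_lit 272) (nat_lit 224) (nat_lit 284))))))) (PT.nd (nat_lit 80886) (PT.nd (nat_lit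 624) (PT.nd (nat_lit 312) (PT.nd (nat_lit 156) (PT.nd (nat_lit 78) (PT.lf (nat_lit 25156) (nat_lit 6) (nat_lit 331) (nat_lit 3) (nat_lit 273) (nat_lit 224) (nat_lit 283)) (PT.lf (nat_lit 25232) (nat_lit 6) (nat_lit 332) (nat_lit 3) (nat_lit 274) (nat_lit 224) (nat_lit 282))) (PT.nd (nat_lit 78) (PT.lf (nat_lit 25308) (nat_lit 6) (nat_lit 333) (nat_lit 3) (nat_lit 275) (nat_lit 224) (nat_lit 281)) (PT.lf (nat_lit 25384) (nat_lit 6) (nat_lit 334) (nat_lit 3) (nat_lit 276) (nat_lit 224) (nat_lit 280)))) (PT.nd (nat_lit 156) (PT.nd (nat_lit 78) (PT.lf (nat_lit 25460) (nat_lit 6) (nat_lit 335) (nat_lit 3) (nat_lit 277) (nat_lit 224) (nat_lit 279)) (PT.lf (nat_lit 25536) (nat_lit 3) (nat_lit 336) (nat_lit 1) (nat_lit 278) (nat_lit 224) (nat_lit 278))) (PT.nd (nat_lit 78) (PT.lf (nat_lit 25460) (nat_lit 6) (nat_lit 335) (nat_lit 1) (nat_lit 279) (nat_lit 224) (nat_lit 277)) (PT.lf (nat_lit 25384) (nat_lit 6) (nat_lit 334) (nat_lit 1) (nat_lit 280) (nat_lit 224) (nat_lit 276)))))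 (PT.nd (nat_lit 312) (PT.nd (nat_lit 156) (PT.nd (nat_lit 78) (PT.lf (nat_lit 25308) (nat_lit 6) (nat_lit 333) (nat_lit 1) (nat_lit 281) (nat_lit 224) (nat_lit 275)) (PT.lf (nat_lit 25232) (nat_lit 6) (nat_lit 332) (nat_lit 1) (nat_lit 282) (nat_lit 224) (nat_lit 274))) (PT.nd (nat_lit 78) (PT.lf (nat_lit 25156) (nat_lit 6) (nat_lit 331) (nat_lit 1) (nat_lit 283) (nat_lit 224) (nat_lit 273)) (PT.lf (nat_lit 25080) (nat_lit 6) (nat_lit 330) (nat_lit 1) (nat_lit 284) (nat_lit 224) (nat_lit 272)))) (PT.nd (nat_lit 156) (PT.nd (nat_lit 78) (PT.lf (nat_lit 25004) (nat_lit 6) (nat_lit 329) (nat_lit 1) (nat_lit 285) (nat_lit 224) (nat_lit 271)) (PT.lf (nat_lit 24928) (nat_lit 6) (nat_lit 328) (nat_lit 1) (nat_lit 286) (nat_lit 224) (nat_lit 270))) (PT.nd (nat_lit 79716) (PT.lf (nat_lit 24852) (nat_lit 6) (nat_lit 327) (nat_lit 1) (nat_lit 287) (nat_lit 224) (nat_lit 269)) (PT.lf (nat_lit 25612) (nat_lit 6) (nat_lit 337) (nat_lit 3) (nat_lit 268) (nat_lit 225) (nat_lit 287)))))) (PT.nd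 (nat_lit 624) (PT.nd (nat_lit 312) (PT.nd (nat_lit 156) (PT.nd (nat_lit 78) (PT.lf (nat_lit 25688) (nat_lit 6) (nat_lit 338) (nat_lit 3) (nat_lit 269) (nat_lit 225) (nat_lit 286)) (PT.lf (nat_lit 25764) (nat_lit 6) (nat_lit 339) (nat_lit 3) (nat_lit 270) (nat_lit 225) (nat_lit 285))) (PT.nd (nat_lit 78) (PT.lf (nat_lit 25840) (nat_lit 6) (nat_lit 340) (nat_lit 3) (nat_lit 271) (nat_lit 225) (nat_lit 284)) (PT.lf (nat_lit 25916) (nat_lit 6) (nat_lit 341) (nat_lit 3) (nat_lit 272) (nat_lit 225) (nat_lit 283)))) (PT.nd (nat_lit 156) (PT.nd (nat_lit 78) (PT.lf (nat_lit 25992) (nat_lit 6) (nat_lit 342) (nat_lit 3) (nat_lit 273) (nat_lit 225) (nat_lit 282)) (PT.lf (nat_lit 26068) (nat_lit 6) (nat_lit 343) (nat_lit 3) (nat_lit 274) (nat_lit 225) (nat_lit 281))) (PT.nd (nat_lit 78) (PT.lf (nat_lit 26144) (nat_lit 6) (nat_lit 344) (nat_lit 3) (nat_lit 275) (nat_lit 225) (nat_lit 280)) (PT.lf (nat_lit 26220) (nat_lit 6) (nat_lit 345) (nat_lit 3) (nat_lit 276) (nat_lit 225) (nat_lit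 279))))) (PT.nd (nat_lit 312) (PT.nd (nat_lit 156) (PT.nd (nat_lit 78) (PT.lf (nat_lit 26296) (nat_lit 6) (nat_lit 346) (nat_lit 3) (nat_lit 277) (nat_lit 225) (nat_lit 278)) (PT.lf (nat_lit 26296) (nat_lit 6) (nat_lit 346) (nat_lit 1) (nat_lit 278) (nat_lit 225) (nat_lit 277))) (PT.nd (nat_lit 78) (PT.lf (nat_lit 26220) (nat_lit 6) (nat_lit 345) (nat_lit 1) (nat_lit 279) (nat_lit 225) (nat_lit 276)) (PT.lf (nat_lit 26144) (nat_lit 6) (nat_lit 344) (nat_lit 1) (nat_lit 280) (nat_lit 225) (nat_lit 275)))) (PT.nd (nat_lit 156) (PT.nd (nat_lit 78) (PT.lf (nat_lit 26068) (nat_lit 6) (nat_lit 343) (nat_lit 1) (nat_lit 281) (nat_lit 225) (nat_lit 274)) (PT.lf (nat_lit 25992) (nat_lit 6) (nat_lit 342) (nat_lit 1) (nat_lit 282) (nat_lit 225) (nat_lit 273))) (PT.nd (nat_lit 78) (PT.lf (nat_lit 25916) (nat_lit 6) (nat_lit 341) (nat_lit 1) (nat_lit 283) (nat_lit 225) (nat_lit 272)) (PT.lf (nat_lit 25840) (nat_lit 6) (nat_lit 340) (nat_lit 1) (nat_lit 284) (nat_lit 225) (nat_lit 271))))))))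
noncomputable def pc8 : PT := (PT.nd (nat_lit 161694) (PT.nd (nat_lit 80808) (PT.nd (nat_lit 80184) (PT.nd (nat_lit 79872) (PT.nd (nat_lit 78) (PT.lf (nat_lit 25764) (nat_lit 6) (nat_lit 339) (nat_lit 1) (nat_lit 285) (nat_lit 225) (nat_lit 270)) (PT.nd (nat_lit 78) (PT.lf (nat_lit 25688) (nat_lit 6) (nat_lit 338) (nat_lit 1) (nat_lit 286) (nat_lit 225) (nat_lit 269)) (PT.lf (nat_lit 25612) (nat_lit 6) (nat_lit 337) (nat_lit 1) (nat_lit 287) (nat_lit 225) (nat_lit 268)))) (PT.nd (nat_lit 156) (PT.nd (nat_lit 78) (PT.lf (nat_lit 26372) (nat_lit 6) (nat_lit 347) (nat_lit 3) (nat_lit 268) (nat_lit 226) (nat_lit 286)) (PT.lf (nat_lit 26448) (nat_lit 6) (nat_lit 348) (nat_lit 3) (nat_lit 269) (nat_lit 226) (nat_lit 285))) (PT.nd (nat_lit 78) (PT.lf (nat_lit 26524) (nat_lit 6) (nat_lit 349) (nat_lit 3) (nat_lit 270) (nat_lit 226) (nat_lit 284)) (PT.lf (nat_lit 26600) (nat_lit 6) (nat_lit 350) (nat_lit 3) (nat_lit 271) (nat_lit 226) (nat_lit 283))))) (PT.nd (nat_lit 312) (PT.nd (nat_lit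 156) (PT.nd (nat_lit 78) (PT.lf (nat_lit 26676) (nat_lit 6) (nat_lit 351) (nat_lit 3) (nat_lit 272) (nat_lit 226) (nat_lit 282)) (PT.lf (nat_lit 26752) (nat_lit 6) (nat_lit 352) (nat_lit 3) (nat_lit 273) (nat_lit 226) (nat_lit 281))) (PT.nd (nat_lit 78) (PT.lf (nat_lit 26828) (nat_lit 6) (nat_lit 353) (nat_lit 3) (nat_lit 274) (nat_lit 226) (nat_lit 280)) (PT.lf (nat_lit 26904) (nat_lit 6) (nat_lit 354) (nat_lit 3) (nat_lit 275) (nat_lit 226) (nat_lit 279)))) (PT.nd (nat_lit 156) (PT.nd (nat_lit 78) (PT.lf (nat_lit 26980) (nat_lit 6) (nat_lit 355) (nat_lit 3) (nat_lit 276) (nat_lit 226) (nat_lit 278)) (PT.lf (nat_lit 27056) (nat_lit 3) (nat_lit 356) (nat_lit 1) (nat_lit 277) (nat_lit 226) (nat_lit 277))) (PT.nd (nat_lit 78) (PT.lf (nat_lit 26980) (nat_lit 6) (nat_lit 355) (nat_lit 1) (nat_lit 278) (nat_lit 226) (nat_lit 276)) (PT.lf (nat_lit 26904) (nat_lit 6) (nat_lit 354) (nat_lit 1) (nat_lit 279) (nat_lit 226) (nat_lit 275)))))) (PT.nd (nat_lit 80262) (PT.nd (nat_lit 312)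 (PT.nd (nat_lit 156) (PT.nd (nat_lit 78) (PT.lf (nat_lit 26828) (nat_lit 6) (nat_lit 353) (nat_lit 1) (nat_lit 280) (nat_lit 226) (nat_lit 274)) (PT.lf (nat_lit 26752) (nat_lit 6) (nat_lit 352) (nat_lit 1) (nat_lit 281) (nat_lit 226) (nat_lit 273))) (PT.nd (nat_lit 78) (PT.lf (nat_lit 26676) (nat_lit 6) (nat_lit 351) (nat_lit 1) (nat_lit 282) (nat_lit 226) (nat_lit 272)) (PT.lf (nat_lit 26600) (nat_lit 6) (nat_lit 350) (nat_lit 1) (nat_lit 283) (nat_lit 226) (nat_lit 271)))) (PT.nd (nat_lit 156) (PT.nd (nat_lit 78) (PT.lf (nat_lit 26524) (nat_lit 6) (nat_lit 349) (nat_lit 1) (nat_lit 284) (nat_lit 226) (nat_lit 270)) (PT.lf (nat_lit 26448) (nat_lit 6) (nat_lit 348) (nat_lit 1) (nat_lit 285) (nat_lit 226) (nat_lit 269))) (PT.nd (nat_lit 79716) (PT.lf (nat_lit 26372) (nat_lit 6) (nat_lit 347) (nat_lit 1) (nat_lit 286) (nat_lit 226) (nat_lit 268)) (PT.lf (nat_lit 27132) (nat_lit 6) (nat_lit 357) (nat_lit 3) (nat_lit 267) (nat_lit 227) (nat_lit 286))))) (PT.nd (nat_lit 312) (PT.nd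 (nat_lit 156) (PT.nd (nat_lit 78) (PT.lf (nat_lit 27208) (nat_lit 6) (nat_lit 358) (nat_lit 3) (nat_lit 268) (nat_lit 227) (nat_lit 285)) (PT.lf (nat_lit 27284) (nat_lit 6) (nat_lit 359) (nat_lit 3) (nat_lit 269) (nat_lit 227) (nat_lit 284))) (PT.nd (nat_lit 78) (PT.lf (nat_lit 27360) (nat_lit 6) (nat_lit 360) (nat_lit 3) (nat_lit 270) (nat_lit 227) (nat_lit 283)) (PT.lf (nat_lit 27436) (nat_lit 6) (nat_lit 361) (nat_lit 3) (nat_lit 271) (nat_lit 227) (nat_lit 282)))) (PT.nd (nat_lit 156) (PT.nd (nat_lit 78) (PT.lf (nat_lit 27512) (nat_lit 6) (nat_lit 362) (nat_lit 3) (nat_lit 272) (nat_lit 227) (nat_lit 281)) (PT.lf (nat_lit 27588) (nat_lit 6) (nat_lit 363) (nat_lit 3) (nat_lit 273) (nat_lit 227) (nat_lit 280))) (PT.nd (nat_lit 78) (PT.lf (nat_lit 27664) (nat_lit 6) (nat_lit 364) (nat_lit 3) (nat_lit 274) (nat_lit 227) (nat_lit 279)) (PT.lf (nat_lit 27740) (nat_lit 6) (nat_lit 365) (nat_lit 3) (nat_lit 275) (nat_lit 227) (nat_lit 278))))))) (PT.nd (nat_lit 80730) (PT.nd (nat_lit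 546) (PT.nd (nat_lit 234) (PT.nd (nat_lit 78) (PT.lf (nat_lit 27816) (nat_lit 6) (nat_lit 366) (nat_lit 3) (nat_lit 276) (nat_lit 227) (nat_lit 277)) (PT.nd (nat_lit 78) (PT.lf (nat_lit 27816) (nat_lit 6) (nat_lit 366) (nat_lit 1) (nat_lit 277) (nat_lit 227) (nat_lit 276)) (PT.lf (nat_lit 27740) (nat_lit 6) (nat_lit 365) (nat_lit 1) (nat_lit 278) (nat_lit 227) (nat_lit 275)))) (PT.nd (nat_lit 156) (PT.nd (nat_lit 78) (PT.lf (nat_lit 27664) (nat_lit 6) (nat_lit 364) (nat_lit 1) (nat_lit 279) (nat_lit 227) (nat_lit 274)) (PT.lf (nat_lit 27588) (nat_lit 6) (nat_lit 363) (nat_lit 1) (nat_lit 280) (nat_lit 227) (nat_lit 273))) (PT.nd (nat_lit 78) (PT.lf (nat_lit 27512) (nat_lit 6) (nat_lit 362) (nat_lit 1) (nat_lit 281) (nat_lit 227) (nat_lit 272)) (PT.lf (nat_lit 27436) (nat_lit 6) (nat_lit 361) (nat_lit 1) (nat_lit 282) (nat_lit 227) (nat_lit 271))))) (PT.nd (nat_lit 79872) (PT.nd (nat_lit 156) (PT.nd (nat_lit 78) (PT.lf (nat_lit 27360) (nat_lit 6) (nat_lit 360) (nat_lit 1) (nat_lit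 283) (nat_lit 227) (nat_lit 270)) (PT.lf (nat_lit 27284) (nat_lit 6) (nat_lit 359) (nat_lit 1) (nat_lit 284) (nat_lit 227) (nat_lit 269))) (PT.nd (nat_lit 78) (PT.lf (nat_lit 27208) (nat_lit 6) (nat_lit 358) (nat_lit 1) (nat_lit 285) (nat_lit 227) (nat_lit 268)) (PT.lf (nat_lit 27132) (nat_lit 6) (nat_lit 357) (nat_lit 1) (nat_lit 286) (nat_lit 227) (nat_lit 267)))) (PT.nd (nat_lit 156) (PT.nd (nat_lit 78) (PT.lf (nat_lit 27892) (nat_lit 6) (nat_lit 367) (nat_lit 3) (nat_lit 266) (nat_lit 228) (nat_lit 286)) (PT.lf (nat_lit 27968) (nat_lit 6) (nat_lit 368) (nat_lit 3) (nat_lit 267) (nat_lit 228) (nat_lit 285))) (PT.nd (nat_lit 78) (PT.lf (nat_lit 28044) (nat_lit 6) (nat_lit 369) (nat_lit 3) (nat_lit 268) (nat_lit 228) (nat_lit 284)) (PT.lf (nat_lit 28120) (nat_lit 6) (nat_lit 370) (nat_lit 3) (nat_lit 269) (nat_lit 228) (nat_lit 283)))))) (PT.nd (nat_lit 624) (PT.nd (nat_lit 312) (PT.nd (nat_lit 156) (PT.nd (nat_lit 78) (PT.lf (nat_lit 28196) (nat_lit 6) (nat_lit 371) (nat_lit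 3) (nat_lit 270) (nat_lit 228) (nat_lit 282)) (PT.lf (nat_lit 28272) (nat_lit 6) (nat_lit 372) (nat_lit 3) (nat_lit 271) (nat_lit 228) (nat_lit 281))) (PT.nd (nat_lit 78) (PT.lf (nat_lit 28348) (nat_lit 6) (nat_lit 373) (nat_lit 3) (nat_lit 272) (nat_lit 228) (nat_lit 280)) (PT.lf (nat_lit 28424) (nat_lit 6) (nat_lit 374) (nat_lit 3) (nat_lit 273) (nat_lit 228) (nat_lit 279)))) (PT.nd (nat_lit 156) (PT.nd (nat_lit 78) (PT.lf (nat_lit 28500) (nat_lit 6) (nat_lit 375) (nat_lit 3) (nat_lit 274) (nat_lit 228) (nat_lit 278)) (PT.lf (nat_lit 28576) (nat_lit 6) (nat_lit 376) (nat_lit 3) (nat_lit 275) (nat_lit 228) (nat_lit 277))) (PT.nd (nat_lit 78) (PT.lf (nat_lit 28652) (nat_lit 3) (nat_lit 377) (nat_lit 1) (nat_lit 276) (nat_lit 228) (nat_lit 276)) (PT.lf (nat_lit 28576) (nat_lit 6) (nat_lit 376) (nat_lit 1) (nat_lit 277) (nat_lit 228) (nat_lit 275))))) (PT.nd (nat_lit 312) (PT.nd (nat_lit 156) (PT.nd (nat_lit 78) (PT.lf (nat_lit 28500) (nat_lit 6) (nat_lit 375) (nat_lit 1) (nat_lit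 278) (nat_lit 228) (nat_lit 274)) (PT.lf (nat_lit 28424) (nat_lit 6) (nat_lit 374) (nat_lit 1) (nat_lit 279) (nat_lit 228) (nat_lit 273))) (PT.nd (nat_lit 78) (PT.lf (nat_lit 28348) (nat_lit 6) (nat_lit 373) (nat_lit 1) (nat_lit 280) (nat_lit 228) (nat_lit 272)) (PT.lf (nat_lit 28272) (nat_lit 6) (nat_lit 372) (nat_lit 1) (nat_lit 281) (nat_lit 228) (nat_lit 271)))) (PT.nd (nat_lit 156) (PT.nd (nat_lit 78) (PT.lf (nat_lit 28196) (nat_lit 6) (nat_lit 371) (nat_lit 1) (nat_lit 282) (nat_lit 228) (nat_lit 270)) (PT.lf (nat_lit 28120) (nat_lit 6) (nat_lit 370) (nat_lit 1) (nat_lit 283) (nat_lit 228) (nat_lit 269))) (PT.nd (nat_lit 78) (PT.lf (nat_lit 28044) (nat_lit 6) (nat_lit 369) (nat_lit 1) (nat_lit 284) (nat_lit 228) (nat_lit 268)) (PT.lf (nat_lit 27968) (nat_lit 6) (nat_lit 368) (nat_lit 1) (nat_lit 285) (nat_lit 228) (nat_lit 267))))))))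
noncomputable def pc9 : PT := (PT.nd (nat_lit 161304) (PT.nd (nat_lit 80652) (PT.nd (nat_lit 80028) (PT.nd (nat_lit 79716) (PT.nd (nat_lit 79560) (PT.lf (nat_lit 27892) (nat_lit 6) (nat_lit 367) (nat_lit 1) (nat_lit 286) (nat_lit 228) (nat_lit 266)) (PT.nd (nat_lit 78) (PT.lf (nat_lit 28728) (nat_lit 6) (nat_lit 378) (nat_lit 3) (nat_lit 265) (nat_lit 229) (nat_lit 286)) (PT.lf (nat_lit 28804) (nat_lit 6) (nat_lit 379) (nat_lit 3) (nat_lit 266) (nat_lit 229) (nat_lit 285)))) (PT.nd (nat_lit 156) (PT.nd (nat_lit 78) (PT.lf (nat_lit 28880) (nat_lit 6) (nat_lit 380) (nat_lit 3) (nat_lit 267) (nat_lit 229) (nat_lit 284)) (PT.lf (nat_lit 28956) (nat_lit 6) (nat_lit 381) (nat_lit 3) (nat_lit 268) (nat_lit 229) (nat_lit 283))) (PT.nd (nat_lit 78) (PT.lf (nat_lit 29032) (nat_lit 6) (nat_lit 382) (nat_lit 3) (nat_lit 269) (nat_lit 229) (nat_lit 282)) (PT.lf (nat_lit 29108) (nat_lit 6) (nat_lit 383) (nat_lit 3) (nat_lit 270) (nat_lit 229) (nat_lit 281))))) (PT.nd (nat_lit 312) (PT.nd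 (nat_lit 156) (PT.nd (nat_lit 78) (PT.lf (nat_lit 29184) (nat_lit 6) (nat_lit 384) (nat_lit 3) (nat_lit 271) (nat_lit 229) (nat_lit 280)) (PT.lf (nat_lit 29260) (nat_lit 6) (nat_lit 385) (nat_lit 3) (nat_lit 272) (nat_lit 229) (nat_lit 279))) (PT.nd (nat_lit 78) (PT.lf (nat_lit 29336) (nat_lit 6) (nat_lit 386) (nat_lit 3) (nat_lit 273) (nat_lit 229) (nat_lit 278)) (PT.lf (nat_lit 29412) (nat_lit 6) (nat_lit 387) (nat_lit 3) (nat_lit 274) (nat_lit 229) (nat_lit 277)))) (PT.nd (nat_lit 156) (PT.nd (nat_lit 78) (PT.lf (nat_lit 29488) (nat_lit 6) (nat_lit 388) (nat_lit 3) (nat_lit 275) (nat_lit 229) (nat_lit 276)) (PT.lf (nat_lit 29488) (nat_lit 6) (nat_lit 388) (nat_lit 1) (nat_lit 276) (nat_lit 229) (nat_lit 275))) (PT.nd (nat_lit 78) (PT.lf (nat_lit 29412) (nat_lit 6) (nat_lit 387) (nat_lit 1) (nat_lit 277) (nat_lit 229) (nat_lit 274)) (PT.lf (nat_lit 29336) (nat_lit 6) (nat_lit 386) (nat_lit 1) (nat_lit 278) (nat_lit 229) (nat_lit 273)))))) (PT.nd (nat_lit 80028) (PT.nd (nat_lit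 312) (PT.nd (nat_lit 156) (PT.nd (nat_lit 78) (PT.lf (nat_lit 29260) (nat_lit 6) (nat_lit 385) (nat_lit 1) (nat_lit 279) (nat_lit 229) (nat_lit 272)) (PT.lf (nat_lit 29184) (nat_lit 6) (nat_lit 384) (nat_lit 1) (nat_lit 280) (nat_lit 229) (nat_lit 271))) (PT.nd (nat_lit 78) (PT.lf (nat_lit 29108) (nat_lit 6) (nat_lit 383) (nat_lit 1) (nat_lit 281) (nat_lit 229) (nat_lit 270)) (PT.lf (nat_lit 29032) (nat_lit 6) (nat_lit 382) (nat_lit 1) (nat_lit 282) (nat_lit 229) (nat_lit 269)))) (PT.nd (nat_lit 156) (PT.nd (nat_lit 78) (PT.lf (nat_lit 28956) (nat_lit 6) (nat_lit 381) (nat_lit 1) (nat_lit 283) (nat_lit 229) (nat_lit 268)) (PT.lf (nat_lit 28880) (nat_lit 6) (nat_lit 380) (nat_lit 1) (nat_lit 284) (nat_lit 229) (nat_lit 267))) (PT.nd (nat_lit 78) (PT.lf (nat_lit 28804) (nat_lit 6) (nat_lit 379) (nat_lit 1) (nat_lit 285) (nat_lit 229) (nat_lit 266)) (PT.lf (nat_lit 28728) (nat_lit 6) (nat_lit 378) (nat_lit 1) (nat_lit 286) (nat_lit 229) (nat_lit 265))))) (PT.nd (nat_lit 312)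 (PT.nd (nat_lit 156) (PT.nd (nat_lit 78) (PT.lf (nat_lit 29564) (nat_lit 6) (nat_lit 389) (nat_lit 3) (nat_lit 264) (nat_lit 230) (nat_lit 286)) (PT.lf (nat_lit 29640) (nat_lit 6) (nat_lit 390) (nat_lit 3) (nat_lit 265) (nat_lit 230) (nat_lit 285))) (PT.nd (nat_lit 78) (PT.lf (nat_lit 29716) (nat_lit 6) (nat_lit 391) (nat_lit 3) (nat_lit 266) (nat_lit 230) (nat_lit 284)) (PT.lf (nat_lit 29792) (nat_lit 6) (nat_lit 392) (nat_lit 3) (nat_lit 267) (nat_lit 230) (nat_lit 283)))) (PT.nd (nat_lit 156) (PT.nd (nat_lit 78) (PT.lf (nat_lit 29868) (nat_lit 6) (nat_lit 393) (nat_lit 3) (nat_lit 268) (nat_lit 230) (nat_lit 282)) (PT.lf (nat_lit 29944) (nat_lit 6) (nat_lit 394) (nat_lit 3) (nat_lit 269) (nat_lit 230) (nat_lit 281))) (PT.nd (nat_lit 78) (PT.lf (nat_lit 30020) (nat_lit 6) (nat_lit 395) (nat_lit 3) (nat_lit 270) (nat_lit 230) (nat_lit 280)) (PT.lf (nat_lit 30096) (nat_lit 6) (nat_lit 396) (nat_lit 3) (nat_lit 271) (nat_lit 230) (nat_lit 279))))))) (PT.nd (nat_lit 80574) (PT.nd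 (nat_lit 546) (PT.nd (nat_lit 234) (PT.nd (nat_lit 78) (PT.lf (nat_lit 30172) (nat_lit 6) (nat_lit 397) (nat_lit 3) (nat_lit 272) (nat_lit 230) (nat_lit 278)) (PT.nd (nat_lit 78) (PT.lf (nat_lit 30248) (nat_lit 6) (nat_lit 398) (nat_lit 3) (nat_lit 273) (nat_lit 230) (nat_lit 277)) (PT.lf (nat_lit 30324) (nat_lit 6) (nat_lit 399) (nat_lit 3) (nat_lit 274) (nat_lit 230) (nat_lit 276)))) (PT.nd (nat_lit 156) (PT.nd (nat_lit 78) (PT.lf (nat_lit 30400) (nat_lit 3) (nat_lit 400) (nat_lit 1) (nat_lit 275) (nat_lit 230) (nat_lit 275)) (PT.lf (nat_lit 30324) (nat_lit 6) (nat_lit 399) (nat_lit 1) (nat_lit 276) (nat_lit 230) (nat_lit 274))) (PT.nd (nat_lit 78) (PT.lf (nat_lit 30248) (nat_lit 6) (nat_lit 398) (nat_lit 1) (nat_lit 277) (nat_lit 230) (nat_lit 273)) (PT.lf (nat_lit 30172) (nat_lit 6) (nat_lit 397) (nat_lit 1) (nat_lit 278) (nat_lit 230) (nat_lit 272))))) (PT.nd (nat_lit 312) (PT.nd (nat_lit 156) (PT.nd (nat_lit 78) (PT.lf (nat_lit 30096) (nat_lit 6) (nat_lit 396) (nat_lit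 1) (nat_lit 279) (nat_lit 230) (nat_lit 271)) (PT.lf (nat_lit 30020) (nat_lit 6) (nat_lit 395) (nat_lit 1) (nat_lit 280) (nat_lit 230) (nat_lit 270))) (PT.nd (nat_lit 78) (PT.lf (nat_lit 29944) (nat_lit 6) (nat_lit 394) (nat_lit 1) (nat_lit 281) (nat_lit 230) (nat_lit 269)) (PT.lf (nat_lit 29868) (nat_lit 6) (nat_lit 393) (nat_lit 1) (nat_lit 282) (nat_lit 230) (nat_lit 268)))) (PT.nd (nat_lit 156) (PT.nd (nat_lit 78) (PT.lf (nat_lit 29792) (nat_lit 6) (nat_lit 392) (nat_lit 1) (nat_lit 283) (nat_lit 230) (nat_lit 267)) (PT.lf (nat_lit 29716) (nat_lit 6) (nat_lit 391) (nat_lit 1) (nat_lit 284) (nat_lit 230) (nat_lit 266))) (PT.nd (nat_lit 78) (PT.lf (nat_lit 29640) (nat_lit 6) (nat_lit 390) (nat_lit 1) (nat_lit 285) (nat_lit 230) (nat_lit 265)) (PT.lf (nat_lit 29564) (nat_lit 6) (nat_lit 389) (nat_lit 1) (nat_lit 286) (nat_lit 230) (nat_lit 264)))))) (PT.nd (nat_lit 624) (PT.nd (nat_lit 312) (PT.nd (nat_lit 156) (PT.nd (nat_lit 78) (PT.lf (nat_lit 30476) (nat_lit 6) (nat_lit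 401) (nat_lit 3) (nat_lit 264) (nat_lit 231) (nat_lit 285)) (PT.lf (nat_lit 30552) (nat_lit 6) (nat_lit 402) (nat_lit 3) (nat_lit 265) (nat_lit 231) (nat_lit 284))) (PT.nd (nat_lit 78) (PT.lf (nat_lit 30628) (nat_lit 6) (nat_lit 403) (nat_lit 3) (nat_lit 266) (nat_lit 231) (nat_lit 283)) (PT.lf (nat_lit 30704) (nat_lit 6) (nat_lit 404) (nat_lit 3) (nat_lit 267) (nat_lit 231) (nat_lit 282)))) (PT.nd (nat_lit 156) (PT.nd (nat_lit 78) (PT.lf (nat_lit 30780) (nat_lit 6) (nat_lit 405) (nat_lit 3) (nat_lit 268) (nat_lit 231) (nat_lit 281)) (PT.lf (nat_lit 30856) (nat_lit 6) (nat_lit 406) (nat_lit 3) (nat_lit 269) (nat_lit 231) (nat_lit 280))) (PT.nd (nat_lit 78) (PT.lf (nat_lit 30932) (nat_lit 6) (nat_lit 407) (nat_lit 3) (nat_lit 270) (nat_lit 231) (nat_lit 279)) (PT.lf (nat_lit 31008) (nat_lit 6) (nat_lit 408) (nat_lit 3) (nat_lit 271) (nat_lit 231) (nat_lit 278))))) (PT.nd (nat_lit 312) (PT.nd (nat_lit 156) (PT.nd (nat_lit 78) (PT.lf (nat_lit 31084) (nat_lit 6) (nat_lit 409)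 (nat_lit 3) (nat_lit 272) (nat_lit 231) (nat_lit 277)) (PT.lf (nat_lit 31160) (nat_lit 6) (nat_lit 410) (nat_lit 3) (nat_lit 273) (nat_lit 231) (nat_lit 276))) (PT.nd (nat_lit 78) (PT.lf (nat_lit 31236) (nat_lit 6) (nat_lit 411) (nat_lit 3) (nat_lit 274) (nat_lit 231) (nat_lit 275)) (PT.lf (nat_lit 31236) (nat_lit 6) (nat_lit 411) (nat_lit 1) (nat_lit 275) (nat_lit 231) (nat_lit 274)))) (PT.nd (nat_lit 156) (PT.nd (nat_lit 78) (PT.lf (nat_lit 31160) (nat_lit 6) (nat_lit 410) (nat_lit 1) (nat_lit 276) (nat_lit 231) (nat_lit 273)) (PT.lf (nat_lit 31084) (nat_lit 6) (nat_lit 409) (nat_lit 1) (nat_lit 277) (nat_lit 231) (nat_lit 272))) (PT.nd (nat_lit 78) (PT.lf (nat_lit 31008) (nat_lit 6) (nat_lit 408) (nat_lit 1) (nat_lit 278) (nat_lit 231) (nat_lit 271)) (PT.lf (nat_lit 30932) (nat_lit 6) (nat_lit 407) (nat_lit 1) (nat_lit 279) (nat_lit 231) (nat_lit 270))))))))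
noncomputable def pc10 : PT := (PT.nd (nat_lit 161148) (PT.nd (nat_lit 80574) (PT.nd (nat_lit 79950) (PT.nd (nat_lit 234) (PT.nd (nat_lit 78) (PT.lf (nat_lit 30856) (nat_lit 6) (nat_lit 406) (nat_lit 1) (nat_lit 280) (nat_lit 231) (nat_lit 269)) (PT.nd (nat_lit 78) (PT.lf (nat_lit 30780) (nat_lit 6) (nat_lit 405) (nat_lit 1) (nat_lit 281) (nat_lit 231) (nat_lit 268)) (PT.lf (nat_lit 30704) (nat_lit 6) (nat_lit 404) (nat_lit 1) (nat_lit 282) (nat_lit 231) (nat_lit 267)))) (PT.nd (nat_lit 156) (PT.nd (nat_lit 78) (PT.lf (nat_lit 30628) (nat_lit 6) (nat_lit 403) (nat_lit 1) (nat_lit 283) (nat_lit 231) (nat_lit 266)) (PT.lf (nat_lit 30552) (nat_lit 6) (nat_lit 402) (nat_lit 1) (nat_lit 284) (nat_lit 231) (nat_lit 265))) (PT.nd (nat_lit 79482) (PT.lf (nat_lit 30476) (nat_lit 6) (nat_lit 401) (nat_lit 1) (nat_lit 285) (nat_lit 231) (nat_lit 264)) (PT.lf (nat_lit 31312) (nat_lit 6) (nat_lit 412) (nat_lit 3) (nat_lit 263) (nat_lit 232) (nat_lit 285))))) (PT.nd (nat_lit 312) (PT.nd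 (nat_lit 156) (PT.nd (nat_lit 78) (PT.lf (nat_lit 31388) (nat_lit 6) (nat_lit 413) (nat_lit 3) (nat_lit 264) (nat_lit 232) (nat_lit 284)) (PT.lf (nat_lit 31464) (nat_lit 6) (nat_lit 414) (nat_lit 3) (nat_lit 265) (nat_lit 232) (nat_lit 283))) (PT.nd (nat_lit 78) (PT.lf (nat_lit 31540) (nat_lit 6) (nat_lit 415) (nat_lit 3) (nat_lit 266) (nat_lit 232) (nat_lit 282)) (PT.lf (nat_lit 31616) (nat_lit 6) (nat_lit 416) (nat_lit 3) (nat_lit 267) (nat_lit 232) (nat_lit 281)))) (PT.nd (nat_lit 156) (PT.nd (nat_lit 78) (PT.lf (nat_lit 31692) (nat_lit 6) (nat_lit 417) (nat_lit 3) (nat_lit 268) (nat_lit 232) (nat_lit 280)) (PT.lf (nat_lit 31768) (nat_lit 6) (nat_lit 418) (nat_lit 3) (nat_lit 269) (nat_lit 232) (nat_lit 279))) (PT.nd (nat_lit 78) (PT.lf (nat_lit 31844) (nat_lit 6) (nat_lit 419) (nat_lit 3) (nat_lit 270) (nat_lit 232) (nat_lit 278)) (PT.lf (nat_lit 31920) (nat_lit 6) (nat_lit 420) (nat_lit 3) (nat_lit 271) (nat_lit 232) (nat_lit 277)))))) (PT.nd (nat_lit 624) (PT.nd (nat_lit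 312) (PT.nd (nat_lit 156) (PT.nd (nat_lit 78) (PT.lf (nat_lit 31996) (nat_lit 6) (nat_lit 421) (nat_lit 3) (nat_lit 272) (nat_lit 232) (nat_lit 276)) (PT.lf (nat_lit 32072) (nat_lit 6) (nat_lit 422) (nat_lit 3) (nat_lit 273) (nat_lit 232) (nat_lit 275))) (PT.nd (nat_lit 78) (PT.lf (nat_lit 32148) (nat_lit 3) (nat_lit 423) (nat_lit 1) (nat_lit 274) (nat_lit 232) (nat_lit 274)) (PT.lf (nat_lit 32072) (nat_lit 6) (nat_lit 422) (nat_lit 1) (nat_lit 275) (nat_lit 232) (nat_lit 273)))) (PT.nd (nat_lit 156) (PT.nd (nat_lit 78) (PT.lf (nat_lit 31996) (nat_lit 6) (nat_lit 421) (nat_lit 1) (nat_lit 276) (nat_lit 232) (nat_lit 272)) (PT.lf (nat_lit 31920) (nat_lit 6) (nat_lit 420) (nat_lit 1) (nat_lit 277) (nat_lit 232) (nat_lit 271))) (PT.nd (nat_lit 78) (PT.lf (nat_lit 31844) (nat_lit 6) (nat_lit 419) (nat_lit 1) (nat_lit 278) (nat_lit 232) (nat_lit 270)) (PT.lf (nat_lit 31768) (nat_lit 6) (nat_lit 418) (nat_lit 1) (nat_lit 279) (nat_lit 232) (nat_lit 269))))) (PT.nd (nat_lit 312)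 (PT.nd (nat_lit 156) (PT.nd (nat_lit 78) (PT.lf (nat_lit 31692) (nat_lit 6) (nat_lit 417) (nat_lit 1) (nat_lit 280) (nat_lit 232) (nat_lit 268)) (PT.lf (nat_lit 31616) (nat_lit 6) (nat_lit 416) (nat_lit 1) (nat_lit 281) (nat_lit 232) (nat_lit 267))) (PT.nd (nat_lit 78) (PT.lf (nat_lit 31540) (nat_lit 6) (nat_lit 415) (nat_lit 1) (nat_lit 282) (nat_lit 232) (nat_lit 266)) (PT.lf (nat_lit 31464) (nat_lit 6) (nat_lit 414) (nat_lit 1) (nat_lit 283) (nat_lit 232) (nat_lit 265)))) (PT.nd (nat_lit 79482) (PT.nd (nat_lit 78) (PT.lf (nat_lit 31388) (nat_lit 6) (nat_lit 413) (nat_lit 1) (nat_lit 284) (nat_lit 232) (nat_lit 264)) (PT.lf (nat_lit 31312) (nat_lit 6) (nat_lit 412) (nat_lit 1) (nat_lit 285) (nat_lit 232) (nat_lit 263))) (PT.nd (nat_lit 78) (PT.lf (nat_lit 32224) (nat_lit 6) (nat_lit 424) (nat_lit 3) (nat_lit 262) (nat_lit 233) (nat_lit 285)) (PT.lf (nat_lit 32300) (nat_lit 6) (nat_lit 425) (nat_lit 3) (nat_lit 263) (nat_lit 233) (nat_lit 284))))))) (PT.nd (nat_lit 1170)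 (PT.nd (nat_lit 546) (PT.nd (nat_lit 234) (PT.nd (nat_lit 78) (PT.lf (nat_lit 32376) (nat_lit 6) (nat_lit 426) (nat_lit 3) (nat_lit 264) (nat_lit 233) (nat_lit 283)) (PT.nd (nat_lit 78) (PT.lf (nat_lit 32452) (nat_lit 6) (nat_lit 427) (nat_lit 3) (nat_lit 265) (nat_lit 233) (nat_lit 282)) (PT.lf (nat_lit 32528) (nat_lit 6) (nat_lit 428) (nat_lit 3) (nat_lit 266) (nat_lit 233) (nat_lit 281)))) (PT.nd (nat_lit 156) (PT.nd (nat_lit 78) (PT.lf (nat_lit 32604) (nat_lit 6) (nat_lit 429) (nat_lit 3) (nat_lit 267) (nat_lit 233) (nat_lit 280)) (PT.lf (nat_lit 32680) (nat_lit 6) (nat_lit 430) (nat_lit 3) (nat_lit 268) (nat_lit 233) (nat_lit 279))) (PT.nd (nat_lit 78) (PT.lf (nat_lit 32756) (nat_lit 6) (nat_lit 431) (nat_lit 3) (nat_lit 269) (nat_lit 233) (nat_lit 278)) (PT.lf (nat_lit 32832) (nat_lit 6) (nat_lit 432) (nat_lit 3) (nat_lit 270) (nat_lit 233) (nat_lit 277))))) (PT.nd (nat_lit 312) (PT.nd (nat_lit 156) (PT.nd (nat_lit 78) (PT.lf (nat_lit 32908) (nat_lit 6) (nat_lit 433)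 (nat_lit 3) (nat_lit 271) (nat_lit 233) (nat_lit 276)) (PT.lf (nat_lit 32984) (nat_lit 6) (nat_lit 434) (nat_lit 3) (nat_lit 272) (nat_lit 233) (nat_lit 275))) (PT.nd (nat_lit 78) (PT.lf (nat_lit 33060) (nat_lit 6) (nat_lit 435) (nat_lit 3) (nat_lit 273) (nat_lit 233) (nat_lit 274)) (PT.lf (nat_lit 33060) (nat_lit 6) (nat_lit 435) (nat_lit 1) (nat_lit 274) (nat_lit 233) (nat_lit 273)))) (PT.nd (nat_lit 156) (PT.nd (nat_lit 78) (PT.lf (nat_lit 32984) (nat_lit 6) (nat_lit 434) (nat_lit 1) (nat_lit 275) (nat_lit 233) (nat_lit 272)) (PT.lf (nat_lit 32908) (nat_lit 6) (nat_lit 433) (nat_lit 1) (nat_lit 276) (nat_lit 233) (nat_lit 271))) (PT.nd (nat_lit 78) (PT.lf (nat_lit 32832) (nat_lit 6) (nat_lit 432) (nat_lit 1) (nat_lit 277) (nat_lit 233) (nat_lit 270)) (PT.lf (nat_lit 32756) (nat_lit 6) (nat_lit 431) (nat_lit 1) (nat_lit 278) (nat_lit 233) (nat_lit 269)))))) (PT.nd (nat_lit 79872) (PT.nd (nat_lit 312) (PT.nd (nat_lit 156) (PT.nd (nat_lit 78) (PT.lf (nat_lit 32680) (nat_lit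 6) (nat_lit 430) (nat_lit 1) (nat_lit 279) (nat_lit 233) (nat_lit 268)) (PT.lf (nat_lit 32604) (nat_lit 6) (nat_lit 429) (nat_lit 1) (nat_lit 280) (nat_lit 233) (nat_lit 267))) (PT.nd (nat_lit 78) (PT.lf (nat_lit 32528) (nat_lit 6) (nat_lit 428) (nat_lit 1) (nat_lit 281) (nat_lit 233) (nat_lit 266)) (PT.lf (nat_lit 32452) (nat_lit 6) (nat_lit 427) (nat_lit 1) (nat_lit 282) (nat_lit 233) (nat_lit 265)))) (PT.nd (nat_lit 156) (PT.nd (nat_lit 78) (PT.lf (nat_lit 32376) (nat_lit 6) (nat_lit 426) (nat_lit 1) (nat_lit 283) (nat_lit 233) (nat_lit 264)) (PT.lf (nat_lit 32300) (nat_lit 6) (nat_lit 425) (nat_lit 1) (nat_lit 284) (nat_lit 233) (nat_lit 263))) (PT.nd (nat_lit 79326) (PT.lf (nat_lit 32224) (nat_lit 6) (nat_lit 424) (nat_lit 1) (nat_lit 285) (nat_lit 233) (nat_lit 262)) (PT.lf (nat_lit 33136) (nat_lit 6) (nat_lit 436) (nat_lit 3) (nat_lit 261) (nat_lit 234) (nat_lit 285))))) (PT.nd (nat_lit 312) (PT.nd (nat_lit 156) (PT.nd (nat_lit 78) (PT.lf (nat_lit 33212) (nat_lit 6)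 (nat_lit 437) (nat_lit 3) (nat_lit 262) (nat_lit 234) (nat_lit 284)) (PT.lf (nat_lit 33288) (nat_lit 6) (nat_lit 438) (nat_lit 3) (nat_lit 263) (nat_lit 234) (nat_lit 283))) (PT.nd (nat_lit 78) (PT.lf (nat_lit 33364) (nat_lit 6) (nat_lit 439) (nat_lit 3) (nat_lit 264) (nat_lit 234) (nat_lit 282)) (PT.lf (nat_lit 33440) (nat_lit 6) (nat_lit 440) (nat_lit 3) (nat_lit 265) (nat_lit 234) (nat_lit 281)))) (PT.nd (nat_lit 156) (PT.nd (nat_lit 78) (PT.lf (nat_lit 33516) (nat_lit 6) (nat_lit 441) (nat_lit 3) (nat_lit 266) (nat_lit 234) (nat_lit 280)) (PT.lf (nat_lit 33592) (nat_lit 6) (nat_lit 442) (nat_lit 3) (nat_lit 267) (nat_lit 234) (nat_lit 279))) (PT.nd (nat_lit 78) (PT.lf (nat_lit 33668) (nat_lit 6) (nat_lit 443) (nat_lit 3) (nat_lit 268) (nat_lit 234) (nat_lit 278)) (PT.lf (nat_lit 33744) (nat_lit 6) (nat_lit 444) (nat_lit 3) (nat_lit 269) (nat_lit 234) (nat_lit 277))))))))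
noncomputable def pc11 : PT := (PT.nd (nat_lit 81588) (PT.nd (nat_lit 1170) (PT.nd (nat_lit 546) (PT.nd (nat_lit 234) (PT.nd (nat_lit 78) (PT.lf (nat_lit 33820) (nat_lit 6) (nat_lit 445) (nat_lit 3) (nat_lit 270) (nat_lit 234) (nat_lit 276)) (PT.nd (nat_lit 78) (PT.lf (nat_lit 33896) (nat_lit 6) (nat_lit 446) (nat_lit 3) (nat_lit 271) (nat_lit 234) (nat_lit 275)) (PT.lf (nat_lit 33972) (nat_lit 6) (nat_lit 447) (nat_lit 3) (nat_lit 272) (nat_lit 234) (nat_lit 274)))) (PT.nd (nat_lit 156) (PT.nd (nat_lit 78) (PT.lf (nat_lit 34048) (nat_lit 3) (nat_lit 448) (nat_lit 1) (nat_lit 273) (nat_lit 234) (nat_lit 273)) (PT.lf (nat_lit 33972) (nat_lit 6) (nat_lit 447) (nat_lit 1) (nat_lit 274) (nat_lit 234) (nat_lit 272))) (PT.nd (nat_lit 78) (PT.lf (nat_lit 33896) (nat_lit 6) (nat_lit 446) (nat_lit 1) (nat_lit 275) (nat_lit 234) (nat_lit 271)) (PT.lf (nat_lit 33820) (nat_lit 6) (nat_lit 445) (nat_lit 1) (nat_lit 276) (nat_lit 234) (nat_lit 270))))) (PT.nd (nat_lit 312) (PT.nd (nat_lit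 156) (PT.nd (nat_lit 78) (PT.lf (nat_lit 33744) (nat_lit 6) (nat_lit 444) (nat_lit 1) (nat_lit 277) (nat_lit 234) (nat_lit 269)) (PT.lf (nat_lit 33668) (nat_lit 6) (nat_lit 443) (nat_lit 1) (nat_lit 278) (nat_lit 234) (nat_lit 268))) (PT.nd (nat_lit 78) (PT.lf (nat_lit 33592) (nat_lit 6) (nat_lit 442) (nat_lit 1) (nat_lit 279) (nat_lit 234) (nat_lit 267)) (PT.lf (nat_lit 33516) (nat_lit 6) (nat_lit 441) (nat_lit 1) (nat_lit 280) (nat_lit 234) (nat_lit 266)))) (PT.nd (nat_lit 156) (PT.nd (nat_lit 78) (PT.lf (nat_lit 33440) (nat_lit 6) (nat_lit 440) (nat_lit 1) (nat_lit 281) (nat_lit 234) (nat_lit 265)) (PT.lf (nat_lit 33364) (nat_lit 6) (nat_lit 439) (nat_lit 1) (nat_lit 282) (nat_lit 234) (nat_lit 264))) (PT.nd (nat_lit 78) (PT.lf (nat_lit 33288) (nat_lit 6) (nat_lit 438) (nat_lit 1) (nat_lit 283) (nat_lit 234) (nat_lit 263)) (PT.lf (nat_lit 33212) (nat_lit 6) (nat_lit 437) (nat_lit 1) (nat_lit 284) (nat_lit 234) (nat_lit 262)))))) (PT.nd (nat_lit 79794) (PT.nd (nat_lit 79482)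 (PT.nd (nat_lit 79326) (PT.nd (nat_lit 79248) (PT.lf (nat_lit 33136) (nat_lit 6) (nat_lit 436) (nat_lit 1) (nat_lit 285) (nat_lit 234) (nat_lit 261)) (PT.lf (nat_lit 34200) (nat_lit 6) (nat_lit 450) (nat_lit 3) (nat_lit 260) (nat_lit 235) (nat_lit 285))) (PT.nd (nat_lit 78) (PT.lf (nat_lit 34276) (nat_lit 6) (nat_lit 451) (nat_lit 3) (nat_lit 261) (nat_lit 235) (nat_lit 284)) (PT.lf (nat_lit 34352) (nat_lit 6) (nat_lit 452) (nat_lit 3) (nat_lit 262) (nat_lit 235) (nat_lit 283)))) (PT.nd (nat_lit 156) (PT.nd (nat_lit 78) (PT.lf (nat_lit 34428) (nat_lit 6) (nat_lit 453) (nat_lit 3) (nat_lit 263) (nat_lit 235) (nat_lit 282)) (PT.lf (nat_lit 34504) (nat_lit 6) (nat_lit 454) (nat_lit 3) (nat_lit 264) (nat_lit 235) (nat_lit 281))) (PT.nd (nat_lit 78) (PT.lf (nat_lit 34580) (nat_lit 6) (nat_lit 455) (nat_lit 3) (nat_lit 265) (nat_lit 235) (nat_lit 280)) (PT.lf (nat_lit 34656) (nat_lit 6) (nat_lit 456) (nat_lit 3) (nat_lit 266) (nat_lit 235) (nat_lit 279))))) (PT.nd (nat_lit 312)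 (PT.nd (nat_lit 156) (PT.nd (nat_lit 78) (PT.lf (nat_lit 34732) (nat_lit 6) (nat_lit 457) (nat_lit 3) (nat_lit 267) (nat_lit 235) (nat_lit 278)) (PT.lf (nat_lit 34808) (nat_lit 6) (nat_lit 458) (nat_lit 3) (nat_lit 268) (nat_lit 235) (nat_lit 277))) (PT.nd (nat_lit 78) (PT.lf (nat_lit 34884) (nat_lit 6) (nat_lit 459) (nat_lit 3) (nat_lit 269) (nat_lit 235) (nat_lit 276)) (PT.lf (nat_lit 34960) (nat_lit 6) (nat_lit 460) (nat_lit 3) (nat_lit 270) (nat_lit 235) (nat_lit 275)))) (PT.nd (nat_lit 156) (PT.nd (nat_lit 78) (PT.lf (nat_lit 35036) (nat_lit 6) (nat_lit 461) (nat_lit 3) (nat_lit 271) (nat_lit 235) (nat_lit 274)) (PT.lf (nat_lit 35112) (nat_lit 6) (nat_lit 462) (nat_lit 3) (nat_lit 272) (nat_lit 235) (nat_lit 273))) (PT.nd (nat_lit 78) (PT.lf (nat_lit 35112) (nat_lit 6) (nat_lit 462) (nat_lit 1) (nat_lit 273) (nat_lit 235) (nat_lit 272)) (PT.lf (nat_lit 35036) (nat_lit 6) (nat_lit 461) (nat_lit 1) (nat_lit 274) (nat_lit 235) (nat_lit 271))))))) (PT.nd (nat_lit 80340) (PT.nd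 (nat_lit 546) (PT.nd (nat_lit 234) (PT.nd (nat_lit 78) (PT.lf (nat_lit 34960) (nat_lit 6) (nat_lit 460) (nat_lit 1) (nat_lit 275) (nat_lit 235) (nat_lit 270)) (PT.nd (nat_lit 78) (PT.lf (nat_lit 34884) (nat_lit 6) (nat_lit 459) (nat_lit 1) (nat_lit 276) (nat_lit 235) (nat_lit 269)) (PT.lf (nat_lit 34808) (nat_lit 6) (nat_lit 458) (nat_lit 1) (nat_lit 277) (nat_lit 235) (nat_lit 268)))) (PT.nd (nat_lit 156) (PT.nd (nat_lit 78) (PT.lf (nat_lit 34732) (nat_lit 6) (nat_lit 457) (nat_lit 1) (nat_lit 278) (nat_lit 235) (nat_lit 267)) (PT.lf (nat_lit 34656) (nat_lit 6) (nat_lit 456) (nat_lit 1) (nat_lit 279) (nat_lit 235) (nat_lit 266))) (PT.nd (nat_lit 78) (PT.lf (nat_lit 34580) (nat_lit 6) (nat_lit 455) (nat_lit 1) (nat_lit 280) (nat_lit 235) (nat_lit 265)) (PT.lf (nat_lit 34504) (nat_lit 6) (nat_lit 454) (nat_lit 1) (nat_lit 281) (nat_lit 235) (nat_lit 264))))) (PT.nd (nat_lit 79482) (PT.nd (nat_lit 156) (PT.nd (nat_lit 78) (PT.lf (nat_lit 34428) (nat_lit 6) (nat_lit 453) (nat_lit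 1) (nat_lit 282) (nat_lit 235) (nat_lit 263)) (PT.lf (nat_lit 34352) (nat_lit 6) (nat_lit 452) (nat_lit 1) (nat_lit 283) (nat_lit 235) (nat_lit 262))) (PT.nd (nat_lit 78) (PT.lf (nat_lit 34276) (nat_lit 6) (nat_lit 451) (nat_lit 1) (nat_lit 284) (nat_lit 235) (nat_lit 261)) (PT.lf (nat_lit 34200) (nat_lit 6) (nat_lit 450) (nat_lit 1) (nat_lit 285) (nat_lit 235) (nat_lit 260)))) (PT.nd (nat_lit 156) (PT.nd (nat_lit 78) (PT.lf (nat_lit 36100) (nat_lit 6) (nat_lit 475) (nat_lit 3) (nat_lit 260) (nat_lit 236) (nat_lit 284)) (PT.lf (nat_lit 36176) (nat_lit 6) (nat_lit 476) (nat_lit 3) (nat_lit 261) (nat_lit 236) (nat_lit 283))) (PT.nd (nat_lit 78) (PT.lf (nat_lit 36252) (nat_lit 6) (nat_lit 477) (nat_lit 3) (nat_lit 262) (nat_lit 236) (nat_lit 282)) (PT.lf (nat_lit 36328) (nat_lit 6) (nat_lit 478) (nat_lit 3) (nat_lit 263) (nat_lit 236) (nat_lit 281)))))) (PT.nd (nat_lit 624) (PT.nd (nat_lit 312) (PT.nd (nat_lit 156) (PT.nd (nat_lit 78) (PT.lf (nat_lit 36404) (nat_lit 6) (nat_lit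 479) (nat_lit 3) (nat_lit 264) (nat_lit 236) (nat_lit 280)) (PT.lf (nat_lit 36480) (nat_lit 6) (nat_lit 480) (nat_lit 3) (nat_lit 265) (nat_lit 236) (nat_lit 279))) (PT.nd (nat_lit 78) (PT.lf (nat_lit 36556) (nat_lit 6) (nat_lit 481) (nat_lit 3) (nat_lit 266) (nat_lit 236) (nat_lit 278)) (PT.lf (nat_lit 36632) (nat_lit 6) (nat_lit 482) (nat_lit 3) (nat_lit 267) (nat_lit 236) (nat_lit 277)))) (PT.nd (nat_lit 156) (PT.nd (nat_lit 78) (PT.lf (nat_lit 36708) (nat_lit 6) (nat_lit 483) (nat_lit 3) (nat_lit 268) (nat_lit 236) (nat_lit 276)) (PT.lf (nat_lit 36784) (nat_lit 6) (nat_lit 484) (nat_lit 3) (nat_lit 269) (nat_lit 236) (nat_lit 275))) (PT.nd (nat_lit 78) (PT.lf (nat_lit 36860) (nat_lit 6) (nat_lit 485) (nat_lit 3) (nat_lit 270) (nat_lit 236) (nat_lit 274)) (PT.lf (nat_lit 36936) (nat_lit 6) (nat_lit 486) (nat_lit 3) (nat_lit 271) (nat_lit 236) (nat_lit 273))))) (PT.nd (nat_lit 312) (PT.nd (nat_lit 156) (PT.nd (nat_lit 78) (PT.lf (nat_lit 37012) (nat_lit 3) (nat_lit 487)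 (nat_lit 1) (nat_lit 272) (nat_lit 236) (nat_lit 272)) (PT.lf (nat_lit 36936) (nat_lit 6) (nat_lit 486) (nat_lit 1) (nat_lit 273) (nat_lit 236) (nat_lit 271))) (PT.nd (nat_lit 78) (PT.lf (nat_lit 36860) (nat_lit 6) (nat_lit 485) (nat_lit 1) (nat_lit 274) (nat_lit 236) (nat_lit 270)) (PT.lf (nat_lit 36784) (nat_lit 6) (nat_lit 484) (nat_lit 1) (nat_lit 275) (nat_lit 236) (nat_lit 269)))) (PT.nd (nat_lit 156) (PT.nd (nat_lit 78) (PT.lf (nat_lit 36708) (nat_lit 6) (nat_lit 483) (nat_lit 1) (nat_lit 276) (nat_lit 236) (nat_lit 268)) (PT.lf (nat_lit 36632) (nat_lit 6) (nat_lit 482) (nat_lit 1) (nat_lit 277) (nat_lit 236) (nat_lit 267))) (PT.nd (nat_lit 78) (PT.lf (nat_lit 36556) (nat_lit 6) (nat_lit 481) (nat_lit 1) (nat_lit 278) (nat_lit 236) (nat_lit 266)) (PT.lf (nat_lit 36480) (nat_lit 6) (nat_lit 480) (nat_lit 1) (nat_lit 279) (nat_lit 236) (nat_lit 265))))))))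
noncomputable def pc12 : PT := (PT.nd (nat_lit 160680) (PT.nd (nat_lit 80340) (PT.nd (nat_lit 79716) (PT.nd (nat_lit 234) (PT.nd (nat_lit 78) (PT.lf (nat_lit 36404) (nat_lit 6) (nat_lit 479) (nat_lit 1) (nat_lit 280) (nat_lit 236) (nat_lit 264)) (PT.nd (nat_lit 78) (PT.lf (nat_lit 36328) (nat_lit 6) (nat_lit 478) (nat_lit 1) (nat_lit 281) (nat_lit 236) (nat_lit 263)) (PT.lf (nat_lit 36252) (nat_lit 6) (nat_lit 477) (nat_lit 1) (nat_lit 282) (nat_lit 236) (nat_lit 262)))) (PT.nd (nat_lit 79326) (PT.nd (nat_lit 78) (PT.lf (nat_lit 36176) (nat_lit 6) (nat_lit 476) (nat_lit 1) (nat_lit 283) (nat_lit 236) (nat_lit 261)) (PT.lf (nat_lit 36100) (nat_lit 6) (nat_lit 475) (nat_lit 1) (nat_lit 284) (nat_lit 236) (nat_lit 260))) (PT.nd (nat_lit 78) (PT.lf (nat_lit 36024) (nat_lit 6) (nat_lit 474) (nat_lit 3) (nat_lit 259) (nat_lit 237) (nat_lit 284)) (PT.lf (nat_lit 37924) (nat_lit 6) (nat_lit 499) (nat_lit 3) (nat_lit 260) (nat_lit 237) (nat_lit 283))))) (PT.nd (nat_lit 312) (PT.nd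 (nat_lit 156) (PT.nd (nat_lit 78) (PT.lf (nat_lit 38000) (nat_lit 6) (nat_lit 500) (nat_lit 3) (nat_lit 261) (nat_lit 237) (nat_lit 282)) (PT.lf (nat_lit 38076) (nat_lit 6) (nat_lit 501) (nat_lit 3) (nat_lit 262) (nat_lit 237) (nat_lit 281))) (PT.nd (nat_lit 78) (PT.lf (nat_lit 38152) (nat_lit 6) (nat_lit 502) (nat_lit 3) (nat_lit 263) (nat_lit 237) (nat_lit 280)) (PT.lf (nat_lit 38228) (nat_lit 6) (nat_lit 503) (nat_lit 3) (nat_lit 264) (nat_lit 237) (nat_lit 279)))) (PT.nd (nat_lit 156) (PT.nd (nat_lit 78) (PT.lf (nat_lit 38304) (nat_lit 6) (nat_lit 504) (nat_lit 3) (nat_lit 265) (nat_lit 237) (nat_lit 278)) (PT.lf (nat_lit 38380) (nat_lit 6) (nat_lit 505) (nat_lit 3) (nat_lit 266) (nat_lit 237) (nat_lit 277))) (PT.nd (nat_lit 78) (PT.lf (nat_lit 38456) (nat_lit 6) (nat_lit 506) (nat_lit 3) (nat_lit 267) (nat_lit 237) (nat_lit 276)) (PT.lf (nat_lit 38532) (nat_lit 6) (nat_lit 507) (nat_lit 3) (nat_lit 268) (nat_lit 237) (nat_lit 275)))))) (PT.nd (nat_lit 624) (PT.nd (nat_lit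 312) (PT.nd (nat_lit 156) (PT.nd (nat_lit 78) (PT.lf (nat_lit 38608) (nat_lit 6) (nat_lit 508) (nat_lit 3) (nat_lit 269) (nat_lit 237) (nat_lit 274)) (PT.lf (nat_lit 38684) (nat_lit 6) (nat_lit 509) (nat_lit 3) (nat_lit 270) (nat_lit 237) (nat_lit 273))) (PT.nd (nat_lit 78) (PT.lf (nat_lit 38760) (nat_lit 6) (nat_lit 510) (nat_lit 3) (nat_lit 271) (nat_lit 237) (nat_lit 272)) (PT.lf (nat_lit 38760) (nat_lit 6) (nat_lit 510) (nat_lit 1) (nat_lit 272) (nat_lit 237) (nat_lit 271)))) (PT.nd (nat_lit 156) (PT.nd (nat_lit 78) (PT.lf (nat_lit 38684) (nat_lit 6) (nat_lit 509) (nat_lit 1) (nat_lit 273) (nat_lit 237) (nat_lit 270)) (PT.lf (nat_lit 38608) (nat_lit 6) (nat_lit 508) (nat_lit 1) (nat_lit 274) (nat_lit 237) (nat_lit 269))) (PT.nd (nat_lit 78) (PT.lf (nat_lit 38532) (nat_lit 6) (nat_lit 507) (nat_lit 1) (nat_lit 275) (nat_lit 237) (nat_lit 268)) (PT.lf (nat_lit 38456) (nat_lit 6) (nat_lit 506) (nat_lit 1) (nat_lit 276) (nat_lit 237) (nat_lit 267))))) (PT.nd (nat_lit 312)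 (PT.nd (nat_lit 156) (PT.nd (nat_lit 78) (PT.lf (nat_lit 38380) (nat_lit 6) (nat_lit 505) (nat_lit 1) (nat_lit 277) (nat_lit 237) (nat_lit 266)) (PT.lf (nat_lit 38304) (nat_lit 6) (nat_lit 504) (nat_lit 1) (nat_lit 278) (nat_lit 237) (nat_lit 265))) (PT.nd (nat_lit 78) (PT.lf (nat_lit 38228) (nat_lit 6) (nat_lit 503) (nat_lit 1) (nat_lit 279) (nat_lit 237) (nat_lit 264)) (PT.lf (nat_lit 38152) (nat_lit 6) (nat_lit 502) (nat_lit 1) (nat_lit 280) (nat_lit 237) (nat_lit 263)))) (PT.nd (nat_lit 156) (PT.nd (nat_lit 78) (PT.lf (nat_lit 38076) (nat_lit 6) (nat_lit 501) (nat_lit 1) (nat_lit 281) (nat_lit 237) (nat_lit 262)) (PT.lf (nat_lit 38000) (nat_lit 6) (nat_lit 500) (nat_lit 1) (nat_lit 282) (nat_lit 237) (nat_lit 261))) (PT.nd (nat_lit 78) (PT.lf (nat_lit 37924) (nat_lit 6) (nat_lit 499) (nat_lit 1) (nat_lit 283) (nat_lit 237) (nat_lit 260)) (PT.lf (nat_lit 36024) (nat_lit 6) (nat_lit 474) (nat_lit 1) (nat_lit 284) (nat_lit 237) (nat_lit 259))))))) (PT.nd (nat_lit 1170) (PT.nd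 (nat_lit 546) (PT.nd (nat_lit 234) (PT.nd (nat_lit 78) (PT.lf (nat_lit 35948) (nat_lit 6) (nat_lit 473) (nat_lit 3) (nat_lit 258) (nat_lit 238) (nat_lit 284)) (PT.nd (nat_lit 78) (PT.lf (nat_lit 37848) (nat_lit 6) (nat_lit 498) (nat_lit 3) (nat_lit 259) (nat_lit 238) (nat_lit 283)) (PT.lf (nat_lit 39672) (nat_lit 6) (nat_lit 522) (nat_lit 3) (nat_lit 260) (nat_lit 238) (nat_lit 282)))) (PT.nd (nat_lit 156) (PT.nd (nat_lit 78) (PT.lf (nat_lit 39748) (nat_lit 6) (nat_lit 523) (nat_lit 3) (nat_lit 261) (nat_lit 238) (nat_lit 281)) (PT.lf (nat_lit 39824) (nat_lit 6) (nat_lit 524) (nat_lit 3) (nat_lit 262) (nat_lit 238) (nat_lit 280))) (PT.nd (nat_lit 78) (PT.lf (nat_lit 39900) (nat_lit 6) (nat_lit 525) (nat_lit 3) (nat_lit 263) (nat_lit 238) (nat_lit 279)) (PT.lf (nat_lit 39976) (nat_lit 6) (nat_lit 526) (nat_lit 3) (nat_lit 264) (nat_lit 238) (nat_lit 278))))) (PT.nd (nat_lit 312) (PT.nd (nat_lit 156) (PT.nd (nat_lit 78) (PT.lf (nat_lit 40052) (nat_lit 6) (nat_lit 527) (nat_lit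 3) (nat_lit 265) (nat_lit 238) (nat_lit 277)) (PT.lf (nat_lit 40128) (nat_lit 6) (nat_lit 528) (nat_lit 3) (nat_lit 266) (nat_lit 238) (nat_lit 276))) (PT.nd (nat_lit 78) (PT.lf (nat_lit 40204) (nat_lit 6) (nat_lit 529) (nat_lit 3) (nat_lit 267) (nat_lit 238) (nat_lit 275)) (PT.lf (nat_lit 40280) (nat_lit 6) (nat_lit 530) (nat_lit 3) (nat_lit 268) (nat_lit 238) (nat_lit 274)))) (PT.nd (nat_lit 156) (PT.nd (nat_lit 78) (PT.lf (nat_lit 40356) (nat_lit 6) (nat_lit 531) (nat_lit 3) (nat_lit 269) (nat_lit 238) (nat_lit 273)) (PT.lf (nat_lit 40432) (nat_lit 6) (nat_lit 532) (nat_lit 3) (nat_lit 270) (nat_lit 238) (nat_lit 272))) (PT.nd (nat_lit 78) (PT.lf (nat_lit 40508) (nat_lit 3) (nat_lit 533) (nat_lit 1) (nat_lit 271) (nat_lit 238) (nat_lit 271)) (PT.lf (nat_lit 40432) (nat_lit 6) (nat_lit 532) (nat_lit 1) (nat_lit 272) (nat_lit 238) (nat_lit 270)))))) (PT.nd (nat_lit 624) (PT.nd (nat_lit 312) (PT.nd (nat_lit 156) (PT.nd (nat_lit 78) (PT.lf (nat_lit 40356) (nat_lit 6) (nat_lit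 531) (nat_lit 1) (nat_lit 273) (nat_lit 238) (nat_lit 269)) (PT.lf (nat_lit 40280) (nat_lit 6) (nat_lit 530) (nat_lit 1) (nat_lit 274) (nat_lit 238) (nat_lit 268))) (PT.nd (nat_lit 78) (PT.lf (nat_lit 40204) (nat_lit 6) (nat_lit 529) (nat_lit 1) (nat_lit 275) (nat_lit 238) (nat_lit 267)) (PT.lf (nat_lit 40128) (nat_lit 6) (nat_lit 528) (nat_lit 1) (nat_lit 276) (nat_lit 238) (nat_lit 266)))) (PT.nd (nat_lit 156) (PT.nd (nat_lit 78) (PT.lf (nat_lit 40052) (nat_lit 6) (nat_lit 527) (nat_lit 1) (nat_lit 277) (nat_lit 238) (nat_lit 265)) (PT.lf (nat_lit 39976) (nat_lit 6) (nat_lit 526) (nat_lit 1) (nat_lit 278) (nat_lit 238) (nat_lit 264))) (PT.nd (nat_lit 78) (PT.lf (nat_lit 39900) (nat_lit 6) (nat_lit 525) (nat_lit 1) (nat_lit 279) (nat_lit 238) (nat_lit 263)) (PT.lf (nat_lit 39824) (nat_lit 6) (nat_lit 524) (nat_lit 1) (nat_lit 280) (nat_lit 238) (nat_lit 262))))) (PT.nd (nat_lit 79326) (PT.nd (nat_lit 156) (PT.nd (nat_lit 78) (PT.lf (nat_lit 39748) (nat_lit 6) (nat_lit 523)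 (nat_lit 1) (nat_lit 281) (nat_lit 238) (nat_lit 261)) (PT.lf (nat_lit 39672) (nat_lit 6) (nat_lit 522) (nat_lit 1) (nat_lit 282) (nat_lit 238) (nat_lit 260))) (PT.nd (nat_lit 78) (PT.lf (nat_lit 37848) (nat_lit 6) (nat_lit 498) (nat_lit 1) (nat_lit 283) (nat_lit 238) (nat_lit 259)) (PT.lf (nat_lit 35948) (nat_lit 6) (nat_lit 473) (nat_lit 1) (nat_lit 284) (nat_lit 238) (nat_lit 258)))) (PT.nd (nat_lit 156) (PT.nd (nat_lit 78) (PT.lf (nat_lit 35872) (nat_lit 6) (nat_lit 472) (nat_lit 3) (nat_lit 257) (nat_lit 239) (nat_lit 284)) (PT.lf (nat_lit 37772) (nat_lit 6) (nat_lit 497) (nat_lit 3) (nat_lit 258) (nat_lit 239) (nat_lit 283))) (PT.nd (nat_lit 78) (PT.lf (nat_lit 39596) (nat_lit 6) (nat_lit 521) (nat_lit 3) (nat_lit 259) (nat_lit 239) (nat_lit 282)) (PT.lf (nat_lit 41344) (nat_lit 6) (nat_lit 544) (nat_lit 3) (nat_lit 260) (nat_lit 239) (nat_lit 281))))))))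
noncomputable def pc13 : PT := (PT.nd (nat_lit 81354) (PT.nd (nat_lit 1170) (PT.nd (nat_lit 546) (PT.nd (nat_lit 234) (PT.nd (nat_lit 78) (PT.lf (nat_lit 41420) (nat_lit 6) (nat_lit 545) (nat_lit 3) (nat_lit 261) (nat_lit 239) (nat_lit 280)) (PT.nd (nat_lit 78) (PT.lf (nat_lit 41496) (nat_lit 6) (nat_lit 546) (nat_lit 3) (nat_lit 262) (nat_lit 239) (nat_lit 279)) (PT.lf (nat_lit 41572) (nat_lit 6) (nat_lit 547) (nat_lit 3) (nat_lit 263) (nat_lit 239) (nat_lit 278)))) (PT.nd (nat_lit 156) (PT.nd (nat_lit 78) (PT.lf (nat_lit 41648) (nat_lit 6) (nat_lit 548) (nat_lit 3) (nat_lit 264) (nat_lit 239) (nat_lit 277)) (PT.lf (nat_lit 41724) (nat_lit 6) (nat_lit 549) (nat_lit 3) (nat_lit 265) (nat_lit 239) (nat_lit 276))) (PT.nd (nat_lit 78) (PT.lf (nat_lit 41800) (nat_lit 6) (nat_lit 550) (nat_lit 3) (nat_lit 266) (nat_lit 239) (nat_lit 275)) (PT.lf (nat_lit 41876) (nat_lit 6) (nat_lit 551) (nat_lit 3) (nat_lit 267) (nat_lit 239) (nat_lit 274))))) (PT.nd (nat_lit 312) (PT.nd (nat_lit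 156) (PT.nd (nat_lit 78) (PT.lf (nat_lit 41952) (nat_lit 6) (nat_lit 552) (nat_lit 3) (nat_lit 268) (nat_lit 239) (nat_lit 273)) (PT.lf (nat_lit 42028) (nat_lit 6) (nat_lit 553) (nat_lit 3) (nat_lit 269) (nat_lit 239) (nat_lit 272))) (PT.nd (nat_lit 78) (PT.lf (nat_lit 42104) (nat_lit 6) (nat_lit 554) (nat_lit 3) (nat_lit 270) (nat_lit 239) (nat_lit 271)) (PT.lf (nat_lit 42104) (nat_lit 6) (nat_lit 554) (nat_lit 1) (nat_lit 271) (nat_lit 239) (nat_lit 270)))) (PT.nd (nat_lit 156) (PT.nd (nat_lit 78) (PT.lf (nat_lit 42028) (nat_lit 6) (nat_lit 553) (nat_lit 1) (nat_lit 272) (nat_lit 239) (nat_lit 269)) (PT.lf (nat_lit 41952) (nat_lit 6) (nat_lit 552) (nat_lit 1) (nat_lit 273) (nat_lit 239) (nat_lit 268))) (PT.nd (nat_lit 78) (PT.lf (nat_lit 41876) (nat_lit 6) (nat_lit 551) (nat_lit 1) (nat_lit 274) (nat_lit 239) (nat_lit 267)) (PT.lf (nat_lit 41800) (nat_lit 6) (nat_lit 550) (nat_lit 1) (nat_lit 275) (nat_lit 239) (nat_lit 266)))))) (PT.nd (nat_lit 624) (PT.nd (nat_lit 312)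 (PT.nd (nat_lit 156) (PT.nd (nat_lit 78) (PT.lf (nat_lit 41724) (nat_lit 6) (nat_lit 549) (nat_lit 1) (nat_lit 276) (nat_lit 239) (nat_lit 265)) (PT.lf (nat_lit 41648) (nat_lit 6) (nat_lit 548) (nat_lit 1) (nat_lit 277) (nat_lit 239) (nat_lit 264))) (PT.nd (nat_lit 78) (PT.lf (nat_lit 41572) (nat_lit 6) (nat_lit 547) (nat_lit 1) (nat_lit 278) (nat_lit 239) (nat_lit 263)) (PT.lf (nat_lit 41496) (nat_lit 6) (nat_lit 546) (nat_lit 1) (nat_lit 279) (nat_lit 239) (nat_lit 262)))) (PT.nd (nat_lit 156) (PT.nd (nat_lit 78) (PT.lf (nat_lit 41420) (nat_lit 6) (nat_lit 545) (nat_lit 1) (nat_lit 280) (nat_lit 239) (nat_lit 261)) (PT.lf (nat_lit 41344) (nat_lit 6) (nat_lit 544) (nat_lit 1) (nat_lit 281) (nat_lit 239) (nat_lit 260))) (PT.nd (nat_lit 78) (PT.lf (nat_lit 39596) (nat_lit 6) (nat_lit 521) (nat_lit 1) (nat_lit 282) (nat_lit 239) (nat_lit 259)) (PT.lf (nat_lit 37772) (nat_lit 6) (nat_lit 497) (nat_lit 1) (nat_lit 283) (nat_lit 239) (nat_lit 258))))) (PT.nd (nat_lit 79248) (PT.nd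 (nat_lit 79092) (PT.nd (nat_lit 79014) (PT.lf (nat_lit 35872) (nat_lit 6) (nat_lit 472) (nat_lit 1) (nat_lit 284) (nat_lit 239) (nat_lit 257)) (PT.lf (nat_lit 35796) (nat_lit 6) (nat_lit 471) (nat_lit 3) (nat_lit 256) (nat_lit 240) (nat_lit 284))) (PT.nd (nat_lit 78) (PT.lf (nat_lit 37696) (nat_lit 6) (nat_lit 496) (nat_lit 3) (nat_lit 257) (nat_lit 240) (nat_lit 283)) (PT.lf (nat_lit 39520) (nat_lit 6) (nat_lit 520) (nat_lit 3) (nat_lit 258) (nat_lit 240) (nat_lit 282)))) (PT.nd (nat_lit 156) (PT.nd (nat_lit 78) (PT.lf (nat_lit 41268) (nat_lit 6) (nat_lit 543) (nat_lit 3) (nat_lit 259) (nat_lit 240) (nat_lit 281)) (PT.lf (nat_lit 42940) (nat_lit 6) (nat_lit 565) (nat_lit 3) (nat_lit 260) (nat_lit 240) (nat_lit 280))) (PT.nd (nat_lit 78) (PT.lf (nat_lit 43016) (nat_lit 6) (nat_lit 566) (nat_lit 3) (nat_lit 261) (nat_lit 240) (nat_lit 279)) (PT.lf (nat_lit 43092) (nat_lit 6) (nat_lit 567) (nat_lit 3) (nat_lit 262) (nat_lit 240) (nat_lit 278))))))) (PT.nd (nat_lit 1170) (PT.nd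 (nat_lit 546) (PT.nd (nat_lit 234) (PT.nd (nat_lit 78) (PT.lf (nat_lit 43168) (nat_lit 6) (nat_lit 568) (nat_lit 3) (nat_lit 263) (nat_lit 240) (nat_lit 277)) (PT.nd (nat_lit 78) (PT.lf (nat_lit 43244) (nat_lit 6) (nat_lit 569) (nat_lit 3) (nat_lit 264) (nat_lit 240) (nat_lit 276)) (PT.lf (nat_lit 43320) (nat_lit 6) (nat_lit 570) (nat_lit 3) (nat_lit 265) (nat_lit 240) (nat_lit 275)))) (PT.nd (nat_lit 156) (PT.nd (nat_lit 78) (PT.lf (nat_lit 43396) (nat_lit 6) (nat_lit 571) (nat_lit 3) (nat_lit 266) (nat_lit 240) (nat_lit 274)) (PT.lf (nat_lit 43472) (nat_lit 6) (nat_lit 572) (nat_lit 3) (nat_lit 267) (nat_lit 240) (nat_lit 273))) (PT.nd (nat_lit 78) (PT.lf (nat_lit 43548) (nat_lit 6) (nat_lit 573) (nat_lit 3) (nat_lit 268) (nat_lit 240) (nat_lit 272)) (PT.lf (nat_lit 43624) (nat_lit 6) (nat_lit 574) (nat_lit 3) (nat_lit 269) (nat_lit 240) (nat_lit 271))))) (PT.nd (nat_lit 312) (PT.nd (nat_lit 156) (PT.nd (nat_lit 78) (PT.lf (nat_lit 43700) (nat_lit 3) (nat_lit 575) (nat_lit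 1) (nat_lit 270) (nat_lit 240) (nat_lit 270)) (PT.lf (nat_lit 43624) (nat_lit 6) (nat_lit 574) (nat_lit 1) (nat_lit 271) (nat_lit 240) (nat_lit 269))) (PT.nd (nat_lit 78) (PT.lf (nat_lit 43548) (nat_lit 6) (nat_lit 573) (nat_lit 1) (nat_lit 272) (nat_lit 240) (nat_lit 268)) (PT.lf (nat_lit 43472) (nat_lit 6) (nat_lit 572) (nat_lit 1) (nat_lit 273) (nat_lit 240) (nat_lit 267)))) (PT.nd (nat_lit 156) (PT.nd (nat_lit 78) (PT.lf (nat_lit 43396) (nat_lit 6) (nat_lit 571) (nat_lit 1) (nat_lit 274) (nat_lit 240) (nat_lit 266)) (PT.lf (nat_lit 43320) (nat_lit 6) (nat_lit 570) (nat_lit 1) (nat_lit 275) (nat_lit 240) (nat_lit 265))) (PT.nd (nat_lit 78) (PT.lf (nat_lit 43244) (nat_lit 6) (nat_lit 569) (nat_lit 1) (nat_lit 276) (nat_lit 240) (nat_lit 264)) (PT.lf (nat_lit 43168) (nat_lit 6) (nat_lit 568) (nat_lit 1) (nat_lit 277) (nat_lit 240) (nat_lit 263)))))) (PT.nd (nat_lit 79482) (PT.nd (nat_lit 312) (PT.nd (nat_lit 156) (PT.nd (nat_lit 78) (PT.lf (nat_lit 43092) (nat_lit 6) (nat_lit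 567) (nat_lit 1) (nat_lit 278) (nat_lit 240) (nat_lit 262)) (PT.lf (nat_lit 43016) (nat_lit 6) (nat_lit 566) (nat_lit 1) (nat_lit 279) (nat_lit 240) (nat_lit 261))) (PT.nd (nat_lit 78) (PT.lf (nat_lit 42940) (nat_lit 6) (nat_lit 565) (nat_lit 1) (nat_lit 280) (nat_lit 240) (nat_lit 260)) (PT.lf (nat_lit 41268) (nat_lit 6) (nat_lit 543) (nat_lit 1) (nat_lit 281) (nat_lit 240) (nat_lit 259)))) (PT.nd (nat_lit 156) (PT.nd (nat_lit 78) (PT.lf (nat_lit 39520) (nat_lit 6) (nat_lit 520) (nat_lit 1) (nat_lit 282) (nat_lit 240) (nat_lit 258)) (PT.lf (nat_lit 37696) (nat_lit 6) (nat_lit 496) (nat_lit 1) (nat_lit 283) (nat_lit 240) (nat_lit 257))) (PT.nd (nat_lit 78936) (PT.lf (nat_lit 35796) (nat_lit 6) (nat_lit 471) (nat_lit 1) (nat_lit 284) (nat_lit 240) (nat_lit 256)) (PT.lf (nat_lit 35720) (nat_lit 6) (nat_lit 470) (nat_lit 3) (nat_lit 255) (nat_lit 241) (nat_lit 284))))) (PT.nd (nat_lit 312) (PT.nd (nat_lit 156) (PT.nd (nat_lit 78) (PT.lf (nat_lit 37620) (nat_lit 6) (nat_lit 495)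 (nat_lit 3) (nat_lit 256) (nat_lit 241) (nat_lit 283)) (PT.lf (nat_lit 39444) (nat_lit 6) (nat_lit 519) (nat_lit 3) (nat_lit 257) (nat_lit 241) (nat_lit 282))) (PT.nd (nat_lit 78) (PT.lf (nat_lit 41192) (nat_lit 6) (nat_lit 542) (nat_lit 3) (nat_lit 258) (nat_lit 241) (nat_lit 281)) (PT.lf (nat_lit 42864) (nat_lit 6) (nat_lit 564) (nat_lit 3) (nat_lit 259) (nat_lit 241) (nat_lit 280)))) (PT.nd (nat_lit 156) (PT.nd (nat_lit 78) (PT.lf (nat_lit 44460) (nat_lit 6) (nat_lit 585) (nat_lit 3) (nat_lit 260) (nat_lit 241) (nat_lit 279)) (PT.lf (nat_lit 44536) (nat_lit 6) (nat_lit 586) (nat_lit 3) (nat_lit 261) (nat_lit 241) (nat_lit 278))) (PT.nd (nat_lit 78) (PT.lf (nat_lit 44612) (nat_lit 6) (nat_lit 587) (nat_lit 3) (nat_lit 262) (nat_lit 241) (nat_lit 277)) (PT.lf (nat_lit 44688) (nat_lit 6) (nat_lit 588) (nat_lit 3) (nat_lit 263) (nat_lit 241) (nat_lit 276))))))))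
noncomputable def pc14 : PT := (PT.nd (nat_lit 81198) (PT.nd (nat_lit 1170) (PT.nd (nat_lit 546) (PT.nd (nat_lit 234) (PT.nd (nat_lit 78) (PT.lf (nat_lit 44764) (nat_lit 6) (nat_lit 589) (nat_lit 3) (nat_lit 264) (nat_lit 241) (nat_lit 275)) (PT.nd (nat_lit 78) (PT.lf (nat_lit 44840) (nat_lit 6) (nat_lit 590) (nat_lit 3) (nat_lit 265) (nat_lit 241) (nat_lit 274)) (PT.lf (nat_lit 44916) (nat_lit 6) (nat_lit 591) (nat_lit 3) (nat_lit 266) (nat_lit 241) (nat_lit 273)))) (PT.nd (nat_lit 156) (PT.nd (nat_lit 78) (PT.lf (nat_lit 44992) (nat_lit 6) (nat_lit 592) (nat_lit 3) (nat_lit 267) (nat_lit 241) (nat_lit 272)) (PT.lf (nat_lit 45068) (nat_lit 6) (nat_lit 593) (nat_lit 3) (nat_lit 268) (nat_lit 241) (nat_lit 271))) (PT.nd (nat_lit 78) (PT.lf (nat_lit 45144) (nat_lit 6) (nat_lit 594) (nat_lit 3) (nat_lit 269) (nat_lit 241) (nat_lit 270)) (PT.lf (nat_lit 45144) (nat_lit 6) (nat_lit 594) (nat_lit 1) (nat_lit 270) (nat_lit 241) (nat_lit 269))))) (PT.nd (nat_lit 312) (PT.nd (nat_lit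 156) (PT.nd (nat_lit 78) (PT.lf (nat_lit 45068) (nat_lit 6) (nat_lit 593) (nat_lit 1) (nat_lit 271) (nat_lit 241) (nat_lit 268)) (PT.lf (nat_lit 44992) (nat_lit 6) (nat_lit 592) (nat_lit 1) (nat_lit 272) (nat_lit 241) (nat_lit 267))) (PT.nd (nat_lit 78) (PT.lf (nat_lit 44916) (nat_lit 6) (nat_lit 591) (nat_lit 1) (nat_lit 273) (nat_lit 241) (nat_lit 266)) (PT.lf (nat_lit 44840) (nat_lit 6) (nat_lit 590) (nat_lit 1) (nat_lit 274) (nat_lit 241) (nat_lit 265)))) (PT.nd (nat_lit 156) (PT.nd (nat_lit 78) (PT.lf (nat_lit 44764) (nat_lit 6) (nat_lit 589) (nat_lit 1) (nat_lit 275) (nat_lit 241) (nat_lit 264)) (PT.lf (nat_lit 44688) (nat_lit 6) (nat_lit 588) (nat_lit 1) (nat_lit 276) (nat_lit 241) (nat_lit 263))) (PT.nd (nat_lit 78) (PT.lf (nat_lit 44612) (nat_lit 6) (nat_lit 587) (nat_lit 1) (nat_lit 277) (nat_lit 241) (nat_lit 262)) (PT.lf (nat_lit 44536) (nat_lit 6) (nat_lit 586) (nat_lit 1) (nat_lit 278) (nat_lit 241) (nat_lit 261)))))) (PT.nd (nat_lit 79404) (PT.nd (nat_lit 312)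 (PT.nd (nat_lit 156) (PT.nd (nat_lit 78) (PT.lf (nat_lit 44460) (nat_lit 6) (nat_lit 585) (nat_lit 1) (nat_lit 279) (nat_lit 241) (nat_lit 260)) (PT.lf (nat_lit 42864) (nat_lit 6) (nat_lit 564) (nat_lit 1) (nat_lit 280) (nat_lit 241) (nat_lit 259))) (PT.nd (nat_lit 78) (PT.lf (nat_lit 41192) (nat_lit 6) (nat_lit 542) (nat_lit 1) (nat_lit 281) (nat_lit 241) (nat_lit 258)) (PT.lf (nat_lit 39444) (nat_lit 6) (nat_lit 519) (nat_lit 1) (nat_lit 282) (nat_lit 241) (nat_lit 257)))) (PT.nd (nat_lit 78936) (PT.nd (nat_lit 78) (PT.lf (nat_lit 37620) (nat_lit 6) (nat_lit 495) (nat_lit 1) (nat_lit 283) (nat_lit 241) (nat_lit 256)) (PT.lf (nat_lit 35720) (nat_lit 6) (nat_lit 470) (nat_lit 1) (nat_lit 284) (nat_lit 241) (nat_lit 255))) (PT.nd (nat_lit 78) (PT.lf (nat_lit 35644) (nat_lit 6) (nat_lit 469) (nat_lit 3) (nat_lit 254) (nat_lit 242) (nat_lit 284)) (PT.lf (nat_lit 37544) (nat_lit 6) (nat_lit 494) (nat_lit 3) (nat_lit 255) (nat_lit 242) (nat_lit 283))))) (PT.nd (nat_lit 312) (PT.nd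 (nat_lit 156) (PT.nd (nat_lit 78) (PT.lf (nat_lit 39368) (nat_lit 6) (nat_lit 518) (nat_lit 3) (nat_lit 256) (nat_lit 242) (nat_lit 282)) (PT.lf (nat_lit 41116) (nat_lit 6) (nat_lit 541) (nat_lit 3) (nat_lit 257) (nat_lit 242) (nat_lit 281))) (PT.nd (nat_lit 78) (PT.lf (nat_lit 42788) (nat_lit 6) (nat_lit 563) (nat_lit 3) (nat_lit 258) (nat_lit 242) (nat_lit 280)) (PT.lf (nat_lit 44384) (nat_lit 6) (nat_lit 584) (nat_lit 3) (nat_lit 259) (nat_lit 242) (nat_lit 279)))) (PT.nd (nat_lit 156) (PT.nd (nat_lit 78) (PT.lf (nat_lit 45904) (nat_lit 6) (nat_lit 604) (nat_lit 3) (nat_lit 260) (nat_lit 242) (nat_lit 278)) (PT.lf (nat_lit 45980) (nat_lit 6) (nat_lit 605) (nat_lit 3) (nat_lit 261) (nat_lit 242) (nat_lit 277))) (PT.nd (nat_lit 78) (PT.lf (nat_lit 46056) (nat_lit 6) (nat_lit 606) (nat_lit 3) (nat_lit 262) (nat_lit 242) (nat_lit 276)) (PT.lf (nat_lit 46132) (nat_lit 6) (nat_lit 607) (nat_lit 3) (nat_lit 263) (nat_lit 242) (nat_lit 275))))))) (PT.nd (nat_lit 1170) (PT.nd (nat_lit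 546) (PT.nd (nat_lit 234) (PT.nd (nat_lit 78) (PT.lf (nat_lit 46208) (nat_lit 6) (nat_lit 608) (nat_lit 3) (nat_lit 264) (nat_lit 242) (nat_lit 274)) (PT.nd (nat_lit 78) (PT.lf (nat_lit 46284) (nat_lit 6) (nat_lit 609) (nat_lit 3) (nat_lit 265) (nat_lit 242) (nat_lit 273)) (PT.lf (nat_lit 46360) (nat_lit 6) (nat_lit 610) (nat_lit 3) (nat_lit 266) (nat_lit 242) (nat_lit 272)))) (PT.nd (nat_lit 156) (PT.nd (nat_lit 78) (PT.lf (nat_lit 46436) (nat_lit 6) (nat_lit 611) (nat_lit 3) (nat_lit 267) (nat_lit 242) (nat_lit 271)) (PT.lf (nat_lit 46512) (nat_lit 6) (nat_lit 612) (nat_lit 3) (nat_lit 268) (nat_lit 242) (nat_lit 270))) (PT.nd (nat_lit 78) (PT.lf (nat_lit 46588) (nat_lit 3) (nat_lit 613) (nat_lit 1) (nat_lit 269) (nat_lit 242) (nat_lit 269)) (PT.lf (nat_lit 46512) (nat_lit 6) (nat_lit 612) (nat_lit 1) (nat_lit 270) (nat_lit 242) (nat_lit 268))))) (PT.nd (nat_lit 312) (PT.nd (nat_lit 156) (PT.nd (nat_lit 78) (PT.lf (nat_lit 46436) (nat_lit 6) (nat_lit 611) (nat_lit 1) (nat_lit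 271) (nat_lit 242) (nat_lit 267)) (PT.lf (nat_lit 46360) (nat_lit 6) (nat_lit 610) (nat_lit 1) (nat_lit 272) (nat_lit 242) (nat_lit 266))) (PT.nd (nat_lit 78) (PT.lf (nat_lit 46284) (nat_lit 6) (nat_lit 609) (nat_lit 1) (nat_lit 273) (nat_lit 242) (nat_lit 265)) (PT.lf (nat_lit 46208) (nat_lit 6) (nat_lit 608) (nat_lit 1) (nat_lit 274) (nat_lit 242) (nat_lit 264)))) (PT.nd (nat_lit 156) (PT.nd (nat_lit 78) (PT.lf (nat_lit 46132) (nat_lit 6) (nat_lit 607) (nat_lit 1) (nat_lit 275) (nat_lit 242) (nat_lit 263)) (PT.lf (nat_lit 46056) (nat_lit 6) (nat_lit 606) (nat_lit 1) (nat_lit 276) (nat_lit 242) (nat_lit 262))) (PT.nd (nat_lit 78) (PT.lf (nat_lit 45980) (nat_lit 6) (nat_lit 605) (nat_lit 1) (nat_lit 277) (nat_lit 242) (nat_lit 261)) (PT.lf (nat_lit 45904) (nat_lit 6) (nat_lit 604) (nat_lit 1) (nat_lit 278) (nat_lit 242) (nat_lit 260)))))) (PT.nd (nat_lit 79326) (PT.nd (nat_lit 312) (PT.nd (nat_lit 156) (PT.nd (nat_lit 78) (PT.lf (nat_lit 44384) (nat_lit 6) (nat_lit 584) (nat_lit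 1) (nat_lit 279) (nat_lit 242) (nat_lit 259)) (PT.lf (nat_lit 42788) (nat_lit 6) (nat_lit 563) (nat_lit 1) (nat_lit 280) (nat_lit 242) (nat_lit 258))) (PT.nd (nat_lit 78) (PT.lf (nat_lit 41116) (nat_lit 6) (nat_lit 541) (nat_lit 1) (nat_lit 281) (nat_lit 242) (nat_lit 257)) (PT.lf (nat_lit 39368) (nat_lit 6) (nat_lit 518) (nat_lit 1) (nat_lit 282) (nat_lit 242) (nat_lit 256)))) (PT.nd (nat_lit 78858) (PT.nd (nat_lit 78) (PT.lf (nat_lit 37544) (nat_lit 6) (nat_lit 494) (nat_lit 1) (nat_lit 283) (nat_lit 242) (nat_lit 255)) (PT.lf (nat_lit 35644) (nat_lit 6) (nat_lit 469) (nat_lit 1) (nat_lit 284) (nat_lit 242) (nat_lit 254))) (PT.nd (nat_lit 78) (PT.lf (nat_lit 35568) (nat_lit 6) (nat_lit 468) (nat_lit 3) (nat_lit 253) (nat_lit 243) (nat_lit 284)) (PT.lf (nat_lit 37468) (nat_lit 6) (nat_lit 493) (nat_lit 3) (nat_lit 254) (nat_lit 243) (nat_lit 283))))) (PT.nd (nat_lit 312) (PT.nd (nat_lit 156) (PT.nd (nat_lit 78) (PT.lf (nat_lit 39292) (nat_lit 6) (nat_lit 517) (nat_lit 3)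 (nat_lit 255) (nat_lit 243) (nat_lit 282)) (PT.lf (nat_lit 41040) (nat_lit 6) (nat_lit 540) (nat_lit 3) (nat_lit 256) (nat_lit 243) (nat_lit 281))) (PT.nd (nat_lit 78) (PT.lf (nat_lit 42712) (nat_lit 6) (nat_lit 562) (nat_lit 3) (nat_lit 257) (nat_lit 243) (nat_lit 280)) (PT.lf (nat_lit 44308) (nat_lit 6) (nat_lit 583) (nat_lit 3) (nat_lit 258) (nat_lit 243) (nat_lit 279)))) (PT.nd (nat_lit 156) (PT.nd (nat_lit 78) (PT.lf (nat_lit 45828) (nat_lit 6) (nat_lit 603) (nat_lit 3) (nat_lit 259) (nat_lit 243) (nat_lit 278)) (PT.lf (nat_lit 47272) (nat_lit 6) (nat_lit 622) (nat_lit 3) (nat_lit 260) (nat_lit 243) (nat_lit 277))) (PT.nd (nat_lit 78) (PT.lf (nat_lit 47348) (nat_lit 6) (nat_lit 623) (nat_lit 3) (nat_lit 261) (nat_lit 243) (nat_lit 276)) (PT.lf (nat_lit 47424) (nat_lit 6) (nat_lit 624) (nat_lit 3) (nat_lit 262) (nat_lit 243) (nat_lit 275))))))))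
noncomputable def pc15 : PT := (PT.nd (nat_lit 81042) (PT.nd (nat_lit 1170) (PT.nd (nat_lit 546) (PT.nd (nat_lit 234) (PT.nd (nat_lit 78) (PT.lf (nat_lit 47500) (nat_lit 6) (nat_lit 625) (nat_lit 3) (nat_lit 263) (nat_lit 243) (nat_lit 274)) (PT.nd (nat_lit 78) (PT.lf (nat_lit 47576) (nat_lit 6) (nat_lit 626) (nat_lit 3) (nat_lit 264) (nat_lit 243) (nat_lit 273)) (PT.lf (nat_lit 47652) (nat_lit 6) (nat_lit 627) (nat_lit 3) (nat_lit 265) (nat_lit 243) (nat_lit 272)))) (PT.nd (nat_lit 156) (PT.nd (nat_lit 78) (PT.lf (nat_lit 47728) (nat_lit 6) (nat_lit 628) (nat_lit 3) (nat_lit 266) (nat_lit 243) (nat_lit 271)) (PT.lf (nat_lit 47804) (nat_lit 6) (nat_lit 629) (nat_lit 3) (nat_lit 267) (nat_lit 243) (nat_lit 270))) (PT.nd (nat_lit 78) (PT.lf (nat_lit 47880) (nat_lit 6) (nat_lit 630) (nat_lit 3) (nat_lit 268) (nat_lit 243) (nat_lit 269)) (PT.lf (nat_lit 47880) (nat_lit 6) (nat_lit 630) (nat_lit 1) (nat_lit 269) (nat_lit 243) (nat_lit 268))))) (PT.nd (nat_lit 312) (PT.nd (nat_lit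 156) (PT.nd (nat_lit 78) (PT.lf (nat_lit 47804) (nat_lit 6) (nat_lit 629) (nat_lit 1) (nat_lit 270) (nat_lit 243) (nat_lit 267)) (PT.lf (nat_lit 47728) (nat_lit 6) (nat_lit 628) (nat_lit 1) (nat_lit 271) (nat_lit 243) (nat_lit 266))) (PT.nd (nat_lit 78) (PT.lf (nat_lit 47652) (nat_lit 6) (nat_lit 627) (nat_lit 1) (nat_lit 272) (nat_lit 243) (nat_lit 265)) (PT.lf (nat_lit 47576) (nat_lit 6) (nat_lit 626) (nat_lit 1) (nat_lit 273) (nat_lit 243) (nat_lit 264)))) (PT.nd (nat_lit 156) (PT.nd (nat_lit 78) (PT.lf (nat_lit 47500) (nat_lit 6) (nat_lit 625) (nat_lit 1) (nat_lit 274) (nat_lit 243) (nat_lit 263)) (PT.lf (nat_lit 47424) (nat_lit 6) (nat_lit 624) (nat_lit 1) (nat_lit 275) (nat_lit 243) (nat_lit 262))) (PT.nd (nat_lit 78) (PT.lf (nat_lit 47348) (nat_lit 6) (nat_lit 623) (nat_lit 1) (nat_lit 276) (nat_lit 243) (nat_lit 261)) (PT.lf (nat_lit 47272) (nat_lit 6) (nat_lit 622) (nat_lit 1) (nat_lit 277) (nat_lit 243) (nat_lit 260)))))) (PT.nd (nat_lit 79248) (PT.nd (nat_lit 312)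 (PT.nd (nat_lit 156) (PT.nd (nat_lit 78) (PT.lf (nat_lit 45828) (nat_lit 6) (nat_lit 603) (nat_lit 1) (nat_lit 278) (nat_lit 243) (nat_lit 259)) (PT.lf (nat_lit 44308) (nat_lit 6) (nat_lit 583) (nat_lit 1) (nat_lit 279) (nat_lit 243) (nat_lit 258))) (PT.nd (nat_lit 78) (PT.lf (nat_lit 42712) (nat_lit 6) (nat_lit 562) (nat_lit 1) (nat_lit 280) (nat_lit 243) (nat_lit 257)) (PT.lf (nat_lit 41040) (nat_lit 6) (nat_lit 540) (nat_lit 1) (nat_lit 281) (nat_lit 243) (nat_lit 256)))) (PT.nd (nat_lit 156) (PT.nd (nat_lit 78) (PT.lf (nat_lit 39292) (nat_lit 6) (nat_lit 517) (nat_lit 1) (nat_lit 282) (nat_lit 243) (nat_lit 255)) (PT.lf (nat_lit 37468) (nat_lit 6) (nat_lit 493) (nat_lit 1) (nat_lit 283) (nat_lit 243) (nat_lit 254))) (PT.nd (nat_lit 78702) (PT.lf (nat_lit 35568) (nat_lit 6) (nat_lit 468) (nat_lit 1) (nat_lit 284) (nat_lit 243) (nat_lit 253)) (PT.lf (nat_lit 35492) (nat_lit 6) (nat_lit 467) (nat_lit 3) (nat_lit 252) (nat_lit 244) (nat_lit 284))))) (PT.nd (nat_lit 312) (PT.nd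 (nat_lit 156) (PT.nd (nat_lit 78) (PT.lf (nat_lit 37392) (nat_lit 6) (nat_lit 492) (nat_lit 3) (nat_lit 253) (nat_lit 244) (nat_lit 283)) (PT.lf (nat_lit 39216) (nat_lit 6) (nat_lit 516) (nat_lit 3) (nat_lit 254) (nat_lit 244) (nat_lit 282))) (PT.nd (nat_lit 78) (PT.lf (nat_lit 40964) (nat_lit 6) (nat_lit 539) (nat_lit 3) (nat_lit 255) (nat_lit 244) (nat_lit 281)) (PT.lf (nat_lit 42636) (nat_lit 6) (nat_lit 561) (nat_lit 3) (nat_lit 256) (nat_lit 244) (nat_lit 280)))) (PT.nd (nat_lit 156) (PT.nd (nat_lit 78) (PT.lf (nat_lit 44232) (nat_lit 6) (nat_lit 582) (nat_lit 3) (nat_lit 257) (nat_lit 244) (nat_lit 279)) (PT.lf (nat_lit 45752) (nat_lit 6) (nat_lit 602) (nat_lit 3) (nat_lit 258) (nat_lit 244) (nat_lit 278))) (PT.nd (nat_lit 78) (PT.lf (nat_lit 47196) (nat_lit 6) (nat_lit 621) (nat_lit 3) (nat_lit 259) (nat_lit 244) (nat_lit 277)) (PT.lf (nat_lit 48564) (nat_lit 6) (nat_lit 639) (nat_lit 3) (nat_lit 260) (nat_lit 244) (nat_lit 276))))))) (PT.nd (nat_lit 1248) (PT.nd (nat_lit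 624) (PT.nd (nat_lit 312) (PT.nd (nat_lit 156) (PT.nd (nat_lit 78) (PT.lf (nat_lit 48640) (nat_lit 6) (nat_lit 640) (nat_lit 3) (nat_lit 261) (nat_lit 244) (nat_lit 275)) (PT.lf (nat_lit 48716) (nat_lit 6) (nat_lit 641) (nat_lit 3) (nat_lit 262) (nat_lit 244) (nat_lit 274))) (PT.nd (nat_lit 78) (PT.lf (nat_lit 48792) (nat_lit 6) (nat_lit 642) (nat_lit 3) (nat_lit 263) (nat_lit 244) (nat_lit 273)) (PT.lf (nat_lit 48868) (nat_lit 6) (nat_lit 643) (nat_lit 3) (nat_lit 264) (nat_lit 244) (nat_lit 272)))) (PT.nd (nat_lit 156) (PT.nd (nat_lit 78) (PT.lf (nat_lit 48944) (nat_lit 6) (nat_lit 644) (nat_lit 3) (nat_lit 265) (nat_lit 244) (nat_lit 271)) (PT.lf (nat_lit 49020) (nat_lit 6) (nat_lit 645) (nat_lit 3) (nat_lit 266) (nat_lit 244) (nat_lit 270))) (PT.nd (nat_lit 78) (PT.lf (nat_lit 49096) (nat_lit 6) (nat_lit 646) (nat_lit 3) (nat_lit 267) (nat_lit 244) (nat_lit 269)) (PT.lf (nat_lit 49172) (nat_lit 3) (nat_lit 647) (nat_lit 1) (nat_lit 268) (nat_lit 244) (nat_lit 268)))))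 (PT.nd (nat_lit 312) (PT.nd (nat_lit 156) (PT.nd (nat_lit 78) (PT.lf (nat_lit 49096) (nat_lit 6) (nat_lit 646) (nat_lit 1) (nat_lit 269) (nat_lit 244) (nat_lit 267)) (PT.lf (nat_lit 49020) (nat_lit 6) (nat_lit 645) (nat_lit 1) (nat_lit 270) (nat_lit 244) (nat_lit 266))) (PT.nd (nat_lit 78) (PT.lf (nat_lit 48944) (nat_lit 6) (nat_lit 644) (nat_lit 1) (nat_lit 271) (nat_lit 244) (nat_lit 265)) (PT.lf (nat_lit 48868) (nat_lit 6) (nat_lit 643) (nat_lit 1) (nat_lit 272) (nat_lit 244) (nat_lit 264)))) (PT.nd (nat_lit 156) (PT.nd (nat_lit 78) (PT.lf (nat_lit 48792) (nat_lit 6) (nat_lit 642) (nat_lit 1) (nat_lit 273) (nat_lit 244) (nat_lit 263)) (PT.lf (nat_lit 48716) (nat_lit 6) (nat_lit 641) (nat_lit 1) (nat_lit 274) (nat_lit 244) (nat_lit 262))) (PT.nd (nat_lit 78) (PT.lf (nat_lit 48640) (nat_lit 6) (nat_lit 640) (nat_lit 1) (nat_lit 275) (nat_lit 244) (nat_lit 261)) (PT.lf (nat_lit 48564) (nat_lit 6) (nat_lit 639) (nat_lit 1) (nat_lit 276) (nat_lit 244) (nat_lit 260)))))) (PT.nd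 (nat_lit 79170) (PT.nd (nat_lit 312) (PT.nd (nat_lit 156) (PT.nd (nat_lit 78) (PT.lf (nat_lit 47196) (nat_lit 6) (nat_lit 621) (nat_lit 1) (nat_lit 277) (nat_lit 244) (nat_lit 259)) (PT.lf (nat_lit 45752) (nat_lit 6) (nat_lit 602) (nat_lit 1) (nat_lit 278) (nat_lit 244) (nat_lit 258))) (PT.nd (nat_lit 78) (PT.lf (nat_lit 44232) (nat_lit 6) (nat_lit 582) (nat_lit 1) (nat_lit 279) (nat_lit 244) (nat_lit 257)) (PT.lf (nat_lit 42636) (nat_lit 6) (nat_lit 561) (nat_lit 1) (nat_lit 280) (nat_lit 244) (nat_lit 256)))) (PT.nd (nat_lit 156) (PT.nd (nat_lit 78) (PT.lf (nat_lit 40964) (nat_lit 6) (nat_lit 539) (nat_lit 1) (nat_lit 281) (nat_lit 244) (nat_lit 255)) (PT.lf (nat_lit 39216) (nat_lit 6) (nat_lit 516) (nat_lit 1) (nat_lit 282) (nat_lit 244) (nat_lit 254))) (PT.nd (nat_lit 78) (PT.lf (nat_lit 37392) (nat_lit 6) (nat_lit 492) (nat_lit 1) (nat_lit 283) (nat_lit 244) (nat_lit 253)) (PT.lf (nat_lit 35492) (nat_lit 6) (nat_lit 467) (nat_lit 1) (nat_lit 284) (nat_lit 244) (nat_lit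 252))))) (PT.nd (nat_lit 312) (PT.nd (nat_lit 156) (PT.nd (nat_lit 78) (PT.lf (nat_lit 35416) (nat_lit 6) (nat_lit 466) (nat_lit 3) (nat_lit 251) (nat_lit 245) (nat_lit 284)) (PT.lf (nat_lit 37316) (nat_lit 6) (nat_lit 491) (nat_lit 3) (nat_lit 252) (nat_lit 245) (nat_lit 283))) (PT.nd (nat_lit 78) (PT.lf (nat_lit 39140) (nat_lit 6) (nat_lit 515) (nat_lit 3) (nat_lit 253) (nat_lit 245) (nat_lit 282)) (PT.lf (nat_lit 40888) (nat_lit 6) (nat_lit 538) (nat_lit 3) (nat_lit 254) (nat_lit 245) (nat_lit 281)))) (PT.nd (nat_lit 156) (PT.nd (nat_lit 78) (PT.lf (nat_lit 42560) (nat_lit 6) (nat_lit 560) (nat_lit 3) (nat_lit 255) (nat_lit 245) (nat_lit 280)) (PT.lf (nat_lit 44156) (nat_lit 6) (nat_lit 581) (nat_lit 3) (nat_lit 256) (nat_lit 245) (nat_lit 279))) (PT.nd (nat_lit 78) (PT.lf (nat_lit 45676) (nat_lit 6) (nat_lit 601) (nat_lit 3) (nat_lit 257) (nat_lit 245) (nat_lit 278)) (PT.lf (nat_lit 47120) (nat_lit 6) (nat_lit 620) (nat_lit 3) (nat_lit 258) (nat_lit 245) (nat_lit 277))))))))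
noncomputable def pc16 : PT := (PT.nd (nat_lit 80886) (PT.nd (nat_lit 1170) (PT.nd (nat_lit 546) (PT.nd (nat_lit 234) (PT.nd (nat_lit 78) (PT.lf (nat_lit 48488) (nat_lit 6) (nat_lit 638) (nat_lit 3) (nat_lit 259) (nat_lit 245) (nat_lit 276)) (PT.nd (nat_lit 78) (PT.lf (nat_lit 49780) (nat_lit 6) (nat_lit 655) (nat_lit 3) (nat_lit 260) (nat_lit 245) (nat_lit 275)) (PT.lf (nat_lit 49856) (nat_lit 6) (nat_lit 656) (nat_lit 3) (nat_lit 261) (nat_lit 245) (nat_lit 274)))) (PT.nd (nat_lit 156) (PT.nd (nat_lit 78) (PT.lf (nat_lit 49932) (nat_lit 6) (nat_lit 657) (nat_lit 3) (nat_lit 262) (nat_lit 245) (nat_lit 273)) (PT.lf (nat_lit 50008) (nat_lit 6) (nat_lit 658) (nat_lit 3) (nat_lit 263) (nat_lit 245) (nat_lit 272))) (PT.nd (nat_lit 78) (PT.lf (nat_lit 50084) (nat_lit 6) (nat_lit 659) (nat_lit 3) (nat_lit 264) (nat_lit 245) (nat_lit 271)) (PT.lf (nat_lit 50160) (nat_lit 6) (nat_lit 660) (nat_lit 3) (nat_lit 265) (nat_lit 245) (nat_lit 270))))) (PT.nd (nat_lit 312) (PT.nd (nat_lit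 156) (PT.nd (nat_lit 78) (PT.lf (nat_lit 50236) (nat_lit 6) (nat_lit 661) (nat_lit 3) (nat_lit 266) (nat_lit 245) (nat_lit 269)) (PT.lf (nat_lit 50312) (nat_lit 6) (nat_lit 662) (nat_lit 3) (nat_lit 267) (nat_lit 245) (nat_lit 268))) (PT.nd (nat_lit 78) (PT.lf (nat_lit 50312) (nat_lit 6) (nat_lit 662) (nat_lit 1) (nat_lit 268) (nat_lit 245) (nat_lit 267)) (PT.lf (nat_lit 50236) (nat_lit 6) (nat_lit 661) (nat_lit 1) (nat_lit 269) (nat_lit 245) (nat_lit 266)))) (PT.nd (nat_lit 156) (PT.nd (nat_lit 78) (PT.lf (nat_lit 50160) (nat_lit 6) (nat_lit 660) (nat_lit 1) (nat_lit 270) (nat_lit 245) (nat_lit 265)) (PT.lf (nat_lit 50084) (nat_lit 6) (nat_lit 659) (nat_lit 1) (nat_lit 271) (nat_lit 245) (nat_lit 264))) (PT.nd (nat_lit 78) (PT.lf (nat_lit 50008) (nat_lit 6) (nat_lit 658) (nat_lit 1) (nat_lit 272) (nat_lit 245) (nat_lit 263)) (PT.lf (nat_lit 49932) (nat_lit 6) (nat_lit 657) (nat_lit 1) (nat_lit 273) (nat_lit 245) (nat_lit 262)))))) (PT.nd (nat_lit 624) (PT.nd (nat_lit 312)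 (PT.nd (nat_lit 156) (PT.nd (nat_lit 78) (PT.lf (nat_lit 49856) (nat_lit 6) (nat_lit 656) (nat_lit 1) (nat_lit 274) (nat_lit 245) (nat_lit 261)) (PT.lf (nat_lit 49780) (nat_lit 6) (nat_lit 655) (nat_lit 1) (nat_lit 275) (nat_lit 245) (nat_lit 260))) (PT.nd (nat_lit 78) (PT.lf (nat_lit 48488) (nat_lit 6) (nat_lit 638) (nat_lit 1) (nat_lit 276) (nat_lit 245) (nat_lit 259)) (PT.lf (nat_lit 47120) (nat_lit 6) (nat_lit 620) (nat_lit 1) (nat_lit 277) (nat_lit 245) (nat_lit 258)))) (PT.nd (nat_lit 156) (PT.nd (nat_lit 78) (PT.lf (nat_lit 45676) (nat_lit 6) (nat_lit 601) (nat_lit 1) (nat_lit 278) (nat_lit 245) (nat_lit 257)) (PT.lf (nat_lit 44156) (nat_lit 6) (nat_lit 581) (nat_lit 1) (nat_lit 279) (nat_lit 245) (nat_lit 256))) (PT.nd (nat_lit 78) (PT.lf (nat_lit 42560) (nat_lit 6) (nat_lit 560) (nat_lit 1) (nat_lit 280) (nat_lit 245) (nat_lit 255)) (PT.lf (nat_lit 40888) (nat_lit 6) (nat_lit 538) (nat_lit 1) (nat_lit 281) (nat_lit 245) (nat_lit 254))))) (PT.nd (nat_lit 78780) (PT.nd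 (nat_lit 156) (PT.nd (nat_lit 78) (PT.lf (nat_lit 39140) (nat_lit 6) (nat_lit 515) (nat_lit 1) (nat_lit 282) (nat_lit 245) (nat_lit 253)) (PT.lf (nat_lit 37316) (nat_lit 6) (nat_lit 491) (nat_lit 1) (nat_lit 283) (nat_lit 245) (nat_lit 252))) (PT.nd (nat_lit 78546) (PT.lf (nat_lit 35416) (nat_lit 6) (nat_lit 466) (nat_lit 1) (nat_lit 284) (nat_lit 245) (nat_lit 251)) (PT.lf (nat_lit 35340) (nat_lit 6) (nat_lit 465) (nat_lit 3) (nat_lit 250) (nat_lit 246) (nat_lit 284)))) (PT.nd (nat_lit 156) (PT.nd (nat_lit 78) (PT.lf (nat_lit 37240) (nat_lit 6) (nat_lit 490) (nat_lit 3) (nat_lit 251) (nat_lit 246) (nat_lit 283)) (PT.lf (nat_lit 39064) (nat_lit 6) (nat_lit 514) (nat_lit 3) (nat_lit 252) (nat_lit 246) (nat_lit 282))) (PT.nd (nat_lit 78) (PT.lf (nat_lit 40812) (nat_lit 6) (nat_lit 537) (nat_lit 3) (nat_lit 253) (nat_lit 246) (nat_lit 281)) (PT.lf (nat_lit 42484) (nat_lit 6) (nat_lit 559) (nat_lit 3) (nat_lit 254) (nat_lit 246) (nat_lit 280))))))) (PT.nd (nat_lit 1170) (PT.nd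 (nat_lit 546) (PT.nd (nat_lit 234) (PT.nd (nat_lit 78) (PT.lf (nat_lit 44080) (nat_lit 6) (nat_lit 580) (nat_lit 3) (nat_lit 255) (nat_lit 246) (nat_lit 279)) (PT.nd (nat_lit 78) (PT.lf (nat_lit 45600) (nat_lit 6) (nat_lit 600) (nat_lit 3) (nat_lit 256) (nat_lit 246) (nat_lit 278)) (PT.lf (nat_lit 47044) (nat_lit 6) (nat_lit 619) (nat_lit 3) (nat_lit 257) (nat_lit 246) (nat_lit 277)))) (PT.nd (nat_lit 156) (PT.nd (nat_lit 78) (PT.lf (nat_lit 48412) (nat_lit 6) (nat_lit 637) (nat_lit 3) (nat_lit 258) (nat_lit 246) (nat_lit 276)) (PT.lf (nat_lit 49704) (nat_lit 6) (nat_lit 654) (nat_lit 3) (nat_lit 259) (nat_lit 246) (nat_lit 275))) (PT.nd (nat_lit 78) (PT.lf (nat_lit 50920) (nat_lit 6) (nat_lit 670) (nat_lit 3) (nat_lit 260) (nat_lit 246) (nat_lit 274)) (PT.lf (nat_lit 50996) (nat_lit 6) (nat_lit 671) (nat_lit 3) (nat_lit 261) (nat_lit 246) (nat_lit 273))))) (PT.nd (nat_lit 312) (PT.nd (nat_lit 156) (PT.nd (nat_lit 78) (PT.lf (nat_lit 51072) (nat_lit 6) (nat_lit 672) (nat_lit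 3) (nat_lit 262) (nat_lit 246) (nat_lit 272)) (PT.lf (nat_lit 51148) (nat_lit 6) (nat_lit 673) (nat_lit 3) (nat_lit 263) (nat_lit 246) (nat_lit 271))) (PT.nd (nat_lit 78) (PT.lf (nat_lit 51224) (nat_lit 6) (nat_lit 674) (nat_lit 3) (nat_lit 264) (nat_lit 246) (nat_lit 270)) (PT.lf (nat_lit 51300) (nat_lit 6) (nat_lit 675) (nat_lit 3) (nat_lit 265) (nat_lit 246) (nat_lit 269)))) (PT.nd (nat_lit 156) (PT.nd (nat_lit 78) (PT.lf (nat_lit 51376) (nat_lit 6) (nat_lit 676) (nat_lit 3) (nat_lit 266) (nat_lit 246) (nat_lit 268)) (PT.lf (nat_lit 51452) (nat_lit 3) (nat_lit 677) (nat_lit 1) (nat_lit 267) (nat_lit 246) (nat_lit 267))) (PT.nd (nat_lit 78) (PT.lf (nat_lit 51376) (nat_lit 6) (nat_lit 676) (nat_lit 1) (nat_lit 268) (nat_lit 246) (nat_lit 266)) (PT.lf (nat_lit 51300) (nat_lit 6) (nat_lit 675) (nat_lit 1) (nat_lit 269) (nat_lit 246) (nat_lit 265)))))) (PT.nd (nat_lit 624) (PT.nd (nat_lit 312) (PT.nd (nat_lit 156) (PT.nd (nat_lit 78) (PT.lf (nat_lit 51224) (nat_lit 6) (nat_lit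 674) (nat_lit 1) (nat_lit 270) (nat_lit 246) (nat_lit 264)) (PT.lf (nat_lit 51148) (nat_lit 6) (nat_lit 673) (nat_lit 1) (nat_lit 271) (nat_lit 246) (nat_lit 263))) (PT.nd (nat_lit 78) (PT.lf (nat_lit 51072) (nat_lit 6) (nat_lit 672) (nat_lit 1) (nat_lit 272) (nat_lit 246) (nat_lit 262)) (PT.lf (nat_lit 50996) (nat_lit 6) (nat_lit 671) (nat_lit 1) (nat_lit 273) (nat_lit 246) (nat_lit 261)))) (PT.nd (nat_lit 156) (PT.nd (nat_lit 78) (PT.lf (nat_lit 50920) (nat_lit 6) (nat_lit 670) (nat_lit 1) (nat_lit 274) (nat_lit 246) (nat_lit 260)) (PT.lf (nat_lit 49704) (nat_lit 6) (nat_lit 654) (nat_lit 1) (nat_lit 275) (nat_lit 246) (nat_lit 259))) (PT.nd (nat_lit 78) (PT.lf (nat_lit 48412) (nat_lit 6) (nat_lit 637) (nat_lit 1) (nat_lit 276) (nat_lit 246) (nat_lit 258)) (PT.lf (nat_lit 47044) (nat_lit 6) (nat_lit 619) (nat_lit 1) (nat_lit 277) (nat_lit 246) (nat_lit 257))))) (PT.nd (nat_lit 312) (PT.nd (nat_lit 156) (PT.nd (nat_lit 78) (PT.lf (nat_lit 45600) (nat_lit 6) (nat_lit 600)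 (nat_lit 1) (nat_lit 278) (nat_lit 246) (nat_lit 256)) (PT.lf (nat_lit 44080) (nat_lit 6) (nat_lit 580) (nat_lit 1) (nat_lit 279) (nat_lit 246) (nat_lit 255))) (PT.nd (nat_lit 78) (PT.lf (nat_lit 42484) (nat_lit 6) (nat_lit 559) (nat_lit 1) (nat_lit 280) (nat_lit 246) (nat_lit 254)) (PT.lf (nat_lit 40812) (nat_lit 6) (nat_lit 537) (nat_lit 1) (nat_lit 281) (nat_lit 246) (nat_lit 253)))) (PT.nd (nat_lit 156) (PT.nd (nat_lit 78) (PT.lf (nat_lit 39064) (nat_lit 6) (nat_lit 514) (nat_lit 1) (nat_lit 282) (nat_lit 246) (nat_lit 252)) (PT.lf (nat_lit 37240) (nat_lit 6) (nat_lit 490) (nat_lit 1) (nat_lit 283) (nat_lit 246) (nat_lit 251))) (PT.nd (nat_lit 78468) (PT.lf (nat_lit 35340) (nat_lit 6) (nat_lit 465) (nat_lit 1) (nat_lit 284) (nat_lit 246) (nat_lit 250)) (PT.lf (nat_lit 35264) (nat_lit 6) (nat_lit 464) (nat_lit 3) (nat_lit 249) (nat_lit 247) (nat_lit 284))))))))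
noncomputable def pc17 : PT := (PT.nd (nat_lit 2418) (PT.nd (nat_lit 1170) (PT.nd (nat_lit 546) (PT.nd (nat_lit 234) (PT.nd (nat_lit 78) (PT.lf (nat_lit 37164) (nat_lit 6) (nat_lit 489) (nat_lit 3) (nat_lit 250) (nat_lit 247) (nat_lit 283)) (PT.nd (nat_lit 78) (PT.lf (nat_lit 38988) (nat_lit 6) (nat_lit 513) (nat_lit 3) (nat_lit 251) (nat_lit 247) (nat_lit 282)) (PT.lf (nat_lit 40736) (nat_lit 6) (nat_lit 536) (nat_lit 3) (nat_lit 252) (nat_lit 247) (nat_lit 281)))) (PT.nd (nat_lit 156) (PT.nd (nat_lit 78) (PT.lf (nat_lit 42408) (nat_lit 6) (nat_lit 558) (nat_lit 3) (nat_lit 253) (nat_lit 247) (nat_lit 280)) (PT.lf (nat_lit 44004) (nat_lit 6) (nat_lit 579) (nat_lit 3) (nat_lit 254) (nat_lit 247) (nat_lit 279))) (PT.nd (nat_lit 78) (PT.lf (nat_lit 45524) (nat_lit 6) (nat_lit 599) (nat_lit 3) (nat_lit 255) (nat_lit 247) (nat_lit 278)) (PT.lf (nat_lit 46968) (nat_lit 6) (nat_lit 618) (nat_lit 3) (nat_lit 256) (nat_lit 247) (nat_lit 277))))) (PT.nd (nat_lit 312) (PT.nd (nat_lit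 156) (PT.nd (nat_lit 78) (PT.lf (nat_lit 48336) (nat_lit 6) (nat_lit 636) (nat_lit 3) (nat_lit 257) (nat_lit 247) (nat_lit 276)) (PT.lf (nat_lit 49628) (nat_lit 6) (nat_lit 653) (nat_lit 3) (nat_lit 258) (nat_lit 247) (nat_lit 275))) (PT.nd (nat_lit 78) (PT.lf (nat_lit 50844) (nat_lit 6) (nat_lit 669) (nat_lit 3) (nat_lit 259) (nat_lit 247) (nat_lit 274)) (PT.lf (nat_lit 51984) (nat_lit 6) (nat_lit 684) (nat_lit 3) (nat_lit 260) (nat_lit 247) (nat_lit 273)))) (PT.nd (nat_lit 156) (PT.nd (nat_lit 78) (PT.lf (nat_lit 52060) (nat_lit 6) (nat_lit 685) (nat_lit 3) (nat_lit 261) (nat_lit 247) (nat_lit 272)) (PT.lf (nat_lit 52136) (nat_lit 6) (nat_lit 686) (nat_lit 3) (nat_lit 262) (nat_lit 247) (nat_lit 271))) (PT.nd (nat_lit 78) (PT.lf (nat_lit 52212) (nat_lit 6) (nat_lit 687) (nat_lit 3) (nat_lit 263) (nat_lit 247) (nat_lit 270)) (PT.lf (nat_lit 52288) (nat_lit 6) (nat_lit 688) (nat_lit 3) (nat_lit 264) (nat_lit 247) (nat_lit 269)))))) (PT.nd (nat_lit 624) (PT.nd (nat_lit 312)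 (PT.nd (nat_lit 156) (PT.nd (nat_lit 78) (PT.lf (nat_lit 52364) (nat_lit 6) (nat_lit 689) (nat_lit 3) (nat_lit 265) (nat_lit 247) (nat_lit 268)) (PT.lf (nat_lit 52440) (nat_lit 6) (nat_lit 690) (nat_lit 3) (nat_lit 266) (nat_lit 247) (nat_lit 267))) (PT.nd (nat_lit 78) (PT.lf (nat_lit 52440) (nat_lit 6) (nat_lit 690) (nat_lit 1) (nat_lit 267) (nat_lit 247) (nat_lit 266)) (PT.lf (nat_lit 52364) (nat_lit 6) (nat_lit 689) (nat_lit 1) (nat_lit 268) (nat_lit 247) (nat_lit 265)))) (PT.nd (nat_lit 156) (PT.nd (nat_lit 78) (PT.lf (nat_lit 52288) (nat_lit 6) (nat_lit 688) (nat_lit 1) (nat_lit 269) (nat_lit 247) (nat_lit 264)) (PT.lf (nat_lit 52212) (nat_lit 6) (nat_lit 687) (nat_lit 1) (nat_lit 270) (nat_lit 247) (nat_lit 263))) (PT.nd (nat_lit 78) (PT.lf (nat_lit 52136) (nat_lit 6) (nat_lit 686) (nat_lit 1) (nat_lit 271) (nat_lit 247) (nat_lit 262)) (PT.lf (nat_lit 52060) (nat_lit 6) (nat_lit 685) (nat_lit 1) (nat_lit 272) (nat_lit 247) (nat_lit 261))))) (PT.nd (nat_lit 312) (PT.nd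 (nat_lit 156) (PT.nd (nat_lit 78) (PT.lf (nat_lit 51984) (nat_lit 6) (nat_lit 684) (nat_lit 1) (nat_lit 273) (nat_lit 247) (nat_lit 260)) (PT.lf (nat_lit 50844) (nat_lit 6) (nat_lit 669) (nat_lit 1) (nat_lit 274) (nat_lit 247) (nat_lit 259))) (PT.nd (nat_lit 78) (PT.lf (nat_lit 49628) (nat_lit 6) (nat_lit 653) (nat_lit 1) (nat_lit 275) (nat_lit 247) (nat_lit 258)) (PT.lf (nat_lit 48336) (nat_lit 6) (nat_lit 636) (nat_lit 1) (nat_lit 276) (nat_lit 247) (nat_lit 257)))) (PT.nd (nat_lit 156) (PT.nd (nat_lit 78) (PT.lf (nat_lit 46968) (nat_lit 6) (nat_lit 618) (nat_lit 1) (nat_lit 277) (nat_lit 247) (nat_lit 256)) (PT.lf (nat_lit 45524) (nat_lit 6) (nat_lit 599) (nat_lit 1) (nat_lit 278) (nat_lit 247) (nat_lit 255))) (PT.nd (nat_lit 78) (PT.lf (nat_lit 44004) (nat_lit 6) (nat_lit 579) (nat_lit 1) (nat_lit 279) (nat_lit 247) (nat_lit 254)) (PT.lf (nat_lit 42408) (nat_lit 6) (nat_lit 558) (nat_lit 1) (nat_lit 280) (nat_lit 247) (nat_lit 253))))))) (PT.nd (nat_lit 79482) (PT.nd (nat_lit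 78858) (PT.nd (nat_lit 234) (PT.nd (nat_lit 78) (PT.lf (nat_lit 40736) (nat_lit 6) (nat_lit 536) (nat_lit 1) (nat_lit 281) (nat_lit 247) (nat_lit 252)) (PT.nd (nat_lit 78) (PT.lf (nat_lit 38988) (nat_lit 6) (nat_lit 513) (nat_lit 1) (nat_lit 282) (nat_lit 247) (nat_lit 251)) (PT.lf (nat_lit 37164) (nat_lit 6) (nat_lit 489) (nat_lit 1) (nat_lit 283) (nat_lit 247) (nat_lit 250)))) (PT.nd (nat_lit 78468) (PT.nd (nat_lit 78390) (PT.lf (nat_lit 35264) (nat_lit 6) (nat_lit 464) (nat_lit 1) (nat_lit 284) (nat_lit 247) (nat_lit 249)) (PT.lf (nat_lit 35188) (nat_lit 3) (nat_lit 463) (nat_lit 3) (nat_lit 248) (nat_lit 248) (nat_lit 284))) (PT.nd (nat_lit 78) (PT.lf (nat_lit 37088) (nat_lit 6) (nat_lit 488) (nat_lit 3) (nat_lit 249) (nat_lit 248) (nat_lit 283)) (PT.lf (nat_lit 38912) (nat_lit 6) (nat_lit 512) (nat_lit 3) (nat_lit 250) (nat_lit 248) (nat_lit 282))))) (PT.nd (nat_lit 312) (PT.nd (nat_lit 156) (PT.nd (nat_lit 78) (PT.lf (nat_lit 40660) (nat_lit 6) (nat_lit 535) (nat_lit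 3) (nat_lit 251) (nat_lit 248) (nat_lit 281)) (PT.lf (nat_lit 42332) (nat_lit 6) (nat_lit 557) (nat_lit 3) (nat_lit 252) (nat_lit 248) (nat_lit 280))) (PT.nd (nat_lit 78) (PT.lf (nat_lit 43928) (nat_lit 6) (nat_lit 578) (nat_lit 3) (nat_lit 253) (nat_lit 248) (nat_lit 279)) (PT.lf (nat_lit 45448) (nat_lit 6) (nat_lit 598) (nat_lit 3) (nat_lit 254) (nat_lit 248) (nat_lit 278)))) (PT.nd (nat_lit 156) (PT.nd (nat_lit 78) (PT.lf (nat_lit 46892) (nat_lit 6) (nat_lit 617) (nat_lit 3) (nat_lit 255) (nat_lit 248) (nat_lit 277)) (PT.lf (nat_lit 48260) (nat_lit 6) (nat_lit 635) (nat_lit 3) (nat_lit 256) (nat_lit 248) (nat_lit 276))) (PT.nd (nat_lit 78) (PT.lf (nat_lit 49552) (nat_lit 6) (nat_lit 652) (nat_lit 3) (nat_lit 257) (nat_lit 248) (nat_lit 275)) (PT.lf (nat_lit 50768) (nat_lit 6) (nat_lit 668) (nat_lit 3) (nat_lit 258) (nat_lit 248) (nat_lit 274)))))) (PT.nd (nat_lit 624) (PT.nd (nat_lit 312) (PT.nd (nat_lit 156) (PT.nd (nat_lit 78) (PT.lf (nat_lit 51908) (nat_lit 6) (nat_lit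 683) (nat_lit 3) (nat_lit 259) (nat_lit 248) (nat_lit 273)) (PT.lf (nat_lit 52972) (nat_lit 6) (nat_lit 697) (nat_lit 3) (nat_lit 260) (nat_lit 248) (nat_lit 272))) (PT.nd (nat_lit 78) (PT.lf (nat_lit 53048) (nat_lit 6) (nat_lit 698) (nat_lit 3) (nat_lit 261) (nat_lit 248) (nat_lit 271)) (PT.lf (nat_lit 53124) (nat_lit 6) (nat_lit 699) (nat_lit 3) (nat_lit 262) (nat_lit 248) (nat_lit 270)))) (PT.nd (nat_lit 156) (PT.nd (nat_lit 78) (PT.lf (nat_lit 53200) (nat_lit 6) (nat_lit 700) (nat_lit 3) (nat_lit 263) (nat_lit 248) (nat_lit 269)) (PT.lf (nat_lit 53276) (nat_lit 6) (nat_lit 701) (nat_lit 3) (nat_lit 264) (nat_lit 248) (nat_lit 268))) (PT.nd (nat_lit 78) (PT.lf (nat_lit 53352) (nat_lit 6) (nat_lit 702) (nat_lit 3) (nat_lit 265) (nat_lit 248) (nat_lit 267)) (PT.lf (nat_lit 53428) (nat_lit 3) (nat_lit 703) (nat_lit 1) (nat_lit 266) (nat_lit 248) (nat_lit 266))))) (PT.nd (nat_lit 312) (PT.nd (nat_lit 156) (PT.nd (nat_lit 78) (PT.lf (nat_lit 53352) (nat_lit 6) (nat_lit 702)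 (nat_lit 1) (nat_lit 267) (nat_lit 248) (nat_lit 265)) (PT.lf (nat_lit 53276) (nat_lit 6) (nat_lit 701) (nat_lit 1) (nat_lit 268) (nat_lit 248) (nat_lit 264))) (PT.nd (nat_lit 78) (PT.lf (nat_lit 53200) (nat_lit 6) (nat_lit 700) (nat_lit 1) (nat_lit 269) (nat_lit 248) (nat_lit 263)) (PT.lf (nat_lit 53124) (nat_lit 6) (nat_lit 699) (nat_lit 1) (nat_lit 270) (nat_lit 248) (nat_lit 262)))) (PT.nd (nat_lit 156) (PT.nd (nat_lit 78) (PT.lf (nat_lit 53048) (nat_lit 6) (nat_lit 698) (nat_lit 1) (nat_lit 271) (nat_lit 248) (nat_lit 261)) (PT.lf (nat_lit 52972) (nat_lit 6) (nat_lit 697) (nat_lit 1) (nat_lit 272) (nat_lit 248) (nat_lit 260))) (PT.nd (nat_lit 78) (PT.lf (nat_lit 51908) (nat_lit 6) (nat_lit 683) (nat_lit 1) (nat_lit 273) (nat_lit 248) (nat_lit 259)) (PT.lf (nat_lit 50768) (nat_lit 6) (nat_lit 668) (nat_lit 1) (nat_lit 274) (nat_lit 248) (nat_lit 258))))))))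
noncomputable def pc18 : PT := (PT.nd (nat_lit 80652) (PT.nd (nat_lit 79404) (PT.nd (nat_lit 546) (PT.nd (nat_lit 234) (PT.nd (nat_lit 78) (PT.lf (nat_lit 49552) (nat_lit 6) (nat_lit 652) (nat_lit 1) (nat_lit 275) (nat_lit 248) (nat_lit 257)) (PT.nd (nat_lit 78) (PT.lf (nat_lit 48260) (nat_lit 6) (nat_lit 635) (nat_lit 1) (nat_lit 276) (nat_lit 248) (nat_lit 256)) (PT.lf (nat_lit 46892) (nat_lit 6) (nat_lit 617) (nat_lit 1) (nat_lit 277) (nat_lit 248) (nat_lit 255)))) (PT.nd (nat_lit 156) (PT.nd (nat_lit 78) (PT.lf (nat_lit 45448) (nat_lit 6) (nat_lit 598) (nat_lit 1) (nat_lit 278) (nat_lit 248) (nat_lit 254)) (PT.lf (nat_lit 43928) (nat_lit 6) (nat_lit 578) (nat_lit 1) (nat_lit 279) (nat_lit 248) (nat_lit 253))) (PT.nd (nat_lit 78) (PT.lf (nat_lit 42332) (nat_lit 6) (nat_lit 557) (nat_lit 1) (nat_lit 280) (nat_lit 248) (nat_lit 252)) (PT.lf (nat_lit 40660) (nat_lit 6) (nat_lit 535) (nat_lit 1) (nat_lit 281) (nat_lit 248) (nat_lit 251))))) (PT.nd (nat_lit 78546) (PT.nd (nat_lit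 156) (PT.nd (nat_lit 78) (PT.lf (nat_lit 38912) (nat_lit 6) (nat_lit 512) (nat_lit 1) (nat_lit 282) (nat_lit 248) (nat_lit 250)) (PT.lf (nat_lit 37088) (nat_lit 6) (nat_lit 488) (nat_lit 1) (nat_lit 283) (nat_lit 248) (nat_lit 249))) (PT.nd (nat_lit 78312) (PT.lf (nat_lit 35188) (nat_lit 3) (nat_lit 463) (nat_lit 0) (nat_lit 284) (nat_lit 248) (nat_lit 248)) (PT.lf (nat_lit 35264) (nat_lit 6) (nat_lit 464) (nat_lit 5) (nat_lit 247) (nat_lit 249) (nat_lit 284)))) (PT.nd (nat_lit 156) (PT.nd (nat_lit 78) (PT.lf (nat_lit 37088) (nat_lit 6) (nat_lit 488) (nat_lit 5) (nat_lit 248) (nat_lit 249) (nat_lit 283)) (PT.lf (nat_lit 38836) (nat_lit 3) (nat_lit 511) (nat_lit 3) (nat_lit 249) (nat_lit 249) (nat_lit 282))) (PT.nd (nat_lit 78) (PT.lf (nat_lit 40584) (nat_lit 6) (nat_lit 534) (nat_lit 3) (nat_lit 250) (nat_lit 249) (nat_lit 281)) (PT.lf (nat_lit 42256) (nat_lit 6) (nat_lit 556) (nat_lit 3) (nat_lit 251) (nat_lit 249) (nat_lit 280)))))) (PT.nd (nat_lit 624) (PT.nd (nat_lit 312)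 (PT.nd (nat_lit 156) (PT.nd (nat_lit 78) (PT.lf (nat_lit 43852) (nat_lit 6) (nat_lit 577) (nat_lit 3) (nat_lit 252) (nat_lit 249) (nat_lit 279)) (PT.lf (nat_lit 45372) (nat_lit 6) (nat_lit 597) (nat_lit 3) (nat_lit 253) (nat_lit 249) (nat_lit 278))) (PT.nd (nat_lit 78) (PT.lf (nat_lit 46816) (nat_lit 6) (nat_lit 616) (nat_lit 3) (nat_lit 254) (nat_lit 249) (nat_lit 277)) (PT.lf (nat_lit 48184) (nat_lit 6) (nat_lit 634) (nat_lit 3) (nat_lit 255) (nat_lit 249) (nat_lit 276)))) (PT.nd (nat_lit 156) (PT.nd (nat_lit 78) (PT.lf (nat_lit 49476) (nat_lit 6) (nat_lit 651) (nat_lit 3) (nat_lit 256) (nat_lit 249) (nat_lit 275)) (PT.lf (nat_lit 50692) (nat_lit 6) (nat_lit 667) (nat_lit 3) (nat_lit 257) (nat_lit 249) (nat_lit 274))) (PT.nd (nat_lit 78) (PT.lf (nat_lit 51832) (nat_lit 6) (nat_lit 682) (nat_lit 3) (nat_lit 258) (nat_lit 249) (nat_lit 273)) (PT.lf (nat_lit 52896) (nat_lit 6) (nat_lit 696) (nat_lit 3) (nat_lit 259) (nat_lit 249) (nat_lit 272))))) (PT.nd (nat_lit 312) (PT.nd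 (nat_lit 156) (PT.nd (nat_lit 78) (PT.lf (nat_lit 53884) (nat_lit 6) (nat_lit 709) (nat_lit 3) (nat_lit 260) (nat_lit 249) (nat_lit 271)) (PT.lf (nat_lit 53960) (nat_lit 6) (nat_lit 710) (nat_lit 3) (nat_lit 261) (nat_lit 249) (nat_lit 270))) (PT.nd (nat_lit 78) (PT.lf (nat_lit 54036) (nat_lit 6) (nat_lit 711) (nat_lit 3) (nat_lit 262) (nat_lit 249) (nat_lit 269)) (PT.lf (nat_lit 54112) (nat_lit 6) (nat_lit 712) (nat_lit 3) (nat_lit 263) (nat_lit 249) (nat_lit 268)))) (PT.nd (nat_lit 156) (PT.nd (nat_lit 78) (PT.lf (nat_lit 54188) (nat_lit 6) (nat_lit 713) (nat_lit 3) (nat_lit 264) (nat_lit 249) (nat_lit 267)) (PT.lf (nat_lit 54264) (nat_lit 6) (nat_lit 714) (nat_lit 3) (nat_lit 265) (nat_lit 249) (nat_lit 266))) (PT.nd (nat_lit 78) (PT.lf (nat_lit 54264) (nat_lit 6) (nat_lit 714) (nat_lit 1) (nat_lit 266) (nat_lit 249) (nat_lit 265)) (PT.lf (nat_lit 54188) (nat_lit 6) (nat_lit 713) (nat_lit 1) (nat_lit 267) (nat_lit 249) (nat_lit 264))))))) (PT.nd (nat_lit 1170) (PT.nd (nat_lit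 546) (PT.nd (nat_lit 234) (PT.nd (nat_lit 78) (PT.lf (nat_lit 54112) (nat_lit 6) (nat_lit 712) (nat_lit 1) (nat_lit 268) (nat_lit 249) (nat_lit 263)) (PT.nd (nat_lit 78) (PT.lf (nat_lit 54036) (nat_lit 6) (nat_lit 711) (nat_lit 1) (nat_lit 269) (nat_lit 249) (nat_lit 262)) (PT.lf (nat_lit 53960) (nat_lit 6) (nat_lit 710) (nat_lit 1) (nat_lit 270) (nat_lit 249) (nat_lit 261)))) (PT.nd (nat_lit 156) (PT.nd (nat_lit 78) (PT.lf (nat_lit 53884) (nat_lit 6) (nat_lit 709) (nat_lit 1) (nat_lit 271) (nat_lit 249) (nat_lit 260)) (PT.lf (nat_lit 52896) (nat_lit 6) (nat_lit 696) (nat_lit 1) (nat_lit 272) (nat_lit 249) (nat_lit 259))) (PT.nd (nat_lit 78) (PT.lf (nat_lit 51832) (nat_lit 6) (nat_lit 682) (nat_lit 1) (nat_lit 273) (nat_lit 249) (nat_lit 258)) (PT.lf (nat_lit 50692) (nat_lit 6) (nat_lit 667) (nat_lit 1) (nat_lit 274) (nat_lit 249) (nat_lit 257))))) (PT.nd (nat_lit 312) (PT.nd (nat_lit 156) (PT.nd (nat_lit 78) (PT.lf (nat_lit 49476) (nat_lit 6) (nat_lit 651) (nat_lit 1) (nat_lit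 275) (nat_lit 249) (nat_lit 256)) (PT.lf (nat_lit 48184) (nat_lit 6) (nat_lit 634) (nat_lit 1) (nat_lit 276) (nat_lit 249) (nat_lit 255))) (PT.nd (nat_lit 78) (PT.lf (nat_lit 46816) (nat_lit 6) (nat_lit 616) (nat_lit 1) (nat_lit 277) (nat_lit 249) (nat_lit 254)) (PT.lf (nat_lit 45372) (nat_lit 6) (nat_lit 597) (nat_lit 1) (nat_lit 278) (nat_lit 249) (nat_lit 253)))) (PT.nd (nat_lit 156) (PT.nd (nat_lit 78) (PT.lf (nat_lit 43852) (nat_lit 6) (nat_lit 577) (nat_lit 1) (nat_lit 279) (nat_lit 249) (nat_lit 252)) (PT.lf (nat_lit 42256) (nat_lit 6) (nat_lit 556) (nat_lit 1) (nat_lit 280) (nat_lit 249) (nat_lit 251))) (PT.nd (nat_lit 78) (PT.lf (nat_lit 40584) (nat_lit 6) (nat_lit 534) (nat_lit 1) (nat_lit 281) (nat_lit 249) (nat_lit 250)) (PT.lf (nat_lit 38836) (nat_lit 3) (nat_lit 511) (nat_lit 0) (nat_lit 282) (nat_lit 249) (nat_lit 249)))))) (PT.nd (nat_lit 78780) (PT.nd (nat_lit 78468) (PT.nd (nat_lit 78312) (PT.nd (nat_lit 78) (PT.lf (nat_lit 37088) (nat_lit 6) (nat_lit 488)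 (nat_lit 0) (nat_lit 283) (nat_lit 249) (nat_lit 248)) (PT.lf (nat_lit 35264) (nat_lit 6) (nat_lit 464) (nat_lit 0) (nat_lit 284) (nat_lit 249) (nat_lit 247))) (PT.nd (nat_lit 78) (PT.lf (nat_lit 35340) (nat_lit 6) (nat_lit 465) (nat_lit 5) (nat_lit 246) (nat_lit 250) (nat_lit 284)) (PT.lf (nat_lit 37164) (nat_lit 6) (nat_lit 489) (nat_lit 5) (nat_lit 247) (nat_lit 250) (nat_lit 283)))) (PT.nd (nat_lit 156) (PT.nd (nat_lit 78) (PT.lf (nat_lit 38912) (nat_lit 6) (nat_lit 512) (nat_lit 5) (nat_lit 248) (nat_lit 250) (nat_lit 282)) (PT.lf (nat_lit 40584) (nat_lit 6) (nat_lit 534) (nat_lit 5) (nat_lit 249) (nat_lit 250) (nat_lit 281))) (PT.nd (nat_lit 78) (PT.lf (nat_lit 42180) (nat_lit 3) (nat_lit 555) (nat_lit 3) (nat_lit 250) (nat_lit 250) (nat_lit 280)) (PT.lf (nat_lit 43776) (nat_lit 6) (nat_lit 576) (nat_lit 3) (nat_lit 251) (nat_lit 250) (nat_lit 279))))) (PT.nd (nat_lit 312) (PT.nd (nat_lit 156) (PT.nd (nat_lit 78) (PT.lf (nat_lit 45296) (nat_lit 6) (nat_lit 596) (nat_lit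 3) (nat_lit 252) (nat_lit 250) (nat_lit 278)) (PT.lf (nat_lit 46740) (nat_lit 6) (nat_lit 615) (nat_lit 3) (nat_lit 253) (nat_lit 250) (nat_lit 277))) (PT.nd (nat_lit 78) (PT.lf (nat_lit 48108) (nat_lit 6) (nat_lit 633) (nat_lit 3) (nat_lit 254) (nat_lit 250) (nat_lit 276)) (PT.lf (nat_lit 49400) (nat_lit 6) (nat_lit 650) (nat_lit 3) (nat_lit 255) (nat_lit 250) (nat_lit 275)))) (PT.nd (nat_lit 156) (PT.nd (nat_lit 78) (PT.lf (nat_lit 50616) (nat_lit 6) (nat_lit 666) (nat_lit 3) (nat_lit 256) (nat_lit 250) (nat_lit 274)) (PT.lf (nat_lit 51756) (nat_lit 6) (nat_lit 681) (nat_lit 3) (nat_lit 257) (nat_lit 250) (nat_lit 273))) (PT.nd (nat_lit 78) (PT.lf (nat_lit 52820) (nat_lit 6) (nat_lit 695) (nat_lit 3) (nat_lit 258) (nat_lit 250) (nat_lit 272)) (PT.lf (nat_lit 53808) (nat_lit 6) (nat_lit 708) (nat_lit 3) (nat_lit 259) (nat_lit 250) (nat_lit 271))))))))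
noncomputable def pc19 : PT := (PT.nd (nat_lit 80496) (PT.nd (nat_lit 1170) (PT.nd (nat_lit 546) (PT.nd (nat_lit 234) (PT.nd (nat_lit 78) (PT.lf (nat_lit 54720) (nat_lit 6) (nat_lit 720) (nat_lit 3) (nat_lit 260) (nat_lit 250) (nat_lit 270)) (PT.nd (nat_lit 78) (PT.lf (nat_lit 54796) (nat_lit 6) (nat_lit 721) (nat_lit 3) (nat_lit 261) (nat_lit 250) (nat_lit 269)) (PT.lf (nat_lit 54872) (nat_lit 6) (nat_lit 722) (nat_lit 3) (nat_lit 262) (nat_lit 250) (nat_lit 268)))) (PT.nd (nat_lit 156) (PT.nd (nat_lit 78) (PT.lf (nat_lit 54948) (nat_lit 6) (nat_lit 723) (nat_lit 3) (nat_lit 263) (nat_lit 250) (nat_lit 267)) (PT.lf (nat_lit 55024) (nat_lit 6) (nat_lit 724) (nat_lit 3) (nat_lit 264) (nat_lit 250) (nat_lit 266))) (PT.nd (nat_lit 78) (PT.lf (nat_lit 55100) (nat_lit 3) (nat_lit 725) (nat_lit 1) (nat_lit 265) (nat_lit 250) (nat_lit 265)) (PT.lf (nat_lit 55024) (nat_lit 6) (nat_lit 724) (nat_lit 1) (nat_lit 266) (nat_lit 250) (nat_lit 264))))) (PT.nd (nat_lit 312) (PT.nd (nat_lit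 156) (PT.nd (nat_lit 78) (PT.lf (nat_lit 54948) (nat_lit 6) (nat_lit 723) (nat_lit 1) (nat_lit 267) (nat_lit 250) (nat_lit 263)) (PT.lf (nat_lit 54872) (nat_lit 6) (nat_lit 722) (nat_lit 1) (nat_lit 268) (nat_lit 250) (nat_lit 262))) (PT.nd (nat_lit 78) (PT.lf (nat_lit 54796) (nat_lit 6) (nat_lit 721) (nat_lit 1) (nat_lit 269) (nat_lit 250) (nat_lit 261)) (PT.lf (nat_lit 54720) (nat_lit 6) (nat_lit 720) (nat_lit 1) (nat_lit 270) (nat_lit 250) (nat_lit 260)))) (PT.nd (nat_lit 156) (PT.nd (nat_lit 78) (PT.lf (nat_lit 53808) (nat_lit 6) (nat_lit 708) (nat_lit 1) (nat_lit 271) (nat_lit 250) (nat_lit 259)) (PT.lf (nat_lit 52820) (nat_lit 6) (nat_lit 695) (nat_lit 1) (nat_lit 272) (nat_lit 250) (nat_lit 258))) (PT.nd (nat_lit 78) (PT.lf (nat_lit 51756) (nat_lit 6) (nat_lit 681) (nat_lit 1) (nat_lit 273) (nat_lit 250) (nat_lit 257)) (PT.lf (nat_lit 50616) (nat_lit 6) (nat_lit 666) (nat_lit 1) (nat_lit 274) (nat_lit 250) (nat_lit 256)))))) (PT.nd (nat_lit 624) (PT.nd (nat_lit 312)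 (PT.nd (nat_lit 156) (PT.nd (nat_lit 78) (PT.lf (nat_lit 49400) (nat_lit 6) (nat_lit 650) (nat_lit 1) (nat_lit 275) (nat_lit 250) (nat_lit 255)) (PT.lf (nat_lit 48108) (nat_lit 6) (nat_lit 633) (nat_lit 1) (nat_lit 276) (nat_lit 250) (nat_lit 254))) (PT.nd (nat_lit 78) (PT.lf (nat_lit 46740) (nat_lit 6) (nat_lit 615) (nat_lit 1) (nat_lit 277) (nat_lit 250) (nat_lit 253)) (PT.lf (nat_lit 45296) (nat_lit 6) (nat_lit 596) (nat_lit 1) (nat_lit 278) (nat_lit 250) (nat_lit 252)))) (PT.nd (nat_lit 156) (PT.nd (nat_lit 78) (PT.lf (nat_lit 43776) (nat_lit 6) (nat_lit 576) (nat_lit 1) (nat_lit 279) (nat_lit 250) (nat_lit 251)) (PT.lf (nat_lit 42180) (nat_lit 3) (nat_lit 555) (nat_lit 0) (nat_lit 280) (nat_lit 250) (nat_lit 250))) (PT.nd (nat_lit 78) (PT.lf (nat_lit 40584) (nat_lit 6) (nat_lit 534) (nat_lit 0) (nat_lit 281) (nat_lit 250) (nat_lit 249)) (PT.lf (nat_lit 38912) (nat_lit 6) (nat_lit 512) (nat_lit 0) (nat_lit 282) (nat_lit 250) (nat_lit 248))))) (PT.nd (nat_lit 78390) (PT.nd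 (nat_lit 78234) (PT.nd (nat_lit 78) (PT.lf (nat_lit 37164) (nat_lit 6) (nat_lit 489) (nat_lit 0) (nat_lit 283) (nat_lit 250) (nat_lit 247)) (PT.lf (nat_lit 35340) (nat_lit 6) (nat_lit 465) (nat_lit 0) (nat_lit 284) (nat_lit 250) (nat_lit 246))) (PT.nd (nat_lit 78) (PT.lf (nat_lit 35416) (nat_lit 6) (nat_lit 466) (nat_lit 5) (nat_lit 245) (nat_lit 251) (nat_lit 284)) (PT.lf (nat_lit 37240) (nat_lit 6) (nat_lit 490) (nat_lit 5) (nat_lit 246) (nat_lit 251) (nat_lit 283)))) (PT.nd (nat_lit 156) (PT.nd (nat_lit 78) (PT.lf (nat_lit 38988) (nat_lit 6) (nat_lit 513) (nat_lit 5) (nat_lit 247) (nat_lit 251) (nat_lit 282)) (PT.lf (nat_lit 40660) (nat_lit 6) (nat_lit 535) (nat_lit 5) (nat_lit 248) (nat_lit 251) (nat_lit 281))) (PT.nd (nat_lit 78) (PT.lf (nat_lit 42256) (nat_lit 6) (nat_lit 556) (nat_lit 5) (nat_lit 249) (nat_lit 251) (nat_lit 280)) (PT.lf (nat_lit 43776) (nat_lit 6) (nat_lit 576) (nat_lit 5) (nat_lit 250) (nat_lit 251) (nat_lit 279))))))) (PT.nd (nat_lit 1170) (PT.nd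 (nat_lit 546) (PT.nd (nat_lit 234) (PT.nd (nat_lit 78) (PT.lf (nat_lit 45220) (nat_lit 3) (nat_lit 595) (nat_lit 3) (nat_lit 251) (nat_lit 251) (nat_lit 278)) (PT.nd (nat_lit 78) (PT.lf (nat_lit 46664) (nat_lit 6) (nat_lit 614) (nat_lit 3) (nat_lit 252) (nat_lit 251) (nat_lit 277)) (PT.lf (nat_lit 48032) (nat_lit 6) (nat_lit 632) (nat_lit 3) (nat_lit 253) (nat_lit 251) (nat_lit 276)))) (PT.nd (nat_lit 156) (PT.nd (nat_lit 78) (PT.lf (nat_lit 49324) (nat_lit 6) (nat_lit 649) (nat_lit 3) (nat_lit 254) (nat_lit 251) (nat_lit 275)) (PT.lf (nat_lit 50540) (nat_lit 6) (nat_lit 665) (nat_lit 3) (nat_lit 255) (nat_lit 251) (nat_lit 274))) (PT.nd (nat_lit 78) (PT.lf (nat_lit 51680) (nat_lit 6) (nat_lit 680) (nat_lit 3) (nat_lit 256) (nat_lit 251) (nat_lit 273)) (PT.lf (nat_lit 52744) (nat_lit 6) (nat_lit 694) (nat_lit 3) (nat_lit 257) (nat_lit 251) (nat_lit 272))))) (PT.nd (nat_lit 312) (PT.nd (nat_lit 156) (PT.nd (nat_lit 78) (PT.lf (nat_lit 53732) (nat_lit 6) (nat_lit 707) (nat_lit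 3) (nat_lit 258) (nat_lit 251) (nat_lit 271)) (PT.lf (nat_lit 54644) (nat_lit 6) (nat_lit 719) (nat_lit 3) (nat_lit 259) (nat_lit 251) (nat_lit 270))) (PT.nd (nat_lit 78) (PT.lf (nat_lit 55480) (nat_lit 6) (nat_lit 730) (nat_lit 3) (nat_lit 260) (nat_lit 251) (nat_lit 269)) (PT.lf (nat_lit 55556) (nat_lit 6) (nat_lit 731) (nat_lit 3) (nat_lit 261) (nat_lit 251) (nat_lit 268)))) (PT.nd (nat_lit 156) (PT.nd (nat_lit 78) (PT.lf (nat_lit 55632) (nat_lit 6) (nat_lit 732) (nat_lit 3) (nat_lit 262) (nat_lit 251) (nat_lit 267)) (PT.lf (nat_lit 55708) (nat_lit 6) (nat_lit 733) (nat_lit 3) (nat_lit 263) (nat_lit 251) (nat_lit 266))) (PT.nd (nat_lit 78) (PT.lf (nat_lit 55784) (nat_lit 6) (nat_lit 734) (nat_lit 3) (nat_lit 264) (nat_lit 251) (nat_lit 265)) (PT.lf (nat_lit 55784) (nat_lit 6) (nat_lit 734) (nat_lit 1) (nat_lit 265) (nat_lit 251) (nat_lit 264)))))) (PT.nd (nat_lit 624) (PT.nd (nat_lit 312) (PT.nd (nat_lit 156) (PT.nd (nat_lit 78) (PT.lf (nat_lit 55708) (nat_lit 6) (nat_lit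 733) (nat_lit 1) (nat_lit 266) (nat_lit 251) (nat_lit 263)) (PT.lf (nat_lit 55632) (nat_lit 6) (nat_lit 732) (nat_lit 1) (nat_lit 267) (nat_lit 251) (nat_lit 262))) (PT.nd (nat_lit 78) (PT.lf (nat_lit 55556) (nat_lit 6) (nat_lit 731) (nat_lit 1) (nat_lit 268) (nat_lit 251) (nat_lit 261)) (PT.lf (nat_lit 55480) (nat_lit 6) (nat_lit 730) (nat_lit 1) (nat_lit 269) (nat_lit 251) (nat_lit 260)))) (PT.nd (nat_lit 156) (PT.nd (nat_lit 78) (PT.lf (nat_lit 54644) (nat_lit 6) (nat_lit 719) (nat_lit 1) (nat_lit 270) (nat_lit 251) (nat_lit 259)) (PT.lf (nat_lit 53732) (nat_lit 6) (nat_lit 707) (nat_lit 1) (nat_lit 271) (nat_lit 251) (nat_lit 258))) (PT.nd (nat_lit 78) (PT.lf (nat_lit 52744) (nat_lit 6) (nat_lit 694) (nat_lit 1) (nat_lit 272) (nat_lit 251) (nat_lit 257)) (PT.lf (nat_lit 51680) (nat_lit 6) (nat_lit 680) (nat_lit 1) (nat_lit 273) (nat_lit 251) (nat_lit 256))))) (PT.nd (nat_lit 312) (PT.nd (nat_lit 156) (PT.nd (nat_lit 78) (PT.lf (nat_lit 50540) (nat_lit 6) (nat_lit 665)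 (nat_lit 1) (nat_lit 274) (nat_lit 251) (nat_lit 255)) (PT.lf (nat_lit 49324) (nat_lit 6) (nat_lit 649) (nat_lit 1) (nat_lit 275) (nat_lit 251) (nat_lit 254))) (PT.nd (nat_lit 78) (PT.lf (nat_lit 48032) (nat_lit 6) (nat_lit 632) (nat_lit 1) (nat_lit 276) (nat_lit 251) (nat_lit 253)) (PT.lf (nat_lit 46664) (nat_lit 6) (nat_lit 614) (nat_lit 1) (nat_lit 277) (nat_lit 251) (nat_lit 252)))) (PT.nd (nat_lit 156) (PT.nd (nat_lit 78) (PT.lf (nat_lit 45220) (nat_lit 3) (nat_lit 595) (nat_lit 0) (nat_lit 278) (nat_lit 251) (nat_lit 251)) (PT.lf (nat_lit 43776) (nat_lit 6) (nat_lit 576) (nat_lit 0) (nat_lit 279) (nat_lit 251) (nat_lit 250))) (PT.nd (nat_lit 78) (PT.lf (nat_lit 42256) (nat_lit 6) (nat_lit 556) (nat_lit 0) (nat_lit 280) (nat_lit 251) (nat_lit 249)) (PT.lf (nat_lit 40660) (nat_lit 6) (nat_lit 535) (nat_lit 0) (nat_lit 281) (nat_lit 251) (nat_lit 248))))))))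
noncomputable def pc20 : PT := (PT.nd (nat_lit 80418) (PT.nd (nat_lit 79170) (PT.nd (nat_lit 78546) (PT.nd (nat_lit 78234) (PT.nd (nat_lit 78) (PT.lf (nat_lit 38988) (nat_lit 6) (nat_lit 513) (nat_lit 0) (nat_lit 282) (nat_lit 251) (nat_lit 247)) (PT.nd (nat_lit 78) (PT.lf (nat_lit 37240) (nat_lit 6) (nat_lit 490) (nat_lit 0) (nat_lit 283) (nat_lit 251) (nat_lit 246)) (PT.lf (nat_lit 35416) (nat_lit 6) (nat_lit 466) (nat_lit 0) (nat_lit 284) (nat_lit 251) (nat_lit 245)))) (PT.nd (nat_lit 156) (PT.nd (nat_lit 78) (PT.lf (nat_lit 35492) (nat_lit 6) (nat_lit 467) (nat_lit 5) (nat_lit 244) (nat_lit 252) (nat_lit 284)) (PT.lf (nat_lit 37316) (nat_lit 6) (nat_lit 491) (nat_lit 5) (nat_lit 245) (nat_lit 252) (nat_lit 283))) (PT.nd (nat_lit 78) (PT.lf (nat_lit 39064) (nat_lit 6) (nat_lit 514) (nat_lit 5) (nat_lit 246) (nat_lit 252) (nat_lit 282)) (PT.lf (nat_lit 40736) (nat_lit 6) (nat_lit 536) (nat_lit 5) (nat_lit 247) (nat_lit 252) (nat_lit 281))))) (PT.nd (nat_lit 312) (PT.nd (nat_lit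 156) (PT.nd (nat_lit 78) (PT.lf (nat_lit 42332) (nat_lit 6) (nat_lit 557) (nat_lit 5) (nat_lit 248) (nat_lit 252) (nat_lit 280)) (PT.lf (nat_lit 43852) (nat_lit 6) (nat_lit 577) (nat_lit 5) (nat_lit 249) (nat_lit 252) (nat_lit 279))) (PT.nd (nat_lit 78) (PT.lf (nat_lit 45296) (nat_lit 6) (nat_lit 596) (nat_lit 5) (nat_lit 250) (nat_lit 252) (nat_lit 278)) (PT.lf (nat_lit 46664) (nat_lit 6) (nat_lit 614) (nat_lit 5) (nat_lit 251) (nat_lit 252) (nat_lit 277)))) (PT.nd (nat_lit 156) (PT.nd (nat_lit 78) (PT.lf (nat_lit 47956) (nat_lit 3) (nat_lit 631) (nat_lit 3) (nat_lit 252) (nat_lit 252) (nat_lit 276)) (PT.lf (nat_lit 49248) (nat_lit 6) (nat_lit 648) (nat_lit 3) (nat_lit 253) (nat_lit 252) (nat_lit 275))) (PT.nd (nat_lit 78) (PT.lf (nat_lit 50464) (nat_lit 6) (nat_lit 664) (nat_lit 3) (nat_lit 254) (nat_lit 252) (nat_lit 274)) (PT.lf (nat_lit 51604) (nat_lit 6) (nat_lit 679) (nat_lit 3) (nat_lit 255) (nat_lit 252) (nat_lit 273)))))) (PT.nd (nat_lit 624) (PT.nd (nat_lit 312)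 (PT.nd (nat_lit 156) (PT.nd (nat_lit 78) (PT.lf (nat_lit 52668) (nat_lit 6) (nat_lit 693) (nat_lit 3) (nat_lit 256) (nat_lit 252) (nat_lit 272)) (PT.lf (nat_lit 53656) (nat_lit 6) (nat_lit 706) (nat_lit 3) (nat_lit 257) (nat_lit 252) (nat_lit 271))) (PT.nd (nat_lit 78) (PT.lf (nat_lit 54568) (nat_lit 6) (nat_lit 718) (nat_lit 3) (nat_lit 258) (nat_lit 252) (nat_lit 270)) (PT.lf (nat_lit 55404) (nat_lit 6) (nat_lit 729) (nat_lit 3) (nat_lit 259) (nat_lit 252) (nat_lit 269)))) (PT.nd (nat_lit 156) (PT.nd (nat_lit 78) (PT.lf (nat_lit 56164) (nat_lit 6) (nat_lit 739) (nat_lit 3) (nat_lit 260) (nat_lit 252) (nat_lit 268)) (PT.lf (nat_lit 56240) (nat_lit 6) (nat_lit 740) (nat_lit 3) (nat_lit 261) (nat_lit 252) (nat_lit 267))) (PT.nd (nat_lit 78) (PT.lf (nat_lit 56316) (nat_lit 6) (nat_lit 741) (nat_lit 3) (nat_lit 262) (nat_lit 252) (nat_lit 266)) (PT.lf (nat_lit 56392) (nat_lit 6) (nat_lit 742) (nat_lit 3) (nat_lit 263) (nat_lit 252) (nat_lit 265))))) (PT.nd (nat_lit 312) (PT.nd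 (nat_lit 156) (PT.nd (nat_lit 78) (PT.lf (nat_lit 56468) (nat_lit 3) (nat_lit 743) (nat_lit 1) (nat_lit 264) (nat_lit 252) (nat_lit 264)) (PT.lf (nat_lit 56392) (nat_lit 6) (nat_lit 742) (nat_lit 1) (nat_lit 265) (nat_lit 252) (nat_lit 263))) (PT.nd (nat_lit 78) (PT.lf (nat_lit 56316) (nat_lit 6) (nat_lit 741) (nat_lit 1) (nat_lit 266) (nat_lit 252) (nat_lit 262)) (PT.lf (nat_lit 56240) (nat_lit 6) (nat_lit 740) (nat_lit 1) (nat_lit 267) (nat_lit 252) (nat_lit 261)))) (PT.nd (nat_lit 156) (PT.nd (nat_lit 78) (PT.lf (nat_lit 56164) (nat_lit 6) (nat_lit 739) (nat_lit 1) (nat_lit 268) (nat_lit 252) (nat_lit 260)) (PT.lf (nat_lit 55404) (nat_lit 6) (nat_lit 729) (nat_lit 1) (nat_lit 269) (nat_lit 252) (nat_lit 259))) (PT.nd (nat_lit 78) (PT.lf (nat_lit 54568) (nat_lit 6) (nat_lit 718) (nat_lit 1) (nat_lit 270) (nat_lit 252) (nat_lit 258)) (PT.lf (nat_lit 53656) (nat_lit 6) (nat_lit 706) (nat_lit 1) (nat_lit 271) (nat_lit 252) (nat_lit 257))))))) (PT.nd (nat_lit 79092) (PT.nd (nat_lit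 546) (PT.nd (nat_lit 234) (PT.nd (nat_lit 78) (PT.lf (nat_lit 52668) (nat_lit 6) (nat_lit 693) (nat_lit 1) (nat_lit 272) (nat_lit 252) (nat_lit 256)) (PT.nd (nat_lit 78) (PT.lf (nat_lit 51604) (nat_lit 6) (nat_lit 679) (nat_lit 1) (nat_lit 273) (nat_lit 252) (nat_lit 255)) (PT.lf (nat_lit 50464) (nat_lit 6) (nat_lit 664) (nat_lit 1) (nat_lit 274) (nat_lit 252) (nat_lit 254)))) (PT.nd (nat_lit 156) (PT.nd (nat_lit 78) (PT.lf (nat_lit 49248) (nat_lit 6) (nat_lit 648) (nat_lit 1) (nat_lit 275) (nat_lit 252) (nat_lit 253)) (PT.lf (nat_lit 47956) (nat_lit 3) (nat_lit 631) (nat_lit 0) (nat_lit 276) (nat_lit 252) (nat_lit 252))) (PT.nd (nat_lit 78) (PT.lf (nat_lit 46664) (nat_lit 6) (nat_lit 614) (nat_lit 0) (nat_lit 277) (nat_lit 252) (nat_lit 251)) (PT.lf (nat_lit 45296) (nat_lit 6) (nat_lit 596) (nat_lit 0) (nat_lit 278) (nat_lit 252) (nat_lit 250))))) (PT.nd (nat_lit 312) (PT.nd (nat_lit 156) (PT.nd (nat_lit 78) (PT.lf (nat_lit 43852) (nat_lit 6) (nat_lit 577) (nat_lit 0) (nat_lit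 279) (nat_lit 252) (nat_lit 249)) (PT.lf (nat_lit 42332) (nat_lit 6) (nat_lit 557) (nat_lit 0) (nat_lit 280) (nat_lit 252) (nat_lit 248))) (PT.nd (nat_lit 78) (PT.lf (nat_lit 40736) (nat_lit 6) (nat_lit 536) (nat_lit 0) (nat_lit 281) (nat_lit 252) (nat_lit 247)) (PT.lf (nat_lit 39064) (nat_lit 6) (nat_lit 514) (nat_lit 0) (nat_lit 282) (nat_lit 252) (nat_lit 246)))) (PT.nd (nat_lit 78078) (PT.nd (nat_lit 78) (PT.lf (nat_lit 37316) (nat_lit 6) (nat_lit 491) (nat_lit 0) (nat_lit 283) (nat_lit 252) (nat_lit 245)) (PT.lf (nat_lit 35492) (nat_lit 6) (nat_lit 467) (nat_lit 0) (nat_lit 284) (nat_lit 252) (nat_lit 244))) (PT.nd (nat_lit 78) (PT.lf (nat_lit 35568) (nat_lit 6) (nat_lit 468) (nat_lit 5) (nat_lit 243) (nat_lit 253) (nat_lit 284)) (PT.lf (nat_lit 37392) (nat_lit 6) (nat_lit 492) (nat_lit 5) (nat_lit 244) (nat_lit 253) (nat_lit 283)))))) (PT.nd (nat_lit 624) (PT.nd (nat_lit 312) (PT.nd (nat_lit 156) (PT.nd (nat_lit 78) (PT.lf (nat_lit 39140) (nat_lit 6) (nat_lit 515) (nat_lit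 5) (nat_lit 245) (nat_lit 253) (nat_lit 282)) (PT.lf (nat_lit 40812) (nat_lit 6) (nat_lit 537) (nat_lit 5) (nat_lit 246) (nat_lit 253) (nat_lit 281))) (PT.nd (nat_lit 78) (PT.lf (nat_lit 42408) (nat_lit 6) (nat_lit 558) (nat_lit 5) (nat_lit 247) (nat_lit 253) (nat_lit 280)) (PT.lf (nat_lit 43928) (nat_lit 6) (nat_lit 578) (nat_lit 5) (nat_lit 248) (nat_lit 253) (nat_lit 279)))) (PT.nd (nat_lit 156) (PT.nd (nat_lit 78) (PT.lf (nat_lit 45372) (nat_lit 6) (nat_lit 597) (nat_lit 5) (nat_lit 249) (nat_lit 253) (nat_lit 278)) (PT.lf (nat_lit 46740) (nat_lit 6) (nat_lit 615) (nat_lit 5) (nat_lit 250) (nat_lit 253) (nat_lit 277))) (PT.nd (nat_lit 78) (PT.lf (nat_lit 48032) (nat_lit 6) (nat_lit 632) (nat_lit 5) (nat_lit 251) (nat_lit 253) (nat_lit 276)) (PT.lf (nat_lit 49248) (nat_lit 6) (nat_lit 648) (nat_lit 5) (nat_lit 252) (nat_lit 253) (nat_lit 275))))) (PT.nd (nat_lit 312) (PT.nd (nat_lit 156) (PT.nd (nat_lit 78) (PT.lf (nat_lit 50388) (nat_lit 3) (nat_lit 663) (nat_lit 3) (nat_lit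 253) (nat_lit 253) (nat_lit 274)) (PT.lf (nat_lit 51528) (nat_lit 6) (nat_lit 678) (nat_lit 3) (nat_lit 254) (nat_lit 253) (nat_lit 273))) (PT.nd (nat_lit 78) (PT.lf (nat_lit 52592) (nat_lit 6) (nat_lit 692) (nat_lit 3) (nat_lit 255) (nat_lit 253) (nat_lit 272)) (PT.lf (nat_lit 53580) (nat_lit 6) (nat_lit 705) (nat_lit 3) (nat_lit 256) (nat_lit 253) (nat_lit 271)))) (PT.nd (nat_lit 156) (PT.nd (nat_lit 78) (PT.lf (nat_lit 54492) (nat_lit 6) (nat_lit 717) (nat_lit 3) (nat_lit 257) (nat_lit 253) (nat_lit 270)) (PT.lf (nat_lit 55328) (nat_lit 6) (nat_lit 728) (nat_lit 3) (nat_lit 258) (nat_lit 253) (nat_lit 269))) (PT.nd (nat_lit 78) (PT.lf (nat_lit 56088) (nat_lit 6) (nat_lit 738) (nat_lit 3) (nat_lit 259) (nat_lit 253) (nat_lit 268)) (PT.lf (nat_lit 56772) (nat_lit 6) (nat_lit 747) (nat_lit 3) (nat_lit 260) (nat_lit 253) (nat_lit 267))))))))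
noncomputable def pc21 : PT := (PT.nd (nat_lit 80262) (PT.nd (nat_lit 1170) (PT.nd (nat_lit 546) (PT.nd (nat_lit 234) (PT.nd (nat_lit 78) (PT.lf (nat_lit 56848) (nat_lit 6) (nat_lit 748) (nat_lit 3) (nat_lit 261) (nat_lit 253) (nat_lit 266)) (PT.nd (nat_lit 78) (PT.lf (nat_lit 56924) (nat_lit 6) (nat_lit 749) (nat_lit 3) (nat_lit 262) (nat_lit 253) (nat_lit 265)) (PT.lf (nat_lit 57000) (nat_lit 6) (nat_lit 750) (nat_lit 3) (nat_lit 263) (nat_lit 253) (nat_lit 264)))) (PT.nd (nat_lit 156) (PT.nd (nat_lit 78) (PT.lf (nat_lit 57000) (nat_lit 6) (nat_lit 750) (nat_lit 1) (nat_lit 264) (nat_lit 253) (nat_lit 263)) (PT.lf (nat_lit 56924) (nat_lit 6) (nat_lit 749) (nat_lit 1) (nat_lit 265) (nat_lit 253) (nat_lit 262))) (PT.nd (nat_lit 78) (PT.lf (nat_lit 56848) (nat_lit 6) (nat_lit 748) (nat_lit 1) (nat_lit 266) (nat_lit 253) (nat_lit 261)) (PT.lf (nat_lit 56772) (nat_lit 6) (nat_lit 747) (nat_lit 1) (nat_lit 267) (nat_lit 253) (nat_lit 260))))) (PT.nd (nat_lit 312) (PT.nd (nat_lit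 156) (PT.nd (nat_lit 78) (PT.lf (nat_lit 56088) (nat_lit 6) (nat_lit 738) (nat_lit 1) (nat_lit 268) (nat_lit 253) (nat_lit 259)) (PT.lf (nat_lit 55328) (nat_lit 6) (nat_lit 728) (nat_lit 1) (nat_lit 269) (nat_lit 253) (nat_lit 258))) (PT.nd (nat_lit 78) (PT.lf (nat_lit 54492) (nat_lit 6) (nat_lit 717) (nat_lit 1) (nat_lit 270) (nat_lit 253) (nat_lit 257)) (PT.lf (nat_lit 53580) (nat_lit 6) (nat_lit 705) (nat_lit 1) (nat_lit 271) (nat_lit 253) (nat_lit 256)))) (PT.nd (nat_lit 156) (PT.nd (nat_lit 78) (PT.lf (nat_lit 52592) (nat_lit 6) (nat_lit 692) (nat_lit 1) (nat_lit 272) (nat_lit 253) (nat_lit 255)) (PT.lf (nat_lit 51528) (nat_lit 6) (nat_lit 678) (nat_lit 1) (nat_lit 273) (nat_lit 253) (nat_lit 254))) (PT.nd (nat_lit 78) (PT.lf (nat_lit 50388) (nat_lit 3) (nat_lit 663) (nat_lit 0) (nat_lit 274) (nat_lit 253) (nat_lit 253)) (PT.lf (nat_lit 49248) (nat_lit 6) (nat_lit 648) (nat_lit 0) (nat_lit 275) (nat_lit 253) (nat_lit 252)))))) (PT.nd (nat_lit 624) (PT.nd (nat_lit 312)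 (PT.nd (nat_lit 156) (PT.nd (nat_lit 78) (PT.lf (nat_lit 48032) (nat_lit 6) (nat_lit 632) (nat_lit 0) (nat_lit 276) (nat_lit 253) (nat_lit 251)) (PT.lf (nat_lit 46740) (nat_lit 6) (nat_lit 615) (nat_lit 0) (nat_lit 277) (nat_lit 253) (nat_lit 250))) (PT.nd (nat_lit 78) (PT.lf (nat_lit 45372) (nat_lit 6) (nat_lit 597) (nat_lit 0) (nat_lit 278) (nat_lit 253) (nat_lit 249)) (PT.lf (nat_lit 43928) (nat_lit 6) (nat_lit 578) (nat_lit 0) (nat_lit 279) (nat_lit 253) (nat_lit 248)))) (PT.nd (nat_lit 156) (PT.nd (nat_lit 78) (PT.lf (nat_lit 42408) (nat_lit 6) (nat_lit 558) (nat_lit 0) (nat_lit 280) (nat_lit 253) (nat_lit 247)) (PT.lf (nat_lit 40812) (nat_lit 6) (nat_lit 537) (nat_lit 0) (nat_lit 281) (nat_lit 253) (nat_lit 246))) (PT.nd (nat_lit 78) (PT.lf (nat_lit 39140) (nat_lit 6) (nat_lit 515) (nat_lit 0) (nat_lit 282) (nat_lit 253) (nat_lit 245)) (PT.lf (nat_lit 37392) (nat_lit 6) (nat_lit 492) (nat_lit 0) (nat_lit 283) (nat_lit 253) (nat_lit 244))))) (PT.nd (nat_lit 78156) (PT.nd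 (nat_lit 78000) (PT.nd (nat_lit 77922) (PT.lf (nat_lit 35568) (nat_lit 6) (nat_lit 468) (nat_lit 0) (nat_lit 284) (nat_lit 253) (nat_lit 243)) (PT.lf (nat_lit 35644) (nat_lit 6) (nat_lit 469) (nat_lit 5) (nat_lit 242) (nat_lit 254) (nat_lit 284))) (PT.nd (nat_lit 78) (PT.lf (nat_lit 37468) (nat_lit 6) (nat_lit 493) (nat_lit 5) (nat_lit 243) (nat_lit 254) (nat_lit 283)) (PT.lf (nat_lit 39216) (nat_lit 6) (nat_lit 516) (nat_lit 5) (nat_lit 244) (nat_lit 254) (nat_lit 282)))) (PT.nd (nat_lit 156) (PT.nd (nat_lit 78) (PT.lf (nat_lit 40888) (nat_lit 6) (nat_lit 538) (nat_lit 5) (nat_lit 245) (nat_lit 254) (nat_lit 281)) (PT.lf (nat_lit 42484) (nat_lit 6) (nat_lit 559) (nat_lit 5) (nat_lit 246) (nat_lit 254) (nat_lit 280))) (PT.nd (nat_lit 78) (PT.lf (nat_lit 44004) (nat_lit 6) (nat_lit 579) (nat_lit 5) (nat_lit 247) (nat_lit 254) (nat_lit 279)) (PT.lf (nat_lit 45448) (nat_lit 6) (nat_lit 598) (nat_lit 5) (nat_lit 248) (nat_lit 254) (nat_lit 278))))))) (PT.nd (nat_lit 1170) (PT.nd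 (nat_lit 546) (PT.nd (nat_lit 234) (PT.nd (nat_lit 78) (PT.lf (nat_lit 46816) (nat_lit 6) (nat_lit 616) (nat_lit 5) (nat_lit 249) (nat_lit 254) (nat_lit 277)) (PT.nd (nat_lit 78) (PT.lf (nat_lit 48108) (nat_lit 6) (nat_lit 633) (nat_lit 5) (nat_lit 250) (nat_lit 254) (nat_lit 276)) (PT.lf (nat_lit 49324) (nat_lit 6) (nat_lit 649) (nat_lit 5) (nat_lit 251) (nat_lit 254) (nat_lit 275)))) (PT.nd (nat_lit 156) (PT.nd (nat_lit 78) (PT.lf (nat_lit 50464) (nat_lit 6) (nat_lit 664) (nat_lit 5) (nat_lit 252) (nat_lit 254) (nat_lit 274)) (PT.lf (nat_lit 51528) (nat_lit 6) (nat_lit 678) (nat_lit 5) (nat_lit 253) (nat_lit 254) (nat_lit 273))) (PT.nd (nat_lit 78) (PT.lf (nat_lit 52516) (nat_lit 3) (nat_lit 691) (nat_lit 3) (nat_lit 254) (nat_lit 254) (nat_lit 272)) (PT.lf (nat_lit 53504) (nat_lit 6) (nat_lit 704) (nat_lit 3) (nat_lit 255) (nat_lit 254) (nat_lit 271))))) (PT.nd (nat_lit 312) (PT.nd (nat_lit 156) (PT.nd (nat_lit 78) (PT.lf (nat_lit 54416) (nat_lit 6) (nat_lit 716) (nat_lit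 3) (nat_lit 256) (nat_lit 254) (nat_lit 270)) (PT.lf (nat_lit 55252) (nat_lit 6) (nat_lit 727) (nat_lit 3) (nat_lit 257) (nat_lit 254) (nat_lit 269))) (PT.nd (nat_lit 78) (PT.lf (nat_lit 56012) (nat_lit 6) (nat_lit 737) (nat_lit 3) (nat_lit 258) (nat_lit 254) (nat_lit 268)) (PT.lf (nat_lit 56696) (nat_lit 6) (nat_lit 746) (nat_lit 3) (nat_lit 259) (nat_lit 254) (nat_lit 267)))) (PT.nd (nat_lit 156) (PT.nd (nat_lit 78) (PT.lf (nat_lit 57304) (nat_lit 6) (nat_lit 754) (nat_lit 3) (nat_lit 260) (nat_lit 254) (nat_lit 266)) (PT.lf (nat_lit 57380) (nat_lit 6) (nat_lit 755) (nat_lit 3) (nat_lit 261) (nat_lit 254) (nat_lit 265))) (PT.nd (nat_lit 78) (PT.lf (nat_lit 57456) (nat_lit 6) (nat_lit 756) (nat_lit 3) (nat_lit 262) (nat_lit 254) (nat_lit 264)) (PT.lf (nat_lit 57532) (nat_lit 3) (nat_lit 757) (nat_lit 1) (nat_lit 263) (nat_lit 254) (nat_lit 263)))))) (PT.nd (nat_lit 624) (PT.nd (nat_lit 312) (PT.nd (nat_lit 156) (PT.nd (nat_lit 78) (PT.lf (nat_lit 57456) (nat_lit 6) (nat_lit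 756) (nat_lit 1) (nat_lit 264) (nat_lit 254) (nat_lit 262)) (PT.lf (nat_lit 57380) (nat_lit 6) (nat_lit 755) (nat_lit 1) (nat_lit 265) (nat_lit 254) (nat_lit 261))) (PT.nd (nat_lit 78) (PT.lf (nat_lit 57304) (nat_lit 6) (nat_lit 754) (nat_lit 1) (nat_lit 266) (nat_lit 254) (nat_lit 260)) (PT.lf (nat_lit 56696) (nat_lit 6) (nat_lit 746) (nat_lit 1) (nat_lit 267) (nat_lit 254) (nat_lit 259)))) (PT.nd (nat_lit 156) (PT.nd (nat_lit 78) (PT.lf (nat_lit 56012) (nat_lit 6) (nat_lit 737) (nat_lit 1) (nat_lit 268) (nat_lit 254) (nat_lit 258)) (PT.lf (nat_lit 55252) (nat_lit 6) (nat_lit 727) (nat_lit 1) (nat_lit 269) (nat_lit 254) (nat_lit 257))) (PT.nd (nat_lit 78) (PT.lf (nat_lit 54416) (nat_lit 6) (nat_lit 716) (nat_lit 1) (nat_lit 270) (nat_lit 254) (nat_lit 256)) (PT.lf (nat_lit 53504) (nat_lit 6) (nat_lit 704) (nat_lit 1) (nat_lit 271) (nat_lit 254) (nat_lit 255))))) (PT.nd (nat_lit 312) (PT.nd (nat_lit 156) (PT.nd (nat_lit 78) (PT.lf (nat_lit 52516) (nat_lit 3) (nat_lit 691)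 (nat_lit 0) (nat_lit 272) (nat_lit 254) (nat_lit 254)) (PT.lf (nat_lit 51528) (nat_lit 6) (nat_lit 678) (nat_lit 0) (nat_lit 273) (nat_lit 254) (nat_lit 253))) (PT.nd (nat_lit 78) (PT.lf (nat_lit 50464) (nat_lit 6) (nat_lit 664) (nat_lit 0) (nat_lit 274) (nat_lit 254) (nat_lit 252)) (PT.lf (nat_lit 49324) (nat_lit 6) (nat_lit 649) (nat_lit 0) (nat_lit 275) (nat_lit 254) (nat_lit 251)))) (PT.nd (nat_lit 156) (PT.nd (nat_lit 78) (PT.lf (nat_lit 48108) (nat_lit 6) (nat_lit 633) (nat_lit 0) (nat_lit 276) (nat_lit 254) (nat_lit 250)) (PT.lf (nat_lit 46816) (nat_lit 6) (nat_lit 616) (nat_lit 0) (nat_lit 277) (nat_lit 254) (nat_lit 249))) (PT.nd (nat_lit 78) (PT.lf (nat_lit 45448) (nat_lit 6) (nat_lit 598) (nat_lit 0) (nat_lit 278) (nat_lit 254) (nat_lit 248)) (PT.lf (nat_lit 44004) (nat_lit 6) (nat_lit 579) (nat_lit 0) (nat_lit 279) (nat_lit 254) (nat_lit 247))))))))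
noncomputable def pc22 : PT := (PT.nd (nat_lit 80184) (PT.nd (nat_lit 78936) (PT.nd (nat_lit 78312) (PT.nd (nat_lit 234) (PT.nd (nat_lit 78) (PT.lf (nat_lit 42484) (nat_lit 6) (nat_lit 559) (nat_lit 0) (nat_lit 280) (nat_lit 254) (nat_lit 246)) (PT.nd (nat_lit 78) (PT.lf (nat_lit 40888) (nat_lit 6) (nat_lit 538) (nat_lit 0) (nat_lit 281) (nat_lit 254) (nat_lit 245)) (PT.lf (nat_lit 39216) (nat_lit 6) (nat_lit 516) (nat_lit 0) (nat_lit 282) (nat_lit 254) (nat_lit 244)))) (PT.nd (nat_lit 77922) (PT.nd (nat_lit 78) (PT.lf (nat_lit 37468) (nat_lit 6) (nat_lit 493) (nat_lit 0) (nat_lit 283) (nat_lit 254) (nat_lit 243)) (PT.lf (nat_lit 35644) (nat_lit 6) (nat_lit 469) (nat_lit 0) (nat_lit 284) (nat_lit 254) (nat_lit 242))) (PT.nd (nat_lit 78) (PT.lf (nat_lit 35720) (nat_lit 6) (nat_lit 470) (nat_lit 5) (nat_lit 241) (nat_lit 255) (nat_lit 284)) (PT.lf (nat_lit 37544) (nat_lit 6) (nat_lit 494) (nat_lit 5) (nat_lit 242) (nat_lit 255) (nat_lit 283))))) (PT.nd (nat_lit 312) (PT.nd (nat_lit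 156) (PT.nd (nat_lit 78) (PT.lf (nat_lit 39292) (nat_lit 6) (nat_lit 517) (nat_lit 5) (nat_lit 243) (nat_lit 255) (nat_lit 282)) (PT.lf (nat_lit 40964) (nat_lit 6) (nat_lit 539) (nat_lit 5) (nat_lit 244) (nat_lit 255) (nat_lit 281))) (PT.nd (nat_lit 78) (PT.lf (nat_lit 42560) (nat_lit 6) (nat_lit 560) (nat_lit 5) (nat_lit 245) (nat_lit 255) (nat_lit 280)) (PT.lf (nat_lit 44080) (nat_lit 6) (nat_lit 580) (nat_lit 5) (nat_lit 246) (nat_lit 255) (nat_lit 279)))) (PT.nd (nat_lit 156) (PT.nd (nat_lit 78) (PT.lf (nat_lit 45524) (nat_lit 6) (nat_lit 599) (nat_lit 5) (nat_lit 247) (nat_lit 255) (nat_lit 278)) (PT.lf (nat_lit 46892) (nat_lit 6) (nat_lit 617) (nat_lit 5) (nat_lit 248) (nat_lit 255) (nat_lit 277))) (PT.nd (nat_lit 78) (PT.lf (nat_lit 48184) (nat_lit 6) (nat_lit 634) (nat_lit 5) (nat_lit 249) (nat_lit 255) (nat_lit 276)) (PT.lf (nat_lit 49400) (nat_lit 6) (nat_lit 650) (nat_lit 5) (nat_lit 250) (nat_lit 255) (nat_lit 275)))))) (PT.nd (nat_lit 624) (PT.nd (nat_lit 312)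 (PT.nd (nat_lit 156) (PT.nd (nat_lit 78) (PT.lf (nat_lit 50540) (nat_lit 6) (nat_lit 665) (nat_lit 5) (nat_lit 251) (nat_lit 255) (nat_lit 274)) (PT.lf (nat_lit 51604) (nat_lit 6) (nat_lit 679) (nat_lit 5) (nat_lit 252) (nat_lit 255) (nat_lit 273))) (PT.nd (nat_lit 78) (PT.lf (nat_lit 52592) (nat_lit 6) (nat_lit 692) (nat_lit 5) (nat_lit 253) (nat_lit 255) (nat_lit 272)) (PT.lf (nat_lit 53504) (nat_lit 6) (nat_lit 704) (nat_lit 5) (nat_lit 254) (nat_lit 255) (nat_lit 271)))) (PT.nd (nat_lit 156) (PT.nd (nat_lit 78) (PT.lf (nat_lit 54340) (nat_lit 3) (nat_lit 715) (nat_lit 3) (nat_lit 255) (nat_lit 255) (nat_lit 270)) (PT.lf (nat_lit 55176) (nat_lit 6) (nat_lit 726) (nat_lit 3) (nat_lit 256) (nat_lit 255) (nat_lit 269))) (PT.nd (nat_lit 78) (PT.lf (nat_lit 55936) (nat_lit 6) (nat_lit 736) (nat_lit 3) (nat_lit 257) (nat_lit 255) (nat_lit 268)) (PT.lf (nat_lit 56620) (nat_lit 6) (nat_lit 745) (nat_lit 3) (nat_lit 258) (nat_lit 255) (nat_lit 267))))) (PT.nd (nat_lit 312) (PT.nd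 (nat_lit 156) (PT.nd (nat_lit 78) (PT.lf (nat_lit 57228) (nat_lit 6) (nat_lit 753) (nat_lit 3) (nat_lit 259) (nat_lit 255) (nat_lit 266)) (PT.lf (nat_lit 57760) (nat_lit 6) (nat_lit 760) (nat_lit 3) (nat_lit 260) (nat_lit 255) (nat_lit 265))) (PT.nd (nat_lit 78) (PT.lf (nat_lit 57836) (nat_lit 6) (nat_lit 761) (nat_lit 3) (nat_lit 261) (nat_lit 255) (nat_lit 264)) (PT.lf (nat_lit 57912) (nat_lit 6) (nat_lit 762) (nat_lit 3) (nat_lit 262) (nat_lit 255) (nat_lit 263)))) (PT.nd (nat_lit 156) (PT.nd (nat_lit 78) (PT.lf (nat_lit 57912) (nat_lit 6) (nat_lit 762) (nat_lit 1) (nat_lit 263) (nat_lit 255) (nat_lit 262)) (PT.lf (nat_lit 57836) (nat_lit 6) (nat_lit 761) (nat_lit 1) (nat_lit 264) (nat_lit 255) (nat_lit 261))) (PT.nd (nat_lit 78) (PT.lf (nat_lit 57760) (nat_lit 6) (nat_lit 760) (nat_lit 1) (nat_lit 265) (nat_lit 255) (nat_lit 260)) (PT.lf (nat_lit 57228) (nat_lit 6) (nat_lit 753) (nat_lit 1) (nat_lit 266) (nat_lit 255) (nat_lit 259))))))) (PT.nd (nat_lit 1170) (PT.nd (nat_lit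 546) (PT.nd (nat_lit 234) (PT.nd (nat_lit 78) (PT.lf (nat_lit 56620) (nat_lit 6) (nat_lit 745) (nat_lit 1) (nat_lit 267) (nat_lit 255) (nat_lit 258)) (PT.nd (nat_lit 78) (PT.lf (nat_lit 55936) (nat_lit 6) (nat_lit 736) (nat_lit 1) (nat_lit 268) (nat_lit 255) (nat_lit 257)) (PT.lf (nat_lit 55176) (nat_lit 6) (nat_lit 726) (nat_lit 1) (nat_lit 269) (nat_lit 255) (nat_lit 256)))) (PT.nd (nat_lit 156) (PT.nd (nat_lit 78) (PT.lf (nat_lit 54340) (nat_lit 3) (nat_lit 715) (nat_lit 0) (nat_lit 270) (nat_lit 255) (nat_lit 255)) (PT.lf (nat_lit 53504) (nat_lit 6) (nat_lit 704) (nat_lit 0) (nat_lit 271) (nat_lit 255) (nat_lit 254))) (PT.nd (nat_lit 78) (PT.lf (nat_lit 52592) (nat_lit 6) (nat_lit 692) (nat_lit 0) (nat_lit 272) (nat_lit 255) (nat_lit 253)) (PT.lf (nat_lit 51604) (nat_lit 6) (nat_lit 679) (nat_lit 0) (nat_lit 273) (nat_lit 255) (nat_lit 252))))) (PT.nd (nat_lit 312) (PT.nd (nat_lit 156) (PT.nd (nat_lit 78) (PT.lf (nat_lit 50540) (nat_lit 6) (nat_lit 665) (nat_lit 0) (nat_lit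 274) (nat_lit 255) (nat_lit 251)) (PT.lf (nat_lit 49400) (nat_lit 6) (nat_lit 650) (nat_lit 0) (nat_lit 275) (nat_lit 255) (nat_lit 250))) (PT.nd (nat_lit 78) (PT.lf (nat_lit 48184) (nat_lit 6) (nat_lit 634) (nat_lit 0) (nat_lit 276) (nat_lit 255) (nat_lit 249)) (PT.lf (nat_lit 46892) (nat_lit 6) (nat_lit 617) (nat_lit 0) (nat_lit 277) (nat_lit 255) (nat_lit 248)))) (PT.nd (nat_lit 156) (PT.nd (nat_lit 78) (PT.lf (nat_lit 45524) (nat_lit 6) (nat_lit 599) (nat_lit 0) (nat_lit 278) (nat_lit 255) (nat_lit 247)) (PT.lf (nat_lit 44080) (nat_lit 6) (nat_lit 580) (nat_lit 0) (nat_lit 279) (nat_lit 255) (nat_lit 246))) (PT.nd (nat_lit 78) (PT.lf (nat_lit 42560) (nat_lit 6) (nat_lit 560) (nat_lit 0) (nat_lit 280) (nat_lit 255) (nat_lit 245)) (PT.lf (nat_lit 40964) (nat_lit 6) (nat_lit 539) (nat_lit 0) (nat_lit 281) (nat_lit 255) (nat_lit 244)))))) (PT.nd (nat_lit 78312) (PT.nd (nat_lit 78000) (PT.nd (nat_lit 156) (PT.nd (nat_lit 78) (PT.lf (nat_lit 39292) (nat_lit 6) (nat_lit 517)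 (nat_lit 0) (nat_lit 282) (nat_lit 255) (nat_lit 243)) (PT.lf (nat_lit 37544) (nat_lit 6) (nat_lit 494) (nat_lit 0) (nat_lit 283) (nat_lit 255) (nat_lit 242))) (PT.nd (nat_lit 77766) (PT.lf (nat_lit 35720) (nat_lit 6) (nat_lit 470) (nat_lit 0) (nat_lit 284) (nat_lit 255) (nat_lit 241)) (PT.lf (nat_lit 35796) (nat_lit 6) (nat_lit 471) (nat_lit 5) (nat_lit 240) (nat_lit 256) (nat_lit 284)))) (PT.nd (nat_lit 156) (PT.nd (nat_lit 78) (PT.lf (nat_lit 37620) (nat_lit 6) (nat_lit 495) (nat_lit 5) (nat_lit 241) (nat_lit 256) (nat_lit 283)) (PT.lf (nat_lit 39368) (nat_lit 6) (nat_lit 518) (nat_lit 5) (nat_lit 242) (nat_lit 256) (nat_lit 282))) (PT.nd (nat_lit 78) (PT.lf (nat_lit 41040) (nat_lit 6) (nat_lit 540) (nat_lit 5) (nat_lit 243) (nat_lit 256) (nat_lit 281)) (PT.lf (nat_lit 42636) (nat_lit 6) (nat_lit 561) (nat_lit 5) (nat_lit 244) (nat_lit 256) (nat_lit 280))))) (PT.nd (nat_lit 312) (PT.nd (nat_lit 156) (PT.nd (nat_lit 78) (PT.lf (nat_lit 44156) (nat_lit 6) (nat_lit 581) (nat_lit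 5) (nat_lit 245) (nat_lit 256) (nat_lit 279)) (PT.lf (nat_lit 45600) (nat_lit 6) (nat_lit 600) (nat_lit 5) (nat_lit 246) (nat_lit 256) (nat_lit 278))) (PT.nd (nat_lit 78) (PT.lf (nat_lit 46968) (nat_lit 6) (nat_lit 618) (nat_lit 5) (nat_lit 247) (nat_lit 256) (nat_lit 277)) (PT.lf (nat_lit 48260) (nat_lit 6) (nat_lit 635) (nat_lit 5) (nat_lit 248) (nat_lit 256) (nat_lit 276)))) (PT.nd (nat_lit 156) (PT.nd (nat_lit 78) (PT.lf (nat_lit 49476) (nat_lit 6) (nat_lit 651) (nat_lit 5) (nat_lit 249) (nat_lit 256) (nat_lit 275)) (PT.lf (nat_lit 50616) (nat_lit 6) (nat_lit 666) (nat_lit 5) (nat_lit 250) (nat_lit 256) (nat_lit 274))) (PT.nd (nat_lit 78) (PT.lf (nat_lit 51680) (nat_lit 6) (nat_lit 680) (nat_lit 5) (nat_lit 251) (nat_lit 256) (nat_lit 273)) (PT.lf (nat_lit 52668) (nat_lit 6) (nat_lit 693) (nat_lit 5) (nat_lit 252) (nat_lit 256) (nat_lit 272))))))))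
noncomputable def pc23 : PT := (PT.nd (nat_lit 2418) (PT.nd (nat_lit 1170) (PT.nd (nat_lit 546) (PT.nd (nat_lit 234) (PT.nd (nat_lit 78) (PT.lf (nat_lit 53580) (nat_lit 6) (nat_lit 705) (nat_lit 5) (nat_lit 253) (nat_lit 256) (nat_lit 271)) (PT.nd (nat_lit 78) (PT.lf (nat_lit 54416) (nat_lit 6) (nat_lit 716) (nat_lit 5) (nat_lit 254) (nat_lit 256) (nat_lit 270)) (PT.lf (nat_lit 55176) (nat_lit 6) (nat_lit 726) (nat_lit 5) (nat_lit 255) (nat_lit 256) (nat_lit 269)))) (PT.nd (nat_lit 156) (PT.nd (nat_lit 78) (PT.lf (nat_lit 55860) (nat_lit 3) (nat_lit 735) (nat_lit 3) (nat_lit 256) (nat_lit 256) (nat_lit 268)) (PT.lf (nat_lit 56544) (nat_lit 6) (nat_lit 744) (nat_lit 3) (nat_lit 257) (nat_lit 256) (nat_lit 267))) (PT.nd (nat_lit 78) (PT.lf (nat_lit 57152) (nat_lit 6) (nat_lit 752) (nat_lit 3) (nat_lit 258) (nat_lit 256) (nat_lit 266)) (PT.lf (nat_lit 57684) (nat_lit 6) (nat_lit 759) (nat_lit 3) (nat_lit 259) (nat_lit 256) (nat_lit 265))))) (PT.nd (nat_lit 312) (PT.nd (nat_lit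 156) (PT.nd (nat_lit 78) (PT.lf (nat_lit 58140) (nat_lit 6) (nat_lit 765) (nat_lit 3) (nat_lit 260) (nat_lit 256) (nat_lit 264)) (PT.lf (nat_lit 58216) (nat_lit 6) (nat_lit 766) (nat_lit 3) (nat_lit 261) (nat_lit 256) (nat_lit 263))) (PT.nd (nat_lit 78) (PT.lf (nat_lit 58292) (nat_lit 3) (nat_lit 767) (nat_lit 1) (nat_lit 262) (nat_lit 256) (nat_lit 262)) (PT.lf (nat_lit 58216) (nat_lit 6) (nat_lit 766) (nat_lit 1) (nat_lit 263) (nat_lit 256) (nat_lit 261)))) (PT.nd (nat_lit 156) (PT.nd (nat_lit 78) (PT.lf (nat_lit 58140) (nat_lit 6) (nat_lit 765) (nat_lit 1) (nat_lit 264) (nat_lit 256) (nat_lit 260)) (PT.lf (nat_lit 57684) (nat_lit 6) (nat_lit 759) (nat_lit 1) (nat_lit 265) (nat_lit 256) (nat_lit 259))) (PT.nd (nat_lit 78) (PT.lf (nat_lit 57152) (nat_lit 6) (nat_lit 752) (nat_lit 1) (nat_lit 266) (nat_lit 256) (nat_lit 258)) (PT.lf (nat_lit 56544) (nat_lit 6) (nat_lit 744) (nat_lit 1) (nat_lit 267) (nat_lit 256) (nat_lit 257)))))) (PT.nd (nat_lit 624) (PT.nd (nat_lit 312)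 (PT.nd (nat_lit 156) (PT.nd (nat_lit 78) (PT.lf (nat_lit 55860) (nat_lit 3) (nat_lit 735) (nat_lit 0) (nat_lit 268) (nat_lit 256) (nat_lit 256)) (PT.lf (nat_lit 55176) (nat_lit 6) (nat_lit 726) (nat_lit 0) (nat_lit 269) (nat_lit 256) (nat_lit 255))) (PT.nd (nat_lit 78) (PT.lf (nat_lit 54416) (nat_lit 6) (nat_lit 716) (nat_lit 0) (nat_lit 270) (nat_lit 256) (nat_lit 254)) (PT.lf (nat_lit 53580) (nat_lit 6) (nat_lit 705) (nat_lit 0) (nat_lit 271) (nat_lit 256) (nat_lit 253)))) (PT.nd (nat_lit 156) (PT.nd (nat_lit 78) (PT.lf (nat_lit 52668) (nat_lit 6) (nat_lit 693) (nat_lit 0) (nat_lit 272) (nat_lit 256) (nat_lit 252)) (PT.lf (nat_lit 51680) (nat_lit 6) (nat_lit 680) (nat_lit 0) (nat_lit 273) (nat_lit 256) (nat_lit 251))) (PT.nd (nat_lit 78) (PT.lf (nat_lit 50616) (nat_lit 6) (nat_lit 666) (nat_lit 0) (nat_lit 274) (nat_lit 256) (nat_lit 250)) (PT.lf (nat_lit 49476) (nat_lit 6) (nat_lit 651) (nat_lit 0) (nat_lit 275) (nat_lit 256) (nat_lit 249))))) (PT.nd (nat_lit 312) (PT.nd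 (nat_lit 156) (PT.nd (nat_lit 78) (PT.lf (nat_lit 48260) (nat_lit 6) (nat_lit 635) (nat_lit 0) (nat_lit 276) (nat_lit 256) (nat_lit 248)) (PT.lf (nat_lit 46968) (nat_lit 6) (nat_lit 618) (nat_lit 0) (nat_lit 277) (nat_lit 256) (nat_lit 247))) (PT.nd (nat_lit 78) (PT.lf (nat_lit 45600) (nat_lit 6) (nat_lit 600) (nat_lit 0) (nat_lit 278) (nat_lit 256) (nat_lit 246)) (PT.lf (nat_lit 44156) (nat_lit 6) (nat_lit 581) (nat_lit 0) (nat_lit 279) (nat_lit 256) (nat_lit 245)))) (PT.nd (nat_lit 156) (PT.nd (nat_lit 78) (PT.lf (nat_lit 42636) (nat_lit 6) (nat_lit 561) (nat_lit 0) (nat_lit 280) (nat_lit 256) (nat_lit 244)) (PT.lf (nat_lit 41040) (nat_lit 6) (nat_lit 540) (nat_lit 0) (nat_lit 281) (nat_lit 256) (nat_lit 243))) (PT.nd (nat_lit 78) (PT.lf (nat_lit 39368) (nat_lit 6) (nat_lit 518) (nat_lit 0) (nat_lit 282) (nat_lit 256) (nat_lit 242)) (PT.lf (nat_lit 37620) (nat_lit 6) (nat_lit 495) (nat_lit 0) (nat_lit 283) (nat_lit 256) (nat_lit 241))))))) (PT.nd (nat_lit 78858) (PT.nd (nat_lit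 78234) (PT.nd (nat_lit 77922) (PT.nd (nat_lit 77766) (PT.nd (nat_lit 77688) (PT.lf (nat_lit 35796) (nat_lit 6) (nat_lit 471) (nat_lit 0) (nat_lit 284) (nat_lit 256) (nat_lit 240)) (PT.lf (nat_lit 35872) (nat_lit 6) (nat_lit 472) (nat_lit 5) (nat_lit 239) (nat_lit 257) (nat_lit 284))) (PT.nd (nat_lit 78) (PT.lf (nat_lit 37696) (nat_lit 6) (nat_lit 496) (nat_lit 5) (nat_lit 240) (nat_lit 257) (nat_lit 283)) (PT.lf (nat_lit 39444) (nat_lit 6) (nat_lit 519) (nat_lit 5) (nat_lit 241) (nat_lit 257) (nat_lit 282)))) (PT.nd (nat_lit 156) (PT.nd (nat_lit 78) (PT.lf (nat_lit 41116) (nat_lit 6) (nat_lit 541) (nat_lit 5) (nat_lit 242) (nat_lit 257) (nat_lit 281)) (PT.lf (nat_lit 42712) (nat_lit 6) (nat_lit 562) (nat_lit 5) (nat_lit 243) (nat_lit 257) (nat_lit 280))) (PT.nd (nat_lit 78) (PT.lf (nat_lit 44232) (nat_lit 6) (nat_lit 582) (nat_lit 5) (nat_lit 244) (nat_lit 257) (nat_lit 279)) (PT.lf (nat_lit 45676) (nat_lit 6) (nat_lit 601) (nat_lit 5) (nat_lit 245) (nat_lit 257) (nat_lit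 278))))) (PT.nd (nat_lit 312) (PT.nd (nat_lit 156) (PT.nd (nat_lit 78) (PT.lf (nat_lit 47044) (nat_lit 6) (nat_lit 619) (nat_lit 5) (nat_lit 246) (nat_lit 257) (nat_lit 277)) (PT.lf (nat_lit 48336) (nat_lit 6) (nat_lit 636) (nat_lit 5) (nat_lit 247) (nat_lit 257) (nat_lit 276))) (PT.nd (nat_lit 78) (PT.lf (nat_lit 49552) (nat_lit 6) (nat_lit 652) (nat_lit 5) (nat_lit 248) (nat_lit 257) (nat_lit 275)) (PT.lf (nat_lit 50692) (nat_lit 6) (nat_lit 667) (nat_lit 5) (nat_lit 249) (nat_lit 257) (nat_lit 274)))) (PT.nd (nat_lit 156) (PT.nd (nat_lit 78) (PT.lf (nat_lit 51756) (nat_lit 6) (nat_lit 681) (nat_lit 5) (nat_lit 250) (nat_lit 257) (nat_lit 273)) (PT.lf (nat_lit 52744) (nat_lit 6) (nat_lit 694) (nat_lit 5) (nat_lit 251) (nat_lit 257) (nat_lit 272))) (PT.nd (nat_lit 78) (PT.lf (nat_lit 53656) (nat_lit 6) (nat_lit 706) (nat_lit 5) (nat_lit 252) (nat_lit 257) (nat_lit 271)) (PT.lf (nat_lit 54492) (nat_lit 6) (nat_lit 717) (nat_lit 5) (nat_lit 253) (nat_lit 257) (nat_lit 270))))))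 (PT.nd (nat_lit 624) (PT.nd (nat_lit 312) (PT.nd (nat_lit 156) (PT.nd (nat_lit 78) (PT.lf (nat_lit 55252) (nat_lit 6) (nat_lit 727) (nat_lit 5) (nat_lit 254) (nat_lit 257) (nat_lit 269)) (PT.lf (nat_lit 55936) (nat_lit 6) (nat_lit 736) (nat_lit 5) (nat_lit 255) (nat_lit 257) (nat_lit 268))) (PT.nd (nat_lit 78) (PT.lf (nat_lit 56544) (nat_lit 6) (nat_lit 744) (nat_lit 5) (nat_lit 256) (nat_lit 257) (nat_lit 267)) (PT.lf (nat_lit 57076) (nat_lit 3) (nat_lit 751) (nat_lit 3) (nat_lit 257) (nat_lit 257) (nat_lit 266)))) (PT.nd (nat_lit 156) (PT.nd (nat_lit 78) (PT.lf (nat_lit 57608) (nat_lit 6) (nat_lit 758) (nat_lit 3) (nat_lit 258) (nat_lit 257) (nat_lit 265)) (PT.lf (nat_lit 58064) (nat_lit 6) (nat_lit 764) (nat_lit 3) (nat_lit 259) (nat_lit 257) (nat_lit 264))) (PT.nd (nat_lit 78) (PT.lf (nat_lit 58444) (nat_lit 6) (nat_lit 769) (nat_lit 3) (nat_lit 260) (nat_lit 257) (nat_lit 263)) (PT.lf (nat_lit 58520) (nat_lit 6) (nat_lit 770) (nat_lit 3) (nat_lit 261) (nat_lit 257) (nat_lit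 262))))) (PT.nd (nat_lit 312) (PT.nd (nat_lit 156) (PT.nd (nat_lit 78) (PT.lf (nat_lit 58520) (nat_lit 6) (nat_lit 770) (nat_lit 1) (nat_lit 262) (nat_lit 257) (nat_lit 261)) (PT.lf (nat_lit 58444) (nat_lit 6) (nat_lit 769) (nat_lit 1) (nat_lit 263) (nat_lit 257) (nat_lit 260))) (PT.nd (nat_lit 78) (PT.lf (nat_lit 58064) (nat_lit 6) (nat_lit 764) (nat_lit 1) (nat_lit 264) (nat_lit 257) (nat_lit 259)) (PT.lf (nat_lit 57608) (nat_lit 6) (nat_lit 758) (nat_lit 1) (nat_lit 265) (nat_lit 257) (nat_lit 258)))) (PT.nd (nat_lit 156) (PT.nd (nat_lit 78) (PT.lf (nat_lit 57076) (nat_lit 3) (nat_lit 751) (nat_lit 0) (nat_lit 266) (nat_lit 257) (nat_lit 257)) (PT.lf (nat_lit 56544) (nat_lit 6) (nat_lit 744) (nat_lit 0) (nat_lit 267) (nat_lit 257) (nat_lit 256))) (PT.nd (nat_lit 78) (PT.lf (nat_lit 55936) (nat_lit 6) (nat_lit 736) (nat_lit 0) (nat_lit 268) (nat_lit 257) (nat_lit 255)) (PT.lf (nat_lit 55252) (nat_lit 6) (nat_lit 727) (nat_lit 0) (nat_lit 269) (nat_lit 257) (nat_lit 254))))))))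
noncomputable def pc24 : PT := (PT.nd (nat_lit 79950) (PT.nd (nat_lit 78702) (PT.nd (nat_lit 546) (PT.nd (nat_lit 234) (PT.nd (nat_lit 78) (PT.lf (nat_lit 54492) (nat_lit 6) (nat_lit 717) (nat_lit 0) (nat_lit 270) (nat_lit 257) (nat_lit 253)) (PT.nd (nat_lit 78) (PT.lf (nat_lit 53656) (nat_lit 6) (nat_lit 706) (nat_lit 0) (nat_lit 271) (nat_lit 257) (nat_lit 252)) (PT.lf (nat_lit 52744) (nat_lit 6) (nat_lit 694) (nat_lit 0) (nat_lit 272) (nat_lit 257) (nat_lit 251)))) (PT.nd (nat_lit 156) (PT.nd (nat_lit 78) (PT.lf (nat_lit 51756) (nat_lit 6) (nat_lit 681) (nat_lit 0) (nat_lit 273) (nat_lit 257) (nat_lit 250)) (PT.lf (nat_lit 50692) (nat_lit 6) (nat_lit 667) (nat_lit 0) (nat_lit 274) (nat_lit 257) (nat_lit 249))) (PT.nd (nat_lit 78) (PT.lf (nat_lit 49552) (nat_lit 6) (nat_lit 652) (nat_lit 0) (nat_lit 275) (nat_lit 257) (nat_lit 248)) (PT.lf (nat_lit 48336) (nat_lit 6) (nat_lit 636) (nat_lit 0) (nat_lit 276) (nat_lit 257) (nat_lit 247))))) (PT.nd (nat_lit 312) (PT.nd (nat_lit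 156) (PT.nd (nat_lit 78) (PT.lf (nat_lit 47044) (nat_lit 6) (nat_lit 619) (nat_lit 0) (nat_lit 277) (nat_lit 257) (nat_lit 246)) (PT.lf (nat_lit 45676) (nat_lit 6) (nat_lit 601) (nat_lit 0) (nat_lit 278) (nat_lit 257) (nat_lit 245))) (PT.nd (nat_lit 78) (PT.lf (nat_lit 44232) (nat_lit 6) (nat_lit 582) (nat_lit 0) (nat_lit 279) (nat_lit 257) (nat_lit 244)) (PT.lf (nat_lit 42712) (nat_lit 6) (nat_lit 562) (nat_lit 0) (nat_lit 280) (nat_lit 257) (nat_lit 243)))) (PT.nd (nat_lit 156) (PT.nd (nat_lit 78) (PT.lf (nat_lit 41116) (nat_lit 6) (nat_lit 541) (nat_lit 0) (nat_lit 281) (nat_lit 257) (nat_lit 242)) (PT.lf (nat_lit 39444) (nat_lit 6) (nat_lit 519) (nat_lit 0) (nat_lit 282) (nat_lit 257) (nat_lit 241))) (PT.nd (nat_lit 78) (PT.lf (nat_lit 37696) (nat_lit 6) (nat_lit 496) (nat_lit 0) (nat_lit 283) (nat_lit 257) (nat_lit 240)) (PT.lf (nat_lit 35872) (nat_lit 6) (nat_lit 472) (nat_lit 0) (nat_lit 284) (nat_lit 257) (nat_lit 239)))))) (PT.nd (nat_lit 624) (PT.nd (nat_lit 312)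 (PT.nd (nat_lit 156) (PT.nd (nat_lit 78) (PT.lf (nat_lit 35948) (nat_lit 6) (nat_lit 473) (nat_lit 5) (nat_lit 238) (nat_lit 258) (nat_lit 284)) (PT.lf (nat_lit 37772) (nat_lit 6) (nat_lit 497) (nat_lit 5) (nat_lit 239) (nat_lit 258) (nat_lit 283))) (PT.nd (nat_lit 78) (PT.lf (nat_lit 39520) (nat_lit 6) (nat_lit 520) (nat_lit 5) (nat_lit 240) (nat_lit 258) (nat_lit 282)) (PT.lf (nat_lit 41192) (nat_lit 6) (nat_lit 542) (nat_lit 5) (nat_lit 241) (nat_lit 258) (nat_lit 281)))) (PT.nd (nat_lit 156) (PT.nd (nat_lit 78) (PT.lf (nat_lit 42788) (nat_lit 6) (nat_lit 563) (nat_lit 5) (nat_lit 242) (nat_lit 258) (nat_lit 280)) (PT.lf (nat_lit 44308) (nat_lit 6) (nat_lit 583) (nat_lit 5) (nat_lit 243) (nat_lit 258) (nat_lit 279))) (PT.nd (nat_lit 78) (PT.lf (nat_lit 45752) (nat_lit 6) (nat_lit 602) (nat_lit 5) (nat_lit 244) (nat_lit 258) (nat_lit 278)) (PT.lf (nat_lit 47120) (nat_lit 6) (nat_lit 620) (nat_lit 5) (nat_lit 245) (nat_lit 258) (nat_lit 277))))) (PT.nd (nat_lit 312) (PT.nd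 (nat_lit 156) (PT.nd (nat_lit 78) (PT.lf (nat_lit 48412) (nat_lit 6) (nat_lit 637) (nat_lit 5) (nat_lit 246) (nat_lit 258) (nat_lit 276)) (PT.lf (nat_lit 49628) (nat_lit 6) (nat_lit 653) (nat_lit 5) (nat_lit 247) (nat_lit 258) (nat_lit 275))) (PT.nd (nat_lit 78) (PT.lf (nat_lit 50768) (nat_lit 6) (nat_lit 668) (nat_lit 5) (nat_lit 248) (nat_lit 258) (nat_lit 274)) (PT.lf (nat_lit 51832) (nat_lit 6) (nat_lit 682) (nat_lit 5) (nat_lit 249) (nat_lit 258) (nat_lit 273)))) (PT.nd (nat_lit 156) (PT.nd (nat_lit 78) (PT.lf (nat_lit 52820) (nat_lit 6) (nat_lit 695) (nat_lit 5) (nat_lit 250) (nat_lit 258) (nat_lit 272)) (PT.lf (nat_lit 53732) (nat_lit 6) (nat_lit 707) (nat_lit 5) (nat_lit 251) (nat_lit 258) (nat_lit 271))) (PT.nd (nat_lit 78) (PT.lf (nat_lit 54568) (nat_lit 6) (nat_lit 718) (nat_lit 5) (nat_lit 252) (nat_lit 258) (nat_lit 270)) (PT.lf (nat_lit 55328) (nat_lit 6) (nat_lit 728) (nat_lit 5) (nat_lit 253) (nat_lit 258) (nat_lit 269))))))) (PT.nd (nat_lit 1170) (PT.nd (nat_lit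 546) (PT.nd (nat_lit 234) (PT.nd (nat_lit 78) (PT.lf (nat_lit 56012) (nat_lit 6) (nat_lit 737) (nat_lit 5) (nat_lit 254) (nat_lit 258) (nat_lit 268)) (PT.nd (nat_lit 78) (PT.lf (nat_lit 56620) (nat_lit 6) (nat_lit 745) (nat_lit 5) (nat_lit 255) (nat_lit 258) (nat_lit 267)) (PT.lf (nat_lit 57152) (nat_lit 6) (nat_lit 752) (nat_lit 5) (nat_lit 256) (nat_lit 258) (nat_lit 266)))) (PT.nd (nat_lit 156) (PT.nd (nat_lit 78) (PT.lf (nat_lit 57608) (nat_lit 6) (nat_lit 758) (nat_lit 5) (nat_lit 257) (nat_lit 258) (nat_lit 265)) (PT.lf (nat_lit 57988) (nat_lit 3) (nat_lit 763) (nat_lit 3) (nat_lit 258) (nat_lit 258) (nat_lit 264))) (PT.nd (nat_lit 78) (PT.lf (nat_lit 58368) (nat_lit 6) (nat_lit 768) (nat_lit 3) (nat_lit 259) (nat_lit 258) (nat_lit 263)) (PT.lf (nat_lit 58672) (nat_lit 6) (nat_lit 772) (nat_lit 3) (nat_lit 260) (nat_lit 258) (nat_lit 262))))) (PT.nd (nat_lit 312) (PT.nd (nat_lit 156) (PT.nd (nat_lit 78) (PT.lf (nat_lit 58748) (nat_lit 3) (nat_lit 773) (nat_lit 1) (nat_lit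 261) (nat_lit 258) (nat_lit 261)) (PT.lf (nat_lit 58672) (nat_lit 6) (nat_lit 772) (nat_lit 1) (nat_lit 262) (nat_lit 258) (nat_lit 260))) (PT.nd (nat_lit 78) (PT.lf (nat_lit 58368) (nat_lit 6) (nat_lit 768) (nat_lit 1) (nat_lit 263) (nat_lit 258) (nat_lit 259)) (PT.lf (nat_lit 57988) (nat_lit 3) (nat_lit 763) (nat_lit 0) (nat_lit 264) (nat_lit 258) (nat_lit 258)))) (PT.nd (nat_lit 156) (PT.nd (nat_lit 78) (PT.lf (nat_lit 57608) (nat_lit 6) (nat_lit 758) (nat_lit 0) (nat_lit 265) (nat_lit 258) (nat_lit 257)) (PT.lf (nat_lit 57152) (nat_lit 6) (nat_lit 752) (nat_lit 0) (nat_lit 266) (nat_lit 258) (nat_lit 256))) (PT.nd (nat_lit 78) (PT.lf (nat_lit 56620) (nat_lit 6) (nat_lit 745) (nat_lit 0) (nat_lit 267) (nat_lit 258) (nat_lit 255)) (PT.lf (nat_lit 56012) (nat_lit 6) (nat_lit 737) (nat_lit 0) (nat_lit 268) (nat_lit 258) (nat_lit 254)))))) (PT.nd (nat_lit 624) (PT.nd (nat_lit 312) (PT.nd (nat_lit 156) (PT.nd (nat_lit 78) (PT.lf (nat_lit 55328) (nat_lit 6) (nat_lit 728) (nat_lit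 0) (nat_lit 269) (nat_lit 258) (nat_lit 253)) (PT.lf (nat_lit 54568) (nat_lit 6) (nat_lit 718) (nat_lit 0) (nat_lit 270) (nat_lit 258) (nat_lit 252))) (PT.nd (nat_lit 78) (PT.lf (nat_lit 53732) (nat_lit 6) (nat_lit 707) (nat_lit 0) (nat_lit 271) (nat_lit 258) (nat_lit 251)) (PT.lf (nat_lit 52820) (nat_lit 6) (nat_lit 695) (nat_lit 0) (nat_lit 272) (nat_lit 258) (nat_lit 250)))) (PT.nd (nat_lit 156) (PT.nd (nat_lit 78) (PT.lf (nat_lit 51832) (nat_lit 6) (nat_lit 682) (nat_lit 0) (nat_lit 273) (nat_lit 258) (nat_lit 249)) (PT.lf (nat_lit 50768) (nat_lit 6) (nat_lit 668) (nat_lit 0) (nat_lit 274) (nat_lit 258) (nat_lit 248))) (PT.nd (nat_lit 78) (PT.lf (nat_lit 49628) (nat_lit 6) (nat_lit 653) (nat_lit 0) (nat_lit 275) (nat_lit 258) (nat_lit 247)) (PT.lf (nat_lit 48412) (nat_lit 6) (nat_lit 637) (nat_lit 0) (nat_lit 276) (nat_lit 258) (nat_lit 246))))) (PT.nd (nat_lit 312) (PT.nd (nat_lit 156) (PT.nd (nat_lit 78) (PT.lf (nat_lit 47120) (nat_lit 6) (nat_lit 620) (nat_lit 0) (nat_lit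 277) (nat_lit 258) (nat_lit 245)) (PT.lf (nat_lit 45752) (nat_lit 6) (nat_lit 602) (nat_lit 0) (nat_lit 278) (nat_lit 258) (nat_lit 244))) (PT.nd (nat_lit 78) (PT.lf (nat_lit 44308) (nat_lit 6) (nat_lit 583) (nat_lit 0) (nat_lit 279) (nat_lit 258) (nat_lit 243)) (PT.lf (nat_lit 42788) (nat_lit 6) (nat_lit 563) (nat_lit 0) (nat_lit 280) (nat_lit 258) (nat_lit 242)))) (PT.nd (nat_lit 156) (PT.nd (nat_lit 78) (PT.lf (nat_lit 41192) (nat_lit 6) (nat_lit 542) (nat_lit 0) (nat_lit 281) (nat_lit 258) (nat_lit 241)) (PT.lf (nat_lit 39520) (nat_lit 6) (nat_lit 520) (nat_lit 0) (nat_lit 282) (nat_lit 258) (nat_lit 240))) (PT.nd (nat_lit 78) (PT.lf (nat_lit 37772) (nat_lit 6) (nat_lit 497) (nat_lit 0) (nat_lit 283) (nat_lit 258) (nat_lit 239)) (PT.lf (nat_lit 35948) (nat_lit 6) (nat_lit 473) (nat_lit 0) (nat_lit 284) (nat_lit 258) (nat_lit 238))))))))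
noncomputable def pc25 : PT := (PT.nd (nat_lit 2418) (PT.nd (nat_lit 1170) (PT.nd (nat_lit 546) (PT.nd (nat_lit 234) (PT.nd (nat_lit 78) (PT.lf (nat_lit 36024) (nat_lit 6) (nat_lit 474) (nat_lit 5) (nat_lit 237) (nat_lit 259) (nat_lit 284)) (PT.nd (nat_lit 78) (PT.lf (nat_lit 37848) (nat_lit 6) (nat_lit 498) (nat_lit 5) (nat_lit 238) (nat_lit 259) (nat_lit 283)) (PT.lf (nat_lit 39596) (nat_lit 6) (nat_lit 521) (nat_lit 5) (nat_lit 239) (nat_lit 259) (nat_lit 282)))) (PT.nd (nat_lit 156) (PT.nd (nat_lit 78) (PT.lf (nat_lit 41268) (nat_lit 6) (nat_lit 543) (nat_lit 5) (nat_lit 240) (nat_lit 259) (nat_lit 281)) (PT.lf (nat_lit 42864) (nat_lit 6) (nat_lit 564) (nat_lit 5) (nat_lit 241) (nat_lit 259) (nat_lit 280))) (PT.nd (nat_lit 78) (PT.lf (nat_lit 44384) (nat_lit 6) (nat_lit 584) (nat_lit 5) (nat_lit 242) (nat_lit 259) (nat_lit 279)) (PT.lf (nat_lit 45828) (nat_lit 6) (nat_lit 603) (nat_lit 5) (nat_lit 243) (nat_lit 259) (nat_lit 278))))) (PT.nd (nat_lit 312) (PT.nd (nat_lit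 156) (PT.nd (nat_lit 78) (PT.lf (nat_lit 47196) (nat_lit 6) (nat_lit 621) (nat_lit 5) (nat_lit 244) (nat_lit 259) (nat_lit 277)) (PT.lf (nat_lit 48488) (nat_lit 6) (nat_lit 638) (nat_lit 5) (nat_lit 245) (nat_lit 259) (nat_lit 276))) (PT.nd (nat_lit 78) (PT.lf (nat_lit 49704) (nat_lit 6) (nat_lit 654) (nat_lit 5) (nat_lit 246) (nat_lit 259) (nat_lit 275)) (PT.lf (nat_lit 50844) (nat_lit 6) (nat_lit 669) (nat_lit 5) (nat_lit 247) (nat_lit 259) (nat_lit 274)))) (PT.nd (nat_lit 156) (PT.nd (nat_lit 78) (PT.lf (nat_lit 51908) (nat_lit 6) (nat_lit 683) (nat_lit 5) (nat_lit 248) (nat_lit 259) (nat_lit 273)) (PT.lf (nat_lit 52896) (nat_lit 6) (nat_lit 696) (nat_lit 5) (nat_lit 249) (nat_lit 259) (nat_lit 272))) (PT.nd (nat_lit 78) (PT.lf (nat_lit 53808) (nat_lit 6) (nat_lit 708) (nat_lit 5) (nat_lit 250) (nat_lit 259) (nat_lit 271)) (PT.lf (nat_lit 54644) (nat_lit 6) (nat_lit 719) (nat_lit 5) (nat_lit 251) (nat_lit 259) (nat_lit 270)))))) (PT.nd (nat_lit 624) (PT.nd (nat_lit 312)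 (PT.nd (nat_lit 156) (PT.nd (nat_lit 78) (PT.lf (nat_lit 55404) (nat_lit 6) (nat_lit 729) (nat_lit 5) (nat_lit 252) (nat_lit 259) (nat_lit 269)) (PT.lf (nat_lit 56088) (nat_lit 6) (nat_lit 738) (nat_lit 5) (nat_lit 253) (nat_lit 259) (nat_lit 268))) (PT.nd (nat_lit 78) (PT.lf (nat_lit 56696) (nat_lit 6) (nat_lit 746) (nat_lit 5) (nat_lit 254) (nat_lit 259) (nat_lit 267)) (PT.lf (nat_lit 57228) (nat_lit 6) (nat_lit 753) (nat_lit 5) (nat_lit 255) (nat_lit 259) (nat_lit 266)))) (PT.nd (nat_lit 156) (PT.nd (nat_lit 78) (PT.lf (nat_lit 57684) (nat_lit 6) (nat_lit 759) (nat_lit 5) (nat_lit 256) (nat_lit 259) (nat_lit 265)) (PT.lf (nat_lit 58064) (nat_lit 6) (nat_lit 764) (nat_lit 5) (nat_lit 257) (nat_lit 259) (nat_lit 264))) (PT.nd (nat_lit 78) (PT.lf (nat_lit 58368) (nat_lit 6) (nat_lit 768) (nat_lit 5) (nat_lit 258) (nat_lit 259) (nat_lit 263)) (PT.lf (nat_lit 58596) (nat_lit 3) (nat_lit 771) (nat_lit 3) (nat_lit 259) (nat_lit 259) (nat_lit 262))))) (PT.nd (nat_lit 312) (PT.nd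 (nat_lit 156) (PT.nd (nat_lit 78) (PT.lf (nat_lit 58824) (nat_lit 6) (nat_lit 774) (nat_lit 3) (nat_lit 260) (nat_lit 259) (nat_lit 261)) (PT.lf (nat_lit 58824) (nat_lit 6) (nat_lit 774) (nat_lit 1) (nat_lit 261) (nat_lit 259) (nat_lit 260))) (PT.nd (nat_lit 78) (PT.lf (nat_lit 58596) (nat_lit 3) (nat_lit 771) (nat_lit 0) (nat_lit 262) (nat_lit 259) (nat_lit 259)) (PT.lf (nat_lit 58368) (nat_lit 6) (nat_lit 768) (nat_lit 0) (nat_lit 263) (nat_lit 259) (nat_lit 258)))) (PT.nd (nat_lit 156) (PT.nd (nat_lit 78) (PT.lf (nat_lit 58064) (nat_lit 6) (nat_lit 764) (nat_lit 0) (nat_lit 264) (nat_lit 259) (nat_lit 257)) (PT.lf (nat_lit 57684) (nat_lit 6) (nat_lit 759) (nat_lit 0) (nat_lit 265) (nat_lit 259) (nat_lit 256))) (PT.nd (nat_lit 78) (PT.lf (nat_lit 57228) (nat_lit 6) (nat_lit 753) (nat_lit 0) (nat_lit 266) (nat_lit 259) (nat_lit 255)) (PT.lf (nat_lit 56696) (nat_lit 6) (nat_lit 746) (nat_lit 0) (nat_lit 267) (nat_lit 259) (nat_lit 254))))))) (PT.nd (nat_lit 1170) (PT.nd (nat_lit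 546) (PT.nd (nat_lit 234) (PT.nd (nat_lit 78) (PT.lf (nat_lit 56088) (nat_lit 6) (nat_lit 738) (nat_lit 0) (nat_lit 268) (nat_lit 259) (nat_lit 253)) (PT.nd (nat_lit 78) (PT.lf (nat_lit 55404) (nat_lit 6) (nat_lit 729) (nat_lit 0) (nat_lit 269) (nat_lit 259) (nat_lit 252)) (PT.lf (nat_lit 54644) (nat_lit 6) (nat_lit 719) (nat_lit 0) (nat_lit 270) (nat_lit 259) (nat_lit 251)))) (PT.nd (nat_lit 156) (PT.nd (nat_lit 78) (PT.lf (nat_lit 53808) (nat_lit 6) (nat_lit 708) (nat_lit 0) (nat_lit 271) (nat_lit 259) (nat_lit 250)) (PT.lf (nat_lit 52896) (nat_lit 6) (nat_lit 696) (nat_lit 0) (nat_lit 272) (nat_lit 259) (nat_lit 249))) (PT.nd (nat_lit 78) (PT.lf (nat_lit 51908) (nat_lit 6) (nat_lit 683) (nat_lit 0) (nat_lit 273) (nat_lit 259) (nat_lit 248)) (PT.lf (nat_lit 50844) (nat_lit 6) (nat_lit 669) (nat_lit 0) (nat_lit 274) (nat_lit 259) (nat_lit 247))))) (PT.nd (nat_lit 312) (PT.nd (nat_lit 156) (PT.nd (nat_lit 78) (PT.lf (nat_lit 49704) (nat_lit 6) (nat_lit 654) (nat_lit 0) (nat_lit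 275) (nat_lit 259) (nat_lit 246)) (PT.lf (nat_lit 48488) (nat_lit 6) (nat_lit 638) (nat_lit 0) (nat_lit 276) (nat_lit 259) (nat_lit 245))) (PT.nd (nat_lit 78) (PT.lf (nat_lit 47196) (nat_lit 6) (nat_lit 621) (nat_lit 0) (nat_lit 277) (nat_lit 259) (nat_lit 244)) (PT.lf (nat_lit 45828) (nat_lit 6) (nat_lit 603) (nat_lit 0) (nat_lit 278) (nat_lit 259) (nat_lit 243)))) (PT.nd (nat_lit 156) (PT.nd (nat_lit 78) (PT.lf (nat_lit 44384) (nat_lit 6) (nat_lit 584) (nat_lit 0) (nat_lit 279) (nat_lit 259) (nat_lit 242)) (PT.lf (nat_lit 42864) (nat_lit 6) (nat_lit 564) (nat_lit 0) (nat_lit 280) (nat_lit 259) (nat_lit 241))) (PT.nd (nat_lit 78) (PT.lf (nat_lit 41268) (nat_lit 6) (nat_lit 543) (nat_lit 0) (nat_lit 281) (nat_lit 259) (nat_lit 240)) (PT.lf (nat_lit 39596) (nat_lit 6) (nat_lit 521) (nat_lit 0) (nat_lit 282) (nat_lit 259) (nat_lit 239)))))) (PT.nd (nat_lit 77922) (PT.nd (nat_lit 77610) (PT.nd (nat_lit 77454) (PT.nd (nat_lit 78) (PT.lf (nat_lit 37848) (nat_lit 6) (nat_lit 498)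 (nat_lit 0) (nat_lit 283) (nat_lit 259) (nat_lit 238)) (PT.lf (nat_lit 36024) (nat_lit 6) (nat_lit 474) (nat_lit 0) (nat_lit 284) (nat_lit 259) (nat_lit 237))) (PT.nd (nat_lit 78) (PT.lf (nat_lit 34200) (nat_lit 6) (nat_lit 450) (nat_lit 5) (nat_lit 235) (nat_lit 260) (nat_lit 285)) (PT.lf (nat_lit 36100) (nat_lit 6) (nat_lit 475) (nat_lit 5) (nat_lit 236) (nat_lit 260) (nat_lit 284)))) (PT.nd (nat_lit 156) (PT.nd (nat_lit 78) (PT.lf (nat_lit 37924) (nat_lit 6) (nat_lit 499) (nat_lit 5) (nat_lit 237) (nat_lit 260) (nat_lit 283)) (PT.lf (nat_lit 39672) (nat_lit 6) (nat_lit 522) (nat_lit 5) (nat_lit 238) (nat_lit 260) (nat_lit 282))) (PT.nd (nat_lit 78) (PT.lf (nat_lit 41344) (nat_lit 6) (nat_lit 544) (nat_lit 5) (nat_lit 239) (nat_lit 260) (nat_lit 281)) (PT.lf (nat_lit 42940) (nat_lit 6) (nat_lit 565) (nat_lit 5) (nat_lit 240) (nat_lit 260) (nat_lit 280))))) (PT.nd (nat_lit 312) (PT.nd (nat_lit 156) (PT.nd (nat_lit 78) (PT.lf (nat_lit 44460) (nat_lit 6) (nat_lit 585) (nat_lit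 5) (nat_lit 241) (nat_lit 260) (nat_lit 279)) (PT.lf (nat_lit 45904) (nat_lit 6) (nat_lit 604) (nat_lit 5) (nat_lit 242) (nat_lit 260) (nat_lit 278))) (PT.nd (nat_lit 78) (PT.lf (nat_lit 47272) (nat_lit 6) (nat_lit 622) (nat_lit 5) (nat_lit 243) (nat_lit 260) (nat_lit 277)) (PT.lf (nat_lit 48564) (nat_lit 6) (nat_lit 639) (nat_lit 5) (nat_lit 244) (nat_lit 260) (nat_lit 276)))) (PT.nd (nat_lit 156) (PT.nd (nat_lit 78) (PT.lf (nat_lit 49780) (nat_lit 6) (nat_lit 655) (nat_lit 5) (nat_lit 245) (nat_lit 260) (nat_lit 275)) (PT.lf (nat_lit 50920) (nat_lit 6) (nat_lit 670) (nat_lit 5) (nat_lit 246) (nat_lit 260) (nat_lit 274))) (PT.nd (nat_lit 78) (PT.lf (nat_lit 51984) (nat_lit 6) (nat_lit 684) (nat_lit 5) (nat_lit 247) (nat_lit 260) (nat_lit 273)) (PT.lf (nat_lit 52972) (nat_lit 6) (nat_lit 697) (nat_lit 5) (nat_lit 248) (nat_lit 260) (nat_lit 272))))))))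
noncomputable def pc26 : PT := (PT.nd (nat_lit 2418) (PT.nd (nat_lit 1170) (PT.nd (nat_lit 546) (PT.nd (nat_lit 234) (PT.nd (nat_lit 78) (PT.lf (nat_lit 53884) (nat_lit 6) (nat_lit 709) (nat_lit 5) (nat_lit 249) (nat_lit 260) (nat_lit 271)) (PT.nd (nat_lit 78) (PT.lf (nat_lit 54720) (nat_lit 6) (nat_lit 720) (nat_lit 5) (nat_lit 250) (nat_lit 260) (nat_lit 270)) (PT.lf (nat_lit 55480) (nat_lit 6) (nat_lit 730) (nat_lit 5) (nat_lit 251) (nat_lit 260) (nat_lit 269)))) (PT.nd (nat_lit 156) (PT.nd (nat_lit 78) (PT.lf (nat_lit 56164) (nat_lit 6) (nat_lit 739) (nat_lit 5) (nat_lit 252) (nat_lit 260) (nat_lit 268)) (PT.lf (nat_lit 56772) (nat_lit 6) (nat_lit 747) (nat_lit 5) (nat_lit 253) (nat_lit 260) (nat_lit 267))) (PT.nd (nat_lit 78) (PT.lf (nat_lit 57304) (nat_lit 6) (nat_lit 754) (nat_lit 5) (nat_lit 254) (nat_lit 260) (nat_lit 266)) (PT.lf (nat_lit 57760) (nat_lit 6) (nat_lit 760) (nat_lit 5) (nat_lit 255) (nat_lit 260) (nat_lit 265))))) (PT.nd (nat_lit 312) (PT.nd (nat_lit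 156) (PT.nd (nat_lit 78) (PT.lf (nat_lit 58140) (nat_lit 6) (nat_lit 765) (nat_lit 5) (nat_lit 256) (nat_lit 260) (nat_lit 264)) (PT.lf (nat_lit 58444) (nat_lit 6) (nat_lit 769) (nat_lit 5) (nat_lit 257) (nat_lit 260) (nat_lit 263))) (PT.nd (nat_lit 78) (PT.lf (nat_lit 58672) (nat_lit 6) (nat_lit 772) (nat_lit 5) (nat_lit 258) (nat_lit 260) (nat_lit 262)) (PT.lf (nat_lit 58824) (nat_lit 6) (nat_lit 774) (nat_lit 5) (nat_lit 259) (nat_lit 260) (nat_lit 261)))) (PT.nd (nat_lit 156) (PT.nd (nat_lit 78) (PT.lf (nat_lit 58900) (nat_lit 1) (nat_lit 775) (nat_lit 0) (nat_lit 260) (nat_lit 260) (nat_lit 260)) (PT.lf (nat_lit 58824) (nat_lit 6) (nat_lit 774) (nat_lit 0) (nat_lit 261) (nat_lit 260) (nat_lit 259))) (PT.nd (nat_lit 78) (PT.lf (nat_lit 58672) (nat_lit 6) (nat_lit 772) (nat_lit 0) (nat_lit 262) (nat_lit 260) (nat_lit 258)) (PT.lf (nat_lit 58444) (nat_lit 6) (nat_lit 769) (nat_lit 0) (nat_lit 263) (nat_lit 260) (nat_lit 257)))))) (PT.nd (nat_lit 624) (PT.nd (nat_lit 312)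 (PT.nd (nat_lit 156) (PT.nd (nat_lit 78) (PT.lf (nat_lit 58140) (nat_lit 6) (nat_lit 765) (nat_lit 0) (nat_lit 264) (nat_lit 260) (nat_lit 256)) (PT.lf (nat_lit 57760) (nat_lit 6) (nat_lit 760) (nat_lit 0) (nat_lit 265) (nat_lit 260) (nat_lit 255))) (PT.nd (nat_lit 78) (PT.lf (nat_lit 57304) (nat_lit 6) (nat_lit 754) (nat_lit 0) (nat_lit 266) (nat_lit 260) (nat_lit 254)) (PT.lf (nat_lit 56772) (nat_lit 6) (nat_lit 747) (nat_lit 0) (nat_lit 267) (nat_lit 260) (nat_lit 253)))) (PT.nd (nat_lit 156) (PT.nd (nat_lit 78) (PT.lf (nat_lit 56164) (nat_lit 6) (nat_lit 739) (nat_lit 0) (nat_lit 268) (nat_lit 260) (nat_lit 252)) (PT.lf (nat_lit 55480) (nat_lit 6) (nat_lit 730) (nat_lit 0) (nat_lit 269) (nat_lit 260) (nat_lit 251))) (PT.nd (nat_lit 78) (PT.lf (nat_lit 54720) (nat_lit 6) (nat_lit 720) (nat_lit 0) (nat_lit 270) (nat_lit 260) (nat_lit 250)) (PT.lf (nat_lit 53884) (nat_lit 6) (nat_lit 709) (nat_lit 0) (nat_lit 271) (nat_lit 260) (nat_lit 249))))) (PT.nd (nat_lit 312) (PT.nd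 (nat_lit 156) (PT.nd (nat_lit 78) (PT.lf (nat_lit 52972) (nat_lit 6) (nat_lit 697) (nat_lit 0) (nat_lit 272) (nat_lit 260) (nat_lit 248)) (PT.lf (nat_lit 51984) (nat_lit 6) (nat_lit 684) (nat_lit 0) (nat_lit 273) (nat_lit 260) (nat_lit 247))) (PT.nd (nat_lit 78) (PT.lf (nat_lit 50920) (nat_lit 6) (nat_lit 670) (nat_lit 0) (nat_lit 274) (nat_lit 260) (nat_lit 246)) (PT.lf (nat_lit 49780) (nat_lit 6) (nat_lit 655) (nat_lit 0) (nat_lit 275) (nat_lit 260) (nat_lit 245)))) (PT.nd (nat_lit 156) (PT.nd (nat_lit 78) (PT.lf (nat_lit 48564) (nat_lit 6) (nat_lit 639) (nat_lit 0) (nat_lit 276) (nat_lit 260) (nat_lit 244)) (PT.lf (nat_lit 47272) (nat_lit 6) (nat_lit 622) (nat_lit 0) (nat_lit 277) (nat_lit 260) (nat_lit 243))) (PT.nd (nat_lit 78) (PT.lf (nat_lit 45904) (nat_lit 6) (nat_lit 604) (nat_lit 0) (nat_lit 278) (nat_lit 260) (nat_lit 242)) (PT.lf (nat_lit 44460) (nat_lit 6) (nat_lit 585) (nat_lit 0) (nat_lit 279) (nat_lit 260) (nat_lit 241))))))) (PT.nd (nat_lit 78312) (PT.nd (nat_lit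 77688) (PT.nd (nat_lit 234) (PT.nd (nat_lit 78) (PT.lf (nat_lit 42940) (nat_lit 6) (nat_lit 565) (nat_lit 0) (nat_lit 280) (nat_lit 260) (nat_lit 240)) (PT.nd (nat_lit 78) (PT.lf (nat_lit 41344) (nat_lit 6) (nat_lit 544) (nat_lit 0) (nat_lit 281) (nat_lit 260) (nat_lit 239)) (PT.lf (nat_lit 39672) (nat_lit 6) (nat_lit 522) (nat_lit 0) (nat_lit 282) (nat_lit 260) (nat_lit 238)))) (PT.nd (nat_lit 156) (PT.nd (nat_lit 78) (PT.lf (nat_lit 37924) (nat_lit 6) (nat_lit 499) (nat_lit 0) (nat_lit 283) (nat_lit 260) (nat_lit 237)) (PT.lf (nat_lit 36100) (nat_lit 6) (nat_lit 475) (nat_lit 0) (nat_lit 284) (nat_lit 260) (nat_lit 236))) (PT.nd (nat_lit 77220) (PT.lf (nat_lit 34200) (nat_lit 6) (nat_lit 450) (nat_lit 0) (nat_lit 285) (nat_lit 260) (nat_lit 235)) (PT.lf (nat_lit 33136) (nat_lit 6) (nat_lit 436) (nat_lit 5) (nat_lit 234) (nat_lit 261) (nat_lit 285))))) (PT.nd (nat_lit 312) (PT.nd (nat_lit 156) (PT.nd (nat_lit 78) (PT.lf (nat_lit 34276) (nat_lit 6) (nat_lit 451) (nat_lit 5)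 (nat_lit 235) (nat_lit 261) (nat_lit 284)) (PT.lf (nat_lit 36176) (nat_lit 6) (nat_lit 476) (nat_lit 5) (nat_lit 236) (nat_lit 261) (nat_lit 283))) (PT.nd (nat_lit 78) (PT.lf (nat_lit 38000) (nat_lit 6) (nat_lit 500) (nat_lit 5) (nat_lit 237) (nat_lit 261) (nat_lit 282)) (PT.lf (nat_lit 39748) (nat_lit 6) (nat_lit 523) (nat_lit 5) (nat_lit 238) (nat_lit 261) (nat_lit 281)))) (PT.nd (nat_lit 156) (PT.nd (nat_lit 78) (PT.lf (nat_lit 41420) (nat_lit 6) (nat_lit 545) (nat_lit 5) (nat_lit 239) (nat_lit 261) (nat_lit 280)) (PT.lf (nat_lit 43016) (nat_lit 6) (nat_lit 566) (nat_lit 5) (nat_lit 240) (nat_lit 261) (nat_lit 279))) (PT.nd (nat_lit 78) (PT.lf (nat_lit 44536) (nat_lit 6) (nat_lit 586) (nat_lit 5) (nat_lit 241) (nat_lit 261) (nat_lit 278)) (PT.lf (nat_lit 45980) (nat_lit 6) (nat_lit 605) (nat_lit 5) (nat_lit 242) (nat_lit 261) (nat_lit 277)))))) (PT.nd (nat_lit 624) (PT.nd (nat_lit 312) (PT.nd (nat_lit 156) (PT.nd (nat_lit 78) (PT.lf (nat_lit 47348) (nat_lit 6) (nat_lit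 623) (nat_lit 5) (nat_lit 243) (nat_lit 261) (nat_lit 276)) (PT.lf (nat_lit 48640) (nat_lit 6) (nat_lit 640) (nat_lit 5) (nat_lit 244) (nat_lit 261) (nat_lit 275))) (PT.nd (nat_lit 78) (PT.lf (nat_lit 49856) (nat_lit 6) (nat_lit 656) (nat_lit 5) (nat_lit 245) (nat_lit 261) (nat_lit 274)) (PT.lf (nat_lit 50996) (nat_lit 6) (nat_lit 671) (nat_lit 5) (nat_lit 246) (nat_lit 261) (nat_lit 273)))) (PT.nd (nat_lit 156) (PT.nd (nat_lit 78) (PT.lf (nat_lit 52060) (nat_lit 6) (nat_lit 685) (nat_lit 5) (nat_lit 247) (nat_lit 261) (nat_lit 272)) (PT.lf (nat_lit 53048) (nat_lit 6) (nat_lit 698) (nat_lit 5) (nat_lit 248) (nat_lit 261) (nat_lit 271))) (PT.nd (nat_lit 78) (PT.lf (nat_lit 53960) (nat_lit 6) (nat_lit 710) (nat_lit 5) (nat_lit 249) (nat_lit 261) (nat_lit 270)) (PT.lf (nat_lit 54796) (nat_lit 6) (nat_lit 721) (nat_lit 5) (nat_lit 250) (nat_lit 261) (nat_lit 269))))) (PT.nd (nat_lit 312) (PT.nd (nat_lit 156) (PT.nd (nat_lit 78) (PT.lf (nat_lit 55556) (nat_lit 6) (nat_lit 731)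 (nat_lit 5) (nat_lit 251) (nat_lit 261) (nat_lit 268)) (PT.lf (nat_lit 56240) (nat_lit 6) (nat_lit 740) (nat_lit 5) (nat_lit 252) (nat_lit 261) (nat_lit 267))) (PT.nd (nat_lit 78) (PT.lf (nat_lit 56848) (nat_lit 6) (nat_lit 748) (nat_lit 5) (nat_lit 253) (nat_lit 261) (nat_lit 266)) (PT.lf (nat_lit 57380) (nat_lit 6) (nat_lit 755) (nat_lit 5) (nat_lit 254) (nat_lit 261) (nat_lit 265)))) (PT.nd (nat_lit 156) (PT.nd (nat_lit 78) (PT.lf (nat_lit 57836) (nat_lit 6) (nat_lit 761) (nat_lit 5) (nat_lit 255) (nat_lit 261) (nat_lit 264)) (PT.lf (nat_lit 58216) (nat_lit 6) (nat_lit 766) (nat_lit 5) (nat_lit 256) (nat_lit 261) (nat_lit 263))) (PT.nd (nat_lit 78) (PT.lf (nat_lit 58520) (nat_lit 6) (nat_lit 770) (nat_lit 5) (nat_lit 257) (nat_lit 261) (nat_lit 262)) (PT.lf (nat_lit 58748) (nat_lit 3) (nat_lit 773) (nat_lit 4) (nat_lit 258) (nat_lit 261) (nat_lit 261))))))))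
noncomputable def pc27 : PT := (PT.nd (nat_lit 79482) (PT.nd (nat_lit 1170) (PT.nd (nat_lit 546) (PT.nd (nat_lit 234) (PT.nd (nat_lit 78) (PT.lf (nat_lit 58824) (nat_lit 6) (nat_lit 774) (nat_lit 4) (nat_lit 259) (nat_lit 261) (nat_lit 260)) (PT.nd (nat_lit 78) (PT.lf (nat_lit 58824) (nat_lit 6) (nat_lit 774) (nat_lit 2) (nat_lit 260) (nat_lit 261) (nat_lit 259)) (PT.lf (nat_lit 58748) (nat_lit 3) (nat_lit 773) (nat_lit 0) (nat_lit 261) (nat_lit 261) (nat_lit 258)))) (PT.nd (nat_lit 156) (PT.nd (nat_lit 78) (PT.lf (nat_lit 58520) (nat_lit 6) (nat_lit 770) (nat_lit 0) (nat_lit 262) (nat_lit 261) (nat_lit 257)) (PT.lf (nat_lit 58216) (nat_lit 6) (nat_lit 766) (nat_lit 0) (nat_lit 263) (nat_lit 261) (nat_lit 256))) (PT.nd (nat_lit 78) (PT.lf (nat_lit 57836) (nat_lit 6) (nat_lit 761) (nat_lit 0) (nat_lit 264) (nat_lit 261) (nat_lit 255)) (PT.lf (nat_lit 57380) (nat_lit 6) (nat_lit 755) (nat_lit 0) (nat_lit 265) (nat_lit 261) (nat_lit 254))))) (PT.nd (nat_lit 312) (PT.nd (nat_lit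 156) (PT.nd (nat_lit 78) (PT.lf (nat_lit 56848) (nat_lit 6) (nat_lit 748) (nat_lit 0) (nat_lit 266) (nat_lit 261) (nat_lit 253)) (PT.lf (nat_lit 56240) (nat_lit 6) (nat_lit 740) (nat_lit 0) (nat_lit 267) (nat_lit 261) (nat_lit 252))) (PT.nd (nat_lit 78) (PT.lf (nat_lit 55556) (nat_lit 6) (nat_lit 731) (nat_lit 0) (nat_lit 268) (nat_lit 261) (nat_lit 251)) (PT.lf (nat_lit 54796) (nat_lit 6) (nat_lit 721) (nat_lit 0) (nat_lit 269) (nat_lit 261) (nat_lit 250)))) (PT.nd (nat_lit 156) (PT.nd (nat_lit 78) (PT.lf (nat_lit 53960) (nat_lit 6) (nat_lit 710) (nat_lit 0) (nat_lit 270) (nat_lit 261) (nat_lit 249)) (PT.lf (nat_lit 53048) (nat_lit 6) (nat_lit 698) (nat_lit 0) (nat_lit 271) (nat_lit 261) (nat_lit 248))) (PT.nd (nat_lit 78) (PT.lf (nat_lit 52060) (nat_lit 6) (nat_lit 685) (nat_lit 0) (nat_lit 272) (nat_lit 261) (nat_lit 247)) (PT.lf (nat_lit 50996) (nat_lit 6) (nat_lit 671) (nat_lit 0) (nat_lit 273) (nat_lit 261) (nat_lit 246)))))) (PT.nd (nat_lit 624) (PT.nd (nat_lit 312)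 (PT.nd (nat_lit 156) (PT.nd (nat_lit 78) (PT.lf (nat_lit 49856) (nat_lit 6) (nat_lit 656) (nat_lit 0) (nat_lit 274) (nat_lit 261) (nat_lit 245)) (PT.lf (nat_lit 48640) (nat_lit 6) (nat_lit 640) (nat_lit 0) (nat_lit 275) (nat_lit 261) (nat_lit 244))) (PT.nd (nat_lit 78) (PT.lf (nat_lit 47348) (nat_lit 6) (nat_lit 623) (nat_lit 0) (nat_lit 276) (nat_lit 261) (nat_lit 243)) (PT.lf (nat_lit 45980) (nat_lit 6) (nat_lit 605) (nat_lit 0) (nat_lit 277) (nat_lit 261) (nat_lit 242)))) (PT.nd (nat_lit 156) (PT.nd (nat_lit 78) (PT.lf (nat_lit 44536) (nat_lit 6) (nat_lit 586) (nat_lit 0) (nat_lit 278) (nat_lit 261) (nat_lit 241)) (PT.lf (nat_lit 43016) (nat_lit 6) (nat_lit 566) (nat_lit 0) (nat_lit 279) (nat_lit 261) (nat_lit 240))) (PT.nd (nat_lit 78) (PT.lf (nat_lit 41420) (nat_lit 6) (nat_lit 545) (nat_lit 0) (nat_lit 280) (nat_lit 261) (nat_lit 239)) (PT.lf (nat_lit 39748) (nat_lit 6) (nat_lit 523) (nat_lit 0) (nat_lit 281) (nat_lit 261) (nat_lit 238))))) (PT.nd (nat_lit 77376) (PT.nd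 (nat_lit 156) (PT.nd (nat_lit 78) (PT.lf (nat_lit 38000) (nat_lit 6) (nat_lit 500) (nat_lit 0) (nat_lit 282) (nat_lit 261) (nat_lit 237)) (PT.lf (nat_lit 36176) (nat_lit 6) (nat_lit 476) (nat_lit 0) (nat_lit 283) (nat_lit 261) (nat_lit 236))) (PT.nd (nat_lit 78) (PT.lf (nat_lit 34276) (nat_lit 6) (nat_lit 451) (nat_lit 0) (nat_lit 284) (nat_lit 261) (nat_lit 235)) (PT.lf (nat_lit 33136) (nat_lit 6) (nat_lit 436) (nat_lit 0) (nat_lit 285) (nat_lit 261) (nat_lit 234)))) (PT.nd (nat_lit 156) (PT.nd (nat_lit 78) (PT.lf (nat_lit 32224) (nat_lit 6) (nat_lit 424) (nat_lit 5) (nat_lit 233) (nat_lit 262) (nat_lit 285)) (PT.lf (nat_lit 33212) (nat_lit 6) (nat_lit 437) (nat_lit 5) (nat_lit 234) (nat_lit 262) (nat_lit 284))) (PT.nd (nat_lit 78) (PT.lf (nat_lit 34352) (nat_lit 6) (nat_lit 452) (nat_lit 5) (nat_lit 235) (nat_lit 262) (nat_lit 283)) (PT.lf (nat_lit 36252) (nat_lit 6) (nat_lit 477) (nat_lit 5) (nat_lit 236) (nat_lit 262) (nat_lit 282))))))) (PT.nd (nat_lit 1170) (PT.nd (nat_lit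 546) (PT.nd (nat_lit 234) (PT.nd (nat_lit 78) (PT.lf (nat_lit 38076) (nat_lit 6) (nat_lit 501) (nat_lit 5) (nat_lit 237) (nat_lit 262) (nat_lit 281)) (PT.nd (nat_lit 78) (PT.lf (nat_lit 39824) (nat_lit 6) (nat_lit 524) (nat_lit 5) (nat_lit 238) (nat_lit 262) (nat_lit 280)) (PT.lf (nat_lit 41496) (nat_lit 6) (nat_lit 546) (nat_lit 5) (nat_lit 239) (nat_lit 262) (nat_lit 279)))) (PT.nd (nat_lit 156) (PT.nd (nat_lit 78) (PT.lf (nat_lit 43092) (nat_lit 6) (nat_lit 567) (nat_lit 5) (nat_lit 240) (nat_lit 262) (nat_lit 278)) (PT.lf (nat_lit 44612) (nat_lit 6) (nat_lit 587) (nat_lit 5) (nat_lit 241) (nat_lit 262) (nat_lit 277))) (PT.nd (nat_lit 78) (PT.lf (nat_lit 46056) (nat_lit 6) (nat_lit 606) (nat_lit 5) (nat_lit 242) (nat_lit 262) (nat_lit 276)) (PT.lf (nat_lit 47424) (nat_lit 6) (nat_lit 624) (nat_lit 5) (nat_lit 243) (nat_lit 262) (nat_lit 275))))) (PT.nd (nat_lit 312) (PT.nd (nat_lit 156) (PT.nd (nat_lit 78) (PT.lf (nat_lit 48716) (nat_lit 6) (nat_lit 641) (nat_lit 5) (nat_lit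 244) (nat_lit 262) (nat_lit 274)) (PT.lf (nat_lit 49932) (nat_lit 6) (nat_lit 657) (nat_lit 5) (nat_lit 245) (nat_lit 262) (nat_lit 273))) (PT.nd (nat_lit 78) (PT.lf (nat_lit 51072) (nat_lit 6) (nat_lit 672) (nat_lit 5) (nat_lit 246) (nat_lit 262) (nat_lit 272)) (PT.lf (nat_lit 52136) (nat_lit 6) (nat_lit 686) (nat_lit 5) (nat_lit 247) (nat_lit 262) (nat_lit 271)))) (PT.nd (nat_lit 156) (PT.nd (nat_lit 78) (PT.lf (nat_lit 53124) (nat_lit 6) (nat_lit 699) (nat_lit 5) (nat_lit 248) (nat_lit 262) (nat_lit 270)) (PT.lf (nat_lit 54036) (nat_lit 6) (nat_lit 711) (nat_lit 5) (nat_lit 249) (nat_lit 262) (nat_lit 269))) (PT.nd (nat_lit 78) (PT.lf (nat_lit 54872) (nat_lit 6) (nat_lit 722) (nat_lit 5) (nat_lit 250) (nat_lit 262) (nat_lit 268)) (PT.lf (nat_lit 55632) (nat_lit 6) (nat_lit 732) (nat_lit 5) (nat_lit 251) (nat_lit 262) (nat_lit 267)))))) (PT.nd (nat_lit 624) (PT.nd (nat_lit 312) (PT.nd (nat_lit 156) (PT.nd (nat_lit 78) (PT.lf (nat_lit 56316) (nat_lit 6) (nat_lit 741) (nat_lit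 5) (nat_lit 252) (nat_lit 262) (nat_lit 266)) (PT.lf (nat_lit 56924) (nat_lit 6) (nat_lit 749) (nat_lit 5) (nat_lit 253) (nat_lit 262) (nat_lit 265))) (PT.nd (nat_lit 78) (PT.lf (nat_lit 57456) (nat_lit 6) (nat_lit 756) (nat_lit 5) (nat_lit 254) (nat_lit 262) (nat_lit 264)) (PT.lf (nat_lit 57912) (nat_lit 6) (nat_lit 762) (nat_lit 5) (nat_lit 255) (nat_lit 262) (nat_lit 263)))) (PT.nd (nat_lit 156) (PT.nd (nat_lit 78) (PT.lf (nat_lit 58292) (nat_lit 3) (nat_lit 767) (nat_lit 4) (nat_lit 256) (nat_lit 262) (nat_lit 262)) (PT.lf (nat_lit 58520) (nat_lit 6) (nat_lit 770) (nat_lit 4) (nat_lit 257) (nat_lit 262) (nat_lit 261))) (PT.nd (nat_lit 78) (PT.lf (nat_lit 58672) (nat_lit 6) (nat_lit 772) (nat_lit 4) (nat_lit 258) (nat_lit 262) (nat_lit 260)) (PT.lf (nat_lit 58596) (nat_lit 3) (nat_lit 771) (nat_lit 2) (nat_lit 259) (nat_lit 262) (nat_lit 259))))) (PT.nd (nat_lit 312) (PT.nd (nat_lit 156) (PT.nd (nat_lit 78) (PT.lf (nat_lit 58672) (nat_lit 6) (nat_lit 772) (nat_lit 2) (nat_lit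 260) (nat_lit 262) (nat_lit 258)) (PT.lf (nat_lit 58520) (nat_lit 6) (nat_lit 770) (nat_lit 2) (nat_lit 261) (nat_lit 262) (nat_lit 257))) (PT.nd (nat_lit 78) (PT.lf (nat_lit 58292) (nat_lit 3) (nat_lit 767) (nat_lit 0) (nat_lit 262) (nat_lit 262) (nat_lit 256)) (PT.lf (nat_lit 57912) (nat_lit 6) (nat_lit 762) (nat_lit 0) (nat_lit 263) (nat_lit 262) (nat_lit 255)))) (PT.nd (nat_lit 156) (PT.nd (nat_lit 78) (PT.lf (nat_lit 57456) (nat_lit 6) (nat_lit 756) (nat_lit 0) (nat_lit 264) (nat_lit 262) (nat_lit 254)) (PT.lf (nat_lit 56924) (nat_lit 6) (nat_lit 749) (nat_lit 0) (nat_lit 265) (nat_lit 262) (nat_lit 253))) (PT.nd (nat_lit 78) (PT.lf (nat_lit 56316) (nat_lit 6) (nat_lit 741) (nat_lit 0) (nat_lit 266) (nat_lit 262) (nat_lit 252)) (PT.lf (nat_lit 55632) (nat_lit 6) (nat_lit 732) (nat_lit 0) (nat_lit 267) (nat_lit 262) (nat_lit 251))))))))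
noncomputable def pc28 : PT := (PT.nd (nat_lit 79404) (PT.nd (nat_lit 1170) (PT.nd (nat_lit 546) (PT.nd (nat_lit 234) (PT.nd (nat_lit 78) (PT.lf (nat_lit 54872) (nat_lit 6) (nat_lit 722) (nat_lit 0) (nat_lit 268) (nat_lit 262) (nat_lit 250)) (PT.nd (nat_lit 78) (PT.lf (nat_lit 54036) (nat_lit 6) (nat_lit 711) (nat_lit 0) (nat_lit 269) (nat_lit 262) (nat_lit 249)) (PT.lf (nat_lit 53124) (nat_lit 6) (nat_lit 699) (nat_lit 0) (nat_lit 270) (nat_lit 262) (nat_lit 248)))) (PT.nd (nat_lit 156) (PT.nd (nat_lit 78) (PT.lf (nat_lit 52136) (nat_lit 6) (nat_lit 686) (nat_lit 0) (nat_lit 271) (nat_lit 262) (nat_lit 247)) (PT.lf (nat_lit 51072) (nat_lit 6) (nat_lit 672) (nat_lit 0) (nat_lit 272) (nat_lit 262) (nat_lit 246))) (PT.nd (nat_lit 78) (PT.lf (nat_lit 49932) (nat_lit 6) (nat_lit 657) (nat_lit 0) (nat_lit 273) (nat_lit 262) (nat_lit 245)) (PT.lf (nat_lit 48716) (nat_lit 6) (nat_lit 641) (nat_lit 0) (nat_lit 274) (nat_lit 262) (nat_lit 244))))) (PT.nd (nat_lit 312) (PT.nd (nat_lit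 156) (PT.nd (nat_lit 78) (PT.lf (nat_lit 47424) (nat_lit 6) (nat_lit 624) (nat_lit 0) (nat_lit 275) (nat_lit 262) (nat_lit 243)) (PT.lf (nat_lit 46056) (nat_lit 6) (nat_lit 606) (nat_lit 0) (nat_lit 276) (nat_lit 262) (nat_lit 242))) (PT.nd (nat_lit 78) (PT.lf (nat_lit 44612) (nat_lit 6) (nat_lit 587) (nat_lit 0) (nat_lit 277) (nat_lit 262) (nat_lit 241)) (PT.lf (nat_lit 43092) (nat_lit 6) (nat_lit 567) (nat_lit 0) (nat_lit 278) (nat_lit 262) (nat_lit 240)))) (PT.nd (nat_lit 156) (PT.nd (nat_lit 78) (PT.lf (nat_lit 41496) (nat_lit 6) (nat_lit 546) (nat_lit 0) (nat_lit 279) (nat_lit 262) (nat_lit 239)) (PT.lf (nat_lit 39824) (nat_lit 6) (nat_lit 524) (nat_lit 0) (nat_lit 280) (nat_lit 262) (nat_lit 238))) (PT.nd (nat_lit 78) (PT.lf (nat_lit 38076) (nat_lit 6) (nat_lit 501) (nat_lit 0) (nat_lit 281) (nat_lit 262) (nat_lit 237)) (PT.lf (nat_lit 36252) (nat_lit 6) (nat_lit 477) (nat_lit 0) (nat_lit 282) (nat_lit 262) (nat_lit 236)))))) (PT.nd (nat_lit 77610) (PT.nd (nat_lit 77298)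 (PT.nd (nat_lit 156) (PT.nd (nat_lit 78) (PT.lf (nat_lit 34352) (nat_lit 6) (nat_lit 452) (nat_lit 0) (nat_lit 283) (nat_lit 262) (nat_lit 235)) (PT.lf (nat_lit 33212) (nat_lit 6) (nat_lit 437) (nat_lit 0) (nat_lit 284) (nat_lit 262) (nat_lit 234))) (PT.nd (nat_lit 77064) (PT.lf (nat_lit 32224) (nat_lit 6) (nat_lit 424) (nat_lit 0) (nat_lit 285) (nat_lit 262) (nat_lit 233)) (PT.lf (nat_lit 31312) (nat_lit 6) (nat_lit 412) (nat_lit 5) (nat_lit 232) (nat_lit 263) (nat_lit 285)))) (PT.nd (nat_lit 156) (PT.nd (nat_lit 78) (PT.lf (nat_lit 32300) (nat_lit 6) (nat_lit 425) (nat_lit 5) (nat_lit 233) (nat_lit 263) (nat_lit 284)) (PT.lf (nat_lit 33288) (nat_lit 6) (nat_lit 438) (nat_lit 5) (nat_lit 234) (nat_lit 263) (nat_lit 283))) (PT.nd (nat_lit 78) (PT.lf (nat_lit 34428) (nat_lit 6) (nat_lit 453) (nat_lit 5) (nat_lit 235) (nat_lit 263) (nat_lit 282)) (PT.lf (nat_lit 36328) (nat_lit 6) (nat_lit 478) (nat_lit 5) (nat_lit 236) (nat_lit 263) (nat_lit 281))))) (PT.nd (nat_lit 312) (PT.nd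 (nat_lit 156) (PT.nd (nat_lit 78) (PT.lf (nat_lit 38152) (nat_lit 6) (nat_lit 502) (nat_lit 5) (nat_lit 237) (nat_lit 263) (nat_lit 280)) (PT.lf (nat_lit 39900) (nat_lit 6) (nat_lit 525) (nat_lit 5) (nat_lit 238) (nat_lit 263) (nat_lit 279))) (PT.nd (nat_lit 78) (PT.lf (nat_lit 41572) (nat_lit 6) (nat_lit 547) (nat_lit 5) (nat_lit 239) (nat_lit 263) (nat_lit 278)) (PT.lf (nat_lit 43168) (nat_lit 6) (nat_lit 568) (nat_lit 5) (nat_lit 240) (nat_lit 263) (nat_lit 277)))) (PT.nd (nat_lit 156) (PT.nd (nat_lit 78) (PT.lf (nat_lit 44688) (nat_lit 6) (nat_lit 588) (nat_lit 5) (nat_lit 241) (nat_lit 263) (nat_lit 276)) (PT.lf (nat_lit 46132) (nat_lit 6) (nat_lit 607) (nat_lit 5) (nat_lit 242) (nat_lit 263) (nat_lit 275))) (PT.nd (nat_lit 78) (PT.lf (nat_lit 47500) (nat_lit 6) (nat_lit 625) (nat_lit 5) (nat_lit 243) (nat_lit 263) (nat_lit 274)) (PT.lf (nat_lit 48792) (nat_lit 6) (nat_lit 642) (nat_lit 5) (nat_lit 244) (nat_lit 263) (nat_lit 273))))))) (PT.nd (nat_lit 1170) (PT.nd (nat_lit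 546) (PT.nd (nat_lit 234) (PT.nd (nat_lit 78) (PT.lf (nat_lit 50008) (nat_lit 6) (nat_lit 658) (nat_lit 5) (nat_lit 245) (nat_lit 263) (nat_lit 272)) (PT.nd (nat_lit 78) (PT.lf (nat_lit 51148) (nat_lit 6) (nat_lit 673) (nat_lit 5) (nat_lit 246) (nat_lit 263) (nat_lit 271)) (PT.lf (nat_lit 52212) (nat_lit 6) (nat_lit 687) (nat_lit 5) (nat_lit 247) (nat_lit 263) (nat_lit 270)))) (PT.nd (nat_lit 156) (PT.nd (nat_lit 78) (PT.lf (nat_lit 53200) (nat_lit 6) (nat_lit 700) (nat_lit 5) (nat_lit 248) (nat_lit 263) (nat_lit 269)) (PT.lf (nat_lit 54112) (nat_lit 6) (nat_lit 712) (nat_lit 5) (nat_lit 249) (nat_lit 263) (nat_lit 268))) (PT.nd (nat_lit 78) (PT.lf (nat_lit 54948) (nat_lit 6) (nat_lit 723) (nat_lit 5) (nat_lit 250) (nat_lit 263) (nat_lit 267)) (PT.lf (nat_lit 55708) (nat_lit 6) (nat_lit 733) (nat_lit 5) (nat_lit 251) (nat_lit 263) (nat_lit 266))))) (PT.nd (nat_lit 312) (PT.nd (nat_lit 156) (PT.nd (nat_lit 78) (PT.lf (nat_lit 56392) (nat_lit 6) (nat_lit 742) (nat_lit 5) (nat_lit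 252) (nat_lit 263) (nat_lit 265)) (PT.lf (nat_lit 57000) (nat_lit 6) (nat_lit 750) (nat_lit 5) (nat_lit 253) (nat_lit 263) (nat_lit 264))) (PT.nd (nat_lit 78) (PT.lf (nat_lit 57532) (nat_lit 3) (nat_lit 757) (nat_lit 4) (nat_lit 254) (nat_lit 263) (nat_lit 263)) (PT.lf (nat_lit 57912) (nat_lit 6) (nat_lit 762) (nat_lit 4) (nat_lit 255) (nat_lit 263) (nat_lit 262)))) (PT.nd (nat_lit 156) (PT.nd (nat_lit 78) (PT.lf (nat_lit 58216) (nat_lit 6) (nat_lit 766) (nat_lit 4) (nat_lit 256) (nat_lit 263) (nat_lit 261)) (PT.lf (nat_lit 58444) (nat_lit 6) (nat_lit 769) (nat_lit 4) (nat_lit 257) (nat_lit 263) (nat_lit 260))) (PT.nd (nat_lit 78) (PT.lf (nat_lit 58368) (nat_lit 6) (nat_lit 768) (nat_lit 4) (nat_lit 258) (nat_lit 263) (nat_lit 259)) (PT.lf (nat_lit 58368) (nat_lit 6) (nat_lit 768) (nat_lit 2) (nat_lit 259) (nat_lit 263) (nat_lit 258)))))) (PT.nd (nat_lit 624) (PT.nd (nat_lit 312) (PT.nd (nat_lit 156) (PT.nd (nat_lit 78) (PT.lf (nat_lit 58444) (nat_lit 6) (nat_lit 769) (nat_lit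 2) (nat_lit 260) (nat_lit 263) (nat_lit 257)) (PT.lf (nat_lit 58216) (nat_lit 6) (nat_lit 766) (nat_lit 2) (nat_lit 261) (nat_lit 263) (nat_lit 256))) (PT.nd (nat_lit 78) (PT.lf (nat_lit 57912) (nat_lit 6) (nat_lit 762) (nat_lit 2) (nat_lit 262) (nat_lit 263) (nat_lit 255)) (PT.lf (nat_lit 57532) (nat_lit 3) (nat_lit 757) (nat_lit 0) (nat_lit 263) (nat_lit 263) (nat_lit 254)))) (PT.nd (nat_lit 156) (PT.nd (nat_lit 78) (PT.lf (nat_lit 57000) (nat_lit 6) (nat_lit 750) (nat_lit 0) (nat_lit 264) (nat_lit 263) (nat_lit 253)) (PT.lf (nat_lit 56392) (nat_lit 6) (nat_lit 742) (nat_lit 0) (nat_lit 265) (nat_lit 263) (nat_lit 252))) (PT.nd (nat_lit 78) (PT.lf (nat_lit 55708) (nat_lit 6) (nat_lit 733) (nat_lit 0) (nat_lit 266) (nat_lit 263) (nat_lit 251)) (PT.lf (nat_lit 54948) (nat_lit 6) (nat_lit 723) (nat_lit 0) (nat_lit 267) (nat_lit 263) (nat_lit 250))))) (PT.nd (nat_lit 312) (PT.nd (nat_lit 156) (PT.nd (nat_lit 78) (PT.lf (nat_lit 54112) (nat_lit 6) (nat_lit 712) (nat_lit 0) (nat_lit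 268) (nat_lit 263) (nat_lit 249)) (PT.lf (nat_lit 53200) (nat_lit 6) (nat_lit 700) (nat_lit 0) (nat_lit 269) (nat_lit 263) (nat_lit 248))) (PT.nd (nat_lit 78) (PT.lf (nat_lit 52212) (nat_lit 6) (nat_lit 687) (nat_lit 0) (nat_lit 270) (nat_lit 263) (nat_lit 247)) (PT.lf (nat_lit 51148) (nat_lit 6) (nat_lit 673) (nat_lit 0) (nat_lit 271) (nat_lit 263) (nat_lit 246)))) (PT.nd (nat_lit 156) (PT.nd (nat_lit 78) (PT.lf (nat_lit 50008) (nat_lit 6) (nat_lit 658) (nat_lit 0) (nat_lit 272) (nat_lit 263) (nat_lit 245)) (PT.lf (nat_lit 48792) (nat_lit 6) (nat_lit 642) (nat_lit 0) (nat_lit 273) (nat_lit 263) (nat_lit 244))) (PT.nd (nat_lit 78) (PT.lf (nat_lit 47500) (nat_lit 6) (nat_lit 625) (nat_lit 0) (nat_lit 274) (nat_lit 263) (nat_lit 243)) (PT.lf (nat_lit 46132) (nat_lit 6) (nat_lit 607) (nat_lit 0) (nat_lit 275) (nat_lit 263) (nat_lit 242))))))))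
noncomputable def pc29 : PT := (PT.nd (nat_lit 79248) (PT.nd (nat_lit 78000) (PT.nd (nat_lit 546) (PT.nd (nat_lit 234) (PT.nd (nat_lit 78) (PT.lf (nat_lit 44688) (nat_lit 6) (nat_lit 588) (nat_lit 0) (nat_lit 276) (nat_lit 263) (nat_lit 241)) (PT.nd (nat_lit 78) (PT.lf (nat_lit 43168) (nat_lit 6) (nat_lit 568) (nat_lit 0) (nat_lit 277) (nat_lit 263) (nat_lit 240)) (PT.lf (nat_lit 41572) (nat_lit 6) (nat_lit 547) (nat_lit 0) (nat_lit 278) (nat_lit 263) (nat_lit 239)))) (PT.nd (nat_lit 156) (PT.nd (nat_lit 78) (PT.lf (nat_lit 39900) (nat_lit 6) (nat_lit 525) (nat_lit 0) (nat_lit 279) (nat_lit 263) (nat_lit 238)) (PT.lf (nat_lit 38152) (nat_lit 6) (nat_lit 502) (nat_lit 0) (nat_lit 280) (nat_lit 263) (nat_lit 237))) (PT.nd (nat_lit 78) (PT.lf (nat_lit 36328) (nat_lit 6) (nat_lit 478) (nat_lit 0) (nat_lit 281) (nat_lit 263) (nat_lit 236)) (PT.lf (nat_lit 34428) (nat_lit 6) (nat_lit 453) (nat_lit 0) (nat_lit 282) (nat_lit 263) (nat_lit 235))))) (PT.nd (nat_lit 77142) (PT.nd (nat_lit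 156) (PT.nd (nat_lit 78) (PT.lf (nat_lit 33288) (nat_lit 6) (nat_lit 438) (nat_lit 0) (nat_lit 283) (nat_lit 263) (nat_lit 234)) (PT.lf (nat_lit 32300) (nat_lit 6) (nat_lit 425) (nat_lit 0) (nat_lit 284) (nat_lit 263) (nat_lit 233))) (PT.nd (nat_lit 76908) (PT.lf (nat_lit 31312) (nat_lit 6) (nat_lit 412) (nat_lit 0) (nat_lit 285) (nat_lit 263) (nat_lit 232)) (PT.lf (nat_lit 29564) (nat_lit 6) (nat_lit 389) (nat_lit 5) (nat_lit 230) (nat_lit 264) (nat_lit 286)))) (PT.nd (nat_lit 156) (PT.nd (nat_lit 78) (PT.lf (nat_lit 30476) (nat_lit 6) (nat_lit 401) (nat_lit 5) (nat_lit 231) (nat_lit 264) (nat_lit 285)) (PT.lf (nat_lit 31388) (nat_lit 6) (nat_lit 413) (nat_lit 5) (nat_lit 232) (nat_lit 264) (nat_lit 284))) (PT.nd (nat_lit 78) (PT.lf (nat_lit 32376) (nat_lit 6) (nat_lit 426) (nat_lit 5) (nat_lit 233) (nat_lit 264) (nat_lit 283)) (PT.lf (nat_lit 33364) (nat_lit 6) (nat_lit 439) (nat_lit 5) (nat_lit 234) (nat_lit 264) (nat_lit 282)))))) (PT.nd (nat_lit 624) (PT.nd (nat_lit 312)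 (PT.nd (nat_lit 156) (PT.nd (nat_lit 78) (PT.lf (nat_lit 34504) (nat_lit 6) (nat_lit 454) (nat_lit 5) (nat_lit 235) (nat_lit 264) (nat_lit 281)) (PT.lf (nat_lit 36404) (nat_lit 6) (nat_lit 479) (nat_lit 5) (nat_lit 236) (nat_lit 264) (nat_lit 280))) (PT.nd (nat_lit 78) (PT.lf (nat_lit 38228) (nat_lit 6) (nat_lit 503) (nat_lit 5) (nat_lit 237) (nat_lit 264) (nat_lit 279)) (PT.lf (nat_lit 39976) (nat_lit 6) (nat_lit 526) (nat_lit 5) (nat_lit 238) (nat_lit 264) (nat_lit 278)))) (PT.nd (nat_lit 156) (PT.nd (nat_lit 78) (PT.lf (nat_lit 41648) (nat_lit 6) (nat_lit 548) (nat_lit 5) (nat_lit 239) (nat_lit 264) (nat_lit 277)) (PT.lf (nat_lit 43244) (nat_lit 6) (nat_lit 569) (nat_lit 5) (nat_lit 240) (nat_lit 264) (nat_lit 276))) (PT.nd (nat_lit 78) (PT.lf (nat_lit 44764) (nat_lit 6) (nat_lit 589) (nat_lit 5) (nat_lit 241) (nat_lit 264) (nat_lit 275)) (PT.lf (nat_lit 46208) (nat_lit 6) (nat_lit 608) (nat_lit 5) (nat_lit 242) (nat_lit 264) (nat_lit 274))))) (PT.nd (nat_lit 312) (PT.nd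 (nat_lit 156) (PT.nd (nat_lit 78) (PT.lf (nat_lit 47576) (nat_lit 6) (nat_lit 626) (nat_lit 5) (nat_lit 243) (nat_lit 264) (nat_lit 273)) (PT.lf (nat_lit 48868) (nat_lit 6) (nat_lit 643) (nat_lit 5) (nat_lit 244) (nat_lit 264) (nat_lit 272))) (PT.nd (nat_lit 78) (PT.lf (nat_lit 50084) (nat_lit 6) (nat_lit 659) (nat_lit 5) (nat_lit 245) (nat_lit 264) (nat_lit 271)) (PT.lf (nat_lit 51224) (nat_lit 6) (nat_lit 674) (nat_lit 5) (nat_lit 246) (nat_lit 264) (nat_lit 270)))) (PT.nd (nat_lit 156) (PT.nd (nat_lit 78) (PT.lf (nat_lit 52288) (nat_lit 6) (nat_lit 688) (nat_lit 5) (nat_lit 247) (nat_lit 264) (nat_lit 269)) (PT.lf (nat_lit 53276) (nat_lit 6) (nat_lit 701) (nat_lit 5) (nat_lit 248) (nat_lit 264) (nat_lit 268))) (PT.nd (nat_lit 78) (PT.lf (nat_lit 54188) (nat_lit 6) (nat_lit 713) (nat_lit 5) (nat_lit 249) (nat_lit 264) (nat_lit 267)) (PT.lf (nat_lit 55024) (nat_lit 6) (nat_lit 724) (nat_lit 5) (nat_lit 250) (nat_lit 264) (nat_lit 266))))))) (PT.nd (nat_lit 1170) (PT.nd (nat_lit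 546) (PT.nd (nat_lit 234) (PT.nd (nat_lit 78) (PT.lf (nat_lit 55784) (nat_lit 6) (nat_lit 734) (nat_lit 5) (nat_lit 251) (nat_lit 264) (nat_lit 265)) (PT.nd (nat_lit 78) (PT.lf (nat_lit 56468) (nat_lit 3) (nat_lit 743) (nat_lit 4) (nat_lit 252) (nat_lit 264) (nat_lit 264)) (PT.lf (nat_lit 57000) (nat_lit 6) (nat_lit 750) (nat_lit 4) (nat_lit 253) (nat_lit 264) (nat_lit 263)))) (PT.nd (nat_lit 156) (PT.nd (nat_lit 78) (PT.lf (nat_lit 57456) (nat_lit 6) (nat_lit 756) (nat_lit 4) (nat_lit 254) (nat_lit 264) (nat_lit 262)) (PT.lf (nat_lit 57836) (nat_lit 6) (nat_lit 761) (nat_lit 4) (nat_lit 255) (nat_lit 264) (nat_lit 261))) (PT.nd (nat_lit 78) (PT.lf (nat_lit 58140) (nat_lit 6) (nat_lit 765) (nat_lit 4) (nat_lit 256) (nat_lit 264) (nat_lit 260)) (PT.lf (nat_lit 58064) (nat_lit 6) (nat_lit 764) (nat_lit 4) (nat_lit 257) (nat_lit 264) (nat_lit 259))))) (PT.nd (nat_lit 312) (PT.nd (nat_lit 156) (PT.nd (nat_lit 78) (PT.lf (nat_lit 57988) (nat_lit 3) (nat_lit 763) (nat_lit 2) (nat_lit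 258) (nat_lit 264) (nat_lit 258)) (PT.lf (nat_lit 58064) (nat_lit 6) (nat_lit 764) (nat_lit 2) (nat_lit 259) (nat_lit 264) (nat_lit 257))) (PT.nd (nat_lit 78) (PT.lf (nat_lit 58140) (nat_lit 6) (nat_lit 765) (nat_lit 2) (nat_lit 260) (nat_lit 264) (nat_lit 256)) (PT.lf (nat_lit 57836) (nat_lit 6) (nat_lit 761) (nat_lit 2) (nat_lit 261) (nat_lit 264) (nat_lit 255)))) (PT.nd (nat_lit 156) (PT.nd (nat_lit 78) (PT.lf (nat_lit 57456) (nat_lit 6) (nat_lit 756) (nat_lit 2) (nat_lit 262) (nat_lit 264) (nat_lit 254)) (PT.lf (nat_lit 57000) (nat_lit 6) (nat_lit 750) (nat_lit 2) (nat_lit 263) (nat_lit 264) (nat_lit 253))) (PT.nd (nat_lit 78) (PT.lf (nat_lit 56468) (nat_lit 3) (nat_lit 743) (nat_lit 0) (nat_lit 264) (nat_lit 264) (nat_lit 252)) (PT.lf (nat_lit 55784) (nat_lit 6) (nat_lit 734) (nat_lit 0) (nat_lit 265) (nat_lit 264) (nat_lit 251)))))) (PT.nd (nat_lit 624) (PT.nd (nat_lit 312) (PT.nd (nat_lit 156) (PT.nd (nat_lit 78) (PT.lf (nat_lit 55024) (nat_lit 6) (nat_lit 724) (nat_lit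 0) (nat_lit 266) (nat_lit 264) (nat_lit 250)) (PT.lf (nat_lit 54188) (nat_lit 6) (nat_lit 713) (nat_lit 0) (nat_lit 267) (nat_lit 264) (nat_lit 249))) (PT.nd (nat_lit 78) (PT.lf (nat_lit 53276) (nat_lit 6) (nat_lit 701) (nat_lit 0) (nat_lit 268) (nat_lit 264) (nat_lit 248)) (PT.lf (nat_lit 52288) (nat_lit 6) (nat_lit 688) (nat_lit 0) (nat_lit 269) (nat_lit 264) (nat_lit 247)))) (PT.nd (nat_lit 156) (PT.nd (nat_lit 78) (PT.lf (nat_lit 51224) (nat_lit 6) (nat_lit 674) (nat_lit 0) (nat_lit 270) (nat_lit 264) (nat_lit 246)) (PT.lf (nat_lit 50084) (nat_lit 6) (nat_lit 659) (nat_lit 0) (nat_lit 271) (nat_lit 264) (nat_lit 245))) (PT.nd (nat_lit 78) (PT.lf (nat_lit 48868) (nat_lit 6) (nat_lit 643) (nat_lit 0) (nat_lit 272) (nat_lit 264) (nat_lit 244)) (PT.lf (nat_lit 47576) (nat_lit 6) (nat_lit 626) (nat_lit 0) (nat_lit 273) (nat_lit 264) (nat_lit 243))))) (PT.nd (nat_lit 312) (PT.nd (nat_lit 156) (PT.nd (nat_lit 78) (PT.lf (nat_lit 46208) (nat_lit 6) (nat_lit 608) (nat_lit 0) (nat_lit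 274) (nat_lit 264) (nat_lit 242)) (PT.lf (nat_lit 44764) (nat_lit 6) (nat_lit 589) (nat_lit 0) (nat_lit 275) (nat_lit 264) (nat_lit 241))) (PT.nd (nat_lit 78) (PT.lf (nat_lit 43244) (nat_lit 6) (nat_lit 569) (nat_lit 0) (nat_lit 276) (nat_lit 264) (nat_lit 240)) (PT.lf (nat_lit 41648) (nat_lit 6) (nat_lit 548) (nat_lit 0) (nat_lit 277) (nat_lit 264) (nat_lit 239)))) (PT.nd (nat_lit 156) (PT.nd (nat_lit 78) (PT.lf (nat_lit 39976) (nat_lit 6) (nat_lit 526) (nat_lit 0) (nat_lit 278) (nat_lit 264) (nat_lit 238)) (PT.lf (nat_lit 38228) (nat_lit 6) (nat_lit 503) (nat_lit 0) (nat_lit 279) (nat_lit 264) (nat_lit 237))) (PT.nd (nat_lit 78) (PT.lf (nat_lit 36404) (nat_lit 6) (nat_lit 479) (nat_lit 0) (nat_lit 280) (nat_lit 264) (nat_lit 236)) (PT.lf (nat_lit 34504) (nat_lit 6) (nat_lit 454) (nat_lit 0) (nat_lit 281) (nat_lit 264) (nat_lit 235))))))))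
noncomputable def pc30 : PT := (PT.nd (nat_lit 79092) (PT.nd (nat_lit 77844) (PT.nd (nat_lit 77220) (PT.nd (nat_lit 234) (PT.nd (nat_lit 78) (PT.lf (nat_lit 33364) (nat_lit 6) (nat_lit 439) (nat_lit 0) (nat_lit 282) (nat_lit 264) (nat_lit 234)) (PT.nd (nat_lit 78) (PT.lf (nat_lit 32376) (nat_lit 6) (nat_lit 426) (nat_lit 0) (nat_lit 283) (nat_lit 264) (nat_lit 233)) (PT.lf (nat_lit 31388) (nat_lit 6) (nat_lit 413) (nat_lit 0) (nat_lit 284) (nat_lit 264) (nat_lit 232)))) (PT.nd (nat_lit 76830) (PT.nd (nat_lit 78) (PT.lf (nat_lit 30476) (nat_lit 6) (nat_lit 401) (nat_lit 0) (nat_lit 285) (nat_lit 264) (nat_lit 231)) (PT.lf (nat_lit 29564) (nat_lit 6) (nat_lit 389) (nat_lit 0) (nat_lit 286) (nat_lit 264) (nat_lit 230))) (PT.nd (nat_lit 78) (PT.lf (nat_lit 28728) (nat_lit 6) (nat_lit 378) (nat_lit 5) (nat_lit 229) (nat_lit 265) (nat_lit 286)) (PT.lf (nat_lit 29640) (nat_lit 6) (nat_lit 390) (nat_lit 5) (nat_lit 230) (nat_lit 265) (nat_lit 285))))) (PT.nd (nat_lit 312) (PT.nd (nat_lit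 156) (PT.nd (nat_lit 78) (PT.lf (nat_lit 30552) (nat_lit 6) (nat_lit 402) (nat_lit 5) (nat_lit 231) (nat_lit 265) (nat_lit 284)) (PT.lf (nat_lit 31464) (nat_lit 6) (nat_lit 414) (nat_lit 5) (nat_lit 232) (nat_lit 265) (nat_lit 283))) (PT.nd (nat_lit 78) (PT.lf (nat_lit 32452) (nat_lit 6) (nat_lit 427) (nat_lit 5) (nat_lit 233) (nat_lit 265) (nat_lit 282)) (PT.lf (nat_lit 33440) (nat_lit 6) (nat_lit 440) (nat_lit 5) (nat_lit 234) (nat_lit 265) (nat_lit 281)))) (PT.nd (nat_lit 156) (PT.nd (nat_lit 78) (PT.lf (nat_lit 34580) (nat_lit 6) (nat_lit 455) (nat_lit 5) (nat_lit 235) (nat_lit 265) (nat_lit 280)) (PT.lf (nat_lit 36480) (nat_lit 6) (nat_lit 480) (nat_lit 5) (nat_lit 236) (nat_lit 265) (nat_lit 279))) (PT.nd (nat_lit 78) (PT.lf (nat_lit 38304) (nat_lit 6) (nat_lit 504) (nat_lit 5) (nat_lit 237) (nat_lit 265) (nat_lit 278)) (PT.lf (nat_lit 40052) (nat_lit 6) (nat_lit 527) (nat_lit 5) (nat_lit 238) (nat_lit 265) (nat_lit 277)))))) (PT.nd (nat_lit 624) (PT.nd (nat_lit 312)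 (PT.nd (nat_lit 156) (PT.nd (nat_lit 78) (PT.lf (nat_lit 41724) (nat_lit 6) (nat_lit 549) (nat_lit 5) (nat_lit 239) (nat_lit 265) (nat_lit 276)) (PT.lf (nat_lit 43320) (nat_lit 6) (nat_lit 570) (nat_lit 5) (nat_lit 240) (nat_lit 265) (nat_lit 275))) (PT.nd (nat_lit 78) (PT.lf (nat_lit 44840) (nat_lit 6) (nat_lit 590) (nat_lit 5) (nat_lit 241) (nat_lit 265) (nat_lit 274)) (PT.lf (nat_lit 46284) (nat_lit 6) (nat_lit 609) (nat_lit 5) (nat_lit 242) (nat_lit 265) (nat_lit 273)))) (PT.nd (nat_lit 156) (PT.nd (nat_lit 78) (PT.lf (nat_lit 47652) (nat_lit 6) (nat_lit 627) (nat_lit 5) (nat_lit 243) (nat_lit 265) (nat_lit 272)) (PT.lf (nat_lit 48944) (nat_lit 6) (nat_lit 644) (nat_lit 5) (nat_lit 244) (nat_lit 265) (nat_lit 271))) (PT.nd (nat_lit 78) (PT.lf (nat_lit 50160) (nat_lit 6) (nat_lit 660) (nat_lit 5) (nat_lit 245) (nat_lit 265) (nat_lit 270)) (PT.lf (nat_lit 51300) (nat_lit 6) (nat_lit 675) (nat_lit 5) (nat_lit 246) (nat_lit 265) (nat_lit 269))))) (PT.nd (nat_lit 312) (PT.nd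 (nat_lit 156) (PT.nd (nat_lit 78) (PT.lf (nat_lit 52364) (nat_lit 6) (nat_lit 689) (nat_lit 5) (nat_lit 247) (nat_lit 265) (nat_lit 268)) (PT.lf (nat_lit 53352) (nat_lit 6) (nat_lit 702) (nat_lit 5) (nat_lit 248) (nat_lit 265) (nat_lit 267))) (PT.nd (nat_lit 78) (PT.lf (nat_lit 54264) (nat_lit 6) (nat_lit 714) (nat_lit 5) (nat_lit 249) (nat_lit 265) (nat_lit 266)) (PT.lf (nat_lit 55100) (nat_lit 3) (nat_lit 725) (nat_lit 4) (nat_lit 250) (nat_lit 265) (nat_lit 265)))) (PT.nd (nat_lit 156) (PT.nd (nat_lit 78) (PT.lf (nat_lit 55784) (nat_lit 6) (nat_lit 734) (nat_lit 4) (nat_lit 251) (nat_lit 265) (nat_lit 264)) (PT.lf (nat_lit 56392) (nat_lit 6) (nat_lit 742) (nat_lit 4) (nat_lit 252) (nat_lit 265) (nat_lit 263))) (PT.nd (nat_lit 78) (PT.lf (nat_lit 56924) (nat_lit 6) (nat_lit 749) (nat_lit 4) (nat_lit 253) (nat_lit 265) (nat_lit 262)) (PT.lf (nat_lit 57380) (nat_lit 6) (nat_lit 755) (nat_lit 4) (nat_lit 254) (nat_lit 265) (nat_lit 261))))))) (PT.nd (nat_lit 1170) (PT.nd (nat_lit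 546) (PT.nd (nat_lit 234) (PT.nd (nat_lit 78) (PT.lf (nat_lit 57760) (nat_lit 6) (nat_lit 760) (nat_lit 4) (nat_lit 255) (nat_lit 265) (nat_lit 260)) (PT.nd (nat_lit 78) (PT.lf (nat_lit 57684) (nat_lit 6) (nat_lit 759) (nat_lit 4) (nat_lit 256) (nat_lit 265) (nat_lit 259)) (PT.lf (nat_lit 57608) (nat_lit 6) (nat_lit 758) (nat_lit 4) (nat_lit 257) (nat_lit 265) (nat_lit 258)))) (PT.nd (nat_lit 156) (PT.nd (nat_lit 78) (PT.lf (nat_lit 57608) (nat_lit 6) (nat_lit 758) (nat_lit 2) (nat_lit 258) (nat_lit 265) (nat_lit 257)) (PT.lf (nat_lit 57684) (nat_lit 6) (nat_lit 759) (nat_lit 2) (nat_lit 259) (nat_lit 265) (nat_lit 256))) (PT.nd (nat_lit 78) (PT.lf (nat_lit 57760) (nat_lit 6) (nat_lit 760) (nat_lit 2) (nat_lit 260) (nat_lit 265) (nat_lit 255)) (PT.lf (nat_lit 57380) (nat_lit 6) (nat_lit 755) (nat_lit 2) (nat_lit 261) (nat_lit 265) (nat_lit 254))))) (PT.nd (nat_lit 312) (PT.nd (nat_lit 156) (PT.nd (nat_lit 78) (PT.lf (nat_lit 56924) (nat_lit 6) (nat_lit 749) (nat_lit 2) (nat_lit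 262) (nat_lit 265) (nat_lit 253)) (PT.lf (nat_lit 56392) (nat_lit 6) (nat_lit 742) (nat_lit 2) (nat_lit 263) (nat_lit 265) (nat_lit 252))) (PT.nd (nat_lit 78) (PT.lf (nat_lit 55784) (nat_lit 6) (nat_lit 734) (nat_lit 2) (nat_lit 264) (nat_lit 265) (nat_lit 251)) (PT.lf (nat_lit 55100) (nat_lit 3) (nat_lit 725) (nat_lit 0) (nat_lit 265) (nat_lit 265) (nat_lit 250)))) (PT.nd (nat_lit 156) (PT.nd (nat_lit 78) (PT.lf (nat_lit 54264) (nat_lit 6) (nat_lit 714) (nat_lit 0) (nat_lit 266) (nat_lit 265) (nat_lit 249)) (PT.lf (nat_lit 53352) (nat_lit 6) (nat_lit 702) (nat_lit 0) (nat_lit 267) (nat_lit 265) (nat_lit 248))) (PT.nd (nat_lit 78) (PT.lf (nat_lit 52364) (nat_lit 6) (nat_lit 689) (nat_lit 0) (nat_lit 268) (nat_lit 265) (nat_lit 247)) (PT.lf (nat_lit 51300) (nat_lit 6) (nat_lit 675) (nat_lit 0) (nat_lit 269) (nat_lit 265) (nat_lit 246)))))) (PT.nd (nat_lit 624) (PT.nd (nat_lit 312) (PT.nd (nat_lit 156) (PT.nd (nat_lit 78) (PT.lf (nat_lit 50160) (nat_lit 6) (nat_lit 660) (nat_lit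 0) (nat_lit 270) (nat_lit 265) (nat_lit 245)) (PT.lf (nat_lit 48944) (nat_lit 6) (nat_lit 644) (nat_lit 0) (nat_lit 271) (nat_lit 265) (nat_lit 244))) (PT.nd (nat_lit 78) (PT.lf (nat_lit 47652) (nat_lit 6) (nat_lit 627) (nat_lit 0) (nat_lit 272) (nat_lit 265) (nat_lit 243)) (PT.lf (nat_lit 46284) (nat_lit 6) (nat_lit 609) (nat_lit 0) (nat_lit 273) (nat_lit 265) (nat_lit 242)))) (PT.nd (nat_lit 156) (PT.nd (nat_lit 78) (PT.lf (nat_lit 44840) (nat_lit 6) (nat_lit 590) (nat_lit 0) (nat_lit 274) (nat_lit 265) (nat_lit 241)) (PT.lf (nat_lit 43320) (nat_lit 6) (nat_lit 570) (nat_lit 0) (nat_lit 275) (nat_lit 265) (nat_lit 240))) (PT.nd (nat_lit 78) (PT.lf (nat_lit 41724) (nat_lit 6) (nat_lit 549) (nat_lit 0) (nat_lit 276) (nat_lit 265) (nat_lit 239)) (PT.lf (nat_lit 40052) (nat_lit 6) (nat_lit 527) (nat_lit 0) (nat_lit 277) (nat_lit 265) (nat_lit 238))))) (PT.nd (nat_lit 312) (PT.nd (nat_lit 156) (PT.nd (nat_lit 78) (PT.lf (nat_lit 38304) (nat_lit 6) (nat_lit 504) (nat_lit 0) (nat_lit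 278) (nat_lit 265) (nat_lit 237)) (PT.lf (nat_lit 36480) (nat_lit 6) (nat_lit 480) (nat_lit 0) (nat_lit 279) (nat_lit 265) (nat_lit 236))) (PT.nd (nat_lit 78) (PT.lf (nat_lit 34580) (nat_lit 6) (nat_lit 455) (nat_lit 0) (nat_lit 280) (nat_lit 265) (nat_lit 235)) (PT.lf (nat_lit 33440) (nat_lit 6) (nat_lit 440) (nat_lit 0) (nat_lit 281) (nat_lit 265) (nat_lit 234)))) (PT.nd (nat_lit 156) (PT.nd (nat_lit 78) (PT.lf (nat_lit 32452) (nat_lit 6) (nat_lit 427) (nat_lit 0) (nat_lit 282) (nat_lit 265) (nat_lit 233)) (PT.lf (nat_lit 31464) (nat_lit 6) (nat_lit 414) (nat_lit 0) (nat_lit 283) (nat_lit 265) (nat_lit 232))) (PT.nd (nat_lit 78) (PT.lf (nat_lit 30552) (nat_lit 6) (nat_lit 402) (nat_lit 0) (nat_lit 284) (nat_lit 265) (nat_lit 231)) (PT.lf (nat_lit 29640) (nat_lit 6) (nat_lit 390) (nat_lit 0) (nat_lit 285) (nat_lit 265) (nat_lit 230))))))))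
noncomputable def pc31 : PT := (PT.nd (nat_lit 79014) (PT.nd (nat_lit 77766) (PT.nd (nat_lit 77142) (PT.nd (nat_lit 76830) (PT.nd (nat_lit 76674) (PT.lf (nat_lit 28728) (nat_lit 6) (nat_lit 378) (nat_lit 0) (nat_lit 286) (nat_lit 265) (nat_lit 229)) (PT.nd (nat_lit 78) (PT.lf (nat_lit 27892) (nat_lit 6) (nat_lit 367) (nat_lit 5) (nat_lit 228) (nat_lit 266) (nat_lit 286)) (PT.lf (nat_lit 28804) (nat_lit 6) (nat_lit 379) (nat_lit 5) (nat_lit 229) (nat_lit 266) (nat_lit 285)))) (PT.nd (nat_lit 156) (PT.nd (nat_lit 78) (PT.lf (nat_lit 29716) (nat_lit 6) (nat_lit 391) (nat_lit 5) (nat_lit 230) (nat_lit 266) (nat_lit 284)) (PT.lf (nat_lit 30628) (nat_lit 6) (nat_lit 403) (nat_lit 5) (nat_lit 231) (nat_lit 266) (nat_lit 283))) (PT.nd (nat_lit 78) (PT.lf (nat_lit 31540) (nat_lit 6) (nat_lit 415) (nat_lit 5) (nat_lit 232) (nat_lit 266) (nat_lit 282)) (PT.lf (nat_lit 32528) (nat_lit 6) (nat_lit 428) (nat_lit 5) (nat_lit 233) (nat_lit 266) (nat_lit 281))))) (PT.nd (nat_lit 312) (PT.nd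 (nat_lit 156) (PT.nd (nat_lit 78) (PT.lf (nat_lit 33516) (nat_lit 6) (nat_lit 441) (nat_lit 5) (nat_lit 234) (nat_lit 266) (nat_lit 280)) (PT.lf (nat_lit 34656) (nat_lit 6) (nat_lit 456) (nat_lit 5) (nat_lit 235) (nat_lit 266) (nat_lit 279))) (PT.nd (nat_lit 78) (PT.lf (nat_lit 36556) (nat_lit 6) (nat_lit 481) (nat_lit 5) (nat_lit 236) (nat_lit 266) (nat_lit 278)) (PT.lf (nat_lit 38380) (nat_lit 6) (nat_lit 505) (nat_lit 5) (nat_lit 237) (nat_lit 266) (nat_lit 277)))) (PT.nd (nat_lit 156) (PT.nd (nat_lit 78) (PT.lf (nat_lit 40128) (nat_lit 6) (nat_lit 528) (nat_lit 5) (nat_lit 238) (nat_lit 266) (nat_lit 276)) (PT.lf (nat_lit 41800) (nat_lit 6) (nat_lit 550) (nat_lit 5) (nat_lit 239) (nat_lit 266) (nat_lit 275))) (PT.nd (nat_lit 78) (PT.lf (nat_lit 43396) (nat_lit 6) (nat_lit 571) (nat_lit 5) (nat_lit 240) (nat_lit 266) (nat_lit 274)) (PT.lf (nat_lit 44916) (nat_lit 6) (nat_lit 591) (nat_lit 5) (nat_lit 241) (nat_lit 266) (nat_lit 273)))))) (PT.nd (nat_lit 624) (PT.nd (nat_lit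 312) (PT.nd (nat_lit 156) (PT.nd (nat_lit 78) (PT.lf (nat_lit 46360) (nat_lit 6) (nat_lit 610) (nat_lit 5) (nat_lit 242) (nat_lit 266) (nat_lit 272)) (PT.lf (nat_lit 47728) (nat_lit 6) (nat_lit 628) (nat_lit 5) (nat_lit 243) (nat_lit 266) (nat_lit 271))) (PT.nd (nat_lit 78) (PT.lf (nat_lit 49020) (nat_lit 6) (nat_lit 645) (nat_lit 5) (nat_lit 244) (nat_lit 266) (nat_lit 270)) (PT.lf (nat_lit 50236) (nat_lit 6) (nat_lit 661) (nat_lit 5) (nat_lit 245) (nat_lit 266) (nat_lit 269)))) (PT.nd (nat_lit 156) (PT.nd (nat_lit 78) (PT.lf (nat_lit 51376) (nat_lit 6) (nat_lit 676) (nat_lit 5) (nat_lit 246) (nat_lit 266) (nat_lit 268)) (PT.lf (nat_lit 52440) (nat_lit 6) (nat_lit 690) (nat_lit 5) (nat_lit 247) (nat_lit 266) (nat_lit 267))) (PT.nd (nat_lit 78) (PT.lf (nat_lit 53428) (nat_lit 3) (nat_lit 703) (nat_lit 4) (nat_lit 248) (nat_lit 266) (nat_lit 266)) (PT.lf (nat_lit 54264) (nat_lit 6) (nat_lit 714) (nat_lit 4) (nat_lit 249) (nat_lit 266) (nat_lit 265))))) (PT.nd (nat_lit 312)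 (PT.nd (nat_lit 156) (PT.nd (nat_lit 78) (PT.lf (nat_lit 55024) (nat_lit 6) (nat_lit 724) (nat_lit 4) (nat_lit 250) (nat_lit 266) (nat_lit 264)) (PT.lf (nat_lit 55708) (nat_lit 6) (nat_lit 733) (nat_lit 4) (nat_lit 251) (nat_lit 266) (nat_lit 263))) (PT.nd (nat_lit 78) (PT.lf (nat_lit 56316) (nat_lit 6) (nat_lit 741) (nat_lit 4) (nat_lit 252) (nat_lit 266) (nat_lit 262)) (PT.lf (nat_lit 56848) (nat_lit 6) (nat_lit 748) (nat_lit 4) (nat_lit 253) (nat_lit 266) (nat_lit 261)))) (PT.nd (nat_lit 156) (PT.nd (nat_lit 78) (PT.lf (nat_lit 57304) (nat_lit 6) (nat_lit 754) (nat_lit 4) (nat_lit 254) (nat_lit 266) (nat_lit 260)) (PT.lf (nat_lit 57228) (nat_lit 6) (nat_lit 753) (nat_lit 4) (nat_lit 255) (nat_lit 266) (nat_lit 259))) (PT.nd (nat_lit 78) (PT.lf (nat_lit 57152) (nat_lit 6) (nat_lit 752) (nat_lit 4) (nat_lit 256) (nat_lit 266) (nat_lit 258)) (PT.lf (nat_lit 57076) (nat_lit 3) (nat_lit 751) (nat_lit 2) (nat_lit 257) (nat_lit 266) (nat_lit 257))))))) (PT.nd (nat_lit 1248) (PT.nd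 (nat_lit 624) (PT.nd (nat_lit 312) (PT.nd (nat_lit 156) (PT.nd (nat_lit 78) (PT.lf (nat_lit 57152) (nat_lit 6) (nat_lit 752) (nat_lit 2) (nat_lit 258) (nat_lit 266) (nat_lit 256)) (PT.lf (nat_lit 57228) (nat_lit 6) (nat_lit 753) (nat_lit 2) (nat_lit 259) (nat_lit 266) (nat_lit 255))) (PT.nd (nat_lit 78) (PT.lf (nat_lit 57304) (nat_lit 6) (nat_lit 754) (nat_lit 2) (nat_lit 260) (nat_lit 266) (nat_lit 254)) (PT.lf (nat_lit 56848) (nat_lit 6) (nat_lit 748) (nat_lit 2) (nat_lit 261) (nat_lit 266) (nat_lit 253)))) (PT.nd (nat_lit 156) (PT.nd (nat_lit 78) (PT.lf (nat_lit 56316) (nat_lit 6) (nat_lit 741) (nat_lit 2) (nat_lit 262) (nat_lit 266) (nat_lit 252)) (PT.lf (nat_lit 55708) (nat_lit 6) (nat_lit 733) (nat_lit 2) (nat_lit 263) (nat_lit 266) (nat_lit 251))) (PT.nd (nat_lit 78) (PT.lf (nat_lit 55024) (nat_lit 6) (nat_lit 724) (nat_lit 2) (nat_lit 264) (nat_lit 266) (nat_lit 250)) (PT.lf (nat_lit 54264) (nat_lit 6) (nat_lit 714) (nat_lit 2) (nat_lit 265) (nat_lit 266) (nat_lit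 249))))) (PT.nd (nat_lit 312) (PT.nd (nat_lit 156) (PT.nd (nat_lit 78) (PT.lf (nat_lit 53428) (nat_lit 3) (nat_lit 703) (nat_lit 0) (nat_lit 266) (nat_lit 266) (nat_lit 248)) (PT.lf (nat_lit 52440) (nat_lit 6) (nat_lit 690) (nat_lit 0) (nat_lit 267) (nat_lit 266) (nat_lit 247))) (PT.nd (nat_lit 78) (PT.lf (nat_lit 51376) (nat_lit 6) (nat_lit 676) (nat_lit 0) (nat_lit 268) (nat_lit 266) (nat_lit 246)) (PT.lf (nat_lit 50236) (nat_lit 6) (nat_lit 661) (nat_lit 0) (nat_lit 269) (nat_lit 266) (nat_lit 245)))) (PT.nd (nat_lit 156) (PT.nd (nat_lit 78) (PT.lf (nat_lit 49020) (nat_lit 6) (nat_lit 645) (nat_lit 0) (nat_lit 270) (nat_lit 266) (nat_lit 244)) (PT.lf (nat_lit 47728) (nat_lit 6) (nat_lit 628) (nat_lit 0) (nat_lit 271) (nat_lit 266) (nat_lit 243))) (PT.nd (nat_lit 78) (PT.lf (nat_lit 46360) (nat_lit 6) (nat_lit 610) (nat_lit 0) (nat_lit 272) (nat_lit 266) (nat_lit 242)) (PT.lf (nat_lit 44916) (nat_lit 6) (nat_lit 591) (nat_lit 0) (nat_lit 273) (nat_lit 266) (nat_lit 241))))))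 (PT.nd (nat_lit 624) (PT.nd (nat_lit 312) (PT.nd (nat_lit 156) (PT.nd (nat_lit 78) (PT.lf (nat_lit 43396) (nat_lit 6) (nat_lit 571) (nat_lit 0) (nat_lit 274) (nat_lit 266) (nat_lit 240)) (PT.lf (nat_lit 41800) (nat_lit 6) (nat_lit 550) (nat_lit 0) (nat_lit 275) (nat_lit 266) (nat_lit 239))) (PT.nd (nat_lit 78) (PT.lf (nat_lit 40128) (nat_lit 6) (nat_lit 528) (nat_lit 0) (nat_lit 276) (nat_lit 266) (nat_lit 238)) (PT.lf (nat_lit 38380) (nat_lit 6) (nat_lit 505) (nat_lit 0) (nat_lit 277) (nat_lit 266) (nat_lit 237)))) (PT.nd (nat_lit 156) (PT.nd (nat_lit 78) (PT.lf (nat_lit 36556) (nat_lit 6) (nat_lit 481) (nat_lit 0) (nat_lit 278) (nat_lit 266) (nat_lit 236)) (PT.lf (nat_lit 34656) (nat_lit 6) (nat_lit 456) (nat_lit 0) (nat_lit 279) (nat_lit 266) (nat_lit 235))) (PT.nd (nat_lit 78) (PT.lf (nat_lit 33516) (nat_lit 6) (nat_lit 441) (nat_lit 0) (nat_lit 280) (nat_lit 266) (nat_lit 234)) (PT.lf (nat_lit 32528) (nat_lit 6) (nat_lit 428) (nat_lit 0) (nat_lit 281) (nat_lit 266) (nat_lit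 233))))) (PT.nd (nat_lit 312) (PT.nd (nat_lit 156) (PT.nd (nat_lit 78) (PT.lf (nat_lit 31540) (nat_lit 6) (nat_lit 415) (nat_lit 0) (nat_lit 282) (nat_lit 266) (nat_lit 232)) (PT.lf (nat_lit 30628) (nat_lit 6) (nat_lit 403) (nat_lit 0) (nat_lit 283) (nat_lit 266) (nat_lit 231))) (PT.nd (nat_lit 78) (PT.lf (nat_lit 29716) (nat_lit 6) (nat_lit 391) (nat_lit 0) (nat_lit 284) (nat_lit 266) (nat_lit 230)) (PT.lf (nat_lit 28804) (nat_lit 6) (nat_lit 379) (nat_lit 0) (nat_lit 285) (nat_lit 266) (nat_lit 229)))) (PT.nd (nat_lit 76674) (PT.nd (nat_lit 76596) (PT.lf (nat_lit 27892) (nat_lit 6) (nat_lit 367) (nat_lit 0) (nat_lit 286) (nat_lit 266) (nat_lit 228)) (PT.lf (nat_lit 27132) (nat_lit 6) (nat_lit 357) (nat_lit 5) (nat_lit 227) (nat_lit 267) (nat_lit 286))) (PT.nd (nat_lit 78) (PT.lf (nat_lit 27968) (nat_lit 6) (nat_lit 368) (nat_lit 5) (nat_lit 228) (nat_lit 267) (nat_lit 285)) (PT.lf (nat_lit 28880) (nat_lit 6) (nat_lit 380) (nat_lit 5) (nat_lit 229) (nat_lit 267) (nat_lit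 284))))))))
noncomputable def pc32 : PT := (PT.nd (nat_lit 2418) (PT.nd (nat_lit 1170) (PT.nd (nat_lit 546) (PT.nd (nat_lit 234) (PT.nd (nat_lit 78) (PT.lf (nat_lit 29792) (nat_lit 6) (nat_lit 392) (nat_lit 5) (nat_lit 230) (nat_lit 267) (nat_lit 283)) (PT.nd (nat_lit 78) (PT.lf (nat_lit 30704) (nat_lit 6) (nat_lit 404) (nat_lit 5) (nat_lit 231) (nat_lit 267) (nat_lit 282)) (PT.lf (nat_lit 31616) (nat_lit 6) (nat_lit 416) (nat_lit 5) (nat_lit 232) (nat_lit 267) (nat_lit 281)))) (PT.nd (nat_lit 156) (PT.nd (nat_lit 78) (PT.lf (nat_lit 32604) (nat_lit 6) (nat_lit 429) (nat_lit 5) (nat_lit 233) (nat_lit 267) (nat_lit 280)) (PT.lf (nat_lit 33592) (nat_lit 6) (nat_lit 442) (nat_lit 5) (nat_lit 234) (nat_lit 267) (nat_lit 279))) (PT.nd (nat_lit 78) (PT.lf (nat_lit 34732) (nat_lit 6) (nat_lit 457) (nat_lit 5) (nat_lit 235) (nat_lit 267) (nat_lit 278)) (PT.lf (nat_lit 36632) (nat_lit 6) (nat_lit 482) (nat_lit 5) (nat_lit 236) (nat_lit 267) (nat_lit 277))))) (PT.nd (nat_lit 312) (PT.nd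 (nat_lit 156) (PT.nd (nat_lit 78) (PT.lf (nat_lit 38456) (nat_lit 6) (nat_lit 506) (nat_lit 5) (nat_lit 237) (nat_lit 267) (nat_lit 276)) (PT.lf (nat_lit 40204) (nat_lit 6) (nat_lit 529) (nat_lit 5) (nat_lit 238) (nat_lit 267) (nat_lit 275))) (PT.nd (nat_lit 78) (PT.lf (nat_lit 41876) (nat_lit 6) (nat_lit 551) (nat_lit 5) (nat_lit 239) (nat_lit 267) (nat_lit 274)) (PT.lf (nat_lit 43472) (nat_lit 6) (nat_lit 572) (nat_lit 5) (nat_lit 240) (nat_lit 267) (nat_lit 273)))) (PT.nd (nat_lit 156) (PT.nd (nat_lit 78) (PT.lf (nat_lit 44992) (nat_lit 6) (nat_lit 592) (nat_lit 5) (nat_lit 241) (nat_lit 267) (nat_lit 272)) (PT.lf (nat_lit 46436) (nat_lit 6) (nat_lit 611) (nat_lit 5) (nat_lit 242) (nat_lit 267) (nat_lit 271))) (PT.nd (nat_lit 78) (PT.lf (nat_lit 47804) (nat_lit 6) (nat_lit 629) (nat_lit 5) (nat_lit 243) (nat_lit 267) (nat_lit 270)) (PT.lf (nat_lit 49096) (nat_lit 6) (nat_lit 646) (nat_lit 5) (nat_lit 244) (nat_lit 267) (nat_lit 269)))))) (PT.nd (nat_lit 624) (PT.nd (nat_lit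 312) (PT.nd (nat_lit 156) (PT.nd (nat_lit 78) (PT.lf (nat_lit 50312) (nat_lit 6) (nat_lit 662) (nat_lit 5) (nat_lit 245) (nat_lit 267) (nat_lit 268)) (PT.lf (nat_lit 51452) (nat_lit 3) (nat_lit 677) (nat_lit 4) (nat_lit 246) (nat_lit 267) (nat_lit 267))) (PT.nd (nat_lit 78) (PT.lf (nat_lit 52440) (nat_lit 6) (nat_lit 690) (nat_lit 4) (nat_lit 247) (nat_lit 267) (nat_lit 266)) (PT.lf (nat_lit 53352) (nat_lit 6) (nat_lit 702) (nat_lit 4) (nat_lit 248) (nat_lit 267) (nat_lit 265)))) (PT.nd (nat_lit 156) (PT.nd (nat_lit 78) (PT.lf (nat_lit 54188) (nat_lit 6) (nat_lit 713) (nat_lit 4) (nat_lit 249) (nat_lit 267) (nat_lit 264)) (PT.lf (nat_lit 54948) (nat_lit 6) (nat_lit 723) (nat_lit 4) (nat_lit 250) (nat_lit 267) (nat_lit 263))) (PT.nd (nat_lit 78) (PT.lf (nat_lit 55632) (nat_lit 6) (nat_lit 732) (nat_lit 4) (nat_lit 251) (nat_lit 267) (nat_lit 262)) (PT.lf (nat_lit 56240) (nat_lit 6) (nat_lit 740) (nat_lit 4) (nat_lit 252) (nat_lit 267) (nat_lit 261))))) (PT.nd (nat_lit 312)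 (PT.nd (nat_lit 156) (PT.nd (nat_lit 78) (PT.lf (nat_lit 56772) (nat_lit 6) (nat_lit 747) (nat_lit 4) (nat_lit 253) (nat_lit 267) (nat_lit 260)) (PT.lf (nat_lit 56696) (nat_lit 6) (nat_lit 746) (nat_lit 4) (nat_lit 254) (nat_lit 267) (nat_lit 259))) (PT.nd (nat_lit 78) (PT.lf (nat_lit 56620) (nat_lit 6) (nat_lit 745) (nat_lit 4) (nat_lit 255) (nat_lit 267) (nat_lit 258)) (PT.lf (nat_lit 56544) (nat_lit 6) (nat_lit 744) (nat_lit 4) (nat_lit 256) (nat_lit 267) (nat_lit 257)))) (PT.nd (nat_lit 156) (PT.nd (nat_lit 78) (PT.lf (nat_lit 56544) (nat_lit 6) (nat_lit 744) (nat_lit 2) (nat_lit 257) (nat_lit 267) (nat_lit 256)) (PT.lf (nat_lit 56620) (nat_lit 6) (nat_lit 745) (nat_lit 2) (nat_lit 258) (nat_lit 267) (nat_lit 255))) (PT.nd (nat_lit 78) (PT.lf (nat_lit 56696) (nat_lit 6) (nat_lit 746) (nat_lit 2) (nat_lit 259) (nat_lit 267) (nat_lit 254)) (PT.lf (nat_lit 56772) (nat_lit 6) (nat_lit 747) (nat_lit 2) (nat_lit 260) (nat_lit 267) (nat_lit 253))))))) (PT.nd (nat_lit 1170) (PT.nd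 (nat_lit 546) (PT.nd (nat_lit 234) (PT.nd (nat_lit 78) (PT.lf (nat_lit 56240) (nat_lit 6) (nat_lit 740) (nat_lit 2) (nat_lit 261) (nat_lit 267) (nat_lit 252)) (PT.nd (nat_lit 78) (PT.lf (nat_lit 55632) (nat_lit 6) (nat_lit 732) (nat_lit 2) (nat_lit 262) (nat_lit 267) (nat_lit 251)) (PT.lf (nat_lit 54948) (nat_lit 6) (nat_lit 723) (nat_lit 2) (nat_lit 263) (nat_lit 267) (nat_lit 250)))) (PT.nd (nat_lit 156) (PT.nd (nat_lit 78) (PT.lf (nat_lit 54188) (nat_lit 6) (nat_lit 713) (nat_lit 2) (nat_lit 264) (nat_lit 267) (nat_lit 249)) (PT.lf (nat_lit 53352) (nat_lit 6) (nat_lit 702) (nat_lit 2) (nat_lit 265) (nat_lit 267) (nat_lit 248))) (PT.nd (nat_lit 78) (PT.lf (nat_lit 52440) (nat_lit 6) (nat_lit 690) (nat_lit 2) (nat_lit 266) (nat_lit 267) (nat_lit 247)) (PT.lf (nat_lit 51452) (nat_lit 3) (nat_lit 677) (nat_lit 0) (nat_lit 267) (nat_lit 267) (nat_lit 246))))) (PT.nd (nat_lit 312) (PT.nd (nat_lit 156) (PT.nd (nat_lit 78) (PT.lf (nat_lit 50312) (nat_lit 6) (nat_lit 662) (nat_lit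 0) (nat_lit 268) (nat_lit 267) (nat_lit 245)) (PT.lf (nat_lit 49096) (nat_lit 6) (nat_lit 646) (nat_lit 0) (nat_lit 269) (nat_lit 267) (nat_lit 244))) (PT.nd (nat_lit 78) (PT.lf (nat_lit 47804) (nat_lit 6) (nat_lit 629) (nat_lit 0) (nat_lit 270) (nat_lit 267) (nat_lit 243)) (PT.lf (nat_lit 46436) (nat_lit 6) (nat_lit 611) (nat_lit 0) (nat_lit 271) (nat_lit 267) (nat_lit 242)))) (PT.nd (nat_lit 156) (PT.nd (nat_lit 78) (PT.lf (nat_lit 44992) (nat_lit 6) (nat_lit 592) (nat_lit 0) (nat_lit 272) (nat_lit 267) (nat_lit 241)) (PT.lf (nat_lit 43472) (nat_lit 6) (nat_lit 572) (nat_lit 0) (nat_lit 273) (nat_lit 267) (nat_lit 240))) (PT.nd (nat_lit 78) (PT.lf (nat_lit 41876) (nat_lit 6) (nat_lit 551) (nat_lit 0) (nat_lit 274) (nat_lit 267) (nat_lit 239)) (PT.lf (nat_lit 40204) (nat_lit 6) (nat_lit 529) (nat_lit 0) (nat_lit 275) (nat_lit 267) (nat_lit 238)))))) (PT.nd (nat_lit 624) (PT.nd (nat_lit 312) (PT.nd (nat_lit 156) (PT.nd (nat_lit 78) (PT.lf (nat_lit 38456) (nat_lit 6) (nat_lit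 506) (nat_lit 0) (nat_lit 276) (nat_lit 267) (nat_lit 237)) (PT.lf (nat_lit 36632) (nat_lit 6) (nat_lit 482) (nat_lit 0) (nat_lit 277) (nat_lit 267) (nat_lit 236))) (PT.nd (nat_lit 78) (PT.lf (nat_lit 34732) (nat_lit 6) (nat_lit 457) (nat_lit 0) (nat_lit 278) (nat_lit 267) (nat_lit 235)) (PT.lf (nat_lit 33592) (nat_lit 6) (nat_lit 442) (nat_lit 0) (nat_lit 279) (nat_lit 267) (nat_lit 234)))) (PT.nd (nat_lit 156) (PT.nd (nat_lit 78) (PT.lf (nat_lit 32604) (nat_lit 6) (nat_lit 429) (nat_lit 0) (nat_lit 280) (nat_lit 267) (nat_lit 233)) (PT.lf (nat_lit 31616) (nat_lit 6) (nat_lit 416) (nat_lit 0) (nat_lit 281) (nat_lit 267) (nat_lit 232))) (PT.nd (nat_lit 78) (PT.lf (nat_lit 30704) (nat_lit 6) (nat_lit 404) (nat_lit 0) (nat_lit 282) (nat_lit 267) (nat_lit 231)) (PT.lf (nat_lit 29792) (nat_lit 6) (nat_lit 392) (nat_lit 0) (nat_lit 283) (nat_lit 267) (nat_lit 230))))) (PT.nd (nat_lit 76674) (PT.nd (nat_lit 156) (PT.nd (nat_lit 78) (PT.lf (nat_lit 28880) (nat_lit 6) (nat_lit 380)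 (nat_lit 0) (nat_lit 284) (nat_lit 267) (nat_lit 229)) (PT.lf (nat_lit 27968) (nat_lit 6) (nat_lit 368) (nat_lit 0) (nat_lit 285) (nat_lit 267) (nat_lit 228))) (PT.nd (nat_lit 76440) (PT.lf (nat_lit 27132) (nat_lit 6) (nat_lit 357) (nat_lit 0) (nat_lit 286) (nat_lit 267) (nat_lit 227)) (PT.lf (nat_lit 25612) (nat_lit 6) (nat_lit 337) (nat_lit 5) (nat_lit 225) (nat_lit 268) (nat_lit 287)))) (PT.nd (nat_lit 156) (PT.nd (nat_lit 78) (PT.lf (nat_lit 26372) (nat_lit 6) (nat_lit 347) (nat_lit 5) (nat_lit 226) (nat_lit 268) (nat_lit 286)) (PT.lf (nat_lit 27208) (nat_lit 6) (nat_lit 358) (nat_lit 5) (nat_lit 227) (nat_lit 268) (nat_lit 285))) (PT.nd (nat_lit 78) (PT.lf (nat_lit 28044) (nat_lit 6) (nat_lit 369) (nat_lit 5) (nat_lit 228) (nat_lit 268) (nat_lit 284)) (PT.lf (nat_lit 28956) (nat_lit 6) (nat_lit 381) (nat_lit 5) (nat_lit 229) (nat_lit 268) (nat_lit 283))))))))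
noncomputable def pc33 : PT := (PT.nd (nat_lit 2418) (PT.nd (nat_lit 1170) (PT.nd (nat_lit 546) (PT.nd (nat_lit 234) (PT.nd (nat_lit 78) (PT.lf (nat_lit 29868) (nat_lit 6) (nat_lit 393) (nat_lit 5) (nat_lit 230) (nat_lit 268) (nat_lit 282)) (PT.nd (nat_lit 78) (PT.lf (nat_lit 30780) (nat_lit 6) (nat_lit 405) (nat_lit 5) (nat_lit 231) (nat_lit 268) (nat_lit 281)) (PT.lf (nat_lit 31692) (nat_lit 6) (nat_lit 417) (nat_lit 5) (nat_lit 232) (nat_lit 268) (nat_lit 280)))) (PT.nd (nat_lit 156) (PT.nd (nat_lit 78) (PT.lf (nat_lit 32680) (nat_lit 6) (nat_lit 430) (nat_lit 5) (nat_lit 233) (nat_lit 268) (nat_lit 279)) (PT.lf (nat_lit 33668) (nat_lit 6) (nat_lit 443) (nat_lit 5) (nat_lit 234) (nat_lit 268) (nat_lit 278))) (PT.nd (nat_lit 78) (PT.lf (nat_lit 34808) (nat_lit 6) (nat_lit 458) (nat_lit 5) (nat_lit 235) (nat_lit 268) (nat_lit 277)) (PT.lf (nat_lit 36708) (nat_lit 6) (nat_lit 483) (nat_lit 5) (nat_lit 236) (nat_lit 268) (nat_lit 276))))) (PT.nd (nat_lit 312) (PT.nd (nat_lit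 156) (PT.nd (nat_lit 78) (PT.lf (nat_lit 38532) (nat_lit 6) (nat_lit 507) (nat_lit 5) (nat_lit 237) (nat_lit 268) (nat_lit 275)) (PT.lf (nat_lit 40280) (nat_lit 6) (nat_lit 530) (nat_lit 5) (nat_lit 238) (nat_lit 268) (nat_lit 274))) (PT.nd (nat_lit 78) (PT.lf (nat_lit 41952) (nat_lit 6) (nat_lit 552) (nat_lit 5) (nat_lit 239) (nat_lit 268) (nat_lit 273)) (PT.lf (nat_lit 43548) (nat_lit 6) (nat_lit 573) (nat_lit 5) (nat_lit 240) (nat_lit 268) (nat_lit 272)))) (PT.nd (nat_lit 156) (PT.nd (nat_lit 78) (PT.lf (nat_lit 45068) (nat_lit 6) (nat_lit 593) (nat_lit 5) (nat_lit 241) (nat_lit 268) (nat_lit 271)) (PT.lf (nat_lit 46512) (nat_lit 6) (nat_lit 612) (nat_lit 5) (nat_lit 242) (nat_lit 268) (nat_lit 270))) (PT.nd (nat_lit 78) (PT.lf (nat_lit 47880) (nat_lit 6) (nat_lit 630) (nat_lit 5) (nat_lit 243) (nat_lit 268) (nat_lit 269)) (PT.lf (nat_lit 49172) (nat_lit 3) (nat_lit 647) (nat_lit 4) (nat_lit 244) (nat_lit 268) (nat_lit 268)))))) (PT.nd (nat_lit 624) (PT.nd (nat_lit 312)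 (PT.nd (nat_lit 156) (PT.nd (nat_lit 78) (PT.lf (nat_lit 50312) (nat_lit 6) (nat_lit 662) (nat_lit 4) (nat_lit 245) (nat_lit 268) (nat_lit 267)) (PT.lf (nat_lit 51376) (nat_lit 6) (nat_lit 676) (nat_lit 4) (nat_lit 246) (nat_lit 268) (nat_lit 266))) (PT.nd (nat_lit 78) (PT.lf (nat_lit 52364) (nat_lit 6) (nat_lit 689) (nat_lit 4) (nat_lit 247) (nat_lit 268) (nat_lit 265)) (PT.lf (nat_lit 53276) (nat_lit 6) (nat_lit 701) (nat_lit 4) (nat_lit 248) (nat_lit 268) (nat_lit 264)))) (PT.nd (nat_lit 156) (PT.nd (nat_lit 78) (PT.lf (nat_lit 54112) (nat_lit 6) (nat_lit 712) (nat_lit 4) (nat_lit 249) (nat_lit 268) (nat_lit 263)) (PT.lf (nat_lit 54872) (nat_lit 6) (nat_lit 722) (nat_lit 4) (nat_lit 250) (nat_lit 268) (nat_lit 262))) (PT.nd (nat_lit 78) (PT.lf (nat_lit 55556) (nat_lit 6) (nat_lit 731) (nat_lit 4) (nat_lit 251) (nat_lit 268) (nat_lit 261)) (PT.lf (nat_lit 56164) (nat_lit 6) (nat_lit 739) (nat_lit 4) (nat_lit 252) (nat_lit 268) (nat_lit 260))))) (PT.nd (nat_lit 312) (PT.nd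 (nat_lit 156) (PT.nd (nat_lit 78) (PT.lf (nat_lit 56088) (nat_lit 6) (nat_lit 738) (nat_lit 4) (nat_lit 253) (nat_lit 268) (nat_lit 259)) (PT.lf (nat_lit 56012) (nat_lit 6) (nat_lit 737) (nat_lit 4) (nat_lit 254) (nat_lit 268) (nat_lit 258))) (PT.nd (nat_lit 78) (PT.lf (nat_lit 55936) (nat_lit 6) (nat_lit 736) (nat_lit 4) (nat_lit 255) (nat_lit 268) (nat_lit 257)) (PT.lf (nat_lit 55860) (nat_lit 3) (nat_lit 735) (nat_lit 2) (nat_lit 256) (nat_lit 268) (nat_lit 256)))) (PT.nd (nat_lit 156) (PT.nd (nat_lit 78) (PT.lf (nat_lit 55936) (nat_lit 6) (nat_lit 736) (nat_lit 2) (nat_lit 257) (nat_lit 268) (nat_lit 255)) (PT.lf (nat_lit 56012) (nat_lit 6) (nat_lit 737) (nat_lit 2) (nat_lit 258) (nat_lit 268) (nat_lit 254))) (PT.nd (nat_lit 78) (PT.lf (nat_lit 56088) (nat_lit 6) (nat_lit 738) (nat_lit 2) (nat_lit 259) (nat_lit 268) (nat_lit 253)) (PT.lf (nat_lit 56164) (nat_lit 6) (nat_lit 739) (nat_lit 2) (nat_lit 260) (nat_lit 268) (nat_lit 252))))))) (PT.nd (nat_lit 1170) (PT.nd (nat_lit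 546) (PT.nd (nat_lit 234) (PT.nd (nat_lit 78) (PT.lf (nat_lit 55556) (nat_lit 6) (nat_lit 731) (nat_lit 2) (nat_lit 261) (nat_lit 268) (nat_lit 251)) (PT.nd (nat_lit 78) (PT.lf (nat_lit 54872) (nat_lit 6) (nat_lit 722) (nat_lit 2) (nat_lit 262) (nat_lit 268) (nat_lit 250)) (PT.lf (nat_lit 54112) (nat_lit 6) (nat_lit 712) (nat_lit 2) (nat_lit 263) (nat_lit 268) (nat_lit 249)))) (PT.nd (nat_lit 156) (PT.nd (nat_lit 78) (PT.lf (nat_lit 53276) (nat_lit 6) (nat_lit 701) (nat_lit 2) (nat_lit 264) (nat_lit 268) (nat_lit 248)) (PT.lf (nat_lit 52364) (nat_lit 6) (nat_lit 689) (nat_lit 2) (nat_lit 265) (nat_lit 268) (nat_lit 247))) (PT.nd (nat_lit 78) (PT.lf (nat_lit 51376) (nat_lit 6) (nat_lit 676) (nat_lit 2) (nat_lit 266) (nat_lit 268) (nat_lit 246)) (PT.lf (nat_lit 50312) (nat_lit 6) (nat_lit 662) (nat_lit 2) (nat_lit 267) (nat_lit 268) (nat_lit 245))))) (PT.nd (nat_lit 312) (PT.nd (nat_lit 156) (PT.nd (nat_lit 78) (PT.lf (nat_lit 49172) (nat_lit 3) (nat_lit 647) (nat_lit 0) (nat_lit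 268) (nat_lit 268) (nat_lit 244)) (PT.lf (nat_lit 47880) (nat_lit 6) (nat_lit 630) (nat_lit 0) (nat_lit 269) (nat_lit 268) (nat_lit 243))) (PT.nd (nat_lit 78) (PT.lf (nat_lit 46512) (nat_lit 6) (nat_lit 612) (nat_lit 0) (nat_lit 270) (nat_lit 268) (nat_lit 242)) (PT.lf (nat_lit 45068) (nat_lit 6) (nat_lit 593) (nat_lit 0) (nat_lit 271) (nat_lit 268) (nat_lit 241)))) (PT.nd (nat_lit 156) (PT.nd (nat_lit 78) (PT.lf (nat_lit 43548) (nat_lit 6) (nat_lit 573) (nat_lit 0) (nat_lit 272) (nat_lit 268) (nat_lit 240)) (PT.lf (nat_lit 41952) (nat_lit 6) (nat_lit 552) (nat_lit 0) (nat_lit 273) (nat_lit 268) (nat_lit 239))) (PT.nd (nat_lit 78) (PT.lf (nat_lit 40280) (nat_lit 6) (nat_lit 530) (nat_lit 0) (nat_lit 274) (nat_lit 268) (nat_lit 238)) (PT.lf (nat_lit 38532) (nat_lit 6) (nat_lit 507) (nat_lit 0) (nat_lit 275) (nat_lit 268) (nat_lit 237)))))) (PT.nd (nat_lit 624) (PT.nd (nat_lit 312) (PT.nd (nat_lit 156) (PT.nd (nat_lit 78) (PT.lf (nat_lit 36708) (nat_lit 6) (nat_lit 483) (nat_lit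 0) (nat_lit 276) (nat_lit 268) (nat_lit 236)) (PT.lf (nat_lit 34808) (nat_lit 6) (nat_lit 458) (nat_lit 0) (nat_lit 277) (nat_lit 268) (nat_lit 235))) (PT.nd (nat_lit 78) (PT.lf (nat_lit 33668) (nat_lit 6) (nat_lit 443) (nat_lit 0) (nat_lit 278) (nat_lit 268) (nat_lit 234)) (PT.lf (nat_lit 32680) (nat_lit 6) (nat_lit 430) (nat_lit 0) (nat_lit 279) (nat_lit 268) (nat_lit 233)))) (PT.nd (nat_lit 156) (PT.nd (nat_lit 78) (PT.lf (nat_lit 31692) (nat_lit 6) (nat_lit 417) (nat_lit 0) (nat_lit 280) (nat_lit 268) (nat_lit 232)) (PT.lf (nat_lit 30780) (nat_lit 6) (nat_lit 405) (nat_lit 0) (nat_lit 281) (nat_lit 268) (nat_lit 231))) (PT.nd (nat_lit 78) (PT.lf (nat_lit 29868) (nat_lit 6) (nat_lit 393) (nat_lit 0) (nat_lit 282) (nat_lit 268) (nat_lit 230)) (PT.lf (nat_lit 28956) (nat_lit 6) (nat_lit 381) (nat_lit 0) (nat_lit 283) (nat_lit 268) (nat_lit 229))))) (PT.nd (nat_lit 76518) (PT.nd (nat_lit 156) (PT.nd (nat_lit 78) (PT.lf (nat_lit 28044) (nat_lit 6) (nat_lit 369) (nat_lit 0)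 (nat_lit 284) (nat_lit 268) (nat_lit 228)) (PT.lf (nat_lit 27208) (nat_lit 6) (nat_lit 358) (nat_lit 0) (nat_lit 285) (nat_lit 268) (nat_lit 227))) (PT.nd (nat_lit 78) (PT.lf (nat_lit 26372) (nat_lit 6) (nat_lit 347) (nat_lit 0) (nat_lit 286) (nat_lit 268) (nat_lit 226)) (PT.lf (nat_lit 25612) (nat_lit 6) (nat_lit 337) (nat_lit 0) (nat_lit 287) (nat_lit 268) (nat_lit 225)))) (PT.nd (nat_lit 156) (PT.nd (nat_lit 78) (PT.lf (nat_lit 24852) (nat_lit 6) (nat_lit 327) (nat_lit 5) (nat_lit 224) (nat_lit 269) (nat_lit 287)) (PT.lf (nat_lit 25688) (nat_lit 6) (nat_lit 338) (nat_lit 5) (nat_lit 225) (nat_lit 269) (nat_lit 286))) (PT.nd (nat_lit 78) (PT.lf (nat_lit 26448) (nat_lit 6) (nat_lit 348) (nat_lit 5) (nat_lit 226) (nat_lit 269) (nat_lit 285)) (PT.lf (nat_lit 27284) (nat_lit 6) (nat_lit 359) (nat_lit 5) (nat_lit 227) (nat_lit 269) (nat_lit 284))))))))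
noncomputable def pc34 : PT := (PT.nd (nat_lit 2418) (PT.nd (nat_lit 1170) (PT.nd (nat_lit 546) (PT.nd (nat_lit 234) (PT.nd (nat_lit 78) (PT.lf (nat_lit 28120) (nat_lit 6) (nat_lit 370) (nat_lit 5) (nat_lit 228) (nat_lit 269) (nat_lit 283)) (PT.nd (nat_lit 78) (PT.lf (nat_lit 29032) (nat_lit 6) (nat_lit 382) (nat_lit 5) (nat_lit 229) (nat_lit 269) (nat_lit 282)) (PT.lf (nat_lit 29944) (nat_lit 6) (nat_lit 394) (nat_lit 5) (nat_lit 230) (nat_lit 269) (nat_lit 281)))) (PT.nd (nat_lit 156) (PT.nd (nat_lit 78) (PT.lf (nat_lit 30856) (nat_lit 6) (nat_lit 406) (nat_lit 5) (nat_lit 231) (nat_lit 269) (nat_lit 280)) (PT.lf (nat_lit 31768) (nat_lit 6) (nat_lit 418) (nat_lit 5) (nat_lit 232) (nat_lit 269) (nat_lit 279))) (PT.nd (nat_lit 78) (PT.lf (nat_lit 32756) (nat_lit 6) (nat_lit 431) (nat_lit 5) (nat_lit 233) (nat_lit 269) (nat_lit 278)) (PT.lf (nat_lit 33744) (nat_lit 6) (nat_lit 444) (nat_lit 5) (nat_lit 234) (nat_lit 269) (nat_lit 277))))) (PT.nd (nat_lit 312) (PT.nd (nat_lit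 156) (PT.nd (nat_lit 78) (PT.lf (nat_lit 34884) (nat_lit 6) (nat_lit 459) (nat_lit 5) (nat_lit 235) (nat_lit 269) (nat_lit 276)) (PT.lf (nat_lit 36784) (nat_lit 6) (nat_lit 484) (nat_lit 5) (nat_lit 236) (nat_lit 269) (nat_lit 275))) (PT.nd (nat_lit 78) (PT.lf (nat_lit 38608) (nat_lit 6) (nat_lit 508) (nat_lit 5) (nat_lit 237) (nat_lit 269) (nat_lit 274)) (PT.lf (nat_lit 40356) (nat_lit 6) (nat_lit 531) (nat_lit 5) (nat_lit 238) (nat_lit 269) (nat_lit 273)))) (PT.nd (nat_lit 156) (PT.nd (nat_lit 78) (PT.lf (nat_lit 42028) (nat_lit 6) (nat_lit 553) (nat_lit 5) (nat_lit 239) (nat_lit 269) (nat_lit 272)) (PT.lf (nat_lit 43624) (nat_lit 6) (nat_lit 574) (nat_lit 5) (nat_lit 240) (nat_lit 269) (nat_lit 271))) (PT.nd (nat_lit 78) (PT.lf (nat_lit 45144) (nat_lit 6) (nat_lit 594) (nat_lit 5) (nat_lit 241) (nat_lit 269) (nat_lit 270)) (PT.lf (nat_lit 46588) (nat_lit 3) (nat_lit 613) (nat_lit 4) (nat_lit 242) (nat_lit 269) (nat_lit 269)))))) (PT.nd (nat_lit 624) (PT.nd (nat_lit 312)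 (PT.nd (nat_lit 156) (PT.nd (nat_lit 78) (PT.lf (nat_lit 47880) (nat_lit 6) (nat_lit 630) (nat_lit 4) (nat_lit 243) (nat_lit 269) (nat_lit 268)) (PT.lf (nat_lit 49096) (nat_lit 6) (nat_lit 646) (nat_lit 4) (nat_lit 244) (nat_lit 269) (nat_lit 267))) (PT.nd (nat_lit 78) (PT.lf (nat_lit 50236) (nat_lit 6) (nat_lit 661) (nat_lit 4) (nat_lit 245) (nat_lit 269) (nat_lit 266)) (PT.lf (nat_lit 51300) (nat_lit 6) (nat_lit 675) (nat_lit 4) (nat_lit 246) (nat_lit 269) (nat_lit 265)))) (PT.nd (nat_lit 156) (PT.nd (nat_lit 78) (PT.lf (nat_lit 52288) (nat_lit 6) (nat_lit 688) (nat_lit 4) (nat_lit 247) (nat_lit 269) (nat_lit 264)) (PT.lf (nat_lit 53200) (nat_lit 6) (nat_lit 700) (nat_lit 4) (nat_lit 248) (nat_lit 269) (nat_lit 263))) (PT.nd (nat_lit 78) (PT.lf (nat_lit 54036) (nat_lit 6) (nat_lit 711) (nat_lit 4) (nat_lit 249) (nat_lit 269) (nat_lit 262)) (PT.lf (nat_lit 54796) (nat_lit 6) (nat_lit 721) (nat_lit 4) (nat_lit 250) (nat_lit 269) (nat_lit 261))))) (PT.nd (nat_lit 312) (PT.nd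 (nat_lit 156) (PT.nd (nat_lit 78) (PT.lf (nat_lit 55480) (nat_lit 6) (nat_lit 730) (nat_lit 4) (nat_lit 251) (nat_lit 269) (nat_lit 260)) (PT.lf (nat_lit 55404) (nat_lit 6) (nat_lit 729) (nat_lit 4) (nat_lit 252) (nat_lit 269) (nat_lit 259))) (PT.nd (nat_lit 78) (PT.lf (nat_lit 55328) (nat_lit 6) (nat_lit 728) (nat_lit 4) (nat_lit 253) (nat_lit 269) (nat_lit 258)) (PT.lf (nat_lit 55252) (nat_lit 6) (nat_lit 727) (nat_lit 4) (nat_lit 254) (nat_lit 269) (nat_lit 257)))) (PT.nd (nat_lit 156) (PT.nd (nat_lit 78) (PT.lf (nat_lit 55176) (nat_lit 6) (nat_lit 726) (nat_lit 4) (nat_lit 255) (nat_lit 269) (nat_lit 256)) (PT.lf (nat_lit 55176) (nat_lit 6) (nat_lit 726) (nat_lit 2) (nat_lit 256) (nat_lit 269) (nat_lit 255))) (PT.nd (nat_lit 78) (PT.lf (nat_lit 55252) (nat_lit 6) (nat_lit 727) (nat_lit 2) (nat_lit 257) (nat_lit 269) (nat_lit 254)) (PT.lf (nat_lit 55328) (nat_lit 6) (nat_lit 728) (nat_lit 2) (nat_lit 258) (nat_lit 269) (nat_lit 253))))))) (PT.nd (nat_lit 1170) (PT.nd (nat_lit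 546) (PT.nd (nat_lit 234) (PT.nd (nat_lit 78) (PT.lf (nat_lit 55404) (nat_lit 6) (nat_lit 729) (nat_lit 2) (nat_lit 259) (nat_lit 269) (nat_lit 252)) (PT.nd (nat_lit 78) (PT.lf (nat_lit 55480) (nat_lit 6) (nat_lit 730) (nat_lit 2) (nat_lit 260) (nat_lit 269) (nat_lit 251)) (PT.lf (nat_lit 54796) (nat_lit 6) (nat_lit 721) (nat_lit 2) (nat_lit 261) (nat_lit 269) (nat_lit 250)))) (PT.nd (nat_lit 156) (PT.nd (nat_lit 78) (PT.lf (nat_lit 54036) (nat_lit 6) (nat_lit 711) (nat_lit 2) (nat_lit 262) (nat_lit 269) (nat_lit 249)) (PT.lf (nat_lit 53200) (nat_lit 6) (nat_lit 700) (nat_lit 2) (nat_lit 263) (nat_lit 269) (nat_lit 248))) (PT.nd (nat_lit 78) (PT.lf (nat_lit 52288) (nat_lit 6) (nat_lit 688) (nat_lit 2) (nat_lit 264) (nat_lit 269) (nat_lit 247)) (PT.lf (nat_lit 51300) (nat_lit 6) (nat_lit 675) (nat_lit 2) (nat_lit 265) (nat_lit 269) (nat_lit 246))))) (PT.nd (nat_lit 312) (PT.nd (nat_lit 156) (PT.nd (nat_lit 78) (PT.lf (nat_lit 50236) (nat_lit 6) (nat_lit 661) (nat_lit 2) (nat_lit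 266) (nat_lit 269) (nat_lit 245)) (PT.lf (nat_lit 49096) (nat_lit 6) (nat_lit 646) (nat_lit 2) (nat_lit 267) (nat_lit 269) (nat_lit 244))) (PT.nd (nat_lit 78) (PT.lf (nat_lit 47880) (nat_lit 6) (nat_lit 630) (nat_lit 2) (nat_lit 268) (nat_lit 269) (nat_lit 243)) (PT.lf (nat_lit 46588) (nat_lit 3) (nat_lit 613) (nat_lit 0) (nat_lit 269) (nat_lit 269) (nat_lit 242)))) (PT.nd (nat_lit 156) (PT.nd (nat_lit 78) (PT.lf (nat_lit 45144) (nat_lit 6) (nat_lit 594) (nat_lit 0) (nat_lit 270) (nat_lit 269) (nat_lit 241)) (PT.lf (nat_lit 43624) (nat_lit 6) (nat_lit 574) (nat_lit 0) (nat_lit 271) (nat_lit 269) (nat_lit 240))) (PT.nd (nat_lit 78) (PT.lf (nat_lit 42028) (nat_lit 6) (nat_lit 553) (nat_lit 0) (nat_lit 272) (nat_lit 269) (nat_lit 239)) (PT.lf (nat_lit 40356) (nat_lit 6) (nat_lit 531) (nat_lit 0) (nat_lit 273) (nat_lit 269) (nat_lit 238)))))) (PT.nd (nat_lit 624) (PT.nd (nat_lit 312) (PT.nd (nat_lit 156) (PT.nd (nat_lit 78) (PT.lf (nat_lit 38608) (nat_lit 6) (nat_lit 508) (nat_lit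 0) (nat_lit 274) (nat_lit 269) (nat_lit 237)) (PT.lf (nat_lit 36784) (nat_lit 6) (nat_lit 484) (nat_lit 0) (nat_lit 275) (nat_lit 269) (nat_lit 236))) (PT.nd (nat_lit 78) (PT.lf (nat_lit 34884) (nat_lit 6) (nat_lit 459) (nat_lit 0) (nat_lit 276) (nat_lit 269) (nat_lit 235)) (PT.lf (nat_lit 33744) (nat_lit 6) (nat_lit 444) (nat_lit 0) (nat_lit 277) (nat_lit 269) (nat_lit 234)))) (PT.nd (nat_lit 156) (PT.nd (nat_lit 78) (PT.lf (nat_lit 32756) (nat_lit 6) (nat_lit 431) (nat_lit 0) (nat_lit 278) (nat_lit 269) (nat_lit 233)) (PT.lf (nat_lit 31768) (nat_lit 6) (nat_lit 418) (nat_lit 0) (nat_lit 279) (nat_lit 269) (nat_lit 232))) (PT.nd (nat_lit 78) (PT.lf (nat_lit 30856) (nat_lit 6) (nat_lit 406) (nat_lit 0) (nat_lit 280) (nat_lit 269) (nat_lit 231)) (PT.lf (nat_lit 29944) (nat_lit 6) (nat_lit 394) (nat_lit 0) (nat_lit 281) (nat_lit 269) (nat_lit 230))))) (PT.nd (nat_lit 312) (PT.nd (nat_lit 156) (PT.nd (nat_lit 78) (PT.lf (nat_lit 29032) (nat_lit 6) (nat_lit 382) (nat_lit 0) (nat_lit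 282) (nat_lit 269) (nat_lit 229)) (PT.lf (nat_lit 28120) (nat_lit 6) (nat_lit 370) (nat_lit 0) (nat_lit 283) (nat_lit 269) (nat_lit 228))) (PT.nd (nat_lit 78) (PT.lf (nat_lit 27284) (nat_lit 6) (nat_lit 359) (nat_lit 0) (nat_lit 284) (nat_lit 269) (nat_lit 227)) (PT.lf (nat_lit 26448) (nat_lit 6) (nat_lit 348) (nat_lit 0) (nat_lit 285) (nat_lit 269) (nat_lit 226)))) (PT.nd (nat_lit 76284) (PT.nd (nat_lit 78) (PT.lf (nat_lit 25688) (nat_lit 6) (nat_lit 338) (nat_lit 0) (nat_lit 286) (nat_lit 269) (nat_lit 225)) (PT.lf (nat_lit 24852) (nat_lit 6) (nat_lit 327) (nat_lit 0) (nat_lit 287) (nat_lit 269) (nat_lit 224))) (PT.nd (nat_lit 78) (PT.lf (nat_lit 24168) (nat_lit 6) (nat_lit 318) (nat_lit 5) (nat_lit 223) (nat_lit 270) (nat_lit 287)) (PT.lf (nat_lit 24928) (nat_lit 6) (nat_lit 328) (nat_lit 5) (nat_lit 224) (nat_lit 270) (nat_lit 286))))))))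
noncomputable def pc35 : PT := (PT.nd (nat_lit 2418) (PT.nd (nat_lit 1170) (PT.nd (nat_lit 546) (PT.nd (nat_lit 234) (PT.nd (nat_lit 78) (PT.lf (nat_lit 25764) (nat_lit 6) (nat_lit 339) (nat_lit 5) (nat_lit 225) (nat_lit 270) (nat_lit 285)) (PT.nd (nat_lit 78) (PT.lf (nat_lit 26524) (nat_lit 6) (nat_lit 349) (nat_lit 5) (nat_lit 226) (nat_lit 270) (nat_lit 284)) (PT.lf (nat_lit 27360) (nat_lit 6) (nat_lit 360) (nat_lit 5) (nat_lit 227) (nat_lit 270) (nat_lit 283)))) (PT.nd (nat_lit 156) (PT.nd (nat_lit 78) (PT.lf (nat_lit 28196) (nat_lit 6) (nat_lit 371) (nat_lit 5) (nat_lit 228) (nat_lit 270) (nat_lit 282)) (PT.lf (nat_lit 29108) (nat_lit 6) (nat_lit 383) (nat_lit 5) (nat_lit 229) (nat_lit 270) (nat_lit 281))) (PT.nd (nat_lit 78) (PT.lf (nat_lit 30020) (nat_lit 6) (nat_lit 395) (nat_lit 5) (nat_lit 230) (nat_lit 270) (nat_lit 280)) (PT.lf (nat_lit 30932) (nat_lit 6) (nat_lit 407) (nat_lit 5) (nat_lit 231) (nat_lit 270) (nat_lit 279))))) (PT.nd (nat_lit 312) (PT.nd (nat_lit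 156) (PT.nd (nat_lit 78) (PT.lf (nat_lit 31844) (nat_lit 6) (nat_lit 419) (nat_lit 5) (nat_lit 232) (nat_lit 270) (nat_lit 278)) (PT.lf (nat_lit 32832) (nat_lit 6) (nat_lit 432) (nat_lit 5) (nat_lit 233) (nat_lit 270) (nat_lit 277))) (PT.nd (nat_lit 78) (PT.lf (nat_lit 33820) (nat_lit 6) (nat_lit 445) (nat_lit 5) (nat_lit 234) (nat_lit 270) (nat_lit 276)) (PT.lf (nat_lit 34960) (nat_lit 6) (nat_lit 460) (nat_lit 5) (nat_lit 235) (nat_lit 270) (nat_lit 275)))) (PT.nd (nat_lit 156) (PT.nd (nat_lit 78) (PT.lf (nat_lit 36860) (nat_lit 6) (nat_lit 485) (nat_lit 5) (nat_lit 236) (nat_lit 270) (nat_lit 274)) (PT.lf (nat_lit 38684) (nat_lit 6) (nat_lit 509) (nat_lit 5) (nat_lit 237) (nat_lit 270) (nat_lit 273))) (PT.nd (nat_lit 78) (PT.lf (nat_lit 40432) (nat_lit 6) (nat_lit 532) (nat_lit 5) (nat_lit 238) (nat_lit 270) (nat_lit 272)) (PT.lf (nat_lit 42104) (nat_lit 6) (nat_lit 554) (nat_lit 5) (nat_lit 239) (nat_lit 270) (nat_lit 271)))))) (PT.nd (nat_lit 624) (PT.nd (nat_lit 312)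 (PT.nd (nat_lit 156) (PT.nd (nat_lit 78) (PT.lf (nat_lit 43700) (nat_lit 3) (nat_lit 575) (nat_lit 4) (nat_lit 240) (nat_lit 270) (nat_lit 270)) (PT.lf (nat_lit 45144) (nat_lit 6) (nat_lit 594) (nat_lit 4) (nat_lit 241) (nat_lit 270) (nat_lit 269))) (PT.nd (nat_lit 78) (PT.lf (nat_lit 46512) (nat_lit 6) (nat_lit 612) (nat_lit 4) (nat_lit 242) (nat_lit 270) (nat_lit 268)) (PT.lf (nat_lit 47804) (nat_lit 6) (nat_lit 629) (nat_lit 4) (nat_lit 243) (nat_lit 270) (nat_lit 267)))) (PT.nd (nat_lit 156) (PT.nd (nat_lit 78) (PT.lf (nat_lit 49020) (nat_lit 6) (nat_lit 645) (nat_lit 4) (nat_lit 244) (nat_lit 270) (nat_lit 266)) (PT.lf (nat_lit 50160) (nat_lit 6) (nat_lit 660) (nat_lit 4) (nat_lit 245) (nat_lit 270) (nat_lit 265))) (PT.nd (nat_lit 78) (PT.lf (nat_lit 51224) (nat_lit 6) (nat_lit 674) (nat_lit 4) (nat_lit 246) (nat_lit 270) (nat_lit 264)) (PT.lf (nat_lit 52212) (nat_lit 6) (nat_lit 687) (nat_lit 4) (nat_lit 247) (nat_lit 270) (nat_lit 263))))) (PT.nd (nat_lit 312) (PT.nd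 (nat_lit 156) (PT.nd (nat_lit 78) (PT.lf (nat_lit 53124) (nat_lit 6) (nat_lit 699) (nat_lit 4) (nat_lit 248) (nat_lit 270) (nat_lit 262)) (PT.lf (nat_lit 53960) (nat_lit 6) (nat_lit 710) (nat_lit 4) (nat_lit 249) (nat_lit 270) (nat_lit 261))) (PT.nd (nat_lit 78) (PT.lf (nat_lit 54720) (nat_lit 6) (nat_lit 720) (nat_lit 4) (nat_lit 250) (nat_lit 270) (nat_lit 260)) (PT.lf (nat_lit 54644) (nat_lit 6) (nat_lit 719) (nat_lit 4) (nat_lit 251) (nat_lit 270) (nat_lit 259)))) (PT.nd (nat_lit 156) (PT.nd (nat_lit 78) (PT.lf (nat_lit 54568) (nat_lit 6) (nat_lit 718) (nat_lit 4) (nat_lit 252) (nat_lit 270) (nat_lit 258)) (PT.lf (nat_lit 54492) (nat_lit 6) (nat_lit 717) (nat_lit 4) (nat_lit 253) (nat_lit 270) (nat_lit 257))) (PT.nd (nat_lit 78) (PT.lf (nat_lit 54416) (nat_lit 6) (nat_lit 716) (nat_lit 4) (nat_lit 254) (nat_lit 270) (nat_lit 256)) (PT.lf (nat_lit 54340) (nat_lit 3) (nat_lit 715) (nat_lit 2) (nat_lit 255) (nat_lit 270) (nat_lit 255))))))) (PT.nd (nat_lit 1170) (PT.nd (nat_lit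 546) (PT.nd (nat_lit 234) (PT.nd (nat_lit 78) (PT.lf (nat_lit 54416) (nat_lit 6) (nat_lit 716) (nat_lit 2) (nat_lit 256) (nat_lit 270) (nat_lit 254)) (PT.nd (nat_lit 78) (PT.lf (nat_lit 54492) (nat_lit 6) (nat_lit 717) (nat_lit 2) (nat_lit 257) (nat_lit 270) (nat_lit 253)) (PT.lf (nat_lit 54568) (nat_lit 6) (nat_lit 718) (nat_lit 2) (nat_lit 258) (nat_lit 270) (nat_lit 252)))) (PT.nd (nat_lit 156) (PT.nd (nat_lit 78) (PT.lf (nat_lit 54644) (nat_lit 6) (nat_lit 719) (nat_lit 2) (nat_lit 259) (nat_lit 270) (nat_lit 251)) (PT.lf (nat_lit 54720) (nat_lit 6) (nat_lit 720) (nat_lit 2) (nat_lit 260) (nat_lit 270) (nat_lit 250))) (PT.nd (nat_lit 78) (PT.lf (nat_lit 53960) (nat_lit 6) (nat_lit 710) (nat_lit 2) (nat_lit 261) (nat_lit 270) (nat_lit 249)) (PT.lf (nat_lit 53124) (nat_lit 6) (nat_lit 699) (nat_lit 2) (nat_lit 262) (nat_lit 270) (nat_lit 248))))) (PT.nd (nat_lit 312) (PT.nd (nat_lit 156) (PT.nd (nat_lit 78) (PT.lf (nat_lit 52212) (nat_lit 6) (nat_lit 687) (nat_lit 2) (nat_lit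 263) (nat_lit 270) (nat_lit 247)) (PT.lf (nat_lit 51224) (nat_lit 6) (nat_lit 674) (nat_lit 2) (nat_lit 264) (nat_lit 270) (nat_lit 246))) (PT.nd (nat_lit 78) (PT.lf (nat_lit 50160) (nat_lit 6) (nat_lit 660) (nat_lit 2) (nat_lit 265) (nat_lit 270) (nat_lit 245)) (PT.lf (nat_lit 49020) (nat_lit 6) (nat_lit 645) (nat_lit 2) (nat_lit 266) (nat_lit 270) (nat_lit 244)))) (PT.nd (nat_lit 156) (PT.nd (nat_lit 78) (PT.lf (nat_lit 47804) (nat_lit 6) (nat_lit 629) (nat_lit 2) (nat_lit 267) (nat_lit 270) (nat_lit 243)) (PT.lf (nat_lit 46512) (nat_lit 6) (nat_lit 612) (nat_lit 2) (nat_lit 268) (nat_lit 270) (nat_lit 242))) (PT.nd (nat_lit 78) (PT.lf (nat_lit 45144) (nat_lit 6) (nat_lit 594) (nat_lit 2) (nat_lit 269) (nat_lit 270) (nat_lit 241)) (PT.lf (nat_lit 43700) (nat_lit 3) (nat_lit 575) (nat_lit 0) (nat_lit 270) (nat_lit 270) (nat_lit 240)))))) (PT.nd (nat_lit 624) (PT.nd (nat_lit 312) (PT.nd (nat_lit 156) (PT.nd (nat_lit 78) (PT.lf (nat_lit 42104) (nat_lit 6) (nat_lit 554) (nat_lit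 0) (nat_lit 271) (nat_lit 270) (nat_lit 239)) (PT.lf (nat_lit 40432) (nat_lit 6) (nat_lit 532) (nat_lit 0) (nat_lit 272) (nat_lit 270) (nat_lit 238))) (PT.nd (nat_lit 78) (PT.lf (nat_lit 38684) (nat_lit 6) (nat_lit 509) (nat_lit 0) (nat_lit 273) (nat_lit 270) (nat_lit 237)) (PT.lf (nat_lit 36860) (nat_lit 6) (nat_lit 485) (nat_lit 0) (nat_lit 274) (nat_lit 270) (nat_lit 236)))) (PT.nd (nat_lit 156) (PT.nd (nat_lit 78) (PT.lf (nat_lit 34960) (nat_lit 6) (nat_lit 460) (nat_lit 0) (nat_lit 275) (nat_lit 270) (nat_lit 235)) (PT.lf (nat_lit 33820) (nat_lit 6) (nat_lit 445) (nat_lit 0) (nat_lit 276) (nat_lit 270) (nat_lit 234))) (PT.nd (nat_lit 78) (PT.lf (nat_lit 32832) (nat_lit 6) (nat_lit 432) (nat_lit 0) (nat_lit 277) (nat_lit 270) (nat_lit 233)) (PT.lf (nat_lit 31844) (nat_lit 6) (nat_lit 419) (nat_lit 0) (nat_lit 278) (nat_lit 270) (nat_lit 232))))) (PT.nd (nat_lit 312) (PT.nd (nat_lit 156) (PT.nd (nat_lit 78) (PT.lf (nat_lit 30932) (nat_lit 6) (nat_lit 407) (nat_lit 0) (nat_lit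 279) (nat_lit 270) (nat_lit 231)) (PT.lf (nat_lit 30020) (nat_lit 6) (nat_lit 395) (nat_lit 0) (nat_lit 280) (nat_lit 270) (nat_lit 230))) (PT.nd (nat_lit 78) (PT.lf (nat_lit 29108) (nat_lit 6) (nat_lit 383) (nat_lit 0) (nat_lit 281) (nat_lit 270) (nat_lit 229)) (PT.lf (nat_lit 28196) (nat_lit 6) (nat_lit 371) (nat_lit 0) (nat_lit 282) (nat_lit 270) (nat_lit 228)))) (PT.nd (nat_lit 156) (PT.nd (nat_lit 78) (PT.lf (nat_lit 27360) (nat_lit 6) (nat_lit 360) (nat_lit 0) (nat_lit 283) (nat_lit 270) (nat_lit 227)) (PT.lf (nat_lit 26524) (nat_lit 6) (nat_lit 349) (nat_lit 0) (nat_lit 284) (nat_lit 270) (nat_lit 226))) (PT.nd (nat_lit 78) (PT.lf (nat_lit 25764) (nat_lit 6) (nat_lit 339) (nat_lit 0) (nat_lit 285) (nat_lit 270) (nat_lit 225)) (PT.lf (nat_lit 24928) (nat_lit 6) (nat_lit 328) (nat_lit 0) (nat_lit 286) (nat_lit 270) (nat_lit 224))))))))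
noncomputable def pc36 : PT := (PT.nd (nat_lit 78390) (PT.nd (nat_lit 77142) (PT.nd (nat_lit 76518) (PT.nd (nat_lit 76206) (PT.nd (nat_lit 76050) (PT.lf (nat_lit 24168) (nat_lit 6) (nat_lit 318) (nat_lit 0) (nat_lit 287) (nat_lit 270) (nat_lit 223)) (PT.nd (nat_lit 78) (PT.lf (nat_lit 22800) (nat_lit 6) (nat_lit 300) (nat_lit 5) (nat_lit 221) (nat_lit 271) (nat_lit 288)) (PT.lf (nat_lit 23484) (nat_lit 6) (nat_lit 309) (nat_lit 5) (nat_lit 222) (nat_lit 271) (nat_lit 287)))) (PT.nd (nat_lit 156) (PT.nd (nat_lit 78) (PT.lf (nat_lit 24244) (nat_lit 6) (nat_lit 319) (nat_lit 5) (nat_lit 223) (nat_lit 271) (nat_lit 286)) (PT.lf (nat_lit 25004) (nat_lit 6) (nat_lit 329) (nat_lit 5) (nat_lit 224) (nat_lit 271) (nat_lit 285))) (PT.nd (nat_lit 78) (PT.lf (nat_lit 25840) (nat_lit 6) (nat_lit 340) (nat_lit 5) (nat_lit 225) (nat_lit 271) (nat_lit 284)) (PT.lf (nat_lit 26600) (nat_lit 6) (nat_lit 350) (nat_lit 5) (nat_lit 226) (nat_lit 271) (nat_lit 283))))) (PT.nd (nat_lit 312) (PT.nd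 (nat_lit 156) (PT.nd (nat_lit 78) (PT.lf (nat_lit 27436) (nat_lit 6) (nat_lit 361) (nat_lit 5) (nat_lit 227) (nat_lit 271) (nat_lit 282)) (PT.lf (nat_lit 28272) (nat_lit 6) (nat_lit 372) (nat_lit 5) (nat_lit 228) (nat_lit 271) (nat_lit 281))) (PT.nd (nat_lit 78) (PT.lf (nat_lit 29184) (nat_lit 6) (nat_lit 384) (nat_lit 5) (nat_lit 229) (nat_lit 271) (nat_lit 280)) (PT.lf (nat_lit 30096) (nat_lit 6) (nat_lit 396) (nat_lit 5) (nat_lit 230) (nat_lit 271) (nat_lit 279)))) (PT.nd (nat_lit 156) (PT.nd (nat_lit 78) (PT.lf (nat_lit 31008) (nat_lit 6) (nat_lit 408) (nat_lit 5) (nat_lit 231) (nat_lit 271) (nat_lit 278)) (PT.lf (nat_lit 31920) (nat_lit 6) (nat_lit 420) (nat_lit 5) (nat_lit 232) (nat_lit 271) (nat_lit 277))) (PT.nd (nat_lit 78) (PT.lf (nat_lit 32908) (nat_lit 6) (nat_lit 433) (nat_lit 5) (nat_lit 233) (nat_lit 271) (nat_lit 276)) (PT.lf (nat_lit 33896) (nat_lit 6) (nat_lit 446) (nat_lit 5) (nat_lit 234) (nat_lit 271) (nat_lit 275)))))) (PT.nd (nat_lit 624) (PT.nd (nat_lit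 312) (PT.nd (nat_lit 156) (PT.nd (nat_lit 78) (PT.lf (nat_lit 35036) (nat_lit 6) (nat_lit 461) (nat_lit 5) (nat_lit 235) (nat_lit 271) (nat_lit 274)) (PT.lf (nat_lit 36936) (nat_lit 6) (nat_lit 486) (nat_lit 5) (nat_lit 236) (nat_lit 271) (nat_lit 273))) (PT.nd (nat_lit 78) (PT.lf (nat_lit 38760) (nat_lit 6) (nat_lit 510) (nat_lit 5) (nat_lit 237) (nat_lit 271) (nat_lit 272)) (PT.lf (nat_lit 40508) (nat_lit 3) (nat_lit 533) (nat_lit 4) (nat_lit 238) (nat_lit 271) (nat_lit 271)))) (PT.nd (nat_lit 156) (PT.nd (nat_lit 78) (PT.lf (nat_lit 42104) (nat_lit 6) (nat_lit 554) (nat_lit 4) (nat_lit 239) (nat_lit 271) (nat_lit 270)) (PT.lf (nat_lit 43624) (nat_lit 6) (nat_lit 574) (nat_lit 4) (nat_lit 240) (nat_lit 271) (nat_lit 269))) (PT.nd (nat_lit 78) (PT.lf (nat_lit 45068) (nat_lit 6) (nat_lit 593) (nat_lit 4) (nat_lit 241) (nat_lit 271) (nat_lit 268)) (PT.lf (nat_lit 46436) (nat_lit 6) (nat_lit 611) (nat_lit 4) (nat_lit 242) (nat_lit 271) (nat_lit 267))))) (PT.nd (nat_lit 312)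 (PT.nd (nat_lit 156) (PT.nd (nat_lit 78) (PT.lf (nat_lit 47728) (nat_lit 6) (nat_lit 628) (nat_lit 4) (nat_lit 243) (nat_lit 271) (nat_lit 266)) (PT.lf (nat_lit 48944) (nat_lit 6) (nat_lit 644) (nat_lit 4) (nat_lit 244) (nat_lit 271) (nat_lit 265))) (PT.nd (nat_lit 78) (PT.lf (nat_lit 50084) (nat_lit 6) (nat_lit 659) (nat_lit 4) (nat_lit 245) (nat_lit 271) (nat_lit 264)) (PT.lf (nat_lit 51148) (nat_lit 6) (nat_lit 673) (nat_lit 4) (nat_lit 246) (nat_lit 271) (nat_lit 263)))) (PT.nd (nat_lit 156) (PT.nd (nat_lit 78) (PT.lf (nat_lit 52136) (nat_lit 6) (nat_lit 686) (nat_lit 4) (nat_lit 247) (nat_lit 271) (nat_lit 262)) (PT.lf (nat_lit 53048) (nat_lit 6) (nat_lit 698) (nat_lit 4) (nat_lit 248) (nat_lit 271) (nat_lit 261))) (PT.nd (nat_lit 78) (PT.lf (nat_lit 53884) (nat_lit 6) (nat_lit 709) (nat_lit 4) (nat_lit 249) (nat_lit 271) (nat_lit 260)) (PT.lf (nat_lit 53808) (nat_lit 6) (nat_lit 708) (nat_lit 4) (nat_lit 250) (nat_lit 271) (nat_lit 259))))))) (PT.nd (nat_lit 1170) (PT.nd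 (nat_lit 546) (PT.nd (nat_lit 234) (PT.nd (nat_lit 78) (PT.lf (nat_lit 53732) (nat_lit 6) (nat_lit 707) (nat_lit 4) (nat_lit 251) (nat_lit 271) (nat_lit 258)) (PT.nd (nat_lit 78) (PT.lf (nat_lit 53656) (nat_lit 6) (nat_lit 706) (nat_lit 4) (nat_lit 252) (nat_lit 271) (nat_lit 257)) (PT.lf (nat_lit 53580) (nat_lit 6) (nat_lit 705) (nat_lit 4) (nat_lit 253) (nat_lit 271) (nat_lit 256)))) (PT.nd (nat_lit 156) (PT.nd (nat_lit 78) (PT.lf (nat_lit 53504) (nat_lit 6) (nat_lit 704) (nat_lit 4) (nat_lit 254) (nat_lit 271) (nat_lit 255)) (PT.lf (nat_lit 53504) (nat_lit 6) (nat_lit 704) (nat_lit 2) (nat_lit 255) (nat_lit 271) (nat_lit 254))) (PT.nd (nat_lit 78) (PT.lf (nat_lit 53580) (nat_lit 6) (nat_lit 705) (nat_lit 2) (nat_lit 256) (nat_lit 271) (nat_lit 253)) (PT.lf (nat_lit 53656) (nat_lit 6) (nat_lit 706) (nat_lit 2) (nat_lit 257) (nat_lit 271) (nat_lit 252))))) (PT.nd (nat_lit 312) (PT.nd (nat_lit 156) (PT.nd (nat_lit 78) (PT.lf (nat_lit 53732) (nat_lit 6) (nat_lit 707) (nat_lit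 2) (nat_lit 258) (nat_lit 271) (nat_lit 251)) (PT.lf (nat_lit 53808) (nat_lit 6) (nat_lit 708) (nat_lit 2) (nat_lit 259) (nat_lit 271) (nat_lit 250))) (PT.nd (nat_lit 78) (PT.lf (nat_lit 53884) (nat_lit 6) (nat_lit 709) (nat_lit 2) (nat_lit 260) (nat_lit 271) (nat_lit 249)) (PT.lf (nat_lit 53048) (nat_lit 6) (nat_lit 698) (nat_lit 2) (nat_lit 261) (nat_lit 271) (nat_lit 248)))) (PT.nd (nat_lit 156) (PT.nd (nat_lit 78) (PT.lf (nat_lit 52136) (nat_lit 6) (nat_lit 686) (nat_lit 2) (nat_lit 262) (nat_lit 271) (nat_lit 247)) (PT.lf (nat_lit 51148) (nat_lit 6) (nat_lit 673) (nat_lit 2) (nat_lit 263) (nat_lit 271) (nat_lit 246))) (PT.nd (nat_lit 78) (PT.lf (nat_lit 50084) (nat_lit 6) (nat_lit 659) (nat_lit 2) (nat_lit 264) (nat_lit 271) (nat_lit 245)) (PT.lf (nat_lit 48944) (nat_lit 6) (nat_lit 644) (nat_lit 2) (nat_lit 265) (nat_lit 271) (nat_lit 244)))))) (PT.nd (nat_lit 624) (PT.nd (nat_lit 312) (PT.nd (nat_lit 156) (PT.nd (nat_lit 78) (PT.lf (nat_lit 47728) (nat_lit 6) (nat_lit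 628) (nat_lit 2) (nat_lit 266) (nat_lit 271) (nat_lit 243)) (PT.lf (nat_lit 46436) (nat_lit 6) (nat_lit 611) (nat_lit 2) (nat_lit 267) (nat_lit 271) (nat_lit 242))) (PT.nd (nat_lit 78) (PT.lf (nat_lit 45068) (nat_lit 6) (nat_lit 593) (nat_lit 2) (nat_lit 268) (nat_lit 271) (nat_lit 241)) (PT.lf (nat_lit 43624) (nat_lit 6) (nat_lit 574) (nat_lit 2) (nat_lit 269) (nat_lit 271) (nat_lit 240)))) (PT.nd (nat_lit 156) (PT.nd (nat_lit 78) (PT.lf (nat_lit 42104) (nat_lit 6) (nat_lit 554) (nat_lit 2) (nat_lit 270) (nat_lit 271) (nat_lit 239)) (PT.lf (nat_lit 40508) (nat_lit 3) (nat_lit 533) (nat_lit 0) (nat_lit 271) (nat_lit 271) (nat_lit 238))) (PT.nd (nat_lit 78) (PT.lf (nat_lit 38760) (nat_lit 6) (nat_lit 510) (nat_lit 0) (nat_lit 272) (nat_lit 271) (nat_lit 237)) (PT.lf (nat_lit 36936) (nat_lit 6) (nat_lit 486) (nat_lit 0) (nat_lit 273) (nat_lit 271) (nat_lit 236))))) (PT.nd (nat_lit 312) (PT.nd (nat_lit 156) (PT.nd (nat_lit 78) (PT.lf (nat_lit 35036) (nat_lit 6) (nat_lit 461)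 (nat_lit 0) (nat_lit 274) (nat_lit 271) (nat_lit 235)) (PT.lf (nat_lit 33896) (nat_lit 6) (nat_lit 446) (nat_lit 0) (nat_lit 275) (nat_lit 271) (nat_lit 234))) (PT.nd (nat_lit 78) (PT.lf (nat_lit 32908) (nat_lit 6) (nat_lit 433) (nat_lit 0) (nat_lit 276) (nat_lit 271) (nat_lit 233)) (PT.lf (nat_lit 31920) (nat_lit 6) (nat_lit 420) (nat_lit 0) (nat_lit 277) (nat_lit 271) (nat_lit 232)))) (PT.nd (nat_lit 156) (PT.nd (nat_lit 78) (PT.lf (nat_lit 31008) (nat_lit 6) (nat_lit 408) (nat_lit 0) (nat_lit 278) (nat_lit 271) (nat_lit 231)) (PT.lf (nat_lit 30096) (nat_lit 6) (nat_lit 396) (nat_lit 0) (nat_lit 279) (nat_lit 271) (nat_lit 230))) (PT.nd (nat_lit 78) (PT.lf (nat_lit 29184) (nat_lit 6) (nat_lit 384) (nat_lit 0) (nat_lit 280) (nat_lit 271) (nat_lit 229)) (PT.lf (nat_lit 28272) (nat_lit 6) (nat_lit 372) (nat_lit 0) (nat_lit 281) (nat_lit 271) (nat_lit 228))))))))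
noncomputable def pc37 : PT := (PT.nd (nat_lit 78234) (PT.nd (nat_lit 76986) (PT.nd (nat_lit 76362) (PT.nd (nat_lit 234) (PT.nd (nat_lit 78) (PT.lf (nat_lit 27436) (nat_lit 6) (nat_lit 361) (nat_lit 0) (nat_lit 282) (nat_lit 271) (nat_lit 227)) (PT.nd (nat_lit 78) (PT.lf (nat_lit 26600) (nat_lit 6) (nat_lit 350) (nat_lit 0) (nat_lit 283) (nat_lit 271) (nat_lit 226)) (PT.lf (nat_lit 25840) (nat_lit 6) (nat_lit 340) (nat_lit 0) (nat_lit 284) (nat_lit 271) (nat_lit 225)))) (PT.nd (nat_lit 156) (PT.nd (nat_lit 78) (PT.lf (nat_lit 25004) (nat_lit 6) (nat_lit 329) (nat_lit 0) (nat_lit 285) (nat_lit 271) (nat_lit 224)) (PT.lf (nat_lit 24244) (nat_lit 6) (nat_lit 319) (nat_lit 0) (nat_lit 286) (nat_lit 271) (nat_lit 223))) (PT.nd (nat_lit 78) (PT.lf (nat_lit 23484) (nat_lit 6) (nat_lit 309) (nat_lit 0) (nat_lit 287) (nat_lit 271) (nat_lit 222)) (PT.lf (nat_lit 22800) (nat_lit 6) (nat_lit 300) (nat_lit 0) (nat_lit 288) (nat_lit 271) (nat_lit 221))))) (PT.nd (nat_lit 312) (PT.nd (nat_lit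 156) (PT.nd (nat_lit 78) (PT.lf (nat_lit 22116) (nat_lit 6) (nat_lit 291) (nat_lit 5) (nat_lit 220) (nat_lit 272) (nat_lit 288)) (PT.lf (nat_lit 22876) (nat_lit 6) (nat_lit 301) (nat_lit 5) (nat_lit 221) (nat_lit 272) (nat_lit 287))) (PT.nd (nat_lit 78) (PT.lf (nat_lit 23560) (nat_lit 6) (nat_lit 310) (nat_lit 5) (nat_lit 222) (nat_lit 272) (nat_lit 286)) (PT.lf (nat_lit 24320) (nat_lit 6) (nat_lit 320) (nat_lit 5) (nat_lit 223) (nat_lit 272) (nat_lit 285)))) (PT.nd (nat_lit 156) (PT.nd (nat_lit 78) (PT.lf (nat_lit 25080) (nat_lit 6) (nat_lit 330) (nat_lit 5) (nat_lit 224) (nat_lit 272) (nat_lit 284)) (PT.lf (nat_lit 25916) (nat_lit 6) (nat_lit 341) (nat_lit 5) (nat_lit 225) (nat_lit 272) (nat_lit 283))) (PT.nd (nat_lit 78) (PT.lf (nat_lit 26676) (nat_lit 6) (nat_lit 351) (nat_lit 5) (nat_lit 226) (nat_lit 272) (nat_lit 282)) (PT.lf (nat_lit 27512) (nat_lit 6) (nat_lit 362) (nat_lit 5) (nat_lit 227) (nat_lit 272) (nat_lit 281)))))) (PT.nd (nat_lit 624) (PT.nd (nat_lit 312)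 (PT.nd (nat_lit 156) (PT.nd (nat_lit 78) (PT.lf (nat_lit 28348) (nat_lit 6) (nat_lit 373) (nat_lit 5) (nat_lit 228) (nat_lit 272) (nat_lit 280)) (PT.lf (nat_lit 29260) (nat_lit 6) (nat_lit 385) (nat_lit 5) (nat_lit 229) (nat_lit 272) (nat_lit 279))) (PT.nd (nat_lit 78) (PT.lf (nat_lit 30172) (nat_lit 6) (nat_lit 397) (nat_lit 5) (nat_lit 230) (nat_lit 272) (nat_lit 278)) (PT.lf (nat_lit 31084) (nat_lit 6) (nat_lit 409) (nat_lit 5) (nat_lit 231) (nat_lit 272) (nat_lit 277)))) (PT.nd (nat_lit 156) (PT.nd (nat_lit 78) (PT.lf (nat_lit 31996) (nat_lit 6) (nat_lit 421) (nat_lit 5) (nat_lit 232) (nat_lit 272) (nat_lit 276)) (PT.lf (nat_lit 32984) (nat_lit 6) (nat_lit 434) (nat_lit 5) (nat_lit 233) (nat_lit 272) (nat_lit 275))) (PT.nd (nat_lit 78) (PT.lf (nat_lit 33972) (nat_lit 6) (nat_lit 447) (nat_lit 5) (nat_lit 234) (nat_lit 272) (nat_lit 274)) (PT.lf (nat_lit 35112) (nat_lit 6) (nat_lit 462) (nat_lit 5) (nat_lit 235) (nat_lit 272) (nat_lit 273))))) (PT.nd (nat_lit 312) (PT.nd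 (nat_lit 156) (PT.nd (nat_lit 78) (PT.lf (nat_lit 37012) (nat_lit 3) (nat_lit 487) (nat_lit 4) (nat_lit 236) (nat_lit 272) (nat_lit 272)) (PT.lf (nat_lit 38760) (nat_lit 6) (nat_lit 510) (nat_lit 4) (nat_lit 237) (nat_lit 272) (nat_lit 271))) (PT.nd (nat_lit 78) (PT.lf (nat_lit 40432) (nat_lit 6) (nat_lit 532) (nat_lit 4) (nat_lit 238) (nat_lit 272) (nat_lit 270)) (PT.lf (nat_lit 42028) (nat_lit 6) (nat_lit 553) (nat_lit 4) (nat_lit 239) (nat_lit 272) (nat_lit 269)))) (PT.nd (nat_lit 156) (PT.nd (nat_lit 78) (PT.lf (nat_lit 43548) (nat_lit 6) (nat_lit 573) (nat_lit 4) (nat_lit 240) (nat_lit 272) (nat_lit 268)) (PT.lf (nat_lit 44992) (nat_lit 6) (nat_lit 592) (nat_lit 4) (nat_lit 241) (nat_lit 272) (nat_lit 267))) (PT.nd (nat_lit 78) (PT.lf (nat_lit 46360) (nat_lit 6) (nat_lit 610) (nat_lit 4) (nat_lit 242) (nat_lit 272) (nat_lit 266)) (PT.lf (nat_lit 47652) (nat_lit 6) (nat_lit 627) (nat_lit 4) (nat_lit 243) (nat_lit 272) (nat_lit 265))))))) (PT.nd (nat_lit 1170) (PT.nd (nat_lit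 546) (PT.nd (nat_lit 234) (PT.nd (nat_lit 78) (PT.lf (nat_lit 48868) (nat_lit 6) (nat_lit 643) (nat_lit 4) (nat_lit 244) (nat_lit 272) (nat_lit 264)) (PT.nd (nat_lit 78) (PT.lf (nat_lit 50008) (nat_lit 6) (nat_lit 658) (nat_lit 4) (nat_lit 245) (nat_lit 272) (nat_lit 263)) (PT.lf (nat_lit 51072) (nat_lit 6) (nat_lit 672) (nat_lit 4) (nat_lit 246) (nat_lit 272) (nat_lit 262)))) (PT.nd (nat_lit 156) (PT.nd (nat_lit 78) (PT.lf (nat_lit 52060) (nat_lit 6) (nat_lit 685) (nat_lit 4) (nat_lit 247) (nat_lit 272) (nat_lit 261)) (PT.lf (nat_lit 52972) (nat_lit 6) (nat_lit 697) (nat_lit 4) (nat_lit 248) (nat_lit 272) (nat_lit 260))) (PT.nd (nat_lit 78) (PT.lf (nat_lit 52896) (nat_lit 6) (nat_lit 696) (nat_lit 4) (nat_lit 249) (nat_lit 272) (nat_lit 259)) (PT.lf (nat_lit 52820) (nat_lit 6) (nat_lit 695) (nat_lit 4) (nat_lit 250) (nat_lit 272) (nat_lit 258))))) (PT.nd (nat_lit 312) (PT.nd (nat_lit 156) (PT.nd (nat_lit 78) (PT.lf (nat_lit 52744) (nat_lit 6) (nat_lit 694) (nat_lit 4) (nat_lit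 251) (nat_lit 272) (nat_lit 257)) (PT.lf (nat_lit 52668) (nat_lit 6) (nat_lit 693) (nat_lit 4) (nat_lit 252) (nat_lit 272) (nat_lit 256))) (PT.nd (nat_lit 78) (PT.lf (nat_lit 52592) (nat_lit 6) (nat_lit 692) (nat_lit 4) (nat_lit 253) (nat_lit 272) (nat_lit 255)) (PT.lf (nat_lit 52516) (nat_lit 3) (nat_lit 691) (nat_lit 2) (nat_lit 254) (nat_lit 272) (nat_lit 254)))) (PT.nd (nat_lit 156) (PT.nd (nat_lit 78) (PT.lf (nat_lit 52592) (nat_lit 6) (nat_lit 692) (nat_lit 2) (nat_lit 255) (nat_lit 272) (nat_lit 253)) (PT.lf (nat_lit 52668) (nat_lit 6) (nat_lit 693) (nat_lit 2) (nat_lit 256) (nat_lit 272) (nat_lit 252))) (PT.nd (nat_lit 78) (PT.lf (nat_lit 52744) (nat_lit 6) (nat_lit 694) (nat_lit 2) (nat_lit 257) (nat_lit 272) (nat_lit 251)) (PT.lf (nat_lit 52820) (nat_lit 6) (nat_lit 695) (nat_lit 2) (nat_lit 258) (nat_lit 272) (nat_lit 250)))))) (PT.nd (nat_lit 624) (PT.nd (nat_lit 312) (PT.nd (nat_lit 156) (PT.nd (nat_lit 78) (PT.lf (nat_lit 52896) (nat_lit 6) (nat_lit 696) (nat_lit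 2) (nat_lit 259) (nat_lit 272) (nat_lit 249)) (PT.lf (nat_lit 52972) (nat_lit 6) (nat_lit 697) (nat_lit 2) (nat_lit 260) (nat_lit 272) (nat_lit 248))) (PT.nd (nat_lit 78) (PT.lf (nat_lit 52060) (nat_lit 6) (nat_lit 685) (nat_lit 2) (nat_lit 261) (nat_lit 272) (nat_lit 247)) (PT.lf (nat_lit 51072) (nat_lit 6) (nat_lit 672) (nat_lit 2) (nat_lit 262) (nat_lit 272) (nat_lit 246)))) (PT.nd (nat_lit 156) (PT.nd (nat_lit 78) (PT.lf (nat_lit 50008) (nat_lit 6) (nat_lit 658) (nat_lit 2) (nat_lit 263) (nat_lit 272) (nat_lit 245)) (PT.lf (nat_lit 48868) (nat_lit 6) (nat_lit 643) (nat_lit 2) (nat_lit 264) (nat_lit 272) (nat_lit 244))) (PT.nd (nat_lit 78) (PT.lf (nat_lit 47652) (nat_lit 6) (nat_lit 627) (nat_lit 2) (nat_lit 265) (nat_lit 272) (nat_lit 243)) (PT.lf (nat_lit 46360) (nat_lit 6) (nat_lit 610) (nat_lit 2) (nat_lit 266) (nat_lit 272) (nat_lit 242))))) (PT.nd (nat_lit 312) (PT.nd (nat_lit 156) (PT.nd (nat_lit 78) (PT.lf (nat_lit 44992) (nat_lit 6) (nat_lit 592) (nat_lit 2) (nat_lit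 267) (nat_lit 272) (nat_lit 241)) (PT.lf (nat_lit 43548) (nat_lit 6) (nat_lit 573) (nat_lit 2) (nat_lit 268) (nat_lit 272) (nat_lit 240))) (PT.nd (nat_lit 78) (PT.lf (nat_lit 42028) (nat_lit 6) (nat_lit 553) (nat_lit 2) (nat_lit 269) (nat_lit 272) (nat_lit 239)) (PT.lf (nat_lit 40432) (nat_lit 6) (nat_lit 532) (nat_lit 2) (nat_lit 270) (nat_lit 272) (nat_lit 238)))) (PT.nd (nat_lit 156) (PT.nd (nat_lit 78) (PT.lf (nat_lit 38760) (nat_lit 6) (nat_lit 510) (nat_lit 2) (nat_lit 271) (nat_lit 272) (nat_lit 237)) (PT.lf (nat_lit 37012) (nat_lit 3) (nat_lit 487) (nat_lit 0) (nat_lit 272) (nat_lit 272) (nat_lit 236))) (PT.nd (nat_lit 78) (PT.lf (nat_lit 35112) (nat_lit 6) (nat_lit 462) (nat_lit 0) (nat_lit 273) (nat_lit 272) (nat_lit 235)) (PT.lf (nat_lit 33972) (nat_lit 6) (nat_lit 447) (nat_lit 0) (nat_lit 274) (nat_lit 272) (nat_lit 234))))))))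
noncomputable def pc38 : PT := (PT.nd (nat_lit 78156) (PT.nd (nat_lit 76908) (PT.nd (nat_lit 546) (PT.nd (nat_lit 234) (PT.nd (nat_lit 78) (PT.lf (nat_lit 32984) (nat_lit 6) (nat_lit 434) (nat_lit 0) (nat_lit 275) (nat_lit 272) (nat_lit 233)) (PT.nd (nat_lit 78) (PT.lf (nat_lit 31996) (nat_lit 6) (nat_lit 421) (nat_lit 0) (nat_lit 276) (nat_lit 272) (nat_lit 232)) (PT.lf (nat_lit 31084) (nat_lit 6) (nat_lit 409) (nat_lit 0) (nat_lit 277) (nat_lit 272) (nat_lit 231)))) (PT.nd (nat_lit 156) (PT.nd (nat_lit 78) (PT.lf (nat_lit 30172) (nat_lit 6) (nat_lit 397) (nat_lit 0) (nat_lit 278) (nat_lit 272) (nat_lit 230)) (PT.lf (nat_lit 29260) (nat_lit 6) (nat_lit 385) (nat_lit 0) (nat_lit 279) (nat_lit 272) (nat_lit 229))) (PT.nd (nat_lit 78) (PT.lf (nat_lit 28348) (nat_lit 6) (nat_lit 373) (nat_lit 0) (nat_lit 280) (nat_lit 272) (nat_lit 228)) (PT.lf (nat_lit 27512) (nat_lit 6) (nat_lit 362) (nat_lit 0) (nat_lit 281) (nat_lit 272) (nat_lit 227))))) (PT.nd (nat_lit 312) (PT.nd (nat_lit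 156) (PT.nd (nat_lit 78) (PT.lf (nat_lit 26676) (nat_lit 6) (nat_lit 351) (nat_lit 0) (nat_lit 282) (nat_lit 272) (nat_lit 226)) (PT.lf (nat_lit 25916) (nat_lit 6) (nat_lit 341) (nat_lit 0) (nat_lit 283) (nat_lit 272) (nat_lit 225))) (PT.nd (nat_lit 78) (PT.lf (nat_lit 25080) (nat_lit 6) (nat_lit 330) (nat_lit 0) (nat_lit 284) (nat_lit 272) (nat_lit 224)) (PT.lf (nat_lit 24320) (nat_lit 6) (nat_lit 320) (nat_lit 0) (nat_lit 285) (nat_lit 272) (nat_lit 223)))) (PT.nd (nat_lit 156) (PT.nd (nat_lit 78) (PT.lf (nat_lit 23560) (nat_lit 6) (nat_lit 310) (nat_lit 0) (nat_lit 286) (nat_lit 272) (nat_lit 222)) (PT.lf (nat_lit 22876) (nat_lit 6) (nat_lit 301) (nat_lit 0) (nat_lit 287) (nat_lit 272) (nat_lit 221))) (PT.nd (nat_lit 75816) (PT.lf (nat_lit 22116) (nat_lit 6) (nat_lit 291) (nat_lit 0) (nat_lit 288) (nat_lit 272) (nat_lit 220)) (PT.lf (nat_lit 21508) (nat_lit 6) (nat_lit 283) (nat_lit 5) (nat_lit 219) (nat_lit 273) (nat_lit 288)))))) (PT.nd (nat_lit 624) (PT.nd (nat_lit 312)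 (PT.nd (nat_lit 156) (PT.nd (nat_lit 78) (PT.lf (nat_lit 22192) (nat_lit 6) (nat_lit 292) (nat_lit 5) (nat_lit 220) (nat_lit 273) (nat_lit 287)) (PT.lf (nat_lit 22952) (nat_lit 6) (nat_lit 302) (nat_lit 5) (nat_lit 221) (nat_lit 273) (nat_lit 286))) (PT.nd (nat_lit 78) (PT.lf (nat_lit 23636) (nat_lit 6) (nat_lit 311) (nat_lit 5) (nat_lit 222) (nat_lit 273) (nat_lit 285)) (PT.lf (nat_lit 24396) (nat_lit 6) (nat_lit 321) (nat_lit 5) (nat_lit 223) (nat_lit 273) (nat_lit 284)))) (PT.nd (nat_lit 156) (PT.nd (nat_lit 78) (PT.lf (nat_lit 25156) (nat_lit 6) (nat_lit 331) (nat_lit 5) (nat_lit 224) (nat_lit 273) (nat_lit 283)) (PT.lf (nat_lit 25992) (nat_lit 6) (nat_lit 342) (nat_lit 5) (nat_lit 225) (nat_lit 273) (nat_lit 282))) (PT.nd (nat_lit 78) (PT.lf (nat_lit 26752) (nat_lit 6) (nat_lit 352) (nat_lit 5) (nat_lit 226) (nat_lit 273) (nat_lit 281)) (PT.lf (nat_lit 27588) (nat_lit 6) (nat_lit 363) (nat_lit 5) (nat_lit 227) (nat_lit 273) (nat_lit 280))))) (PT.nd (nat_lit 312) (PT.nd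 (nat_lit 156) (PT.nd (nat_lit 78) (PT.lf (nat_lit 28424) (nat_lit 6) (nat_lit 374) (nat_lit 5) (nat_lit 228) (nat_lit 273) (nat_lit 279)) (PT.lf (nat_lit 29336) (nat_lit 6) (nat_lit 386) (nat_lit 5) (nat_lit 229) (nat_lit 273) (nat_lit 278))) (PT.nd (nat_lit 78) (PT.lf (nat_lit 30248) (nat_lit 6) (nat_lit 398) (nat_lit 5) (nat_lit 230) (nat_lit 273) (nat_lit 277)) (PT.lf (nat_lit 31160) (nat_lit 6) (nat_lit 410) (nat_lit 5) (nat_lit 231) (nat_lit 273) (nat_lit 276)))) (PT.nd (nat_lit 156) (PT.nd (nat_lit 78) (PT.lf (nat_lit 32072) (nat_lit 6) (nat_lit 422) (nat_lit 5) (nat_lit 232) (nat_lit 273) (nat_lit 275)) (PT.lf (nat_lit 33060) (nat_lit 6) (nat_lit 435) (nat_lit 5) (nat_lit 233) (nat_lit 273) (nat_lit 274))) (PT.nd (nat_lit 78) (PT.lf (nat_lit 34048) (nat_lit 3) (nat_lit 448) (nat_lit 4) (nat_lit 234) (nat_lit 273) (nat_lit 273)) (PT.lf (nat_lit 35112) (nat_lit 6) (nat_lit 462) (nat_lit 4) (nat_lit 235) (nat_lit 273) (nat_lit 272))))))) (PT.nd (nat_lit 1170) (PT.nd (nat_lit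 546) (PT.nd (nat_lit 234) (PT.nd (nat_lit 78) (PT.lf (nat_lit 36936) (nat_lit 6) (nat_lit 486) (nat_lit 4) (nat_lit 236) (nat_lit 273) (nat_lit 271)) (PT.nd (nat_lit 78) (PT.lf (nat_lit 38684) (nat_lit 6) (nat_lit 509) (nat_lit 4) (nat_lit 237) (nat_lit 273) (nat_lit 270)) (PT.lf (nat_lit 40356) (nat_lit 6) (nat_lit 531) (nat_lit 4) (nat_lit 238) (nat_lit 273) (nat_lit 269)))) (PT.nd (nat_lit 156) (PT.nd (nat_lit 78) (PT.lf (nat_lit 41952) (nat_lit 6) (nat_lit 552) (nat_lit 4) (nat_lit 239) (nat_lit 273) (nat_lit 268)) (PT.lf (nat_lit 43472) (nat_lit 6) (nat_lit 572) (nat_lit 4) (nat_lit 240) (nat_lit 273) (nat_lit 267))) (PT.nd (nat_lit 78) (PT.lf (nat_lit 44916) (nat_lit 6) (nat_lit 591) (nat_lit 4) (nat_lit 241) (nat_lit 273) (nat_lit 266)) (PT.lf (nat_lit 46284) (nat_lit 6) (nat_lit 609) (nat_lit 4) (nat_lit 242) (nat_lit 273) (nat_lit 265))))) (PT.nd (nat_lit 312) (PT.nd (nat_lit 156) (PT.nd (nat_lit 78) (PT.lf (nat_lit 47576) (nat_lit 6) (nat_lit 626) (nat_lit 4) (nat_lit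 243) (nat_lit 273) (nat_lit 264)) (PT.lf (nat_lit 48792) (nat_lit 6) (nat_lit 642) (nat_lit 4) (nat_lit 244) (nat_lit 273) (nat_lit 263))) (PT.nd (nat_lit 78) (PT.lf (nat_lit 49932) (nat_lit 6) (nat_lit 657) (nat_lit 4) (nat_lit 245) (nat_lit 273) (nat_lit 262)) (PT.lf (nat_lit 50996) (nat_lit 6) (nat_lit 671) (nat_lit 4) (nat_lit 246) (nat_lit 273) (nat_lit 261)))) (PT.nd (nat_lit 156) (PT.nd (nat_lit 78) (PT.lf (nat_lit 51984) (nat_lit 6) (nat_lit 684) (nat_lit 4) (nat_lit 247) (nat_lit 273) (nat_lit 260)) (PT.lf (nat_lit 51908) (nat_lit 6) (nat_lit 683) (nat_lit 4) (nat_lit 248) (nat_lit 273) (nat_lit 259))) (PT.nd (nat_lit 78) (PT.lf (nat_lit 51832) (nat_lit 6) (nat_lit 682) (nat_lit 4) (nat_lit 249) (nat_lit 273) (nat_lit 258)) (PT.lf (nat_lit 51756) (nat_lit 6) (nat_lit 681) (nat_lit 4) (nat_lit 250) (nat_lit 273) (nat_lit 257)))))) (PT.nd (nat_lit 624) (PT.nd (nat_lit 312) (PT.nd (nat_lit 156) (PT.nd (nat_lit 78) (PT.lf (nat_lit 51680) (nat_lit 6) (nat_lit 680) (nat_lit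 4) (nat_lit 251) (nat_lit 273) (nat_lit 256)) (PT.lf (nat_lit 51604) (nat_lit 6) (nat_lit 679) (nat_lit 4) (nat_lit 252) (nat_lit 273) (nat_lit 255))) (PT.nd (nat_lit 78) (PT.lf (nat_lit 51528) (nat_lit 6) (nat_lit 678) (nat_lit 4) (nat_lit 253) (nat_lit 273) (nat_lit 254)) (PT.lf (nat_lit 51528) (nat_lit 6) (nat_lit 678) (nat_lit 2) (nat_lit 254) (nat_lit 273) (nat_lit 253)))) (PT.nd (nat_lit 156) (PT.nd (nat_lit 78) (PT.lf (nat_lit 51604) (nat_lit 6) (nat_lit 679) (nat_lit 2) (nat_lit 255) (nat_lit 273) (nat_lit 252)) (PT.lf (nat_lit 51680) (nat_lit 6) (nat_lit 680) (nat_lit 2) (nat_lit 256) (nat_lit 273) (nat_lit 251))) (PT.nd (nat_lit 78) (PT.lf (nat_lit 51756) (nat_lit 6) (nat_lit 681) (nat_lit 2) (nat_lit 257) (nat_lit 273) (nat_lit 250)) (PT.lf (nat_lit 51832) (nat_lit 6) (nat_lit 682) (nat_lit 2) (nat_lit 258) (nat_lit 273) (nat_lit 249))))) (PT.nd (nat_lit 312) (PT.nd (nat_lit 156) (PT.nd (nat_lit 78) (PT.lf (nat_lit 51908) (nat_lit 6) (nat_lit 683) (nat_lit 2) (nat_lit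 259) (nat_lit 273) (nat_lit 248)) (PT.lf (nat_lit 51984) (nat_lit 6) (nat_lit 684) (nat_lit 2) (nat_lit 260) (nat_lit 273) (nat_lit 247))) (PT.nd (nat_lit 78) (PT.lf (nat_lit 50996) (nat_lit 6) (nat_lit 671) (nat_lit 2) (nat_lit 261) (nat_lit 273) (nat_lit 246)) (PT.lf (nat_lit 49932) (nat_lit 6) (nat_lit 657) (nat_lit 2) (nat_lit 262) (nat_lit 273) (nat_lit 245)))) (PT.nd (nat_lit 156) (PT.nd (nat_lit 78) (PT.lf (nat_lit 48792) (nat_lit 6) (nat_lit 642) (nat_lit 2) (nat_lit 263) (nat_lit 273) (nat_lit 244)) (PT.lf (nat_lit 47576) (nat_lit 6) (nat_lit 626) (nat_lit 2) (nat_lit 264) (nat_lit 273) (nat_lit 243))) (PT.nd (nat_lit 78) (PT.lf (nat_lit 46284) (nat_lit 6) (nat_lit 609) (nat_lit 2) (nat_lit 265) (nat_lit 273) (nat_lit 242)) (PT.lf (nat_lit 44916) (nat_lit 6) (nat_lit 591) (nat_lit 2) (nat_lit 266) (nat_lit 273) (nat_lit 241))))))))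
noncomputable def pc39 : PT := (PT.nd (nat_lit 78000) (PT.nd (nat_lit 1170) (PT.nd (nat_lit 546) (PT.nd (nat_lit 234) (PT.nd (nat_lit 78) (PT.lf (nat_lit 43472) (nat_lit 6) (nat_lit 572) (nat_lit 2) (nat_lit 267) (nat_lit 273) (nat_lit 240)) (PT.nd (nat_lit 78) (PT.lf (nat_lit 41952) (nat_lit 6) (nat_lit 552) (nat_lit 2) (nat_lit 268) (nat_lit 273) (nat_lit 239)) (PT.lf (nat_lit 40356) (nat_lit 6) (nat_lit 531) (nat_lit 2) (nat_lit 269) (nat_lit 273) (nat_lit 238)))) (PT.nd (nat_lit 156) (PT.nd (nat_lit 78) (PT.lf (nat_lit 38684) (nat_lit 6) (nat_lit 509) (nat_lit 2) (nat_lit 270) (nat_lit 273) (nat_lit 237)) (PT.lf (nat_lit 36936) (nat_lit 6) (nat_lit 486) (nat_lit 2) (nat_lit 271) (nat_lit 273) (nat_lit 236))) (PT.nd (nat_lit 78) (PT.lf (nat_lit 35112) (nat_lit 6) (nat_lit 462) (nat_lit 2) (nat_lit 272) (nat_lit 273) (nat_lit 235)) (PT.lf (nat_lit 34048) (nat_lit 3) (nat_lit 448) (nat_lit 0) (nat_lit 273) (nat_lit 273) (nat_lit 234))))) (PT.nd (nat_lit 312) (PT.nd (nat_lit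 156) (PT.nd (nat_lit 78) (PT.lf (nat_lit 33060) (nat_lit 6) (nat_lit 435) (nat_lit 0) (nat_lit 274) (nat_lit 273) (nat_lit 233)) (PT.lf (nat_lit 32072) (nat_lit 6) (nat_lit 422) (nat_lit 0) (nat_lit 275) (nat_lit 273) (nat_lit 232))) (PT.nd (nat_lit 78) (PT.lf (nat_lit 31160) (nat_lit 6) (nat_lit 410) (nat_lit 0) (nat_lit 276) (nat_lit 273) (nat_lit 231)) (PT.lf (nat_lit 30248) (nat_lit 6) (nat_lit 398) (nat_lit 0) (nat_lit 277) (nat_lit 273) (nat_lit 230)))) (PT.nd (nat_lit 156) (PT.nd (nat_lit 78) (PT.lf (nat_lit 29336) (nat_lit 6) (nat_lit 386) (nat_lit 0) (nat_lit 278) (nat_lit 273) (nat_lit 229)) (PT.lf (nat_lit 28424) (nat_lit 6) (nat_lit 374) (nat_lit 0) (nat_lit 279) (nat_lit 273) (nat_lit 228))) (PT.nd (nat_lit 78) (PT.lf (nat_lit 27588) (nat_lit 6) (nat_lit 363) (nat_lit 0) (nat_lit 280) (nat_lit 273) (nat_lit 227)) (PT.lf (nat_lit 26752) (nat_lit 6) (nat_lit 352) (nat_lit 0) (nat_lit 281) (nat_lit 273) (nat_lit 226)))))) (PT.nd (nat_lit 76206) (PT.nd (nat_lit 312)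 (PT.nd (nat_lit 156) (PT.nd (nat_lit 78) (PT.lf (nat_lit 25992) (nat_lit 6) (nat_lit 342) (nat_lit 0) (nat_lit 282) (nat_lit 273) (nat_lit 225)) (PT.lf (nat_lit 25156) (nat_lit 6) (nat_lit 331) (nat_lit 0) (nat_lit 283) (nat_lit 273) (nat_lit 224))) (PT.nd (nat_lit 78) (PT.lf (nat_lit 24396) (nat_lit 6) (nat_lit 321) (nat_lit 0) (nat_lit 284) (nat_lit 273) (nat_lit 223)) (PT.lf (nat_lit 23636) (nat_lit 6) (nat_lit 311) (nat_lit 0) (nat_lit 285) (nat_lit 273) (nat_lit 222)))) (PT.nd (nat_lit 156) (PT.nd (nat_lit 78) (PT.lf (nat_lit 22952) (nat_lit 6) (nat_lit 302) (nat_lit 0) (nat_lit 286) (nat_lit 273) (nat_lit 221)) (PT.lf (nat_lit 22192) (nat_lit 6) (nat_lit 292) (nat_lit 0) (nat_lit 287) (nat_lit 273) (nat_lit 220))) (PT.nd (nat_lit 75660) (PT.lf (nat_lit 21508) (nat_lit 6) (nat_lit 283) (nat_lit 0) (nat_lit 288) (nat_lit 273) (nat_lit 219)) (PT.lf (nat_lit 20216) (nat_lit 6) (nat_lit 266) (nat_lit 5) (nat_lit 217) (nat_lit 274) (nat_lit 289))))) (PT.nd (nat_lit 312) (PT.nd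 (nat_lit 156) (PT.nd (nat_lit 78) (PT.lf (nat_lit 20900) (nat_lit 6) (nat_lit 275) (nat_lit 5) (nat_lit 218) (nat_lit 274) (nat_lit 288)) (PT.lf (nat_lit 21584) (nat_lit 6) (nat_lit 284) (nat_lit 5) (nat_lit 219) (nat_lit 274) (nat_lit 287))) (PT.nd (nat_lit 78) (PT.lf (nat_lit 22268) (nat_lit 6) (nat_lit 293) (nat_lit 5) (nat_lit 220) (nat_lit 274) (nat_lit 286)) (PT.lf (nat_lit 23028) (nat_lit 6) (nat_lit 303) (nat_lit 5) (nat_lit 221) (nat_lit 274) (nat_lit 285)))) (PT.nd (nat_lit 156) (PT.nd (nat_lit 78) (PT.lf (nat_lit 23712) (nat_lit 6) (nat_lit 312) (nat_lit 5) (nat_lit 222) (nat_lit 274) (nat_lit 284)) (PT.lf (nat_lit 24472) (nat_lit 6) (nat_lit 322) (nat_lit 5) (nat_lit 223) (nat_lit 274) (nat_lit 283))) (PT.nd (nat_lit 78) (PT.lf (nat_lit 25232) (nat_lit 6) (nat_lit 332) (nat_lit 5) (nat_lit 224) (nat_lit 274) (nat_lit 282)) (PT.lf (nat_lit 26068) (nat_lit 6) (nat_lit 343) (nat_lit 5) (nat_lit 225) (nat_lit 274) (nat_lit 281))))))) (PT.nd (nat_lit 1248) (PT.nd (nat_lit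 624) (PT.nd (nat_lit 312) (PT.nd (nat_lit 156) (PT.nd (nat_lit 78) (PT.lf (nat_lit 26828) (nat_lit 6) (nat_lit 353) (nat_lit 5) (nat_lit 226) (nat_lit 274) (nat_lit 280)) (PT.lf (nat_lit 27664) (nat_lit 6) (nat_lit 364) (nat_lit 5) (nat_lit 227) (nat_lit 274) (nat_lit 279))) (PT.nd (nat_lit 78) (PT.lf (nat_lit 28500) (nat_lit 6) (nat_lit 375) (nat_lit 5) (nat_lit 228) (nat_lit 274) (nat_lit 278)) (PT.lf (nat_lit 29412) (nat_lit 6) (nat_lit 387) (nat_lit 5) (nat_lit 229) (nat_lit 274) (nat_lit 277)))) (PT.nd (nat_lit 156) (PT.nd (nat_lit 78) (PT.lf (nat_lit 30324) (nat_lit 6) (nat_lit 399) (nat_lit 5) (nat_lit 230) (nat_lit 274) (nat_lit 276)) (PT.lf (nat_lit 31236) (nat_lit 6) (nat_lit 411) (nat_lit 5) (nat_lit 231) (nat_lit 274) (nat_lit 275))) (PT.nd (nat_lit 78) (PT.lf (nat_lit 32148) (nat_lit 3) (nat_lit 423) (nat_lit 4) (nat_lit 232) (nat_lit 274) (nat_lit 274)) (PT.lf (nat_lit 33060) (nat_lit 6) (nat_lit 435) (nat_lit 4) (nat_lit 233) (nat_lit 274) (nat_lit 273)))))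 (PT.nd (nat_lit 312) (PT.nd (nat_lit 156) (PT.nd (nat_lit 78) (PT.lf (nat_lit 33972) (nat_lit 6) (nat_lit 447) (nat_lit 4) (nat_lit 234) (nat_lit 274) (nat_lit 272)) (PT.lf (nat_lit 35036) (nat_lit 6) (nat_lit 461) (nat_lit 4) (nat_lit 235) (nat_lit 274) (nat_lit 271))) (PT.nd (nat_lit 78) (PT.lf (nat_lit 36860) (nat_lit 6) (nat_lit 485) (nat_lit 4) (nat_lit 236) (nat_lit 274) (nat_lit 270)) (PT.lf (nat_lit 38608) (nat_lit 6) (nat_lit 508) (nat_lit 4) (nat_lit 237) (nat_lit 274) (nat_lit 269)))) (PT.nd (nat_lit 156) (PT.nd (nat_lit 78) (PT.lf (nat_lit 40280) (nat_lit 6) (nat_lit 530) (nat_lit 4) (nat_lit 238) (nat_lit 274) (nat_lit 268)) (PT.lf (nat_lit 41876) (nat_lit 6) (nat_lit 551) (nat_lit 4) (nat_lit 239) (nat_lit 274) (nat_lit 267))) (PT.nd (nat_lit 78) (PT.lf (nat_lit 43396) (nat_lit 6) (nat_lit 571) (nat_lit 4) (nat_lit 240) (nat_lit 274) (nat_lit 266)) (PT.lf (nat_lit 44840) (nat_lit 6) (nat_lit 590) (nat_lit 4) (nat_lit 241) (nat_lit 274) (nat_lit 265)))))) (PT.nd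 (nat_lit 624) (PT.nd (nat_lit 312) (PT.nd (nat_lit 156) (PT.nd (nat_lit 78) (PT.lf (nat_lit 46208) (nat_lit 6) (nat_lit 608) (nat_lit 4) (nat_lit 242) (nat_lit 274) (nat_lit 264)) (PT.lf (nat_lit 47500) (nat_lit 6) (nat_lit 625) (nat_lit 4) (nat_lit 243) (nat_lit 274) (nat_lit 263))) (PT.nd (nat_lit 78) (PT.lf (nat_lit 48716) (nat_lit 6) (nat_lit 641) (nat_lit 4) (nat_lit 244) (nat_lit 274) (nat_lit 262)) (PT.lf (nat_lit 49856) (nat_lit 6) (nat_lit 656) (nat_lit 4) (nat_lit 245) (nat_lit 274) (nat_lit 261)))) (PT.nd (nat_lit 156) (PT.nd (nat_lit 78) (PT.lf (nat_lit 50920) (nat_lit 6) (nat_lit 670) (nat_lit 4) (nat_lit 246) (nat_lit 274) (nat_lit 260)) (PT.lf (nat_lit 50844) (nat_lit 6) (nat_lit 669) (nat_lit 4) (nat_lit 247) (nat_lit 274) (nat_lit 259))) (PT.nd (nat_lit 78) (PT.lf (nat_lit 50768) (nat_lit 6) (nat_lit 668) (nat_lit 4) (nat_lit 248) (nat_lit 274) (nat_lit 258)) (PT.lf (nat_lit 50692) (nat_lit 6) (nat_lit 667) (nat_lit 4) (nat_lit 249) (nat_lit 274) (nat_lit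 257))))) (PT.nd (nat_lit 312) (PT.nd (nat_lit 156) (PT.nd (nat_lit 78) (PT.lf (nat_lit 50616) (nat_lit 6) (nat_lit 666) (nat_lit 4) (nat_lit 250) (nat_lit 274) (nat_lit 256)) (PT.lf (nat_lit 50540) (nat_lit 6) (nat_lit 665) (nat_lit 4) (nat_lit 251) (nat_lit 274) (nat_lit 255))) (PT.nd (nat_lit 78) (PT.lf (nat_lit 50464) (nat_lit 6) (nat_lit 664) (nat_lit 4) (nat_lit 252) (nat_lit 274) (nat_lit 254)) (PT.lf (nat_lit 50388) (nat_lit 3) (nat_lit 663) (nat_lit 2) (nat_lit 253) (nat_lit 274) (nat_lit 253)))) (PT.nd (nat_lit 156) (PT.nd (nat_lit 78) (PT.lf (nat_lit 50464) (nat_lit 6) (nat_lit 664) (nat_lit 2) (nat_lit 254) (nat_lit 274) (nat_lit 252)) (PT.lf (nat_lit 50540) (nat_lit 6) (nat_lit 665) (nat_lit 2) (nat_lit 255) (nat_lit 274) (nat_lit 251))) (PT.nd (nat_lit 78) (PT.lf (nat_lit 50616) (nat_lit 6) (nat_lit 666) (nat_lit 2) (nat_lit 256) (nat_lit 274) (nat_lit 250)) (PT.lf (nat_lit 50692) (nat_lit 6) (nat_lit 667) (nat_lit 2) (nat_lit 257) (nat_lit 274) (nat_lit 249))))))))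
noncomputable def pc40 : PT := (PT.nd (nat_lit 2418) (PT.nd (nat_lit 1170) (PT.nd (nat_lit 546) (PT.nd (nat_lit 234) (PT.nd (nat_lit 78) (PT.lf (nat_lit 50768) (nat_lit 6) (nat_lit 668) (nat_lit 2) (nat_lit 258) (nat_lit 274) (nat_lit 248)) (PT.nd (nat_lit 78) (PT.lf (nat_lit 50844) (nat_lit 6) (nat_lit 669) (nat_lit 2) (nat_lit 259) (nat_lit 274) (nat_lit 247)) (PT.lf (nat_lit 50920) (nat_lit 6) (nat_lit 670) (nat_lit 2) (nat_lit 260) (nat_lit 274) (nat_lit 246)))) (PT.nd (nat_lit 156) (PT.nd (nat_lit 78) (PT.lf (nat_lit 49856) (nat_lit 6) (nat_lit 656) (nat_lit 2) (nat_lit 261) (nat_lit 274) (nat_lit 245)) (PT.lf (nat_lit 48716) (nat_lit 6) (nat_lit 641) (nat_lit 2) (nat_lit 262) (nat_lit 274) (nat_lit 244))) (PT.nd (nat_lit 78) (PT.lf (nat_lit 47500) (nat_lit 6) (nat_lit 625) (nat_lit 2) (nat_lit 263) (nat_lit 274) (nat_lit 243)) (PT.lf (nat_lit 46208) (nat_lit 6) (nat_lit 608) (nat_lit 2) (nat_lit 264) (nat_lit 274) (nat_lit 242))))) (PT.nd (nat_lit 312) (PT.nd (nat_lit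 156) (PT.nd (nat_lit 78) (PT.lf (nat_lit 44840) (nat_lit 6) (nat_lit 590) (nat_lit 2) (nat_lit 265) (nat_lit 274) (nat_lit 241)) (PT.lf (nat_lit 43396) (nat_lit 6) (nat_lit 571) (nat_lit 2) (nat_lit 266) (nat_lit 274) (nat_lit 240))) (PT.nd (nat_lit 78) (PT.lf (nat_lit 41876) (nat_lit 6) (nat_lit 551) (nat_lit 2) (nat_lit 267) (nat_lit 274) (nat_lit 239)) (PT.lf (nat_lit 40280) (nat_lit 6) (nat_lit 530) (nat_lit 2) (nat_lit 268) (nat_lit 274) (nat_lit 238)))) (PT.nd (nat_lit 156) (PT.nd (nat_lit 78) (PT.lf (nat_lit 38608) (nat_lit 6) (nat_lit 508) (nat_lit 2) (nat_lit 269) (nat_lit 274) (nat_lit 237)) (PT.lf (nat_lit 36860) (nat_lit 6) (nat_lit 485) (nat_lit 2) (nat_lit 270) (nat_lit 274) (nat_lit 236))) (PT.nd (nat_lit 78) (PT.lf (nat_lit 35036) (nat_lit 6) (nat_lit 461) (nat_lit 2) (nat_lit 271) (nat_lit 274) (nat_lit 235)) (PT.lf (nat_lit 33972) (nat_lit 6) (nat_lit 447) (nat_lit 2) (nat_lit 272) (nat_lit 274) (nat_lit 234)))))) (PT.nd (nat_lit 624) (PT.nd (nat_lit 312)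 (PT.nd (nat_lit 156) (PT.nd (nat_lit 78) (PT.lf (nat_lit 33060) (nat_lit 6) (nat_lit 435) (nat_lit 2) (nat_lit 273) (nat_lit 274) (nat_lit 233)) (PT.lf (nat_lit 32148) (nat_lit 3) (nat_lit 423) (nat_lit 0) (nat_lit 274) (nat_lit 274) (nat_lit 232))) (PT.nd (nat_lit 78) (PT.lf (nat_lit 31236) (nat_lit 6) (nat_lit 411) (nat_lit 0) (nat_lit 275) (nat_lit 274) (nat_lit 231)) (PT.lf (nat_lit 30324) (nat_lit 6) (nat_lit 399) (nat_lit 0) (nat_lit 276) (nat_lit 274) (nat_lit 230)))) (PT.nd (nat_lit 156) (PT.nd (nat_lit 78) (PT.lf (nat_lit 29412) (nat_lit 6) (nat_lit 387) (nat_lit 0) (nat_lit 277) (nat_lit 274) (nat_lit 229)) (PT.lf (nat_lit 28500) (nat_lit 6) (nat_lit 375) (nat_lit 0) (nat_lit 278) (nat_lit 274) (nat_lit 228))) (PT.nd (nat_lit 78) (PT.lf (nat_lit 27664) (nat_lit 6) (nat_lit 364) (nat_lit 0) (nat_lit 279) (nat_lit 274) (nat_lit 227)) (PT.lf (nat_lit 26828) (nat_lit 6) (nat_lit 353) (nat_lit 0) (nat_lit 280) (nat_lit 274) (nat_lit 226))))) (PT.nd (nat_lit 312) (PT.nd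 (nat_lit 156) (PT.nd (nat_lit 78) (PT.lf (nat_lit 26068) (nat_lit 6) (nat_lit 343) (nat_lit 0) (nat_lit 281) (nat_lit 274) (nat_lit 225)) (PT.lf (nat_lit 25232) (nat_lit 6) (nat_lit 332) (nat_lit 0) (nat_lit 282) (nat_lit 274) (nat_lit 224))) (PT.nd (nat_lit 78) (PT.lf (nat_lit 24472) (nat_lit 6) (nat_lit 322) (nat_lit 0) (nat_lit 283) (nat_lit 274) (nat_lit 223)) (PT.lf (nat_lit 23712) (nat_lit 6) (nat_lit 312) (nat_lit 0) (nat_lit 284) (nat_lit 274) (nat_lit 222)))) (PT.nd (nat_lit 156) (PT.nd (nat_lit 78) (PT.lf (nat_lit 23028) (nat_lit 6) (nat_lit 303) (nat_lit 0) (nat_lit 285) (nat_lit 274) (nat_lit 221)) (PT.lf (nat_lit 22268) (nat_lit 6) (nat_lit 293) (nat_lit 0) (nat_lit 286) (nat_lit 274) (nat_lit 220))) (PT.nd (nat_lit 78) (PT.lf (nat_lit 21584) (nat_lit 6) (nat_lit 284) (nat_lit 0) (nat_lit 287) (nat_lit 274) (nat_lit 219)) (PT.lf (nat_lit 20900) (nat_lit 6) (nat_lit 275) (nat_lit 0) (nat_lit 288) (nat_lit 274) (nat_lit 218))))))) (PT.nd (nat_lit 76596) (PT.nd (nat_lit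 75972) (PT.nd (nat_lit 75660) (PT.nd (nat_lit 75504) (PT.lf (nat_lit 20216) (nat_lit 6) (nat_lit 266) (nat_lit 0) (nat_lit 289) (nat_lit 274) (nat_lit 217)) (PT.nd (nat_lit 78) (PT.lf (nat_lit 19608) (nat_lit 6) (nat_lit 258) (nat_lit 5) (nat_lit 216) (nat_lit 275) (nat_lit 289)) (PT.lf (nat_lit 20292) (nat_lit 6) (nat_lit 267) (nat_lit 5) (nat_lit 217) (nat_lit 275) (nat_lit 288)))) (PT.nd (nat_lit 156) (PT.nd (nat_lit 78) (PT.lf (nat_lit 20976) (nat_lit 6) (nat_lit 276) (nat_lit 5) (nat_lit 218) (nat_lit 275) (nat_lit 287)) (PT.lf (nat_lit 21660) (nat_lit 6) (nat_lit 285) (nat_lit 5) (nat_lit 219) (nat_lit 275) (nat_lit 286))) (PT.nd (nat_lit 78) (PT.lf (nat_lit 22344) (nat_lit 6) (nat_lit 294) (nat_lit 5) (nat_lit 220) (nat_lit 275) (nat_lit 285)) (PT.lf (nat_lit 23104) (nat_lit 6) (nat_lit 304) (nat_lit 5) (nat_lit 221) (nat_lit 275) (nat_lit 284))))) (PT.nd (nat_lit 312) (PT.nd (nat_lit 156) (PT.nd (nat_lit 78) (PT.lf (nat_lit 23788) (nat_lit 6) (nat_lit 313) (nat_lit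 5) (nat_lit 222) (nat_lit 275) (nat_lit 283)) (PT.lf (nat_lit 24548) (nat_lit 6) (nat_lit 323) (nat_lit 5) (nat_lit 223) (nat_lit 275) (nat_lit 282))) (PT.nd (nat_lit 78) (PT.lf (nat_lit 25308) (nat_lit 6) (nat_lit 333) (nat_lit 5) (nat_lit 224) (nat_lit 275) (nat_lit 281)) (PT.lf (nat_lit 26144) (nat_lit 6) (nat_lit 344) (nat_lit 5) (nat_lit 225) (nat_lit 275) (nat_lit 280)))) (PT.nd (nat_lit 156) (PT.nd (nat_lit 78) (PT.lf (nat_lit 26904) (nat_lit 6) (nat_lit 354) (nat_lit 5) (nat_lit 226) (nat_lit 275) (nat_lit 279)) (PT.lf (nat_lit 27740) (nat_lit 6) (nat_lit 365) (nat_lit 5) (nat_lit 227) (nat_lit 275) (nat_lit 278))) (PT.nd (nat_lit 78) (PT.lf (nat_lit 28576) (nat_lit 6) (nat_lit 376) (nat_lit 5) (nat_lit 228) (nat_lit 275) (nat_lit 277)) (PT.lf (nat_lit 29488) (nat_lit 6) (nat_lit 388) (nat_lit 5) (nat_lit 229) (nat_lit 275) (nat_lit 276)))))) (PT.nd (nat_lit 624) (PT.nd (nat_lit 312) (PT.nd (nat_lit 156) (PT.nd (nat_lit 78) (PT.lf (nat_lit 30400) (nat_lit 3) (nat_lit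 400) (nat_lit 4) (nat_lit 230) (nat_lit 275) (nat_lit 275)) (PT.lf (nat_lit 31236) (nat_lit 6) (nat_lit 411) (nat_lit 4) (nat_lit 231) (nat_lit 275) (nat_lit 274))) (PT.nd (nat_lit 78) (PT.lf (nat_lit 32072) (nat_lit 6) (nat_lit 422) (nat_lit 4) (nat_lit 232) (nat_lit 275) (nat_lit 273)) (PT.lf (nat_lit 32984) (nat_lit 6) (nat_lit 434) (nat_lit 4) (nat_lit 233) (nat_lit 275) (nat_lit 272)))) (PT.nd (nat_lit 156) (PT.nd (nat_lit 78) (PT.lf (nat_lit 33896) (nat_lit 6) (nat_lit 446) (nat_lit 4) (nat_lit 234) (nat_lit 275) (nat_lit 271)) (PT.lf (nat_lit 34960) (nat_lit 6) (nat_lit 460) (nat_lit 4) (nat_lit 235) (nat_lit 275) (nat_lit 270))) (PT.nd (nat_lit 78) (PT.lf (nat_lit 36784) (nat_lit 6) (nat_lit 484) (nat_lit 4) (nat_lit 236) (nat_lit 275) (nat_lit 269)) (PT.lf (nat_lit 38532) (nat_lit 6) (nat_lit 507) (nat_lit 4) (nat_lit 237) (nat_lit 275) (nat_lit 268))))) (PT.nd (nat_lit 312) (PT.nd (nat_lit 156) (PT.nd (nat_lit 78) (PT.lf (nat_lit 40204) (nat_lit 6) (nat_lit 529)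 (nat_lit 4) (nat_lit 238) (nat_lit 275) (nat_lit 267)) (PT.lf (nat_lit 41800) (nat_lit 6) (nat_lit 550) (nat_lit 4) (nat_lit 239) (nat_lit 275) (nat_lit 266))) (PT.nd (nat_lit 78) (PT.lf (nat_lit 43320) (nat_lit 6) (nat_lit 570) (nat_lit 4) (nat_lit 240) (nat_lit 275) (nat_lit 265)) (PT.lf (nat_lit 44764) (nat_lit 6) (nat_lit 589) (nat_lit 4) (nat_lit 241) (nat_lit 275) (nat_lit 264)))) (PT.nd (nat_lit 156) (PT.nd (nat_lit 78) (PT.lf (nat_lit 46132) (nat_lit 6) (nat_lit 607) (nat_lit 4) (nat_lit 242) (nat_lit 275) (nat_lit 263)) (PT.lf (nat_lit 47424) (nat_lit 6) (nat_lit 624) (nat_lit 4) (nat_lit 243) (nat_lit 275) (nat_lit 262))) (PT.nd (nat_lit 78) (PT.lf (nat_lit 48640) (nat_lit 6) (nat_lit 640) (nat_lit 4) (nat_lit 244) (nat_lit 275) (nat_lit 261)) (PT.lf (nat_lit 49780) (nat_lit 6) (nat_lit 655) (nat_lit 4) (nat_lit 245) (nat_lit 275) (nat_lit 260))))))))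
noncomputable def pc41 : PT := (PT.nd (nat_lit 2418) (PT.nd (nat_lit 1170) (PT.nd (nat_lit 546) (PT.nd (nat_lit 234) (PT.nd (nat_lit 78) (PT.lf (nat_lit 49704) (nat_lit 6) (nat_lit 654) (nat_lit 4) (nat_lit 246) (nat_lit 275) (nat_lit 259)) (PT.nd (nat_lit 78) (PT.lf (nat_lit 49628) (nat_lit 6) (nat_lit 653) (nat_lit 4) (nat_lit 247) (nat_lit 275) (nat_lit 258)) (PT.lf (nat_lit 49552) (nat_lit 6) (nat_lit 652) (nat_lit 4) (nat_lit 248) (nat_lit 275) (nat_lit 257)))) (PT.nd (nat_lit 156) (PT.nd (nat_lit 78) (PT.lf (nat_lit 49476) (nat_lit 6) (nat_lit 651) (nat_lit 4) (nat_lit 249) (nat_lit 275) (nat_lit 256)) (PT.lf (nat_lit 49400) (nat_lit 6) (nat_lit 650) (nat_lit 4) (nat_lit 250) (nat_lit 275) (nat_lit 255))) (PT.nd (nat_lit 78) (PT.lf (nat_lit 49324) (nat_lit 6) (nat_lit 649) (nat_lit 4) (nat_lit 251) (nat_lit 275) (nat_lit 254)) (PT.lf (nat_lit 49248) (nat_lit 6) (nat_lit 648) (nat_lit 4) (nat_lit 252) (nat_lit 275) (nat_lit 253))))) (PT.nd (nat_lit 312) (PT.nd (nat_lit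 156) (PT.nd (nat_lit 78) (PT.lf (nat_lit 49248) (nat_lit 6) (nat_lit 648) (nat_lit 2) (nat_lit 253) (nat_lit 275) (nat_lit 252)) (PT.lf (nat_lit 49324) (nat_lit 6) (nat_lit 649) (nat_lit 2) (nat_lit 254) (nat_lit 275) (nat_lit 251))) (PT.nd (nat_lit 78) (PT.lf (nat_lit 49400) (nat_lit 6) (nat_lit 650) (nat_lit 2) (nat_lit 255) (nat_lit 275) (nat_lit 250)) (PT.lf (nat_lit 49476) (nat_lit 6) (nat_lit 651) (nat_lit 2) (nat_lit 256) (nat_lit 275) (nat_lit 249)))) (PT.nd (nat_lit 156) (PT.nd (nat_lit 78) (PT.lf (nat_lit 49552) (nat_lit 6) (nat_lit 652) (nat_lit 2) (nat_lit 257) (nat_lit 275) (nat_lit 248)) (PT.lf (nat_lit 49628) (nat_lit 6) (nat_lit 653) (nat_lit 2) (nat_lit 258) (nat_lit 275) (nat_lit 247))) (PT.nd (nat_lit 78) (PT.lf (nat_lit 49704) (nat_lit 6) (nat_lit 654) (nat_lit 2) (nat_lit 259) (nat_lit 275) (nat_lit 246)) (PT.lf (nat_lit 49780) (nat_lit 6) (nat_lit 655) (nat_lit 2) (nat_lit 260) (nat_lit 275) (nat_lit 245)))))) (PT.nd (nat_lit 624) (PT.nd (nat_lit 312)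 (PT.nd (nat_lit 156) (PT.nd (nat_lit 78) (PT.lf (nat_lit 48640) (nat_lit 6) (nat_lit 640) (nat_lit 2) (nat_lit 261) (nat_lit 275) (nat_lit 244)) (PT.lf (nat_lit 47424) (nat_lit 6) (nat_lit 624) (nat_lit 2) (nat_lit 262) (nat_lit 275) (nat_lit 243))) (PT.nd (nat_lit 78) (PT.lf (nat_lit 46132) (nat_lit 6) (nat_lit 607) (nat_lit 2) (nat_lit 263) (nat_lit 275) (nat_lit 242)) (PT.lf (nat_lit 44764) (nat_lit 6) (nat_lit 589) (nat_lit 2) (nat_lit 264) (nat_lit 275) (nat_lit 241)))) (PT.nd (nat_lit 156) (PT.nd (nat_lit 78) (PT.lf (nat_lit 43320) (nat_lit 6) (nat_lit 570) (nat_lit 2) (nat_lit 265) (nat_lit 275) (nat_lit 240)) (PT.lf (nat_lit 41800) (nat_lit 6) (nat_lit 550) (nat_lit 2) (nat_lit 266) (nat_lit 275) (nat_lit 239))) (PT.nd (nat_lit 78) (PT.lf (nat_lit 40204) (nat_lit 6) (nat_lit 529) (nat_lit 2) (nat_lit 267) (nat_lit 275) (nat_lit 238)) (PT.lf (nat_lit 38532) (nat_lit 6) (nat_lit 507) (nat_lit 2) (nat_lit 268) (nat_lit 275) (nat_lit 237))))) (PT.nd (nat_lit 312) (PT.nd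 (nat_lit 156) (PT.nd (nat_lit 78) (PT.lf (nat_lit 36784) (nat_lit 6) (nat_lit 484) (nat_lit 2) (nat_lit 269) (nat_lit 275) (nat_lit 236)) (PT.lf (nat_lit 34960) (nat_lit 6) (nat_lit 460) (nat_lit 2) (nat_lit 270) (nat_lit 275) (nat_lit 235))) (PT.nd (nat_lit 78) (PT.lf (nat_lit 33896) (nat_lit 6) (nat_lit 446) (nat_lit 2) (nat_lit 271) (nat_lit 275) (nat_lit 234)) (PT.lf (nat_lit 32984) (nat_lit 6) (nat_lit 434) (nat_lit 2) (nat_lit 272) (nat_lit 275) (nat_lit 233)))) (PT.nd (nat_lit 156) (PT.nd (nat_lit 78) (PT.lf (nat_lit 32072) (nat_lit 6) (nat_lit 422) (nat_lit 2) (nat_lit 273) (nat_lit 275) (nat_lit 232)) (PT.lf (nat_lit 31236) (nat_lit 6) (nat_lit 411) (nat_lit 2) (nat_lit 274) (nat_lit 275) (nat_lit 231))) (PT.nd (nat_lit 78) (PT.lf (nat_lit 30400) (nat_lit 3) (nat_lit 400) (nat_lit 0) (nat_lit 275) (nat_lit 275) (nat_lit 230)) (PT.lf (nat_lit 29488) (nat_lit 6) (nat_lit 388) (nat_lit 0) (nat_lit 276) (nat_lit 275) (nat_lit 229))))))) (PT.nd (nat_lit 76440) (PT.nd (nat_lit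 546) (PT.nd (nat_lit 234) (PT.nd (nat_lit 78) (PT.lf (nat_lit 28576) (nat_lit 6) (nat_lit 376) (nat_lit 0) (nat_lit 277) (nat_lit 275) (nat_lit 228)) (PT.nd (nat_lit 78) (PT.lf (nat_lit 27740) (nat_lit 6) (nat_lit 365) (nat_lit 0) (nat_lit 278) (nat_lit 275) (nat_lit 227)) (PT.lf (nat_lit 26904) (nat_lit 6) (nat_lit 354) (nat_lit 0) (nat_lit 279) (nat_lit 275) (nat_lit 226)))) (PT.nd (nat_lit 156) (PT.nd (nat_lit 78) (PT.lf (nat_lit 26144) (nat_lit 6) (nat_lit 344) (nat_lit 0) (nat_lit 280) (nat_lit 275) (nat_lit 225)) (PT.lf (nat_lit 25308) (nat_lit 6) (nat_lit 333) (nat_lit 0) (nat_lit 281) (nat_lit 275) (nat_lit 224))) (PT.nd (nat_lit 78) (PT.lf (nat_lit 24548) (nat_lit 6) (nat_lit 323) (nat_lit 0) (nat_lit 282) (nat_lit 275) (nat_lit 223)) (PT.lf (nat_lit 23788) (nat_lit 6) (nat_lit 313) (nat_lit 0) (nat_lit 283) (nat_lit 275) (nat_lit 222))))) (PT.nd (nat_lit 312) (PT.nd (nat_lit 156) (PT.nd (nat_lit 78) (PT.lf (nat_lit 23104) (nat_lit 6) (nat_lit 304) (nat_lit 0) (nat_lit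 284) (nat_lit 275) (nat_lit 221)) (PT.lf (nat_lit 22344) (nat_lit 6) (nat_lit 294) (nat_lit 0) (nat_lit 285) (nat_lit 275) (nat_lit 220))) (PT.nd (nat_lit 78) (PT.lf (nat_lit 21660) (nat_lit 6) (nat_lit 285) (nat_lit 0) (nat_lit 286) (nat_lit 275) (nat_lit 219)) (PT.lf (nat_lit 20976) (nat_lit 6) (nat_lit 276) (nat_lit 0) (nat_lit 287) (nat_lit 275) (nat_lit 218)))) (PT.nd (nat_lit 75426) (PT.nd (nat_lit 78) (PT.lf (nat_lit 20292) (nat_lit 6) (nat_lit 267) (nat_lit 0) (nat_lit 288) (nat_lit 275) (nat_lit 217)) (PT.lf (nat_lit 19608) (nat_lit 6) (nat_lit 258) (nat_lit 0) (nat_lit 289) (nat_lit 275) (nat_lit 216))) (PT.nd (nat_lit 78) (PT.lf (nat_lit 18468) (nat_lit 6) (nat_lit 243) (nat_lit 5) (nat_lit 214) (nat_lit 276) (nat_lit 290)) (PT.lf (nat_lit 19076) (nat_lit 6) (nat_lit 251) (nat_lit 5) (nat_lit 215) (nat_lit 276) (nat_lit 289)))))) (PT.nd (nat_lit 624) (PT.nd (nat_lit 312) (PT.nd (nat_lit 156) (PT.nd (nat_lit 78) (PT.lf (nat_lit 19684) (nat_lit 6) (nat_lit 259) (nat_lit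 5) (nat_lit 216) (nat_lit 276) (nat_lit 288)) (PT.lf (nat_lit 20368) (nat_lit 6) (nat_lit 268) (nat_lit 5) (nat_lit 217) (nat_lit 276) (nat_lit 287))) (PT.nd (nat_lit 78) (PT.lf (nat_lit 21052) (nat_lit 6) (nat_lit 277) (nat_lit 5) (nat_lit 218) (nat_lit 276) (nat_lit 286)) (PT.lf (nat_lit 21736) (nat_lit 6) (nat_lit 286) (nat_lit 5) (nat_lit 219) (nat_lit 276) (nat_lit 285)))) (PT.nd (nat_lit 156) (PT.nd (nat_lit 78) (PT.lf (nat_lit 22420) (nat_lit 6) (nat_lit 295) (nat_lit 5) (nat_lit 220) (nat_lit 276) (nat_lit 284)) (PT.lf (nat_lit 23180) (nat_lit 6) (nat_lit 305) (nat_lit 5) (nat_lit 221) (nat_lit 276) (nat_lit 283))) (PT.nd (nat_lit 78) (PT.lf (nat_lit 23864) (nat_lit 6) (nat_lit 314) (nat_lit 5) (nat_lit 222) (nat_lit 276) (nat_lit 282)) (PT.lf (nat_lit 24624) (nat_lit 6) (nat_lit 324) (nat_lit 5) (nat_lit 223) (nat_lit 276) (nat_lit 281))))) (PT.nd (nat_lit 312) (PT.nd (nat_lit 156) (PT.nd (nat_lit 78) (PT.lf (nat_lit 25384) (nat_lit 6) (nat_lit 334) (nat_lit 5) (nat_lit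 224) (nat_lit 276) (nat_lit 280)) (PT.lf (nat_lit 26220) (nat_lit 6) (nat_lit 345) (nat_lit 5) (nat_lit 225) (nat_lit 276) (nat_lit 279))) (PT.nd (nat_lit 78) (PT.lf (nat_lit 26980) (nat_lit 6) (nat_lit 355) (nat_lit 5) (nat_lit 226) (nat_lit 276) (nat_lit 278)) (PT.lf (nat_lit 27816) (nat_lit 6) (nat_lit 366) (nat_lit 5) (nat_lit 227) (nat_lit 276) (nat_lit 277)))) (PT.nd (nat_lit 156) (PT.nd (nat_lit 78) (PT.lf (nat_lit 28652) (nat_lit 3) (nat_lit 377) (nat_lit 4) (nat_lit 228) (nat_lit 276) (nat_lit 276)) (PT.lf (nat_lit 29488) (nat_lit 6) (nat_lit 388) (nat_lit 4) (nat_lit 229) (nat_lit 276) (nat_lit 275))) (PT.nd (nat_lit 78) (PT.lf (nat_lit 30324) (nat_lit 6) (nat_lit 399) (nat_lit 4) (nat_lit 230) (nat_lit 276) (nat_lit 274)) (PT.lf (nat_lit 31160) (nat_lit 6) (nat_lit 410) (nat_lit 4) (nat_lit 231) (nat_lit 276) (nat_lit 273))))))))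
noncomputable def pc42 : PT := (PT.nd (nat_lit 2418) (PT.nd (nat_lit 1170) (PT.nd (nat_lit 546) (PT.nd (nat_lit 234) (PT.nd (nat_lit 78) (PT.lf (nat_lit 31996) (nat_lit 6) (nat_lit 421) (nat_lit 4) (nat_lit 232) (nat_lit 276) (nat_lit 272)) (PT.nd (nat_lit 78) (PT.lf (nat_lit 32908) (nat_lit 6) (nat_lit 433) (nat_lit 4) (nat_lit 233) (nat_lit 276) (nat_lit 271)) (PT.lf (nat_lit 33820) (nat_lit 6) (nat_lit 445) (nat_lit 4) (nat_lit 234) (nat_lit 276) (nat_lit 270)))) (PT.nd (nat_lit 156) (PT.nd (nat_lit 78) (PT.lf (nat_lit 34884) (nat_lit 6) (nat_lit 459) (nat_lit 4) (nat_lit 235) (nat_lit 276) (nat_lit 269)) (PT.lf (nat_lit 36708) (nat_lit 6) (nat_lit 483) (nat_lit 4) (nat_lit 236) (nat_lit 276) (nat_lit 268))) (PT.nd (nat_lit 78) (PT.lf (nat_lit 38456) (nat_lit 6) (nat_lit 506) (nat_lit 4) (nat_lit 237) (nat_lit 276) (nat_lit 267)) (PT.lf (nat_lit 40128) (nat_lit 6) (nat_lit 528) (nat_lit 4) (nat_lit 238) (nat_lit 276) (nat_lit 266))))) (PT.nd (nat_lit 312) (PT.nd (nat_lit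 156) (PT.nd (nat_lit 78) (PT.lf (nat_lit 41724) (nat_lit 6) (nat_lit 549) (nat_lit 4) (nat_lit 239) (nat_lit 276) (nat_lit 265)) (PT.lf (nat_lit 43244) (nat_lit 6) (nat_lit 569) (nat_lit 4) (nat_lit 240) (nat_lit 276) (nat_lit 264))) (PT.nd (nat_lit 78) (PT.lf (nat_lit 44688) (nat_lit 6) (nat_lit 588) (nat_lit 4) (nat_lit 241) (nat_lit 276) (nat_lit 263)) (PT.lf (nat_lit 46056) (nat_lit 6) (nat_lit 606) (nat_lit 4) (nat_lit 242) (nat_lit 276) (nat_lit 262)))) (PT.nd (nat_lit 156) (PT.nd (nat_lit 78) (PT.lf (nat_lit 47348) (nat_lit 6) (nat_lit 623) (nat_lit 4) (nat_lit 243) (nat_lit 276) (nat_lit 261)) (PT.lf (nat_lit 48564) (nat_lit 6) (nat_lit 639) (nat_lit 4) (nat_lit 244) (nat_lit 276) (nat_lit 260))) (PT.nd (nat_lit 78) (PT.lf (nat_lit 48488) (nat_lit 6) (nat_lit 638) (nat_lit 4) (nat_lit 245) (nat_lit 276) (nat_lit 259)) (PT.lf (nat_lit 48412) (nat_lit 6) (nat_lit 637) (nat_lit 4) (nat_lit 246) (nat_lit 276) (nat_lit 258)))))) (PT.nd (nat_lit 624) (PT.nd (nat_lit 312)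 (PT.nd (nat_lit 156) (PT.nd (nat_lit 78) (PT.lf (nat_lit 48336) (nat_lit 6) (nat_lit 636) (nat_lit 4) (nat_lit 247) (nat_lit 276) (nat_lit 257)) (PT.lf (nat_lit 48260) (nat_lit 6) (nat_lit 635) (nat_lit 4) (nat_lit 248) (nat_lit 276) (nat_lit 256))) (PT.nd (nat_lit 78) (PT.lf (nat_lit 48184) (nat_lit 6) (nat_lit 634) (nat_lit 4) (nat_lit 249) (nat_lit 276) (nat_lit 255)) (PT.lf (nat_lit 48108) (nat_lit 6) (nat_lit 633) (nat_lit 4) (nat_lit 250) (nat_lit 276) (nat_lit 254)))) (PT.nd (nat_lit 156) (PT.nd (nat_lit 78) (PT.lf (nat_lit 48032) (nat_lit 6) (nat_lit 632) (nat_lit 4) (nat_lit 251) (nat_lit 276) (nat_lit 253)) (PT.lf (nat_lit 47956) (nat_lit 3) (nat_lit 631) (nat_lit 2) (nat_lit 252) (nat_lit 276) (nat_lit 252))) (PT.nd (nat_lit 78) (PT.lf (nat_lit 48032) (nat_lit 6) (nat_lit 632) (nat_lit 2) (nat_lit 253) (nat_lit 276) (nat_lit 251)) (PT.lf (nat_lit 48108) (nat_lit 6) (nat_lit 633) (nat_lit 2) (nat_lit 254) (nat_lit 276) (nat_lit 250))))) (PT.nd (nat_lit 312) (PT.nd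 (nat_lit 156) (PT.nd (nat_lit 78) (PT.lf (nat_lit 48184) (nat_lit 6) (nat_lit 634) (nat_lit 2) (nat_lit 255) (nat_lit 276) (nat_lit 249)) (PT.lf (nat_lit 48260) (nat_lit 6) (nat_lit 635) (nat_lit 2) (nat_lit 256) (nat_lit 276) (nat_lit 248))) (PT.nd (nat_lit 78) (PT.lf (nat_lit 48336) (nat_lit 6) (nat_lit 636) (nat_lit 2) (nat_lit 257) (nat_lit 276) (nat_lit 247)) (PT.lf (nat_lit 48412) (nat_lit 6) (nat_lit 637) (nat_lit 2) (nat_lit 258) (nat_lit 276) (nat_lit 246)))) (PT.nd (nat_lit 156) (PT.nd (nat_lit 78) (PT.lf (nat_lit 48488) (nat_lit 6) (nat_lit 638) (nat_lit 2) (nat_lit 259) (nat_lit 276) (nat_lit 245)) (PT.lf (nat_lit 48564) (nat_lit 6) (nat_lit 639) (nat_lit 2) (nat_lit 260) (nat_lit 276) (nat_lit 244))) (PT.nd (nat_lit 78) (PT.lf (nat_lit 47348) (nat_lit 6) (nat_lit 623) (nat_lit 2) (nat_lit 261) (nat_lit 276) (nat_lit 243)) (PT.lf (nat_lit 46056) (nat_lit 6) (nat_lit 606) (nat_lit 2) (nat_lit 262) (nat_lit 276) (nat_lit 242))))))) (PT.nd (nat_lit 1170) (PT.nd (nat_lit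 546) (PT.nd (nat_lit 234) (PT.nd (nat_lit 78) (PT.lf (nat_lit 44688) (nat_lit 6) (nat_lit 588) (nat_lit 2) (nat_lit 263) (nat_lit 276) (nat_lit 241)) (PT.nd (nat_lit 78) (PT.lf (nat_lit 43244) (nat_lit 6) (nat_lit 569) (nat_lit 2) (nat_lit 264) (nat_lit 276) (nat_lit 240)) (PT.lf (nat_lit 41724) (nat_lit 6) (nat_lit 549) (nat_lit 2) (nat_lit 265) (nat_lit 276) (nat_lit 239)))) (PT.nd (nat_lit 156) (PT.nd (nat_lit 78) (PT.lf (nat_lit 40128) (nat_lit 6) (nat_lit 528) (nat_lit 2) (nat_lit 266) (nat_lit 276) (nat_lit 238)) (PT.lf (nat_lit 38456) (nat_lit 6) (nat_lit 506) (nat_lit 2) (nat_lit 267) (nat_lit 276) (nat_lit 237))) (PT.nd (nat_lit 78) (PT.lf (nat_lit 36708) (nat_lit 6) (nat_lit 483) (nat_lit 2) (nat_lit 268) (nat_lit 276) (nat_lit 236)) (PT.lf (nat_lit 34884) (nat_lit 6) (nat_lit 459) (nat_lit 2) (nat_lit 269) (nat_lit 276) (nat_lit 235))))) (PT.nd (nat_lit 312) (PT.nd (nat_lit 156) (PT.nd (nat_lit 78) (PT.lf (nat_lit 33820) (nat_lit 6) (nat_lit 445) (nat_lit 2) (nat_lit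 270) (nat_lit 276) (nat_lit 234)) (PT.lf (nat_lit 32908) (nat_lit 6) (nat_lit 433) (nat_lit 2) (nat_lit 271) (nat_lit 276) (nat_lit 233))) (PT.nd (nat_lit 78) (PT.lf (nat_lit 31996) (nat_lit 6) (nat_lit 421) (nat_lit 2) (nat_lit 272) (nat_lit 276) (nat_lit 232)) (PT.lf (nat_lit 31160) (nat_lit 6) (nat_lit 410) (nat_lit 2) (nat_lit 273) (nat_lit 276) (nat_lit 231)))) (PT.nd (nat_lit 156) (PT.nd (nat_lit 78) (PT.lf (nat_lit 30324) (nat_lit 6) (nat_lit 399) (nat_lit 2) (nat_lit 274) (nat_lit 276) (nat_lit 230)) (PT.lf (nat_lit 29488) (nat_lit 6) (nat_lit 388) (nat_lit 2) (nat_lit 275) (nat_lit 276) (nat_lit 229))) (PT.nd (nat_lit 78) (PT.lf (nat_lit 28652) (nat_lit 3) (nat_lit 377) (nat_lit 0) (nat_lit 276) (nat_lit 276) (nat_lit 228)) (PT.lf (nat_lit 27816) (nat_lit 6) (nat_lit 366) (nat_lit 0) (nat_lit 277) (nat_lit 276) (nat_lit 227)))))) (PT.nd (nat_lit 624) (PT.nd (nat_lit 312) (PT.nd (nat_lit 156) (PT.nd (nat_lit 78) (PT.lf (nat_lit 26980) (nat_lit 6) (nat_lit 355) (nat_lit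 0) (nat_lit 278) (nat_lit 276) (nat_lit 226)) (PT.lf (nat_lit 26220) (nat_lit 6) (nat_lit 345) (nat_lit 0) (nat_lit 279) (nat_lit 276) (nat_lit 225))) (PT.nd (nat_lit 78) (PT.lf (nat_lit 25384) (nat_lit 6) (nat_lit 334) (nat_lit 0) (nat_lit 280) (nat_lit 276) (nat_lit 224)) (PT.lf (nat_lit 24624) (nat_lit 6) (nat_lit 324) (nat_lit 0) (nat_lit 281) (nat_lit 276) (nat_lit 223)))) (PT.nd (nat_lit 156) (PT.nd (nat_lit 78) (PT.lf (nat_lit 23864) (nat_lit 6) (nat_lit 314) (nat_lit 0) (nat_lit 282) (nat_lit 276) (nat_lit 222)) (PT.lf (nat_lit 23180) (nat_lit 6) (nat_lit 305) (nat_lit 0) (nat_lit 283) (nat_lit 276) (nat_lit 221))) (PT.nd (nat_lit 78) (PT.lf (nat_lit 22420) (nat_lit 6) (nat_lit 295) (nat_lit 0) (nat_lit 284) (nat_lit 276) (nat_lit 220)) (PT.lf (nat_lit 21736) (nat_lit 6) (nat_lit 286) (nat_lit 0) (nat_lit 285) (nat_lit 276) (nat_lit 219))))) (PT.nd (nat_lit 312) (PT.nd (nat_lit 156) (PT.nd (nat_lit 78) (PT.lf (nat_lit 21052) (nat_lit 6) (nat_lit 277) (nat_lit 0) (nat_lit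 286) (nat_lit 276) (nat_lit 218)) (PT.lf (nat_lit 20368) (nat_lit 6) (nat_lit 268) (nat_lit 0) (nat_lit 287) (nat_lit 276) (nat_lit 217))) (PT.nd (nat_lit 78) (PT.lf (nat_lit 19684) (nat_lit 6) (nat_lit 259) (nat_lit 0) (nat_lit 288) (nat_lit 276) (nat_lit 216)) (PT.lf (nat_lit 19076) (nat_lit 6) (nat_lit 251) (nat_lit 0) (nat_lit 289) (nat_lit 276) (nat_lit 215)))) (PT.nd (nat_lit 75270) (PT.nd (nat_lit 75192) (PT.lf (nat_lit 18468) (nat_lit 6) (nat_lit 243) (nat_lit 0) (nat_lit 290) (nat_lit 276) (nat_lit 214)) (PT.lf (nat_lit 17936) (nat_lit 6) (nat_lit 236) (nat_lit 5) (nat_lit 213) (nat_lit 277) (nat_lit 290))) (PT.nd (nat_lit 78) (PT.lf (nat_lit 18544) (nat_lit 6) (nat_lit 244) (nat_lit 5) (nat_lit 214) (nat_lit 277) (nat_lit 289)) (PT.lf (nat_lit 19152) (nat_lit 6) (nat_lit 252) (nat_lit 5) (nat_lit 215) (nat_lit 277) (nat_lit 288))))))))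
noncomputable def pc43 : PT := (PT.nd (nat_lit 2418) (PT.nd (nat_lit 1170) (PT.nd (nat_lit 546) (PT.nd (nat_lit 234) (PT.nd (nat_lit 78) (PT.lf (nat_lit 19760) (nat_lit 6) (nat_lit 260) (nat_lit 5) (nat_lit 216) (nat_lit 277) (nat_lit 287)) (PT.nd (nat_lit 78) (PT.lf (nat_lit 20444) (nat_lit 6) (nat_lit 269) (nat_lit 5) (nat_lit 217) (nat_lit 277) (nat_lit 286)) (PT.lf (nat_lit 21128) (nat_lit 6) (nat_lit 278) (nat_lit 5) (nat_lit 218) (nat_lit 277) (nat_lit 285)))) (PT.nd (nat_lit 156) (PT.nd (nat_lit 78) (PT.lf (nat_lit 21812) (nat_lit 6) (nat_lit 287) (nat_lit 5) (nat_lit 219) (nat_lit 277) (nat_lit 284)) (PT.lf (nat_lit 22496) (nat_lit 6) (nat_lit 296) (nat_lit 5) (nat_lit 220) (nat_lit 277) (nat_lit 283))) (PT.nd (nat_lit 78) (PT.lf (nat_lit 23256) (nat_lit 6) (nat_lit 306) (nat_lit 5) (nat_lit 221) (nat_lit 277) (nat_lit 282)) (PT.lf (nat_lit 23940) (nat_lit 6) (nat_lit 315) (nat_lit 5) (nat_lit 222) (nat_lit 277) (nat_lit 281))))) (PT.nd (nat_lit 312) (PT.nd (nat_lit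 156) (PT.nd (nat_lit 78) (PT.lf (nat_lit 24700) (nat_lit 6) (nat_lit 325) (nat_lit 5) (nat_lit 223) (nat_lit 277) (nat_lit 280)) (PT.lf (nat_lit 25460) (nat_lit 6) (nat_lit 335) (nat_lit 5) (nat_lit 224) (nat_lit 277) (nat_lit 279))) (PT.nd (nat_lit 78) (PT.lf (nat_lit 26296) (nat_lit 6) (nat_lit 346) (nat_lit 5) (nat_lit 225) (nat_lit 277) (nat_lit 278)) (PT.lf (nat_lit 27056) (nat_lit 3) (nat_lit 356) (nat_lit 4) (nat_lit 226) (nat_lit 277) (nat_lit 277)))) (PT.nd (nat_lit 156) (PT.nd (nat_lit 78) (PT.lf (nat_lit 27816) (nat_lit 6) (nat_lit 366) (nat_lit 4) (nat_lit 227) (nat_lit 277) (nat_lit 276)) (PT.lf (nat_lit 28576) (nat_lit 6) (nat_lit 376) (nat_lit 4) (nat_lit 228) (nat_lit 277) (nat_lit 275))) (PT.nd (nat_lit 78) (PT.lf (nat_lit 29412) (nat_lit 6) (nat_lit 387) (nat_lit 4) (nat_lit 229) (nat_lit 277) (nat_lit 274)) (PT.lf (nat_lit 30248) (nat_lit 6) (nat_lit 398) (nat_lit 4) (nat_lit 230) (nat_lit 277) (nat_lit 273)))))) (PT.nd (nat_lit 624) (PT.nd (nat_lit 312)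 (PT.nd (nat_lit 156) (PT.nd (nat_lit 78) (PT.lf (nat_lit 31084) (nat_lit 6) (nat_lit 409) (nat_lit 4) (nat_lit 231) (nat_lit 277) (nat_lit 272)) (PT.lf (nat_lit 31920) (nat_lit 6) (nat_lit 420) (nat_lit 4) (nat_lit 232) (nat_lit 277) (nat_lit 271))) (PT.nd (nat_lit 78) (PT.lf (nat_lit 32832) (nat_lit 6) (nat_lit 432) (nat_lit 4) (nat_lit 233) (nat_lit 277) (nat_lit 270)) (PT.lf (nat_lit 33744) (nat_lit 6) (nat_lit 444) (nat_lit 4) (nat_lit 234) (nat_lit 277) (nat_lit 269)))) (PT.nd (nat_lit 156) (PT.nd (nat_lit 78) (PT.lf (nat_lit 34808) (nat_lit 6) (nat_lit 458) (nat_lit 4) (nat_lit 235) (nat_lit 277) (nat_lit 268)) (PT.lf (nat_lit 36632) (nat_lit 6) (nat_lit 482) (nat_lit 4) (nat_lit 236) (nat_lit 277) (nat_lit 267))) (PT.nd (nat_lit 78) (PT.lf (nat_lit 38380) (nat_lit 6) (nat_lit 505) (nat_lit 4) (nat_lit 237) (nat_lit 277) (nat_lit 266)) (PT.lf (nat_lit 40052) (nat_lit 6) (nat_lit 527) (nat_lit 4) (nat_lit 238) (nat_lit 277) (nat_lit 265))))) (PT.nd (nat_lit 312) (PT.nd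 (nat_lit 156) (PT.nd (nat_lit 78) (PT.lf (nat_lit 41648) (nat_lit 6) (nat_lit 548) (nat_lit 4) (nat_lit 239) (nat_lit 277) (nat_lit 264)) (PT.lf (nat_lit 43168) (nat_lit 6) (nat_lit 568) (nat_lit 4) (nat_lit 240) (nat_lit 277) (nat_lit 263))) (PT.nd (nat_lit 78) (PT.lf (nat_lit 44612) (nat_lit 6) (nat_lit 587) (nat_lit 4) (nat_lit 241) (nat_lit 277) (nat_lit 262)) (PT.lf (nat_lit 45980) (nat_lit 6) (nat_lit 605) (nat_lit 4) (nat_lit 242) (nat_lit 277) (nat_lit 261)))) (PT.nd (nat_lit 156) (PT.nd (nat_lit 78) (PT.lf (nat_lit 47272) (nat_lit 6) (nat_lit 622) (nat_lit 4) (nat_lit 243) (nat_lit 277) (nat_lit 260)) (PT.lf (nat_lit 47196) (nat_lit 6) (nat_lit 621) (nat_lit 4) (nat_lit 244) (nat_lit 277) (nat_lit 259))) (PT.nd (nat_lit 78) (PT.lf (nat_lit 47120) (nat_lit 6) (nat_lit 620) (nat_lit 4) (nat_lit 245) (nat_lit 277) (nat_lit 258)) (PT.lf (nat_lit 47044) (nat_lit 6) (nat_lit 619) (nat_lit 4) (nat_lit 246) (nat_lit 277) (nat_lit 257))))))) (PT.nd (nat_lit 1170) (PT.nd (nat_lit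 546) (PT.nd (nat_lit 234) (PT.nd (nat_lit 78) (PT.lf (nat_lit 46968) (nat_lit 6) (nat_lit 618) (nat_lit 4) (nat_lit 247) (nat_lit 277) (nat_lit 256)) (PT.nd (nat_lit 78) (PT.lf (nat_lit 46892) (nat_lit 6) (nat_lit 617) (nat_lit 4) (nat_lit 248) (nat_lit 277) (nat_lit 255)) (PT.lf (nat_lit 46816) (nat_lit 6) (nat_lit 616) (nat_lit 4) (nat_lit 249) (nat_lit 277) (nat_lit 254)))) (PT.nd (nat_lit 156) (PT.nd (nat_lit 78) (PT.lf (nat_lit 46740) (nat_lit 6) (nat_lit 615) (nat_lit 4) (nat_lit 250) (nat_lit 277) (nat_lit 253)) (PT.lf (nat_lit 46664) (nat_lit 6) (nat_lit 614) (nat_lit 4) (nat_lit 251) (nat_lit 277) (nat_lit 252))) (PT.nd (nat_lit 78) (PT.lf (nat_lit 46664) (nat_lit 6) (nat_lit 614) (nat_lit 2) (nat_lit 252) (nat_lit 277) (nat_lit 251)) (PT.lf (nat_lit 46740) (nat_lit 6) (nat_lit 615) (nat_lit 2) (nat_lit 253) (nat_lit 277) (nat_lit 250))))) (PT.nd (nat_lit 312) (PT.nd (nat_lit 156) (PT.nd (nat_lit 78) (PT.lf (nat_lit 46816) (nat_lit 6) (nat_lit 616) (nat_lit 2) (nat_lit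 254) (nat_lit 277) (nat_lit 249)) (PT.lf (nat_lit 46892) (nat_lit 6) (nat_lit 617) (nat_lit 2) (nat_lit 255) (nat_lit 277) (nat_lit 248))) (PT.nd (nat_lit 78) (PT.lf (nat_lit 46968) (nat_lit 6) (nat_lit 618) (nat_lit 2) (nat_lit 256) (nat_lit 277) (nat_lit 247)) (PT.lf (nat_lit 47044) (nat_lit 6) (nat_lit 619) (nat_lit 2) (nat_lit 257) (nat_lit 277) (nat_lit 246)))) (PT.nd (nat_lit 156) (PT.nd (nat_lit 78) (PT.lf (nat_lit 47120) (nat_lit 6) (nat_lit 620) (nat_lit 2) (nat_lit 258) (nat_lit 277) (nat_lit 245)) (PT.lf (nat_lit 47196) (nat_lit 6) (nat_lit 621) (nat_lit 2) (nat_lit 259) (nat_lit 277) (nat_lit 244))) (PT.nd (nat_lit 78) (PT.lf (nat_lit 47272) (nat_lit 6) (nat_lit 622) (nat_lit 2) (nat_lit 260) (nat_lit 277) (nat_lit 243)) (PT.lf (nat_lit 45980) (nat_lit 6) (nat_lit 605) (nat_lit 2) (nat_lit 261) (nat_lit 277) (nat_lit 242)))))) (PT.nd (nat_lit 624) (PT.nd (nat_lit 312) (PT.nd (nat_lit 156) (PT.nd (nat_lit 78) (PT.lf (nat_lit 44612) (nat_lit 6) (nat_lit 587) (nat_lit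 2) (nat_lit 262) (nat_lit 277) (nat_lit 241)) (PT.lf (nat_lit 43168) (nat_lit 6) (nat_lit 568) (nat_lit 2) (nat_lit 263) (nat_lit 277) (nat_lit 240))) (PT.nd (nat_lit 78) (PT.lf (nat_lit 41648) (nat_lit 6) (nat_lit 548) (nat_lit 2) (nat_lit 264) (nat_lit 277) (nat_lit 239)) (PT.lf (nat_lit 40052) (nat_lit 6) (nat_lit 527) (nat_lit 2) (nat_lit 265) (nat_lit 277) (nat_lit 238)))) (PT.nd (nat_lit 156) (PT.nd (nat_lit 78) (PT.lf (nat_lit 38380) (nat_lit 6) (nat_lit 505) (nat_lit 2) (nat_lit 266) (nat_lit 277) (nat_lit 237)) (PT.lf (nat_lit 36632) (nat_lit 6) (nat_lit 482) (nat_lit 2) (nat_lit 267) (nat_lit 277) (nat_lit 236))) (PT.nd (nat_lit 78) (PT.lf (nat_lit 34808) (nat_lit 6) (nat_lit 458) (nat_lit 2) (nat_lit 268) (nat_lit 277) (nat_lit 235)) (PT.lf (nat_lit 33744) (nat_lit 6) (nat_lit 444) (nat_lit 2) (nat_lit 269) (nat_lit 277) (nat_lit 234))))) (PT.nd (nat_lit 312) (PT.nd (nat_lit 156) (PT.nd (nat_lit 78) (PT.lf (nat_lit 32832) (nat_lit 6) (nat_lit 432) (nat_lit 2) (nat_lit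 270) (nat_lit 277) (nat_lit 233)) (PT.lf (nat_lit 31920) (nat_lit 6) (nat_lit 420) (nat_lit 2) (nat_lit 271) (nat_lit 277) (nat_lit 232))) (PT.nd (nat_lit 78) (PT.lf (nat_lit 31084) (nat_lit 6) (nat_lit 409) (nat_lit 2) (nat_lit 272) (nat_lit 277) (nat_lit 231)) (PT.lf (nat_lit 30248) (nat_lit 6) (nat_lit 398) (nat_lit 2) (nat_lit 273) (nat_lit 277) (nat_lit 230)))) (PT.nd (nat_lit 156) (PT.nd (nat_lit 78) (PT.lf (nat_lit 29412) (nat_lit 6) (nat_lit 387) (nat_lit 2) (nat_lit 274) (nat_lit 277) (nat_lit 229)) (PT.lf (nat_lit 28576) (nat_lit 6) (nat_lit 376) (nat_lit 2) (nat_lit 275) (nat_lit 277) (nat_lit 228))) (PT.nd (nat_lit 78) (PT.lf (nat_lit 27816) (nat_lit 6) (nat_lit 366) (nat_lit 2) (nat_lit 276) (nat_lit 277) (nat_lit 227)) (PT.lf (nat_lit 27056) (nat_lit 3) (nat_lit 356) (nat_lit 0) (nat_lit 277) (nat_lit 277) (nat_lit 226))))))))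
noncomputable def pc44 : PT := (PT.nd (nat_lit 77376) (PT.nd (nat_lit 76128) (PT.nd (nat_lit 546) (PT.nd (nat_lit 234) (PT.nd (nat_lit 78) (PT.lf (nat_lit 26296) (nat_lit 6) (nat_lit 346) (nat_lit 0) (nat_lit 278) (nat_lit 277) (nat_lit 225)) (PT.nd (nat_lit 78) (PT.lf (nat_lit 25460) (nat_lit 6) (nat_lit 335) (nat_lit 0) (nat_lit 279) (nat_lit 277) (nat_lit 224)) (PT.lf (nat_lit 24700) (nat_lit 6) (nat_lit 325) (nat_lit 0) (nat_lit 280) (nat_lit 277) (nat_lit 223)))) (PT.nd (nat_lit 156) (PT.nd (nat_lit 78) (PT.lf (nat_lit 23940) (nat_lit 6) (nat_lit 315) (nat_lit 0) (nat_lit 281) (nat_lit 277) (nat_lit 222)) (PT.lf (nat_lit 23256) (nat_lit 6) (nat_lit 306) (nat_lit 0) (nat_lit 282) (nat_lit 277) (nat_lit 221))) (PT.nd (nat_lit 78) (PT.lf (nat_lit 22496) (nat_lit 6) (nat_lit 296) (nat_lit 0) (nat_lit 283) (nat_lit 277) (nat_lit 220)) (PT.lf (nat_lit 21812) (nat_lit 6) (nat_lit 287) (nat_lit 0) (nat_lit 284) (nat_lit 277) (nat_lit 219))))) (PT.nd (nat_lit 312) (PT.nd (nat_lit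 156) (PT.nd (nat_lit 78) (PT.lf (nat_lit 21128) (nat_lit 6) (nat_lit 278) (nat_lit 0) (nat_lit 285) (nat_lit 277) (nat_lit 218)) (PT.lf (nat_lit 20444) (nat_lit 6) (nat_lit 269) (nat_lit 0) (nat_lit 286) (nat_lit 277) (nat_lit 217))) (PT.nd (nat_lit 78) (PT.lf (nat_lit 19760) (nat_lit 6) (nat_lit 260) (nat_lit 0) (nat_lit 287) (nat_lit 277) (nat_lit 216)) (PT.lf (nat_lit 19152) (nat_lit 6) (nat_lit 252) (nat_lit 0) (nat_lit 288) (nat_lit 277) (nat_lit 215)))) (PT.nd (nat_lit 75114) (PT.nd (nat_lit 78) (PT.lf (nat_lit 18544) (nat_lit 6) (nat_lit 244) (nat_lit 0) (nat_lit 289) (nat_lit 277) (nat_lit 214)) (PT.lf (nat_lit 17936) (nat_lit 6) (nat_lit 236) (nat_lit 0) (nat_lit 290) (nat_lit 277) (nat_lit 213))) (PT.nd (nat_lit 78) (PT.lf (nat_lit 16872) (nat_lit 6) (nat_lit 222) (nat_lit 5) (nat_lit 211) (nat_lit 278) (nat_lit 291)) (PT.lf (nat_lit 17404) (nat_lit 6) (nat_lit 229) (nat_lit 5) (nat_lit 212) (nat_lit 278) (nat_lit 290)))))) (PT.nd (nat_lit 624) (PT.nd (nat_lit 312)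 (PT.nd (nat_lit 156) (PT.nd (nat_lit 78) (PT.lf (nat_lit 18012) (nat_lit 6) (nat_lit 237) (nat_lit 5) (nat_lit 213) (nat_lit 278) (nat_lit 289)) (PT.lf (nat_lit 18620) (nat_lit 6) (nat_lit 245) (nat_lit 5) (nat_lit 214) (nat_lit 278) (nat_lit 288))) (PT.nd (nat_lit 78) (PT.lf (nat_lit 19228) (nat_lit 6) (nat_lit 253) (nat_lit 5) (nat_lit 215) (nat_lit 278) (nat_lit 287)) (PT.lf (nat_lit 19836) (nat_lit 6) (nat_lit 261) (nat_lit 5) (nat_lit 216) (nat_lit 278) (nat_lit 286)))) (PT.nd (nat_lit 156) (PT.nd (nat_lit 78) (PT.lf (nat_lit 20520) (nat_lit 6) (nat_lit 270) (nat_lit 5) (nat_lit 217) (nat_lit 278) (nat_lit 285)) (PT.lf (nat_lit 21204) (nat_lit 6) (nat_lit 279) (nat_lit 5) (nat_lit 218) (nat_lit 278) (nat_lit 284))) (PT.nd (nat_lit 78) (PT.lf (nat_lit 21888) (nat_lit 6) (nat_lit 288) (nat_lit 5) (nat_lit 219) (nat_lit 278) (nat_lit 283)) (PT.lf (nat_lit 22572) (nat_lit 6) (nat_lit 297) (nat_lit 5) (nat_lit 220) (nat_lit 278) (nat_lit 282))))) (PT.nd (nat_lit 312) (PT.nd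 (nat_lit 156) (PT.nd (nat_lit 78) (PT.lf (nat_lit 23332) (nat_lit 6) (nat_lit 307) (nat_lit 5) (nat_lit 221) (nat_lit 278) (nat_lit 281)) (PT.lf (nat_lit 24016) (nat_lit 6) (nat_lit 316) (nat_lit 5) (nat_lit 222) (nat_lit 278) (nat_lit 280))) (PT.nd (nat_lit 78) (PT.lf (nat_lit 24776) (nat_lit 6) (nat_lit 326) (nat_lit 5) (nat_lit 223) (nat_lit 278) (nat_lit 279)) (PT.lf (nat_lit 25536) (nat_lit 3) (nat_lit 336) (nat_lit 4) (nat_lit 224) (nat_lit 278) (nat_lit 278)))) (PT.nd (nat_lit 156) (PT.nd (nat_lit 78) (PT.lf (nat_lit 26296) (nat_lit 6) (nat_lit 346) (nat_lit 4) (nat_lit 225) (nat_lit 278) (nat_lit 277)) (PT.lf (nat_lit 26980) (nat_lit 6) (nat_lit 355) (nat_lit 4) (nat_lit 226) (nat_lit 278) (nat_lit 276))) (PT.nd (nat_lit 78) (PT.lf (nat_lit 27740) (nat_lit 6) (nat_lit 365) (nat_lit 4) (nat_lit 227) (nat_lit 278) (nat_lit 275)) (PT.lf (nat_lit 28500) (nat_lit 6) (nat_lit 375) (nat_lit 4) (nat_lit 228) (nat_lit 278) (nat_lit 274))))))) (PT.nd (nat_lit 1170) (PT.nd (nat_lit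 546) (PT.nd (nat_lit 234) (PT.nd (nat_lit 78) (PT.lf (nat_lit 29336) (nat_lit 6) (nat_lit 386) (nat_lit 4) (nat_lit 229) (nat_lit 278) (nat_lit 273)) (PT.nd (nat_lit 78) (PT.lf (nat_lit 30172) (nat_lit 6) (nat_lit 397) (nat_lit 4) (nat_lit 230) (nat_lit 278) (nat_lit 272)) (PT.lf (nat_lit 31008) (nat_lit 6) (nat_lit 408) (nat_lit 4) (nat_lit 231) (nat_lit 278) (nat_lit 271)))) (PT.nd (nat_lit 156) (PT.nd (nat_lit 78) (PT.lf (nat_lit 31844) (nat_lit 6) (nat_lit 419) (nat_lit 4) (nat_lit 232) (nat_lit 278) (nat_lit 270)) (PT.lf (nat_lit 32756) (nat_lit 6) (nat_lit 431) (nat_lit 4) (nat_lit 233) (nat_lit 278) (nat_lit 269))) (PT.nd (nat_lit 78) (PT.lf (nat_lit 33668) (nat_lit 6) (nat_lit 443) (nat_lit 4) (nat_lit 234) (nat_lit 278) (nat_lit 268)) (PT.lf (nat_lit 34732) (nat_lit 6) (nat_lit 457) (nat_lit 4) (nat_lit 235) (nat_lit 278) (nat_lit 267))))) (PT.nd (nat_lit 312) (PT.nd (nat_lit 156) (PT.nd (nat_lit 78) (PT.lf (nat_lit 36556) (nat_lit 6) (nat_lit 481) (nat_lit 4) (nat_lit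 236) (nat_lit 278) (nat_lit 266)) (PT.lf (nat_lit 38304) (nat_lit 6) (nat_lit 504) (nat_lit 4) (nat_lit 237) (nat_lit 278) (nat_lit 265))) (PT.nd (nat_lit 78) (PT.lf (nat_lit 39976) (nat_lit 6) (nat_lit 526) (nat_lit 4) (nat_lit 238) (nat_lit 278) (nat_lit 264)) (PT.lf (nat_lit 41572) (nat_lit 6) (nat_lit 547) (nat_lit 4) (nat_lit 239) (nat_lit 278) (nat_lit 263)))) (PT.nd (nat_lit 156) (PT.nd (nat_lit 78) (PT.lf (nat_lit 43092) (nat_lit 6) (nat_lit 567) (nat_lit 4) (nat_lit 240) (nat_lit 278) (nat_lit 262)) (PT.lf (nat_lit 44536) (nat_lit 6) (nat_lit 586) (nat_lit 4) (nat_lit 241) (nat_lit 278) (nat_lit 261))) (PT.nd (nat_lit 78) (PT.lf (nat_lit 45904) (nat_lit 6) (nat_lit 604) (nat_lit 4) (nat_lit 242) (nat_lit 278) (nat_lit 260)) (PT.lf (nat_lit 45828) (nat_lit 6) (nat_lit 603) (nat_lit 4) (nat_lit 243) (nat_lit 278) (nat_lit 259)))))) (PT.nd (nat_lit 624) (PT.nd (nat_lit 312) (PT.nd (nat_lit 156) (PT.nd (nat_lit 78) (PT.lf (nat_lit 45752) (nat_lit 6) (nat_lit 602) (nat_lit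 4) (nat_lit 244) (nat_lit 278) (nat_lit 258)) (PT.lf (nat_lit 45676) (nat_lit 6) (nat_lit 601) (nat_lit 4) (nat_lit 245) (nat_lit 278) (nat_lit 257))) (PT.nd (nat_lit 78) (PT.lf (nat_lit 45600) (nat_lit 6) (nat_lit 600) (nat_lit 4) (nat_lit 246) (nat_lit 278) (nat_lit 256)) (PT.lf (nat_lit 45524) (nat_lit 6) (nat_lit 599) (nat_lit 4) (nat_lit 247) (nat_lit 278) (nat_lit 255)))) (PT.nd (nat_lit 156) (PT.nd (nat_lit 78) (PT.lf (nat_lit 45448) (nat_lit 6) (nat_lit 598) (nat_lit 4) (nat_lit 248) (nat_lit 278) (nat_lit 254)) (PT.lf (nat_lit 45372) (nat_lit 6) (nat_lit 597) (nat_lit 4) (nat_lit 249) (nat_lit 278) (nat_lit 253))) (PT.nd (nat_lit 78) (PT.lf (nat_lit 45296) (nat_lit 6) (nat_lit 596) (nat_lit 4) (nat_lit 250) (nat_lit 278) (nat_lit 252)) (PT.lf (nat_lit 45220) (nat_lit 3) (nat_lit 595) (nat_lit 2) (nat_lit 251) (nat_lit 278) (nat_lit 251))))) (PT.nd (nat_lit 312) (PT.nd (nat_lit 156) (PT.nd (nat_lit 78) (PT.lf (nat_lit 45296) (nat_lit 6) (nat_lit 596) (nat_lit 2) (nat_lit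 252) (nat_lit 278) (nat_lit 250)) (PT.lf (nat_lit 45372) (nat_lit 6) (nat_lit 597) (nat_lit 2) (nat_lit 253) (nat_lit 278) (nat_lit 249))) (PT.nd (nat_lit 78) (PT.lf (nat_lit 45448) (nat_lit 6) (nat_lit 598) (nat_lit 2) (nat_lit 254) (nat_lit 278) (nat_lit 248)) (PT.lf (nat_lit 45524) (nat_lit 6) (nat_lit 599) (nat_lit 2) (nat_lit 255) (nat_lit 278) (nat_lit 247)))) (PT.nd (nat_lit 156) (PT.nd (nat_lit 78) (PT.lf (nat_lit 45600) (nat_lit 6) (nat_lit 600) (nat_lit 2) (nat_lit 256) (nat_lit 278) (nat_lit 246)) (PT.lf (nat_lit 45676) (nat_lit 6) (nat_lit 601) (nat_lit 2) (nat_lit 257) (nat_lit 278) (nat_lit 245))) (PT.nd (nat_lit 78) (PT.lf (nat_lit 45752) (nat_lit 6) (nat_lit 602) (nat_lit 2) (nat_lit 258) (nat_lit 278) (nat_lit 244)) (PT.lf (nat_lit 45828) (nat_lit 6) (nat_lit 603) (nat_lit 2) (nat_lit 259) (nat_lit 278) (nat_lit 243))))))))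
noncomputable def pc45 : PT := (PT.nd (nat_lit 2418) (PT.nd (nat_lit 1170) (PT.nd (nat_lit 546) (PT.nd (nat_lit 234) (PT.nd (nat_lit 78) (PT.lf (nat_lit 45904) (nat_lit 6) (nat_lit 604) (nat_lit 2) (nat_lit 260) (nat_lit 278) (nat_lit 242)) (PT.nd (nat_lit 78) (PT.lf (nat_lit 44536) (nat_lit 6) (nat_lit 586) (nat_lit 2) (nat_lit 261) (nat_lit 278) (nat_lit 241)) (PT.lf (nat_lit 43092) (nat_lit 6) (nat_lit 567) (nat_lit 2) (nat_lit 262) (nat_lit 278) (nat_lit 240)))) (PT.nd (nat_lit 156) (PT.nd (nat_lit 78) (PT.lf (nat_lit 41572) (nat_lit 6) (nat_lit 547) (nat_lit 2) (nat_lit 263) (nat_lit 278) (nat_lit 239)) (PT.lf (nat_lit 39976) (nat_lit 6) (nat_lit 526) (nat_lit 2) (nat_lit 264) (nat_lit 278) (nat_lit 238))) (PT.nd (nat_lit 78) (PT.lf (nat_lit 38304) (nat_lit 6) (nat_lit 504) (nat_lit 2) (nat_lit 265) (nat_lit 278) (nat_lit 237)) (PT.lf (nat_lit 36556) (nat_lit 6) (nat_lit 481) (nat_lit 2) (nat_lit 266) (nat_lit 278) (nat_lit 236))))) (PT.nd (nat_lit 312) (PT.nd (nat_lit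 156) (PT.nd (nat_lit 78) (PT.lf (nat_lit 34732) (nat_lit 6) (nat_lit 457) (nat_lit 2) (nat_lit 267) (nat_lit 278) (nat_lit 235)) (PT.lf (nat_lit 33668) (nat_lit 6) (nat_lit 443) (nat_lit 2) (nat_lit 268) (nat_lit 278) (nat_lit 234))) (PT.nd (nat_lit 78) (PT.lf (nat_lit 32756) (nat_lit 6) (nat_lit 431) (nat_lit 2) (nat_lit 269) (nat_lit 278) (nat_lit 233)) (PT.lf (nat_lit 31844) (nat_lit 6) (nat_lit 419) (nat_lit 2) (nat_lit 270) (nat_lit 278) (nat_lit 232)))) (PT.nd (nat_lit 156) (PT.nd (nat_lit 78) (PT.lf (nat_lit 31008) (nat_lit 6) (nat_lit 408) (nat_lit 2) (nat_lit 271) (nat_lit 278) (nat_lit 231)) (PT.lf (nat_lit 30172) (nat_lit 6) (nat_lit 397) (nat_lit 2) (nat_lit 272) (nat_lit 278) (nat_lit 230))) (PT.nd (nat_lit 78) (PT.lf (nat_lit 29336) (nat_lit 6) (nat_lit 386) (nat_lit 2) (nat_lit 273) (nat_lit 278) (nat_lit 229)) (PT.lf (nat_lit 28500) (nat_lit 6) (nat_lit 375) (nat_lit 2) (nat_lit 274) (nat_lit 278) (nat_lit 228)))))) (PT.nd (nat_lit 624) (PT.nd (nat_lit 312)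 (PT.nd (nat_lit 156) (PT.nd (nat_lit 78) (PT.lf (nat_lit 27740) (nat_lit 6) (nat_lit 365) (nat_lit 2) (nat_lit 275) (nat_lit 278) (nat_lit 227)) (PT.lf (nat_lit 26980) (nat_lit 6) (nat_lit 355) (nat_lit 2) (nat_lit 276) (nat_lit 278) (nat_lit 226))) (PT.nd (nat_lit 78) (PT.lf (nat_lit 26296) (nat_lit 6) (nat_lit 346) (nat_lit 2) (nat_lit 277) (nat_lit 278) (nat_lit 225)) (PT.lf (nat_lit 25536) (nat_lit 3) (nat_lit 336) (nat_lit 0) (nat_lit 278) (nat_lit 278) (nat_lit 224)))) (PT.nd (nat_lit 156) (PT.nd (nat_lit 78) (PT.lf (nat_lit 24776) (nat_lit 6) (nat_lit 326) (nat_lit 0) (nat_lit 279) (nat_lit 278) (nat_lit 223)) (PT.lf (nat_lit 24016) (nat_lit 6) (nat_lit 316) (nat_lit 0) (nat_lit 280) (nat_lit 278) (nat_lit 222))) (PT.nd (nat_lit 78) (PT.lf (nat_lit 23332) (nat_lit 6) (nat_lit 307) (nat_lit 0) (nat_lit 281) (nat_lit 278) (nat_lit 221)) (PT.lf (nat_lit 22572) (nat_lit 6) (nat_lit 297) (nat_lit 0) (nat_lit 282) (nat_lit 278) (nat_lit 220))))) (PT.nd (nat_lit 312) (PT.nd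 (nat_lit 156) (PT.nd (nat_lit 78) (PT.lf (nat_lit 21888) (nat_lit 6) (nat_lit 288) (nat_lit 0) (nat_lit 283) (nat_lit 278) (nat_lit 219)) (PT.lf (nat_lit 21204) (nat_lit 6) (nat_lit 279) (nat_lit 0) (nat_lit 284) (nat_lit 278) (nat_lit 218))) (PT.nd (nat_lit 78) (PT.lf (nat_lit 20520) (nat_lit 6) (nat_lit 270) (nat_lit 0) (nat_lit 285) (nat_lit 278) (nat_lit 217)) (PT.lf (nat_lit 19836) (nat_lit 6) (nat_lit 261) (nat_lit 0) (nat_lit 286) (nat_lit 278) (nat_lit 216)))) (PT.nd (nat_lit 156) (PT.nd (nat_lit 78) (PT.lf (nat_lit 19228) (nat_lit 6) (nat_lit 253) (nat_lit 0) (nat_lit 287) (nat_lit 278) (nat_lit 215)) (PT.lf (nat_lit 18620) (nat_lit 6) (nat_lit 245) (nat_lit 0) (nat_lit 288) (nat_lit 278) (nat_lit 214))) (PT.nd (nat_lit 78) (PT.lf (nat_lit 18012) (nat_lit 6) (nat_lit 237) (nat_lit 0) (nat_lit 289) (nat_lit 278) (nat_lit 213)) (PT.lf (nat_lit 17404) (nat_lit 6) (nat_lit 229) (nat_lit 0) (nat_lit 290) (nat_lit 278) (nat_lit 212))))))) (PT.nd (nat_lit 75972) (PT.nd (nat_lit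 75348) (PT.nd (nat_lit 75036) (PT.nd (nat_lit 74880) (PT.lf (nat_lit 16872) (nat_lit 6) (nat_lit 222) (nat_lit 0) (nat_lit 291) (nat_lit 278) (nat_lit 211)) (PT.nd (nat_lit 78) (PT.lf (nat_lit 16340) (nat_lit 6) (nat_lit 215) (nat_lit 5) (nat_lit 210) (nat_lit 279) (nat_lit 291)) (PT.lf (nat_lit 16948) (nat_lit 6) (nat_lit 223) (nat_lit 5) (nat_lit 211) (nat_lit 279) (nat_lit 290)))) (PT.nd (nat_lit 156) (PT.nd (nat_lit 78) (PT.lf (nat_lit 17480) (nat_lit 6) (nat_lit 230) (nat_lit 5) (nat_lit 212) (nat_lit 279) (nat_lit 289)) (PT.lf (nat_lit 18088) (nat_lit 6) (nat_lit 238) (nat_lit 5) (nat_lit 213) (nat_lit 279) (nat_lit 288))) (PT.nd (nat_lit 78) (PT.lf (nat_lit 18696) (nat_lit 6) (nat_lit 246) (nat_lit 5) (nat_lit 214) (nat_lit 279) (nat_lit 287)) (PT.lf (nat_lit 19304) (nat_lit 6) (nat_lit 254) (nat_lit 5) (nat_lit 215) (nat_lit 279) (nat_lit 286))))) (PT.nd (nat_lit 312) (PT.nd (nat_lit 156) (PT.nd (nat_lit 78) (PT.lf (nat_lit 19912) (nat_lit 6) (nat_lit 262) (nat_lit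 5) (nat_lit 216) (nat_lit 279) (nat_lit 285)) (PT.lf (nat_lit 20596) (nat_lit 6) (nat_lit 271) (nat_lit 5) (nat_lit 217) (nat_lit 279) (nat_lit 284))) (PT.nd (nat_lit 78) (PT.lf (nat_lit 21280) (nat_lit 6) (nat_lit 280) (nat_lit 5) (nat_lit 218) (nat_lit 279) (nat_lit 283)) (PT.lf (nat_lit 21964) (nat_lit 6) (nat_lit 289) (nat_lit 5) (nat_lit 219) (nat_lit 279) (nat_lit 282)))) (PT.nd (nat_lit 156) (PT.nd (nat_lit 78) (PT.lf (nat_lit 22648) (nat_lit 6) (nat_lit 298) (nat_lit 5) (nat_lit 220) (nat_lit 279) (nat_lit 281)) (PT.lf (nat_lit 23408) (nat_lit 6) (nat_lit 308) (nat_lit 5) (nat_lit 221) (nat_lit 279) (nat_lit 280))) (PT.nd (nat_lit 78) (PT.lf (nat_lit 24092) (nat_lit 3) (nat_lit 317) (nat_lit 4) (nat_lit 222) (nat_lit 279) (nat_lit 279)) (PT.lf (nat_lit 24776) (nat_lit 6) (nat_lit 326) (nat_lit 4) (nat_lit 223) (nat_lit 279) (nat_lit 278)))))) (PT.nd (nat_lit 624) (PT.nd (nat_lit 312) (PT.nd (nat_lit 156) (PT.nd (nat_lit 78) (PT.lf (nat_lit 25460) (nat_lit 6) (nat_lit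 335) (nat_lit 4) (nat_lit 224) (nat_lit 279) (nat_lit 277)) (PT.lf (nat_lit 26220) (nat_lit 6) (nat_lit 345) (nat_lit 4) (nat_lit 225) (nat_lit 279) (nat_lit 276))) (PT.nd (nat_lit 78) (PT.lf (nat_lit 26904) (nat_lit 6) (nat_lit 354) (nat_lit 4) (nat_lit 226) (nat_lit 279) (nat_lit 275)) (PT.lf (nat_lit 27664) (nat_lit 6) (nat_lit 364) (nat_lit 4) (nat_lit 227) (nat_lit 279) (nat_lit 274)))) (PT.nd (nat_lit 156) (PT.nd (nat_lit 78) (PT.lf (nat_lit 28424) (nat_lit 6) (nat_lit 374) (nat_lit 4) (nat_lit 228) (nat_lit 279) (nat_lit 273)) (PT.lf (nat_lit 29260) (nat_lit 6) (nat_lit 385) (nat_lit 4) (nat_lit 229) (nat_lit 279) (nat_lit 272))) (PT.nd (nat_lit 78) (PT.lf (nat_lit 30096) (nat_lit 6) (nat_lit 396) (nat_lit 4) (nat_lit 230) (nat_lit 279) (nat_lit 271)) (PT.lf (nat_lit 30932) (nat_lit 6) (nat_lit 407) (nat_lit 4) (nat_lit 231) (nat_lit 279) (nat_lit 270))))) (PT.nd (nat_lit 312) (PT.nd (nat_lit 156) (PT.nd (nat_lit 78) (PT.lf (nat_lit 31768) (nat_lit 6) (nat_lit 418)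 (nat_lit 4) (nat_lit 232) (nat_lit 279) (nat_lit 269)) (PT.lf (nat_lit 32680) (nat_lit 6) (nat_lit 430) (nat_lit 4) (nat_lit 233) (nat_lit 279) (nat_lit 268))) (PT.nd (nat_lit 78) (PT.lf (nat_lit 33592) (nat_lit 6) (nat_lit 442) (nat_lit 4) (nat_lit 234) (nat_lit 279) (nat_lit 267)) (PT.lf (nat_lit 34656) (nat_lit 6) (nat_lit 456) (nat_lit 4) (nat_lit 235) (nat_lit 279) (nat_lit 266)))) (PT.nd (nat_lit 156) (PT.nd (nat_lit 78) (PT.lf (nat_lit 36480) (nat_lit 6) (nat_lit 480) (nat_lit 4) (nat_lit 236) (nat_lit 279) (nat_lit 265)) (PT.lf (nat_lit 38228) (nat_lit 6) (nat_lit 503) (nat_lit 4) (nat_lit 237) (nat_lit 279) (nat_lit 264))) (PT.nd (nat_lit 78) (PT.lf (nat_lit 39900) (nat_lit 6) (nat_lit 525) (nat_lit 4) (nat_lit 238) (nat_lit 279) (nat_lit 263)) (PT.lf (nat_lit 41496) (nat_lit 6) (nat_lit 546) (nat_lit 4) (nat_lit 239) (nat_lit 279) (nat_lit 262))))))))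
noncomputable def pc46 : PT := (PT.nd (nat_lit 2418) (PT.nd (nat_lit 1170) (PT.nd (nat_lit 546) (PT.nd (nat_lit 234) (PT.nd (nat_lit 78) (PT.lf (nat_lit 43016) (nat_lit 6) (nat_lit 566) (nat_lit 4) (nat_lit 240) (nat_lit 279) (nat_lit 261)) (PT.nd (nat_lit 78) (PT.lf (nat_lit 44460) (nat_lit 6) (nat_lit 585) (nat_lit 4) (nat_lit 241) (nat_lit 279) (nat_lit 260)) (PT.lf (nat_lit 44384) (nat_lit 6) (nat_lit 584) (nat_lit 4) (nat_lit 242) (nat_lit 279) (nat_lit 259)))) (PT.nd (nat_lit 156) (PT.nd (nat_lit 78) (PT.lf (nat_lit 44308) (nat_lit 6) (nat_lit 583) (nat_lit 4) (nat_lit 243) (nat_lit 279) (nat_lit 258)) (PT.lf (nat_lit 44232) (nat_lit 6) (nat_lit 582) (nat_lit 4) (nat_lit 244) (nat_lit 279) (nat_lit 257))) (PT.nd (nat_lit 78) (PT.lf (nat_lit 44156) (nat_lit 6) (nat_lit 581) (nat_lit 4) (nat_lit 245) (nat_lit 279) (nat_lit 256)) (PT.lf (nat_lit 44080) (nat_lit 6) (nat_lit 580) (nat_lit 4) (nat_lit 246) (nat_lit 279) (nat_lit 255))))) (PT.nd (nat_lit 312) (PT.nd (nat_lit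 156) (PT.nd (nat_lit 78) (PT.lf (nat_lit 44004) (nat_lit 6) (nat_lit 579) (nat_lit 4) (nat_lit 247) (nat_lit 279) (nat_lit 254)) (PT.lf (nat_lit 43928) (nat_lit 6) (nat_lit 578) (nat_lit 4) (nat_lit 248) (nat_lit 279) (nat_lit 253))) (PT.nd (nat_lit 78) (PT.lf (nat_lit 43852) (nat_lit 6) (nat_lit 577) (nat_lit 4) (nat_lit 249) (nat_lit 279) (nat_lit 252)) (PT.lf (nat_lit 43776) (nat_lit 6) (nat_lit 576) (nat_lit 4) (nat_lit 250) (nat_lit 279) (nat_lit 251)))) (PT.nd (nat_lit 156) (PT.nd (nat_lit 78) (PT.lf (nat_lit 43776) (nat_lit 6) (nat_lit 576) (nat_lit 2) (nat_lit 251) (nat_lit 279) (nat_lit 250)) (PT.lf (nat_lit 43852) (nat_lit 6) (nat_lit 577) (nat_lit 2) (nat_lit 252) (nat_lit 279) (nat_lit 249))) (PT.nd (nat_lit 78) (PT.lf (nat_lit 43928) (nat_lit 6) (nat_lit 578) (nat_lit 2) (nat_lit 253) (nat_lit 279) (nat_lit 248)) (PT.lf (nat_lit 44004) (nat_lit 6) (nat_lit 579) (nat_lit 2) (nat_lit 254) (nat_lit 279) (nat_lit 247)))))) (PT.nd (nat_lit 624) (PT.nd (nat_lit 312)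 (PT.nd (nat_lit 156) (PT.nd (nat_lit 78) (PT.lf (nat_lit 44080) (nat_lit 6) (nat_lit 580) (nat_lit 2) (nat_lit 255) (nat_lit 279) (nat_lit 246)) (PT.lf (nat_lit 44156) (nat_lit 6) (nat_lit 581) (nat_lit 2) (nat_lit 256) (nat_lit 279) (nat_lit 245))) (PT.nd (nat_lit 78) (PT.lf (nat_lit 44232) (nat_lit 6) (nat_lit 582) (nat_lit 2) (nat_lit 257) (nat_lit 279) (nat_lit 244)) (PT.lf (nat_lit 44308) (nat_lit 6) (nat_lit 583) (nat_lit 2) (nat_lit 258) (nat_lit 279) (nat_lit 243)))) (PT.nd (nat_lit 156) (PT.nd (nat_lit 78) (PT.lf (nat_lit 44384) (nat_lit 6) (nat_lit 584) (nat_lit 2) (nat_lit 259) (nat_lit 279) (nat_lit 242)) (PT.lf (nat_lit 44460) (nat_lit 6) (nat_lit 585) (nat_lit 2) (nat_lit 260) (nat_lit 279) (nat_lit 241))) (PT.nd (nat_lit 78) (PT.lf (nat_lit 43016) (nat_lit 6) (nat_lit 566) (nat_lit 2) (nat_lit 261) (nat_lit 279) (nat_lit 240)) (PT.lf (nat_lit 41496) (nat_lit 6) (nat_lit 546) (nat_lit 2) (nat_lit 262) (nat_lit 279) (nat_lit 239))))) (PT.nd (nat_lit 312) (PT.nd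 (nat_lit 156) (PT.nd (nat_lit 78) (PT.lf (nat_lit 39900) (nat_lit 6) (nat_lit 525) (nat_lit 2) (nat_lit 263) (nat_lit 279) (nat_lit 238)) (PT.lf (nat_lit 38228) (nat_lit 6) (nat_lit 503) (nat_lit 2) (nat_lit 264) (nat_lit 279) (nat_lit 237))) (PT.nd (nat_lit 78) (PT.lf (nat_lit 36480) (nat_lit 6) (nat_lit 480) (nat_lit 2) (nat_lit 265) (nat_lit 279) (nat_lit 236)) (PT.lf (nat_lit 34656) (nat_lit 6) (nat_lit 456) (nat_lit 2) (nat_lit 266) (nat_lit 279) (nat_lit 235)))) (PT.nd (nat_lit 156) (PT.nd (nat_lit 78) (PT.lf (nat_lit 33592) (nat_lit 6) (nat_lit 442) (nat_lit 2) (nat_lit 267) (nat_lit 279) (nat_lit 234)) (PT.lf (nat_lit 32680) (nat_lit 6) (nat_lit 430) (nat_lit 2) (nat_lit 268) (nat_lit 279) (nat_lit 233))) (PT.nd (nat_lit 78) (PT.lf (nat_lit 31768) (nat_lit 6) (nat_lit 418) (nat_lit 2) (nat_lit 269) (nat_lit 279) (nat_lit 232)) (PT.lf (nat_lit 30932) (nat_lit 6) (nat_lit 407) (nat_lit 2) (nat_lit 270) (nat_lit 279) (nat_lit 231))))))) (PT.nd (nat_lit 1170) (PT.nd (nat_lit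 546) (PT.nd (nat_lit 234) (PT.nd (nat_lit 78) (PT.lf (nat_lit 30096) (nat_lit 6) (nat_lit 396) (nat_lit 2) (nat_lit 271) (nat_lit 279) (nat_lit 230)) (PT.nd (nat_lit 78) (PT.lf (nat_lit 29260) (nat_lit 6) (nat_lit 385) (nat_lit 2) (nat_lit 272) (nat_lit 279) (nat_lit 229)) (PT.lf (nat_lit 28424) (nat_lit 6) (nat_lit 374) (nat_lit 2) (nat_lit 273) (nat_lit 279) (nat_lit 228)))) (PT.nd (nat_lit 156) (PT.nd (nat_lit 78) (PT.lf (nat_lit 27664) (nat_lit 6) (nat_lit 364) (nat_lit 2) (nat_lit 274) (nat_lit 279) (nat_lit 227)) (PT.lf (nat_lit 26904) (nat_lit 6) (nat_lit 354) (nat_lit 2) (nat_lit 275) (nat_lit 279) (nat_lit 226))) (PT.nd (nat_lit 78) (PT.lf (nat_lit 26220) (nat_lit 6) (nat_lit 345) (nat_lit 2) (nat_lit 276) (nat_lit 279) (nat_lit 225)) (PT.lf (nat_lit 25460) (nat_lit 6) (nat_lit 335) (nat_lit 2) (nat_lit 277) (nat_lit 279) (nat_lit 224))))) (PT.nd (nat_lit 312) (PT.nd (nat_lit 156) (PT.nd (nat_lit 78) (PT.lf (nat_lit 24776) (nat_lit 6) (nat_lit 326) (nat_lit 2) (nat_lit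 278) (nat_lit 279) (nat_lit 223)) (PT.lf (nat_lit 24092) (nat_lit 3) (nat_lit 317) (nat_lit 0) (nat_lit 279) (nat_lit 279) (nat_lit 222))) (PT.nd (nat_lit 78) (PT.lf (nat_lit 23408) (nat_lit 6) (nat_lit 308) (nat_lit 0) (nat_lit 280) (nat_lit 279) (nat_lit 221)) (PT.lf (nat_lit 22648) (nat_lit 6) (nat_lit 298) (nat_lit 0) (nat_lit 281) (nat_lit 279) (nat_lit 220)))) (PT.nd (nat_lit 156) (PT.nd (nat_lit 78) (PT.lf (nat_lit 21964) (nat_lit 6) (nat_lit 289) (nat_lit 0) (nat_lit 282) (nat_lit 279) (nat_lit 219)) (PT.lf (nat_lit 21280) (nat_lit 6) (nat_lit 280) (nat_lit 0) (nat_lit 283) (nat_lit 279) (nat_lit 218))) (PT.nd (nat_lit 78) (PT.lf (nat_lit 20596) (nat_lit 6) (nat_lit 271) (nat_lit 0) (nat_lit 284) (nat_lit 279) (nat_lit 217)) (PT.lf (nat_lit 19912) (nat_lit 6) (nat_lit 262) (nat_lit 0) (nat_lit 285) (nat_lit 279) (nat_lit 216)))))) (PT.nd (nat_lit 75270) (PT.nd (nat_lit 312) (PT.nd (nat_lit 156) (PT.nd (nat_lit 78) (PT.lf (nat_lit 19304) (nat_lit 6) (nat_lit 254) (nat_lit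 0) (nat_lit 286) (nat_lit 279) (nat_lit 215)) (PT.lf (nat_lit 18696) (nat_lit 6) (nat_lit 246) (nat_lit 0) (nat_lit 287) (nat_lit 279) (nat_lit 214))) (PT.nd (nat_lit 78) (PT.lf (nat_lit 18088) (nat_lit 6) (nat_lit 238) (nat_lit 0) (nat_lit 288) (nat_lit 279) (nat_lit 213)) (PT.lf (nat_lit 17480) (nat_lit 6) (nat_lit 230) (nat_lit 0) (nat_lit 289) (nat_lit 279) (nat_lit 212)))) (PT.nd (nat_lit 74802) (PT.nd (nat_lit 78) (PT.lf (nat_lit 16948) (nat_lit 6) (nat_lit 223) (nat_lit 0) (nat_lit 290) (nat_lit 279) (nat_lit 211)) (PT.lf (nat_lit 16340) (nat_lit 6) (nat_lit 215) (nat_lit 0) (nat_lit 291) (nat_lit 279) (nat_lit 210))) (PT.nd (nat_lit 78) (PT.lf (nat_lit 15352) (nat_lit 6) (nat_lit 202) (nat_lit 5) (nat_lit 208) (nat_lit 280) (nat_lit 292)) (PT.lf (nat_lit 15884) (nat_lit 6) (nat_lit 209) (nat_lit 5) (nat_lit 209) (nat_lit 280) (nat_lit 291))))) (PT.nd (nat_lit 312) (PT.nd (nat_lit 156) (PT.nd (nat_lit 78) (PT.lf (nat_lit 16416) (nat_lit 6) (nat_lit 216) (nat_lit 5)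 (nat_lit 210) (nat_lit 280) (nat_lit 290)) (PT.lf (nat_lit 17024) (nat_lit 6) (nat_lit 224) (nat_lit 5) (nat_lit 211) (nat_lit 280) (nat_lit 289))) (PT.nd (nat_lit 78) (PT.lf (nat_lit 17556) (nat_lit 6) (nat_lit 231) (nat_lit 5) (nat_lit 212) (nat_lit 280) (nat_lit 288)) (PT.lf (nat_lit 18164) (nat_lit 6) (nat_lit 239) (nat_lit 5) (nat_lit 213) (nat_lit 280) (nat_lit 287)))) (PT.nd (nat_lit 156) (PT.nd (nat_lit 78) (PT.lf (nat_lit 18772) (nat_lit 6) (nat_lit 247) (nat_lit 5) (nat_lit 214) (nat_lit 280) (nat_lit 286)) (PT.lf (nat_lit 19380) (nat_lit 6) (nat_lit 255) (nat_lit 5) (nat_lit 215) (nat_lit 280) (nat_lit 285))) (PT.nd (nat_lit 78) (PT.lf (nat_lit 19988) (nat_lit 6) (nat_lit 263) (nat_lit 5) (nat_lit 216) (nat_lit 280) (nat_lit 284)) (PT.lf (nat_lit 20672) (nat_lit 6) (nat_lit 272) (nat_lit 5) (nat_lit 217) (nat_lit 280) (nat_lit 283))))))))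
noncomputable def pc47 : PT := (PT.nd (nat_lit 2418) (PT.nd (nat_lit 1170) (PT.nd (nat_lit 546) (PT.nd (nat_lit 234) (PT.nd (nat_lit 78) (PT.lf (nat_lit 21356) (nat_lit 6) (nat_lit 281) (nat_lit 5) (nat_lit 218) (nat_lit 280) (nat_lit 282)) (PT.nd (nat_lit 78) (PT.lf (nat_lit 22040) (nat_lit 6) (nat_lit 290) (nat_lit 5) (nat_lit 219) (nat_lit 280) (nat_lit 281)) (PT.lf (nat_lit 22724) (nat_lit 3) (nat_lit 299) (nat_lit 4) (nat_lit 220) (nat_lit 280) (nat_lit 280)))) (PT.nd (nat_lit 156) (PT.nd (nat_lit 78) (PT.lf (nat_lit 23408) (nat_lit 6) (nat_lit 308) (nat_lit 4) (nat_lit 221) (nat_lit 280) (nat_lit 279)) (PT.lf (nat_lit 24016) (nat_lit 6) (nat_lit 316) (nat_lit 4) (nat_lit 222) (nat_lit 280) (nat_lit 278))) (PT.nd (nat_lit 78) (PT.lf (nat_lit 24700) (nat_lit 6) (nat_lit 325) (nat_lit 4) (nat_lit 223) (nat_lit 280) (nat_lit 277)) (PT.lf (nat_lit 25384) (nat_lit 6) (nat_lit 334) (nat_lit 4) (nat_lit 224) (nat_lit 280) (nat_lit 276))))) (PT.nd (nat_lit 312) (PT.nd (nat_lit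 156) (PT.nd (nat_lit 78) (PT.lf (nat_lit 26144) (nat_lit 6) (nat_lit 344) (nat_lit 4) (nat_lit 225) (nat_lit 280) (nat_lit 275)) (PT.lf (nat_lit 26828) (nat_lit 6) (nat_lit 353) (nat_lit 4) (nat_lit 226) (nat_lit 280) (nat_lit 274))) (PT.nd (nat_lit 78) (PT.lf (nat_lit 27588) (nat_lit 6) (nat_lit 363) (nat_lit 4) (nat_lit 227) (nat_lit 280) (nat_lit 273)) (PT.lf (nat_lit 28348) (nat_lit 6) (nat_lit 373) (nat_lit 4) (nat_lit 228) (nat_lit 280) (nat_lit 272)))) (PT.nd (nat_lit 156) (PT.nd (nat_lit 78) (PT.lf (nat_lit 29184) (nat_lit 6) (nat_lit 384) (nat_lit 4) (nat_lit 229) (nat_lit 280) (nat_lit 271)) (PT.lf (nat_lit 30020) (nat_lit 6) (nat_lit 395) (nat_lit 4) (nat_lit 230) (nat_lit 280) (nat_lit 270))) (PT.nd (nat_lit 78) (PT.lf (nat_lit 30856) (nat_lit 6) (nat_lit 406) (nat_lit 4) (nat_lit 231) (nat_lit 280) (nat_lit 269)) (PT.lf (nat_lit 31692) (nat_lit 6) (nat_lit 417) (nat_lit 4) (nat_lit 232) (nat_lit 280) (nat_lit 268)))))) (PT.nd (nat_lit 624) (PT.nd (nat_lit 312)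 (PT.nd (nat_lit 156) (PT.nd (nat_lit 78) (PT.lf (nat_lit 32604) (nat_lit 6) (nat_lit 429) (nat_lit 4) (nat_lit 233) (nat_lit 280) (nat_lit 267)) (PT.lf (nat_lit 33516) (nat_lit 6) (nat_lit 441) (nat_lit 4) (nat_lit 234) (nat_lit 280) (nat_lit 266))) (PT.nd (nat_lit 78) (PT.lf (nat_lit 34580) (nat_lit 6) (nat_lit 455) (nat_lit 4) (nat_lit 235) (nat_lit 280) (nat_lit 265)) (PT.lf (nat_lit 36404) (nat_lit 6) (nat_lit 479) (nat_lit 4) (nat_lit 236) (nat_lit 280) (nat_lit 264)))) (PT.nd (nat_lit 156) (PT.nd (nat_lit 78) (PT.lf (nat_lit 38152) (nat_lit 6) (nat_lit 502) (nat_lit 4) (nat_lit 237) (nat_lit 280) (nat_lit 263)) (PT.lf (nat_lit 39824) (nat_lit 6) (nat_lit 524) (nat_lit 4) (nat_lit 238) (nat_lit 280) (nat_lit 262))) (PT.nd (nat_lit 78) (PT.lf (nat_lit 41420) (nat_lit 6) (nat_lit 545) (nat_lit 4) (nat_lit 239) (nat_lit 280) (nat_lit 261)) (PT.lf (nat_lit 42940) (nat_lit 6) (nat_lit 565) (nat_lit 4) (nat_lit 240) (nat_lit 280) (nat_lit 260))))) (PT.nd (nat_lit 312) (PT.nd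 (nat_lit 156) (PT.nd (nat_lit 78) (PT.lf (nat_lit 42864) (nat_lit 6) (nat_lit 564) (nat_lit 4) (nat_lit 241) (nat_lit 280) (nat_lit 259)) (PT.lf (nat_lit 42788) (nat_lit 6) (nat_lit 563) (nat_lit 4) (nat_lit 242) (nat_lit 280) (nat_lit 258))) (PT.nd (nat_lit 78) (PT.lf (nat_lit 42712) (nat_lit 6) (nat_lit 562) (nat_lit 4) (nat_lit 243) (nat_lit 280) (nat_lit 257)) (PT.lf (nat_lit 42636) (nat_lit 6) (nat_lit 561) (nat_lit 4) (nat_lit 244) (nat_lit 280) (nat_lit 256)))) (PT.nd (nat_lit 156) (PT.nd (nat_lit 78) (PT.lf (nat_lit 42560) (nat_lit 6) (nat_lit 560) (nat_lit 4) (nat_lit 245) (nat_lit 280) (nat_lit 255)) (PT.lf (nat_lit 42484) (nat_lit 6) (nat_lit 559) (nat_lit 4) (nat_lit 246) (nat_lit 280) (nat_lit 254))) (PT.nd (nat_lit 78) (PT.lf (nat_lit 42408) (nat_lit 6) (nat_lit 558) (nat_lit 4) (nat_lit 247) (nat_lit 280) (nat_lit 253)) (PT.lf (nat_lit 42332) (nat_lit 6) (nat_lit 557) (nat_lit 4) (nat_lit 248) (nat_lit 280) (nat_lit 252))))))) (PT.nd (nat_lit 1248) (PT.nd (nat_lit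 624) (PT.nd (nat_lit 312) (PT.nd (nat_lit 156) (PT.nd (nat_lit 78) (PT.lf (nat_lit 42256) (nat_lit 6) (nat_lit 556) (nat_lit 4) (nat_lit 249) (nat_lit 280) (nat_lit 251)) (PT.lf (nat_lit 42180) (nat_lit 3) (nat_lit 555) (nat_lit 2) (nat_lit 250) (nat_lit 280) (nat_lit 250))) (PT.nd (nat_lit 78) (PT.lf (nat_lit 42256) (nat_lit 6) (nat_lit 556) (nat_lit 2) (nat_lit 251) (nat_lit 280) (nat_lit 249)) (PT.lf (nat_lit 42332) (nat_lit 6) (nat_lit 557) (nat_lit 2) (nat_lit 252) (nat_lit 280) (nat_lit 248)))) (PT.nd (nat_lit 156) (PT.nd (nat_lit 78) (PT.lf (nat_lit 42408) (nat_lit 6) (nat_lit 558) (nat_lit 2) (nat_lit 253) (nat_lit 280) (nat_lit 247)) (PT.lf (nat_lit 42484) (nat_lit 6) (nat_lit 559) (nat_lit 2) (nat_lit 254) (nat_lit 280) (nat_lit 246))) (PT.nd (nat_lit 78) (PT.lf (nat_lit 42560) (nat_lit 6) (nat_lit 560) (nat_lit 2) (nat_lit 255) (nat_lit 280) (nat_lit 245)) (PT.lf (nat_lit 42636) (nat_lit 6) (nat_lit 561) (nat_lit 2) (nat_lit 256) (nat_lit 280) (nat_lit 244)))))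 (PT.nd (nat_lit 312) (PT.nd (nat_lit 156) (PT.nd (nat_lit 78) (PT.lf (nat_lit 42712) (nat_lit 6) (nat_lit 562) (nat_lit 2) (nat_lit 257) (nat_lit 280) (nat_lit 243)) (PT.lf (nat_lit 42788) (nat_lit 6) (nat_lit 563) (nat_lit 2) (nat_lit 258) (nat_lit 280) (nat_lit 242))) (PT.nd (nat_lit 78) (PT.lf (nat_lit 42864) (nat_lit 6) (nat_lit 564) (nat_lit 2) (nat_lit 259) (nat_lit 280) (nat_lit 241)) (PT.lf (nat_lit 42940) (nat_lit 6) (nat_lit 565) (nat_lit 2) (nat_lit 260) (nat_lit 280) (nat_lit 240)))) (PT.nd (nat_lit 156) (PT.nd (nat_lit 78) (PT.lf (nat_lit 41420) (nat_lit 6) (nat_lit 545) (nat_lit 2) (nat_lit 261) (nat_lit 280) (nat_lit 239)) (PT.lf (nat_lit 39824) (nat_lit 6) (nat_lit 524) (nat_lit 2) (nat_lit 262) (nat_lit 280) (nat_lit 238))) (PT.nd (nat_lit 78) (PT.lf (nat_lit 38152) (nat_lit 6) (nat_lit 502) (nat_lit 2) (nat_lit 263) (nat_lit 280) (nat_lit 237)) (PT.lf (nat_lit 36404) (nat_lit 6) (nat_lit 479) (nat_lit 2) (nat_lit 264) (nat_lit 280) (nat_lit 236)))))) (PT.nd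 (nat_lit 624) (PT.nd (nat_lit 312) (PT.nd (nat_lit 156) (PT.nd (nat_lit 78) (PT.lf (nat_lit 34580) (nat_lit 6) (nat_lit 455) (nat_lit 2) (nat_lit 265) (nat_lit 280) (nat_lit 235)) (PT.lf (nat_lit 33516) (nat_lit 6) (nat_lit 441) (nat_lit 2) (nat_lit 266) (nat_lit 280) (nat_lit 234))) (PT.nd (nat_lit 78) (PT.lf (nat_lit 32604) (nat_lit 6) (nat_lit 429) (nat_lit 2) (nat_lit 267) (nat_lit 280) (nat_lit 233)) (PT.lf (nat_lit 31692) (nat_lit 6) (nat_lit 417) (nat_lit 2) (nat_lit 268) (nat_lit 280) (nat_lit 232)))) (PT.nd (nat_lit 156) (PT.nd (nat_lit 78) (PT.lf (nat_lit 30856) (nat_lit 6) (nat_lit 406) (nat_lit 2) (nat_lit 269) (nat_lit 280) (nat_lit 231)) (PT.lf (nat_lit 30020) (nat_lit 6) (nat_lit 395) (nat_lit 2) (nat_lit 270) (nat_lit 280) (nat_lit 230))) (PT.nd (nat_lit 78) (PT.lf (nat_lit 29184) (nat_lit 6) (nat_lit 384) (nat_lit 2) (nat_lit 271) (nat_lit 280) (nat_lit 229)) (PT.lf (nat_lit 28348) (nat_lit 6) (nat_lit 373) (nat_lit 2) (nat_lit 272) (nat_lit 280) (nat_lit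 228))))) (PT.nd (nat_lit 312) (PT.nd (nat_lit 156) (PT.nd (nat_lit 78) (PT.lf (nat_lit 27588) (nat_lit 6) (nat_lit 363) (nat_lit 2) (nat_lit 273) (nat_lit 280) (nat_lit 227)) (PT.lf (nat_lit 26828) (nat_lit 6) (nat_lit 353) (nat_lit 2) (nat_lit 274) (nat_lit 280) (nat_lit 226))) (PT.nd (nat_lit 78) (PT.lf (nat_lit 26144) (nat_lit 6) (nat_lit 344) (nat_lit 2) (nat_lit 275) (nat_lit 280) (nat_lit 225)) (PT.lf (nat_lit 25384) (nat_lit 6) (nat_lit 334) (nat_lit 2) (nat_lit 276) (nat_lit 280) (nat_lit 224)))) (PT.nd (nat_lit 156) (PT.nd (nat_lit 78) (PT.lf (nat_lit 24700) (nat_lit 6) (nat_lit 325) (nat_lit 2) (nat_lit 277) (nat_lit 280) (nat_lit 223)) (PT.lf (nat_lit 24016) (nat_lit 6) (nat_lit 316) (nat_lit 2) (nat_lit 278) (nat_lit 280) (nat_lit 222))) (PT.nd (nat_lit 78) (PT.lf (nat_lit 23408) (nat_lit 6) (nat_lit 308) (nat_lit 2) (nat_lit 279) (nat_lit 280) (nat_lit 221)) (PT.lf (nat_lit 22724) (nat_lit 3) (nat_lit 299) (nat_lit 0) (nat_lit 280) (nat_lit 280) (nat_lit 220))))))))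
noncomputable def pc48 : PT := (PT.nd (nat_lit 76908) (PT.nd (nat_lit 75660) (PT.nd (nat_lit 546) (PT.nd (nat_lit 234) (PT.nd (nat_lit 78) (PT.lf (nat_lit 22040) (nat_lit 6) (nat_lit 290) (nat_lit 0) (nat_lit 281) (nat_lit 280) (nat_lit 219)) (PT.nd (nat_lit 78) (PT.lf (nat_lit 21356) (nat_lit 6) (nat_lit 281) (nat_lit 0) (nat_lit 282) (nat_lit 280) (nat_lit 218)) (PT.lf (nat_lit 20672) (nat_lit 6) (nat_lit 272) (nat_lit 0) (nat_lit 283) (nat_lit 280) (nat_lit 217)))) (PT.nd (nat_lit 156) (PT.nd (nat_lit 78) (PT.lf (nat_lit 19988) (nat_lit 6) (nat_lit 263) (nat_lit 0) (nat_lit 284) (nat_lit 280) (nat_lit 216)) (PT.lf (nat_lit 19380) (nat_lit 6) (nat_lit 255) (nat_lit 0) (nat_lit 285) (nat_lit 280) (nat_lit 215))) (PT.nd (nat_lit 78) (PT.lf (nat_lit 18772) (nat_lit 6) (nat_lit 247) (nat_lit 0) (nat_lit 286) (nat_lit 280) (nat_lit 214)) (PT.lf (nat_lit 18164) (nat_lit 6) (nat_lit 239) (nat_lit 0) (nat_lit 287) (nat_lit 280) (nat_lit 213))))) (PT.nd (nat_lit 312) (PT.nd (nat_lit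 156) (PT.nd (nat_lit 78) (PT.lf (nat_lit 17556) (nat_lit 6) (nat_lit 231) (nat_lit 0) (nat_lit 288) (nat_lit 280) (nat_lit 212)) (PT.lf (nat_lit 17024) (nat_lit 6) (nat_lit 224) (nat_lit 0) (nat_lit 289) (nat_lit 280) (nat_lit 211))) (PT.nd (nat_lit 78) (PT.lf (nat_lit 16416) (nat_lit 6) (nat_lit 216) (nat_lit 0) (nat_lit 290) (nat_lit 280) (nat_lit 210)) (PT.lf (nat_lit 15884) (nat_lit 6) (nat_lit 209) (nat_lit 0) (nat_lit 291) (nat_lit 280) (nat_lit 209)))) (PT.nd (nat_lit 74646) (PT.nd (nat_lit 74568) (PT.lf (nat_lit 15352) (nat_lit 6) (nat_lit 202) (nat_lit 0) (nat_lit 292) (nat_lit 280) (nat_lit 208)) (PT.lf (nat_lit 14896) (nat_lit 6) (nat_lit 196) (nat_lit 5) (nat_lit 207) (nat_lit 281) (nat_lit 292))) (PT.nd (nat_lit 78) (PT.lf (nat_lit 15428) (nat_lit 6) (nat_lit 203) (nat_lit 5) (nat_lit 208) (nat_lit 281) (nat_lit 291)) (PT.lf (nat_lit 15960) (nat_lit 6) (nat_lit 210) (nat_lit 5) (nat_lit 209) (nat_lit 281) (nat_lit 290)))))) (PT.nd (nat_lit 624) (PT.nd (nat_lit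 312) (PT.nd (nat_lit 156) (PT.nd (nat_lit 78) (PT.lf (nat_lit 16492) (nat_lit 6) (nat_lit 217) (nat_lit 5) (nat_lit 210) (nat_lit 281) (nat_lit 289)) (PT.lf (nat_lit 17100) (nat_lit 6) (nat_lit 225) (nat_lit 5) (nat_lit 211) (nat_lit 281) (nat_lit 288))) (PT.nd (nat_lit 78) (PT.lf (nat_lit 17632) (nat_lit 6) (nat_lit 232) (nat_lit 5) (nat_lit 212) (nat_lit 281) (nat_lit 287)) (PT.lf (nat_lit 18240) (nat_lit 6) (nat_lit 240) (nat_lit 5) (nat_lit 213) (nat_lit 281) (nat_lit 286)))) (PT.nd (nat_lit 156) (PT.nd (nat_lit 78) (PT.lf (nat_lit 18848) (nat_lit 6) (nat_lit 248) (nat_lit 5) (nat_lit 214) (nat_lit 281) (nat_lit 285)) (PT.lf (nat_lit 19456) (nat_lit 6) (nat_lit 256) (nat_lit 5) (nat_lit 215) (nat_lit 281) (nat_lit 284))) (PT.nd (nat_lit 78) (PT.lf (nat_lit 20064) (nat_lit 6) (nat_lit 264) (nat_lit 5) (nat_lit 216) (nat_lit 281) (nat_lit 283)) (PT.lf (nat_lit 20748) (nat_lit 6) (nat_lit 273) (nat_lit 5) (nat_lit 217) (nat_lit 281) (nat_lit 282))))) (PT.nd (nat_lit 312)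 (PT.nd (nat_lit 156) (PT.nd (nat_lit 78) (PT.lf (nat_lit 21432) (nat_lit 3) (nat_lit 282) (nat_lit 4) (nat_lit 218) (nat_lit 281) (nat_lit 281)) (PT.lf (nat_lit 22040) (nat_lit 6) (nat_lit 290) (nat_lit 4) (nat_lit 219) (nat_lit 281) (nat_lit 280))) (PT.nd (nat_lit 78) (PT.lf (nat_lit 22648) (nat_lit 6) (nat_lit 298) (nat_lit 4) (nat_lit 220) (nat_lit 281) (nat_lit 279)) (PT.lf (nat_lit 23332) (nat_lit 6) (nat_lit 307) (nat_lit 4) (nat_lit 221) (nat_lit 281) (nat_lit 278)))) (PT.nd (nat_lit 156) (PT.nd (nat_lit 78) (PT.lf (nat_lit 23940) (nat_lit 6) (nat_lit 315) (nat_lit 4) (nat_lit 222) (nat_lit 281) (nat_lit 277)) (PT.lf (nat_lit 24624) (nat_lit 6) (nat_lit 324) (nat_lit 4) (nat_lit 223) (nat_lit 281) (nat_lit 276))) (PT.nd (nat_lit 78) (PT.lf (nat_lit 25308) (nat_lit 6) (nat_lit 333) (nat_lit 4) (nat_lit 224) (nat_lit 281) (nat_lit 275)) (PT.lf (nat_lit 26068) (nat_lit 6) (nat_lit 343) (nat_lit 4) (nat_lit 225) (nat_lit 281) (nat_lit 274))))))) (PT.nd (nat_lit 1170) (PT.nd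 (nat_lit 546) (PT.nd (nat_lit 234) (PT.nd (nat_lit 78) (PT.lf (nat_lit 26752) (nat_lit 6) (nat_lit 352) (nat_lit 4) (nat_lit 226) (nat_lit 281) (nat_lit 273)) (PT.nd (nat_lit 78) (PT.lf (nat_lit 27512) (nat_lit 6) (nat_lit 362) (nat_lit 4) (nat_lit 227) (nat_lit 281) (nat_lit 272)) (PT.lf (nat_lit 28272) (nat_lit 6) (nat_lit 372) (nat_lit 4) (nat_lit 228) (nat_lit 281) (nat_lit 271)))) (PT.nd (nat_lit 156) (PT.nd (nat_lit 78) (PT.lf (nat_lit 29108) (nat_lit 6) (nat_lit 383) (nat_lit 4) (nat_lit 229) (nat_lit 281) (nat_lit 270)) (PT.lf (nat_lit 29944) (nat_lit 6) (nat_lit 394) (nat_lit 4) (nat_lit 230) (nat_lit 281) (nat_lit 269))) (PT.nd (nat_lit 78) (PT.lf (nat_lit 30780) (nat_lit 6) (nat_lit 405) (nat_lit 4) (nat_lit 231) (nat_lit 281) (nat_lit 268)) (PT.lf (nat_lit 31616) (nat_lit 6) (nat_lit 416) (nat_lit 4) (nat_lit 232) (nat_lit 281) (nat_lit 267))))) (PT.nd (nat_lit 312) (PT.nd (nat_lit 156) (PT.nd (nat_lit 78) (PT.lf (nat_lit 32528) (nat_lit 6) (nat_lit 428) (nat_lit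 4) (nat_lit 233) (nat_lit 281) (nat_lit 266)) (PT.lf (nat_lit 33440) (nat_lit 6) (nat_lit 440) (nat_lit 4) (nat_lit 234) (nat_lit 281) (nat_lit 265))) (PT.nd (nat_lit 78) (PT.lf (nat_lit 34504) (nat_lit 6) (nat_lit 454) (nat_lit 4) (nat_lit 235) (nat_lit 281) (nat_lit 264)) (PT.lf (nat_lit 36328) (nat_lit 6) (nat_lit 478) (nat_lit 4) (nat_lit 236) (nat_lit 281) (nat_lit 263)))) (PT.nd (nat_lit 156) (PT.nd (nat_lit 78) (PT.lf (nat_lit 38076) (nat_lit 6) (nat_lit 501) (nat_lit 4) (nat_lit 237) (nat_lit 281) (nat_lit 262)) (PT.lf (nat_lit 39748) (nat_lit 6) (nat_lit 523) (nat_lit 4) (nat_lit 238) (nat_lit 281) (nat_lit 261))) (PT.nd (nat_lit 78) (PT.lf (nat_lit 41344) (nat_lit 6) (nat_lit 544) (nat_lit 4) (nat_lit 239) (nat_lit 281) (nat_lit 260)) (PT.lf (nat_lit 41268) (nat_lit 6) (nat_lit 543) (nat_lit 4) (nat_lit 240) (nat_lit 281) (nat_lit 259)))))) (PT.nd (nat_lit 624) (PT.nd (nat_lit 312) (PT.nd (nat_lit 156) (PT.nd (nat_lit 78) (PT.lf (nat_lit 41192) (nat_lit 6) (nat_lit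 542) (nat_lit 4) (nat_lit 241) (nat_lit 281) (nat_lit 258)) (PT.lf (nat_lit 41116) (nat_lit 6) (nat_lit 541) (nat_lit 4) (nat_lit 242) (nat_lit 281) (nat_lit 257))) (PT.nd (nat_lit 78) (PT.lf (nat_lit 41040) (nat_lit 6) (nat_lit 540) (nat_lit 4) (nat_lit 243) (nat_lit 281) (nat_lit 256)) (PT.lf (nat_lit 40964) (nat_lit 6) (nat_lit 539) (nat_lit 4) (nat_lit 244) (nat_lit 281) (nat_lit 255)))) (PT.nd (nat_lit 156) (PT.nd (nat_lit 78) (PT.lf (nat_lit 40888) (nat_lit 6) (nat_lit 538) (nat_lit 4) (nat_lit 245) (nat_lit 281) (nat_lit 254)) (PT.lf (nat_lit 40812) (nat_lit 6) (nat_lit 537) (nat_lit 4) (nat_lit 246) (nat_lit 281) (nat_lit 253))) (PT.nd (nat_lit 78) (PT.lf (nat_lit 40736) (nat_lit 6) (nat_lit 536) (nat_lit 4) (nat_lit 247) (nat_lit 281) (nat_lit 252)) (PT.lf (nat_lit 40660) (nat_lit 6) (nat_lit 535) (nat_lit 4) (nat_lit 248) (nat_lit 281) (nat_lit 251))))) (PT.nd (nat_lit 312) (PT.nd (nat_lit 156) (PT.nd (nat_lit 78) (PT.lf (nat_lit 40584) (nat_lit 6) (nat_lit 534)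 (nat_lit 4) (nat_lit 249) (nat_lit 281) (nat_lit 250)) (PT.lf (nat_lit 40584) (nat_lit 6) (nat_lit 534) (nat_lit 2) (nat_lit 250) (nat_lit 281) (nat_lit 249))) (PT.nd (nat_lit 78) (PT.lf (nat_lit 40660) (nat_lit 6) (nat_lit 535) (nat_lit 2) (nat_lit 251) (nat_lit 281) (nat_lit 248)) (PT.lf (nat_lit 40736) (nat_lit 6) (nat_lit 536) (nat_lit 2) (nat_lit 252) (nat_lit 281) (nat_lit 247)))) (PT.nd (nat_lit 156) (PT.nd (nat_lit 78) (PT.lf (nat_lit 40812) (nat_lit 6) (nat_lit 537) (nat_lit 2) (nat_lit 253) (nat_lit 281) (nat_lit 246)) (PT.lf (nat_lit 40888) (nat_lit 6) (nat_lit 538) (nat_lit 2) (nat_lit 254) (nat_lit 281) (nat_lit 245))) (PT.nd (nat_lit 78) (PT.lf (nat_lit 40964) (nat_lit 6) (nat_lit 539) (nat_lit 2) (nat_lit 255) (nat_lit 281) (nat_lit 244)) (PT.lf (nat_lit 41040) (nat_lit 6) (nat_lit 540) (nat_lit 2) (nat_lit 256) (nat_lit 281) (nat_lit 243))))))))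
noncomputable def pc49 : PT := (PT.nd (nat_lit 2418) (PT.nd (nat_lit 1170) (PT.nd (nat_lit 546) (PT.nd (nat_lit 234) (PT.nd (nat_lit 78) (PT.lf (nat_lit 41116) (nat_lit 6) (nat_lit 541) (nat_lit 2) (nat_lit 257) (nat_lit 281) (nat_lit 242)) (PT.nd (nat_lit 78) (PT.lf (nat_lit 41192) (nat_lit 6) (nat_lit 542) (nat_lit 2) (nat_lit 258) (nat_lit 281) (nat_lit 241)) (PT.lf (nat_lit 41268) (nat_lit 6) (nat_lit 543) (nat_lit 2) (nat_lit 259) (nat_lit 281) (nat_lit 240)))) (PT.nd (nat_lit 156) (PT.nd (nat_lit 78) (PT.lf (nat_lit 41344) (nat_lit 6) (nat_lit 544) (nat_lit 2) (nat_lit 260) (nat_lit 281) (nat_lit 239)) (PT.lf (nat_lit 39748) (nat_lit 6) (nat_lit 523) (nat_lit 2) (nat_lit 261) (nat_lit 281) (nat_lit 238))) (PT.nd (nat_lit 78) (PT.lf (nat_lit 38076) (nat_lit 6) (nat_lit 501) (nat_lit 2) (nat_lit 262) (nat_lit 281) (nat_lit 237)) (PT.lf (nat_lit 36328) (nat_lit 6) (nat_lit 478) (nat_lit 2) (nat_lit 263) (nat_lit 281) (nat_lit 236))))) (PT.nd (nat_lit 312) (PT.nd (nat_lit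 156) (PT.nd (nat_lit 78) (PT.lf (nat_lit 34504) (nat_lit 6) (nat_lit 454) (nat_lit 2) (nat_lit 264) (nat_lit 281) (nat_lit 235)) (PT.lf (nat_lit 33440) (nat_lit 6) (nat_lit 440) (nat_lit 2) (nat_lit 265) (nat_lit 281) (nat_lit 234))) (PT.nd (nat_lit 78) (PT.lf (nat_lit 32528) (nat_lit 6) (nat_lit 428) (nat_lit 2) (nat_lit 266) (nat_lit 281) (nat_lit 233)) (PT.lf (nat_lit 31616) (nat_lit 6) (nat_lit 416) (nat_lit 2) (nat_lit 267) (nat_lit 281) (nat_lit 232)))) (PT.nd (nat_lit 156) (PT.nd (nat_lit 78) (PT.lf (nat_lit 30780) (nat_lit 6) (nat_lit 405) (nat_lit 2) (nat_lit 268) (nat_lit 281) (nat_lit 231)) (PT.lf (nat_lit 29944) (nat_lit 6) (nat_lit 394) (nat_lit 2) (nat_lit 269) (nat_lit 281) (nat_lit 230))) (PT.nd (nat_lit 78) (PT.lf (nat_lit 29108) (nat_lit 6) (nat_lit 383) (nat_lit 2) (nat_lit 270) (nat_lit 281) (nat_lit 229)) (PT.lf (nat_lit 28272) (nat_lit 6) (nat_lit 372) (nat_lit 2) (nat_lit 271) (nat_lit 281) (nat_lit 228)))))) (PT.nd (nat_lit 624) (PT.nd (nat_lit 312)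 (PT.nd (nat_lit 156) (PT.nd (nat_lit 78) (PT.lf (nat_lit 27512) (nat_lit 6) (nat_lit 362) (nat_lit 2) (nat_lit 272) (nat_lit 281) (nat_lit 227)) (PT.lf (nat_lit 26752) (nat_lit 6) (nat_lit 352) (nat_lit 2) (nat_lit 273) (nat_lit 281) (nat_lit 226))) (PT.nd (nat_lit 78) (PT.lf (nat_lit 26068) (nat_lit 6) (nat_lit 343) (nat_lit 2) (nat_lit 274) (nat_lit 281) (nat_lit 225)) (PT.lf (nat_lit 25308) (nat_lit 6) (nat_lit 333) (nat_lit 2) (nat_lit 275) (nat_lit 281) (nat_lit 224)))) (PT.nd (nat_lit 156) (PT.nd (nat_lit 78) (PT.lf (nat_lit 24624) (nat_lit 6) (nat_lit 324) (nat_lit 2) (nat_lit 276) (nat_lit 281) (nat_lit 223)) (PT.lf (nat_lit 23940) (nat_lit 6) (nat_lit 315) (nat_lit 2) (nat_lit 277) (nat_lit 281) (nat_lit 222))) (PT.nd (nat_lit 78) (PT.lf (nat_lit 23332) (nat_lit 6) (nat_lit 307) (nat_lit 2) (nat_lit 278) (nat_lit 281) (nat_lit 221)) (PT.lf (nat_lit 22648) (nat_lit 6) (nat_lit 298) (nat_lit 2) (nat_lit 279) (nat_lit 281) (nat_lit 220))))) (PT.nd (nat_lit 312) (PT.nd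 (nat_lit 156) (PT.nd (nat_lit 78) (PT.lf (nat_lit 22040) (nat_lit 6) (nat_lit 290) (nat_lit 2) (nat_lit 280) (nat_lit 281) (nat_lit 219)) (PT.lf (nat_lit 21432) (nat_lit 3) (nat_lit 282) (nat_lit 0) (nat_lit 281) (nat_lit 281) (nat_lit 218))) (PT.nd (nat_lit 78) (PT.lf (nat_lit 20748) (nat_lit 6) (nat_lit 273) (nat_lit 0) (nat_lit 282) (nat_lit 281) (nat_lit 217)) (PT.lf (nat_lit 20064) (nat_lit 6) (nat_lit 264) (nat_lit 0) (nat_lit 283) (nat_lit 281) (nat_lit 216)))) (PT.nd (nat_lit 156) (PT.nd (nat_lit 78) (PT.lf (nat_lit 19456) (nat_lit 6) (nat_lit 256) (nat_lit 0) (nat_lit 284) (nat_lit 281) (nat_lit 215)) (PT.lf (nat_lit 18848) (nat_lit 6) (nat_lit 248) (nat_lit 0) (nat_lit 285) (nat_lit 281) (nat_lit 214))) (PT.nd (nat_lit 78) (PT.lf (nat_lit 18240) (nat_lit 6) (nat_lit 240) (nat_lit 0) (nat_lit 286) (nat_lit 281) (nat_lit 213)) (PT.lf (nat_lit 17632) (nat_lit 6) (nat_lit 232) (nat_lit 0) (nat_lit 287) (nat_lit 281) (nat_lit 212))))))) (PT.nd (nat_lit 75504) (PT.nd (nat_lit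 74880) (PT.nd (nat_lit 234) (PT.nd (nat_lit 78) (PT.lf (nat_lit 17100) (nat_lit 6) (nat_lit 225) (nat_lit 0) (nat_lit 288) (nat_lit 281) (nat_lit 211)) (PT.nd (nat_lit 78) (PT.lf (nat_lit 16492) (nat_lit 6) (nat_lit 217) (nat_lit 0) (nat_lit 289) (nat_lit 281) (nat_lit 210)) (PT.lf (nat_lit 15960) (nat_lit 6) (nat_lit 210) (nat_lit 0) (nat_lit 290) (nat_lit 281) (nat_lit 209)))) (PT.nd (nat_lit 74490) (PT.nd (nat_lit 78) (PT.lf (nat_lit 15428) (nat_lit 6) (nat_lit 203) (nat_lit 0) (nat_lit 291) (nat_lit 281) (nat_lit 208)) (PT.lf (nat_lit 14896) (nat_lit 6) (nat_lit 196) (nat_lit 0) (nat_lit 292) (nat_lit 281) (nat_lit 207))) (PT.nd (nat_lit 78) (PT.lf (nat_lit 13984) (nat_lit 6) (nat_lit 184) (nat_lit 5) (nat_lit 205) (nat_lit 282) (nat_lit 293)) (PT.lf (nat_lit 14440) (nat_lit 6) (nat_lit 190) (nat_lit 5) (nat_lit 206) (nat_lit 282) (nat_lit 292))))) (PT.nd (nat_lit 312) (PT.nd (nat_lit 156) (PT.nd (nat_lit 78) (PT.lf (nat_lit 14972) (nat_lit 6) (nat_lit 197) (nat_lit 5)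 (nat_lit 207) (nat_lit 282) (nat_lit 291)) (PT.lf (nat_lit 15504) (nat_lit 6) (nat_lit 204) (nat_lit 5) (nat_lit 208) (nat_lit 282) (nat_lit 290))) (PT.nd (nat_lit 78) (PT.lf (nat_lit 16036) (nat_lit 6) (nat_lit 211) (nat_lit 5) (nat_lit 209) (nat_lit 282) (nat_lit 289)) (PT.lf (nat_lit 16568) (nat_lit 6) (nat_lit 218) (nat_lit 5) (nat_lit 210) (nat_lit 282) (nat_lit 288)))) (PT.nd (nat_lit 156) (PT.nd (nat_lit 78) (PT.lf (nat_lit 17176) (nat_lit 6) (nat_lit 226) (nat_lit 5) (nat_lit 211) (nat_lit 282) (nat_lit 287)) (PT.lf (nat_lit 17708) (nat_lit 6) (nat_lit 233) (nat_lit 5) (nat_lit 212) (nat_lit 282) (nat_lit 286))) (PT.nd (nat_lit 78) (PT.lf (nat_lit 18316) (nat_lit 6) (nat_lit 241) (nat_lit 5) (nat_lit 213) (nat_lit 282) (nat_lit 285)) (PT.lf (nat_lit 18924) (nat_lit 6) (nat_lit 249) (nat_lit 5) (nat_lit 214) (nat_lit 282) (nat_lit 284)))))) (PT.nd (nat_lit 624) (PT.nd (nat_lit 312) (PT.nd (nat_lit 156) (PT.nd (nat_lit 78) (PT.lf (nat_lit 19532) (nat_lit 6) (nat_lit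 257) (nat_lit 5) (nat_lit 215) (nat_lit 282) (nat_lit 283)) (PT.lf (nat_lit 20140) (nat_lit 3) (nat_lit 265) (nat_lit 4) (nat_lit 216) (nat_lit 282) (nat_lit 282))) (PT.nd (nat_lit 78) (PT.lf (nat_lit 20748) (nat_lit 6) (nat_lit 273) (nat_lit 4) (nat_lit 217) (nat_lit 282) (nat_lit 281)) (PT.lf (nat_lit 21356) (nat_lit 6) (nat_lit 281) (nat_lit 4) (nat_lit 218) (nat_lit 282) (nat_lit 280)))) (PT.nd (nat_lit 156) (PT.nd (nat_lit 78) (PT.lf (nat_lit 21964) (nat_lit 6) (nat_lit 289) (nat_lit 4) (nat_lit 219) (nat_lit 282) (nat_lit 279)) (PT.lf (nat_lit 22572) (nat_lit 6) (nat_lit 297) (nat_lit 4) (nat_lit 220) (nat_lit 282) (nat_lit 278))) (PT.nd (nat_lit 78) (PT.lf (nat_lit 23256) (nat_lit 6) (nat_lit 306) (nat_lit 4) (nat_lit 221) (nat_lit 282) (nat_lit 277)) (PT.lf (nat_lit 23864) (nat_lit 6) (nat_lit 314) (nat_lit 4) (nat_lit 222) (nat_lit 282) (nat_lit 276))))) (PT.nd (nat_lit 312) (PT.nd (nat_lit 156) (PT.nd (nat_lit 78) (PT.lf (nat_lit 24548) (nat_lit 6) (nat_lit 323)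 (nat_lit 4) (nat_lit 223) (nat_lit 282) (nat_lit 275)) (PT.lf (nat_lit 25232) (nat_lit 6) (nat_lit 332) (nat_lit 4) (nat_lit 224) (nat_lit 282) (nat_lit 274))) (PT.nd (nat_lit 78) (PT.lf (nat_lit 25992) (nat_lit 6) (nat_lit 342) (nat_lit 4) (nat_lit 225) (nat_lit 282) (nat_lit 273)) (PT.lf (nat_lit 26676) (nat_lit 6) (nat_lit 351) (nat_lit 4) (nat_lit 226) (nat_lit 282) (nat_lit 272)))) (PT.nd (nat_lit 156) (PT.nd (nat_lit 78) (PT.lf (nat_lit 27436) (nat_lit 6) (nat_lit 361) (nat_lit 4) (nat_lit 227) (nat_lit 282) (nat_lit 271)) (PT.lf (nat_lit 28196) (nat_lit 6) (nat_lit 371) (nat_lit 4) (nat_lit 228) (nat_lit 282) (nat_lit 270))) (PT.nd (nat_lit 78) (PT.lf (nat_lit 29032) (nat_lit 6) (nat_lit 382) (nat_lit 4) (nat_lit 229) (nat_lit 282) (nat_lit 269)) (PT.lf (nat_lit 29868) (nat_lit 6) (nat_lit 393) (nat_lit 4) (nat_lit 230) (nat_lit 282) (nat_lit 268))))))))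
noncomputable def pc50 : PT := (PT.nd (nat_lit 2418) (PT.nd (nat_lit 1170) (PT.nd (nat_lit 546) (PT.nd (nat_lit 234) (PT.nd (nat_lit 78) (PT.lf (nat_lit 30704) (nat_lit 6) (nat_lit 404) (nat_lit 4) (nat_lit 231) (nat_lit 282) (nat_lit 267)) (PT.nd (nat_lit 78) (PT.lf (nat_lit 31540) (nat_lit 6) (nat_lit 415) (nat_lit 4) (nat_lit 232) (nat_lit 282) (nat_lit 266)) (PT.lf (nat_lit 32452) (nat_lit 6) (nat_lit 427) (nat_lit 4) (nat_lit 233) (nat_lit 282) (nat_lit 265)))) (PT.nd (nat_lit 156) (PT.nd (nat_lit 78) (PT.lf (nat_lit 33364) (nat_lit 6) (nat_lit 439) (nat_lit 4) (nat_lit 234) (nat_lit 282) (nat_lit 264)) (PT.lf (nat_lit 34428) (nat_lit 6) (nat_lit 453) (nat_lit 4) (nat_lit 235) (nat_lit 282) (nat_lit 263))) (PT.nd (nat_lit 78) (PT.lf (nat_lit 36252) (nat_lit 6) (nat_lit 477) (nat_lit 4) (nat_lit 236) (nat_lit 282) (nat_lit 262)) (PT.lf (nat_lit 38000) (nat_lit 6) (nat_lit 500) (nat_lit 4) (nat_lit 237) (nat_lit 282) (nat_lit 261))))) (PT.nd (nat_lit 312) (PT.nd (nat_lit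 156) (PT.nd (nat_lit 78) (PT.lf (nat_lit 39672) (nat_lit 6) (nat_lit 522) (nat_lit 4) (nat_lit 238) (nat_lit 282) (nat_lit 260)) (PT.lf (nat_lit 39596) (nat_lit 6) (nat_lit 521) (nat_lit 4) (nat_lit 239) (nat_lit 282) (nat_lit 259))) (PT.nd (nat_lit 78) (PT.lf (nat_lit 39520) (nat_lit 6) (nat_lit 520) (nat_lit 4) (nat_lit 240) (nat_lit 282) (nat_lit 258)) (PT.lf (nat_lit 39444) (nat_lit 6) (nat_lit 519) (nat_lit 4) (nat_lit 241) (nat_lit 282) (nat_lit 257)))) (PT.nd (nat_lit 156) (PT.nd (nat_lit 78) (PT.lf (nat_lit 39368) (nat_lit 6) (nat_lit 518) (nat_lit 4) (nat_lit 242) (nat_lit 282) (nat_lit 256)) (PT.lf (nat_lit 39292) (nat_lit 6) (nat_lit 517) (nat_lit 4) (nat_lit 243) (nat_lit 282) (nat_lit 255))) (PT.nd (nat_lit 78) (PT.lf (nat_lit 39216) (nat_lit 6) (nat_lit 516) (nat_lit 4) (nat_lit 244) (nat_lit 282) (nat_lit 254)) (PT.lf (nat_lit 39140) (nat_lit 6) (nat_lit 515) (nat_lit 4) (nat_lit 245) (nat_lit 282) (nat_lit 253)))))) (PT.nd (nat_lit 624) (PT.nd (nat_lit 312)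 (PT.nd (nat_lit 156) (PT.nd (nat_lit 78) (PT.lf (nat_lit 39064) (nat_lit 6) (nat_lit 514) (nat_lit 4) (nat_lit 246) (nat_lit 282) (nat_lit 252)) (PT.lf (nat_lit 38988) (nat_lit 6) (nat_lit 513) (nat_lit 4) (nat_lit 247) (nat_lit 282) (nat_lit 251))) (PT.nd (nat_lit 78) (PT.lf (nat_lit 38912) (nat_lit 6) (nat_lit 512) (nat_lit 4) (nat_lit 248) (nat_lit 282) (nat_lit 250)) (PT.lf (nat_lit 38836) (nat_lit 3) (nat_lit 511) (nat_lit 2) (nat_lit 249) (nat_lit 282) (nat_lit 249)))) (PT.nd (nat_lit 156) (PT.nd (nat_lit 78) (PT.lf (nat_lit 38912) (nat_lit 6) (nat_lit 512) (nat_lit 2) (nat_lit 250) (nat_lit 282) (nat_lit 248)) (PT.lf (nat_lit 38988) (nat_lit 6) (nat_lit 513) (nat_lit 2) (nat_lit 251) (nat_lit 282) (nat_lit 247))) (PT.nd (nat_lit 78) (PT.lf (nat_lit 39064) (nat_lit 6) (nat_lit 514) (nat_lit 2) (nat_lit 252) (nat_lit 282) (nat_lit 246)) (PT.lf (nat_lit 39140) (nat_lit 6) (nat_lit 515) (nat_lit 2) (nat_lit 253) (nat_lit 282) (nat_lit 245))))) (PT.nd (nat_lit 312) (PT.nd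 (nat_lit 156) (PT.nd (nat_lit 78) (PT.lf (nat_lit 39216) (nat_lit 6) (nat_lit 516) (nat_lit 2) (nat_lit 254) (nat_lit 282) (nat_lit 244)) (PT.lf (nat_lit 39292) (nat_lit 6) (nat_lit 517) (nat_lit 2) (nat_lit 255) (nat_lit 282) (nat_lit 243))) (PT.nd (nat_lit 78) (PT.lf (nat_lit 39368) (nat_lit 6) (nat_lit 518) (nat_lit 2) (nat_lit 256) (nat_lit 282) (nat_lit 242)) (PT.lf (nat_lit 39444) (nat_lit 6) (nat_lit 519) (nat_lit 2) (nat_lit 257) (nat_lit 282) (nat_lit 241)))) (PT.nd (nat_lit 156) (PT.nd (nat_lit 78) (PT.lf (nat_lit 39520) (nat_lit 6) (nat_lit 520) (nat_lit 2) (nat_lit 258) (nat_lit 282) (nat_lit 240)) (PT.lf (nat_lit 39596) (nat_lit 6) (nat_lit 521) (nat_lit 2) (nat_lit 259) (nat_lit 282) (nat_lit 239))) (PT.nd (nat_lit 78) (PT.lf (nat_lit 39672) (nat_lit 6) (nat_lit 522) (nat_lit 2) (nat_lit 260) (nat_lit 282) (nat_lit 238)) (PT.lf (nat_lit 38000) (nat_lit 6) (nat_lit 500) (nat_lit 2) (nat_lit 261) (nat_lit 282) (nat_lit 237))))))) (PT.nd (nat_lit 1170) (PT.nd (nat_lit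 546) (PT.nd (nat_lit 234) (PT.nd (nat_lit 78) (PT.lf (nat_lit 36252) (nat_lit 6) (nat_lit 477) (nat_lit 2) (nat_lit 262) (nat_lit 282) (nat_lit 236)) (PT.nd (nat_lit 78) (PT.lf (nat_lit 34428) (nat_lit 6) (nat_lit 453) (nat_lit 2) (nat_lit 263) (nat_lit 282) (nat_lit 235)) (PT.lf (nat_lit 33364) (nat_lit 6) (nat_lit 439) (nat_lit 2) (nat_lit 264) (nat_lit 282) (nat_lit 234)))) (PT.nd (nat_lit 156) (PT.nd (nat_lit 78) (PT.lf (nat_lit 32452) (nat_lit 6) (nat_lit 427) (nat_lit 2) (nat_lit 265) (nat_lit 282) (nat_lit 233)) (PT.lf (nat_lit 31540) (nat_lit 6) (nat_lit 415) (nat_lit 2) (nat_lit 266) (nat_lit 282) (nat_lit 232))) (PT.nd (nat_lit 78) (PT.lf (nat_lit 30704) (nat_lit 6) (nat_lit 404) (nat_lit 2) (nat_lit 267) (nat_lit 282) (nat_lit 231)) (PT.lf (nat_lit 29868) (nat_lit 6) (nat_lit 393) (nat_lit 2) (nat_lit 268) (nat_lit 282) (nat_lit 230))))) (PT.nd (nat_lit 312) (PT.nd (nat_lit 156) (PT.nd (nat_lit 78) (PT.lf (nat_lit 29032) (nat_lit 6) (nat_lit 382) (nat_lit 2) (nat_lit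 269) (nat_lit 282) (nat_lit 229)) (PT.lf (nat_lit 28196) (nat_lit 6) (nat_lit 371) (nat_lit 2) (nat_lit 270) (nat_lit 282) (nat_lit 228))) (PT.nd (nat_lit 78) (PT.lf (nat_lit 27436) (nat_lit 6) (nat_lit 361) (nat_lit 2) (nat_lit 271) (nat_lit 282) (nat_lit 227)) (PT.lf (nat_lit 26676) (nat_lit 6) (nat_lit 351) (nat_lit 2) (nat_lit 272) (nat_lit 282) (nat_lit 226)))) (PT.nd (nat_lit 156) (PT.nd (nat_lit 78) (PT.lf (nat_lit 25992) (nat_lit 6) (nat_lit 342) (nat_lit 2) (nat_lit 273) (nat_lit 282) (nat_lit 225)) (PT.lf (nat_lit 25232) (nat_lit 6) (nat_lit 332) (nat_lit 2) (nat_lit 274) (nat_lit 282) (nat_lit 224))) (PT.nd (nat_lit 78) (PT.lf (nat_lit 24548) (nat_lit 6) (nat_lit 323) (nat_lit 2) (nat_lit 275) (nat_lit 282) (nat_lit 223)) (PT.lf (nat_lit 23864) (nat_lit 6) (nat_lit 314) (nat_lit 2) (nat_lit 276) (nat_lit 282) (nat_lit 222)))))) (PT.nd (nat_lit 624) (PT.nd (nat_lit 312) (PT.nd (nat_lit 156) (PT.nd (nat_lit 78) (PT.lf (nat_lit 23256) (nat_lit 6) (nat_lit 306) (nat_lit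 2) (nat_lit 277) (nat_lit 282) (nat_lit 221)) (PT.lf (nat_lit 22572) (nat_lit 6) (nat_lit 297) (nat_lit 2) (nat_lit 278) (nat_lit 282) (nat_lit 220))) (PT.nd (nat_lit 78) (PT.lf (nat_lit 21964) (nat_lit 6) (nat_lit 289) (nat_lit 2) (nat_lit 279) (nat_lit 282) (nat_lit 219)) (PT.lf (nat_lit 21356) (nat_lit 6) (nat_lit 281) (nat_lit 2) (nat_lit 280) (nat_lit 282) (nat_lit 218)))) (PT.nd (nat_lit 156) (PT.nd (nat_lit 78) (PT.lf (nat_lit 20748) (nat_lit 6) (nat_lit 273) (nat_lit 2) (nat_lit 281) (nat_lit 282) (nat_lit 217)) (PT.lf (nat_lit 20140) (nat_lit 3) (nat_lit 265) (nat_lit 0) (nat_lit 282) (nat_lit 282) (nat_lit 216))) (PT.nd (nat_lit 78) (PT.lf (nat_lit 19532) (nat_lit 6) (nat_lit 257) (nat_lit 0) (nat_lit 283) (nat_lit 282) (nat_lit 215)) (PT.lf (nat_lit 18924) (nat_lit 6) (nat_lit 249) (nat_lit 0) (nat_lit 284) (nat_lit 282) (nat_lit 214))))) (PT.nd (nat_lit 312) (PT.nd (nat_lit 156) (PT.nd (nat_lit 78) (PT.lf (nat_lit 18316) (nat_lit 6) (nat_lit 241) (nat_lit 0) (nat_lit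 285) (nat_lit 282) (nat_lit 213)) (PT.lf (nat_lit 17708) (nat_lit 6) (nat_lit 233) (nat_lit 0) (nat_lit 286) (nat_lit 282) (nat_lit 212))) (PT.nd (nat_lit 78) (PT.lf (nat_lit 17176) (nat_lit 6) (nat_lit 226) (nat_lit 0) (nat_lit 287) (nat_lit 282) (nat_lit 211)) (PT.lf (nat_lit 16568) (nat_lit 6) (nat_lit 218) (nat_lit 0) (nat_lit 288) (nat_lit 282) (nat_lit 210)))) (PT.nd (nat_lit 156) (PT.nd (nat_lit 78) (PT.lf (nat_lit 16036) (nat_lit 6) (nat_lit 211) (nat_lit 0) (nat_lit 289) (nat_lit 282) (nat_lit 209)) (PT.lf (nat_lit 15504) (nat_lit 6) (nat_lit 204) (nat_lit 0) (nat_lit 290) (nat_lit 282) (nat_lit 208))) (PT.nd (nat_lit 78) (PT.lf (nat_lit 14972) (nat_lit 6) (nat_lit 197) (nat_lit 0) (nat_lit 291) (nat_lit 282) (nat_lit 207)) (PT.lf (nat_lit 14440) (nat_lit 6) (nat_lit 190) (nat_lit 0) (nat_lit 292) (nat_lit 282) (nat_lit 206))))))))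
noncomputable def pc51 : PT := (PT.nd (nat_lit 76596) (PT.nd (nat_lit 75348) (PT.nd (nat_lit 74724) (PT.nd (nat_lit 74412) (PT.nd (nat_lit 74256) (PT.lf (nat_lit 13984) (nat_lit 6) (nat_lit 184) (nat_lit 0) (nat_lit 293) (nat_lit 282) (nat_lit 205)) (PT.nd (nat_lit 78) (PT.lf (nat_lit 13528) (nat_lit 6) (nat_lit 178) (nat_lit 5) (nat_lit 204) (nat_lit 283) (nat_lit 293)) (PT.lf (nat_lit 14060) (nat_lit 6) (nat_lit 185) (nat_lit 5) (nat_lit 205) (nat_lit 283) (nat_lit 292)))) (PT.nd (nat_lit 156) (PT.nd (nat_lit 78) (PT.lf (nat_lit 14516) (nat_lit 6) (nat_lit 191) (nat_lit 5) (nat_lit 206) (nat_lit 283) (nat_lit 291)) (PT.lf (nat_lit 15048) (nat_lit 6) (nat_lit 198) (nat_lit 5) (nat_lit 207) (nat_lit 283) (nat_lit 290))) (PT.nd (nat_lit 78) (PT.lf (nat_lit 15580) (nat_lit 6) (nat_lit 205) (nat_lit 5) (nat_lit 208) (nat_lit 283) (nat_lit 289)) (PT.lf (nat_lit 16112) (nat_lit 6) (nat_lit 212) (nat_lit 5) (nat_lit 209) (nat_lit 283) (nat_lit 288))))) (PT.nd (nat_lit 312) (PT.nd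 (nat_lit 156) (PT.nd (nat_lit 78) (PT.lf (nat_lit 16644) (nat_lit 6) (nat_lit 219) (nat_lit 5) (nat_lit 210) (nat_lit 283) (nat_lit 287)) (PT.lf (nat_lit 17252) (nat_lit 6) (nat_lit 227) (nat_lit 5) (nat_lit 211) (nat_lit 283) (nat_lit 286))) (PT.nd (nat_lit 78) (PT.lf (nat_lit 17784) (nat_lit 6) (nat_lit 234) (nat_lit 5) (nat_lit 212) (nat_lit 283) (nat_lit 285)) (PT.lf (nat_lit 18392) (nat_lit 6) (nat_lit 242) (nat_lit 5) (nat_lit 213) (nat_lit 283) (nat_lit 284)))) (PT.nd (nat_lit 156) (PT.nd (nat_lit 78) (PT.lf (nat_lit 19000) (nat_lit 3) (nat_lit 250) (nat_lit 4) (nat_lit 214) (nat_lit 283) (nat_lit 283)) (PT.lf (nat_lit 19532) (nat_lit 6) (nat_lit 257) (nat_lit 4) (nat_lit 215) (nat_lit 283) (nat_lit 282))) (PT.nd (nat_lit 78) (PT.lf (nat_lit 20064) (nat_lit 6) (nat_lit 264) (nat_lit 4) (nat_lit 216) (nat_lit 283) (nat_lit 281)) (PT.lf (nat_lit 20672) (nat_lit 6) (nat_lit 272) (nat_lit 4) (nat_lit 217) (nat_lit 283) (nat_lit 280)))))) (PT.nd (nat_lit 624) (PT.nd (nat_lit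 312) (PT.nd (nat_lit 156) (PT.nd (nat_lit 78) (PT.lf (nat_lit 21280) (nat_lit 6) (nat_lit 280) (nat_lit 4) (nat_lit 218) (nat_lit 283) (nat_lit 279)) (PT.lf (nat_lit 21888) (nat_lit 6) (nat_lit 288) (nat_lit 4) (nat_lit 219) (nat_lit 283) (nat_lit 278))) (PT.nd (nat_lit 78) (PT.lf (nat_lit 22496) (nat_lit 6) (nat_lit 296) (nat_lit 4) (nat_lit 220) (nat_lit 283) (nat_lit 277)) (PT.lf (nat_lit 23180) (nat_lit 6) (nat_lit 305) (nat_lit 4) (nat_lit 221) (nat_lit 283) (nat_lit 276)))) (PT.nd (nat_lit 156) (PT.nd (nat_lit 78) (PT.lf (nat_lit 23788) (nat_lit 6) (nat_lit 313) (nat_lit 4) (nat_lit 222) (nat_lit 283) (nat_lit 275)) (PT.lf (nat_lit 24472) (nat_lit 6) (nat_lit 322) (nat_lit 4) (nat_lit 223) (nat_lit 283) (nat_lit 274))) (PT.nd (nat_lit 78) (PT.lf (nat_lit 25156) (nat_lit 6) (nat_lit 331) (nat_lit 4) (nat_lit 224) (nat_lit 283) (nat_lit 273)) (PT.lf (nat_lit 25916) (nat_lit 6) (nat_lit 341) (nat_lit 4) (nat_lit 225) (nat_lit 283) (nat_lit 272))))) (PT.nd (nat_lit 312)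 (PT.nd (nat_lit 156) (PT.nd (nat_lit 78) (PT.lf (nat_lit 26600) (nat_lit 6) (nat_lit 350) (nat_lit 4) (nat_lit 226) (nat_lit 283) (nat_lit 271)) (PT.lf (nat_lit 27360) (nat_lit 6) (nat_lit 360) (nat_lit 4) (nat_lit 227) (nat_lit 283) (nat_lit 270))) (PT.nd (nat_lit 78) (PT.lf (nat_lit 28120) (nat_lit 6) (nat_lit 370) (nat_lit 4) (nat_lit 228) (nat_lit 283) (nat_lit 269)) (PT.lf (nat_lit 28956) (nat_lit 6) (nat_lit 381) (nat_lit 4) (nat_lit 229) (nat_lit 283) (nat_lit 268)))) (PT.nd (nat_lit 156) (PT.nd (nat_lit 78) (PT.lf (nat_lit 29792) (nat_lit 6) (nat_lit 392) (nat_lit 4) (nat_lit 230) (nat_lit 283) (nat_lit 267)) (PT.lf (nat_lit 30628) (nat_lit 6) (nat_lit 403) (nat_lit 4) (nat_lit 231) (nat_lit 283) (nat_lit 266))) (PT.nd (nat_lit 78) (PT.lf (nat_lit 31464) (nat_lit 6) (nat_lit 414) (nat_lit 4) (nat_lit 232) (nat_lit 283) (nat_lit 265)) (PT.lf (nat_lit 32376) (nat_lit 6) (nat_lit 426) (nat_lit 4) (nat_lit 233) (nat_lit 283) (nat_lit 264))))))) (PT.nd (nat_lit 1170) (PT.nd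 (nat_lit 546) (PT.nd (nat_lit 234) (PT.nd (nat_lit 78) (PT.lf (nat_lit 33288) (nat_lit 6) (nat_lit 438) (nat_lit 4) (nat_lit 234) (nat_lit 283) (nat_lit 263)) (PT.nd (nat_lit 78) (PT.lf (nat_lit 34352) (nat_lit 6) (nat_lit 452) (nat_lit 4) (nat_lit 235) (nat_lit 283) (nat_lit 262)) (PT.lf (nat_lit 36176) (nat_lit 6) (nat_lit 476) (nat_lit 4) (nat_lit 236) (nat_lit 283) (nat_lit 261)))) (PT.nd (nat_lit 156) (PT.nd (nat_lit 78) (PT.lf (nat_lit 37924) (nat_lit 6) (nat_lit 499) (nat_lit 4) (nat_lit 237) (nat_lit 283) (nat_lit 260)) (PT.lf (nat_lit 37848) (nat_lit 6) (nat_lit 498) (nat_lit 4) (nat_lit 238) (nat_lit 283) (nat_lit 259))) (PT.nd (nat_lit 78) (PT.lf (nat_lit 37772) (nat_lit 6) (nat_lit 497) (nat_lit 4) (nat_lit 239) (nat_lit 283) (nat_lit 258)) (PT.lf (nat_lit 37696) (nat_lit 6) (nat_lit 496) (nat_lit 4) (nat_lit 240) (nat_lit 283) (nat_lit 257))))) (PT.nd (nat_lit 312) (PT.nd (nat_lit 156) (PT.nd (nat_lit 78) (PT.lf (nat_lit 37620) (nat_lit 6) (nat_lit 495) (nat_lit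 4) (nat_lit 241) (nat_lit 283) (nat_lit 256)) (PT.lf (nat_lit 37544) (nat_lit 6) (nat_lit 494) (nat_lit 4) (nat_lit 242) (nat_lit 283) (nat_lit 255))) (PT.nd (nat_lit 78) (PT.lf (nat_lit 37468) (nat_lit 6) (nat_lit 493) (nat_lit 4) (nat_lit 243) (nat_lit 283) (nat_lit 254)) (PT.lf (nat_lit 37392) (nat_lit 6) (nat_lit 492) (nat_lit 4) (nat_lit 244) (nat_lit 283) (nat_lit 253)))) (PT.nd (nat_lit 156) (PT.nd (nat_lit 78) (PT.lf (nat_lit 37316) (nat_lit 6) (nat_lit 491) (nat_lit 4) (nat_lit 245) (nat_lit 283) (nat_lit 252)) (PT.lf (nat_lit 37240) (nat_lit 6) (nat_lit 490) (nat_lit 4) (nat_lit 246) (nat_lit 283) (nat_lit 251))) (PT.nd (nat_lit 78) (PT.lf (nat_lit 37164) (nat_lit 6) (nat_lit 489) (nat_lit 4) (nat_lit 247) (nat_lit 283) (nat_lit 250)) (PT.lf (nat_lit 37088) (nat_lit 6) (nat_lit 488) (nat_lit 4) (nat_lit 248) (nat_lit 283) (nat_lit 249)))))) (PT.nd (nat_lit 624) (PT.nd (nat_lit 312) (PT.nd (nat_lit 156) (PT.nd (nat_lit 78) (PT.lf (nat_lit 37088) (nat_lit 6) (nat_lit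 488) (nat_lit 2) (nat_lit 249) (nat_lit 283) (nat_lit 248)) (PT.lf (nat_lit 37164) (nat_lit 6) (nat_lit 489) (nat_lit 2) (nat_lit 250) (nat_lit 283) (nat_lit 247))) (PT.nd (nat_lit 78) (PT.lf (nat_lit 37240) (nat_lit 6) (nat_lit 490) (nat_lit 2) (nat_lit 251) (nat_lit 283) (nat_lit 246)) (PT.lf (nat_lit 37316) (nat_lit 6) (nat_lit 491) (nat_lit 2) (nat_lit 252) (nat_lit 283) (nat_lit 245)))) (PT.nd (nat_lit 156) (PT.nd (nat_lit 78) (PT.lf (nat_lit 37392) (nat_lit 6) (nat_lit 492) (nat_lit 2) (nat_lit 253) (nat_lit 283) (nat_lit 244)) (PT.lf (nat_lit 37468) (nat_lit 6) (nat_lit 493) (nat_lit 2) (nat_lit 254) (nat_lit 283) (nat_lit 243))) (PT.nd (nat_lit 78) (PT.lf (nat_lit 37544) (nat_lit 6) (nat_lit 494) (nat_lit 2) (nat_lit 255) (nat_lit 283) (nat_lit 242)) (PT.lf (nat_lit 37620) (nat_lit 6) (nat_lit 495) (nat_lit 2) (nat_lit 256) (nat_lit 283) (nat_lit 241))))) (PT.nd (nat_lit 312) (PT.nd (nat_lit 156) (PT.nd (nat_lit 78) (PT.lf (nat_lit 37696) (nat_lit 6) (nat_lit 496)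 (nat_lit 2) (nat_lit 257) (nat_lit 283) (nat_lit 240)) (PT.lf (nat_lit 37772) (nat_lit 6) (nat_lit 497) (nat_lit 2) (nat_lit 258) (nat_lit 283) (nat_lit 239))) (PT.nd (nat_lit 78) (PT.lf (nat_lit 37848) (nat_lit 6) (nat_lit 498) (nat_lit 2) (nat_lit 259) (nat_lit 283) (nat_lit 238)) (PT.lf (nat_lit 37924) (nat_lit 6) (nat_lit 499) (nat_lit 2) (nat_lit 260) (nat_lit 283) (nat_lit 237)))) (PT.nd (nat_lit 156) (PT.nd (nat_lit 78) (PT.lf (nat_lit 36176) (nat_lit 6) (nat_lit 476) (nat_lit 2) (nat_lit 261) (nat_lit 283) (nat_lit 236)) (PT.lf (nat_lit 34352) (nat_lit 6) (nat_lit 452) (nat_lit 2) (nat_lit 262) (nat_lit 283) (nat_lit 235))) (PT.nd (nat_lit 78) (PT.lf (nat_lit 33288) (nat_lit 6) (nat_lit 438) (nat_lit 2) (nat_lit 263) (nat_lit 283) (nat_lit 234)) (PT.lf (nat_lit 32376) (nat_lit 6) (nat_lit 426) (nat_lit 2) (nat_lit 264) (nat_lit 283) (nat_lit 233))))))))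
noncomputable def pc52 : PT := (PT.nd (nat_lit 76440) (PT.nd (nat_lit 1170) (PT.nd (nat_lit 546) (PT.nd (nat_lit 234) (PT.nd (nat_lit 78) (PT.lf (nat_lit 31464) (nat_lit 6) (nat_lit 414) (nat_lit 2) (nat_lit 265) (nat_lit 283) (nat_lit 232)) (PT.nd (nat_lit 78) (PT.lf (nat_lit 30628) (nat_lit 6) (nat_lit 403) (nat_lit 2) (nat_lit 266) (nat_lit 283) (nat_lit 231)) (PT.lf (nat_lit 29792) (nat_lit 6) (nat_lit 392) (nat_lit 2) (nat_lit 267) (nat_lit 283) (nat_lit 230)))) (PT.nd (nat_lit 156) (PT.nd (nat_lit 78) (PT.lf (nat_lit 28956) (nat_lit 6) (nat_lit 381) (nat_lit 2) (nat_lit 268) (nat_lit 283) (nat_lit 229)) (PT.lf (nat_lit 28120) (nat_lit 6) (nat_lit 370) (nat_lit 2) (nat_lit 269) (nat_lit 283) (nat_lit 228))) (PT.nd (nat_lit 78) (PT.lf (nat_lit 27360) (nat_lit 6) (nat_lit 360) (nat_lit 2) (nat_lit 270) (nat_lit 283) (nat_lit 227)) (PT.lf (nat_lit 26600) (nat_lit 6) (nat_lit 350) (nat_lit 2) (nat_lit 271) (nat_lit 283) (nat_lit 226))))) (PT.nd (nat_lit 312) (PT.nd (nat_lit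 156) (PT.nd (nat_lit 78) (PT.lf (nat_lit 25916) (nat_lit 6) (nat_lit 341) (nat_lit 2) (nat_lit 272) (nat_lit 283) (nat_lit 225)) (PT.lf (nat_lit 25156) (nat_lit 6) (nat_lit 331) (nat_lit 2) (nat_lit 273) (nat_lit 283) (nat_lit 224))) (PT.nd (nat_lit 78) (PT.lf (nat_lit 24472) (nat_lit 6) (nat_lit 322) (nat_lit 2) (nat_lit 274) (nat_lit 283) (nat_lit 223)) (PT.lf (nat_lit 23788) (nat_lit 6) (nat_lit 313) (nat_lit 2) (nat_lit 275) (nat_lit 283) (nat_lit 222)))) (PT.nd (nat_lit 156) (PT.nd (nat_lit 78) (PT.lf (nat_lit 23180) (nat_lit 6) (nat_lit 305) (nat_lit 2) (nat_lit 276) (nat_lit 283) (nat_lit 221)) (PT.lf (nat_lit 22496) (nat_lit 6) (nat_lit 296) (nat_lit 2) (nat_lit 277) (nat_lit 283) (nat_lit 220))) (PT.nd (nat_lit 78) (PT.lf (nat_lit 21888) (nat_lit 6) (nat_lit 288) (nat_lit 2) (nat_lit 278) (nat_lit 283) (nat_lit 219)) (PT.lf (nat_lit 21280) (nat_lit 6) (nat_lit 280) (nat_lit 2) (nat_lit 279) (nat_lit 283) (nat_lit 218)))))) (PT.nd (nat_lit 624) (PT.nd (nat_lit 312)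 (PT.nd (nat_lit 156) (PT.nd (nat_lit 78) (PT.lf (nat_lit 20672) (nat_lit 6) (nat_lit 272) (nat_lit 2) (nat_lit 280) (nat_lit 283) (nat_lit 217)) (PT.lf (nat_lit 20064) (nat_lit 6) (nat_lit 264) (nat_lit 2) (nat_lit 281) (nat_lit 283) (nat_lit 216))) (PT.nd (nat_lit 78) (PT.lf (nat_lit 19532) (nat_lit 6) (nat_lit 257) (nat_lit 2) (nat_lit 282) (nat_lit 283) (nat_lit 215)) (PT.lf (nat_lit 19000) (nat_lit 3) (nat_lit 250) (nat_lit 0) (nat_lit 283) (nat_lit 283) (nat_lit 214)))) (PT.nd (nat_lit 156) (PT.nd (nat_lit 78) (PT.lf (nat_lit 18392) (nat_lit 6) (nat_lit 242) (nat_lit 0) (nat_lit 284) (nat_lit 283) (nat_lit 213)) (PT.lf (nat_lit 17784) (nat_lit 6) (nat_lit 234) (nat_lit 0) (nat_lit 285) (nat_lit 283) (nat_lit 212))) (PT.nd (nat_lit 78) (PT.lf (nat_lit 17252) (nat_lit 6) (nat_lit 227) (nat_lit 0) (nat_lit 286) (nat_lit 283) (nat_lit 211)) (PT.lf (nat_lit 16644) (nat_lit 6) (nat_lit 219) (nat_lit 0) (nat_lit 287) (nat_lit 283) (nat_lit 210))))) (PT.nd (nat_lit 312) (PT.nd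 (nat_lit 156) (PT.nd (nat_lit 78) (PT.lf (nat_lit 16112) (nat_lit 6) (nat_lit 212) (nat_lit 0) (nat_lit 288) (nat_lit 283) (nat_lit 209)) (PT.lf (nat_lit 15580) (nat_lit 6) (nat_lit 205) (nat_lit 0) (nat_lit 289) (nat_lit 283) (nat_lit 208))) (PT.nd (nat_lit 78) (PT.lf (nat_lit 15048) (nat_lit 6) (nat_lit 198) (nat_lit 0) (nat_lit 290) (nat_lit 283) (nat_lit 207)) (PT.lf (nat_lit 14516) (nat_lit 6) (nat_lit 191) (nat_lit 0) (nat_lit 291) (nat_lit 283) (nat_lit 206)))) (PT.nd (nat_lit 74178) (PT.nd (nat_lit 78) (PT.lf (nat_lit 14060) (nat_lit 6) (nat_lit 185) (nat_lit 0) (nat_lit 292) (nat_lit 283) (nat_lit 205)) (PT.lf (nat_lit 13528) (nat_lit 6) (nat_lit 178) (nat_lit 0) (nat_lit 293) (nat_lit 283) (nat_lit 204))) (PT.nd (nat_lit 78) (PT.lf (nat_lit 12692) (nat_lit 6) (nat_lit 167) (nat_lit 5) (nat_lit 202) (nat_lit 284) (nat_lit 294)) (PT.lf (nat_lit 13148) (nat_lit 6) (nat_lit 173) (nat_lit 5) (nat_lit 203) (nat_lit 284) (nat_lit 293))))))) (PT.nd (nat_lit 1170) (PT.nd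 (nat_lit 546) (PT.nd (nat_lit 234) (PT.nd (nat_lit 78) (PT.lf (nat_lit 13604) (nat_lit 6) (nat_lit 179) (nat_lit 5) (nat_lit 204) (nat_lit 284) (nat_lit 292)) (PT.nd (nat_lit 78) (PT.lf (nat_lit 14136) (nat_lit 6) (nat_lit 186) (nat_lit 5) (nat_lit 205) (nat_lit 284) (nat_lit 291)) (PT.lf (nat_lit 14592) (nat_lit 6) (nat_lit 192) (nat_lit 5) (nat_lit 206) (nat_lit 284) (nat_lit 290)))) (PT.nd (nat_lit 156) (PT.nd (nat_lit 78) (PT.lf (nat_lit 15124) (nat_lit 6) (nat_lit 199) (nat_lit 5) (nat_lit 207) (nat_lit 284) (nat_lit 289)) (PT.lf (nat_lit 15656) (nat_lit 6) (nat_lit 206) (nat_lit 5) (nat_lit 208) (nat_lit 284) (nat_lit 288))) (PT.nd (nat_lit 78) (PT.lf (nat_lit 16188) (nat_lit 6) (nat_lit 213) (nat_lit 5) (nat_lit 209) (nat_lit 284) (nat_lit 287)) (PT.lf (nat_lit 16720) (nat_lit 6) (nat_lit 220) (nat_lit 5) (nat_lit 210) (nat_lit 284) (nat_lit 286))))) (PT.nd (nat_lit 312) (PT.nd (nat_lit 156) (PT.nd (nat_lit 78) (PT.lf (nat_lit 17328) (nat_lit 6) (nat_lit 228) (nat_lit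 5) (nat_lit 211) (nat_lit 284) (nat_lit 285)) (PT.lf (nat_lit 17860) (nat_lit 3) (nat_lit 235) (nat_lit 4) (nat_lit 212) (nat_lit 284) (nat_lit 284))) (PT.nd (nat_lit 78) (PT.lf (nat_lit 18392) (nat_lit 6) (nat_lit 242) (nat_lit 4) (nat_lit 213) (nat_lit 284) (nat_lit 283)) (PT.lf (nat_lit 18924) (nat_lit 6) (nat_lit 249) (nat_lit 4) (nat_lit 214) (nat_lit 284) (nat_lit 282)))) (PT.nd (nat_lit 156) (PT.nd (nat_lit 78) (PT.lf (nat_lit 19456) (nat_lit 6) (nat_lit 256) (nat_lit 4) (nat_lit 215) (nat_lit 284) (nat_lit 281)) (PT.lf (nat_lit 19988) (nat_lit 6) (nat_lit 263) (nat_lit 4) (nat_lit 216) (nat_lit 284) (nat_lit 280))) (PT.nd (nat_lit 78) (PT.lf (nat_lit 20596) (nat_lit 6) (nat_lit 271) (nat_lit 4) (nat_lit 217) (nat_lit 284) (nat_lit 279)) (PT.lf (nat_lit 21204) (nat_lit 6) (nat_lit 279) (nat_lit 4) (nat_lit 218) (nat_lit 284) (nat_lit 278)))))) (PT.nd (nat_lit 624) (PT.nd (nat_lit 312) (PT.nd (nat_lit 156) (PT.nd (nat_lit 78) (PT.lf (nat_lit 21812) (nat_lit 6) (nat_lit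 287) (nat_lit 4) (nat_lit 219) (nat_lit 284) (nat_lit 277)) (PT.lf (nat_lit 22420) (nat_lit 6) (nat_lit 295) (nat_lit 4) (nat_lit 220) (nat_lit 284) (nat_lit 276))) (PT.nd (nat_lit 78) (PT.lf (nat_lit 23104) (nat_lit 6) (nat_lit 304) (nat_lit 4) (nat_lit 221) (nat_lit 284) (nat_lit 275)) (PT.lf (nat_lit 23712) (nat_lit 6) (nat_lit 312) (nat_lit 4) (nat_lit 222) (nat_lit 284) (nat_lit 274)))) (PT.nd (nat_lit 156) (PT.nd (nat_lit 78) (PT.lf (nat_lit 24396) (nat_lit 6) (nat_lit 321) (nat_lit 4) (nat_lit 223) (nat_lit 284) (nat_lit 273)) (PT.lf (nat_lit 25080) (nat_lit 6) (nat_lit 330) (nat_lit 4) (nat_lit 224) (nat_lit 284) (nat_lit 272))) (PT.nd (nat_lit 78) (PT.lf (nat_lit 25840) (nat_lit 6) (nat_lit 340) (nat_lit 4) (nat_lit 225) (nat_lit 284) (nat_lit 271)) (PT.lf (nat_lit 26524) (nat_lit 6) (nat_lit 349) (nat_lit 4) (nat_lit 226) (nat_lit 284) (nat_lit 270))))) (PT.nd (nat_lit 312) (PT.nd (nat_lit 156) (PT.nd (nat_lit 78) (PT.lf (nat_lit 27284) (nat_lit 6) (nat_lit 359)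 (nat_lit 4) (nat_lit 227) (nat_lit 284) (nat_lit 269)) (PT.lf (nat_lit 28044) (nat_lit 6) (nat_lit 369) (nat_lit 4) (nat_lit 228) (nat_lit 284) (nat_lit 268))) (PT.nd (nat_lit 78) (PT.lf (nat_lit 28880) (nat_lit 6) (nat_lit 380) (nat_lit 4) (nat_lit 229) (nat_lit 284) (nat_lit 267)) (PT.lf (nat_lit 29716) (nat_lit 6) (nat_lit 391) (nat_lit 4) (nat_lit 230) (nat_lit 284) (nat_lit 266)))) (PT.nd (nat_lit 156) (PT.nd (nat_lit 78) (PT.lf (nat_lit 30552) (nat_lit 6) (nat_lit 402) (nat_lit 4) (nat_lit 231) (nat_lit 284) (nat_lit 265)) (PT.lf (nat_lit 31388) (nat_lit 6) (nat_lit 413) (nat_lit 4) (nat_lit 232) (nat_lit 284) (nat_lit 264))) (PT.nd (nat_lit 78) (PT.lf (nat_lit 32300) (nat_lit 6) (nat_lit 425) (nat_lit 4) (nat_lit 233) (nat_lit 284) (nat_lit 263)) (PT.lf (nat_lit 33212) (nat_lit 6) (nat_lit 437) (nat_lit 4) (nat_lit 234) (nat_lit 284) (nat_lit 262))))))))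
noncomputable def pc53 : PT := (PT.nd (nat_lit 2418) (PT.nd (nat_lit 1170) (PT.nd (nat_lit 546) (PT.nd (nat_lit 234) (PT.nd (nat_lit 78) (PT.lf (nat_lit 34276) (nat_lit 6) (nat_lit 451) (nat_lit 4) (nat_lit 235) (nat_lit 284) (nat_lit 261)) (PT.nd (nat_lit 78) (PT.lf (nat_lit 36100) (nat_lit 6) (nat_lit 475) (nat_lit 4) (nat_lit 236) (nat_lit 284) (nat_lit 260)) (PT.lf (nat_lit 36024) (nat_lit 6) (nat_lit 474) (nat_lit 4) (nat_lit 237) (nat_lit 284) (nat_lit 259)))) (PT.nd (nat_lit 156) (PT.nd (nat_lit 78) (PT.lf (nat_lit 35948) (nat_lit 6) (nat_lit 473) (nat_lit 4) (nat_lit 238) (nat_lit 284) (nat_lit 258)) (PT.lf (nat_lit 35872) (nat_lit 6) (nat_lit 472) (nat_lit 4) (nat_lit 239) (nat_lit 284) (nat_lit 257))) (PT.nd (nat_lit 78) (PT.lf (nat_lit 35796) (nat_lit 6) (nat_lit 471) (nat_lit 4) (nat_lit 240) (nat_lit 284) (nat_lit 256)) (PT.lf (nat_lit 35720) (nat_lit 6) (nat_lit 470) (nat_lit 4) (nat_lit 241) (nat_lit 284) (nat_lit 255))))) (PT.nd (nat_lit 312) (PT.nd (nat_lit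 156) (PT.nd (nat_lit 78) (PT.lf (nat_lit 35644) (nat_lit 6) (nat_lit 469) (nat_lit 4) (nat_lit 242) (nat_lit 284) (nat_lit 254)) (PT.lf (nat_lit 35568) (nat_lit 6) (nat_lit 468) (nat_lit 4) (nat_lit 243) (nat_lit 284) (nat_lit 253))) (PT.nd (nat_lit 78) (PT.lf (nat_lit 35492) (nat_lit 6) (nat_lit 467) (nat_lit 4) (nat_lit 244) (nat_lit 284) (nat_lit 252)) (PT.lf (nat_lit 35416) (nat_lit 6) (nat_lit 466) (nat_lit 4) (nat_lit 245) (nat_lit 284) (nat_lit 251)))) (PT.nd (nat_lit 156) (PT.nd (nat_lit 78) (PT.lf (nat_lit 35340) (nat_lit 6) (nat_lit 465) (nat_lit 4) (nat_lit 246) (nat_lit 284) (nat_lit 250)) (PT.lf (nat_lit 35264) (nat_lit 6) (nat_lit 464) (nat_lit 4) (nat_lit 247) (nat_lit 284) (nat_lit 249))) (PT.nd (nat_lit 78) (PT.lf (nat_lit 35188) (nat_lit 3) (nat_lit 463) (nat_lit 2) (nat_lit 248) (nat_lit 284) (nat_lit 248)) (PT.lf (nat_lit 35264) (nat_lit 6) (nat_lit 464) (nat_lit 2) (nat_lit 249) (nat_lit 284) (nat_lit 247)))))) (PT.nd (nat_lit 624) (PT.nd (nat_lit 312)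 (PT.nd (nat_lit 156) (PT.nd (nat_lit 78) (PT.lf (nat_lit 35340) (nat_lit 6) (nat_lit 465) (nat_lit 2) (nat_lit 250) (nat_lit 284) (nat_lit 246)) (PT.lf (nat_lit 35416) (nat_lit 6) (nat_lit 466) (nat_lit 2) (nat_lit 251) (nat_lit 284) (nat_lit 245))) (PT.nd (nat_lit 78) (PT.lf (nat_lit 35492) (nat_lit 6) (nat_lit 467) (nat_lit 2) (nat_lit 252) (nat_lit 284) (nat_lit 244)) (PT.lf (nat_lit 35568) (nat_lit 6) (nat_lit 468) (nat_lit 2) (nat_lit 253) (nat_lit 284) (nat_lit 243)))) (PT.nd (nat_lit 156) (PT.nd (nat_lit 78) (PT.lf (nat_lit 35644) (nat_lit 6) (nat_lit 469) (nat_lit 2) (nat_lit 254) (nat_lit 284) (nat_lit 242)) (PT.lf (nat_lit 35720) (nat_lit 6) (nat_lit 470) (nat_lit 2) (nat_lit 255) (nat_lit 284) (nat_lit 241))) (PT.nd (nat_lit 78) (PT.lf (nat_lit 35796) (nat_lit 6) (nat_lit 471) (nat_lit 2) (nat_lit 256) (nat_lit 284) (nat_lit 240)) (PT.lf (nat_lit 35872) (nat_lit 6) (nat_lit 472) (nat_lit 2) (nat_lit 257) (nat_lit 284) (nat_lit 239))))) (PT.nd (nat_lit 312) (PT.nd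 (nat_lit 156) (PT.nd (nat_lit 78) (PT.lf (nat_lit 35948) (nat_lit 6) (nat_lit 473) (nat_lit 2) (nat_lit 258) (nat_lit 284) (nat_lit 238)) (PT.lf (nat_lit 36024) (nat_lit 6) (nat_lit 474) (nat_lit 2) (nat_lit 259) (nat_lit 284) (nat_lit 237))) (PT.nd (nat_lit 78) (PT.lf (nat_lit 36100) (nat_lit 6) (nat_lit 475) (nat_lit 2) (nat_lit 260) (nat_lit 284) (nat_lit 236)) (PT.lf (nat_lit 34276) (nat_lit 6) (nat_lit 451) (nat_lit 2) (nat_lit 261) (nat_lit 284) (nat_lit 235)))) (PT.nd (nat_lit 156) (PT.nd (nat_lit 78) (PT.lf (nat_lit 33212) (nat_lit 6) (nat_lit 437) (nat_lit 2) (nat_lit 262) (nat_lit 284) (nat_lit 234)) (PT.lf (nat_lit 32300) (nat_lit 6) (nat_lit 425) (nat_lit 2) (nat_lit 263) (nat_lit 284) (nat_lit 233))) (PT.nd (nat_lit 78) (PT.lf (nat_lit 31388) (nat_lit 6) (nat_lit 413) (nat_lit 2) (nat_lit 264) (nat_lit 284) (nat_lit 232)) (PT.lf (nat_lit 30552) (nat_lit 6) (nat_lit 402) (nat_lit 2) (nat_lit 265) (nat_lit 284) (nat_lit 231))))))) (PT.nd (nat_lit 1170) (PT.nd (nat_lit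 546) (PT.nd (nat_lit 234) (PT.nd (nat_lit 78) (PT.lf (nat_lit 29716) (nat_lit 6) (nat_lit 391) (nat_lit 2) (nat_lit 266) (nat_lit 284) (nat_lit 230)) (PT.nd (nat_lit 78) (PT.lf (nat_lit 28880) (nat_lit 6) (nat_lit 380) (nat_lit 2) (nat_lit 267) (nat_lit 284) (nat_lit 229)) (PT.lf (nat_lit 28044) (nat_lit 6) (nat_lit 369) (nat_lit 2) (nat_lit 268) (nat_lit 284) (nat_lit 228)))) (PT.nd (nat_lit 156) (PT.nd (nat_lit 78) (PT.lf (nat_lit 27284) (nat_lit 6) (nat_lit 359) (nat_lit 2) (nat_lit 269) (nat_lit 284) (nat_lit 227)) (PT.lf (nat_lit 26524) (nat_lit 6) (nat_lit 349) (nat_lit 2) (nat_lit 270) (nat_lit 284) (nat_lit 226))) (PT.nd (nat_lit 78) (PT.lf (nat_lit 25840) (nat_lit 6) (nat_lit 340) (nat_lit 2) (nat_lit 271) (nat_lit 284) (nat_lit 225)) (PT.lf (nat_lit 25080) (nat_lit 6) (nat_lit 330) (nat_lit 2) (nat_lit 272) (nat_lit 284) (nat_lit 224))))) (PT.nd (nat_lit 312) (PT.nd (nat_lit 156) (PT.nd (nat_lit 78) (PT.lf (nat_lit 24396) (nat_lit 6) (nat_lit 321) (nat_lit 2) (nat_lit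 273) (nat_lit 284) (nat_lit 223)) (PT.lf (nat_lit 23712) (nat_lit 6) (nat_lit 312) (nat_lit 2) (nat_lit 274) (nat_lit 284) (nat_lit 222))) (PT.nd (nat_lit 78) (PT.lf (nat_lit 23104) (nat_lit 6) (nat_lit 304) (nat_lit 2) (nat_lit 275) (nat_lit 284) (nat_lit 221)) (PT.lf (nat_lit 22420) (nat_lit 6) (nat_lit 295) (nat_lit 2) (nat_lit 276) (nat_lit 284) (nat_lit 220)))) (PT.nd (nat_lit 156) (PT.nd (nat_lit 78) (PT.lf (nat_lit 21812) (nat_lit 6) (nat_lit 287) (nat_lit 2) (nat_lit 277) (nat_lit 284) (nat_lit 219)) (PT.lf (nat_lit 21204) (nat_lit 6) (nat_lit 279) (nat_lit 2) (nat_lit 278) (nat_lit 284) (nat_lit 218))) (PT.nd (nat_lit 78) (PT.lf (nat_lit 20596) (nat_lit 6) (nat_lit 271) (nat_lit 2) (nat_lit 279) (nat_lit 284) (nat_lit 217)) (PT.lf (nat_lit 19988) (nat_lit 6) (nat_lit 263) (nat_lit 2) (nat_lit 280) (nat_lit 284) (nat_lit 216)))))) (PT.nd (nat_lit 624) (PT.nd (nat_lit 312) (PT.nd (nat_lit 156) (PT.nd (nat_lit 78) (PT.lf (nat_lit 19456) (nat_lit 6) (nat_lit 256) (nat_lit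 2) (nat_lit 281) (nat_lit 284) (nat_lit 215)) (PT.lf (nat_lit 18924) (nat_lit 6) (nat_lit 249) (nat_lit 2) (nat_lit 282) (nat_lit 284) (nat_lit 214))) (PT.nd (nat_lit 78) (PT.lf (nat_lit 18392) (nat_lit 6) (nat_lit 242) (nat_lit 2) (nat_lit 283) (nat_lit 284) (nat_lit 213)) (PT.lf (nat_lit 17860) (nat_lit 3) (nat_lit 235) (nat_lit 0) (nat_lit 284) (nat_lit 284) (nat_lit 212)))) (PT.nd (nat_lit 156) (PT.nd (nat_lit 78) (PT.lf (nat_lit 17328) (nat_lit 6) (nat_lit 228) (nat_lit 0) (nat_lit 285) (nat_lit 284) (nat_lit 211)) (PT.lf (nat_lit 16720) (nat_lit 6) (nat_lit 220) (nat_lit 0) (nat_lit 286) (nat_lit 284) (nat_lit 210))) (PT.nd (nat_lit 78) (PT.lf (nat_lit 16188) (nat_lit 6) (nat_lit 213) (nat_lit 0) (nat_lit 287) (nat_lit 284) (nat_lit 209)) (PT.lf (nat_lit 15656) (nat_lit 6) (nat_lit 206) (nat_lit 0) (nat_lit 288) (nat_lit 284) (nat_lit 208))))) (PT.nd (nat_lit 312) (PT.nd (nat_lit 156) (PT.nd (nat_lit 78) (PT.lf (nat_lit 15124) (nat_lit 6) (nat_lit 199) (nat_lit 0) (nat_lit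 289) (nat_lit 284) (nat_lit 207)) (PT.lf (nat_lit 14592) (nat_lit 6) (nat_lit 192) (nat_lit 0) (nat_lit 290) (nat_lit 284) (nat_lit 206))) (PT.nd (nat_lit 78) (PT.lf (nat_lit 14136) (nat_lit 6) (nat_lit 186) (nat_lit 0) (nat_lit 291) (nat_lit 284) (nat_lit 205)) (PT.lf (nat_lit 13604) (nat_lit 6) (nat_lit 179) (nat_lit 0) (nat_lit 292) (nat_lit 284) (nat_lit 204)))) (PT.nd (nat_lit 74022) (PT.nd (nat_lit 78) (PT.lf (nat_lit 13148) (nat_lit 6) (nat_lit 173) (nat_lit 0) (nat_lit 293) (nat_lit 284) (nat_lit 203)) (PT.lf (nat_lit 12692) (nat_lit 6) (nat_lit 167) (nat_lit 0) (nat_lit 294) (nat_lit 284) (nat_lit 202))) (PT.nd (nat_lit 78) (PT.lf (nat_lit 12312) (nat_lit 6) (nat_lit 162) (nat_lit 5) (nat_lit 201) (nat_lit 285) (nat_lit 294)) (PT.lf (nat_lit 12768) (nat_lit 6) (nat_lit 168) (nat_lit 5) (nat_lit 202) (nat_lit 285) (nat_lit 293))))))))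
noncomputable def pc54 : PT := (PT.nd (nat_lit 2418) (PT.nd (nat_lit 1170) (PT.nd (nat_lit 546) (PT.nd (nat_lit 234) (PT.nd (nat_lit 78) (PT.lf (nat_lit 13224) (nat_lit 6) (nat_lit 174) (nat_lit 5) (nat_lit 203) (nat_lit 285) (nat_lit 292)) (PT.nd (nat_lit 78) (PT.lf (nat_lit 13680) (nat_lit 6) (nat_lit 180) (nat_lit 5) (nat_lit 204) (nat_lit 285) (nat_lit 291)) (PT.lf (nat_lit 14212) (nat_lit 6) (nat_lit 187) (nat_lit 5) (nat_lit 205) (nat_lit 285) (nat_lit 290)))) (PT.nd (nat_lit 156) (PT.nd (nat_lit 78) (PT.lf (nat_lit 14668) (nat_lit 6) (nat_lit 193) (nat_lit 5) (nat_lit 206) (nat_lit 285) (nat_lit 289)) (PT.lf (nat_lit 15200) (nat_lit 6) (nat_lit 200) (nat_lit 5) (nat_lit 207) (nat_lit 285) (nat_lit 288))) (PT.nd (nat_lit 78) (PT.lf (nat_lit 15732) (nat_lit 6) (nat_lit 207) (nat_lit 5) (nat_lit 208) (nat_lit 285) (nat_lit 287)) (PT.lf (nat_lit 16264) (nat_lit 6) (nat_lit 214) (nat_lit 5) (nat_lit 209) (nat_lit 285) (nat_lit 286))))) (PT.nd (nat_lit 312) (PT.nd (nat_lit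 156) (PT.nd (nat_lit 78) (PT.lf (nat_lit 16796) (nat_lit 3) (nat_lit 221) (nat_lit 4) (nat_lit 210) (nat_lit 285) (nat_lit 285)) (PT.lf (nat_lit 17328) (nat_lit 6) (nat_lit 228) (nat_lit 4) (nat_lit 211) (nat_lit 285) (nat_lit 284))) (PT.nd (nat_lit 78) (PT.lf (nat_lit 17784) (nat_lit 6) (nat_lit 234) (nat_lit 4) (nat_lit 212) (nat_lit 285) (nat_lit 283)) (PT.lf (nat_lit 18316) (nat_lit 6) (nat_lit 241) (nat_lit 4) (nat_lit 213) (nat_lit 285) (nat_lit 282)))) (PT.nd (nat_lit 156) (PT.nd (nat_lit 78) (PT.lf (nat_lit 18848) (nat_lit 6) (nat_lit 248) (nat_lit 4) (nat_lit 214) (nat_lit 285) (nat_lit 281)) (PT.lf (nat_lit 19380) (nat_lit 6) (nat_lit 255) (nat_lit 4) (nat_lit 215) (nat_lit 285) (nat_lit 280))) (PT.nd (nat_lit 78) (PT.lf (nat_lit 19912) (nat_lit 6) (nat_lit 262) (nat_lit 4) (nat_lit 216) (nat_lit 285) (nat_lit 279)) (PT.lf (nat_lit 20520) (nat_lit 6) (nat_lit 270) (nat_lit 4) (nat_lit 217) (nat_lit 285) (nat_lit 278)))))) (PT.nd (nat_lit 624) (PT.nd (nat_lit 312)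 (PT.nd (nat_lit 156) (PT.nd (nat_lit 78) (PT.lf (nat_lit 21128) (nat_lit 6) (nat_lit 278) (nat_lit 4) (nat_lit 218) (nat_lit 285) (nat_lit 277)) (PT.lf (nat_lit 21736) (nat_lit 6) (nat_lit 286) (nat_lit 4) (nat_lit 219) (nat_lit 285) (nat_lit 276))) (PT.nd (nat_lit 78) (PT.lf (nat_lit 22344) (nat_lit 6) (nat_lit 294) (nat_lit 4) (nat_lit 220) (nat_lit 285) (nat_lit 275)) (PT.lf (nat_lit 23028) (nat_lit 6) (nat_lit 303) (nat_lit 4) (nat_lit 221) (nat_lit 285) (nat_lit 274)))) (PT.nd (nat_lit 156) (PT.nd (nat_lit 78) (PT.lf (nat_lit 23636) (nat_lit 6) (nat_lit 311) (nat_lit 4) (nat_lit 222) (nat_lit 285) (nat_lit 273)) (PT.lf (nat_lit 24320) (nat_lit 6) (nat_lit 320) (nat_lit 4) (nat_lit 223) (nat_lit 285) (nat_lit 272))) (PT.nd (nat_lit 78) (PT.lf (nat_lit 25004) (nat_lit 6) (nat_lit 329) (nat_lit 4) (nat_lit 224) (nat_lit 285) (nat_lit 271)) (PT.lf (nat_lit 25764) (nat_lit 6) (nat_lit 339) (nat_lit 4) (nat_lit 225) (nat_lit 285) (nat_lit 270))))) (PT.nd (nat_lit 312) (PT.nd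 (nat_lit 156) (PT.nd (nat_lit 78) (PT.lf (nat_lit 26448) (nat_lit 6) (nat_lit 348) (nat_lit 4) (nat_lit 226) (nat_lit 285) (nat_lit 269)) (PT.lf (nat_lit 27208) (nat_lit 6) (nat_lit 358) (nat_lit 4) (nat_lit 227) (nat_lit 285) (nat_lit 268))) (PT.nd (nat_lit 78) (PT.lf (nat_lit 27968) (nat_lit 6) (nat_lit 368) (nat_lit 4) (nat_lit 228) (nat_lit 285) (nat_lit 267)) (PT.lf (nat_lit 28804) (nat_lit 6) (nat_lit 379) (nat_lit 4) (nat_lit 229) (nat_lit 285) (nat_lit 266)))) (PT.nd (nat_lit 156) (PT.nd (nat_lit 78) (PT.lf (nat_lit 29640) (nat_lit 6) (nat_lit 390) (nat_lit 4) (nat_lit 230) (nat_lit 285) (nat_lit 265)) (PT.lf (nat_lit 30476) (nat_lit 6) (nat_lit 401) (nat_lit 4) (nat_lit 231) (nat_lit 285) (nat_lit 264))) (PT.nd (nat_lit 78) (PT.lf (nat_lit 31312) (nat_lit 6) (nat_lit 412) (nat_lit 4) (nat_lit 232) (nat_lit 285) (nat_lit 263)) (PT.lf (nat_lit 32224) (nat_lit 6) (nat_lit 424) (nat_lit 4) (nat_lit 233) (nat_lit 285) (nat_lit 262))))))) (PT.nd (nat_lit 3042) (PT.nd (nat_lit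 2418) (PT.nd (nat_lit 2106) (PT.nd (nat_lit 78) (PT.lf (nat_lit 33136) (nat_lit 6) (nat_lit 436) (nat_lit 4) (nat_lit 234) (nat_lit 285) (nat_lit 261)) (PT.nd (nat_lit 1950) (PT.lf (nat_lit 34200) (nat_lit 6) (nat_lit 450) (nat_lit 4) (nat_lit 235) (nat_lit 285) (nat_lit 260)) (PT.lf (nat_lit 34200) (nat_lit 6) (nat_lit 450) (nat_lit 2) (nat_lit 260) (nat_lit 285) (nat_lit 235)))) (PT.nd (nat_lit 156) (PT.nd (nat_lit 78) (PT.lf (nat_lit 33136) (nat_lit 6) (nat_lit 436) (nat_lit 2) (nat_lit 261) (nat_lit 285) (nat_lit 234)) (PT.lf (nat_lit 32224) (nat_lit 6) (nat_lit 424) (nat_lit 2) (nat_lit 262) (nat_lit 285) (nat_lit 233))) (PT.nd (nat_lit 78) (PT.lf (nat_lit 31312) (nat_lit 6) (nat_lit 412) (nat_lit 2) (nat_lit 263) (nat_lit 285) (nat_lit 232)) (PT.lf (nat_lit 30476) (nat_lit 6) (nat_lit 401) (nat_lit 2) (nat_lit 264) (nat_lit 285) (nat_lit 231))))) (PT.nd (nat_lit 312) (PT.nd (nat_lit 156) (PT.nd (nat_lit 78) (PT.lf (nat_lit 29640) (nat_lit 6) (nat_lit 390) (nat_lit 2)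 (nat_lit 265) (nat_lit 285) (nat_lit 230)) (PT.lf (nat_lit 28804) (nat_lit 6) (nat_lit 379) (nat_lit 2) (nat_lit 266) (nat_lit 285) (nat_lit 229))) (PT.nd (nat_lit 78) (PT.lf (nat_lit 27968) (nat_lit 6) (nat_lit 368) (nat_lit 2) (nat_lit 267) (nat_lit 285) (nat_lit 228)) (PT.lf (nat_lit 27208) (nat_lit 6) (nat_lit 358) (nat_lit 2) (nat_lit 268) (nat_lit 285) (nat_lit 227)))) (PT.nd (nat_lit 156) (PT.nd (nat_lit 78) (PT.lf (nat_lit 26448) (nat_lit 6) (nat_lit 348) (nat_lit 2) (nat_lit 269) (nat_lit 285) (nat_lit 226)) (PT.lf (nat_lit 25764) (nat_lit 6) (nat_lit 339) (nat_lit 2) (nat_lit 270) (nat_lit 285) (nat_lit 225))) (PT.nd (nat_lit 78) (PT.lf (nat_lit 25004) (nat_lit 6) (nat_lit 329) (nat_lit 2) (nat_lit 271) (nat_lit 285) (nat_lit 224)) (PT.lf (nat_lit 24320) (nat_lit 6) (nat_lit 320) (nat_lit 2) (nat_lit 272) (nat_lit 285) (nat_lit 223)))))) (PT.nd (nat_lit 624) (PT.nd (nat_lit 312) (PT.nd (nat_lit 156) (PT.nd (nat_lit 78) (PT.lf (nat_lit 23636) (nat_lit 6) (nat_lit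 311) (nat_lit 2) (nat_lit 273) (nat_lit 285) (nat_lit 222)) (PT.lf (nat_lit 23028) (nat_lit 6) (nat_lit 303) (nat_lit 2) (nat_lit 274) (nat_lit 285) (nat_lit 221))) (PT.nd (nat_lit 78) (PT.lf (nat_lit 22344) (nat_lit 6) (nat_lit 294) (nat_lit 2) (nat_lit 275) (nat_lit 285) (nat_lit 220)) (PT.lf (nat_lit 21736) (nat_lit 6) (nat_lit 286) (nat_lit 2) (nat_lit 276) (nat_lit 285) (nat_lit 219)))) (PT.nd (nat_lit 156) (PT.nd (nat_lit 78) (PT.lf (nat_lit 21128) (nat_lit 6) (nat_lit 278) (nat_lit 2) (nat_lit 277) (nat_lit 285) (nat_lit 218)) (PT.lf (nat_lit 20520) (nat_lit 6) (nat_lit 270) (nat_lit 2) (nat_lit 278) (nat_lit 285) (nat_lit 217))) (PT.nd (nat_lit 78) (PT.lf (nat_lit 19912) (nat_lit 6) (nat_lit 262) (nat_lit 2) (nat_lit 279) (nat_lit 285) (nat_lit 216)) (PT.lf (nat_lit 19380) (nat_lit 6) (nat_lit 255) (nat_lit 2) (nat_lit 280) (nat_lit 285) (nat_lit 215))))) (PT.nd (nat_lit 312) (PT.nd (nat_lit 156) (PT.nd (nat_lit 78) (PT.lf (nat_lit 18848) (nat_lit 6) (nat_lit 248)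 (nat_lit 2) (nat_lit 281) (nat_lit 285) (nat_lit 214)) (PT.lf (nat_lit 18316) (nat_lit 6) (nat_lit 241) (nat_lit 2) (nat_lit 282) (nat_lit 285) (nat_lit 213))) (PT.nd (nat_lit 78) (PT.lf (nat_lit 17784) (nat_lit 6) (nat_lit 234) (nat_lit 2) (nat_lit 283) (nat_lit 285) (nat_lit 212)) (PT.lf (nat_lit 17328) (nat_lit 6) (nat_lit 228) (nat_lit 2) (nat_lit 284) (nat_lit 285) (nat_lit 211)))) (PT.nd (nat_lit 156) (PT.nd (nat_lit 78) (PT.lf (nat_lit 16796) (nat_lit 3) (nat_lit 221) (nat_lit 0) (nat_lit 285) (nat_lit 285) (nat_lit 210)) (PT.lf (nat_lit 16264) (nat_lit 6) (nat_lit 214) (nat_lit 0) (nat_lit 286) (nat_lit 285) (nat_lit 209))) (PT.nd (nat_lit 78) (PT.lf (nat_lit 15732) (nat_lit 6) (nat_lit 207) (nat_lit 0) (nat_lit 287) (nat_lit 285) (nat_lit 208)) (PT.lf (nat_lit 15200) (nat_lit 6) (nat_lit 200) (nat_lit 0) (nat_lit 288) (nat_lit 285) (nat_lit 207))))))))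
noncomputable def pc55 : PT := (PT.nd (nat_lit 76128) (PT.nd (nat_lit 74880) (PT.nd (nat_lit 74256) (PT.nd (nat_lit 234) (PT.nd (nat_lit 78) (PT.lf (nat_lit 14668) (nat_lit 6) (nat_lit 193) (nat_lit 0) (nat_lit 289) (nat_lit 285) (nat_lit 206)) (PT.nd (nat_lit 78) (PT.lf (nat_lit 14212) (nat_lit 6) (nat_lit 187) (nat_lit 0) (nat_lit 290) (nat_lit 285) (nat_lit 205)) (PT.lf (nat_lit 13680) (nat_lit 6) (nat_lit 180) (nat_lit 0) (nat_lit 291) (nat_lit 285) (nat_lit 204)))) (PT.nd (nat_lit 156) (PT.nd (nat_lit 78) (PT.lf (nat_lit 13224) (nat_lit 6) (nat_lit 174) (nat_lit 0) (nat_lit 292) (nat_lit 285) (nat_lit 203)) (PT.lf (nat_lit 12768) (nat_lit 6) (nat_lit 168) (nat_lit 0) (nat_lit 293) (nat_lit 285) (nat_lit 202))) (PT.nd (nat_lit 73788) (PT.lf (nat_lit 12312) (nat_lit 6) (nat_lit 162) (nat_lit 0) (nat_lit 294) (nat_lit 285) (nat_lit 201)) (PT.lf (nat_lit 11476) (nat_lit 6) (nat_lit 151) (nat_lit 5) (nat_lit 199) (nat_lit 286) (nat_lit 295))))) (PT.nd (nat_lit 312) (PT.nd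 (nat_lit 156) (PT.nd (nat_lit 78) (PT.lf (nat_lit 11932) (nat_lit 6) (nat_lit 157) (nat_lit 5) (nat_lit 200) (nat_lit 286) (nat_lit 294)) (PT.lf (nat_lit 12388) (nat_lit 6) (nat_lit 163) (nat_lit 5) (nat_lit 201) (nat_lit 286) (nat_lit 293))) (PT.nd (nat_lit 78) (PT.lf (nat_lit 12844) (nat_lit 6) (nat_lit 169) (nat_lit 5) (nat_lit 202) (nat_lit 286) (nat_lit 292)) (PT.lf (nat_lit 13300) (nat_lit 6) (nat_lit 175) (nat_lit 5) (nat_lit 203) (nat_lit 286) (nat_lit 291)))) (PT.nd (nat_lit 156) (PT.nd (nat_lit 78) (PT.lf (nat_lit 13756) (nat_lit 6) (nat_lit 181) (nat_lit 5) (nat_lit 204) (nat_lit 286) (nat_lit 290)) (PT.lf (nat_lit 14288) (nat_lit 6) (nat_lit 188) (nat_lit 5) (nat_lit 205) (nat_lit 286) (nat_lit 289))) (PT.nd (nat_lit 78) (PT.lf (nat_lit 14744) (nat_lit 6) (nat_lit 194) (nat_lit 5) (nat_lit 206) (nat_lit 286) (nat_lit 288)) (PT.lf (nat_lit 15276) (nat_lit 6) (nat_lit 201) (nat_lit 5) (nat_lit 207) (nat_lit 286) (nat_lit 287)))))) (PT.nd (nat_lit 624) (PT.nd (nat_lit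 312) (PT.nd (nat_lit 156) (PT.nd (nat_lit 78) (PT.lf (nat_lit 15808) (nat_lit 3) (nat_lit 208) (nat_lit 4) (nat_lit 208) (nat_lit 286) (nat_lit 286)) (PT.lf (nat_lit 16264) (nat_lit 6) (nat_lit 214) (nat_lit 4) (nat_lit 209) (nat_lit 286) (nat_lit 285))) (PT.nd (nat_lit 78) (PT.lf (nat_lit 16720) (nat_lit 6) (nat_lit 220) (nat_lit 4) (nat_lit 210) (nat_lit 286) (nat_lit 284)) (PT.lf (nat_lit 17252) (nat_lit 6) (nat_lit 227) (nat_lit 4) (nat_lit 211) (nat_lit 286) (nat_lit 283)))) (PT.nd (nat_lit 156) (PT.nd (nat_lit 78) (PT.lf (nat_lit 17708) (nat_lit 6) (nat_lit 233) (nat_lit 4) (nat_lit 212) (nat_lit 286) (nat_lit 282)) (PT.lf (nat_lit 18240) (nat_lit 6) (nat_lit 240) (nat_lit 4) (nat_lit 213) (nat_lit 286) (nat_lit 281))) (PT.nd (nat_lit 78) (PT.lf (nat_lit 18772) (nat_lit 6) (nat_lit 247) (nat_lit 4) (nat_lit 214) (nat_lit 286) (nat_lit 280)) (PT.lf (nat_lit 19304) (nat_lit 6) (nat_lit 254) (nat_lit 4) (nat_lit 215) (nat_lit 286) (nat_lit 279))))) (PT.nd (nat_lit 312)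 (PT.nd (nat_lit 156) (PT.nd (nat_lit 78) (PT.lf (nat_lit 19836) (nat_lit 6) (nat_lit 261) (nat_lit 4) (nat_lit 216) (nat_lit 286) (nat_lit 278)) (PT.lf (nat_lit 20444) (nat_lit 6) (nat_lit 269) (nat_lit 4) (nat_lit 217) (nat_lit 286) (nat_lit 277))) (PT.nd (nat_lit 78) (PT.lf (nat_lit 21052) (nat_lit 6) (nat_lit 277) (nat_lit 4) (nat_lit 218) (nat_lit 286) (nat_lit 276)) (PT.lf (nat_lit 21660) (nat_lit 6) (nat_lit 285) (nat_lit 4) (nat_lit 219) (nat_lit 286) (nat_lit 275)))) (PT.nd (nat_lit 156) (PT.nd (nat_lit 78) (PT.lf (nat_lit 22268) (nat_lit 6) (nat_lit 293) (nat_lit 4) (nat_lit 220) (nat_lit 286) (nat_lit 274)) (PT.lf (nat_lit 22952) (nat_lit 6) (nat_lit 302) (nat_lit 4) (nat_lit 221) (nat_lit 286) (nat_lit 273))) (PT.nd (nat_lit 78) (PT.lf (nat_lit 23560) (nat_lit 6) (nat_lit 310) (nat_lit 4) (nat_lit 222) (nat_lit 286) (nat_lit 272)) (PT.lf (nat_lit 24244) (nat_lit 6) (nat_lit 319) (nat_lit 4) (nat_lit 223) (nat_lit 286) (nat_lit 271))))))) (PT.nd (nat_lit 3822) (PT.nd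 (nat_lit 3198) (PT.nd (nat_lit 312) (PT.nd (nat_lit 156) (PT.nd (nat_lit 78) (PT.lf (nat_lit 24928) (nat_lit 6) (nat_lit 328) (nat_lit 4) (nat_lit 224) (nat_lit 286) (nat_lit 270)) (PT.lf (nat_lit 25688) (nat_lit 6) (nat_lit 338) (nat_lit 4) (nat_lit 225) (nat_lit 286) (nat_lit 269))) (PT.nd (nat_lit 78) (PT.lf (nat_lit 26372) (nat_lit 6) (nat_lit 347) (nat_lit 4) (nat_lit 226) (nat_lit 286) (nat_lit 268)) (PT.lf (nat_lit 27132) (nat_lit 6) (nat_lit 357) (nat_lit 4) (nat_lit 227) (nat_lit 286) (nat_lit 267)))) (PT.nd (nat_lit 156) (PT.nd (nat_lit 78) (PT.lf (nat_lit 27892) (nat_lit 6) (nat_lit 367) (nat_lit 4) (nat_lit 228) (nat_lit 286) (nat_lit 266)) (PT.lf (nat_lit 28728) (nat_lit 6) (nat_lit 378) (nat_lit 4) (nat_lit 229) (nat_lit 286) (nat_lit 265))) (PT.nd (nat_lit 2652) (PT.lf (nat_lit 29564) (nat_lit 6) (nat_lit 389) (nat_lit 4) (nat_lit 230) (nat_lit 286) (nat_lit 264)) (PT.lf (nat_lit 29564) (nat_lit 6) (nat_lit 389) (nat_lit 2) (nat_lit 264) (nat_lit 286) (nat_lit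 230))))) (PT.nd (nat_lit 312) (PT.nd (nat_lit 156) (PT.nd (nat_lit 78) (PT.lf (nat_lit 28728) (nat_lit 6) (nat_lit 378) (nat_lit 2) (nat_lit 265) (nat_lit 286) (nat_lit 229)) (PT.lf (nat_lit 27892) (nat_lit 6) (nat_lit 367) (nat_lit 2) (nat_lit 266) (nat_lit 286) (nat_lit 228))) (PT.nd (nat_lit 78) (PT.lf (nat_lit 27132) (nat_lit 6) (nat_lit 357) (nat_lit 2) (nat_lit 267) (nat_lit 286) (nat_lit 227)) (PT.lf (nat_lit 26372) (nat_lit 6) (nat_lit 347) (nat_lit 2) (nat_lit 268) (nat_lit 286) (nat_lit 226)))) (PT.nd (nat_lit 156) (PT.nd (nat_lit 78) (PT.lf (nat_lit 25688) (nat_lit 6) (nat_lit 338) (nat_lit 2) (nat_lit 269) (nat_lit 286) (nat_lit 225)) (PT.lf (nat_lit 24928) (nat_lit 6) (nat_lit 328) (nat_lit 2) (nat_lit 270) (nat_lit 286) (nat_lit 224))) (PT.nd (nat_lit 78) (PT.lf (nat_lit 24244) (nat_lit 6) (nat_lit 319) (nat_lit 2) (nat_lit 271) (nat_lit 286) (nat_lit 223)) (PT.lf (nat_lit 23560) (nat_lit 6) (nat_lit 310) (nat_lit 2) (nat_lit 272) (nat_lit 286) (nat_lit 222))))))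 (PT.nd (nat_lit 624) (PT.nd (nat_lit 312) (PT.nd (nat_lit 156) (PT.nd (nat_lit 78) (PT.lf (nat_lit 22952) (nat_lit 6) (nat_lit 302) (nat_lit 2) (nat_lit 273) (nat_lit 286) (nat_lit 221)) (PT.lf (nat_lit 22268) (nat_lit 6) (nat_lit 293) (nat_lit 2) (nat_lit 274) (nat_lit 286) (nat_lit 220))) (PT.nd (nat_lit 78) (PT.lf (nat_lit 21660) (nat_lit 6) (nat_lit 285) (nat_lit 2) (nat_lit 275) (nat_lit 286) (nat_lit 219)) (PT.lf (nat_lit 21052) (nat_lit 6) (nat_lit 277) (nat_lit 2) (nat_lit 276) (nat_lit 286) (nat_lit 218)))) (PT.nd (nat_lit 156) (PT.nd (nat_lit 78) (PT.lf (nat_lit 20444) (nat_lit 6) (nat_lit 269) (nat_lit 2) (nat_lit 277) (nat_lit 286) (nat_lit 217)) (PT.lf (nat_lit 19836) (nat_lit 6) (nat_lit 261) (nat_lit 2) (nat_lit 278) (nat_lit 286) (nat_lit 216))) (PT.nd (nat_lit 78) (PT.lf (nat_lit 19304) (nat_lit 6) (nat_lit 254) (nat_lit 2) (nat_lit 279) (nat_lit 286) (nat_lit 215)) (PT.lf (nat_lit 18772) (nat_lit 6) (nat_lit 247) (nat_lit 2) (nat_lit 280) (nat_lit 286) (nat_lit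 214))))) (PT.nd (nat_lit 312) (PT.nd (nat_lit 156) (PT.nd (nat_lit 78) (PT.lf (nat_lit 18240) (nat_lit 6) (nat_lit 240) (nat_lit 2) (nat_lit 281) (nat_lit 286) (nat_lit 213)) (PT.lf (nat_lit 17708) (nat_lit 6) (nat_lit 233) (nat_lit 2) (nat_lit 282) (nat_lit 286) (nat_lit 212))) (PT.nd (nat_lit 78) (PT.lf (nat_lit 17252) (nat_lit 6) (nat_lit 227) (nat_lit 2) (nat_lit 283) (nat_lit 286) (nat_lit 211)) (PT.lf (nat_lit 16720) (nat_lit 6) (nat_lit 220) (nat_lit 2) (nat_lit 284) (nat_lit 286) (nat_lit 210)))) (PT.nd (nat_lit 156) (PT.nd (nat_lit 78) (PT.lf (nat_lit 16264) (nat_lit 6) (nat_lit 214) (nat_lit 2) (nat_lit 285) (nat_lit 286) (nat_lit 209)) (PT.lf (nat_lit 15808) (nat_lit 3) (nat_lit 208) (nat_lit 0) (nat_lit 286) (nat_lit 286) (nat_lit 208))) (PT.nd (nat_lit 78) (PT.lf (nat_lit 15276) (nat_lit 6) (nat_lit 201) (nat_lit 0) (nat_lit 287) (nat_lit 286) (nat_lit 207)) (PT.lf (nat_lit 14744) (nat_lit 6) (nat_lit 194) (nat_lit 0) (nat_lit 288) (nat_lit 286) (nat_lit 206))))))))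
noncomputable def pc56 : PT := (PT.nd (nat_lit 75972) (PT.nd (nat_lit 74724) (PT.nd (nat_lit 74100) (PT.nd (nat_lit 234) (PT.nd (nat_lit 78) (PT.lf (nat_lit 14288) (nat_lit 6) (nat_lit 188) (nat_lit 0) (nat_lit 289) (nat_lit 286) (nat_lit 205)) (PT.nd (nat_lit 78) (PT.lf (nat_lit 13756) (nat_lit 6) (nat_lit 181) (nat_lit 0) (nat_lit 290) (nat_lit 286) (nat_lit 204)) (PT.lf (nat_lit 13300) (nat_lit 6) (nat_lit 175) (nat_lit 0) (nat_lit 291) (nat_lit 286) (nat_lit 203)))) (PT.nd (nat_lit 156) (PT.nd (nat_lit 78) (PT.lf (nat_lit 12844) (nat_lit 6) (nat_lit 169) (nat_lit 0) (nat_lit 292) (nat_lit 286) (nat_lit 202)) (PT.lf (nat_lit 12388) (nat_lit 6) (nat_lit 163) (nat_lit 0) (nat_lit 293) (nat_lit 286) (nat_lit 201))) (PT.nd (nat_lit 78) (PT.lf (nat_lit 11932) (nat_lit 6) (nat_lit 157) (nat_lit 0) (nat_lit 294) (nat_lit 286) (nat_lit 200)) (PT.lf (nat_lit 11476) (nat_lit 6) (nat_lit 151) (nat_lit 0) (nat_lit 295) (nat_lit 286) (nat_lit 199))))) (PT.nd (nat_lit 312) (PT.nd (nat_lit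 156) (PT.nd (nat_lit 78) (PT.lf (nat_lit 11096) (nat_lit 6) (nat_lit 146) (nat_lit 5) (nat_lit 198) (nat_lit 287) (nat_lit 295)) (PT.lf (nat_lit 11552) (nat_lit 6) (nat_lit 152) (nat_lit 5) (nat_lit 199) (nat_lit 287) (nat_lit 294))) (PT.nd (nat_lit 78) (PT.lf (nat_lit 12008) (nat_lit 6) (nat_lit 158) (nat_lit 5) (nat_lit 200) (nat_lit 287) (nat_lit 293)) (PT.lf (nat_lit 12464) (nat_lit 6) (nat_lit 164) (nat_lit 5) (nat_lit 201) (nat_lit 287) (nat_lit 292)))) (PT.nd (nat_lit 156) (PT.nd (nat_lit 78) (PT.lf (nat_lit 12920) (nat_lit 6) (nat_lit 170) (nat_lit 5) (nat_lit 202) (nat_lit 287) (nat_lit 291)) (PT.lf (nat_lit 13376) (nat_lit 6) (nat_lit 176) (nat_lit 5) (nat_lit 203) (nat_lit 287) (nat_lit 290))) (PT.nd (nat_lit 78) (PT.lf (nat_lit 13832) (nat_lit 6) (nat_lit 182) (nat_lit 5) (nat_lit 204) (nat_lit 287) (nat_lit 289)) (PT.lf (nat_lit 14364) (nat_lit 6) (nat_lit 189) (nat_lit 5) (nat_lit 205) (nat_lit 287) (nat_lit 288)))))) (PT.nd (nat_lit 624) (PT.nd (nat_lit 312)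 (PT.nd (nat_lit 156) (PT.nd (nat_lit 78) (PT.lf (nat_lit 14820) (nat_lit 3) (nat_lit 195) (nat_lit 4) (nat_lit 206) (nat_lit 287) (nat_lit 287)) (PT.lf (nat_lit 15276) (nat_lit 6) (nat_lit 201) (nat_lit 4) (nat_lit 207) (nat_lit 287) (nat_lit 286))) (PT.nd (nat_lit 78) (PT.lf (nat_lit 15732) (nat_lit 6) (nat_lit 207) (nat_lit 4) (nat_lit 208) (nat_lit 287) (nat_lit 285)) (PT.lf (nat_lit 16188) (nat_lit 6) (nat_lit 213) (nat_lit 4) (nat_lit 209) (nat_lit 287) (nat_lit 284)))) (PT.nd (nat_lit 156) (PT.nd (nat_lit 78) (PT.lf (nat_lit 16644) (nat_lit 6) (nat_lit 219) (nat_lit 4) (nat_lit 210) (nat_lit 287) (nat_lit 283)) (PT.lf (nat_lit 17176) (nat_lit 6) (nat_lit 226) (nat_lit 4) (nat_lit 211) (nat_lit 287) (nat_lit 282))) (PT.nd (nat_lit 78) (PT.lf (nat_lit 17632) (nat_lit 6) (nat_lit 232) (nat_lit 4) (nat_lit 212) (nat_lit 287) (nat_lit 281)) (PT.lf (nat_lit 18164) (nat_lit 6) (nat_lit 239) (nat_lit 4) (nat_lit 213) (nat_lit 287) (nat_lit 280))))) (PT.nd (nat_lit 312) (PT.nd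 (nat_lit 156) (PT.nd (nat_lit 78) (PT.lf (nat_lit 18696) (nat_lit 6) (nat_lit 246) (nat_lit 4) (nat_lit 214) (nat_lit 287) (nat_lit 279)) (PT.lf (nat_lit 19228) (nat_lit 6) (nat_lit 253) (nat_lit 4) (nat_lit 215) (nat_lit 287) (nat_lit 278))) (PT.nd (nat_lit 78) (PT.lf (nat_lit 19760) (nat_lit 6) (nat_lit 260) (nat_lit 4) (nat_lit 216) (nat_lit 287) (nat_lit 277)) (PT.lf (nat_lit 20368) (nat_lit 6) (nat_lit 268) (nat_lit 4) (nat_lit 217) (nat_lit 287) (nat_lit 276)))) (PT.nd (nat_lit 156) (PT.nd (nat_lit 78) (PT.lf (nat_lit 20976) (nat_lit 6) (nat_lit 276) (nat_lit 4) (nat_lit 218) (nat_lit 287) (nat_lit 275)) (PT.lf (nat_lit 21584) (nat_lit 6) (nat_lit 284) (nat_lit 4) (nat_lit 219) (nat_lit 287) (nat_lit 274))) (PT.nd (nat_lit 78) (PT.lf (nat_lit 22192) (nat_lit 6) (nat_lit 292) (nat_lit 4) (nat_lit 220) (nat_lit 287) (nat_lit 273)) (PT.lf (nat_lit 22876) (nat_lit 6) (nat_lit 301) (nat_lit 4) (nat_lit 221) (nat_lit 287) (nat_lit 272))))))) (PT.nd (nat_lit 4446) (PT.nd (nat_lit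 3822) (PT.nd (nat_lit 234) (PT.nd (nat_lit 78) (PT.lf (nat_lit 23484) (nat_lit 6) (nat_lit 309) (nat_lit 4) (nat_lit 222) (nat_lit 287) (nat_lit 271)) (PT.nd (nat_lit 78) (PT.lf (nat_lit 24168) (nat_lit 6) (nat_lit 318) (nat_lit 4) (nat_lit 223) (nat_lit 287) (nat_lit 270)) (PT.lf (nat_lit 24852) (nat_lit 6) (nat_lit 327) (nat_lit 4) (nat_lit 224) (nat_lit 287) (nat_lit 269)))) (PT.nd (nat_lit 3432) (PT.nd (nat_lit 3354) (PT.lf (nat_lit 25612) (nat_lit 6) (nat_lit 337) (nat_lit 4) (nat_lit 225) (nat_lit 287) (nat_lit 268)) (PT.lf (nat_lit 25612) (nat_lit 6) (nat_lit 337) (nat_lit 2) (nat_lit 268) (nat_lit 287) (nat_lit 225))) (PT.nd (nat_lit 78) (PT.lf (nat_lit 24852) (nat_lit 6) (nat_lit 327) (nat_lit 2) (nat_lit 269) (nat_lit 287) (nat_lit 224)) (PT.lf (nat_lit 24168) (nat_lit 6) (nat_lit 318) (nat_lit 2) (nat_lit 270) (nat_lit 287) (nat_lit 223))))) (PT.nd (nat_lit 312) (PT.nd (nat_lit 156) (PT.nd (nat_lit 78) (PT.lf (nat_lit 23484) (nat_lit 6) (nat_lit 309) (nat_lit 2)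 (nat_lit 271) (nat_lit 287) (nat_lit 222)) (PT.lf (nat_lit 22876) (nat_lit 6) (nat_lit 301) (nat_lit 2) (nat_lit 272) (nat_lit 287) (nat_lit 221))) (PT.nd (nat_lit 78) (PT.lf (nat_lit 22192) (nat_lit 6) (nat_lit 292) (nat_lit 2) (nat_lit 273) (nat_lit 287) (nat_lit 220)) (PT.lf (nat_lit 21584) (nat_lit 6) (nat_lit 284) (nat_lit 2) (nat_lit 274) (nat_lit 287) (nat_lit 219)))) (PT.nd (nat_lit 156) (PT.nd (nat_lit 78) (PT.lf (nat_lit 20976) (nat_lit 6) (nat_lit 276) (nat_lit 2) (nat_lit 275) (nat_lit 287) (nat_lit 218)) (PT.lf (nat_lit 20368) (nat_lit 6) (nat_lit 268) (nat_lit 2) (nat_lit 276) (nat_lit 287) (nat_lit 217))) (PT.nd (nat_lit 78) (PT.lf (nat_lit 19760) (nat_lit 6) (nat_lit 260) (nat_lit 2) (nat_lit 277) (nat_lit 287) (nat_lit 216)) (PT.lf (nat_lit 19228) (nat_lit 6) (nat_lit 253) (nat_lit 2) (nat_lit 278) (nat_lit 287) (nat_lit 215)))))) (PT.nd (nat_lit 624) (PT.nd (nat_lit 312) (PT.nd (nat_lit 156) (PT.nd (nat_lit 78) (PT.lf (nat_lit 18696) (nat_lit 6) (nat_lit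 246) (nat_lit 2) (nat_lit 279) (nat_lit 287) (nat_lit 214)) (PT.lf (nat_lit 18164) (nat_lit 6) (nat_lit 239) (nat_lit 2) (nat_lit 280) (nat_lit 287) (nat_lit 213))) (PT.nd (nat_lit 78) (PT.lf (nat_lit 17632) (nat_lit 6) (nat_lit 232) (nat_lit 2) (nat_lit 281) (nat_lit 287) (nat_lit 212)) (PT.lf (nat_lit 17176) (nat_lit 6) (nat_lit 226) (nat_lit 2) (nat_lit 282) (nat_lit 287) (nat_lit 211)))) (PT.nd (nat_lit 156) (PT.nd (nat_lit 78) (PT.lf (nat_lit 16644) (nat_lit 6) (nat_lit 219) (nat_lit 2) (nat_lit 283) (nat_lit 287) (nat_lit 210)) (PT.lf (nat_lit 16188) (nat_lit 6) (nat_lit 213) (nat_lit 2) (nat_lit 284) (nat_lit 287) (nat_lit 209))) (PT.nd (nat_lit 78) (PT.lf (nat_lit 15732) (nat_lit 6) (nat_lit 207) (nat_lit 2) (nat_lit 285) (nat_lit 287) (nat_lit 208)) (PT.lf (nat_lit 15276) (nat_lit 6) (nat_lit 201) (nat_lit 2) (nat_lit 286) (nat_lit 287) (nat_lit 207))))) (PT.nd (nat_lit 312) (PT.nd (nat_lit 156) (PT.nd (nat_lit 78) (PT.lf (nat_lit 14820) (nat_lit 3) (nat_lit 195)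 (nat_lit 0) (nat_lit 287) (nat_lit 287) (nat_lit 206)) (PT.lf (nat_lit 14364) (nat_lit 6) (nat_lit 189) (nat_lit 0) (nat_lit 288) (nat_lit 287) (nat_lit 205))) (PT.nd (nat_lit 78) (PT.lf (nat_lit 13832) (nat_lit 6) (nat_lit 182) (nat_lit 0) (nat_lit 289) (nat_lit 287) (nat_lit 204)) (PT.lf (nat_lit 13376) (nat_lit 6) (nat_lit 176) (nat_lit 0) (nat_lit 290) (nat_lit 287) (nat_lit 203)))) (PT.nd (nat_lit 156) (PT.nd (nat_lit 78) (PT.lf (nat_lit 12920) (nat_lit 6) (nat_lit 170) (nat_lit 0) (nat_lit 291) (nat_lit 287) (nat_lit 202)) (PT.lf (nat_lit 12464) (nat_lit 6) (nat_lit 164) (nat_lit 0) (nat_lit 292) (nat_lit 287) (nat_lit 201))) (PT.nd (nat_lit 78) (PT.lf (nat_lit 12008) (nat_lit 6) (nat_lit 158) (nat_lit 0) (nat_lit 293) (nat_lit 287) (nat_lit 200)) (PT.lf (nat_lit 11552) (nat_lit 6) (nat_lit 152) (nat_lit 0) (nat_lit 294) (nat_lit 287) (nat_lit 199))))))))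
noncomputable def pc57 : PT := (PT.nd (nat_lit 79638) (PT.nd (nat_lit 74568) (PT.nd (nat_lit 73944) (PT.nd (nat_lit 73632) (PT.nd (nat_lit 73476) (PT.lf (nat_lit 11096) (nat_lit 6) (nat_lit 146) (nat_lit 0) (nat_lit 295) (nat_lit 287) (nat_lit 198)) (PT.nd (nat_lit 78) (PT.lf (nat_lit 10336) (nat_lit 6) (nat_lit 136) (nat_lit 5) (nat_lit 196) (nat_lit 288) (nat_lit 296)) (PT.lf (nat_lit 10792) (nat_lit 6) (nat_lit 142) (nat_lit 5) (nat_lit 197) (nat_lit 288) (nat_lit 295)))) (PT.nd (nat_lit 156) (PT.nd (nat_lit 78) (PT.lf (nat_lit 11172) (nat_lit 6) (nat_lit 147) (nat_lit 5) (nat_lit 198) (nat_lit 288) (nat_lit 294)) (PT.lf (nat_lit 11628) (nat_lit 6) (nat_lit 153) (nat_lit 5) (nat_lit 199) (nat_lit 288) (nat_lit 293))) (PT.nd (nat_lit 78) (PT.lf (nat_lit 12084) (nat_lit 6) (nat_lit 159) (nat_lit 5) (nat_lit 200) (nat_lit 288) (nat_lit 292)) (PT.lf (nat_lit 12540) (nat_lit 6) (nat_lit 165) (nat_lit 5) (nat_lit 201) (nat_lit 288) (nat_lit 291))))) (PT.nd (nat_lit 312) (PT.nd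 (nat_lit 156) (PT.nd (nat_lit 78) (PT.lf (nat_lit 12996) (nat_lit 6) (nat_lit 171) (nat_lit 5) (nat_lit 202) (nat_lit 288) (nat_lit 290)) (PT.lf (nat_lit 13452) (nat_lit 6) (nat_lit 177) (nat_lit 5) (nat_lit 203) (nat_lit 288) (nat_lit 289))) (PT.nd (nat_lit 78) (PT.lf (nat_lit 13908) (nat_lit 3) (nat_lit 183) (nat_lit 4) (nat_lit 204) (nat_lit 288) (nat_lit 288)) (PT.lf (nat_lit 14364) (nat_lit 6) (nat_lit 189) (nat_lit 4) (nat_lit 205) (nat_lit 288) (nat_lit 287)))) (PT.nd (nat_lit 156) (PT.nd (nat_lit 78) (PT.lf (nat_lit 14744) (nat_lit 6) (nat_lit 194) (nat_lit 4) (nat_lit 206) (nat_lit 288) (nat_lit 286)) (PT.lf (nat_lit 15200) (nat_lit 6) (nat_lit 200) (nat_lit 4) (nat_lit 207) (nat_lit 288) (nat_lit 285))) (PT.nd (nat_lit 78) (PT.lf (nat_lit 15656) (nat_lit 6) (nat_lit 206) (nat_lit 4) (nat_lit 208) (nat_lit 288) (nat_lit 284)) (PT.lf (nat_lit 16112) (nat_lit 6) (nat_lit 212) (nat_lit 4) (nat_lit 209) (nat_lit 288) (nat_lit 283)))))) (PT.nd (nat_lit 624) (PT.nd (nat_lit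 312) (PT.nd (nat_lit 156) (PT.nd (nat_lit 78) (PT.lf (nat_lit 16568) (nat_lit 6) (nat_lit 218) (nat_lit 4) (nat_lit 210) (nat_lit 288) (nat_lit 282)) (PT.lf (nat_lit 17100) (nat_lit 6) (nat_lit 225) (nat_lit 4) (nat_lit 211) (nat_lit 288) (nat_lit 281))) (PT.nd (nat_lit 78) (PT.lf (nat_lit 17556) (nat_lit 6) (nat_lit 231) (nat_lit 4) (nat_lit 212) (nat_lit 288) (nat_lit 280)) (PT.lf (nat_lit 18088) (nat_lit 6) (nat_lit 238) (nat_lit 4) (nat_lit 213) (nat_lit 288) (nat_lit 279)))) (PT.nd (nat_lit 156) (PT.nd (nat_lit 78) (PT.lf (nat_lit 18620) (nat_lit 6) (nat_lit 245) (nat_lit 4) (nat_lit 214) (nat_lit 288) (nat_lit 278)) (PT.lf (nat_lit 19152) (nat_lit 6) (nat_lit 252) (nat_lit 4) (nat_lit 215) (nat_lit 288) (nat_lit 277))) (PT.nd (nat_lit 78) (PT.lf (nat_lit 19684) (nat_lit 6) (nat_lit 259) (nat_lit 4) (nat_lit 216) (nat_lit 288) (nat_lit 276)) (PT.lf (nat_lit 20292) (nat_lit 6) (nat_lit 267) (nat_lit 4) (nat_lit 217) (nat_lit 288) (nat_lit 275))))) (PT.nd (nat_lit 4134)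 (PT.nd (nat_lit 156) (PT.nd (nat_lit 78) (PT.lf (nat_lit 20900) (nat_lit 6) (nat_lit 275) (nat_lit 4) (nat_lit 218) (nat_lit 288) (nat_lit 274)) (PT.lf (nat_lit 21508) (nat_lit 6) (nat_lit 283) (nat_lit 4) (nat_lit 219) (nat_lit 288) (nat_lit 273))) (PT.nd (nat_lit 78) (PT.lf (nat_lit 22116) (nat_lit 6) (nat_lit 291) (nat_lit 4) (nat_lit 220) (nat_lit 288) (nat_lit 272)) (PT.lf (nat_lit 22800) (nat_lit 6) (nat_lit 300) (nat_lit 4) (nat_lit 221) (nat_lit 288) (nat_lit 271)))) (PT.nd (nat_lit 156) (PT.nd (nat_lit 78) (PT.lf (nat_lit 22800) (nat_lit 6) (nat_lit 300) (nat_lit 2) (nat_lit 271) (nat_lit 288) (nat_lit 221)) (PT.lf (nat_lit 22116) (nat_lit 6) (nat_lit 291) (nat_lit 2) (nat_lit 272) (nat_lit 288) (nat_lit 220))) (PT.nd (nat_lit 78) (PT.lf (nat_lit 21508) (nat_lit 6) (nat_lit 283) (nat_lit 2) (nat_lit 273) (nat_lit 288) (nat_lit 219)) (PT.lf (nat_lit 20900) (nat_lit 6) (nat_lit 275) (nat_lit 2) (nat_lit 274) (nat_lit 288) (nat_lit 218))))))) (PT.nd (nat_lit 1170) (PT.nd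 (nat_lit 546) (PT.nd (nat_lit 234) (PT.nd (nat_lit 78) (PT.lf (nat_lit 20292) (nat_lit 6) (nat_lit 267) (nat_lit 2) (nat_lit 275) (nat_lit 288) (nat_lit 217)) (PT.nd (nat_lit 78) (PT.lf (nat_lit 19684) (nat_lit 6) (nat_lit 259) (nat_lit 2) (nat_lit 276) (nat_lit 288) (nat_lit 216)) (PT.lf (nat_lit 19152) (nat_lit 6) (nat_lit 252) (nat_lit 2) (nat_lit 277) (nat_lit 288) (nat_lit 215)))) (PT.nd (nat_lit 156) (PT.nd (nat_lit 78) (PT.lf (nat_lit 18620) (nat_lit 6) (nat_lit 245) (nat_lit 2) (nat_lit 278) (nat_lit 288) (nat_lit 214)) (PT.lf (nat_lit 18088) (nat_lit 6) (nat_lit 238) (nat_lit 2) (nat_lit 279) (nat_lit 288) (nat_lit 213))) (PT.nd (nat_lit 78) (PT.lf (nat_lit 17556) (nat_lit 6) (nat_lit 231) (nat_lit 2) (nat_lit 280) (nat_lit 288) (nat_lit 212)) (PT.lf (nat_lit 17100) (nat_lit 6) (nat_lit 225) (nat_lit 2) (nat_lit 281) (nat_lit 288) (nat_lit 211))))) (PT.nd (nat_lit 312) (PT.nd (nat_lit 156) (PT.nd (nat_lit 78) (PT.lf (nat_lit 16568) (nat_lit 6) (nat_lit 218) (nat_lit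 2) (nat_lit 282) (nat_lit 288) (nat_lit 210)) (PT.lf (nat_lit 16112) (nat_lit 6) (nat_lit 212) (nat_lit 2) (nat_lit 283) (nat_lit 288) (nat_lit 209))) (PT.nd (nat_lit 78) (PT.lf (nat_lit 15656) (nat_lit 6) (nat_lit 206) (nat_lit 2) (nat_lit 284) (nat_lit 288) (nat_lit 208)) (PT.lf (nat_lit 15200) (nat_lit 6) (nat_lit 200) (nat_lit 2) (nat_lit 285) (nat_lit 288) (nat_lit 207)))) (PT.nd (nat_lit 156) (PT.nd (nat_lit 78) (PT.lf (nat_lit 14744) (nat_lit 6) (nat_lit 194) (nat_lit 2) (nat_lit 286) (nat_lit 288) (nat_lit 206)) (PT.lf (nat_lit 14364) (nat_lit 6) (nat_lit 189) (nat_lit 2) (nat_lit 287) (nat_lit 288) (nat_lit 205))) (PT.nd (nat_lit 78) (PT.lf (nat_lit 13908) (nat_lit 3) (nat_lit 183) (nat_lit 0) (nat_lit 288) (nat_lit 288) (nat_lit 204)) (PT.lf (nat_lit 13452) (nat_lit 6) (nat_lit 177) (nat_lit 0) (nat_lit 289) (nat_lit 288) (nat_lit 203)))))) (PT.nd (nat_lit 73866) (PT.nd (nat_lit 312) (PT.nd (nat_lit 156) (PT.nd (nat_lit 78) (PT.lf (nat_lit 12996) (nat_lit 6) (nat_lit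 171) (nat_lit 0) (nat_lit 290) (nat_lit 288) (nat_lit 202)) (PT.lf (nat_lit 12540) (nat_lit 6) (nat_lit 165) (nat_lit 0) (nat_lit 291) (nat_lit 288) (nat_lit 201))) (PT.nd (nat_lit 78) (PT.lf (nat_lit 12084) (nat_lit 6) (nat_lit 159) (nat_lit 0) (nat_lit 292) (nat_lit 288) (nat_lit 200)) (PT.lf (nat_lit 11628) (nat_lit 6) (nat_lit 153) (nat_lit 0) (nat_lit 293) (nat_lit 288) (nat_lit 199)))) (PT.nd (nat_lit 156) (PT.nd (nat_lit 78) (PT.lf (nat_lit 11172) (nat_lit 6) (nat_lit 147) (nat_lit 0) (nat_lit 294) (nat_lit 288) (nat_lit 198)) (PT.lf (nat_lit 10792) (nat_lit 6) (nat_lit 142) (nat_lit 0) (nat_lit 295) (nat_lit 288) (nat_lit 197))) (PT.nd (nat_lit 73320) (PT.lf (nat_lit 10336) (nat_lit 6) (nat_lit 136) (nat_lit 0) (nat_lit 296) (nat_lit 288) (nat_lit 196)) (PT.lf (nat_lit 10032) (nat_lit 6) (nat_lit 132) (nat_lit 5) (nat_lit 195) (nat_lit 289) (nat_lit 296))))) (PT.nd (nat_lit 312) (PT.nd (nat_lit 156) (PT.nd (nat_lit 78) (PT.lf (nat_lit 10412) (nat_lit 6) (nat_lit 137)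 (nat_lit 5) (nat_lit 196) (nat_lit 289) (nat_lit 295)) (PT.lf (nat_lit 10868) (nat_lit 6) (nat_lit 143) (nat_lit 5) (nat_lit 197) (nat_lit 289) (nat_lit 294))) (PT.nd (nat_lit 78) (PT.lf (nat_lit 11248) (nat_lit 6) (nat_lit 148) (nat_lit 5) (nat_lit 198) (nat_lit 289) (nat_lit 293)) (PT.lf (nat_lit 11704) (nat_lit 6) (nat_lit 154) (nat_lit 5) (nat_lit 199) (nat_lit 289) (nat_lit 292)))) (PT.nd (nat_lit 156) (PT.nd (nat_lit 78) (PT.lf (nat_lit 12160) (nat_lit 6) (nat_lit 160) (nat_lit 5) (nat_lit 200) (nat_lit 289) (nat_lit 291)) (PT.lf (nat_lit 12616) (nat_lit 6) (nat_lit 166) (nat_lit 5) (nat_lit 201) (nat_lit 289) (nat_lit 290))) (PT.nd (nat_lit 78) (PT.lf (nat_lit 13072) (nat_lit 3) (nat_lit 172) (nat_lit 4) (nat_lit 202) (nat_lit 289) (nat_lit 289)) (PT.lf (nat_lit 13452) (nat_lit 6) (nat_lit 177) (nat_lit 4) (nat_lit 203) (nat_lit 289) (nat_lit 288))))))))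
noncomputable def pc58 : PT := (PT.nd (nat_lit 6786) (PT.nd (nat_lit 5538) (PT.nd (nat_lit 546) (PT.nd (nat_lit 234) (PT.nd (nat_lit 78) (PT.lf (nat_lit 13832) (nat_lit 6) (nat_lit 182) (nat_lit 4) (nat_lit 204) (nat_lit 289) (nat_lit 287)) (PT.nd (nat_lit 78) (PT.lf (nat_lit 14288) (nat_lit 6) (nat_lit 188) (nat_lit 4) (nat_lit 205) (nat_lit 289) (nat_lit 286)) (PT.lf (nat_lit 14668) (nat_lit 6) (nat_lit 193) (nat_lit 4) (nat_lit 206) (nat_lit 289) (nat_lit 285)))) (PT.nd (nat_lit 156) (PT.nd (nat_lit 78) (PT.lf (nat_lit 15124) (nat_lit 6) (nat_lit 199) (nat_lit 4) (nat_lit 207) (nat_lit 289) (nat_lit 284)) (PT.lf (nat_lit 15580) (nat_lit 6) (nat_lit 205) (nat_lit 4) (nat_lit 208) (nat_lit 289) (nat_lit 283))) (PT.nd (nat_lit 78) (PT.lf (nat_lit 16036) (nat_lit 6) (nat_lit 211) (nat_lit 4) (nat_lit 209) (nat_lit 289) (nat_lit 282)) (PT.lf (nat_lit 16492) (nat_lit 6) (nat_lit 217) (nat_lit 4) (nat_lit 210) (nat_lit 289) (nat_lit 281))))) (PT.nd (nat_lit 312) (PT.nd (nat_lit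 156) (PT.nd (nat_lit 78) (PT.lf (nat_lit 17024) (nat_lit 6) (nat_lit 224) (nat_lit 4) (nat_lit 211) (nat_lit 289) (nat_lit 280)) (PT.lf (nat_lit 17480) (nat_lit 6) (nat_lit 230) (nat_lit 4) (nat_lit 212) (nat_lit 289) (nat_lit 279))) (PT.nd (nat_lit 78) (PT.lf (nat_lit 18012) (nat_lit 6) (nat_lit 237) (nat_lit 4) (nat_lit 213) (nat_lit 289) (nat_lit 278)) (PT.lf (nat_lit 18544) (nat_lit 6) (nat_lit 244) (nat_lit 4) (nat_lit 214) (nat_lit 289) (nat_lit 277)))) (PT.nd (nat_lit 156) (PT.nd (nat_lit 78) (PT.lf (nat_lit 19076) (nat_lit 6) (nat_lit 251) (nat_lit 4) (nat_lit 215) (nat_lit 289) (nat_lit 276)) (PT.lf (nat_lit 19608) (nat_lit 6) (nat_lit 258) (nat_lit 4) (nat_lit 216) (nat_lit 289) (nat_lit 275))) (PT.nd (nat_lit 4446) (PT.lf (nat_lit 20216) (nat_lit 6) (nat_lit 266) (nat_lit 4) (nat_lit 217) (nat_lit 289) (nat_lit 274)) (PT.lf (nat_lit 20216) (nat_lit 6) (nat_lit 266) (nat_lit 2) (nat_lit 274) (nat_lit 289) (nat_lit 217)))))) (PT.nd (nat_lit 624) (PT.nd (nat_lit 312)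 (PT.nd (nat_lit 156) (PT.nd (nat_lit 78) (PT.lf (nat_lit 19608) (nat_lit 6) (nat_lit 258) (nat_lit 2) (nat_lit 275) (nat_lit 289) (nat_lit 216)) (PT.lf (nat_lit 19076) (nat_lit 6) (nat_lit 251) (nat_lit 2) (nat_lit 276) (nat_lit 289) (nat_lit 215))) (PT.nd (nat_lit 78) (PT.lf (nat_lit 18544) (nat_lit 6) (nat_lit 244) (nat_lit 2) (nat_lit 277) (nat_lit 289) (nat_lit 214)) (PT.lf (nat_lit 18012) (nat_lit 6) (nat_lit 237) (nat_lit 2) (nat_lit 278) (nat_lit 289) (nat_lit 213)))) (PT.nd (nat_lit 156) (PT.nd (nat_lit 78) (PT.lf (nat_lit 17480) (nat_lit 6) (nat_lit 230) (nat_lit 2) (nat_lit 279) (nat_lit 289) (nat_lit 212)) (PT.lf (nat_lit 17024) (nat_lit 6) (nat_lit 224) (nat_lit 2) (nat_lit 280) (nat_lit 289) (nat_lit 211))) (PT.nd (nat_lit 78) (PT.lf (nat_lit 16492) (nat_lit 6) (nat_lit 217) (nat_lit 2) (nat_lit 281) (nat_lit 289) (nat_lit 210)) (PT.lf (nat_lit 16036) (nat_lit 6) (nat_lit 211) (nat_lit 2) (nat_lit 282) (nat_lit 289) (nat_lit 209))))) (PT.nd (nat_lit 312) (PT.nd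 (nat_lit 156) (PT.nd (nat_lit 78) (PT.lf (nat_lit 15580) (nat_lit 6) (nat_lit 205) (nat_lit 2) (nat_lit 283) (nat_lit 289) (nat_lit 208)) (PT.lf (nat_lit 15124) (nat_lit 6) (nat_lit 199) (nat_lit 2) (nat_lit 284) (nat_lit 289) (nat_lit 207))) (PT.nd (nat_lit 78) (PT.lf (nat_lit 14668) (nat_lit 6) (nat_lit 193) (nat_lit 2) (nat_lit 285) (nat_lit 289) (nat_lit 206)) (PT.lf (nat_lit 14288) (nat_lit 6) (nat_lit 188) (nat_lit 2) (nat_lit 286) (nat_lit 289) (nat_lit 205)))) (PT.nd (nat_lit 156) (PT.nd (nat_lit 78) (PT.lf (nat_lit 13832) (nat_lit 6) (nat_lit 182) (nat_lit 2) (nat_lit 287) (nat_lit 289) (nat_lit 204)) (PT.lf (nat_lit 13452) (nat_lit 6) (nat_lit 177) (nat_lit 2) (nat_lit 288) (nat_lit 289) (nat_lit 203))) (PT.nd (nat_lit 78) (PT.lf (nat_lit 13072) (nat_lit 3) (nat_lit 172) (nat_lit 0) (nat_lit 289) (nat_lit 289) (nat_lit 202)) (PT.lf (nat_lit 12616) (nat_lit 6) (nat_lit 166) (nat_lit 0) (nat_lit 290) (nat_lit 289) (nat_lit 201))))))) (PT.nd (nat_lit 74334) (PT.nd (nat_lit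 73710) (PT.nd (nat_lit 234) (PT.nd (nat_lit 78) (PT.lf (nat_lit 12160) (nat_lit 6) (nat_lit 160) (nat_lit 0) (nat_lit 291) (nat_lit 289) (nat_lit 200)) (PT.nd (nat_lit 78) (PT.lf (nat_lit 11704) (nat_lit 6) (nat_lit 154) (nat_lit 0) (nat_lit 292) (nat_lit 289) (nat_lit 199)) (PT.lf (nat_lit 11248) (nat_lit 6) (nat_lit 148) (nat_lit 0) (nat_lit 293) (nat_lit 289) (nat_lit 198)))) (PT.nd (nat_lit 156) (PT.nd (nat_lit 78) (PT.lf (nat_lit 10868) (nat_lit 6) (nat_lit 143) (nat_lit 0) (nat_lit 294) (nat_lit 289) (nat_lit 197)) (PT.lf (nat_lit 10412) (nat_lit 6) (nat_lit 137) (nat_lit 0) (nat_lit 295) (nat_lit 289) (nat_lit 196))) (PT.nd (nat_lit 73242) (PT.lf (nat_lit 10032) (nat_lit 6) (nat_lit 132) (nat_lit 0) (nat_lit 296) (nat_lit 289) (nat_lit 195)) (PT.lf (nat_lit 9728) (nat_lit 6) (nat_lit 128) (nat_lit 5) (nat_lit 194) (nat_lit 290) (nat_lit 296))))) (PT.nd (nat_lit 312) (PT.nd (nat_lit 156) (PT.nd (nat_lit 78) (PT.lf (nat_lit 10108) (nat_lit 6) (nat_lit 133) (nat_lit 5)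 (nat_lit 195) (nat_lit 290) (nat_lit 295)) (PT.lf (nat_lit 10488) (nat_lit 6) (nat_lit 138) (nat_lit 5) (nat_lit 196) (nat_lit 290) (nat_lit 294))) (PT.nd (nat_lit 78) (PT.lf (nat_lit 10944) (nat_lit 6) (nat_lit 144) (nat_lit 5) (nat_lit 197) (nat_lit 290) (nat_lit 293)) (PT.lf (nat_lit 11324) (nat_lit 6) (nat_lit 149) (nat_lit 5) (nat_lit 198) (nat_lit 290) (nat_lit 292)))) (PT.nd (nat_lit 156) (PT.nd (nat_lit 78) (PT.lf (nat_lit 11780) (nat_lit 6) (nat_lit 155) (nat_lit 5) (nat_lit 199) (nat_lit 290) (nat_lit 291)) (PT.lf (nat_lit 12236) (nat_lit 3) (nat_lit 161) (nat_lit 4) (nat_lit 200) (nat_lit 290) (nat_lit 290))) (PT.nd (nat_lit 78) (PT.lf (nat_lit 12616) (nat_lit 6) (nat_lit 166) (nat_lit 4) (nat_lit 201) (nat_lit 290) (nat_lit 289)) (PT.lf (nat_lit 12996) (nat_lit 6) (nat_lit 171) (nat_lit 4) (nat_lit 202) (nat_lit 290) (nat_lit 288)))))) (PT.nd (nat_lit 624) (PT.nd (nat_lit 312) (PT.nd (nat_lit 156) (PT.nd (nat_lit 78) (PT.lf (nat_lit 13376) (nat_lit 6) (nat_lit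 176) (nat_lit 4) (nat_lit 203) (nat_lit 290) (nat_lit 287)) (PT.lf (nat_lit 13756) (nat_lit 6) (nat_lit 181) (nat_lit 4) (nat_lit 204) (nat_lit 290) (nat_lit 286))) (PT.nd (nat_lit 78) (PT.lf (nat_lit 14212) (nat_lit 6) (nat_lit 187) (nat_lit 4) (nat_lit 205) (nat_lit 290) (nat_lit 285)) (PT.lf (nat_lit 14592) (nat_lit 6) (nat_lit 192) (nat_lit 4) (nat_lit 206) (nat_lit 290) (nat_lit 284)))) (PT.nd (nat_lit 156) (PT.nd (nat_lit 78) (PT.lf (nat_lit 15048) (nat_lit 6) (nat_lit 198) (nat_lit 4) (nat_lit 207) (nat_lit 290) (nat_lit 283)) (PT.lf (nat_lit 15504) (nat_lit 6) (nat_lit 204) (nat_lit 4) (nat_lit 208) (nat_lit 290) (nat_lit 282))) (PT.nd (nat_lit 78) (PT.lf (nat_lit 15960) (nat_lit 6) (nat_lit 210) (nat_lit 4) (nat_lit 209) (nat_lit 290) (nat_lit 281)) (PT.lf (nat_lit 16416) (nat_lit 6) (nat_lit 216) (nat_lit 4) (nat_lit 210) (nat_lit 290) (nat_lit 280))))) (PT.nd (nat_lit 5070) (PT.nd (nat_lit 156) (PT.nd (nat_lit 78) (PT.lf (nat_lit 16948) (nat_lit 6) (nat_lit 223)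 (nat_lit 4) (nat_lit 211) (nat_lit 290) (nat_lit 279)) (PT.lf (nat_lit 17404) (nat_lit 6) (nat_lit 229) (nat_lit 4) (nat_lit 212) (nat_lit 290) (nat_lit 278))) (PT.nd (nat_lit 78) (PT.lf (nat_lit 17936) (nat_lit 6) (nat_lit 236) (nat_lit 4) (nat_lit 213) (nat_lit 290) (nat_lit 277)) (PT.lf (nat_lit 18468) (nat_lit 6) (nat_lit 243) (nat_lit 4) (nat_lit 214) (nat_lit 290) (nat_lit 276)))) (PT.nd (nat_lit 156) (PT.nd (nat_lit 78) (PT.lf (nat_lit 18468) (nat_lit 6) (nat_lit 243) (nat_lit 2) (nat_lit 276) (nat_lit 290) (nat_lit 214)) (PT.lf (nat_lit 17936) (nat_lit 6) (nat_lit 236) (nat_lit 2) (nat_lit 277) (nat_lit 290) (nat_lit 213))) (PT.nd (nat_lit 78) (PT.lf (nat_lit 17404) (nat_lit 6) (nat_lit 229) (nat_lit 2) (nat_lit 278) (nat_lit 290) (nat_lit 212)) (PT.lf (nat_lit 16948) (nat_lit 6) (nat_lit 223) (nat_lit 2) (nat_lit 279) (nat_lit 290) (nat_lit 211))))))))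
noncomputable def pc59 : PT := (PT.nd (nat_lit 75426) (PT.nd (nat_lit 1170) (PT.nd (nat_lit 546) (PT.nd (nat_lit 234) (PT.nd (nat_lit 78) (PT.lf (nat_lit 16416) (nat_lit 6) (nat_lit 216) (nat_lit 2) (nat_lit 280) (nat_lit 290) (nat_lit 210)) (PT.nd (nat_lit 78) (PT.lf (nat_lit 15960) (nat_lit 6) (nat_lit 210) (nat_lit 2) (nat_lit 281) (nat_lit 290) (nat_lit 209)) (PT.lf (nat_lit 15504) (nat_lit 6) (nat_lit 204) (nat_lit 2) (nat_lit 282) (nat_lit 290) (nat_lit 208)))) (PT.nd (nat_lit 156) (PT.nd (nat_lit 78) (PT.lf (nat_lit 15048) (nat_lit 6) (nat_lit 198) (nat_lit 2) (nat_lit 283) (nat_lit 290) (nat_lit 207)) (PT.lf (nat_lit 14592) (nat_lit 6) (nat_lit 192) (nat_lit 2) (nat_lit 284) (nat_lit 290) (nat_lit 206))) (PT.nd (nat_lit 78) (PT.lf (nat_lit 14212) (nat_lit 6) (nat_lit 187) (nat_lit 2) (nat_lit 285) (nat_lit 290) (nat_lit 205)) (PT.lf (nat_lit 13756) (nat_lit 6) (nat_lit 181) (nat_lit 2) (nat_lit 286) (nat_lit 290) (nat_lit 204))))) (PT.nd (nat_lit 312) (PT.nd (nat_lit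 156) (PT.nd (nat_lit 78) (PT.lf (nat_lit 13376) (nat_lit 6) (nat_lit 176) (nat_lit 2) (nat_lit 287) (nat_lit 290) (nat_lit 203)) (PT.lf (nat_lit 12996) (nat_lit 6) (nat_lit 171) (nat_lit 2) (nat_lit 288) (nat_lit 290) (nat_lit 202))) (PT.nd (nat_lit 78) (PT.lf (nat_lit 12616) (nat_lit 6) (nat_lit 166) (nat_lit 2) (nat_lit 289) (nat_lit 290) (nat_lit 201)) (PT.lf (nat_lit 12236) (nat_lit 3) (nat_lit 161) (nat_lit 0) (nat_lit 290) (nat_lit 290) (nat_lit 200)))) (PT.nd (nat_lit 156) (PT.nd (nat_lit 78) (PT.lf (nat_lit 11780) (nat_lit 6) (nat_lit 155) (nat_lit 0) (nat_lit 291) (nat_lit 290) (nat_lit 199)) (PT.lf (nat_lit 11324) (nat_lit 6) (nat_lit 149) (nat_lit 0) (nat_lit 292) (nat_lit 290) (nat_lit 198))) (PT.nd (nat_lit 78) (PT.lf (nat_lit 10944) (nat_lit 6) (nat_lit 144) (nat_lit 0) (nat_lit 293) (nat_lit 290) (nat_lit 197)) (PT.lf (nat_lit 10488) (nat_lit 6) (nat_lit 138) (nat_lit 0) (nat_lit 294) (nat_lit 290) (nat_lit 196)))))) (PT.nd (nat_lit 73632) (PT.nd (nat_lit 73320)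 (PT.nd (nat_lit 73164) (PT.nd (nat_lit 78) (PT.lf (nat_lit 10108) (nat_lit 6) (nat_lit 133) (nat_lit 0) (nat_lit 295) (nat_lit 290) (nat_lit 195)) (PT.lf (nat_lit 9728) (nat_lit 6) (nat_lit 128) (nat_lit 0) (nat_lit 296) (nat_lit 290) (nat_lit 194))) (PT.nd (nat_lit 78) (PT.lf (nat_lit 9044) (nat_lit 6) (nat_lit 119) (nat_lit 5) (nat_lit 192) (nat_lit 291) (nat_lit 297)) (PT.lf (nat_lit 9424) (nat_lit 6) (nat_lit 124) (nat_lit 5) (nat_lit 193) (nat_lit 291) (nat_lit 296)))) (PT.nd (nat_lit 156) (PT.nd (nat_lit 78) (PT.lf (nat_lit 9804) (nat_lit 6) (nat_lit 129) (nat_lit 5) (nat_lit 194) (nat_lit 291) (nat_lit 295)) (PT.lf (nat_lit 10184) (nat_lit 6) (nat_lit 134) (nat_lit 5) (nat_lit 195) (nat_lit 291) (nat_lit 294))) (PT.nd (nat_lit 78) (PT.lf (nat_lit 10564) (nat_lit 6) (nat_lit 139) (nat_lit 5) (nat_lit 196) (nat_lit 291) (nat_lit 293)) (PT.lf (nat_lit 11020) (nat_lit 6) (nat_lit 145) (nat_lit 5) (nat_lit 197) (nat_lit 291) (nat_lit 292))))) (PT.nd (nat_lit 312) (PT.nd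 (nat_lit 156) (PT.nd (nat_lit 78) (PT.lf (nat_lit 11400) (nat_lit 3) (nat_lit 150) (nat_lit 4) (nat_lit 198) (nat_lit 291) (nat_lit 291)) (PT.lf (nat_lit 11780) (nat_lit 6) (nat_lit 155) (nat_lit 4) (nat_lit 199) (nat_lit 291) (nat_lit 290))) (PT.nd (nat_lit 78) (PT.lf (nat_lit 12160) (nat_lit 6) (nat_lit 160) (nat_lit 4) (nat_lit 200) (nat_lit 291) (nat_lit 289)) (PT.lf (nat_lit 12540) (nat_lit 6) (nat_lit 165) (nat_lit 4) (nat_lit 201) (nat_lit 291) (nat_lit 288)))) (PT.nd (nat_lit 156) (PT.nd (nat_lit 78) (PT.lf (nat_lit 12920) (nat_lit 6) (nat_lit 170) (nat_lit 4) (nat_lit 202) (nat_lit 291) (nat_lit 287)) (PT.lf (nat_lit 13300) (nat_lit 6) (nat_lit 175) (nat_lit 4) (nat_lit 203) (nat_lit 291) (nat_lit 286))) (PT.nd (nat_lit 78) (PT.lf (nat_lit 13680) (nat_lit 6) (nat_lit 180) (nat_lit 4) (nat_lit 204) (nat_lit 291) (nat_lit 285)) (PT.lf (nat_lit 14136) (nat_lit 6) (nat_lit 186) (nat_lit 4) (nat_lit 205) (nat_lit 291) (nat_lit 284))))))) (PT.nd (nat_lit 6318) (PT.nd (nat_lit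 5694) (PT.nd (nat_lit 234) (PT.nd (nat_lit 78) (PT.lf (nat_lit 14516) (nat_lit 6) (nat_lit 191) (nat_lit 4) (nat_lit 206) (nat_lit 291) (nat_lit 283)) (PT.nd (nat_lit 78) (PT.lf (nat_lit 14972) (nat_lit 6) (nat_lit 197) (nat_lit 4) (nat_lit 207) (nat_lit 291) (nat_lit 282)) (PT.lf (nat_lit 15428) (nat_lit 6) (nat_lit 203) (nat_lit 4) (nat_lit 208) (nat_lit 291) (nat_lit 281)))) (PT.nd (nat_lit 156) (PT.nd (nat_lit 78) (PT.lf (nat_lit 15884) (nat_lit 6) (nat_lit 209) (nat_lit 4) (nat_lit 209) (nat_lit 291) (nat_lit 280)) (PT.lf (nat_lit 16340) (nat_lit 6) (nat_lit 215) (nat_lit 4) (nat_lit 210) (nat_lit 291) (nat_lit 279))) (PT.nd (nat_lit 5226) (PT.lf (nat_lit 16872) (nat_lit 6) (nat_lit 222) (nat_lit 4) (nat_lit 211) (nat_lit 291) (nat_lit 278)) (PT.lf (nat_lit 16872) (nat_lit 6) (nat_lit 222) (nat_lit 2) (nat_lit 278) (nat_lit 291) (nat_lit 211))))) (PT.nd (nat_lit 312) (PT.nd (nat_lit 156) (PT.nd (nat_lit 78) (PT.lf (nat_lit 16340) (nat_lit 6) (nat_lit 215) (nat_lit 2)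 (nat_lit 279) (nat_lit 291) (nat_lit 210)) (PT.lf (nat_lit 15884) (nat_lit 6) (nat_lit 209) (nat_lit 2) (nat_lit 280) (nat_lit 291) (nat_lit 209))) (PT.nd (nat_lit 78) (PT.lf (nat_lit 15428) (nat_lit 6) (nat_lit 203) (nat_lit 2) (nat_lit 281) (nat_lit 291) (nat_lit 208)) (PT.lf (nat_lit 14972) (nat_lit 6) (nat_lit 197) (nat_lit 2) (nat_lit 282) (nat_lit 291) (nat_lit 207)))) (PT.nd (nat_lit 156) (PT.nd (nat_lit 78) (PT.lf (nat_lit 14516) (nat_lit 6) (nat_lit 191) (nat_lit 2) (nat_lit 283) (nat_lit 291) (nat_lit 206)) (PT.lf (nat_lit 14136) (nat_lit 6) (nat_lit 186) (nat_lit 2) (nat_lit 284) (nat_lit 291) (nat_lit 205))) (PT.nd (nat_lit 78) (PT.lf (nat_lit 13680) (nat_lit 6) (nat_lit 180) (nat_lit 2) (nat_lit 285) (nat_lit 291) (nat_lit 204)) (PT.lf (nat_lit 13300) (nat_lit 6) (nat_lit 175) (nat_lit 2) (nat_lit 286) (nat_lit 291) (nat_lit 203)))))) (PT.nd (nat_lit 624) (PT.nd (nat_lit 312) (PT.nd (nat_lit 156) (PT.nd (nat_lit 78) (PT.lf (nat_lit 12920) (nat_lit 6) (nat_lit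 170) (nat_lit 2) (nat_lit 287) (nat_lit 291) (nat_lit 202)) (PT.lf (nat_lit 12540) (nat_lit 6) (nat_lit 165) (nat_lit 2) (nat_lit 288) (nat_lit 291) (nat_lit 201))) (PT.nd (nat_lit 78) (PT.lf (nat_lit 12160) (nat_lit 6) (nat_lit 160) (nat_lit 2) (nat_lit 289) (nat_lit 291) (nat_lit 200)) (PT.lf (nat_lit 11780) (nat_lit 6) (nat_lit 155) (nat_lit 2) (nat_lit 290) (nat_lit 291) (nat_lit 199)))) (PT.nd (nat_lit 156) (PT.nd (nat_lit 78) (PT.lf (nat_lit 11400) (nat_lit 3) (nat_lit 150) (nat_lit 0) (nat_lit 291) (nat_lit 291) (nat_lit 198)) (PT.lf (nat_lit 11020) (nat_lit 6) (nat_lit 145) (nat_lit 0) (nat_lit 292) (nat_lit 291) (nat_lit 197))) (PT.nd (nat_lit 78) (PT.lf (nat_lit 10564) (nat_lit 6) (nat_lit 139) (nat_lit 0) (nat_lit 293) (nat_lit 291) (nat_lit 196)) (PT.lf (nat_lit 10184) (nat_lit 6) (nat_lit 134) (nat_lit 0) (nat_lit 294) (nat_lit 291) (nat_lit 195))))) (PT.nd (nat_lit 73164) (PT.nd (nat_lit 156) (PT.nd (nat_lit 78) (PT.lf (nat_lit 9804) (nat_lit 6) (nat_lit 129)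 (nat_lit 0) (nat_lit 295) (nat_lit 291) (nat_lit 194)) (PT.lf (nat_lit 9424) (nat_lit 6) (nat_lit 124) (nat_lit 0) (nat_lit 296) (nat_lit 291) (nat_lit 193))) (PT.nd (nat_lit 72930) (PT.lf (nat_lit 9044) (nat_lit 6) (nat_lit 119) (nat_lit 0) (nat_lit 297) (nat_lit 291) (nat_lit 192)) (PT.lf (nat_lit 8740) (nat_lit 6) (nat_lit 115) (nat_lit 5) (nat_lit 191) (nat_lit 292) (nat_lit 297)))) (PT.nd (nat_lit 156) (PT.nd (nat_lit 78) (PT.lf (nat_lit 9120) (nat_lit 6) (nat_lit 120) (nat_lit 5) (nat_lit 192) (nat_lit 292) (nat_lit 296)) (PT.lf (nat_lit 9500) (nat_lit 6) (nat_lit 125) (nat_lit 5) (nat_lit 193) (nat_lit 292) (nat_lit 295))) (PT.nd (nat_lit 78) (PT.lf (nat_lit 9880) (nat_lit 6) (nat_lit 130) (nat_lit 5) (nat_lit 194) (nat_lit 292) (nat_lit 294)) (PT.lf (nat_lit 10260) (nat_lit 6) (nat_lit 135) (nat_lit 5) (nat_lit 195) (nat_lit 292) (nat_lit 293))))))))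
noncomputable def pc60 : PT := (PT.nd (nat_lit 80652) (PT.nd (nat_lit 6708) (PT.nd (nat_lit 546) (PT.nd (nat_lit 234) (PT.nd (nat_lit 78) (PT.lf (nat_lit 10640) (nat_lit 3) (nat_lit 140) (nat_lit 4) (nat_lit 196) (nat_lit 292) (nat_lit 292)) (PT.nd (nat_lit 78) (PT.lf (nat_lit 11020) (nat_lit 6) (nat_lit 145) (nat_lit 4) (nat_lit 197) (nat_lit 292) (nat_lit 291)) (PT.lf (nat_lit 11324) (nat_lit 6) (nat_lit 149) (nat_lit 4) (nat_lit 198) (nat_lit 292) (nat_lit 290)))) (PT.nd (nat_lit 156) (PT.nd (nat_lit 78) (PT.lf (nat_lit 11704) (nat_lit 6) (nat_lit 154) (nat_lit 4) (nat_lit 199) (nat_lit 292) (nat_lit 289)) (PT.lf (nat_lit 12084) (nat_lit 6) (nat_lit 159) (nat_lit 4) (nat_lit 200) (nat_lit 292) (nat_lit 288))) (PT.nd (nat_lit 78) (PT.lf (nat_lit 12464) (nat_lit 6) (nat_lit 164) (nat_lit 4) (nat_lit 201) (nat_lit 292) (nat_lit 287)) (PT.lf (nat_lit 12844) (nat_lit 6) (nat_lit 169) (nat_lit 4) (nat_lit 202) (nat_lit 292) (nat_lit 286))))) (PT.nd (nat_lit 312) (PT.nd (nat_lit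 156) (PT.nd (nat_lit 78) (PT.lf (nat_lit 13224) (nat_lit 6) (nat_lit 174) (nat_lit 4) (nat_lit 203) (nat_lit 292) (nat_lit 285)) (PT.lf (nat_lit 13604) (nat_lit 6) (nat_lit 179) (nat_lit 4) (nat_lit 204) (nat_lit 292) (nat_lit 284))) (PT.nd (nat_lit 78) (PT.lf (nat_lit 14060) (nat_lit 6) (nat_lit 185) (nat_lit 4) (nat_lit 205) (nat_lit 292) (nat_lit 283)) (PT.lf (nat_lit 14440) (nat_lit 6) (nat_lit 190) (nat_lit 4) (nat_lit 206) (nat_lit 292) (nat_lit 282)))) (PT.nd (nat_lit 5694) (PT.nd (nat_lit 78) (PT.lf (nat_lit 14896) (nat_lit 6) (nat_lit 196) (nat_lit 4) (nat_lit 207) (nat_lit 292) (nat_lit 281)) (PT.lf (nat_lit 15352) (nat_lit 6) (nat_lit 202) (nat_lit 4) (nat_lit 208) (nat_lit 292) (nat_lit 280))) (PT.nd (nat_lit 78) (PT.lf (nat_lit 15352) (nat_lit 6) (nat_lit 202) (nat_lit 2) (nat_lit 280) (nat_lit 292) (nat_lit 208)) (PT.lf (nat_lit 14896) (nat_lit 6) (nat_lit 196) (nat_lit 2) (nat_lit 281) (nat_lit 292) (nat_lit 207)))))) (PT.nd (nat_lit 624) (PT.nd (nat_lit 312)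 (PT.nd (nat_lit 156) (PT.nd (nat_lit 78) (PT.lf (nat_lit 14440) (nat_lit 6) (nat_lit 190) (nat_lit 2) (nat_lit 282) (nat_lit 292) (nat_lit 206)) (PT.lf (nat_lit 14060) (nat_lit 6) (nat_lit 185) (nat_lit 2) (nat_lit 283) (nat_lit 292) (nat_lit 205))) (PT.nd (nat_lit 78) (PT.lf (nat_lit 13604) (nat_lit 6) (nat_lit 179) (nat_lit 2) (nat_lit 284) (nat_lit 292) (nat_lit 204)) (PT.lf (nat_lit 13224) (nat_lit 6) (nat_lit 174) (nat_lit 2) (nat_lit 285) (nat_lit 292) (nat_lit 203)))) (PT.nd (nat_lit 156) (PT.nd (nat_lit 78) (PT.lf (nat_lit 12844) (nat_lit 6) (nat_lit 169) (nat_lit 2) (nat_lit 286) (nat_lit 292) (nat_lit 202)) (PT.lf (nat_lit 12464) (nat_lit 6) (nat_lit 164) (nat_lit 2) (nat_lit 287) (nat_lit 292) (nat_lit 201))) (PT.nd (nat_lit 78) (PT.lf (nat_lit 12084) (nat_lit 6) (nat_lit 159) (nat_lit 2) (nat_lit 288) (nat_lit 292) (nat_lit 200)) (PT.lf (nat_lit 11704) (nat_lit 6) (nat_lit 154) (nat_lit 2) (nat_lit 289) (nat_lit 292) (nat_lit 199))))) (PT.nd (nat_lit 312) (PT.nd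 (nat_lit 156) (PT.nd (nat_lit 78) (PT.lf (nat_lit 11324) (nat_lit 6) (nat_lit 149) (nat_lit 2) (nat_lit 290) (nat_lit 292) (nat_lit 198)) (PT.lf (nat_lit 11020) (nat_lit 6) (nat_lit 145) (nat_lit 2) (nat_lit 291) (nat_lit 292) (nat_lit 197))) (PT.nd (nat_lit 78) (PT.lf (nat_lit 10640) (nat_lit 3) (nat_lit 140) (nat_lit 0) (nat_lit 292) (nat_lit 292) (nat_lit 196)) (PT.lf (nat_lit 10260) (nat_lit 6) (nat_lit 135) (nat_lit 0) (nat_lit 293) (nat_lit 292) (nat_lit 195)))) (PT.nd (nat_lit 156) (PT.nd (nat_lit 78) (PT.lf (nat_lit 9880) (nat_lit 6) (nat_lit 130) (nat_lit 0) (nat_lit 294) (nat_lit 292) (nat_lit 194)) (PT.lf (nat_lit 9500) (nat_lit 6) (nat_lit 125) (nat_lit 0) (nat_lit 295) (nat_lit 292) (nat_lit 193))) (PT.nd (nat_lit 78) (PT.lf (nat_lit 9120) (nat_lit 6) (nat_lit 120) (nat_lit 0) (nat_lit 296) (nat_lit 292) (nat_lit 192)) (PT.lf (nat_lit 8740) (nat_lit 6) (nat_lit 115) (nat_lit 0) (nat_lit 297) (nat_lit 292) (nat_lit 191))))))) (PT.nd (nat_lit 1170) (PT.nd (nat_lit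 546) (PT.nd (nat_lit 234) (PT.nd (nat_lit 78) (PT.lf (nat_lit 8132) (nat_lit 6) (nat_lit 107) (nat_lit 5) (nat_lit 189) (nat_lit 293) (nat_lit 298)) (PT.nd (nat_lit 78) (PT.lf (nat_lit 8436) (nat_lit 6) (nat_lit 111) (nat_lit 5) (nat_lit 190) (nat_lit 293) (nat_lit 297)) (PT.lf (nat_lit 8816) (nat_lit 6) (nat_lit 116) (nat_lit 5) (nat_lit 191) (nat_lit 293) (nat_lit 296)))) (PT.nd (nat_lit 156) (PT.nd (nat_lit 78) (PT.lf (nat_lit 9196) (nat_lit 6) (nat_lit 121) (nat_lit 5) (nat_lit 192) (nat_lit 293) (nat_lit 295)) (PT.lf (nat_lit 9576) (nat_lit 6) (nat_lit 126) (nat_lit 5) (nat_lit 193) (nat_lit 293) (nat_lit 294))) (PT.nd (nat_lit 78) (PT.lf (nat_lit 9956) (nat_lit 3) (nat_lit 131) (nat_lit 4) (nat_lit 194) (nat_lit 293) (nat_lit 293)) (PT.lf (nat_lit 10260) (nat_lit 6) (nat_lit 135) (nat_lit 4) (nat_lit 195) (nat_lit 293) (nat_lit 292))))) (PT.nd (nat_lit 312) (PT.nd (nat_lit 156) (PT.nd (nat_lit 78) (PT.lf (nat_lit 10564) (nat_lit 6) (nat_lit 139) (nat_lit 4) (nat_lit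 196) (nat_lit 293) (nat_lit 291)) (PT.lf (nat_lit 10944) (nat_lit 6) (nat_lit 144) (nat_lit 4) (nat_lit 197) (nat_lit 293) (nat_lit 290))) (PT.nd (nat_lit 78) (PT.lf (nat_lit 11248) (nat_lit 6) (nat_lit 148) (nat_lit 4) (nat_lit 198) (nat_lit 293) (nat_lit 289)) (PT.lf (nat_lit 11628) (nat_lit 6) (nat_lit 153) (nat_lit 4) (nat_lit 199) (nat_lit 293) (nat_lit 288)))) (PT.nd (nat_lit 156) (PT.nd (nat_lit 78) (PT.lf (nat_lit 12008) (nat_lit 6) (nat_lit 158) (nat_lit 4) (nat_lit 200) (nat_lit 293) (nat_lit 287)) (PT.lf (nat_lit 12388) (nat_lit 6) (nat_lit 163) (nat_lit 4) (nat_lit 201) (nat_lit 293) (nat_lit 286))) (PT.nd (nat_lit 78) (PT.lf (nat_lit 12768) (nat_lit 6) (nat_lit 168) (nat_lit 4) (nat_lit 202) (nat_lit 293) (nat_lit 285)) (PT.lf (nat_lit 13148) (nat_lit 6) (nat_lit 173) (nat_lit 4) (nat_lit 203) (nat_lit 293) (nat_lit 284)))))) (PT.nd (nat_lit 6552) (PT.nd (nat_lit 6240) (PT.nd (nat_lit 6084) (PT.nd (nat_lit 78) (PT.lf (nat_lit 13528) (nat_lit 6) (nat_lit 178) (nat_lit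 4) (nat_lit 204) (nat_lit 293) (nat_lit 283)) (PT.lf (nat_lit 13984) (nat_lit 6) (nat_lit 184) (nat_lit 4) (nat_lit 205) (nat_lit 293) (nat_lit 282))) (PT.nd (nat_lit 78) (PT.lf (nat_lit 13984) (nat_lit 6) (nat_lit 184) (nat_lit 2) (nat_lit 282) (nat_lit 293) (nat_lit 205)) (PT.lf (nat_lit 13528) (nat_lit 6) (nat_lit 178) (nat_lit 2) (nat_lit 283) (nat_lit 293) (nat_lit 204)))) (PT.nd (nat_lit 156) (PT.nd (nat_lit 78) (PT.lf (nat_lit 13148) (nat_lit 6) (nat_lit 173) (nat_lit 2) (nat_lit 284) (nat_lit 293) (nat_lit 203)) (PT.lf (nat_lit 12768) (nat_lit 6) (nat_lit 168) (nat_lit 2) (nat_lit 285) (nat_lit 293) (nat_lit 202))) (PT.nd (nat_lit 78) (PT.lf (nat_lit 12388) (nat_lit 6) (nat_lit 163) (nat_lit 2) (nat_lit 286) (nat_lit 293) (nat_lit 201)) (PT.lf (nat_lit 12008) (nat_lit 6) (nat_lit 158) (nat_lit 2) (nat_lit 287) (nat_lit 293) (nat_lit 200))))) (PT.nd (nat_lit 312) (PT.nd (nat_lit 156) (PT.nd (nat_lit 78) (PT.lf (nat_lit 11628) (nat_lit 6) (nat_lit 153) (nat_lit 2) (nat_lit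 288) (nat_lit 293) (nat_lit 199)) (PT.lf (nat_lit 11248) (nat_lit 6) (nat_lit 148) (nat_lit 2) (nat_lit 289) (nat_lit 293) (nat_lit 198))) (PT.nd (nat_lit 78) (PT.lf (nat_lit 10944) (nat_lit 6) (nat_lit 144) (nat_lit 2) (nat_lit 290) (nat_lit 293) (nat_lit 197)) (PT.lf (nat_lit 10564) (nat_lit 6) (nat_lit 139) (nat_lit 2) (nat_lit 291) (nat_lit 293) (nat_lit 196)))) (PT.nd (nat_lit 156) (PT.nd (nat_lit 78) (PT.lf (nat_lit 10260) (nat_lit 6) (nat_lit 135) (nat_lit 2) (nat_lit 292) (nat_lit 293) (nat_lit 195)) (PT.lf (nat_lit 9956) (nat_lit 3) (nat_lit 131) (nat_lit 0) (nat_lit 293) (nat_lit 293) (nat_lit 194))) (PT.nd (nat_lit 78) (PT.lf (nat_lit 9576) (nat_lit 6) (nat_lit 126) (nat_lit 0) (nat_lit 294) (nat_lit 293) (nat_lit 193)) (PT.lf (nat_lit 9196) (nat_lit 6) (nat_lit 121) (nat_lit 0) (nat_lit 295) (nat_lit 293) (nat_lit 192))))))))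
noncomputable def pc61 : PT := (PT.nd (nat_lit 81198) (PT.nd (nat_lit 73632) (PT.nd (nat_lit 73008) (PT.nd (nat_lit 72696) (PT.nd (nat_lit 78) (PT.lf (nat_lit 8816) (nat_lit 6) (nat_lit 116) (nat_lit 0) (nat_lit 296) (nat_lit 293) (nat_lit 191)) (PT.nd (nat_lit 78) (PT.lf (nat_lit 8436) (nat_lit 6) (nat_lit 111) (nat_lit 0) (nat_lit 297) (nat_lit 293) (nat_lit 190)) (PT.lf (nat_lit 8132) (nat_lit 6) (nat_lit 107) (nat_lit 0) (nat_lit 298) (nat_lit 293) (nat_lit 189)))) (PT.nd (nat_lit 156) (PT.nd (nat_lit 78) (PT.lf (nat_lit 7524) (nat_lit 6) (nat_lit 99) (nat_lit 5) (nat_lit 187) (nat_lit 294) (nat_lit 299)) (PT.lf (nat_lit 7828) (nat_lit 6) (nat_lit 103) (nat_lit 5) (nat_lit 188) (nat_lit 294) (nat_lit 298))) (PT.nd (nat_lit 78) (PT.lf (nat_lit 8208) (nat_lit 6) (nat_lit 108) (nat_lit 5) (nat_lit 189) (nat_lit 294) (nat_lit 297)) (PT.lf (nat_lit 8512) (nat_lit 6) (nat_lit 112) (nat_lit 5) (nat_lit 190) (nat_lit 294) (nat_lit 296))))) (PT.nd (nat_lit 312) (PT.nd (nat_lit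 156) (PT.nd (nat_lit 78) (PT.lf (nat_lit 8892) (nat_lit 6) (nat_lit 117) (nat_lit 5) (nat_lit 191) (nat_lit 294) (nat_lit 295)) (PT.lf (nat_lit 9272) (nat_lit 3) (nat_lit 122) (nat_lit 4) (nat_lit 192) (nat_lit 294) (nat_lit 294))) (PT.nd (nat_lit 78) (PT.lf (nat_lit 9576) (nat_lit 6) (nat_lit 126) (nat_lit 4) (nat_lit 193) (nat_lit 294) (nat_lit 293)) (PT.lf (nat_lit 9880) (nat_lit 6) (nat_lit 130) (nat_lit 4) (nat_lit 194) (nat_lit 294) (nat_lit 292)))) (PT.nd (nat_lit 156) (PT.nd (nat_lit 78) (PT.lf (nat_lit 10184) (nat_lit 6) (nat_lit 134) (nat_lit 4) (nat_lit 195) (nat_lit 294) (nat_lit 291)) (PT.lf (nat_lit 10488) (nat_lit 6) (nat_lit 138) (nat_lit 4) (nat_lit 196) (nat_lit 294) (nat_lit 290))) (PT.nd (nat_lit 78) (PT.lf (nat_lit 10868) (nat_lit 6) (nat_lit 143) (nat_lit 4) (nat_lit 197) (nat_lit 294) (nat_lit 289)) (PT.lf (nat_lit 11172) (nat_lit 6) (nat_lit 147) (nat_lit 4) (nat_lit 198) (nat_lit 294) (nat_lit 288)))))) (PT.nd (nat_lit 6942) (PT.nd (nat_lit 6630) (PT.nd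 (nat_lit 156) (PT.nd (nat_lit 78) (PT.lf (nat_lit 11552) (nat_lit 6) (nat_lit 152) (nat_lit 4) (nat_lit 199) (nat_lit 294) (nat_lit 287)) (PT.lf (nat_lit 11932) (nat_lit 6) (nat_lit 157) (nat_lit 4) (nat_lit 200) (nat_lit 294) (nat_lit 286))) (PT.nd (nat_lit 78) (PT.lf (nat_lit 12312) (nat_lit 6) (nat_lit 162) (nat_lit 4) (nat_lit 201) (nat_lit 294) (nat_lit 285)) (PT.lf (nat_lit 12692) (nat_lit 6) (nat_lit 167) (nat_lit 4) (nat_lit 202) (nat_lit 294) (nat_lit 284)))) (PT.nd (nat_lit 156) (PT.nd (nat_lit 78) (PT.lf (nat_lit 12692) (nat_lit 6) (nat_lit 167) (nat_lit 2) (nat_lit 284) (nat_lit 294) (nat_lit 202)) (PT.lf (nat_lit 12312) (nat_lit 6) (nat_lit 162) (nat_lit 2) (nat_lit 285) (nat_lit 294) (nat_lit 201))) (PT.nd (nat_lit 78) (PT.lf (nat_lit 11932) (nat_lit 6) (nat_lit 157) (nat_lit 2) (nat_lit 286) (nat_lit 294) (nat_lit 200)) (PT.lf (nat_lit 11552) (nat_lit 6) (nat_lit 152) (nat_lit 2) (nat_lit 287) (nat_lit 294) (nat_lit 199))))) (PT.nd (nat_lit 312) (PT.nd (nat_lit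 156) (PT.nd (nat_lit 78) (PT.lf (nat_lit 11172) (nat_lit 6) (nat_lit 147) (nat_lit 2) (nat_lit 288) (nat_lit 294) (nat_lit 198)) (PT.lf (nat_lit 10868) (nat_lit 6) (nat_lit 143) (nat_lit 2) (nat_lit 289) (nat_lit 294) (nat_lit 197))) (PT.nd (nat_lit 78) (PT.lf (nat_lit 10488) (nat_lit 6) (nat_lit 138) (nat_lit 2) (nat_lit 290) (nat_lit 294) (nat_lit 196)) (PT.lf (nat_lit 10184) (nat_lit 6) (nat_lit 134) (nat_lit 2) (nat_lit 291) (nat_lit 294) (nat_lit 195)))) (PT.nd (nat_lit 156) (PT.nd (nat_lit 78) (PT.lf (nat_lit 9880) (nat_lit 6) (nat_lit 130) (nat_lit 2) (nat_lit 292) (nat_lit 294) (nat_lit 194)) (PT.lf (nat_lit 9576) (nat_lit 6) (nat_lit 126) (nat_lit 2) (nat_lit 293) (nat_lit 294) (nat_lit 193))) (PT.nd (nat_lit 78) (PT.lf (nat_lit 9272) (nat_lit 3) (nat_lit 122) (nat_lit 0) (nat_lit 294) (nat_lit 294) (nat_lit 192)) (PT.lf (nat_lit 8892) (nat_lit 6) (nat_lit 117) (nat_lit 0) (nat_lit 295) (nat_lit 294) (nat_lit 191))))))) (PT.nd (nat_lit 73476) (PT.nd (nat_lit 72852)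 (PT.nd (nat_lit 234) (PT.nd (nat_lit 78) (PT.lf (nat_lit 8512) (nat_lit 6) (nat_lit 112) (nat_lit 0) (nat_lit 296) (nat_lit 294) (nat_lit 190)) (PT.nd (nat_lit 78) (PT.lf (nat_lit 8208) (nat_lit 6) (nat_lit 108) (nat_lit 0) (nat_lit 297) (nat_lit 294) (nat_lit 189)) (PT.lf (nat_lit 7828) (nat_lit 6) (nat_lit 103) (nat_lit 0) (nat_lit 298) (nat_lit 294) (nat_lit 188)))) (PT.nd (nat_lit 72462) (PT.nd (nat_lit 72384) (PT.lf (nat_lit 7524) (nat_lit 6) (nat_lit 99) (nat_lit 0) (nat_lit 299) (nat_lit 294) (nat_lit 187)) (PT.lf (nat_lit 7220) (nat_lit 6) (nat_lit 95) (nat_lit 5) (nat_lit 186) (nat_lit 295) (nat_lit 299))) (PT.nd (nat_lit 78) (PT.lf (nat_lit 7600) (nat_lit 6) (nat_lit 100) (nat_lit 5) (nat_lit 187) (nat_lit 295) (nat_lit 298)) (PT.lf (nat_lit 7904) (nat_lit 6) (nat_lit 104) (nat_lit 5) (nat_lit 188) (nat_lit 295) (nat_lit 297))))) (PT.nd (nat_lit 312) (PT.nd (nat_lit 156) (PT.nd (nat_lit 78) (PT.lf (nat_lit 8284) (nat_lit 6) (nat_lit 109) (nat_lit 5) (nat_lit 189)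 (nat_lit 295) (nat_lit 296)) (PT.lf (nat_lit 8588) (nat_lit 3) (nat_lit 113) (nat_lit 4) (nat_lit 190) (nat_lit 295) (nat_lit 295))) (PT.nd (nat_lit 78) (PT.lf (nat_lit 8892) (nat_lit 6) (nat_lit 117) (nat_lit 4) (nat_lit 191) (nat_lit 295) (nat_lit 294)) (PT.lf (nat_lit 9196) (nat_lit 6) (nat_lit 121) (nat_lit 4) (nat_lit 192) (nat_lit 295) (nat_lit 293)))) (PT.nd (nat_lit 156) (PT.nd (nat_lit 78) (PT.lf (nat_lit 9500) (nat_lit 6) (nat_lit 125) (nat_lit 4) (nat_lit 193) (nat_lit 295) (nat_lit 292)) (PT.lf (nat_lit 9804) (nat_lit 6) (nat_lit 129) (nat_lit 4) (nat_lit 194) (nat_lit 295) (nat_lit 291))) (PT.nd (nat_lit 78) (PT.lf (nat_lit 10108) (nat_lit 6) (nat_lit 133) (nat_lit 4) (nat_lit 195) (nat_lit 295) (nat_lit 290)) (PT.lf (nat_lit 10412) (nat_lit 6) (nat_lit 137) (nat_lit 4) (nat_lit 196) (nat_lit 295) (nat_lit 289)))))) (PT.nd (nat_lit 7332) (PT.nd (nat_lit 7020) (PT.nd (nat_lit 156) (PT.nd (nat_lit 78) (PT.lf (nat_lit 10792) (nat_lit 6) (nat_lit 142) (nat_lit 4)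 (nat_lit 197) (nat_lit 295) (nat_lit 288)) (PT.lf (nat_lit 11096) (nat_lit 6) (nat_lit 146) (nat_lit 4) (nat_lit 198) (nat_lit 295) (nat_lit 287))) (PT.nd (nat_lit 6786) (PT.lf (nat_lit 11476) (nat_lit 6) (nat_lit 151) (nat_lit 4) (nat_lit 199) (nat_lit 295) (nat_lit 286)) (PT.lf (nat_lit 11476) (nat_lit 6) (nat_lit 151) (nat_lit 2) (nat_lit 286) (nat_lit 295) (nat_lit 199)))) (PT.nd (nat_lit 156) (PT.nd (nat_lit 78) (PT.lf (nat_lit 11096) (nat_lit 6) (nat_lit 146) (nat_lit 2) (nat_lit 287) (nat_lit 295) (nat_lit 198)) (PT.lf (nat_lit 10792) (nat_lit 6) (nat_lit 142) (nat_lit 2) (nat_lit 288) (nat_lit 295) (nat_lit 197))) (PT.nd (nat_lit 78) (PT.lf (nat_lit 10412) (nat_lit 6) (nat_lit 137) (nat_lit 2) (nat_lit 289) (nat_lit 295) (nat_lit 196)) (PT.lf (nat_lit 10108) (nat_lit 6) (nat_lit 133) (nat_lit 2) (nat_lit 290) (nat_lit 295) (nat_lit 195))))) (PT.nd (nat_lit 312) (PT.nd (nat_lit 156) (PT.nd (nat_lit 78) (PT.lf (nat_lit 9804) (nat_lit 6) (nat_lit 129) (nat_lit 2) (nat_lit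 291) (nat_lit 295) (nat_lit 194)) (PT.lf (nat_lit 9500) (nat_lit 6) (nat_lit 125) (nat_lit 2) (nat_lit 292) (nat_lit 295) (nat_lit 193))) (PT.nd (nat_lit 78) (PT.lf (nat_lit 9196) (nat_lit 6) (nat_lit 121) (nat_lit 2) (nat_lit 293) (nat_lit 295) (nat_lit 192)) (PT.lf (nat_lit 8892) (nat_lit 6) (nat_lit 117) (nat_lit 2) (nat_lit 294) (nat_lit 295) (nat_lit 191)))) (PT.nd (nat_lit 156) (PT.nd (nat_lit 78) (PT.lf (nat_lit 8588) (nat_lit 3) (nat_lit 113) (nat_lit 0) (nat_lit 295) (nat_lit 295) (nat_lit 190)) (PT.lf (nat_lit 8284) (nat_lit 6) (nat_lit 109) (nat_lit 0) (nat_lit 296) (nat_lit 295) (nat_lit 189))) (PT.nd (nat_lit 78) (PT.lf (nat_lit 7904) (nat_lit 6) (nat_lit 104) (nat_lit 0) (nat_lit 297) (nat_lit 295) (nat_lit 188)) (PT.lf (nat_lit 7600) (nat_lit 6) (nat_lit 100) (nat_lit 0) (nat_lit 298) (nat_lit 295) (nat_lit 187))))))))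
noncomputable def pc62 : PT := (PT.nd (nat_lit 153582) (PT.nd (nat_lit 80418) (PT.nd (nat_lit 72696) (PT.nd (nat_lit 72384) (PT.nd (nat_lit 72228) (PT.lf (nat_lit 7220) (nat_lit 6) (nat_lit 95) (nat_lit 0) (nat_lit 299) (nat_lit 295) (nat_lit 186)) (PT.nd (nat_lit 78) (PT.lf (nat_lit 6688) (nat_lit 6) (nat_lit 88) (nat_lit 5) (nat_lit 184) (nat_lit 296) (nat_lit 300)) (PT.lf (nat_lit 6992) (nat_lit 6) (nat_lit 92) (nat_lit 5) (nat_lit 185) (nat_lit 296) (nat_lit 299)))) (PT.nd (nat_lit 156) (PT.nd (nat_lit 78) (PT.lf (nat_lit 7296) (nat_lit 6) (nat_lit 96) (nat_lit 5) (nat_lit 186) (nat_lit 296) (nat_lit 298)) (PT.lf (nat_lit 7676) (nat_lit 6) (nat_lit 101) (nat_lit 5) (nat_lit 187) (nat_lit 296) (nat_lit 297))) (PT.nd (nat_lit 78) (PT.lf (nat_lit 7980) (nat_lit 3) (nat_lit 105) (nat_lit 4) (nat_lit 188) (nat_lit 296) (nat_lit 296)) (PT.lf (nat_lit 8284) (nat_lit 6) (nat_lit 109) (nat_lit 4) (nat_lit 189) (nat_lit 296) (nat_lit 295))))) (PT.nd (nat_lit 312) (PT.nd (nat_lit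 156) (PT.nd (nat_lit 78) (PT.lf (nat_lit 8512) (nat_lit 6) (nat_lit 112) (nat_lit 4) (nat_lit 190) (nat_lit 296) (nat_lit 294)) (PT.lf (nat_lit 8816) (nat_lit 6) (nat_lit 116) (nat_lit 4) (nat_lit 191) (nat_lit 296) (nat_lit 293))) (PT.nd (nat_lit 78) (PT.lf (nat_lit 9120) (nat_lit 6) (nat_lit 120) (nat_lit 4) (nat_lit 192) (nat_lit 296) (nat_lit 292)) (PT.lf (nat_lit 9424) (nat_lit 6) (nat_lit 124) (nat_lit 4) (nat_lit 193) (nat_lit 296) (nat_lit 291)))) (PT.nd (nat_lit 156) (PT.nd (nat_lit 78) (PT.lf (nat_lit 9728) (nat_lit 6) (nat_lit 128) (nat_lit 4) (nat_lit 194) (nat_lit 296) (nat_lit 290)) (PT.lf (nat_lit 10032) (nat_lit 6) (nat_lit 132) (nat_lit 4) (nat_lit 195) (nat_lit 296) (nat_lit 289))) (PT.nd (nat_lit 7176) (PT.lf (nat_lit 10336) (nat_lit 6) (nat_lit 136) (nat_lit 4) (nat_lit 196) (nat_lit 296) (nat_lit 288)) (PT.lf (nat_lit 10336) (nat_lit 6) (nat_lit 136) (nat_lit 2) (nat_lit 288) (nat_lit 296) (nat_lit 196)))))) (PT.nd (nat_lit 624) (PT.nd (nat_lit 312) (PT.nd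 (nat_lit 156) (PT.nd (nat_lit 78) (PT.lf (nat_lit 10032) (nat_lit 6) (nat_lit 132) (nat_lit 2) (nat_lit 289) (nat_lit 296) (nat_lit 195)) (PT.lf (nat_lit 9728) (nat_lit 6) (nat_lit 128) (nat_lit 2) (nat_lit 290) (nat_lit 296) (nat_lit 194))) (PT.nd (nat_lit 78) (PT.lf (nat_lit 9424) (nat_lit 6) (nat_lit 124) (nat_lit 2) (nat_lit 291) (nat_lit 296) (nat_lit 193)) (PT.lf (nat_lit 9120) (nat_lit 6) (nat_lit 120) (nat_lit 2) (nat_lit 292) (nat_lit 296) (nat_lit 192)))) (PT.nd (nat_lit 156) (PT.nd (nat_lit 78) (PT.lf (nat_lit 8816) (nat_lit 6) (nat_lit 116) (nat_lit 2) (nat_lit 293) (nat_lit 296) (nat_lit 191)) (PT.lf (nat_lit 8512) (nat_lit 6) (nat_lit 112) (nat_lit 2) (nat_lit 294) (nat_lit 296) (nat_lit 190))) (PT.nd (nat_lit 78) (PT.lf (nat_lit 8284) (nat_lit 6) (nat_lit 109) (nat_lit 2) (nat_lit 295) (nat_lit 296) (nat_lit 189)) (PT.lf (nat_lit 7980) (nat_lit 3) (nat_lit 105) (nat_lit 0) (nat_lit 296) (nat_lit 296) (nat_lit 188))))) (PT.nd (nat_lit 72228) (PT.nd (nat_lit 156)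 (PT.nd (nat_lit 78) (PT.lf (nat_lit 7676) (nat_lit 6) (nat_lit 101) (nat_lit 0) (nat_lit 297) (nat_lit 296) (nat_lit 187)) (PT.lf (nat_lit 7296) (nat_lit 6) (nat_lit 96) (nat_lit 0) (nat_lit 298) (nat_lit 296) (nat_lit 186))) (PT.nd (nat_lit 78) (PT.lf (nat_lit 6992) (nat_lit 6) (nat_lit 92) (nat_lit 0) (nat_lit 299) (nat_lit 296) (nat_lit 185)) (PT.lf (nat_lit 6688) (nat_lit 6) (nat_lit 88) (nat_lit 0) (nat_lit 300) (nat_lit 296) (nat_lit 184)))) (PT.nd (nat_lit 156) (PT.nd (nat_lit 78) (PT.lf (nat_lit 6156) (nat_lit 6) (nat_lit 81) (nat_lit 5) (nat_lit 182) (nat_lit 297) (nat_lit 301)) (PT.lf (nat_lit 6460) (nat_lit 6) (nat_lit 85) (nat_lit 5) (nat_lit 183) (nat_lit 297) (nat_lit 300))) (PT.nd (nat_lit 78) (PT.lf (nat_lit 6764) (nat_lit 6) (nat_lit 89) (nat_lit 5) (nat_lit 184) (nat_lit 297) (nat_lit 299)) (PT.lf (nat_lit 7068) (nat_lit 6) (nat_lit 93) (nat_lit 5) (nat_lit 185) (nat_lit 297) (nat_lit 298))))))) (PT.nd (nat_lit 8814) (PT.nd (nat_lit 8190) (PT.nd (nat_lit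 234) (PT.nd (nat_lit 78) (PT.lf (nat_lit 7372) (nat_lit 3) (nat_lit 97) (nat_lit 4) (nat_lit 186) (nat_lit 297) (nat_lit 297)) (PT.nd (nat_lit 78) (PT.lf (nat_lit 7676) (nat_lit 6) (nat_lit 101) (nat_lit 4) (nat_lit 187) (nat_lit 297) (nat_lit 296)) (PT.lf (nat_lit 7904) (nat_lit 6) (nat_lit 104) (nat_lit 4) (nat_lit 188) (nat_lit 297) (nat_lit 295)))) (PT.nd (nat_lit 156) (PT.nd (nat_lit 78) (PT.lf (nat_lit 8208) (nat_lit 6) (nat_lit 108) (nat_lit 4) (nat_lit 189) (nat_lit 297) (nat_lit 294)) (PT.lf (nat_lit 8436) (nat_lit 6) (nat_lit 111) (nat_lit 4) (nat_lit 190) (nat_lit 297) (nat_lit 293))) (PT.nd (nat_lit 78) (PT.lf (nat_lit 8740) (nat_lit 6) (nat_lit 115) (nat_lit 4) (nat_lit 191) (nat_lit 297) (nat_lit 292)) (PT.lf (nat_lit 9044) (nat_lit 6) (nat_lit 119) (nat_lit 4) (nat_lit 192) (nat_lit 297) (nat_lit 291))))) (PT.nd (nat_lit 312) (PT.nd (nat_lit 156) (PT.nd (nat_lit 78) (PT.lf (nat_lit 9044) (nat_lit 6) (nat_lit 119) (nat_lit 2) (nat_lit 291) (nat_lit 297) (nat_lit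 192)) (PT.lf (nat_lit 8740) (nat_lit 6) (nat_lit 115) (nat_lit 2) (nat_lit 292) (nat_lit 297) (nat_lit 191))) (PT.nd (nat_lit 78) (PT.lf (nat_lit 8436) (nat_lit 6) (nat_lit 111) (nat_lit 2) (nat_lit 293) (nat_lit 297) (nat_lit 190)) (PT.lf (nat_lit 8208) (nat_lit 6) (nat_lit 108) (nat_lit 2) (nat_lit 294) (nat_lit 297) (nat_lit 189)))) (PT.nd (nat_lit 156) (PT.nd (nat_lit 78) (PT.lf (nat_lit 7904) (nat_lit 6) (nat_lit 104) (nat_lit 2) (nat_lit 295) (nat_lit 297) (nat_lit 188)) (PT.lf (nat_lit 7676) (nat_lit 6) (nat_lit 101) (nat_lit 2) (nat_lit 296) (nat_lit 297) (nat_lit 187))) (PT.nd (nat_lit 78) (PT.lf (nat_lit 7372) (nat_lit 3) (nat_lit 97) (nat_lit 0) (nat_lit 297) (nat_lit 297) (nat_lit 186)) (PT.lf (nat_lit 7068) (nat_lit 6) (nat_lit 93) (nat_lit 0) (nat_lit 298) (nat_lit 297) (nat_lit 185)))))) (PT.nd (nat_lit 72384) (PT.nd (nat_lit 72072) (PT.nd (nat_lit 156) (PT.nd (nat_lit 78) (PT.lf (nat_lit 6764) (nat_lit 6) (nat_lit 89) (nat_lit 0) (nat_lit 299) (nat_lit 297)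 (nat_lit 184)) (PT.lf (nat_lit 6460) (nat_lit 6) (nat_lit 85) (nat_lit 0) (nat_lit 300) (nat_lit 297) (nat_lit 183))) (PT.nd (nat_lit 71838) (PT.lf (nat_lit 6156) (nat_lit 6) (nat_lit 81) (nat_lit 0) (nat_lit 301) (nat_lit 297) (nat_lit 182)) (PT.lf (nat_lit 5928) (nat_lit 6) (nat_lit 78) (nat_lit 5) (nat_lit 181) (nat_lit 298) (nat_lit 301)))) (PT.nd (nat_lit 156) (PT.nd (nat_lit 78) (PT.lf (nat_lit 6232) (nat_lit 6) (nat_lit 82) (nat_lit 5) (nat_lit 182) (nat_lit 298) (nat_lit 300)) (PT.lf (nat_lit 6536) (nat_lit 6) (nat_lit 86) (nat_lit 5) (nat_lit 183) (nat_lit 298) (nat_lit 299))) (PT.nd (nat_lit 78) (PT.lf (nat_lit 6840) (nat_lit 3) (nat_lit 90) (nat_lit 4) (nat_lit 184) (nat_lit 298) (nat_lit 298)) (PT.lf (nat_lit 7068) (nat_lit 6) (nat_lit 93) (nat_lit 4) (nat_lit 185) (nat_lit 298) (nat_lit 297))))) (PT.nd (nat_lit 8346) (PT.nd (nat_lit 156) (PT.nd (nat_lit 78) (PT.lf (nat_lit 7296) (nat_lit 6) (nat_lit 96) (nat_lit 4) (nat_lit 186) (nat_lit 298) (nat_lit 296)) (PT.lf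 (nat_lit 7600) (nat_lit 6) (nat_lit 100) (nat_lit 4) (nat_lit 187) (nat_lit 298) (nat_lit 295))) (PT.nd (nat_lit 78) (PT.lf (nat_lit 7828) (nat_lit 6) (nat_lit 103) (nat_lit 4) (nat_lit 188) (nat_lit 298) (nat_lit 294)) (PT.lf (nat_lit 8132) (nat_lit 6) (nat_lit 107) (nat_lit 4) (nat_lit 189) (nat_lit 298) (nat_lit 293)))) (PT.nd (nat_lit 156) (PT.nd (nat_lit 78) (PT.lf (nat_lit 8132) (nat_lit 6) (nat_lit 107) (nat_lit 2) (nat_lit 293) (nat_lit 298) (nat_lit 189)) (PT.lf (nat_lit 7828) (nat_lit 6) (nat_lit 103) (nat_lit 2) (nat_lit 294) (nat_lit 298) (nat_lit 188))) (PT.nd (nat_lit 78) (PT.lf (nat_lit 7600) (nat_lit 6) (nat_lit 100) (nat_lit 2) (nat_lit 295) (nat_lit 298) (nat_lit 187)) (PT.lf (nat_lit 7296) (nat_lit 6) (nat_lit 96) (nat_lit 2) (nat_lit 296) (nat_lit 298) (nat_lit 186))))))))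
noncomputable def pc63 : PT := (PT.nd (nat_lit 162396) (PT.nd (nat_lit 81042) (PT.nd (nat_lit 72150) (PT.nd (nat_lit 234) (PT.nd (nat_lit 78) (PT.lf (nat_lit 7068) (nat_lit 6) (nat_lit 93) (nat_lit 2) (nat_lit 297) (nat_lit 298) (nat_lit 185)) (PT.nd (nat_lit 78) (PT.lf (nat_lit 6840) (nat_lit 3) (nat_lit 90) (nat_lit 0) (nat_lit 298) (nat_lit 298) (nat_lit 184)) (PT.lf (nat_lit 6536) (nat_lit 6) (nat_lit 86) (nat_lit 0) (nat_lit 299) (nat_lit 298) (nat_lit 183)))) (PT.nd (nat_lit 71760) (PT.nd (nat_lit 78) (PT.lf (nat_lit 6232) (nat_lit 6) (nat_lit 82) (nat_lit 0) (nat_lit 300) (nat_lit 298) (nat_lit 182)) (PT.lf (nat_lit 5928) (nat_lit 6) (nat_lit 78) (nat_lit 0) (nat_lit 301) (nat_lit 298) (nat_lit 181))) (PT.nd (nat_lit 78) (PT.lf (nat_lit 5396) (nat_lit 6) (nat_lit 71) (nat_lit 5) (nat_lit 179) (nat_lit 299) (nat_lit 302)) (PT.lf (nat_lit 5700) (nat_lit 6) (nat_lit 75) (nat_lit 5) (nat_lit 180) (nat_lit 299) (nat_lit 301))))) (PT.nd (nat_lit 312) (PT.nd (nat_lit 156)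 (PT.nd (nat_lit 78) (PT.lf (nat_lit 6004) (nat_lit 6) (nat_lit 79) (nat_lit 5) (nat_lit 181) (nat_lit 299) (nat_lit 300)) (PT.lf (nat_lit 6308) (nat_lit 3) (nat_lit 83) (nat_lit 4) (nat_lit 182) (nat_lit 299) (nat_lit 299))) (PT.nd (nat_lit 78) (PT.lf (nat_lit 6536) (nat_lit 6) (nat_lit 86) (nat_lit 4) (nat_lit 183) (nat_lit 299) (nat_lit 298)) (PT.lf (nat_lit 6764) (nat_lit 6) (nat_lit 89) (nat_lit 4) (nat_lit 184) (nat_lit 299) (nat_lit 297)))) (PT.nd (nat_lit 156) (PT.nd (nat_lit 78) (PT.lf (nat_lit 6992) (nat_lit 6) (nat_lit 92) (nat_lit 4) (nat_lit 185) (nat_lit 299) (nat_lit 296)) (PT.lf (nat_lit 7220) (nat_lit 6) (nat_lit 95) (nat_lit 4) (nat_lit 186) (nat_lit 299) (nat_lit 295))) (PT.nd (nat_lit 8346) (PT.lf (nat_lit 7524) (nat_lit 6) (nat_lit 99) (nat_lit 4) (nat_lit 187) (nat_lit 299) (nat_lit 294)) (PT.lf (nat_lit 7524) (nat_lit 6) (nat_lit 99) (nat_lit 2) (nat_lit 294) (nat_lit 299) (nat_lit 187)))))) (PT.nd (nat_lit 72072) (PT.nd (nat_lit 312) (PT.nd (nat_lit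 156) (PT.nd (nat_lit 78) (PT.lf (nat_lit 7220) (nat_lit 6) (nat_lit 95) (nat_lit 2) (nat_lit 295) (nat_lit 299) (nat_lit 186)) (PT.lf (nat_lit 6992) (nat_lit 6) (nat_lit 92) (nat_lit 2) (nat_lit 296) (nat_lit 299) (nat_lit 185))) (PT.nd (nat_lit 78) (PT.lf (nat_lit 6764) (nat_lit 6) (nat_lit 89) (nat_lit 2) (nat_lit 297) (nat_lit 299) (nat_lit 184)) (PT.lf (nat_lit 6536) (nat_lit 6) (nat_lit 86) (nat_lit 2) (nat_lit 298) (nat_lit 299) (nat_lit 183)))) (PT.nd (nat_lit 156) (PT.nd (nat_lit 78) (PT.lf (nat_lit 6308) (nat_lit 3) (nat_lit 83) (nat_lit 0) (nat_lit 299) (nat_lit 299) (nat_lit 182)) (PT.lf (nat_lit 6004) (nat_lit 6) (nat_lit 79) (nat_lit 0) (nat_lit 300) (nat_lit 299) (nat_lit 181))) (PT.nd (nat_lit 78) (PT.lf (nat_lit 5700) (nat_lit 6) (nat_lit 75) (nat_lit 0) (nat_lit 301) (nat_lit 299) (nat_lit 180)) (PT.lf (nat_lit 5396) (nat_lit 6) (nat_lit 71) (nat_lit 0) (nat_lit 302) (nat_lit 299) (nat_lit 179))))) (PT.nd (nat_lit 312) (PT.nd (nat_lit 156) (PT.nd (nat_lit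 78) (PT.lf (nat_lit 5168) (nat_lit 6) (nat_lit 68) (nat_lit 5) (nat_lit 178) (nat_lit 300) (nat_lit 302)) (PT.lf (nat_lit 5472) (nat_lit 6) (nat_lit 72) (nat_lit 5) (nat_lit 179) (nat_lit 300) (nat_lit 301))) (PT.nd (nat_lit 78) (PT.lf (nat_lit 5776) (nat_lit 3) (nat_lit 76) (nat_lit 4) (nat_lit 180) (nat_lit 300) (nat_lit 300)) (PT.lf (nat_lit 6004) (nat_lit 6) (nat_lit 79) (nat_lit 4) (nat_lit 181) (nat_lit 300) (nat_lit 299)))) (PT.nd (nat_lit 156) (PT.nd (nat_lit 78) (PT.lf (nat_lit 6232) (nat_lit 6) (nat_lit 82) (nat_lit 4) (nat_lit 182) (nat_lit 300) (nat_lit 298)) (PT.lf (nat_lit 6460) (nat_lit 6) (nat_lit 85) (nat_lit 4) (nat_lit 183) (nat_lit 300) (nat_lit 297))) (PT.nd (nat_lit 8736) (PT.lf (nat_lit 6688) (nat_lit 6) (nat_lit 88) (nat_lit 4) (nat_lit 184) (nat_lit 300) (nat_lit 296)) (PT.lf (nat_lit 6688) (nat_lit 6) (nat_lit 88) (nat_lit 2) (nat_lit 296) (nat_lit 300) (nat_lit 184))))))) (PT.nd (nat_lit 81510) (PT.nd (nat_lit 71994) (PT.nd (nat_lit 312) (PT.nd (nat_lit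 156) (PT.nd (nat_lit 78) (PT.lf (nat_lit 6460) (nat_lit 6) (nat_lit 85) (nat_lit 2) (nat_lit 297) (nat_lit 300) (nat_lit 183)) (PT.lf (nat_lit 6232) (nat_lit 6) (nat_lit 82) (nat_lit 2) (nat_lit 298) (nat_lit 300) (nat_lit 182))) (PT.nd (nat_lit 78) (PT.lf (nat_lit 6004) (nat_lit 6) (nat_lit 79) (nat_lit 2) (nat_lit 299) (nat_lit 300) (nat_lit 181)) (PT.lf (nat_lit 5776) (nat_lit 3) (nat_lit 76) (nat_lit 0) (nat_lit 300) (nat_lit 300) (nat_lit 180)))) (PT.nd (nat_lit 71526) (PT.nd (nat_lit 78) (PT.lf (nat_lit 5472) (nat_lit 6) (nat_lit 72) (nat_lit 0) (nat_lit 301) (nat_lit 300) (nat_lit 179)) (PT.lf (nat_lit 5168) (nat_lit 6) (nat_lit 68) (nat_lit 0) (nat_lit 302) (nat_lit 300) (nat_lit 178))) (PT.nd (nat_lit 78) (PT.lf (nat_lit 5016) (nat_lit 6) (nat_lit 66) (nat_lit 5) (nat_lit 177) (nat_lit 301) (nat_lit 302)) (PT.lf (nat_lit 5244) (nat_lit 3) (nat_lit 69) (nat_lit 4) (nat_lit 178) (nat_lit 301) (nat_lit 301))))) (PT.nd (nat_lit 9204) (PT.nd (nat_lit 156) (PT.nd (nat_lit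 78) (PT.lf (nat_lit 5472) (nat_lit 6) (nat_lit 72) (nat_lit 4) (nat_lit 179) (nat_lit 301) (nat_lit 300)) (PT.lf (nat_lit 5700) (nat_lit 6) (nat_lit 75) (nat_lit 4) (nat_lit 180) (nat_lit 301) (nat_lit 299))) (PT.nd (nat_lit 78) (PT.lf (nat_lit 5928) (nat_lit 6) (nat_lit 78) (nat_lit 4) (nat_lit 181) (nat_lit 301) (nat_lit 298)) (PT.lf (nat_lit 6156) (nat_lit 6) (nat_lit 81) (nat_lit 4) (nat_lit 182) (nat_lit 301) (nat_lit 297)))) (PT.nd (nat_lit 156) (PT.nd (nat_lit 78) (PT.lf (nat_lit 6156) (nat_lit 6) (nat_lit 81) (nat_lit 2) (nat_lit 297) (nat_lit 301) (nat_lit 182)) (PT.lf (nat_lit 5928) (nat_lit 6) (nat_lit 78) (nat_lit 2) (nat_lit 298) (nat_lit 301) (nat_lit 181))) (PT.nd (nat_lit 78) (PT.lf (nat_lit 5700) (nat_lit 6) (nat_lit 75) (nat_lit 2) (nat_lit 299) (nat_lit 301) (nat_lit 180)) (PT.lf (nat_lit 5472) (nat_lit 6) (nat_lit 72) (nat_lit 2) (nat_lit 300) (nat_lit 301) (nat_lit 179)))))) (PT.nd (nat_lit 81198) (PT.nd (nat_lit 71604) (PT.nd (nat_lit 71448) (PT.nd (nat_lit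 78) (PT.lf (nat_lit 5244) (nat_lit 3) (nat_lit 69) (nat_lit 0) (nat_lit 301) (nat_lit 301) (nat_lit 178)) (PT.lf (nat_lit 5016) (nat_lit 6) (nat_lit 66) (nat_lit 0) (nat_lit 302) (nat_lit 301) (nat_lit 177))) (PT.nd (nat_lit 78) (PT.lf (nat_lit 4788) (nat_lit 3) (nat_lit 63) (nat_lit 4) (nat_lit 176) (nat_lit 302) (nat_lit 302)) (PT.lf (nat_lit 5016) (nat_lit 6) (nat_lit 66) (nat_lit 4) (nat_lit 177) (nat_lit 302) (nat_lit 301)))) (PT.nd (nat_lit 9438) (PT.nd (nat_lit 78) (PT.lf (nat_lit 5168) (nat_lit 6) (nat_lit 68) (nat_lit 4) (nat_lit 178) (nat_lit 302) (nat_lit 300)) (PT.lf (nat_lit 5396) (nat_lit 6) (nat_lit 71) (nat_lit 4) (nat_lit 179) (nat_lit 302) (nat_lit 299))) (PT.nd (nat_lit 78) (PT.lf (nat_lit 5396) (nat_lit 6) (nat_lit 71) (nat_lit 2) (nat_lit 299) (nat_lit 302) (nat_lit 179)) (PT.lf (nat_lit 5168) (nat_lit 6) (nat_lit 68) (nat_lit 2) (nat_lit 300) (nat_lit 302) (nat_lit 178))))) (PT.nd (nat_lit 3576222) (PT.nd (nat_lit 3556020) (PT.nd (nat_lit 78) (PT.lf (nat_lit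 5016) (nat_lit 6) (nat_lit 66) (nat_lit 2) (nat_lit 301) (nat_lit 302) (nat_lit 177)) (PT.lf (nat_lit 4788) (nat_lit 3) (nat_lit 63) (nat_lit 0) (nat_lit 302) (nat_lit 302) (nat_lit 176))) (PT.nd (nat_lit 78) (PT.lf (nat_lit 76) (nat_lit 6) (nat_lit 1) (nat_lit 5) (nat_lit 87) (nat_lit 346) (nat_lit 347)) (PT.lf (nat_lit 152) (nat_lit 3) (nat_lit 2) (nat_lit 4) (nat_lit 88) (nat_lit 346) (nat_lit 346)))) (PT.nd (nat_lit 60996) (PT.nd (nat_lit 78) (PT.lf (nat_lit 152) (nat_lit 3) (nat_lit 2) (nat_lit 0) (nat_lit 346) (nat_lit 346) (nat_lit 88)) (PT.lf (nat_lit 76) (nat_lit 6) (nat_lit 1) (nat_lit 0) (nat_lit 347) (nat_lit 346) (nat_lit 87))) (PT.nd (nat_lit 20202) (PT.lf (nat_lit 76) (nat_lit 6) (nat_lit 1) (nat_lit 4) (nat_lit 87) (nat_lit 347) (nat_lit 346)) (PT.lf (nat_lit 76) (nat_lit 6) (nat_lit 1) (nat_lit 2) (nat_lit 346) (nat_lit 347) (nat_lit 87))))))))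
noncomputable def xc0 : XT := (XT.nd (nat_lit 243516) (nat_lit 0) (nat_lit 0) (XT.nd (nat_lit 162240) (nat_lit 0) (nat_lit 0) (XT.nd (nat_lit 81198) (nat_lit 0) (nat_lit 0) (XT.nd (nat_lit 80964) (nat_lit 0) (nat_lit 456) (XT.nd (nat_lit 78) (nat_lit 228) (nat_lit 0) (XT.lf (nat_lit 0) (nat_lit 4523606124) (nat_lit 228) (nat_lit 3717621533) (nat_lit 0) (nat_lit 4037111034) (nat_lit 66) (nat_lit 5) (nat_lit 69) (nat_lit 4) (nat_lit 66) (nat_lit 4) (nat_lit 627) (nat_lit 467) (nat_lit 466)) (XT.lf (nat_lit 0) (nat_lit 7259785952) (nat_lit 228) (nat_lit 3051759984) (nat_lit 228) (nat_lit 2088308923) (nat_lit 63) (nat_lit 4) (nat_lit 66) (nat_lit 5) (nat_lit 66) (nat_lit 4) (nat_lit 628) (nat_lit 467) (nat_lit 465))) (XT.nd (nat_lit 78) (nat_lit 228) (nat_lit 0) (XT.lf (nat_lit 0) (nat_lit 55890797) (nat_lit 304) (nat_lit 5851282605) (nat_lit 0) (nat_lit 55890797) (nat_lit 72) (nat_lit 5) (nat_lit 76) (nat_lit 4) (nat_lit 72) (nat_lit 4) (nat_lit 624) (nat_lit 468) (nat_lit 468))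 (XT.nd (nat_lit 78) (nat_lit 228) (nat_lit 0) (XT.lf (nat_lit 0) (nat_lit 5732535762) (nat_lit 304) (nat_lit 1082846794) (nat_lit 0) (nat_lit 5226386270) (nat_lit 72) (nat_lit 5) (nat_lit 76) (nat_lit 4) (nat_lit 72) (nat_lit 4) (nat_lit 625) (nat_lit 468) (nat_lit 467)) (XT.lf (nat_lit 0) (nat_lit 9735536670) (nat_lit 228) (nat_lit 1713448352) (nat_lit 228) (nat_lit 711073868) (nat_lit 69) (nat_lit 4) (nat_lit 72) (nat_lit 5) (nat_lit 72) (nat_lit 4) (nat_lit 626) (nat_lit 468) (nat_lit 466))))) (XT.nd (nat_lit 80808) (nat_lit 0) (nat_lit 684) (XT.nd (nat_lit 78) (nat_lit 228) (nat_lit 0) (XT.lf (nat_lit 0) (nat_lit 4938691097) (nat_lit 228) (nat_lit 3862257685) (nat_lit 0) (nat_lit 3479015044) (nat_lit 66) (nat_lit 5) (nat_lit 69) (nat_lit 4) (nat_lit 66) (nat_lit 4) (nat_lit 627) (nat_lit 468) (nat_lit 465)) (XT.lf (nat_lit 0) (nat_lit 7042096673) (nat_lit 228) (nat_lit 3643740141) (nat_lit 228) (nat_lit 1716460194) (nat_lit 63) (nat_lit 4) (nat_lit 66) (nat_lit 5) (nat_lit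 66) (nat_lit 4) (nat_lit 628) (nat_lit 468) (nat_lit 464))) (XT.nd (nat_lit 78) (nat_lit 532) (nat_lit 0) (XT.lf (nat_lit 0) (nat_lit 672365048) (nat_lit 304) (nat_lit 4504737642) (nat_lit 0) (nat_lit 672365048) (nat_lit 79) (nat_lit 5) (nat_lit 83) (nat_lit 4) (nat_lit 79) (nat_lit 4) (nat_lit 622) (nat_lit 469) (nat_lit 469)) (XT.nd (nat_lit 78) (nat_lit 304) (nat_lit 0) (XT.lf (nat_lit 0) (nat_lit 1439217203) (nat_lit 228) (nat_lit 5449508228) (nat_lit 228) (nat_lit 4922910296) (nat_lit 76) (nat_lit 4) (nat_lit 79) (nat_lit 5) (nat_lit 79) (nat_lit 4) (nat_lit 623) (nat_lit 469) (nat_lit 468)) (XT.lf (nat_lit 0) (nat_lit 150047988) (nat_lit 228) (nat_lit 440505675) (nat_lit 304) (nat_lit 11336325970) (nat_lit 72) (nat_lit 5) (nat_lit 75) (nat_lit 5) (nat_lit 76) (nat_lit 4) (nat_lit 624) (nat_lit 469) (nat_lit 467)))))) (XT.nd (nat_lit 80886) (nat_lit 0) (nat_lit 684) (XT.nd (nat_lit 156) (nat_lit 456) (nat_lit 0) (XT.nd (nat_lit 78) (nat_lit 228) (nat_lit 0) (XT.lf (nat_lit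 0) (nat_lit 6168878691) (nat_lit 304) (nat_lit 1224259428) (nat_lit 0) (nat_lit 4650231726) (nat_lit 72) (nat_lit 5) (nat_lit 76) (nat_lit 4) (nat_lit 72) (nat_lit 4) (nat_lit 625) (nat_lit 469) (nat_lit 466)) (XT.lf (nat_lit 0) (nat_lit 9522699049) (nat_lit 228) (nat_lit 2322453798) (nat_lit 228) (nat_lit 317311742) (nat_lit 69) (nat_lit 4) (nat_lit 72) (nat_lit 5) (nat_lit 72) (nat_lit 4) (nat_lit 626) (nat_lit 469) (nat_lit 465))) (XT.nd (nat_lit 78) (nat_lit 228) (nat_lit 0) (XT.lf (nat_lit 0) (nat_lit 5282528730) (nat_lit 228) (nat_lit 4151586709) (nat_lit 0) (nat_lit 2849099291) (nat_lit 66) (nat_lit 5) (nat_lit 69) (nat_lit 4) (nat_lit 66) (nat_lit 4) (nat_lit 627) (nat_lit 469) (nat_lit 464)) (XT.nd (nat_lit 80574) (nat_lit 0) (nat_lit 1748) (XT.lf (nat_lit 0) (nat_lit 6679186354) (nat_lit 228) (nat_lit 4309523296) (nat_lit 228) (nat_lit 1417658668) (nat_lit 63) (nat_lit 4) (nat_lit 66) (nat_lit 5) (nat_lit 66) (nat_lit 4) (nat_lit 628) (nat_lit 469) (nat_lit 463))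 (XT.lf (nat_lit 0) (nat_lit 1260579421) (nat_lit 304) (nat_lit 3217896642) (nat_lit 0) (nat_lit 1260579421) (nat_lit 86) (nat_lit 5) (nat_lit 90) (nat_lit 4) (nat_lit 86) (nat_lit 4) (nat_lit 620) (nat_lit 470) (nat_lit 470))))) (XT.nd (nat_lit 156) (nat_lit 532) (nat_lit 0) (XT.nd (nat_lit 78) (nat_lit 304) (nat_lit 0) (XT.lf (nat_lit 0) (nat_lit 3855833402) (nat_lit 228) (nat_lit 4139925232) (nat_lit 228) (nat_lit 3592052744) (nat_lit 83) (nat_lit 4) (nat_lit 86) (nat_lit 5) (nat_lit 86) (nat_lit 4) (nat_lit 621) (nat_lit 470) (nat_lit 469)) (XT.lf (nat_lit 0) (nat_lit 1842090998) (nat_lit 304) (nat_lit 9079277958) (nat_lit 0) (nat_lit 778363177) (nat_lit 79) (nat_lit 5) (nat_lit 83) (nat_lit 4) (nat_lit 79) (nat_lit 4) (nat_lit 622) (nat_lit 470) (nat_lit 468))) (XT.nd (nat_lit 78) (nat_lit 304) (nat_lit 0) (XT.lf (nat_lit 0) (nat_lit 1299143443) (nat_lit 228) (nat_lit 6047044233) (nat_lit 228) (nat_lit 4467043930) (nat_lit 76) (nat_lit 4) (nat_lit 79) (nat_lit 5) (nat_lit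 79) (nat_lit 4) (nat_lit 623) (nat_lit 470) (nat_lit 467)) (XT.nd (nat_lit 78) (nat_lit 228) (nat_lit 0) (XT.lf (nat_lit 0) (nat_lit 1000543667) (nat_lit 304) (nat_lit 65051586) (nat_lit 76) (nat_lit 10863620217) (nat_lit 75) (nat_lit 5) (nat_lit 79) (nat_lit 5) (nat_lit 76) (nat_lit 4) (nat_lit 624) (nat_lit 470) (nat_lit 466)) (XT.lf (nat_lit 0) (nat_lit 6535586172) (nat_lit 304) (nat_lit 1507140153) (nat_lit 0) (nat_lit 4003846185) (nat_lit 72) (nat_lit 5) (nat_lit 76) (nat_lit 4) (nat_lit 72) (nat_lit 4) (nat_lit 625) (nat_lit 470) (nat_lit 465))))))) (XT.nd (nat_lit 81120) (nat_lit 0) (nat_lit 0) (XT.nd (nat_lit 80730) (nat_lit 0) (nat_lit 912) (XT.nd (nat_lit 156) (nat_lit 228) (nat_lit 0) (XT.nd (nat_lit 78) (nat_lit 152) (nat_lit 0) (XT.lf (nat_lit 0) (nat_lit 4982665) (nat_lit 304) (nat_lit 2998630974) (nat_lit 76) (nat_lit 9162860841) (nat_lit 68) (nat_lit 5) (nat_lit 72) (nat_lit 5) (nat_lit 69) (nat_lit 4) (nat_lit 626) (nat_lit 470) (nat_lit 464)) (XT.lf (nat_lit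 0) (nat_lit 5555253861) (nat_lit 228) (nat_lit 4585722067) (nat_lit 0) (nat_lit 2147116752) (nat_lit 66) (nat_lit 5) (nat_lit 69) (nat_lit 4) (nat_lit 66) (nat_lit 4) (nat_lit 627) (nat_lit 470) (nat_lit 463))) (XT.nd (nat_lit 80418) (nat_lit 0) (nat_lit 2052) (XT.lf (nat_lit 0) (nat_lit 6170912679) (nat_lit 228) (nat_lit 5049370541) (nat_lit 228) (nat_lit 1191787168) (nat_lit 63) (nat_lit 4) (nat_lit 66) (nat_lit 5) (nat_lit 66) (nat_lit 4) (nat_lit 628) (nat_lit 470) (nat_lit 462)) (XT.nd (nat_lit 78) (nat_lit 228) (nat_lit 0) (XT.lf (nat_lit 0) (nat_lit 1823566303) (nat_lit 304) (nat_lit 1984608418) (nat_lit 0) (nat_lit 1823566303) (nat_lit 93) (nat_lit 5) (nat_lit 97) (nat_lit 4) (nat_lit 93) (nat_lit 4) (nat_lit 618) (nat_lit 471) (nat_lit 471)) (XT.lf (nat_lit 0) (nat_lit 6165205219) (nat_lit 228) (nat_lit 2887530914) (nat_lit 228) (nat_lit 2317524378) (nat_lit 90) (nat_lit 4) (nat_lit 93) (nat_lit 5) (nat_lit 93) (nat_lit 4) (nat_lit 619) (nat_lit 471) (nat_lit 470)))))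 (XT.nd (nat_lit 156) (nat_lit 608) (nat_lit 0) (XT.nd (nat_lit 78) (nat_lit 228) (nat_lit 0) (XT.lf (nat_lit 0) (nat_lit 3040791596) (nat_lit 304) (nat_lit 6504015473) (nat_lit 0) (nat_lit 1934089171) (nat_lit 86) (nat_lit 5) (nat_lit 90) (nat_lit 4) (nat_lit 86) (nat_lit 4) (nat_lit 620) (nat_lit 471) (nat_lit 469)) (XT.lf (nat_lit 0) (nat_lit 3718931219) (nat_lit 228) (nat_lit 4757142698) (nat_lit 228) (nat_lit 3113310382) (nat_lit 83) (nat_lit 4) (nat_lit 86) (nat_lit 5) (nat_lit 86) (nat_lit 4) (nat_lit 621) (nat_lit 471) (nat_lit 468))) (XT.nd (nat_lit 78) (nat_lit 304) (nat_lit 0) (XT.lf (nat_lit 0) (nat_lit 2270640924) (nat_lit 304) (nat_lit 9288713353) (nat_lit 0) (nat_lit 142768133) (nat_lit 79) (nat_lit 5) (nat_lit 83) (nat_lit 4) (nat_lit 79) (nat_lit 4) (nat_lit 622) (nat_lit 471) (nat_lit 467)) (XT.nd (nat_lit 78) (nat_lit 76) (nat_lit 0) (XT.lf (nat_lit 0) (nat_lit 1018940992) (nat_lit 228) (nat_lit 6715752640) (nat_lit 228) (nat_lit 4081730357) (nat_lit 76)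 (nat_lit 4) (nat_lit 79) (nat_lit 5) (nat_lit 79) (nat_lit 4) (nat_lit 623) (nat_lit 471) (nat_lit 466)) (XT.lf (nat_lit 0) (nat_lit 1342643604) (nat_lit 304) (nat_lit 418107193) (nat_lit 76) (nat_lit 10172371403) (nat_lit 75) (nat_lit 5) (nat_lit 79) (nat_lit 5) (nat_lit 76) (nat_lit 4) (nat_lit 624) (nat_lit 471) (nat_lit 465)))))) (XT.nd (nat_lit 80574) (nat_lit 0) (nat_lit 1216) (XT.nd (nat_lit 156) (nat_lit 380) (nat_lit 0) (XT.nd (nat_lit 78) (nat_lit 304) (nat_lit 0) (XT.lf (nat_lit 0) (nat_lit 6832802012) (nat_lit 304) (nat_lit 1931599902) (nat_lit 0) (nat_lit 3286976164) (nat_lit 72) (nat_lit 5) (nat_lit 76) (nat_lit 4) (nat_lit 72) (nat_lit 4) (nat_lit 625) (nat_lit 471) (nat_lit 464)) (XT.lf (nat_lit 0) (nat_lit 252775172) (nat_lit 304) (nat_lit 3502823893) (nat_lit 76) (nat_lit 8416459777) (nat_lit 68) (nat_lit 5) (nat_lit 72) (nat_lit 5) (nat_lit 69) (nat_lit 4) (nat_lit 626) (nat_lit 471) (nat_lit 463))) (XT.nd (nat_lit 78) (nat_lit 228) (nat_lit 0) (XT.lf (nat_lit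 0) (nat_lit 5756973443) (nat_lit 228) (nat_lit 5164834009) (nat_lit 0) (nat_lit 1372792138) (nat_lit 66) (nat_lit 5) (nat_lit 69) (nat_lit 4) (nat_lit 66) (nat_lit 4) (nat_lit 627) (nat_lit 471) (nat_lit 462)) (XT.nd (nat_lit 80262) (nat_lit 0) (nat_lit 2888) (XT.lf (nat_lit 0) (nat_lit 5517076325) (nat_lit 228) (nat_lit 5863572013) (nat_lit 228) (nat_lit 1038757116) (nat_lit 63) (nat_lit 4) (nat_lit 66) (nat_lit 5) (nat_lit 66) (nat_lit 4) (nat_lit 628) (nat_lit 471) (nat_lit 461)) (XT.lf (nat_lit 0) (nat_lit 2364160257) (nat_lit 304) (nat_lit 799122927) (nat_lit 0) (nat_lit 2364160257) (nat_lit 101) (nat_lit 5) (nat_lit 105) (nat_lit 4) (nat_lit 101) (nat_lit 4) (nat_lit 616) (nat_lit 472) (nat_lit 472))))) (XT.nd (nat_lit 234) (nat_lit 836) (nat_lit 0) (XT.nd (nat_lit 78) (nat_lit 532) (nat_lit 0) (XT.lf (nat_lit 0) (nat_lit 8379097637) (nat_lit 304) (nat_lit 1686376909) (nat_lit 304) (nat_lit 1093342108) (nat_lit 97) (nat_lit 4) (nat_lit 101) (nat_lit 5) (nat_lit 101)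 (nat_lit 4) (nat_lit 617) (nat_lit 472) (nat_lit 471)) (XT.nd (nat_lit 78) (nat_lit 228) (nat_lit 0) (XT.lf (nat_lit 0) (nat_lit 4189894280) (nat_lit 304) (nat_lit 4035880973) (nat_lit 0) (nat_lit 3038481076) (nat_lit 93) (nat_lit 5) (nat_lit 97) (nat_lit 4) (nat_lit 93) (nat_lit 4) (nat_lit 618) (nat_lit 472) (nat_lit 470)) (XT.lf (nat_lit 0) (nat_lit 6031429596) (nat_lit 228) (nat_lit 3525312403) (nat_lit 228) (nat_lit 1815069262) (nat_lit 90) (nat_lit 4) (nat_lit 93) (nat_lit 5) (nat_lit 93) (nat_lit 4) (nat_lit 619) (nat_lit 472) (nat_lit 469)))) (XT.nd (nat_lit 78) (nat_lit 532) (nat_lit 0) (XT.lf (nat_lit 0) (nat_lit 3493191210) (nat_lit 304) (nat_lit 6708708791) (nat_lit 0) (nat_lit 1279352358) (nat_lit 86) (nat_lit 5) (nat_lit 90) (nat_lit 4) (nat_lit 86) (nat_lit 4) (nat_lit 620) (nat_lit 472) (nat_lit 468)) (XT.nd (nat_lit 78) (nat_lit 304) (nat_lit 0) (XT.lf (nat_lit 0) (nat_lit 3445073165) (nat_lit 228) (nat_lit 5443947187) (nat_lit 228) (nat_lit 2703510404) (nat_lit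 83) (nat_lit 4) (nat_lit 86) (nat_lit 5) (nat_lit 86) (nat_lit 4) (nat_lit 621) (nat_lit 472) (nat_lit 467)) (XT.lf (nat_lit 0) (nat_lit 2064470291) (nat_lit 228) (nat_lit 569777013) (nat_lit 304) (nat_lit 9071785956) (nat_lit 79) (nat_lit 5) (nat_lit 82) (nat_lit 5) (nat_lit 83) (nat_lit 4) (nat_lit 622) (nat_lit 472) (nat_lit 466))))))))
noncomputable def xc1 : XT := (XT.nd (nat_lit 81588) (nat_lit 0) (nat_lit 0) (XT.nd (nat_lit 80808) (nat_lit 0) (nat_lit 228) (XT.nd (nat_lit 390) (nat_lit 228) (nat_lit 0) (XT.nd (nat_lit 156) (nat_lit 684) (nat_lit 0) (XT.nd (nat_lit 78) (nat_lit 76) (nat_lit 0) (XT.lf (nat_lit 0) (nat_lit 598499967) (nat_lit 228) (nat_lit 7455895687) (nat_lit 228) (nat_lit 3766818474) (nat_lit 76) (nat_lit 4) (nat_lit 79) (nat_lit 5) (nat_lit 79) (nat_lit 4) (nat_lit 623) (nat_lit 472) (nat_lit 465)) (XT.lf (nat_lit 0) (nat_lit 1616013421) (nat_lit 304) (nat_lit 911225192) (nat_lit 76) (nat_lit 9411382228) (nat_lit 75) (nat_lit 5) (nat_lit 79) (nat_lit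 5) (nat_lit 76) (nat_lit 4) (nat_lit 624) (nat_lit 472) (nat_lit 464))) (XT.nd (nat_lit 78) (nat_lit 456) (nat_lit 0) (XT.lf (nat_lit 0) (nat_lit 7060642766) (nat_lit 304) (nat_lit 2497805129) (nat_lit 0) (nat_lit 2499340537) (nat_lit 72) (nat_lit 5) (nat_lit 76) (nat_lit 4) (nat_lit 72) (nat_lit 4) (nat_lit 625) (nat_lit 472) (nat_lit 463)) (XT.nd (nat_lit 78) (nat_lit 152) (nat_lit 0) (XT.lf (nat_lit 0) (nat_lit 430324552) (nat_lit 304) (nat_lit 4150481822) (nat_lit 76) (nat_lit 7598454696) (nat_lit 68) (nat_lit 5) (nat_lit 72) (nat_lit 5) (nat_lit 69) (nat_lit 4) (nat_lit 626) (nat_lit 472) (nat_lit 462)) (XT.lf (nat_lit 0) (nat_lit 5887766580) (nat_lit 228) (nat_lit 5889149637) (nat_lit 0) (nat_lit 525821793) (nat_lit 66) (nat_lit 5) (nat_lit 69) (nat_lit 4) (nat_lit 66) (nat_lit 4) (nat_lit 627) (nat_lit 472) (nat_lit 461))))) (XT.nd (nat_lit 80184) (nat_lit 0) (nat_lit 2584) (XT.nd (nat_lit 80106) (nat_lit 0) (nat_lit 3192) (XT.lf (nat_lit 0) (nat_lit 4717420884) (nat_lit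 228) (nat_lit 6752447006) (nat_lit 228) (nat_lit 958508502) (nat_lit 63) (nat_lit 4) (nat_lit 66) (nat_lit 5) (nat_lit 66) (nat_lit 4) (nat_lit 628) (nat_lit 472) (nat_lit 460)) (XT.lf (nat_lit 0) (nat_lit 348512757) (nat_lit 304) (nat_lit 2538764492) (nat_lit 304) (nat_lit 2538764492) (nat_lit 105) (nat_lit 4) (nat_lit 109) (nat_lit 5) (nat_lit 109) (nat_lit 4) (nat_lit 614) (nat_lit 473) (nat_lit 473))) (XT.nd (nat_lit 78) (nat_lit 532) (nat_lit 0) (XT.lf (nat_lit 0) (nat_lit 84963270) (nat_lit 380) (nat_lit 445367599) (nat_lit 76) (nat_lit 10422981901) (nat_lit 104) (nat_lit 5) (nat_lit 109) (nat_lit 5) (nat_lit 105) (nat_lit 4) (nat_lit 615) (nat_lit 473) (nat_lit 472)) (XT.nd (nat_lit 78) (nat_lit 304) (nat_lit 0) (XT.lf (nat_lit 0) (nat_lit 5295103639) (nat_lit 304) (nat_lit 1663373585) (nat_lit 0) (nat_lit 4097173342) (nat_lit 101) (nat_lit 5) (nat_lit 105) (nat_lit 4) (nat_lit 101) (nat_lit 4) (nat_lit 616) (nat_lit 473) (nat_lit 471)) (XT.lf (nat_lit 0) (nat_lit 8248405134)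 (nat_lit 304) (nat_lit 2345638924) (nat_lit 304) (nat_lit 566301960) (nat_lit 97) (nat_lit 4) (nat_lit 101) (nat_lit 5) (nat_lit 101) (nat_lit 4) (nat_lit 617) (nat_lit 473) (nat_lit 470)))))) (XT.nd (nat_lit 390) (nat_lit 988) (nat_lit 0) (XT.nd (nat_lit 156) (nat_lit 836) (nat_lit 0) (XT.nd (nat_lit 78) (nat_lit 228) (nat_lit 0) (XT.lf (nat_lit 0) (nat_lit 4666978946) (nat_lit 304) (nat_lit 4235899522) (nat_lit 0) (nat_lit 2363701005) (nat_lit 93) (nat_lit 5) (nat_lit 97) (nat_lit 4) (nat_lit 93) (nat_lit 4) (nat_lit 618) (nat_lit 473) (nat_lit 469)) (XT.lf (nat_lit 0) (nat_lit 5763825890) (nat_lit 228) (nat_lit 4231118954) (nat_lit 228) (nat_lit 1379968525) (nat_lit 90) (nat_lit 4) (nat_lit 93) (nat_lit 5) (nat_lit 93) (nat_lit 4) (nat_lit 619) (nat_lit 473) (nat_lit 468))) (XT.nd (nat_lit 78) (nat_lit 532) (nat_lit 0) (XT.lf (nat_lit 0) (nat_lit 3878535095) (nat_lit 304) (nat_lit 7049953511) (nat_lit 0) (nat_lit 556691645) (nat_lit 86) (nat_lit 5) (nat_lit 90) (nat_lit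 4) (nat_lit 86) (nat_lit 4) (nat_lit 620) (nat_lit 473) (nat_lit 467)) (XT.nd (nat_lit 78) (nat_lit 304) (nat_lit 0) (XT.lf (nat_lit 0) (nat_lit 3034151846) (nat_lit 228) (nat_lit 6200608036) (nat_lit 228) (nat_lit 2362492104) (nat_lit 83) (nat_lit 4) (nat_lit 86) (nat_lit 5) (nat_lit 86) (nat_lit 4) (nat_lit 621) (nat_lit 473) (nat_lit 466)) (XT.lf (nat_lit 0) (nat_lit 1575849738) (nat_lit 228) (nat_lit 1354900342) (nat_lit 304) (nat_lit 8780762191) (nat_lit 79) (nat_lit 5) (nat_lit 82) (nat_lit 5) (nat_lit 83) (nat_lit 4) (nat_lit 622) (nat_lit 473) (nat_lit 465))))) (XT.nd (nat_lit 156) (nat_lit 684) (nat_lit 0) (XT.nd (nat_lit 78) (nat_lit 76) (nat_lit 0) (XT.lf (nat_lit 0) (nat_lit 37655488) (nat_lit 228) (nat_lit 8267763626) (nat_lit 228) (nat_lit 3522184787) (nat_lit 76) (nat_lit 4) (nat_lit 79) (nat_lit 5) (nat_lit 79) (nat_lit 4) (nat_lit 623) (nat_lit 473) (nat_lit 464)) (XT.lf (nat_lit 0) (nat_lit 1820760320) (nat_lit 304) (nat_lit 1544598962) (nat_lit 76) (nat_lit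 8580354266) (nat_lit 75) (nat_lit 5) (nat_lit 79) (nat_lit 5) (nat_lit 76) (nat_lit 4) (nat_lit 624) (nat_lit 473) (nat_lit 463))) (XT.nd (nat_lit 78) (nat_lit 456) (nat_lit 0) (XT.lf (nat_lit 0) (nat_lit 7219197784) (nat_lit 304) (nat_lit 3205977876) (nat_lit 0) (nat_lit 1640630427) (nat_lit 72) (nat_lit 5) (nat_lit 76) (nat_lit 4) (nat_lit 72) (nat_lit 4) (nat_lit 625) (nat_lit 473) (nat_lit 462)) (XT.nd (nat_lit 78) (nat_lit 152) (nat_lit 0) (XT.lf (nat_lit 0) (nat_lit 537700433) (nat_lit 304) (nat_lit 4941858744) (nat_lit 76) (nat_lit 6708524810) (nat_lit 68) (nat_lit 5) (nat_lit 72) (nat_lit 5) (nat_lit 69) (nat_lit 4) (nat_lit 626) (nat_lit 473) (nat_lit 461)) (XT.lf (nat_lit 0) (nat_lit 5550913340) (nat_lit 152) (nat_lit 399364161) (nat_lit 228) (nat_lit 6362181772) (nat_lit 66) (nat_lit 5) (nat_lit 68) (nat_lit 5) (nat_lit 69) (nat_lit 4) (nat_lit 627) (nat_lit 473) (nat_lit 460))))))) (XT.nd (nat_lit 80652) (nat_lit 0) (nat_lit 0) (XT.nd (nat_lit 80262) (nat_lit 0)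 (nat_lit 1748) (XT.nd (nat_lit 80028) (nat_lit 0) (nat_lit 3116) (XT.nd (nat_lit 79950) (nat_lit 0) (nat_lit 3800) (XT.lf (nat_lit 0) (nat_lit 3771632768) (nat_lit 228) (nat_lit 7716344099) (nat_lit 228) (nat_lit 951009854) (nat_lit 63) (nat_lit 4) (nat_lit 66) (nat_lit 5) (nat_lit 66) (nat_lit 4) (nat_lit 628) (nat_lit 473) (nat_lit 459)) (XT.lf (nat_lit 0) (nat_lit 1468896042) (nat_lit 304) (nat_lit 1929257027) (nat_lit 304) (nat_lit 1929257027) (nat_lit 113) (nat_lit 4) (nat_lit 117) (nat_lit 5) (nat_lit 117) (nat_lit 4) (nat_lit 612) (nat_lit 474) (nat_lit 474))) (XT.nd (nat_lit 78) (nat_lit 380) (nat_lit 0) (XT.lf (nat_lit 0) (nat_lit 1225725259) (nat_lit 304) (nat_lit 8931044505) (nat_lit 0) (nat_lit 596391985) (nat_lit 109) (nat_lit 5) (nat_lit 113) (nat_lit 4) (nat_lit 109) (nat_lit 4) (nat_lit 613) (nat_lit 474) (nat_lit 473)) (XT.nd (nat_lit 78) (nat_lit 76) (nat_lit 0) (XT.lf (nat_lit 0) (nat_lit 632567953) (nat_lit 304) (nat_lit 5733302030) (nat_lit 304) (nat_lit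 4486975350) (nat_lit 105) (nat_lit 4) (nat_lit 109) (nat_lit 5) (nat_lit 109) (nat_lit 4) (nat_lit 614) (nat_lit 474) (nat_lit 472)) (XT.lf (nat_lit 0) (nat_lit 630251063) (nat_lit 380) (nat_lit 578115029) (nat_lit 76) (nat_lit 9746383692) (nat_lit 104) (nat_lit 5) (nat_lit 109) (nat_lit 5) (nat_lit 105) (nat_lit 4) (nat_lit 615) (nat_lit 474) (nat_lit 471))))) (XT.nd (nat_lit 156) (nat_lit 836) (nat_lit 0) (XT.nd (nat_lit 78) (nat_lit 304) (nat_lit 0) (XT.lf (nat_lit 0) (nat_lit 5797744985) (nat_lit 304) (nat_lit 1858782317) (nat_lit 0) (nat_lit 3401414615) (nat_lit 101) (nat_lit 5) (nat_lit 105) (nat_lit 4) (nat_lit 101) (nat_lit 4) (nat_lit 616) (nat_lit 474) (nat_lit 470)) (XT.lf (nat_lit 0) (nat_lit 7986968878) (nat_lit 304) (nat_lit 3071386687) (nat_lit 304) (nat_lit 105049781) (nat_lit 97) (nat_lit 4) (nat_lit 101) (nat_lit 5) (nat_lit 101) (nat_lit 4) (nat_lit 617) (nat_lit 474) (nat_lit 469))) (XT.nd (nat_lit 78) (nat_lit 532) (nat_lit 0) (XT.lf (nat_lit 0) (nat_lit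 5078573697) (nat_lit 304) (nat_lit 4569350925) (nat_lit 0) (nat_lit 1622527771) (nat_lit 93) (nat_lit 5) (nat_lit 97) (nat_lit 4) (nat_lit 93) (nat_lit 4) (nat_lit 618) (nat_lit 474) (nat_lit 468)) (XT.nd (nat_lit 78) (nat_lit 304) (nat_lit 0) (XT.lf (nat_lit 0) (nat_lit 5362289157) (nat_lit 228) (nat_lit 5005227355) (nat_lit 228) (nat_lit 1012051539) (nat_lit 90) (nat_lit 4) (nat_lit 93) (nat_lit 5) (nat_lit 93) (nat_lit 4) (nat_lit 619) (nat_lit 474) (nat_lit 467)) (XT.lf (nat_lit 0) (nat_lit 3961226555) (nat_lit 228) (nat_lit 237288445) (nat_lit 304) (nat_lit 7292135644) (nat_lit 86) (nat_lit 5) (nat_lit 89) (nat_lit 5) (nat_lit 90) (nat_lit 4) (nat_lit 620) (nat_lit 474) (nat_lit 466)))))) (XT.nd (nat_lit 390) (nat_lit 684) (nat_lit 0) (XT.nd (nat_lit 156) (nat_lit 532) (nat_lit 0) (XT.nd (nat_lit 78) (nat_lit 304) (nat_lit 0) (XT.lf (nat_lit 0) (nat_lit 2486006116) (nat_lit 228) (nat_lit 7027421974) (nat_lit 228) (nat_lit 2090121750) (nat_lit 83) (nat_lit 4) (nat_lit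 86) (nat_lit 5) (nat_lit 86) (nat_lit 4) (nat_lit 621) (nat_lit 474) (nat_lit 465)) (XT.lf (nat_lit 0) (nat_lit 948313832) (nat_lit 228) (nat_lit 2211012429) (nat_lit 304) (nat_lit 8559254112) (nat_lit 79) (nat_lit 5) (nat_lit 82) (nat_lit 5) (nat_lit 83) (nat_lit 4) (nat_lit 622) (nat_lit 474) (nat_lit 464))) (XT.nd (nat_lit 78) (nat_lit 532) (nat_lit 0) (XT.lf (nat_lit 0) (nat_lit 8492172366) (nat_lit 304) (nat_lit 655106362) (nat_lit 0) (nat_lit 2688230889) (nat_lit 79) (nat_lit 5) (nat_lit 83) (nat_lit 4) (nat_lit 79) (nat_lit 4) (nat_lit 623) (nat_lit 474) (nat_lit 463)) (XT.nd (nat_lit 78) (nat_lit 228) (nat_lit 0) (XT.lf (nat_lit 0) (nat_lit 1956964596) (nat_lit 304) (nat_lit 2318476885) (nat_lit 76) (nat_lit 7678961622) (nat_lit 75) (nat_lit 5) (nat_lit 79) (nat_lit 5) (nat_lit 76) (nat_lit 4) (nat_lit 624) (nat_lit 474) (nat_lit 462)) (XT.lf (nat_lit 0) (nat_lit 7308529243) (nat_lit 304) (nat_lit 4056395859) (nat_lit 0) (nat_lit 710509086) (nat_lit 72) (nat_lit 5)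 (nat_lit 76) (nat_lit 4) (nat_lit 72) (nat_lit 4) (nat_lit 625) (nat_lit 474) (nat_lit 461))))) (XT.nd (nat_lit 79950) (nat_lit 0) (nat_lit 3800) (XT.nd (nat_lit 78) (nat_lit 380) (nat_lit 0) (XT.lf (nat_lit 0) (nat_lit 574944923) (nat_lit 304) (nat_lit 5877265003) (nat_lit 76) (nat_lit 5746321129) (nat_lit 68) (nat_lit 5) (nat_lit 72) (nat_lit 5) (nat_lit 69) (nat_lit 4) (nat_lit 626) (nat_lit 474) (nat_lit 460)) (XT.nd (nat_lit 78) (nat_lit 228) (nat_lit 0) (XT.lf (nat_lit 0) (nat_lit 4540027328) (nat_lit 152) (nat_lit 1405851282) (nat_lit 228) (nat_lit 6377861623) (nat_lit 66) (nat_lit 5) (nat_lit 68) (nat_lit 5) (nat_lit 69) (nat_lit 4) (nat_lit 627) (nat_lit 474) (nat_lit 459)) (XT.lf (nat_lit 0) (nat_lit 2679341077) (nat_lit 228) (nat_lit 8755641290) (nat_lit 228) (nat_lit 1016258232) (nat_lit 63) (nat_lit 4) (nat_lit 66) (nat_lit 5) (nat_lit 66) (nat_lit 4) (nat_lit 628) (nat_lit 474) (nat_lit 458)))) (XT.nd (nat_lit 78) (nat_lit 684) (nat_lit 0) (XT.lf (nat_lit 0)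 (nat_lit 2556206382) (nat_lit 304) (nat_lit 1337690209) (nat_lit 304) (nat_lit 1337690209) (nat_lit 122) (nat_lit 4) (nat_lit 126) (nat_lit 5) (nat_lit 126) (nat_lit 4) (nat_lit 610) (nat_lit 475) (nat_lit 475)) (XT.nd (nat_lit 78) (nat_lit 304) (nat_lit 0) (XT.lf (nat_lit 0) (nat_lit 2338058463) (nat_lit 380) (nat_lit 6537211612) (nat_lit 0) (nat_lit 1683300124) (nat_lit 117) (nat_lit 5) (nat_lit 122) (nat_lit 4) (nat_lit 117) (nat_lit 4) (nat_lit 611) (nat_lit 475) (nat_lit 474)) (XT.lf (nat_lit 0) (nat_lit 2874849860) (nat_lit 304) (nat_lit 4538700229) (nat_lit 304) (nat_lit 3242021950) (nat_lit 113) (nat_lit 4) (nat_lit 117) (nat_lit 5) (nat_lit 117) (nat_lit 4) (nat_lit 612) (nat_lit 475) (nat_lit 473))))))))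
noncomputable def xc2 : XT := (XT.nd (nat_lit 81120) (nat_lit 0) (nat_lit 0) (XT.nd (nat_lit 780) (nat_lit 1216) (nat_lit 0) (XT.nd (nat_lit 390) (nat_lit 1292) (nat_lit 0) (XT.nd (nat_lit 156) (nat_lit 684) (nat_lit 0) (XT.nd (nat_lit 78) (nat_lit 304) (nat_lit 0) (XT.lf (nat_lit 0) (nat_lit 1694494738) (nat_lit 228) (nat_lit 97835108) (nat_lit 304) (nat_lit 8962341228) (nat_lit 109) (nat_lit 5) (nat_lit 112) (nat_lit 5) (nat_lit 113) (nat_lit 4) (nat_lit 613) (nat_lit 475) (nat_lit 472)) (XT.lf (nat_lit 0) (nat_lit 439169992) (nat_lit 304) (nat_lit 6454551654) (nat_lit 304) (nat_lit 3961409536) (nat_lit 105) (nat_lit 4) (nat_lit 109) (nat_lit 5) (nat_lit 109) (nat_lit 4) (nat_lit 614) (nat_lit 475) (nat_lit 471))) (XT.nd (nat_lit 78) (nat_lit 608) (nat_lit 0) (XT.lf (nat_lit 0) (nat_lit 1112139059) (nat_lit 380) (nat_lit 839656016) (nat_lit 76) (nat_lit 9005909417) (nat_lit 104) (nat_lit 5) (nat_lit 109) (nat_lit 5) (nat_lit 105) (nat_lit 4) (nat_lit 615) (nat_lit 475) (nat_lit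 470)) (XT.nd (nat_lit 78) (nat_lit 380) (nat_lit 0) (XT.lf (nat_lit 0) (nat_lit 6236441666) (nat_lit 304) (nat_lit 2184548681) (nat_lit 0) (nat_lit 2640771485) (nat_lit 101) (nat_lit 5) (nat_lit 105) (nat_lit 4) (nat_lit 101) (nat_lit 4) (nat_lit 616) (nat_lit 475) (nat_lit 469)) (XT.lf (nat_lit 0) (nat_lit 286784102) (nat_lit 380) (nat_lit 3575196232) (nat_lit 76) (nat_lit 7305977768) (nat_lit 96) (nat_lit 5) (nat_lit 101) (nat_lit 5) (nat_lit 97) (nat_lit 4) (nat_lit 617) (nat_lit 475) (nat_lit 468))))) (XT.nd (nat_lit 156) (nat_lit 836) (nat_lit 0) (XT.nd (nat_lit 78) (nat_lit 228) (nat_lit 0) (XT.lf (nat_lit 0) (nat_lit 5424839942) (nat_lit 304) (nat_lit 5036365945) (nat_lit 0) (nat_lit 814670720) (nat_lit 93) (nat_lit 5) (nat_lit 97) (nat_lit 4) (nat_lit 93) (nat_lit 4) (nat_lit 618) (nat_lit 475) (nat_lit 467)) (XT.lf (nat_lit 0) (nat_lit 4826661932) (nat_lit 228) (nat_lit 5847941178) (nat_lit 228) (nat_lit 711174024) (nat_lit 90) (nat_lit 4) (nat_lit 93) (nat_lit 5)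 (nat_lit 93) (nat_lit 4) (nat_lit 619) (nat_lit 475) (nat_lit 466))) (XT.nd (nat_lit 78) (nat_lit 532) (nat_lit 0) (XT.lf (nat_lit 0) (nat_lit 3347733712) (nat_lit 228) (nat_lit 1108094677) (nat_lit 304) (nat_lit 7041785854) (nat_lit 86) (nat_lit 5) (nat_lit 89) (nat_lit 5) (nat_lit 90) (nat_lit 4) (nat_lit 620) (nat_lit 475) (nat_lit 465)) (XT.nd (nat_lit 78) (nat_lit 304) (nat_lit 0) (XT.lf (nat_lit 0) (nat_lit 1800421015) (nat_lit 228) (nat_lit 7924713241) (nat_lit 228) (nat_lit 1886292528) (nat_lit 83) (nat_lit 4) (nat_lit 86) (nat_lit 5) (nat_lit 86) (nat_lit 4) (nat_lit 621) (nat_lit 475) (nat_lit 464)) (XT.lf (nat_lit 0) (nat_lit 181616480) (nat_lit 228) (nat_lit 3138449006) (nat_lit 304) (nat_lit 8407174854) (nat_lit 79) (nat_lit 5) (nat_lit 82) (nat_lit 5) (nat_lit 83) (nat_lit 4) (nat_lit 622) (nat_lit 475) (nat_lit 463)))))) (XT.nd (nat_lit 390) (nat_lit 228) (nat_lit 0) (XT.nd (nat_lit 156) (nat_lit 684) (nat_lit 0) (XT.nd (nat_lit 78) (nat_lit 304) (nat_lit 0)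 (XT.lf (nat_lit 0) (nat_lit 8611576335) (nat_lit 304) (nat_lit 1486424924) (nat_lit 0) (nat_lit 1746996164) (nat_lit 79) (nat_lit 5) (nat_lit 83) (nat_lit 4) (nat_lit 79) (nat_lit 4) (nat_lit 623) (nat_lit 475) (nat_lit 462)) (XT.lf (nat_lit 0) (nat_lit 2024679661) (nat_lit 304) (nat_lit 3233162443) (nat_lit 76) (nat_lit 6706850810) (nat_lit 75) (nat_lit 5) (nat_lit 79) (nat_lit 5) (nat_lit 76) (nat_lit 4) (nat_lit 624) (nat_lit 475) (nat_lit 461))) (XT.nd (nat_lit 78) (nat_lit 456) (nat_lit 0) (XT.lf (nat_lit 0) (nat_lit 7035328567) (nat_lit 228) (nat_lit 295260636) (nat_lit 304) (nat_lit 4756048965) (nat_lit 72) (nat_lit 5) (nat_lit 75) (nat_lit 5) (nat_lit 76) (nat_lit 4) (nat_lit 625) (nat_lit 475) (nat_lit 460)) (XT.nd (nat_lit 78) (nat_lit 152) (nat_lit 0) (XT.lf (nat_lit 0) (nat_lit 542072627) (nat_lit 304) (nat_lit 6957067425) (nat_lit 76) (nat_lit 4711466317) (nat_lit 68) (nat_lit 5) (nat_lit 72) (nat_lit 5) (nat_lit 69) (nat_lit 4) (nat_lit 626) (nat_lit 475) (nat_lit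 459)) (XT.lf (nat_lit 0) (nat_lit 3384062453) (nat_lit 152) (nat_lit 2487046377) (nat_lit 228) (nat_lit 6465545672) (nat_lit 66) (nat_lit 5) (nat_lit 68) (nat_lit 5) (nat_lit 69) (nat_lit 4) (nat_lit 627) (nat_lit 475) (nat_lit 458))))) (XT.nd (nat_lit 79716) (nat_lit 0) (nat_lit 4104) (XT.nd (nat_lit 79638) (nat_lit 0) (nat_lit 5168) (XT.lf (nat_lit 0) (nat_lit 1440117463) (nat_lit 228) (nat_lit 9870746147) (nat_lit 228) (nat_lit 1154279224) (nat_lit 63) (nat_lit 4) (nat_lit 66) (nat_lit 5) (nat_lit 66) (nat_lit 4) (nat_lit 628) (nat_lit 475) (nat_lit 457)) (XT.lf (nat_lit 0) (nat_lit 3614957352) (nat_lit 304) (nat_lit 761776022) (nat_lit 304) (nat_lit 761776022) (nat_lit 131) (nat_lit 4) (nat_lit 135) (nat_lit 5) (nat_lit 135) (nat_lit 4) (nat_lit 608) (nat_lit 476) (nat_lit 476))) (XT.nd (nat_lit 78) (nat_lit 684) (nat_lit 0) (XT.lf (nat_lit 0) (nat_lit 3420227860) (nat_lit 380) (nat_lit 4210290967) (nat_lit 0) (nat_lit 2739017285) (nat_lit 126) (nat_lit 5) (nat_lit 131)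 (nat_lit 4) (nat_lit 126) (nat_lit 4) (nat_lit 609) (nat_lit 476) (nat_lit 475)) (XT.nd (nat_lit 78) (nat_lit 380) (nat_lit 0) (XT.lf (nat_lit 0) (nat_lit 5050966321) (nat_lit 304) (nat_lit 3381006795) (nat_lit 304) (nat_lit 2031942714) (nat_lit 122) (nat_lit 4) (nat_lit 126) (nat_lit 5) (nat_lit 126) (nat_lit 4) (nat_lit 610) (nat_lit 476) (nat_lit 474)) (XT.lf (nat_lit 0) (nat_lit 2930958397) (nat_lit 380) (nat_lit 6662687400) (nat_lit 0) (nat_lit 966426613) (nat_lit 117) (nat_lit 5) (nat_lit 122) (nat_lit 4) (nat_lit 117) (nat_lit 4) (nat_lit 611) (nat_lit 476) (nat_lit 473))))))) (XT.nd (nat_lit 780) (nat_lit 1520) (nat_lit 0) (XT.nd (nat_lit 390) (nat_lit 1368) (nat_lit 0) (XT.nd (nat_lit 156) (nat_lit 608) (nat_lit 0) (XT.nd (nat_lit 78) (nat_lit 304) (nat_lit 0) (XT.lf (nat_lit 0) (nat_lit 2685998500) (nat_lit 304) (nat_lit 5282847209) (nat_lit 304) (nat_lit 2688982151) (nat_lit 113) (nat_lit 4) (nat_lit 117) (nat_lit 5) (nat_lit 117) (nat_lit 4) (nat_lit 612) (nat_lit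 476) (nat_lit 472)) (XT.lf (nat_lit 0) (nat_lit 1435417058) (nat_lit 228) (nat_lit 864719339) (nat_lit 304) (nat_lit 8457479751) (nat_lit 109) (nat_lit 5) (nat_lit 112) (nat_lit 5) (nat_lit 113) (nat_lit 4) (nat_lit 613) (nat_lit 476) (nat_lit 471))) (XT.nd (nat_lit 78) (nat_lit 304) (nat_lit 0) (XT.lf (nat_lit 0) (nat_lit 116755789) (nat_lit 304) (nat_lit 7241560697) (nat_lit 304) (nat_lit 3500625440) (nat_lit 105) (nat_lit 4) (nat_lit 109) (nat_lit 5) (nat_lit 109) (nat_lit 4) (nat_lit 614) (nat_lit 476) (nat_lit 470)) (XT.nd (nat_lit 78) (nat_lit 228) (nat_lit 0) (XT.lf (nat_lit 0) (nat_lit 1530816236) (nat_lit 380) (nat_lit 1230093126) (nat_lit 76) (nat_lit 8201268694) (nat_lit 104) (nat_lit 5) (nat_lit 109) (nat_lit 5) (nat_lit 105) (nat_lit 4) (nat_lit 615) (nat_lit 476) (nat_lit 469)) (XT.lf (nat_lit 0) (nat_lit 6611365721) (nat_lit 304) (nat_lit 2640800429) (nat_lit 0) (nat_lit 1814945662) (nat_lit 101) (nat_lit 5) (nat_lit 105) (nat_lit 4) (nat_lit 101) (nat_lit 4)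 (nat_lit 616) (nat_lit 476) (nat_lit 468))))) (XT.nd (nat_lit 156) (nat_lit 760) (nat_lit 0) (XT.nd (nat_lit 78) (nat_lit 228) (nat_lit 0) (XT.lf (nat_lit 0) (nat_lit 612646721) (nat_lit 380) (nat_lit 4106746169) (nat_lit 76) (nat_lit 6454645790) (nat_lit 96) (nat_lit 5) (nat_lit 101) (nat_lit 5) (nat_lit 97) (nat_lit 4) (nat_lit 617) (nat_lit 476) (nat_lit 467)) (XT.lf (nat_lit 0) (nat_lit 5645322629) (nat_lit 228) (nat_lit 60986809) (nat_lit 304) (nat_lit 5576536885) (nat_lit 93) (nat_lit 5) (nat_lit 96) (nat_lit 5) (nat_lit 97) (nat_lit 4) (nat_lit 618) (nat_lit 476) (nat_lit 466))) (XT.nd (nat_lit 78) (nat_lit 532) (nat_lit 0) (XT.lf (nat_lit 0) (nat_lit 4156734166) (nat_lit 228) (nat_lit 6759590897) (nat_lit 228) (nat_lit 477217987) (nat_lit 90) (nat_lit 4) (nat_lit 93) (nat_lit 5) (nat_lit 93) (nat_lit 4) (nat_lit 619) (nat_lit 476) (nat_lit 465)) (XT.nd (nat_lit 78) (nat_lit 228) (nat_lit 0) (XT.lf (nat_lit 0) (nat_lit 2598243319) (nat_lit 228) (nat_lit 2048670404)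 (nat_lit 304) (nat_lit 6859233306) (nat_lit 86) (nat_lit 5) (nat_lit 89) (nat_lit 5) (nat_lit 90) (nat_lit 4) (nat_lit 620) (nat_lit 476) (nat_lit 464)) (XT.lf (nat_lit 0) (nat_lit 977127688) (nat_lit 228) (nat_lit 8892833717) (nat_lit 228) (nat_lit 1750924507) (nat_lit 83) (nat_lit 4) (nat_lit 86) (nat_lit 5) (nat_lit 86) (nat_lit 4) (nat_lit 621) (nat_lit 476) (nat_lit 463)))))) (XT.nd (nat_lit 390) (nat_lit 380) (nat_lit 0) (XT.nd (nat_lit 156) (nat_lit 836) (nat_lit 0) (XT.nd (nat_lit 78) (nat_lit 228) (nat_lit 0) (XT.lf (nat_lit 0) (nat_lit 3417735005) (nat_lit 304) (nat_lit 715040469) (nat_lit 76) (nat_lit 7604626010) (nat_lit 82) (nat_lit 5) (nat_lit 86) (nat_lit 5) (nat_lit 83) (nat_lit 4) (nat_lit 622) (nat_lit 476) (nat_lit 462)) (XT.lf (nat_lit 0) (nat_lit 8663433361) (nat_lit 304) (nat_lit 2457120062) (nat_lit 0) (nat_lit 735522504) (nat_lit 79) (nat_lit 5) (nat_lit 83) (nat_lit 4) (nat_lit 79) (nat_lit 4) (nat_lit 623) (nat_lit 476) (nat_lit 461))) (XT.nd (nat_lit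 78) (nat_lit 532) (nat_lit 0) (XT.lf (nat_lit 0) (nat_lit 2023932071) (nat_lit 304) (nat_lit 4289014336) (nat_lit 76) (nat_lit 5663640610) (nat_lit 75) (nat_lit 5) (nat_lit 79) (nat_lit 5) (nat_lit 76) (nat_lit 4) (nat_lit 624) (nat_lit 476) (nat_lit 460)) (XT.nd (nat_lit 78) (nat_lit 304) (nat_lit 0) (XT.lf (nat_lit 0) (nat_lit 5905017111) (nat_lit 228) (nat_lit 1383600623) (nat_lit 304) (nat_lit 4810740060) (nat_lit 72) (nat_lit 5) (nat_lit 75) (nat_lit 5) (nat_lit 76) (nat_lit 4) (nat_lit 625) (nat_lit 476) (nat_lit 459)) (XT.lf (nat_lit 0) (nat_lit 439070655) (nat_lit 304) (nat_lit 8181689461) (nat_lit 76) (nat_lit 3603554549) (nat_lit 68) (nat_lit 5) (nat_lit 72) (nat_lit 5) (nat_lit 69) (nat_lit 4) (nat_lit 626) (nat_lit 476) (nat_lit 458))))) (XT.nd (nat_lit 79638) (nat_lit 0) (nat_lit 4788) (XT.nd (nat_lit 78) (nat_lit 228) (nat_lit 0) (XT.lf (nat_lit 0) (nat_lit 2082565396) (nat_lit 152) (nat_lit 3643373444) (nat_lit 228) (nat_lit 6625268306) (nat_lit 66) (nat_lit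 5) (nat_lit 68) (nat_lit 5) (nat_lit 69) (nat_lit 4) (nat_lit 627) (nat_lit 476) (nat_lit 457)) (XT.nd (nat_lit 79482) (nat_lit 0) (nat_lit 5852) (XT.lf (nat_lit 0) (nat_lit 53475956) (nat_lit 228) (nat_lit 11062095966) (nat_lit 228) (nat_lit 1365126955) (nat_lit 63) (nat_lit 4) (nat_lit 66) (nat_lit 5) (nat_lit 66) (nat_lit 4) (nat_lit 628) (nat_lit 476) (nat_lit 456)) (XT.lf (nat_lit 0) (nat_lit 4649401670) (nat_lit 380) (nat_lit 199358973) (nat_lit 380) (nat_lit 199358973) (nat_lit 140) (nat_lit 4) (nat_lit 145) (nat_lit 5) (nat_lit 145) (nat_lit 4) (nat_lit 606) (nat_lit 477) (nat_lit 477)))) (XT.nd (nat_lit 78) (nat_lit 684) (nat_lit 0) (XT.lf (nat_lit 0) (nat_lit 4476619768) (nat_lit 380) (nat_lit 1941430195) (nat_lit 0) (nat_lit 3767888285) (nat_lit 135) (nat_lit 5) (nat_lit 140) (nat_lit 4) (nat_lit 135) (nat_lit 4) (nat_lit 607) (nat_lit 477) (nat_lit 476)) (XT.nd (nat_lit 78) (nat_lit 380) (nat_lit 0) (XT.lf (nat_lit 0) (nat_lit 7169945285) (nat_lit 304) (nat_lit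 2255686396) (nat_lit 304) (nat_lit 852120125) (nat_lit 131) (nat_lit 4) (nat_lit 135) (nat_lit 5) (nat_lit 135) (nat_lit 4) (nat_lit 608) (nat_lit 477) (nat_lit 475)) (XT.lf (nat_lit 0) (nat_lit 4041066633) (nat_lit 380) (nat_lit 4332784902) (nat_lit 0) (nat_lit 1997167765) (nat_lit 126) (nat_lit 5) (nat_lit 131) (nat_lit 4) (nat_lit 126) (nat_lit 4) (nat_lit 609) (nat_lit 477) (nat_lit 474))))))))
noncomputable def xc3 : XT := (XT.nd (nat_lit 80808) (nat_lit 0) (nat_lit 456) (XT.nd (nat_lit 780) (nat_lit 1824) (nat_lit 0) (XT.nd (nat_lit 390) (nat_lit 1444) (nat_lit 0) (XT.nd (nat_lit 156) (nat_lit 608) (nat_lit 0) (XT.nd (nat_lit 78) (nat_lit 380) (nat_lit 0) (XT.lf (nat_lit 0) (nat_lit 4866602895) (nat_lit 304) (nat_lit 4149098561) (nat_lit 304) (nat_lit 1450441354) (nat_lit 122) (nat_lit 4) (nat_lit 126) (nat_lit 5) (nat_lit 126) (nat_lit 4) (nat_lit 610) (nat_lit 477) (nat_lit 473)) (XT.lf (nat_lit 0) (nat_lit 3462232437) (nat_lit 380) (nat_lit 6913688182) (nat_lit 0)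 (nat_lit 187156803) (nat_lit 117) (nat_lit 5) (nat_lit 122) (nat_lit 4) (nat_lit 117) (nat_lit 4) (nat_lit 611) (nat_lit 477) (nat_lit 472))) (XT.nd (nat_lit 78) (nat_lit 304) (nat_lit 0) (XT.lf (nat_lit 0) (nat_lit 2371163947) (nat_lit 304) (nat_lit 6091246820) (nat_lit 304) (nat_lit 2199177779) (nat_lit 113) (nat_lit 4) (nat_lit 117) (nat_lit 5) (nat_lit 117) (nat_lit 4) (nat_lit 612) (nat_lit 477) (nat_lit 471)) (XT.nd (nat_lit 78) (nat_lit 0) (nat_lit 0) (XT.lf (nat_lit 0) (nat_lit 1048784708) (nat_lit 228) (nat_lit 1696635710) (nat_lit 304) (nat_lit 8016656179) (nat_lit 109) (nat_lit 5) (nat_lit 112) (nat_lit 5) (nat_lit 113) (nat_lit 4) (nat_lit 613) (nat_lit 477) (nat_lit 470)) (XT.lf (nat_lit 0) (nat_lit 7762010449) (nat_lit 304) (nat_lit 330410115) (nat_lit 0) (nat_lit 2771815020) (nat_lit 109) (nat_lit 5) (nat_lit 113) (nat_lit 4) (nat_lit 109) (nat_lit 4) (nat_lit 614) (nat_lit 477) (nat_lit 469))))) (XT.nd (nat_lit 156) (nat_lit 836) (nat_lit 0) (XT.nd (nat_lit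 78) (nat_lit 228) (nat_lit 0) (XT.lf (nat_lit 0) (nat_lit 1886446779) (nat_lit 380) (nat_lit 1749579471) (nat_lit 76) (nat_lit 7332145977) (nat_lit 104) (nat_lit 5) (nat_lit 109) (nat_lit 5) (nat_lit 105) (nat_lit 4) (nat_lit 615) (nat_lit 477) (nat_lit 468)) (XT.lf (nat_lit 0) (nat_lit 6922664177) (nat_lit 304) (nat_lit 3227716483) (nat_lit 0) (nat_lit 923613292) (nat_lit 101) (nat_lit 5) (nat_lit 105) (nat_lit 4) (nat_lit 101) (nat_lit 4) (nat_lit 616) (nat_lit 477) (nat_lit 467))) (XT.nd (nat_lit 78) (nat_lit 456) (nat_lit 0) (XT.lf (nat_lit 0) (nat_lit 874043612) (nat_lit 380) (nat_lit 4770612679) (nat_lit 76) (nat_lit 5537006815) (nat_lit 96) (nat_lit 5) (nat_lit 101) (nat_lit 5) (nat_lit 97) (nat_lit 4) (nat_lit 617) (nat_lit 477) (nat_lit 466)) (XT.nd (nat_lit 78) (nat_lit 228) (nat_lit 0) (XT.lf (nat_lit 0) (nat_lit 4912789619) (nat_lit 228) (nat_lit 1015709552) (nat_lit 304) (nat_lit 5362756971) (nat_lit 93) (nat_lit 5) (nat_lit 96) (nat_lit 5) (nat_lit 97) (nat_lit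 4) (nat_lit 618) (nat_lit 477) (nat_lit 465)) (XT.lf (nat_lit 0) (nat_lit 3352243141) (nat_lit 228) (nat_lit 7740534024) (nat_lit 228) (nat_lit 310091682) (nat_lit 90) (nat_lit 4) (nat_lit 93) (nat_lit 5) (nat_lit 93) (nat_lit 4) (nat_lit 619) (nat_lit 477) (nat_lit 464)))))) (XT.nd (nat_lit 390) (nat_lit 684) (nat_lit 0) (XT.nd (nat_lit 156) (nat_lit 608) (nat_lit 0) (XT.nd (nat_lit 78) (nat_lit 228) (nat_lit 0) (XT.lf (nat_lit 0) (nat_lit 1712461458) (nat_lit 228) (nat_lit 3059384478) (nat_lit 304) (nat_lit 6744406410) (nat_lit 86) (nat_lit 5) (nat_lit 89) (nat_lit 5) (nat_lit 90) (nat_lit 4) (nat_lit 620) (nat_lit 477) (nat_lit 463)) (XT.lf (nat_lit 0) (nat_lit 15803272) (nat_lit 228) (nat_lit 9932163057) (nat_lit 228) (nat_lit 1683964602) (nat_lit 83) (nat_lit 4) (nat_lit 86) (nat_lit 5) (nat_lit 86) (nat_lit 4) (nat_lit 621) (nat_lit 477) (nat_lit 462))) (XT.nd (nat_lit 78) (nat_lit 532) (nat_lit 0) (XT.lf (nat_lit 0) (nat_lit 3449754022) (nat_lit 304) (nat_lit 1747299223)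 (nat_lit 76) (nat_lit 6552066927) (nat_lit 82) (nat_lit 5) (nat_lit 86) (nat_lit 5) (nat_lit 83) (nat_lit 4) (nat_lit 622) (nat_lit 477) (nat_lit 461)) (XT.nd (nat_lit 78) (nat_lit 304) (nat_lit 0) (XT.lf (nat_lit 0) (nat_lit 8298851255) (nat_lit 228) (nat_lit 351192701) (nat_lit 304) (nat_lit 3218659915) (nat_lit 79) (nat_lit 5) (nat_lit 82) (nat_lit 5) (nat_lit 83) (nat_lit 4) (nat_lit 623) (nat_lit 477) (nat_lit 460)) (XT.lf (nat_lit 0) (nat_lit 1954721532) (nat_lit 304) (nat_lit 5486446624) (nat_lit 76) (nat_lit 4548921919) (nat_lit 75) (nat_lit 5) (nat_lit 79) (nat_lit 5) (nat_lit 76) (nat_lit 4) (nat_lit 624) (nat_lit 477) (nat_lit 459))))) (XT.nd (nat_lit 156) (nat_lit 152) (nat_lit 0) (XT.nd (nat_lit 78) (nat_lit 304) (nat_lit 0) (XT.lf (nat_lit 0) (nat_lit 4632428591) (nat_lit 228) (nat_lit 2545495382) (nat_lit 304) (nat_lit 4935767568) (nat_lit 72) (nat_lit 5) (nat_lit 75) (nat_lit 5) (nat_lit 76) (nat_lit 4) (nat_lit 625) (nat_lit 477) (nat_lit 458)) (XT.lf (nat_lit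 0) (nat_lit 265898614) (nat_lit 304) (nat_lit 9551611357) (nat_lit 76) (nat_lit 2422151349) (nat_lit 68) (nat_lit 5) (nat_lit 72) (nat_lit 5) (nat_lit 69) (nat_lit 4) (nat_lit 626) (nat_lit 477) (nat_lit 457))) (XT.nd (nat_lit 78) (nat_lit 0) (nat_lit 0) (XT.lf (nat_lit 0) (nat_lit 635025765) (nat_lit 152) (nat_lit 4875285943) (nat_lit 228) (nat_lit 6857092160) (nat_lit 66) (nat_lit 5) (nat_lit 68) (nat_lit 5) (nat_lit 69) (nat_lit 4) (nat_lit 627) (nat_lit 477) (nat_lit 456)) (XT.nd (nat_lit 79326) (nat_lit 0) (nat_lit 6004) (XT.lf (nat_lit 0) (nat_lit 10858647177) (nat_lit 228) (nat_lit 1461701975) (nat_lit 0) (nat_lit 177373347) (nat_lit 66) (nat_lit 5) (nat_lit 69) (nat_lit 4) (nat_lit 66) (nat_lit 4) (nat_lit 628) (nat_lit 477) (nat_lit 455)) (XT.lf (nat_lit 0) (nat_lit 353924048) (nat_lit 380) (nat_lit 4252330612) (nat_lit 0) (nat_lit 353924048) (nat_lit 145) (nat_lit 5) (nat_lit 150) (nat_lit 4) (nat_lit 145) (nat_lit 4) (nat_lit 604) (nat_lit 478) (nat_lit 478)))))))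 (XT.nd (nat_lit 780) (nat_lit 2812) (nat_lit 0) (XT.nd (nat_lit 390) (nat_lit 1292) (nat_lit 0) (XT.nd (nat_lit 156) (nat_lit 988) (nat_lit 0) (XT.nd (nat_lit 78) (nat_lit 76) (nat_lit 0) (XT.lf (nat_lit 0) (nat_lit 281409178) (nat_lit 380) (nat_lit 5231791027) (nat_lit 380) (nat_lit 4494426792) (nat_lit 140) (nat_lit 4) (nat_lit 145) (nat_lit 5) (nat_lit 145) (nat_lit 4) (nat_lit 605) (nat_lit 478) (nat_lit 477)) (XT.lf (nat_lit 0) (nat_lit 297841788) (nat_lit 456) (nat_lit 858629934) (nat_lit 76) (nat_lit 8940452515) (nat_lit 139) (nat_lit 5) (nat_lit 145) (nat_lit 5) (nat_lit 140) (nat_lit 4) (nat_lit 606) (nat_lit 478) (nat_lit 476))) (XT.nd (nat_lit 78) (nat_lit 684) (nat_lit 0) (XT.lf (nat_lit 0) (nat_lit 5126447957) (nat_lit 380) (nat_lit 2060979674) (nat_lit 0) (nat_lit 2999975574) (nat_lit 135) (nat_lit 5) (nat_lit 140) (nat_lit 4) (nat_lit 135) (nat_lit 4) (nat_lit 607) (nat_lit 478) (nat_lit 475)) (XT.nd (nat_lit 78) (nat_lit 380) (nat_lit 0) (XT.lf (nat_lit 0)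 (nat_lit 6990013507) (nat_lit 304) (nat_lit 3048810293) (nat_lit 304) (nat_lit 241127335) (nat_lit 131) (nat_lit 4) (nat_lit 135) (nat_lit 5) (nat_lit 135) (nat_lit 4) (nat_lit 608) (nat_lit 478) (nat_lit 474)) (XT.lf (nat_lit 0) (nat_lit 4601777069) (nat_lit 380) (nat_lit 4577820808) (nat_lit 0) (nat_lit 1194388379) (nat_lit 126) (nat_lit 5) (nat_lit 131) (nat_lit 4) (nat_lit 126) (nat_lit 4) (nat_lit 609) (nat_lit 478) (nat_lit 473))))) (XT.nd (nat_lit 156) (nat_lit 608) (nat_lit 0) (XT.nd (nat_lit 78) (nat_lit 380) (nat_lit 0) (XT.lf (nat_lit 0) (nat_lit 4559250188) (nat_lit 304) (nat_lit 4979956930) (nat_lit 304) (nat_lit 930648300) (nat_lit 122) (nat_lit 4) (nat_lit 126) (nat_lit 5) (nat_lit 126) (nat_lit 4) (nat_lit 610) (nat_lit 478) (nat_lit 472)) (XT.lf (nat_lit 0) (nat_lit 3272879872) (nat_lit 304) (nat_lit 663517047) (nat_lit 380) (nat_lit 6631103336) (nat_lit 117) (nat_lit 5) (nat_lit 121) (nat_lit 5) (nat_lit 122) (nat_lit 4) (nat_lit 611) (nat_lit 478) (nat_lit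 471))) (XT.nd (nat_lit 78) (nat_lit 304) (nat_lit 0) (XT.lf (nat_lit 0) (nat_lit 1930222737) (nat_lit 304) (nat_lit 6964216080) (nat_lit 304) (nat_lit 1772416755) (nat_lit 113) (nat_lit 4) (nat_lit 117) (nat_lit 5) (nat_lit 117) (nat_lit 4) (nat_lit 612) (nat_lit 478) (nat_lit 470)) (XT.nd (nat_lit 78) (nat_lit 0) (nat_lit 0) (XT.lf (nat_lit 0) (nat_lit 534446069) (nat_lit 228) (nat_lit 2593910462) (nat_lit 304) (nat_lit 7639697641) (nat_lit 109) (nat_lit 5) (nat_lit 112) (nat_lit 5) (nat_lit 113) (nat_lit 4) (nat_lit 613) (nat_lit 478) (nat_lit 469)) (XT.lf (nat_lit 0) (nat_lit 8104384929) (nat_lit 304) (nat_lit 903668456) (nat_lit 0) (nat_lit 1862972388) (nat_lit 109) (nat_lit 5) (nat_lit 113) (nat_lit 4) (nat_lit 109) (nat_lit 4) (nat_lit 614) (nat_lit 478) (nat_lit 468)))))) (XT.nd (nat_lit 390) (nat_lit 1368) (nat_lit 0) (XT.nd (nat_lit 156) (nat_lit 836) (nat_lit 0) (XT.nd (nat_lit 78) (nat_lit 228) (nat_lit 0) (XT.lf (nat_lit 0) (nat_lit 2179170151) (nat_lit 380) (nat_lit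 2398318772) (nat_lit 76) (nat_lit 6398200435) (nat_lit 104) (nat_lit 5) (nat_lit 109) (nat_lit 5) (nat_lit 105) (nat_lit 4) (nat_lit 615) (nat_lit 478) (nat_lit 467)) (XT.lf (nat_lit 0) (nat_lit 7136658641) (nat_lit 228) (nat_lit 34021362) (nat_lit 304) (nat_lit 3911726532) (nat_lit 101) (nat_lit 5) (nat_lit 104) (nat_lit 5) (nat_lit 105) (nat_lit 4) (nat_lit 616) (nat_lit 478) (nat_lit 466))) (XT.nd (nat_lit 78) (nat_lit 456) (nat_lit 0) (XT.lf (nat_lit 0) (nat_lit 1071077283) (nat_lit 380) (nat_lit 5567056099) (nat_lit 76) (nat_lit 4552700985) (nat_lit 96) (nat_lit 5) (nat_lit 101) (nat_lit 5) (nat_lit 97) (nat_lit 4) (nat_lit 617) (nat_lit 478) (nat_lit 465)) (XT.nd (nat_lit 78) (nat_lit 228) (nat_lit 0) (XT.lf (nat_lit 0) (nat_lit 4047091233) (nat_lit 228) (nat_lit 2039045364) (nat_lit 304) (nat_lit 5215079958) (nat_lit 93) (nat_lit 5) (nat_lit 96) (nat_lit 5) (nat_lit 97) (nat_lit 4) (nat_lit 618) (nat_lit 478) (nat_lit 464)) (XT.lf (nat_lit 0) (nat_lit 2412873371) (nat_lit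 228) (nat_lit 8791155242) (nat_lit 228) (nat_lit 209729569) (nat_lit 90) (nat_lit 4) (nat_lit 93) (nat_lit 5) (nat_lit 93) (nat_lit 4) (nat_lit 619) (nat_lit 478) (nat_lit 463))))) (XT.nd (nat_lit 234) (nat_lit 760) (nat_lit 0) (XT.nd (nat_lit 78) (nat_lit 304) (nat_lit 0) (XT.lf (nat_lit 0) (nat_lit 690040763) (nat_lit 228) (nat_lit 4140633259) (nat_lit 304) (nat_lit 6697260136) (nat_lit 86) (nat_lit 5) (nat_lit 89) (nat_lit 5) (nat_lit 90) (nat_lit 4) (nat_lit 620) (nat_lit 478) (nat_lit 462)) (XT.nd (nat_lit 78) (nat_lit 304) (nat_lit 0) (XT.lf (nat_lit 0) (nat_lit 9966217208) (nat_lit 304) (nat_lit 1069713293) (nat_lit 0) (nat_lit 608494920) (nat_lit 86) (nat_lit 5) (nat_lit 90) (nat_lit 4) (nat_lit 86) (nat_lit 4) (nat_lit 621) (nat_lit 478) (nat_lit 461)) (XT.lf (nat_lit 0) (nat_lit 3414955919) (nat_lit 304) (nat_lit 2917946521) (nat_lit 76) (nat_lit 5429522143) (nat_lit 82) (nat_lit 5) (nat_lit 86) (nat_lit 5) (nat_lit 83) (nat_lit 4) (nat_lit 622) (nat_lit 478) (nat_lit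 460)))) (XT.nd (nat_lit 78) (nat_lit 532) (nat_lit 0) (XT.lf (nat_lit 0) (nat_lit 7054741354) (nat_lit 228) (nat_lit 1519686910) (nat_lit 304) (nat_lit 3308397436) (nat_lit 79) (nat_lit 5) (nat_lit 82) (nat_lit 5) (nat_lit 83) (nat_lit 4) (nat_lit 623) (nat_lit 478) (nat_lit 459)) (XT.nd (nat_lit 78) (nat_lit 228) (nat_lit 0) (XT.lf (nat_lit 0) (nat_lit 1817020902) (nat_lit 304) (nat_lit 6825928887) (nat_lit 76) (nat_lit 3362257592) (nat_lit 75) (nat_lit 5) (nat_lit 79) (nat_lit 5) (nat_lit 76) (nat_lit 4) (nat_lit 624) (nat_lit 478) (nat_lit 458)) (XT.lf (nat_lit 0) (nat_lit 3217063954) (nat_lit 228) (nat_lit 3781400559) (nat_lit 304) (nat_lit 5131180518) (nat_lit 72) (nat_lit 5) (nat_lit 75) (nat_lit 5) (nat_lit 76) (nat_lit 4) (nat_lit 625) (nat_lit 478) (nat_lit 457))))))))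
noncomputable def xc4 : XT := (XT.nd (nat_lit 80652) (nat_lit 0) (nat_lit 0) (XT.nd (nat_lit 79872) (nat_lit 0) (nat_lit 2052) (XT.nd (nat_lit 79482) (nat_lit 0) (nat_lit 4864) (XT.nd (nat_lit 156) (nat_lit 152) (nat_lit 0) (XT.nd (nat_lit 78) (nat_lit 0) (nat_lit 0) (XT.lf (nat_lit 0) (nat_lit 22488592) (nat_lit 304) (nat_lit 11067370336) (nat_lit 76) (nat_lit 1166793423) (nat_lit 68) (nat_lit 5) (nat_lit 72) (nat_lit 5) (nat_lit 69) (nat_lit 4) (nat_lit 626) (nat_lit 478) (nat_lit 456)) (XT.lf (nat_lit 0) (nat_lit 5230370147) (nat_lit 304) (nat_lit 946545016) (nat_lit 76) (nat_lit 6208211315) (nat_lit 68) (nat_lit 5) (nat_lit 72) (nat_lit 5) (nat_lit 69) (nat_lit 4) (nat_lit 627) (nat_lit 478) (nat_lit 455))) (XT.nd (nat_lit 79170) (nat_lit 0) (nat_lit 6384) (XT.lf (nat_lit 0) (nat_lit 9385955779) (nat_lit 152) (nat_lit 1153211800) (nat_lit 228) (nat_lit 1977069218) (nat_lit 66) (nat_lit 5) (nat_lit 68) (nat_lit 5) (nat_lit 69) (nat_lit 4) (nat_lit 628) (nat_lit 478) (nat_lit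 454)) (XT.nd (nat_lit 78) (nat_lit 380) (nat_lit 0) (XT.lf (nat_lit 0) (nat_lit 898926387) (nat_lit 456) (nat_lit 3076868236) (nat_lit 0) (nat_lit 898926387) (nat_lit 155) (nat_lit 5) (nat_lit 161) (nat_lit 4) (nat_lit 155) (nat_lit 4) (nat_lit 602) (nat_lit 479) (nat_lit 479)) (XT.lf (nat_lit 0) (nat_lit 2487669227) (nat_lit 380) (nat_lit 4056884090) (nat_lit 380) (nat_lit 3289730340) (nat_lit 150) (nat_lit 4) (nat_lit 155) (nat_lit 5) (nat_lit 155) (nat_lit 4) (nat_lit 603) (nat_lit 479) (nat_lit 478))))) (XT.nd (nat_lit 156) (nat_lit 760) (nat_lit 0) (XT.nd (nat_lit 78) (nat_lit 380) (nat_lit 0) (XT.lf (nat_lit 0) (nat_lit 1357086557) (nat_lit 304) (nat_lit 66849990) (nat_lit 380) (nat_lit 8497143116) (nat_lit 145) (nat_lit 5) (nat_lit 149) (nat_lit 5) (nat_lit 150) (nat_lit 4) (nat_lit 604) (nat_lit 479) (nat_lit 477)) (XT.lf (nat_lit 0) (nat_lit 163218246) (nat_lit 380) (nat_lit 6029126745) (nat_lit 380) (nat_lit 3816744878) (nat_lit 140) (nat_lit 4) (nat_lit 145) (nat_lit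 5) (nat_lit 145) (nat_lit 4) (nat_lit 605) (nat_lit 479) (nat_lit 476))) (XT.nd (nat_lit 78) (nat_lit 684) (nat_lit 0) (XT.lf (nat_lit 0) (nat_lit 930985692) (nat_lit 456) (nat_lit 1040522251) (nat_lit 76) (nat_lit 8127505851) (nat_lit 139) (nat_lit 5) (nat_lit 145) (nat_lit 5) (nat_lit 140) (nat_lit 4) (nat_lit 606) (nat_lit 479) (nat_lit 475)) (XT.nd (nat_lit 78) (nat_lit 380) (nat_lit 0) (XT.lf (nat_lit 0) (nat_lit 5717627687) (nat_lit 380) (nat_lit 2300125514) (nat_lit 0) (nat_lit 2172580494) (nat_lit 135) (nat_lit 5) (nat_lit 140) (nat_lit 4) (nat_lit 135) (nat_lit 4) (nat_lit 607) (nat_lit 479) (nat_lit 474)) (XT.lf (nat_lit 0) (nat_lit 305604608) (nat_lit 380) (nat_lit 3595579389) (nat_lit 76) (nat_lit 6382393433) (nat_lit 130) (nat_lit 5) (nat_lit 135) (nat_lit 5) (nat_lit 131) (nat_lit 4) (nat_lit 608) (nat_lit 479) (nat_lit 473)))))) (XT.nd (nat_lit 390) (nat_lit 1444) (nat_lit 0) (XT.nd (nat_lit 156) (nat_lit 760) (nat_lit 0) (XT.nd (nat_lit 78) (nat_lit 304) (nat_lit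 0) (XT.lf (nat_lit 0) (nat_lit 5102579054) (nat_lit 380) (nat_lit 4945494780) (nat_lit 0) (nat_lit 330364311) (nat_lit 126) (nat_lit 5) (nat_lit 131) (nat_lit 4) (nat_lit 126) (nat_lit 4) (nat_lit 609) (nat_lit 479) (nat_lit 472)) (XT.lf (nat_lit 0) (nat_lit 4128787667) (nat_lit 304) (nat_lit 5873907728) (nat_lit 304) (nat_lit 472359710) (nat_lit 122) (nat_lit 4) (nat_lit 126) (nat_lit 5) (nat_lit 126) (nat_lit 4) (nat_lit 610) (nat_lit 479) (nat_lit 471))) (XT.nd (nat_lit 78) (nat_lit 380) (nat_lit 0) (XT.lf (nat_lit 0) (nat_lit 2770426229) (nat_lit 304) (nat_lit 1580547856) (nat_lit 380) (nat_lit 6222421829) (nat_lit 117) (nat_lit 5) (nat_lit 121) (nat_lit 5) (nat_lit 122) (nat_lit 4) (nat_lit 611) (nat_lit 479) (nat_lit 470)) (XT.nd (nat_lit 78) (nat_lit 76) (nat_lit 0) (XT.lf (nat_lit 0) (nat_lit 1363001950) (nat_lit 304) (nat_lit 7902097330) (nat_lit 304) (nat_lit 1408531722) (nat_lit 113) (nat_lit 4) (nat_lit 117) (nat_lit 5) (nat_lit 117) (nat_lit 4) (nat_lit 612) (nat_lit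 479) (nat_lit 469)) (XT.lf (nat_lit 0) (nat_lit 3449794820) (nat_lit 380) (nat_lit 106386737) (nat_lit 76) (nat_lit 7219355660) (nat_lit 112) (nat_lit 5) (nat_lit 117) (nat_lit 5) (nat_lit 113) (nat_lit 4) (nat_lit 613) (nat_lit 479) (nat_lit 468))))) (XT.nd (nat_lit 156) (nat_lit 836) (nat_lit 0) (XT.nd (nat_lit 78) (nat_lit 380) (nat_lit 0) (XT.lf (nat_lit 0) (nat_lit 8384816133) (nat_lit 304) (nat_lit 1604775312) (nat_lit 0) (nat_lit 889738867) (nat_lit 109) (nat_lit 5) (nat_lit 113) (nat_lit 4) (nat_lit 109) (nat_lit 4) (nat_lit 614) (nat_lit 479) (nat_lit 467)) (XT.lf (nat_lit 0) (nat_lit 2409101147) (nat_lit 380) (nat_lit 3176565435) (nat_lit 76) (nat_lit 5399065815) (nat_lit 104) (nat_lit 5) (nat_lit 109) (nat_lit 5) (nat_lit 105) (nat_lit 4) (nat_lit 615) (nat_lit 479) (nat_lit 466))) (XT.nd (nat_lit 78) (nat_lit 608) (nat_lit 0) (XT.lf (nat_lit 0) (nat_lit 6290759630) (nat_lit 228) (nat_lit 1071041990) (nat_lit 304) (nat_lit 3730425416) (nat_lit 101) (nat_lit 5) (nat_lit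 104) (nat_lit 5) (nat_lit 105) (nat_lit 4) (nat_lit 616) (nat_lit 479) (nat_lit 465)) (XT.nd (nat_lit 78) (nat_lit 228) (nat_lit 0) (XT.lf (nat_lit 0) (nat_lit 1203825003) (nat_lit 380) (nat_lit 6496388763) (nat_lit 76) (nat_lit 3501342299) (nat_lit 96) (nat_lit 5) (nat_lit 101) (nat_lit 5) (nat_lit 97) (nat_lit 4) (nat_lit 617) (nat_lit 479) (nat_lit 464)) (XT.lf (nat_lit 0) (nat_lit 3047887981) (nat_lit 228) (nat_lit 3131395554) (nat_lit 304) (nat_lit 5133447933) (nat_lit 93) (nat_lit 5) (nat_lit 96) (nat_lit 5) (nat_lit 97) (nat_lit 4) (nat_lit 618) (nat_lit 479) (nat_lit 463))))))) (XT.nd (nat_lit 79716) (nat_lit 0) (nat_lit 4256) (XT.nd (nat_lit 390) (nat_lit 988) (nat_lit 0) (XT.nd (nat_lit 156) (nat_lit 760) (nat_lit 0) (XT.nd (nat_lit 78) (nat_lit 76) (nat_lit 0) (XT.lf (nat_lit 0) (nat_lit 1338256476) (nat_lit 228) (nat_lit 9911866559) (nat_lit 228) (nat_lit 176092290) (nat_lit 90) (nat_lit 4) (nat_lit 93) (nat_lit 5) (nat_lit 93) (nat_lit 4) (nat_lit 619) (nat_lit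 479) (nat_lit 462)) (XT.lf (nat_lit 0) (nat_lit 4826468837) (nat_lit 304) (nat_lit 463263188) (nat_lit 76) (nat_lit 6251404067) (nat_lit 89) (nat_lit 5) (nat_lit 93) (nat_lit 5) (nat_lit 90) (nat_lit 4) (nat_lit 620) (nat_lit 479) (nat_lit 461))) (XT.nd (nat_lit 78) (nat_lit 532) (nat_lit 0) (XT.lf (nat_lit 0) (nat_lit 9362748208) (nat_lit 228) (nat_lit 559569782) (nat_lit 304) (nat_lit 1736104354) (nat_lit 86) (nat_lit 5) (nat_lit 89) (nat_lit 5) (nat_lit 90) (nat_lit 4) (nat_lit 621) (nat_lit 479) (nat_lit 460)) (XT.nd (nat_lit 78) (nat_lit 228) (nat_lit 0) (XT.lf (nat_lit 0) (nat_lit 3313327049) (nat_lit 304) (nat_lit 4227441439) (nat_lit 76) (nat_lit 4236551443) (nat_lit 82) (nat_lit 5) (nat_lit 86) (nat_lit 5) (nat_lit 83) (nat_lit 4) (nat_lit 622) (nat_lit 479) (nat_lit 459)) (XT.lf (nat_lit 0) (nat_lit 5671074018) (nat_lit 228) (nat_lit 2760643650) (nat_lit 304) (nat_lit 3466826063) (nat_lit 79) (nat_lit 5) (nat_lit 82) (nat_lit 5) (nat_lit 83) (nat_lit 4) (nat_lit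 623) (nat_lit 479) (nat_lit 458))))) (XT.nd (nat_lit 156) (nat_lit 456) (nat_lit 0) (XT.nd (nat_lit 78) (nat_lit 228) (nat_lit 0) (XT.lf (nat_lit 0) (nat_lit 1610776183) (nat_lit 304) (nat_lit 8307986414) (nat_lit 76) (nat_lit 2103182273) (nat_lit 75) (nat_lit 5) (nat_lit 79) (nat_lit 5) (nat_lit 76) (nat_lit 4) (nat_lit 624) (nat_lit 479) (nat_lit 457)) (XT.lf (nat_lit 0) (nat_lit 1658368153) (nat_lit 228) (nat_lit 5091800823) (nat_lit 304) (nat_lit 5397055545) (nat_lit 72) (nat_lit 5) (nat_lit 75) (nat_lit 5) (nat_lit 76) (nat_lit 4) (nat_lit 625) (nat_lit 479) (nat_lit 456))) (XT.nd (nat_lit 78) (nat_lit 456) (nat_lit 0) (XT.lf (nat_lit 0) (nat_lit 11823898253) (nat_lit 228) (nat_lit 160234796) (nat_lit 304) (nat_lit 291043000) (nat_lit 72) (nat_lit 5) (nat_lit 75) (nat_lit 5) (nat_lit 76) (nat_lit 4) (nat_lit 626) (nat_lit 479) (nat_lit 455)) (XT.nd (nat_lit 78) (nat_lit 152) (nat_lit 0) (XT.lf (nat_lit 0) (nat_lit 4884853619) (nat_lit 304) (nat_lit 2665091695) (nat_lit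 76) (nat_lit 4854459623) (nat_lit 68) (nat_lit 5) (nat_lit 72) (nat_lit 5) (nat_lit 69) (nat_lit 4) (nat_lit 627) (nat_lit 479) (nat_lit 454)) (XT.lf (nat_lit 0) (nat_lit 7588585082) (nat_lit 152) (nat_lit 2562246179) (nat_lit 228) (nat_lit 2385541304) (nat_lit 66) (nat_lit 5) (nat_lit 68) (nat_lit 5) (nat_lit 69) (nat_lit 4) (nat_lit 628) (nat_lit 479) (nat_lit 453)))))) (XT.nd (nat_lit 390) (nat_lit 1748) (nat_lit 0) (XT.nd (nat_lit 156) (nat_lit 1216) (nat_lit 0) (XT.nd (nat_lit 78) (nat_lit 380) (nat_lit 0) (XT.lf (nat_lit 0) (nat_lit 1436164713) (nat_lit 456) (nat_lit 1919473801) (nat_lit 0) (nat_lit 1436164713) (nat_lit 166) (nat_lit 5) (nat_lit 172) (nat_lit 4) (nat_lit 166) (nat_lit 4) (nat_lit 600) (nat_lit 480) (nat_lit 480)) (XT.lf (nat_lit 0) (nat_lit 4659118756) (nat_lit 380) (nat_lit 2902546402) (nat_lit 380) (nat_lit 2104399640) (nat_lit 161) (nat_lit 4) (nat_lit 166) (nat_lit 5) (nat_lit 166) (nat_lit 4) (nat_lit 601) (nat_lit 480) (nat_lit 479))) (XT.nd (nat_lit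 78) (nat_lit 760) (nat_lit 0) (XT.lf (nat_lit 0) (nat_lit 2544316121) (nat_lit 456) (nat_lit 6211182883) (nat_lit 0) (nat_lit 994665546) (nat_lit 155) (nat_lit 5) (nat_lit 161) (nat_lit 4) (nat_lit 155) (nat_lit 4) (nat_lit 602) (nat_lit 480) (nat_lit 478)) (XT.nd (nat_lit 78) (nat_lit 380) (nat_lit 0) (XT.lf (nat_lit 0) (nat_lit 2372390913) (nat_lit 380) (nat_lit 4882550348) (nat_lit 380) (nat_lit 2580788254) (nat_lit 150) (nat_lit 4) (nat_lit 155) (nat_lit 5) (nat_lit 155) (nat_lit 4) (nat_lit 603) (nat_lit 480) (nat_lit 477)) (XT.lf (nat_lit 0) (nat_lit 1176977870) (nat_lit 304) (nat_lit 910202426) (nat_lit 380) (nat_lit 7835982925) (nat_lit 145) (nat_lit 5) (nat_lit 149) (nat_lit 5) (nat_lit 150) (nat_lit 4) (nat_lit 604) (nat_lit 480) (nat_lit 476))))) (XT.nd (nat_lit 234) (nat_lit 988) (nat_lit 0) (XT.nd (nat_lit 78) (nat_lit 760) (nat_lit 0) (XT.lf (nat_lit 0) (nat_lit 6814011987) (nat_lit 380) (nat_lit 72249803) (nat_lit 0) (nat_lit 3125744887) (nat_lit 145) (nat_lit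 5) (nat_lit 150) (nat_lit 4) (nat_lit 145) (nat_lit 4) (nat_lit 605) (nat_lit 480) (nat_lit 475)) (XT.nd (nat_lit 78) (nat_lit 304) (nat_lit 0) (XT.lf (nat_lit 0) (nat_lit 1506191313) (nat_lit 456) (nat_lit 1340595433) (nat_lit 76) (nat_lit 7255773751) (nat_lit 139) (nat_lit 5) (nat_lit 145) (nat_lit 5) (nat_lit 140) (nat_lit 4) (nat_lit 606) (nat_lit 480) (nat_lit 474)) (XT.lf (nat_lit 0) (nat_lit 6250390793) (nat_lit 380) (nat_lit 2658961499) (nat_lit 0) (nat_lit 1285378575) (nat_lit 135) (nat_lit 5) (nat_lit 140) (nat_lit 4) (nat_lit 135) (nat_lit 4) (nat_lit 607) (nat_lit 480) (nat_lit 473)))) (XT.nd (nat_lit 78) (nat_lit 608) (nat_lit 0) (XT.lf (nat_lit 0) (nat_lit 789977294) (nat_lit 380) (nat_lit 4024016423) (nat_lit 76) (nat_lit 5474655102) (nat_lit 130) (nat_lit 5) (nat_lit 135) (nat_lit 5) (nat_lit 131) (nat_lit 4) (nat_lit 608) (nat_lit 480) (nat_lit 472)) (XT.nd (nat_lit 78) (nat_lit 304) (nat_lit 0) (XT.lf (nat_lit 0) (nat_lit 4944431317) (nat_lit 304) (nat_lit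 603153739) (nat_lit 380) (nat_lit 4836713336) (nat_lit 126) (nat_lit 5) (nat_lit 130) (nat_lit 5) (nat_lit 131) (nat_lit 4) (nat_lit 609) (nat_lit 480) (nat_lit 471)) (XT.lf (nat_lit 0) (nat_lit 3575046526) (nat_lit 304) (nat_lit 6831301523) (nat_lit 304) (nat_lit 75395864) (nat_lit 122) (nat_lit 4) (nat_lit 126) (nat_lit 5) (nat_lit 126) (nat_lit 4) (nat_lit 610) (nat_lit 480) (nat_lit 470))))))))
noncomputable def xc5 : XT := (XT.nd (nat_lit 80340) (nat_lit 0) (nat_lit 1748) (XT.nd (nat_lit 780) (nat_lit 1748) (nat_lit 0) (XT.nd (nat_lit 390) (nat_lit 1140) (nat_lit 0) (XT.nd (nat_lit 156) (nat_lit 684) (nat_lit 0) (XT.nd (nat_lit 78) (nat_lit 304) (nat_lit 0) (XT.lf (nat_lit 0) (nat_lit 2143087193) (nat_lit 304) (nat_lit 2561808028) (nat_lit 380) (nat_lit 5875896119) (nat_lit 117) (nat_lit 5) (nat_lit 121) (nat_lit 5) (nat_lit 122) (nat_lit 4) (nat_lit 611) (nat_lit 480) (nat_lit 469)) (XT.lf (nat_lit 0) (nat_lit 669279148) (nat_lit 304) (nat_lit 8905258367) (nat_lit 304)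 (nat_lit 1107379979) (nat_lit 113) (nat_lit 4) (nat_lit 117) (nat_lit 5) (nat_lit 117) (nat_lit 4) (nat_lit 612) (nat_lit 480) (nat_lit 468))) (XT.nd (nat_lit 78) (nat_lit 608) (nat_lit 0) (XT.lf (nat_lit 0) (nat_lit 3713463228) (nat_lit 380) (nat_lit 866689201) (nat_lit 76) (nat_lit 6204304201) (nat_lit 112) (nat_lit 5) (nat_lit 117) (nat_lit 5) (nat_lit 113) (nat_lit 4) (nat_lit 613) (nat_lit 480) (nat_lit 467)) (XT.nd (nat_lit 78) (nat_lit 380) (nat_lit 0) (XT.lf (nat_lit 0) (nat_lit 8454151885) (nat_lit 228) (nat_lit 150237593) (nat_lit 304) (nat_lit 2284743476) (nat_lit 109) (nat_lit 5) (nat_lit 112) (nat_lit 5) (nat_lit 113) (nat_lit 4) (nat_lit 614) (nat_lit 480) (nat_lit 466)) (XT.lf (nat_lit 0) (nat_lit 2576329935) (nat_lit 380) (nat_lit 4084624656) (nat_lit 76) (nat_lit 4334350297) (nat_lit 104) (nat_lit 5) (nat_lit 109) (nat_lit 5) (nat_lit 105) (nat_lit 4) (nat_lit 615) (nat_lit 480) (nat_lit 465))))) (XT.nd (nat_lit 156) (nat_lit 532) (nat_lit 0) (XT.nd (nat_lit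 78) (nat_lit 380) (nat_lit 0) (XT.lf (nat_lit 0) (nat_lit 5314446644) (nat_lit 228) (nat_lit 2175580931) (nat_lit 304) (nat_lit 3613553260) (nat_lit 101) (nat_lit 5) (nat_lit 104) (nat_lit 5) (nat_lit 105) (nat_lit 4) (nat_lit 616) (nat_lit 480) (nat_lit 464)) (XT.lf (nat_lit 0) (nat_lit 1272338829) (nat_lit 380) (nat_lit 7558975113) (nat_lit 76) (nat_lit 2382518457) (nat_lit 96) (nat_lit 5) (nat_lit 101) (nat_lit 5) (nat_lit 97) (nat_lit 4) (nat_lit 617) (nat_lit 480) (nat_lit 463))) (XT.nd (nat_lit 78) (nat_lit 304) (nat_lit 0) (XT.lf (nat_lit 0) (nat_lit 1914788019) (nat_lit 228) (nat_lit 4293188495) (nat_lit 304) (nat_lit 5117828884) (nat_lit 93) (nat_lit 5) (nat_lit 96) (nat_lit 5) (nat_lit 97) (nat_lit 4) (nat_lit 618) (nat_lit 480) (nat_lit 462)) (XT.nd (nat_lit 78) (nat_lit 76) (nat_lit 0) (XT.lf (nat_lit 0) (nat_lit 127971037) (nat_lit 228) (nat_lit 11103107469) (nat_lit 228) (nat_lit 209166654) (nat_lit 90) (nat_lit 4) (nat_lit 93) (nat_lit 5) (nat_lit 93) (nat_lit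 4) (nat_lit 619) (nat_lit 480) (nat_lit 461)) (XT.lf (nat_lit 0) (nat_lit 4761552657) (nat_lit 304) (nat_lit 1743208340) (nat_lit 76) (nat_lit 5051055847) (nat_lit 89) (nat_lit 5) (nat_lit 93) (nat_lit 5) (nat_lit 90) (nat_lit 4) (nat_lit 620) (nat_lit 480) (nat_lit 460)))))) (XT.nd (nat_lit 390) (nat_lit 684) (nat_lit 0) (XT.nd (nat_lit 156) (nat_lit 532) (nat_lit 0) (XT.nd (nat_lit 78) (nat_lit 304) (nat_lit 0) (XT.lf (nat_lit 0) (nat_lit 8010316039) (nat_lit 228) (nat_lit 1806662147) (nat_lit 304) (nat_lit 1856934471) (nat_lit 86) (nat_lit 5) (nat_lit 89) (nat_lit 5) (nat_lit 90) (nat_lit 4) (nat_lit 621) (nat_lit 480) (nat_lit 459)) (XT.lf (nat_lit 0) (nat_lit 3144827560) (nat_lit 304) (nat_lit 5676297506) (nat_lit 76) (nat_lit 2972686997) (nat_lit 82) (nat_lit 5) (nat_lit 86) (nat_lit 5) (nat_lit 83) (nat_lit 4) (nat_lit 622) (nat_lit 480) (nat_lit 458))) (XT.nd (nat_lit 78) (nat_lit 304) (nat_lit 0) (XT.lf (nat_lit 0) (nat_lit 4147306634) (nat_lit 228) (nat_lit 4074549568)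 (nat_lit 304) (nat_lit 3694007926) (nat_lit 79) (nat_lit 5) (nat_lit 82) (nat_lit 5) (nat_lit 83) (nat_lit 4) (nat_lit 623) (nat_lit 480) (nat_lit 457)) (XT.nd (nat_lit 78) (nat_lit 0) (nat_lit 0) (XT.lf (nat_lit 0) (nat_lit 1335906492) (nat_lit 304) (nat_lit 9933200402) (nat_lit 76) (nat_lit 771202204) (nat_lit 75) (nat_lit 5) (nat_lit 79) (nat_lit 5) (nat_lit 76) (nat_lit 4) (nat_lit 624) (nat_lit 480) (nat_lit 456)) (XT.lf (nat_lit 0) (nat_lit 6433227422) (nat_lit 304) (nat_lit 43689453) (nat_lit 76) (nat_lit 5689514279) (nat_lit 75) (nat_lit 5) (nat_lit 79) (nat_lit 5) (nat_lit 76) (nat_lit 4) (nat_lit 625) (nat_lit 480) (nat_lit 455))))) (XT.nd (nat_lit 156) (nat_lit 152) (nat_lit 0) (XT.nd (nat_lit 78) (nat_lit 304) (nat_lit 0) (XT.lf (nat_lit 0) (nat_lit 10066528673) (nat_lit 228) (nat_lit 1569329217) (nat_lit 304) (nat_lit 659152412) (nat_lit 72) (nat_lit 5) (nat_lit 75) (nat_lit 5) (nat_lit 76) (nat_lit 4) (nat_lit 626) (nat_lit 480) (nat_lit 454)) (XT.lf (nat_lit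 0) (nat_lit 4469503622) (nat_lit 304) (nat_lit 4529616689) (nat_lit 76) (nat_lit 3426208959) (nat_lit 68) (nat_lit 5) (nat_lit 72) (nat_lit 5) (nat_lit 69) (nat_lit 4) (nat_lit 627) (nat_lit 480) (nat_lit 453))) (XT.nd (nat_lit 78858) (nat_lit 0) (nat_lit 8056) (XT.lf (nat_lit 0) (nat_lit 5644393848) (nat_lit 152) (nat_lit 4047925152) (nat_lit 228) (nat_lit 2865842035) (nat_lit 66) (nat_lit 5) (nat_lit 68) (nat_lit 5) (nat_lit 69) (nat_lit 4) (nat_lit 628) (nat_lit 480) (nat_lit 452)) (XT.nd (nat_lit 78) (nat_lit 380) (nat_lit 0) (XT.lf (nat_lit 0) (nat_lit 1967384904) (nat_lit 456) (nat_lit 776611150) (nat_lit 0) (nat_lit 1967384904) (nat_lit 177) (nat_lit 5) (nat_lit 183) (nat_lit 4) (nat_lit 177) (nat_lit 4) (nat_lit 598) (nat_lit 481) (nat_lit 481)) (XT.lf (nat_lit 0) (nat_lit 6802943073) (nat_lit 380) (nat_lit 1765163735) (nat_lit 380) (nat_lit 934771844) (nat_lit 172) (nat_lit 4) (nat_lit 177) (nat_lit 5) (nat_lit 177) (nat_lit 4) (nat_lit 599) (nat_lit 481) (nat_lit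 480))))))) (XT.nd (nat_lit 780) (nat_lit 2812) (nat_lit 0) (XT.nd (nat_lit 390) (nat_lit 1444) (nat_lit 0) (XT.nd (nat_lit 156) (nat_lit 1216) (nat_lit 0) (XT.nd (nat_lit 78) (nat_lit 380) (nat_lit 0) (XT.lf (nat_lit 0) (nat_lit 3650809197) (nat_lit 456) (nat_lit 3894959051) (nat_lit 0) (nat_lit 2038552739) (nat_lit 166) (nat_lit 5) (nat_lit 172) (nat_lit 4) (nat_lit 166) (nat_lit 4) (nat_lit 600) (nat_lit 481) (nat_lit 479)) (XT.lf (nat_lit 0) (nat_lit 4546719994) (nat_lit 380) (nat_lit 3757763868) (nat_lit 380) (nat_lit 1363010585) (nat_lit 161) (nat_lit 4) (nat_lit 166) (nat_lit 5) (nat_lit 166) (nat_lit 4) (nat_lit 601) (nat_lit 481) (nat_lit 478))) (XT.nd (nat_lit 78) (nat_lit 760) (nat_lit 0) (XT.lf (nat_lit 0) (nat_lit 3234348317) (nat_lit 456) (nat_lit 6383544638) (nat_lit 0) (nat_lit 134439461) (nat_lit 155) (nat_lit 5) (nat_lit 161) (nat_lit 4) (nat_lit 155) (nat_lit 4) (nat_lit 602) (nat_lit 481) (nat_lit 477)) (XT.nd (nat_lit 78) (nat_lit 380) (nat_lit 0) (XT.lf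 (nat_lit 0) (nat_lit 2141789077) (nat_lit 380) (nat_lit 5767052904) (nat_lit 380) (nat_lit 1929779814) (nat_lit 150) (nat_lit 4) (nat_lit 155) (nat_lit 5) (nat_lit 155) (nat_lit 4) (nat_lit 603) (nat_lit 481) (nat_lit 476)) (XT.lf (nat_lit 0) (nat_lit 880049534) (nat_lit 304) (nat_lit 1813133008) (nat_lit 380) (nat_lit 7233519502) (nat_lit 145) (nat_lit 5) (nat_lit 149) (nat_lit 5) (nat_lit 150) (nat_lit 4) (nat_lit 604) (nat_lit 481) (nat_lit 475))))) (XT.nd (nat_lit 156) (nat_lit 988) (nat_lit 0) (XT.nd (nat_lit 78) (nat_lit 456) (nat_lit 0) (XT.lf (nat_lit 0) (nat_lit 7379797468) (nat_lit 380) (nat_lit 422355296) (nat_lit 0) (nat_lit 2214198756) (nat_lit 145) (nat_lit 5) (nat_lit 150) (nat_lit 4) (nat_lit 145) (nat_lit 4) (nat_lit 605) (nat_lit 481) (nat_lit 474)) (XT.lf (nat_lit 0) (nat_lit 2023684223) (nat_lit 456) (nat_lit 1758967155) (nat_lit 76) (nat_lit 6324914360) (nat_lit 139) (nat_lit 5) (nat_lit 145) (nat_lit 5) (nat_lit 140) (nat_lit 4) (nat_lit 606) (nat_lit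 481) (nat_lit 473))) (XT.nd (nat_lit 78) (nat_lit 684) (nat_lit 0) (XT.lf (nat_lit 0) (nat_lit 6724946201) (nat_lit 380) (nat_lit 3137628347) (nat_lit 0) (nat_lit 338021894) (nat_lit 135) (nat_lit 5) (nat_lit 140) (nat_lit 4) (nat_lit 135) (nat_lit 4) (nat_lit 607) (nat_lit 481) (nat_lit 472)) (XT.nd (nat_lit 78) (nat_lit 304) (nat_lit 0) (XT.lf (nat_lit 0) (nat_lit 1215343099) (nat_lit 380) (nat_lit 4573851186) (nat_lit 76) (nat_lit 4506004315) (nat_lit 130) (nat_lit 5) (nat_lit 135) (nat_lit 5) (nat_lit 131) (nat_lit 4) (nat_lit 608) (nat_lit 481) (nat_lit 471)) (XT.lf (nat_lit 0) (nat_lit 4331801077) (nat_lit 304) (nat_lit 1603831892) (nat_lit 380) (nat_lit 4455963056) (nat_lit 126) (nat_lit 5) (nat_lit 130) (nat_lit 5) (nat_lit 131) (nat_lit 4) (nat_lit 609) (nat_lit 481) (nat_lit 470)))))) (XT.nd (nat_lit 390) (nat_lit 1520) (nat_lit 0) (XT.nd (nat_lit 156) (nat_lit 608) (nat_lit 0) (XT.nd (nat_lit 78) (nat_lit 304) (nat_lit 0) (XT.lf (nat_lit 0) (nat_lit 256983731) (nat_lit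 380) (nat_lit 7593805536) (nat_lit 76) (nat_lit 2639101382) (nat_lit 121) (nat_lit 5) (nat_lit 126) (nat_lit 5) (nat_lit 122) (nat_lit 4) (nat_lit 610) (nat_lit 481) (nat_lit 469)) (XT.lf (nat_lit 0) (nat_lit 1390616749) (nat_lit 304) (nat_lit 3607682371) (nat_lit 380) (nat_lit 5591390312) (nat_lit 117) (nat_lit 5) (nat_lit 121) (nat_lit 5) (nat_lit 122) (nat_lit 4) (nat_lit 611) (nat_lit 481) (nat_lit 468))) (XT.nd (nat_lit 78) (nat_lit 608) (nat_lit 0) (XT.lf (nat_lit 0) (nat_lit 9823856675) (nat_lit 380) (nat_lit 149234469) (nat_lit 0) (nat_lit 718607516) (nat_lit 117) (nat_lit 5) (nat_lit 122) (nat_lit 4) (nat_lit 117) (nat_lit 4) (nat_lit 612) (nat_lit 481) (nat_lit 467)) (XT.nd (nat_lit 78) (nat_lit 228) (nat_lit 0) (XT.lf (nat_lit 0) (nat_lit 3915995178) (nat_lit 380) (nat_lit 1753768836) (nat_lit 76) (nat_lit 5125121295) (nat_lit 112) (nat_lit 5) (nat_lit 117) (nat_lit 5) (nat_lit 113) (nat_lit 4) (nat_lit 613) (nat_lit 481) (nat_lit 466)) (XT.lf (nat_lit 0) (nat_lit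 7500413576) (nat_lit 228) (nat_lit 1268084027) (nat_lit 304) (nat_lit 2131833806) (nat_lit 109) (nat_lit 5) (nat_lit 112) (nat_lit 5) (nat_lit 113) (nat_lit 4) (nat_lit 614) (nat_lit 481) (nat_lit 465))))) (XT.nd (nat_lit 234) (nat_lit 532) (nat_lit 0) (XT.nd (nat_lit 78) (nat_lit 608) (nat_lit 0) (XT.lf (nat_lit 0) (nat_lit 2680922096) (nat_lit 380) (nat_lit 5122852536) (nat_lit 76) (nat_lit 3203636348) (nat_lit 104) (nat_lit 5) (nat_lit 109) (nat_lit 5) (nat_lit 105) (nat_lit 4) (nat_lit 615) (nat_lit 481) (nat_lit 464)) (XT.nd (nat_lit 78) (nat_lit 380) (nat_lit 0) (XT.lf (nat_lit 0) (nat_lit 4207336814) (nat_lit 228) (nat_lit 3348071337) (nat_lit 304) (nat_lit 3561064232) (nat_lit 101) (nat_lit 5) (nat_lit 104) (nat_lit 5) (nat_lit 105) (nat_lit 4) (nat_lit 616) (nat_lit 481) (nat_lit 463)) (XT.lf (nat_lit 0) (nat_lit 1276645630) (nat_lit 380) (nat_lit 8755231850) (nat_lit 76) (nat_lit 1195790707) (nat_lit 96) (nat_lit 5) (nat_lit 101) (nat_lit 5) (nat_lit 97) (nat_lit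 4) (nat_lit 617) (nat_lit 481) (nat_lit 462)))) (XT.nd (nat_lit 78) (nat_lit 304) (nat_lit 0) (XT.lf (nat_lit 0) (nat_lit 647346995) (nat_lit 228) (nat_lit 5524879791) (nat_lit 304) (nat_lit 5168216686) (nat_lit 93) (nat_lit 5) (nat_lit 96) (nat_lit 5) (nat_lit 97) (nat_lit 4) (nat_lit 618) (nat_lit 481) (nat_lit 461)) (XT.nd (nat_lit 78) (nat_lit 304) (nat_lit 0) (XT.lf (nat_lit 0) (nat_lit 10247167611) (nat_lit 228) (nat_lit 913562436) (nat_lit 304) (nat_lit 294846293) (nat_lit 93) (nat_lit 5) (nat_lit 96) (nat_lit 5) (nat_lit 97) (nat_lit 4) (nat_lit 619) (nat_lit 481) (nat_lit 460)) (XT.lf (nat_lit 0) (nat_lit 4631419823) (nat_lit 304) (nat_lit 3159346640) (nat_lit 76) (nat_lit 3781305313) (nat_lit 89) (nat_lit 5) (nat_lit 93) (nat_lit 5) (nat_lit 90) (nat_lit 4) (nat_lit 620) (nat_lit 481) (nat_lit 459))))))))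
noncomputable def xc6 : XT := (XT.nd (nat_lit 80184) (nat_lit 0) (nat_lit 0) (XT.nd (nat_lit 79404) (nat_lit 0) (nat_lit 5244) (XT.nd (nat_lit 390) (nat_lit 684) (nat_lit 0) (XT.nd (nat_lit 156) (nat_lit 532) (nat_lit 0) (XT.nd (nat_lit 78) (nat_lit 304) (nat_lit 0) (XT.lf (nat_lit 0) (nat_lit 6520968576) (nat_lit 228) (nat_lit 3125184653) (nat_lit 304) (nat_lit 2044829270) (nat_lit 86) (nat_lit 5) (nat_lit 89) (nat_lit 5) (nat_lit 90) (nat_lit 4) (nat_lit 621) (nat_lit 481) (nat_lit 458)) (XT.lf (nat_lit 0) (nat_lit 2909391371) (nat_lit 304) (nat_lit 7265082900) (nat_lit 76) (nat_lit 1637433171) (nat_lit 82) (nat_lit 5) (nat_lit 86) (nat_lit 5) (nat_lit 83) (nat_lit 4) (nat_lit 622) (nat_lit 481) (nat_lit 457))) (XT.nd (nat_lit 78) (nat_lit 304) (nat_lit 0) (XT.lf (nat_lit 0) (nat_lit 2482841644) (nat_lit 228) (nat_lit 5461919924) (nat_lit 304) (nat_lit 3990032114) (nat_lit 79) (nat_lit 5) (nat_lit 82) (nat_lit 5) (nat_lit 83) (nat_lit 4) (nat_lit 623) (nat_lit 481) (nat_lit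 456)) (XT.nd (nat_lit 78) (nat_lit 0) (nat_lit 0) (XT.lf (nat_lit 0) (nat_lit 353843233) (nat_lit 228) (nat_lit 642633207) (nat_lit 304) (nat_lit 11063747385) (nat_lit 75) (nat_lit 5) (nat_lit 78) (nat_lit 5) (nat_lit 79) (nat_lit 5) (nat_lit 624) (nat_lit 481) (nat_lit 455)) (XT.lf (nat_lit 0) (nat_lit 6058934147) (nat_lit 304) (nat_lit 1866710794) (nat_lit 76) (nat_lit 4261399151) (nat_lit 75) (nat_lit 5) (nat_lit 79) (nat_lit 5) (nat_lit 76) (nat_lit 4) (nat_lit 625) (nat_lit 481) (nat_lit 454))))) (XT.nd (nat_lit 156) (nat_lit 152) (nat_lit 0) (XT.nd (nat_lit 78) (nat_lit 304) (nat_lit 0) (XT.lf (nat_lit 0) (nat_lit 8165622140) (nat_lit 228) (nat_lit 3053511489) (nat_lit 304) (nat_lit 1097339160) (nat_lit 72) (nat_lit 5) (nat_lit 75) (nat_lit 5) (nat_lit 76) (nat_lit 4) (nat_lit 626) (nat_lit 481) (nat_lit 453)) (XT.lf (nat_lit 0) (nat_lit 3984157272) (nat_lit 304) (nat_lit 6540851183) (nat_lit 76) (nat_lit 1922899225) (nat_lit 68) (nat_lit 5) (nat_lit 72) (nat_lit 5)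 (nat_lit 69) (nat_lit 4) (nat_lit 627) (nat_lit 481) (nat_lit 452))) (XT.nd (nat_lit 78702) (nat_lit 0) (nat_lit 8816) (XT.lf (nat_lit 0) (nat_lit 3552619651) (nat_lit 152) (nat_lit 5610831340) (nat_lit 228) (nat_lit 3418159762) (nat_lit 66) (nat_lit 5) (nat_lit 68) (nat_lit 5) (nat_lit 69) (nat_lit 4) (nat_lit 628) (nat_lit 481) (nat_lit 451)) (XT.nd (nat_lit 78) (nat_lit 76) (nat_lit 0) (XT.lf (nat_lit 0) (nat_lit 359807026) (nat_lit 456) (nat_lit 2136779698) (nat_lit 456) (nat_lit 2136779698) (nat_lit 183) (nat_lit 4) (nat_lit 189) (nat_lit 5) (nat_lit 189) (nat_lit 4) (nat_lit 596) (nat_lit 482) (nat_lit 482)) (XT.lf (nat_lit 0) (nat_lit 219719822) (nat_lit 532) (nat_lit 420105681) (nat_lit 76) (nat_lit 8704785829) (nat_lit 182) (nat_lit 5) (nat_lit 189) (nat_lit 5) (nat_lit 183) (nat_lit 4) (nat_lit 597) (nat_lit 482) (nat_lit 481)))))) (XT.nd (nat_lit 390) (nat_lit 1520) (nat_lit 0) (XT.nd (nat_lit 156) (nat_lit 1292) (nat_lit 0) (XT.nd (nat_lit 78) (nat_lit 380) (nat_lit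 0) (XT.lf (nat_lit 0) (nat_lit 4746523010) (nat_lit 456) (nat_lit 1607814458) (nat_lit 0) (nat_lit 3069131391) (nat_lit 177) (nat_lit 5) (nat_lit 183) (nat_lit 4) (nat_lit 177) (nat_lit 4) (nat_lit 598) (nat_lit 482) (nat_lit 480)) (XT.lf (nat_lit 0) (nat_lit 6693392415) (nat_lit 380) (nat_lit 2651200900) (nat_lit 380) (nat_lit 159699584) (nat_lit 172) (nat_lit 4) (nat_lit 177) (nat_lit 5) (nat_lit 177) (nat_lit 4) (nat_lit 599) (nat_lit 482) (nat_lit 479))) (XT.nd (nat_lit 78) (nat_lit 836) (nat_lit 0) (XT.lf (nat_lit 0) (nat_lit 4374297337) (nat_lit 456) (nat_lit 4063015361) (nat_lit 0) (nat_lit 1149152163) (nat_lit 166) (nat_lit 5) (nat_lit 172) (nat_lit 4) (nat_lit 166) (nat_lit 4) (nat_lit 600) (nat_lit 482) (nat_lit 478)) (XT.nd (nat_lit 78) (nat_lit 456) (nat_lit 0) (XT.lf (nat_lit 0) (nat_lit 4321878390) (nat_lit 380) (nat_lit 4670387418) (nat_lit 380) (nat_lit 678088495) (nat_lit 161) (nat_lit 4) (nat_lit 166) (nat_lit 5) (nat_lit 166) (nat_lit 4) (nat_lit 601) (nat_lit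 482) (nat_lit 477)) (XT.lf (nat_lit 0) (nat_lit 3079801702) (nat_lit 380) (nat_lit 793570646) (nat_lit 456) (nat_lit 5882471074) (nat_lit 155) (nat_lit 5) (nat_lit 160) (nat_lit 5) (nat_lit 161) (nat_lit 4) (nat_lit 602) (nat_lit 482) (nat_lit 476))))) (XT.nd (nat_lit 156) (nat_lit 760) (nat_lit 0) (XT.nd (nat_lit 78) (nat_lit 380) (nat_lit 0) (XT.lf (nat_lit 0) (nat_lit 1795773289) (nat_lit 380) (nat_lit 6710738623) (nat_lit 380) (nat_lit 1336449723) (nat_lit 150) (nat_lit 4) (nat_lit 155) (nat_lit 5) (nat_lit 155) (nat_lit 4) (nat_lit 603) (nat_lit 482) (nat_lit 475)) (XT.lf (nat_lit 0) (nat_lit 466185108) (nat_lit 304) (nat_lit 2775995827) (nat_lit 380) (nat_lit 6689516587) (nat_lit 145) (nat_lit 5) (nat_lit 149) (nat_lit 5) (nat_lit 150) (nat_lit 4) (nat_lit 604) (nat_lit 482) (nat_lit 474))) (XT.nd (nat_lit 78) (nat_lit 760) (nat_lit 0) (XT.lf (nat_lit 0) (nat_lit 7888863589) (nat_lit 380) (nat_lit 889376164) (nat_lit 0) (nat_lit 1243907540) (nat_lit 145) (nat_lit 5)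 (nat_lit 150) (nat_lit 4) (nat_lit 145) (nat_lit 4) (nat_lit 605) (nat_lit 482) (nat_lit 473)) (XT.nd (nat_lit 78) (nat_lit 304) (nat_lit 0) (XT.lf (nat_lit 0) (nat_lit 2483667360) (nat_lit 456) (nat_lit 2295801485) (nat_lit 76) (nat_lit 5334562634) (nat_lit 139) (nat_lit 5) (nat_lit 145) (nat_lit 5) (nat_lit 140) (nat_lit 4) (nat_lit 606) (nat_lit 482) (nat_lit 472)) (XT.lf (nat_lit 0) (nat_lit 6467123834) (nat_lit 304) (nat_lit 678763159) (nat_lit 380) (nat_lit 3061957593) (nat_lit 135) (nat_lit 5) (nat_lit 139) (nat_lit 5) (nat_lit 140) (nat_lit 4) (nat_lit 607) (nat_lit 482) (nat_lit 471))))))) (XT.nd (nat_lit 780) (nat_lit 2280) (nat_lit 0) (XT.nd (nat_lit 390) (nat_lit 1596) (nat_lit 0) (XT.nd (nat_lit 156) (nat_lit 684) (nat_lit 0) (XT.nd (nat_lit 78) (nat_lit 304) (nat_lit 0) (XT.lf (nat_lit 0) (nat_lit 1581868834) (nat_lit 380) (nat_lit 5245299301) (nat_lit 76) (nat_lit 3476061209) (nat_lit 130) (nat_lit 5) (nat_lit 135) (nat_lit 5) (nat_lit 131) (nat_lit 4) (nat_lit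 608) (nat_lit 482) (nat_lit 470)) (XT.lf (nat_lit 0) (nat_lit 3597029317) (nat_lit 304) (nat_lit 2667672202) (nat_lit 380) (nat_lit 4135675857) (nat_lit 126) (nat_lit 5) (nat_lit 130) (nat_lit 5) (nat_lit 131) (nat_lit 4) (nat_lit 609) (nat_lit 482) (nat_lit 469))) (XT.nd (nat_lit 78) (nat_lit 304) (nat_lit 0) (XT.lf (nat_lit 0) (nat_lit 528137626) (nat_lit 380) (nat_lit 8406263219) (nat_lit 76) (nat_lit 1565129627) (nat_lit 121) (nat_lit 5) (nat_lit 126) (nat_lit 5) (nat_lit 122) (nat_lit 4) (nat_lit 610) (nat_lit 482) (nat_lit 468)) (XT.nd (nat_lit 78) (nat_lit 0) (nat_lit 0) (XT.lf (nat_lit 0) (nat_lit 512719809) (nat_lit 304) (nat_lit 4718581032) (nat_lit 380) (nat_lit 5368792837) (nat_lit 117) (nat_lit 5) (nat_lit 121) (nat_lit 5) (nat_lit 122) (nat_lit 4) (nat_lit 611) (nat_lit 482) (nat_lit 467)) (XT.lf (nat_lit 0) (nat_lit 9615818779) (nat_lit 304) (nat_lit 404148154) (nat_lit 380) (nat_lit 682875157) (nat_lit 117) (nat_lit 5) (nat_lit 121) (nat_lit 5) (nat_lit 122)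 (nat_lit 4) (nat_lit 612) (nat_lit 482) (nat_lit 466))))) (XT.nd (nat_lit 156) (nat_lit 988) (nat_lit 0) (XT.nd (nat_lit 78) (nat_lit 228) (nat_lit 0) (XT.lf (nat_lit 0) (nat_lit 4057470092) (nat_lit 380) (nat_lit 2767973516) (nat_lit 76) (nat_lit 3981383733) (nat_lit 112) (nat_lit 5) (nat_lit 117) (nat_lit 5) (nat_lit 113) (nat_lit 4) (nat_lit 613) (nat_lit 482) (nat_lit 465)) (XT.lf (nat_lit 0) (nat_lit 6418936677) (nat_lit 228) (nat_lit 2452414644) (nat_lit 304) (nat_lit 2041695820) (nat_lit 109) (nat_lit 5) (nat_lit 112) (nat_lit 5) (nat_lit 113) (nat_lit 4) (nat_lit 614) (nat_lit 482) (nat_lit 464))) (XT.nd (nat_lit 78) (nat_lit 608) (nat_lit 0) (XT.lf (nat_lit 0) (nat_lit 2722918645) (nat_lit 380) (nat_lit 6291656223) (nat_lit 76) (nat_lit 2006480550) (nat_lit 104) (nat_lit 5) (nat_lit 109) (nat_lit 5) (nat_lit 105) (nat_lit 4) (nat_lit 615) (nat_lit 482) (nat_lit 463)) (XT.nd (nat_lit 78) (nat_lit 380) (nat_lit 0) (XT.lf (nat_lit 0) (nat_lit 2968995981) (nat_lit 228)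 (nat_lit 4588973009) (nat_lit 304) (nat_lit 3572937748) (nat_lit 101) (nat_lit 5) (nat_lit 104) (nat_lit 5) (nat_lit 105) (nat_lit 4) (nat_lit 616) (nat_lit 482) (nat_lit 462)) (XT.lf (nat_lit 0) (nat_lit 1157042782) (nat_lit 304) (nat_lit 60094485) (nat_lit 380) (nat_lit 10025923782) (nat_lit 96) (nat_lit 5) (nat_lit 100) (nat_lit 5) (nat_lit 101) (nat_lit 5) (nat_lit 617) (nat_lit 482) (nat_lit 461)))))) (XT.nd (nat_lit 390) (nat_lit 1216) (nat_lit 0) (XT.nd (nat_lit 156) (nat_lit 836) (nat_lit 0) (XT.nd (nat_lit 78) (nat_lit 228) (nat_lit 0) (XT.lf (nat_lit 0) (nat_lit 6076921851) (nat_lit 380) (nat_lit 745031057) (nat_lit 76) (nat_lit 4534600490) (nat_lit 96) (nat_lit 5) (nat_lit 101) (nat_lit 5) (nat_lit 97) (nat_lit 4) (nat_lit 618) (nat_lit 482) (nat_lit 460)) (XT.lf (nat_lit 0) (nat_lit 8791748671) (nat_lit 228) (nat_lit 2237838339) (nat_lit 304) (nat_lit 442817129) (nat_lit 93) (nat_lit 5) (nat_lit 96) (nat_lit 5) (nat_lit 97) (nat_lit 4) (nat_lit 619) (nat_lit 482)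 (nat_lit 459))) (XT.nd (nat_lit 78) (nat_lit 532) (nat_lit 0) (XT.lf (nat_lit 0) (nat_lit 4436019305) (nat_lit 304) (nat_lit 4712233435) (nat_lit 76) (nat_lit 2441654524) (nat_lit 89) (nat_lit 5) (nat_lit 93) (nat_lit 5) (nat_lit 90) (nat_lit 4) (nat_lit 620) (nat_lit 482) (nat_lit 458)) (XT.nd (nat_lit 78) (nat_lit 304) (nat_lit 0) (XT.lf (nat_lit 0) (nat_lit 4894121761) (nat_lit 228) (nat_lit 4515654369) (nat_lit 304) (nat_lit 2299862434) (nat_lit 86) (nat_lit 5) (nat_lit 89) (nat_lit 5) (nat_lit 90) (nat_lit 4) (nat_lit 621) (nat_lit 482) (nat_lit 457)) (XT.lf (nat_lit 0) (nat_lit 2606926156) (nat_lit 304) (nat_lit 8994420674) (nat_lit 76) (nat_lit 230266337) (nat_lit 82) (nat_lit 5) (nat_lit 86) (nat_lit 5) (nat_lit 83) (nat_lit 4) (nat_lit 622) (nat_lit 482) (nat_lit 456))))) (XT.nd (nat_lit 234) (nat_lit 684) (nat_lit 0) (XT.nd (nat_lit 78) (nat_lit 304) (nat_lit 0) (XT.lf (nat_lit 0) (nat_lit 677026318) (nat_lit 228) (nat_lit 6923298782) (nat_lit 304) (nat_lit 4355014717)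 (nat_lit 79) (nat_lit 5) (nat_lit 82) (nat_lit 5) (nat_lit 83) (nat_lit 4) (nat_lit 623) (nat_lit 482) (nat_lit 455)) (XT.nd (nat_lit 78) (nat_lit 228) (nat_lit 0) (XT.lf (nat_lit 0) (nat_lit 603789528) (nat_lit 304) (nat_lit 1527638072) (nat_lit 76) (nat_lit 9950040524) (nat_lit 78) (nat_lit 5) (nat_lit 82) (nat_lit 5) (nat_lit 79) (nat_lit 5) (nat_lit 624) (nat_lit 482) (nat_lit 454)) (XT.lf (nat_lit 0) (nat_lit 5616375145) (nat_lit 304) (nat_lit 3833160574) (nat_lit 76) (nat_lit 2759751044) (nat_lit 75) (nat_lit 5) (nat_lit 79) (nat_lit 5) (nat_lit 76) (nat_lit 4) (nat_lit 625) (nat_lit 482) (nat_lit 453)))) (XT.nd (nat_lit 78) (nat_lit 456) (nat_lit 0) (XT.lf (nat_lit 0) (nat_lit 6120433199) (nat_lit 228) (nat_lit 4613363644) (nat_lit 304) (nat_lit 1605775082) (nat_lit 72) (nat_lit 5) (nat_lit 75) (nat_lit 5) (nat_lit 76) (nat_lit 4) (nat_lit 626) (nat_lit 482) (nat_lit 452)) (XT.nd (nat_lit 78) (nat_lit 152) (nat_lit 0) (XT.lf (nat_lit 0) (nat_lit 3428624237) (nat_lit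 304) (nat_lit 8699583897) (nat_lit 76) (nat_lit 343940887) (nat_lit 68) (nat_lit 5) (nat_lit 72) (nat_lit 5) (nat_lit 69) (nat_lit 4) (nat_lit 627) (nat_lit 482) (nat_lit 451)) (XT.lf (nat_lit 0) (nat_lit 1312442188) (nat_lit 152) (nat_lit 7251577645) (nat_lit 228) (nat_lit 4042711083) (nat_lit 66) (nat_lit 5) (nat_lit 68) (nat_lit 5) (nat_lit 69) (nat_lit 4) (nat_lit 628) (nat_lit 482) (nat_lit 450))))))))
noncomputable def xc7 : XT := (XT.nd (nat_lit 1560) (nat_lit 3344) (nat_lit 0) (XT.nd (nat_lit 780) (nat_lit 2888) (nat_lit 0) (XT.nd (nat_lit 390) (nat_lit 2052) (nat_lit 0) (XT.nd (nat_lit 156) (nat_lit 912) (nat_lit 0) (XT.nd (nat_lit 78) (nat_lit 456) (nat_lit 0) (XT.lf (nat_lit 0) (nat_lit 1498494140) (nat_lit 456) (nat_lit 1529586600) (nat_lit 456) (nat_lit 1529586600) (nat_lit 195) (nat_lit 4) (nat_lit 201) (nat_lit 5) (nat_lit 201) (nat_lit 4) (nat_lit 594) (nat_lit 483) (nat_lit 483)) (XT.lf (nat_lit 0) (nat_lit 1368455210) (nat_lit 456) (nat_lit 7335095656) (nat_lit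 0) (nat_lit 487236693) (nat_lit 189) (nat_lit 5) (nat_lit 195) (nat_lit 4) (nat_lit 189) (nat_lit 4) (nat_lit 595) (nat_lit 483) (nat_lit 482))) (XT.nd (nat_lit 78) (nat_lit 456) (nat_lit 0) (XT.lf (nat_lit 0) (nat_lit 665719488) (nat_lit 456) (nat_lit 5173439178) (nat_lit 456) (nat_lit 3428280938) (nat_lit 183) (nat_lit 4) (nat_lit 189) (nat_lit 5) (nat_lit 189) (nat_lit 4) (nat_lit 596) (nat_lit 483) (nat_lit 481)) (XT.nd (nat_lit 78) (nat_lit 380) (nat_lit 0) (XT.lf (nat_lit 0) (nat_lit 1019139068) (nat_lit 532) (nat_lit 533497049) (nat_lit 76) (nat_lit 7793269686) (nat_lit 182) (nat_lit 5) (nat_lit 189) (nat_lit 5) (nat_lit 183) (nat_lit 4) (nat_lit 597) (nat_lit 483) (nat_lit 480)) (XT.lf (nat_lit 0) (nat_lit 5504709330) (nat_lit 456) (nat_lit 1771612340) (nat_lit 0) (nat_lit 2149268291) (nat_lit 177) (nat_lit 5) (nat_lit 183) (nat_lit 4) (nat_lit 177) (nat_lit 4) (nat_lit 598) (nat_lit 483) (nat_lit 479))))) (XT.nd (nat_lit 156) (nat_lit 1216) (nat_lit 0) (XT.nd (nat_lit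 78) (nat_lit 380) (nat_lit 0) (XT.lf (nat_lit 0) (nat_lit 553007812) (nat_lit 456) (nat_lit 3036512019) (nat_lit 76) (nat_lit 5917529352) (nat_lit 171) (nat_lit 5) (nat_lit 177) (nat_lit 5) (nat_lit 172) (nat_lit 4) (nat_lit 599) (nat_lit 483) (nat_lit 478)) (XT.lf (nat_lit 0) (nat_lit 5043077567) (nat_lit 456) (nat_lit 4343182437) (nat_lit 0) (nat_lit 203778915) (nat_lit 166) (nat_lit 5) (nat_lit 172) (nat_lit 4) (nat_lit 166) (nat_lit 4) (nat_lit 600) (nat_lit 483) (nat_lit 477))) (XT.nd (nat_lit 78) (nat_lit 836) (nat_lit 0) (XT.lf (nat_lit 0) (nat_lit 3984505773) (nat_lit 380) (nat_lit 5640774944) (nat_lit 380) (nat_lit 49364773) (nat_lit 161) (nat_lit 4) (nat_lit 166) (nat_lit 5) (nat_lit 166) (nat_lit 4) (nat_lit 601) (nat_lit 483) (nat_lit 476)) (XT.nd (nat_lit 78) (nat_lit 380) (nat_lit 0) (XT.lf (nat_lit 0) (nat_lit 2675878010) (nat_lit 380) (nat_lit 1781870710) (nat_lit 456) (nat_lit 5303028027) (nat_lit 155) (nat_lit 5) (nat_lit 160) (nat_lit 5) (nat_lit 161) (nat_lit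 4) (nat_lit 602) (nat_lit 483) (nat_lit 475)) (XT.lf (nat_lit 0) (nat_lit 1334207854) (nat_lit 380) (nat_lit 7713977576) (nat_lit 380) (nat_lit 800565303) (nat_lit 150) (nat_lit 4) (nat_lit 155) (nat_lit 5) (nat_lit 155) (nat_lit 4) (nat_lit 603) (nat_lit 483) (nat_lit 474)))))) (XT.nd (nat_lit 390) (nat_lit 1368) (nat_lit 0) (XT.nd (nat_lit 156) (nat_lit 1140) (nat_lit 0) (XT.nd (nat_lit 78) (nat_lit 304) (nat_lit 0) (XT.lf (nat_lit 0) (nat_lit 3734811347) (nat_lit 456) (nat_lit 63928138) (nat_lit 76) (nat_lit 6139403715) (nat_lit 149) (nat_lit 5) (nat_lit 155) (nat_lit 5) (nat_lit 150) (nat_lit 4) (nat_lit 604) (nat_lit 483) (nat_lit 473)) (XT.lf (nat_lit 0) (nat_lit 8341409984) (nat_lit 380) (nat_lit 1473495552) (nat_lit 0) (nat_lit 214490733) (nat_lit 145) (nat_lit 5) (nat_lit 150) (nat_lit 4) (nat_lit 145) (nat_lit 4) (nat_lit 605) (nat_lit 483) (nat_lit 472))) (XT.nd (nat_lit 78) (nat_lit 684) (nat_lit 0) (XT.lf (nat_lit 0) (nat_lit 2886321110) (nat_lit 456) (nat_lit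 2951308947) (nat_lit 76) (nat_lit 4284330201) (nat_lit 139) (nat_lit 5) (nat_lit 145) (nat_lit 5) (nat_lit 140) (nat_lit 4) (nat_lit 606) (nat_lit 483) (nat_lit 471)) (XT.nd (nat_lit 78) (nat_lit 380) (nat_lit 0) (XT.lf (nat_lit 0) (nat_lit 5749822678) (nat_lit 304) (nat_lit 1761771483) (nat_lit 380) (nat_lit 2704919658) (nat_lit 135) (nat_lit 5) (nat_lit 139) (nat_lit 5) (nat_lit 140) (nat_lit 4) (nat_lit 607) (nat_lit 483) (nat_lit 470)) (XT.lf (nat_lit 0) (nat_lit 1889698234) (nat_lit 380) (nat_lit 6038624079) (nat_lit 76) (nat_lit 2384421884) (nat_lit 130) (nat_lit 5) (nat_lit 135) (nat_lit 5) (nat_lit 131) (nat_lit 4) (nat_lit 608) (nat_lit 483) (nat_lit 469))))) (XT.nd (nat_lit 156) (nat_lit 684) (nat_lit 0) (XT.nd (nat_lit 78) (nat_lit 380) (nat_lit 0) (XT.lf (nat_lit 0) (nat_lit 2739827893) (nat_lit 304) (nat_lit 3795091861) (nat_lit 380) (nat_lit 3875726137) (nat_lit 126) (nat_lit 5) (nat_lit 130) (nat_lit 5) (nat_lit 131) (nat_lit 4) (nat_lit 609) (nat_lit 483) (nat_lit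 468)) (XT.lf (nat_lit 0) (nat_lit 739160985) (nat_lit 380) (nat_lit 9343899526) (nat_lit 76) (nat_lit 427616441) (nat_lit 121) (nat_lit 5) (nat_lit 126) (nat_lit 5) (nat_lit 122) (nat_lit 4) (nat_lit 610) (nat_lit 483) (nat_lit 467))) (XT.nd (nat_lit 78) (nat_lit 684) (nat_lit 0) (XT.lf (nat_lit 0) (nat_lit 5407179319) (nat_lit 380) (nat_lit 484509028) (nat_lit 76) (nat_lit 4720256063) (nat_lit 121) (nat_lit 5) (nat_lit 126) (nat_lit 5) (nat_lit 122) (nat_lit 4) (nat_lit 611) (nat_lit 483) (nat_lit 466)) (XT.nd (nat_lit 78) (nat_lit 380) (nat_lit 0) (XT.lf (nat_lit 0) (nat_lit 8559630770) (nat_lit 304) (nat_lit 1601493962) (nat_lit 380) (nat_lit 554263830) (nat_lit 117) (nat_lit 5) (nat_lit 121) (nat_lit 5) (nat_lit 122) (nat_lit 4) (nat_lit 612) (nat_lit 483) (nat_lit 465)) (XT.lf (nat_lit 0) (nat_lit 4137943452) (nat_lit 380) (nat_lit 3909700969) (nat_lit 76) (nat_lit 2772642991) (nat_lit 112) (nat_lit 5) (nat_lit 117) (nat_lit 5) (nat_lit 113) (nat_lit 4) (nat_lit 613)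 (nat_lit 483) (nat_lit 464))))))) (XT.nd (nat_lit 780) (nat_lit 1064) (nat_lit 0) (XT.nd (nat_lit 390) (nat_lit 1064) (nat_lit 0) (XT.nd (nat_lit 156) (nat_lit 608) (nat_lit 0) (XT.nd (nat_lit 78) (nat_lit 380) (nat_lit 0) (XT.lf (nat_lit 0) (nat_lit 5209297079) (nat_lit 228) (nat_lit 3703693888) (nat_lit 304) (nat_lit 2014294170) (nat_lit 109) (nat_lit 5) (nat_lit 112) (nat_lit 5) (nat_lit 113) (nat_lit 4) (nat_lit 614) (nat_lit 483) (nat_lit 463)) (XT.lf (nat_lit 0) (nat_lit 2702336052) (nat_lit 380) (nat_lit 7591494073) (nat_lit 76) (nat_lit 742413429) (nat_lit 104) (nat_lit 5) (nat_lit 109) (nat_lit 5) (nat_lit 105) (nat_lit 4) (nat_lit 615) (nat_lit 483) (nat_lit 462))) (XT.nd (nat_lit 78) (nat_lit 380) (nat_lit 0) (XT.lf (nat_lit 0) (nat_lit 1598938520) (nat_lit 228) (nat_lit 5898772574) (nat_lit 304) (nat_lit 3649178464) (nat_lit 101) (nat_lit 5) (nat_lit 104) (nat_lit 5) (nat_lit 105) (nat_lit 4) (nat_lit 616) (nat_lit 483) (nat_lit 461)) (XT.nd (nat_lit 78) (nat_lit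 304) (nat_lit 0) (XT.lf (nat_lit 0) (nat_lit 1103667489) (nat_lit 304) (nat_lit 295993963) (nat_lit 76) (nat_lit 9860158029) (nat_lit 100) (nat_lit 5) (nat_lit 104) (nat_lit 5) (nat_lit 101) (nat_lit 5) (nat_lit 617) (nat_lit 483) (nat_lit 460)) (XT.lf (nat_lit 0) (nat_lit 5922202927) (nat_lit 380) (nat_lit 2262531411) (nat_lit 76) (nat_lit 3189403585) (nat_lit 96) (nat_lit 5) (nat_lit 101) (nat_lit 5) (nat_lit 97) (nat_lit 4) (nat_lit 618) (nat_lit 483) (nat_lit 459))))) (XT.nd (nat_lit 156) (nat_lit 532) (nat_lit 0) (XT.nd (nat_lit 78) (nat_lit 304) (nat_lit 0) (XT.lf (nat_lit 0) (nat_lit 7201983676) (nat_lit 228) (nat_lit 3632570873) (nat_lit 304) (nat_lit 656241474) (nat_lit 93) (nat_lit 5) (nat_lit 96) (nat_lit 5) (nat_lit 97) (nat_lit 4) (nat_lit 619) (nat_lit 483) (nat_lit 458)) (XT.lf (nat_lit 0) (nat_lit 4175274472) (nat_lit 304) (nat_lit 6402477701) (nat_lit 76) (nat_lit 1031578127) (nat_lit 89) (nat_lit 5) (nat_lit 93) (nat_lit 5) (nat_lit 90) (nat_lit 4) (nat_lit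 620) (nat_lit 483) (nat_lit 457))) (XT.nd (nat_lit 78) (nat_lit 304) (nat_lit 0) (XT.lf (nat_lit 0) (nat_lit 3129137615) (nat_lit 228) (nat_lit 5978616577) (nat_lit 304) (nat_lit 2622133976) (nat_lit 86) (nat_lit 5) (nat_lit 89) (nat_lit 5) (nat_lit 90) (nat_lit 4) (nat_lit 621) (nat_lit 483) (nat_lit 456)) (XT.nd (nat_lit 78) (nat_lit 0) (nat_lit 0) (XT.lf (nat_lit 0) (nat_lit 979564065) (nat_lit 228) (nat_lit 1265968743) (nat_lit 304) (nat_lit 9607239765) (nat_lit 82) (nat_lit 5) (nat_lit 85) (nat_lit 5) (nat_lit 86) (nat_lit 5) (nat_lit 622) (nat_lit 483) (nat_lit 455)) (XT.lf (nat_lit 0) (nat_lit 7196662913) (nat_lit 304) (nat_lit 1254180112) (nat_lit 76) (nat_lit 3526502543) (nat_lit 82) (nat_lit 5) (nat_lit 86) (nat_lit 5) (nat_lit 83) (nat_lit 4) (nat_lit 623) (nat_lit 483) (nat_lit 454)))))) (XT.nd (nat_lit 78702) (nat_lit 0) (nat_lit 8664) (XT.nd (nat_lit 156) (nat_lit 532) (nat_lit 0) (XT.nd (nat_lit 78) (nat_lit 228) (nat_lit 0) (XT.lf (nat_lit 0) (nat_lit 145796769)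 (nat_lit 304) (nat_lit 3546676894) (nat_lit 76) (nat_lit 8411814566) (nat_lit 78) (nat_lit 5) (nat_lit 82) (nat_lit 5) (nat_lit 79) (nat_lit 5) (nat_lit 624) (nat_lit 483) (nat_lit 453)) (XT.lf (nat_lit 0) (nat_lit 5105376862) (nat_lit 304) (nat_lit 5943809952) (nat_lit 76) (nat_lit 1183981075) (nat_lit 75) (nat_lit 5) (nat_lit 79) (nat_lit 5) (nat_lit 76) (nat_lit 4) (nat_lit 625) (nat_lit 483) (nat_lit 452))) (XT.nd (nat_lit 78) (nat_lit 304) (nat_lit 0) (XT.lf (nat_lit 0) (nat_lit 3930159817) (nat_lit 228) (nat_lit 6249497390) (nat_lit 304) (nat_lit 2184659565) (nat_lit 72) (nat_lit 5) (nat_lit 75) (nat_lit 5) (nat_lit 76) (nat_lit 4) (nat_lit 626) (nat_lit 483) (nat_lit 451)) (XT.nd (nat_lit 78) (nat_lit 0) (nat_lit 0) (XT.lf (nat_lit 0) (nat_lit 1482601994) (nat_lit 228) (nat_lit 1328711544) (nat_lit 304) (nat_lit 9686576724) (nat_lit 68) (nat_lit 5) (nat_lit 71) (nat_lit 5) (nat_lit 72) (nat_lit 5) (nat_lit 627) (nat_lit 483) (nat_lit 450)) (XT.lf (nat_lit 0) (nat_lit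 7900783164) (nat_lit 304) (nat_lit 1062891771) (nat_lit 76) (nat_lit 3669716583) (nat_lit 68) (nat_lit 5) (nat_lit 72) (nat_lit 5) (nat_lit 69) (nat_lit 4) (nat_lit 628) (nat_lit 483) (nat_lit 449))))) (XT.nd (nat_lit 234) (nat_lit 988) (nat_lit 0) (XT.nd (nat_lit 78) (nat_lit 988) (nat_lit 0) (XT.lf (nat_lit 0) (nat_lit 2632251897) (nat_lit 456) (nat_lit 926049403) (nat_lit 456) (nat_lit 926049403) (nat_lit 208) (nat_lit 4) (nat_lit 214) (nat_lit 5) (nat_lit 214) (nat_lit 4) (nat_lit 592) (nat_lit 484) (nat_lit 484)) (XT.nd (nat_lit 78) (nat_lit 456) (nat_lit 0) (XT.lf (nat_lit 0) (nat_lit 2518367603) (nat_lit 532) (nat_lit 4921710031) (nat_lit 0) (nat_lit 1601547857) (nat_lit 201) (nat_lit 5) (nat_lit 208) (nat_lit 4) (nat_lit 201) (nat_lit 4) (nat_lit 593) (nat_lit 484) (nat_lit 483)) (XT.lf (nat_lit 0) (nat_lit 2944502579) (nat_lit 456) (nat_lit 3993597269) (nat_lit 456) (nat_lit 2177934636) (nat_lit 195) (nat_lit 4) (nat_lit 201) (nat_lit 5) (nat_lit 201) (nat_lit 4)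 (nat_lit 594) (nat_lit 484) (nat_lit 482)))) (XT.nd (nat_lit 78) (nat_lit 532) (nat_lit 0) (XT.lf (nat_lit 0) (nat_lit 1746665481) (nat_lit 380) (nat_lit 453110079) (nat_lit 456) (nat_lit 6992366677) (nat_lit 189) (nat_lit 5) (nat_lit 194) (nat_lit 5) (nat_lit 195) (nat_lit 4) (nat_lit 595) (nat_lit 484) (nat_lit 481)) (XT.nd (nat_lit 78) (nat_lit 76) (nat_lit 0) (XT.lf (nat_lit 0) (nat_lit 504014660) (nat_lit 456) (nat_lit 6128273176) (nat_lit 456) (nat_lit 2637272320) (nat_lit 183) (nat_lit 4) (nat_lit 189) (nat_lit 5) (nat_lit 189) (nat_lit 4) (nat_lit 596) (nat_lit 484) (nat_lit 480)) (XT.lf (nat_lit 0) (nat_lit 1765682061) (nat_lit 532) (nat_lit 754714983) (nat_lit 76) (nat_lit 6828210397) (nat_lit 182) (nat_lit 5) (nat_lit 189) (nat_lit 5) (nat_lit 183) (nat_lit 4) (nat_lit 597) (nat_lit 484) (nat_lit 479))))))))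
noncomputable def xc8 : XT := (XT.nd (nat_lit 1560) (nat_lit 2204) (nat_lit 0) (XT.nd (nat_lit 780) (nat_lit 2660) (nat_lit 0) (XT.nd (nat_lit 390) (nat_lit 1520) (nat_lit 0) (XT.nd (nat_lit 156) (nat_lit 1216) (nat_lit 0) (XT.nd (nat_lit 78) (nat_lit 456) (nat_lit 0) (XT.lf (nat_lit 0) (nat_lit 6209626096) (nat_lit 456) (nat_lit 2044680181) (nat_lit 0) (nat_lit 1174819778) (nat_lit 177) (nat_lit 5) (nat_lit 183) (nat_lit 4) (nat_lit 177) (nat_lit 4) (nat_lit 598) (nat_lit 484) (nat_lit 478)) (XT.lf (nat_lit 0) (nat_lit 1209605251) (nat_lit 456) (nat_lit 3373900534) (nat_lit 76) (nat_lit 4927701964) (nat_lit 171) (nat_lit 5) (nat_lit 177) (nat_lit 5) (nat_lit 172) (nat_lit 4) (nat_lit 599) (nat_lit 484) (nat_lit 477))) (XT.nd (nat_lit 78) (nat_lit 836) (nat_lit 0) (XT.lf (nat_lit 0) (nat_lit 4854119833) (nat_lit 380) (nat_lit 808541912) (nat_lit 456) (nat_lit 3932277827) (nat_lit 166) (nat_lit 5) (nat_lit 171) (nat_lit 5) (nat_lit 172) (nat_lit 4) (nat_lit 600) (nat_lit 484)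 (nat_lit 476)) (XT.nd (nat_lit 78) (nat_lit 380) (nat_lit 0) (XT.lf (nat_lit 0) (nat_lit 516542560) (nat_lit 456) (nat_lit 6149298157) (nat_lit 76) (nat_lit 3014461006) (nat_lit 160) (nat_lit 5) (nat_lit 166) (nat_lit 5) (nat_lit 161) (nat_lit 4) (nat_lit 601) (nat_lit 484) (nat_lit 475)) (XT.lf (nat_lit 0) (nat_lit 2157760459) (nat_lit 380) (nat_lit 2829061669) (nat_lit 456) (nat_lit 4780329888) (nat_lit 155) (nat_lit 5) (nat_lit 160) (nat_lit 5) (nat_lit 161) (nat_lit 4) (nat_lit 602) (nat_lit 484) (nat_lit 474))))) (XT.nd (nat_lit 156) (nat_lit 1064) (nat_lit 0) (XT.nd (nat_lit 78) (nat_lit 76) (nat_lit 0) (XT.lf (nat_lit 0) (nat_lit 756911768) (nat_lit 380) (nat_lit 8777163192) (nat_lit 380) (nat_lit 321916403) (nat_lit 150) (nat_lit 4) (nat_lit 155) (nat_lit 5) (nat_lit 155) (nat_lit 4) (nat_lit 603) (nat_lit 484) (nat_lit 473)) (XT.lf (nat_lit 0) (nat_lit 4174634637) (nat_lit 456) (nat_lit 703695397) (nat_lit 76) (nat_lit 5067644220) (nat_lit 149) (nat_lit 5) (nat_lit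 155) (nat_lit 5) (nat_lit 150) (nat_lit 4) (nat_lit 604) (nat_lit 484) (nat_lit 472))) (XT.nd (nat_lit 78) (nat_lit 760) (nat_lit 0) (XT.lf (nat_lit 0) (nat_lit 7857290710) (nat_lit 304) (nat_lit 886076408) (nat_lit 380) (nat_lit 1294619113) (nat_lit 145) (nat_lit 5) (nat_lit 149) (nat_lit 5) (nat_lit 150) (nat_lit 4) (nat_lit 605) (nat_lit 484) (nat_lit 471)) (XT.nd (nat_lit 78) (nat_lit 304) (nat_lit 0) (XT.lf (nat_lit 0) (nat_lit 3231803376) (nat_lit 456) (nat_lit 3725746601) (nat_lit 76) (nat_lit 3173805204) (nat_lit 139) (nat_lit 5) (nat_lit 145) (nat_lit 5) (nat_lit 140) (nat_lit 4) (nat_lit 606) (nat_lit 484) (nat_lit 470)) (XT.lf (nat_lit 0) (nat_lit 4913051641) (nat_lit 304) (nat_lit 2906935653) (nat_lit 380) (nat_lit 2406664725) (nat_lit 135) (nat_lit 5) (nat_lit 139) (nat_lit 5) (nat_lit 140) (nat_lit 4) (nat_lit 607) (nat_lit 484) (nat_lit 469)))))) (XT.nd (nat_lit 390) (nat_lit 1292) (nat_lit 0) (XT.nd (nat_lit 156) (nat_lit 684) (nat_lit 0) (XT.nd (nat_lit 78)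 (nat_lit 304) (nat_lit 0) (XT.lf (nat_lit 0) (nat_lit 2138952018) (nat_lit 380) (nat_lit 6954136630) (nat_lit 76) (nat_lit 1230658246) (nat_lit 130) (nat_lit 5) (nat_lit 135) (nat_lit 5) (nat_lit 131) (nat_lit 4) (nat_lit 608) (nat_lit 484) (nat_lit 468)) (XT.lf (nat_lit 0) (nat_lit 1759860646) (nat_lit 304) (nat_lit 4986532994) (nat_lit 380) (nat_lit 3676011953) (nat_lit 126) (nat_lit 5) (nat_lit 130) (nat_lit 5) (nat_lit 131) (nat_lit 4) (nat_lit 609) (nat_lit 484) (nat_lit 467))) (XT.nd (nat_lit 78) (nat_lit 304) (nat_lit 0) (XT.lf (nat_lit 0) (nat_lit 111059133) (nat_lit 304) (nat_lit 784168773) (nat_lit 380) (nat_lit 9628004729) (nat_lit 121) (nat_lit 5) (nat_lit 125) (nat_lit 5) (nat_lit 126) (nat_lit 5) (nat_lit 610) (nat_lit 484) (nat_lit 466)) (XT.nd (nat_lit 78) (nat_lit 304) (nat_lit 0) (XT.lf (nat_lit 0) (nat_lit 5526962773) (nat_lit 380) (nat_lit 1599523149) (nat_lit 76) (nat_lit 3498741166) (nat_lit 121) (nat_lit 5) (nat_lit 126) (nat_lit 5) (nat_lit 122) (nat_lit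 4) (nat_lit 611) (nat_lit 484) (nat_lit 465)) (XT.lf (nat_lit 0) (nat_lit 7378308206) (nat_lit 304) (nat_lit 2864349539) (nat_lit 380) (nat_lit 486779805) (nat_lit 117) (nat_lit 5) (nat_lit 121) (nat_lit 5) (nat_lit 122) (nat_lit 4) (nat_lit 612) (nat_lit 484) (nat_lit 464))))) (XT.nd (nat_lit 156) (nat_lit 684) (nat_lit 0) (XT.nd (nat_lit 78) (nat_lit 228) (nat_lit 0) (XT.lf (nat_lit 0) (nat_lit 4157446816) (nat_lit 380) (nat_lit 5179398931) (nat_lit 76) (nat_lit 1498425052) (nat_lit 112) (nat_lit 5) (nat_lit 117) (nat_lit 5) (nat_lit 113) (nat_lit 4) (nat_lit 613) (nat_lit 484) (nat_lit 463)) (XT.lf (nat_lit 0) (nat_lit 3871020412) (nat_lit 228) (nat_lit 5022412456) (nat_lit 304) (nat_lit 2049618111) (nat_lit 109) (nat_lit 5) (nat_lit 112) (nat_lit 5) (nat_lit 113) (nat_lit 4) (nat_lit 614) (nat_lit 484) (nat_lit 462))) (XT.nd (nat_lit 78) (nat_lit 304) (nat_lit 0) (XT.lf (nat_lit 0) (nat_lit 2026152613) (nat_lit 304) (nat_lit 596889031) (nat_lit 380) (nat_lit 8429862192)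 (nat_lit 104) (nat_lit 5) (nat_lit 108) (nat_lit 5) (nat_lit 109) (nat_lit 5) (nat_lit 615) (nat_lit 484) (nat_lit 461)) (XT.nd (nat_lit 78) (nat_lit 76) (nat_lit 0) (XT.lf (nat_lit 0) (nat_lit 96627153) (nat_lit 228) (nat_lit 7277983680) (nat_lit 304) (nat_lit 3789816279) (nat_lit 101) (nat_lit 5) (nat_lit 104) (nat_lit 5) (nat_lit 105) (nat_lit 4) (nat_lit 616) (nat_lit 484) (nat_lit 460)) (XT.lf (nat_lit 0) (nat_lit 934759768) (nat_lit 304) (nat_lit 1866220599) (nat_lit 76) (nat_lit 8476998329) (nat_lit 100) (nat_lit 5) (nat_lit 104) (nat_lit 5) (nat_lit 101) (nat_lit 5) (nat_lit 617) (nat_lit 484) (nat_lit 459))))))) (XT.nd (nat_lit 79014) (nat_lit 0) (nat_lit 7220) (XT.nd (nat_lit 390) (nat_lit 1064) (nat_lit 0) (XT.nd (nat_lit 156) (nat_lit 608) (nat_lit 0) (XT.nd (nat_lit 78) (nat_lit 228) (nat_lit 0) (XT.lf (nat_lit 0) (nat_lit 5703806334) (nat_lit 380) (nat_lit 3914239238) (nat_lit 76) (nat_lit 1775242432) (nat_lit 96) (nat_lit 5) (nat_lit 101) (nat_lit 5) (nat_lit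 97) (nat_lit 4) (nat_lit 618) (nat_lit 484) (nat_lit 458)) (XT.lf (nat_lit 0) (nat_lit 5477249189) (nat_lit 228) (nat_lit 5098306992) (nat_lit 304) (nat_lit 935203025) (nat_lit 93) (nat_lit 5) (nat_lit 96) (nat_lit 5) (nat_lit 97) (nat_lit 4) (nat_lit 619) (nat_lit 484) (nat_lit 457))) (XT.nd (nat_lit 78) (nat_lit 304) (nat_lit 0) (XT.lf (nat_lit 0) (nat_lit 3396589998) (nat_lit 228) (nat_lit 455450160) (nat_lit 304) (nat_lit 7778249203) (nat_lit 89) (nat_lit 5) (nat_lit 92) (nat_lit 5) (nat_lit 93) (nat_lit 5) (nat_lit 620) (nat_lit 484) (nat_lit 456)) (XT.nd (nat_lit 78) (nat_lit 76) (nat_lit 0) (XT.lf (nat_lit 0) (nat_lit 1225323988) (nat_lit 228) (nat_lit 7514644986) (nat_lit 304) (nat_lit 3011770278) (nat_lit 86) (nat_lit 5) (nat_lit 89) (nat_lit 5) (nat_lit 90) (nat_lit 4) (nat_lit 621) (nat_lit 484) (nat_lit 455)) (XT.lf (nat_lit 0) (nat_lit 1825467702) (nat_lit 304) (nat_lit 1007054194) (nat_lit 76) (nat_lit 9042864104) (nat_lit 85) (nat_lit 5) (nat_lit 89) (nat_lit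 5) (nat_lit 86) (nat_lit 5) (nat_lit 622) (nat_lit 484) (nat_lit 454))))) (XT.nd (nat_lit 156) (nat_lit 608) (nat_lit 0) (XT.nd (nat_lit 78) (nat_lit 228) (nat_lit 0) (XT.lf (nat_lit 0) (nat_lit 6730685286) (nat_lit 304) (nat_lit 3317456452) (nat_lit 76) (nat_lit 1952736454) (nat_lit 82) (nat_lit 5) (nat_lit 86) (nat_lit 5) (nat_lit 83) (nat_lit 4) (nat_lit 623) (nat_lit 484) (nat_lit 453)) (XT.lf (nat_lit 0) (nat_lit 6417483449) (nat_lit 228) (nat_lit 5326177045) (nat_lit 304) (nat_lit 385028544) (nat_lit 79) (nat_lit 5) (nat_lit 82) (nat_lit 5) (nat_lit 83) (nat_lit 4) (nat_lit 624) (nat_lit 484) (nat_lit 452))) (XT.nd (nat_lit 78) (nat_lit 304) (nat_lit 0) (XT.lf (nat_lit 0) (nat_lit 4056079550) (nat_lit 228) (nat_lit 472728624) (nat_lit 304) (nat_lit 7729827275) (nat_lit 75) (nat_lit 5) (nat_lit 78) (nat_lit 5) (nat_lit 79) (nat_lit 5) (nat_lit 625) (nat_lit 484) (nat_lit 451)) (XT.nd (nat_lit 78) (nat_lit 76) (nat_lit 0) (XT.lf (nat_lit 0) (nat_lit 1593943062) (nat_lit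 228) (nat_lit 7962554346) (nat_lit 304) (nat_lit 2834219622) (nat_lit 72) (nat_lit 5) (nat_lit 75) (nat_lit 5) (nat_lit 76) (nat_lit 4) (nat_lit 626) (nat_lit 484) (nat_lit 450)) (XT.lf (nat_lit 0) (nat_lit 2132339998) (nat_lit 304) (nat_lit 945191138) (nat_lit 76) (nat_lit 9447603226) (nat_lit 71) (nat_lit 5) (nat_lit 75) (nat_lit 5) (nat_lit 72) (nat_lit 5) (nat_lit 627) (nat_lit 484) (nat_lit 449)))))) (XT.nd (nat_lit 390) (nat_lit 2204) (nat_lit 0) (XT.nd (nat_lit 156) (nat_lit 1444) (nat_lit 0) (XT.nd (nat_lit 78) (nat_lit 532) (nat_lit 0) (XT.lf (nat_lit 0) (nat_lit 3764079941) (nat_lit 532) (nat_lit 324652180) (nat_lit 532) (nat_lit 324652180) (nat_lit 221) (nat_lit 4) (nat_lit 228) (nat_lit 5) (nat_lit 228) (nat_lit 4) (nat_lit 590) (nat_lit 485) (nat_lit 485)) (XT.lf (nat_lit 0) (nat_lit 3665597742) (nat_lit 532) (nat_lit 2519859856) (nat_lit 0) (nat_lit 2711738478) (nat_lit 214) (nat_lit 5) (nat_lit 221) (nat_lit 4) (nat_lit 214) (nat_lit 4) (nat_lit 591) (nat_lit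 485) (nat_lit 484))) (XT.nd (nat_lit 78) (nat_lit 988) (nat_lit 0) (XT.lf (nat_lit 0) (nat_lit 5213413558) (nat_lit 456) (nat_lit 2822498259) (nat_lit 456) (nat_lit 933482855) (nat_lit 208) (nat_lit 4) (nat_lit 214) (nat_lit 5) (nat_lit 214) (nat_lit 4) (nat_lit 592) (nat_lit 485) (nat_lit 483)) (XT.nd (nat_lit 78) (nat_lit 456) (nat_lit 0) (XT.lf (nat_lit 0) (nat_lit 3383751721) (nat_lit 532) (nat_lit 5026340660) (nat_lit 0) (nat_lit 632932947) (nat_lit 201) (nat_lit 5) (nat_lit 208) (nat_lit 4) (nat_lit 201) (nat_lit 4) (nat_lit 593) (nat_lit 485) (nat_lit 482)) (XT.lf (nat_lit 0) (nat_lit 2787024895) (nat_lit 456) (nat_lit 4981573284) (nat_lit 456) (nat_lit 1349535993) (nat_lit 195) (nat_lit 4) (nat_lit 201) (nat_lit 5) (nat_lit 201) (nat_lit 4) (nat_lit 594) (nat_lit 485) (nat_lit 481))))) (XT.nd (nat_lit 234) (nat_lit 1216) (nat_lit 0) (XT.nd (nat_lit 78) (nat_lit 532) (nat_lit 0) (XT.lf (nat_lit 0) (nat_lit 1527942808) (nat_lit 380) (nat_lit 1454195717) (nat_lit 456)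 (nat_lit 6212701302) (nat_lit 189) (nat_lit 5) (nat_lit 194) (nat_lit 5) (nat_lit 195) (nat_lit 4) (nat_lit 595) (nat_lit 485) (nat_lit 480)) (XT.nd (nat_lit 78) (nat_lit 76) (nat_lit 0) (XT.lf (nat_lit 0) (nat_lit 234436155) (nat_lit 456) (nat_lit 7138435835) (nat_lit 456) (nat_lit 1900223343) (nat_lit 183) (nat_lit 4) (nat_lit 189) (nat_lit 5) (nat_lit 189) (nat_lit 4) (nat_lit 596) (nat_lit 485) (nat_lit 479)) (XT.lf (nat_lit 0) (nat_lit 2459641562) (nat_lit 532) (nat_lit 1083846233) (nat_lit 76) (nat_lit 5809229507) (nat_lit 182) (nat_lit 5) (nat_lit 189) (nat_lit 5) (nat_lit 183) (nat_lit 4) (nat_lit 597) (nat_lit 485) (nat_lit 478)))) (XT.nd (nat_lit 78) (nat_lit 836) (nat_lit 0) (XT.lf (nat_lit 0) (nat_lit 6861549746) (nat_lit 456) (nat_lit 2427125067) (nat_lit 0) (nat_lit 145403716) (nat_lit 177) (nat_lit 5) (nat_lit 183) (nat_lit 4) (nat_lit 177) (nat_lit 4) (nat_lit 598) (nat_lit 485) (nat_lit 477)) (XT.nd (nat_lit 78) (nat_lit 380) (nat_lit 0) (XT.lf (nat_lit 0)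 (nat_lit 1812444712) (nat_lit 456) (nat_lit 3822161461) (nat_lit 76) (nat_lit 3882184790) (nat_lit 171) (nat_lit 5) (nat_lit 177) (nat_lit 5) (nat_lit 172) (nat_lit 4) (nat_lit 599) (nat_lit 485) (nat_lit 476)) (XT.lf (nat_lit 0) (nat_lit 4348694024) (nat_lit 380) (nat_lit 1881061086) (nat_lit 456) (nat_lit 3371484383) (nat_lit 166) (nat_lit 5) (nat_lit 171) (nat_lit 5) (nat_lit 172) (nat_lit 4) (nat_lit 600) (nat_lit 485) (nat_lit 475))))))))
noncomputable def xc9 : XT := (XT.nd (nat_lit 1560) (nat_lit 1368) (nat_lit 0) (XT.nd (nat_lit 780) (nat_lit 2736) (nat_lit 0) (XT.nd (nat_lit 390) (nat_lit 1520) (nat_lit 0) (XT.nd (nat_lit 156) (nat_lit 760) (nat_lit 0) (XT.nd (nat_lit 78) (nat_lit 380) (nat_lit 0) (XT.lf (nat_lit 0) (nat_lit 1026806144) (nat_lit 456) (nat_lit 6722690347) (nat_lit 76) (nat_lit 1937897548) (nat_lit 160) (nat_lit 5) (nat_lit 166) (nat_lit 5) (nat_lit 161) (nat_lit 4) (nat_lit 601) (nat_lit 485) (nat_lit 474)) (XT.lf (nat_lit 0) (nat_lit 1525245867) (nat_lit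 380) (nat_lit 3935554186) (nat_lit 456) (nat_lit 4314171677) (nat_lit 155) (nat_lit 5) (nat_lit 160) (nat_lit 5) (nat_lit 161) (nat_lit 4) (nat_lit 602) (nat_lit 485) (nat_lit 473))) (XT.nd (nat_lit 78) (nat_lit 304) (nat_lit 0) (XT.lf (nat_lit 0) (nat_lit 62761065) (nat_lit 380) (nat_lit 35848988) (nat_lit 456) (nat_lit 9766058710) (nat_lit 149) (nat_lit 5) (nat_lit 154) (nat_lit 5) (nat_lit 155) (nat_lit 5) (nat_lit 603) (nat_lit 485) (nat_lit 472)) (XT.nd (nat_lit 78) (nat_lit 304) (nat_lit 0) (XT.lf (nat_lit 0) (nat_lit 4558796501) (nat_lit 456) (nat_lit 1459481661) (nat_lit 76) (nat_lit 3936976129) (nat_lit 149) (nat_lit 5) (nat_lit 155) (nat_lit 5) (nat_lit 150) (nat_lit 4) (nat_lit 604) (nat_lit 485) (nat_lit 471)) (XT.lf (nat_lit 0) (nat_lit 7040695813) (nat_lit 304) (nat_lit 2050247129) (nat_lit 380) (nat_lit 957056600) (nat_lit 145) (nat_lit 5) (nat_lit 149) (nat_lit 5) (nat_lit 150) (nat_lit 4) (nat_lit 605) (nat_lit 485) (nat_lit 470))))) (XT.nd (nat_lit 156) (nat_lit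 760) (nat_lit 0) (XT.nd (nat_lit 78) (nat_lit 304) (nat_lit 0) (XT.lf (nat_lit 0) (nat_lit 3520249640) (nat_lit 456) (nat_lit 4619418149) (nat_lit 76) (nat_lit 2002552144) (nat_lit 139) (nat_lit 5) (nat_lit 145) (nat_lit 5) (nat_lit 140) (nat_lit 4) (nat_lit 606) (nat_lit 485) (nat_lit 469)) (XT.lf (nat_lit 0) (nat_lit 3956482576) (nat_lit 304) (nat_lit 4114704753) (nat_lit 380) (nat_lit 2167075833) (nat_lit 135) (nat_lit 5) (nat_lit 139) (nat_lit 5) (nat_lit 140) (nat_lit 4) (nat_lit 607) (nat_lit 485) (nat_lit 468))) (XT.nd (nat_lit 78) (nat_lit 380) (nat_lit 0) (XT.lf (nat_lit 0) (nat_lit 2329727931) (nat_lit 380) (nat_lit 7992195976) (nat_lit 76) (nat_lit 14317840) (nat_lit 130) (nat_lit 5) (nat_lit 135) (nat_lit 5) (nat_lit 131) (nat_lit 4) (nat_lit 608) (nat_lit 485) (nat_lit 467)) (XT.nd (nat_lit 78) (nat_lit 76) (nat_lit 0) (XT.lf (nat_lit 0) (nat_lit 656743275) (nat_lit 304) (nat_lit 6242462834) (nat_lit 380) (nat_lit 3536454987) (nat_lit 126) (nat_lit 5) (nat_lit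 130) (nat_lit 5) (nat_lit 131) (nat_lit 4) (nat_lit 609) (nat_lit 485) (nat_lit 466)) (XT.lf (nat_lit 0) (nat_lit 1001506374) (nat_lit 380) (nat_lit 1058343681) (nat_lit 76) (nat_lit 8477250251) (nat_lit 125) (nat_lit 5) (nat_lit 130) (nat_lit 5) (nat_lit 126) (nat_lit 5) (nat_lit 610) (nat_lit 485) (nat_lit 465)))))) (XT.nd (nat_lit 390) (nat_lit 1140) (nat_lit 0) (XT.nd (nat_lit 156) (nat_lit 988) (nat_lit 0) (XT.nd (nat_lit 78) (nat_lit 304) (nat_lit 0) (XT.lf (nat_lit 0) (nat_lit 5587369263) (nat_lit 380) (nat_lit 2839484225) (nat_lit 76) (nat_lit 2213160012) (nat_lit 121) (nat_lit 5) (nat_lit 126) (nat_lit 5) (nat_lit 122) (nat_lit 4) (nat_lit 611) (nat_lit 485) (nat_lit 464)) (XT.lf (nat_lit 0) (nat_lit 6071387826) (nat_lit 304) (nat_lit 4193210120) (nat_lit 380) (nat_lit 480396617) (nat_lit 117) (nat_lit 5) (nat_lit 121) (nat_lit 5) (nat_lit 122) (nat_lit 4) (nat_lit 612) (nat_lit 485) (nat_lit 463))) (XT.nd (nat_lit 78) (nat_lit 608) (nat_lit 0) (XT.lf (nat_lit 0)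 (nat_lit 4115987832) (nat_lit 380) (nat_lit 6577565322) (nat_lit 76) (nat_lit 158230224) (nat_lit 112) (nat_lit 5) (nat_lit 117) (nat_lit 5) (nat_lit 113) (nat_lit 4) (nat_lit 613) (nat_lit 485) (nat_lit 462)) (XT.nd (nat_lit 78) (nat_lit 380) (nat_lit 0) (XT.lf (nat_lit 0) (nat_lit 2403581863) (nat_lit 228) (nat_lit 6409087492) (nat_lit 304) (nat_lit 2147681495) (nat_lit 109) (nat_lit 5) (nat_lit 112) (nat_lit 5) (nat_lit 113) (nat_lit 4) (nat_lit 614) (nat_lit 485) (nat_lit 461)) (XT.lf (nat_lit 0) (nat_lit 471568908) (nat_lit 304) (nat_lit 2014889701) (nat_lit 380) (nat_lit 8584555103) (nat_lit 104) (nat_lit 5) (nat_lit 108) (nat_lit 5) (nat_lit 109) (nat_lit 5) (nat_lit 615) (nat_lit 485) (nat_lit 460))))) (XT.nd (nat_lit 156) (nat_lit 836) (nat_lit 0) (XT.nd (nat_lit 78) (nat_lit 304) (nat_lit 0) (XT.lf (nat_lit 0) (nat_lit 7198609073) (nat_lit 380) (nat_lit 1518349198) (nat_lit 76) (nat_lit 2466368224) (nat_lit 104) (nat_lit 5) (nat_lit 109) (nat_lit 5) (nat_lit 105)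 (nat_lit 4) (nat_lit 616) (nat_lit 485) (nat_lit 459)) (XT.lf (nat_lit 0) (nat_lit 702835577) (nat_lit 304) (nat_lit 3569427725) (nat_lit 76) (nat_lit 7025432758) (nat_lit 100) (nat_lit 5) (nat_lit 104) (nat_lit 5) (nat_lit 101) (nat_lit 5) (nat_lit 617) (nat_lit 485) (nat_lit 458))) (XT.nd (nat_lit 78) (nat_lit 532) (nat_lit 0) (XT.lf (nat_lit 0) (nat_lit 5421646427) (nat_lit 380) (nat_lit 5700802264) (nat_lit 76) (nat_lit 291562458) (nat_lit 96) (nat_lit 5) (nat_lit 101) (nat_lit 5) (nat_lit 97) (nat_lit 4) (nat_lit 618) (nat_lit 485) (nat_lit 457)) (XT.nd (nat_lit 78) (nat_lit 304) (nat_lit 0) (XT.lf (nat_lit 0) (nat_lit 3616868844) (nat_lit 228) (nat_lit 6635621494) (nat_lit 304) (nat_lit 1279811179) (nat_lit 93) (nat_lit 5) (nat_lit 96) (nat_lit 5) (nat_lit 97) (nat_lit 4) (nat_lit 619) (nat_lit 485) (nat_lit 456)) (XT.lf (nat_lit 0) (nat_lit 1441790893) (nat_lit 228) (nat_lit 2028697950) (nat_lit 304) (nat_lit 8182217838) (nat_lit 89) (nat_lit 5) (nat_lit 92) (nat_lit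 5) (nat_lit 93) (nat_lit 5) (nat_lit 620) (nat_lit 485) (nat_lit 455))))))) (XT.nd (nat_lit 78858) (nat_lit 0) (nat_lit 6764) (XT.nd (nat_lit 390) (nat_lit 304) (nat_lit 0) (XT.nd (nat_lit 156) (nat_lit 760) (nat_lit 0) (XT.nd (nat_lit 78) (nat_lit 304) (nat_lit 0) (XT.lf (nat_lit 0) (nat_lit 8311587673) (nat_lit 304) (nat_lit 807336635) (nat_lit 76) (nat_lit 2656169849) (nat_lit 89) (nat_lit 5) (nat_lit 93) (nat_lit 5) (nat_lit 90) (nat_lit 4) (nat_lit 621) (nat_lit 485) (nat_lit 454)) (XT.lf (nat_lit 0) (nat_lit 1345702659) (nat_lit 304) (nat_lit 3120580185) (nat_lit 76) (nat_lit 7433196737) (nat_lit 85) (nat_lit 5) (nat_lit 89) (nat_lit 5) (nat_lit 86) (nat_lit 5) (nat_lit 622) (nat_lit 485) (nat_lit 453))) (XT.nd (nat_lit 78) (nat_lit 532) (nat_lit 0) (XT.lf (nat_lit 0) (nat_lit 6197813780) (nat_lit 304) (nat_lit 5522491149) (nat_lit 76) (nat_lit 305729902) (nat_lit 82) (nat_lit 5) (nat_lit 86) (nat_lit 5) (nat_lit 83) (nat_lit 4) (nat_lit 623) (nat_lit 485) (nat_lit 452))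 (XT.nd (nat_lit 78) (nat_lit 304) (nat_lit 0) (XT.lf (nat_lit 0) (nat_lit 4133723370) (nat_lit 228) (nat_lit 7034294656) (nat_lit 304) (nat_lit 986683981) (nat_lit 79) (nat_lit 5) (nat_lit 82) (nat_lit 5) (nat_lit 83) (nat_lit 4) (nat_lit 624) (nat_lit 485) (nat_lit 451)) (XT.lf (nat_lit 0) (nat_lit 1670096090) (nat_lit 228) (nat_lit 2221561732) (nat_lit 304) (nat_lit 8393937313) (nat_lit 75) (nat_lit 5) (nat_lit 78) (nat_lit 5) (nat_lit 79) (nat_lit 5) (nat_lit 625) (nat_lit 485) (nat_lit 450))))) (XT.nd (nat_lit 78234) (nat_lit 0) (nat_lit 11324) (XT.nd (nat_lit 78) (nat_lit 304) (nat_lit 0) (XT.lf (nat_lit 0) (nat_lit 8869845914) (nat_lit 304) (nat_lit 877472086) (nat_lit 76) (nat_lit 2671349597) (nat_lit 75) (nat_lit 5) (nat_lit 79) (nat_lit 5) (nat_lit 76) (nat_lit 4) (nat_lit 626) (nat_lit 485) (nat_lit 449)) (XT.lf (nat_lit 0) (nat_lit 1393547483) (nat_lit 304) (nat_lit 3500625064) (nat_lit 76) (nat_lit 7659677252) (nat_lit 71) (nat_lit 5) (nat_lit 75) (nat_lit 5) (nat_lit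 72) (nat_lit 5) (nat_lit 627) (nat_lit 485) (nat_lit 448))) (XT.nd (nat_lit 78) (nat_lit 608) (nat_lit 0) (XT.lf (nat_lit 0) (nat_lit 277893261) (nat_lit 532) (nat_lit 3788807448) (nat_lit 0) (nat_lit 277893261) (nat_lit 228) (nat_lit 5) (nat_lit 235) (nat_lit 4) (nat_lit 228) (nat_lit 4) (nat_lit 588) (nat_lit 486) (nat_lit 486)) (XT.nd (nat_lit 78) (nat_lit 608) (nat_lit 0) (XT.lf (nat_lit 0) (nat_lit 4813108380) (nat_lit 532) (nat_lit 123615822) (nat_lit 0) (nat_lit 3820713202) (nat_lit 228) (nat_lit 5) (nat_lit 235) (nat_lit 4) (nat_lit 228) (nat_lit 4) (nat_lit 589) (nat_lit 486) (nat_lit 485)) (XT.lf (nat_lit 0) (nat_lit 304122583) (nat_lit 608) (nat_lit 1351004007) (nat_lit 76) (nat_lit 7172289142) (nat_lit 220) (nat_lit 5) (nat_lit 228) (nat_lit 5) (nat_lit 221) (nat_lit 4) (nat_lit 590) (nat_lit 486) (nat_lit 484)))))) (XT.nd (nat_lit 390) (nat_lit 2204) (nat_lit 0) (XT.nd (nat_lit 156) (nat_lit 1444) (nat_lit 0) (XT.nd (nat_lit 78) (nat_lit 456) (nat_lit 0) (XT.lf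 (nat_lit 0) (nat_lit 4569413153) (nat_lit 532) (nat_lit 2621708617) (nat_lit 0) (nat_lit 1707461301) (nat_lit 214) (nat_lit 5) (nat_lit 221) (nat_lit 4) (nat_lit 214) (nat_lit 4) (nat_lit 591) (nat_lit 486) (nat_lit 483)) (XT.lf (nat_lit 0) (nat_lit 5060122813) (nat_lit 456) (nat_lit 3845061763) (nat_lit 456) (nat_lit 66290165) (nat_lit 208) (nat_lit 4) (nat_lit 214) (nat_lit 5) (nat_lit 214) (nat_lit 4) (nat_lit 592) (nat_lit 486) (nat_lit 482))) (XT.nd (nat_lit 78) (nat_lit 912) (nat_lit 0) (XT.lf (nat_lit 0) (nat_lit 3807579879) (nat_lit 456) (nat_lit 393011390) (nat_lit 532) (nat_lit 4845183250) (nat_lit 201) (nat_lit 5) (nat_lit 207) (nat_lit 5) (nat_lit 208) (nat_lit 4) (nat_lit 593) (nat_lit 486) (nat_lit 481)) (XT.nd (nat_lit 78) (nat_lit 456) (nat_lit 0) (XT.lf (nat_lit 0) (nat_lit 2524493472) (nat_lit 456) (nat_lit 6023488686) (nat_lit 456) (nat_lit 573652408) (nat_lit 195) (nat_lit 4) (nat_lit 201) (nat_lit 5) (nat_lit 201) (nat_lit 4) (nat_lit 594) (nat_lit 486)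 (nat_lit 480)) (XT.lf (nat_lit 0) (nat_lit 1202707726) (nat_lit 380) (nat_lit 2509937685) (nat_lit 456) (nat_lit 5486300087) (nat_lit 189) (nat_lit 5) (nat_lit 194) (nat_lit 5) (nat_lit 195) (nat_lit 4) (nat_lit 595) (nat_lit 486) (nat_lit 479))))) (XT.nd (nat_lit 234) (nat_lit 1292) (nat_lit 0) (XT.nd (nat_lit 78) (nat_lit 912) (nat_lit 0) (XT.lf (nat_lit 0) (nat_lit 8062130796) (nat_lit 456) (nat_lit 141244675) (nat_lit 0) (nat_lit 1074652466) (nat_lit 189) (nat_lit 5) (nat_lit 195) (nat_lit 4) (nat_lit 189) (nat_lit 4) (nat_lit 596) (nat_lit 486) (nat_lit 478)) (XT.nd (nat_lit 78) (nat_lit 380) (nat_lit 0) (XT.lf (nat_lit 0) (nat_lit 3101289711) (nat_lit 532) (nat_lit 1521019873) (nat_lit 76) (nat_lit 4735927415) (nat_lit 182) (nat_lit 5) (nat_lit 189) (nat_lit 5) (nat_lit 183) (nat_lit 4) (nat_lit 597) (nat_lit 486) (nat_lit 477)) (XT.lf (nat_lit 0) (nat_lit 6515048590) (nat_lit 380) (nat_lit 951867502) (nat_lit 456) (nat_lit 1973409628) (nat_lit 177) (nat_lit 5) (nat_lit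 182) (nat_lit 5) (nat_lit 183) (nat_lit 4) (nat_lit 598) (nat_lit 486) (nat_lit 476)))) (XT.nd (nat_lit 78) (nat_lit 836) (nat_lit 0) (XT.lf (nat_lit 0) (nat_lit 2361762600) (nat_lit 456) (nat_lit 4381470591) (nat_lit 76) (nat_lit 2780567825) (nat_lit 171) (nat_lit 5) (nat_lit 177) (nat_lit 5) (nat_lit 172) (nat_lit 4) (nat_lit 599) (nat_lit 486) (nat_lit 475)) (XT.nd (nat_lit 78) (nat_lit 456) (nat_lit 0) (XT.lf (nat_lit 0) (nat_lit 3731748315) (nat_lit 380) (nat_lit 3011491088) (nat_lit 456) (nat_lit 2865728567) (nat_lit 166) (nat_lit 5) (nat_lit 171) (nat_lit 5) (nat_lit 172) (nat_lit 4) (nat_lit 600) (nat_lit 486) (nat_lit 474)) (XT.lf (nat_lit 0) (nat_lit 1482273510) (nat_lit 456) (nat_lit 7410220638) (nat_lit 76) (nat_lit 803437483) (nat_lit 160) (nat_lit 5) (nat_lit 166) (nat_lit 5) (nat_lit 161) (nat_lit 4) (nat_lit 601) (nat_lit 486) (nat_lit 473))))))))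
noncomputable def xc10 : XT := (XT.nd (nat_lit 1560) (nat_lit 1368) (nat_lit 0) (XT.nd (nat_lit 780) (nat_lit 2432) (nat_lit 0) (XT.nd (nat_lit 390) (nat_lit 1368) (nat_lit 0) (XT.nd (nat_lit 156) (nat_lit 1140) (nat_lit 0) (XT.nd (nat_lit 78) (nat_lit 76) (nat_lit 0) (XT.lf (nat_lit 0) (nat_lit 778086188) (nat_lit 380) (nat_lit 5101782180) (nat_lit 456) (nat_lit 3904370585) (nat_lit 155) (nat_lit 5) (nat_lit 160) (nat_lit 5) (nat_lit 161) (nat_lit 4) (nat_lit 602) (nat_lit 486) (nat_lit 472)) (XT.lf (nat_lit 0) (nat_lit 471169679) (nat_lit 456) (nat_lit 747071748) (nat_lit 76) (nat_lit 8656280268) (nat_lit 154) (nat_lit 5) (nat_lit 160) (nat_lit 5) (nat_lit 155) (nat_lit 5) (nat_lit 603) (nat_lit 486) (nat_lit 471))) (XT.nd (nat_lit 78) (nat_lit 760) (nat_lit 0) (XT.lf (nat_lit 0) (nat_lit 4887447591) (nat_lit 456) (nat_lit 2331583314) (nat_lit 76) (nat_lit 2746956042) (nat_lit 149) (nat_lit 5) (nat_lit 155) (nat_lit 5) (nat_lit 150) (nat_lit 4) (nat_lit 604) (nat_lit 486)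 (nat_lit 470)) (XT.nd (nat_lit 78) (nat_lit 456) (nat_lit 0) (XT.lf (nat_lit 0) (nat_lit 6107235141) (nat_lit 304) (nat_lit 3275627497) (nat_lit 380) (nat_lit 676605713) (nat_lit 145) (nat_lit 5) (nat_lit 149) (nat_lit 5) (nat_lit 150) (nat_lit 4) (nat_lit 605) (nat_lit 486) (nat_lit 469)) (XT.lf (nat_lit 0) (nat_lit 3751773021) (nat_lit 456) (nat_lit 5632674050) (nat_lit 76) (nat_lit 770111706) (nat_lit 139) (nat_lit 5) (nat_lit 145) (nat_lit 5) (nat_lit 140) (nat_lit 4) (nat_lit 606) (nat_lit 486) (nat_lit 468))))) (XT.nd (nat_lit 156) (nat_lit 684) (nat_lit 0) (XT.nd (nat_lit 78) (nat_lit 380) (nat_lit 0) (XT.lf (nat_lit 0) (nat_lit 2879740358) (nat_lit 304) (nat_lit 5385552417) (nat_lit 380) (nat_lit 1986059025) (nat_lit 135) (nat_lit 5) (nat_lit 139) (nat_lit 5) (nat_lit 140) (nat_lit 4) (nat_lit 607) (nat_lit 486) (nat_lit 467)) (XT.lf (nat_lit 0) (nat_lit 1188535129) (nat_lit 304) (nat_lit 1281888529) (nat_lit 380) (nat_lit 7879643543) (nat_lit 130) (nat_lit 5) (nat_lit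 134) (nat_lit 5) (nat_lit 135) (nat_lit 5) (nat_lit 608) (nat_lit 486) (nat_lit 466))) (XT.nd (nat_lit 78) (nat_lit 684) (nat_lit 0) (XT.lf (nat_lit 0) (nat_lit 6997117624) (nat_lit 380) (nat_lit 562481727) (nat_lit 76) (nat_lit 2890744235) (nat_lit 130) (nat_lit 5) (nat_lit 135) (nat_lit 5) (nat_lit 131) (nat_lit 4) (nat_lit 609) (nat_lit 486) (nat_lit 465)) (XT.nd (nat_lit 78) (nat_lit 304) (nat_lit 0) (XT.lf (nat_lit 0) (nat_lit 1049794171) (nat_lit 380) (nat_lit 2349989950) (nat_lit 76) (nat_lit 7152666163) (nat_lit 125) (nat_lit 5) (nat_lit 130) (nat_lit 5) (nat_lit 126) (nat_lit 5) (nat_lit 610) (nat_lit 486) (nat_lit 464)) (XT.lf (nat_lit 0) (nat_lit 5588422475) (nat_lit 380) (nat_lit 4204878516) (nat_lit 76) (nat_lit 863008453) (nat_lit 121) (nat_lit 5) (nat_lit 126) (nat_lit 5) (nat_lit 122) (nat_lit 4) (nat_lit 611) (nat_lit 486) (nat_lit 463)))))) (XT.nd (nat_lit 390) (nat_lit 1140) (nat_lit 0) (XT.nd (nat_lit 156) (nat_lit 608) (nat_lit 0) (XT.nd (nat_lit 78) (nat_lit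 380) (nat_lit 0) (XT.lf (nat_lit 0) (nat_lit 4638357109) (nat_lit 304) (nat_lit 5588596830) (nat_lit 380) (nat_lit 535111763) (nat_lit 117) (nat_lit 5) (nat_lit 121) (nat_lit 5) (nat_lit 122) (nat_lit 4) (nat_lit 612) (nat_lit 486) (nat_lit 462)) (XT.lf (nat_lit 0) (nat_lit 2756705310) (nat_lit 304) (nat_lit 1265058530) (nat_lit 380) (nat_lit 6847903513) (nat_lit 112) (nat_lit 5) (nat_lit 116) (nat_lit 5) (nat_lit 117) (nat_lit 5) (nat_lit 613) (nat_lit 486) (nat_lit 461))) (XT.nd (nat_lit 78) (nat_lit 380) (nat_lit 0) (XT.lf (nat_lit 0) (nat_lit 806405966) (nat_lit 228) (nat_lit 7864262791) (nat_lit 304) (nat_lit 2308522778) (nat_lit 109) (nat_lit 5) (nat_lit 112) (nat_lit 5) (nat_lit 113) (nat_lit 4) (nat_lit 614) (nat_lit 486) (nat_lit 460)) (XT.nd (nat_lit 78) (nat_lit 304) (nat_lit 0) (XT.lf (nat_lit 0) (nat_lit 2295535265) (nat_lit 304) (nat_lit 1198699206) (nat_lit 76) (nat_lit 7596285774) (nat_lit 108) (nat_lit 5) (nat_lit 112) (nat_lit 5) (nat_lit 109) (nat_lit 5)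 (nat_lit 615) (nat_lit 486) (nat_lit 459)) (XT.lf (nat_lit 0) (nat_lit 6961137772) (nat_lit 380) (nat_lit 3263791881) (nat_lit 76) (nat_lit 978835445) (nat_lit 104) (nat_lit 5) (nat_lit 109) (nat_lit 5) (nat_lit 105) (nat_lit 4) (nat_lit 616) (nat_lit 486) (nat_lit 458))))) (XT.nd (nat_lit 156) (nat_lit 532) (nat_lit 0) (XT.nd (nat_lit 78) (nat_lit 304) (nat_lit 0) (XT.lf (nat_lit 0) (nat_lit 407803967) (nat_lit 304) (nat_lit 5406283263) (nat_lit 76) (nat_lit 5504892076) (nat_lit 100) (nat_lit 5) (nat_lit 104) (nat_lit 5) (nat_lit 101) (nat_lit 5) (nat_lit 617) (nat_lit 486) (nat_lit 457)) (XT.lf (nat_lit 0) (nat_lit 3804924234) (nat_lit 304) (nat_lit 1278992387) (nat_lit 380) (nat_lit 6352232784) (nat_lit 96) (nat_lit 5) (nat_lit 100) (nat_lit 5) (nat_lit 101) (nat_lit 5) (nat_lit 618) (nat_lit 486) (nat_lit 456))) (XT.nd (nat_lit 78) (nat_lit 304) (nat_lit 0) (XT.lf (nat_lit 0) (nat_lit 1620113079) (nat_lit 228) (nat_lit 8245117248) (nat_lit 304) (nat_lit 1690201075) (nat_lit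 93) (nat_lit 5) (nat_lit 96) (nat_lit 5) (nat_lit 97) (nat_lit 4) (nat_lit 619) (nat_lit 486) (nat_lit 455)) (XT.nd (nat_lit 78) (nat_lit 228) (nat_lit 0) (XT.lf (nat_lit 0) (nat_lit 3027913450) (nat_lit 304) (nat_lit 642845788) (nat_lit 76) (nat_lit 8005882961) (nat_lit 92) (nat_lit 5) (nat_lit 96) (nat_lit 5) (nat_lit 93) (nat_lit 5) (nat_lit 620) (nat_lit 486) (nat_lit 454)) (XT.lf (nat_lit 0) (nat_lit 7825995826) (nat_lit 304) (nat_lit 2962463244) (nat_lit 76) (nat_lit 1011431901) (nat_lit 89) (nat_lit 5) (nat_lit 93) (nat_lit 5) (nat_lit 90) (nat_lit 4) (nat_lit 621) (nat_lit 486) (nat_lit 453))))))) (XT.nd (nat_lit 78702) (nat_lit 0) (nat_lit 7220) (XT.nd (nat_lit 390) (nat_lit 304) (nat_lit 0) (XT.nd (nat_lit 156) (nat_lit 532) (nat_lit 0) (XT.nd (nat_lit 78) (nat_lit 228) (nat_lit 0) (XT.lf (nat_lit 0) (nat_lit 799689555) (nat_lit 304) (nat_lit 5374689899) (nat_lit 76) (nat_lit 5750810510) (nat_lit 85) (nat_lit 5) (nat_lit 89) (nat_lit 5) (nat_lit 86) (nat_lit 5) (nat_lit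 622) (nat_lit 486) (nat_lit 452)) (XT.lf (nat_lit 0) (nat_lit 4173179938) (nat_lit 228) (nat_lit 1433969769) (nat_lit 304) (nat_lit 6445489438) (nat_lit 82) (nat_lit 5) (nat_lit 85) (nat_lit 5) (nat_lit 86) (nat_lit 5) (nat_lit 623) (nat_lit 486) (nat_lit 451))) (XT.nd (nat_lit 78) (nat_lit 304) (nat_lit 0) (XT.lf (nat_lit 0) (nat_lit 1706413879) (nat_lit 228) (nat_lit 8818474719) (nat_lit 304) (nat_lit 1657467922) (nat_lit 79) (nat_lit 5) (nat_lit 82) (nat_lit 5) (nat_lit 83) (nat_lit 4) (nat_lit 624) (nat_lit 486) (nat_lit 450)) (XT.nd (nat_lit 78) (nat_lit 228) (nat_lit 0) (XT.lf (nat_lit 0) (nat_lit 3191480564) (nat_lit 304) (nat_lit 850283169) (nat_lit 76) (nat_lit 8272337694) (nat_lit 78) (nat_lit 5) (nat_lit 82) (nat_lit 5) (nat_lit 79) (nat_lit 5) (nat_lit 625) (nat_lit 486) (nat_lit 449)) (XT.lf (nat_lit 0) (nat_lit 8124967110) (nat_lit 304) (nat_lit 3473876817) (nat_lit 76) (nat_lit 849224834) (nat_lit 75) (nat_lit 5) (nat_lit 79) (nat_lit 5) (nat_lit 76) (nat_lit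 4) (nat_lit 626) (nat_lit 486) (nat_lit 448))))) (XT.nd (nat_lit 78078) (nat_lit 0) (nat_lit 11932) (XT.nd (nat_lit 78000) (nat_lit 0) (nat_lit 12996) (XT.lf (nat_lit 0) (nat_lit 585020236) (nat_lit 304) (nat_lit 6204146506) (nat_lit 76) (nat_lit 5795073615) (nat_lit 71) (nat_lit 5) (nat_lit 75) (nat_lit 5) (nat_lit 72) (nat_lit 5) (nat_lit 627) (nat_lit 486) (nat_lit 447)) (XT.lf (nat_lit 0) (nat_lit 883323975) (nat_lit 608) (nat_lit 2511279338) (nat_lit 0) (nat_lit 883323975) (nat_lit 242) (nat_lit 5) (nat_lit 250) (nat_lit 4) (nat_lit 242) (nat_lit 4) (nat_lit 586) (nat_lit 487) (nat_lit 487))) (XT.nd (nat_lit 78) (nat_lit 532) (nat_lit 0) (XT.lf (nat_lit 0) (nat_lit 2302944841) (nat_lit 532) (nat_lit 3675768647) (nat_lit 532) (nat_lit 2643280704) (nat_lit 235) (nat_lit 4) (nat_lit 242) (nat_lit 5) (nat_lit 242) (nat_lit 4) (nat_lit 587) (nat_lit 487) (nat_lit 486)) (XT.nd (nat_lit 78) (nat_lit 0) (nat_lit 0) (XT.lf (nat_lit 0) (nat_lit 1059068804) (nat_lit 456) (nat_lit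 477465764) (nat_lit 532) (nat_lit 7153285680) (nat_lit 228) (nat_lit 5) (nat_lit 234) (nat_lit 5) (nat_lit 235) (nat_lit 4) (nat_lit 588) (nat_lit 487) (nat_lit 485)) (XT.lf (nat_lit 0) (nat_lit 5756839674) (nat_lit 532) (nat_lit 222707758) (nat_lit 0) (nat_lit 2779264967) (nat_lit 228) (nat_lit 5) (nat_lit 235) (nat_lit 4) (nat_lit 228) (nat_lit 4) (nat_lit 589) (nat_lit 487) (nat_lit 484)))))) (XT.nd (nat_lit 390) (nat_lit 2128) (nat_lit 0) (XT.nd (nat_lit 156) (nat_lit 1520) (nat_lit 0) (XT.nd (nat_lit 78) (nat_lit 456) (nat_lit 0) (XT.lf (nat_lit 0) (nat_lit 1199670790) (nat_lit 608) (nat_lit 1508098974) (nat_lit 76) (nat_lit 6121589839) (nat_lit 220) (nat_lit 5) (nat_lit 228) (nat_lit 5) (nat_lit 221) (nat_lit 4) (nat_lit 590) (nat_lit 487) (nat_lit 483)) (XT.lf (nat_lit 0) (nat_lit 5423539151) (nat_lit 532) (nat_lit 2825446080) (nat_lit 0) (nat_lit 652372376) (nat_lit 214) (nat_lit 5) (nat_lit 221) (nat_lit 4) (nat_lit 214) (nat_lit 4) (nat_lit 591) (nat_lit 487) (nat_lit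 482))) (XT.nd (nat_lit 78) (nat_lit 988) (nat_lit 0) (XT.lf (nat_lit 0) (nat_lit 739985324) (nat_lit 532) (nat_lit 4175239308) (nat_lit 76) (nat_lit 4059620432) (nat_lit 207) (nat_lit 5) (nat_lit 214) (nat_lit 5) (nat_lit 208) (nat_lit 4) (nat_lit 592) (nat_lit 487) (nat_lit 481)) (XT.nd (nat_lit 78) (nat_lit 532) (nat_lit 0) (XT.lf (nat_lit 0) (nat_lit 3490522713) (nat_lit 456) (nat_lit 1480641095) (nat_lit 532) (nat_lit 4078671188) (nat_lit 201) (nat_lit 5) (nat_lit 207) (nat_lit 5) (nat_lit 208) (nat_lit 4) (nat_lit 593) (nat_lit 487) (nat_lit 480)) (XT.lf (nat_lit 0) (nat_lit 148052840) (nat_lit 532) (nat_lit 6970705716) (nat_lit 76) (nat_lit 2007759002) (nat_lit 194) (nat_lit 5) (nat_lit 201) (nat_lit 5) (nat_lit 195) (nat_lit 4) (nat_lit 594) (nat_lit 487) (nat_lit 479))))) (XT.nd (nat_lit 234) (nat_lit 1216) (nat_lit 0) (XT.nd (nat_lit 78) (nat_lit 532) (nat_lit 0) (XT.lf (nat_lit 0) (nat_lit 770832691) (nat_lit 380) (nat_lit 3620749999) (nat_lit 456) (nat_lit 4812878169)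 (nat_lit 189) (nat_lit 5) (nat_lit 194) (nat_lit 5) (nat_lit 195) (nat_lit 4) (nat_lit 595) (nat_lit 487) (nat_lit 478)) (XT.nd (nat_lit 78) (nat_lit 532) (nat_lit 0) (XT.lf (nat_lit 0) (nat_lit 8663519804) (nat_lit 380) (nat_lit 38358336) (nat_lit 456) (nat_lit 582450890) (nat_lit 189) (nat_lit 5) (nat_lit 194) (nat_lit 5) (nat_lit 195) (nat_lit 4) (nat_lit 596) (nat_lit 487) (nat_lit 477)) (XT.lf (nat_lit 0) (nat_lit 3690878137) (nat_lit 532) (nat_lit 2066407341) (nat_lit 76) (nat_lit 3607883218) (nat_lit 182) (nat_lit 5) (nat_lit 189) (nat_lit 5) (nat_lit 183) (nat_lit 4) (nat_lit 597) (nat_lit 487) (nat_lit 476)))) (XT.nd (nat_lit 78) (nat_lit 836) (nat_lit 0) (XT.lf (nat_lit 0) (nat_lit 5913494423) (nat_lit 380) (nat_lit 2107609216) (nat_lit 456) (nat_lit 1426863617) (nat_lit 177) (nat_lit 5) (nat_lit 182) (nat_lit 5) (nat_lit 183) (nat_lit 4) (nat_lit 598) (nat_lit 487) (nat_lit 475)) (XT.nd (nat_lit 78) (nat_lit 380) (nat_lit 0) (XT.lf (nat_lit 0) (nat_lit 2857774336)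 (nat_lit 456) (nat_lit 5052047259) (nat_lit 76) (nat_lit 1622419062) (nat_lit 171) (nat_lit 5) (nat_lit 177) (nat_lit 5) (nat_lit 172) (nat_lit 4) (nat_lit 599) (nat_lit 487) (nat_lit 474)) (XT.lf (nat_lit 0) (nat_lit 3003040765) (nat_lit 380) (nat_lit 4200275223) (nat_lit 456) (nat_lit 2414812042) (nat_lit 166) (nat_lit 5) (nat_lit 171) (nat_lit 5) (nat_lit 172) (nat_lit 4) (nat_lit 600) (nat_lit 487) (nat_lit 473))))))))
noncomputable def xc11 : XT := (XT.nd (nat_lit 1560) (nat_lit 1520) (nat_lit 0) (XT.nd (nat_lit 780) (nat_lit 2508) (nat_lit 0) (XT.nd (nat_lit 390) (nat_lit 1520) (nat_lit 0) (XT.nd (nat_lit 156) (nat_lit 1140) (nat_lit 0) (XT.nd (nat_lit 78) (nat_lit 0) (nat_lit 0) (XT.lf (nat_lit 0) (nat_lit 1491146360) (nat_lit 380) (nat_lit 394538518) (nat_lit 456) (nat_lit 7820181736) (nat_lit 160) (nat_lit 5) (nat_lit 165) (nat_lit 5) (nat_lit 166) (nat_lit 5) (nat_lit 601) (nat_lit 487) (nat_lit 472)) (XT.lf (nat_lit 0) (nat_lit 6244736873) (nat_lit 456) (nat_lit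 82909754) (nat_lit 76) (nat_lit 3467299784) (nat_lit 160) (nat_lit 5) (nat_lit 166) (nat_lit 5) (nat_lit 161) (nat_lit 4) (nat_lit 602) (nat_lit 487) (nat_lit 471))) (XT.nd (nat_lit 78) (nat_lit 684) (nat_lit 0) (XT.lf (nat_lit 0) (nat_lit 789294253) (nat_lit 456) (nat_lit 1671126945) (nat_lit 76) (nat_lit 7425391352) (nat_lit 154) (nat_lit 5) (nat_lit 160) (nat_lit 5) (nat_lit 155) (nat_lit 5) (nat_lit 603) (nat_lit 487) (nat_lit 470)) (XT.nd (nat_lit 78) (nat_lit 304) (nat_lit 0) (XT.lf (nat_lit 0) (nat_lit 5160716791) (nat_lit 456) (nat_lit 3320342359) (nat_lit 76) (nat_lit 1497117285) (nat_lit 149) (nat_lit 5) (nat_lit 155) (nat_lit 5) (nat_lit 150) (nat_lit 4) (nat_lit 604) (nat_lit 487) (nat_lit 469)) (XT.lf (nat_lit 0) (nat_lit 5056542630) (nat_lit 304) (nat_lit 4562698053) (nat_lit 380) (nat_lit 453156472) (nat_lit 145) (nat_lit 5) (nat_lit 149) (nat_lit 5) (nat_lit 150) (nat_lit 4) (nat_lit 605) (nat_lit 487) (nat_lit 468))))) (XT.nd (nat_lit 156) (nat_lit 760) (nat_lit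 0) (XT.nd (nat_lit 78) (nat_lit 304) (nat_lit 0) (XT.lf (nat_lit 0) (nat_lit 3398948578) (nat_lit 380) (nat_lit 530963096) (nat_lit 456) (nat_lit 6238395928) (nat_lit 139) (nat_lit 5) (nat_lit 144) (nat_lit 5) (nat_lit 145) (nat_lit 5) (nat_lit 606) (nat_lit 487) (nat_lit 467)) (XT.lf (nat_lit 0) (nat_lit 1682402735) (nat_lit 304) (nat_lit 6719977018) (nat_lit 380) (nat_lit 1863543314) (nat_lit 135) (nat_lit 5) (nat_lit 139) (nat_lit 5) (nat_lit 140) (nat_lit 4) (nat_lit 607) (nat_lit 487) (nat_lit 466))) (XT.nd (nat_lit 78) (nat_lit 684) (nat_lit 0) (XT.lf (nat_lit 0) (nat_lit 2553861039) (nat_lit 380) (nat_lit 88232158) (nat_lit 76) (nat_lit 7723280145) (nat_lit 134) (nat_lit 5) (nat_lit 139) (nat_lit 5) (nat_lit 135) (nat_lit 5) (nat_lit 608) (nat_lit 487) (nat_lit 465)) (XT.nd (nat_lit 78) (nat_lit 380) (nat_lit 0) (XT.lf (nat_lit 0) (nat_lit 7041534112) (nat_lit 380) (nat_lit 1895530083) (nat_lit 76) (nat_lit 1529367278) (nat_lit 130) (nat_lit 5) (nat_lit 135) (nat_lit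 5) (nat_lit 131) (nat_lit 4) (nat_lit 609) (nat_lit 487) (nat_lit 464)) (XT.lf (nat_lit 0) (nat_lit 1039389161) (nat_lit 380) (nat_lit 3765842763) (nat_lit 76) (nat_lit 5764071083) (nat_lit 125) (nat_lit 5) (nat_lit 130) (nat_lit 5) (nat_lit 126) (nat_lit 5) (nat_lit 610) (nat_lit 487) (nat_lit 463)))))) (XT.nd (nat_lit 390) (nat_lit 1216) (nat_lit 0) (XT.nd (nat_lit 156) (nat_lit 684) (nat_lit 0) (XT.nd (nat_lit 78) (nat_lit 304) (nat_lit 0) (XT.lf (nat_lit 0) (nat_lit 4974174000) (nat_lit 304) (nat_lit 559582001) (nat_lit 380) (nat_lit 5140292647) (nat_lit 121) (nat_lit 5) (nat_lit 125) (nat_lit 5) (nat_lit 126) (nat_lit 5) (nat_lit 611) (nat_lit 487) (nat_lit 462)) (XT.lf (nat_lit 0) (nat_lit 3078654085) (nat_lit 304) (nat_lit 7051056877) (nat_lit 380) (nat_lit 650946700) (nat_lit 117) (nat_lit 5) (nat_lit 121) (nat_lit 5) (nat_lit 122) (nat_lit 4) (nat_lit 612) (nat_lit 487) (nat_lit 461))) (XT.nd (nat_lit 78) (nat_lit 304) (nat_lit 0) (XT.lf (nat_lit 0) (nat_lit 1109607907)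 (nat_lit 304) (nat_lit 2758395296) (nat_lit 380) (nat_lit 7021061226) (nat_lit 112) (nat_lit 5) (nat_lit 116) (nat_lit 5) (nat_lit 117) (nat_lit 5) (nat_lit 613) (nat_lit 487) (nat_lit 460)) (XT.nd (nat_lit 78) (nat_lit 304) (nat_lit 0) (XT.lf (nat_lit 0) (nat_lit 8473355997) (nat_lit 380) (nat_lit 909052789) (nat_lit 76) (nat_lit 1617052024) (nat_lit 112) (nat_lit 5) (nat_lit 117) (nat_lit 5) (nat_lit 113) (nat_lit 4) (nat_lit 614) (nat_lit 487) (nat_lit 459)) (XT.lf (nat_lit 0) (nat_lit 2046228027) (nat_lit 304) (nat_lit 2993323536) (nat_lit 76) (nat_lit 6071958898) (nat_lit 108) (nat_lit 5) (nat_lit 112) (nat_lit 5) (nat_lit 109) (nat_lit 5) (nat_lit 615) (nat_lit 487) (nat_lit 458))))) (XT.nd (nat_lit 156) (nat_lit 608) (nat_lit 0) (XT.nd (nat_lit 78) (nat_lit 304) (nat_lit 0) (XT.lf (nat_lit 0) (nat_lit 6080236392) (nat_lit 304) (nat_lit 585038501) (nat_lit 380) (nat_lit 4560412621) (nat_lit 104) (nat_lit 5) (nat_lit 108) (nat_lit 5) (nat_lit 109) (nat_lit 5) (nat_lit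 616) (nat_lit 487) (nat_lit 457)) (XT.lf (nat_lit 0) (nat_lit 49549237) (nat_lit 304) (nat_lit 7377507550) (nat_lit 76) (nat_lit 3914779991) (nat_lit 100) (nat_lit 5) (nat_lit 104) (nat_lit 5) (nat_lit 101) (nat_lit 5) (nat_lit 617) (nat_lit 487) (nat_lit 456))) (XT.nd (nat_lit 78) (nat_lit 304) (nat_lit 0) (XT.lf (nat_lit 0) (nat_lit 1759488896) (nat_lit 304) (nat_lit 2925071625) (nat_lit 380) (nat_lit 6775269411) (nat_lit 96) (nat_lit 5) (nat_lit 100) (nat_lit 5) (nat_lit 101) (nat_lit 5) (nat_lit 618) (nat_lit 487) (nat_lit 455)) (XT.nd (nat_lit 78) (nat_lit 304) (nat_lit 0) (XT.lf (nat_lit 0) (nat_lit 9416960220) (nat_lit 380) (nat_lit 507062551) (nat_lit 76) (nat_lit 1656068443) (nat_lit 96) (nat_lit 5) (nat_lit 101) (nat_lit 5) (nat_lit 97) (nat_lit 4) (nat_lit 619) (nat_lit 487) (nat_lit 454)) (XT.lf (nat_lit 0) (nat_lit 2530174363) (nat_lit 304) (nat_lit 2845948984) (nat_lit 76) (nat_lit 6325861277) (nat_lit 92) (nat_lit 5) (nat_lit 96) (nat_lit 5) (nat_lit 93) (nat_lit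 5) (nat_lit 620) (nat_lit 487) (nat_lit 453))))))) (XT.nd (nat_lit 78546) (nat_lit 0) (nat_lit 8360) (XT.nd (nat_lit 390) (nat_lit 456) (nat_lit 0) (XT.nd (nat_lit 156) (nat_lit 532) (nat_lit 0) (XT.nd (nat_lit 78) (nat_lit 304) (nat_lit 0) (XT.lf (nat_lit 0) (nat_lit 6564591447) (nat_lit 228) (nat_lit 715098838) (nat_lit 304) (nat_lit 4546515387) (nat_lit 89) (nat_lit 5) (nat_lit 92) (nat_lit 5) (nat_lit 93) (nat_lit 5) (nat_lit 621) (nat_lit 487) (nat_lit 452)) (XT.lf (nat_lit 0) (nat_lit 187214269) (nat_lit 304) (nat_lit 7770267302) (nat_lit 76) (nat_lit 3995045664) (nat_lit 85) (nat_lit 5) (nat_lit 89) (nat_lit 5) (nat_lit 86) (nat_lit 5) (nat_lit 622) (nat_lit 487) (nat_lit 451))) (XT.nd (nat_lit 78) (nat_lit 304) (nat_lit 0) (XT.lf (nat_lit 0) (nat_lit 1698364900) (nat_lit 228) (nat_lit 3253284517) (nat_lit 304) (nat_lit 7129188390) (nat_lit 82) (nat_lit 5) (nat_lit 85) (nat_lit 5) (nat_lit 86) (nat_lit 5) (nat_lit 623) (nat_lit 487) (nat_lit 450)) (XT.nd (nat_lit 78)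 (nat_lit 304) (nat_lit 0) (XT.lf (nat_lit 0) (nat_lit 9819638736) (nat_lit 304) (nat_lit 854047072) (nat_lit 76) (nat_lit 1537865243) (nat_lit 82) (nat_lit 5) (nat_lit 86) (nat_lit 5) (nat_lit 83) (nat_lit 4) (nat_lit 624) (nat_lit 487) (nat_lit 449)) (XT.lf (nat_lit 0) (nat_lit 2434201425) (nat_lit 304) (nat_lit 3493523406) (nat_lit 76) (nat_lit 6416316679) (nat_lit 78) (nat_lit 5) (nat_lit 82) (nat_lit 5) (nat_lit 79) (nat_lit 5) (nat_lit 625) (nat_lit 487) (nat_lit 448))))) (XT.nd (nat_lit 77922) (nat_lit 0) (nat_lit 12920) (XT.nd (nat_lit 78) (nat_lit 228) (nat_lit 0) (XT.lf (nat_lit 0) (nat_lit 6254903666) (nat_lit 228) (nat_lit 1063219411) (nat_lit 304) (nat_lit 5160877891) (nat_lit 75) (nat_lit 5) (nat_lit 78) (nat_lit 5) (nat_lit 79) (nat_lit 5) (nat_lit 626) (nat_lit 487) (nat_lit 447)) (XT.lf (nat_lit 0) (nat_lit 3557532350) (nat_lit 228) (nat_lit 8761286921) (nat_lit 304) (nat_lit 297460054) (nat_lit 72) (nat_lit 5) (nat_lit 75) (nat_lit 5) (nat_lit 76) (nat_lit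 4) (nat_lit 627) (nat_lit 487) (nat_lit 446))) (XT.nd (nat_lit 78) (nat_lit 1140) (nat_lit 0) (XT.lf (nat_lit 0) (nat_lit 1490866026) (nat_lit 608) (nat_lit 1231797951) (nat_lit 0) (nat_lit 1490866026) (nat_lit 257) (nat_lit 5) (nat_lit 265) (nat_lit 4) (nat_lit 257) (nat_lit 4) (nat_lit 584) (nat_lit 488) (nat_lit 488)) (XT.nd (nat_lit 78) (nat_lit 608) (nat_lit 0) (XT.lf (nat_lit 0) (nat_lit 4736870619) (nat_lit 532) (nat_lit 2414213786) (nat_lit 532) (nat_lit 1340013330) (nat_lit 250) (nat_lit 4) (nat_lit 257) (nat_lit 5) (nat_lit 257) (nat_lit 4) (nat_lit 585) (nat_lit 488) (nat_lit 487)) (XT.lf (nat_lit 0) (nat_lit 2785476981) (nat_lit 608) (nat_lit 5071214934) (nat_lit 0) (nat_lit 699851337) (nat_lit 242) (nat_lit 5) (nat_lit 250) (nat_lit 4) (nat_lit 242) (nat_lit 4) (nat_lit 586) (nat_lit 488) (nat_lit 486)))))) (XT.nd (nat_lit 390) (nat_lit 2432) (nat_lit 0) (XT.nd (nat_lit 156) (nat_lit 1064) (nat_lit 0) (XT.nd (nat_lit 78) (nat_lit 532) (nat_lit 0) (XT.lf (nat_lit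 0) (nat_lit 2205305817) (nat_lit 532) (nat_lit 4757966812) (nat_lit 532) (nat_lit 1660098087) (nat_lit 235) (nat_lit 4) (nat_lit 242) (nat_lit 5) (nat_lit 242) (nat_lit 4) (nat_lit 587) (nat_lit 488) (nat_lit 485)) (XT.lf (nat_lit 0) (nat_lit 903797341) (nat_lit 456) (nat_lit 1568510205) (nat_lit 532) (nat_lit 6219454211) (nat_lit 228) (nat_lit 5) (nat_lit 234) (nat_lit 5) (nat_lit 235) (nat_lit 4) (nat_lit 588) (nat_lit 488) (nat_lit 484))) (XT.nd (nat_lit 78) (nat_lit 1064) (nat_lit 0) (XT.lf (nat_lit 0) (nat_lit 6652277176) (nat_lit 532) (nat_lit 420930490) (nat_lit 0) (nat_lit 1688355263) (nat_lit 228) (nat_lit 5) (nat_lit 235) (nat_lit 4) (nat_lit 228) (nat_lit 4) (nat_lit 589) (nat_lit 488) (nat_lit 483)) (XT.nd (nat_lit 78) (nat_lit 456) (nat_lit 0) (XT.lf (nat_lit 0) (nat_lit 2046207198) (nat_lit 608) (nat_lit 1765739513) (nat_lit 76) (nat_lit 5020738580) (nat_lit 220) (nat_lit 5) (nat_lit 228) (nat_lit 5) (nat_lit 221) (nat_lit 4) (nat_lit 590) (nat_lit 488) (nat_lit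 482)) (XT.lf (nat_lit 0) (nat_lit 5771322438) (nat_lit 456) (nat_lit 459974708) (nat_lit 532) (nat_lit 2674163894) (nat_lit 214) (nat_lit 5) (nat_lit 220) (nat_lit 5) (nat_lit 221) (nat_lit 4) (nat_lit 591) (nat_lit 488) (nat_lit 481))))) (XT.nd (nat_lit 234) (nat_lit 912) (nat_lit 0) (XT.nd (nat_lit 78) (nat_lit 988) (nat_lit 0) (XT.lf (nat_lit 0) (nat_lit 1495294032) (nat_lit 532) (nat_lit 4542977316) (nat_lit 76) (nat_lit 2941330999) (nat_lit 207) (nat_lit 5) (nat_lit 214) (nat_lit 5) (nat_lit 208) (nat_lit 4) (nat_lit 592) (nat_lit 488) (nat_lit 480)) (XT.nd (nat_lit 78) (nat_lit 532) (nat_lit 0) (XT.lf (nat_lit 0) (nat_lit 3069636147) (nat_lit 456) (nat_lit 2621971343) (nat_lit 532) (nat_lit 3363684141) (nat_lit 201) (nat_lit 5) (nat_lit 207) (nat_lit 5) (nat_lit 208) (nat_lit 4) (nat_lit 593) (nat_lit 488) (nat_lit 479)) (XT.lf (nat_lit 0) (nat_lit 810988569) (nat_lit 532) (nat_lit 7454362612) (nat_lit 76) (nat_lit 867385624) (nat_lit 194) (nat_lit 5) (nat_lit 201) (nat_lit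 5) (nat_lit 195) (nat_lit 4) (nat_lit 594) (nat_lit 488) (nat_lit 478)))) (XT.nd (nat_lit 78) (nat_lit 532) (nat_lit 0) (XT.lf (nat_lit 0) (nat_lit 232148342) (nat_lit 380) (nat_lit 4787068271) (nat_lit 456) (nat_lit 4192171461) (nat_lit 189) (nat_lit 5) (nat_lit 194) (nat_lit 5) (nat_lit 195) (nat_lit 4) (nat_lit 595) (nat_lit 488) (nat_lit 477)) (XT.nd (nat_lit 78) (nat_lit 456) (nat_lit 0) (XT.lf (nat_lit 0) (nat_lit 6053619) (nat_lit 456) (nat_lit 1214739283) (nat_lit 76) (nat_lit 8071094244) (nat_lit 188) (nat_lit 5) (nat_lit 194) (nat_lit 5) (nat_lit 189) (nat_lit 5) (nat_lit 596) (nat_lit 488) (nat_lit 476)) (XT.lf (nat_lit 0) (nat_lit 4228638049) (nat_lit 532) (nat_lit 2720222517) (nat_lit 76) (nat_lit 2424654547) (nat_lit 182) (nat_lit 5) (nat_lit 189) (nat_lit 5) (nat_lit 183) (nat_lit 4) (nat_lit 597) (nat_lit 488) (nat_lit 475))))))))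
noncomputable def xc12 : XT := (XT.nd (nat_lit 1560) (nat_lit 2204) (nat_lit 0) (XT.nd (nat_lit 780) (nat_lit 2584) (nat_lit 0) (XT.nd (nat_lit 390) (nat_lit 1900) (nat_lit 0) (XT.nd (nat_lit 156) (nat_lit 836) (nat_lit 0) (XT.nd (nat_lit 78) (nat_lit 456) (nat_lit 0) (XT.lf (nat_lit 0) (nat_lit 5203030795) (nat_lit 380) (nat_lit 3320342319) (nat_lit 456) (nat_lit 933652153) (nat_lit 177) (nat_lit 5) (nat_lit 182) (nat_lit 5) (nat_lit 183) (nat_lit 4) (nat_lit 598) (nat_lit 488) (nat_lit 474)) (XT.lf (nat_lit 0) (nat_lit 3300674434) (nat_lit 456) (nat_lit 5834154438) (nat_lit 76) (nat_lit 407284324) (nat_lit 171) (nat_lit 5) (nat_lit 177) (nat_lit 5) (nat_lit 172) (nat_lit 4) (nat_lit 599) (nat_lit 488) (nat_lit 473))) (XT.nd (nat_lit 78) (nat_lit 456) (nat_lit 0) (XT.lf (nat_lit 0) (nat_lit 2162285607) (nat_lit 380) (nat_lit 5447879682) (nat_lit 456) (nat_lit 2018557978) (nat_lit 166) (nat_lit 5) (nat_lit 171) (nat_lit 5) (nat_lit 172) (nat_lit 4) (nat_lit 600) (nat_lit 488)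 (nat_lit 472)) (XT.nd (nat_lit 78) (nat_lit 0) (nat_lit 0) (XT.lf (nat_lit 0) (nat_lit 577525931) (nat_lit 380) (nat_lit 1662782585) (nat_lit 456) (nat_lit 7476832168) (nat_lit 160) (nat_lit 5) (nat_lit 165) (nat_lit 5) (nat_lit 166) (nat_lit 5) (nat_lit 601) (nat_lit 488) (nat_lit 471)) (XT.lf (nat_lit 0) (nat_lit 6560803280) (nat_lit 456) (nat_lit 1047465257) (nat_lit 76) (nat_lit 2198724673) (nat_lit 160) (nat_lit 5) (nat_lit 166) (nat_lit 5) (nat_lit 161) (nat_lit 4) (nat_lit 602) (nat_lit 488) (nat_lit 470))))) (XT.nd (nat_lit 156) (nat_lit 1064) (nat_lit 0) (XT.nd (nat_lit 78) (nat_lit 380) (nat_lit 0) (XT.lf (nat_lit 0) (nat_lit 1052701045) (nat_lit 456) (nat_lit 2710590023) (nat_lit 76) (nat_lit 6135262839) (nat_lit 154) (nat_lit 5) (nat_lit 160) (nat_lit 5) (nat_lit 155) (nat_lit 5) (nat_lit 603) (nat_lit 488) (nat_lit 469)) (XT.lf (nat_lit 0) (nat_lit 5378711264) (nat_lit 456) (nat_lit 4426146543) (nat_lit 76) (nat_lit 186969725) (nat_lit 149) (nat_lit 5) (nat_lit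 155) (nat_lit 5) (nat_lit 150) (nat_lit 4) (nat_lit 604) (nat_lit 488) (nat_lit 468))) (XT.nd (nat_lit 78) (nat_lit 760) (nat_lit 0) (XT.lf (nat_lit 0) (nat_lit 3888206245) (nat_lit 304) (nat_lit 5911963531) (nat_lit 380) (nat_lit 286621250) (nat_lit 145) (nat_lit 5) (nat_lit 149) (nat_lit 5) (nat_lit 150) (nat_lit 4) (nat_lit 605) (nat_lit 488) (nat_lit 467)) (XT.nd (nat_lit 78) (nat_lit 304) (nat_lit 0) (XT.lf (nat_lit 0) (nat_lit 2151485558) (nat_lit 380) (nat_lit 1905276776) (nat_lit 456) (nat_lit 6126668929) (nat_lit 139) (nat_lit 5) (nat_lit 144) (nat_lit 5) (nat_lit 145) (nat_lit 5) (nat_lit 606) (nat_lit 488) (nat_lit 466)) (XT.lf (nat_lit 0) (nat_lit 364000164) (nat_lit 304) (nat_lit 8118501858) (nat_lit 380) (nat_lit 1799480655) (nat_lit 135) (nat_lit 5) (nat_lit 139) (nat_lit 5) (nat_lit 140) (nat_lit 4) (nat_lit 607) (nat_lit 488) (nat_lit 465)))))) (XT.nd (nat_lit 390) (nat_lit 1216) (nat_lit 0) (XT.nd (nat_lit 156) (nat_lit 988) (nat_lit 0) (XT.nd (nat_lit 78)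 (nat_lit 304) (nat_lit 0) (XT.lf (nat_lit 0) (nat_lit 2587912176) (nat_lit 380) (nat_lit 1470634878) (nat_lit 76) (nat_lit 6323462333) (nat_lit 134) (nat_lit 5) (nat_lit 139) (nat_lit 5) (nat_lit 135) (nat_lit 5) (nat_lit 608) (nat_lit 488) (nat_lit 464)) (XT.lf (nat_lit 0) (nat_lit 7028208977) (nat_lit 380) (nat_lit 3351537861) (nat_lit 76) (nat_lit 104269505) (nat_lit 130) (nat_lit 5) (nat_lit 135) (nat_lit 5) (nat_lit 131) (nat_lit 4) (nat_lit 609) (nat_lit 488) (nat_lit 463))) (XT.nd (nat_lit 78) (nat_lit 608) (nat_lit 0) (XT.lf (nat_lit 0) (nat_lit 970287266) (nat_lit 380) (nat_lit 5306457357) (nat_lit 76) (nat_lit 4310920465) (nat_lit 125) (nat_lit 5) (nat_lit 130) (nat_lit 5) (nat_lit 126) (nat_lit 5) (nat_lit 610) (nat_lit 488) (nat_lit 462)) (XT.nd (nat_lit 78) (nat_lit 304) (nat_lit 0) (XT.lf (nat_lit 0) (nat_lit 3365654648) (nat_lit 304) (nat_lit 2060168781) (nat_lit 380) (nat_lit 5267365139) (nat_lit 121) (nat_lit 5) (nat_lit 125) (nat_lit 5) (nat_lit 126) (nat_lit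 5) (nat_lit 611) (nat_lit 488) (nat_lit 461)) (XT.lf (nat_lit 0) (nat_lit 1391667105) (nat_lit 304) (nat_lit 8581163775) (nat_lit 380) (nat_lit 827946854) (nat_lit 117) (nat_lit 5) (nat_lit 121) (nat_lit 5) (nat_lit 122) (nat_lit 4) (nat_lit 612) (nat_lit 488) (nat_lit 460))))) (XT.nd (nat_lit 156) (nat_lit 836) (nat_lit 0) (XT.nd (nat_lit 78) (nat_lit 304) (nat_lit 0) (XT.lf (nat_lit 0) (nat_lit 3657933025) (nat_lit 380) (nat_lit 657914920) (nat_lit 76) (nat_lit 6594068523) (nat_lit 116) (nat_lit 5) (nat_lit 121) (nat_lit 5) (nat_lit 117) (nat_lit 5) (nat_lit 613) (nat_lit 488) (nat_lit 459)) (XT.lf (nat_lit 0) (nat_lit 8220757271) (nat_lit 380) (nat_lit 2743257915) (nat_lit 76) (nat_lit 57149366) (nat_lit 112) (nat_lit 5) (nat_lit 117) (nat_lit 5) (nat_lit 113) (nat_lit 4) (nat_lit 614) (nat_lit 488) (nat_lit 458))) (XT.nd (nat_lit 78) (nat_lit 532) (nat_lit 0) (XT.lf (nat_lit 0) (nat_lit 1735377390) (nat_lit 304) (nat_lit 4919192567) (nat_lit 76) (nat_lit 4479483868) (nat_lit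 108) (nat_lit 5) (nat_lit 112) (nat_lit 5) (nat_lit 109) (nat_lit 5) (nat_lit 615) (nat_lit 488) (nat_lit 457)) (XT.nd (nat_lit 78) (nat_lit 228) (nat_lit 0) (XT.lf (nat_lit 0) (nat_lit 4081880063) (nat_lit 304) (nat_lit 2232119891) (nat_lit 380) (nat_lit 4935040477) (nat_lit 104) (nat_lit 5) (nat_lit 108) (nat_lit 5) (nat_lit 109) (nat_lit 5) (nat_lit 616) (nat_lit 488) (nat_lit 456)) (XT.lf (nat_lit 0) (nat_lit 1879907049) (nat_lit 228) (nat_lit 9109307734) (nat_lit 304) (nat_lit 377013704) (nat_lit 101) (nat_lit 5) (nat_lit 104) (nat_lit 5) (nat_lit 105) (nat_lit 4) (nat_lit 617) (nat_lit 488) (nat_lit 455))))))) (XT.nd (nat_lit 78390) (nat_lit 0) (nat_lit 10260) (XT.nd (nat_lit 390) (nat_lit 1064) (nat_lit 0) (XT.nd (nat_lit 156) (nat_lit 760) (nat_lit 0) (XT.nd (nat_lit 78) (nat_lit 304) (nat_lit 0) (XT.lf (nat_lit 0) (nat_lit 4224242875) (nat_lit 304) (nat_lit 416408866) (nat_lit 76) (nat_lit 6844393847) (nat_lit 100) (nat_lit 5) (nat_lit 104) (nat_lit 5) (nat_lit 101)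 (nat_lit 5) (nat_lit 618) (nat_lit 488) (nat_lit 454)) (XT.lf (nat_lit 0) (nat_lit 8856560082) (nat_lit 304) (nat_lit 59407413) (nat_lit 380) (nat_lit 2690153863) (nat_lit 96) (nat_lit 5) (nat_lit 100) (nat_lit 5) (nat_lit 101) (nat_lit 5) (nat_lit 619) (nat_lit 488) (nat_lit 453))) (XT.nd (nat_lit 78) (nat_lit 456) (nat_lit 0) (XT.lf (nat_lit 0) (nat_lit 1967715328) (nat_lit 304) (nat_lit 5187292002) (nat_lit 76) (nat_lit 4573923784) (nat_lit 92) (nat_lit 5) (nat_lit 96) (nat_lit 5) (nat_lit 93) (nat_lit 5) (nat_lit 620) (nat_lit 488) (nat_lit 452)) (XT.nd (nat_lit 78) (nat_lit 228) (nat_lit 0) (XT.lf (nat_lit 0) (nat_lit 4145817288) (nat_lit 228) (nat_lit 2529129807) (nat_lit 304) (nat_lit 5179051682) (nat_lit 89) (nat_lit 5) (nat_lit 92) (nat_lit 5) (nat_lit 93) (nat_lit 5) (nat_lit 621) (nat_lit 488) (nat_lit 451)) (XT.lf (nat_lit 0) (nat_lit 1669948945) (nat_lit 228) (nat_lit 9812987116) (nat_lit 304) (nat_lit 498501319) (nat_lit 86) (nat_lit 5) (nat_lit 89) (nat_lit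 5) (nat_lit 90) (nat_lit 4) (nat_lit 622) (nat_lit 488) (nat_lit 450))))) (XT.nd (nat_lit 156) (nat_lit 760) (nat_lit 0) (XT.nd (nat_lit 78) (nat_lit 228) (nat_lit 0) (XT.lf (nat_lit 0) (nat_lit 4235016555) (nat_lit 304) (nat_lit 907756729) (nat_lit 76) (nat_lit 6967789380) (nat_lit 85) (nat_lit 5) (nat_lit 89) (nat_lit 5) (nat_lit 86) (nat_lit 5) (nat_lit 623) (nat_lit 488) (nat_lit 449)) (XT.lf (nat_lit 0) (nat_lit 8704077618) (nat_lit 228) (nat_lit 356632729) (nat_lit 304) (nat_lit 3181412329) (nat_lit 82) (nat_lit 5) (nat_lit 85) (nat_lit 5) (nat_lit 86) (nat_lit 5) (nat_lit 624) (nat_lit 488) (nat_lit 448))) (XT.nd (nat_lit 78) (nat_lit 456) (nat_lit 0) (XT.lf (nat_lit 0) (nat_lit 1608680064) (nat_lit 304) (nat_lit 6282564795) (nat_lit 76) (nat_lit 4484399136) (nat_lit 78) (nat_lit 5) (nat_lit 82) (nat_lit 5) (nat_lit 79) (nat_lit 5) (nat_lit 625) (nat_lit 488) (nat_lit 447)) (XT.nd (nat_lit 78) (nat_lit 228) (nat_lit 0) (XT.lf (nat_lit 0) (nat_lit 3383091978) (nat_lit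 228) (nat_lit 3065093967) (nat_lit 304) (nat_lit 6063306631) (nat_lit 75) (nat_lit 5) (nat_lit 78) (nat_lit 5) (nat_lit 79) (nat_lit 5) (nat_lit 626) (nat_lit 488) (nat_lit 446)) (XT.lf (nat_lit 0) (nat_lit 582005862) (nat_lit 228) (nat_lit 10808878981) (nat_lit 304) (nat_lit 1259046829) (nat_lit 72) (nat_lit 5) (nat_lit 75) (nat_lit 5) (nat_lit 76) (nat_lit 4) (nat_lit 627) (nat_lit 488) (nat_lit 445)))))) (XT.nd (nat_lit 390) (nat_lit 2660) (nat_lit 0) (XT.nd (nat_lit 156) (nat_lit 1748) (nat_lit 0) (XT.nd (nat_lit 78) (nat_lit 0) (nat_lit 0) (XT.lf (nat_lit 0) (nat_lit 53030375) (nat_lit 608) (nat_lit 2049171467) (nat_lit 608) (nat_lit 2049171467) (nat_lit 265) (nat_lit 4) (nat_lit 273) (nat_lit 5) (nat_lit 273) (nat_lit 4) (nat_lit 582) (nat_lit 489) (nat_lit 489)) (XT.lf (nat_lit 0) (nat_lit 7181962743) (nat_lit 608) (nat_lit 1150176801) (nat_lit 608) (nat_lit 32578647) (nat_lit 265) (nat_lit 4) (nat_lit 273) (nat_lit 5) (nat_lit 273) (nat_lit 4) (nat_lit 583) (nat_lit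 489) (nat_lit 488))) (XT.nd (nat_lit 78) (nat_lit 1140) (nat_lit 0) (XT.lf (nat_lit 0) (nat_lit 4043372785) (nat_lit 608) (nat_lit 2510882833) (nat_lit 0) (nat_lit 1873487864) (nat_lit 257) (nat_lit 5) (nat_lit 265) (nat_lit 4) (nat_lit 257) (nat_lit 4) (nat_lit 584) (nat_lit 489) (nat_lit 487)) (XT.nd (nat_lit 78) (nat_lit 608) (nat_lit 0) (XT.lf (nat_lit 0) (nat_lit 4641979437) (nat_lit 532) (nat_lit 3536753397) (nat_lit 532) (nat_lit 313730775) (nat_lit 250) (nat_lit 4) (nat_lit 257) (nat_lit 5) (nat_lit 257) (nat_lit 4) (nat_lit 585) (nat_lit 489) (nat_lit 486)) (XT.lf (nat_lit 0) (nat_lit 3338619666) (nat_lit 532) (nat_lit 420850744) (nat_lit 608) (nat_lit 4799084485) (nat_lit 242) (nat_lit 5) (nat_lit 249) (nat_lit 5) (nat_lit 250) (nat_lit 4) (nat_lit 586) (nat_lit 489) (nat_lit 485))))) (XT.nd (nat_lit 234) (nat_lit 1596) (nat_lit 0) (XT.nd (nat_lit 78) (nat_lit 532) (nat_lit 0) (XT.lf (nat_lit 0) (nat_lit 2009989479) (nat_lit 532) (nat_lit 5890299591) (nat_lit 532)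 (nat_lit 725835232) (nat_lit 235) (nat_lit 4) (nat_lit 242) (nat_lit 5) (nat_lit 242) (nat_lit 4) (nat_lit 587) (nat_lit 489) (nat_lit 484)) (XT.nd (nat_lit 78) (nat_lit 0) (nat_lit 0) (XT.lf (nat_lit 0) (nat_lit 649427388) (nat_lit 456) (nat_lit 2710388549) (nat_lit 532) (nat_lit 5335270428) (nat_lit 228) (nat_lit 5) (nat_lit 234) (nat_lit 5) (nat_lit 235) (nat_lit 4) (nat_lit 588) (nat_lit 489) (nat_lit 483)) (XT.lf (nat_lit 0) (nat_lit 7499772038) (nat_lit 532) (nat_lit 718361751) (nat_lit 0) (nat_lit 547556283) (nat_lit 228) (nat_lit 5) (nat_lit 235) (nat_lit 4) (nat_lit 228) (nat_lit 4) (nat_lit 589) (nat_lit 489) (nat_lit 482)))) (XT.nd (nat_lit 78) (nat_lit 988) (nat_lit 0) (XT.lf (nat_lit 0) (nat_lit 2844063782) (nat_lit 608) (nat_lit 2124026659) (nat_lit 76) (nat_lit 3869303660) (nat_lit 220) (nat_lit 5) (nat_lit 228) (nat_lit 5) (nat_lit 221) (nat_lit 4) (nat_lit 590) (nat_lit 489) (nat_lit 481)) (XT.nd (nat_lit 78) (nat_lit 532) (nat_lit 0) (XT.lf (nat_lit 0) (nat_lit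 5361310701) (nat_lit 456) (nat_lit 1633337362) (nat_lit 532) (nat_lit 1916214034) (nat_lit 214) (nat_lit 5) (nat_lit 220) (nat_lit 5) (nat_lit 221) (nat_lit 4) (nat_lit 591) (nat_lit 489) (nat_lit 480)) (XT.lf (nat_lit 0) (nat_lit 2200801565) (nat_lit 532) (nat_lit 5014279765) (nat_lit 76) (nat_lit 1770675738) (nat_lit 207) (nat_lit 5) (nat_lit 214) (nat_lit 5) (nat_lit 208) (nat_lit 4) (nat_lit 592) (nat_lit 489) (nat_lit 479))))))))
noncomputable def xc13 : XT := (XT.nd (nat_lit 1560) (nat_lit 3496) (nat_lit 0) (XT.nd (nat_lit 780) (nat_lit 2964) (nat_lit 0) (XT.nd (nat_lit 390) (nat_lit 1672) (nat_lit 0) (XT.nd (nat_lit 156) (nat_lit 912) (nat_lit 0) (XT.nd (nat_lit 78) (nat_lit 532) (nat_lit 0) (XT.lf (nat_lit 0) (nat_lit 2544755128) (nat_lit 456) (nat_lit 3817449714) (nat_lit 532) (nat_lit 2699941724) (nat_lit 201) (nat_lit 5) (nat_lit 207) (nat_lit 5) (nat_lit 208) (nat_lit 4) (nat_lit 593) (nat_lit 489) (nat_lit 478)) (XT.lf (nat_lit 0) (nat_lit 1093596996) (nat_lit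 456) (nat_lit 331493587) (nat_lit 532) (nat_lit 7715235607) (nat_lit 194) (nat_lit 5) (nat_lit 200) (nat_lit 5) (nat_lit 201) (nat_lit 5) (nat_lit 594) (nat_lit 489) (nat_lit 477))) (XT.nd (nat_lit 78) (nat_lit 912) (nat_lit 0) (XT.lf (nat_lit 0) (nat_lit 5598478396) (nat_lit 532) (nat_lit 408132700) (nat_lit 76) (nat_lit 3213065063) (nat_lit 194) (nat_lit 5) (nat_lit 201) (nat_lit 5) (nat_lit 195) (nat_lit 4) (nat_lit 595) (nat_lit 489) (nat_lit 476)) (XT.nd (nat_lit 78) (nat_lit 456) (nat_lit 0) (XT.lf (nat_lit 0) (nat_lit 535757141) (nat_lit 456) (nat_lit 1919602898) (nat_lit 76) (nat_lit 6845418506) (nat_lit 188) (nat_lit 5) (nat_lit 194) (nat_lit 5) (nat_lit 189) (nat_lit 5) (nat_lit 596) (nat_lit 489) (nat_lit 475)) (XT.lf (nat_lit 0) (nat_lit 4714780335) (nat_lit 532) (nat_lit 3482721797) (nat_lit 76) (nat_lit 1185777390) (nat_lit 182) (nat_lit 5) (nat_lit 189) (nat_lit 5) (nat_lit 183) (nat_lit 4) (nat_lit 597) (nat_lit 489) (nat_lit 474))))) (XT.nd (nat_lit 156) (nat_lit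 836) (nat_lit 0) (XT.nd (nat_lit 78) (nat_lit 456) (nat_lit 0) (XT.lf (nat_lit 0) (nat_lit 4383379092) (nat_lit 380) (nat_lit 4590542393) (nat_lit 456) (nat_lit 493581820) (nat_lit 177) (nat_lit 5) (nat_lit 182) (nat_lit 5) (nat_lit 183) (nat_lit 4) (nat_lit 598) (nat_lit 489) (nat_lit 473)) (XT.lf (nat_lit 0) (nat_lit 2819516965) (nat_lit 380) (nat_lit 876812463) (nat_lit 456) (nat_lit 5856979219) (nat_lit 171) (nat_lit 5) (nat_lit 176) (nat_lit 5) (nat_lit 177) (nat_lit 5) (nat_lit 599) (nat_lit 489) (nat_lit 472))) (XT.nd (nat_lit 78) (nat_lit 456) (nat_lit 0) (XT.lf (nat_lit 0) (nat_lit 1209153134) (nat_lit 380) (nat_lit 6754793721) (nat_lit 456) (nat_lit 1676810981) (nat_lit 166) (nat_lit 5) (nat_lit 171) (nat_lit 5) (nat_lit 172) (nat_lit 4) (nat_lit 600) (nat_lit 489) (nat_lit 471)) (XT.nd (nat_lit 78) (nat_lit 380) (nat_lit 0) (XT.lf (nat_lit 0) (nat_lit 2543920176) (nat_lit 456) (nat_lit 444213722) (nat_lit 76) (nat_lit 6741671629) (nat_lit 165) (nat_lit 5) (nat_lit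 171) (nat_lit 5) (nat_lit 166) (nat_lit 5) (nat_lit 601) (nat_lit 489) (nat_lit 470)) (XT.lf (nat_lit 0) (nat_lit 6823139687) (nat_lit 456) (nat_lit 2126163318) (nat_lit 76) (nat_lit 871182109) (nat_lit 160) (nat_lit 5) (nat_lit 166) (nat_lit 5) (nat_lit 161) (nat_lit 4) (nat_lit 602) (nat_lit 489) (nat_lit 469)))))) (XT.nd (nat_lit 390) (nat_lit 1368) (nat_lit 0) (XT.nd (nat_lit 156) (nat_lit 760) (nat_lit 0) (XT.nd (nat_lit 78) (nat_lit 380) (nat_lit 0) (XT.lf (nat_lit 0) (nat_lit 1261493351) (nat_lit 456) (nat_lit 3865868614) (nat_lit 76) (nat_lit 4785388797) (nat_lit 154) (nat_lit 5) (nat_lit 160) (nat_lit 5) (nat_lit 155) (nat_lit 5) (nat_lit 603) (nat_lit 489) (nat_lit 468)) (XT.lf (nat_lit 0) (nat_lit 4349570811) (nat_lit 380) (nat_lit 1199735163) (nat_lit 456) (nat_lit 4457483829) (nat_lit 149) (nat_lit 5) (nat_lit 154) (nat_lit 5) (nat_lit 155) (nat_lit 5) (nat_lit 604) (nat_lit 489) (nat_lit 467))) (XT.nd (nat_lit 78) (nat_lit 456) (nat_lit 0) (XT.lf (nat_lit 0)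 (nat_lit 2601767812) (nat_lit 304) (nat_lit 7323953055) (nat_lit 380) (nat_lit 176934739) (nat_lit 145) (nat_lit 5) (nat_lit 149) (nat_lit 5) (nat_lit 150) (nat_lit 4) (nat_lit 605) (nat_lit 489) (nat_lit 466)) (XT.nd (nat_lit 78) (nat_lit 0) (nat_lit 0) (XT.lf (nat_lit 0) (nat_lit 784174321) (nat_lit 380) (nat_lit 3343133901) (nat_lit 456) (nat_lit 6072728800) (nat_lit 139) (nat_lit 5) (nat_lit 144) (nat_lit 5) (nat_lit 145) (nat_lit 5) (nat_lit 606) (nat_lit 489) (nat_lit 465)) (XT.lf (nat_lit 0) (nat_lit 8512677007) (nat_lit 456) (nat_lit 1061872648) (nat_lit 76) (nat_lit 724847552) (nat_lit 139) (nat_lit 5) (nat_lit 145) (nat_lit 5) (nat_lit 140) (nat_lit 4) (nat_lit 607) (nat_lit 489) (nat_lit 464))))) (XT.nd (nat_lit 156) (nat_lit 684) (nat_lit 0) (XT.nd (nat_lit 78) (nat_lit 304) (nat_lit 0) (XT.lf (nat_lit 0) (nat_lit 2564873663) (nat_lit 380) (nat_lit 2974803000) (nat_lit 76) (nat_lit 4860459529) (nat_lit 134) (nat_lit 5) (nat_lit 139) (nat_lit 5) (nat_lit 135) (nat_lit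 5) (nat_lit 608) (nat_lit 489) (nat_lit 463)) (XT.lf (nat_lit 0) (nat_lit 5562734245) (nat_lit 304) (nat_lit 1403515300) (nat_lit 380) (nat_lit 3536673298) (nat_lit 130) (nat_lit 5) (nat_lit 134) (nat_lit 5) (nat_lit 135) (nat_lit 5) (nat_lit 609) (nat_lit 489) (nat_lit 462))) (XT.nd (nat_lit 78) (nat_lit 304) (nat_lit 0) (XT.lf (nat_lit 0) (nat_lit 842461385) (nat_lit 380) (nat_lit 6972437893) (nat_lit 76) (nat_lit 2792644446) (nat_lit 125) (nat_lit 5) (nat_lit 130) (nat_lit 5) (nat_lit 126) (nat_lit 5) (nat_lit 610) (nat_lit 489) (nat_lit 461)) (XT.nd (nat_lit 78) (nat_lit 0) (nat_lit 0) (XT.lf (nat_lit 0) (nat_lit 1631033321) (nat_lit 304) (nat_lit 3627871422) (nat_lit 380) (nat_lit 5454945519) (nat_lit 121) (nat_lit 5) (nat_lit 125) (nat_lit 5) (nat_lit 126) (nat_lit 5) (nat_lit 611) (nat_lit 489) (nat_lit 460)) (XT.lf (nat_lit 0) (nat_lit 9759000291) (nat_lit 380) (nat_lit 417714193) (nat_lit 76) (nat_lit 645664359) (nat_lit 121) (nat_lit 5) (nat_lit 126) (nat_lit 5)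 (nat_lit 122) (nat_lit 4) (nat_lit 612) (nat_lit 489) (nat_lit 459))))))) (XT.nd (nat_lit 780) (nat_lit 1064) (nat_lit 0) (XT.nd (nat_lit 390) (nat_lit 1140) (nat_lit 0) (XT.nd (nat_lit 156) (nat_lit 608) (nat_lit 0) (XT.nd (nat_lit 78) (nat_lit 304) (nat_lit 0) (XT.lf (nat_lit 0) (nat_lit 3395188320) (nat_lit 380) (nat_lit 2539047179) (nat_lit 76) (nat_lit 4997921800) (nat_lit 116) (nat_lit 5) (nat_lit 121) (nat_lit 5) (nat_lit 117) (nat_lit 5) (nat_lit 613) (nat_lit 489) (nat_lit 458)) (XT.lf (nat_lit 0) (nat_lit 6326371388) (nat_lit 304) (nat_lit 1591499479) (nat_lit 380) (nat_lit 3126338459) (nat_lit 112) (nat_lit 5) (nat_lit 116) (nat_lit 5) (nat_lit 117) (nat_lit 5) (nat_lit 614) (nat_lit 489) (nat_lit 457))) (XT.nd (nat_lit 78) (nat_lit 304) (nat_lit 0) (XT.lf (nat_lit 0) (nat_lit 1362861452) (nat_lit 304) (nat_lit 6977061540) (nat_lit 76) (nat_lit 2818236186) (nat_lit 108) (nat_lit 5) (nat_lit 112) (nat_lit 5) (nat_lit 109) (nat_lit 5) (nat_lit 615) (nat_lit 489) (nat_lit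 456)) (XT.nd (nat_lit 78) (nat_lit 0) (nat_lit 0) (XT.lf (nat_lit 0) (nat_lit 1950689062) (nat_lit 304) (nat_lit 3950046429) (nat_lit 380) (nat_lit 5373226309) (nat_lit 104) (nat_lit 5) (nat_lit 108) (nat_lit 5) (nat_lit 109) (nat_lit 5) (nat_lit 616) (nat_lit 489) (nat_lit 455)) (XT.lf (nat_lit 0) (nat_lit 10525794973) (nat_lit 380) (nat_lit 335194414) (nat_lit 76) (nat_lit 531164602) (nat_lit 104) (nat_lit 5) (nat_lit 109) (nat_lit 5) (nat_lit 105) (nat_lit 4) (nat_lit 617) (nat_lit 489) (nat_lit 454))))) (XT.nd (nat_lit 156) (nat_lit 532) (nat_lit 0) (XT.nd (nat_lit 78) (nat_lit 304) (nat_lit 0) (XT.lf (nat_lit 0) (nat_lit 3712354861) (nat_lit 304) (nat_lit 2704287524) (nat_lit 76) (nat_lit 5094972444) (nat_lit 100) (nat_lit 5) (nat_lit 104) (nat_lit 5) (nat_lit 101) (nat_lit 5) (nat_lit 618) (nat_lit 489) (nat_lit 453)) (XT.lf (nat_lit 0) (nat_lit 6493031569) (nat_lit 304) (nat_lit 1869485923) (nat_lit 380) (nat_lit 3271005314) (nat_lit 96) (nat_lit 5) (nat_lit 100) (nat_lit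 5) (nat_lit 101) (nat_lit 5) (nat_lit 619) (nat_lit 489) (nat_lit 452))) (XT.nd (nat_lit 78) (nat_lit 228) (nat_lit 0) (XT.lf (nat_lit 0) (nat_lit 1340315774) (nat_lit 304) (nat_lit 7667793017) (nat_lit 76) (nat_lit 2749383447) (nat_lit 92) (nat_lit 5) (nat_lit 96) (nat_lit 5) (nat_lit 93) (nat_lit 5) (nat_lit 620) (nat_lit 489) (nat_lit 451)) (XT.nd (nat_lit 78) (nat_lit 0) (nat_lit 0) (XT.lf (nat_lit 0) (nat_lit 1586943950) (nat_lit 228) (nat_lit 4417930990) (nat_lit 304) (nat_lit 5878539323) (nat_lit 89) (nat_lit 5) (nat_lit 92) (nat_lit 5) (nat_lit 93) (nat_lit 5) (nat_lit 621) (nat_lit 489) (nat_lit 450)) (XT.lf (nat_lit 0) (nat_lit 10763800075) (nat_lit 304) (nat_lit 972891972) (nat_lit 76) (nat_lit 275142989) (nat_lit 89) (nat_lit 5) (nat_lit 93) (nat_lit 5) (nat_lit 90) (nat_lit 4) (nat_lit 622) (nat_lit 489) (nat_lit 449)))))) (XT.nd (nat_lit 77844) (nat_lit 0) (nat_lit 13224) (XT.nd (nat_lit 156) (nat_lit 532) (nat_lit 0) (XT.nd (nat_lit 78) (nat_lit 228) (nat_lit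 0) (XT.lf (nat_lit 0) (nat_lit 3462960093) (nat_lit 304) (nat_lit 3634107146) (nat_lit 76) (nat_lit 5044638331) (nat_lit 85) (nat_lit 5) (nat_lit 89) (nat_lit 5) (nat_lit 86) (nat_lit 5) (nat_lit 623) (nat_lit 489) (nat_lit 448)) (XT.lf (nat_lit 0) (nat_lit 5896827784) (nat_lit 228) (nat_lit 2348197519) (nat_lit 304) (nat_lit 4029113692) (nat_lit 82) (nat_lit 5) (nat_lit 85) (nat_lit 5) (nat_lit 86) (nat_lit 5) (nat_lit 624) (nat_lit 489) (nat_lit 447))) (XT.nd (nat_lit 78) (nat_lit 228) (nat_lit 0) (XT.lf (nat_lit 0) (nat_lit 714592746) (nat_lit 304) (nat_lit 9218501077) (nat_lit 76) (nat_lit 2475827451) (nat_lit 78) (nat_lit 5) (nat_lit 82) (nat_lit 5) (nat_lit 79) (nat_lit 5) (nat_lit 625) (nat_lit 489) (nat_lit 446)) (XT.nd (nat_lit 78) (nat_lit 0) (nat_lit 0) (XT.lf (nat_lit 0) (nat_lit 363329425) (nat_lit 228) (nat_lit 5145898132) (nat_lit 304) (nat_lit 7036440513) (nat_lit 75) (nat_lit 5) (nat_lit 78) (nat_lit 5) (nat_lit 79) (nat_lit 5) (nat_lit 626) (nat_lit 489)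 (nat_lit 445)) (XT.lf (nat_lit 0) (nat_lit 10173015912) (nat_lit 228) (nat_lit 237989839) (nat_lit 304) (nat_lit 2273920607) (nat_lit 75) (nat_lit 5) (nat_lit 78) (nat_lit 5) (nat_lit 79) (nat_lit 5) (nat_lit 627) (nat_lit 489) (nat_lit 444))))) (XT.nd (nat_lit 234) (nat_lit 1216) (nat_lit 0) (XT.nd (nat_lit 78) (nat_lit 1292) (nat_lit 0) (XT.lf (nat_lit 0) (nat_lit 1361607352) (nat_lit 608) (nat_lit 1364837185) (nat_lit 608) (nat_lit 1364837185) (nat_lit 282) (nat_lit 4) (nat_lit 290) (nat_lit 5) (nat_lit 290) (nat_lit 4) (nat_lit 580) (nat_lit 490) (nat_lit 490)) (XT.nd (nat_lit 78) (nat_lit 608) (nat_lit 0) (XT.lf (nat_lit 0) (nat_lit 1274967791) (nat_lit 684) (nat_lit 6832461794) (nat_lit 0) (nat_lit 135017674) (nat_lit 273) (nat_lit 5) (nat_lit 282) (nat_lit 4) (nat_lit 273) (nat_lit 4) (nat_lit 581) (nat_lit 490) (nat_lit 489)) (XT.lf (nat_lit 0) (nat_lit 59522720) (nat_lit 608) (nat_lit 5250728465) (nat_lit 608) (nat_lit 2993180194) (nat_lit 265) (nat_lit 4) (nat_lit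 273) (nat_lit 5) (nat_lit 273) (nat_lit 4) (nat_lit 582) (nat_lit 490) (nat_lit 488)))) (XT.nd (nat_lit 78) (nat_lit 1140) (nat_lit 0) (XT.lf (nat_lit 0) (nat_lit 1024858984) (nat_lit 684) (nat_lit 1283017586) (nat_lit 76) (nat_lit 6058062863) (nat_lit 264) (nat_lit 5) (nat_lit 273) (nat_lit 5) (nat_lit 265) (nat_lit 4) (nat_lit 583) (nat_lit 490) (nat_lit 487)) (XT.nd (nat_lit 78) (nat_lit 608) (nat_lit 0) (XT.lf (nat_lit 0) (nat_lit 5058826392) (nat_lit 608) (nat_lit 2652762171) (nat_lit 0) (nat_lit 718205616) (nat_lit 257) (nat_lit 5) (nat_lit 265) (nat_lit 4) (nat_lit 257) (nat_lit 4) (nat_lit 584) (nat_lit 490) (nat_lit 486)) (XT.lf (nat_lit 0) (nat_lit 656314272) (nat_lit 608) (nat_lit 4047353887) (nat_lit 76) (nat_lit 3791441373) (nat_lit 249) (nat_lit 5) (nat_lit 257) (nat_lit 5) (nat_lit 250) (nat_lit 4) (nat_lit 585) (nat_lit 490) (nat_lit 485))))))))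
noncomputable def xc14 : XT := (XT.nd (nat_lit 1560) (nat_lit 5092) (nat_lit 0) (XT.nd (nat_lit 780) (nat_lit 3724) (nat_lit 0) (XT.nd (nat_lit 390) (nat_lit 1976) (nat_lit 0) (XT.nd (nat_lit 156) (nat_lit 1064) (nat_lit 0) (XT.nd (nat_lit 78) (nat_lit 608) (nat_lit 0) (XT.lf (nat_lit 0) (nat_lit 3090876594) (nat_lit 532) (nat_lit 1600325580) (nat_lit 608) (nat_lit 3870644282) (nat_lit 242) (nat_lit 5) (nat_lit 249) (nat_lit 5) (nat_lit 250) (nat_lit 4) (nat_lit 586) (nat_lit 490) (nat_lit 484)) (XT.lf (nat_lit 0) (nat_lit 157777456) (nat_lit 608) (nat_lit 6914374809) (nat_lit 76) (nat_lit 1558083005) (nat_lit 234) (nat_lit 5) (nat_lit 242) (nat_lit 5) (nat_lit 235) (nat_lit 4) (nat_lit 587) (nat_lit 490) (nat_lit 483))) (XT.nd (nat_lit 78) (nat_lit 608) (nat_lit 0) (XT.lf (nat_lit 0) (nat_lit 295859191) (nat_lit 456) (nat_lit 3903548593) (nat_lit 532) (nat_lit 4500387590) (nat_lit 228) (nat_lit 5) (nat_lit 234) (nat_lit 5) (nat_lit 235) (nat_lit 4) (nat_lit 588) (nat_lit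 490) (nat_lit 482)) (XT.nd (nat_lit 78) (nat_lit 608) (nat_lit 0) (XT.lf (nat_lit 0) (nat_lit 7651758508) (nat_lit 456) (nat_lit 652132176) (nat_lit 532) (nat_lit 467220082) (nat_lit 228) (nat_lit 5) (nat_lit 234) (nat_lit 5) (nat_lit 235) (nat_lit 4) (nat_lit 589) (nat_lit 490) (nat_lit 481)) (XT.lf (nat_lit 0) (nat_lit 3593553428) (nat_lit 608) (nat_lit 2583100917) (nat_lit 76) (nat_lit 2666833534) (nat_lit 220) (nat_lit 5) (nat_lit 228) (nat_lit 5) (nat_lit 221) (nat_lit 4) (nat_lit 590) (nat_lit 490) (nat_lit 480))))) (XT.nd (nat_lit 156) (nat_lit 988) (nat_lit 0) (XT.nd (nat_lit 78) (nat_lit 532) (nat_lit 0) (XT.lf (nat_lit 0) (nat_lit 4850093291) (nat_lit 456) (nat_lit 2859506041) (nat_lit 532) (nat_lit 1208049404) (nat_lit 214) (nat_lit 5) (nat_lit 220) (nat_lit 5) (nat_lit 221) (nat_lit 4) (nat_lit 591) (nat_lit 490) (nat_lit 479)) (XT.lf (nat_lit 0) (nat_lit 2856784593) (nat_lit 532) (nat_lit 5589331478) (nat_lit 76) (nat_lit 547195567) (nat_lit 207) (nat_lit 5) (nat_lit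 214) (nat_lit 5) (nat_lit 208) (nat_lit 4) (nat_lit 592) (nat_lit 490) (nat_lit 478))) (XT.nd (nat_lit 78) (nat_lit 532) (nat_lit 0) (XT.lf (nat_lit 0) (nat_lit 1915673821) (nat_lit 456) (nat_lit 5067545024) (nat_lit 532) (nat_lit 2087183643) (nat_lit 201) (nat_lit 5) (nat_lit 207) (nat_lit 5) (nat_lit 208) (nat_lit 4) (nat_lit 593) (nat_lit 490) (nat_lit 477)) (XT.nd (nat_lit 78) (nat_lit 0) (nat_lit 0) (XT.lf (nat_lit 0) (nat_lit 397259919) (nat_lit 456) (nat_lit 1597252538) (nat_lit 532) (nat_lit 7154697976) (nat_lit 194) (nat_lit 5) (nat_lit 200) (nat_lit 5) (nat_lit 201) (nat_lit 5) (nat_lit 594) (nat_lit 490) (nat_lit 476)) (XT.lf (nat_lit 0) (nat_lit 6129112814) (nat_lit 532) (nat_lit 1151235943) (nat_lit 76) (nat_lit 1948989253) (nat_lit 194) (nat_lit 5) (nat_lit 201) (nat_lit 5) (nat_lit 195) (nat_lit 4) (nat_lit 595) (nat_lit 490) (nat_lit 475)))))) (XT.nd (nat_lit 390) (nat_lit 1596) (nat_lit 0) (XT.nd (nat_lit 156) (nat_lit 1216) (nat_lit 0) (XT.nd (nat_lit 78)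 (nat_lit 456) (nat_lit 0) (XT.lf (nat_lit 0) (nat_lit 1014506348) (nat_lit 456) (nat_lit 2731894831) (nat_lit 76) (nat_lit 5564681167) (nat_lit 188) (nat_lit 5) (nat_lit 194) (nat_lit 5) (nat_lit 189) (nat_lit 5) (nat_lit 596) (nat_lit 490) (nat_lit 474)) (XT.lf (nat_lit 0) (nat_lit 5039528533) (nat_lit 456) (nat_lit 110685750) (nat_lit 532) (nat_lit 4244237096) (nat_lit 182) (nat_lit 5) (nat_lit 188) (nat_lit 5) (nat_lit 189) (nat_lit 5) (nat_lit 597) (nat_lit 490) (nat_lit 473))) (XT.nd (nat_lit 78) (nat_lit 836) (nat_lit 0) (XT.lf (nat_lit 0) (nat_lit 3454217881) (nat_lit 380) (nat_lit 5918707556) (nat_lit 456) (nat_lit 106480041) (nat_lit 177) (nat_lit 5) (nat_lit 182) (nat_lit 5) (nat_lit 183) (nat_lit 4) (nat_lit 598) (nat_lit 490) (nat_lit 472)) (XT.nd (nat_lit 78) (nat_lit 380) (nat_lit 0) (XT.lf (nat_lit 0) (nat_lit 1817206544) (nat_lit 380) (nat_lit 2225053680) (nat_lit 456) (nat_lit 5523623861) (nat_lit 171) (nat_lit 5) (nat_lit 176) (nat_lit 5) (nat_lit 177) (nat_lit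 5) (nat_lit 599) (nat_lit 490) (nat_lit 471)) (XT.lf (nat_lit 0) (nat_lit 143269567) (nat_lit 380) (nat_lit 8121529856) (nat_lit 456) (nat_lit 1389437034) (nat_lit 166) (nat_lit 5) (nat_lit 171) (nat_lit 5) (nat_lit 172) (nat_lit 4) (nat_lit 600) (nat_lit 490) (nat_lit 470))))) (XT.nd (nat_lit 156) (nat_lit 1140) (nat_lit 0) (XT.nd (nat_lit 78) (nat_lit 380) (nat_lit 0) (XT.lf (nat_lit 0) (nat_lit 2798207925) (nat_lit 456) (nat_lit 1571303895) (nat_lit 76) (nat_lit 5374322910) (nat_lit 165) (nat_lit 5) (nat_lit 171) (nat_lit 5) (nat_lit 166) (nat_lit 5) (nat_lit 601) (nat_lit 490) (nat_lit 469)) (XT.lf (nat_lit 0) (nat_lit 6512538840) (nat_lit 380) (nat_lit 522703869) (nat_lit 456) (nat_lit 2800116826) (nat_lit 160) (nat_lit 5) (nat_lit 165) (nat_lit 5) (nat_lit 166) (nat_lit 5) (nat_lit 602) (nat_lit 490) (nat_lit 468))) (XT.nd (nat_lit 78) (nat_lit 684) (nat_lit 0) (XT.lf (nat_lit 0) (nat_lit 1415753050) (nat_lit 456) (nat_lit 5137415769) (nat_lit 76) (nat_lit 3375239864)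 (nat_lit 154) (nat_lit 5) (nat_lit 160) (nat_lit 5) (nat_lit 155) (nat_lit 5) (nat_lit 603) (nat_lit 490) (nat_lit 467)) (XT.nd (nat_lit 78) (nat_lit 304) (nat_lit 0) (XT.lf (nat_lit 0) (nat_lit 3015308594) (nat_lit 380) (nat_lit 2651100448) (nat_lit 456) (nat_lit 4356783250) (nat_lit 149) (nat_lit 5) (nat_lit 154) (nat_lit 5) (nat_lit 155) (nat_lit 5) (nat_lit 604) (nat_lit 490) (nat_lit 466)) (XT.lf (nat_lit 0) (nat_lit 1196722849) (nat_lit 304) (nat_lit 8799220345) (nat_lit 380) (nat_lit 124053924) (nat_lit 145) (nat_lit 5) (nat_lit 149) (nat_lit 5) (nat_lit 150) (nat_lit 4) (nat_lit 605) (nat_lit 490) (nat_lit 465))))))) (XT.nd (nat_lit 780) (nat_lit 2280) (nat_lit 0) (XT.nd (nat_lit 390) (nat_lit 1292) (nat_lit 0) (XT.nd (nat_lit 156) (nat_lit 1064) (nat_lit 0) (XT.nd (nat_lit 78) (nat_lit 380) (nat_lit 0) (XT.lf (nat_lit 0) (nat_lit 4146144730) (nat_lit 380) (nat_lit 694294524) (nat_lit 76) (nat_lit 5377600781) (nat_lit 144) (nat_lit 5) (nat_lit 149) (nat_lit 5) (nat_lit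 145) (nat_lit 5) (nat_lit 606) (nat_lit 490) (nat_lit 464)) (XT.lf (nat_lit 0) (nat_lit 7709537610) (nat_lit 380) (nat_lit 784640984) (nat_lit 456) (nat_lit 1823969651) (nat_lit 139) (nat_lit 5) (nat_lit 144) (nat_lit 5) (nat_lit 145) (nat_lit 5) (nat_lit 607) (nat_lit 490) (nat_lit 463))) (XT.nd (nat_lit 78) (nat_lit 684) (nat_lit 0) (XT.lf (nat_lit 0) (nat_lit 2484736466) (nat_lit 380) (nat_lit 4601326395) (nat_lit 76) (nat_lit 3333698009) (nat_lit 134) (nat_lit 5) (nat_lit 139) (nat_lit 5) (nat_lit 135) (nat_lit 5) (nat_lit 608) (nat_lit 490) (nat_lit 462)) (XT.nd (nat_lit 78) (nat_lit 380) (nat_lit 0) (XT.lf (nat_lit 0) (nat_lit 3869216569) (nat_lit 304) (nat_lit 2978411544) (nat_lit 380) (nat_lit 3675690342) (nat_lit 130) (nat_lit 5) (nat_lit 134) (nat_lit 5) (nat_lit 135) (nat_lit 5) (nat_lit 609) (nat_lit 490) (nat_lit 461)) (XT.lf (nat_lit 0) (nat_lit 655861392) (nat_lit 380) (nat_lit 8764437698) (nat_lit 76) (nat_lit 1208647624) (nat_lit 125) (nat_lit 5) (nat_lit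 130) (nat_lit 5) (nat_lit 126) (nat_lit 5) (nat_lit 610) (nat_lit 490) (nat_lit 460))))) (XT.nd (nat_lit 156) (nat_lit 988) (nat_lit 0) (XT.nd (nat_lit 78) (nat_lit 304) (nat_lit 0) (XT.lf (nat_lit 0) (nat_lit 5034430203) (nat_lit 380) (nat_lit 227348876) (nat_lit 76) (nat_lit 5474232841) (nat_lit 125) (nat_lit 5) (nat_lit 130) (nat_lit 5) (nat_lit 126) (nat_lit 5) (nat_lit 611) (nat_lit 490) (nat_lit 459)) (XT.lf (nat_lit 0) (nat_lit 8502898751) (nat_lit 304) (nat_lit 998843501) (nat_lit 380) (nat_lit 1343455076) (nat_lit 121) (nat_lit 5) (nat_lit 125) (nat_lit 5) (nat_lit 126) (nat_lit 5) (nat_lit 612) (nat_lit 490) (nat_lit 458))) (XT.nd (nat_lit 78) (nat_lit 608) (nat_lit 0) (XT.lf (nat_lit 0) (nat_lit 3072461741) (nat_lit 380) (nat_lit 4549079272) (nat_lit 76) (nat_lit 3334398714) (nat_lit 116) (nat_lit 5) (nat_lit 121) (nat_lit 5) (nat_lit 117) (nat_lit 5) (nat_lit 613) (nat_lit 490) (nat_lit 457)) (XT.nd (nat_lit 78) (nat_lit 304) (nat_lit 0) (XT.lf (nat_lit 0) (nat_lit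 4244737579) (nat_lit 304) (nat_lit 3310330024) (nat_lit 380) (nat_lit 3513726774) (nat_lit 112) (nat_lit 5) (nat_lit 116) (nat_lit 5) (nat_lit 117) (nat_lit 5) (nat_lit 614) (nat_lit 490) (nat_lit 456)) (XT.lf (nat_lit 0) (nat_lit 928534128) (nat_lit 304) (nat_lit 9167737463) (nat_lit 76) (nat_lit 1087564380) (nat_lit 108) (nat_lit 5) (nat_lit 112) (nat_lit 5) (nat_lit 109) (nat_lit 5) (nat_lit 615) (nat_lit 490) (nat_lit 455)))))) (XT.nd (nat_lit 390) (nat_lit 1064) (nat_lit 0) (XT.nd (nat_lit 156) (nat_lit 912) (nat_lit 0) (XT.nd (nat_lit 78) (nat_lit 304) (nat_lit 0) (XT.lf (nat_lit 0) (nat_lit 5427359256) (nat_lit 304) (nat_lit 310051943) (nat_lit 76) (nat_lit 5563009399) (nat_lit 108) (nat_lit 5) (nat_lit 112) (nat_lit 5) (nat_lit 109) (nat_lit 5) (nat_lit 616) (nat_lit 490) (nat_lit 454)) (XT.lf (nat_lit 0) (nat_lit 8751473731) (nat_lit 304) (nat_lit 1269257367) (nat_lit 380) (nat_lit 1398516447) (nat_lit 104) (nat_lit 5) (nat_lit 108) (nat_lit 5) (nat_lit 109) (nat_lit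 5) (nat_lit 617) (nat_lit 490) (nat_lit 453))) (XT.nd (nat_lit 78) (nat_lit 608) (nat_lit 0) (XT.lf (nat_lit 0) (nat_lit 3137271970) (nat_lit 304) (nat_lit 5128120298) (nat_lit 76) (nat_lit 3274384283) (nat_lit 100) (nat_lit 5) (nat_lit 104) (nat_lit 5) (nat_lit 101) (nat_lit 5) (nat_lit 618) (nat_lit 490) (nat_lit 452)) (XT.nd (nat_lit 78) (nat_lit 304) (nat_lit 0) (XT.lf (nat_lit 0) (nat_lit 3992629342) (nat_lit 304) (nat_lit 3752868642) (nat_lit 380) (nat_lit 3917026224) (nat_lit 96) (nat_lit 5) (nat_lit 100) (nat_lit 5) (nat_lit 101) (nat_lit 5) (nat_lit 619) (nat_lit 490) (nat_lit 451)) (XT.lf (nat_lit 0) (nat_lit 647729661) (nat_lit 304) (nat_lit 10288424774) (nat_lit 76) (nat_lit 851524760) (nat_lit 92) (nat_lit 5) (nat_lit 96) (nat_lit 5) (nat_lit 93) (nat_lit 5) (nat_lit 620) (nat_lit 490) (nat_lit 450))))) (XT.nd (nat_lit 234) (nat_lit 532) (nat_lit 0) (XT.nd (nat_lit 78) (nat_lit 532) (nat_lit 0) (XT.lf (nat_lit 0) (nat_lit 5276437592) (nat_lit 304) (nat_lit 1098434429)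 (nat_lit 76) (nat_lit 5539447117) (nat_lit 92) (nat_lit 5) (nat_lit 96) (nat_lit 5) (nat_lit 93) (nat_lit 5) (nat_lit 621) (nat_lit 490) (nat_lit 449)) (XT.nd (nat_lit 78) (nat_lit 304) (nat_lit 0) (XT.lf (nat_lit 0) (nat_lit 8297168893) (nat_lit 228) (nat_lit 1703826964) (nat_lit 304) (nat_lit 2042432266) (nat_lit 89) (nat_lit 5) (nat_lit 92) (nat_lit 5) (nat_lit 93) (nat_lit 5) (nat_lit 622) (nat_lit 490) (nat_lit 448)) (XT.lf (nat_lit 0) (nat_lit 2624150352) (nat_lit 304) (nat_lit 6504029869) (nat_lit 76) (nat_lit 3046319055) (nat_lit 85) (nat_lit 5) (nat_lit 89) (nat_lit 5) (nat_lit 86) (nat_lit 5) (nat_lit 623) (nat_lit 490) (nat_lit 447)))) (XT.nd (nat_lit 78) (nat_lit 304) (nat_lit 0) (XT.lf (nat_lit 0) (nat_lit 2944973480) (nat_lit 228) (nat_lit 4417172712) (nat_lit 304) (nat_lit 4945668722) (nat_lit 82) (nat_lit 5) (nat_lit 85) (nat_lit 5) (nat_lit 86) (nat_lit 5) (nat_lit 624) (nat_lit 490) (nat_lit 446)) (XT.nd (nat_lit 78) (nat_lit 76) (nat_lit 0) (XT.lf (nat_lit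 0) (nat_lit 139735827) (nat_lit 228) (nat_lit 12052405478) (nat_lit 304) (nat_lit 251712404) (nat_lit 79) (nat_lit 5) (nat_lit 82) (nat_lit 5) (nat_lit 83) (nat_lit 4) (nat_lit 625) (nat_lit 490) (nat_lit 445)) (XT.lf (nat_lit 0) (nat_lit 4519095303) (nat_lit 304) (nat_lit 2768772681) (nat_lit 76) (nat_lit 5293308553) (nat_lit 78) (nat_lit 5) (nat_lit 82) (nat_lit 5) (nat_lit 79) (nat_lit 5) (nat_lit 626) (nat_lit 490) (nat_lit 444))))))))
noncomputable def xc15 : XT := (XT.nd (nat_lit 78858) (nat_lit 0) (nat_lit 2204) (XT.nd (nat_lit 78078) (nat_lit 0) (nat_lit 8588) (XT.nd (nat_lit 77688) (nat_lit 0) (nat_lit 12692) (XT.nd (nat_lit 77454) (nat_lit 0) (nat_lit 15048) (XT.nd (nat_lit 77376) (nat_lit 0) (nat_lit 17024) (XT.lf (nat_lit 0) (nat_lit 6961049047) (nat_lit 228) (nat_lit 2417045499) (nat_lit 304) (nat_lit 3343196619) (nat_lit 75) (nat_lit 5) (nat_lit 78) (nat_lit 5) (nat_lit 79) (nat_lit 5) (nat_lit 627) (nat_lit 490) (nat_lit 443)) (XT.lf (nat_lit 0) (nat_lit 2680170325)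 (nat_lit 684) (nat_lit 676614924) (nat_lit 684) (nat_lit 676614924) (nat_lit 299) (nat_lit 4) (nat_lit 308) (nat_lit 5) (nat_lit 308) (nat_lit 4) (nat_lit 578) (nat_lit 491) (nat_lit 491))) (XT.nd (nat_lit 78) (nat_lit 1292) (nat_lit 0) (XT.lf (nat_lit 0) (nat_lit 2606944295) (nat_lit 684) (nat_lit 4096417318) (nat_lit 0) (nat_lit 1420940193) (nat_lit 290) (nat_lit 5) (nat_lit 299) (nat_lit 4) (nat_lit 290) (nat_lit 4) (nat_lit 579) (nat_lit 491) (nat_lit 490)) (XT.nd (nat_lit 78) (nat_lit 684) (nat_lit 0) (XT.lf (nat_lit 0) (nat_lit 2678044672) (nat_lit 608) (nat_lit 3926976129) (nat_lit 608) (nat_lit 1578222908) (nat_lit 282) (nat_lit 4) (nat_lit 290) (nat_lit 5) (nat_lit 290) (nat_lit 4) (nat_lit 580) (nat_lit 491) (nat_lit 489)) (XT.lf (nat_lit 0) (nat_lit 1311530758) (nat_lit 608) (nat_lit 1064822754) (nat_lit 684) (nat_lit 5867326482) (nat_lit 273) (nat_lit 5) (nat_lit 281) (nat_lit 5) (nat_lit 282) (nat_lit 4) (nat_lit 581) (nat_lit 491) (nat_lit 488))))) (XT.nd (nat_lit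 156) (nat_lit 1672) (nat_lit 0) (XT.nd (nat_lit 78) (nat_lit 684) (nat_lit 0) (XT.lf (nat_lit 0) (nat_lit 6371199202) (nat_lit 684) (nat_lit 79058971) (nat_lit 0) (nat_lit 1855217347) (nat_lit 273) (nat_lit 5) (nat_lit 282) (nat_lit 4) (nat_lit 273) (nat_lit 4) (nat_lit 582) (nat_lit 491) (nat_lit 487)) (XT.lf (nat_lit 0) (nat_lit 2036353560) (nat_lit 684) (nat_lit 1476748117) (nat_lit 76) (nat_lit 4855417378) (nat_lit 264) (nat_lit 5) (nat_lit 273) (nat_lit 5) (nat_lit 265) (nat_lit 4) (nat_lit 583) (nat_lit 491) (nat_lit 486))) (XT.nd (nat_lit 78) (nat_lit 1140) (nat_lit 0) (XT.lf (nat_lit 0) (nat_lit 5540671643) (nat_lit 532) (nat_lit 491007393) (nat_lit 608) (nat_lit 2401470105) (nat_lit 257) (nat_lit 5) (nat_lit 264) (nat_lit 5) (nat_lit 265) (nat_lit 4) (nat_lit 584) (nat_lit 491) (nat_lit 485)) (XT.nd (nat_lit 78) (nat_lit 532) (nat_lit 0) (XT.lf (nat_lit 0) (nat_lit 1575731218) (nat_lit 608) (nat_lit 4342324855) (nat_lit 76) (nat_lit 2581032245) (nat_lit 249) (nat_lit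 5) (nat_lit 257) (nat_lit 5) (nat_lit 250) (nat_lit 4) (nat_lit 585) (nat_lit 491) (nat_lit 484)) (XT.lf (nat_lit 0) (nat_lit 2746698321) (nat_lit 532) (nat_lit 2829735052) (nat_lit 608) (nat_lit 2990077940) (nat_lit 242) (nat_lit 5) (nat_lit 249) (nat_lit 5) (nat_lit 250) (nat_lit 4) (nat_lit 586) (nat_lit 491) (nat_lit 483)))))) (XT.nd (nat_lit 390) (nat_lit 1976) (nat_lit 0) (XT.nd (nat_lit 156) (nat_lit 1520) (nat_lit 0) (XT.nd (nat_lit 78) (nat_lit 0) (nat_lit 0) (XT.lf (nat_lit 0) (nat_lit 984296868) (nat_lit 608) (nat_lit 7316263014) (nat_lit 76) (nat_lit 335078128) (nat_lit 234) (nat_lit 5) (nat_lit 242) (nat_lit 5) (nat_lit 235) (nat_lit 4) (nat_lit 587) (nat_lit 491) (nat_lit 482)) (XT.lf (nat_lit 0) (nat_lit 4992431985) (nat_lit 608) (nat_lit 154986217) (nat_lit 76) (nat_lit 3558452035) (nat_lit 234) (nat_lit 5) (nat_lit 242) (nat_lit 5) (nat_lit 235) (nat_lit 4) (nat_lit 588) (nat_lit 491) (nat_lit 481))) (XT.nd (nat_lit 78) (nat_lit 988) (nat_lit 0) (XT.lf (nat_lit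 0) (nat_lit 283054536) (nat_lit 532) (nat_lit 1625622305) (nat_lit 76) (nat_lit 6869119034) (nat_lit 227) (nat_lit 5) (nat_lit 234) (nat_lit 5) (nat_lit 228) (nat_lit 5) (nat_lit 589) (nat_lit 491) (nat_lit 480)) (XT.nd (nat_lit 78) (nat_lit 456) (nat_lit 0) (XT.lf (nat_lit 0) (nat_lit 4294970053) (nat_lit 608) (nat_lit 3143142317) (nat_lit 76) (nat_lit 1412856647) (nat_lit 220) (nat_lit 5) (nat_lit 228) (nat_lit 5) (nat_lit 221) (nat_lit 4) (nat_lit 590) (nat_lit 491) (nat_lit 479)) (XT.lf (nat_lit 0) (nat_lit 4237469730) (nat_lit 456) (nat_lit 4138961596) (nat_lit 532) (nat_lit 549392292) (nat_lit 214) (nat_lit 5) (nat_lit 220) (nat_lit 5) (nat_lit 221) (nat_lit 4) (nat_lit 591) (nat_lit 491) (nat_lit 478))))) (XT.nd (nat_lit 156) (nat_lit 988) (nat_lit 0) (XT.nd (nat_lit 78) (nat_lit 456) (nat_lit 0) (XT.lf (nat_lit 0) (nat_lit 2729015125) (nat_lit 456) (nat_lit 739285168) (nat_lit 532) (nat_lit 5533872728) (nat_lit 207) (nat_lit 5) (nat_lit 213) (nat_lit 5) (nat_lit 214)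 (nat_lit 5) (nat_lit 592) (nat_lit 491) (nat_lit 477)) (XT.lf (nat_lit 0) (nat_lit 1182145526) (nat_lit 456) (nat_lit 6372747506) (nat_lit 532) (nat_lit 1525169604) (nat_lit 201) (nat_lit 5) (nat_lit 207) (nat_lit 5) (nat_lit 208) (nat_lit 4) (nat_lit 593) (nat_lit 491) (nat_lit 476))) (XT.nd (nat_lit 78) (nat_lit 912) (nat_lit 0) (XT.lf (nat_lit 0) (nat_lit 2516401120) (nat_lit 532) (nat_lit 399776673) (nat_lit 76) (nat_lit 6243276755) (nat_lit 200) (nat_lit 5) (nat_lit 207) (nat_lit 5) (nat_lit 201) (nat_lit 5) (nat_lit 594) (nat_lit 491) (nat_lit 475)) (XT.nd (nat_lit 78) (nat_lit 456) (nat_lit 0) (XT.lf (nat_lit 0) (nat_lit 6609820700) (nat_lit 532) (nat_lit 2000497466) (nat_lit 76) (nat_lit 630089397) (nat_lit 194) (nat_lit 5) (nat_lit 201) (nat_lit 5) (nat_lit 195) (nat_lit 4) (nat_lit 595) (nat_lit 491) (nat_lit 474)) (XT.lf (nat_lit 0) (nat_lit 1442488986) (nat_lit 456) (nat_lit 3651933628) (nat_lit 76) (nat_lit 4228379977) (nat_lit 188) (nat_lit 5) (nat_lit 194) (nat_lit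 5) (nat_lit 189) (nat_lit 5) (nat_lit 596) (nat_lit 491) (nat_lit 473))))))) (XT.nd (nat_lit 780) (nat_lit 3040) (nat_lit 0) (XT.nd (nat_lit 390) (nat_lit 1596) (nat_lit 0) (XT.nd (nat_lit 156) (nat_lit 836) (nat_lit 0) (XT.nd (nat_lit 78) (nat_lit 456) (nat_lit 0) (XT.lf (nat_lit 0) (nat_lit 4062263377) (nat_lit 456) (nat_lit 1480302160) (nat_lit 532) (nat_lit 3864320430) (nat_lit 182) (nat_lit 5) (nat_lit 188) (nat_lit 5) (nat_lit 189) (nat_lit 5) (nat_lit 597) (nat_lit 491) (nat_lit 472)) (XT.lf (nat_lit 0) (nat_lit 224817283) (nat_lit 456) (nat_lit 7079032730) (nat_lit 76) (nat_lit 2188856860) (nat_lit 176) (nat_lit 5) (nat_lit 182) (nat_lit 5) (nat_lit 177) (nat_lit 5) (nat_lit 598) (nat_lit 491) (nat_lit 471))) (XT.nd (nat_lit 78) (nat_lit 456) (nat_lit 0) (XT.lf (nat_lit 0) (nat_lit 703367527) (nat_lit 380) (nat_lit 3632555452) (nat_lit 456) (nat_lit 5243975053) (nat_lit 171) (nat_lit 5) (nat_lit 176) (nat_lit 5) (nat_lit 177) (nat_lit 5) (nat_lit 599) (nat_lit 491)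 (nat_lit 470)) (XT.nd (nat_lit 78) (nat_lit 456) (nat_lit 0) (XT.lf (nat_lit 0) (nat_lit 8519565964) (nat_lit 456) (nat_lit 1022198605) (nat_lit 76) (nat_lit 127265344) (nat_lit 171) (nat_lit 5) (nat_lit 177) (nat_lit 5) (nat_lit 172) (nat_lit 4) (nat_lit 600) (nat_lit 491) (nat_lit 469)) (XT.lf (nat_lit 0) (nat_lit 2999521803) (nat_lit 456) (nat_lit 2811760939) (nat_lit 76) (nat_lit 3948026046) (nat_lit 165) (nat_lit 5) (nat_lit 171) (nat_lit 5) (nat_lit 166) (nat_lit 5) (nat_lit 601) (nat_lit 491) (nat_lit 468))))) (XT.nd (nat_lit 156) (nat_lit 760) (nat_lit 0) (XT.nd (nat_lit 78) (nat_lit 456) (nat_lit 0) (XT.lf (nat_lit 0) (nat_lit 5210929679) (nat_lit 380) (nat_lit 1988997186) (nat_lit 456) (nat_lit 2651640818) (nat_lit 160) (nat_lit 5) (nat_lit 165) (nat_lit 5) (nat_lit 166) (nat_lit 5) (nat_lit 602) (nat_lit 491) (nat_lit 467)) (XT.lf (nat_lit 0) (nat_lit 1515540636) (nat_lit 456) (nat_lit 6525730133) (nat_lit 76) (nat_lit 1904263039) (nat_lit 154) (nat_lit 5) (nat_lit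 160) (nat_lit 5) (nat_lit 155) (nat_lit 5) (nat_lit 603) (nat_lit 491) (nat_lit 466))) (XT.nd (nat_lit 78) (nat_lit 380) (nat_lit 0) (XT.lf (nat_lit 0) (nat_lit 1563625763) (nat_lit 380) (nat_lit 4165210562) (nat_lit 456) (nat_lit 4312229707) (nat_lit 149) (nat_lit 5) (nat_lit 154) (nat_lit 5) (nat_lit 155) (nat_lit 5) (nat_lit 604) (nat_lit 491) (nat_lit 465)) (XT.nd (nat_lit 78) (nat_lit 380) (nat_lit 0) (XT.lf (nat_lit 0) (nat_lit 9814270521) (nat_lit 380) (nat_lit 200018641) (nat_lit 456) (nat_lit 124464702) (nat_lit 149) (nat_lit 5) (nat_lit 154) (nat_lit 5) (nat_lit 155) (nat_lit 5) (nat_lit 605) (nat_lit 491) (nat_lit 464)) (XT.lf (nat_lit 0) (nat_lit 4114586510) (nat_lit 380) (nat_lit 2281860096) (nat_lit 76) (nat_lit 3840974614) (nat_lit 144) (nat_lit 5) (nat_lit 149) (nat_lit 5) (nat_lit 145) (nat_lit 5) (nat_lit 606) (nat_lit 491) (nat_lit 463)))))) (XT.nd (nat_lit 390) (nat_lit 1596) (nat_lit 0) (XT.nd (nat_lit 156) (nat_lit 684) (nat_lit 0) (XT.nd (nat_lit 78)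 (nat_lit 380) (nat_lit 0) (XT.lf (nat_lit 0) (nat_lit 6056604125) (nat_lit 380) (nat_lit 2368122269) (nat_lit 456) (nat_lit 1913562216) (nat_lit 139) (nat_lit 5) (nat_lit 144) (nat_lit 5) (nat_lit 145) (nat_lit 5) (nat_lit 607) (nat_lit 491) (nat_lit 462)) (XT.lf (nat_lit 0) (nat_lit 2347469159) (nat_lit 380) (nat_lit 6350842914) (nat_lit 76) (nat_lit 1742579040) (nat_lit 134) (nat_lit 5) (nat_lit 139) (nat_lit 5) (nat_lit 135) (nat_lit 5) (nat_lit 608) (nat_lit 491) (nat_lit 461))) (XT.nd (nat_lit 78) (nat_lit 380) (nat_lit 0) (XT.lf (nat_lit 0) (nat_lit 2051961031) (nat_lit 304) (nat_lit 4619651147) (nat_lit 380) (nat_lit 3873612719) (nat_lit 130) (nat_lit 5) (nat_lit 134) (nat_lit 5) (nat_lit 135) (nat_lit 5) (nat_lit 609) (nat_lit 491) (nat_lit 460)) (XT.nd (nat_lit 78) (nat_lit 304) (nat_lit 0) (XT.lf (nat_lit 0) (nat_lit 413542288) (nat_lit 380) (nat_lit 33791969) (nat_lit 76) (nat_lit 10204485627) (nat_lit 129) (nat_lit 5) (nat_lit 134) (nat_lit 5) (nat_lit 130) (nat_lit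 5) (nat_lit 610) (nat_lit 491) (nat_lit 459)) (XT.lf (nat_lit 0) (nat_lit 4762233120) (nat_lit 380) (nat_lit 2190179613) (nat_lit 76) (nat_lit 3807071072) (nat_lit 125) (nat_lit 5) (nat_lit 130) (nat_lit 5) (nat_lit 126) (nat_lit 5) (nat_lit 611) (nat_lit 491) (nat_lit 458))))) (XT.nd (nat_lit 234) (nat_lit 608) (nat_lit 0) (XT.nd (nat_lit 78) (nat_lit 684) (nat_lit 0) (XT.lf (nat_lit 0) (nat_lit 6470164297) (nat_lit 304) (nat_lit 2719957717) (nat_lit 380) (nat_lit 1679336795) (nat_lit 121) (nat_lit 5) (nat_lit 125) (nat_lit 5) (nat_lit 126) (nat_lit 5) (nat_lit 612) (nat_lit 491) (nat_lit 457)) (XT.nd (nat_lit 78) (nat_lit 304) (nat_lit 0) (XT.lf (nat_lit 0) (nat_lit 2689626728) (nat_lit 380) (nat_lit 6688799449) (nat_lit 76) (nat_lit 1602846903) (nat_lit 116) (nat_lit 5) (nat_lit 121) (nat_lit 5) (nat_lit 117) (nat_lit 5) (nat_lit 613) (nat_lit 491) (nat_lit 456)) (XT.lf (nat_lit 0) (nat_lit 2032572385) (nat_lit 304) (nat_lit 5099256835) (nat_lit 380) (nat_lit 3963107645)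 (nat_lit 112) (nat_lit 5) (nat_lit 116) (nat_lit 5) (nat_lit 117) (nat_lit 5) (nat_lit 614) (nat_lit 491) (nat_lit 455)))) (XT.nd (nat_lit 78) (nat_lit 532) (nat_lit 0) (XT.lf (nat_lit 0) (nat_lit 438772682) (nat_lit 380) (nat_lit 282023223) (nat_lit 76) (nat_lit 10490167419) (nat_lit 111) (nat_lit 5) (nat_lit 116) (nat_lit 5) (nat_lit 112) (nat_lit 5) (nat_lit 615) (nat_lit 491) (nat_lit 454)) (XT.nd (nat_lit 78) (nat_lit 304) (nat_lit 0) (XT.lf (nat_lit 0) (nat_lit 4905183806) (nat_lit 304) (nat_lit 2678003166) (nat_lit 76) (nat_lit 3745010266) (nat_lit 108) (nat_lit 5) (nat_lit 112) (nat_lit 5) (nat_lit 109) (nat_lit 5) (nat_lit 616) (nat_lit 491) (nat_lit 453)) (XT.lf (nat_lit 0) (nat_lit 6308731326) (nat_lit 304) (nat_lit 3148605187) (nat_lit 380) (nat_lit 1990513041) (nat_lit 104) (nat_lit 5) (nat_lit 108) (nat_lit 5) (nat_lit 109) (nat_lit 5) (nat_lit 617) (nat_lit 491) (nat_lit 452))))))))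
noncomputable def xc16 : XT := (XT.nd (nat_lit 78702) (nat_lit 0) (nat_lit 5244) (XT.nd (nat_lit 77922) (nat_lit 0) (nat_lit 13224) (XT.nd (nat_lit 390) (nat_lit 1064) (nat_lit 0) (XT.nd (nat_lit 156) (nat_lit 532) (nat_lit 0) (XT.nd (nat_lit 78) (nat_lit 304) (nat_lit 0) (XT.lf (nat_lit 0) (nat_lit 2498768679) (nat_lit 304) (nat_lit 7688857709) (nat_lit 76) (nat_lit 1381915407) (nat_lit 100) (nat_lit 5) (nat_lit 104) (nat_lit 5) (nat_lit 101) (nat_lit 5) (nat_lit 618) (nat_lit 491) (nat_lit 451)) (XT.lf (nat_lit 0) (nat_lit 1354372850) (nat_lit 304) (nat_lit 5710294152) (nat_lit 380) (nat_lit 4628469933) (nat_lit 96) (nat_lit 5) (nat_lit 100) (nat_lit 5) (nat_lit 101) (nat_lit 5) (nat_lit 619) (nat_lit 491) (nat_lit 450))) (XT.nd (nat_lit 78) (nat_lit 532) (nat_lit 0) (XT.lf (nat_lit 0) (nat_lit 10596568767) (nat_lit 304) (nat_lit 1126448960) (nat_lit 380) (nat_lit 96165402) (nat_lit 96) (nat_lit 5) (nat_lit 100) (nat_lit 5) (nat_lit 101) (nat_lit 5) (nat_lit 620) (nat_lit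 491) (nat_lit 449)) (XT.nd (nat_lit 78) (nat_lit 228) (nat_lit 0) (XT.lf (nat_lit 0) (nat_lit 4493346511) (nat_lit 304) (nat_lit 3903296752) (nat_lit 76) (nat_lit 3550002316) (nat_lit 92) (nat_lit 5) (nat_lit 96) (nat_lit 5) (nat_lit 93) (nat_lit 5) (nat_lit 621) (nat_lit 491) (nat_lit 448)) (XT.lf (nat_lit 0) (nat_lit 5412242671) (nat_lit 228) (nat_lit 3762375559) (nat_lit 304) (nat_lit 2902002924) (nat_lit 89) (nat_lit 5) (nat_lit 92) (nat_lit 5) (nat_lit 93) (nat_lit 5) (nat_lit 622) (nat_lit 491) (nat_lit 447))))) (XT.nd (nat_lit 156) (nat_lit 760) (nat_lit 0) (XT.nd (nat_lit 78) (nat_lit 0) (nat_lit 0) (XT.lf (nat_lit 0) (nat_lit 1718258388) (nat_lit 304) (nat_lit 9518650359) (nat_lit 76) (nat_lit 972047897) (nat_lit 85) (nat_lit 5) (nat_lit 89) (nat_lit 5) (nat_lit 86) (nat_lit 5) (nat_lit 623) (nat_lit 491) (nat_lit 446)) (XT.lf (nat_lit 0) (nat_lit 6412717845) (nat_lit 304) (nat_lit 150640945) (nat_lit 76) (nat_lit 5779785028) (nat_lit 85) (nat_lit 5) (nat_lit 89)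 (nat_lit 5) (nat_lit 86) (nat_lit 5) (nat_lit 624) (nat_lit 491) (nat_lit 445))) (XT.nd (nat_lit 78) (nat_lit 532) (nat_lit 0) (XT.lf (nat_lit 0) (nat_lit 9444688067) (nat_lit 228) (nat_lit 1769347020) (nat_lit 304) (nat_lit 1265721878) (nat_lit 82) (nat_lit 5) (nat_lit 85) (nat_lit 5) (nat_lit 86) (nat_lit 5) (nat_lit 625) (nat_lit 491) (nat_lit 444)) (XT.nd (nat_lit 78) (nat_lit 228) (nat_lit 0) (XT.lf (nat_lit 0) (nat_lit 3462513471) (nat_lit 304) (nat_lit 6044515215) (nat_lit 76) (nat_lit 3111300965) (nat_lit 78) (nat_lit 5) (nat_lit 82) (nat_lit 5) (nat_lit 79) (nat_lit 5) (nat_lit 626) (nat_lit 491) (nat_lit 443)) (XT.lf (nat_lit 0) (nat_lit 3599548887) (nat_lit 228) (nat_lit 4676331182) (nat_lit 304) (nat_lit 4483477611) (nat_lit 75) (nat_lit 5) (nat_lit 78) (nat_lit 5) (nat_lit 79) (nat_lit 5) (nat_lit 627) (nat_lit 491) (nat_lit 442)))))) (XT.nd (nat_lit 390) (nat_lit 2508) (nat_lit 0) (XT.nd (nat_lit 156) (nat_lit 1976) (nat_lit 0) (XT.nd (nat_lit 78) (nat_lit 0)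 (nat_lit 0) (XT.lf (nat_lit 0) (nat_lit 16893275) (nat_lit 684) (nat_lit 3943918640) (nat_lit 0) (nat_lit 16893275) (nat_lit 308) (nat_lit 5) (nat_lit 317) (nat_lit 4) (nat_lit 308) (nat_lit 4) (nat_lit 576) (nat_lit 492) (nat_lit 492)) (XT.lf (nat_lit 0) (nat_lit 3951087166) (nat_lit 684) (nat_lit 1342304265) (nat_lit 0) (nat_lit 2717168498) (nat_lit 308) (nat_lit 5) (nat_lit 317) (nat_lit 4) (nat_lit 308) (nat_lit 4) (nat_lit 577) (nat_lit 492) (nat_lit 491))) (XT.nd (nat_lit 78) (nat_lit 1292) (nat_lit 0) (XT.lf (nat_lit 0) (nat_lit 5316530195) (nat_lit 684) (nat_lit 2597294611) (nat_lit 684) (nat_lit 153651760) (nat_lit 299) (nat_lit 4) (nat_lit 308) (nat_lit 5) (nat_lit 308) (nat_lit 4) (nat_lit 578) (nat_lit 492) (nat_lit 490)) (XT.nd (nat_lit 78) (nat_lit 608) (nat_lit 0) (XT.lf (nat_lit 0) (nat_lit 3748838693) (nat_lit 684) (nat_lit 4186464108) (nat_lit 0) (nat_lit 190361288) (nat_lit 290) (nat_lit 5) (nat_lit 299) (nat_lit 4) (nat_lit 290) (nat_lit 4) (nat_lit 579)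 (nat_lit 492) (nat_lit 489)) (XT.lf (nat_lit 0) (nat_lit 2542516861) (nat_lit 608) (nat_lit 5170597714) (nat_lit 608) (nat_lit 472170192) (nat_lit 282) (nat_lit 4) (nat_lit 290) (nat_lit 5) (nat_lit 290) (nat_lit 4) (nat_lit 580) (nat_lit 492) (nat_lit 488))))) (XT.nd (nat_lit 156) (nat_lit 1824) (nat_lit 0) (XT.nd (nat_lit 78) (nat_lit 0) (nat_lit 0) (XT.lf (nat_lit 0) (nat_lit 1120419964) (nat_lit 608) (nat_lit 2313464015) (nat_lit 684) (nat_lit 4812376424) (nat_lit 273) (nat_lit 5) (nat_lit 281) (nat_lit 5) (nat_lit 282) (nat_lit 4) (nat_lit 581) (nat_lit 492) (nat_lit 487)) (XT.lf (nat_lit 0) (nat_lit 7388134713) (nat_lit 684) (nat_lit 308787417) (nat_lit 0) (nat_lit 611948301) (nat_lit 273) (nat_lit 5) (nat_lit 282) (nat_lit 4) (nat_lit 273) (nat_lit 4) (nat_lit 582) (nat_lit 492) (nat_lit 486))) (XT.nd (nat_lit 78) (nat_lit 1140) (nat_lit 0) (XT.lf (nat_lit 0) (nat_lit 3002729019) (nat_lit 684) (nat_lit 1763811493) (nat_lit 76) (nat_lit 3605921789) (nat_lit 264) (nat_lit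 5) (nat_lit 273) (nat_lit 5) (nat_lit 265) (nat_lit 4) (nat_lit 583) (nat_lit 492) (nat_lit 485)) (XT.nd (nat_lit 78) (nat_lit 608) (nat_lit 0) (XT.lf (nat_lit 0) (nat_lit 5205798448) (nat_lit 532) (nat_lit 1758365167) (nat_lit 608) (nat_lit 1473609041) (nat_lit 257) (nat_lit 5) (nat_lit 264) (nat_lit 5) (nat_lit 265) (nat_lit 4) (nat_lit 584) (nat_lit 492) (nat_lit 484)) (XT.lf (nat_lit 0) (nat_lit 2448995253) (nat_lit 608) (nat_lit 4733475801) (nat_lit 76) (nat_lit 1321971209) (nat_lit 249) (nat_lit 5) (nat_lit 257) (nat_lit 5) (nat_lit 250) (nat_lit 4) (nat_lit 585) (nat_lit 492) (nat_lit 483))))))) (XT.nd (nat_lit 780) (nat_lit 3800) (nat_lit 0) (XT.nd (nat_lit 390) (nat_lit 1976) (nat_lit 0) (XT.nd (nat_lit 156) (nat_lit 1064) (nat_lit 0) (XT.nd (nat_lit 78) (nat_lit 608) (nat_lit 0) (XT.lf (nat_lit 0) (nat_lit 2305949873) (nat_lit 532) (nat_lit 4109561282) (nat_lit 608) (nat_lit 2157040138) (nat_lit 242) (nat_lit 5) (nat_lit 249) (nat_lit 5) (nat_lit 250) (nat_lit 4)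 (nat_lit 586) (nat_lit 492) (nat_lit 482)) (XT.lf (nat_lit 0) (nat_lit 818887415) (nat_lit 532) (nat_lit 950852739) (nat_lit 608) (nat_lit 6872565266) (nat_lit 234) (nat_lit 5) (nat_lit 241) (nat_lit 5) (nat_lit 242) (nat_lit 5) (nat_lit 587) (nat_lit 492) (nat_lit 481))) (XT.nd (nat_lit 78) (nat_lit 1064) (nat_lit 0) (XT.lf (nat_lit 0) (nat_lit 5740746511) (nat_lit 608) (nat_lit 700160737) (nat_lit 76) (nat_lit 2272375151) (nat_lit 234) (nat_lit 5) (nat_lit 242) (nat_lit 5) (nat_lit 235) (nat_lit 4) (nat_lit 588) (nat_lit 492) (nat_lit 480)) (XT.nd (nat_lit 78) (nat_lit 532) (nat_lit 0) (XT.lf (nat_lit 0) (nat_lit 979791158) (nat_lit 532) (nat_lit 2234626747) (nat_lit 76) (nat_lit 5571384988) (nat_lit 227) (nat_lit 5) (nat_lit 234) (nat_lit 5) (nat_lit 228) (nat_lit 5) (nat_lit 589) (nat_lit 492) (nat_lit 479)) (XT.lf (nat_lit 0) (nat_lit 4948588723) (nat_lit 608) (nat_lit 3804370482) (nat_lit 76) (nat_lit 106881242) (nat_lit 220) (nat_lit 5) (nat_lit 228) (nat_lit 5) (nat_lit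 221) (nat_lit 4) (nat_lit 590) (nat_lit 492) (nat_lit 478))))) (XT.nd (nat_lit 156) (nat_lit 988) (nat_lit 0) (XT.nd (nat_lit 78) (nat_lit 456) (nat_lit 0) (XT.lf (nat_lit 0) (nat_lit 59228483) (nat_lit 532) (nat_lit 5412579835) (nat_lit 76) (nat_lit 3463573835) (nat_lit 213) (nat_lit 5) (nat_lit 220) (nat_lit 5) (nat_lit 214) (nat_lit 5) (nat_lit 591) (nat_lit 492) (nat_lit 477)) (XT.lf (nat_lit 0) (nat_lit 1947182323) (nat_lit 456) (nat_lit 2087558295) (nat_lit 532) (nat_lit 4977621033) (nat_lit 207) (nat_lit 5) (nat_lit 213) (nat_lit 5) (nat_lit 214) (nat_lit 5) (nat_lit 592) (nat_lit 492) (nat_lit 476))) (XT.nd (nat_lit 78) (nat_lit 532) (nat_lit 0) (XT.lf (nat_lit 0) (nat_lit 343882586) (nat_lit 456) (nat_lit 7733569004) (nat_lit 532) (nat_lit 1013679207) (nat_lit 201) (nat_lit 5) (nat_lit 207) (nat_lit 5) (nat_lit 208) (nat_lit 4) (nat_lit 593) (nat_lit 492) (nat_lit 475)) (XT.nd (nat_lit 78) (nat_lit 456) (nat_lit 0) (XT.lf (nat_lit 0) (nat_lit 2991599712) (nat_lit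 532) (nat_lit 1296535619) (nat_lit 76) (nat_lit 4882914452) (nat_lit 200) (nat_lit 5) (nat_lit 207) (nat_lit 5) (nat_lit 201) (nat_lit 5) (nat_lit 594) (nat_lit 492) (nat_lit 474)) (XT.lf (nat_lit 0) (nat_lit 6291645196) (nat_lit 456) (nat_lit 754041104) (nat_lit 532) (nat_lit 2207104941) (nat_lit 194) (nat_lit 5) (nat_lit 200) (nat_lit 5) (nat_lit 201) (nat_lit 5) (nat_lit 595) (nat_lit 492) (nat_lit 473)))))) (XT.nd (nat_lit 390) (nat_lit 2052) (nat_lit 0) (XT.nd (nat_lit 156) (nat_lit 836) (nat_lit 0) (XT.nd (nat_lit 78) (nat_lit 456) (nat_lit 0) (XT.lf (nat_lit 0) (nat_lit 1819872891) (nat_lit 456) (nat_lit 4680080088) (nat_lit 76) (nat_lit 2835990895) (nat_lit 188) (nat_lit 5) (nat_lit 194) (nat_lit 5) (nat_lit 189) (nat_lit 5) (nat_lit 596) (nat_lit 492) (nat_lit 472)) (XT.lf (nat_lit 0) (nat_lit 2976336208) (nat_lit 456) (nat_lit 2907850587) (nat_lit 532) (nat_lit 3536557392) (nat_lit 182) (nat_lit 5) (nat_lit 188) (nat_lit 5) (nat_lit 189) (nat_lit 5) (nat_lit 597)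 (nat_lit 492) (nat_lit 471))) (XT.nd (nat_lit 78) (nat_lit 380) (nat_lit 0) (XT.lf (nat_lit 0) (nat_lit 502723428) (nat_lit 456) (nat_lit 8244942511) (nat_lit 76) (nat_lit 759769375) (nat_lit 176) (nat_lit 5) (nat_lit 182) (nat_lit 5) (nat_lit 177) (nat_lit 5) (nat_lit 598) (nat_lit 492) (nat_lit 470)) (XT.nd (nat_lit 78) (nat_lit 380) (nat_lit 0) (XT.lf (nat_lit 0) (nat_lit 4580824864) (nat_lit 456) (nat_lit 515585031) (nat_lit 76) (nat_lit 4498878249) (nat_lit 176) (nat_lit 5) (nat_lit 182) (nat_lit 5) (nat_lit 177) (nat_lit 5) (nat_lit 599) (nat_lit 492) (nat_lit 469)) (XT.lf (nat_lit 0) (nat_lit 7378351203) (nat_lit 380) (nat_lit 1353724809) (nat_lit 456) (nat_lit 952993405) (nat_lit 171) (nat_lit 5) (nat_lit 176) (nat_lit 5) (nat_lit 177) (nat_lit 5) (nat_lit 600) (nat_lit 492) (nat_lit 468))))) (XT.nd (nat_lit 234) (nat_lit 760) (nat_lit 0) (XT.nd (nat_lit 78) (nat_lit 836) (nat_lit 0) (XT.lf (nat_lit 0) (nat_lit 3147940756) (nat_lit 456) (nat_lit 4166071308) (nat_lit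 76) (nat_lit 2462221706) (nat_lit 165) (nat_lit 5) (nat_lit 171) (nat_lit 5) (nat_lit 166) (nat_lit 5) (nat_lit 601) (nat_lit 492) (nat_lit 467)) (XT.nd (nat_lit 78) (nat_lit 456) (nat_lit 0) (XT.lf (nat_lit 0) (nat_lit 3794829966) (nat_lit 380) (nat_lit 3516695305) (nat_lit 456) (nat_lit 2557705268) (nat_lit 160) (nat_lit 5) (nat_lit 165) (nat_lit 5) (nat_lit 166) (nat_lit 5) (nat_lit 602) (nat_lit 492) (nat_lit 466)) (XT.lf (nat_lit 0) (nat_lit 1560895242) (nat_lit 456) (nat_lit 8031356144) (nat_lit 76) (nat_lit 371881469) (nat_lit 154) (nat_lit 5) (nat_lit 160) (nat_lit 5) (nat_lit 155) (nat_lit 5) (nat_lit 603) (nat_lit 492) (nat_lit 465)))) (XT.nd (nat_lit 78) (nat_lit 760) (nat_lit 0) (XT.lf (nat_lit 0) (nat_lit 5736651565) (nat_lit 456) (nat_lit 5967663) (nat_lit 76) (nat_lit 4317798019) (nat_lit 154) (nat_lit 5) (nat_lit 160) (nat_lit 5) (nat_lit 155) (nat_lit 5) (nat_lit 604) (nat_lit 492) (nat_lit 464)) (XT.nd (nat_lit 78) (nat_lit 380) (nat_lit 0) (XT.lf (nat_lit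 0) (nat_lit 8201423528) (nat_lit 380) (nat_lit 1793511033) (nat_lit 456) (nat_lit 163715269) (nat_lit 149) (nat_lit 5) (nat_lit 154) (nat_lit 5) (nat_lit 155) (nat_lit 5) (nat_lit 605) (nat_lit 492) (nat_lit 463)) (XT.lf (nat_lit 0) (nat_lit 4027529805) (nat_lit 380) (nat_lit 3989429555) (nat_lit 76) (nat_lit 2241330640) (nat_lit 144) (nat_lit 5) (nat_lit 149) (nat_lit 5) (nat_lit 145) (nat_lit 5) (nat_lit 606) (nat_lit 492) (nat_lit 462))))))))
noncomputable def xc17 : XT := (XT.nd (nat_lit 1560) (nat_lit 228) (nat_lit 0) (XT.nd (nat_lit 780) (nat_lit 2280) (nat_lit 0) (XT.nd (nat_lit 390) (nat_lit 1292) (nat_lit 0) (XT.nd (nat_lit 156) (nat_lit 684) (nat_lit 0) (XT.nd (nat_lit 78) (nat_lit 380) (nat_lit 0) (XT.lf (nat_lit 0) (nat_lit 4282940003) (nat_lit 380) (nat_lit 4016584432) (nat_lit 456) (nat_lit 2060397136) (nat_lit 139) (nat_lit 5) (nat_lit 144) (nat_lit 5) (nat_lit 145) (nat_lit 5) (nat_lit 607) (nat_lit 492) (nat_lit 461)) (XT.lf (nat_lit 0) (nat_lit 2153017911)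 (nat_lit 380) (nat_lit 8224038642) (nat_lit 76) (nat_lit 86478656) (nat_lit 134) (nat_lit 5) (nat_lit 139) (nat_lit 5) (nat_lit 135) (nat_lit 5) (nat_lit 608) (nat_lit 492) (nat_lit 460))) (XT.nd (nat_lit 78) (nat_lit 380) (nat_lit 0) (XT.lf (nat_lit 0) (nat_lit 110254983) (nat_lit 304) (nat_lit 6327877732) (nat_lit 380) (nat_lit 4130518044) (nat_lit 130) (nat_lit 5) (nat_lit 134) (nat_lit 5) (nat_lit 135) (nat_lit 5) (nat_lit 609) (nat_lit 492) (nat_lit 459)) (XT.nd (nat_lit 78) (nat_lit 304) (nat_lit 0) (XT.lf (nat_lit 0) (nat_lit 133650835) (nat_lit 380) (nat_lit 2040368594) (nat_lit 76) (nat_lit 8501787943) (nat_lit 129) (nat_lit 5) (nat_lit 134) (nat_lit 5) (nat_lit 130) (nat_lit 5) (nat_lit 610) (nat_lit 492) (nat_lit 458)) (XT.lf (nat_lit 0) (nat_lit 4431617000) (nat_lit 380) (nat_lit 4279619924) (nat_lit 76) (nat_lit 2073249995) (nat_lit 125) (nat_lit 5) (nat_lit 130) (nat_lit 5) (nat_lit 126) (nat_lit 5) (nat_lit 611) (nat_lit 492) (nat_lit 457))))) (XT.nd (nat_lit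 156) (nat_lit 608) (nat_lit 0) (XT.nd (nat_lit 78) (nat_lit 380) (nat_lit 0) (XT.lf (nat_lit 0) (nat_lit 4309996886) (nat_lit 304) (nat_lit 4509772694) (nat_lit 380) (nat_lit 2075488177) (nat_lit 121) (nat_lit 5) (nat_lit 125) (nat_lit 5) (nat_lit 126) (nat_lit 5) (nat_lit 612) (nat_lit 492) (nat_lit 456)) (XT.lf (nat_lit 0) (nat_lit 2047795736) (nat_lit 304) (nat_lit 200036182) (nat_lit 380) (nat_lit 8760309401) (nat_lit 116) (nat_lit 5) (nat_lit 120) (nat_lit 5) (nat_lit 121) (nat_lit 5) (nat_lit 613) (nat_lit 492) (nat_lit 455))) (XT.nd (nat_lit 78) (nat_lit 608) (nat_lit 0) (XT.lf (nat_lit 0) (nat_lit 6650008907) (nat_lit 380) (nat_lit 306912996) (nat_lit 76) (nat_lit 4165684757) (nat_lit 116) (nat_lit 5) (nat_lit 121) (nat_lit 5) (nat_lit 117) (nat_lit 5) (nat_lit 614) (nat_lit 492) (nat_lit 454)) (XT.nd (nat_lit 78) (nat_lit 304) (nat_lit 0) (XT.lf (nat_lit 0) (nat_lit 8546020075) (nat_lit 304) (nat_lit 2600461262) (nat_lit 380) (nat_lit 92757004) (nat_lit 112) (nat_lit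 5) (nat_lit 116) (nat_lit 5) (nat_lit 117) (nat_lit 5) (nat_lit 615) (nat_lit 492) (nat_lit 453)) (XT.lf (nat_lit 0) (nat_lit 4321339199) (nat_lit 304) (nat_lit 5179676850) (nat_lit 76) (nat_lit 1856539864) (nat_lit 108) (nat_lit 5) (nat_lit 112) (nat_lit 5) (nat_lit 109) (nat_lit 5) (nat_lit 616) (nat_lit 492) (nat_lit 452)))))) (XT.nd (nat_lit 390) (nat_lit 1064) (nat_lit 0) (XT.nd (nat_lit 156) (nat_lit 608) (nat_lit 0) (XT.nd (nat_lit 78) (nat_lit 304) (nat_lit 0) (XT.lf (nat_lit 0) (nat_lit 3731338815) (nat_lit 304) (nat_lit 5100556957) (nat_lit 380) (nat_lit 2646145346) (nat_lit 104) (nat_lit 5) (nat_lit 108) (nat_lit 5) (nat_lit 109) (nat_lit 5) (nat_lit 617) (nat_lit 492) (nat_lit 451)) (XT.lf (nat_lit 0) (nat_lit 1209504847) (nat_lit 228) (nat_lit 590926434) (nat_lit 304) (nat_lit 9800414222) (nat_lit 100) (nat_lit 5) (nat_lit 103) (nat_lit 5) (nat_lit 104) (nat_lit 5) (nat_lit 618) (nat_lit 492) (nat_lit 450))) (XT.nd (nat_lit 78) (nat_lit 608) (nat_lit 0) (XT.lf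 (nat_lit 0) (nat_lit 6328995137) (nat_lit 304) (nat_lit 1404112597) (nat_lit 76) (nat_lit 3992080508) (nat_lit 100) (nat_lit 5) (nat_lit 104) (nat_lit 5) (nat_lit 101) (nat_lit 5) (nat_lit 619) (nat_lit 492) (nat_lit 449)) (XT.nd (nat_lit 78) (nat_lit 304) (nat_lit 0) (XT.lf (nat_lit 0) (nat_lit 7777623874) (nat_lit 304) (nat_lit 3175993118) (nat_lit 380) (nat_lit 898292914) (nat_lit 96) (nat_lit 5) (nat_lit 100) (nat_lit 5) (nat_lit 101) (nat_lit 5) (nat_lit 620) (nat_lit 492) (nat_lit 448)) (XT.lf (nat_lit 0) (nat_lit 3644991111) (nat_lit 304) (nat_lit 6849556019) (nat_lit 76) (nat_lit 1486065202) (nat_lit 92) (nat_lit 5) (nat_lit 96) (nat_lit 5) (nat_lit 93) (nat_lit 5) (nat_lit 621) (nat_lit 492) (nat_lit 447))))) (XT.nd (nat_lit 156) (nat_lit 760) (nat_lit 0) (XT.nd (nat_lit 78) (nat_lit 76) (nat_lit 0) (XT.lf (nat_lit 0) (nat_lit 2384879409) (nat_lit 228) (nat_lit 5897653562) (nat_lit 304) (nat_lit 3828930375) (nat_lit 89) (nat_lit 5) (nat_lit 92) (nat_lit 5) (nat_lit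 93) (nat_lit 5) (nat_lit 622) (nat_lit 492) (nat_lit 446)) (XT.lf (nat_lit 0) (nat_lit 755555023) (nat_lit 304) (nat_lit 436174732) (nat_lit 76) (nat_lit 11053148908) (nat_lit 88) (nat_lit 5) (nat_lit 92) (nat_lit 5) (nat_lit 89) (nat_lit 5) (nat_lit 623) (nat_lit 492) (nat_lit 445))) (XT.nd (nat_lit 78) (nat_lit 532) (nat_lit 0) (XT.lf (nat_lit 0) (nat_lit 5415451483) (nat_lit 304) (nat_lit 3352680697) (nat_lit 76) (nat_lit 3611625710) (nat_lit 85) (nat_lit 5) (nat_lit 89) (nat_lit 5) (nat_lit 86) (nat_lit 5) (nat_lit 624) (nat_lit 492) (nat_lit 444)) (XT.nd (nat_lit 78) (nat_lit 304) (nat_lit 0) (XT.lf (nat_lit 0) (nat_lit 6158828883) (nat_lit 228) (nat_lit 4013138293) (nat_lit 304) (nat_lit 2345300669) (nat_lit 82) (nat_lit 5) (nat_lit 85) (nat_lit 5) (nat_lit 86) (nat_lit 5) (nat_lit 625) (nat_lit 492) (nat_lit 443)) (XT.lf (nat_lit 0) (nat_lit 2336708739) (nat_lit 304) (nat_lit 9469947912) (nat_lit 76) (nat_lit 850532510) (nat_lit 78) (nat_lit 5) (nat_lit 82) (nat_lit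 5) (nat_lit 79) (nat_lit 5) (nat_lit 626) (nat_lit 492) (nat_lit 442))))))) (XT.nd (nat_lit 77766) (nat_lit 0) (nat_lit 10032) (XT.nd (nat_lit 77376) (nat_lit 0) (nat_lit 14972) (XT.nd (nat_lit 77142) (nat_lit 0) (nat_lit 17708) (XT.nd (nat_lit 77064) (nat_lit 0) (nat_lit 19076) (XT.lf (nat_lit 0) (nat_lit 87197195) (nat_lit 228) (nat_lit 7016732884) (nat_lit 304) (nat_lit 5695210749) (nat_lit 75) (nat_lit 5) (nat_lit 78) (nat_lit 5) (nat_lit 79) (nat_lit 5) (nat_lit 627) (nat_lit 492) (nat_lit 441)) (XT.lf (nat_lit 0) (nat_lit 721365922) (nat_lit 760) (nat_lit 2481103165) (nat_lit 0) (nat_lit 721365922) (nat_lit 326) (nat_lit 5) (nat_lit 336) (nat_lit 4) (nat_lit 326) (nat_lit 4) (nat_lit 574) (nat_lit 493) (nat_lit 493))) (XT.nd (nat_lit 78) (nat_lit 684) (nat_lit 0) (XT.lf (nat_lit 0) (nat_lit 1454034465) (nat_lit 684) (nat_lit 3865370058) (nat_lit 684) (nat_lit 2581601076) (nat_lit 317) (nat_lit 4) (nat_lit 326) (nat_lit 5) (nat_lit 326) (nat_lit 4) (nat_lit 575) (nat_lit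 493) (nat_lit 492)) (XT.nd (nat_lit 78) (nat_lit 0) (nat_lit 0) (XT.lf (nat_lit 0) (nat_lit 15874455) (nat_lit 608) (nat_lit 1250581226) (nat_lit 684) (nat_lit 6689476247) (nat_lit 308) (nat_lit 5) (nat_lit 316) (nat_lit 5) (nat_lit 317) (nat_lit 4) (nat_lit 576) (nat_lit 493) (nat_lit 491)) (XT.lf (nat_lit 0) (nat_lit 5142256779) (nat_lit 684) (nat_lit 1429640729) (nat_lit 0) (nat_lit 1440016887) (nat_lit 308) (nat_lit 5) (nat_lit 317) (nat_lit 4) (nat_lit 308) (nat_lit 4) (nat_lit 577) (nat_lit 493) (nat_lit 490))))) (XT.nd (nat_lit 156) (nat_lit 1368) (nat_lit 0) (XT.nd (nat_lit 78) (nat_lit 608) (nat_lit 0) (XT.lf (nat_lit 0) (nat_lit 988769849) (nat_lit 760) (nat_lit 2890928898) (nat_lit 76) (nat_lit 4189676633) (nat_lit 298) (nat_lit 5) (nat_lit 308) (nat_lit 5) (nat_lit 299) (nat_lit 4) (nat_lit 578) (nat_lit 493) (nat_lit 489)) (XT.lf (nat_lit 0) (nat_lit 3754513422) (nat_lit 608) (nat_lit 1099697733) (nat_lit 684) (nat_lit 3274035236) (nat_lit 290) (nat_lit 5) (nat_lit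 298) (nat_lit 5) (nat_lit 299) (nat_lit 4) (nat_lit 579) (nat_lit 493) (nat_lit 488))) (XT.nd (nat_lit 78) (nat_lit 684) (nat_lit 0) (XT.lf (nat_lit 0) (nat_lit 581193764) (nat_lit 684) (nat_lit 5875932938) (nat_lit 76) (nat_lit 1731484243) (nat_lit 281) (nat_lit 5) (nat_lit 290) (nat_lit 5) (nat_lit 282) (nat_lit 4) (nat_lit 580) (nat_lit 493) (nat_lit 487)) (XT.nd (nat_lit 78) (nat_lit 76) (nat_lit 0) (XT.lf (nat_lit 0) (nat_lit 837484178) (nat_lit 608) (nat_lit 3609601458) (nat_lit 684) (nat_lit 3803121629) (nat_lit 273) (nat_lit 5) (nat_lit 281) (nat_lit 5) (nat_lit 282) (nat_lit 4) (nat_lit 581) (nat_lit 493) (nat_lit 486)) (XT.lf (nat_lit 0) (nat_lit 51312559) (nat_lit 684) (nat_lit 635331321) (nat_lit 76) (nat_lit 7626885329) (nat_lit 272) (nat_lit 5) (nat_lit 281) (nat_lit 5) (nat_lit 273) (nat_lit 5) (nat_lit 582) (nat_lit 493) (nat_lit 485)))))) (XT.nd (nat_lit 390) (nat_lit 2052) (nat_lit 0) (XT.nd (nat_lit 156) (nat_lit 1748) (nat_lit 0) (XT.nd (nat_lit 78) (nat_lit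 532) (nat_lit 0) (XT.lf (nat_lit 0) (nat_lit 3924364332) (nat_lit 684) (nat_lit 2144320288) (nat_lit 76) (nat_lit 2309086098) (nat_lit 264) (nat_lit 5) (nat_lit 273) (nat_lit 5) (nat_lit 265) (nat_lit 4) (nat_lit 583) (nat_lit 493) (nat_lit 484)) (XT.lf (nat_lit 0) (nat_lit 4777100639) (nat_lit 532) (nat_lit 3074820133) (nat_lit 608) (nat_lit 591840268) (nat_lit 257) (nat_lit 5) (nat_lit 264) (nat_lit 5) (nat_lit 265) (nat_lit 4) (nat_lit 584) (nat_lit 493) (nat_lit 483))) (XT.nd (nat_lit 78) (nat_lit 1140) (nat_lit 0) (XT.lf (nat_lit 0) (nat_lit 3276448833) (nat_lit 608) (nat_lit 5220960118) (nat_lit 76) (nat_lit 13764516) (nat_lit 249) (nat_lit 5) (nat_lit 257) (nat_lit 5) (nat_lit 250) (nat_lit 4) (nat_lit 585) (nat_lit 493) (nat_lit 482)) (XT.nd (nat_lit 78) (nat_lit 608) (nat_lit 0) (XT.lf (nat_lit 0) (nat_lit 1768458409) (nat_lit 532) (nat_lit 5440306162) (nat_lit 608) (nat_lit 1371204195) (nat_lit 242) (nat_lit 5) (nat_lit 249) (nat_lit 5) (nat_lit 250) (nat_lit 4)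 (nat_lit 586) (nat_lit 493) (nat_lit 481)) (XT.lf (nat_lit 0) (nat_lit 217910472) (nat_lit 532) (nat_lit 2292868562) (nat_lit 608) (nat_lit 6139533806) (nat_lit 234) (nat_lit 5) (nat_lit 241) (nat_lit 5) (nat_lit 242) (nat_lit 5) (nat_lit 587) (nat_lit 493) (nat_lit 480))))) (XT.nd (nat_lit 234) (nat_lit 988) (nat_lit 0) (XT.nd (nat_lit 78) (nat_lit 1064) (nat_lit 0) (XT.lf (nat_lit 0) (nat_lit 6442723905) (nat_lit 608) (nat_lit 1343758408) (nat_lit 76) (nat_lit 935590870) (nat_lit 234) (nat_lit 5) (nat_lit 242) (nat_lit 5) (nat_lit 235) (nat_lit 4) (nat_lit 588) (nat_lit 493) (nat_lit 479)) (XT.nd (nat_lit 78) (nat_lit 532) (nat_lit 0) (XT.lf (nat_lit 0) (nat_lit 1629390688) (nat_lit 532) (nat_lit 2943570908) (nat_lit 76) (nat_lit 4222234036) (nat_lit 227) (nat_lit 5) (nat_lit 234) (nat_lit 5) (nat_lit 228) (nat_lit 5) (nat_lit 589) (nat_lit 493) (nat_lit 478)) (XT.lf (nat_lit 0) (nat_lit 4294662003) (nat_lit 532) (nat_lit 1268237997) (nat_lit 608) (nat_lit 3307040962) (nat_lit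 220) (nat_lit 5) (nat_lit 227) (nat_lit 5) (nat_lit 228) (nat_lit 5) (nat_lit 590) (nat_lit 493) (nat_lit 477)))) (XT.nd (nat_lit 78) (nat_lit 456) (nat_lit 0) (XT.lf (nat_lit 0) (nat_lit 612276421) (nat_lit 532) (nat_lit 6243376296) (nat_lit 76) (nat_lit 2090618195) (nat_lit 213) (nat_lit 5) (nat_lit 220) (nat_lit 5) (nat_lit 214) (nat_lit 5) (nat_lit 591) (nat_lit 493) (nat_lit 476)) (XT.nd (nat_lit 78) (nat_lit 0) (nat_lit 0) (XT.lf (nat_lit 0) (nat_lit 1061847122) (nat_lit 456) (nat_lit 3490880609) (nat_lit 532) (nat_lit 4471225791) (nat_lit 207) (nat_lit 5) (nat_lit 213) (nat_lit 5) (nat_lit 214) (nat_lit 5) (nat_lit 592) (nat_lit 493) (nat_lit 475)) (XT.lf (nat_lit 0) (nat_lit 8511662733) (nat_lit 456) (nat_lit 43611852) (nat_lit 532) (nat_lit 548253222) (nat_lit 207) (nat_lit 5) (nat_lit 213) (nat_lit 5) (nat_lit 214) (nat_lit 5) (nat_lit 593) (nat_lit 493) (nat_lit 474))))))))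
noncomputable def xc18 : XT := (XT.nd (nat_lit 1560) (nat_lit 3192) (nat_lit 0) (XT.nd (nat_lit 780) (nat_lit 2584) (nat_lit 0) (XT.nd (nat_lit 390) (nat_lit 2052) (nat_lit 0) (XT.nd (nat_lit 156) (nat_lit 988) (nat_lit 0) (XT.nd (nat_lit 78) (nat_lit 456) (nat_lit 0) (XT.lf (nat_lit 0) (nat_lit 3417715310) (nat_lit 532) (nat_lit 2298578722) (nat_lit 76) (nat_lit 3467758235) (nat_lit 200) (nat_lit 5) (nat_lit 207) (nat_lit 5) (nat_lit 201) (nat_lit 5) (nat_lit 594) (nat_lit 493) (nat_lit 473)) (XT.lf (nat_lit 0) (nat_lit 5233327886) (nat_lit 456) (nat_lit 2203167961) (nat_lit 532) (nat_lit 1830005750) (nat_lit 194) (nat_lit 5) (nat_lit 200) (nat_lit 5) (nat_lit 201) (nat_lit 5) (nat_lit 595) (nat_lit 493) (nat_lit 472))) (XT.nd (nat_lit 78) (nat_lit 532) (nat_lit 0) (XT.lf (nat_lit 0) (nat_lit 2146806057) (nat_lit 456) (nat_lit 5816737407) (nat_lit 76) (nat_lit 1386967888) (nat_lit 188) (nat_lit 5) (nat_lit 194) (nat_lit 5) (nat_lit 189) (nat_lit 5) (nat_lit 596) (nat_lit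 493) (nat_lit 471)) (XT.nd (nat_lit 78) (nat_lit 76) (nat_lit 0) (XT.lf (nat_lit 0) (nat_lit 1781321170) (nat_lit 456) (nat_lit 4393890854) (nat_lit 532) (nat_lit 3260819449) (nat_lit 182) (nat_lit 5) (nat_lit 188) (nat_lit 5) (nat_lit 189) (nat_lit 5) (nat_lit 597) (nat_lit 493) (nat_lit 470)) (XT.lf (nat_lit 0) (nat_lit 733557833) (nat_lit 532) (nat_lit 3904557) (nat_lit 76) (nat_lit 8786051734) (nat_lit 181) (nat_lit 5) (nat_lit 188) (nat_lit 5) (nat_lit 182) (nat_lit 5) (nat_lit 598) (nat_lit 493) (nat_lit 469))))) (XT.nd (nat_lit 156) (nat_lit 1292) (nat_lit 0) (XT.nd (nat_lit 78) (nat_lit 380) (nat_lit 0) (XT.lf (nat_lit 0) (nat_lit 4778965382) (nat_lit 456) (nat_lit 1836284152) (nat_lit 76) (nat_lit 2996772852) (nat_lit 176) (nat_lit 5) (nat_lit 182) (nat_lit 5) (nat_lit 177) (nat_lit 5) (nat_lit 599) (nat_lit 493) (nat_lit 468)) (XT.lf (nat_lit 0) (nat_lit 5997424499) (nat_lit 380) (nat_lit 2896492870) (nat_lit 456) (nat_lit 808613797) (nat_lit 171) (nat_lit 5) (nat_lit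 176) (nat_lit 5) (nat_lit 177) (nat_lit 5) (nat_lit 600) (nat_lit 493) (nat_lit 467))) (XT.nd (nat_lit 78) (nat_lit 836) (nat_lit 0) (XT.lf (nat_lit 0) (nat_lit 3243522988) (nat_lit 456) (nat_lit 5634766105) (nat_lit 76) (nat_lit 916327220) (nat_lit 165) (nat_lit 5) (nat_lit 171) (nat_lit 5) (nat_lit 166) (nat_lit 5) (nat_lit 601) (nat_lit 493) (nat_lit 466)) (XT.nd (nat_lit 78) (nat_lit 456) (nat_lit 0) (XT.lf (nat_lit 0) (nat_lit 2263684370) (nat_lit 380) (nat_lit 5106397325) (nat_lit 456) (nat_lit 2518273340) (nat_lit 160) (nat_lit 5) (nat_lit 165) (nat_lit 5) (nat_lit 166) (nat_lit 5) (nat_lit 602) (nat_lit 493) (nat_lit 465)) (XT.lf (nat_lit 0) (nat_lit 321125217) (nat_lit 380) (nat_lit 1238752238) (nat_lit 456) (nat_lit 8424174806) (nat_lit 154) (nat_lit 5) (nat_lit 159) (nat_lit 5) (nat_lit 160) (nat_lit 5) (nat_lit 603) (nat_lit 493) (nat_lit 464)))))) (XT.nd (nat_lit 390) (nat_lit 1064) (nat_lit 0) (XT.nd (nat_lit 156) (nat_lit 1140) (nat_lit 0) (XT.nd (nat_lit 78)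 (nat_lit 380) (nat_lit 0) (XT.lf (nat_lit 0) (nat_lit 5700740713) (nat_lit 456) (nat_lit 1672103783) (nat_lit 76) (nat_lit 2708191372) (nat_lit 154) (nat_lit 5) (nat_lit 160) (nat_lit 5) (nat_lit 155) (nat_lit 5) (nat_lit 604) (nat_lit 493) (nat_lit 463)) (XT.lf (nat_lit 0) (nat_lit 6470817629) (nat_lit 380) (nat_lit 3450646048) (nat_lit 456) (nat_lit 258557301) (nat_lit 149) (nat_lit 5) (nat_lit 154) (nat_lit 5) (nat_lit 155) (nat_lit 5) (nat_lit 605) (nat_lit 493) (nat_lit 462))) (XT.nd (nat_lit 78) (nat_lit 760) (nat_lit 0) (XT.lf (nat_lit 0) (nat_lit 3884940476) (nat_lit 380) (nat_lit 5817672536) (nat_lit 76) (nat_lit 578041550) (nat_lit 144) (nat_lit 5) (nat_lit 149) (nat_lit 5) (nat_lit 145) (nat_lit 5) (nat_lit 606) (nat_lit 493) (nat_lit 461)) (XT.nd (nat_lit 78) (nat_lit 380) (nat_lit 0) (XT.lf (nat_lit 0) (nat_lit 2387849689) (nat_lit 380) (nat_lit 5730673929) (nat_lit 456) (nat_lit 2264531996) (nat_lit 139) (nat_lit 5) (nat_lit 144) (nat_lit 5) (nat_lit 145) (nat_lit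 5) (nat_lit 607) (nat_lit 493) (nat_lit 460)) (XT.lf (nat_lit 0) (nat_lit 255080466) (nat_lit 304) (nat_lit 1656984241) (nat_lit 380) (nat_lit 8575422166) (nat_lit 134) (nat_lit 5) (nat_lit 138) (nat_lit 5) (nat_lit 139) (nat_lit 5) (nat_lit 608) (nat_lit 493) (nat_lit 459))))) (XT.nd (nat_lit 156) (nat_lit 760) (nat_lit 0) (XT.nd (nat_lit 78) (nat_lit 304) (nat_lit 0) (XT.lf (nat_lit 0) (nat_lit 6159802117) (nat_lit 380) (nat_lit 1931001041) (nat_lit 76) (nat_lit 2502547992) (nat_lit 134) (nat_lit 5) (nat_lit 139) (nat_lit 5) (nat_lit 135) (nat_lit 5) (nat_lit 609) (nat_lit 493) (nat_lit 458)) (XT.lf (nat_lit 0) (nat_lit 6527494783) (nat_lit 304) (nat_lit 3967055018) (nat_lit 380) (nat_lit 206744132) (nat_lit 130) (nat_lit 5) (nat_lit 134) (nat_lit 5) (nat_lit 135) (nat_lit 5) (nat_lit 610) (nat_lit 493) (nat_lit 457))) (XT.nd (nat_lit 78) (nat_lit 380) (nat_lit 0) (XT.lf (nat_lit 0) (nat_lit 4042452189) (nat_lit 380) (nat_lit 6496489195) (nat_lit 76) (nat_lit 272089680)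 (nat_lit 125) (nat_lit 5) (nat_lit 130) (nat_lit 5) (nat_lit 126) (nat_lit 5) (nat_lit 611) (nat_lit 493) (nat_lit 456)) (XT.nd (nat_lit 78) (nat_lit 76) (nat_lit 0) (XT.lf (nat_lit 0) (nat_lit 2021549395) (nat_lit 304) (nat_lit 6368990321) (nat_lit 380) (nat_lit 2532064576) (nat_lit 121) (nat_lit 5) (nat_lit 125) (nat_lit 5) (nat_lit 126) (nat_lit 5) (nat_lit 612) (nat_lit 493) (nat_lit 455)) (XT.lf (nat_lit 0) (nat_lit 1758800692) (nat_lit 380) (nat_lit 333517709) (nat_lit 76) (nat_lit 8943998645) (nat_lit 120) (nat_lit 5) (nat_lit 125) (nat_lit 5) (nat_lit 121) (nat_lit 5) (nat_lit 613) (nat_lit 493) (nat_lit 454))))))) (XT.nd (nat_lit 780) (nat_lit 836) (nat_lit 0) (XT.nd (nat_lit 390) (nat_lit 1064) (nat_lit 0) (XT.nd (nat_lit 156) (nat_lit 684) (nat_lit 0) (XT.nd (nat_lit 78) (nat_lit 304) (nat_lit 0) (XT.lf (nat_lit 0) (nat_lit 6121453661) (nat_lit 380) (nat_lit 2750323397) (nat_lit 76) (nat_lit 2279796835) (nat_lit 116) (nat_lit 5) (nat_lit 121) (nat_lit 5) (nat_lit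 117) (nat_lit 5) (nat_lit 614) (nat_lit 493) (nat_lit 453)) (XT.lf (nat_lit 0) (nat_lit 6028667126) (nat_lit 304) (nat_lit 4548376071) (nat_lit 380) (nat_lit 691981041) (nat_lit 112) (nat_lit 5) (nat_lit 116) (nat_lit 5) (nat_lit 117) (nat_lit 5) (nat_lit 615) (nat_lit 493) (nat_lit 452))) (XT.nd (nat_lit 78) (nat_lit 380) (nat_lit 0) (XT.lf (nat_lit 0) (nat_lit 3571761956) (nat_lit 228) (nat_lit 104513089) (nat_lit 304) (nat_lit 7712219524) (nat_lit 108) (nat_lit 5) (nat_lit 111) (nat_lit 5) (nat_lit 112) (nat_lit 5) (nat_lit 616) (nat_lit 493) (nat_lit 451)) (XT.nd (nat_lit 78) (nat_lit 76) (nat_lit 0) (XT.lf (nat_lit 0) (nat_lit 1018285457) (nat_lit 304) (nat_lit 7125878149) (nat_lit 380) (nat_lit 3365670475) (nat_lit 104) (nat_lit 5) (nat_lit 108) (nat_lit 5) (nat_lit 109) (nat_lit 5) (nat_lit 617) (nat_lit 493) (nat_lit 450)) (XT.lf (nat_lit 0) (nat_lit 1058167394) (nat_lit 380) (nat_lit 1587680482) (nat_lit 76) (nat_lit 8987528442) (nat_lit 103) (nat_lit 5) (nat_lit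 108) (nat_lit 5) (nat_lit 104) (nat_lit 5) (nat_lit 618) (nat_lit 493) (nat_lit 449))))) (XT.nd (nat_lit 156) (nat_lit 532) (nat_lit 0) (XT.nd (nat_lit 78) (nat_lit 304) (nat_lit 0) (XT.lf (nat_lit 0) (nat_lit 5538655001) (nat_lit 304) (nat_lit 4282977317) (nat_lit 76) (nat_lit 1937049158) (nat_lit 100) (nat_lit 5) (nat_lit 104) (nat_lit 5) (nat_lit 101) (nat_lit 5) (nat_lit 619) (nat_lit 493) (nat_lit 448)) (XT.lf (nat_lit 0) (nat_lit 4819520629) (nat_lit 304) (nat_lit 5300805262) (nat_lit 380) (nat_lit 1765937143) (nat_lit 96) (nat_lit 5) (nat_lit 100) (nat_lit 5) (nat_lit 101) (nat_lit 5) (nat_lit 620) (nat_lit 493) (nat_lit 447))) (XT.nd (nat_lit 78) (nat_lit 228) (nat_lit 0) (XT.lf (nat_lit 0) (nat_lit 2073481954) (nat_lit 228) (nat_lit 661853943) (nat_lit 304) (nat_lit 9280810878) (nat_lit 92) (nat_lit 5) (nat_lit 95) (nat_lit 5) (nat_lit 96) (nat_lit 5) (nat_lit 621) (nat_lit 493) (nat_lit 446)) (XT.nd (nat_lit 78) (nat_lit 228) (nat_lit 0) (XT.lf (nat_lit 0) (nat_lit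 7329494179) (nat_lit 304) (nat_lit 775798145) (nat_lit 76) (nat_lit 4042573960) (nat_lit 92) (nat_lit 5) (nat_lit 96) (nat_lit 5) (nat_lit 93) (nat_lit 5) (nat_lit 622) (nat_lit 493) (nat_lit 445)) (XT.lf (nat_lit 0) (nat_lit 8602465800) (nat_lit 228) (nat_lit 3426564337) (nat_lit 304) (nat_lit 252921791) (nat_lit 89) (nat_lit 5) (nat_lit 92) (nat_lit 5) (nat_lit 93) (nat_lit 5) (nat_lit 623) (nat_lit 493) (nat_lit 444)))))) (XT.nd (nat_lit 77220) (nat_lit 0) (nat_lit 16720) (XT.nd (nat_lit 156) (nat_lit 304) (nat_lit 0) (XT.nd (nat_lit 78) (nat_lit 228) (nat_lit 0) (XT.lf (nat_lit 0) (nat_lit 4350835300) (nat_lit 304) (nat_lit 6701025335) (nat_lit 76) (nat_lit 1366193270) (nat_lit 85) (nat_lit 5) (nat_lit 89) (nat_lit 5) (nat_lit 86) (nat_lit 5) (nat_lit 624) (nat_lit 493) (nat_lit 443)) (XT.lf (nat_lit 0) (nat_lit 2725529636) (nat_lit 228) (nat_lit 6336522678) (nat_lit 304) (nat_lit 3494418281) (nat_lit 82) (nat_lit 5) (nat_lit 85) (nat_lit 5) (nat_lit 86) (nat_lit 5) (nat_lit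 625) (nat_lit 493) (nat_lit 442))) (XT.nd (nat_lit 78) (nat_lit 228) (nat_lit 0) (XT.lf (nat_lit 0) (nat_lit 1153370019) (nat_lit 304) (nat_lit 353938022) (nat_lit 76) (nat_lit 11190219659) (nat_lit 81) (nat_lit 5) (nat_lit 85) (nat_lit 5) (nat_lit 82) (nat_lit 5) (nat_lit 626) (nat_lit 493) (nat_lit 441)) (XT.nd (nat_lit 76908) (nat_lit 0) (nat_lit 20368) (XT.lf (nat_lit 0) (nat_lit 5885011735) (nat_lit 304) (nat_lit 3530465392) (nat_lit 76) (nat_lit 3424714552) (nat_lit 78) (nat_lit 5) (nat_lit 82) (nat_lit 5) (nat_lit 79) (nat_lit 5) (nat_lit 627) (nat_lit 493) (nat_lit 440)) (XT.lf (nat_lit 0) (nat_lit 1433580214) (nat_lit 760) (nat_lit 1004973675) (nat_lit 0) (nat_lit 1433580214) (nat_lit 346) (nat_lit 5) (nat_lit 356) (nat_lit 4) (nat_lit 346) (nat_lit 4) (nat_lit 572) (nat_lit 494) (nat_lit 494))))) (XT.nd (nat_lit 234) (nat_lit 1444) (nat_lit 0) (XT.nd (nat_lit 78) (nat_lit 1444) (nat_lit 0) (XT.lf (nat_lit 0) (nat_lit 4296755346) (nat_lit 760) (nat_lit 2417251414)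 (nat_lit 760) (nat_lit 1081618166) (nat_lit 336) (nat_lit 4) (nat_lit 346) (nat_lit 5) (nat_lit 346) (nat_lit 4) (nat_lit 573) (nat_lit 494) (nat_lit 493)) (XT.nd (nat_lit 78) (nat_lit 684) (nat_lit 0) (XT.lf (nat_lit 0) (nat_lit 2718308957) (nat_lit 760) (nat_lit 5004945903) (nat_lit 0) (nat_lit 125095614) (nat_lit 326) (nat_lit 5) (nat_lit 336) (nat_lit 4) (nat_lit 326) (nat_lit 4) (nat_lit 574) (nat_lit 494) (nat_lit 492)) (XT.lf (nat_lit 0) (nat_lit 1368268516) (nat_lit 684) (nat_lit 5192953085) (nat_lit 684) (nat_lit 1341142702) (nat_lit 317) (nat_lit 4) (nat_lit 326) (nat_lit 5) (nat_lit 326) (nat_lit 4) (nat_lit 575) (nat_lit 494) (nat_lit 491)))) (XT.nd (nat_lit 78) (nat_lit 1368) (nat_lit 0) (XT.lf (nat_lit 0) (nat_lit 2457499433) (nat_lit 760) (nat_lit 121580195) (nat_lit 76) (nat_lit 5378715770) (nat_lit 316) (nat_lit 5) (nat_lit 326) (nat_lit 5) (nat_lit 317) (nat_lit 4) (nat_lit 576) (nat_lit 494) (nat_lit 490)) (XT.nd (nat_lit 78) (nat_lit 760) (nat_lit 0) (XT.lf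 (nat_lit 0) (nat_lit 6291144465) (nat_lit 684) (nat_lit 1604347906) (nat_lit 0) (nat_lit 119131489) (nat_lit 308) (nat_lit 5) (nat_lit 317) (nat_lit 4) (nat_lit 308) (nat_lit 4) (nat_lit 577) (nat_lit 494) (nat_lit 489)) (XT.lf (nat_lit 0) (nat_lit 2086184538) (nat_lit 760) (nat_lit 3120669327) (nat_lit 76) (nat_lit 2865759529) (nat_lit 298) (nat_lit 5) (nat_lit 308) (nat_lit 5) (nat_lit 299) (nat_lit 4) (nat_lit 578) (nat_lit 494) (nat_lit 488))))))))
noncomputable def xc19 : XT := (XT.nd (nat_lit 1560) (nat_lit 6156) (nat_lit 0) (XT.nd (nat_lit 780) (nat_lit 4028) (nat_lit 0) (XT.nd (nat_lit 390) (nat_lit 2280) (nat_lit 0) (XT.nd (nat_lit 156) (nat_lit 1292) (nat_lit 0) (XT.nd (nat_lit 78) (nat_lit 684) (nat_lit 0) (XT.lf (nat_lit 0) (nat_lit 3479454868) (nat_lit 608) (nat_lit 2438449626) (nat_lit 684) (nat_lit 2214257045) (nat_lit 290) (nat_lit 5) (nat_lit 298) (nat_lit 5) (nat_lit 299) (nat_lit 4) (nat_lit 579) (nat_lit 494) (nat_lit 487)) (XT.lf (nat_lit 0) (nat_lit 1584400504)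 (nat_lit 684) (nat_lit 6203736830) (nat_lit 76) (nat_lit 405107191) (nat_lit 281) (nat_lit 5) (nat_lit 290) (nat_lit 5) (nat_lit 282) (nat_lit 4) (nat_lit 580) (nat_lit 494) (nat_lit 486))) (XT.nd (nat_lit 78) (nat_lit 684) (nat_lit 0) (XT.lf (nat_lit 0) (nat_lit 462612445) (nat_lit 608) (nat_lit 4953743371) (nat_lit 684) (nat_lit 2839166310) (nat_lit 273) (nat_lit 5) (nat_lit 281) (nat_lit 5) (nat_lit 282) (nat_lit 4) (nat_lit 581) (nat_lit 494) (nat_lit 485)) (XT.nd (nat_lit 78) (nat_lit 608) (nat_lit 0) (XT.lf (nat_lit 0) (nat_lit 971259808) (nat_lit 684) (nat_lit 1064069857) (nat_lit 76) (nat_lit 6284018997) (nat_lit 272) (nat_lit 5) (nat_lit 281) (nat_lit 5) (nat_lit 273) (nat_lit 5) (nat_lit 582) (nat_lit 494) (nat_lit 484)) (XT.lf (nat_lit 0) (nat_lit 4801620924) (nat_lit 684) (nat_lit 2618423721) (nat_lit 76) (nat_lit 964401742) (nat_lit 264) (nat_lit 5) (nat_lit 273) (nat_lit 5) (nat_lit 265) (nat_lit 4) (nat_lit 583) (nat_lit 494) (nat_lit 483))))) (XT.nd (nat_lit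 156) (nat_lit 1140) (nat_lit 0) (XT.nd (nat_lit 78) (nat_lit 532) (nat_lit 0) (XT.lf (nat_lit 0) (nat_lit 240979515) (nat_lit 608) (nat_lit 4198291932) (nat_lit 76) (nat_lit 4011813484) (nat_lit 256) (nat_lit 5) (nat_lit 264) (nat_lit 5) (nat_lit 257) (nat_lit 5) (nat_lit 584) (nat_lit 494) (nat_lit 482)) (XT.lf (nat_lit 0) (nat_lit 2705295972) (nat_lit 532) (nat_lit 1361963248) (nat_lit 608) (nat_lit 4451848498) (nat_lit 249) (nat_lit 5) (nat_lit 256) (nat_lit 5) (nat_lit 257) (nat_lit 5) (nat_lit 585) (nat_lit 494) (nat_lit 481))) (XT.nd (nat_lit 78) (nat_lit 608) (nat_lit 0) (XT.lf (nat_lit 0) (nat_lit 1134013148) (nat_lit 532) (nat_lit 6822491554) (nat_lit 608) (nat_lit 632261940) (nat_lit 242) (nat_lit 5) (nat_lit 249) (nat_lit 5) (nat_lit 250) (nat_lit 4) (nat_lit 586) (nat_lit 494) (nat_lit 480)) (XT.nd (nat_lit 78) (nat_lit 532) (nat_lit 0) (XT.lf (nat_lit 0) (nat_lit 3208626146) (nat_lit 608) (nat_lit 475227436) (nat_lit 76) (nat_lit 4975791389) (nat_lit 241) (nat_lit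 5) (nat_lit 249) (nat_lit 5) (nat_lit 242) (nat_lit 5) (nat_lit 587) (nat_lit 494) (nat_lit 479)) (XT.lf (nat_lit 0) (nat_lit 6643178407) (nat_lit 532) (nat_lit 458437526) (nat_lit 608) (nat_lit 1630570576) (nat_lit 234) (nat_lit 5) (nat_lit 241) (nat_lit 5) (nat_lit 242) (nat_lit 5) (nat_lit 588) (nat_lit 494) (nat_lit 478)))))) (XT.nd (nat_lit 390) (nat_lit 1976) (nat_lit 0) (XT.nd (nat_lit 156) (nat_lit 988) (nat_lit 0) (XT.nd (nat_lit 78) (nat_lit 532) (nat_lit 0) (XT.lf (nat_lit 0) (nat_lit 2232107873) (nat_lit 532) (nat_lit 3752732804) (nat_lit 76) (nat_lit 2821137099) (nat_lit 227) (nat_lit 5) (nat_lit 234) (nat_lit 5) (nat_lit 228) (nat_lit 5) (nat_lit 589) (nat_lit 494) (nat_lit 477)) (XT.lf (nat_lit 0) (nat_lit 3432433500) (nat_lit 532) (nat_lit 2698525955) (nat_lit 608) (nat_lit 2750458776) (nat_lit 220) (nat_lit 5) (nat_lit 227) (nat_lit 5) (nat_lit 228) (nat_lit 5) (nat_lit 590) (nat_lit 494) (nat_lit 476))) (XT.nd (nat_lit 78) (nat_lit 456) (nat_lit 0) (XT.lf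 (nat_lit 0) (nat_lit 1117173781) (nat_lit 532) (nat_lit 7177502054) (nat_lit 76) (nat_lit 663889671) (nat_lit 213) (nat_lit 5) (nat_lit 220) (nat_lit 5) (nat_lit 214) (nat_lit 5) (nat_lit 591) (nat_lit 494) (nat_lit 475)) (XT.nd (nat_lit 78) (nat_lit 0) (nat_lit 0) (XT.lf (nat_lit 0) (nat_lit 72662332) (nat_lit 456) (nat_lit 4949802431) (nat_lit 532) (nat_lit 4014488417) (nat_lit 207) (nat_lit 5) (nat_lit 213) (nat_lit 5) (nat_lit 214) (nat_lit 5) (nat_lit 592) (nat_lit 494) (nat_lit 474)) (XT.lf (nat_lit 0) (nat_lit 7480669127) (nat_lit 456) (nat_lit 1515896644) (nat_lit 532) (nat_lit 120532433) (nat_lit 207) (nat_lit 5) (nat_lit 213) (nat_lit 5) (nat_lit 214) (nat_lit 5) (nat_lit 593) (nat_lit 494) (nat_lit 473))))) (XT.nd (nat_lit 156) (nat_lit 988) (nat_lit 0) (XT.nd (nat_lit 78) (nat_lit 456) (nat_lit 0) (XT.lf (nat_lit 0) (nat_lit 3794915019) (nat_lit 532) (nat_lit 3406298941) (nat_lit 76) (nat_lit 1997253142) (nat_lit 200) (nat_lit 5) (nat_lit 207) (nat_lit 5) (nat_lit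 201) (nat_lit 5) (nat_lit 594) (nat_lit 494) (nat_lit 472)) (XT.lf (nat_lit 0) (nat_lit 4068771373) (nat_lit 456) (nat_lit 3709485902) (nat_lit 532) (nat_lit 1503369640) (nat_lit 194) (nat_lit 5) (nat_lit 200) (nat_lit 5) (nat_lit 201) (nat_lit 5) (nat_lit 595) (nat_lit 494) (nat_lit 471))) (XT.nd (nat_lit 78) (nat_lit 532) (nat_lit 0) (XT.lf (nat_lit 0) (nat_lit 2303359124) (nat_lit 380) (nat_lit 120842155) (nat_lit 456) (nat_lit 6942293765) (nat_lit 188) (nat_lit 5) (nat_lit 193) (nat_lit 5) (nat_lit 194) (nat_lit 5) (nat_lit 596) (nat_lit 494) (nat_lit 470)) (XT.nd (nat_lit 78) (nat_lit 76) (nat_lit 0) (XT.lf (nat_lit 0) (nat_lit 476749632) (nat_lit 456) (nat_lit 5939005722) (nat_lit 532) (nat_lit 3036998467) (nat_lit 182) (nat_lit 5) (nat_lit 188) (nat_lit 5) (nat_lit 189) (nat_lit 5) (nat_lit 597) (nat_lit 494) (nat_lit 469)) (XT.lf (nat_lit 0) (nat_lit 926934873) (nat_lit 532) (nat_lit 1368591372) (nat_lit 76) (nat_lit 7245232887) (nat_lit 181) (nat_lit 5) (nat_lit 188)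 (nat_lit 5) (nat_lit 182) (nat_lit 5) (nat_lit 598) (nat_lit 494) (nat_lit 468))))))) (XT.nd (nat_lit 780) (nat_lit 2888) (nat_lit 0) (XT.nd (nat_lit 390) (nat_lit 1596) (nat_lit 0) (XT.nd (nat_lit 156) (nat_lit 912) (nat_lit 0) (XT.nd (nat_lit 78) (nat_lit 380) (nat_lit 0) (XT.lf (nat_lit 0) (nat_lit 4925855508) (nat_lit 456) (nat_lit 3268472547) (nat_lit 76) (nat_lit 1435870601) (nat_lit 176) (nat_lit 5) (nat_lit 182) (nat_lit 5) (nat_lit 177) (nat_lit 5) (nat_lit 599) (nat_lit 494) (nat_lit 467)) (XT.lf (nat_lit 0) (nat_lit 4504363675) (nat_lit 380) (nat_lit 4499952557) (nat_lit 456) (nat_lit 717122524) (nat_lit 171) (nat_lit 5) (nat_lit 176) (nat_lit 5) (nat_lit 177) (nat_lit 5) (nat_lit 600) (nat_lit 494) (nat_lit 466))) (XT.nd (nat_lit 78) (nat_lit 456) (nat_lit 0) (XT.lf (nat_lit 0) (nat_lit 2591410306) (nat_lit 380) (nat_lit 699436884) (nat_lit 456) (nat_lit 6523525611) (nat_lit 165) (nat_lit 5) (nat_lit 170) (nat_lit 5) (nat_lit 171) (nat_lit 5) (nat_lit 601) (nat_lit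 494) (nat_lit 465)) (XT.nd (nat_lit 78) (nat_lit 76) (nat_lit 0) (XT.lf (nat_lit 0) (nat_lit 616892441) (nat_lit 380) (nat_lit 6758726658) (nat_lit 456) (nat_lit 2533329568) (nat_lit 160) (nat_lit 5) (nat_lit 165) (nat_lit 5) (nat_lit 166) (nat_lit 5) (nat_lit 602) (nat_lit 494) (nat_lit 464)) (XT.lf (nat_lit 0) (nat_lit 1516457404) (nat_lit 456) (nat_lit 1391992905) (nat_lit 76) (nat_lit 7096770118) (nat_lit 159) (nat_lit 5) (nat_lit 165) (nat_lit 5) (nat_lit 160) (nat_lit 5) (nat_lit 603) (nat_lit 494) (nat_lit 463))))) (XT.nd (nat_lit 156) (nat_lit 836) (nat_lit 0) (XT.nd (nat_lit 78) (nat_lit 380) (nat_lit 0) (XT.lf (nat_lit 0) (nat_lit 5610937588) (nat_lit 456) (nat_lit 3455943219) (nat_lit 76) (nat_lit 1036252216) (nat_lit 154) (nat_lit 5) (nat_lit 160) (nat_lit 5) (nat_lit 155) (nat_lit 5) (nat_lit 604) (nat_lit 494) (nat_lit 462)) (XT.lf (nat_lit 0) (nat_lit 4621774156) (nat_lit 380) (nat_lit 5172073543) (nat_lit 456) (nat_lit 409027991) (nat_lit 149) (nat_lit 5) (nat_lit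 154) (nat_lit 5) (nat_lit 155) (nat_lit 5) (nat_lit 605) (nat_lit 494) (nat_lit 461))) (XT.nd (nat_lit 78) (nat_lit 456) (nat_lit 0) (XT.lf (nat_lit 0) (nat_lit 2529503627) (nat_lit 304) (nat_lit 1164821773) (nat_lit 380) (nat_lit 6610047020) (nat_lit 144) (nat_lit 5) (nat_lit 148) (nat_lit 5) (nat_lit 149) (nat_lit 5) (nat_lit 606) (nat_lit 494) (nat_lit 460)) (XT.nd (nat_lit 78) (nat_lit 76) (nat_lit 0) (XT.lf (nat_lit 0) (nat_lit 370590011) (nat_lit 380) (nat_lit 7511062952) (nat_lit 456) (nat_lit 2526046846) (nat_lit 139) (nat_lit 5) (nat_lit 144) (nat_lit 5) (nat_lit 145) (nat_lit 5) (nat_lit 607) (nat_lit 494) (nat_lit 459)) (XT.lf (nat_lit 0) (nat_lit 1626795326) (nat_lit 456) (nat_lit 1829709979) (nat_lit 76) (nat_lit 7056204588) (nat_lit 138) (nat_lit 5) (nat_lit 144) (nat_lit 5) (nat_lit 139) (nat_lit 5) (nat_lit 608) (nat_lit 494) (nat_lit 458)))))) (XT.nd (nat_lit 390) (nat_lit 1520) (nat_lit 0) (XT.nd (nat_lit 156) (nat_lit 760) (nat_lit 0) (XT.nd (nat_lit 78)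 (nat_lit 304) (nat_lit 0) (XT.lf (nat_lit 0) (nat_lit 5825336368) (nat_lit 380) (nat_lit 4095180763) (nat_lit 76) (nat_lit 699042120) (nat_lit 134) (nat_lit 5) (nat_lit 139) (nat_lit 5) (nat_lit 135) (nat_lit 5) (nat_lit 609) (nat_lit 494) (nat_lit 457)) (XT.lf (nat_lit 0) (nat_lit 4293453416) (nat_lit 304) (nat_lit 5827228309) (nat_lit 380) (nat_lit 607609489) (nat_lit 130) (nat_lit 5) (nat_lit 134) (nat_lit 5) (nat_lit 135) (nat_lit 5) (nat_lit 610) (nat_lit 494) (nat_lit 456))) (XT.nd (nat_lit 78) (nat_lit 380) (nat_lit 0) (XT.lf (nat_lit 0) (nat_lit 1986752373) (nat_lit 304) (nat_lit 1618341044) (nat_lit 380) (nat_lit 7233823086) (nat_lit 125) (nat_lit 5) (nat_lit 129) (nat_lit 5) (nat_lit 130) (nat_lit 5) (nat_lit 611) (nat_lit 494) (nat_lit 455)) (XT.nd (nat_lit 78) (nat_lit 380) (nat_lit 0) (XT.lf (nat_lit 0) (nat_lit 7904835681) (nat_lit 380) (nat_lit 390881005) (nat_lit 76) (nat_lit 2655741019) (nat_lit 125) (nat_lit 5) (nat_lit 130) (nat_lit 5) (nat_lit 126) (nat_lit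 5) (nat_lit 612) (nat_lit 494) (nat_lit 454)) (XT.lf (nat_lit 0) (nat_lit 1223748965) (nat_lit 380) (nat_lit 2817500076) (nat_lit 76) (nat_lit 7024534115) (nat_lit 120) (nat_lit 5) (nat_lit 125) (nat_lit 5) (nat_lit 121) (nat_lit 5) (nat_lit 613) (nat_lit 494) (nat_lit 453))))) (XT.nd (nat_lit 234) (nat_lit 608) (nat_lit 0) (XT.nd (nat_lit 78) (nat_lit 608) (nat_lit 0) (XT.lf (nat_lit 0) (nat_lit 5532759399) (nat_lit 380) (nat_lit 5325274570) (nat_lit 76) (nat_lit 324079892) (nat_lit 116) (nat_lit 5) (nat_lit 121) (nat_lit 5) (nat_lit 117) (nat_lit 5) (nat_lit 614) (nat_lit 494) (nat_lit 452)) (XT.nd (nat_lit 78) (nat_lit 304) (nat_lit 0) (XT.lf (nat_lit 0) (nat_lit 3378838452) (nat_lit 304) (nat_lit 6568248615) (nat_lit 380) (nat_lit 1353303361) (nat_lit 112) (nat_lit 5) (nat_lit 116) (nat_lit 5) (nat_lit 117) (nat_lit 5) (nat_lit 615) (nat_lit 494) (nat_lit 451)) (XT.lf (nat_lit 0) (nat_lit 818571766) (nat_lit 228) (nat_lit 2163175409) (nat_lit 304) (nat_lit 8439037984)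 (nat_lit 108) (nat_lit 5) (nat_lit 111) (nat_lit 5) (nat_lit 112) (nat_lit 5) (nat_lit 616) (nat_lit 494) (nat_lit 450)))) (XT.nd (nat_lit 78) (nat_lit 608) (nat_lit 0) (XT.lf (nat_lit 0) (nat_lit 7405761582) (nat_lit 304) (nat_lit 1807472334) (nat_lit 76) (nat_lit 2329769169) (nat_lit 108) (nat_lit 5) (nat_lit 112) (nat_lit 5) (nat_lit 109) (nat_lit 5) (nat_lit 617) (nat_lit 494) (nat_lit 449)) (XT.nd (nat_lit 78) (nat_lit 228) (nat_lit 0) (XT.lf (nat_lit 0) (nat_lit 260900005) (nat_lit 380) (nat_lit 4506118108) (nat_lit 76) (nat_lit 6900344606) (nat_lit 103) (nat_lit 5) (nat_lit 108) (nat_lit 5) (nat_lit 104) (nat_lit 5) (nat_lit 618) (nat_lit 494) (nat_lit 448)) (XT.lf (nat_lit 0) (nat_lit 4491405103) (nat_lit 228) (nat_lit 194400241) (nat_lit 304) (nat_lit 7107975053) (nat_lit 100) (nat_lit 5) (nat_lit 103) (nat_lit 5) (nat_lit 104) (nat_lit 5) (nat_lit 619) (nat_lit 494) (nat_lit 447))))))))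
noncomputable def xc20 : XT := (XT.nd (nat_lit 78234) (nat_lit 0) (nat_lit 6612) (XT.nd (nat_lit 77454) (nat_lit 0) (nat_lit 15428) (XT.nd (nat_lit 390) (nat_lit 532) (nat_lit 0) (XT.nd (nat_lit 156) (nat_lit 760) (nat_lit 0) (XT.nd (nat_lit 78) (nat_lit 76) (nat_lit 0) (XT.lf (nat_lit 0) (nat_lit 1721098991) (nat_lit 304) (nat_lit 7501718652) (nat_lit 380) (nat_lit 2699438342) (nat_lit 96) (nat_lit 5) (nat_lit 100) (nat_lit 5) (nat_lit 101) (nat_lit 5) (nat_lit 620) (nat_lit 494) (nat_lit 446)) (XT.lf (nat_lit 0) (nat_lit 1777382958) (nat_lit 380) (nat_lit 1121764013) (nat_lit 76) (nat_lit 9153848693) (nat_lit 95) (nat_lit 5) (nat_lit 100) (nat_lit 5) (nat_lit 96) (nat_lit 5) (nat_lit 621) (nat_lit 494) (nat_lit 445))) (XT.nd (nat_lit 78) (nat_lit 532) (nat_lit 0) (XT.lf (nat_lit 0) (nat_lit 6326446972) (nat_lit 304) (nat_lit 4048165377) (nat_lit 76) (nat_lit 1811005519) (nat_lit 92) (nat_lit 5) (nat_lit 96) (nat_lit 5) (nat_lit 93) (nat_lit 5) (nat_lit 622) (nat_lit 494)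 (nat_lit 444)) (XT.nd (nat_lit 78) (nat_lit 304) (nat_lit 0) (XT.lf (nat_lit 0) (nat_lit 5247080334) (nat_lit 228) (nat_lit 5734431544) (nat_lit 304) (nat_lit 1339081847) (nat_lit 89) (nat_lit 5) (nat_lit 92) (nat_lit 5) (nat_lit 93) (nat_lit 5) (nat_lit 623) (nat_lit 494) (nat_lit 443)) (XT.lf (nat_lit 0) (nat_lit 2254634334) (nat_lit 228) (nat_lit 970116102) (nat_lit 304) (nat_lit 9233170470) (nat_lit 85) (nat_lit 5) (nat_lit 88) (nat_lit 5) (nat_lit 89) (nat_lit 5) (nat_lit 624) (nat_lit 494) (nat_lit 442))))) (XT.nd (nat_lit 156) (nat_lit 304) (nat_lit 0) (XT.nd (nat_lit 78) (nat_lit 228) (nat_lit 0) (XT.lf (nat_lit 0) (nat_lit 7889416570) (nat_lit 304) (nat_lit 845322179) (nat_lit 76) (nat_lit 3862530613) (nat_lit 85) (nat_lit 5) (nat_lit 89) (nat_lit 5) (nat_lit 86) (nat_lit 5) (nat_lit 625) (nat_lit 494) (nat_lit 441)) (XT.lf (nat_lit 0) (nat_lit 8730357815) (nat_lit 228) (nat_lit 3935455781) (nat_lit 304) (nat_lit 73223918) (nat_lit 82) (nat_lit 5) (nat_lit 85) (nat_lit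 5) (nat_lit 86) (nat_lit 5) (nat_lit 626) (nat_lit 494) (nat_lit 440))) (XT.nd (nat_lit 76752) (nat_lit 0) (nat_lit 21052) (XT.lf (nat_lit 0) (nat_lit 4596975016) (nat_lit 304) (nat_lit 7298635030) (nat_lit 76) (nat_lit 987349721) (nat_lit 78) (nat_lit 5) (nat_lit 82) (nat_lit 5) (nat_lit 79) (nat_lit 5) (nat_lit 627) (nat_lit 494) (nat_lit 439)) (XT.nd (nat_lit 78) (nat_lit 76) (nat_lit 0) (XT.lf (nat_lit 0) (nat_lit 493441412) (nat_lit 760) (nat_lit 1664544437) (nat_lit 760) (nat_lit 1664544437) (nat_lit 356) (nat_lit 4) (nat_lit 366) (nat_lit 5) (nat_lit 366) (nat_lit 4) (nat_lit 570) (nat_lit 495) (nat_lit 495)) (XT.lf (nat_lit 0) (nat_lit 428337328) (nat_lit 836) (nat_lit 524351428) (nat_lit 76) (nat_lit 6741831152) (nat_lit 355) (nat_lit 5) (nat_lit 366) (nat_lit 5) (nat_lit 356) (nat_lit 4) (nat_lit 571) (nat_lit 495) (nat_lit 494)))))) (XT.nd (nat_lit 390) (nat_lit 2660) (nat_lit 0) (XT.nd (nat_lit 156) (nat_lit 1444) (nat_lit 0) (XT.nd (nat_lit 78) (nat_lit 836) (nat_lit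 0) (XT.lf (nat_lit 0) (nat_lit 4195796133) (nat_lit 760) (nat_lit 2051332541) (nat_lit 0) (nat_lit 1497816971) (nat_lit 346) (nat_lit 5) (nat_lit 356) (nat_lit 4) (nat_lit 346) (nat_lit 4) (nat_lit 572) (nat_lit 495) (nat_lit 493)) (XT.lf (nat_lit 0) (nat_lit 209295308) (nat_lit 836) (nat_lit 3584646999) (nat_lit 76) (nat_lit 4003007459) (nat_lit 335) (nat_lit 5) (nat_lit 346) (nat_lit 5) (nat_lit 336) (nat_lit 4) (nat_lit 573) (nat_lit 495) (nat_lit 492))) (XT.nd (nat_lit 78) (nat_lit 760) (nat_lit 0) (XT.lf (nat_lit 0) (nat_lit 2708922441) (nat_lit 684) (nat_lit 1251530502) (nat_lit 760) (nat_lit 3889776645) (nat_lit 326) (nat_lit 5) (nat_lit 335) (nat_lit 5) (nat_lit 336) (nat_lit 4) (nat_lit 574) (nat_lit 495) (nat_lit 491)) (XT.nd (nat_lit 78) (nat_lit 76) (nat_lit 0) (XT.lf (nat_lit 0) (nat_lit 1196702982) (nat_lit 684) (nat_lit 6564870779) (nat_lit 684) (nat_lit 143508480) (nat_lit 317) (nat_lit 4) (nat_lit 326) (nat_lit 5) (nat_lit 326) (nat_lit 4) (nat_lit 575) (nat_lit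 495) (nat_lit 490)) (XT.lf (nat_lit 0) (nat_lit 3607031642) (nat_lit 760) (nat_lit 344882565) (nat_lit 76) (nat_lit 4009094382) (nat_lit 316) (nat_lit 5) (nat_lit 326) (nat_lit 5) (nat_lit 317) (nat_lit 4) (nat_lit 576) (nat_lit 495) (nat_lit 489))))) (XT.nd (nat_lit 156) (nat_lit 1292) (nat_lit 0) (XT.nd (nat_lit 78) (nat_lit 760) (nat_lit 0) (XT.lf (nat_lit 0) (nat_lit 6143833722) (nat_lit 608) (nat_lit 1262564449) (nat_lit 684) (nat_lit 612127265) (nat_lit 308) (nat_lit 5) (nat_lit 316) (nat_lit 5) (nat_lit 317) (nat_lit 4) (nat_lit 577) (nat_lit 495) (nat_lit 488)) (XT.lf (nat_lit 0) (nat_lit 3141037836) (nat_lit 760) (nat_lit 3439260143) (nat_lit 76) (nat_lit 1496913850) (nat_lit 298) (nat_lit 5) (nat_lit 308) (nat_lit 5) (nat_lit 299) (nat_lit 4) (nat_lit 578) (nat_lit 495) (nat_lit 487))) (XT.nd (nat_lit 78) (nat_lit 684) (nat_lit 0) (XT.lf (nat_lit 0) (nat_lit 3115193877) (nat_lit 608) (nat_lit 3823889590) (nat_lit 684) (nat_lit 1198352648) (nat_lit 290) (nat_lit 5)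 (nat_lit 298) (nat_lit 5) (nat_lit 299) (nat_lit 4) (nat_lit 579) (nat_lit 495) (nat_lit 486)) (XT.nd (nat_lit 78) (nat_lit 0) (nat_lit 0) (XT.lf (nat_lit 0) (nat_lit 1569510154) (nat_lit 608) (nat_lit 980894500) (nat_lit 684) (nat_lit 5648716607) (nat_lit 281) (nat_lit 5) (nat_lit 289) (nat_lit 5) (nat_lit 290) (nat_lit 5) (nat_lit 580) (nat_lit 495) (nat_lit 485)) (XT.lf (nat_lit 0) (nat_lit 6342102818) (nat_lit 684) (nat_lit 4285295) (nat_lit 76) (nat_lit 1915818394) (nat_lit 281) (nat_lit 5) (nat_lit 290) (nat_lit 5) (nat_lit 282) (nat_lit 4) (nat_lit 581) (nat_lit 495) (nat_lit 484))))))) (XT.nd (nat_lit 780) (nat_lit 3648) (nat_lit 0) (XT.nd (nat_lit 390) (nat_lit 2128) (nat_lit 0) (XT.nd (nat_lit 156) (nat_lit 1748) (nat_lit 0) (XT.nd (nat_lit 78) (nat_lit 608) (nat_lit 0) (XT.lf (nat_lit 0) (nat_lit 1847489767) (nat_lit 684) (nat_lit 1585140492) (nat_lit 76) (nat_lit 4893901423) (nat_lit 272) (nat_lit 5) (nat_lit 281) (nat_lit 5) (nat_lit 273) (nat_lit 5) (nat_lit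 582) (nat_lit 495) (nat_lit 483)) (XT.lf (nat_lit 0) (nat_lit 5203307685) (nat_lit 608) (nat_lit 434355254) (nat_lit 684) (nat_lit 2754772583) (nat_lit 264) (nat_lit 5) (nat_lit 272) (nat_lit 5) (nat_lit 273) (nat_lit 5) (nat_lit 583) (nat_lit 495) (nat_lit 482))) (XT.nd (nat_lit 78) (nat_lit 1140) (nat_lit 0) (XT.lf (nat_lit 0) (nat_lit 1021214235) (nat_lit 608) (nat_lit 4829039002) (nat_lit 76) (nat_lit 2609454731) (nat_lit 256) (nat_lit 5) (nat_lit 264) (nat_lit 5) (nat_lit 257) (nat_lit 5) (nat_lit 584) (nat_lit 495) (nat_lit 481)) (XT.nd (nat_lit 78) (nat_lit 608) (nat_lit 0) (XT.lf (nat_lit 0) (nat_lit 2024578932) (nat_lit 532) (nat_lit 2788732126) (nat_lit 608) (nat_lit 3715105574) (nat_lit 249) (nat_lit 5) (nat_lit 256) (nat_lit 5) (nat_lit 257) (nat_lit 5) (nat_lit 585) (nat_lit 495) (nat_lit 480)) (XT.lf (nat_lit 0) (nat_lit 59288495) (nat_lit 608) (nat_lit 8196973137) (nat_lit 76) (nat_lit 342678935) (nat_lit 241) (nat_lit 5) (nat_lit 249) (nat_lit 5) (nat_lit 242)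 (nat_lit 5) (nat_lit 586) (nat_lit 495) (nat_lit 479))))) (XT.nd (nat_lit 156) (nat_lit 1596) (nat_lit 0) (XT.nd (nat_lit 78) (nat_lit 532) (nat_lit 0) (XT.lf (nat_lit 0) (nat_lit 3862483408) (nat_lit 608) (nat_lit 1262963059) (nat_lit 76) (nat_lit 3544880439) (nat_lit 241) (nat_lit 5) (nat_lit 249) (nat_lit 5) (nat_lit 242) (nat_lit 5) (nat_lit 587) (nat_lit 495) (nat_lit 478)) (XT.lf (nat_lit 0) (nat_lit 5803835717) (nat_lit 532) (nat_lit 1917363454) (nat_lit 608) (nat_lit 1022356805) (nat_lit 234) (nat_lit 5) (nat_lit 241) (nat_lit 5) (nat_lit 242) (nat_lit 5) (nat_lit 588) (nat_lit 495) (nat_lit 477))) (XT.nd (nat_lit 78) (nat_lit 1064) (nat_lit 0) (XT.lf (nat_lit 0) (nat_lit 2788179070) (nat_lit 532) (nat_lit 4662429754) (nat_lit 76) (nat_lit 1367544726) (nat_lit 227) (nat_lit 5) (nat_lit 234) (nat_lit 5) (nat_lit 228) (nat_lit 5) (nat_lit 589) (nat_lit 495) (nat_lit 476)) (XT.nd (nat_lit 78) (nat_lit 532) (nat_lit 0) (XT.lf (nat_lit 0) (nat_lit 2469163558) (nat_lit 532)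 (nat_lit 4183123133) (nat_lit 608) (nat_lit 2242004127) (nat_lit 220) (nat_lit 5) (nat_lit 227) (nat_lit 5) (nat_lit 228) (nat_lit 5) (nat_lit 590) (nat_lit 495) (nat_lit 475)) (XT.lf (nat_lit 0) (nat_lit 751463673) (nat_lit 456) (nat_lit 828031015) (nat_lit 532) (nat_lit 7392668543) (nat_lit 213) (nat_lit 5) (nat_lit 219) (nat_lit 5) (nat_lit 220) (nat_lit 5) (nat_lit 591) (nat_lit 495) (nat_lit 474)))))) (XT.nd (nat_lit 390) (nat_lit 1748) (nat_lit 0) (XT.nd (nat_lit 156) (nat_lit 1368) (nat_lit 0) (XT.nd (nat_lit 78) (nat_lit 532) (nat_lit 0) (XT.lf (nat_lit 0) (nat_lit 5450763376) (nat_lit 532) (nat_lit 1007372511) (nat_lit 76) (nat_lit 2593097286) (nat_lit 213) (nat_lit 5) (nat_lit 220) (nat_lit 5) (nat_lit 214) (nat_lit 5) (nat_lit 592) (nat_lit 495) (nat_lit 473)) (XT.lf (nat_lit 0) (nat_lit 254891184) (nat_lit 532) (nat_lit 2787489412) (nat_lit 76) (nat_lit 6089656158) (nat_lit 206) (nat_lit 5) (nat_lit 213) (nat_lit 5) (nat_lit 207) (nat_lit 5) (nat_lit 593) (nat_lit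 495) (nat_lit 472))) (XT.nd (nat_lit 78) (nat_lit 912) (nat_lit 0) (XT.lf (nat_lit 0) (nat_lit 4123346760) (nat_lit 532) (nat_lit 4620130675) (nat_lit 76) (nat_lit 470822504) (nat_lit 200) (nat_lit 5) (nat_lit 207) (nat_lit 5) (nat_lit 201) (nat_lit 5) (nat_lit 594) (nat_lit 495) (nat_lit 471)) (XT.nd (nat_lit 78) (nat_lit 456) (nat_lit 0) (XT.lf (nat_lit 0) (nat_lit 2797518967) (nat_lit 456) (nat_lit 5273585638) (nat_lit 532) (nat_lit 1227068518) (nat_lit 194) (nat_lit 5) (nat_lit 200) (nat_lit 5) (nat_lit 201) (nat_lit 5) (nat_lit 595) (nat_lit 495) (nat_lit 470)) (XT.lf (nat_lit 0) (nat_lit 955242296) (nat_lit 380) (nat_lit 1705645155) (nat_lit 456) (nat_lit 6722839365) (nat_lit 188) (nat_lit 5) (nat_lit 193) (nat_lit 5) (nat_lit 194) (nat_lit 5) (nat_lit 596) (nat_lit 495) (nat_lit 469))))) (XT.nd (nat_lit 234) (nat_lit 836) (nat_lit 0) (XT.nd (nat_lit 78) (nat_lit 912) (nat_lit 0) (XT.lf (nat_lit 0) (nat_lit 6612000518) (nat_lit 456) (nat_lit 925589407) (nat_lit 76) (nat_lit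 1933206074) (nat_lit 188) (nat_lit 5) (nat_lit 194) (nat_lit 5) (nat_lit 189) (nat_lit 5) (nat_lit 597) (nat_lit 495) (nat_lit 468)) (XT.nd (nat_lit 78) (nat_lit 380) (nat_lit 0) (XT.lf (nat_lit 0) (nat_lit 1069701855) (nat_lit 532) (nat_lit 2843629046) (nat_lit 76) (nat_lit 5646110768) (nat_lit 181) (nat_lit 5) (nat_lit 188) (nat_lit 5) (nat_lit 182) (nat_lit 5) (nat_lit 598) (nat_lit 495) (nat_lit 467)) (XT.lf (nat_lit 0) (nat_lit 4835874530) (nat_lit 380) (nat_lit 186891741) (nat_lit 456) (nat_lit 4627033542) (nat_lit 176) (nat_lit 5) (nat_lit 181) (nat_lit 5) (nat_lit 182) (nat_lit 5) (nat_lit 599) (nat_lit 495) (nat_lit 466)))) (XT.nd (nat_lit 78) (nat_lit 456) (nat_lit 0) (XT.lf (nat_lit 0) (nat_lit 2898583217) (nat_lit 380) (nat_lit 6164732676) (nat_lit 456) (nat_lit 678483706) (nat_lit 171) (nat_lit 5) (nat_lit 176) (nat_lit 5) (nat_lit 177) (nat_lit 5) (nat_lit 600) (nat_lit 495) (nat_lit 465)) (XT.nd (nat_lit 78) (nat_lit 0) (nat_lit 0) (XT.lf (nat_lit 0) (nat_lit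 902300958) (nat_lit 380) (nat_lit 2389519905) (nat_lit 456) (nat_lit 6543652340) (nat_lit 165) (nat_lit 5) (nat_lit 170) (nat_lit 5) (nat_lit 171) (nat_lit 5) (nat_lit 601) (nat_lit 495) (nat_lit 464)) (XT.lf (nat_lit 0) (nat_lit 7335581490) (nat_lit 456) (nat_lit 1131159112) (nat_lit 76) (nat_lit 1464130073) (nat_lit 165) (nat_lit 5) (nat_lit 171) (nat_lit 5) (nat_lit 166) (nat_lit 5) (nat_lit 602) (nat_lit 495) (nat_lit 463))))))))
noncomputable def xc21 : XT := (XT.nd (nat_lit 1560) (nat_lit 1064) (nat_lit 0) (XT.nd (nat_lit 780) (nat_lit 2508) (nat_lit 0) (XT.nd (nat_lit 390) (nat_lit 1444) (nat_lit 0) (XT.nd (nat_lit 156) (nat_lit 760) (nat_lit 0) (XT.nd (nat_lit 78) (nat_lit 380) (nat_lit 0) (XT.lf (nat_lit 0) (nat_lit 1421862092) (nat_lit 456) (nat_lit 3217498897) (nat_lit 76) (nat_lit 5388459786) (nat_lit 159) (nat_lit 5) (nat_lit 165) (nat_lit 5) (nat_lit 160) (nat_lit 5) (nat_lit 603) (nat_lit 495) (nat_lit 462)) (XT.lf (nat_lit 0) (nat_lit 4763843386) (nat_lit 380)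 (nat_lit 707960136) (nat_lit 456) (nat_lit 4654821924) (nat_lit 154) (nat_lit 5) (nat_lit 159) (nat_lit 5) (nat_lit 160) (nat_lit 5) (nat_lit 604) (nat_lit 495) (nat_lit 461))) (XT.nd (nat_lit 78) (nat_lit 380) (nat_lit 0) (XT.lf (nat_lit 0) (nat_lit 2653567993) (nat_lit 380) (nat_lit 6958468589) (nat_lit 456) (nat_lit 615186347) (nat_lit 149) (nat_lit 5) (nat_lit 154) (nat_lit 5) (nat_lit 155) (nat_lit 5) (nat_lit 605) (nat_lit 495) (nat_lit 460)) (XT.nd (nat_lit 78) (nat_lit 0) (nat_lit 0) (XT.lf (nat_lit 0) (nat_lit 471069119) (nat_lit 304) (nat_lit 2981205320) (nat_lit 380) (nat_lit 6877245146) (nat_lit 144) (nat_lit 5) (nat_lit 148) (nat_lit 5) (nat_lit 149) (nat_lit 5) (nat_lit 606) (nat_lit 495) (nat_lit 459)) (XT.lf (nat_lit 0) (nat_lit 7600309193) (nat_lit 380) (nat_lit 1746421094) (nat_lit 76) (nat_lit 1086903743) (nat_lit 144) (nat_lit 5) (nat_lit 149) (nat_lit 5) (nat_lit 145) (nat_lit 5) (nat_lit 607) (nat_lit 495) (nat_lit 458))))) (XT.nd (nat_lit 156) (nat_lit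 684) (nat_lit 0) (XT.nd (nat_lit 78) (nat_lit 304) (nat_lit 0) (XT.lf (nat_lit 0) (nat_lit 1286953996) (nat_lit 456) (nat_lit 4034453439) (nat_lit 76) (nat_lit 5218009602) (nat_lit 138) (nat_lit 5) (nat_lit 144) (nat_lit 5) (nat_lit 139) (nat_lit 5) (nat_lit 608) (nat_lit 495) (nat_lit 457)) (XT.lf (nat_lit 0) (nat_lit 4254861614) (nat_lit 304) (nat_lit 1186731894) (nat_lit 380) (nat_lit 5205552051) (nat_lit 134) (nat_lit 5) (nat_lit 138) (nat_lit 5) (nat_lit 139) (nat_lit 5) (nat_lit 609) (nat_lit 495) (nat_lit 456))) (XT.nd (nat_lit 78) (nat_lit 380) (nat_lit 0) (XT.lf (nat_lit 0) (nat_lit 1933335452) (nat_lit 304) (nat_lit 7756165648) (nat_lit 380) (nat_lit 1067326287) (nat_lit 130) (nat_lit 5) (nat_lit 134) (nat_lit 5) (nat_lit 135) (nat_lit 5) (nat_lit 610) (nat_lit 495) (nat_lit 455)) (XT.nd (nat_lit 78) (nat_lit 304) (nat_lit 0) (XT.lf (nat_lit 0) (nat_lit 3114158178) (nat_lit 380) (nat_lit 464803075) (nat_lit 76) (nat_lit 7289297141) (nat_lit 129) (nat_lit 5) (nat_lit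 134) (nat_lit 5) (nat_lit 130) (nat_lit 5) (nat_lit 611) (nat_lit 495) (nat_lit 454)) (XT.lf (nat_lit 0) (nat_lit 7373864510) (nat_lit 380) (nat_lit 2905217400) (nat_lit 76) (nat_lit 702519451) (nat_lit 125) (nat_lit 5) (nat_lit 130) (nat_lit 5) (nat_lit 126) (nat_lit 5) (nat_lit 612) (nat_lit 495) (nat_lit 453)))))) (XT.nd (nat_lit 390) (nat_lit 1216) (nat_lit 0) (XT.nd (nat_lit 156) (nat_lit 608) (nat_lit 0) (XT.nd (nat_lit 78) (nat_lit 304) (nat_lit 0) (XT.lf (nat_lit 0) (nat_lit 629171264) (nat_lit 380) (nat_lit 5431982686) (nat_lit 76) (nat_lit 5035663170) (nat_lit 120) (nat_lit 5) (nat_lit 125) (nat_lit 5) (nat_lit 121) (nat_lit 5) (nat_lit 613) (nat_lit 495) (nat_lit 452)) (XT.lf (nat_lit 0) (nat_lit 3170039360) (nat_lit 304) (nat_lit 1724854800) (nat_lit 380) (nat_lit 6319120400) (nat_lit 116) (nat_lit 5) (nat_lit 120) (nat_lit 5) (nat_lit 121) (nat_lit 5) (nat_lit 614) (nat_lit 495) (nat_lit 451))) (XT.nd (nat_lit 78) (nat_lit 304) (nat_lit 0) (XT.lf (nat_lit 0) (nat_lit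 595494906) (nat_lit 304) (nat_lit 8660871002) (nat_lit 380) (nat_lit 2076983305) (nat_lit 112) (nat_lit 5) (nat_lit 116) (nat_lit 5) (nat_lit 117) (nat_lit 5) (nat_lit 615) (nat_lit 495) (nat_lit 450)) (XT.nd (nat_lit 78) (nat_lit 228) (nat_lit 0) (XT.lf (nat_lit 0) (nat_lit 2238710995) (nat_lit 380) (nat_lit 2043160301) (nat_lit 76) (nat_lit 7172544499) (nat_lit 111) (nat_lit 5) (nat_lit 116) (nat_lit 5) (nat_lit 112) (nat_lit 5) (nat_lit 616) (nat_lit 495) (nat_lit 449)) (XT.lf (nat_lit 0) (nat_lit 6612010549) (nat_lit 304) (nat_lit 4755909651) (nat_lit 76) (nat_lit 209728727) (nat_lit 108) (nat_lit 5) (nat_lit 112) (nat_lit 5) (nat_lit 109) (nat_lit 5) (nat_lit 617) (nat_lit 495) (nat_lit 448))))) (XT.nd (nat_lit 156) (nat_lit 608) (nat_lit 0) (XT.nd (nat_lit 78) (nat_lit 304) (nat_lit 0) (XT.lf (nat_lit 0) (nat_lit 4136136496) (nat_lit 304) (nat_lit 6959255735) (nat_lit 380) (nat_lit 607503972) (nat_lit 104) (nat_lit 5) (nat_lit 108) (nat_lit 5) (nat_lit 109) (nat_lit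 5) (nat_lit 618) (nat_lit 495) (nat_lit 447)) (XT.lf (nat_lit 0) (nat_lit 1354796169) (nat_lit 228) (nat_lit 2427288091) (nat_lit 304) (nat_lit 8048175058) (nat_lit 100) (nat_lit 5) (nat_lit 103) (nat_lit 5) (nat_lit 104) (nat_lit 5) (nat_lit 619) (nat_lit 495) (nat_lit 446))) (XT.nd (nat_lit 78) (nat_lit 608) (nat_lit 0) (XT.lf (nat_lit 0) (nat_lit 8270601706) (nat_lit 304) (nat_lit 1498936036) (nat_lit 76) (nat_lit 2190167904) (nat_lit 100) (nat_lit 5) (nat_lit 104) (nat_lit 5) (nat_lit 101) (nat_lit 5) (nat_lit 620) (nat_lit 495) (nat_lit 445)) (XT.nd (nat_lit 78) (nat_lit 228) (nat_lit 0) (XT.lf (nat_lit 0) (nat_lit 767993455) (nat_lit 380) (nat_lit 4431794929) (nat_lit 76) (nat_lit 6891440331) (nat_lit 95) (nat_lit 5) (nat_lit 100) (nat_lit 5) (nat_lit 96) (nat_lit 5) (nat_lit 621) (nat_lit 495) (nat_lit 444)) (XT.lf (nat_lit 0) (nat_lit 4756922056) (nat_lit 228) (nat_lit 503863137) (nat_lit 304) (nat_lit 6964191964) (nat_lit 92) (nat_lit 5) (nat_lit 95) (nat_lit 5) (nat_lit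 96) (nat_lit 5) (nat_lit 622) (nat_lit 495) (nat_lit 443))))))) (XT.nd (nat_lit 77298) (nat_lit 0) (nat_lit 14136) (XT.nd (nat_lit 76908) (nat_lit 0) (nat_lit 20368) (XT.nd (nat_lit 156) (nat_lit 760) (nat_lit 0) (XT.nd (nat_lit 78) (nat_lit 76) (nat_lit 0) (XT.lf (nat_lit 0) (nat_lit 1746301869) (nat_lit 228) (nat_lit 8121306594) (nat_lit 304) (nat_lit 2493310162) (nat_lit 89) (nat_lit 5) (nat_lit 92) (nat_lit 5) (nat_lit 93) (nat_lit 5) (nat_lit 623) (nat_lit 495) (nat_lit 442)) (XT.lf (nat_lit 0) (nat_lit 2048823221) (nat_lit 304) (nat_lit 1346835889) (nat_lit 76) (nat_lit 9103474058) (nat_lit 88) (nat_lit 5) (nat_lit 92) (nat_lit 5) (nat_lit 89) (nat_lit 5) (nat_lit 624) (nat_lit 495) (nat_lit 441))) (XT.nd (nat_lit 78) (nat_lit 532) (nat_lit 0) (XT.lf (nat_lit 0) (nat_lit 6666707662) (nat_lit 304) (nat_lit 4528649593) (nat_lit 76) (nat_lit 1444060736) (nat_lit 85) (nat_lit 5) (nat_lit 89) (nat_lit 5) (nat_lit 86) (nat_lit 5) (nat_lit 625) (nat_lit 495) (nat_lit 440))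 (XT.nd (nat_lit 78) (nat_lit 304) (nat_lit 0) (XT.lf (nat_lit 0) (nat_lit 4959957505) (nat_lit 228) (nat_lit 6436986835) (nat_lit 304) (nat_lit 1385165729) (nat_lit 82) (nat_lit 5) (nat_lit 85) (nat_lit 5) (nat_lit 86) (nat_lit 5) (nat_lit 626) (nat_lit 495) (nat_lit 439)) (XT.lf (nat_lit 0) (nat_lit 1697264937) (nat_lit 228) (nat_lit 1551557473) (nat_lit 304) (nat_lit 9678449304) (nat_lit 78) (nat_lit 5) (nat_lit 81) (nat_lit 5) (nat_lit 82) (nat_lit 5) (nat_lit 627) (nat_lit 495) (nat_lit 438))))) (XT.nd (nat_lit 156) (nat_lit 1520) (nat_lit 0) (XT.nd (nat_lit 78) (nat_lit 836) (nat_lit 0) (XT.lf (nat_lit 0) (nat_lit 2023750711) (nat_lit 836) (nat_lit 875598264) (nat_lit 836) (nat_lit 875598264) (nat_lit 377) (nat_lit 4) (nat_lit 388) (nat_lit 5) (nat_lit 388) (nat_lit 4) (nat_lit 568) (nat_lit 496) (nat_lit 496)) (XT.lf (nat_lit 0) (nat_lit 1961954168) (nat_lit 836) (nat_lit 5090669303) (nat_lit 0) (nat_lit 544569480) (nat_lit 366) (nat_lit 5) (nat_lit 377) (nat_lit 4)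 (nat_lit 366) (nat_lit 4) (nat_lit 569) (nat_lit 496) (nat_lit 495))) (XT.nd (nat_lit 78) (nat_lit 760) (nat_lit 0) (XT.lf (nat_lit 0) (nat_lit 946314256) (nat_lit 760) (nat_lit 4753202003) (nat_lit 760) (nat_lit 1946224483) (nat_lit 356) (nat_lit 4) (nat_lit 366) (nat_lit 5) (nat_lit 366) (nat_lit 4) (nat_lit 570) (nat_lit 496) (nat_lit 494)) (XT.nd (nat_lit 78) (nat_lit 684) (nat_lit 0) (XT.lf (nat_lit 0) (nat_lit 1759665639) (nat_lit 836) (nat_lit 614798840) (nat_lit 76) (nat_lit 5321227253) (nat_lit 355) (nat_lit 5) (nat_lit 366) (nat_lit 5) (nat_lit 356) (nat_lit 4) (nat_lit 571) (nat_lit 496) (nat_lit 493)) (XT.lf (nat_lit 0) (nat_lit 5484245121) (nat_lit 760) (nat_lit 2175504341) (nat_lit 0) (nat_lit 87228766) (nat_lit 346) (nat_lit 5) (nat_lit 356) (nat_lit 4) (nat_lit 346) (nat_lit 4) (nat_lit 572) (nat_lit 496) (nat_lit 492)))))) (XT.nd (nat_lit 390) (nat_lit 3268) (nat_lit 0) (XT.nd (nat_lit 156) (nat_lit 1444) (nat_lit 0) (XT.nd (nat_lit 78) (nat_lit 684) (nat_lit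 0) (XT.lf (nat_lit 0) (nat_lit 1445135524) (nat_lit 836) (nat_lit 3761611576) (nat_lit 76) (nat_lit 2592745342) (nat_lit 335) (nat_lit 5) (nat_lit 346) (nat_lit 5) (nat_lit 336) (nat_lit 4) (nat_lit 573) (nat_lit 496) (nat_lit 491)) (XT.lf (nat_lit 0) (nat_lit 2489127349) (nat_lit 684) (nat_lit 2673501228) (nat_lit 760) (nat_lit 2690819968) (nat_lit 326) (nat_lit 5) (nat_lit 335) (nat_lit 5) (nat_lit 336) (nat_lit 4) (nat_lit 574) (nat_lit 496) (nat_lit 490))) (XT.nd (nat_lit 78) (nat_lit 684) (nat_lit 0) (XT.lf (nat_lit 0) (nat_lit 932127678) (nat_lit 684) (nat_lit 66807770) (nat_lit 760) (nat_lit 6910084977) (nat_lit 316) (nat_lit 5) (nat_lit 325) (nat_lit 5) (nat_lit 326) (nat_lit 5) (nat_lit 575) (nat_lit 496) (nat_lit 489)) (XT.nd (nat_lit 78) (nat_lit 684) (nat_lit 0) (XT.lf (nat_lit 0) (nat_lit 4715400039) (nat_lit 760) (nat_lit 654328419) (nat_lit 76) (nat_lit 2595846363) (nat_lit 316) (nat_lit 5) (nat_lit 326) (nat_lit 5) (nat_lit 317) (nat_lit 4) (nat_lit 576) (nat_lit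 496) (nat_lit 488)) (XT.lf (nat_lit 0) (nat_lit 451568834) (nat_lit 684) (nat_lit 2236626810) (nat_lit 76) (nat_lit 5335508037) (nat_lit 307) (nat_lit 5) (nat_lit 316) (nat_lit 5) (nat_lit 308) (nat_lit 5) (nat_lit 577) (nat_lit 496) (nat_lit 487))))) (XT.nd (nat_lit 234) (nat_lit 1292) (nat_lit 0) (XT.nd (nat_lit 78) (nat_lit 1292) (nat_lit 0) (XT.lf (nat_lit 0) (nat_lit 4153743410) (nat_lit 760) (nat_lit 3846826285) (nat_lit 76) (nat_lit 82602793) (nat_lit 298) (nat_lit 5) (nat_lit 308) (nat_lit 5) (nat_lit 299) (nat_lit 4) (nat_lit 578) (nat_lit 496) (nat_lit 486)) (XT.nd (nat_lit 78) (nat_lit 684) (nat_lit 0) (XT.lf (nat_lit 0) (nat_lit 2661587601) (nat_lit 608) (nat_lit 5256560933) (nat_lit 684) (nat_lit 225923652) (nat_lit 290) (nat_lit 5) (nat_lit 298) (nat_lit 5) (nat_lit 299) (nat_lit 4) (nat_lit 579) (nat_lit 496) (nat_lit 485)) (XT.lf (nat_lit 0) (nat_lit 1055983338) (nat_lit 608) (nat_lit 2420206942) (nat_lit 684) (nat_lit 4730121075) (nat_lit 281) (nat_lit 5)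 (nat_lit 289) (nat_lit 5) (nat_lit 290) (nat_lit 5) (nat_lit 580) (nat_lit 496) (nat_lit 484)))) (XT.nd (nat_lit 78) (nat_lit 1292) (nat_lit 0) (XT.lf (nat_lit 0) (nat_lit 7228264114) (nat_lit 684) (nat_lit 556171779) (nat_lit 76) (nat_lit 485755645) (nat_lit 281) (nat_lit 5) (nat_lit 290) (nat_lit 5) (nat_lit 282) (nat_lit 4) (nat_lit 581) (nat_lit 496) (nat_lit 483)) (XT.nd (nat_lit 78) (nat_lit 608) (nat_lit 0) (XT.lf (nat_lit 0) (nat_lit 2680346056) (nat_lit 684) (nat_lit 2198747568) (nat_lit 76) (nat_lit 3455987463) (nat_lit 272) (nat_lit 5) (nat_lit 281) (nat_lit 5) (nat_lit 273) (nat_lit 5) (nat_lit 582) (nat_lit 496) (nat_lit 482)) (XT.lf (nat_lit 0) (nat_lit 4541162531) (nat_lit 608) (nat_lit 1895501084) (nat_lit 684) (nat_lit 1965000734) (nat_lit 264) (nat_lit 5) (nat_lit 272) (nat_lit 5) (nat_lit 273) (nat_lit 5) (nat_lit 583) (nat_lit 496) (nat_lit 481))))))))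
noncomputable def xc22 : XT := (XT.nd (nat_lit 1560) (nat_lit 5396) (nat_lit 0) (XT.nd (nat_lit 780) (nat_lit 3572) (nat_lit 0) (XT.nd (nat_lit 390) (nat_lit 2128) (nat_lit 0) (XT.nd (nat_lit 156) (nat_lit 1140) (nat_lit 0) (XT.nd (nat_lit 78) (nat_lit 532) (nat_lit 0) (XT.lf (nat_lit 0) (nat_lit 1756931956) (nat_lit 608) (nat_lit 5555306344) (nat_lit 76) (nat_lit 1157472084) (nat_lit 256) (nat_lit 5) (nat_lit 264) (nat_lit 5) (nat_lit 257) (nat_lit 5) (nat_lit 584) (nat_lit 496) (nat_lit 480)) (XT.lf (nat_lit 0) (nat_lit 1247887652) (nat_lit 532) (nat_lit 4266918711) (nat_lit 608) (nat_lit 3024299311) (nat_lit 249) (nat_lit 5) (nat_lit 256) (nat_lit 5) (nat_lit 257) (nat_lit 5) (nat_lit 585) (nat_lit 496) (nat_lit 479))) (XT.nd (nat_lit 78) (nat_lit 1064) (nat_lit 0) (XT.lf (nat_lit 0) (nat_lit 707095193) (nat_lit 608) (nat_lit 433261602) (nat_lit 76) (nat_lit 7469863993) (nat_lit 248) (nat_lit 5) (nat_lit 256) (nat_lit 5) (nat_lit 249) (nat_lit 5) (nat_lit 586) (nat_lit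 496) (nat_lit 478)) (XT.nd (nat_lit 78) (nat_lit 532) (nat_lit 0) (XT.lf (nat_lit 0) (nat_lit 4471192416) (nat_lit 608) (nat_lit 2148463247) (nat_lit 76) (nat_lit 2062735468) (nat_lit 241) (nat_lit 5) (nat_lit 249) (nat_lit 5) (nat_lit 242) (nat_lit 5) (nat_lit 587) (nat_lit 496) (nat_lit 477)) (XT.lf (nat_lit 0) (nat_lit 4866235858) (nat_lit 532) (nat_lit 3429325530) (nat_lit 608) (nat_lit 460747760) (nat_lit 234) (nat_lit 5) (nat_lit 241) (nat_lit 5) (nat_lit 242) (nat_lit 5) (nat_lit 588) (nat_lit 496) (nat_lit 476))))) (XT.nd (nat_lit 156) (nat_lit 1064) (nat_lit 0) (XT.nd (nat_lit 78) (nat_lit 532) (nat_lit 0) (XT.lf (nat_lit 0) (nat_lit 3157775709) (nat_lit 456) (nat_lit 140961857) (nat_lit 532) (nat_lit 5532971862) (nat_lit 227) (nat_lit 5) (nat_lit 233) (nat_lit 5) (nat_lit 234) (nat_lit 5) (nat_lit 589) (nat_lit 496) (nat_lit 475)) (XT.lf (nat_lit 0) (nat_lit 1404474423) (nat_lit 532) (nat_lit 5722611728) (nat_lit 608) (nat_lit 1781477621) (nat_lit 220) (nat_lit 5)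 (nat_lit 227) (nat_lit 5) (nat_lit 228) (nat_lit 5) (nat_lit 590) (nat_lit 496) (nat_lit 474))) (XT.nd (nat_lit 78) (nat_lit 988) (nat_lit 0) (XT.lf (nat_lit 0) (nat_lit 2001275049) (nat_lit 608) (nat_lit 380588410) (nat_lit 76) (nat_lit 6605168872) (nat_lit 219) (nat_lit 5) (nat_lit 227) (nat_lit 5) (nat_lit 220) (nat_lit 5) (nat_lit 591) (nat_lit 496) (nat_lit 473)) (XT.nd (nat_lit 78) (nat_lit 532) (nat_lit 0) (XT.lf (nat_lit 0) (nat_lit 5832312815) (nat_lit 532) (nat_lit 2189747956) (nat_lit 76) (nat_lit 1044847906) (nat_lit 213) (nat_lit 5) (nat_lit 220) (nat_lit 5) (nat_lit 214) (nat_lit 5) (nat_lit 592) (nat_lit 496) (nat_lit 472)) (XT.lf (nat_lit 0) (nat_lit 580612260) (nat_lit 532) (nat_lit 4044285891) (nat_lit 76) (nat_lit 4523475401) (nat_lit 206) (nat_lit 5) (nat_lit 213) (nat_lit 5) (nat_lit 207) (nat_lit 5) (nat_lit 593) (nat_lit 496) (nat_lit 471)))))) (XT.nd (nat_lit 390) (nat_lit 1672) (nat_lit 0) (XT.nd (nat_lit 156) (nat_lit 988) (nat_lit 0) (XT.nd (nat_lit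 78) (nat_lit 456) (nat_lit 0) (XT.lf (nat_lit 0) (nat_lit 3283544059) (nat_lit 456) (nat_lit 1126911931) (nat_lit 532) (nat_lit 4820954666) (nat_lit 200) (nat_lit 5) (nat_lit 206) (nat_lit 5) (nat_lit 207) (nat_lit 5) (nat_lit 594) (nat_lit 496) (nat_lit 470)) (XT.lf (nat_lit 0) (nat_lit 1419072139) (nat_lit 456) (nat_lit 6896080542) (nat_lit 532) (nat_lit 1000994031) (nat_lit 194) (nat_lit 5) (nat_lit 200) (nat_lit 5) (nat_lit 201) (nat_lit 5) (nat_lit 595) (nat_lit 496) (nat_lit 469))) (XT.nd (nat_lit 78) (nat_lit 912) (nat_lit 0) (XT.lf (nat_lit 0) (nat_lit 2851090607) (nat_lit 532) (nat_lit 495216757) (nat_lit 76) (nat_lit 6056023397) (nat_lit 193) (nat_lit 5) (nat_lit 200) (nat_lit 5) (nat_lit 194) (nat_lit 5) (nat_lit 596) (nat_lit 496) (nat_lit 468)) (XT.nd (nat_lit 78) (nat_lit 532) (nat_lit 0) (XT.lf (nat_lit 0) (nat_lit 6761746294) (nat_lit 456) (nat_lit 2430847809) (nat_lit 76) (nat_lit 297616542) (nat_lit 188) (nat_lit 5) (nat_lit 194) (nat_lit 5) (nat_lit 189)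 (nat_lit 5) (nat_lit 597) (nat_lit 496) (nat_lit 467)) (XT.lf (nat_lit 0) (nat_lit 1161914768) (nat_lit 532) (nat_lit 4429596026) (nat_lit 76) (nat_lit 3988058272) (nat_lit 181) (nat_lit 5) (nat_lit 188) (nat_lit 5) (nat_lit 182) (nat_lit 5) (nat_lit 598) (nat_lit 496) (nat_lit 466))))) (XT.nd (nat_lit 156) (nat_lit 912) (nat_lit 0) (XT.nd (nat_lit 78) (nat_lit 380) (nat_lit 0) (XT.lf (nat_lit 0) (nat_lit 3188784925) (nat_lit 380) (nat_lit 1889578396) (nat_lit 456) (nat_lit 4592297671) (nat_lit 176) (nat_lit 5) (nat_lit 181) (nat_lit 5) (nat_lit 182) (nat_lit 5) (nat_lit 599) (nat_lit 496) (nat_lit 465)) (XT.lf (nat_lit 0) (nat_lit 1179453408) (nat_lit 380) (nat_lit 7891486084) (nat_lit 456) (nat_lit 692682191) (nat_lit 171) (nat_lit 5) (nat_lit 176) (nat_lit 5) (nat_lit 177) (nat_lit 5) (nat_lit 600) (nat_lit 496) (nat_lit 464))) (XT.nd (nat_lit 78) (nat_lit 836) (nat_lit 0) (XT.lf (nat_lit 0) (nat_lit 3246272247) (nat_lit 456) (nat_lit 890161415) (nat_lit 76) (nat_lit 5721495576)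 (nat_lit 170) (nat_lit 5) (nat_lit 176) (nat_lit 5) (nat_lit 171) (nat_lit 5) (nat_lit 601) (nat_lit 496) (nat_lit 463)) (XT.nd (nat_lit 78) (nat_lit 456) (nat_lit 0) (XT.lf (nat_lit 0) (nat_lit 6965737306) (nat_lit 380) (nat_lit 283375780) (nat_lit 456) (nat_lit 2705033373) (nat_lit 165) (nat_lit 5) (nat_lit 170) (nat_lit 5) (nat_lit 171) (nat_lit 5) (nat_lit 602) (nat_lit 496) (nat_lit 462)) (XT.lf (nat_lit 0) (nat_lit 1273969464) (nat_lit 456) (nat_lit 5160320255) (nat_lit 76) (nat_lit 3617614145) (nat_lit 159) (nat_lit 5) (nat_lit 165) (nat_lit 5) (nat_lit 160) (nat_lit 5) (nat_lit 603) (nat_lit 496) (nat_lit 461))))))) (XT.nd (nat_lit 780) (nat_lit 2508) (nat_lit 0) (XT.nd (nat_lit 390) (nat_lit 1292) (nat_lit 0) (XT.nd (nat_lit 156) (nat_lit 836) (nat_lit 0) (XT.nd (nat_lit 78) (nat_lit 380) (nat_lit 0) (XT.lf (nat_lit 0) (nat_lit 2755463532) (nat_lit 380) (nat_lit 2530458391) (nat_lit 456) (nat_lit 4865547667) (nat_lit 154) (nat_lit 5) (nat_lit 159) (nat_lit 5) (nat_lit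 160) (nat_lit 5) (nat_lit 604) (nat_lit 496) (nat_lit 460)) (XT.lf (nat_lit 0) (nat_lit 565427295) (nat_lit 380) (nat_lit 8810531732) (nat_lit 456) (nat_lit 877113217) (nat_lit 149) (nat_lit 5) (nat_lit 154) (nat_lit 5) (nat_lit 155) (nat_lit 5) (nat_lit 605) (nat_lit 496) (nat_lit 459))) (XT.nd (nat_lit 78) (nat_lit 760) (nat_lit 0) (XT.lf (nat_lit 0) (nat_lit 3165987347) (nat_lit 456) (nat_lit 1686832645) (nat_lit 76) (nat_lit 5503140029) (nat_lit 148) (nat_lit 5) (nat_lit 154) (nat_lit 5) (nat_lit 149) (nat_lit 5) (nat_lit 606) (nat_lit 496) (nat_lit 458)) (XT.nd (nat_lit 78) (nat_lit 456) (nat_lit 0) (XT.lf (nat_lit 0) (nat_lit 6475012985) (nat_lit 304) (nat_lit 796254591) (nat_lit 380) (nat_lit 3189663160) (nat_lit 144) (nat_lit 5) (nat_lit 148) (nat_lit 5) (nat_lit 149) (nat_lit 5) (nat_lit 607) (nat_lit 496) (nat_lit 457)) (XT.lf (nat_lit 0) (nat_lit 890751296) (nat_lit 456) (nat_lit 6363359945) (nat_lit 76) (nat_lit 3313540663) (nat_lit 138) (nat_lit 5) (nat_lit 144)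 (nat_lit 5) (nat_lit 139) (nat_lit 5) (nat_lit 608) (nat_lit 496) (nat_lit 456))))) (XT.nd (nat_lit 156) (nat_lit 988) (nat_lit 0) (XT.nd (nat_lit 78) (nat_lit 0) (nat_lit 0) (XT.lf (nat_lit 0) (nat_lit 1855628230) (nat_lit 304) (nat_lit 3150129376) (nat_lit 380) (nat_lit 5670416593) (nat_lit 134) (nat_lit 5) (nat_lit 138) (nat_lit 5) (nat_lit 139) (nat_lit 5) (nat_lit 609) (nat_lit 496) (nat_lit 455)) (XT.lf (nat_lit 0) (nat_lit 9204434374) (nat_lit 380) (nat_lit 546521660) (nat_lit 76) (nat_lit 1035885700) (nat_lit 134) (nat_lit 5) (nat_lit 139) (nat_lit 5) (nat_lit 135) (nat_lit 5) (nat_lit 610) (nat_lit 496) (nat_lit 454))) (XT.nd (nat_lit 78) (nat_lit 608) (nat_lit 0) (XT.lf (nat_lit 0) (nat_lit 2578342161) (nat_lit 380) (nat_lit 3017689883) (nat_lit 76) (nat_lit 5302858433) (nat_lit 129) (nat_lit 5) (nat_lit 134) (nat_lit 5) (nat_lit 130) (nat_lit 5) (nat_lit 611) (nat_lit 496) (nat_lit 453)) (XT.nd (nat_lit 78) (nat_lit 304) (nat_lit 0) (XT.lf (nat_lit 0) (nat_lit 5455493291)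 (nat_lit 304) (nat_lit 1337483276) (nat_lit 380) (nat_lit 4220159340) (nat_lit 125) (nat_lit 5) (nat_lit 129) (nat_lit 5) (nat_lit 130) (nat_lit 5) (nat_lit 612) (nat_lit 496) (nat_lit 452)) (XT.lf (nat_lit 0) (nat_lit 2951271408) (nat_lit 304) (nat_lit 8152656372) (nat_lit 380) (nat_lit 25500014) (nat_lit 121) (nat_lit 5) (nat_lit 125) (nat_lit 5) (nat_lit 126) (nat_lit 5) (nat_lit 613) (nat_lit 496) (nat_lit 451)))))) (XT.nd (nat_lit 390) (nat_lit 1216) (nat_lit 0) (XT.nd (nat_lit 156) (nat_lit 912) (nat_lit 0) (XT.nd (nat_lit 78) (nat_lit 0) (nat_lit 0) (XT.lf (nat_lit 0) (nat_lit 348570601) (nat_lit 304) (nat_lit 3850435689) (nat_lit 380) (nat_lit 7048454243) (nat_lit 116) (nat_lit 5) (nat_lit 120) (nat_lit 5) (nat_lit 121) (nat_lit 5) (nat_lit 614) (nat_lit 496) (nat_lit 450)) (XT.lf (nat_lit 0) (nat_lit 8519687766) (nat_lit 380) (nat_lit 2291995604) (nat_lit 76) (nat_lit 555928569) (nat_lit 116) (nat_lit 5) (nat_lit 121) (nat_lit 5) (nat_lit 117) (nat_lit 5) (nat_lit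 615) (nat_lit 496) (nat_lit 449))) (XT.nd (nat_lit 78) (nat_lit 532) (nat_lit 0) (XT.lf (nat_lit 0) (nat_lit 1439631083) (nat_lit 380) (nat_lit 5029189438) (nat_lit 76) (nat_lit 5020724020) (nat_lit 111) (nat_lit 5) (nat_lit 116) (nat_lit 5) (nat_lit 112) (nat_lit 5) (nat_lit 616) (nat_lit 496) (nat_lit 448)) (XT.nd (nat_lit 78) (nat_lit 304) (nat_lit 0) (XT.lf (nat_lit 0) (nat_lit 3759068627) (nat_lit 228) (nat_lit 2009969273) (nat_lit 304) (nat_lit 5844618521) (nat_lit 108) (nat_lit 5) (nat_lit 111) (nat_lit 5) (nat_lit 112) (nat_lit 5) (nat_lit 617) (nat_lit 496) (nat_lit 447)) (XT.lf (nat_lit 0) (nat_lit 971033019) (nat_lit 304) (nat_lit 9225268287) (nat_lit 380) (nat_lit 1543725632) (nat_lit 104) (nat_lit 5) (nat_lit 108) (nat_lit 5) (nat_lit 109) (nat_lit 5) (nat_lit 618) (nat_lit 496) (nat_lit 446))))) (XT.nd (nat_lit 234) (nat_lit 608) (nat_lit 0) (XT.nd (nat_lit 78) (nat_lit 532) (nat_lit 0) (XT.lf (nat_lit 0) (nat_lit 2826874803) (nat_lit 380) (nat_lit 1897142045)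 (nat_lit 76) (nat_lit 7144120950) (nat_lit 103) (nat_lit 5) (nat_lit 108) (nat_lit 5) (nat_lit 104) (nat_lit 5) (nat_lit 619) (nat_lit 496) (nat_lit 445)) (XT.nd (nat_lit 78) (nat_lit 304) (nat_lit 0) (XT.lf (nat_lit 0) (nat_lit 7160552470) (nat_lit 228) (nat_lit 105674706) (nat_lit 304) (nat_lit 4732341074) (nat_lit 100) (nat_lit 5) (nat_lit 103) (nat_lit 5) (nat_lit 104) (nat_lit 5) (nat_lit 620) (nat_lit 496) (nat_lit 444)) (XT.lf (nat_lit 0) (nat_lit 4243969178) (nat_lit 304) (nat_lit 7576354005) (nat_lit 380) (nat_lit 310766633) (nat_lit 96) (nat_lit 5) (nat_lit 100) (nat_lit 5) (nat_lit 101) (nat_lit 5) (nat_lit 621) (nat_lit 496) (nat_lit 443)))) (XT.nd (nat_lit 78) (nat_lit 304) (nat_lit 0) (XT.lf (nat_lit 0) (nat_lit 1219815766) (nat_lit 228) (nat_lit 2921427492) (nat_lit 304) (nat_lit 8124533284) (nat_lit 92) (nat_lit 5) (nat_lit 95) (nat_lit 5) (nat_lit 96) (nat_lit 5) (nat_lit 622) (nat_lit 496) (nat_lit 442)) (XT.nd (nat_lit 78) (nat_lit 304) (nat_lit 0) (XT.lf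 (nat_lit 0) (nat_lit 8699227195) (nat_lit 304) (nat_lit 1876307312) (nat_lit 76) (nat_lit 1827161051) (nat_lit 92) (nat_lit 5) (nat_lit 96) (nat_lit 5) (nat_lit 93) (nat_lit 5) (nat_lit 623) (nat_lit 496) (nat_lit 441)) (XT.lf (nat_lit 0) (nat_lit 820347615) (nat_lit 304) (nat_lit 5066005262) (nat_lit 76) (nat_lit 6655398876) (nat_lit 88) (nat_lit 5) (nat_lit 92) (nat_lit 5) (nat_lit 89) (nat_lit 5) (nat_lit 624) (nat_lit 496) (nat_lit 440))))))))
noncomputable def xc23 : XT := (XT.nd (nat_lit 78000) (nat_lit 0) (nat_lit 5472) (XT.nd (nat_lit 77220) (nat_lit 0) (nat_lit 13832) (XT.nd (nat_lit 76830) (nat_lit 0) (nat_lit 19228) (XT.nd (nat_lit 76596) (nat_lit 0) (nat_lit 22420) (XT.nd (nat_lit 78) (nat_lit 228) (nat_lit 0) (XT.lf (nat_lit 0) (nat_lit 4314570467) (nat_lit 228) (nat_lit 1068114592) (nat_lit 304) (nat_lit 7300463176) (nat_lit 85) (nat_lit 5) (nat_lit 88) (nat_lit 5) (nat_lit 89) (nat_lit 5) (nat_lit 625) (nat_lit 496) (nat_lit 439)) (XT.lf (nat_lit 0) (nat_lit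 1038649880) (nat_lit 228) (nat_lit 9020621916) (nat_lit 304) (nat_lit 2767642219) (nat_lit 82) (nat_lit 5) (nat_lit 85) (nat_lit 5) (nat_lit 86) (nat_lit 5) (nat_lit 626) (nat_lit 496) (nat_lit 438))) (XT.nd (nat_lit 78) (nat_lit 1748) (nat_lit 0) (XT.lf (nat_lit 0) (nat_lit 3575102198) (nat_lit 836) (nat_lit 77205625) (nat_lit 836) (nat_lit 77205625) (nat_lit 400) (nat_lit 4) (nat_lit 411) (nat_lit 5) (nat_lit 411) (nat_lit 4) (nat_lit 566) (nat_lit 497) (nat_lit 497)) (XT.nd (nat_lit 78) (nat_lit 836) (nat_lit 0) (XT.lf (nat_lit 0) (nat_lit 3526069269) (nat_lit 912) (nat_lit 1926480680) (nat_lit 0) (nat_lit 2051422239) (nat_lit 388) (nat_lit 5) (nat_lit 400) (nat_lit 4) (nat_lit 388) (nat_lit 4) (nat_lit 567) (nat_lit 497) (nat_lit 496)) (XT.lf (nat_lit 0) (nat_lit 4008294659) (nat_lit 836) (nat_lit 3231328585) (nat_lit 836) (nat_lit 310949173) (nat_lit 377) (nat_lit 4) (nat_lit 388) (nat_lit 5) (nat_lit 388) (nat_lit 4) (nat_lit 568) (nat_lit 497) (nat_lit 495))))) (XT.nd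 (nat_lit 156) (nat_lit 1596) (nat_lit 0) (XT.nd (nat_lit 78) (nat_lit 760) (nat_lit 0) (XT.lf (nat_lit 0) (nat_lit 2420887516) (nat_lit 760) (nat_lit 924979620) (nat_lit 836) (nat_lit 4252569002) (nat_lit 366) (nat_lit 5) (nat_lit 376) (nat_lit 5) (nat_lit 377) (nat_lit 4) (nat_lit 569) (nat_lit 497) (nat_lit 494)) (XT.lf (nat_lit 0) (nat_lit 824592643) (nat_lit 760) (nat_lit 6219122343) (nat_lit 760) (nat_lit 604066527) (nat_lit 356) (nat_lit 4) (nat_lit 366) (nat_lit 5) (nat_lit 366) (nat_lit 4) (nat_lit 570) (nat_lit 497) (nat_lit 493))) (XT.nd (nat_lit 78) (nat_lit 1520) (nat_lit 0) (XT.lf (nat_lit 0) (nat_lit 3051476280) (nat_lit 836) (nat_lit 786706976) (nat_lit 76) (nat_lit 3860033027) (nat_lit 355) (nat_lit 5) (nat_lit 366) (nat_lit 5) (nat_lit 356) (nat_lit 4) (nat_lit 571) (nat_lit 497) (nat_lit 492)) (XT.nd (nat_lit 78) (nat_lit 836) (nat_lit 0) (XT.lf (nat_lit 0) (nat_lit 5358694380) (nat_lit 684) (nat_lit 1383299583) (nat_lit 760) (nat_lit 1008193162) (nat_lit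 346) (nat_lit 5) (nat_lit 355) (nat_lit 5) (nat_lit 356) (nat_lit 4) (nat_lit 572) (nat_lit 497) (nat_lit 491)) (XT.lf (nat_lit 0) (nat_lit 2640572741) (nat_lit 836) (nat_lit 4022810127) (nat_lit 76) (nat_lit 1140011537) (nat_lit 335) (nat_lit 5) (nat_lit 346) (nat_lit 5) (nat_lit 336) (nat_lit 4) (nat_lit 573) (nat_lit 497) (nat_lit 490)))))) (XT.nd (nat_lit 390) (nat_lit 2584) (nat_lit 0) (XT.nd (nat_lit 156) (nat_lit 1368) (nat_lit 0) (XT.nd (nat_lit 78) (nat_lit 760) (nat_lit 0) (XT.lf (nat_lit 0) (nat_lit 2184772559) (nat_lit 684) (nat_lit 4139711743) (nat_lit 760) (nat_lit 1533540764) (nat_lit 326) (nat_lit 5) (nat_lit 335) (nat_lit 5) (nat_lit 336) (nat_lit 4) (nat_lit 574) (nat_lit 497) (nat_lit 489)) (XT.lf (nat_lit 0) (nat_lit 571626855) (nat_lit 684) (nat_lit 1535621236) (nat_lit 760) (nat_lit 5806877167) (nat_lit 316) (nat_lit 5) (nat_lit 325) (nat_lit 5) (nat_lit 326) (nat_lit 5) (nat_lit 575) (nat_lit 497) (nat_lit 488))) (XT.nd (nat_lit 78) (nat_lit 1368) (nat_lit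 0) (XT.lf (nat_lit 0) (nat_lit 5783039277) (nat_lit 760) (nat_lit 1050039109) (nat_lit 76) (nat_lit 1138417498) (nat_lit 316) (nat_lit 5) (nat_lit 326) (nat_lit 5) (nat_lit 317) (nat_lit 4) (nat_lit 576) (nat_lit 497) (nat_lit 487)) (XT.nd (nat_lit 78) (nat_lit 684) (nat_lit 0) (XT.lf (nat_lit 0) (nat_lit 1465753205) (nat_lit 684) (nat_lit 2690240776) (nat_lit 76) (nat_lit 3874167734) (nat_lit 307) (nat_lit 5) (nat_lit 316) (nat_lit 5) (nat_lit 308) (nat_lit 5) (nat_lit 577) (nat_lit 497) (nat_lit 486)) (XT.lf (nat_lit 0) (nat_lit 3737724848) (nat_lit 684) (nat_lit 1396037555) (nat_lit 760) (nat_lit 2956554029) (nat_lit 298) (nat_lit 5) (nat_lit 307) (nat_lit 5) (nat_lit 308) (nat_lit 5) (nat_lit 578) (nat_lit 497) (nat_lit 485))))) (XT.nd (nat_lit 156) (nat_lit 1292) (nat_lit 0) (XT.nd (nat_lit 78) (nat_lit 608) (nat_lit 0) (XT.lf (nat_lit 0) (nat_lit 694185923) (nat_lit 684) (nat_lit 6038181214) (nat_lit 76) (nat_lit 1419613880) (nat_lit 289) (nat_lit 5) (nat_lit 298) (nat_lit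 5) (nat_lit 290) (nat_lit 5) (nat_lit 579) (nat_lit 497) (nat_lit 484)) (XT.lf (nat_lit 0) (nat_lit 451444346) (nat_lit 608) (nat_lit 3908010910) (nat_lit 684) (nat_lit 3855415676) (nat_lit 281) (nat_lit 5) (nat_lit 289) (nat_lit 5) (nat_lit 290) (nat_lit 5) (nat_lit 580) (nat_lit 497) (nat_lit 483))) (XT.nd (nat_lit 78) (nat_lit 1292) (nat_lit 0) (XT.lf (nat_lit 0) (nat_lit 7073553082) (nat_lit 608) (nat_lit 1005156695) (nat_lit 684) (nat_lit 200700126) (nat_lit 281) (nat_lit 5) (nat_lit 289) (nat_lit 5) (nat_lit 290) (nat_lit 5) (nat_lit 581) (nat_lit 497) (nat_lit 482)) (XT.nd (nat_lit 78) (nat_lit 608) (nat_lit 0) (XT.lf (nat_lit 0) (nat_lit 3470155286) (nat_lit 684) (nat_lit 2905131715) (nat_lit 76) (nat_lit 1969713230) (nat_lit 272) (nat_lit 5) (nat_lit 281) (nat_lit 5) (nat_lit 273) (nat_lit 5) (nat_lit 582) (nat_lit 497) (nat_lit 481)) (XT.lf (nat_lit 0) (nat_lit 3785799183) (nat_lit 608) (nat_lit 3406792356) (nat_lit 684) (nat_lit 1219671846) (nat_lit 264) (nat_lit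 5) (nat_lit 272) (nat_lit 5) (nat_lit 273) (nat_lit 5) (nat_lit 583) (nat_lit 497) (nat_lit 480))))))) (XT.nd (nat_lit 780) (nat_lit 3952) (nat_lit 0) (XT.nd (nat_lit 390) (nat_lit 2052) (nat_lit 0) (XT.nd (nat_lit 156) (nat_lit 1216) (nat_lit 0) (XT.nd (nat_lit 78) (nat_lit 532) (nat_lit 0) (XT.lf (nat_lit 0) (nat_lit 2101404190) (nat_lit 532) (nat_lit 349284793) (nat_lit 608) (nat_lit 6030361763) (nat_lit 256) (nat_lit 5) (nat_lit 263) (nat_lit 5) (nat_lit 264) (nat_lit 5) (nat_lit 584) (nat_lit 497) (nat_lit 479)) (XT.lf (nat_lit 0) (nat_lit 374917545) (nat_lit 532) (nat_lit 5797102684) (nat_lit 608) (nat_lit 2379158805) (nat_lit 249) (nat_lit 5) (nat_lit 256) (nat_lit 5) (nat_lit 257) (nat_lit 5) (nat_lit 585) (nat_lit 497) (nat_lit 478))) (XT.nd (nat_lit 78) (nat_lit 1140) (nat_lit 0) (XT.lf (nat_lit 0) (nat_lit 1315284094) (nat_lit 608) (nat_lit 1362063416) (nat_lit 76) (nat_lit 5945434724) (nat_lit 248) (nat_lit 5) (nat_lit 256) (nat_lit 5) (nat_lit 249) (nat_lit 5)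 (nat_lit 586) (nat_lit 497) (nat_lit 477)) (XT.nd (nat_lit 78) (nat_lit 608) (nat_lit 0) (XT.lf (nat_lit 0) (nat_lit 5034991879) (nat_lit 608) (nat_lit 3132075256) (nat_lit 76) (nat_lit 528775244) (nat_lit 241) (nat_lit 5) (nat_lit 249) (nat_lit 5) (nat_lit 242) (nat_lit 5) (nat_lit 587) (nat_lit 497) (nat_lit 476)) (XT.lf (nat_lit 0) (nat_lit 53762325) (nat_lit 608) (nat_lit 4940793583) (nat_lit 76) (nat_lit 3775888046) (nat_lit 233) (nat_lit 5) (nat_lit 241) (nat_lit 5) (nat_lit 234) (nat_lit 5) (nat_lit 588) (nat_lit 497) (nat_lit 475))))) (XT.nd (nat_lit 156) (nat_lit 1064) (nat_lit 0) (XT.nd (nat_lit 78) (nat_lit 532) (nat_lit 0) (XT.lf (nat_lit 0) (nat_lit 2050406238) (nat_lit 456) (nat_lit 1722011772) (nat_lit 532) (nat_lit 5074064026) (nat_lit 227) (nat_lit 5) (nat_lit 233) (nat_lit 5) (nat_lit 234) (nat_lit 5) (nat_lit 589) (nat_lit 497) (nat_lit 474)) (XT.lf (nat_lit 0) (nat_lit 237948570) (nat_lit 532) (nat_lit 7317595458) (nat_lit 608) (nat_lit 1368698660) (nat_lit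 220) (nat_lit 5) (nat_lit 227) (nat_lit 5) (nat_lit 228) (nat_lit 5) (nat_lit 590) (nat_lit 497) (nat_lit 473))) (XT.nd (nat_lit 78) (nat_lit 988) (nat_lit 0) (XT.lf (nat_lit 0) (nat_lit 2381358715) (nat_lit 608) (nat_lit 1604928481) (nat_lit 76) (nat_lit 5016917869) (nat_lit 219) (nat_lit 5) (nat_lit 227) (nat_lit 5) (nat_lit 220) (nat_lit 5) (nat_lit 591) (nat_lit 497) (nat_lit 472)) (XT.nd (nat_lit 78) (nat_lit 532) (nat_lit 0) (XT.lf (nat_lit 0) (nat_lit 5604365603) (nat_lit 456) (nat_lit 566100834) (nat_lit 532) (nat_lit 2913455326) (nat_lit 213) (nat_lit 5) (nat_lit 219) (nat_lit 5) (nat_lit 220) (nat_lit 5) (nat_lit 592) (nat_lit 497) (nat_lit 471)) (XT.lf (nat_lit 0) (nat_lit 858339334) (nat_lit 532) (nat_lit 5406528796) (nat_lit 76) (nat_lit 2901262522) (nat_lit 206) (nat_lit 5) (nat_lit 213) (nat_lit 5) (nat_lit 207) (nat_lit 5) (nat_lit 593) (nat_lit 497) (nat_lit 470)))))) (XT.nd (nat_lit 390) (nat_lit 2052) (nat_lit 0) (XT.nd (nat_lit 156) (nat_lit 1444) (nat_lit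 0) (XT.nd (nat_lit 78) (nat_lit 0) (nat_lit 0) (XT.lf (nat_lit 0) (nat_lit 1863701554) (nat_lit 456) (nat_lit 2788807688) (nat_lit 532) (nat_lit 4597373641) (nat_lit 200) (nat_lit 5) (nat_lit 206) (nat_lit 5) (nat_lit 207) (nat_lit 5) (nat_lit 594) (nat_lit 497) (nat_lit 469)) (XT.lf (nat_lit 0) (nat_lit 8510932930) (nat_lit 532) (nat_lit 66229522) (nat_lit 76) (nat_lit 758383565) (nat_lit 200) (nat_lit 5) (nat_lit 207) (nat_lit 5) (nat_lit 201) (nat_lit 5) (nat_lit 595) (nat_lit 497) (nat_lit 468))) (XT.nd (nat_lit 78) (nat_lit 912) (nat_lit 0) (XT.lf (nat_lit 0) (nat_lit 2998539033) (nat_lit 532) (nat_lit 2041206376) (nat_lit 76) (nat_lit 4382495692) (nat_lit 193) (nat_lit 5) (nat_lit 200) (nat_lit 5) (nat_lit 194) (nat_lit 5) (nat_lit 596) (nat_lit 497) (nat_lit 467)) (XT.nd (nat_lit 78) (nat_lit 532) (nat_lit 0) (XT.lf (nat_lit 0) (nat_lit 5455825778) (nat_lit 380) (nat_lit 1415319446) (nat_lit 456) (nat_lit 2639738275) (nat_lit 188) (nat_lit 5) (nat_lit 193) (nat_lit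 5) (nat_lit 194) (nat_lit 5) (nat_lit 597) (nat_lit 497) (nat_lit 466)) (XT.lf (nat_lit 0) (nat_lit 1203609772) (nat_lit 532) (nat_lit 6127114259) (nat_lit 76) (nat_lit 2270425181) (nat_lit 181) (nat_lit 5) (nat_lit 188) (nat_lit 5) (nat_lit 182) (nat_lit 5) (nat_lit 598) (nat_lit 497) (nat_lit 465))))) (XT.nd (nat_lit 234) (nat_lit 1216) (nat_lit 0) (XT.nd (nat_lit 78) (nat_lit 456) (nat_lit 0) (XT.lf (nat_lit 0) (nat_lit 1429446823) (nat_lit 380) (nat_lit 3653775118) (nat_lit 456) (nat_lit 4609757359) (nat_lit 176) (nat_lit 5) (nat_lit 181) (nat_lit 5) (nat_lit 182) (nat_lit 5) (nat_lit 599) (nat_lit 497) (nat_lit 464)) (XT.nd (nat_lit 78) (nat_lit 456) (nat_lit 0) (XT.lf (nat_lit 0) (nat_lit 9031434269) (nat_lit 456) (nat_lit 645126529) (nat_lit 76) (nat_lit 110267879) (nat_lit 176) (nat_lit 5) (nat_lit 182) (nat_lit 5) (nat_lit 177) (nat_lit 5) (nat_lit 600) (nat_lit 497) (nat_lit 463)) (XT.lf (nat_lit 0) (nat_lit 3154935630) (nat_lit 456) (nat_lit 2785160394) (nat_lit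 76) (nat_lit 3941638643) (nat_lit 170) (nat_lit 5) (nat_lit 176) (nat_lit 5) (nat_lit 171) (nat_lit 5) (nat_lit 601) (nat_lit 497) (nat_lit 462)))) (XT.nd (nat_lit 78) (nat_lit 836) (nat_lit 0) (XT.lf (nat_lit 0) (nat_lit 5006822247) (nat_lit 380) (nat_lit 2113554743) (nat_lit 456) (nat_lit 2858324214) (nat_lit 165) (nat_lit 5) (nat_lit 170) (nat_lit 5) (nat_lit 171) (nat_lit 5) (nat_lit 602) (nat_lit 497) (nat_lit 461)) (XT.nd (nat_lit 78) (nat_lit 380) (nat_lit 0) (XT.lf (nat_lit 0) (nat_lit 1072721525) (nat_lit 456) (nat_lit 7221218871) (nat_lit 76) (nat_lit 1783538745) (nat_lit 159) (nat_lit 5) (nat_lit 165) (nat_lit 5) (nat_lit 160) (nat_lit 5) (nat_lit 603) (nat_lit 497) (nat_lit 460)) (XT.lf (nat_lit 0) (nat_lit 628216440) (nat_lit 380) (nat_lit 4418186009) (nat_lit 456) (nat_lit 5131409100) (nat_lit 154) (nat_lit 5) (nat_lit 159) (nat_lit 5) (nat_lit 160) (nat_lit 5) (nat_lit 604) (nat_lit 497) (nat_lit 459))))))))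
noncomputable def xc24 : XT := (XT.nd (nat_lit 1560) (nat_lit 304) (nat_lit 0) (XT.nd (nat_lit 780) (nat_lit 2356) (nat_lit 0) (XT.nd (nat_lit 390) (nat_lit 1368) (nat_lit 0) (XT.nd (nat_lit 156) (nat_lit 760) (nat_lit 0) (XT.nd (nat_lit 78) (nat_lit 456) (nat_lit 0) (XT.lf (nat_lit 0) (nat_lit 8655369468) (nat_lit 380) (nat_lit 443704285) (nat_lit 456) (nat_lit 1181088990) (nat_lit 154) (nat_lit 5) (nat_lit 159) (nat_lit 5) (nat_lit 160) (nat_lit 5) (nat_lit 605) (nat_lit 497) (nat_lit 458)) (XT.lf (nat_lit 0) (nat_lit 2828105318) (nat_lit 456) (nat_lit 3959685907) (nat_lit 76) (nat_lit 3596057805) (nat_lit 148) (nat_lit 5) (nat_lit 154) (nat_lit 5) (nat_lit 149) (nat_lit 5) (nat_lit 606) (nat_lit 497) (nat_lit 457))) (XT.nd (nat_lit 78) (nat_lit 456) (nat_lit 0) (XT.lf (nat_lit 0) (nat_lit 4133548068) (nat_lit 304) (nat_lit 2760858755) (nat_lit 380) (nat_lit 3595193653) (nat_lit 144) (nat_lit 5) (nat_lit 148) (nat_lit 5) (nat_lit 149) (nat_lit 5) (nat_lit 607) (nat_lit 497)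 (nat_lit 456)) (XT.nd (nat_lit 78) (nat_lit 0) (nat_lit 0) (XT.lf (nat_lit 0) (nat_lit 438031851) (nat_lit 456) (nat_lit 8817342792) (nat_lit 76) (nat_lit 1342050920) (nat_lit 138) (nat_lit 5) (nat_lit 144) (nat_lit 5) (nat_lit 139) (nat_lit 5) (nat_lit 608) (nat_lit 497) (nat_lit 455)) (XT.lf (nat_lit 0) (nat_lit 4517406088) (nat_lit 456) (nat_lit 660790044) (nat_lit 76) (nat_lit 5528465457) (nat_lit 138) (nat_lit 5) (nat_lit 144) (nat_lit 5) (nat_lit 139) (nat_lit 5) (nat_lit 609) (nat_lit 497) (nat_lit 454))))) (XT.nd (nat_lit 156) (nat_lit 684) (nat_lit 0) (XT.nd (nat_lit 78) (nat_lit 380) (nat_lit 0) (XT.lf (nat_lit 0) (nat_lit 7684223703) (nat_lit 304) (nat_lit 997329406) (nat_lit 380) (nat_lit 2136467676) (nat_lit 134) (nat_lit 5) (nat_lit 138) (nat_lit 5) (nat_lit 139) (nat_lit 5) (nat_lit 610) (nat_lit 497) (nat_lit 453)) (XT.lf (nat_lit 0) (nat_lit 1984535929) (nat_lit 380) (nat_lit 5698965796) (nat_lit 76) (nat_lit 3247581025) (nat_lit 129) (nat_lit 5) (nat_lit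 134) (nat_lit 5) (nat_lit 130) (nat_lit 5) (nat_lit 611) (nat_lit 497) (nat_lit 452))) (XT.nd (nat_lit 78) (nat_lit 380) (nat_lit 0) (XT.lf (nat_lit 0) (nat_lit 2700553636) (nat_lit 304) (nat_lit 3457785765) (nat_lit 380) (nat_lit 4887806404) (nat_lit 125) (nat_lit 5) (nat_lit 129) (nat_lit 5) (nat_lit 130) (nat_lit 5) (nat_lit 612) (nat_lit 497) (nat_lit 451)) (XT.nd (nat_lit 78) (nat_lit 76) (nat_lit 0) (XT.lf (nat_lit 0) (nat_lit 102073990) (nat_lit 304) (nat_lit 10312120638) (nat_lit 380) (nat_lit 749345971) (nat_lit 121) (nat_lit 5) (nat_lit 125) (nat_lit 5) (nat_lit 126) (nat_lit 5) (nat_lit 613) (nat_lit 497) (nat_lit 450)) (XT.lf (nat_lit 0) (nat_lit 3459613903) (nat_lit 380) (nat_lit 2572313998) (nat_lit 76) (nat_lit 5250241172) (nat_lit 120) (nat_lit 5) (nat_lit 125) (nat_lit 5) (nat_lit 121) (nat_lit 5) (nat_lit 614) (nat_lit 497) (nat_lit 449)))))) (XT.nd (nat_lit 390) (nat_lit 1064) (nat_lit 0) (XT.nd (nat_lit 156) (nat_lit 608) (nat_lit 0) (XT.nd (nat_lit 78)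 (nat_lit 380) (nat_lit 0) (XT.lf (nat_lit 0) (nat_lit 6086823151) (nat_lit 304) (nat_lit 1650318458) (nat_lit 380) (nat_lit 3666042875) (nat_lit 116) (nat_lit 5) (nat_lit 120) (nat_lit 5) (nat_lit 121) (nat_lit 5) (nat_lit 615) (nat_lit 497) (nat_lit 448)) (XT.lf (nat_lit 0) (nat_lit 578879366) (nat_lit 380) (nat_lit 8151422352) (nat_lit 76) (nat_lit 2795989754) (nat_lit 111) (nat_lit 5) (nat_lit 116) (nat_lit 5) (nat_lit 112) (nat_lit 5) (nat_lit 616) (nat_lit 497) (nat_lit 447))) (XT.nd (nat_lit 78) (nat_lit 380) (nat_lit 0) (XT.lf (nat_lit 0) (nat_lit 557729012) (nat_lit 228) (nat_lit 4307596544) (nat_lit 304) (nat_lit 6785937883) (nat_lit 108) (nat_lit 5) (nat_lit 111) (nat_lit 5) (nat_lit 112) (nat_lit 5) (nat_lit 617) (nat_lit 497) (nat_lit 446)) (XT.nd (nat_lit 78) (nat_lit 380) (nat_lit 0) (XT.lf (nat_lit 0) (nat_lit 9249289915) (nat_lit 304) (nat_lit 2302951249) (nat_lit 76) (nat_lit 226259631) (nat_lit 108) (nat_lit 5) (nat_lit 112) (nat_lit 5) (nat_lit 109) (nat_lit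 5) (nat_lit 618) (nat_lit 497) (nat_lit 445)) (XT.lf (nat_lit 0) (nat_lit 1817033353) (nat_lit 380) (nat_lit 5271278242) (nat_lit 76) (nat_lit 4819174473) (nat_lit 103) (nat_lit 5) (nat_lit 108) (nat_lit 5) (nat_lit 104) (nat_lit 5) (nat_lit 619) (nat_lit 497) (nat_lit 444))))) (XT.nd (nat_lit 156) (nat_lit 532) (nat_lit 0) (XT.nd (nat_lit 78) (nat_lit 304) (nat_lit 0) (XT.lf (nat_lit 0) (nat_lit 3704552165) (nat_lit 228) (nat_lit 2507797185) (nat_lit 304) (nat_lit 5826448708) (nat_lit 100) (nat_lit 5) (nat_lit 103) (nat_lit 5) (nat_lit 104) (nat_lit 5) (nat_lit 620) (nat_lit 497) (nat_lit 443)) (XT.lf (nat_lit 0) (nat_lit 679962661) (nat_lit 304) (nat_lit 10026240054) (nat_lit 380) (nat_lit 1466322553) (nat_lit 96) (nat_lit 5) (nat_lit 100) (nat_lit 5) (nat_lit 101) (nat_lit 5) (nat_lit 621) (nat_lit 497) (nat_lit 442))) (XT.nd (nat_lit 78) (nat_lit 456) (nat_lit 0) (XT.lf (nat_lit 0) (nat_lit 2971459703) (nat_lit 380) (nat_lit 2430796669) (nat_lit 76) (nat_lit 6905694097)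 (nat_lit 95) (nat_lit 5) (nat_lit 100) (nat_lit 5) (nat_lit 96) (nat_lit 5) (nat_lit 622) (nat_lit 497) (nat_lit 441)) (XT.nd (nat_lit 78) (nat_lit 228) (nat_lit 0) (XT.lf (nat_lit 0) (nat_lit 6819299299) (nat_lit 228) (nat_lit 660852648) (nat_lit 304) (nat_lit 4965704118) (nat_lit 92) (nat_lit 5) (nat_lit 95) (nat_lit 5) (nat_lit 96) (nat_lit 5) (nat_lit 623) (nat_lit 497) (nat_lit 440)) (XT.lf (nat_lit 0) (nat_lit 3648991084) (nat_lit 228) (nat_lit 8454912651) (nat_lit 304) (nat_lit 482119806) (nat_lit 89) (nat_lit 5) (nat_lit 92) (nat_lit 5) (nat_lit 93) (nat_lit 5) (nat_lit 624) (nat_lit 497) (nat_lit 439))))))) (XT.nd (nat_lit 77064) (nat_lit 0) (nat_lit 14212) (XT.nd (nat_lit 76674) (nat_lit 0) (nat_lit 20520) (XT.nd (nat_lit 76440) (nat_lit 0) (nat_lit 23864) (XT.nd (nat_lit 78) (nat_lit 0) (nat_lit 0) (XT.lf (nat_lit 0) (nat_lit 358709274) (nat_lit 228) (nat_lit 3681229488) (nat_lit 304) (nat_lit 8688476608) (nat_lit 85) (nat_lit 5) (nat_lit 88) (nat_lit 5) (nat_lit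 89) (nat_lit 5) (nat_lit 625) (nat_lit 497) (nat_lit 438)) (XT.lf (nat_lit 0) (nat_lit 8671977289) (nat_lit 304) (nat_lit 2995296907) (nat_lit 76) (nat_lit 1205798609) (nat_lit 85) (nat_lit 5) (nat_lit 89) (nat_lit 5) (nat_lit 86) (nat_lit 5) (nat_lit 626) (nat_lit 497) (nat_lit 437))) (XT.nd (nat_lit 78) (nat_lit 912) (nat_lit 0) (XT.lf (nat_lit 0) (nat_lit 736731201) (nat_lit 912) (nat_lit 2212381132) (nat_lit 0) (nat_lit 736731201) (nat_lit 411) (nat_lit 5) (nat_lit 423) (nat_lit 4) (nat_lit 411) (nat_lit 4) (nat_lit 564) (nat_lit 498) (nat_lit 498)) (XT.nd (nat_lit 78) (nat_lit 76) (nat_lit 0) (XT.lf (nat_lit 0) (nat_lit 1294838527) (nat_lit 836) (nat_lit 3827130695) (nat_lit 836) (nat_lit 2292907925) (nat_lit 400) (nat_lit 4) (nat_lit 411) (nat_lit 5) (nat_lit 411) (nat_lit 4) (nat_lit 565) (nat_lit 498) (nat_lit 497)) (XT.lf (nat_lit 0) (nat_lit 1327861056) (nat_lit 912) (nat_lit 356083406) (nat_lit 76) (nat_lit 5775583913) (nat_lit 399) (nat_lit 5) (nat_lit 411) (nat_lit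 5) (nat_lit 400) (nat_lit 4) (nat_lit 566) (nat_lit 498) (nat_lit 496))))) (XT.nd (nat_lit 156) (nat_lit 1596) (nat_lit 0) (XT.nd (nat_lit 78) (nat_lit 912) (nat_lit 0) (XT.lf (nat_lit 0) (nat_lit 4962605534) (nat_lit 912) (nat_lit 2004639650) (nat_lit 0) (nat_lit 538086151) (nat_lit 388) (nat_lit 5) (nat_lit 400) (nat_lit 4) (nat_lit 388) (nat_lit 4) (nat_lit 567) (nat_lit 498) (nat_lit 495)) (XT.lf (nat_lit 0) (nat_lit 1075683025) (nat_lit 912) (nat_lit 3669024359) (nat_lit 76) (nat_lit 2807757570) (nat_lit 376) (nat_lit 5) (nat_lit 388) (nat_lit 5) (nat_lit 377) (nat_lit 4) (nat_lit 568) (nat_lit 498) (nat_lit 494))) (XT.nd (nat_lit 78) (nat_lit 836) (nat_lit 0) (XT.lf (nat_lit 0) (nat_lit 2251782935) (nat_lit 760) (nat_lit 2442910053) (nat_lit 836) (nat_lit 2906273172) (nat_lit 366) (nat_lit 5) (nat_lit 376) (nat_lit 5) (nat_lit 377) (nat_lit 4) (nat_lit 569) (nat_lit 498) (nat_lit 493)) (XT.nd (nat_lit 78) (nat_lit 0) (nat_lit 0) (XT.lf (nat_lit 0) (nat_lit 616567109)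 (nat_lit 760) (nat_lit 72662760) (nat_lit 836) (nat_lit 6961853755) (nat_lit 355) (nat_lit 5) (nat_lit 365) (nat_lit 5) (nat_lit 366) (nat_lit 5) (nat_lit 570) (nat_lit 498) (nat_lit 492)) (XT.lf (nat_lit 0) (nat_lit 4304275843) (nat_lit 836) (nat_lit 1040143251) (nat_lit 76) (nat_lit 2357675459) (nat_lit 355) (nat_lit 5) (nat_lit 366) (nat_lit 5) (nat_lit 356) (nat_lit 4) (nat_lit 571) (nat_lit 498) (nat_lit 491)))))) (XT.nd (nat_lit 390) (nat_lit 3344) (nat_lit 0) (XT.nd (nat_lit 156) (nat_lit 1444) (nat_lit 0) (XT.nd (nat_lit 78) (nat_lit 760) (nat_lit 0) (XT.lf (nat_lit 0) (nat_lit 203956961) (nat_lit 760) (nat_lit 2692592062) (nat_lit 76) (nat_lit 4858160378) (nat_lit 345) (nat_lit 5) (nat_lit 355) (nat_lit 5) (nat_lit 346) (nat_lit 5) (nat_lit 572) (nat_lit 498) (nat_lit 490)) (XT.lf (nat_lit 0) (nat_lit 3437924741) (nat_lit 760) (nat_lit 360491567) (nat_lit 836) (nat_lit 4010194066) (nat_lit 335) (nat_lit 5) (nat_lit 345) (nat_lit 5) (nat_lit 346) (nat_lit 5) (nat_lit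 573) (nat_lit 498) (nat_lit 489))) (XT.nd (nat_lit 78) (nat_lit 760) (nat_lit 0) (XT.lf (nat_lit 0) (nat_lit 1795738716) (nat_lit 684) (nat_lit 5650737033) (nat_lit 760) (nat_lit 417485200) (nat_lit 326) (nat_lit 5) (nat_lit 335) (nat_lit 5) (nat_lit 336) (nat_lit 4) (nat_lit 574) (nat_lit 498) (nat_lit 488)) (XT.nd (nat_lit 78) (nat_lit 0) (nat_lit 0) (XT.lf (nat_lit 0) (nat_lit 124996800) (nat_lit 684) (nat_lit 3049938371) (nat_lit 760) (nat_lit 4745658432) (nat_lit 316) (nat_lit 5) (nat_lit 325) (nat_lit 5) (nat_lit 326) (nat_lit 5) (nat_lit 575) (nat_lit 498) (nat_lit 487)) (XT.lf (nat_lit 0) (nat_lit 6444163239) (nat_lit 684) (nat_lit 368597981) (nat_lit 760) (nat_lit 1165965017) (nat_lit 316) (nat_lit 5) (nat_lit 325) (nat_lit 5) (nat_lit 326) (nat_lit 5) (nat_lit 576) (nat_lit 498) (nat_lit 486))))) (XT.nd (nat_lit 234) (nat_lit 1292) (nat_lit 0) (XT.nd (nat_lit 78) (nat_lit 1368) (nat_lit 0) (XT.lf (nat_lit 0) (nat_lit 2438851725) (nat_lit 684) (nat_lit 3231737161)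 (nat_lit 76) (nat_lit 2367392668) (nat_lit 307) (nat_lit 5) (nat_lit 316) (nat_lit 5) (nat_lit 308) (nat_lit 5) (nat_lit 577) (nat_lit 498) (nat_lit 485)) (XT.nd (nat_lit 78) (nat_lit 684) (nat_lit 0) (XT.lf (nat_lit 0) (nat_lit 3150274016) (nat_lit 684) (nat_lit 2922987532) (nat_lit 760) (nat_lit 2025549260) (nat_lit 298) (nat_lit 5) (nat_lit 307) (nat_lit 5) (nat_lit 308) (nat_lit 5) (nat_lit 578) (nat_lit 498) (nat_lit 484)) (XT.lf (nat_lit 0) (nat_lit 1474431173) (nat_lit 608) (nat_lit 95351174) (nat_lit 684) (nat_lit 6591438565) (nat_lit 289) (nat_lit 5) (nat_lit 297) (nat_lit 5) (nat_lit 298) (nat_lit 5) (nat_lit 579) (nat_lit 498) (nat_lit 483)))) (XT.nd (nat_lit 78) (nat_lit 1292) (nat_lit 0) (XT.lf (nat_lit 0) (nat_lit 5202132401) (nat_lit 684) (nat_lit 241139282) (nat_lit 76) (nat_lit 2781499933) (nat_lit 289) (nat_lit 5) (nat_lit 298) (nat_lit 5) (nat_lit 290) (nat_lit 5) (nat_lit 580) (nat_lit 498) (nat_lit 482)) (XT.nd (nat_lit 78) (nat_lit 608) (nat_lit 0) (XT.lf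 (nat_lit 0) (nat_lit 592952232) (nat_lit 684) (nat_lit 1954480672) (nat_lit 76) (nat_lit 5742414603) (nat_lit 280) (nat_lit 5) (nat_lit 289) (nat_lit 5) (nat_lit 281) (nat_lit 5) (nat_lit 581) (nat_lit 498) (nat_lit 481)) (XT.lf (nat_lit 0) (nat_lit 4217227185) (nat_lit 684) (nat_lit 3704569946) (nat_lit 76) (nat_lit 434495871) (nat_lit 272) (nat_lit 5) (nat_lit 281) (nat_lit 5) (nat_lit 273) (nat_lit 5) (nat_lit 582) (nat_lit 498) (nat_lit 480))))))))
noncomputable def xc25 : XT := (XT.nd (nat_lit 1560) (nat_lit 5548) (nat_lit 0) (XT.nd (nat_lit 780) (nat_lit 3648) (nat_lit 0) (XT.nd (nat_lit 390) (nat_lit 2128) (nat_lit 0) (XT.nd (nat_lit 156) (nat_lit 1140) (nat_lit 0) (XT.nd (nat_lit 78) (nat_lit 608) (nat_lit 0) (XT.lf (nat_lit 0) (nat_lit 2936921418) (nat_lit 608) (nat_lit 4968821731) (nat_lit 684) (nat_lit 518493634) (nat_lit 264) (nat_lit 5) (nat_lit 272) (nat_lit 5) (nat_lit 273) (nat_lit 5) (nat_lit 583) (nat_lit 498) (nat_lit 479)) (XT.lf (nat_lit 0) (nat_lit 1185556620)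 (nat_lit 532) (nat_lit 1922881124) (nat_lit 608) (nat_lit 5385182151) (nat_lit 256) (nat_lit 5) (nat_lit 263) (nat_lit 5) (nat_lit 264) (nat_lit 5) (nat_lit 584) (nat_lit 498) (nat_lit 478))) (XT.nd (nat_lit 78) (nat_lit 1140) (nat_lit 0) (XT.lf (nat_lit 0) (nat_lit 6789071405) (nat_lit 608) (nat_lit 586874475) (nat_lit 76) (nat_lit 1188618347) (nat_lit 256) (nat_lit 5) (nat_lit 264) (nat_lit 5) (nat_lit 257) (nat_lit 5) (nat_lit 585) (nat_lit 498) (nat_lit 477)) (XT.nd (nat_lit 78) (nat_lit 532) (nat_lit 0) (XT.lf (nat_lit 0) (nat_lit 1879214468) (nat_lit 608) (nat_lit 2387804726) (nat_lit 76) (nat_lit 4369708226) (nat_lit 248) (nat_lit 5) (nat_lit 256) (nat_lit 5) (nat_lit 249) (nat_lit 5) (nat_lit 586) (nat_lit 498) (nat_lit 476)) (XT.lf (nat_lit 0) (nat_lit 4489404043) (nat_lit 532) (nat_lit 1071656758) (nat_lit 608) (nat_lit 3149485963) (nat_lit 241) (nat_lit 5) (nat_lit 248) (nat_lit 5) (nat_lit 249) (nat_lit 5) (nat_lit 587) (nat_lit 498) (nat_lit 475))))) (XT.nd (nat_lit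 156) (nat_lit 1064) (nat_lit 0) (XT.nd (nat_lit 78) (nat_lit 456) (nat_lit 0) (XT.lf (nat_lit 0) (nat_lit 516652874) (nat_lit 608) (nat_lit 6094630977) (nat_lit 76) (nat_lit 2174635327) (nat_lit 233) (nat_lit 5) (nat_lit 241) (nat_lit 5) (nat_lit 234) (nat_lit 5) (nat_lit 588) (nat_lit 498) (nat_lit 474)) (XT.lf (nat_lit 0) (nat_lit 842358065) (nat_lit 456) (nat_lit 3358051088) (nat_lit 532) (nat_lit 4662247954) (nat_lit 227) (nat_lit 5) (nat_lit 233) (nat_lit 5) (nat_lit 234) (nat_lit 5) (nat_lit 589) (nat_lit 498) (nat_lit 473))) (XT.nd (nat_lit 78) (nat_lit 1064) (nat_lit 0) (XT.lf (nat_lit 0) (nat_lit 7923709732) (nat_lit 456) (nat_lit 20947723) (nat_lit 532) (nat_lit 996539680) (nat_lit 227) (nat_lit 5) (nat_lit 233) (nat_lit 5) (nat_lit 234) (nat_lit 5) (nat_lit 590) (nat_lit 498) (nat_lit 472)) (XT.nd (nat_lit 78) (nat_lit 456) (nat_lit 0) (XT.lf (nat_lit 0) (nat_lit 2715015739) (nat_lit 608) (nat_lit 2931892252) (nat_lit 76) (nat_lit 3373877366) (nat_lit 219) (nat_lit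 5) (nat_lit 227) (nat_lit 5) (nat_lit 220) (nat_lit 5) (nat_lit 591) (nat_lit 498) (nat_lit 471)) (XT.lf (nat_lit 0) (nat_lit 4221340033) (nat_lit 456) (nat_lit 2247581663) (nat_lit 532) (nat_lit 2633286111) (nat_lit 213) (nat_lit 5) (nat_lit 219) (nat_lit 5) (nat_lit 220) (nat_lit 5) (nat_lit 592) (nat_lit 498) (nat_lit 470)))))) (XT.nd (nat_lit 390) (nat_lit 1748) (nat_lit 0) (XT.nd (nat_lit 156) (nat_lit 912) (nat_lit 0) (XT.nd (nat_lit 78) (nat_lit 456) (nat_lit 0) (XT.lf (nat_lit 0) (nat_lit 1088181318) (nat_lit 532) (nat_lit 6874752342) (nat_lit 76) (nat_lit 1222381360) (nat_lit 206) (nat_lit 5) (nat_lit 213) (nat_lit 5) (nat_lit 207) (nat_lit 5) (nat_lit 593) (nat_lit 498) (nat_lit 469)) (XT.lf (nat_lit 0) (nat_lit 337244415) (nat_lit 456) (nat_lit 4509259506) (nat_lit 532) (nat_lit 4423281893) (nat_lit 200) (nat_lit 5) (nat_lit 206) (nat_lit 5) (nat_lit 207) (nat_lit 5) (nat_lit 594) (nat_lit 498) (nat_lit 468))) (XT.nd (nat_lit 78) (nat_lit 912) (nat_lit 0) (XT.lf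 (nat_lit 0) (nat_lit 7709986083) (nat_lit 456) (nat_lit 964277710) (nat_lit 532) (nat_lit 681800017) (nat_lit 200) (nat_lit 5) (nat_lit 206) (nat_lit 5) (nat_lit 207) (nat_lit 5) (nat_lit 595) (nat_lit 498) (nat_lit 467)) (XT.nd (nat_lit 78) (nat_lit 380) (nat_lit 0) (XT.lf (nat_lit 0) (nat_lit 3097088485) (nat_lit 532) (nat_lit 3695861007) (nat_lit 76) (nat_lit 2650640194) (nat_lit 193) (nat_lit 5) (nat_lit 200) (nat_lit 5) (nat_lit 194) (nat_lit 5) (nat_lit 596) (nat_lit 498) (nat_lit 466)) (XT.lf (nat_lit 0) (nat_lit 3740947136) (nat_lit 380) (nat_lit 3192449394) (nat_lit 456) (nat_lit 2599563012) (nat_lit 188) (nat_lit 5) (nat_lit 193) (nat_lit 5) (nat_lit 194) (nat_lit 5) (nat_lit 597) (nat_lit 498) (nat_lit 465))))) (XT.nd (nat_lit 156) (nat_lit 1216) (nat_lit 0) (XT.nd (nat_lit 78) (nat_lit 0) (nat_lit 0) (XT.lf (nat_lit 0) (nat_lit 1194803218) (nat_lit 532) (nat_lit 7936849439) (nat_lit 76) (nat_lit 492537914) (nat_lit 181) (nat_lit 5) (nat_lit 188) (nat_lit 5) (nat_lit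 182) (nat_lit 5) (nat_lit 598) (nat_lit 498) (nat_lit 464)) (XT.lf (nat_lit 0) (nat_lit 5040219185) (nat_lit 532) (nat_lit 437021918) (nat_lit 76) (nat_lit 4239464889) (nat_lit 181) (nat_lit 5) (nat_lit 188) (nat_lit 5) (nat_lit 182) (nat_lit 5) (nat_lit 599) (nat_lit 498) (nat_lit 463))) (XT.nd (nat_lit 78) (nat_lit 836) (nat_lit 0) (XT.lf (nat_lit 0) (nat_lit 7232429369) (nat_lit 380) (nat_lit 1727729791) (nat_lit 456) (nat_lit 850963036) (nat_lit 176) (nat_lit 5) (nat_lit 181) (nat_lit 5) (nat_lit 182) (nat_lit 5) (nat_lit 600) (nat_lit 498) (nat_lit 462)) (XT.nd (nat_lit 78) (nat_lit 380) (nat_lit 0) (XT.lf (nat_lit 0) (nat_lit 3011916857) (nat_lit 456) (nat_lit 4795272956) (nat_lit 76) (nat_lit 2099826180) (nat_lit 170) (nat_lit 5) (nat_lit 176) (nat_lit 5) (nat_lit 171) (nat_lit 5) (nat_lit 601) (nat_lit 498) (nat_lit 461)) (XT.lf (nat_lit 0) (nat_lit 2932023269) (nat_lit 380) (nat_lit 4007667014) (nat_lit 456) (nat_lit 3065046907) (nat_lit 165) (nat_lit 5) (nat_lit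 170) (nat_lit 5) (nat_lit 171) (nat_lit 5) (nat_lit 602) (nat_lit 498) (nat_lit 460))))))) (XT.nd (nat_lit 780) (nat_lit 2812) (nat_lit 0) (XT.nd (nat_lit 390) (nat_lit 1140) (nat_lit 0) (XT.nd (nat_lit 156) (nat_lit 1140) (nat_lit 0) (XT.nd (nat_lit 78) (nat_lit 0) (nat_lit 0) (XT.lf (nat_lit 0) (nat_lit 702785437) (nat_lit 380) (nat_lit 116007112) (nat_lit 456) (nat_lit 9285749023) (nat_lit 159) (nat_lit 5) (nat_lit 164) (nat_lit 5) (nat_lit 165) (nat_lit 5) (nat_lit 603) (nat_lit 498) (nat_lit 459)) (XT.lf (nat_lit 0) (nat_lit 4763661051) (nat_lit 456) (nat_lit 1597502141) (nat_lit 76) (nat_lit 3844288259) (nat_lit 159) (nat_lit 5) (nat_lit 165) (nat_lit 5) (nat_lit 160) (nat_lit 5) (nat_lit 604) (nat_lit 498) (nat_lit 458))) (XT.nd (nat_lit 78) (nat_lit 760) (nat_lit 0) (XT.lf (nat_lit 0) (nat_lit 6370973578) (nat_lit 380) (nat_lit 2411095539) (nat_lit 456) (nat_lit 1526419997) (nat_lit 154) (nat_lit 5) (nat_lit 159) (nat_lit 5) (nat_lit 160) (nat_lit 5) (nat_lit 605)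 (nat_lit 498) (nat_lit 457)) (XT.nd (nat_lit 78) (nat_lit 304) (nat_lit 0) (XT.lf (nat_lit 0) (nat_lit 2435437357) (nat_lit 456) (nat_lit 6354560137) (nat_lit 76) (nat_lit 1623261225) (nat_lit 148) (nat_lit 5) (nat_lit 154) (nat_lit 5) (nat_lit 149) (nat_lit 5) (nat_lit 606) (nat_lit 498) (nat_lit 456)) (XT.lf (nat_lit 0) (nat_lit 1669193659) (nat_lit 304) (nat_lit 4793234800) (nat_lit 380) (nat_lit 4057369046) (nat_lit 144) (nat_lit 5) (nat_lit 148) (nat_lit 5) (nat_lit 149) (nat_lit 5) (nat_lit 607) (nat_lit 498) (nat_lit 455))))) (XT.nd (nat_lit 156) (nat_lit 684) (nat_lit 0) (XT.nd (nat_lit 78) (nat_lit 456) (nat_lit 0) (XT.lf (nat_lit 0) (nat_lit 9864991451) (nat_lit 304) (nat_lit 700962931) (nat_lit 380) (nat_lit 62595027) (nat_lit 144) (nat_lit 5) (nat_lit 148) (nat_lit 5) (nat_lit 149) (nat_lit 5) (nat_lit 608) (nat_lit 498) (nat_lit 454)) (XT.lf (nat_lit 0) (nat_lit 3984870690) (nat_lit 456) (nat_lit 3278163080) (nat_lit 76) (nat_lit 3475415448) (nat_lit 138) (nat_lit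 5) (nat_lit 144) (nat_lit 5) (nat_lit 139) (nat_lit 5) (nat_lit 609) (nat_lit 498) (nat_lit 453))) (XT.nd (nat_lit 78) (nat_lit 380) (nat_lit 0) (XT.lf (nat_lit 0) (nat_lit 4994961390) (nat_lit 304) (nat_lit 3113927541) (nat_lit 380) (nat_lit 2741723105) (nat_lit 134) (nat_lit 5) (nat_lit 138) (nat_lit 5) (nat_lit 139) (nat_lit 5) (nat_lit 610) (nat_lit 498) (nat_lit 452)) (XT.nd (nat_lit 78) (nat_lit 0) (nat_lit 0) (XT.lf (nat_lit 0) (nat_lit 1332506617) (nat_lit 380) (nat_lit 8509682296) (nat_lit 76) (nat_lit 1122658928) (nat_lit 129) (nat_lit 5) (nat_lit 134) (nat_lit 5) (nat_lit 130) (nat_lit 5) (nat_lit 611) (nat_lit 498) (nat_lit 451)) (XT.lf (nat_lit 0) (nat_lit 5466282150) (nat_lit 380) (nat_lit 182377396) (nat_lit 76) (nat_lit 5432052895) (nat_lit 129) (nat_lit 5) (nat_lit 134) (nat_lit 5) (nat_lit 130) (nat_lit 5) (nat_lit 612) (nat_lit 498) (nat_lit 450)))))) (XT.nd (nat_lit 390) (nat_lit 1444) (nat_lit 0) (XT.nd (nat_lit 156) (nat_lit 684) (nat_lit 0) (XT.nd (nat_lit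 78) (nat_lit 380) (nat_lit 0) (XT.lf (nat_lit 0) (nat_lit 8348089217) (nat_lit 304) (nat_lit 1344298062) (nat_lit 380) (nat_lit 1506315923) (nat_lit 125) (nat_lit 5) (nat_lit 129) (nat_lit 5) (nat_lit 130) (nat_lit 5) (nat_lit 613) (nat_lit 498) (nat_lit 449)) (XT.lf (nat_lit 0) (nat_lit 2662635387) (nat_lit 380) (nat_lit 5621619029) (nat_lit 76) (nat_lit 3034175211) (nat_lit 120) (nat_lit 5) (nat_lit 125) (nat_lit 5) (nat_lit 121) (nat_lit 5) (nat_lit 614) (nat_lit 498) (nat_lit 448))) (XT.nd (nat_lit 78) (nat_lit 380) (nat_lit 0) (XT.lf (nat_lit 0) (nat_lit 2960274404) (nat_lit 304) (nat_lit 3937696856) (nat_lit 380) (nat_lit 4542318525) (nat_lit 116) (nat_lit 5) (nat_lit 120) (nat_lit 5) (nat_lit 121) (nat_lit 5) (nat_lit 615) (nat_lit 498) (nat_lit 447)) (XT.nd (nat_lit 78) (nat_lit 76) (nat_lit 0) (XT.lf (nat_lit 0) (nat_lit 151279920) (nat_lit 304) (nat_lit 11064894114) (nat_lit 380) (nat_lit 348451713) (nat_lit 112) (nat_lit 5) (nat_lit 116) (nat_lit 5) (nat_lit 117)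 (nat_lit 5) (nat_lit 616) (nat_lit 498) (nat_lit 446)) (XT.lf (nat_lit 0) (nat_lit 3917202743) (nat_lit 380) (nat_lit 2745639501) (nat_lit 76) (nat_lit 5027308811) (nat_lit 111) (nat_lit 5) (nat_lit 116) (nat_lit 5) (nat_lit 112) (nat_lit 5) (nat_lit 617) (nat_lit 498) (nat_lit 445))))) (XT.nd (nat_lit 234) (nat_lit 608) (nat_lit 0) (XT.nd (nat_lit 78) (nat_lit 608) (nat_lit 0) (XT.lf (nat_lit 0) (nat_lit 6101057973) (nat_lit 228) (nat_lit 2159008120) (nat_lit 304) (nat_lit 3558145180) (nat_lit 108) (nat_lit 5) (nat_lit 111) (nat_lit 5) (nat_lit 112) (nat_lit 5) (nat_lit 618) (nat_lit 498) (nat_lit 444)) (XT.nd (nat_lit 78) (nat_lit 228) (nat_lit 0) (XT.lf (nat_lit 0) (nat_lit 743367659) (nat_lit 380) (nat_lit 8786704009) (nat_lit 76) (nat_lit 2418423818) (nat_lit 103) (nat_lit 5) (nat_lit 108) (nat_lit 5) (nat_lit 104) (nat_lit 5) (nat_lit 619) (nat_lit 498) (nat_lit 443)) (XT.lf (nat_lit 0) (nat_lit 106110580) (nat_lit 228) (nat_lit 4988035362) (nat_lit 304) (nat_lit 6986553081)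 (nat_lit 100) (nat_lit 5) (nat_lit 103) (nat_lit 5) (nat_lit 104) (nat_lit 5) (nat_lit 620) (nat_lit 498) (nat_lit 442)))) (XT.nd (nat_lit 78) (nat_lit 608) (nat_lit 0) (XT.lf (nat_lit 0) (nat_lit 9224003945) (nat_lit 228) (nat_lit 324499228) (nat_lit 304) (nat_lit 2666713760) (nat_lit 100) (nat_lit 5) (nat_lit 103) (nat_lit 5) (nat_lit 104) (nat_lit 5) (nat_lit 621) (nat_lit 498) (nat_lit 441)) (XT.nd (nat_lit 78) (nat_lit 228) (nat_lit 0) (XT.lf (nat_lit 0) (nat_lit 1743853361) (nat_lit 380) (nat_lit 6210734168) (nat_lit 76) (nat_lit 4397070396) (nat_lit 95) (nat_lit 5) (nat_lit 100) (nat_lit 5) (nat_lit 96) (nat_lit 5) (nat_lit 622) (nat_lit 498) (nat_lit 440)) (XT.lf (nat_lit 0) (nat_lit 2953409090) (nat_lit 228) (nat_lit 3253406925) (nat_lit 304) (nat_lit 6283662832) (nat_lit 92) (nat_lit 5) (nat_lit 95) (nat_lit 5) (nat_lit 96) (nat_lit 5) (nat_lit 623) (nat_lit 498) (nat_lit 439))))))))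
noncomputable def xc26 : XT := (XT.nd (nat_lit 77688) (nat_lit 0) (nat_lit 7296) (XT.nd (nat_lit 76908) (nat_lit 0) (nat_lit 16188) (XT.nd (nat_lit 76518) (nat_lit 0) (nat_lit 22116) (XT.nd (nat_lit 156) (nat_lit 228) (nat_lit 0) (XT.nd (nat_lit 78) (nat_lit 304) (nat_lit 0) (XT.lf (nat_lit 0) (nat_lit 10769496446) (nat_lit 304) (nat_lit 327880642) (nat_lit 76) (nat_lit 1534491380) (nat_lit 92) (nat_lit 5) (nat_lit 96) (nat_lit 5) (nat_lit 93) (nat_lit 5) (nat_lit 624) (nat_lit 498) (nat_lit 438)) (XT.lf (nat_lit 0) (nat_lit 2652780695) (nat_lit 304) (nat_lit 3699511530) (nat_lit 76) (nat_lit 6422648154) (nat_lit 88) (nat_lit 5) (nat_lit 92) (nat_lit 5) (nat_lit 89) (nat_lit 5) (nat_lit 625) (nat_lit 498) (nat_lit 437))) (XT.nd (nat_lit 76206) (nat_lit 0) (nat_lit 25688) (XT.lf (nat_lit 0) (nat_lit 5743339896) (nat_lit 228) (nat_lit 1488873761) (nat_lit 304) (nat_lit 5688436945) (nat_lit 85) (nat_lit 5) (nat_lit 88) (nat_lit 5) (nat_lit 89) (nat_lit 5) (nat_lit 626) (nat_lit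 498) (nat_lit 436)) (XT.nd (nat_lit 78) (nat_lit 912) (nat_lit 0) (XT.lf (nat_lit 0) (nat_lit 1563207320) (nat_lit 988) (nat_lit 517860926) (nat_lit 0) (nat_lit 1563207320) (nat_lit 435) (nat_lit 5) (nat_lit 448) (nat_lit 4) (nat_lit 435) (nat_lit 4) (nat_lit 562) (nat_lit 499) (nat_lit 499)) (XT.lf (nat_lit 0) (nat_lit 4587494967) (nat_lit 912) (nat_lit 2169263042) (nat_lit 912) (nat_lit 573057672) (nat_lit 423) (nat_lit 4) (nat_lit 435) (nat_lit 5) (nat_lit 435) (nat_lit 4) (nat_lit 563) (nat_lit 499) (nat_lit 498))))) (XT.nd (nat_lit 156) (nat_lit 1824) (nat_lit 0) (XT.nd (nat_lit 78) (nat_lit 836) (nat_lit 0) (XT.lf (nat_lit 0) (nat_lit 2908873854) (nat_lit 836) (nat_lit 96069932) (nat_lit 912) (nat_lit 4367415515) (nat_lit 411) (nat_lit 5) (nat_lit 422) (nat_lit 5) (nat_lit 423) (nat_lit 4) (nat_lit 564) (nat_lit 499) (nat_lit 497)) (XT.lf (nat_lit 0) (nat_lit 1218383992) (nat_lit 836) (nat_lit 5400564519) (nat_lit 836) (nat_lit 797294553) (nat_lit 400) (nat_lit 4) (nat_lit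 411) (nat_lit 5) (nat_lit 411) (nat_lit 4) (nat_lit 565) (nat_lit 499) (nat_lit 496))) (XT.nd (nat_lit 78) (nat_lit 1748) (nat_lit 0) (XT.lf (nat_lit 0) (nat_lit 2770669006) (nat_lit 912) (nat_lit 481165601) (nat_lit 76) (nat_lit 4209532780) (nat_lit 399) (nat_lit 5) (nat_lit 411) (nat_lit 5) (nat_lit 400) (nat_lit 4) (nat_lit 566) (nat_lit 499) (nat_lit 495)) (XT.nd (nat_lit 78) (nat_lit 912) (nat_lit 0) (XT.lf (nat_lit 0) (nat_lit 5340253874) (nat_lit 836) (nat_lit 1028015061) (nat_lit 912) (nat_lit 1139647735) (nat_lit 388) (nat_lit 5) (nat_lit 399) (nat_lit 5) (nat_lit 400) (nat_lit 4) (nat_lit 567) (nat_lit 499) (nat_lit 494)) (XT.lf (nat_lit 0) (nat_lit 2419975038) (nat_lit 912) (nat_lit 3877370093) (nat_lit 76) (nat_lit 1258333951) (nat_lit 376) (nat_lit 5) (nat_lit 388) (nat_lit 5) (nat_lit 377) (nat_lit 4) (nat_lit 568) (nat_lit 499) (nat_lit 493)))))) (XT.nd (nat_lit 390) (nat_lit 2812) (nat_lit 0) (XT.nd (nat_lit 156) (nat_lit 1520) (nat_lit 0) (XT.nd (nat_lit 78)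 (nat_lit 836) (nat_lit 0) (XT.lf (nat_lit 0) (nat_lit 2002797938) (nat_lit 760) (nat_lit 4002580043) (nat_lit 836) (nat_lit 1599477682) (nat_lit 366) (nat_lit 5) (nat_lit 376) (nat_lit 5) (nat_lit 377) (nat_lit 4) (nat_lit 569) (nat_lit 499) (nat_lit 492)) (XT.lf (nat_lit 0) (nat_lit 313681795) (nat_lit 760) (nat_lit 1631421504) (nat_lit 836) (nat_lit 5710378911) (nat_lit 355) (nat_lit 5) (nat_lit 365) (nat_lit 5) (nat_lit 366) (nat_lit 5) (nat_lit 570) (nat_lit 499) (nat_lit 491))) (XT.nd (nat_lit 78) (nat_lit 1520) (nat_lit 0) (XT.lf (nat_lit 0) (nat_lit 5518555622) (nat_lit 836) (nat_lit 1375207050) (nat_lit 76) (nat_lit 813565387) (nat_lit 355) (nat_lit 5) (nat_lit 366) (nat_lit 5) (nat_lit 356) (nat_lit 4) (nat_lit 571) (nat_lit 499) (nat_lit 490)) (XT.nd (nat_lit 78) (nat_lit 760) (nat_lit 0) (XT.lf (nat_lit 0) (nat_lit 1363618004) (nat_lit 760) (nat_lit 3083291675) (nat_lit 76) (nat_lit 3313549727) (nat_lit 345) (nat_lit 5) (nat_lit 355) (nat_lit 5) (nat_lit 346) (nat_lit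 5) (nat_lit 572) (nat_lit 499) (nat_lit 489)) (XT.lf (nat_lit 0) (nat_lit 3004213330) (nat_lit 760) (nat_lit 1920352585) (nat_lit 836) (nat_lit 2890467564) (nat_lit 335) (nat_lit 5) (nat_lit 345) (nat_lit 5) (nat_lit 346) (nat_lit 5) (nat_lit 573) (nat_lit 499) (nat_lit 488))))) (XT.nd (nat_lit 156) (nat_lit 2052) (nat_lit 0) (XT.nd (nat_lit 78) (nat_lit 0) (nat_lit 0) (XT.lf (nat_lit 0) (nat_lit 649157432) (nat_lit 760) (nat_lit 6553656036) (nat_lit 76) (nat_lit 668359636) (nat_lit 325) (nat_lit 5) (nat_lit 335) (nat_lit 5) (nat_lit 326) (nat_lit 5) (nat_lit 574) (nat_lit 499) (nat_lit 487)) (XT.lf (nat_lit 0) (nat_lit 4205063990) (nat_lit 760) (nat_lit 402587460) (nat_lit 76) (nat_lit 3320723571) (nat_lit 325) (nat_lit 5) (nat_lit 335) (nat_lit 5) (nat_lit 326) (nat_lit 5) (nat_lit 575) (nat_lit 499) (nat_lit 486))) (XT.nd (nat_lit 78) (nat_lit 1368) (nat_lit 0) (XT.lf (nat_lit 0) (nat_lit 5873676978) (nat_lit 684) (nat_lit 1936686472) (nat_lit 760) (nat_lit 176797390) (nat_lit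 316) (nat_lit 5) (nat_lit 325) (nat_lit 5) (nat_lit 326) (nat_lit 5) (nat_lit 576) (nat_lit 499) (nat_lit 485)) (XT.nd (nat_lit 78) (nat_lit 684) (nat_lit 0) (XT.lf (nat_lit 0) (nat_lit 3371246002) (nat_lit 684) (nat_lit 3861328318) (nat_lit 76) (nat_lit 814591946) (nat_lit 307) (nat_lit 5) (nat_lit 316) (nat_lit 5) (nat_lit 308) (nat_lit 5) (nat_lit 577) (nat_lit 499) (nat_lit 484)) (XT.lf (nat_lit 0) (nat_lit 2474317645) (nat_lit 684) (nat_lit 4497748193) (nat_lit 760) (nat_lit 1136603983) (nat_lit 298) (nat_lit 5) (nat_lit 307) (nat_lit 5) (nat_lit 308) (nat_lit 5) (nat_lit 578) (nat_lit 499) (nat_lit 483))))))) (XT.nd (nat_lit 780) (nat_lit 3952) (nat_lit 0) (XT.nd (nat_lit 390) (nat_lit 2280) (nat_lit 0) (XT.nd (nat_lit 156) (nat_lit 1976) (nat_lit 0) (XT.nd (nat_lit 78) (nat_lit 0) (nat_lit 0) (XT.lf (nat_lit 0) (nat_lit 735511234) (nat_lit 608) (nat_lit 1677696011) (nat_lit 684) (nat_lit 5758436885) (nat_lit 289) (nat_lit 5) (nat_lit 297) (nat_lit 5) (nat_lit 298) (nat_lit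 5) (nat_lit 579) (nat_lit 499) (nat_lit 482)) (XT.lf (nat_lit 0) (nat_lit 6006490412) (nat_lit 684) (nat_lit 1018123916) (nat_lit 76) (nat_lit 1211364199) (nat_lit 289) (nat_lit 5) (nat_lit 298) (nat_lit 5) (nat_lit 290) (nat_lit 5) (nat_lit 580) (nat_lit 499) (nat_lit 481))) (XT.nd (nat_lit 78) (nat_lit 1292) (nat_lit 0) (XT.lf (nat_lit 0) (nat_lit 1341891342) (nat_lit 684) (nat_lit 2796264844) (nat_lit 76) (nat_lit 4163473698) (nat_lit 280) (nat_lit 5) (nat_lit 289) (nat_lit 5) (nat_lit 281) (nat_lit 5) (nat_lit 581) (nat_lit 499) (nat_lit 480)) (XT.nd (nat_lit 78) (nat_lit 684) (nat_lit 0) (XT.lf (nat_lit 0) (nat_lit 3763869170) (nat_lit 608) (nat_lit 1165553097) (nat_lit 684) (nat_lit 3439390213) (nat_lit 272) (nat_lit 5) (nat_lit 280) (nat_lit 5) (nat_lit 281) (nat_lit 5) (nat_lit 582) (nat_lit 499) (nat_lit 479)) (XT.lf (nat_lit 0) (nat_lit 136988372) (nat_lit 684) (nat_lit 6444294134) (nat_lit 76) (nat_lit 1856288708) (nat_lit 263) (nat_lit 5) (nat_lit 272) (nat_lit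 5) (nat_lit 264) (nat_lit 5) (nat_lit 583) (nat_lit 499) (nat_lit 478))))) (XT.nd (nat_lit 156) (nat_lit 1748) (nat_lit 0) (XT.nd (nat_lit 78) (nat_lit 0) (nat_lit 0) (XT.lf (nat_lit 0) (nat_lit 174269421) (nat_lit 532) (nat_lit 3548551811) (nat_lit 608) (nat_lit 4784753827) (nat_lit 256) (nat_lit 5) (nat_lit 263) (nat_lit 5) (nat_lit 264) (nat_lit 5) (nat_lit 584) (nat_lit 499) (nat_lit 477)) (XT.lf (nat_lit 0) (nat_lit 6936947883) (nat_lit 532) (nat_lit 431255463) (nat_lit 608) (nat_lit 1211023126) (nat_lit 256) (nat_lit 5) (nat_lit 263) (nat_lit 5) (nat_lit 264) (nat_lit 5) (nat_lit 585) (nat_lit 499) (nat_lit 476))) (XT.nd (nat_lit 78) (nat_lit 1140) (nat_lit 0) (XT.lf (nat_lit 0) (nat_lit 2399107464) (nat_lit 608) (nat_lit 3510887782) (nat_lit 76) (nat_lit 2742066565) (nat_lit 248) (nat_lit 5) (nat_lit 256) (nat_lit 5) (nat_lit 249) (nat_lit 5) (nat_lit 586) (nat_lit 499) (nat_lit 475)) (XT.nd (nat_lit 78) (nat_lit 608) (nat_lit 0) (XT.lf (nat_lit 0) (nat_lit 3313612893)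 (nat_lit 532) (nat_lit 2732859680) (nat_lit 608) (nat_lit 2680100139) (nat_lit 241) (nat_lit 5) (nat_lit 248) (nat_lit 5) (nat_lit 249) (nat_lit 5) (nat_lit 587) (nat_lit 499) (nat_lit 474)) (XT.lf (nat_lit 0) (nat_lit 934148203) (nat_lit 608) (nat_lit 7349046479) (nat_lit 76) (nat_lit 519606039) (nat_lit 233) (nat_lit 5) (nat_lit 241) (nat_lit 5) (nat_lit 234) (nat_lit 5) (nat_lit 588) (nat_lit 499) (nat_lit 473)))))) (XT.nd (nat_lit 390) (nat_lit 1900) (nat_lit 0) (XT.nd (nat_lit 156) (nat_lit 1596) (nat_lit 0) (XT.nd (nat_lit 78) (nat_lit 456) (nat_lit 0) (XT.lf (nat_lit 0) (nat_lit 4585909888) (nat_lit 608) (nat_lit 460719829) (nat_lit 76) (nat_lit 3833550646) (nat_lit 233) (nat_lit 5) (nat_lit 241) (nat_lit 5) (nat_lit 234) (nat_lit 5) (nat_lit 589) (nat_lit 499) (nat_lit 472)) (XT.lf (nat_lit 0) (nat_lit 6577141863) (nat_lit 456) (nat_lit 1723737322) (nat_lit 532) (nat_lit 658428572) (nat_lit 227) (nat_lit 5) (nat_lit 233) (nat_lit 5) (nat_lit 234) (nat_lit 5) (nat_lit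 590) (nat_lit 499) (nat_lit 471))) (XT.nd (nat_lit 78) (nat_lit 988) (nat_lit 0) (XT.lf (nat_lit 0) (nat_lit 3002376966) (nat_lit 608) (nat_lit 4362000102) (nat_lit 76) (nat_lit 1675403033) (nat_lit 219) (nat_lit 5) (nat_lit 227) (nat_lit 5) (nat_lit 220) (nat_lit 5) (nat_lit 591) (nat_lit 499) (nat_lit 470)) (XT.nd (nat_lit 78) (nat_lit 532) (nat_lit 0) (XT.lf (nat_lit 0) (nat_lit 2734553127) (nat_lit 456) (nat_lit 3986368505) (nat_lit 532) (nat_lit 2400989826) (nat_lit 213) (nat_lit 5) (nat_lit 219) (nat_lit 5) (nat_lit 220) (nat_lit 5) (nat_lit 592) (nat_lit 499) (nat_lit 469)) (XT.lf (nat_lit 0) (nat_lit 752953831) (nat_lit 456) (nat_lit 520654953) (nat_lit 532) (nat_lit 7932257785) (nat_lit 206) (nat_lit 5) (nat_lit 212) (nat_lit 5) (nat_lit 213) (nat_lit 5) (nat_lit 593) (nat_lit 499) (nat_lit 468))))) (XT.nd (nat_lit 234) (nat_lit 912) (nat_lit 0) (XT.nd (nat_lit 78) (nat_lit 988) (nat_lit 0) (XT.lf (nat_lit 0) (nat_lit 5000933363) (nat_lit 532) (nat_lit 1279423107)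 (nat_lit 76) (nat_lit 3010602439) (nat_lit 206) (nat_lit 5) (nat_lit 213) (nat_lit 5) (nat_lit 207) (nat_lit 5) (nat_lit 594) (nat_lit 499) (nat_lit 467)) (XT.nd (nat_lit 78) (nat_lit 532) (nat_lit 0) (XT.lf (nat_lit 0) (nat_lit 6039097635) (nat_lit 456) (nat_lit 2756007313) (nat_lit 532) (nat_lit 582805278) (nat_lit 200) (nat_lit 5) (nat_lit 206) (nat_lit 5) (nat_lit 207) (nat_lit 5) (nat_lit 595) (nat_lit 499) (nat_lit 466)) (XT.lf (nat_lit 0) (nat_lit 3146777610) (nat_lit 532) (nat_lit 5459829533) (nat_lit 76) (nat_lit 859777744) (nat_lit 193) (nat_lit 5) (nat_lit 200) (nat_lit 5) (nat_lit 194) (nat_lit 5) (nat_lit 596) (nat_lit 499) (nat_lit 465)))) (XT.nd (nat_lit 78) (nat_lit 532) (nat_lit 0) (XT.lf (nat_lit 0) (nat_lit 1916051570) (nat_lit 380) (nat_lit 5030515046) (nat_lit 456) (nat_lit 2609919972) (nat_lit 188) (nat_lit 5) (nat_lit 193) (nat_lit 5) (nat_lit 194) (nat_lit 5) (nat_lit 597) (nat_lit 499) (nat_lit 464)) (XT.nd (nat_lit 78) (nat_lit 456) (nat_lit 0) (XT.lf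 (nat_lit 0) (nat_lit 1145776266) (nat_lit 456) (nat_lit 216960184) (nat_lit 76) (nat_lit 8285760037) (nat_lit 187) (nat_lit 5) (nat_lit 193) (nat_lit 5) (nat_lit 188) (nat_lit 5) (nat_lit 598) (nat_lit 499) (nat_lit 463)) (XT.lf (nat_lit 0) (nat_lit 4956480869) (nat_lit 532) (nat_lit 2396925029) (nat_lit 76) (nat_lit 2388301618) (nat_lit 181) (nat_lit 5) (nat_lit 188) (nat_lit 5) (nat_lit 182) (nat_lit 5) (nat_lit 599) (nat_lit 499) (nat_lit 462))))))))
noncomputable def xc27 : XT := (XT.nd (nat_lit 1560) (nat_lit 1748) (nat_lit 0) (XT.nd (nat_lit 780) (nat_lit 2280) (nat_lit 0) (XT.nd (nat_lit 390) (nat_lit 1596) (nat_lit 0) (XT.nd (nat_lit 156) (nat_lit 836) (nat_lit 0) (XT.nd (nat_lit 78) (nat_lit 456) (nat_lit 0) (XT.lf (nat_lit 0) (nat_lit 5209483900) (nat_lit 380) (nat_lit 3629854844) (nat_lit 456) (nat_lit 997527971) (nat_lit 176) (nat_lit 5) (nat_lit 181) (nat_lit 5) (nat_lit 182) (nat_lit 5) (nat_lit 600) (nat_lit 499) (nat_lit 461)) (XT.lf (nat_lit 0) (nat_lit 2817159844)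 (nat_lit 456) (nat_lit 6921287380) (nat_lit 76) (nat_lit 195335908) (nat_lit 170) (nat_lit 5) (nat_lit 176) (nat_lit 5) (nat_lit 171) (nat_lit 5) (nat_lit 601) (nat_lit 499) (nat_lit 460))) (XT.nd (nat_lit 78) (nat_lit 456) (nat_lit 0) (XT.lf (nat_lit 0) (nat_lit 740526724) (nat_lit 380) (nat_lit 5966455383) (nat_lit 456) (nat_lit 3325282519) (nat_lit 165) (nat_lit 5) (nat_lit 170) (nat_lit 5) (nat_lit 171) (nat_lit 5) (nat_lit 602) (nat_lit 499) (nat_lit 459)) (XT.nd (nat_lit 78) (nat_lit 380) (nat_lit 0) (XT.lf (nat_lit 0) (nat_lit 533755860) (nat_lit 456) (nat_lit 1560580153) (nat_lit 76) (nat_lit 8038332294) (nat_lit 164) (nat_lit 5) (nat_lit 170) (nat_lit 5) (nat_lit 165) (nat_lit 5) (nat_lit 603) (nat_lit 499) (nat_lit 458)) (XT.lf (nat_lit 0) (nat_lit 4431934548) (nat_lit 456) (nat_lit 3933982698) (nat_lit 76) (nat_lit 1868595941) (nat_lit 159) (nat_lit 5) (nat_lit 165) (nat_lit 5) (nat_lit 160) (nat_lit 5) (nat_lit 604) (nat_lit 499) (nat_lit 457))))) (XT.nd (nat_lit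 156) (nat_lit 760) (nat_lit 0) (XT.nd (nat_lit 78) (nat_lit 456) (nat_lit 0) (XT.lf (nat_lit 0) (nat_lit 3966729341) (nat_lit 380) (nat_lit 4444954086) (nat_lit 456) (nat_lit 1926641784) (nat_lit 154) (nat_lit 5) (nat_lit 159) (nat_lit 5) (nat_lit 160) (nat_lit 5) (nat_lit 605) (nat_lit 499) (nat_lit 456)) (XT.lf (nat_lit 0) (nat_lit 1569014383) (nat_lit 380) (nat_lit 421552087) (nat_lit 456) (nat_lit 8453579410) (nat_lit 148) (nat_lit 5) (nat_lit 153) (nat_lit 5) (nat_lit 154) (nat_lit 5) (nat_lit 606) (nat_lit 499) (nat_lit 455))) (XT.nd (nat_lit 78) (nat_lit 760) (nat_lit 0) (XT.lf (nat_lit 0) (nat_lit 5981129949) (nat_lit 456) (nat_lit 906963585) (nat_lit 76) (nat_lit 3663320794) (nat_lit 148) (nat_lit 5) (nat_lit 154) (nat_lit 5) (nat_lit 149) (nat_lit 5) (nat_lit 607) (nat_lit 499) (nat_lit 454)) (XT.nd (nat_lit 78) (nat_lit 456) (nat_lit 0) (XT.lf (nat_lit 0) (nat_lit 7240589710) (nat_lit 304) (nat_lit 2815459301) (nat_lit 380) (nat_lit 604690446) (nat_lit 144) (nat_lit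 5) (nat_lit 148) (nat_lit 5) (nat_lit 149) (nat_lit 5) (nat_lit 608) (nat_lit 499) (nat_lit 453)) (XT.lf (nat_lit 0) (nat_lit 3395894608) (nat_lit 456) (nat_lit 6021854194) (nat_lit 76) (nat_lit 1354041712) (nat_lit 138) (nat_lit 5) (nat_lit 144) (nat_lit 5) (nat_lit 139) (nat_lit 5) (nat_lit 609) (nat_lit 499) (nat_lit 452)))))) (XT.nd (nat_lit 390) (nat_lit 912) (nat_lit 0) (XT.nd (nat_lit 156) (nat_lit 988) (nat_lit 0) (XT.nd (nat_lit 78) (nat_lit 76) (nat_lit 0) (XT.lf (nat_lit 0) (nat_lit 2178429863) (nat_lit 304) (nat_lit 5300972366) (nat_lit 380) (nat_lit 3405362341) (nat_lit 134) (nat_lit 5) (nat_lit 138) (nat_lit 5) (nat_lit 139) (nat_lit 5) (nat_lit 610) (nat_lit 499) (nat_lit 451)) (XT.lf (nat_lit 0) (nat_lit 632029293) (nat_lit 380) (nat_lit 451935310) (nat_lit 76) (nat_lit 9916033770) (nat_lit 133) (nat_lit 5) (nat_lit 138) (nat_lit 5) (nat_lit 134) (nat_lit 5) (nat_lit 611) (nat_lit 499) (nat_lit 450))) (XT.nd (nat_lit 78) (nat_lit 684) (nat_lit 0) (XT.lf (nat_lit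 0) (nat_lit 4733720967) (nat_lit 380) (nat_lit 3159711514) (nat_lit 76) (nat_lit 3223073134) (nat_lit 129) (nat_lit 5) (nat_lit 134) (nat_lit 5) (nat_lit 130) (nat_lit 5) (nat_lit 612) (nat_lit 499) (nat_lit 449)) (XT.nd (nat_lit 78) (nat_lit 380) (nat_lit 0) (XT.lf (nat_lit 0) (nat_lit 5295350439) (nat_lit 304) (nat_lit 3623034573) (nat_lit 380) (nat_lit 2316941135) (nat_lit 125) (nat_lit 5) (nat_lit 129) (nat_lit 5) (nat_lit 130) (nat_lit 5) (nat_lit 613) (nat_lit 499) (nat_lit 448)) (XT.lf (nat_lit 0) (nat_lit 1805495049) (nat_lit 380) (nat_lit 8805111864) (nat_lit 76) (nat_lit 745694766) (nat_lit 120) (nat_lit 5) (nat_lit 125) (nat_lit 5) (nat_lit 121) (nat_lit 5) (nat_lit 614) (nat_lit 499) (nat_lit 447))))) (XT.nd (nat_lit 156) (nat_lit 608) (nat_lit 0) (XT.nd (nat_lit 78) (nat_lit 304) (nat_lit 0) (XT.lf (nat_lit 0) (nat_lit 6000147913) (nat_lit 380) (nat_lit 297570869) (nat_lit 76) (nat_lit 5181257608) (nat_lit 120) (nat_lit 5) (nat_lit 125) (nat_lit 5) (nat_lit 121)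 (nat_lit 5) (nat_lit 615) (nat_lit 499) (nat_lit 446)) (XT.lf (nat_lit 0) (nat_lit 8420194114) (nat_lit 304) (nat_lit 1870664157) (nat_lit 380) (nat_lit 1313004803) (nat_lit 116) (nat_lit 5) (nat_lit 120) (nat_lit 5) (nat_lit 121) (nat_lit 5) (nat_lit 616) (nat_lit 499) (nat_lit 445))) (XT.nd (nat_lit 78) (nat_lit 228) (nat_lit 0) (XT.lf (nat_lit 0) (nat_lit 2910756139) (nat_lit 380) (nat_lit 6179686198) (nat_lit 76) (nat_lit 2640163014) (nat_lit 111) (nat_lit 5) (nat_lit 116) (nat_lit 5) (nat_lit 112) (nat_lit 5) (nat_lit 617) (nat_lit 499) (nat_lit 444)) (XT.nd (nat_lit 78) (nat_lit 0) (nat_lit 0) (XT.lf (nat_lit 0) (nat_lit 2585930215) (nat_lit 228) (nat_lit 4623970352) (nat_lit 304) (nat_lit 4649640205) (nat_lit 108) (nat_lit 5) (nat_lit 111) (nat_lit 5) (nat_lit 112) (nat_lit 5) (nat_lit 618) (nat_lit 499) (nat_lit 443)) (XT.lf (nat_lit 0) (nat_lit 11540432440) (nat_lit 228) (nat_lit 54225618) (nat_lit 304) (nat_lit 396405873) (nat_lit 108) (nat_lit 5) (nat_lit 111) (nat_lit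 5) (nat_lit 112) (nat_lit 5) (nat_lit 619) (nat_lit 499) (nat_lit 442))))))) (XT.nd (nat_lit 76752) (nat_lit 0) (nat_lit 19000) (XT.nd (nat_lit 390) (nat_lit 532) (nat_lit 0) (XT.nd (nat_lit 156) (nat_lit 608) (nat_lit 0) (XT.nd (nat_lit 78) (nat_lit 228) (nat_lit 0) (XT.lf (nat_lit 0) (nat_lit 3934786956) (nat_lit 380) (nat_lit 3588494237) (nat_lit 76) (nat_lit 4600534216) (nat_lit 103) (nat_lit 5) (nat_lit 108) (nat_lit 5) (nat_lit 104) (nat_lit 5) (nat_lit 620) (nat_lit 499) (nat_lit 441)) (XT.lf (nat_lit 0) (nat_lit 5446821750) (nat_lit 228) (nat_lit 2898135382) (nat_lit 304) (nat_lit 3914260690) (nat_lit 100) (nat_lit 5) (nat_lit 103) (nat_lit 5) (nat_lit 104) (nat_lit 5) (nat_lit 621) (nat_lit 499) (nat_lit 440))) (XT.nd (nat_lit 78) (nat_lit 228) (nat_lit 0) (XT.lf (nat_lit 0) (nat_lit 450022965) (nat_lit 380) (nat_lit 10137477162) (nat_lit 76) (nat_lit 1809574322) (nat_lit 95) (nat_lit 5) (nat_lit 100) (nat_lit 5) (nat_lit 96) (nat_lit 5) (nat_lit 622) (nat_lit 499)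 (nat_lit 439)) (XT.nd (nat_lit 78) (nat_lit 228) (nat_lit 0) (XT.lf (nat_lit 0) (nat_lit 4873584965) (nat_lit 380) (nat_lit 1046628065) (nat_lit 76) (nat_lit 6616471072) (nat_lit 95) (nat_lit 5) (nat_lit 100) (nat_lit 5) (nat_lit 96) (nat_lit 5) (nat_lit 623) (nat_lit 499) (nat_lit 438)) (XT.lf (nat_lit 0) (nat_lit 8266006474) (nat_lit 228) (nat_lit 1133226372) (nat_lit 304) (nat_lit 3279582231) (nat_lit 92) (nat_lit 5) (nat_lit 95) (nat_lit 5) (nat_lit 96) (nat_lit 5) (nat_lit 624) (nat_lit 499) (nat_lit 437))))) (XT.nd (nat_lit 76128) (nat_lit 0) (nat_lit 26600) (XT.nd (nat_lit 78) (nat_lit 228) (nat_lit 0) (XT.lf (nat_lit 0) (nat_lit 1199641671) (nat_lit 304) (nat_lit 7904154317) (nat_lit 76) (nat_lit 3719366022) (nat_lit 88) (nat_lit 5) (nat_lit 92) (nat_lit 5) (nat_lit 89) (nat_lit 5) (nat_lit 625) (nat_lit 499) (nat_lit 436)) (XT.lf (nat_lit 0) (nat_lit 1448366501) (nat_lit 228) (nat_lit 4283110923) (nat_lit 304) (nat_lit 7238347418) (nat_lit 85) (nat_lit 5) (nat_lit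 88) (nat_lit 5) (nat_lit 89) (nat_lit 5) (nat_lit 626) (nat_lit 499) (nat_lit 435))) (XT.nd (nat_lit 78) (nat_lit 988) (nat_lit 0) (XT.lf (nat_lit 0) (nat_lit 1217060638) (nat_lit 1064) (nat_lit 1193816956) (nat_lit 1064) (nat_lit 1193816956) (nat_lit 448) (nat_lit 4) (nat_lit 462) (nat_lit 5) (nat_lit 462) (nat_lit 4) (nat_lit 560) (nat_lit 500) (nat_lit 500)) (XT.nd (nat_lit 78) (nat_lit 0) (nat_lit 0) (XT.lf (nat_lit 0) (nat_lit 683262120) (nat_lit 912) (nat_lit 477111239) (nat_lit 988) (nat_lit 6088430203) (nat_lit 435) (nat_lit 5) (nat_lit 447) (nat_lit 5) (nat_lit 448) (nat_lit 4) (nat_lit 561) (nat_lit 500) (nat_lit 499)) (XT.lf (nat_lit 0) (nat_lit 4720556226) (nat_lit 988) (nat_lit 1072457152) (nat_lit 0) (nat_lit 1496221379) (nat_lit 435) (nat_lit 5) (nat_lit 448) (nat_lit 4) (nat_lit 435) (nat_lit 4) (nat_lit 562) (nat_lit 500) (nat_lit 498)))))) (XT.nd (nat_lit 390) (nat_lit 3952) (nat_lit 0) (XT.nd (nat_lit 156) (nat_lit 1824) (nat_lit 0) (XT.nd (nat_lit 78) (nat_lit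 836) (nat_lit 0) (XT.lf (nat_lit 0) (nat_lit 972989891) (nat_lit 988) (nat_lit 2823802490) (nat_lit 76) (nat_lit 3534258690) (nat_lit 422) (nat_lit 5) (nat_lit 435) (nat_lit 5) (nat_lit 423) (nat_lit 4) (nat_lit 563) (nat_lit 500) (nat_lit 497)) (XT.lf (nat_lit 0) (nat_lit 2785835869) (nat_lit 836) (nat_lit 1723718938) (nat_lit 912) (nat_lit 2864647530) (nat_lit 411) (nat_lit 5) (nat_lit 422) (nat_lit 5) (nat_lit 423) (nat_lit 4) (nat_lit 564) (nat_lit 500) (nat_lit 496))) (XT.nd (nat_lit 78) (nat_lit 912) (nat_lit 0) (XT.lf (nat_lit 0) (nat_lit 651636034) (nat_lit 912) (nat_lit 6357817575) (nat_lit 76) (nat_lit 409436083) (nat_lit 399) (nat_lit 5) (nat_lit 411) (nat_lit 5) (nat_lit 400) (nat_lit 4) (nat_lit 565) (nat_lit 500) (nat_lit 495)) (XT.nd (nat_lit 78) (nat_lit 912) (nat_lit 0) (XT.lf (nat_lit 0) (nat_lit 4176603538) (nat_lit 912) (nat_lit 683115598) (nat_lit 76) (nat_lit 2604845568) (nat_lit 399) (nat_lit 5) (nat_lit 411) (nat_lit 5) (nat_lit 400) (nat_lit 4) (nat_lit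 566) (nat_lit 500) (nat_lit 494)) (XT.lf (nat_lit 0) (nat_lit 225946613) (nat_lit 912) (nat_lit 2414225852) (nat_lit 76) (nat_lit 4871584507) (nat_lit 387) (nat_lit 5) (nat_lit 399) (nat_lit 5) (nat_lit 388) (nat_lit 5) (nat_lit 567) (nat_lit 500) (nat_lit 493))))) (XT.nd (nat_lit 234) (nat_lit 2280) (nat_lit 0) (XT.nd (nat_lit 78) (nat_lit 836) (nat_lit 0) (XT.lf (nat_lit 0) (nat_lit 3392653097) (nat_lit 836) (nat_lit 336061029) (nat_lit 912) (nat_lit 3831498678) (nat_lit 376) (nat_lit 5) (nat_lit 387) (nat_lit 5) (nat_lit 388) (nat_lit 5) (nat_lit 568) (nat_lit 500) (nat_lit 492)) (XT.nd (nat_lit 78) (nat_lit 76) (nat_lit 0) (XT.lf (nat_lit 0) (nat_lit 1673834885) (nat_lit 760) (nat_lit 5604601225) (nat_lit 836) (nat_lit 331670064) (nat_lit 366) (nat_lit 5) (nat_lit 376) (nat_lit 5) (nat_lit 377) (nat_lit 4) (nat_lit 569) (nat_lit 500) (nat_lit 491)) (XT.lf (nat_lit 0) (nat_lit 3163053950) (nat_lit 836) (nat_lit 69694694) (nat_lit 76) (nat_lit 4428487085) (nat_lit 365) (nat_lit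 5) (nat_lit 376) (nat_lit 5) (nat_lit 366) (nat_lit 5) (nat_lit 570) (nat_lit 500) (nat_lit 490)))) (XT.nd (nat_lit 78) (nat_lit 1520) (nat_lit 0) (XT.lf (nat_lit 0) (nat_lit 5916702500) (nat_lit 760) (nat_lit 783174190) (nat_lit 836) (nat_lit 1013940469) (nat_lit 355) (nat_lit 5) (nat_lit 365) (nat_lit 5) (nat_lit 366) (nat_lit 5) (nat_lit 571) (nat_lit 500) (nat_lit 489)) (XT.nd (nat_lit 78) (nat_lit 760) (nat_lit 0) (XT.lf (nat_lit 0) (nat_lit 2484467371) (nat_lit 760) (nat_lit 3557198942) (nat_lit 76) (nat_lit 1725903998) (nat_lit 345) (nat_lit 5) (nat_lit 355) (nat_lit 5) (nat_lit 346) (nat_lit 5) (nat_lit 572) (nat_lit 500) (nat_lit 488)) (XT.lf (nat_lit 0) (nat_lit 2486930040) (nat_lit 760) (nat_lit 3525033074) (nat_lit 836) (nat_lit 1810853130) (nat_lit 335) (nat_lit 5) (nat_lit 345) (nat_lit 5) (nat_lit 346) (nat_lit 5) (nat_lit 573) (nat_lit 500) (nat_lit 487))))))))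
noncomputable def xc28 : XT := (XT.nd (nat_lit 1560) (nat_lit 6688) (nat_lit 0) (XT.nd (nat_lit 780) (nat_lit 3876) (nat_lit 0) (XT.nd (nat_lit 390) (nat_lit 2660) (nat_lit 0) (XT.nd (nat_lit 156) (nat_lit 2052) (nat_lit 0) (XT.nd (nat_lit 78) (nat_lit 0) (nat_lit 0) (XT.lf (nat_lit 0) (nat_lit 745615466) (nat_lit 684) (nat_lit 930918436) (nat_lit 760) (nat_lit 6203046055) (nat_lit 325) (nat_lit 5) (nat_lit 334) (nat_lit 5) (nat_lit 335) (nat_lit 5) (nat_lit 574) (nat_lit 500) (nat_lit 486)) (XT.lf (nat_lit 0) (nat_lit 5196762144) (nat_lit 760) (nat_lit 1013911101) (nat_lit 76) (nat_lit 1726824848) (nat_lit 325) (nat_lit 5) (nat_lit 335) (nat_lit 5) (nat_lit 326) (nat_lit 5) (nat_lit 575) (nat_lit 500) (nat_lit 485))) (XT.nd (nat_lit 78) (nat_lit 1292) (nat_lit 0) (XT.lf (nat_lit 0) (nat_lit 761672571) (nat_lit 760) (nat_lit 2784550146) (nat_lit 76) (nat_lit 4450629858) (nat_lit 315) (nat_lit 5) (nat_lit 325) (nat_lit 5) (nat_lit 316) (nat_lit 5) (nat_lit 576) (nat_lit 500)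 (nat_lit 484)) (XT.nd (nat_lit 78) (nat_lit 684) (nat_lit 0) (XT.lf (nat_lit 0) (nat_lit 3473191596) (nat_lit 608) (nat_lit 795273527) (nat_lit 684) (nat_lit 3789151061) (nat_lit 307) (nat_lit 5) (nat_lit 315) (nat_lit 5) (nat_lit 316) (nat_lit 5) (nat_lit 577) (nat_lit 500) (nat_lit 483)) (XT.lf (nat_lit 0) (nat_lit 1709590653) (nat_lit 684) (nat_lit 6120937092) (nat_lit 760) (nat_lit 289369590) (nat_lit 298) (nat_lit 5) (nat_lit 307) (nat_lit 5) (nat_lit 308) (nat_lit 5) (nat_lit 578) (nat_lit 500) (nat_lit 482))))) (XT.nd (nat_lit 156) (nat_lit 1976) (nat_lit 0) (XT.nd (nat_lit 78) (nat_lit 608) (nat_lit 0) (XT.lf (nat_lit 0) (nat_lit 3216060321) (nat_lit 760) (nat_lit 92494229) (nat_lit 76) (nat_lit 4874874827) (nat_lit 297) (nat_lit 5) (nat_lit 307) (nat_lit 5) (nat_lit 298) (nat_lit 5) (nat_lit 579) (nat_lit 500) (nat_lit 481)) (XT.lf (nat_lit 0) (nat_lit 6360087838) (nat_lit 608) (nat_lit 412504058) (nat_lit 684) (nat_lit 1475909221) (nat_lit 289) (nat_lit 5) (nat_lit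 297) (nat_lit 5) (nat_lit 298) (nat_lit 5) (nat_lit 580) (nat_lit 500) (nat_lit 480))) (XT.nd (nat_lit 78) (nat_lit 1292) (nat_lit 0) (XT.lf (nat_lit 0) (nat_lit 2049043123) (nat_lit 684) (nat_lit 3730236371) (nat_lit 76) (nat_lit 2535508221) (nat_lit 280) (nat_lit 5) (nat_lit 289) (nat_lit 5) (nat_lit 281) (nat_lit 5) (nat_lit 581) (nat_lit 500) (nat_lit 479)) (XT.nd (nat_lit 78) (nat_lit 684) (nat_lit 0) (XT.lf (nat_lit 0) (nat_lit 2780428259) (nat_lit 608) (nat_lit 2822209623) (nat_lit 684) (nat_lit 2780013329) (nat_lit 272) (nat_lit 5) (nat_lit 280) (nat_lit 5) (nat_lit 281) (nat_lit 5) (nat_lit 582) (nat_lit 500) (nat_lit 478)) (XT.lf (nat_lit 0) (nat_lit 742624361) (nat_lit 684) (nat_lit 7499957411) (nat_lit 76) (nat_lit 209646505) (nat_lit 263) (nat_lit 5) (nat_lit 272) (nat_lit 5) (nat_lit 264) (nat_lit 5) (nat_lit 583) (nat_lit 500) (nat_lit 477)))))) (XT.nd (nat_lit 390) (nat_lit 1596) (nat_lit 0) (XT.nd (nat_lit 156) (nat_lit 1748) (nat_lit 0) (XT.nd (nat_lit 78)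 (nat_lit 532) (nat_lit 0) (XT.lf (nat_lit 0) (nat_lit 4300137088) (nat_lit 684) (nat_lit 920619441) (nat_lit 76) (nat_lit 3302044047) (nat_lit 263) (nat_lit 5) (nat_lit 272) (nat_lit 5) (nat_lit 264) (nat_lit 5) (nat_lit 584) (nat_lit 500) (nat_lit 476)) (XT.lf (nat_lit 0) (nat_lit 5793127486) (nat_lit 532) (nat_lit 2119441197) (nat_lit 608) (nat_lit 682544327) (nat_lit 256) (nat_lit 5) (nat_lit 263) (nat_lit 5) (nat_lit 264) (nat_lit 5) (nat_lit 585) (nat_lit 500) (nat_lit 475))) (XT.nd (nat_lit 78) (nat_lit 1140) (nat_lit 0) (XT.lf (nat_lit 0) (nat_lit 2875166961) (nat_lit 608) (nat_lit 4731753009) (nat_lit 76) (nat_lit 1061871450) (nat_lit 248) (nat_lit 5) (nat_lit 256) (nat_lit 5) (nat_lit 249) (nat_lit 5) (nat_lit 586) (nat_lit 500) (nat_lit 474)) (XT.nd (nat_lit 78) (nat_lit 608) (nat_lit 0) (XT.lf (nat_lit 0) (nat_lit 2039480940) (nat_lit 532) (nat_lit 4448457829) (nat_lit 608) (nat_lit 2256057314) (nat_lit 241) (nat_lit 5) (nat_lit 248) (nat_lit 5) (nat_lit 249) (nat_lit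 5) (nat_lit 587) (nat_lit 500) (nat_lit 473)) (XT.lf (nat_lit 0) (nat_lit 108578675) (nat_lit 532) (nat_lit 1205661313) (nat_lit 608) (nat_lit 7506698656) (nat_lit 233) (nat_lit 5) (nat_lit 240) (nat_lit 5) (nat_lit 241) (nat_lit 5) (nat_lit 588) (nat_lit 500) (nat_lit 472))))) (XT.nd (nat_lit 156) (nat_lit 1140) (nat_lit 0) (XT.nd (nat_lit 78) (nat_lit 456) (nat_lit 0) (XT.lf (nat_lit 0) (nat_lit 4932168379) (nat_lit 608) (nat_lit 1853082539) (nat_lit 76) (nat_lit 2113745819) (nat_lit 233) (nat_lit 5) (nat_lit 241) (nat_lit 5) (nat_lit 234) (nat_lit 5) (nat_lit 589) (nat_lit 500) (nat_lit 471)) (XT.lf (nat_lit 0) (nat_lit 5129640827) (nat_lit 456) (nat_lit 3482603280) (nat_lit 532) (nat_lit 366579646) (nat_lit 227) (nat_lit 5) (nat_lit 233) (nat_lit 5) (nat_lit 234) (nat_lit 5) (nat_lit 590) (nat_lit 500) (nat_lit 470))) (XT.nd (nat_lit 78) (nat_lit 532) (nat_lit 0) (XT.lf (nat_lit 0) (nat_lit 3163852608) (nat_lit 532) (nat_lit 80223343) (nat_lit 608) (nat_lit 5816110376)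 (nat_lit 219) (nat_lit 5) (nat_lit 226) (nat_lit 5) (nat_lit 227) (nat_lit 5) (nat_lit 591) (nat_lit 500) (nat_lit 469)) (XT.nd (nat_lit 78) (nat_lit 76) (nat_lit 0) (XT.lf (nat_lit 0) (nat_lit 1143421832) (nat_lit 456) (nat_lit 5783143238) (nat_lit 532) (nat_lit 2216475375) (nat_lit 213) (nat_lit 5) (nat_lit 219) (nat_lit 5) (nat_lit 220) (nat_lit 5) (nat_lit 592) (nat_lit 500) (nat_lit 468)) (XT.lf (nat_lit 0) (nat_lit 1425702912) (nat_lit 532) (nat_lit 906925633) (nat_lit 76) (nat_lit 6894944645) (nat_lit 212) (nat_lit 5) (nat_lit 219) (nat_lit 5) (nat_lit 213) (nat_lit 5) (nat_lit 593) (nat_lit 500) (nat_lit 467))))))) (XT.nd (nat_lit 780) (nat_lit 3040) (nat_lit 0) (XT.nd (nat_lit 390) (nat_lit 1748) (nat_lit 0) (XT.nd (nat_lit 156) (nat_lit 988) (nat_lit 0) (XT.nd (nat_lit 78) (nat_lit 456) (nat_lit 0) (XT.lf (nat_lit 0) (nat_lit 5110327441) (nat_lit 532) (nat_lit 2998106986) (nat_lit 76) (nat_lit 1205086659) (nat_lit 206) (nat_lit 5) (nat_lit 213) (nat_lit 5) (nat_lit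 207) (nat_lit 5) (nat_lit 594) (nat_lit 500) (nat_lit 466)) (XT.lf (nat_lit 0) (nat_lit 4261085053) (nat_lit 456) (nat_lit 4607429362) (nat_lit 532) (nat_lit 532679204) (nat_lit 200) (nat_lit 5) (nat_lit 206) (nat_lit 5) (nat_lit 207) (nat_lit 5) (nat_lit 595) (nat_lit 500) (nat_lit 465))) (XT.nd (nat_lit 78) (nat_lit 456) (nat_lit 0) (XT.lf (nat_lit 0) (nat_lit 2150183189) (nat_lit 456) (nat_lit 1003961086) (nat_lit 532) (nat_lit 6336361001) (nat_lit 193) (nat_lit 5) (nat_lit 199) (nat_lit 5) (nat_lit 200) (nat_lit 5) (nat_lit 596) (nat_lit 500) (nat_lit 464)) (XT.nd (nat_lit 78) (nat_lit 456) (nat_lit 0) (XT.lf (nat_lit 0) (nat_lit 6910787754) (nat_lit 532) (nat_lit 19319812) (nat_lit 76) (nat_lit 2651363757) (nat_lit 193) (nat_lit 5) (nat_lit 200) (nat_lit 5) (nat_lit 194) (nat_lit 5) (nat_lit 597) (nat_lit 500) (nat_lit 463)) (XT.lf (nat_lit 0) (nat_lit 1061575130) (nat_lit 456) (nat_lit 2213531224) (nat_lit 76) (nat_lit 6398868829) (nat_lit 187) (nat_lit 5) (nat_lit 193)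 (nat_lit 5) (nat_lit 188) (nat_lit 5) (nat_lit 598) (nat_lit 500) (nat_lit 462))))) (XT.nd (nat_lit 156) (nat_lit 912) (nat_lit 0) (XT.nd (nat_lit 78) (nat_lit 380) (nat_lit 0) (XT.lf (nat_lit 0) (nat_lit 4822693239) (nat_lit 532) (nat_lit 4469778551) (nat_lit 76) (nat_lit 475707505) (nat_lit 181) (nat_lit 5) (nat_lit 188) (nat_lit 5) (nat_lit 182) (nat_lit 5) (nat_lit 599) (nat_lit 500) (nat_lit 461)) (XT.lf (nat_lit 0) (nat_lit 3072812387) (nat_lit 380) (nat_lit 5595387806) (nat_lit 456) (nat_lit 1195886646) (nat_lit 176) (nat_lit 5) (nat_lit 181) (nat_lit 5) (nat_lit 182) (nat_lit 5) (nat_lit 600) (nat_lit 500) (nat_lit 460))) (XT.nd (nat_lit 78) (nat_lit 456) (nat_lit 0) (XT.lf (nat_lit 0) (nat_lit 786114244) (nat_lit 380) (nat_lit 1796135673) (nat_lit 456) (nat_lit 7379563426) (nat_lit 170) (nat_lit 5) (nat_lit 175) (nat_lit 5) (nat_lit 176) (nat_lit 5) (nat_lit 601) (nat_lit 500) (nat_lit 459)) (XT.nd (nat_lit 78) (nat_lit 456) (nat_lit 0) (XT.lf (nat_lit 0) (nat_lit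 6432345122) (nat_lit 456) (nat_lit 1547955285) (nat_lit 76) (nat_lit 2080790224) (nat_lit 170) (nat_lit 5) (nat_lit 176) (nat_lit 5) (nat_lit 171) (nat_lit 5) (nat_lit 602) (nat_lit 500) (nat_lit 458)) (XT.lf (nat_lit 0) (nat_lit 200834067) (nat_lit 456) (nat_lit 3932717861) (nat_lit 76) (nat_lit 6028651767) (nat_lit 164) (nat_lit 5) (nat_lit 170) (nat_lit 5) (nat_lit 165) (nat_lit 5) (nat_lit 603) (nat_lit 500) (nat_lit 457)))))) (XT.nd (nat_lit 390) (nat_lit 1520) (nat_lit 0) (XT.nd (nat_lit 156) (nat_lit 760) (nat_lit 0) (XT.nd (nat_lit 78) (nat_lit 380) (nat_lit 0) (XT.lf (nat_lit 0) (nat_lit 3873552801) (nat_lit 380) (nat_lit 174594836) (nat_lit 456) (nat_lit 6216919417) (nat_lit 159) (nat_lit 5) (nat_lit 164) (nat_lit 5) (nat_lit 165) (nat_lit 5) (nat_lit 604) (nat_lit 500) (nat_lit 456)) (XT.lf (nat_lit 0) (nat_lit 1441693916) (nat_lit 380) (nat_lit 6546077517) (nat_lit 456) (nat_lit 2381911302) (nat_lit 154) (nat_lit 5) (nat_lit 159) (nat_lit 5) (nat_lit 160) (nat_lit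 5) (nat_lit 605) (nat_lit 500) (nat_lit 455))) (XT.nd (nat_lit 78) (nat_lit 684) (nat_lit 0) (XT.lf (nat_lit 0) (nat_lit 1508548144) (nat_lit 456) (nat_lit 1040588587) (nat_lit 76) (nat_lit 7927081298) (nat_lit 153) (nat_lit 5) (nat_lit 159) (nat_lit 5) (nat_lit 154) (nat_lit 5) (nat_lit 606) (nat_lit 500) (nat_lit 454)) (XT.nd (nat_lit 78) (nat_lit 304) (nat_lit 0) (XT.lf (nat_lit 0) (nat_lit 5456001600) (nat_lit 456) (nat_lit 3584462240) (nat_lit 76) (nat_lit 1543885925) (nat_lit 148) (nat_lit 5) (nat_lit 154) (nat_lit 5) (nat_lit 149) (nat_lit 5) (nat_lit 607) (nat_lit 500) (nat_lit 453)) (XT.lf (nat_lit 0) (nat_lit 4492026716) (nat_lit 304) (nat_lit 4999082749) (nat_lit 380) (nat_lit 1203362720) (nat_lit 144) (nat_lit 5) (nat_lit 148) (nat_lit 5) (nat_lit 149) (nat_lit 5) (nat_lit 608) (nat_lit 500) (nat_lit 452))))) (XT.nd (nat_lit 234) (nat_lit 760) (nat_lit 0) (XT.nd (nat_lit 78) (nat_lit 304) (nat_lit 0) (XT.lf (nat_lit 0) (nat_lit 1908145934) (nat_lit 380) (nat_lit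 847604143) (nat_lit 456) (nat_lit 8050838409) (nat_lit 138) (nat_lit 5) (nat_lit 143) (nat_lit 5) (nat_lit 144) (nat_lit 5) (nat_lit 609) (nat_lit 500) (nat_lit 451)) (XT.nd (nat_lit 78) (nat_lit 304) (nat_lit 0) (XT.lf (nat_lit 0) (nat_lit 6797822611) (nat_lit 456) (nat_lit 756422939) (nat_lit 76) (nat_lit 3366146699) (nat_lit 138) (nat_lit 5) (nat_lit 144) (nat_lit 5) (nat_lit 139) (nat_lit 5) (nat_lit 610) (nat_lit 500) (nat_lit 450)) (XT.lf (nat_lit 0) (nat_lit 7572433454) (nat_lit 304) (nat_lit 3359932755) (nat_lit 380) (nat_lit 103875277) (nat_lit 134) (nat_lit 5) (nat_lit 138) (nat_lit 5) (nat_lit 139) (nat_lit 5) (nat_lit 611) (nat_lit 500) (nat_lit 449)))) (XT.nd (nat_lit 78) (nat_lit 380) (nat_lit 0) (XT.lf (nat_lit 0) (nat_lit 3942834789) (nat_lit 380) (nat_lit 6268034547) (nat_lit 76) (nat_lit 943020708) (nat_lit 129) (nat_lit 5) (nat_lit 134) (nat_lit 5) (nat_lit 130) (nat_lit 5) (nat_lit 612) (nat_lit 500) (nat_lit 448)) (XT.nd (nat_lit 78) (nat_lit 76) (nat_lit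 0) (XT.lf (nat_lit 0) (nat_lit 2110584668) (nat_lit 304) (nat_lit 5975039810) (nat_lit 380) (nat_lit 3187924513) (nat_lit 125) (nat_lit 5) (nat_lit 129) (nat_lit 5) (nat_lit 130) (nat_lit 5) (nat_lit 613) (nat_lit 500) (nat_lit 447)) (XT.lf (nat_lit 0) (nat_lit 903287612) (nat_lit 380) (nat_lit 729392475) (nat_lit 76) (nat_lit 9762811373) (nat_lit 124) (nat_lit 5) (nat_lit 129) (nat_lit 5) (nat_lit 125) (nat_lit 5) (nat_lit 614) (nat_lit 500) (nat_lit 446))))))))
noncomputable def xc29 : XT := (XT.nd (nat_lit 77454) (nat_lit 0) (nat_lit 11552) (XT.nd (nat_lit 780) (nat_lit 228) (nat_lit 0) (XT.nd (nat_lit 390) (nat_lit 1216) (nat_lit 0) (XT.nd (nat_lit 156) (nat_lit 608) (nat_lit 0) (XT.nd (nat_lit 78) (nat_lit 304) (nat_lit 0) (XT.lf (nat_lit 0) (nat_lit 5061467517) (nat_lit 380) (nat_lit 3651331217) (nat_lit 76) (nat_lit 2806097771) (nat_lit 120) (nat_lit 5) (nat_lit 125) (nat_lit 5) (nat_lit 121) (nat_lit 5) (nat_lit 615) (nat_lit 500) (nat_lit 445)) (XT.lf (nat_lit 0)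 (nat_lit 4987261926) (nat_lit 304) (nat_lit 4321997564) (nat_lit 380) (nat_lit 2335382925) (nat_lit 116) (nat_lit 5) (nat_lit 120) (nat_lit 5) (nat_lit 121) (nat_lit 5) (nat_lit 616) (nat_lit 500) (nat_lit 444))) (XT.nd (nat_lit 78) (nat_lit 228) (nat_lit 0) (XT.lf (nat_lit 0) (nat_lit 1841969914) (nat_lit 380) (nat_lit 9753072477) (nat_lit 76) (nat_lit 177672221) (nat_lit 111) (nat_lit 5) (nat_lit 116) (nat_lit 5) (nat_lit 112) (nat_lit 5) (nat_lit 617) (nat_lit 500) (nat_lit 443)) (XT.nd (nat_lit 78) (nat_lit 228) (nat_lit 0) (XT.lf (nat_lit 0) (nat_lit 6103838120) (nat_lit 380) (nat_lit 1055664659) (nat_lit 76) (nat_lit 4742893586) (nat_lit 111) (nat_lit 5) (nat_lit 116) (nat_lit 5) (nat_lit 112) (nat_lit 5) (nat_lit 618) (nat_lit 500) (nat_lit 442)) (XT.lf (nat_lit 0) (nat_lit 7850740297) (nat_lit 228) (nat_lit 2610604010) (nat_lit 304) (nat_lit 1573121037) (nat_lit 108) (nat_lit 5) (nat_lit 111) (nat_lit 5) (nat_lit 112) (nat_lit 5) (nat_lit 619) (nat_lit 500) (nat_lit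 441))))) (XT.nd (nat_lit 156) (nat_lit 608) (nat_lit 0) (XT.nd (nat_lit 78) (nat_lit 228) (nat_lit 0) (XT.lf (nat_lit 0) (nat_lit 2711832421) (nat_lit 380) (nat_lit 7425121497) (nat_lit 76) (nat_lit 2031649910) (nat_lit 103) (nat_lit 5) (nat_lit 108) (nat_lit 5) (nat_lit 104) (nat_lit 5) (nat_lit 620) (nat_lit 500) (nat_lit 440)) (XT.lf (nat_lit 0) (nat_lit 1525003637) (nat_lit 228) (nat_lit 5551582952) (nat_lit 304) (nat_lit 5228328719) (nat_lit 100) (nat_lit 5) (nat_lit 103) (nat_lit 5) (nat_lit 104) (nat_lit 5) (nat_lit 621) (nat_lit 500) (nat_lit 439))) (XT.nd (nat_lit 78) (nat_lit 608) (nat_lit 0) (XT.lf (nat_lit 0) (nat_lit 10687043227) (nat_lit 228) (nat_lit 851464596) (nat_lit 304) (nat_lit 905249235) (nat_lit 100) (nat_lit 5) (nat_lit 103) (nat_lit 5) (nat_lit 104) (nat_lit 5) (nat_lit 622) (nat_lit 500) (nat_lit 438)) (XT.nd (nat_lit 78) (nat_lit 228) (nat_lit 0) (XT.lf (nat_lit 0) (nat_lit 3493194539) (nat_lit 380) (nat_lit 5155598484) (nat_lit 76) (nat_lit 3935431757)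 (nat_lit 95) (nat_lit 5) (nat_lit 100) (nat_lit 5) (nat_lit 96) (nat_lit 5) (nat_lit 623) (nat_lit 500) (nat_lit 437)) (XT.lf (nat_lit 0) (nat_lit 4068770880) (nat_lit 228) (nat_lit 3903380507) (nat_lit 304) (nat_lit 4755138880) (nat_lit 92) (nat_lit 5) (nat_lit 95) (nat_lit 5) (nat_lit 96) (nat_lit 5) (nat_lit 624) (nat_lit 500) (nat_lit 436)))))) (XT.nd (nat_lit 76284) (nat_lit 0) (nat_lit 23560) (XT.nd (nat_lit 76050) (nat_lit 0) (nat_lit 26296) (XT.nd (nat_lit 75972) (nat_lit 0) (nat_lit 30248) (XT.lf (nat_lit 0) (nat_lit 609409932) (nat_lit 228) (nat_lit 11937032037) (nat_lit 304) (nat_lit 326661369) (nat_lit 89) (nat_lit 5) (nat_lit 92) (nat_lit 5) (nat_lit 93) (nat_lit 5) (nat_lit 625) (nat_lit 500) (nat_lit 435)) (XT.lf (nat_lit 0) (nat_lit 2986201194) (nat_lit 1748) (nat_lit 290495248) (nat_lit 1748) (nat_lit 290495248) (nat_lit 487) (nat_lit 4) (nat_lit 510) (nat_lit 5) (nat_lit 510) (nat_lit 4) (nat_lit 558) (nat_lit 501) (nat_lit 501))) (XT.nd (nat_lit 78) (nat_lit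 2052) (nat_lit 0) (XT.lf (nat_lit 0) (nat_lit 2939580796) (nat_lit 1900) (nat_lit 2986224712) (nat_lit 0) (nat_lit 1245674888) (nat_lit 462) (nat_lit 5) (nat_lit 487) (nat_lit 4) (nat_lit 462) (nat_lit 4) (nat_lit 559) (nat_lit 501) (nat_lit 500)) (XT.nd (nat_lit 78) (nat_lit 988) (nat_lit 0) (XT.lf (nat_lit 0) (nat_lit 2398278208) (nat_lit 1064) (nat_lit 4083198291) (nat_lit 1064) (nat_lit 728600317) (nat_lit 448) (nat_lit 4) (nat_lit 462) (nat_lit 5) (nat_lit 462) (nat_lit 4) (nat_lit 560) (nat_lit 501) (nat_lit 499)) (XT.lf (nat_lit 0) (nat_lit 599265643) (nat_lit 912) (nat_lit 2164097274) (nat_lit 988) (nat_lit 4486602504) (nat_lit 435) (nat_lit 5) (nat_lit 447) (nat_lit 5) (nat_lit 448) (nat_lit 4) (nat_lit 561) (nat_lit 501) (nat_lit 498))))) (XT.nd (nat_lit 156) (nat_lit 1748) (nat_lit 0) (XT.nd (nat_lit 78) (nat_lit 988) (nat_lit 0) (XT.lf (nat_lit 0) (nat_lit 6107463204) (nat_lit 912) (nat_lit 172930867) (nat_lit 988) (nat_lit 1010869369) (nat_lit 435) (nat_lit 5)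 (nat_lit 447) (nat_lit 5) (nat_lit 448) (nat_lit 4) (nat_lit 562) (nat_lit 501) (nat_lit 497)) (XT.lf (nat_lit 0) (nat_lit 2475386008) (nat_lit 988) (nat_lit 2983877170) (nat_lit 76) (nat_lit 1874317574) (nat_lit 422) (nat_lit 5) (nat_lit 435) (nat_lit 5) (nat_lit 423) (nat_lit 4) (nat_lit 563) (nat_lit 501) (nat_lit 496))) (XT.nd (nat_lit 78) (nat_lit 912) (nat_lit 0) (XT.lf (nat_lit 0) (nat_lit 2587650308) (nat_lit 836) (nat_lit 3390541368) (nat_lit 912) (nat_lit 1399219098) (nat_lit 411) (nat_lit 5) (nat_lit 422) (nat_lit 5) (nat_lit 423) (nat_lit 4) (nat_lit 564) (nat_lit 501) (nat_lit 495)) (XT.nd (nat_lit 78) (nat_lit 0) (nat_lit 0) (XT.lf (nat_lit 0) (nat_lit 813923244) (nat_lit 836) (nat_lit 1247325079) (nat_lit 912) (nat_lit 5361394884) (nat_lit 399) (nat_lit 5) (nat_lit 410) (nat_lit 5) (nat_lit 411) (nat_lit 5) (nat_lit 565) (nat_lit 501) (nat_lit 494)) (XT.lf (nat_lit 0) (nat_lit 5546215999) (nat_lit 912) (nat_lit 962012594) (nat_lit 76) (nat_lit 960892989) (nat_lit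 399) (nat_lit 5) (nat_lit 411) (nat_lit 5) (nat_lit 400) (nat_lit 4) (nat_lit 566) (nat_lit 501) (nat_lit 493))))))) (XT.nd (nat_lit 780) (nat_lit 5624) (nat_lit 0) (XT.nd (nat_lit 390) (nat_lit 2964) (nat_lit 0) (XT.nd (nat_lit 156) (nat_lit 1672) (nat_lit 0) (XT.nd (nat_lit 78) (nat_lit 836) (nat_lit 0) (XT.lf (nat_lit 0) (nat_lit 1539531675) (nat_lit 912) (nat_lit 2746553909) (nat_lit 76) (nat_lit 3230725594) (nat_lit 387) (nat_lit 5) (nat_lit 399) (nat_lit 5) (nat_lit 388) (nat_lit 5) (nat_lit 567) (nat_lit 501) (nat_lit 492)) (XT.lf (nat_lit 0) (nat_lit 3019866863) (nat_lit 836) (nat_lit 1988913350) (nat_lit 912) (nat_lit 2557160347) (nat_lit 376) (nat_lit 5) (nat_lit 387) (nat_lit 5) (nat_lit 388) (nat_lit 5) (nat_lit 568) (nat_lit 501) (nat_lit 491))) (XT.nd (nat_lit 78) (nat_lit 836) (nat_lit 0) (XT.lf (nat_lit 0) (nat_lit 885874060) (nat_lit 836) (nat_lit 6357783101) (nat_lit 76) (nat_lit 372946028) (nat_lit 365) (nat_lit 5) (nat_lit 376) (nat_lit 5) (nat_lit 366)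 (nat_lit 5) (nat_lit 569) (nat_lit 501) (nat_lit 490)) (XT.nd (nat_lit 78) (nat_lit 836) (nat_lit 0) (XT.lf (nat_lit 0) (nat_lit 4345666974) (nat_lit 836) (nat_lit 529455501) (nat_lit 76) (nat_lit 2793181812) (nat_lit 365) (nat_lit 5) (nat_lit 376) (nat_lit 5) (nat_lit 366) (nat_lit 5) (nat_lit 570) (nat_lit 501) (nat_lit 489)) (XT.lf (nat_lit 0) (nat_lit 126022398) (nat_lit 836) (nat_lit 2307408914) (nat_lit 76) (nat_lit 5288105535) (nat_lit 354) (nat_lit 5) (nat_lit 365) (nat_lit 5) (nat_lit 355) (nat_lit 5) (nat_lit 571) (nat_lit 501) (nat_lit 488))))) (XT.nd (nat_lit 156) (nat_lit 1520) (nat_lit 0) (XT.nd (nat_lit 78) (nat_lit 760) (nat_lit 0) (XT.lf (nat_lit 0) (nat_lit 3566944610) (nat_lit 760) (nat_lit 4114499707) (nat_lit 76) (nat_lit 94600588) (nat_lit 345) (nat_lit 5) (nat_lit 355) (nat_lit 5) (nat_lit 346) (nat_lit 5) (nat_lit 572) (nat_lit 501) (nat_lit 487)) (XT.lf (nat_lit 0) (nat_lit 1885872017) (nat_lit 760) (nat_lit 5175162318) (nat_lit 836) (nat_lit 770927383)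 (nat_lit 335) (nat_lit 5) (nat_lit 345) (nat_lit 5) (nat_lit 346) (nat_lit 5) (nat_lit 573) (nat_lit 501) (nat_lit 486))) (XT.nd (nat_lit 78) (nat_lit 760) (nat_lit 0) (XT.lf (nat_lit 0) (nat_lit 83951247) (nat_lit 684) (nat_lit 2585221428) (nat_lit 760) (nat_lit 5220093336) (nat_lit 325) (nat_lit 5) (nat_lit 334) (nat_lit 5) (nat_lit 335) (nat_lit 5) (nat_lit 574) (nat_lit 501) (nat_lit 485)) (XT.nd (nat_lit 78) (nat_lit 760) (nat_lit 0) (XT.lf (nat_lit 0) (nat_lit 6149606971) (nat_lit 760) (nat_lit 1710853214) (nat_lit 76) (nat_lit 87522442) (nat_lit 325) (nat_lit 5) (nat_lit 335) (nat_lit 5) (nat_lit 326) (nat_lit 5) (nat_lit 575) (nat_lit 501) (nat_lit 484)) (XT.lf (nat_lit 0) (nat_lit 1658147639) (nat_lit 760) (nat_lit 3543898900) (nat_lit 76) (nat_lit 2805841221) (nat_lit 315) (nat_lit 5) (nat_lit 325) (nat_lit 5) (nat_lit 316) (nat_lit 5) (nat_lit 576) (nat_lit 501) (nat_lit 483)))))) (XT.nd (nat_lit 390) (nat_lit 2964) (nat_lit 0) (XT.nd (nat_lit 156) (nat_lit 1292)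 (nat_lit 0) (XT.nd (nat_lit 78) (nat_lit 760) (nat_lit 0) (XT.lf (nat_lit 0) (nat_lit 2667511152) (nat_lit 608) (nat_lit 2463854412) (nat_lit 684) (nat_lit 2937959752) (nat_lit 307) (nat_lit 5) (nat_lit 315) (nat_lit 5) (nat_lit 316) (nat_lit 5) (nat_lit 577) (nat_lit 501) (nat_lit 482)) (XT.lf (nat_lit 0) (nat_lit 509712357) (nat_lit 760) (nat_lit 7280057977) (nat_lit 76) (nat_lit 342660352) (nat_lit 297) (nat_lit 5) (nat_lit 307) (nat_lit 5) (nat_lit 298) (nat_lit 5) (nat_lit 578) (nat_lit 501) (nat_lit 481))) (XT.nd (nat_lit 78) (nat_lit 1292) (nat_lit 0) (XT.lf (nat_lit 0) (nat_lit 3983411587) (nat_lit 760) (nat_lit 1000304488) (nat_lit 76) (nat_lit 3212770098) (nat_lit 297) (nat_lit 5) (nat_lit 307) (nat_lit 5) (nat_lit 298) (nat_lit 5) (nat_lit 579) (nat_lit 501) (nat_lit 480)) (XT.nd (nat_lit 78) (nat_lit 684) (nat_lit 0) (XT.lf (nat_lit 0) (nat_lit 5404271101) (nat_lit 608) (nat_lit 2102078474) (nat_lit 684) (nat_lit 755882477) (nat_lit 289) (nat_lit 5) (nat_lit 297)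 (nat_lit 5) (nat_lit 298) (nat_lit 5) (nat_lit 580) (nat_lit 501) (nat_lit 479)) (XT.lf (nat_lit 0) (nat_lit 2714684889) (nat_lit 684) (nat_lit 4756761516) (nat_lit 76) (nat_lit 857879756) (nat_lit 280) (nat_lit 5) (nat_lit 289) (nat_lit 5) (nat_lit 281) (nat_lit 5) (nat_lit 581) (nat_lit 501) (nat_lit 478))))) (XT.nd (nat_lit 234) (nat_lit 1672) (nat_lit 0) (XT.nd (nat_lit 78) (nat_lit 684) (nat_lit 0) (XT.lf (nat_lit 0) (nat_lit 1703930356) (nat_lit 608) (nat_lit 4530349155) (nat_lit 684) (nat_lit 2163592284) (nat_lit 272) (nat_lit 5) (nat_lit 280) (nat_lit 5) (nat_lit 281) (nat_lit 5) (nat_lit 582) (nat_lit 501) (nat_lit 477)) (XT.nd (nat_lit 78) (nat_lit 608) (nat_lit 0) (XT.lf (nat_lit 0) (nat_lit 1316498369) (nat_lit 684) (nat_lit 190528484) (nat_lit 76) (nat_lit 6961033264) (nat_lit 271) (nat_lit 5) (nat_lit 280) (nat_lit 5) (nat_lit 272) (nat_lit 5) (nat_lit 583) (nat_lit 501) (nat_lit 476)) (XT.lf (nat_lit 0) (nat_lit 4836309150) (nat_lit 684) (nat_lit 2108230505)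 (nat_lit 76) (nat_lit 1594848811) (nat_lit 263) (nat_lit 5) (nat_lit 272) (nat_lit 5) (nat_lit 264) (nat_lit 5) (nat_lit 584) (nat_lit 501) (nat_lit 475)))) (XT.nd (nat_lit 78) (nat_lit 1140) (nat_lit 0) (XT.lf (nat_lit 0) (nat_lit 4553756260) (nat_lit 532) (nat_lit 3860804773) (nat_lit 608) (nat_lit 197825434) (nat_lit 256) (nat_lit 5) (nat_lit 263) (nat_lit 5) (nat_lit 264) (nat_lit 5) (nat_lit 585) (nat_lit 501) (nat_lit 474)) (XT.nd (nat_lit 78) (nat_lit 532) (nat_lit 0) (XT.lf (nat_lit 0) (nat_lit 2631537273) (nat_lit 532) (nat_lit 680460376) (nat_lit 608) (nat_lit 5374836802) (nat_lit 248) (nat_lit 5) (nat_lit 255) (nat_lit 5) (nat_lit 256) (nat_lit 5) (nat_lit 586) (nat_lit 501) (nat_lit 473)) (XT.lf (nat_lit 0) (nat_lit 666508524) (nat_lit 532) (nat_lit 6219123989) (nat_lit 608) (nat_lit 1877191198) (nat_lit 241) (nat_lit 5) (nat_lit 248) (nat_lit 5) (nat_lit 249) (nat_lit 5) (nat_lit 587) (nat_lit 501) (nat_lit 472))))))))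
noncomputable def xc30 : XT := (XT.nd (nat_lit 1560) (nat_lit 4256) (nat_lit 0) (XT.nd (nat_lit 780) (nat_lit 3420) (nat_lit 0) (XT.nd (nat_lit 390) (nat_lit 1976) (nat_lit 0) (XT.nd (nat_lit 156) (nat_lit 1064) (nat_lit 0) (XT.nd (nat_lit 78) (nat_lit 532) (nat_lit 0) (XT.lf (nat_lit 0) (nat_lit 1661731487) (nat_lit 608) (nat_lit 1323052263) (nat_lit 76) (nat_lit 5855463224) (nat_lit 240) (nat_lit 5) (nat_lit 248) (nat_lit 5) (nat_lit 241) (nat_lit 5) (nat_lit 588) (nat_lit 501) (nat_lit 471)) (XT.lf (nat_lit 0) (nat_lit 5233851267) (nat_lit 608) (nat_lit 3346323765) (nat_lit 76) (nat_lit 339047958) (nat_lit 233) (nat_lit 5) (nat_lit 241) (nat_lit 5) (nat_lit 234) (nat_lit 5) (nat_lit 589) (nat_lit 501) (nat_lit 470))) (XT.nd (nat_lit 78) (nat_lit 608) (nat_lit 0) (XT.lf (nat_lit 0) (nat_lit 3580638976) (nat_lit 456) (nat_lit 5298235350) (nat_lit 532) (nat_lit 120878449) (nat_lit 227) (nat_lit 5) (nat_lit 233) (nat_lit 5) (nat_lit 234) (nat_lit 5) (nat_lit 590) (nat_lit 501)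 (nat_lit 469)) (XT.nd (nat_lit 78) (nat_lit 0) (nat_lit 0) (XT.lf (nat_lit 0) (nat_lit 1535424811) (nat_lit 532) (nat_lit 1915657593) (nat_lit 608) (nat_lit 5630712138) (nat_lit 219) (nat_lit 5) (nat_lit 226) (nat_lit 5) (nat_lit 227) (nat_lit 5) (nat_lit 591) (nat_lit 501) (nat_lit 468)) (XT.lf (nat_lit 0) (nat_lit 7089521006) (nat_lit 608) (nat_lit 545429355) (nat_lit 76) (nat_lit 1530580927) (nat_lit 219) (nat_lit 5) (nat_lit 227) (nat_lit 5) (nat_lit 220) (nat_lit 5) (nat_lit 592) (nat_lit 501) (nat_lit 467))))) (XT.nd (nat_lit 156) (nat_lit 988) (nat_lit 0) (XT.nd (nat_lit 78) (nat_lit 456) (nat_lit 0) (XT.lf (nat_lit 0) (nat_lit 1536094346) (nat_lit 532) (nat_lit 2662305606) (nat_lit 76) (nat_lit 5052212024) (nat_lit 212) (nat_lit 5) (nat_lit 219) (nat_lit 5) (nat_lit 213) (nat_lit 5) (nat_lit 593) (nat_lit 501) (nat_lit 466)) (XT.lf (nat_lit 0) (nat_lit 4509199060) (nat_lit 456) (nat_lit 667675373) (nat_lit 532) (nat_lit 4160563851) (nat_lit 206) (nat_lit 5) (nat_lit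 212) (nat_lit 5) (nat_lit 213) (nat_lit 5) (nat_lit 594) (nat_lit 501) (nat_lit 465))) (XT.nd (nat_lit 78) (nat_lit 532) (nat_lit 0) (XT.lf (nat_lit 0) (nat_lit 2375251079) (nat_lit 456) (nat_lit 6519269906) (nat_lit 532) (nat_lit 531402136) (nat_lit 200) (nat_lit 5) (nat_lit 206) (nat_lit 5) (nat_lit 207) (nat_lit 5) (nat_lit 595) (nat_lit 501) (nat_lit 464)) (XT.nd (nat_lit 78) (nat_lit 0) (nat_lit 0) (XT.lf (nat_lit 0) (nat_lit 178360439) (nat_lit 456) (nat_lit 2940364024) (nat_lit 532) (nat_lit 6397245187) (nat_lit 193) (nat_lit 5) (nat_lit 199) (nat_lit 5) (nat_lit 200) (nat_lit 5) (nat_lit 596) (nat_lit 501) (nat_lit 463)) (XT.lf (nat_lit 0) (nat_lit 6839082914) (nat_lit 532) (nat_lit 2039591239) (nat_lit 76) (nat_lit 728988653) (nat_lit 193) (nat_lit 5) (nat_lit 200) (nat_lit 5) (nat_lit 194) (nat_lit 5) (nat_lit 597) (nat_lit 501) (nat_lit 462)))))) (XT.nd (nat_lit 390) (nat_lit 1672) (nat_lit 0) (XT.nd (nat_lit 156) (nat_lit 836) (nat_lit 0) (XT.nd (nat_lit 78) (nat_lit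 456) (nat_lit 0) (XT.lf (nat_lit 0) (nat_lit 927949613) (nat_lit 456) (nat_lit 4322022898) (nat_lit 76) (nat_lit 4450948483) (nat_lit 187) (nat_lit 5) (nat_lit 193) (nat_lit 5) (nat_lit 188) (nat_lit 5) (nat_lit 598) (nat_lit 501) (nat_lit 461)) (XT.lf (nat_lit 0) (nat_lit 3129676812) (nat_lit 456) (nat_lit 1518989302) (nat_lit 532) (nat_lit 5147268351) (nat_lit 181) (nat_lit 5) (nat_lit 187) (nat_lit 5) (nat_lit 188) (nat_lit 5) (nat_lit 599) (nat_lit 501) (nat_lit 460))) (XT.nd (nat_lit 78) (nat_lit 456) (nat_lit 0) (XT.lf (nat_lit 0) (nat_lit 821576919) (nat_lit 380) (nat_lit 7625099477) (nat_lit 456) (nat_lit 1446116848) (nat_lit 176) (nat_lit 5) (nat_lit 181) (nat_lit 5) (nat_lit 182) (nat_lit 5) (nat_lit 600) (nat_lit 501) (nat_lit 459)) (XT.nd (nat_lit 78) (nat_lit 380) (nat_lit 0) (XT.lf (nat_lit 0) (nat_lit 2307252457) (nat_lit 456) (nat_lit 1537681593) (nat_lit 76) (nat_lit 6146180423) (nat_lit 175) (nat_lit 5) (nat_lit 181) (nat_lit 5) (nat_lit 176) (nat_lit 5)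 (nat_lit 601) (nat_lit 501) (nat_lit 458)) (XT.lf (nat_lit 0) (nat_lit 6111060842) (nat_lit 456) (nat_lit 3943633984) (nat_lit 76) (nat_lit 36623895) (nat_lit 170) (nat_lit 5) (nat_lit 176) (nat_lit 5) (nat_lit 171) (nat_lit 5) (nat_lit 602) (nat_lit 501) (nat_lit 457))))) (XT.nd (nat_lit 156) (nat_lit 836) (nat_lit 0) (XT.nd (nat_lit 78) (nat_lit 456) (nat_lit 0) (XT.lf (nat_lit 0) (nat_lit 3768236273) (nat_lit 380) (nat_lit 6237869546) (nat_lit 456) (nat_lit 187120456) (nat_lit 165) (nat_lit 5) (nat_lit 170) (nat_lit 5) (nat_lit 171) (nat_lit 5) (nat_lit 603) (nat_lit 501) (nat_lit 456)) (XT.lf (nat_lit 0) (nat_lit 1314238985) (nat_lit 380) (nat_lit 2309504465) (nat_lit 456) (nat_lit 6673149713) (nat_lit 159) (nat_lit 5) (nat_lit 164) (nat_lit 5) (nat_lit 165) (nat_lit 5) (nat_lit 604) (nat_lit 501) (nat_lit 455))) (XT.nd (nat_lit 78) (nat_lit 836) (nat_lit 0) (XT.lf (nat_lit 0) (nat_lit 7517991354) (nat_lit 456) (nat_lit 1189317503) (nat_lit 76) (nat_lit 1695108636) (nat_lit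 159) (nat_lit 5) (nat_lit 165) (nat_lit 5) (nat_lit 160) (nat_lit 5) (nat_lit 605) (nat_lit 501) (nat_lit 454)) (XT.nd (nat_lit 78) (nat_lit 380) (nat_lit 0) (XT.lf (nat_lit 0) (nat_lit 982656750) (nat_lit 456) (nat_lit 3751872404) (nat_lit 76) (nat_lit 5775089317) (nat_lit 153) (nat_lit 5) (nat_lit 159) (nat_lit 5) (nat_lit 154) (nat_lit 5) (nat_lit 606) (nat_lit 501) (nat_lit 453)) (XT.lf (nat_lit 0) (nat_lit 4228271778) (nat_lit 380) (nat_lit 651961151) (nat_lit 456) (nat_lit 5738515891) (nat_lit 148) (nat_lit 5) (nat_lit 153) (nat_lit 5) (nat_lit 154) (nat_lit 5) (nat_lit 607) (nat_lit 501) (nat_lit 452))))))) (XT.nd (nat_lit 780) (nat_lit 1748) (nat_lit 0) (XT.nd (nat_lit 390) (nat_lit 1064) (nat_lit 0) (XT.nd (nat_lit 156) (nat_lit 1064) (nat_lit 0) (XT.nd (nat_lit 78) (nat_lit 76) (nat_lit 0) (XT.lf (nat_lit 0) (nat_lit 1618224601) (nat_lit 304) (nat_lit 7252689599) (nat_lit 380) (nat_lit 1858846619) (nat_lit 144) (nat_lit 5) (nat_lit 148) (nat_lit 5) (nat_lit 149)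 (nat_lit 5) (nat_lit 608) (nat_lit 501) (nat_lit 451)) (XT.lf (nat_lit 0) (nat_lit 2074997547) (nat_lit 380) (nat_lit 1056105062) (nat_lit 76) (nat_lit 7711537942) (nat_lit 143) (nat_lit 5) (nat_lit 148) (nat_lit 5) (nat_lit 144) (nat_lit 5) (nat_lit 609) (nat_lit 501) (nat_lit 450))) (XT.nd (nat_lit 78) (nat_lit 684) (nat_lit 0) (XT.lf (nat_lit 0) (nat_lit 6073889170) (nat_lit 456) (nat_lit 3790535054) (nat_lit 76) (nat_lit 1092884693) (nat_lit 138) (nat_lit 5) (nat_lit 144) (nat_lit 5) (nat_lit 139) (nat_lit 5) (nat_lit 610) (nat_lit 501) (nat_lit 449)) (XT.nd (nat_lit 78) (nat_lit 380) (nat_lit 0) (XT.lf (nat_lit 0) (nat_lit 4463719593) (nat_lit 304) (nat_lit 5703587333) (nat_lit 380) (nat_lit 906674712) (nat_lit 134) (nat_lit 5) (nat_lit 138) (nat_lit 5) (nat_lit 139) (nat_lit 5) (nat_lit 611) (nat_lit 501) (nat_lit 448)) (XT.lf (nat_lit 0) (nat_lit 1674859821) (nat_lit 304) (nat_lit 1427723370) (nat_lit 380) (nat_lit 8090111801) (nat_lit 129) (nat_lit 5) (nat_lit 133)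 (nat_lit 5) (nat_lit 134) (nat_lit 5) (nat_lit 612) (nat_lit 501) (nat_lit 447))))) (XT.nd (nat_lit 156) (nat_lit 760) (nat_lit 0) (XT.nd (nat_lit 78) (nat_lit 304) (nat_lit 0) (XT.lf (nat_lit 0) (nat_lit 7201618716) (nat_lit 380) (nat_lit 1191621007) (nat_lit 76) (nat_lit 2919990209) (nat_lit 129) (nat_lit 5) (nat_lit 134) (nat_lit 5) (nat_lit 130) (nat_lit 5) (nat_lit 613) (nat_lit 501) (nat_lit 446)) (XT.lf (nat_lit 0) (nat_lit 7320348393) (nat_lit 304) (nat_lit 4078115467) (nat_lit 380) (nat_lit 37396938) (nat_lit 125) (nat_lit 5) (nat_lit 129) (nat_lit 5) (nat_lit 130) (nat_lit 5) (nat_lit 614) (nat_lit 501) (nat_lit 445))) (XT.nd (nat_lit 78) (nat_lit 380) (nat_lit 0) (XT.lf (nat_lit 0) (nat_lit 4062341898) (nat_lit 380) (nat_lit 7141146372) (nat_lit 76) (nat_lit 356961919) (nat_lit 120) (nat_lit 5) (nat_lit 125) (nat_lit 5) (nat_lit 121) (nat_lit 5) (nat_lit 615) (nat_lit 501) (nat_lit 444)) (XT.nd (nat_lit 78) (nat_lit 76) (nat_lit 0) (XT.lf (nat_lit 0) (nat_lit 1417145308)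 (nat_lit 304) (nat_lit 6849583985) (nat_lit 380) (nat_lit 3420335739) (nat_lit 116) (nat_lit 5) (nat_lit 120) (nat_lit 5) (nat_lit 121) (nat_lit 5) (nat_lit 616) (nat_lit 501) (nat_lit 443)) (XT.lf (nat_lit 0) (nat_lit 736779020) (nat_lit 380) (nat_lit 1644691647) (nat_lit 76) (nat_lit 9434497603) (nat_lit 115) (nat_lit 5) (nat_lit 120) (nat_lit 5) (nat_lit 116) (nat_lit 5) (nat_lit 617) (nat_lit 501) (nat_lit 442)))))) (XT.nd (nat_lit 390) (nat_lit 608) (nat_lit 0) (XT.nd (nat_lit 156) (nat_lit 608) (nat_lit 0) (XT.nd (nat_lit 78) (nat_lit 228) (nat_lit 0) (XT.lf (nat_lit 0) (nat_lit 4952208193) (nat_lit 380) (nat_lit 4803413081) (nat_lit 76) (nat_lit 2190958324) (nat_lit 111) (nat_lit 5) (nat_lit 116) (nat_lit 5) (nat_lit 112) (nat_lit 5) (nat_lit 618) (nat_lit 501) (nat_lit 441)) (XT.lf (nat_lit 0) (nat_lit 4019786232) (nat_lit 228) (nat_lit 5245363927) (nat_lit 304) (nat_lit 2814390480) (nat_lit 108) (nat_lit 5) (nat_lit 111) (nat_lit 5) (nat_lit 112) (nat_lit 5) (nat_lit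 619) (nat_lit 501) (nat_lit 440))) (XT.nd (nat_lit 78) (nat_lit 228) (nat_lit 0) (XT.lf (nat_lit 0) (nat_lit 804296633) (nat_lit 304) (nat_lit 623867739) (nat_lit 380) (nat_lit 10786850242) (nat_lit 103) (nat_lit 5) (nat_lit 107) (nat_lit 5) (nat_lit 108) (nat_lit 5) (nat_lit 620) (nat_lit 501) (nat_lit 439)) (XT.nd (nat_lit 78) (nat_lit 228) (nat_lit 0) (XT.lf (nat_lit 0) (nat_lit 5759404912) (nat_lit 380) (nat_lit 2509636611) (nat_lit 76) (nat_lit 4082955576) (nat_lit 103) (nat_lit 5) (nat_lit 108) (nat_lit 5) (nat_lit 104) (nat_lit 5) (nat_lit 621) (nat_lit 501) (nat_lit 438)) (XT.lf (nat_lit 0) (nat_lit 6586175320) (nat_lit 228) (nat_lit 3599248441) (nat_lit 304) (nat_lit 2306133855) (nat_lit 100) (nat_lit 5) (nat_lit 103) (nat_lit 5) (nat_lit 104) (nat_lit 5) (nat_lit 622) (nat_lit 501) (nat_lit 437))))) (XT.nd (nat_lit 75972) (nat_lit 0) (nat_lit 29944) (XT.nd (nat_lit 78) (nat_lit 228) (nat_lit 0) (XT.lf (nat_lit 0) (nat_lit 2045927917) (nat_lit 380) (nat_lit 9413848017)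 (nat_lit 76) (nat_lit 1173727100) (nat_lit 95) (nat_lit 5) (nat_lit 100) (nat_lit 5) (nat_lit 96) (nat_lit 5) (nat_lit 623) (nat_lit 501) (nat_lit 436)) (XT.nd (nat_lit 78) (nat_lit 228) (nat_lit 0) (XT.lf (nat_lit 0) (nat_lit 6479408982) (nat_lit 380) (nat_lit 275407664) (nat_lit 76) (nat_lit 6022662066) (nat_lit 95) (nat_lit 5) (nat_lit 100) (nat_lit 5) (nat_lit 96) (nat_lit 5) (nat_lit 624) (nat_lit 501) (nat_lit 435)) (XT.lf (nat_lit 0) (nat_lit 9100664200) (nat_lit 228) (nat_lit 1922239469) (nat_lit 304) (nat_lit 1901004696) (nat_lit 92) (nat_lit 5) (nat_lit 95) (nat_lit 5) (nat_lit 96) (nat_lit 5) (nat_lit 625) (nat_lit 501) (nat_lit 434)))) (XT.nd (nat_lit 78) (nat_lit 1824) (nat_lit 0) (XT.lf (nat_lit 0) (nat_lit 630865112) (nat_lit 1748) (nat_lit 2269782960) (nat_lit 0) (nat_lit 630865112) (nat_lit 510) (nat_lit 5) (nat_lit 533) (nat_lit 4) (nat_lit 510) (nat_lit 4) (nat_lit 556) (nat_lit 502) (nat_lit 502)) (XT.nd (nat_lit 78) (nat_lit 76) (nat_lit 0) (XT.lf (nat_lit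 0) (nat_lit 651318237) (nat_lit 1748) (nat_lit 4104663776) (nat_lit 1748) (nat_lit 2342324069) (nat_lit 487) (nat_lit 4) (nat_lit 510) (nat_lit 5) (nat_lit 510) (nat_lit 4) (nat_lit 557) (nat_lit 502) (nat_lit 501)) (XT.lf (nat_lit 0) (nat_lit 1131459402) (nat_lit 1824) (nat_lit 1204575740) (nat_lit 76) (nat_lit 4798886866) (nat_lit 486) (nat_lit 5) (nat_lit 510) (nat_lit 5) (nat_lit 487) (nat_lit 4) (nat_lit 558) (nat_lit 502) (nat_lit 500))))))))
noncomputable def xc31 : XT := (XT.nd (nat_lit 1560) (nat_lit 9500) (nat_lit 0) (XT.nd (nat_lit 780) (nat_lit 5320) (nat_lit 0) (XT.nd (nat_lit 390) (nat_lit 3496) (nat_lit 0) (XT.nd (nat_lit 156) (nat_lit 1900) (nat_lit 0) (XT.nd (nat_lit 78) (nat_lit 1140) (nat_lit 0) (XT.lf (nat_lit 0) (nat_lit 4111936832) (nat_lit 1824) (nat_lit 490026767) (nat_lit 1900) (nat_lit 2570832944) (nat_lit 462) (nat_lit 5) (nat_lit 486) (nat_lit 5) (nat_lit 487) (nat_lit 4) (nat_lit 559) (nat_lit 502) (nat_lit 499)) (XT.lf (nat_lit 0) (nat_lit 882820871)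 (nat_lit 1140) (nat_lit 4927213316) (nat_lit 76) (nat_lit 1401989879) (nat_lit 447) (nat_lit 5) (nat_lit 462) (nat_lit 5) (nat_lit 448) (nat_lit 4) (nat_lit 560) (nat_lit 502) (nat_lit 498))) (XT.nd (nat_lit 78) (nat_lit 988) (nat_lit 0) (XT.lf (nat_lit 0) (nat_lit 442165354) (nat_lit 912) (nat_lit 3888964448) (nat_lit 988) (nat_lit 2921374020) (nat_lit 435) (nat_lit 5) (nat_lit 447) (nat_lit 5) (nat_lit 448) (nat_lit 4) (nat_lit 561) (nat_lit 502) (nat_lit 497)) (XT.nd (nat_lit 78) (nat_lit 912) (nat_lit 0) (XT.lf (nat_lit 0) (nat_lit 514213619) (nat_lit 988) (nat_lit 1382143783) (nat_lit 76) (nat_lit 5398033595) (nat_lit 434) (nat_lit 5) (nat_lit 447) (nat_lit 5) (nat_lit 435) (nat_lit 5) (nat_lit 562) (nat_lit 502) (nat_lit 496)) (XT.lf (nat_lit 0) (nat_lit 3942235607) (nat_lit 988) (nat_lit 3218886860) (nat_lit 76) (nat_lit 176357664) (nat_lit 422) (nat_lit 5) (nat_lit 435) (nat_lit 5) (nat_lit 423) (nat_lit 4) (nat_lit 563) (nat_lit 502) (nat_lit 495))))) (XT.nd (nat_lit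 156) (nat_lit 1748) (nat_lit 0) (XT.nd (nat_lit 78) (nat_lit 836) (nat_lit 0) (XT.lf (nat_lit 0) (nat_lit 29058288) (nat_lit 912) (nat_lit 5067937594) (nat_lit 76) (nat_lit 2284986166) (nat_lit 410) (nat_lit 5) (nat_lit 422) (nat_lit 5) (nat_lit 411) (nat_lit 5) (nat_lit 564) (nat_lit 502) (nat_lit 494)) (XT.lf (nat_lit 0) (nat_lit 487368400) (nat_lit 836) (nat_lit 2950038410) (nat_lit 912) (nat_lit 3990304702) (nat_lit 399) (nat_lit 5) (nat_lit 410) (nat_lit 5) (nat_lit 411) (nat_lit 5) (nat_lit 565) (nat_lit 502) (nat_lit 493))) (XT.nd (nat_lit 78) (nat_lit 1748) (nat_lit 0) (XT.lf (nat_lit 0) (nat_lit 6152222339) (nat_lit 836) (nat_lit 732577530) (nat_lit 912) (nat_lit 590144808) (nat_lit 399) (nat_lit 5) (nat_lit 410) (nat_lit 5) (nat_lit 411) (nat_lit 5) (nat_lit 566) (nat_lit 502) (nat_lit 492)) (XT.nd (nat_lit 78) (nat_lit 836) (nat_lit 0) (XT.lf (nat_lit 0) (nat_lit 2816569268) (nat_lit 912) (nat_lit 3157377943) (nat_lit 76) (nat_lit 1549282046) (nat_lit 387) (nat_lit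 5) (nat_lit 399) (nat_lit 5) (nat_lit 388) (nat_lit 5) (nat_lit 567) (nat_lit 502) (nat_lit 491)) (XT.lf (nat_lit 0) (nat_lit 2568248182) (nat_lit 836) (nat_lit 3684148592) (nat_lit 912) (nat_lit 1320633394) (nat_lit 376) (nat_lit 5) (nat_lit 387) (nat_lit 5) (nat_lit 388) (nat_lit 5) (nat_lit 568) (nat_lit 502) (nat_lit 490)))))) (XT.nd (nat_lit 390) (nat_lit 2128) (nat_lit 0) (XT.nd (nat_lit 156) (nat_lit 2356) (nat_lit 0) (XT.nd (nat_lit 78) (nat_lit 0) (nat_lit 0) (XT.lf (nat_lit 0) (nat_lit 752869584) (nat_lit 760) (nat_lit 1317240974) (nat_lit 836) (nat_lit 5554146126) (nat_lit 365) (nat_lit 5) (nat_lit 375) (nat_lit 5) (nat_lit 376) (nat_lit 5) (nat_lit 569) (nat_lit 502) (nat_lit 489)) (XT.lf (nat_lit 0) (nat_lit 5491369512) (nat_lit 836) (nat_lit 1069894916) (nat_lit 76) (nat_lit 1115466963) (nat_lit 365) (nat_lit 5) (nat_lit 376) (nat_lit 5) (nat_lit 366) (nat_lit 5) (nat_lit 570) (nat_lit 502) (nat_lit 488))) (XT.nd (nat_lit 78) (nat_lit 1520) (nat_lit 0) (XT.lf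 (nat_lit 0) (nat_lit 1214982252) (nat_lit 836) (nat_lit 2906443220) (nat_lit 76) (nat_lit 3609061614) (nat_lit 354) (nat_lit 5) (nat_lit 365) (nat_lit 5) (nat_lit 355) (nat_lit 5) (nat_lit 571) (nat_lit 502) (nat_lit 487)) (XT.nd (nat_lit 78) (nat_lit 836) (nat_lit 0) (XT.lf (nat_lit 0) (nat_lit 3019864645) (nat_lit 684) (nat_lit 1602010893) (nat_lit 760) (nat_lit 3163802946) (nat_lit 345) (nat_lit 5) (nat_lit 354) (nat_lit 5) (nat_lit 355) (nat_lit 5) (nat_lit 572) (nat_lit 502) (nat_lit 486)) (XT.lf (nat_lit 0) (nat_lit 226704701) (nat_lit 836) (nat_lit 6643161419) (nat_lit 76) (nat_lit 972577540) (nat_lit 334) (nat_lit 5) (nat_lit 345) (nat_lit 5) (nat_lit 335) (nat_lit 5) (nat_lit 573) (nat_lit 502) (nat_lit 485))))) (XT.nd (nat_lit 156) (nat_lit 1444) (nat_lit 0) (XT.nd (nat_lit 78) (nat_lit 684) (nat_lit 0) (XT.lf (nat_lit 0) (nat_lit 3627372179) (nat_lit 836) (nat_lit 654551375) (nat_lit 76) (nat_lit 3618313327) (nat_lit 334) (nat_lit 5) (nat_lit 345) (nat_lit 5) (nat_lit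 335) (nat_lit 5) (nat_lit 574) (nat_lit 502) (nat_lit 484)) (XT.lf (nat_lit 0) (nat_lit 5455423370) (nat_lit 684) (nat_lit 1619060784) (nat_lit 760) (nat_lit 885138341) (nat_lit 325) (nat_lit 5) (nat_lit 334) (nat_lit 5) (nat_lit 335) (nat_lit 5) (nat_lit 575) (nat_lit 502) (nat_lit 483))) (XT.nd (nat_lit 78) (nat_lit 684) (nat_lit 0) (XT.lf (nat_lit 0) (nat_lit 2515298103) (nat_lit 760) (nat_lit 4390680023) (nat_lit 76) (nat_lit 1114315558) (nat_lit 315) (nat_lit 5) (nat_lit 325) (nat_lit 5) (nat_lit 316) (nat_lit 5) (nat_lit 576) (nat_lit 502) (nat_lit 482)) (XT.nd (nat_lit 78) (nat_lit 76) (nat_lit 0) (XT.lf (nat_lit 0) (nat_lit 1773947003) (nat_lit 608) (nat_lit 4180979552) (nat_lit 684) (nat_lit 2127478876) (nat_lit 307) (nat_lit 5) (nat_lit 315) (nat_lit 5) (nat_lit 316) (nat_lit 5) (nat_lit 577) (nat_lit 502) (nat_lit 481)) (XT.lf (nat_lit 0) (nat_lit 1274106788) (nat_lit 684) (nat_lit 103646379) (nat_lit 76) (nat_lit 6768363839) (nat_lit 306) (nat_lit 5) (nat_lit 315)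 (nat_lit 5) (nat_lit 307) (nat_lit 5) (nat_lit 578) (nat_lit 502) (nat_lit 480))))))) (XT.nd (nat_lit 780) (nat_lit 4484) (nat_lit 0) (XT.nd (nat_lit 390) (nat_lit 2356) (nat_lit 0) (XT.nd (nat_lit 156) (nat_lit 1368) (nat_lit 0) (XT.nd (nat_lit 78) (nat_lit 608) (nat_lit 0) (XT.lf (nat_lit 0) (nat_lit 4710786539) (nat_lit 760) (nat_lit 1997921908) (nat_lit 76) (nat_lit 1502206701) (nat_lit 297) (nat_lit 5) (nat_lit 307) (nat_lit 5) (nat_lit 298) (nat_lit 5) (nat_lit 579) (nat_lit 502) (nat_lit 479)) (XT.lf (nat_lit 0) (nat_lit 4358158461) (nat_lit 608) (nat_lit 3841923231) (nat_lit 684) (nat_lit 77254410) (nat_lit 289) (nat_lit 5) (nat_lit 297) (nat_lit 5) (nat_lit 298) (nat_lit 5) (nat_lit 580) (nat_lit 502) (nat_lit 478))) (XT.nd (nat_lit 78) (nat_lit 684) (nat_lit 0) (XT.lf (nat_lit 0) (nat_lit 2463169461) (nat_lit 608) (nat_lit 881632357) (nat_lit 684) (nat_lit 5000334623) (nat_lit 280) (nat_lit 5) (nat_lit 288) (nat_lit 5) (nat_lit 289) (nat_lit 5) (nat_lit 581) (nat_lit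 502) (nat_lit 477)) (XT.nd (nat_lit 78) (nat_lit 76) (nat_lit 0) (XT.lf (nat_lit 0) (nat_lit 533953305) (nat_lit 608) (nat_lit 6290641550) (nat_lit 684) (nat_lit 1589885342) (nat_lit 272) (nat_lit 5) (nat_lit 280) (nat_lit 5) (nat_lit 281) (nat_lit 5) (nat_lit 582) (nat_lit 502) (nat_lit 476)) (XT.lf (nat_lit 0) (nat_lit 1856316921) (nat_lit 684) (nat_lit 1416111211) (nat_lit 76) (nat_lit 5212695185) (nat_lit 271) (nat_lit 5) (nat_lit 280) (nat_lit 5) (nat_lit 272) (nat_lit 5) (nat_lit 583) (nat_lit 502) (nat_lit 475))))) (XT.nd (nat_lit 156) (nat_lit 1140) (nat_lit 0) (XT.nd (nat_lit 78) (nat_lit 608) (nat_lit 0) (XT.lf (nat_lit 0) (nat_lit 5164949829) (nat_lit 608) (nat_lit 166547720) (nat_lit 684) (nat_lit 3225848692) (nat_lit 263) (nat_lit 5) (nat_lit 271) (nat_lit 5) (nat_lit 272) (nat_lit 5) (nat_lit 584) (nat_lit 502) (nat_lit 474)) (XT.lf (nat_lit 0) (nat_lit 240132404) (nat_lit 608) (nat_lit 5414285260) (nat_lit 76) (nat_lit 2976604357) (nat_lit 255) (nat_lit 5) (nat_lit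 263) (nat_lit 5) (nat_lit 256) (nat_lit 5) (nat_lit 585) (nat_lit 502) (nat_lit 473))) (XT.nd (nat_lit 78) (nat_lit 608) (nat_lit 0) (XT.lf (nat_lit 0) (nat_lit 1221179418) (nat_lit 532) (nat_lit 2491512235) (nat_lit 608) (nat_lit 4993447908) (nat_lit 248) (nat_lit 5) (nat_lit 255) (nat_lit 5) (nat_lit 256) (nat_lit 5) (nat_lit 586) (nat_lit 502) (nat_lit 472)) (XT.nd (nat_lit 78) (nat_lit 608) (nat_lit 0) (XT.lf (nat_lit 0) (nat_lit 7244941828) (nat_lit 608) (nat_lit 795274002) (nat_lit 76) (nat_lit 742742505) (nat_lit 248) (nat_lit 5) (nat_lit 256) (nat_lit 5) (nat_lit 249) (nat_lit 5) (nat_lit 587) (nat_lit 502) (nat_lit 471)) (XT.lf (nat_lit 0) (nat_lit 1965994306) (nat_lit 608) (nat_lit 2853052499) (nat_lit 76) (nat_lit 4041901772) (nat_lit 240) (nat_lit 5) (nat_lit 248) (nat_lit 5) (nat_lit 241) (nat_lit 5) (nat_lit 588) (nat_lit 502) (nat_lit 470)))))) (XT.nd (nat_lit 390) (nat_lit 2356) (nat_lit 0) (XT.nd (nat_lit 156) (nat_lit 1064) (nat_lit 0) (XT.nd (nat_lit 78)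 (nat_lit 532) (nat_lit 0) (XT.lf (nat_lit 0) (nat_lit 3989830965) (nat_lit 532) (nat_lit 1511056677) (nat_lit 608) (nat_lit 3439783197) (nat_lit 233) (nat_lit 5) (nat_lit 240) (nat_lit 5) (nat_lit 241) (nat_lit 5) (nat_lit 589) (nat_lit 502) (nat_lit 469)) (XT.lf (nat_lit 0) (nat_lit 77738269) (nat_lit 532) (nat_lit 7093085610) (nat_lit 76) (nat_lit 1851268926) (nat_lit 226) (nat_lit 5) (nat_lit 233) (nat_lit 5) (nat_lit 227) (nat_lit 5) (nat_lit 590) (nat_lit 502) (nat_lit 468))) (XT.nd (nat_lit 78) (nat_lit 1064) (nat_lit 0) (XT.lf (nat_lit 0) (nat_lit 3613733515) (nat_lit 532) (nat_lit 194316787) (nat_lit 76) (nat_lit 5296757795) (nat_lit 226) (nat_lit 5) (nat_lit 233) (nat_lit 5) (nat_lit 227) (nat_lit 5) (nat_lit 591) (nat_lit 502) (nat_lit 467)) (XT.nd (nat_lit 78) (nat_lit 532) (nat_lit 0) (XT.lf (nat_lit 0) (nat_lit 6863430638) (nat_lit 532) (nat_lit 353236085) (nat_lit 608) (nat_lit 1972589814) (nat_lit 219) (nat_lit 5) (nat_lit 226) (nat_lit 5) (nat_lit 227) (nat_lit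 5) (nat_lit 592) (nat_lit 502) (nat_lit 466)) (XT.lf (nat_lit 0) (nat_lit 1599937699) (nat_lit 532) (nat_lit 4523749596) (nat_lit 76) (nat_lit 3151402439) (nat_lit 212) (nat_lit 5) (nat_lit 219) (nat_lit 5) (nat_lit 213) (nat_lit 5) (nat_lit 593) (nat_lit 502) (nat_lit 465))))) (XT.nd (nat_lit 234) (nat_lit 1368) (nat_lit 0) (XT.nd (nat_lit 78) (nat_lit 532) (nat_lit 0) (XT.lf (nat_lit 0) (nat_lit 2588121619) (nat_lit 456) (nat_lit 2616459937) (nat_lit 532) (nat_lit 4158058706) (nat_lit 206) (nat_lit 5) (nat_lit 212) (nat_lit 5) (nat_lit 213) (nat_lit 5) (nat_lit 594) (nat_lit 502) (nat_lit 464)) (XT.nd (nat_lit 78) (nat_lit 76) (nat_lit 0) (XT.lf (nat_lit 0) (nat_lit 380856168) (nat_lit 456) (nat_lit 8492278686) (nat_lit 532) (nat_lit 578973573) (nat_lit 200) (nat_lit 5) (nat_lit 206) (nat_lit 5) (nat_lit 207) (nat_lit 5) (nat_lit 595) (nat_lit 502) (nat_lit 463)) (XT.lf (nat_lit 0) (nat_lit 3047209341) (nat_lit 532) (nat_lit 1878946389) (nat_lit 76) (nat_lit 4616498164)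 (nat_lit 199) (nat_lit 5) (nat_lit 206) (nat_lit 5) (nat_lit 200) (nat_lit 5) (nat_lit 596) (nat_lit 502) (nat_lit 462)))) (XT.nd (nat_lit 78) (nat_lit 912) (nat_lit 0) (XT.lf (nat_lit 0) (nat_lit 5456218444) (nat_lit 456) (nat_lit 1271017543) (nat_lit 532) (nat_lit 2907919081) (nat_lit 193) (nat_lit 5) (nat_lit 199) (nat_lit 5) (nat_lit 200) (nat_lit 5) (nat_lit 597) (nat_lit 502) (nat_lit 461)) (XT.nd (nat_lit 78) (nat_lit 456) (nat_lit 0) (XT.lf (nat_lit 0) (nat_lit 744847312) (nat_lit 456) (nat_lit 6543262064) (nat_lit 76) (nat_lit 2441235109) (nat_lit 187) (nat_lit 5) (nat_lit 193) (nat_lit 5) (nat_lit 188) (nat_lit 5) (nat_lit 598) (nat_lit 502) (nat_lit 460)) (XT.lf (nat_lit 0) (nat_lit 844208976) (nat_lit 456) (nat_lit 3583799954) (nat_lit 532) (nat_lit 5397101426) (nat_lit 181) (nat_lit 5) (nat_lit 187) (nat_lit 5) (nat_lit 188) (nat_lit 5) (nat_lit 599) (nat_lit 502) (nat_lit 459))))))))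
noncomputable def xc32 : XT := (XT.nd (nat_lit 1560) (nat_lit 1520) (nat_lit 0) (XT.nd (nat_lit 780) (nat_lit 2660) (nat_lit 0) (XT.nd (nat_lit 390) (nat_lit 1596) (nat_lit 0) (XT.nd (nat_lit 156) (nat_lit 836) (nat_lit 0) (XT.nd (nat_lit 78) (nat_lit 456) (nat_lit 0) (XT.lf (nat_lit 0) (nat_lit 8184712326) (nat_lit 532) (nat_lit 1524841007) (nat_lit 76) (nat_lit 213243214) (nat_lit 181) (nat_lit 5) (nat_lit 188) (nat_lit 5) (nat_lit 182) (nat_lit 5) (nat_lit 600) (nat_lit 502) (nat_lit 458)) (XT.lf (nat_lit 0) (nat_lit 1986520809) (nat_lit 456) (nat_lit 3967084729) (nat_lit 76) (nat_lit 4068203247) (nat_lit 175) (nat_lit 5) (nat_lit 181) (nat_lit 5) (nat_lit 176) (nat_lit 5) (nat_lit 601) (nat_lit 502) (nat_lit 457))) (XT.nd (nat_lit 78) (nat_lit 456) (nat_lit 0) (XT.lf (nat_lit 0) (nat_lit 3651989698) (nat_lit 380) (nat_lit 2099839134) (nat_lit 456) (nat_lit 4370955411) (nat_lit 170) (nat_lit 5) (nat_lit 175) (nat_lit 5) (nat_lit 176) (nat_lit 5) (nat_lit 602) (nat_lit 502)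 (nat_lit 456)) (XT.nd (nat_lit 78) (nat_lit 76) (nat_lit 0) (XT.lf (nat_lit 0) (nat_lit 1186912423) (nat_lit 380) (nat_lit 8407652237) (nat_lit 456) (nat_lit 631174498) (nat_lit 165) (nat_lit 5) (nat_lit 170) (nat_lit 5) (nat_lit 171) (nat_lit 5) (nat_lit 603) (nat_lit 502) (nat_lit 455)) (XT.lf (nat_lit 0) (nat_lit 3155130326) (nat_lit 456) (nat_lit 1347961649) (nat_lit 76) (nat_lit 5826980523) (nat_lit 164) (nat_lit 5) (nat_lit 170) (nat_lit 5) (nat_lit 165) (nat_lit 5) (nat_lit 604) (nat_lit 502) (nat_lit 454))))) (XT.nd (nat_lit 156) (nat_lit 760) (nat_lit 0) (XT.nd (nat_lit 78) (nat_lit 456) (nat_lit 0) (XT.lf (nat_lit 0) (nat_lit 6510573965) (nat_lit 380) (nat_lit 497143111) (nat_lit 456) (nat_lit 3428714086) (nat_lit 159) (nat_lit 5) (nat_lit 164) (nat_lit 5) (nat_lit 165) (nat_lit 5) (nat_lit 605) (nat_lit 502) (nat_lit 453)) (XT.lf (nat_lit 0) (nat_lit 402498977) (nat_lit 456) (nat_lit 6586478222) (nat_lit 76) (nat_lit 3555586851) (nat_lit 153) (nat_lit 5) (nat_lit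 159) (nat_lit 5) (nat_lit 154) (nat_lit 5) (nat_lit 606) (nat_lit 502) (nat_lit 452))) (XT.nd (nat_lit 78) (nat_lit 380) (nat_lit 0) (XT.lf (nat_lit 0) (nat_lit 1322014480) (nat_lit 380) (nat_lit 2937958288) (nat_lit 456) (nat_lit 6394524725) (nat_lit 148) (nat_lit 5) (nat_lit 153) (nat_lit 5) (nat_lit 154) (nat_lit 5) (nat_lit 607) (nat_lit 502) (nat_lit 451)) (XT.nd (nat_lit 78) (nat_lit 380) (nat_lit 0) (XT.lf (nat_lit 0) (nat_lit 8204192495) (nat_lit 456) (nat_lit 1363819176) (nat_lit 76) (nat_lit 1198428077) (nat_lit 148) (nat_lit 5) (nat_lit 154) (nat_lit 5) (nat_lit 149) (nat_lit 5) (nat_lit 608) (nat_lit 502) (nat_lit 450)) (XT.lf (nat_lit 0) (nat_lit 1350734860) (nat_lit 380) (nat_lit 4122221379) (nat_lit 76) (nat_lit 5407057311) (nat_lit 143) (nat_lit 5) (nat_lit 148) (nat_lit 5) (nat_lit 144) (nat_lit 5) (nat_lit 609) (nat_lit 502) (nat_lit 449)))))) (XT.nd (nat_lit 390) (nat_lit 1292) (nat_lit 0) (XT.nd (nat_lit 156) (nat_lit 684) (nat_lit 0) (XT.nd (nat_lit 78)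 (nat_lit 304) (nat_lit 0) (XT.lf (nat_lit 0) (nat_lit 4033750038) (nat_lit 380) (nat_lit 1267654616) (nat_lit 456) (nat_lit 5694242667) (nat_lit 138) (nat_lit 5) (nat_lit 143) (nat_lit 5) (nat_lit 144) (nat_lit 5) (nat_lit 610) (nat_lit 502) (nat_lit 448)) (XT.lf (nat_lit 0) (nat_lit 1224943626) (nat_lit 304) (nat_lit 8120088665) (nat_lit 380) (nat_lit 1768284500) (nat_lit 134) (nat_lit 5) (nat_lit 138) (nat_lit 5) (nat_lit 139) (nat_lit 5) (nat_lit 611) (nat_lit 502) (nat_lit 447))) (XT.nd (nat_lit 78) (nat_lit 608) (nat_lit 0) (XT.lf (nat_lit 0) (nat_lit 2220920900) (nat_lit 380) (nat_lit 1652845160) (nat_lit 76) (nat_lit 7359003931) (nat_lit 133) (nat_lit 5) (nat_lit 138) (nat_lit 5) (nat_lit 134) (nat_lit 5) (nat_lit 612) (nat_lit 502) (nat_lit 446)) (XT.nd (nat_lit 78) (nat_lit 304) (nat_lit 0) (XT.lf (nat_lit 0) (nat_lit 6272755451) (nat_lit 380) (nat_lit 4598958096) (nat_lit 76) (nat_lit 482536298) (nat_lit 129) (nat_lit 5) (nat_lit 134) (nat_lit 5) (nat_lit 130) (nat_lit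 5) (nat_lit 613) (nat_lit 502) (nat_lit 445)) (XT.lf (nat_lit 0) (nat_lit 3834621318) (nat_lit 304) (nat_lit 6592373459) (nat_lit 380) (nat_lit 1050738925) (nat_lit 125) (nat_lit 5) (nat_lit 129) (nat_lit 5) (nat_lit 130) (nat_lit 5) (nat_lit 614) (nat_lit 502) (nat_lit 444))))) (XT.nd (nat_lit 156) (nat_lit 912) (nat_lit 0) (XT.nd (nat_lit 78) (nat_lit 0) (nat_lit 0) (XT.lf (nat_lit 0) (nat_lit 820726398) (nat_lit 304) (nat_lit 2195910148) (nat_lit 380) (nat_lit 8586732044) (nat_lit 120) (nat_lit 5) (nat_lit 124) (nat_lit 5) (nat_lit 125) (nat_lit 5) (nat_lit 615) (nat_lit 502) (nat_lit 443)) (XT.lf (nat_lit 0) (nat_lit 7177737147) (nat_lit 380) (nat_lit 2261501618) (nat_lit 76) (nat_lit 2291611231) (nat_lit 120) (nat_lit 5) (nat_lit 125) (nat_lit 5) (nat_lit 121) (nat_lit 5) (nat_lit 616) (nat_lit 502) (nat_lit 442))) (XT.nd (nat_lit 78) (nat_lit 608) (nat_lit 0) (XT.lf (nat_lit 0) (nat_lit 6434913346) (nat_lit 304) (nat_lit 5004200496) (nat_lit 380) (nat_lit 421427738)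 (nat_lit 116) (nat_lit 5) (nat_lit 120) (nat_lit 5) (nat_lit 121) (nat_lit 5) (nat_lit 617) (nat_lit 502) (nat_lit 441)) (XT.nd (nat_lit 78) (nat_lit 228) (nat_lit 0) (XT.lf (nat_lit 0) (nat_lit 3296804510) (nat_lit 304) (nat_lit 443846829) (nat_lit 380) (nat_lit 8251734613) (nat_lit 111) (nat_lit 5) (nat_lit 115) (nat_lit 5) (nat_lit 116) (nat_lit 5) (nat_lit 618) (nat_lit 502) (nat_lit 440)) (XT.lf (nat_lit 0) (nat_lit 46067910) (nat_lit 228) (nat_lit 7959538607) (nat_lit 304) (nat_lit 4120700974) (nat_lit 108) (nat_lit 5) (nat_lit 111) (nat_lit 5) (nat_lit 112) (nat_lit 5) (nat_lit 619) (nat_lit 502) (nat_lit 439))))))) (XT.nd (nat_lit 76284) (nat_lit 0) (nat_lit 22724) (XT.nd (nat_lit 390) (nat_lit 532) (nat_lit 0) (XT.nd (nat_lit 156) (nat_lit 608) (nat_lit 0) (XT.nd (nat_lit 78) (nat_lit 304) (nat_lit 0) (XT.lf (nat_lit 0) (nat_lit 114501959) (nat_lit 304) (nat_lit 3250615395) (nat_lit 76) (nat_lit 8897324160) (nat_lit 107) (nat_lit 5) (nat_lit 111) (nat_lit 5) (nat_lit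 108) (nat_lit 5) (nat_lit 620) (nat_lit 502) (nat_lit 438)) (XT.lf (nat_lit 0) (nat_lit 4387239068) (nat_lit 380) (nat_lit 6670107319) (nat_lit 76) (nat_lit 1343248400) (nat_lit 103) (nat_lit 5) (nat_lit 108) (nat_lit 5) (nat_lit 104) (nat_lit 5) (nat_lit 621) (nat_lit 502) (nat_lit 437))) (XT.nd (nat_lit 78) (nat_lit 380) (nat_lit 0) (XT.lf (nat_lit 0) (nat_lit 2338182862) (nat_lit 228) (nat_lit 6428692146) (nat_lit 304) (nat_lit 3774208658) (nat_lit 100) (nat_lit 5) (nat_lit 103) (nat_lit 5) (nat_lit 104) (nat_lit 5) (nat_lit 622) (nat_lit 502) (nat_lit 436)) (XT.nd (nat_lit 78) (nat_lit 304) (nat_lit 0) (XT.lf (nat_lit 0) (nat_lit 549667282) (nat_lit 304) (nat_lit 1134634423) (nat_lit 76) (nat_lit 10999867487) (nat_lit 99) (nat_lit 5) (nat_lit 103) (nat_lit 5) (nat_lit 100) (nat_lit 5) (nat_lit 623) (nat_lit 502) (nat_lit 435)) (XT.lf (nat_lit 0) (nat_lit 4946013684) (nat_lit 380) (nat_lit 4716534008) (nat_lit 76) (nat_lit 3166340537) (nat_lit 95) (nat_lit 5) (nat_lit 100)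 (nat_lit 5) (nat_lit 96) (nat_lit 5) (nat_lit 624) (nat_lit 502) (nat_lit 434))))) (XT.nd (nat_lit 75660) (nat_lit 0) (nat_lit 32072) (XT.nd (nat_lit 78) (nat_lit 304) (nat_lit 0) (XT.lf (nat_lit 0) (nat_lit 4568799882) (nat_lit 228) (nat_lit 4872966065) (nat_lit 304) (nat_lit 3534507433) (nat_lit 92) (nat_lit 5) (nat_lit 95) (nat_lit 5) (nat_lit 96) (nat_lit 5) (nat_lit 625) (nat_lit 502) (nat_lit 433)) (XT.lf (nat_lit 0) (nat_lit 890117747) (nat_lit 304) (nat_lit 12206161253) (nat_lit 76) (nat_lit 30189417) (nat_lit 88) (nat_lit 5) (nat_lit 92) (nat_lit 5) (nat_lit 89) (nat_lit 5) (nat_lit 626) (nat_lit 502) (nat_lit 432))) (XT.nd (nat_lit 78) (nat_lit 3344) (nat_lit 0) (XT.lf (nat_lit 0) (nat_lit 1569443130) (nat_lit 1596) (nat_lit 358950347) (nat_lit 0) (nat_lit 1569443130) (nat_lit 554) (nat_lit 5) (nat_lit 575) (nat_lit 4) (nat_lit 554) (nat_lit 4) (nat_lit 554) (nat_lit 503) (nat_lit 503)) (XT.nd (nat_lit 78) (nat_lit 1748) (nat_lit 0) (XT.lf (nat_lit 0) (nat_lit 4387276136)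 (nat_lit 1596) (nat_lit 2237652179) (nat_lit 1596) (nat_lit 404113948) (nat_lit 533) (nat_lit 4) (nat_lit 554) (nat_lit 5) (nat_lit 554) (nat_lit 4) (nat_lit 555) (nat_lit 503) (nat_lit 502)) (XT.lf (nat_lit 0) (nat_lit 2485873791) (nat_lit 1672) (nat_lit 542343299) (nat_lit 1748) (nat_lit 4035435540) (nat_lit 510) (nat_lit 5) (nat_lit 532) (nat_lit 5) (nat_lit 533) (nat_lit 4) (nat_lit 556) (nat_lit 503) (nat_lit 501)))))) (XT.nd (nat_lit 390) (nat_lit 3648) (nat_lit 0) (XT.nd (nat_lit 156) (nat_lit 3876) (nat_lit 0) (XT.nd (nat_lit 78) (nat_lit 76) (nat_lit 0) (XT.lf (nat_lit 0) (nat_lit 581702104) (nat_lit 1748) (nat_lit 5902851481) (nat_lit 1748) (nat_lit 615141248) (nat_lit 487) (nat_lit 4) (nat_lit 510) (nat_lit 5) (nat_lit 510) (nat_lit 4) (nat_lit 557) (nat_lit 503) (nat_lit 500)) (XT.lf (nat_lit 0) (nat_lit 2802268146) (nat_lit 1824) (nat_lit 1321034484) (nat_lit 76) (nat_lit 3013462304) (nat_lit 486) (nat_lit 5) (nat_lit 510) (nat_lit 5) (nat_lit 487) (nat_lit 4)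 (nat_lit 558) (nat_lit 503) (nat_lit 499))) (XT.nd (nat_lit 78) (nat_lit 2052) (nat_lit 0) (XT.lf (nat_lit 0) (nat_lit 3959915830) (nat_lit 1824) (nat_lit 2278808941) (nat_lit 1900) (nat_lit 936599596) (nat_lit 462) (nat_lit 5) (nat_lit 486) (nat_lit 5) (nat_lit 487) (nat_lit 4) (nat_lit 559) (nat_lit 503) (nat_lit 498)) (XT.nd (nat_lit 78) (nat_lit 912) (nat_lit 0) (XT.lf (nat_lit 0) (nat_lit 2092627622) (nat_lit 1064) (nat_lit 359612130) (nat_lit 1140) (nat_lit 4762971340) (nat_lit 447) (nat_lit 5) (nat_lit 461) (nat_lit 5) (nat_lit 462) (nat_lit 5) (nat_lit 560) (nat_lit 503) (nat_lit 497)) (XT.lf (nat_lit 0) (nat_lit 211899646) (nat_lit 912) (nat_lit 5652389177) (nat_lit 988) (nat_lit 1392130936) (nat_lit 435) (nat_lit 5) (nat_lit 447) (nat_lit 5) (nat_lit 448) (nat_lit 4) (nat_lit 561) (nat_lit 503) (nat_lit 496))))) (XT.nd (nat_lit 234) (nat_lit 1748) (nat_lit 0) (XT.nd (nat_lit 78) (nat_lit 1824) (nat_lit 0) (XT.lf (nat_lit 0) (nat_lit 1991170036) (nat_lit 988) (nat_lit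 1660671535) (nat_lit 76) (nat_lit 3646914966) (nat_lit 434) (nat_lit 5) (nat_lit 447) (nat_lit 5) (nat_lit 435) (nat_lit 5) (nat_lit 562) (nat_lit 503) (nat_lit 495)) (XT.nd (nat_lit 78) (nat_lit 912) (nat_lit 0) (XT.lf (nat_lit 0) (nat_lit 3803356668) (nat_lit 912) (nat_lit 1581022298) (nat_lit 988) (nat_lit 1958166465) (nat_lit 422) (nat_lit 5) (nat_lit 434) (nat_lit 5) (nat_lit 435) (nat_lit 5) (nat_lit 563) (nat_lit 503) (nat_lit 494)) (XT.lf (nat_lit 0) (nat_lit 1403254880) (nat_lit 912) (nat_lit 5431665285) (nat_lit 76) (nat_lit 552824620) (nat_lit 410) (nat_lit 5) (nat_lit 422) (nat_lit 5) (nat_lit 411) (nat_lit 5) (nat_lit 564) (nat_lit 503) (nat_lit 493)))) (XT.nd (nat_lit 78) (nat_lit 912) (nat_lit 0) (XT.lf (nat_lit 0) (nat_lit 84027057) (nat_lit 836) (nat_lit 4693930448) (nat_lit 912) (nat_lit 2656192961) (nat_lit 399) (nat_lit 5) (nat_lit 410) (nat_lit 5) (nat_lit 411) (nat_lit 5) (nat_lit 565) (nat_lit 503) (nat_lit 492)) (XT.nd (nat_lit 78) (nat_lit 836) (nat_lit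 0) (XT.lf (nat_lit 0) (nat_lit 703363417) (nat_lit 912) (nat_lit 1771844007) (nat_lit 76) (nat_lit 5006699697) (nat_lit 398) (nat_lit 5) (nat_lit 410) (nat_lit 5) (nat_lit 399) (nat_lit 5) (nat_lit 566) (nat_lit 503) (nat_lit 491)) (XT.lf (nat_lit 0) (nat_lit 3882991023) (nat_lit 836) (nat_lit 175709993) (nat_lit 912) (nat_lit 3472289895) (nat_lit 387) (nat_lit 5) (nat_lit 398) (nat_lit 5) (nat_lit 399) (nat_lit 5) (nat_lit 567) (nat_lit 503) (nat_lit 490))))))))
noncomputable def xc33 : XT := (XT.nd (nat_lit 1560) (nat_lit 7600) (nat_lit 0) (XT.nd (nat_lit 780) (nat_lit 4484) (nat_lit 0) (XT.nd (nat_lit 390) (nat_lit 2888) (nat_lit 0) (XT.nd (nat_lit 156) (nat_lit 1520) (nat_lit 0) (XT.nd (nat_lit 78) (nat_lit 836) (nat_lit 0) (XT.lf (nat_lit 0) (nat_lit 2037619949) (nat_lit 836) (nat_lit 5422431555) (nat_lit 912) (nat_lit 121432907) (nat_lit 376) (nat_lit 5) (nat_lit 387) (nat_lit 5) (nat_lit 388) (nat_lit 5) (nat_lit 568) (nat_lit 503) (nat_lit 489)) (XT.lf (nat_lit 0)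 (nat_lit 163916018) (nat_lit 760) (nat_lit 3056119524) (nat_lit 836) (nat_lit 4413193549) (nat_lit 365) (nat_lit 5) (nat_lit 375) (nat_lit 5) (nat_lit 376) (nat_lit 5) (nat_lit 569) (nat_lit 503) (nat_lit 488))) (XT.nd (nat_lit 78) (nat_lit 1520) (nat_lit 0) (XT.lf (nat_lit 0) (nat_lit 5991233483) (nat_lit 760) (nat_lit 613359714) (nat_lit 836) (nat_lit 1081847499) (nat_lit 365) (nat_lit 5) (nat_lit 375) (nat_lit 5) (nat_lit 376) (nat_lit 5) (nat_lit 570) (nat_lit 503) (nat_lit 487)) (XT.nd (nat_lit 78) (nat_lit 684) (nat_lit 0) (XT.lf (nat_lit 0) (nat_lit 2266664148) (nat_lit 836) (nat_lit 3587869320) (nat_lit 76) (nat_lit 1886269583) (nat_lit 354) (nat_lit 5) (nat_lit 365) (nat_lit 5) (nat_lit 355) (nat_lit 5) (nat_lit 571) (nat_lit 503) (nat_lit 486)) (XT.lf (nat_lit 0) (nat_lit 2294755089) (nat_lit 684) (nat_lit 3345431496) (nat_lit 760) (nat_lit 2156477987) (nat_lit 345) (nat_lit 5) (nat_lit 354) (nat_lit 5) (nat_lit 355) (nat_lit 5) (nat_lit 572) (nat_lit 503) (nat_lit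 485))))) (XT.nd (nat_lit 156) (nat_lit 2052) (nat_lit 0) (XT.nd (nat_lit 78) (nat_lit 0) (nat_lit 0) (XT.lf (nat_lit 0) (nat_lit 418517220) (nat_lit 760) (nat_lit 762279503) (nat_lit 836) (nat_lit 6673305256) (nat_lit 334) (nat_lit 5) (nat_lit 344) (nat_lit 5) (nat_lit 345) (nat_lit 5) (nat_lit 573) (nat_lit 503) (nat_lit 484)) (XT.lf (nat_lit 0) (nat_lit 4548302562) (nat_lit 836) (nat_lit 1476657351) (nat_lit 76) (nat_lit 1887601069) (nat_lit 334) (nat_lit 5) (nat_lit 345) (nat_lit 5) (nat_lit 335) (nat_lit 5) (nat_lit 574) (nat_lit 503) (nat_lit 483))) (XT.nd (nat_lit 78) (nat_lit 1368) (nat_lit 0) (XT.lf (nat_lit 0) (nat_lit 4587988018) (nat_lit 684) (nat_lit 3374135323) (nat_lit 760) (nat_lit 10491580) (nat_lit 325) (nat_lit 5) (nat_lit 334) (nat_lit 5) (nat_lit 335) (nat_lit 5) (nat_lit 575) (nat_lit 503) (nat_lit 482)) (XT.nd (nat_lit 78) (nat_lit 608) (nat_lit 0) (XT.lf (nat_lit 0) (nat_lit 2704658160) (nat_lit 684) (nat_lit 632911217) (nat_lit 760) (nat_lit 4696423647)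 (nat_lit 315) (nat_lit 5) (nat_lit 324) (nat_lit 5) (nat_lit 325) (nat_lit 5) (nat_lit 576) (nat_lit 503) (nat_lit 481)) (XT.lf (nat_lit 0) (nat_lit 792148733) (nat_lit 608) (nat_lit 5947322333) (nat_lit 684) (nat_lit 1357390598) (nat_lit 307) (nat_lit 5) (nat_lit 315) (nat_lit 5) (nat_lit 316) (nat_lit 5) (nat_lit 577) (nat_lit 503) (nat_lit 480)))))) (XT.nd (nat_lit 390) (nat_lit 2432) (nat_lit 0) (XT.nd (nat_lit 156) (nat_lit 1292) (nat_lit 0) (XT.nd (nat_lit 78) (nat_lit 684) (nat_lit 0) (XT.lf (nat_lit 0) (nat_lit 2006984043) (nat_lit 684) (nat_lit 1139413450) (nat_lit 76) (nat_lit 5014620236) (nat_lit 306) (nat_lit 5) (nat_lit 315) (nat_lit 5) (nat_lit 307) (nat_lit 5) (nat_lit 578) (nat_lit 503) (nat_lit 479)) (XT.lf (nat_lit 0) (nat_lit 5139256380) (nat_lit 684) (nat_lit 260908028) (nat_lit 760) (nat_lit 2826523670) (nat_lit 297) (nat_lit 5) (nat_lit 306) (nat_lit 5) (nat_lit 307) (nat_lit 5) (nat_lit 579) (nat_lit 503) (nat_lit 478))) (XT.nd (nat_lit 78) (nat_lit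 608) (nat_lit 0) (XT.lf (nat_lit 0) (nat_lit 552893444) (nat_lit 684) (nat_lit 5076116973) (nat_lit 76) (nat_lit 2664736028) (nat_lit 288) (nat_lit 5) (nat_lit 297) (nat_lit 5) (nat_lit 289) (nat_lit 5) (nat_lit 580) (nat_lit 503) (nat_lit 477)) (XT.nd (nat_lit 78) (nat_lit 0) (nat_lit 0) (XT.lf (nat_lit 0) (nat_lit 1255672596) (nat_lit 608) (nat_lit 2684221495) (nat_lit 684) (nat_lit 4422325602) (nat_lit 280) (nat_lit 5) (nat_lit 288) (nat_lit 5) (nat_lit 289) (nat_lit 5) (nat_lit 581) (nat_lit 503) (nat_lit 476)) (XT.lf (nat_lit 0) (nat_lit 7378554808) (nat_lit 684) (nat_lit 720388128) (nat_lit 76) (nat_lit 333445211) (nat_lit 280) (nat_lit 5) (nat_lit 289) (nat_lit 5) (nat_lit 281) (nat_lit 5) (nat_lit 582) (nat_lit 503) (nat_lit 475))))) (XT.nd (nat_lit 156) (nat_lit 1140) (nat_lit 0) (XT.nd (nat_lit 78) (nat_lit 608) (nat_lit 0) (XT.lf (nat_lit 0) (nat_lit 2354720547) (nat_lit 684) (nat_lit 2736058751) (nat_lit 76) (nat_lit 3412796690) (nat_lit 271) (nat_lit 5) (nat_lit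 280) (nat_lit 5) (nat_lit 272) (nat_lit 5) (nat_lit 583) (nat_lit 503) (nat_lit 474)) (XT.lf (nat_lit 0) (nat_lit 3793107615) (nat_lit 608) (nat_lit 2002546282) (nat_lit 684) (nat_lit 2780831894) (nat_lit 263) (nat_lit 5) (nat_lit 271) (nat_lit 5) (nat_lit 272) (nat_lit 5) (nat_lit 584) (nat_lit 503) (nat_lit 473))) (XT.nd (nat_lit 78) (nat_lit 532) (nat_lit 0) (XT.lf (nat_lit 0) (nat_lit 632668065) (nat_lit 608) (nat_lit 6868904527) (nat_lit 76) (nat_lit 1149465945) (nat_lit 255) (nat_lit 5) (nat_lit 263) (nat_lit 5) (nat_lit 256) (nat_lit 5) (nat_lit 585) (nat_lit 503) (nat_lit 472)) (XT.nd (nat_lit 78) (nat_lit 532) (nat_lit 0) (XT.lf (nat_lit 0) (nat_lit 4072286508) (nat_lit 608) (nat_lit 283692396) (nat_lit 76) (nat_lit 4370837809) (nat_lit 255) (nat_lit 5) (nat_lit 263) (nat_lit 5) (nat_lit 256) (nat_lit 5) (nat_lit 586) (nat_lit 503) (nat_lit 471)) (XT.lf (nat_lit 0) (nat_lit 6450015269) (nat_lit 532) (nat_lit 1123026062) (nat_lit 608) (nat_lit 1231225850) (nat_lit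 248) (nat_lit 5) (nat_lit 255) (nat_lit 5) (nat_lit 256) (nat_lit 5) (nat_lit 587) (nat_lit 503) (nat_lit 470))))))) (XT.nd (nat_lit 780) (nat_lit 3420) (nat_lit 0) (XT.nd (nat_lit 390) (nat_lit 1976) (nat_lit 0) (XT.nd (nat_lit 156) (nat_lit 1064) (nat_lit 0) (XT.nd (nat_lit 78) (nat_lit 532) (nat_lit 0) (XT.lf (nat_lit 0) (nat_lit 2226442799) (nat_lit 608) (nat_lit 4483446063) (nat_lit 76) (nat_lit 2173176810) (nat_lit 240) (nat_lit 5) (nat_lit 248) (nat_lit 5) (nat_lit 241) (nat_lit 5) (nat_lit 588) (nat_lit 503) (nat_lit 469)) (XT.lf (nat_lit 0) (nat_lit 2303446490) (nat_lit 532) (nat_lit 3422722123) (nat_lit 608) (nat_lit 3237324354) (nat_lit 233) (nat_lit 5) (nat_lit 240) (nat_lit 5) (nat_lit 241) (nat_lit 5) (nat_lit 589) (nat_lit 503) (nat_lit 468))) (XT.nd (nat_lit 78) (nat_lit 532) (nat_lit 0) (XT.lf (nat_lit 0) (nat_lit 173752662) (nat_lit 456) (nat_lit 56010504) (nat_lit 532) (nat_lit 8816082667) (nat_lit 226) (nat_lit 5) (nat_lit 232) (nat_lit 5) (nat_lit 233)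 (nat_lit 5) (nat_lit 590) (nat_lit 503) (nat_lit 467)) (XT.nd (nat_lit 78) (nat_lit 532) (nat_lit 0) (XT.lf (nat_lit 0) (nat_lit 3741462138) (nat_lit 532) (nat_lit 2007124999) (nat_lit 76) (nat_lit 3380461500) (nat_lit 226) (nat_lit 5) (nat_lit 233) (nat_lit 5) (nat_lit 227) (nat_lit 5) (nat_lit 591) (nat_lit 503) (nat_lit 466)) (XT.lf (nat_lit 0) (nat_lit 4992591616) (nat_lit 532) (nat_lit 2316193651) (nat_lit 608) (nat_lit 1905425565) (nat_lit 219) (nat_lit 5) (nat_lit 226) (nat_lit 5) (nat_lit 227) (nat_lit 5) (nat_lit 592) (nat_lit 503) (nat_lit 465))))) (XT.nd (nat_lit 156) (nat_lit 988) (nat_lit 0) (XT.nd (nat_lit 78) (nat_lit 456) (nat_lit 0) (XT.lf (nat_lit 0) (nat_lit 1617258009) (nat_lit 532) (nat_lit 6491987580) (nat_lit 76) (nat_lit 1191770474) (nat_lit 212) (nat_lit 5) (nat_lit 219) (nat_lit 5) (nat_lit 213) (nat_lit 5) (nat_lit 593) (nat_lit 503) (nat_lit 464)) (XT.lf (nat_lit 0) (nat_lit 559515178) (nat_lit 456) (nat_lit 4626016294) (nat_lit 532) (nat_lit 4203763992)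 (nat_lit 206) (nat_lit 5) (nat_lit 212) (nat_lit 5) (nat_lit 213) (nat_lit 5) (nat_lit 594) (nat_lit 503) (nat_lit 463))) (XT.nd (nat_lit 78) (nat_lit 988) (nat_lit 0) (XT.lf (nat_lit 0) (nat_lit 7772296191) (nat_lit 456) (nat_lit 1050055192) (nat_lit 532) (nat_lit 657048351) (nat_lit 206) (nat_lit 5) (nat_lit 212) (nat_lit 5) (nat_lit 213) (nat_lit 5) (nat_lit 595) (nat_lit 503) (nat_lit 462)) (XT.nd (nat_lit 78) (nat_lit 456) (nat_lit 0) (XT.lf (nat_lit 0) (nat_lit 2929085004) (nat_lit 532) (nat_lit 4043725519) (nat_lit 76) (nat_lit 2597967667) (nat_lit 199) (nat_lit 5) (nat_lit 206) (nat_lit 5) (nat_lit 200) (nat_lit 5) (nat_lit 596) (nat_lit 503) (nat_lit 461)) (XT.lf (nat_lit 0) (nat_lit 3228878399) (nat_lit 456) (nat_lit 3343271345) (nat_lit 532) (nat_lit 3091870211) (nat_lit 193) (nat_lit 5) (nat_lit 199) (nat_lit 5) (nat_lit 200) (nat_lit 5) (nat_lit 597) (nat_lit 503) (nat_lit 460)))))) (XT.nd (nat_lit 390) (nat_lit 1672) (nat_lit 0) (XT.nd (nat_lit 156) (nat_lit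 1292) (nat_lit 0) (XT.nd (nat_lit 78) (nat_lit 0) (nat_lit 0) (XT.lf (nat_lit 0) (nat_lit 512196424) (nat_lit 456) (nat_lit 8878119798) (nat_lit 76) (nat_lit 368940586) (nat_lit 187) (nat_lit 5) (nat_lit 193) (nat_lit 5) (nat_lit 188) (nat_lit 5) (nat_lit 598) (nat_lit 503) (nat_lit 459)) (XT.lf (nat_lit 0) (nat_lit 4167606181) (nat_lit 456) (nat_lit 1535303404) (nat_lit 76) (nat_lit 4152669405) (nat_lit 187) (nat_lit 5) (nat_lit 193) (nat_lit 5) (nat_lit 188) (nat_lit 5) (nat_lit 599) (nat_lit 503) (nat_lit 458))) (XT.nd (nat_lit 78) (nat_lit 836) (nat_lit 0) (XT.lf (nat_lit 0) (nat_lit 5966109005) (nat_lit 456) (nat_lit 1924646352) (nat_lit 532) (nat_lit 2063182158) (nat_lit 181) (nat_lit 5) (nat_lit 187) (nat_lit 5) (nat_lit 188) (nat_lit 5) (nat_lit 600) (nat_lit 503) (nat_lit 457)) (XT.nd (nat_lit 78) (nat_lit 380) (nat_lit 0) (XT.lf (nat_lit 0) (nat_lit 1614825222) (nat_lit 456) (nat_lit 6513357900) (nat_lit 76) (nat_lit 1925827275) (nat_lit 175) (nat_lit 5) (nat_lit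 181) (nat_lit 5) (nat_lit 176) (nat_lit 5) (nat_lit 601) (nat_lit 503) (nat_lit 456)) (XT.lf (nat_lit 0) (nat_lit 1038297328) (nat_lit 380) (nat_lit 4303244415) (nat_lit 456) (nat_lit 4814217121) (nat_lit 170) (nat_lit 5) (nat_lit 175) (nat_lit 5) (nat_lit 176) (nat_lit 5) (nat_lit 602) (nat_lit 503) (nat_lit 455))))) (XT.nd (nat_lit 234) (nat_lit 836) (nat_lit 0) (XT.nd (nat_lit 78) (nat_lit 836) (nat_lit 0) (XT.lf (nat_lit 0) (nat_lit 8762773247) (nat_lit 380) (nat_lit 380476225) (nat_lit 456) (nat_lit 1116286023) (nat_lit 170) (nat_lit 5) (nat_lit 175) (nat_lit 5) (nat_lit 176) (nat_lit 5) (nat_lit 603) (nat_lit 503) (nat_lit 454)) (XT.nd (nat_lit 78) (nat_lit 380) (nat_lit 0) (XT.lf (nat_lit 0) (nat_lit 2642576901) (nat_lit 456) (nat_lit 4113179243) (nat_lit 76) (nat_lit 3608852880) (nat_lit 164) (nat_lit 5) (nat_lit 170) (nat_lit 5) (nat_lit 165) (nat_lit 5) (nat_lit 604) (nat_lit 503) (nat_lit 453)) (XT.lf (nat_lit 0) (nat_lit 3675483809) (nat_lit 380) (nat_lit 2780271000)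 (nat_lit 456) (nat_lit 4016002144) (nat_lit 159) (nat_lit 5) (nat_lit 164) (nat_lit 5) (nat_lit 165) (nat_lit 5) (nat_lit 605) (nat_lit 503) (nat_lit 452)))) (XT.nd (nat_lit 78) (nat_lit 456) (nat_lit 0) (XT.lf (nat_lit 0) (nat_lit 1033992951) (nat_lit 380) (nat_lit 9311807096) (nat_lit 456) (nat_lit 235237874) (nat_lit 154) (nat_lit 5) (nat_lit 159) (nat_lit 5) (nat_lit 160) (nat_lit 5) (nat_lit 606) (nat_lit 503) (nat_lit 451)) (XT.nd (nat_lit 78) (nat_lit 380) (nat_lit 0) (XT.lf (nat_lit 0) (nat_lit 3595921004) (nat_lit 456) (nat_lit 1687241242) (nat_lit 76) (nat_lit 5408428693) (nat_lit 153) (nat_lit 5) (nat_lit 159) (nat_lit 5) (nat_lit 154) (nat_lit 5) (nat_lit 607) (nat_lit 503) (nat_lit 450)) (XT.lf (nat_lit 0) (nat_lit 6346322850) (nat_lit 380) (nat_lit 1154212620) (nat_lit 456) (nat_lit 3303790835) (nat_lit 148) (nat_lit 5) (nat_lit 153) (nat_lit 5) (nat_lit 154) (nat_lit 5) (nat_lit 608) (nat_lit 503) (nat_lit 449))))))))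
noncomputable def xc34 : XT := (XT.nd (nat_lit 76908) (nat_lit 0) (nat_lit 18392) (XT.nd (nat_lit 780) (nat_lit 1748) (nat_lit 0) (XT.nd (nat_lit 390) (nat_lit 1064) (nat_lit 0) (XT.nd (nat_lit 156) (nat_lit 684) (nat_lit 0) (XT.nd (nat_lit 78) (nat_lit 380) (nat_lit 0) (XT.lf (nat_lit 0) (nat_lit 570289042) (nat_lit 380) (nat_lit 7316431093) (nat_lit 76) (nat_lit 3032249784) (nat_lit 143) (nat_lit 5) (nat_lit 148) (nat_lit 5) (nat_lit 144) (nat_lit 5) (nat_lit 609) (nat_lit 503) (nat_lit 448)) (XT.lf (nat_lit 0) (nat_lit 764253440) (nat_lit 380) (nat_lit 3715239898) (nat_lit 456) (nat_lit 6555940610) (nat_lit 138) (nat_lit 5) (nat_lit 143) (nat_lit 5) (nat_lit 144) (nat_lit 5) (nat_lit 610) (nat_lit 503) (nat_lit 447))) (XT.nd (nat_lit 78) (nat_lit 684) (nat_lit 0) (XT.lf (nat_lit 0) (nat_lit 8479147675) (nat_lit 456) (nat_lit 2117030335) (nat_lit 76) (nat_lit 557805803) (nat_lit 138) (nat_lit 5) (nat_lit 144) (nat_lit 5) (nat_lit 139) (nat_lit 5) (nat_lit 611) (nat_lit 503)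 (nat_lit 446)) (XT.nd (nat_lit 78) (nat_lit 304) (nat_lit 0) (XT.lf (nat_lit 0) (nat_lit 1292161949) (nat_lit 380) (nat_lit 5090491255) (nat_lit 76) (nat_lit 4891584360) (nat_lit 133) (nat_lit 5) (nat_lit 138) (nat_lit 5) (nat_lit 134) (nat_lit 5) (nat_lit 612) (nat_lit 503) (nat_lit 445)) (XT.lf (nat_lit 0) (nat_lit 3242842994) (nat_lit 304) (nat_lit 2055469584) (nat_lit 380) (nat_lit 6098319393) (nat_lit 129) (nat_lit 5) (nat_lit 133) (nat_lit 5) (nat_lit 134) (nat_lit 5) (nat_lit 613) (nat_lit 503) (nat_lit 444))))) (XT.nd (nat_lit 156) (nat_lit 684) (nat_lit 0) (XT.nd (nat_lit 78) (nat_lit 76) (nat_lit 0) (XT.lf (nat_lit 0) (nat_lit 213612343) (nat_lit 304) (nat_lit 9182501582) (nat_lit 380) (nat_lit 2125131520) (nat_lit 125) (nat_lit 5) (nat_lit 129) (nat_lit 5) (nat_lit 130) (nat_lit 5) (nat_lit 614) (nat_lit 503) (nat_lit 443)) (XT.lf (nat_lit 0) (nat_lit 1931471604) (nat_lit 380) (nat_lit 2879665688) (nat_lit 76) (nat_lit 6836380644) (nat_lit 124) (nat_lit 5) (nat_lit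 129) (nat_lit 5) (nat_lit 125) (nat_lit 5) (nat_lit 615) (nat_lit 503) (nat_lit 442))) (XT.nd (nat_lit 78) (nat_lit 380) (nat_lit 0) (XT.lf (nat_lit 0) (nat_lit 5714192976) (nat_lit 304) (nat_lit 324999265) (nat_lit 380) (nat_lit 5736875507) (nat_lit 120) (nat_lit 5) (nat_lit 124) (nat_lit 5) (nat_lit 125) (nat_lit 5) (nat_lit 616) (nat_lit 503) (nat_lit 441)) (XT.nd (nat_lit 78) (nat_lit 76) (nat_lit 0) (XT.lf (nat_lit 0) (nat_lit 2554206365) (nat_lit 304) (nat_lit 7699997856) (nat_lit 380) (nat_lit 1652483199) (nat_lit 116) (nat_lit 5) (nat_lit 120) (nat_lit 5) (nat_lit 121) (nat_lit 5) (nat_lit 617) (nat_lit 503) (nat_lit 440)) (XT.lf (nat_lit 0) (nat_lit 2485322229) (nat_lit 380) (nat_lit 696887330) (nat_lit 76) (nat_lit 8857291235) (nat_lit 115) (nat_lit 5) (nat_lit 120) (nat_lit 5) (nat_lit 116) (nat_lit 5) (nat_lit 618) (nat_lit 503) (nat_lit 439)))))) (XT.nd (nat_lit 390) (nat_lit 608) (nat_lit 0) (XT.nd (nat_lit 156) (nat_lit 608) (nat_lit 0) (XT.nd (nat_lit 78) (nat_lit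 228) (nat_lit 0) (XT.lf (nat_lit 0) (nat_lit 6708657392) (nat_lit 380) (nat_lit 4018568331) (nat_lit 76) (nat_lit 1447029758) (nat_lit 111) (nat_lit 5) (nat_lit 116) (nat_lit 5) (nat_lit 112) (nat_lit 5) (nat_lit 619) (nat_lit 503) (nat_lit 438)) (XT.lf (nat_lit 0) (nat_lit 4863079985) (nat_lit 228) (nat_lit 6173253416) (nat_lit 304) (nat_lit 1274975856) (nat_lit 108) (nat_lit 5) (nat_lit 111) (nat_lit 5) (nat_lit 112) (nat_lit 5) (nat_lit 620) (nat_lit 503) (nat_lit 437))) (XT.nd (nat_lit 78) (nat_lit 228) (nat_lit 0) (XT.lf (nat_lit 0) (nat_lit 1462974845) (nat_lit 304) (nat_lit 1496390330) (nat_lit 380) (nat_lit 9491365971) (nat_lit 103) (nat_lit 5) (nat_lit 107) (nat_lit 5) (nat_lit 108) (nat_lit 5) (nat_lit 621) (nat_lit 503) (nat_lit 436)) (XT.nd (nat_lit 78) (nat_lit 228) (nat_lit 0) (XT.lf (nat_lit 0) (nat_lit 7295671069) (nat_lit 380) (nat_lit 2031601116) (nat_lit 76) (nat_lit 3264815131) (nat_lit 103) (nat_lit 5) (nat_lit 108) (nat_lit 5) (nat_lit 104) (nat_lit 5)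 (nat_lit 622) (nat_lit 503) (nat_lit 435)) (XT.lf (nat_lit 0) (nat_lit 7125460735) (nat_lit 228) (nat_lit 4612909963) (nat_lit 304) (nat_lit 997507925) (nat_lit 100) (nat_lit 5) (nat_lit 103) (nat_lit 5) (nat_lit 104) (nat_lit 5) (nat_lit 623) (nat_lit 503) (nat_lit 434))))) (XT.nd (nat_lit 156) (nat_lit 228) (nat_lit 0) (XT.nd (nat_lit 78) (nat_lit 0) (nat_lit 0) (XT.lf (nat_lit 0) (nat_lit 3344947000) (nat_lit 380) (nat_lit 9309712430) (nat_lit 76) (nat_lit 227407888) (nat_lit 95) (nat_lit 5) (nat_lit 100) (nat_lit 5) (nat_lit 96) (nat_lit 5) (nat_lit 624) (nat_lit 503) (nat_lit 433)) (XT.lf (nat_lit 0) (nat_lit 7793076218) (nat_lit 380) (nat_lit 114987170) (nat_lit 76) (nat_lit 5122342180) (nat_lit 95) (nat_lit 5) (nat_lit 100) (nat_lit 5) (nat_lit 96) (nat_lit 5) (nat_lit 625) (nat_lit 503) (nat_lit 432))) (XT.nd (nat_lit 75426) (nat_lit 0) (nat_lit 35112) (XT.lf (nat_lit 0) (nat_lit 9325159467) (nat_lit 228) (nat_lit 3029987085) (nat_lit 304) (nat_lit 826065723) (nat_lit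 92) (nat_lit 5) (nat_lit 95) (nat_lit 5) (nat_lit 96) (nat_lit 5) (nat_lit 626) (nat_lit 503) (nat_lit 431)) (XT.nd (nat_lit 78) (nat_lit 1596) (nat_lit 0) (XT.lf (nat_lit 0) (nat_lit 1603999529) (nat_lit 1444) (nat_lit 931058680) (nat_lit 1444) (nat_lit 931058680) (nat_lit 575) (nat_lit 4) (nat_lit 594) (nat_lit 5) (nat_lit 594) (nat_lit 4) (nat_lit 552) (nat_lit 504) (nat_lit 504)) (XT.lf (nat_lit 0) (nat_lit 1229120294) (nat_lit 1520) (nat_lit 323718056) (nat_lit 1596) (nat_lit 5410900277) (nat_lit 554) (nat_lit 5) (nat_lit 574) (nat_lit 5) (nat_lit 575) (nat_lit 4) (nat_lit 553) (nat_lit 504) (nat_lit 503))))))) (XT.nd (nat_lit 780) (nat_lit 6688) (nat_lit 0) (XT.nd (nat_lit 390) (nat_lit 4864) (nat_lit 0) (XT.nd (nat_lit 156) (nat_lit 3496) (nat_lit 0) (XT.nd (nat_lit 78) (nat_lit 1672) (nat_lit 0) (XT.lf (nat_lit 0) (nat_lit 4974457175) (nat_lit 1596) (nat_lit 751203293) (nat_lit 0) (nat_lit 1270709949) (nat_lit 554) (nat_lit 5) (nat_lit 575) (nat_lit 4) (nat_lit 554)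 (nat_lit 4) (nat_lit 554) (nat_lit 504) (nat_lit 502)) (XT.lf (nat_lit 0) (nat_lit 1377370230) (nat_lit 1672) (nat_lit 2719045860) (nat_lit 76) (nat_lit 2933834351) (nat_lit 532) (nat_lit 5) (nat_lit 554) (nat_lit 5) (nat_lit 533) (nat_lit 4) (nat_lit 555) (nat_lit 504) (nat_lit 501))) (XT.nd (nat_lit 78) (nat_lit 1824) (nat_lit 0) (XT.lf (nat_lit 0) (nat_lit 2371584113) (nat_lit 1672) (nat_lit 2398345365) (nat_lit 1748) (nat_lit 2295572474) (nat_lit 510) (nat_lit 5) (nat_lit 532) (nat_lit 5) (nat_lit 533) (nat_lit 4) (nat_lit 556) (nat_lit 504) (nat_lit 500)) (XT.nd (nat_lit 78) (nat_lit 0) (nat_lit 0) (XT.lf (nat_lit 0) (nat_lit 431091329) (nat_lit 1748) (nat_lit 636470655) (nat_lit 1824) (nat_lit 6034688322) (nat_lit 486) (nat_lit 5) (nat_lit 509) (nat_lit 5) (nat_lit 510) (nat_lit 5) (nat_lit 557) (nat_lit 504) (nat_lit 499)) (XT.lf (nat_lit 0) (nat_lit 4439710749) (nat_lit 1824) (nat_lit 1507630724) (nat_lit 76) (nat_lit 1192646859) (nat_lit 486) (nat_lit 5) (nat_lit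 510) (nat_lit 5) (nat_lit 487) (nat_lit 4) (nat_lit 558) (nat_lit 504) (nat_lit 498))))) (XT.nd (nat_lit 156) (nat_lit 1900) (nat_lit 0) (XT.nd (nat_lit 78) (nat_lit 1064) (nat_lit 0) (XT.lf (nat_lit 0) (nat_lit 654385744) (nat_lit 1900) (nat_lit 3446041733) (nat_lit 76) (nat_lit 3078715177) (nat_lit 461) (nat_lit 5) (nat_lit 486) (nat_lit 5) (nat_lit 462) (nat_lit 5) (nat_lit 559) (nat_lit 504) (nat_lit 497)) (XT.lf (nat_lit 0) (nat_lit 1819201920) (nat_lit 1064) (nat_lit 2177759611) (nat_lit 1140) (nat_lit 3222629543) (nat_lit 447) (nat_lit 5) (nat_lit 461) (nat_lit 5) (nat_lit 462) (nat_lit 5) (nat_lit 560) (nat_lit 504) (nat_lit 496))) (XT.nd (nat_lit 78) (nat_lit 1824) (nat_lit 0) (XT.lf (nat_lit 0) (nat_lit 102267609) (nat_lit 1140) (nat_lit 92361072) (nat_lit 76) (nat_lit 7067035375) (nat_lit 446) (nat_lit 5) (nat_lit 461) (nat_lit 5) (nat_lit 447) (nat_lit 5) (nat_lit 561) (nat_lit 504) (nat_lit 495)) (XT.nd (nat_lit 78) (nat_lit 912) (nat_lit 0) (XT.lf (nat_lit 0)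 (nat_lit 3433836814) (nat_lit 988) (nat_lit 2012929485) (nat_lit 76) (nat_lit 1857726737) (nat_lit 434) (nat_lit 5) (nat_lit 447) (nat_lit 5) (nat_lit 435) (nat_lit 5) (nat_lit 562) (nat_lit 504) (nat_lit 494)) (XT.lf (nat_lit 0) (nat_lit 3412896988) (nat_lit 912) (nat_lit 3380634809) (nat_lit 988) (nat_lit 555423844) (nat_lit 422) (nat_lit 5) (nat_lit 434) (nat_lit 5) (nat_lit 435) (nat_lit 5) (nat_lit 563) (nat_lit 504) (nat_lit 493)))))) (XT.nd (nat_lit 390) (nat_lit 3116) (nat_lit 0) (XT.nd (nat_lit 156) (nat_lit 2660) (nat_lit 0) (XT.nd (nat_lit 78) (nat_lit 0) (nat_lit 0) (XT.lf (nat_lit 0) (nat_lit 1514698741) (nat_lit 836) (nat_lit 1235584076) (nat_lit 912) (nat_lit 4644439675) (nat_lit 410) (nat_lit 5) (nat_lit 421) (nat_lit 5) (nat_lit 422) (nat_lit 5) (nat_lit 564) (nat_lit 504) (nat_lit 492)) (XT.lf (nat_lit 0) (nat_lit 6085998891) (nat_lit 912) (nat_lit 391061951) (nat_lit 76) (nat_lit 964850298) (nat_lit 410) (nat_lit 5) (nat_lit 422) (nat_lit 5) (nat_lit 411)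 (nat_lit 5) (nat_lit 565) (nat_lit 504) (nat_lit 491))) (XT.nd (nat_lit 78) (nat_lit 1748) (nat_lit 0) (XT.lf (nat_lit 0) (nat_lit 1953759472) (nat_lit 912) (nat_lit 2302201756) (nat_lit 76) (nat_lit 3234197454) (nat_lit 398) (nat_lit 5) (nat_lit 410) (nat_lit 5) (nat_lit 399) (nat_lit 5) (nat_lit 566) (nat_lit 504) (nat_lit 490)) (XT.nd (nat_lit 78) (nat_lit 912) (nat_lit 0) (XT.lf (nat_lit 0) (nat_lit 3311973335) (nat_lit 836) (nat_lit 1963767854) (nat_lit 912) (nat_lit 2264171449) (nat_lit 387) (nat_lit 5) (nat_lit 398) (nat_lit 5) (nat_lit 399) (nat_lit 5) (nat_lit 567) (nat_lit 504) (nat_lit 489)) (XT.lf (nat_lit 0) (nat_lit 1027259649) (nat_lit 912) (nat_lit 6170290815) (nat_lit 76) (nat_lit 393620970) (nat_lit 375) (nat_lit 5) (nat_lit 387) (nat_lit 5) (nat_lit 376) (nat_lit 5) (nat_lit 568) (nat_lit 504) (nat_lit 488))))) (XT.nd (nat_lit 234) (nat_lit 1520) (nat_lit 0) (XT.nd (nat_lit 78) (nat_lit 1596) (nat_lit 0) (XT.lf (nat_lit 0) (nat_lit 4336930158) (nat_lit 912)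 (nat_lit 499135658) (nat_lit 76) (nat_lit 2807441509) (nat_lit 375) (nat_lit 5) (nat_lit 387) (nat_lit 5) (nat_lit 376) (nat_lit 5) (nat_lit 569) (nat_lit 504) (nat_lit 487)) (XT.nd (nat_lit 78) (nat_lit 836) (nat_lit 0) (XT.lf (nat_lit 0) (nat_lit 5288083070) (nat_lit 760) (nat_lit 2401333994) (nat_lit 836) (nat_lit 7946097) (nat_lit 365) (nat_lit 5) (nat_lit 375) (nat_lit 5) (nat_lit 376) (nat_lit 5) (nat_lit 570) (nat_lit 504) (nat_lit 486)) (XT.lf (nat_lit 0) (nat_lit 3281480509) (nat_lit 836) (nat_lit 4351954440) (nat_lit 76) (nat_lit 119053837) (nat_lit 354) (nat_lit 5) (nat_lit 365) (nat_lit 5) (nat_lit 355) (nat_lit 5) (nat_lit 571) (nat_lit 504) (nat_lit 485)))) (XT.nd (nat_lit 78) (nat_lit 836) (nat_lit 0) (XT.lf (nat_lit 0) (nat_lit 1486566993) (nat_lit 684) (nat_lit 5135087723) (nat_lit 760) (nat_lit 1187365209) (nat_lit 345) (nat_lit 5) (nat_lit 354) (nat_lit 5) (nat_lit 355) (nat_lit 5) (nat_lit 572) (nat_lit 504) (nat_lit 484)) (XT.nd (nat_lit 78) (nat_lit 760)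 (nat_lit 0) (XT.lf (nat_lit 0) (nat_lit 2106529639) (nat_lit 760) (nat_lit 447464331) (nat_lit 76) (nat_lit 5312953466) (nat_lit 344) (nat_lit 5) (nat_lit 354) (nat_lit 5) (nat_lit 345) (nat_lit 5) (nat_lit 573) (nat_lit 504) (nat_lit 483)) (XT.lf (nat_lit 0) (nat_lit 5431779908) (nat_lit 836) (nat_lit 2383790112) (nat_lit 76) (nat_lit 110684031) (nat_lit 334) (nat_lit 5) (nat_lit 345) (nat_lit 5) (nat_lit 335) (nat_lit 5) (nat_lit 574) (nat_lit 504) (nat_lit 482))))))))
noncomputable def xc35 : XT := (XT.nd (nat_lit 1560) (nat_lit 6688) (nat_lit 0) (XT.nd (nat_lit 780) (nat_lit 3876) (nat_lit 0) (XT.nd (nat_lit 390) (nat_lit 2584) (nat_lit 0) (XT.nd (nat_lit 156) (nat_lit 1368) (nat_lit 0) (XT.nd (nat_lit 78) (nat_lit 684) (nat_lit 0) (XT.lf (nat_lit 0) (nat_lit 814496078) (nat_lit 760) (nat_lit 4357264536) (nat_lit 76) (nat_lit 2815108733) (nat_lit 324) (nat_lit 5) (nat_lit 334) (nat_lit 5) (nat_lit 325) (nat_lit 5) (nat_lit 575) (nat_lit 504) (nat_lit 481)) (XT.lf (nat_lit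 0) (nat_lit 1685152437) (nat_lit 684) (nat_lit 2443667951) (nat_lit 760) (nat_lit 3920100039) (nat_lit 315) (nat_lit 5) (nat_lit 324) (nat_lit 5) (nat_lit 325) (nat_lit 5) (nat_lit 576) (nat_lit 504) (nat_lit 480))) (XT.nd (nat_lit 78) (nat_lit 1368) (nat_lit 0) (XT.lf (nat_lit 0) (nat_lit 7487113464) (nat_lit 760) (nat_lit 274619132) (nat_lit 76) (nat_lit 350930951) (nat_lit 315) (nat_lit 5) (nat_lit 325) (nat_lit 5) (nat_lit 316) (nat_lit 5) (nat_lit 577) (nat_lit 504) (nat_lit 479)) (XT.nd (nat_lit 78) (nat_lit 684) (nat_lit 0) (XT.lf (nat_lit 0) (nat_lit 2700828083) (nat_lit 684) (nat_lit 2264244433) (nat_lit 76) (nat_lit 3212222250) (nat_lit 306) (nat_lit 5) (nat_lit 315) (nat_lit 5) (nat_lit 307) (nat_lit 5) (nat_lit 578) (nat_lit 504) (nat_lit 478)) (XT.lf (nat_lit 0) (nat_lit 3965863664) (nat_lit 684) (nat_lit 2094467924) (nat_lit 760) (nat_lit 2183309242) (nat_lit 297) (nat_lit 5) (nat_lit 306) (nat_lit 5) (nat_lit 307) (nat_lit 5) (nat_lit 579) (nat_lit 504) (nat_lit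 477))))) (XT.nd (nat_lit 156) (nat_lit 1900) (nat_lit 0) (XT.nd (nat_lit 78) (nat_lit 0) (nat_lit 0) (XT.lf (nat_lit 0) (nat_lit 1141681724) (nat_lit 684) (nat_lit 6325829914) (nat_lit 76) (nat_lit 844025933) (nat_lit 288) (nat_lit 5) (nat_lit 297) (nat_lit 5) (nat_lit 289) (nat_lit 5) (nat_lit 580) (nat_lit 504) (nat_lit 476)) (XT.lf (nat_lit 0) (nat_lit 4494840981) (nat_lit 684) (nat_lit 44057155) (nat_lit 76) (nat_lit 3841791561) (nat_lit 288) (nat_lit 5) (nat_lit 297) (nat_lit 5) (nat_lit 289) (nat_lit 5) (nat_lit 581) (nat_lit 504) (nat_lit 475))) (XT.nd (nat_lit 78) (nat_lit 1292) (nat_lit 0) (XT.lf (nat_lit 0) (nat_lit 6380594638) (nat_lit 608) (nat_lit 1525022074) (nat_lit 684) (nat_lit 545801150) (nat_lit 280) (nat_lit 5) (nat_lit 288) (nat_lit 5) (nat_lit 289) (nat_lit 5) (nat_lit 582) (nat_lit 504) (nat_lit 474)) (XT.nd (nat_lit 78) (nat_lit 608) (nat_lit 0) (XT.lf (nat_lit 0) (nat_lit 2811904700) (nat_lit 684) (nat_lit 4150888730) (nat_lit 76) (nat_lit 1560631939)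 (nat_lit 271) (nat_lit 5) (nat_lit 280) (nat_lit 5) (nat_lit 272) (nat_lit 5) (nat_lit 583) (nat_lit 504) (nat_lit 473)) (XT.lf (nat_lit 0) (nat_lit 2325795617) (nat_lit 608) (nat_lit 3892672171) (nat_lit 684) (nat_lit 2378556684) (nat_lit 263) (nat_lit 5) (nat_lit 271) (nat_lit 5) (nat_lit 272) (nat_lit 5) (nat_lit 584) (nat_lit 504) (nat_lit 472)))))) (XT.nd (nat_lit 390) (nat_lit 1596) (nat_lit 0) (XT.nd (nat_lit 156) (nat_lit 1672) (nat_lit 0) (XT.nd (nat_lit 78) (nat_lit 0) (nat_lit 0) (XT.lf (nat_lit 0) (nat_lit 245784523) (nat_lit 532) (nat_lit 741560174) (nat_lit 608) (nat_lit 7685028557) (nat_lit 255) (nat_lit 5) (nat_lit 262) (nat_lit 5) (nat_lit 263) (nat_lit 5) (nat_lit 585) (nat_lit 504) (nat_lit 471)) (XT.lf (nat_lit 0) (nat_lit 4397626774) (nat_lit 608) (nat_lit 1870127157) (nat_lit 76) (nat_lit 2480986014) (nat_lit 255) (nat_lit 5) (nat_lit 263) (nat_lit 5) (nat_lit 256) (nat_lit 5) (nat_lit 586) (nat_lit 504) (nat_lit 470))) (XT.nd (nat_lit 78) (nat_lit 1140)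 (nat_lit 0) (XT.lf (nat_lit 0) (nat_lit 4809153193) (nat_lit 532) (nat_lit 3054533990) (nat_lit 608) (nat_lit 963198868) (nat_lit 248) (nat_lit 5) (nat_lit 255) (nat_lit 5) (nat_lit 256) (nat_lit 5) (nat_lit 587) (nat_lit 504) (nat_lit 469)) (XT.nd (nat_lit 78) (nat_lit 532) (nat_lit 0) (XT.lf (nat_lit 0) (nat_lit 2443179102) (nat_lit 608) (nat_lit 6214872324) (nat_lit 76) (nat_lit 248555505) (nat_lit 240) (nat_lit 5) (nat_lit 248) (nat_lit 5) (nat_lit 241) (nat_lit 5) (nat_lit 588) (nat_lit 504) (nat_lit 468)) (XT.lf (nat_lit 0) (nat_lit 515359662) (nat_lit 532) (nat_lit 5392192283) (nat_lit 608) (nat_lit 3080190990) (nat_lit 233) (nat_lit 5) (nat_lit 240) (nat_lit 5) (nat_lit 241) (nat_lit 5) (nat_lit 589) (nat_lit 504) (nat_lit 467))))) (XT.nd (nat_lit 156) (nat_lit 1064) (nat_lit 0) (XT.nd (nat_lit 78) (nat_lit 456) (nat_lit 0) (XT.lf (nat_lit 0) (nat_lit 360058242) (nat_lit 608) (nat_lit 1675190020) (nat_lit 76) (nat_lit 7035324270) (nat_lit 232) (nat_lit 5) (nat_lit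 240) (nat_lit 5) (nat_lit 233) (nat_lit 5) (nat_lit 590) (nat_lit 504) (nat_lit 466)) (XT.lf (nat_lit 0) (nat_lit 3824349365) (nat_lit 532) (nat_lit 3923848102) (nat_lit 76) (nat_lit 1406527580) (nat_lit 226) (nat_lit 5) (nat_lit 233) (nat_lit 5) (nat_lit 227) (nat_lit 5) (nat_lit 591) (nat_lit 504) (nat_lit 465))) (XT.nd (nat_lit 78) (nat_lit 532) (nat_lit 0) (XT.lf (nat_lit 0) (nat_lit 3017122211) (nat_lit 532) (nat_lit 4338720941) (nat_lit 608) (nat_lit 1884762201) (nat_lit 219) (nat_lit 5) (nat_lit 226) (nat_lit 5) (nat_lit 227) (nat_lit 5) (nat_lit 592) (nat_lit 504) (nat_lit 464)) (XT.nd (nat_lit 78) (nat_lit 0) (nat_lit 0) (XT.lf (nat_lit 0) (nat_lit 755057074) (nat_lit 456) (nat_lit 838448759) (nat_lit 532) (nat_lit 7734786423) (nat_lit 212) (nat_lit 5) (nat_lit 218) (nat_lit 5) (nat_lit 219) (nat_lit 5) (nat_lit 593) (nat_lit 504) (nat_lit 463)) (XT.lf (nat_lit 0) (nat_lit 5129958342) (nat_lit 532) (nat_lit 1556727700) (nat_lit 76) (nat_lit 2730523471) (nat_lit 212)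 (nat_lit 5) (nat_lit 219) (nat_lit 5) (nat_lit 213) (nat_lit 5) (nat_lit 594) (nat_lit 504) (nat_lit 462))))))) (XT.nd (nat_lit 780) (nat_lit 3040) (nat_lit 0) (XT.nd (nat_lit 390) (nat_lit 1748) (nat_lit 0) (XT.nd (nat_lit 156) (nat_lit 912) (nat_lit 0) (XT.nd (nat_lit 78) (nat_lit 532) (nat_lit 0) (XT.lf (nat_lit 0) (nat_lit 5602482090) (nat_lit 456) (nat_lit 3131542557) (nat_lit 532) (nat_lit 773945616) (nat_lit 206) (nat_lit 5) (nat_lit 212) (nat_lit 5) (nat_lit 213) (nat_lit 5) (nat_lit 595) (nat_lit 504) (nat_lit 461)) (XT.lf (nat_lit 0) (nat_lit 2763147095) (nat_lit 532) (nat_lit 6319165111) (nat_lit 76) (nat_lit 518064520) (nat_lit 199) (nat_lit 5) (nat_lit 206) (nat_lit 5) (nat_lit 200) (nat_lit 5) (nat_lit 596) (nat_lit 504) (nat_lit 460))) (XT.nd (nat_lit 78) (nat_lit 456) (nat_lit 0) (XT.lf (nat_lit 0) (nat_lit 890069862) (nat_lit 456) (nat_lit 5478897526) (nat_lit 532) (nat_lit 3325397319) (nat_lit 193) (nat_lit 5) (nat_lit 199) (nat_lit 5) (nat_lit 200) (nat_lit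 5) (nat_lit 597) (nat_lit 504) (nat_lit 459)) (XT.nd (nat_lit 78) (nat_lit 380) (nat_lit 0) (XT.lf (nat_lit 0) (nat_lit 251584225) (nat_lit 532) (nat_lit 1528386397) (nat_lit 76) (nat_lit 8010265495) (nat_lit 192) (nat_lit 5) (nat_lit 199) (nat_lit 5) (nat_lit 193) (nat_lit 5) (nat_lit 598) (nat_lit 504) (nat_lit 458)) (XT.lf (nat_lit 0) (nat_lit 3863481452) (nat_lit 456) (nat_lit 4017619545) (nat_lit 76) (nat_lit 2006328803) (nat_lit 187) (nat_lit 5) (nat_lit 193) (nat_lit 5) (nat_lit 188) (nat_lit 5) (nat_lit 599) (nat_lit 504) (nat_lit 457))))) (XT.nd (nat_lit 156) (nat_lit 836) (nat_lit 0) (XT.nd (nat_lit 78) (nat_lit 456) (nat_lit 0) (XT.lf (nat_lit 0) (nat_lit 3418096586) (nat_lit 456) (nat_lit 4130584759) (nat_lit 532) (nat_lit 2437867193) (nat_lit 181) (nat_lit 5) (nat_lit 187) (nat_lit 5) (nat_lit 188) (nat_lit 5) (nat_lit 600) (nat_lit 504) (nat_lit 456)) (XT.lf (nat_lit 0) (nat_lit 908341350) (nat_lit 380) (nat_lit 285532450) (nat_lit 456) (nat_lit 8893821061) (nat_lit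 175) (nat_lit 5) (nat_lit 180) (nat_lit 5) (nat_lit 181) (nat_lit 5) (nat_lit 601) (nat_lit 504) (nat_lit 455))) (XT.nd (nat_lit 78) (nat_lit 836) (nat_lit 0) (XT.lf (nat_lit 0) (nat_lit 4890797416) (nat_lit 456) (nat_lit 1671952219) (nat_lit 76) (nat_lit 3627290704) (nat_lit 175) (nat_lit 5) (nat_lit 181) (nat_lit 5) (nat_lit 176) (nat_lit 5) (nat_lit 602) (nat_lit 504) (nat_lit 454)) (XT.nd (nat_lit 78) (nat_lit 456) (nat_lit 0) (XT.lf (nat_lit 0) (nat_lit 5998027740) (nat_lit 380) (nat_lit 2662486077) (nat_lit 456) (nat_lit 1633944114) (nat_lit 170) (nat_lit 5) (nat_lit 175) (nat_lit 5) (nat_lit 176) (nat_lit 5) (nat_lit 603) (nat_lit 504) (nat_lit 453)) (XT.lf (nat_lit 0) (nat_lit 2077349263) (nat_lit 456) (nat_lit 6999734676) (nat_lit 76) (nat_lit 1323603002) (nat_lit 164) (nat_lit 5) (nat_lit 170) (nat_lit 5) (nat_lit 165) (nat_lit 5) (nat_lit 604) (nat_lit 504) (nat_lit 452)))))) (XT.nd (nat_lit 390) (nat_lit 1520) (nat_lit 0) (XT.nd (nat_lit 156) (nat_lit 1140) (nat_lit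 0) (XT.nd (nat_lit 78) (nat_lit 0) (nat_lit 0) (XT.lf (nat_lit 0) (nat_lit 718092794) (nat_lit 380) (nat_lit 5132643272) (nat_lit 456) (nat_lit 4657895694) (nat_lit 159) (nat_lit 5) (nat_lit 164) (nat_lit 5) (nat_lit 165) (nat_lit 5) (nat_lit 605) (nat_lit 504) (nat_lit 451)) (XT.lf (nat_lit 0) (nat_lit 8620847260) (nat_lit 380) (nat_lit 1084521886) (nat_lit 456) (nat_lit 913252872) (nat_lit 159) (nat_lit 5) (nat_lit 164) (nat_lit 5) (nat_lit 165) (nat_lit 5) (nat_lit 606) (nat_lit 504) (nat_lit 450))) (XT.nd (nat_lit 78) (nat_lit 684) (nat_lit 0) (XT.lf (nat_lit 0) (nat_lit 2886118030) (nat_lit 456) (nat_lit 4804107862) (nat_lit 76) (nat_lit 3039851797) (nat_lit 153) (nat_lit 5) (nat_lit 159) (nat_lit 5) (nat_lit 154) (nat_lit 5) (nat_lit 607) (nat_lit 504) (nat_lit 449)) (XT.nd (nat_lit 78) (nat_lit 304) (nat_lit 0) (XT.lf (nat_lit 0) (nat_lit 3156013601) (nat_lit 380) (nat_lit 3593996926) (nat_lit 456) (nat_lit 4093617954) (nat_lit 148) (nat_lit 5) (nat_lit 153) (nat_lit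 5) (nat_lit 154) (nat_lit 5) (nat_lit 608) (nat_lit 504) (nat_lit 448)) (XT.lf (nat_lit 0) (nat_lit 317748767) (nat_lit 304) (nat_lit 10371551537) (nat_lit 380) (nat_lit 270189546) (nat_lit 144) (nat_lit 5) (nat_lit 148) (nat_lit 5) (nat_lit 149) (nat_lit 5) (nat_lit 609) (nat_lit 504) (nat_lit 447))))) (XT.nd (nat_lit 234) (nat_lit 684) (nat_lit 0) (XT.nd (nat_lit 78) (nat_lit 760) (nat_lit 0) (XT.lf (nat_lit 0) (nat_lit 3617755353) (nat_lit 380) (nat_lit 2601097042) (nat_lit 76) (nat_lit 4857633557) (nat_lit 143) (nat_lit 5) (nat_lit 148) (nat_lit 5) (nat_lit 144) (nat_lit 5) (nat_lit 610) (nat_lit 504) (nat_lit 446)) (XT.nd (nat_lit 78) (nat_lit 380) (nat_lit 0) (XT.lf (nat_lit 0) (nat_lit 5609216558) (nat_lit 380) (nat_lit 1967754051) (nat_lit 456) (nat_lit 3618874902) (nat_lit 138) (nat_lit 5) (nat_lit 143) (nat_lit 5) (nat_lit 144) (nat_lit 5) (nat_lit 611) (nat_lit 504) (nat_lit 445)) (XT.lf (nat_lit 0) (nat_lit 305067816) (nat_lit 380) (nat_lit 8661392646) (nat_lit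 76) (nat_lit 2350870992) (nat_lit 133) (nat_lit 5) (nat_lit 138) (nat_lit 5) (nat_lit 134) (nat_lit 5) (nat_lit 612) (nat_lit 504) (nat_lit 444)))) (XT.nd (nat_lit 78) (nat_lit 684) (nat_lit 0) (XT.lf (nat_lit 0) (nat_lit 4270866533) (nat_lit 380) (nat_lit 401894620) (nat_lit 76) (nat_lit 6767772605) (nat_lit 133) (nat_lit 5) (nat_lit 138) (nat_lit 5) (nat_lit 134) (nat_lit 5) (nat_lit 613) (nat_lit 504) (nat_lit 443)) (XT.nd (nat_lit 78) (nat_lit 380) (nat_lit 0) (XT.lf (nat_lit 0) (nat_lit 8066590481) (nat_lit 304) (nat_lit 263548325) (nat_lit 380) (nat_lit 3235779849) (nat_lit 129) (nat_lit 5) (nat_lit 133) (nat_lit 5) (nat_lit 134) (nat_lit 5) (nat_lit 614) (nat_lit 504) (nat_lit 442)) (XT.lf (nat_lit 0) (nat_lit 791352668) (nat_lit 380) (nat_lit 6706623411) (nat_lit 76) (nat_lit 4195240837) (nat_lit 124) (nat_lit 5) (nat_lit 129) (nat_lit 5) (nat_lit 125) (nat_lit 5) (nat_lit 615) (nat_lit 504) (nat_lit 441))))))))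
noncomputable def xc36 : XT := (XT.nd (nat_lit 76752) (nat_lit 0) (nat_lit 15580) (XT.nd (nat_lit 780) (nat_lit 228) (nat_lit 0) (XT.nd (nat_lit 390) (nat_lit 988) (nat_lit 0) (XT.nd (nat_lit 156) (nat_lit 912) (nat_lit 0) (XT.nd (nat_lit 78) (nat_lit 0) (nat_lit 0) (XT.lf (nat_lit 0) (nat_lit 1805129949) (nat_lit 304) (nat_lit 3049787175) (nat_lit 380) (nat_lit 6967733521) (nat_lit 120) (nat_lit 5) (nat_lit 124) (nat_lit 5) (nat_lit 125) (nat_lit 5) (nat_lit 616) (nat_lit 504) (nat_lit 440)) (XT.lf (nat_lit 0) (nat_lit 9016969587) (nat_lit 380) (nat_lit 1448176484) (nat_lit 76) (nat_lit 1489184213) (nat_lit 120) (nat_lit 5) (nat_lit 125) (nat_lit 5) (nat_lit 121) (nat_lit 5) (nat_lit 617) (nat_lit 504) (nat_lit 439))) (XT.nd (nat_lit 78) (nat_lit 532) (nat_lit 0) (XT.lf (nat_lit 0) (nat_lit 1189064262) (nat_lit 380) (nat_lit 4788917906) (nat_lit 76) (nat_lit 6109893721) (nat_lit 115) (nat_lit 5) (nat_lit 120) (nat_lit 5) (nat_lit 116) (nat_lit 5) (nat_lit 618) (nat_lit 504)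 (nat_lit 438)) (XT.nd (nat_lit 78) (nat_lit 228) (nat_lit 0) (XT.lf (nat_lit 0) (nat_lit 3988215570) (nat_lit 304) (nat_lit 1369267106) (nat_lit 380) (nat_lit 6866246967) (nat_lit 111) (nat_lit 5) (nat_lit 115) (nat_lit 5) (nat_lit 116) (nat_lit 5) (nat_lit 619) (nat_lit 504) (nat_lit 437)) (XT.lf (nat_lit 0) (nat_lit 568245116) (nat_lit 228) (nat_lit 9061946905) (nat_lit 304) (nat_lit 2731691449) (nat_lit 108) (nat_lit 5) (nat_lit 111) (nat_lit 5) (nat_lit 112) (nat_lit 5) (nat_lit 620) (nat_lit 504) (nat_lit 436))))) (XT.nd (nat_lit 156) (nat_lit 608) (nat_lit 0) (XT.nd (nat_lit 78) (nat_lit 304) (nat_lit 0) (XT.lf (nat_lit 0) (nat_lit 1494104687) (nat_lit 304) (nat_lit 2922656807) (nat_lit 76) (nat_lit 8085286714) (nat_lit 107) (nat_lit 5) (nat_lit 111) (nat_lit 5) (nat_lit 108) (nat_lit 5) (nat_lit 621) (nat_lit 504) (nat_lit 435)) (XT.lf (nat_lit 0) (nat_lit 5774022236) (nat_lit 380) (nat_lit 6519260037) (nat_lit 76) (nat_lit 351250548) (nat_lit 103) (nat_lit 5) (nat_lit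 108) (nat_lit 5) (nat_lit 104) (nat_lit 5) (nat_lit 622) (nat_lit 504) (nat_lit 434))) (XT.nd (nat_lit 78) (nat_lit 380) (nat_lit 0) (XT.lf (nat_lit 0) (nat_lit 2547790930) (nat_lit 228) (nat_lit 7621492005) (nat_lit 304) (nat_lit 2619990636) (nat_lit 100) (nat_lit 5) (nat_lit 103) (nat_lit 5) (nat_lit 104) (nat_lit 5) (nat_lit 623) (nat_lit 504) (nat_lit 433)) (XT.nd (nat_lit 78) (nat_lit 304) (nat_lit 0) (XT.lf (nat_lit 0) (nat_lit 1701362789) (nat_lit 304) (nat_lit 1123534020) (nat_lit 76) (nat_lit 10111624392) (nat_lit 99) (nat_lit 5) (nat_lit 103) (nat_lit 5) (nat_lit 100) (nat_lit 5) (nat_lit 624) (nat_lit 504) (nat_lit 432)) (XT.lf (nat_lit 0) (nat_lit 6106103059) (nat_lit 380) (nat_lit 4892105190) (nat_lit 76) (nat_lit 2087519607) (nat_lit 95) (nat_lit 5) (nat_lit 100) (nat_lit 5) (nat_lit 96) (nat_lit 5) (nat_lit 625) (nat_lit 504) (nat_lit 431)))))) (XT.nd (nat_lit 75582) (nat_lit 0) (nat_lit 29944) (XT.nd (nat_lit 75348) (nat_lit 0) (nat_lit 35112) (XT.nd (nat_lit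 75270) (nat_lit 0) (nat_lit 38152) (XT.lf (nat_lit 0) (nat_lit 4454667725) (nat_lit 228) (nat_lit 6164621222) (nat_lit 304) (nat_lit 2618223918) (nat_lit 92) (nat_lit 5) (nat_lit 95) (nat_lit 5) (nat_lit 96) (nat_lit 5) (nat_lit 626) (nat_lit 504) (nat_lit 430)) (XT.lf (nat_lit 0) (nat_lit 85264329) (nat_lit 1444) (nat_lit 3265950721) (nat_lit 0) (nat_lit 85264329) (nat_lit 594) (nat_lit 5) (nat_lit 613) (nat_lit 4) (nat_lit 594) (nat_lit 4) (nat_lit 550) (nat_lit 505) (nat_lit 505))) (XT.nd (nat_lit 78) (nat_lit 3040) (nat_lit 0) (XT.lf (nat_lit 0) (nat_lit 3566519479) (nat_lit 1444) (nat_lit 1714882933) (nat_lit 0) (nat_lit 1620754040) (nat_lit 594) (nat_lit 5) (nat_lit 613) (nat_lit 4) (nat_lit 594) (nat_lit 4) (nat_lit 551) (nat_lit 505) (nat_lit 504)) (XT.nd (nat_lit 78) (nat_lit 1520) (nat_lit 0) (XT.lf (nat_lit 0) (nat_lit 47422375) (nat_lit 1520) (nat_lit 3757585414) (nat_lit 76) (nat_lit 3127922228) (nat_lit 574) (nat_lit 5) (nat_lit 594) (nat_lit 5) (nat_lit 575)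 (nat_lit 4) (nat_lit 552) (nat_lit 505) (nat_lit 503)) (XT.lf (nat_lit 0) (nat_lit 1150483859) (nat_lit 1520) (nat_lit 2252521818) (nat_lit 1596) (nat_lit 3561890837) (nat_lit 554) (nat_lit 5) (nat_lit 574) (nat_lit 5) (nat_lit 575) (nat_lit 4) (nat_lit 553) (nat_lit 505) (nat_lit 502))))) (XT.nd (nat_lit 156) (nat_lit 3496) (nat_lit 0) (XT.nd (nat_lit 78) (nat_lit 1672) (nat_lit 0) (XT.lf (nat_lit 0) (nat_lit 6143105120) (nat_lit 1520) (nat_lit 639187434) (nat_lit 1596) (nat_lit 216086742) (nat_lit 554) (nat_lit 5) (nat_lit 574) (nat_lit 5) (nat_lit 575) (nat_lit 4) (nat_lit 554) (nat_lit 505) (nat_lit 501)) (XT.lf (nat_lit 0) (nat_lit 3120944031) (nat_lit 1672) (nat_lit 2866979664) (nat_lit 76) (nat_lit 1044876696) (nat_lit 532) (nat_lit 5) (nat_lit 554) (nat_lit 5) (nat_lit 533) (nat_lit 4) (nat_lit 555) (nat_lit 505) (nat_lit 500))) (XT.nd (nat_lit 78) (nat_lit 1824) (nat_lit 0) (XT.lf (nat_lit 0) (nat_lit 2189013469) (nat_lit 1672) (nat_lit 4290236087) (nat_lit 1748)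 (nat_lit 589491523) (nat_lit 510) (nat_lit 5) (nat_lit 532) (nat_lit 5) (nat_lit 533) (nat_lit 4) (nat_lit 556) (nat_lit 505) (nat_lit 499)) (XT.nd (nat_lit 78) (nat_lit 0) (nat_lit 0) (XT.lf (nat_lit 0) (nat_lit 198685762) (nat_lit 1748) (nat_lit 2518224720) (nat_lit 1824) (nat_lit 4389048492) (nat_lit 486) (nat_lit 5) (nat_lit 509) (nat_lit 5) (nat_lit 510) (nat_lit 5) (nat_lit 557) (nat_lit 505) (nat_lit 498)) (XT.lf (nat_lit 0) (nat_lit 5375698206) (nat_lit 1748) (nat_lit 673101359) (nat_lit 1824) (nat_lit 1095706494) (nat_lit 486) (nat_lit 5) (nat_lit 509) (nat_lit 5) (nat_lit 510) (nat_lit 5) (nat_lit 558) (nat_lit 505) (nat_lit 497))))))) (XT.nd (nat_lit 780) (nat_lit 5928) (nat_lit 0) (XT.nd (nat_lit 390) (nat_lit 3496) (nat_lit 0) (XT.nd (nat_lit 156) (nat_lit 1976) (nat_lit 0) (XT.nd (nat_lit 78) (nat_lit 1064) (nat_lit 0) (XT.lf (nat_lit 0) (nat_lit 2199608096) (nat_lit 1900) (nat_lit 3754403655) (nat_lit 76) (nat_lit 1230210077) (nat_lit 461) (nat_lit 5) (nat_lit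 486) (nat_lit 5) (nat_lit 462) (nat_lit 5) (nat_lit 559) (nat_lit 505) (nat_lit 496)) (XT.lf (nat_lit 0) (nat_lit 1473834508) (nat_lit 1064) (nat_lit 4034533854) (nat_lit 1140) (nat_lit 1716981838) (nat_lit 447) (nat_lit 5) (nat_lit 461) (nat_lit 5) (nat_lit 462) (nat_lit 5) (nat_lit 560) (nat_lit 505) (nat_lit 495))) (XT.nd (nat_lit 78) (nat_lit 1900) (nat_lit 0) (XT.lf (nat_lit 0) (nat_lit 1556795016) (nat_lit 1140) (nat_lit 485945989) (nat_lit 76) (nat_lit 5225117635) (nat_lit 446) (nat_lit 5) (nat_lit 461) (nat_lit 5) (nat_lit 447) (nat_lit 5) (nat_lit 561) (nat_lit 505) (nat_lit 494)) (XT.nd (nat_lit 78) (nat_lit 988) (nat_lit 0) (XT.lf (nat_lit 0) (nat_lit 4842779704) (nat_lit 988) (nat_lit 2439055772) (nat_lit 76) (nat_lit 29767267) (nat_lit 434) (nat_lit 5) (nat_lit 447) (nat_lit 5) (nat_lit 435) (nat_lit 5) (nat_lit 562) (nat_lit 505) (nat_lit 493)) (XT.lf (nat_lit 0) (nat_lit 801695864) (nat_lit 988) (nat_lit 4413766232) (nat_lit 76) (nat_lit 2141168896) (nat_lit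 421) (nat_lit 5) (nat_lit 434) (nat_lit 5) (nat_lit 422) (nat_lit 5) (nat_lit 563) (nat_lit 505) (nat_lit 492))))) (XT.nd (nat_lit 156) (nat_lit 2660) (nat_lit 0) (XT.nd (nat_lit 78) (nat_lit 0) (nat_lit 0) (XT.lf (nat_lit 0) (nat_lit 993931860) (nat_lit 836) (nat_lit 3072618123) (nat_lit 912) (nat_lit 3336450332) (nat_lit 410) (nat_lit 5) (nat_lit 421) (nat_lit 5) (nat_lit 422) (nat_lit 5) (nat_lit 564) (nat_lit 505) (nat_lit 491)) (XT.lf (nat_lit 0) (nat_lit 6504148415) (nat_lit 836) (nat_lit 861964527) (nat_lit 912) (nat_lit 84802253) (nat_lit 410) (nat_lit 5) (nat_lit 421) (nat_lit 5) (nat_lit 422) (nat_lit 5) (nat_lit 565) (nat_lit 505) (nat_lit 490))) (XT.nd (nat_lit 78) (nat_lit 1748) (nat_lit 0) (XT.lf (nat_lit 0) (nat_lit 3169273565) (nat_lit 912) (nat_lit 2910171957) (nat_lit 76) (nat_lit 1420333708) (nat_lit 398) (nat_lit 5) (nat_lit 410) (nat_lit 5) (nat_lit 399) (nat_lit 5) (nat_lit 566) (nat_lit 505) (nat_lit 489)) (XT.nd (nat_lit 78) (nat_lit 912) (nat_lit 0)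 (XT.lf (nat_lit 0) (nat_lit 2662970821) (nat_lit 836) (nat_lit 3795003590) (nat_lit 912) (nat_lit 1092227381) (nat_lit 387) (nat_lit 5) (nat_lit 398) (nat_lit 5) (nat_lit 399) (nat_lit 5) (nat_lit 567) (nat_lit 505) (nat_lit 488)) (XT.lf (nat_lit 0) (nat_lit 714630564) (nat_lit 836) (nat_lit 1433110760) (nat_lit 912) (nat_lit 5454291798) (nat_lit 375) (nat_lit 5) (nat_lit 386) (nat_lit 5) (nat_lit 387) (nat_lit 5) (nat_lit 568) (nat_lit 505) (nat_lit 487)))))) (XT.nd (nat_lit 390) (nat_lit 3572) (nat_lit 0) (XT.nd (nat_lit 156) (nat_lit 1520) (nat_lit 0) (XT.nd (nat_lit 78) (nat_lit 836) (nat_lit 0) (XT.lf (nat_lit 0) (nat_lit 5419537447) (nat_lit 912) (nat_lit 1239969276) (nat_lit 76) (nat_lit 995622593) (nat_lit 375) (nat_lit 5) (nat_lit 387) (nat_lit 5) (nat_lit 376) (nat_lit 5) (nat_lit 569) (nat_lit 505) (nat_lit 486)) (XT.lf (nat_lit 0) (nat_lit 1015778927) (nat_lit 836) (nat_lit 3211737735) (nat_lit 76) (nat_lit 3481999524) (nat_lit 364) (nat_lit 5) (nat_lit 375) (nat_lit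 5) (nat_lit 365) (nat_lit 5) (nat_lit 570) (nat_lit 505) (nat_lit 485))) (XT.nd (nat_lit 78) (nat_lit 760) (nat_lit 0) (XT.lf (nat_lit 0) (nat_lit 2555187863) (nat_lit 760) (nat_lit 1715781431) (nat_lit 836) (nat_lit 3494356779) (nat_lit 354) (nat_lit 5) (nat_lit 364) (nat_lit 5) (nat_lit 365) (nat_lit 5) (nat_lit 571) (nat_lit 505) (nat_lit 484)) (XT.nd (nat_lit 78) (nat_lit 76) (nat_lit 0) (XT.lf (nat_lit 0) (nat_lit 594983419) (nat_lit 684) (nat_lit 6971681399) (nat_lit 760) (nat_lit 256084569) (nat_lit 345) (nat_lit 5) (nat_lit 354) (nat_lit 5) (nat_lit 355) (nat_lit 5) (nat_lit 572) (nat_lit 505) (nat_lit 483)) (XT.lf (nat_lit 0) (nat_lit 2998191971) (nat_lit 760) (nat_lit 1391820968) (nat_lit 76) (nat_lit 3491093617) (nat_lit 344) (nat_lit 5) (nat_lit 354) (nat_lit 5) (nat_lit 345) (nat_lit 5) (nat_lit 573) (nat_lit 505) (nat_lit 482))))) (XT.nd (nat_lit 234) (nat_lit 1368) (nat_lit 0) (XT.nd (nat_lit 78) (nat_lit 1444) (nat_lit 0) (XT.lf (nat_lit 0) (nat_lit 4553520024)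 (nat_lit 760) (nat_lit 1735901275) (nat_lit 836) (nat_lit 1651674743) (nat_lit 334) (nat_lit 5) (nat_lit 344) (nat_lit 5) (nat_lit 345) (nat_lit 5) (nat_lit 574) (nat_lit 505) (nat_lit 481)) (XT.nd (nat_lit 78) (nat_lit 684) (nat_lit 0) (XT.lf (nat_lit 0) (nat_lit 1601344058) (nat_lit 760) (nat_lit 5416950926) (nat_lit 76) (nat_lit 984207230) (nat_lit 324) (nat_lit 5) (nat_lit 334) (nat_lit 5) (nat_lit 325) (nat_lit 5) (nat_lit 575) (nat_lit 505) (nat_lit 480)) (XT.lf (nat_lit 0) (nat_lit 578174328) (nat_lit 684) (nat_lit 4303856075) (nat_lit 760) (nat_lit 3183197960) (nat_lit 315) (nat_lit 5) (nat_lit 324) (nat_lit 5) (nat_lit 325) (nat_lit 5) (nat_lit 576) (nat_lit 505) (nat_lit 479)))) (XT.nd (nat_lit 78) (nat_lit 1292) (nat_lit 0) (XT.lf (nat_lit 0) (nat_lit 81248701) (nat_lit 760) (nat_lit 1429213973) (nat_lit 76) (nat_lit 6619069428) (nat_lit 314) (nat_lit 5) (nat_lit 324) (nat_lit 5) (nat_lit 315) (nat_lit 5) (nat_lit 577) (nat_lit 505) (nat_lit 478)) (XT.nd (nat_lit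 78) (nat_lit 684) (nat_lit 0) (XT.lf (nat_lit 0) (nat_lit 3355911003) (nat_lit 684) (nat_lit 3478580438) (nat_lit 76) (nat_lit 1360463060) (nat_lit 306) (nat_lit 5) (nat_lit 315) (nat_lit 5) (nat_lit 307) (nat_lit 5) (nat_lit 578) (nat_lit 505) (nat_lit 477)) (XT.lf (nat_lit 0) (nat_lit 2702435535) (nat_lit 684) (nat_lit 3979228492) (nat_lit 760) (nat_lit 1580313681) (nat_lit 297) (nat_lit 5) (nat_lit 306) (nat_lit 5) (nat_lit 307) (nat_lit 5) (nat_lit 579) (nat_lit 505) (nat_lit 476))))))))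
noncomputable def xc37 : XT := (XT.nd (nat_lit 1560) (nat_lit 5776) (nat_lit 0) (XT.nd (nat_lit 780) (nat_lit 4028) (nat_lit 0) (XT.nd (nat_lit 390) (nat_lit 1748) (nat_lit 0) (XT.nd (nat_lit 156) (nat_lit 1900) (nat_lit 0) (XT.nd (nat_lit 78) (nat_lit 0) (nat_lit 0) (XT.lf (nat_lit 0) (nat_lit 655523555) (nat_lit 608) (nat_lit 1041593694) (nat_lit 684) (nat_lit 6633473984) (nat_lit 288) (nat_lit 5) (nat_lit 296) (nat_lit 5) (nat_lit 297) (nat_lit 5) (nat_lit 580) (nat_lit 505) (nat_lit 475)) (XT.lf (nat_lit 0) (nat_lit 5018328758) (nat_lit 684) (nat_lit 1419422829) (nat_lit 76) (nat_lit 1962632738) (nat_lit 288) (nat_lit 5) (nat_lit 297) (nat_lit 5) (nat_lit 289) (nat_lit 5) (nat_lit 581) (nat_lit 505) (nat_lit 474))) (XT.nd (nat_lit 78) (nat_lit 1292) (nat_lit 0) (XT.lf (nat_lit 0) (nat_lit 4954276838) (nat_lit 608) (nat_lit 3440875844) (nat_lit 684) (nat_lit 76640815) (nat_lit 280) (nat_lit 5) (nat_lit 288) (nat_lit 5) (nat_lit 289) (nat_lit 5) (nat_lit 582) (nat_lit 505)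 (nat_lit 473)) (XT.nd (nat_lit 78) (nat_lit 608) (nat_lit 0) (XT.lf (nat_lit 0) (nat_lit 2881211313) (nat_lit 608) (nat_lit 349103970) (nat_lit 684) (nat_lit 5314318628) (nat_lit 271) (nat_lit 5) (nat_lit 279) (nat_lit 5) (nat_lit 280) (nat_lit 5) (nat_lit 583) (nat_lit 505) (nat_lit 472)) (XT.lf (nat_lit 0) (nat_lit 762438419) (nat_lit 608) (nat_lit 5837666613) (nat_lit 684) (nat_lit 2018865305) (nat_lit 263) (nat_lit 5) (nat_lit 271) (nat_lit 5) (nat_lit 272) (nat_lit 5) (nat_lit 584) (nat_lit 505) (nat_lit 471))))) (XT.nd (nat_lit 156) (nat_lit 1140) (nat_lit 0) (XT.nd (nat_lit 78) (nat_lit 532) (nat_lit 0) (XT.lf (nat_lit 0) (nat_lit 1316472561) (nat_lit 684) (nat_lit 1377773312) (nat_lit 76) (nat_lit 6000545248) (nat_lit 262) (nat_lit 5) (nat_lit 271) (nat_lit 5) (nat_lit 263) (nat_lit 5) (nat_lit 585) (nat_lit 505) (nat_lit 470)) (XT.lf (nat_lit 0) (nat_lit 4680911331) (nat_lit 608) (nat_lit 3554762983) (nat_lit 76) (nat_lit 536402115) (nat_lit 255) (nat_lit 5) (nat_lit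 263) (nat_lit 5) (nat_lit 256) (nat_lit 5) (nat_lit 586) (nat_lit 505) (nat_lit 469))) (XT.nd (nat_lit 78) (nat_lit 608) (nat_lit 0) (XT.lf (nat_lit 0) (nat_lit 3069438825) (nat_lit 532) (nat_lit 5042668075) (nat_lit 608) (nat_lit 738814648) (nat_lit 248) (nat_lit 5) (nat_lit 255) (nat_lit 5) (nat_lit 256) (nat_lit 5) (nat_lit 587) (nat_lit 505) (nat_lit 468)) (XT.nd (nat_lit 78) (nat_lit 0) (nat_lit 0) (XT.lf (nat_lit 0) (nat_lit 871943871) (nat_lit 532) (nat_lit 1755743791) (nat_lit 608) (nat_lit 6303665934) (nat_lit 240) (nat_lit 5) (nat_lit 247) (nat_lit 5) (nat_lit 248) (nat_lit 5) (nat_lit 588) (nat_lit 505) (nat_lit 467)) (XT.lf (nat_lit 0) (nat_lit 6054037030) (nat_lit 608) (nat_lit 1357095640) (nat_lit 76) (nat_lit 1602119016) (nat_lit 240) (nat_lit 5) (nat_lit 248) (nat_lit 5) (nat_lit 241) (nat_lit 5) (nat_lit 589) (nat_lit 505) (nat_lit 466)))))) (XT.nd (nat_lit 390) (nat_lit 1900) (nat_lit 0) (XT.nd (nat_lit 156) (nat_lit 1064) (nat_lit 0) (XT.nd (nat_lit 78)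 (nat_lit 456) (nat_lit 0) (XT.lf (nat_lit 0) (nat_lit 447274933) (nat_lit 608) (nat_lit 3624747859) (nat_lit 76) (nat_lit 5024687798) (nat_lit 232) (nat_lit 5) (nat_lit 240) (nat_lit 5) (nat_lit 233) (nat_lit 5) (nat_lit 590) (nat_lit 505) (nat_lit 465)) (XT.lf (nat_lit 0) (nat_lit 3232410077) (nat_lit 456) (nat_lit 634134848) (nat_lit 532) (nat_lit 5315220126) (nat_lit 226) (nat_lit 5) (nat_lit 232) (nat_lit 5) (nat_lit 233) (nat_lit 5) (nat_lit 591) (nat_lit 505) (nat_lit 464))) (XT.nd (nat_lit 78) (nat_lit 532) (nat_lit 0) (XT.lf (nat_lit 0) (nat_lit 936247729) (nat_lit 532) (nat_lit 6421611103) (nat_lit 608) (nat_lit 1910591619) (nat_lit 219) (nat_lit 5) (nat_lit 226) (nat_lit 5) (nat_lit 227) (nat_lit 5) (nat_lit 592) (nat_lit 505) (nat_lit 463)) (XT.nd (nat_lit 78) (nat_lit 456) (nat_lit 0) (XT.lf (nat_lit 0) (nat_lit 1540645910) (nat_lit 608) (nat_lit 1395679510) (nat_lit 76) (nat_lit 6420364109) (nat_lit 218) (nat_lit 5) (nat_lit 226) (nat_lit 5) (nat_lit 219) (nat_lit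 5) (nat_lit 593) (nat_lit 505) (nat_lit 462)) (XT.lf (nat_lit 0) (nat_lit 5031936224) (nat_lit 532) (nat_lit 3773363293) (nat_lit 76) (nat_lit 641211920) (nat_lit 212) (nat_lit 5) (nat_lit 219) (nat_lit 5) (nat_lit 213) (nat_lit 5) (nat_lit 594) (nat_lit 505) (nat_lit 461))))) (XT.nd (nat_lit 156) (nat_lit 912) (nat_lit 0) (XT.nd (nat_lit 78) (nat_lit 532) (nat_lit 0) (XT.lf (nat_lit 0) (nat_lit 3324150214) (nat_lit 456) (nat_lit 5275198622) (nat_lit 532) (nat_lit 938657806) (nat_lit 206) (nat_lit 5) (nat_lit 212) (nat_lit 5) (nat_lit 213) (nat_lit 5) (nat_lit 595) (nat_lit 505) (nat_lit 460)) (XT.lf (nat_lit 0) (nat_lit 914405543) (nat_lit 456) (nat_lit 1645609385) (nat_lit 532) (nat_lit 7071232497) (nat_lit 199) (nat_lit 5) (nat_lit 205) (nat_lit 5) (nat_lit 206) (nat_lit 5) (nat_lit 596) (nat_lit 505) (nat_lit 459))) (XT.nd (nat_lit 78) (nat_lit 912) (nat_lit 0) (XT.lf (nat_lit 0) (nat_lit 6127745097) (nat_lit 532) (nat_lit 1540649917) (nat_lit 76) (nat_lit 2057603495)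 (nat_lit 199) (nat_lit 5) (nat_lit 206) (nat_lit 5) (nat_lit 200) (nat_lit 5) (nat_lit 597) (nat_lit 505) (nat_lit 458)) (XT.nd (nat_lit 78) (nat_lit 456) (nat_lit 0) (XT.lf (nat_lit 0) (nat_lit 5780500687) (nat_lit 456) (nat_lit 3991928528) (nat_lit 532) (nat_lit 50105988) (nat_lit 193) (nat_lit 5) (nat_lit 199) (nat_lit 5) (nat_lit 200) (nat_lit 5) (nat_lit 598) (nat_lit 505) (nat_lit 457)) (XT.lf (nat_lit 0) (nat_lit 3304630867) (nat_lit 380) (nat_lit 206745778) (nat_lit 456) (nat_lit 6409381408) (nat_lit 187) (nat_lit 5) (nat_lit 192) (nat_lit 5) (nat_lit 193) (nat_lit 5) (nat_lit 599) (nat_lit 505) (nat_lit 456))))))) (XT.nd (nat_lit 780) (nat_lit 2812) (nat_lit 0) (XT.nd (nat_lit 390) (nat_lit 1216) (nat_lit 0) (XT.nd (nat_lit 156) (nat_lit 1216) (nat_lit 0) (XT.nd (nat_lit 78) (nat_lit 76) (nat_lit 0) (XT.lf (nat_lit 0) (nat_lit 754350036) (nat_lit 456) (nat_lit 6402603188) (nat_lit 532) (nat_lit 2863717236) (nat_lit 181) (nat_lit 5) (nat_lit 187) (nat_lit 5) (nat_lit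 188) (nat_lit 5) (nat_lit 600) (nat_lit 505) (nat_lit 455)) (XT.lf (nat_lit 0) (nat_lit 746793738) (nat_lit 532) (nat_lit 1830391946) (nat_lit 76) (nat_lit 7545223854) (nat_lit 180) (nat_lit 5) (nat_lit 187) (nat_lit 5) (nat_lit 181) (nat_lit 5) (nat_lit 601) (nat_lit 505) (nat_lit 454))) (XT.nd (nat_lit 78) (nat_lit 836) (nat_lit 0) (XT.lf (nat_lit 0) (nat_lit 4395934538) (nat_lit 456) (nat_lit 4486860580) (nat_lit 76) (nat_lit 1342916688) (nat_lit 175) (nat_lit 5) (nat_lit 181) (nat_lit 5) (nat_lit 176) (nat_lit 5) (nat_lit 602) (nat_lit 505) (nat_lit 453)) (XT.nd (nat_lit 78) (nat_lit 456) (nat_lit 0) (XT.lf (nat_lit 0) (nat_lit 3114067008) (nat_lit 380) (nat_lit 5012484753) (nat_lit 456) (nat_lit 2204360728) (nat_lit 170) (nat_lit 5) (nat_lit 175) (nat_lit 5) (nat_lit 176) (nat_lit 5) (nat_lit 603) (nat_lit 505) (nat_lit 452)) (XT.lf (nat_lit 0) (nat_lit 422650875) (nat_lit 380) (nat_lit 1043348993) (nat_lit 456) (nat_lit 8972185049) (nat_lit 164) (nat_lit 5) (nat_lit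 169) (nat_lit 5) (nat_lit 170) (nat_lit 5) (nat_lit 604) (nat_lit 505) (nat_lit 451))))) (XT.nd (nat_lit 156) (nat_lit 836) (nat_lit 0) (XT.nd (nat_lit 78) (nat_lit 380) (nat_lit 0) (XT.lf (nat_lit 0) (nat_lit 5207764183) (nat_lit 456) (nat_lit 2331770833) (nat_lit 76) (nat_lit 3007228216) (nat_lit 164) (nat_lit 5) (nat_lit 170) (nat_lit 5) (nat_lit 165) (nat_lit 5) (nat_lit 605) (nat_lit 505) (nat_lit 450)) (XT.lf (nat_lit 0) (nat_lit 5508781881) (nat_lit 380) (nat_lit 3518281888) (nat_lit 456) (nat_lit 1630397416) (nat_lit 159) (nat_lit 5) (nat_lit 164) (nat_lit 5) (nat_lit 165) (nat_lit 5) (nat_lit 606) (nat_lit 505) (nat_lit 449))) (XT.nd (nat_lit 78) (nat_lit 380) (nat_lit 0) (XT.lf (nat_lit 0) (nat_lit 2121702097) (nat_lit 456) (nat_lit 8047146137) (nat_lit 76) (nat_lit 601296268) (nat_lit 153) (nat_lit 5) (nat_lit 159) (nat_lit 5) (nat_lit 154) (nat_lit 5) (nat_lit 607) (nat_lit 505) (nat_lit 448)) (XT.nd (nat_lit 78) (nat_lit 380) (nat_lit 0) (XT.lf (nat_lit 0) (nat_lit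 5945487615) (nat_lit 456) (nat_lit 159397880) (nat_lit 76) (nat_lit 4779612905) (nat_lit 153) (nat_lit 5) (nat_lit 159) (nat_lit 5) (nat_lit 154) (nat_lit 5) (nat_lit 608) (nat_lit 505) (nat_lit 447)) (XT.lf (nat_lit 0) (nat_lit 7928736590) (nat_lit 380) (nat_lit 1929643408) (nat_lit 456) (nat_lit 1142508668) (nat_lit 148) (nat_lit 5) (nat_lit 153) (nat_lit 5) (nat_lit 154) (nat_lit 5) (nat_lit 609) (nat_lit 505) (nat_lit 446)))))) (XT.nd (nat_lit 390) (nat_lit 1368) (nat_lit 0) (XT.nd (nat_lit 156) (nat_lit 684) (nat_lit 0) (XT.nd (nat_lit 78) (nat_lit 380) (nat_lit 0) (XT.lf (nat_lit 0) (nat_lit 2704551049) (nat_lit 380) (nat_lit 6086450618) (nat_lit 76) (nat_lit 2328043801) (nat_lit 143) (nat_lit 5) (nat_lit 148) (nat_lit 5) (nat_lit 144) (nat_lit 5) (nat_lit 610) (nat_lit 505) (nat_lit 445)) (XT.lf (nat_lit 0) (nat_lit 2046600941) (nat_lit 380) (nat_lit 4574964009) (nat_lit 456) (nat_lit 4617684997) (nat_lit 138) (nat_lit 5) (nat_lit 143) (nat_lit 5) (nat_lit 144) (nat_lit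 5) (nat_lit 611) (nat_lit 505) (nat_lit 444))) (XT.nd (nat_lit 78) (nat_lit 684) (nat_lit 0) (XT.lf (nat_lit 0) (nat_lit 10363536654) (nat_lit 380) (nat_lit 256060838) (nat_lit 456) (nat_lit 742209224) (nat_lit 138) (nat_lit 5) (nat_lit 143) (nat_lit 5) (nat_lit 144) (nat_lit 5) (nat_lit 612) (nat_lit 505) (nat_lit 443)) (XT.nd (nat_lit 78) (nat_lit 304) (nat_lit 0) (XT.lf (nat_lit 0) (nat_lit 3206131275) (nat_lit 380) (nat_lit 4138143578) (nat_lit 76) (nat_lit 4141375234) (nat_lit 133) (nat_lit 5) (nat_lit 138) (nat_lit 5) (nat_lit 134) (nat_lit 5) (nat_lit 613) (nat_lit 505) (nat_lit 442)) (XT.lf (nat_lit 0) (nat_lit 4250198746) (nat_lit 304) (nat_lit 2971878366) (nat_lit 380) (nat_lit 4389825227) (nat_lit 129) (nat_lit 5) (nat_lit 133) (nat_lit 5) (nat_lit 134) (nat_lit 5) (nat_lit 614) (nat_lit 505) (nat_lit 441))))) (XT.nd (nat_lit 234) (nat_lit 684) (nat_lit 0) (XT.nd (nat_lit 78) (nat_lit 380) (nat_lit 0) (XT.lf (nat_lit 0) (nat_lit 1065430581) (nat_lit 304) (nat_lit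 10260167510) (nat_lit 380) (nat_lit 414938054) (nat_lit 125) (nat_lit 5) (nat_lit 129) (nat_lit 5) (nat_lit 130) (nat_lit 5) (nat_lit 615) (nat_lit 505) (nat_lit 440)) (XT.nd (nat_lit 78) (nat_lit 304) (nat_lit 0) (XT.lf (nat_lit 0) (nat_lit 3623940494) (nat_lit 380) (nat_lit 2214565341) (nat_lit 76) (nat_lit 6032121255) (nat_lit 124) (nat_lit 5) (nat_lit 129) (nat_lit 5) (nat_lit 125) (nat_lit 5) (nat_lit 616) (nat_lit 505) (nat_lit 439)) (XT.lf (nat_lit 0) (nat_lit 6436987622) (nat_lit 304) (nat_lit 1306396704) (nat_lit 380) (nat_lit 4259775338) (nat_lit 120) (nat_lit 5) (nat_lit 124) (nat_lit 5) (nat_lit 125) (nat_lit 5) (nat_lit 617) (nat_lit 505) (nat_lit 438)))) (XT.nd (nat_lit 78) (nat_lit 380) (nat_lit 0) (XT.lf (nat_lit 0) (nat_lit 3112687158) (nat_lit 304) (nat_lit 8852953148) (nat_lit 380) (nat_lit 172295628) (nat_lit 116) (nat_lit 5) (nat_lit 120) (nat_lit 5) (nat_lit 121) (nat_lit 5) (nat_lit 618) (nat_lit 505) (nat_lit 437)) (XT.nd (nat_lit 78) (nat_lit 304)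 (nat_lit 0) (XT.lf (nat_lit 0) (nat_lit 3954570902) (nat_lit 380) (nat_lit 329074222) (nat_lit 76) (nat_lit 7991043886) (nat_lit 115) (nat_lit 5) (nat_lit 120) (nat_lit 5) (nat_lit 116) (nat_lit 5) (nat_lit 619) (nat_lit 505) (nat_lit 436)) (XT.lf (nat_lit 0) (nat_lit 8184654588) (nat_lit 380) (nat_lit 3822791481) (nat_lit 76) (nat_lit 406249985) (nat_lit 111) (nat_lit 5) (nat_lit 116) (nat_lit 5) (nat_lit 112) (nat_lit 5) (nat_lit 620) (nat_lit 505) (nat_lit 435))))))))
noncomputable def xc38 : XT := (XT.nd (nat_lit 76752) (nat_lit 0) (nat_lit 13072) (XT.nd (nat_lit 75972) (nat_lit 0) (nat_lit 24472) (XT.nd (nat_lit 75582) (nat_lit 0) (nat_lit 34580) (XT.nd (nat_lit 156) (nat_lit 304) (nat_lit 0) (XT.nd (nat_lit 78) (nat_lit 380) (nat_lit 0) (XT.lf (nat_lit 0) (nat_lit 5117919866) (nat_lit 228) (nat_lit 7409920392) (nat_lit 304) (nat_lit 27074370) (nat_lit 108) (nat_lit 5) (nat_lit 111) (nat_lit 5) (nat_lit 112) (nat_lit 5) (nat_lit 621) (nat_lit 505) (nat_lit 434)) (XT.lf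 (nat_lit 0) (nat_lit 1523778083) (nat_lit 304) (nat_lit 2679771522) (nat_lit 380) (nat_lit 8494846789) (nat_lit 103) (nat_lit 5) (nat_lit 107) (nat_lit 5) (nat_lit 108) (nat_lit 5) (nat_lit 622) (nat_lit 505) (nat_lit 433))) (XT.nd (nat_lit 78) (nat_lit 304) (nat_lit 0) (XT.lf (nat_lit 0) (nat_lit 8547499247) (nat_lit 380) (nat_lit 2152969422) (nat_lit 76) (nat_lit 2143695347) (nat_lit 103) (nat_lit 5) (nat_lit 108) (nat_lit 5) (nat_lit 104) (nat_lit 5) (nat_lit 623) (nat_lit 505) (nat_lit 432)) (XT.nd (nat_lit 75270) (nat_lit 0) (nat_lit 40356) (XT.lf (nat_lit 0) (nat_lit 15086597) (nat_lit 304) (nat_lit 5926523899) (nat_lit 76) (nat_lit 7050651336) (nat_lit 99) (nat_lit 5) (nat_lit 103) (nat_lit 5) (nat_lit 100) (nat_lit 5) (nat_lit 624) (nat_lit 505) (nat_lit 431)) (XT.lf (nat_lit 0) (nat_lit 1125258637) (nat_lit 1292) (nat_lit 1158016107) (nat_lit 0) (nat_lit 1125258637) (nat_lit 630) (nat_lit 5) (nat_lit 647) (nat_lit 4) (nat_lit 630) (nat_lit 4) (nat_lit 548) (nat_lit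 506) (nat_lit 506))))) (XT.nd (nat_lit 156) (nat_lit 3040) (nat_lit 0) (XT.nd (nat_lit 78) (nat_lit 1444) (nat_lit 0) (XT.lf (nat_lit 0) (nat_lit 2400820334) (nat_lit 1292) (nat_lit 3234066256) (nat_lit 1292) (nat_lit 1209691893) (nat_lit 613) (nat_lit 4) (nat_lit 630) (nat_lit 5) (nat_lit 630) (nat_lit 4) (nat_lit 549) (nat_lit 506) (nat_lit 505)) (XT.lf (nat_lit 0) (nat_lit 297069022) (nat_lit 1368) (nat_lit 1834675597) (nat_lit 1444) (nat_lit 4741688148) (nat_lit 594) (nat_lit 5) (nat_lit 612) (nat_lit 5) (nat_lit 613) (nat_lit 4) (nat_lit 550) (nat_lit 506) (nat_lit 504))) (XT.nd (nat_lit 78) (nat_lit 3040) (nat_lit 0) (XT.lf (nat_lit 0) (nat_lit 5121826432) (nat_lit 1368) (nat_lit 361662171) (nat_lit 1444) (nat_lit 1420031413) (nat_lit 594) (nat_lit 5) (nat_lit 612) (nat_lit 5) (nat_lit 613) (nat_lit 4) (nat_lit 551) (nat_lit 506) (nat_lit 503)) (XT.nd (nat_lit 78) (nat_lit 1520) (nat_lit 0) (XT.lf (nat_lit 0) (nat_lit 1900673973) (nat_lit 1520) (nat_lit 3868906930) (nat_lit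 76) (nat_lit 1165212981) (nat_lit 574) (nat_lit 5) (nat_lit 594) (nat_lit 5) (nat_lit 575) (nat_lit 4) (nat_lit 552) (nat_lit 506) (nat_lit 502)) (XT.lf (nat_lit 0) (nat_lit 1005730237) (nat_lit 1520) (nat_lit 4215822646) (nat_lit 1596) (nat_lit 1745905938) (nat_lit 554) (nat_lit 5) (nat_lit 574) (nat_lit 5) (nat_lit 575) (nat_lit 4) (nat_lit 553) (nat_lit 506) (nat_lit 501)))))) (XT.nd (nat_lit 390) (nat_lit 4864) (nat_lit 0) (XT.nd (nat_lit 156) (nat_lit 3572) (nat_lit 0) (XT.nd (nat_lit 78) (nat_lit 1596) (nat_lit 0) (XT.lf (nat_lit 0) (nat_lit 1545384528) (nat_lit 1596) (nat_lit 1044753673) (nat_lit 76) (nat_lit 4411270449) (nat_lit 553) (nat_lit 5) (nat_lit 574) (nat_lit 5) (nat_lit 554) (nat_lit 5) (nat_lit 554) (nat_lit 506) (nat_lit 500)) (XT.lf (nat_lit 0) (nat_lit 3947846283) (nat_lit 1596) (nat_lit 890526843) (nat_lit 1672) (nat_lit 2198256826) (nat_lit 532) (nat_lit 5) (nat_lit 553) (nat_lit 5) (nat_lit 554) (nat_lit 5) (nat_lit 555) (nat_lit 506) (nat_lit 499)))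 (XT.nd (nat_lit 78) (nat_lit 1824) (nat_lit 0) (XT.lf (nat_lit 0) (nat_lit 1069266377) (nat_lit 1748) (nat_lit 5142315664) (nat_lit 76) (nat_lit 861648546) (nat_lit 509) (nat_lit 5) (nat_lit 532) (nat_lit 5) (nat_lit 510) (nat_lit 5) (nat_lit 556) (nat_lit 506) (nat_lit 498)) (XT.nd (nat_lit 78) (nat_lit 1824) (nat_lit 0) (XT.lf (nat_lit 0) (nat_lit 4334443210) (nat_lit 1748) (nat_lit 102169526) (nat_lit 76) (nat_lit 2674432942) (nat_lit 509) (nat_lit 5) (nat_lit 532) (nat_lit 5) (nat_lit 510) (nat_lit 5) (nat_lit 557) (nat_lit 506) (nat_lit 497)) (XT.lf (nat_lit 0) (nat_lit 477293822) (nat_lit 1824) (nat_lit 2111525137) (nat_lit 76) (nat_lit 4561363791) (nat_lit 485) (nat_lit 5) (nat_lit 509) (nat_lit 5) (nat_lit 486) (nat_lit 5) (nat_lit 558) (nat_lit 506) (nat_lit 496))))) (XT.nd (nat_lit 156) (nat_lit 1976) (nat_lit 0) (XT.nd (nat_lit 78) (nat_lit 1064) (nat_lit 0) (XT.lf (nat_lit 0) (nat_lit 3051750495) (nat_lit 1824) (nat_lit 664521116) (nat_lit 1900) (nat_lit 3474327598)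 (nat_lit 461) (nat_lit 5) (nat_lit 485) (nat_lit 5) (nat_lit 486) (nat_lit 5) (nat_lit 559) (nat_lit 506) (nat_lit 495)) (XT.lf (nat_lit 0) (nat_lit 1056389949) (nat_lit 1064) (nat_lit 5930663007) (nat_lit 1140) (nat_lit 245437775) (nat_lit 447) (nat_lit 5) (nat_lit 461) (nat_lit 5) (nat_lit 462) (nat_lit 5) (nat_lit 560) (nat_lit 506) (nat_lit 494))) (XT.nd (nat_lit 78) (nat_lit 1900) (nat_lit 0) (XT.lf (nat_lit 0) (nat_lit 2978281222) (nat_lit 1140) (nat_lit 952127196) (nat_lit 76) (nat_lit 3345018266) (nat_lit 446) (nat_lit 5) (nat_lit 461) (nat_lit 5) (nat_lit 447) (nat_lit 5) (nat_lit 561) (nat_lit 506) (nat_lit 493)) (XT.nd (nat_lit 78) (nat_lit 988) (nat_lit 0) (XT.lf (nat_lit 0) (nat_lit 4368539140) (nat_lit 912) (nat_lit 1862102094) (nat_lit 988) (nat_lit 1089205413) (nat_lit 434) (nat_lit 5) (nat_lit 446) (nat_lit 5) (nat_lit 447) (nat_lit 5) (nat_lit 562) (nat_lit 506) (nat_lit 492)) (XT.lf (nat_lit 0) (nat_lit 2117550264) (nat_lit 988) (nat_lit 4970605073) (nat_lit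 76) (nat_lit 277457032) (nat_lit 421) (nat_lit 5) (nat_lit 434) (nat_lit 5) (nat_lit 422) (nat_lit 5) (nat_lit 563) (nat_lit 506) (nat_lit 491))))))) (XT.nd (nat_lit 780) (nat_lit 5548) (nat_lit 0) (XT.nd (nat_lit 390) (nat_lit 3192) (nat_lit 0) (XT.nd (nat_lit 156) (nat_lit 1748) (nat_lit 0) (XT.nd (nat_lit 78) (nat_lit 76) (nat_lit 0) (XT.lf (nat_lit 0) (nat_lit 397284378) (nat_lit 836) (nat_lit 4951651177) (nat_lit 912) (nat_lit 2063718683) (nat_lit 410) (nat_lit 5) (nat_lit 421) (nat_lit 5) (nat_lit 422) (nat_lit 5) (nat_lit 564) (nat_lit 506) (nat_lit 490)) (XT.lf (nat_lit 0) (nat_lit 1142931909) (nat_lit 912) (nat_lit 1592948088) (nat_lit 76) (nat_lit 4725126265) (nat_lit 409) (nat_lit 5) (nat_lit 421) (nat_lit 5) (nat_lit 410) (nat_lit 5) (nat_lit 565) (nat_lit 506) (nat_lit 489))) (XT.nd (nat_lit 78) (nat_lit 912) (nat_lit 0) (XT.lf (nat_lit 0) (nat_lit 3911856383) (nat_lit 836) (nat_lit 441391791) (nat_lit 912) (nat_lit 3157467046) (nat_lit 398) (nat_lit 5) (nat_lit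 409) (nat_lit 5) (nat_lit 410) (nat_lit 5) (nat_lit 566) (nat_lit 506) (nat_lit 488)) (XT.nd (nat_lit 78) (nat_lit 0) (nat_lit 0) (XT.lf (nat_lit 0) (nat_lit 43424804) (nat_lit 912) (nat_lit 5626419127) (nat_lit 76) (nat_lit 1892012761) (nat_lit 386) (nat_lit 5) (nat_lit 398) (nat_lit 5) (nat_lit 387) (nat_lit 5) (nat_lit 567) (nat_lit 506) (nat_lit 487)) (XT.lf (nat_lit 0) (nat_lit 3236095631) (nat_lit 912) (nat_lit 73074029) (nat_lit 76) (nat_lit 4305038812) (nat_lit 386) (nat_lit 5) (nat_lit 398) (nat_lit 5) (nat_lit 387) (nat_lit 5) (nat_lit 568) (nat_lit 506) (nat_lit 486))))) (XT.nd (nat_lit 156) (nat_lit 1520) (nat_lit 0) (XT.nd (nat_lit 78) (nat_lit 836) (nat_lit 0) (XT.lf (nat_lit 0) (nat_lit 5601323889) (nat_lit 836) (nat_lit 871552517) (nat_lit 912) (nat_lit 1195131328) (nat_lit 375) (nat_lit 5) (nat_lit 386) (nat_lit 5) (nat_lit 387) (nat_lit 5) (nat_lit 569) (nat_lit 506) (nat_lit 485)) (XT.lf (nat_lit 0) (nat_lit 2003604975) (nat_lit 836) (nat_lit 4096025558)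 (nat_lit 76) (nat_lit 1623411390) (nat_lit 364) (nat_lit 5) (nat_lit 375) (nat_lit 5) (nat_lit 365) (nat_lit 5) (nat_lit 570) (nat_lit 506) (nat_lit 484))) (XT.nd (nat_lit 78) (nat_lit 760) (nat_lit 0) (XT.lf (nat_lit 0) (nat_lit 1626823578) (nat_lit 760) (nat_lit 3598635346) (nat_lit 836) (nat_lit 2554062217) (nat_lit 354) (nat_lit 5) (nat_lit 364) (nat_lit 5) (nat_lit 365) (nat_lit 5) (nat_lit 571) (nat_lit 506) (nat_lit 483)) (XT.nd (nat_lit 78) (nat_lit 684) (nat_lit 0) (XT.lf (nat_lit 0) (nat_lit 638576878) (nat_lit 836) (nat_lit 386239750) (nat_lit 76) (nat_lit 6812774672) (nat_lit 353) (nat_lit 5) (nat_lit 364) (nat_lit 5) (nat_lit 354) (nat_lit 5) (nat_lit 572) (nat_lit 506) (nat_lit 482)) (XT.lf (nat_lit 0) (nat_lit 3853416101) (nat_lit 760) (nat_lit 2420411955) (nat_lit 76) (nat_lit 1622811185) (nat_lit 344) (nat_lit 5) (nat_lit 354) (nat_lit 5) (nat_lit 345) (nat_lit 5) (nat_lit 573) (nat_lit 506) (nat_lit 481)))))) (XT.nd (nat_lit 390) (nat_lit 2660) (nat_lit 0)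 (XT.nd (nat_lit 156) (nat_lit 1368) (nat_lit 0) (XT.nd (nat_lit 78) (nat_lit 760) (nat_lit 0) (XT.lf (nat_lit 0) (nat_lit 3479122327) (nat_lit 760) (nat_lit 3632207151) (nat_lit 836) (nat_lit 845967972) (nat_lit 334) (nat_lit 5) (nat_lit 344) (nat_lit 5) (nat_lit 345) (nat_lit 5) (nat_lit 574) (nat_lit 506) (nat_lit 480)) (XT.lf (nat_lit 0) (nat_lit 1449481502) (nat_lit 684) (nat_lit 906905254) (nat_lit 760) (nat_lit 5663016494) (nat_lit 324) (nat_lit 5) (nat_lit 333) (nat_lit 5) (nat_lit 334) (nat_lit 5) (nat_lit 575) (nat_lit 506) (nat_lit 479))) (XT.nd (nat_lit 78) (nat_lit 1368) (nat_lit 0) (XT.lf (nat_lit 0) (nat_lit 5601498892) (nat_lit 760) (nat_lit 608622008) (nat_lit 76) (nat_lit 1872722246) (nat_lit 324) (nat_lit 5) (nat_lit 334) (nat_lit 5) (nat_lit 325) (nat_lit 5) (nat_lit 576) (nat_lit 506) (nat_lit 478)) (XT.nd (nat_lit 78) (nat_lit 608) (nat_lit 0) (XT.lf (nat_lit 0) (nat_lit 744064071) (nat_lit 760) (nat_lit 2678588403) (nat_lit 76) (nat_lit 4725002119) (nat_lit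 314) (nat_lit 5) (nat_lit 324) (nat_lit 5) (nat_lit 315) (nat_lit 5) (nat_lit 577) (nat_lit 506) (nat_lit 477)) (XT.lf (nat_lit 0) (nat_lit 3427473215) (nat_lit 608) (nat_lit 548578216) (nat_lit 684) (nat_lit 4237881193) (nat_lit 306) (nat_lit 5) (nat_lit 314) (nat_lit 5) (nat_lit 315) (nat_lit 5) (nat_lit 578) (nat_lit 506) (nat_lit 476))))) (XT.nd (nat_lit 234) (nat_lit 1292) (nat_lit 0) (XT.nd (nat_lit 78) (nat_lit 684) (nat_lit 0) (XT.lf (nat_lit 0) (nat_lit 1348476532) (nat_lit 684) (nat_lit 5915928854) (nat_lit 760) (nat_lit 1017300519) (nat_lit 297) (nat_lit 5) (nat_lit 306) (nat_lit 5) (nat_lit 307) (nat_lit 5) (nat_lit 579) (nat_lit 506) (nat_lit 475)) (XT.nd (nat_lit 78) (nat_lit 608) (nat_lit 0) (XT.lf (nat_lit 0) (nat_lit 2223563213) (nat_lit 760) (nat_lit 762424271) (nat_lit 76) (nat_lit 5364844511) (nat_lit 296) (nat_lit 5) (nat_lit 306) (nat_lit 5) (nat_lit 297) (nat_lit 5) (nat_lit 580) (nat_lit 506) (nat_lit 474)) (XT.lf (nat_lit 0) (nat_lit 5502410054) (nat_lit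 684) (nat_lit 2887432155) (nat_lit 76) (nat_lit 31632144) (nat_lit 288) (nat_lit 5) (nat_lit 297) (nat_lit 5) (nat_lit 289) (nat_lit 5) (nat_lit 581) (nat_lit 506) (nat_lit 473)))) (XT.nd (nat_lit 78) (nat_lit 608) (nat_lit 0) (XT.lf (nat_lit 0) (nat_lit 346982835) (nat_lit 684) (nat_lit 5061124830) (nat_lit 76) (nat_lit 3085413599) (nat_lit 279) (nat_lit 5) (nat_lit 288) (nat_lit 5) (nat_lit 280) (nat_lit 5) (nat_lit 582) (nat_lit 506) (nat_lit 472)) (XT.nd (nat_lit 78) (nat_lit 0) (nat_lit 0) (XT.lf (nat_lit 0) (nat_lit 1284435994) (nat_lit 608) (nat_lit 2334033746) (nat_lit 684) (nat_lit 4948573122) (nat_lit 271) (nat_lit 5) (nat_lit 279) (nat_lit 5) (nat_lit 280) (nat_lit 5) (nat_lit 583) (nat_lit 506) (nat_lit 471)) (XT.lf (nat_lit 0) (nat_lit 6946542959) (nat_lit 684) (nat_lit 885805174) (nat_lit 76) (nat_lit 809867309) (nat_lit 271) (nat_lit 5) (nat_lit 280) (nat_lit 5) (nat_lit 272) (nat_lit 5) (nat_lit 584) (nat_lit 506) (nat_lit 470))))))))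
noncomputable def xc39 : XT := (XT.nd (nat_lit 1560) (nat_lit 5244) (nat_lit 0) (XT.nd (nat_lit 780) (nat_lit 3268) (nat_lit 0) (XT.nd (nat_lit 390) (nat_lit 2128) (nat_lit 0) (XT.nd (nat_lit 156) (nat_lit 1140) (nat_lit 0) (XT.nd (nat_lit 78) (nat_lit 532) (nat_lit 0) (XT.lf (nat_lit 0) (nat_lit 1605785585) (nat_lit 684) (nat_lit 3095265050) (nat_lit 76) (nat_lit 4017538195) (nat_lit 262) (nat_lit 5) (nat_lit 271) (nat_lit 5) (nat_lit 263) (nat_lit 5) (nat_lit 585) (nat_lit 506) (nat_lit 469)) (XT.lf (nat_lit 0) (nat_lit 3448752761) (nat_lit 532) (nat_lit 1483127958) (nat_lit 608) (nat_lit 3864762006) (nat_lit 255) (nat_lit 5) (nat_lit 262) (nat_lit 5) (nat_lit 263) (nat_lit 5) (nat_lit 586) (nat_lit 506) (nat_lit 468))) (XT.nd (nat_lit 78) (nat_lit 608) (nat_lit 0) (XT.lf (nat_lit 0) (nat_lit 1230189923) (nat_lit 532) (nat_lit 7088207979) (nat_lit 608) (nat_lit 557985194) (nat_lit 248) (nat_lit 5) (nat_lit 255) (nat_lit 5) (nat_lit 256) (nat_lit 5) (nat_lit 587) (nat_lit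 506) (nat_lit 467)) (XT.nd (nat_lit 78) (nat_lit 532) (nat_lit 0) (XT.lf (nat_lit 0) (nat_lit 2777473024) (nat_lit 608) (nat_lit 1037104971) (nat_lit 76) (nat_lit 5142788735) (nat_lit 247) (nat_lit 5) (nat_lit 255) (nat_lit 5) (nat_lit 248) (nat_lit 5) (nat_lit 588) (nat_lit 506) (nat_lit 466)) (XT.lf (nat_lit 0) (nat_lit 5712555800) (nat_lit 532) (nat_lit 451138584) (nat_lit 608) (nat_lit 2876374582) (nat_lit 240) (nat_lit 5) (nat_lit 247) (nat_lit 5) (nat_lit 248) (nat_lit 5) (nat_lit 589) (nat_lit 506) (nat_lit 465))))) (XT.nd (nat_lit 156) (nat_lit 1064) (nat_lit 0) (XT.nd (nat_lit 78) (nat_lit 456) (nat_lit 0) (XT.lf (nat_lit 0) (nat_lit 490319326) (nat_lit 608) (nat_lit 5677964184) (nat_lit 76) (nat_lit 2956009311) (nat_lit 232) (nat_lit 5) (nat_lit 240) (nat_lit 5) (nat_lit 233) (nat_lit 5) (nat_lit 590) (nat_lit 506) (nat_lit 464)) (XT.lf (nat_lit 0) (nat_lit 1120104673) (nat_lit 456) (nat_lit 2753484857) (nat_lit 532) (nat_lit 5336479242) (nat_lit 226) (nat_lit 5)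 (nat_lit 232) (nat_lit 5) (nat_lit 233) (nat_lit 5) (nat_lit 591) (nat_lit 506) (nat_lit 463))) (XT.nd (nat_lit 78) (nat_lit 1064) (nat_lit 0) (XT.lf (nat_lit 0) (nat_lit 7322954431) (nat_lit 532) (nat_lit 1234442765) (nat_lit 76) (nat_lit 740197420) (nat_lit 226) (nat_lit 5) (nat_lit 233) (nat_lit 5) (nat_lit 227) (nat_lit 5) (nat_lit 592) (nat_lit 506) (nat_lit 462)) (XT.nd (nat_lit 78) (nat_lit 456) (nat_lit 0) (XT.lf (nat_lit 0) (nat_lit 1447235830) (nat_lit 608) (nat_lit 3643261081) (nat_lit 76) (nat_lit 4295950540) (nat_lit 218) (nat_lit 5) (nat_lit 226) (nat_lit 5) (nat_lit 219) (nat_lit 5) (nat_lit 593) (nat_lit 506) (nat_lit 461)) (XT.lf (nat_lit 0) (nat_lit 3368559466) (nat_lit 456) (nat_lit 1529162808) (nat_lit 532) (nat_lit 4579364542) (nat_lit 212) (nat_lit 5) (nat_lit 218) (nat_lit 5) (nat_lit 219) (nat_lit 5) (nat_lit 594) (nat_lit 506) (nat_lit 460)))))) (XT.nd (nat_lit 390) (nat_lit 1368) (nat_lit 0) (XT.nd (nat_lit 156) (nat_lit 1368) (nat_lit 0) (XT.nd (nat_lit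 78) (nat_lit 76) (nat_lit 0) (XT.lf (nat_lit 0) (nat_lit 936407098) (nat_lit 456) (nat_lit 7481864037) (nat_lit 532) (nat_lit 1151249514) (nat_lit 206) (nat_lit 5) (nat_lit 212) (nat_lit 5) (nat_lit 213) (nat_lit 5) (nat_lit 595) (nat_lit 506) (nat_lit 459)) (XT.lf (nat_lit 0) (nat_lit 2322919138) (nat_lit 532) (nat_lit 1546735496) (nat_lit 76) (nat_lit 5793681550) (nat_lit 205) (nat_lit 5) (nat_lit 212) (nat_lit 5) (nat_lit 206) (nat_lit 5) (nat_lit 596) (nat_lit 506) (nat_lit 458))) (XT.nd (nat_lit 78) (nat_lit 912) (nat_lit 0) (XT.lf (nat_lit 0) (nat_lit 5686393978) (nat_lit 456) (nat_lit 159404268) (nat_lit 532) (nat_lit 3913187318) (nat_lit 199) (nat_lit 5) (nat_lit 205) (nat_lit 5) (nat_lit 206) (nat_lit 5) (nat_lit 597) (nat_lit 506) (nat_lit 457)) (XT.nd (nat_lit 78) (nat_lit 456) (nat_lit 0) (XT.lf (nat_lit 0) (nat_lit 3184740843) (nat_lit 456) (nat_lit 6267066152) (nat_lit 532) (nat_lit 404490023) (nat_lit 193) (nat_lit 5) (nat_lit 199) (nat_lit 5) (nat_lit 200)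 (nat_lit 5) (nat_lit 598) (nat_lit 506) (nat_lit 456)) (XT.lf (nat_lit 0) (nat_lit 611202220) (nat_lit 380) (nat_lit 2512235039) (nat_lit 456) (nat_lit 6831893891) (nat_lit 187) (nat_lit 5) (nat_lit 192) (nat_lit 5) (nat_lit 193) (nat_lit 5) (nat_lit 599) (nat_lit 506) (nat_lit 455))))) (XT.nd (nat_lit 156) (nat_lit 836) (nat_lit 0) (XT.nd (nat_lit 78) (nat_lit 532) (nat_lit 0) (XT.lf (nat_lit 0) (nat_lit 6728572651) (nat_lit 456) (nat_lit 1999601596) (nat_lit 76) (nat_lit 1327879311) (nat_lit 187) (nat_lit 5) (nat_lit 193) (nat_lit 5) (nat_lit 188) (nat_lit 5) (nat_lit 600) (nat_lit 506) (nat_lit 454)) (XT.lf (nat_lit 0) (nat_lit 255362599) (nat_lit 532) (nat_lit 4674560024) (nat_lit 76) (nat_lit 5228606363) (nat_lit 180) (nat_lit 5) (nat_lit 187) (nat_lit 5) (nat_lit 181) (nat_lit 5) (nat_lit 601) (nat_lit 506) (nat_lit 453))) (XT.nd (nat_lit 78) (nat_lit 456) (nat_lit 0) (XT.lf (nat_lit 0) (nat_lit 2835007130) (nat_lit 380) (nat_lit 1021643789) (nat_lit 456) (nat_lit 6406138496)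 (nat_lit 175) (nat_lit 5) (nat_lit 180) (nat_lit 5) (nat_lit 181) (nat_lit 5) (nat_lit 602) (nat_lit 506) (nat_lit 452)) (XT.nd (nat_lit 78) (nat_lit 76) (nat_lit 0) (XT.lf (nat_lit 0) (nat_lit 109760088) (nat_lit 380) (nat_lit 7431393824) (nat_lit 456) (nat_lit 2827759559) (nat_lit 170) (nat_lit 5) (nat_lit 175) (nat_lit 5) (nat_lit 176) (nat_lit 5) (nat_lit 603) (nat_lit 506) (nat_lit 451)) (XT.lf (nat_lit 0) (nat_lit 828119949) (nat_lit 456) (nat_lit 2651833284) (nat_lit 76) (nat_lit 6996767804) (nat_lit 169) (nat_lit 5) (nat_lit 175) (nat_lit 5) (nat_lit 170) (nat_lit 5) (nat_lit 604) (nat_lit 506) (nat_lit 450))))))) (XT.nd (nat_lit 780) (nat_lit 2204) (nat_lit 0) (XT.nd (nat_lit 390) (nat_lit 1444) (nat_lit 0) (XT.nd (nat_lit 156) (nat_lit 836) (nat_lit 0) (XT.nd (nat_lit 78) (nat_lit 380) (nat_lit 0) (XT.lf (nat_lit 0) (nat_lit 4516712167) (nat_lit 456) (nat_lit 5495250288) (nat_lit 76) (nat_lit 574401364) (nat_lit 164) (nat_lit 5) (nat_lit 170) (nat_lit 5) (nat_lit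 165) (nat_lit 5) (nat_lit 605) (nat_lit 506) (nat_lit 449)) (XT.lf (nat_lit 0) (nat_lit 2272659738) (nat_lit 380) (nat_lit 6022938771) (nat_lit 456) (nat_lit 2402272534) (nat_lit 159) (nat_lit 5) (nat_lit 164) (nat_lit 5) (nat_lit 165) (nat_lit 5) (nat_lit 606) (nat_lit 506) (nat_lit 448))) (XT.nd (nat_lit 78) (nat_lit 760) (nat_lit 0) (XT.lf (nat_lit 0) (nat_lit 1318943873) (nat_lit 456) (nat_lit 610512352) (nat_lit 76) (nat_lit 8882019460) (nat_lit 158) (nat_lit 5) (nat_lit 164) (nat_lit 5) (nat_lit 159) (nat_lit 5) (nat_lit 607) (nat_lit 506) (nat_lit 447)) (XT.nd (nat_lit 78) (nat_lit 380) (nat_lit 0) (XT.lf (nat_lit 0) (nat_lit 5106927536) (nat_lit 456) (nat_lit 3560253629) (nat_lit 76) (nat_lit 2259365402) (nat_lit 153) (nat_lit 5) (nat_lit 159) (nat_lit 5) (nat_lit 154) (nat_lit 5) (nat_lit 608) (nat_lit 506) (nat_lit 446)) (XT.lf (nat_lit 0) (nat_lit 4452511048) (nat_lit 380) (nat_lit 4525884579) (nat_lit 456) (nat_lit 2065370622) (nat_lit 148) (nat_lit 5) (nat_lit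 153) (nat_lit 5) (nat_lit 154) (nat_lit 5) (nat_lit 609) (nat_lit 506) (nat_lit 445))))) (XT.nd (nat_lit 156) (nat_lit 1064) (nat_lit 0) (XT.nd (nat_lit 78) (nat_lit 0) (nat_lit 0) (XT.lf (nat_lit 0) (nat_lit 1458188778) (nat_lit 304) (nat_lit 278177601) (nat_lit 380) (nat_lit 9426825924) (nat_lit 143) (nat_lit 5) (nat_lit 147) (nat_lit 5) (nat_lit 148) (nat_lit 5) (nat_lit 610) (nat_lit 506) (nat_lit 444)) (XT.lf (nat_lit 0) (nat_lit 5619589716) (nat_lit 380) (nat_lit 1626926311) (nat_lit 76) (nat_lit 4037557441) (nat_lit 143) (nat_lit 5) (nat_lit 148) (nat_lit 5) (nat_lit 144) (nat_lit 5) (nat_lit 611) (nat_lit 506) (nat_lit 443))) (XT.nd (nat_lit 78) (nat_lit 684) (nat_lit 0) (XT.lf (nat_lit 0) (nat_lit 6638646454) (nat_lit 380) (nat_lit 2949749275) (nat_lit 456) (nat_lit 1818819897) (nat_lit 138) (nat_lit 5) (nat_lit 143) (nat_lit 5) (nat_lit 144) (nat_lit 5) (nat_lit 612) (nat_lit 506) (nat_lit 442)) (XT.nd (nat_lit 78) (nat_lit 304) (nat_lit 0) (XT.lf (nat_lit 0) (nat_lit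 2082634574) (nat_lit 380) (nat_lit 8009899544) (nat_lit 76) (nat_lit 1439885626) (nat_lit 133) (nat_lit 5) (nat_lit 138) (nat_lit 5) (nat_lit 134) (nat_lit 5) (nat_lit 613) (nat_lit 506) (nat_lit 441)) (XT.lf (nat_lit 0) (nat_lit 297097029) (nat_lit 304) (nat_lit 5757633018) (nat_lit 380) (nat_lit 5604819765) (nat_lit 129) (nat_lit 5) (nat_lit 133) (nat_lit 5) (nat_lit 134) (nat_lit 5) (nat_lit 614) (nat_lit 506) (nat_lit 440)))))) (XT.nd (nat_lit 390) (nat_lit 1140) (nat_lit 0) (XT.nd (nat_lit 156) (nat_lit 684) (nat_lit 0) (XT.nd (nat_lit 78) (nat_lit 380) (nat_lit 0) (XT.lf (nat_lit 0) (nat_lit 8819611647) (nat_lit 304) (nat_lit 1304010212) (nat_lit 380) (nat_lit 1665255135) (nat_lit 129) (nat_lit 5) (nat_lit 133) (nat_lit 5) (nat_lit 134) (nat_lit 5) (nat_lit 615) (nat_lit 506) (nat_lit 439)) (XT.lf (nat_lit 0) (nat_lit 2343844180) (nat_lit 380) (nat_lit 6350378822) (nat_lit 76) (nat_lit 3225831604) (nat_lit 124) (nat_lit 5) (nat_lit 129) (nat_lit 5) (nat_lit 125) (nat_lit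 5) (nat_lit 616) (nat_lit 506) (nat_lit 438))) (XT.nd (nat_lit 78) (nat_lit 380) (nat_lit 0) (XT.lf (nat_lit 0) (nat_lit 2216766564) (nat_lit 304) (nat_lit 4201427977) (nat_lit 380) (nat_lit 5635295256) (nat_lit 120) (nat_lit 5) (nat_lit 124) (nat_lit 5) (nat_lit 125) (nat_lit 5) (nat_lit 617) (nat_lit 506) (nat_lit 437)) (XT.nd (nat_lit 78) (nat_lit 380) (nat_lit 0) (XT.lf (nat_lit 0) (nat_lit 10583837337) (nat_lit 380) (nat_lit 1209036280) (nat_lit 76) (nat_lit 396525445) (nat_lit 120) (nat_lit 5) (nat_lit 125) (nat_lit 5) (nat_lit 121) (nat_lit 5) (nat_lit 618) (nat_lit 506) (nat_lit 436)) (XT.lf (nat_lit 0) (nat_lit 2514529375) (nat_lit 380) (nat_lit 4738316601) (nat_lit 76) (nat_lit 5074004440) (nat_lit 115) (nat_lit 5) (nat_lit 120) (nat_lit 5) (nat_lit 116) (nat_lit 5) (nat_lit 619) (nat_lit 506) (nat_lit 435))))) (XT.nd (nat_lit 234) (nat_lit 532) (nat_lit 0) (XT.nd (nat_lit 78) (nat_lit 304) (nat_lit 0) (XT.lf (nat_lit 0) (nat_lit 4096796197) (nat_lit 304) (nat_lit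 2598726058) (nat_lit 380) (nat_lit 5771317712) (nat_lit 111) (nat_lit 5) (nat_lit 115) (nat_lit 5) (nat_lit 116) (nat_lit 5) (nat_lit 620) (nat_lit 506) (nat_lit 434)) (XT.nd (nat_lit 78) (nat_lit 76) (nat_lit 0) (XT.lf (nat_lit 0) (nat_lit 498257125) (nat_lit 228) (nat_lit 10476441923) (nat_lit 304) (nat_lit 1634640349) (nat_lit 108) (nat_lit 5) (nat_lit 111) (nat_lit 5) (nat_lit 112) (nat_lit 5) (nat_lit 621) (nat_lit 506) (nat_lit 433)) (XT.lf (nat_lit 0) (nat_lit 2590069316) (nat_lit 304) (nat_lit 3188591236) (nat_lit 76) (nat_lit 6974909965) (nat_lit 107) (nat_lit 5) (nat_lit 111) (nat_lit 5) (nat_lit 108) (nat_lit 5) (nat_lit 622) (nat_lit 506) (nat_lit 432)))) (XT.nd (nat_lit 78) (nat_lit 228) (nat_lit 0) (XT.lf (nat_lit 0) (nat_lit 5922290371) (nat_lit 304) (nat_lit 959693347) (nat_lit 380) (nat_lit 6018395762) (nat_lit 103) (nat_lit 5) (nat_lit 107) (nat_lit 5) (nat_lit 108) (nat_lit 5) (nat_lit 623) (nat_lit 506) (nat_lit 431)) (XT.nd (nat_lit 75114) (nat_lit 0)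 (nat_lit 41572) (XT.lf (nat_lit 0) (nat_lit 2154289497) (nat_lit 228) (nat_lit 9132930130) (nat_lit 304) (nat_lit 1762356594) (nat_lit 100) (nat_lit 5) (nat_lit 103) (nat_lit 5) (nat_lit 104) (nat_lit 5) (nat_lit 624) (nat_lit 506) (nat_lit 430)) (XT.lf (nat_lit 0) (nat_lit 998636313) (nat_lit 1140) (nat_lit 1192009109) (nat_lit 1140) (nat_lit 1192009109) (nat_lit 647) (nat_lit 4) (nat_lit 662) (nat_lit 5) (nat_lit 662) (nat_lit 4) (nat_lit 546) (nat_lit 507) (nat_lit 507))))))))
noncomputable def xc40 : XT := (XT.nd (nat_lit 1560) (nat_lit 10868) (nat_lit 0) (XT.nd (nat_lit 780) (nat_lit 8436) (nat_lit 0) (XT.nd (nat_lit 390) (nat_lit 6384) (nat_lit 0) (XT.nd (nat_lit 156) (nat_lit 2812) (nat_lit 0) (XT.nd (nat_lit 78) (nat_lit 1216) (nat_lit 0) (XT.lf (nat_lit 0) (nat_lit 951045866) (nat_lit 1216) (nat_lit 185046435) (nat_lit 76) (nat_lit 5654938378) (nat_lit 646) (nat_lit 5) (nat_lit 662) (nat_lit 5) (nat_lit 647) (nat_lit 4) (nat_lit 547) (nat_lit 507) (nat_lit 506)) (XT.lf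 (nat_lit 0) (nat_lit 4279927590) (nat_lit 1292) (nat_lit 2347161727) (nat_lit 0) (nat_lit 190691378) (nat_lit 630) (nat_lit 5) (nat_lit 647) (nat_lit 4) (nat_lit 630) (nat_lit 4) (nat_lit 548) (nat_lit 507) (nat_lit 505))) (XT.nd (nat_lit 78) (nat_lit 1444) (nat_lit 0) (XT.lf (nat_lit 0) (nat_lit 772863504) (nat_lit 1368) (nat_lit 4512732679) (nat_lit 76) (nat_lit 1560302586) (nat_lit 612) (nat_lit 5) (nat_lit 630) (nat_lit 5) (nat_lit 613) (nat_lit 4) (nat_lit 549) (nat_lit 507) (nat_lit 504)) (XT.nd (nat_lit 78) (nat_lit 76) (nat_lit 0) (XT.lf (nat_lit 0) (nat_lit 188028790) (nat_lit 1368) (nat_lit 3875194570) (nat_lit 1444) (nat_lit 2812081458) (nat_lit 594) (nat_lit 5) (nat_lit 612) (nat_lit 5) (nat_lit 613) (nat_lit 4) (nat_lit 550) (nat_lit 507) (nat_lit 503)) (XT.lf (nat_lit 0) (nat_lit 468636928) (nat_lit 1444) (nat_lit 1926953032) (nat_lit 76) (nat_lit 4510425482) (nat_lit 593) (nat_lit 5) (nat_lit 612) (nat_lit 5) (nat_lit 594) (nat_lit 5) (nat_lit 551) (nat_lit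 507) (nat_lit 502))))) (XT.nd (nat_lit 156) (nat_lit 3344) (nat_lit 0) (XT.nd (nat_lit 78) (nat_lit 1596) (nat_lit 0) (XT.lf (nat_lit 0) (nat_lit 2886339507) (nat_lit 1444) (nat_lit 841912952) (nat_lit 1520) (nat_lit 3209706126) (nat_lit 574) (nat_lit 5) (nat_lit 593) (nat_lit 5) (nat_lit 594) (nat_lit 5) (nat_lit 552) (nat_lit 507) (nat_lit 501)) (XT.lf (nat_lit 0) (nat_lit 37271254) (nat_lit 1596) (nat_lit 6176869097) (nat_lit 76) (nat_lit 757281299) (nat_lit 553) (nat_lit 5) (nat_lit 574) (nat_lit 5) (nat_lit 554) (nat_lit 5) (nat_lit 553) (nat_lit 507) (nat_lit 500))) (XT.nd (nat_lit 78) (nat_lit 3344) (nat_lit 0) (XT.lf (nat_lit 0) (nat_lit 3272790640) (nat_lit 1596) (nat_lit 1302382674) (nat_lit 76) (nat_lit 2430633020) (nat_lit 553) (nat_lit 5) (nat_lit 574) (nat_lit 5) (nat_lit 554) (nat_lit 5) (nat_lit 554) (nat_lit 507) (nat_lit 499)) (XT.nd (nat_lit 78) (nat_lit 1748) (nat_lit 0) (XT.lf (nat_lit 0) (nat_lit 3655845572) (nat_lit 1596) (nat_lit 2875809164) (nat_lit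 1672) (nat_lit 510059412) (nat_lit 532) (nat_lit 5) (nat_lit 553) (nat_lit 5) (nat_lit 554) (nat_lit 5) (nat_lit 555) (nat_lit 507) (nat_lit 498)) (XT.lf (nat_lit 0) (nat_lit 1593378175) (nat_lit 1672) (nat_lit 1102038663) (nat_lit 1748) (nat_lit 4383480711) (nat_lit 509) (nat_lit 5) (nat_lit 531) (nat_lit 5) (nat_lit 532) (nat_lit 5) (nat_lit 556) (nat_lit 507) (nat_lit 497)))))) (XT.nd (nat_lit 390) (nat_lit 3648) (nat_lit 0) (XT.nd (nat_lit 156) (nat_lit 2964) (nat_lit 0) (XT.nd (nat_lit 78) (nat_lit 1824) (nat_lit 0) (XT.lf (nat_lit 0) (nat_lit 5921866069) (nat_lit 1748) (nat_lit 469427940) (nat_lit 76) (nat_lit 726196974) (nat_lit 509) (nat_lit 5) (nat_lit 532) (nat_lit 5) (nat_lit 510) (nat_lit 5) (nat_lit 557) (nat_lit 507) (nat_lit 496)) (XT.lf (nat_lit 0) (nat_lit 2003739735) (nat_lit 1824) (nat_lit 2531831606) (nat_lit 76) (nat_lit 2621530998) (nat_lit 485) (nat_lit 5) (nat_lit 509) (nat_lit 5) (nat_lit 486) (nat_lit 5) (nat_lit 558) (nat_lit 507) (nat_lit 495)))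 (XT.nd (nat_lit 78) (nat_lit 1140) (nat_lit 0) (XT.lf (nat_lit 0) (nat_lit 2594640115) (nat_lit 1824) (nat_lit 2614359877) (nat_lit 1900) (nat_lit 1989196727) (nat_lit 461) (nat_lit 5) (nat_lit 485) (nat_lit 5) (nat_lit 486) (nat_lit 5) (nat_lit 559) (nat_lit 507) (nat_lit 494)) (XT.nd (nat_lit 78) (nat_lit 0) (nat_lit 0) (XT.lf (nat_lit 0) (nat_lit 554658667) (nat_lit 1064) (nat_lit 626346814) (nat_lit 1140) (nat_lit 6059773792) (nat_lit 446) (nat_lit 5) (nat_lit 460) (nat_lit 5) (nat_lit 461) (nat_lit 5) (nat_lit 560) (nat_lit 507) (nat_lit 493)) (XT.lf (nat_lit 0) (nat_lit 4367283672) (nat_lit 1140) (nat_lit 1491087510) (nat_lit 76) (nat_lit 1425999975) (nat_lit 446) (nat_lit 5) (nat_lit 461) (nat_lit 5) (nat_lit 447) (nat_lit 5) (nat_lit 561) (nat_lit 507) (nat_lit 492))))) (XT.nd (nat_lit 156) (nat_lit 1748) (nat_lit 0) (XT.nd (nat_lit 78) (nat_lit 912) (nat_lit 0) (XT.lf (nat_lit 0) (nat_lit 253501795) (nat_lit 988) (nat_lit 3539919051) (nat_lit 76) (nat_lit 3536006464)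 (nat_lit 433) (nat_lit 5) (nat_lit 446) (nat_lit 5) (nat_lit 434) (nat_lit 5) (nat_lit 562) (nat_lit 507) (nat_lit 491)) (XT.lf (nat_lit 0) (nat_lit 1761869007) (nat_lit 912) (nat_lit 1648775798) (nat_lit 988) (nat_lit 3965116511) (nat_lit 421) (nat_lit 5) (nat_lit 433) (nat_lit 5) (nat_lit 434) (nat_lit 5) (nat_lit 563) (nat_lit 507) (nat_lit 490))) (XT.nd (nat_lit 78) (nat_lit 1748) (nat_lit 0) (XT.lf (nat_lit 0) (nat_lit 6599731015) (nat_lit 988) (nat_lit 271864743) (nat_lit 76) (nat_lit 552056520) (nat_lit 421) (nat_lit 5) (nat_lit 434) (nat_lit 5) (nat_lit 422) (nat_lit 5) (nat_lit 564) (nat_lit 507) (nat_lit 489)) (XT.nd (nat_lit 78) (nat_lit 836) (nat_lit 0) (XT.lf (nat_lit 0) (nat_lit 2335827971) (nat_lit 912) (nat_lit 2316318051) (nat_lit 76) (nat_lit 2820313099) (nat_lit 409) (nat_lit 5) (nat_lit 421) (nat_lit 5) (nat_lit 410) (nat_lit 5) (nat_lit 565) (nat_lit 507) (nat_lit 488)) (XT.lf (nat_lit 0) (nat_lit 3147544340) (nat_lit 836) (nat_lit 2365362217) (nat_lit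 912) (nat_lit 2009929206) (nat_lit 398) (nat_lit 5) (nat_lit 409) (nat_lit 5) (nat_lit 410) (nat_lit 5) (nat_lit 566) (nat_lit 507) (nat_lit 487))))))) (XT.nd (nat_lit 780) (nat_lit 5244) (nat_lit 0) (XT.nd (nat_lit 390) (nat_lit 2280) (nat_lit 0) (XT.nd (nat_lit 156) (nat_lit 2432) (nat_lit 0) (XT.nd (nat_lit 78) (nat_lit 0) (nat_lit 0) (XT.lf (nat_lit 0) (nat_lit 1122329290) (nat_lit 836) (nat_lit 7666067) (nat_lit 912) (nat_lit 6444754025) (nat_lit 386) (nat_lit 5) (nat_lit 397) (nat_lit 5) (nat_lit 398) (nat_lit 5) (nat_lit 567) (nat_lit 507) (nat_lit 486)) (XT.lf (nat_lit 0) (nat_lit 4294838699) (nat_lit 912) (nat_lit 930449207) (nat_lit 76) (nat_lit 2402372566) (nat_lit 386) (nat_lit 5) (nat_lit 398) (nat_lit 5) (nat_lit 387) (nat_lit 5) (nat_lit 568) (nat_lit 507) (nat_lit 485))) (XT.nd (nat_lit 78) (nat_lit 1596) (nat_lit 0) (XT.lf (nat_lit 0) (nat_lit 4701337396) (nat_lit 836) (nat_lit 2797205718) (nat_lit 912) (nat_lit 183580853) (nat_lit 375) (nat_lit 5) (nat_lit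 386) (nat_lit 5) (nat_lit 387) (nat_lit 5) (nat_lit 569) (nat_lit 507) (nat_lit 484)) (XT.nd (nat_lit 78) (nat_lit 760) (nat_lit 0) (XT.lf (nat_lit 0) (nat_lit 2673625553) (nat_lit 760) (nat_lit 284243588) (nat_lit 836) (nat_lit 4780040657) (nat_lit 364) (nat_lit 5) (nat_lit 374) (nat_lit 5) (nat_lit 375) (nat_lit 5) (nat_lit 570) (nat_lit 507) (nat_lit 483)) (XT.lf (nat_lit 0) (nat_lit 615876342) (nat_lit 760) (nat_lit 5528664116) (nat_lit 836) (nat_lit 1650554760) (nat_lit 354) (nat_lit 5) (nat_lit 364) (nat_lit 5) (nat_lit 365) (nat_lit 5) (nat_lit 571) (nat_lit 507) (nat_lit 482))))) (XT.nd (nat_lit 156) (nat_lit 1520) (nat_lit 0) (XT.nd (nat_lit 78) (nat_lit 684) (nat_lit 0) (XT.lf (nat_lit 0) (nat_lit 1503606888) (nat_lit 836) (nat_lit 1450053087) (nat_lit 76) (nat_lit 4899923086) (nat_lit 353) (nat_lit 5) (nat_lit 364) (nat_lit 5) (nat_lit 354) (nat_lit 5) (nat_lit 572) (nat_lit 507) (nat_lit 481)) (XT.lf (nat_lit 0) (nat_lit 4377947243) (nat_lit 684) (nat_lit 296515342)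 (nat_lit 760) (nat_lit 3239050492) (nat_lit 344) (nat_lit 5) (nat_lit 353) (nat_lit 5) (nat_lit 354) (nat_lit 5) (nat_lit 573) (nat_lit 507) (nat_lit 480))) (XT.nd (nat_lit 78) (nat_lit 760) (nat_lit 0) (XT.lf (nat_lit 0) (nat_lit 2319592264) (nat_lit 760) (nat_lit 5577506312) (nat_lit 836) (nat_lit 77780613) (nat_lit 334) (nat_lit 5) (nat_lit 344) (nat_lit 5) (nat_lit 345) (nat_lit 5) (nat_lit 574) (nat_lit 507) (nat_lit 479)) (XT.nd (nat_lit 78) (nat_lit 0) (nat_lit 0) (XT.lf (nat_lit 0) (nat_lit 220024559) (nat_lit 684) (nat_lit 2860802938) (nat_lit 760) (nat_lit 4956733439) (nat_lit 324) (nat_lit 5) (nat_lit 333) (nat_lit 5) (nat_lit 334) (nat_lit 5) (nat_lit 575) (nat_lit 507) (nat_lit 478)) (XT.lf (nat_lit 0) (nat_lit 6226303619) (nat_lit 684) (nat_lit 61928480) (nat_lit 760) (nat_lit 1813525105) (nat_lit 324) (nat_lit 5) (nat_lit 333) (nat_lit 5) (nat_lit 334) (nat_lit 5) (nat_lit 576) (nat_lit 507) (nat_lit 477)))))) (XT.nd (nat_lit 390) (nat_lit 2508) (nat_lit 0)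 (XT.nd (nat_lit 156) (nat_lit 1368) (nat_lit 0) (XT.nd (nat_lit 78) (nat_lit 608) (nat_lit 0) (XT.lf (nat_lit 0) (nat_lit 1369036106) (nat_lit 760) (nat_lit 4016846842) (nat_lit 76) (nat_lit 2781282889) (nat_lit 314) (nat_lit 5) (nat_lit 324) (nat_lit 5) (nat_lit 315) (nat_lit 5) (nat_lit 577) (nat_lit 507) (nat_lit 476)) (XT.lf (nat_lit 0) (nat_lit 2040006190) (nat_lit 608) (nat_lit 2527208084) (nat_lit 684) (nat_lit 3666907870) (nat_lit 306) (nat_lit 5) (nat_lit 314) (nat_lit 5) (nat_lit 315) (nat_lit 5) (nat_lit 578) (nat_lit 507) (nat_lit 475))) (XT.nd (nat_lit 78) (nat_lit 1368) (nat_lit 0) (XT.lf (nat_lit 0) (nat_lit 7809411021) (nat_lit 684) (nat_lit 95278112) (nat_lit 76) (nat_lit 398131488) (nat_lit 306) (nat_lit 5) (nat_lit 315) (nat_lit 5) (nat_lit 307) (nat_lit 5) (nat_lit 579) (nat_lit 507) (nat_lit 474)) (XT.nd (nat_lit 78) (nat_lit 608) (nat_lit 0) (XT.lf (nat_lit 0) (nat_lit 2715513908) (nat_lit 760) (nat_lit 2263349918) (nat_lit 76) (nat_lit 3393518213) (nat_lit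 296) (nat_lit 5) (nat_lit 306) (nat_lit 5) (nat_lit 297) (nat_lit 5) (nat_lit 580) (nat_lit 507) (nat_lit 473)) (XT.lf (nat_lit 0) (nat_lit 3982208499) (nat_lit 608) (nat_lit 1977908095) (nat_lit 684) (nat_lit 2483594618) (nat_lit 288) (nat_lit 5) (nat_lit 296) (nat_lit 5) (nat_lit 297) (nat_lit 5) (nat_lit 581) (nat_lit 507) (nat_lit 472))))) (XT.nd (nat_lit 234) (nat_lit 1216) (nat_lit 0) (XT.nd (nat_lit 78) (nat_lit 608) (nat_lit 0) (XT.lf (nat_lit 0) (nat_lit 729378342) (nat_lit 684) (nat_lit 6700202370) (nat_lit 76) (nat_lit 1087069981) (nat_lit 279) (nat_lit 5) (nat_lit 288) (nat_lit 5) (nat_lit 280) (nat_lit 5) (nat_lit 582) (nat_lit 507) (nat_lit 471)) (XT.nd (nat_lit 78) (nat_lit 608) (nat_lit 0) (XT.lf (nat_lit 0) (nat_lit 3968901611) (nat_lit 684) (nat_lit 402592597) (nat_lit 76) (nat_lit 4219319178) (nat_lit 279) (nat_lit 5) (nat_lit 288) (nat_lit 5) (nat_lit 280) (nat_lit 5) (nat_lit 583) (nat_lit 507) (nat_lit 470)) (XT.lf (nat_lit 0) (nat_lit 6038565268) (nat_lit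 608) (nat_lit 1227071216) (nat_lit 684) (nat_lit 1400978034) (nat_lit 271) (nat_lit 5) (nat_lit 279) (nat_lit 5) (nat_lit 280) (nat_lit 5) (nat_lit 584) (nat_lit 507) (nat_lit 469)))) (XT.nd (nat_lit 78) (nat_lit 532) (nat_lit 0) (XT.lf (nat_lit 0) (nat_lit 1853801429) (nat_lit 684) (nat_lit 4910587723) (nat_lit 76) (nat_lit 1979418476) (nat_lit 262) (nat_lit 5) (nat_lit 271) (nat_lit 5) (nat_lit 263) (nat_lit 5) (nat_lit 585) (nat_lit 507) (nat_lit 468)) (XT.nd (nat_lit 78) (nat_lit 0) (nat_lit 0) (XT.lf (nat_lit 0) (nat_lit 1578085869) (nat_lit 532) (nat_lit 3566813483) (nat_lit 608) (nat_lit 3677663799) (nat_lit 255) (nat_lit 5) (nat_lit 262) (nat_lit 5) (nat_lit 263) (nat_lit 5) (nat_lit 586) (nat_lit 507) (nat_lit 467)) (XT.lf (nat_lit 0) (nat_lit 8201270320) (nat_lit 532) (nat_lit 287844988) (nat_lit 608) (nat_lit 414035887) (nat_lit 255) (nat_lit 5) (nat_lit 262) (nat_lit 5) (nat_lit 263) (nat_lit 5) (nat_lit 587) (nat_lit 507) (nat_lit 466))))))))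
noncomputable def xc41 : XT := (XT.nd (nat_lit 1560) (nat_lit 4180) (nat_lit 0) (XT.nd (nat_lit 780) (nat_lit 3116) (nat_lit 0) (XT.nd (nat_lit 390) (nat_lit 2052) (nat_lit 0) (XT.nd (nat_lit 156) (nat_lit 1064) (nat_lit 0) (XT.nd (nat_lit 78) (nat_lit 532) (nat_lit 0) (XT.lf (nat_lit 0) (nat_lit 2890457269) (nat_lit 608) (nat_lit 3035505502) (nat_lit 76) (nat_lit 3058736496) (nat_lit 247) (nat_lit 5) (nat_lit 255) (nat_lit 5) (nat_lit 248) (nat_lit 5) (nat_lit 588) (nat_lit 507) (nat_lit 465)) (XT.lf (nat_lit 0) (nat_lit 3656695729) (nat_lit 532) (nat_lit 2584517205) (nat_lit 608) (nat_lit 2826899438) (nat_lit 240) (nat_lit 5) (nat_lit 247) (nat_lit 5) (nat_lit 248) (nat_lit 5) (nat_lit 589) (nat_lit 507) (nat_lit 464))) (XT.nd (nat_lit 78) (nat_lit 456) (nat_lit 0) (XT.lf (nat_lit 0) (nat_lit 489208301) (nat_lit 608) (nat_lit 7835644178) (nat_lit 76) (nat_lit 828477562) (nat_lit 232) (nat_lit 5) (nat_lit 240) (nat_lit 5) (nat_lit 233) (nat_lit 5) (nat_lit 590) (nat_lit 507)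 (nat_lit 463)) (XT.nd (nat_lit 78) (nat_lit 456) (nat_lit 0) (XT.lf (nat_lit 0) (nat_lit 3843357709) (nat_lit 608) (nat_lit 1083036099) (nat_lit 76) (nat_lit 4313296065) (nat_lit 232) (nat_lit 5) (nat_lit 240) (nat_lit 5) (nat_lit 233) (nat_lit 5) (nat_lit 591) (nat_lit 507) (nat_lit 462)) (XT.lf (nat_lit 0) (nat_lit 5820017245) (nat_lit 456) (nat_lit 1439092004) (nat_lit 532) (nat_lit 2068780172) (nat_lit 226) (nat_lit 5) (nat_lit 232) (nat_lit 5) (nat_lit 233) (nat_lit 5) (nat_lit 592) (nat_lit 507) (nat_lit 461))))) (XT.nd (nat_lit 156) (nat_lit 988) (nat_lit 0) (XT.nd (nat_lit 78) (nat_lit 456) (nat_lit 0) (XT.lf (nat_lit 0) (nat_lit 1308336629) (nat_lit 608) (nat_lit 5998471751) (nat_lit 76) (nat_lit 2110867357) (nat_lit 218) (nat_lit 5) (nat_lit 226) (nat_lit 5) (nat_lit 219) (nat_lit 5) (nat_lit 593) (nat_lit 507) (nat_lit 460)) (XT.lf (nat_lit 0) (nat_lit 951224972) (nat_lit 456) (nat_lit 3770732071) (nat_lit 532) (nat_lit 4787096734) (nat_lit 212) (nat_lit 5) (nat_lit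 218) (nat_lit 5) (nat_lit 219) (nat_lit 5) (nat_lit 594) (nat_lit 507) (nat_lit 459))) (XT.nd (nat_lit 78) (nat_lit 988) (nat_lit 0) (XT.lf (nat_lit 0) (nat_lit 8060182262) (nat_lit 456) (nat_lit 141597101) (nat_lit 532) (nat_lit 1400524104) (nat_lit 212) (nat_lit 5) (nat_lit 218) (nat_lit 5) (nat_lit 219) (nat_lit 5) (nat_lit 595) (nat_lit 507) (nat_lit 458)) (XT.nd (nat_lit 78) (nat_lit 456) (nat_lit 0) (XT.lf (nat_lit 0) (nat_lit 2044845161) (nat_lit 532) (nat_lit 4106796964) (nat_lit 76) (nat_lit 3545151896) (nat_lit 205) (nat_lit 5) (nat_lit 212) (nat_lit 5) (nat_lit 206) (nat_lit 5) (nat_lit 596) (nat_lit 507) (nat_lit 457)) (XT.lf (nat_lit 0) (nat_lit 3061853900) (nat_lit 456) (nat_lit 2468304034) (nat_lit 532) (nat_lit 4263038044) (nat_lit 199) (nat_lit 5) (nat_lit 205) (nat_lit 5) (nat_lit 206) (nat_lit 5) (nat_lit 597) (nat_lit 507) (nat_lit 456)))))) (XT.nd (nat_lit 390) (nat_lit 1672) (nat_lit 0) (XT.nd (nat_lit 156) (nat_lit 912) (nat_lit 0) (XT.nd (nat_lit 78)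 (nat_lit 76) (nat_lit 0) (XT.lf (nat_lit 0) (nat_lit 475240505) (nat_lit 456) (nat_lit 8607963966) (nat_lit 532) (nat_lit 808363430) (nat_lit 193) (nat_lit 5) (nat_lit 199) (nat_lit 5) (nat_lit 200) (nat_lit 5) (nat_lit 598) (nat_lit 507) (nat_lit 455)) (XT.lf (nat_lit 0) (nat_lit 2700582946) (nat_lit 532) (nat_lit 2169240347) (nat_lit 76) (nat_lit 5121317918) (nat_lit 192) (nat_lit 5) (nat_lit 199) (nat_lit 5) (nat_lit 193) (nat_lit 5) (nat_lit 599) (nat_lit 507) (nat_lit 454))) (XT.nd (nat_lit 78) (nat_lit 532) (nat_lit 0) (XT.lf (nat_lit 0) (nat_lit 5226013762) (nat_lit 380) (nat_lit 1036590698) (nat_lit 456) (nat_lit 3830122593) (nat_lit 187) (nat_lit 5) (nat_lit 192) (nat_lit 5) (nat_lit 193) (nat_lit 5) (nat_lit 600) (nat_lit 507) (nat_lit 453)) (XT.nd (nat_lit 78) (nat_lit 76) (nat_lit 0) (XT.lf (nat_lit 0) (nat_lit 2557071385) (nat_lit 456) (nat_lit 7348758783) (nat_lit 532) (nat_lit 290317454) (nat_lit 181) (nat_lit 5) (nat_lit 187) (nat_lit 5) (nat_lit 188) (nat_lit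 5) (nat_lit 601) (nat_lit 507) (nat_lit 452)) (XT.lf (nat_lit 0) (nat_lit 3276660596) (nat_lit 532) (nat_lit 194693100) (nat_lit 76) (nat_lit 6829855498) (nat_lit 180) (nat_lit 5) (nat_lit 187) (nat_lit 5) (nat_lit 181) (nat_lit 5) (nat_lit 602) (nat_lit 507) (nat_lit 451))))) (XT.nd (nat_lit 156) (nat_lit 836) (nat_lit 0) (XT.nd (nat_lit 78) (nat_lit 456) (nat_lit 0) (XT.lf (nat_lit 0) (nat_lit 6923673034) (nat_lit 456) (nat_lit 2976514865) (nat_lit 76) (nat_lit 507896230) (nat_lit 175) (nat_lit 5) (nat_lit 181) (nat_lit 5) (nat_lit 176) (nat_lit 5) (nat_lit 603) (nat_lit 507) (nat_lit 450)) (XT.lf (nat_lit 0) (nat_lit 140846000) (nat_lit 456) (nat_lit 5842912810) (nat_lit 76) (nat_lit 4533003869) (nat_lit 169) (nat_lit 5) (nat_lit 175) (nat_lit 5) (nat_lit 170) (nat_lit 5) (nat_lit 604) (nat_lit 507) (nat_lit 449))) (XT.nd (nat_lit 78) (nat_lit 456) (nat_lit 0) (XT.lf (nat_lit 0) (nat_lit 1831599609) (nat_lit 380) (nat_lit 1953731997) (nat_lit 456) (nat_lit 6841956994) (nat_lit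 164) (nat_lit 5) (nat_lit 169) (nat_lit 5) (nat_lit 170) (nat_lit 5) (nat_lit 605) (nat_lit 507) (nat_lit 448)) (XT.nd (nat_lit 78) (nat_lit 456) (nat_lit 0) (XT.lf (nat_lit 0) (nat_lit 7517755653) (nat_lit 456) (nat_lit 1074508581) (nat_lit 76) (nat_lit 2147461820) (nat_lit 164) (nat_lit 5) (nat_lit 170) (nat_lit 5) (nat_lit 165) (nat_lit 5) (nat_lit 606) (nat_lit 507) (nat_lit 447)) (XT.lf (nat_lit 0) (nat_lit 483915066) (nat_lit 456) (nat_lit 4038254280) (nat_lit 76) (nat_lit 6331790368) (nat_lit 158) (nat_lit 5) (nat_lit 164) (nat_lit 5) (nat_lit 159) (nat_lit 5) (nat_lit 607) (nat_lit 507) (nat_lit 446))))))) (XT.nd (nat_lit 780) (nat_lit 1596) (nat_lit 0) (XT.nd (nat_lit 390) (nat_lit 1064) (nat_lit 0) (XT.nd (nat_lit 156) (nat_lit 760) (nat_lit 0) (XT.nd (nat_lit 78) (nat_lit 380) (nat_lit 0) (XT.lf (nat_lit 0) (nat_lit 3878688431) (nat_lit 380) (nat_lit 337010169) (nat_lit 456) (nat_lit 6754456926) (nat_lit 153) (nat_lit 5) (nat_lit 158) (nat_lit 5) (nat_lit 159) (nat_lit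 5) (nat_lit 608) (nat_lit 507) (nat_lit 445)) (XT.lf (nat_lit 0) (nat_lit 847004226) (nat_lit 380) (nat_lit 7196080393) (nat_lit 456) (nat_lit 3045173141) (nat_lit 148) (nat_lit 5) (nat_lit 153) (nat_lit 5) (nat_lit 154) (nat_lit 5) (nat_lit 609) (nat_lit 507) (nat_lit 444))) (XT.nd (nat_lit 78) (nat_lit 684) (nat_lit 0) (XT.lf (nat_lit 0) (nat_lit 741513978) (nat_lit 456) (nat_lit 2233820779) (nat_lit 76) (nat_lit 8233035168) (nat_lit 147) (nat_lit 5) (nat_lit 153) (nat_lit 5) (nat_lit 148) (nat_lit 5) (nat_lit 610) (nat_lit 507) (nat_lit 443)) (XT.nd (nat_lit 78) (nat_lit 380) (nat_lit 0) (XT.lf (nat_lit 0) (nat_lit 4574102105) (nat_lit 380) (nat_lit 5405836538) (nat_lit 76) (nat_lit 1350326009) (nat_lit 143) (nat_lit 5) (nat_lit 148) (nat_lit 5) (nat_lit 144) (nat_lit 5) (nat_lit 611) (nat_lit 507) (nat_lit 442)) (XT.lf (nat_lit 0) (nat_lit 2780357723) (nat_lit 380) (nat_lit 5719529276) (nat_lit 456) (nat_lit 2954381075) (nat_lit 138) (nat_lit 5) (nat_lit 143) (nat_lit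 5) (nat_lit 144) (nat_lit 5) (nat_lit 612) (nat_lit 507) (nat_lit 441))))) (XT.nd (nat_lit 156) (nat_lit 684) (nat_lit 0) (XT.nd (nat_lit 78) (nat_lit 304) (nat_lit 0) (XT.lf (nat_lit 0) (nat_lit 911637769) (nat_lit 456) (nat_lit 440937006) (nat_lit 76) (nat_lit 10228052256) (nat_lit 137) (nat_lit 5) (nat_lit 143) (nat_lit 5) (nat_lit 138) (nat_lit 5) (nat_lit 613) (nat_lit 507) (nat_lit 440)) (XT.lf (nat_lit 0) (nat_lit 4852274713) (nat_lit 380) (nat_lit 3744502439) (nat_lit 76) (nat_lit 3111609911) (nat_lit 133) (nat_lit 5) (nat_lit 138) (nat_lit 5) (nat_lit 134) (nat_lit 5) (nat_lit 614) (nat_lit 507) (nat_lit 439))) (XT.nd (nat_lit 78) (nat_lit 380) (nat_lit 0) (XT.lf (nat_lit 0) (nat_lit 4699518309) (nat_lit 304) (nat_lit 4179348697) (nat_lit 380) (nat_lit 2959694006) (nat_lit 129) (nat_lit 5) (nat_lit 133) (nat_lit 5) (nat_lit 134) (nat_lit 5) (nat_lit 615) (nat_lit 507) (nat_lit 438)) (XT.nd (nat_lit 78) (nat_lit 0) (nat_lit 0) (XT.lf (nat_lit 0) (nat_lit 1002406085)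 (nat_lit 380) (nat_lit 10627606983) (nat_lit 76) (nat_lit 341173911) (nat_lit 124) (nat_lit 5) (nat_lit 129) (nat_lit 5) (nat_lit 125) (nat_lit 5) (nat_lit 616) (nat_lit 507) (nat_lit 437)) (XT.lf (nat_lit 0) (nat_lit 5045017651) (nat_lit 380) (nat_lit 2118023731) (nat_lit 76) (nat_lit 4942216297) (nat_lit 124) (nat_lit 5) (nat_lit 129) (nat_lit 5) (nat_lit 125) (nat_lit 5) (nat_lit 617) (nat_lit 507) (nat_lit 436)))))) (XT.nd (nat_lit 390) (nat_lit 304) (nat_lit 0) (XT.nd (nat_lit 156) (nat_lit 608) (nat_lit 0) (XT.nd (nat_lit 78) (nat_lit 380) (nat_lit 0) (XT.lf (nat_lit 0) (nat_lit 6591784545) (nat_lit 304) (nat_lit 2585143106) (nat_lit 380) (nat_lit 3064914667) (nat_lit 120) (nat_lit 5) (nat_lit 124) (nat_lit 5) (nat_lit 125) (nat_lit 5) (nat_lit 618) (nat_lit 507) (nat_lit 435)) (XT.lf (nat_lit 0) (nat_lit 1010899232) (nat_lit 380) (nat_lit 9293546846) (nat_lit 76) (nat_lit 2076306123) (nat_lit 115) (nat_lit 5) (nat_lit 120) (nat_lit 5) (nat_lit 116) (nat_lit 5) (nat_lit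 619) (nat_lit 507) (nat_lit 434))) (XT.nd (nat_lit 78) (nat_lit 608) (nat_lit 0) (XT.lf (nat_lit 0) (nat_lit 5148408999) (nat_lit 380) (nat_lit 540218535) (nat_lit 76) (nat_lit 6832984557) (nat_lit 115) (nat_lit 5) (nat_lit 120) (nat_lit 5) (nat_lit 116) (nat_lit 5) (nat_lit 620) (nat_lit 507) (nat_lit 433)) (XT.nd (nat_lit 78) (nat_lit 304) (nat_lit 0) (XT.lf (nat_lit 0) (nat_lit 8443353990) (nat_lit 304) (nat_lit 946697892) (nat_lit 380) (nat_lit 3274810979) (nat_lit 111) (nat_lit 5) (nat_lit 115) (nat_lit 5) (nat_lit 116) (nat_lit 5) (nat_lit 621) (nat_lit 507) (nat_lit 432)) (XT.lf (nat_lit 0) (nat_lit 920537146) (nat_lit 304) (nat_lit 8031729346) (nat_lit 76) (nat_lit 3858058562) (nat_lit 107) (nat_lit 5) (nat_lit 111) (nat_lit 5) (nat_lit 108) (nat_lit 5) (nat_lit 622) (nat_lit 507) (nat_lit 431))))) (XT.nd (nat_lit 75114) (nat_lit 0) (nat_lit 41268) (XT.nd (nat_lit 78) (nat_lit 0) (nat_lit 0) (XT.lf (nat_lit 0) (nat_lit 986803692) (nat_lit 304) (nat_lit 4177163139)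 (nat_lit 380) (nat_lit 7794137506) (nat_lit 103) (nat_lit 5) (nat_lit 107) (nat_lit 5) (nat_lit 108) (nat_lit 5) (nat_lit 623) (nat_lit 507) (nat_lit 430)) (XT.nd (nat_lit 74958) (nat_lit 0) (nat_lit 43624) (XT.lf (nat_lit 0) (nat_lit 9517957337) (nat_lit 380) (nat_lit 2873977254) (nat_lit 76) (nat_lit 716392010) (nat_lit 103) (nat_lit 5) (nat_lit 108) (nat_lit 5) (nat_lit 104) (nat_lit 5) (nat_lit 624) (nat_lit 507) (nat_lit 429)) (XT.lf (nat_lit 0) (nat_lit 3209648264) (nat_lit 988) (nat_lit 74593056) (nat_lit 988) (nat_lit 74593056) (nat_lit 677) (nat_lit 4) (nat_lit 690) (nat_lit 5) (nat_lit 690) (nat_lit 4) (nat_lit 544) (nat_lit 508) (nat_lit 508)))) (XT.nd (nat_lit 78) (nat_lit 1216) (nat_lit 0) (XT.lf (nat_lit 0) (nat_lit 3168165821) (nat_lit 1140) (nat_lit 2553009949) (nat_lit 0) (nat_lit 1019883553) (nat_lit 662) (nat_lit 5) (nat_lit 677) (nat_lit 4) (nat_lit 662) (nat_lit 4) (nat_lit 545) (nat_lit 508) (nat_lit 507)) (XT.nd (nat_lit 78) (nat_lit 76) (nat_lit 0)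 (XT.lf (nat_lit 0) (nat_lit 1967172967) (nat_lit 1140) (nat_lit 4526648790) (nat_lit 1140) (nat_lit 272207435) (nat_lit 647) (nat_lit 4) (nat_lit 662) (nat_lit 5) (nat_lit 662) (nat_lit 4) (nat_lit 546) (nat_lit 508) (nat_lit 506)) (XT.lf (nat_lit 0) (nat_lit 2999872466) (nat_lit 1216) (nat_lit 259560822) (nat_lit 76) (nat_lit 3532753944) (nat_lit 646) (nat_lit 5) (nat_lit 662) (nat_lit 5) (nat_lit 647) (nat_lit 4) (nat_lit 547) (nat_lit 508) (nat_lit 505))))))))
noncomputable def xc42 : XT := (XT.nd (nat_lit 1560) (nat_lit 10564) (nat_lit 0) (XT.nd (nat_lit 780) (nat_lit 9272) (nat_lit 0) (XT.nd (nat_lit 390) (nat_lit 5016) (nat_lit 0) (XT.nd (nat_lit 156) (nat_lit 2888) (nat_lit 0) (XT.nd (nat_lit 78) (nat_lit 1368) (nat_lit 0) (XT.lf (nat_lit 0) (nat_lit 4366607900) (nat_lit 1216) (nat_lit 1925612628) (nat_lit 1292) (nat_lit 527452201) (nat_lit 630) (nat_lit 5) (nat_lit 646) (nat_lit 5) (nat_lit 647) (nat_lit 4) (nat_lit 548) (nat_lit 508) (nat_lit 504)) (XT.lf (nat_lit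 0) (nat_lit 2191762910) (nat_lit 1292) (nat_lit 520809099) (nat_lit 1368) (nat_lit 4135848869) (nat_lit 612) (nat_lit 5) (nat_lit 629) (nat_lit 5) (nat_lit 630) (nat_lit 5) (nat_lit 549) (nat_lit 508) (nat_lit 503))) (XT.nd (nat_lit 78) (nat_lit 1520) (nat_lit 0) (XT.lf (nat_lit 0) (nat_lit 15038196) (nat_lit 1368) (nat_lit 5949562227) (nat_lit 1444) (nat_lit 913997661) (nat_lit 594) (nat_lit 5) (nat_lit 612) (nat_lit 5) (nat_lit 613) (nat_lit 4) (nat_lit 550) (nat_lit 508) (nat_lit 502)) (XT.nd (nat_lit 78) (nat_lit 1444) (nat_lit 0) (XT.lf (nat_lit 0) (nat_lit 2308243510) (nat_lit 1444) (nat_lit 2145990571) (nat_lit 76) (nat_lit 2455504179) (nat_lit 593) (nat_lit 5) (nat_lit 612) (nat_lit 5) (nat_lit 594) (nat_lit 5) (nat_lit 551) (nat_lit 508) (nat_lit 501)) (XT.lf (nat_lit 0) (nat_lit 2634161211) (nat_lit 1444) (nat_lit 2899135515) (nat_lit 1520) (nat_lit 1409080190) (nat_lit 574) (nat_lit 5) (nat_lit 593) (nat_lit 5) (nat_lit 594) (nat_lit 5) (nat_lit 552) (nat_lit 508)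 (nat_lit 500))))) (XT.nd (nat_lit 156) (nat_lit 3420) (nat_lit 0) (XT.nd (nat_lit 78) (nat_lit 0) (nat_lit 0) (XT.lf (nat_lit 0) (nat_lit 497306065) (nat_lit 1520) (nat_lit 1277339546) (nat_lit 1596) (nat_lit 5201757377) (nat_lit 553) (nat_lit 5) (nat_lit 573) (nat_lit 5) (nat_lit 574) (nat_lit 5) (nat_lit 553) (nat_lit 508) (nat_lit 499)) (XT.lf (nat_lit 0) (nat_lit 4969643022) (nat_lit 1596) (nat_lit 1626859233) (nat_lit 76) (nat_lit 415099877) (nat_lit 553) (nat_lit 5) (nat_lit 574) (nat_lit 5) (nat_lit 554) (nat_lit 5) (nat_lit 554) (nat_lit 508) (nat_lit 498))) (XT.nd (nat_lit 78) (nat_lit 1748) (nat_lit 0) (XT.lf (nat_lit 0) (nat_lit 1131351184) (nat_lit 1672) (nat_lit 3758919801) (nat_lit 76) (nat_lit 2157772610) (nat_lit 531) (nat_lit 5) (nat_lit 553) (nat_lit 5) (nat_lit 532) (nat_lit 5) (nat_lit 555) (nat_lit 508) (nat_lit 497)) (XT.nd (nat_lit 78) (nat_lit 76) (nat_lit 0) (XT.lf (nat_lit 0) (nat_lit 1181445708) (nat_lit 1672) (nat_lit 3114637133) (nat_lit 1748)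 (nat_lit 2789762816) (nat_lit 509) (nat_lit 5) (nat_lit 531) (nat_lit 5) (nat_lit 532) (nat_lit 5) (nat_lit 556) (nat_lit 508) (nat_lit 496)) (XT.lf (nat_lit 0) (nat_lit 356894163) (nat_lit 1748) (nat_lit 916470364) (nat_lit 76) (nat_lit 5851746067) (nat_lit 508) (nat_lit 5) (nat_lit 531) (nat_lit 5) (nat_lit 509) (nat_lit 5) (nat_lit 557) (nat_lit 508) (nat_lit 495)))))) (XT.nd (nat_lit 390) (nat_lit 3572) (nat_lit 0) (XT.nd (nat_lit 156) (nat_lit 2128) (nat_lit 0) (XT.nd (nat_lit 78) (nat_lit 1824) (nat_lit 0) (XT.lf (nat_lit 0) (nat_lit 3498600238) (nat_lit 1824) (nat_lit 3022778033) (nat_lit 76) (nat_lit 644031550) (nat_lit 485) (nat_lit 5) (nat_lit 509) (nat_lit 5) (nat_lit 486) (nat_lit 5) (nat_lit 558) (nat_lit 508) (nat_lit 494)) (XT.lf (nat_lit 0) (nat_lit 2066563132) (nat_lit 1824) (nat_lit 4603722004) (nat_lit 1900) (nat_lit 536894074) (nat_lit 461) (nat_lit 5) (nat_lit 485) (nat_lit 5) (nat_lit 486) (nat_lit 5) (nat_lit 559) (nat_lit 508) (nat_lit 493))) (XT.nd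 (nat_lit 78) (nat_lit 2052) (nat_lit 0) (XT.lf (nat_lit 0) (nat_lit 2580708862) (nat_lit 1900) (nat_lit 29511978) (nat_lit 76) (nat_lit 4640026743) (nat_lit 460) (nat_lit 5) (nat_lit 485) (nat_lit 5) (nat_lit 461) (nat_lit 5) (nat_lit 560) (nat_lit 508) (nat_lit 492)) (XT.nd (nat_lit 78) (nat_lit 988) (nat_lit 0) (XT.lf (nat_lit 0) (nat_lit 5188082649) (nat_lit 1064) (nat_lit 539768962) (nat_lit 1140) (nat_lit 1566773864) (nat_lit 446) (nat_lit 5) (nat_lit 460) (nat_lit 5) (nat_lit 461) (nat_lit 5) (nat_lit 561) (nat_lit 508) (nat_lit 491)) (XT.lf (nat_lit 0) (nat_lit 1549146085) (nat_lit 988) (nat_lit 4210113165) (nat_lit 76) (nat_lit 1580989401) (nat_lit 433) (nat_lit 5) (nat_lit 446) (nat_lit 5) (nat_lit 434) (nat_lit 5) (nat_lit 562) (nat_lit 508) (nat_lit 490))))) (XT.nd (nat_lit 156) (nat_lit 2584) (nat_lit 0) (XT.nd (nat_lit 78) (nat_lit 76) (nat_lit 0) (XT.lf (nat_lit 0) (nat_lit 1051983596) (nat_lit 912) (nat_lit 3620893193) (nat_lit 988) (nat_lit 2714377225) (nat_lit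 421) (nat_lit 5) (nat_lit 433) (nat_lit 5) (nat_lit 434) (nat_lit 5) (nat_lit 563) (nat_lit 508) (nat_lit 489)) (XT.lf (nat_lit 0) (nat_lit 388938463) (nat_lit 988) (nat_lit 1022922590) (nat_lit 76) (nat_lit 6023877122) (nat_lit 420) (nat_lit 5) (nat_lit 433) (nat_lit 5) (nat_lit 421) (nat_lit 5) (nat_lit 564) (nat_lit 508) (nat_lit 488))) (XT.nd (nat_lit 78) (nat_lit 1748) (nat_lit 0) (XT.lf (nat_lit 0) (nat_lit 3495465931) (nat_lit 912) (nat_lit 3116609753) (nat_lit 76) (nat_lit 873213591) (nat_lit 409) (nat_lit 5) (nat_lit 421) (nat_lit 5) (nat_lit 410) (nat_lit 5) (nat_lit 565) (nat_lit 508) (nat_lit 487)) (XT.nd (nat_lit 78) (nat_lit 912) (nat_lit 0) (XT.lf (nat_lit 0) (nat_lit 2305902600) (nat_lit 836) (nat_lit 4333456579) (nat_lit 912) (nat_lit 896973318) (nat_lit 398) (nat_lit 5) (nat_lit 409) (nat_lit 5) (nat_lit 410) (nat_lit 5) (nat_lit 566) (nat_lit 508) (nat_lit 486)) (XT.lf (nat_lit 0) (nat_lit 217618005) (nat_lit 836) (nat_lit 1977305777) (nat_lit 912) (nat_lit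 5393849190) (nat_lit 386) (nat_lit 5) (nat_lit 397) (nat_lit 5) (nat_lit 398) (nat_lit 5) (nat_lit 567) (nat_lit 508) (nat_lit 485))))))) (XT.nd (nat_lit 780) (nat_lit 5092) (nat_lit 0) (XT.nd (nat_lit 390) (nat_lit 2964) (nat_lit 0) (XT.nd (nat_lit 156) (nat_lit 1596) (nat_lit 0) (XT.nd (nat_lit 78) (nat_lit 912) (nat_lit 0) (XT.lf (nat_lit 0) (nat_lit 5319745866) (nat_lit 912) (nat_lit 1867203704) (nat_lit 76) (nat_lit 455537624) (nat_lit 386) (nat_lit 5) (nat_lit 398) (nat_lit 5) (nat_lit 387) (nat_lit 5) (nat_lit 568) (nat_lit 508) (nat_lit 484)) (XT.lf (nat_lit 0) (nat_lit 782377701) (nat_lit 912) (nat_lit 3981232999) (nat_lit 76) (nat_lit 2933900912) (nat_lit 374) (nat_lit 5) (nat_lit 386) (nat_lit 5) (nat_lit 375) (nat_lit 5) (nat_lit 569) (nat_lit 508) (nat_lit 483))) (XT.nd (nat_lit 78) (nat_lit 836) (nat_lit 0) (XT.lf (nat_lit 0) (nat_lit 1627912077) (nat_lit 760) (nat_lit 2260170881) (nat_lit 836) (nat_lit 3865859937) (nat_lit 364) (nat_lit 5) (nat_lit 374) (nat_lit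 5) (nat_lit 375) (nat_lit 5) (nat_lit 570) (nat_lit 508) (nat_lit 482)) (XT.nd (nat_lit 78) (nat_lit 836) (nat_lit 0) (XT.lf (nat_lit 0) (nat_lit 7031678143) (nat_lit 836) (nat_lit 471780578) (nat_lit 76) (nat_lit 308533618) (nat_lit 364) (nat_lit 5) (nat_lit 375) (nat_lit 5) (nat_lit 365) (nat_lit 5) (nat_lit 571) (nat_lit 508) (nat_lit 481)) (XT.lf (nat_lit 0) (nat_lit 2333204046) (nat_lit 836) (nat_lit 2597378204) (nat_lit 76) (nat_lit 2940371932) (nat_lit 353) (nat_lit 5) (nat_lit 364) (nat_lit 5) (nat_lit 354) (nat_lit 5) (nat_lit 572) (nat_lit 508) (nat_lit 480))))) (XT.nd (nat_lit 156) (nat_lit 1444) (nat_lit 0) (XT.nd (nat_lit 78) (nat_lit 836) (nat_lit 0) (XT.lf (nat_lit 0) (nat_lit 3184767813) (nat_lit 684) (nat_lit 2285951222) (nat_lit 760) (nat_lit 2460834332) (nat_lit 344) (nat_lit 5) (nat_lit 353) (nat_lit 5) (nat_lit 354) (nat_lit 5) (nat_lit 573) (nat_lit 508) (nat_lit 479)) (XT.lf (nat_lit 0) (nat_lit 644621895) (nat_lit 836) (nat_lit 6923613974) (nat_lit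 76) (nat_lit 425527468) (nat_lit 333) (nat_lit 5) (nat_lit 344) (nat_lit 5) (nat_lit 334) (nat_lit 5) (nat_lit 574) (nat_lit 508) (nat_lit 478))) (XT.nd (nat_lit 78) (nat_lit 1444) (nat_lit 0) (XT.lf (nat_lit 0) (nat_lit 3775595813) (nat_lit 836) (nat_lit 1082313751) (nat_lit 76) (nat_lit 3199059923) (nat_lit 333) (nat_lit 5) (nat_lit 344) (nat_lit 5) (nat_lit 334) (nat_lit 5) (nat_lit 575) (nat_lit 508) (nat_lit 477)) (XT.nd (nat_lit 78) (nat_lit 760) (nat_lit 0) (XT.lf (nat_lit 0) (nat_lit 4879162782) (nat_lit 684) (nat_lit 2071827939) (nat_lit 760) (nat_lit 1170817404) (nat_lit 324) (nat_lit 5) (nat_lit 333) (nat_lit 5) (nat_lit 334) (nat_lit 5) (nat_lit 576) (nat_lit 508) (nat_lit 476)) (XT.lf (nat_lit 0) (nat_lit 1956409894) (nat_lit 760) (nat_lit 5444514097) (nat_lit 76) (nat_lit 787149496) (nat_lit 314) (nat_lit 5) (nat_lit 324) (nat_lit 5) (nat_lit 315) (nat_lit 5) (nat_lit 577) (nat_lit 508) (nat_lit 475)))))) (XT.nd (nat_lit 390) (nat_lit 2432) (nat_lit 0) (XT.nd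 (nat_lit 156) (nat_lit 1976) (nat_lit 0) (XT.nd (nat_lit 78) (nat_lit 76) (nat_lit 0) (XT.lf (nat_lit 0) (nat_lit 562558307) (nat_lit 608) (nat_lit 4558122639) (nat_lit 684) (nat_lit 3135029042) (nat_lit 306) (nat_lit 5) (nat_lit 314) (nat_lit 5) (nat_lit 315) (nat_lit 5) (nat_lit 578) (nat_lit 508) (nat_lit 474)) (XT.lf (nat_lit 0) (nat_lit 11133023) (nat_lit 684) (nat_lit 1622454094) (nat_lit 76) (nat_lit 6691354956) (nat_lit 305) (nat_lit 5) (nat_lit 314) (nat_lit 5) (nat_lit 306) (nat_lit 5) (nat_lit 579) (nat_lit 508) (nat_lit 473))) (XT.nd (nat_lit 78) (nat_lit 1292) (nat_lit 0) (XT.lf (nat_lit 0) (nat_lit 3168906163) (nat_lit 760) (nat_lit 3856439294) (nat_lit 76) (nat_lit 1369989482) (nat_lit 296) (nat_lit 5) (nat_lit 306) (nat_lit 5) (nat_lit 297) (nat_lit 5) (nat_lit 580) (nat_lit 508) (nat_lit 472)) (XT.nd (nat_lit 78) (nat_lit 684) (nat_lit 0) (XT.lf (nat_lit 0) (nat_lit 2337385248) (nat_lit 608) (nat_lit 4041954969) (nat_lit 684) (nat_lit 2088009163) (nat_lit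 288) (nat_lit 5) (nat_lit 296) (nat_lit 5) (nat_lit 297) (nat_lit 5) (nat_lit 581) (nat_lit 508) (nat_lit 471)) (XT.lf (nat_lit 0) (nat_lit 99828050) (nat_lit 608) (nat_lit 978224050) (nat_lit 684) (nat_lit 7463021683) (nat_lit 279) (nat_lit 5) (nat_lit 287) (nat_lit 5) (nat_lit 288) (nat_lit 5) (nat_lit 582) (nat_lit 508) (nat_lit 470))))) (XT.nd (nat_lit 234) (nat_lit 1140) (nat_lit 0) (XT.nd (nat_lit 78) (nat_lit 1292) (nat_lit 0) (XT.lf (nat_lit 0) (nat_lit 4288063085) (nat_lit 684) (nat_lit 2167780212) (nat_lit 76) (nat_lit 2159985211) (nat_lit 279) (nat_lit 5) (nat_lit 288) (nat_lit 5) (nat_lit 280) (nat_lit 5) (nat_lit 583) (nat_lit 508) (nat_lit 469)) (XT.nd (nat_lit 78) (nat_lit 684) (nat_lit 0) (XT.lf (nat_lit 0) (nat_lit 4219624335) (nat_lit 608) (nat_lit 3330656982) (nat_lit 684) (nat_lit 1142040406) (nat_lit 271) (nat_lit 5) (nat_lit 279) (nat_lit 5) (nat_lit 280) (nat_lit 5) (nat_lit 584) (nat_lit 508) (nat_lit 468)) (XT.lf (nat_lit 0) (nat_lit 1945235069) (nat_lit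 608) (nat_lit 116136320) (nat_lit 684) (nat_lit 6709070937) (nat_lit 262) (nat_lit 5) (nat_lit 270) (nat_lit 5) (nat_lit 271) (nat_lit 5) (nat_lit 585) (nat_lit 508) (nat_lit 467)))) (XT.nd (nat_lit 78) (nat_lit 1140) (nat_lit 0) (XT.lf (nat_lit 0) (nat_lit 5319065767) (nat_lit 684) (nat_lit 386682477) (nat_lit 76) (nat_lit 3144119325) (nat_lit 262) (nat_lit 5) (nat_lit 271) (nat_lit 5) (nat_lit 263) (nat_lit 5) (nat_lit 586) (nat_lit 508) (nat_lit 466)) (XT.nd (nat_lit 78) (nat_lit 608) (nat_lit 0) (XT.lf (nat_lit 0) (nat_lit 6201355923) (nat_lit 532) (nat_lit 2437222763) (nat_lit 608) (nat_lit 292372605) (nat_lit 255) (nat_lit 5) (nat_lit 262) (nat_lit 5) (nat_lit 263) (nat_lit 5) (nat_lit 587) (nat_lit 508) (nat_lit 465)) (XT.lf (nat_lit 0) (nat_lit 2961023467) (nat_lit 608) (nat_lit 5135477107) (nat_lit 76) (nat_lit 916974574) (nat_lit 247) (nat_lit 5) (nat_lit 255) (nat_lit 5) (nat_lit 248) (nat_lit 5) (nat_lit 588) (nat_lit 508) (nat_lit 464))))))))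
noncomputable def xc43 : XT := (XT.nd (nat_lit 1560) (nat_lit 3800) (nat_lit 0) (XT.nd (nat_lit 780) (nat_lit 3496) (nat_lit 0) (XT.nd (nat_lit 390) (nat_lit 1444) (nat_lit 0) (XT.nd (nat_lit 156) (nat_lit 1596) (nat_lit 0) (XT.nd (nat_lit 78) (nat_lit 76) (nat_lit 0) (XT.lf (nat_lit 0) (nat_lit 1498520675) (nat_lit 532) (nat_lit 4777562144) (nat_lit 608) (nat_lit 2821520884) (nat_lit 240) (nat_lit 5) (nat_lit 247) (nat_lit 5) (nat_lit 248) (nat_lit 5) (nat_lit 589) (nat_lit 508) (nat_lit 463)) (XT.lf (nat_lit 0) (nat_lit 458879202) (nat_lit 608) (nat_lit 911800870) (nat_lit 76) (nat_lit 7812854810) (nat_lit 239) (nat_lit 5) (nat_lit 247) (nat_lit 5) (nat_lit 240) (nat_lit 5) (nat_lit 590) (nat_lit 508) (nat_lit 462))) (XT.nd (nat_lit 78) (nat_lit 1064) (nat_lit 0) (XT.lf (nat_lit 0) (nat_lit 3776670894) (nat_lit 608) (nat_lit 3376192974) (nat_lit 76) (nat_lit 2117759436) (nat_lit 232) (nat_lit 5) (nat_lit 240) (nat_lit 5) (nat_lit 233) (nat_lit 5) (nat_lit 591) (nat_lit 508)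 (nat_lit 461)) (XT.nd (nat_lit 78) (nat_lit 608) (nat_lit 0) (XT.lf (nat_lit 0) (nat_lit 3466416925) (nat_lit 456) (nat_lit 3689724438) (nat_lit 532) (nat_lit 2203408517) (nat_lit 226) (nat_lit 5) (nat_lit 232) (nat_lit 5) (nat_lit 233) (nat_lit 5) (nat_lit 592) (nat_lit 508) (nat_lit 460)) (XT.lf (nat_lit 0) (nat_lit 987240602) (nat_lit 532) (nat_lit 137546278) (nat_lit 608) (nat_lit 8325581895) (nat_lit 218) (nat_lit 5) (nat_lit 225) (nat_lit 5) (nat_lit 226) (nat_lit 5) (nat_lit 593) (nat_lit 508) (nat_lit 459))))) (XT.nd (nat_lit 156) (nat_lit 988) (nat_lit 0) (XT.nd (nat_lit 78) (nat_lit 456) (nat_lit 0) (XT.lf (nat_lit 0) (nat_lit 4510582297) (nat_lit 608) (nat_lit 1554837471) (nat_lit 76) (nat_lit 3476884873) (nat_lit 218) (nat_lit 5) (nat_lit 226) (nat_lit 5) (nat_lit 219) (nat_lit 5) (nat_lit 594) (nat_lit 508) (nat_lit 458)) (XT.lf (nat_lit 0) (nat_lit 5503829477) (nat_lit 456) (nat_lit 2455804592) (nat_lit 532) (nat_lit 1676536974) (nat_lit 212) (nat_lit 5) (nat_lit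 218) (nat_lit 5) (nat_lit 219) (nat_lit 5) (nat_lit 595) (nat_lit 508) (nat_lit 457))) (XT.nd (nat_lit 78) (nat_lit 456) (nat_lit 0) (XT.lf (nat_lit 0) (nat_lit 1719747022) (nat_lit 532) (nat_lit 6778775397) (nat_lit 76) (nat_lit 1233230374) (nat_lit 205) (nat_lit 5) (nat_lit 212) (nat_lit 5) (nat_lit 206) (nat_lit 5) (nat_lit 596) (nat_lit 508) (nat_lit 456)) (XT.nd (nat_lit 78) (nat_lit 0) (nat_lit 0) (XT.lf (nat_lit 0) (nat_lit 324506730) (nat_lit 456) (nat_lit 4842656784) (nat_lit 532) (nat_lit 4661750388) (nat_lit 199) (nat_lit 5) (nat_lit 205) (nat_lit 5) (nat_lit 206) (nat_lit 5) (nat_lit 597) (nat_lit 508) (nat_lit 455)) (XT.lf (nat_lit 0) (nat_lit 7602608966) (nat_lit 456) (nat_lit 1086171949) (nat_lit 532) (nat_lit 1239134693) (nat_lit 199) (nat_lit 5) (nat_lit 205) (nat_lit 5) (nat_lit 206) (nat_lit 5) (nat_lit 598) (nat_lit 508) (nat_lit 454)))))) (XT.nd (nat_lit 390) (nat_lit 1672) (nat_lit 0) (XT.nd (nat_lit 156) (nat_lit 912) (nat_lit 0) (XT.nd (nat_lit 78)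 (nat_lit 380) (nat_lit 0) (XT.lf (nat_lit 0) (nat_lit 2233098573) (nat_lit 532) (nat_lit 5057076810) (nat_lit 76) (nat_lit 2738217884) (nat_lit 192) (nat_lit 5) (nat_lit 199) (nat_lit 5) (nat_lit 193) (nat_lit 5) (nat_lit 599) (nat_lit 508) (nat_lit 453)) (XT.lf (nat_lit 0) (nat_lit 2270310905) (nat_lit 380) (nat_lit 3486097990) (nat_lit 456) (nat_lit 4374345569) (nat_lit 187) (nat_lit 5) (nat_lit 192) (nat_lit 5) (nat_lit 193) (nat_lit 5) (nat_lit 600) (nat_lit 508) (nat_lit 452))) (XT.nd (nat_lit 78) (nat_lit 912) (nat_lit 0) (XT.lf (nat_lit 0) (nat_lit 9347740593) (nat_lit 456) (nat_lit 483527264) (nat_lit 76) (nat_lit 403946167) (nat_lit 187) (nat_lit 5) (nat_lit 193) (nat_lit 5) (nat_lit 188) (nat_lit 5) (nat_lit 601) (nat_lit 508) (nat_lit 451)) (XT.nd (nat_lit 78) (nat_lit 380) (nat_lit 0) (XT.lf (nat_lit 0) (nat_lit 2664809663) (nat_lit 532) (nat_lit 3306250693) (nat_lit 76) (nat_lit 4369744384) (nat_lit 180) (nat_lit 5) (nat_lit 187) (nat_lit 5) (nat_lit 181) (nat_lit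 5) (nat_lit 602) (nat_lit 508) (nat_lit 450)) (XT.lf (nat_lit 0) (nat_lit 4252960434) (nat_lit 380) (nat_lit 2015914796) (nat_lit 456) (nat_lit 4179664430) (nat_lit 175) (nat_lit 5) (nat_lit 180) (nat_lit 5) (nat_lit 181) (nat_lit 5) (nat_lit 603) (nat_lit 508) (nat_lit 449))))) (XT.nd (nat_lit 156) (nat_lit 1216) (nat_lit 0) (XT.nd (nat_lit 78) (nat_lit 76) (nat_lit 0) (XT.lf (nat_lit 0) (nat_lit 1396979679) (nat_lit 380) (nat_lit 8554528119) (nat_lit 456) (nat_lit 606793837) (nat_lit 170) (nat_lit 5) (nat_lit 175) (nat_lit 5) (nat_lit 176) (nat_lit 5) (nat_lit 604) (nat_lit 508) (nat_lit 448)) (XT.lf (nat_lit 0) (nat_lit 3014993605) (nat_lit 456) (nat_lit 1535802634) (nat_lit 76) (nat_lit 6118724224) (nat_lit 169) (nat_lit 5) (nat_lit 175) (nat_lit 5) (nat_lit 170) (nat_lit 5) (nat_lit 605) (nat_lit 508) (nat_lit 447))) (XT.nd (nat_lit 78) (nat_lit 836) (nat_lit 0) (XT.lf (nat_lit 0) (nat_lit 6263094978) (nat_lit 380) (nat_lit 441507711) (nat_lit 456) (nat_lit 4078212495)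 (nat_lit 164) (nat_lit 5) (nat_lit 169) (nat_lit 5) (nat_lit 170) (nat_lit 5) (nat_lit 606) (nat_lit 508) (nat_lit 446)) (XT.nd (nat_lit 78) (nat_lit 456) (nat_lit 0) (XT.lf (nat_lit 0) (nat_lit 3302024065) (nat_lit 380) (nat_lit 7185208488) (nat_lit 456) (nat_lit 410760590) (nat_lit 159) (nat_lit 5) (nat_lit 164) (nat_lit 5) (nat_lit 165) (nat_lit 5) (nat_lit 607) (nat_lit 508) (nat_lit 445)) (XT.lf (nat_lit 0) (nat_lit 247502492) (nat_lit 380) (nat_lit 3037102563) (nat_lit 456) (nat_lit 7730474251) (nat_lit 153) (nat_lit 5) (nat_lit 158) (nat_lit 5) (nat_lit 159) (nat_lit 5) (nat_lit 608) (nat_lit 508) (nat_lit 444))))))) (XT.nd (nat_lit 780) (nat_lit 1292) (nat_lit 0) (XT.nd (nat_lit 390) (nat_lit 1368) (nat_lit 0) (XT.nd (nat_lit 156) (nat_lit 760) (nat_lit 0) (XT.nd (nat_lit 78) (nat_lit 380) (nat_lit 0) (XT.lf (nat_lit 0) (nat_lit 7070838777) (nat_lit 456) (nat_lit 2851305449) (nat_lit 76) (nat_lit 1211861253) (nat_lit 153) (nat_lit 5) (nat_lit 159) (nat_lit 5) (nat_lit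 154) (nat_lit 5) (nat_lit 609) (nat_lit 508) (nat_lit 443)) (XT.lf (nat_lit 0) (nat_lit 5214889240) (nat_lit 380) (nat_lit 5735990664) (nat_lit 456) (nat_lit 304070384) (nat_lit 148) (nat_lit 5) (nat_lit 153) (nat_lit 5) (nat_lit 154) (nat_lit 5) (nat_lit 610) (nat_lit 508) (nat_lit 442))) (XT.nd (nat_lit 78) (nat_lit 380) (nat_lit 0) (XT.lf (nat_lit 0) (nat_lit 2050180580) (nat_lit 304) (nat_lit 1430511480) (nat_lit 380) (nat_lit 7897229553) (nat_lit 143) (nat_lit 5) (nat_lit 147) (nat_lit 5) (nat_lit 148) (nat_lit 5) (nat_lit 611) (nat_lit 508) (nat_lit 441)) (XT.nd (nat_lit 78) (nat_lit 380) (nat_lit 0) (XT.lf (nat_lit 0) (nat_lit 7361519013) (nat_lit 380) (nat_lit 1196935946) (nat_lit 76) (nat_lit 2944370060) (nat_lit 143) (nat_lit 5) (nat_lit 148) (nat_lit 5) (nat_lit 144) (nat_lit 5) (nat_lit 612) (nat_lit 508) (nat_lit 440)) (XT.lf (nat_lit 0) (nat_lit 7124580770) (nat_lit 380) (nat_lit 4216221905) (nat_lit 456) (nat_lit 289008647) (nat_lit 138) (nat_lit 5) (nat_lit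 143) (nat_lit 5) (nat_lit 144) (nat_lit 5) (nat_lit 613) (nat_lit 508) (nat_lit 439))))) (XT.nd (nat_lit 156) (nat_lit 684) (nat_lit 0) (XT.nd (nat_lit 78) (nat_lit 304) (nat_lit 0) (XT.lf (nat_lit 0) (nat_lit 3592432058) (nat_lit 380) (nat_lit 7920235749) (nat_lit 76) (nat_lit 246201586) (nat_lit 133) (nat_lit 5) (nat_lit 138) (nat_lit 5) (nat_lit 134) (nat_lit 5) (nat_lit 614) (nat_lit 508) (nat_lit 438)) (XT.lf (nat_lit 0) (nat_lit 440123658) (nat_lit 304) (nat_lit 7134110494) (nat_lit 380) (nat_lit 4315705757) (nat_lit 129) (nat_lit 5) (nat_lit 133) (nat_lit 5) (nat_lit 134) (nat_lit 5) (nat_lit 615) (nat_lit 508) (nat_lit 437))) (XT.nd (nat_lit 78) (nat_lit 684) (nat_lit 0) (XT.lf (nat_lit 0) (nat_lit 9019267363) (nat_lit 304) (nat_lit 2635256911) (nat_lit 380) (nat_lit 368732030) (nat_lit 129) (nat_lit 5) (nat_lit 133) (nat_lit 5) (nat_lit 134) (nat_lit 5) (nat_lit 616) (nat_lit 508) (nat_lit 436)) (XT.nd (nat_lit 78) (nat_lit 304) (nat_lit 0) (XT.lf (nat_lit 0) (nat_lit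 3624705762) (nat_lit 380) (nat_lit 6566274155) (nat_lit 76) (nat_lit 1967475880) (nat_lit 124) (nat_lit 5) (nat_lit 129) (nat_lit 5) (nat_lit 125) (nat_lit 5) (nat_lit 617) (nat_lit 508) (nat_lit 435)) (XT.lf (nat_lit 0) (nat_lit 2056672728) (nat_lit 304) (nat_lit 5653825574) (nat_lit 380) (nat_lit 4585465188) (nat_lit 120) (nat_lit 5) (nat_lit 124) (nat_lit 5) (nat_lit 125) (nat_lit 5) (nat_lit 618) (nat_lit 508) (nat_lit 434)))))) (XT.nd (nat_lit 390) (nat_lit 304) (nat_lit 0) (XT.nd (nat_lit 156) (nat_lit 608) (nat_lit 0) (XT.nd (nat_lit 78) (nat_lit 380) (nat_lit 0) (XT.lf (nat_lit 0) (nat_lit 10886137200) (nat_lit 304) (nat_lit 1002557781) (nat_lit 380) (nat_lit 547313984) (nat_lit 120) (nat_lit 5) (nat_lit 124) (nat_lit 5) (nat_lit 125) (nat_lit 5) (nat_lit 619) (nat_lit 508) (nat_lit 433)) (XT.lf (nat_lit 0) (nat_lit 3564047645) (nat_lit 380) (nat_lit 5270727197) (nat_lit 76) (nat_lit 3742832274) (nat_lit 115) (nat_lit 5) (nat_lit 120) (nat_lit 5) (nat_lit 116) (nat_lit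 5) (nat_lit 620) (nat_lit 508) (nat_lit 432))) (XT.nd (nat_lit 78) (nat_lit 304) (nat_lit 0) (XT.lf (nat_lit 0) (nat_lit 3622656121) (nat_lit 304) (nat_lit 4135506870) (nat_lit 380) (nat_lit 4963646095) (nat_lit 111) (nat_lit 5) (nat_lit 115) (nat_lit 5) (nat_lit 116) (nat_lit 5) (nat_lit 621) (nat_lit 508) (nat_lit 431)) (XT.nd (nat_lit 78) (nat_lit 304) (nat_lit 0) (XT.lf (nat_lit 0) (nat_lit 12043404523) (nat_lit 380) (nat_lit 161960704) (nat_lit 76) (nat_lit 663386280) (nat_lit 111) (nat_lit 5) (nat_lit 116) (nat_lit 5) (nat_lit 112) (nat_lit 5) (nat_lit 622) (nat_lit 508) (nat_lit 430)) (XT.lf (nat_lit 0) (nat_lit 3405309797) (nat_lit 304) (nat_lit 4049006437) (nat_lit 76) (nat_lit 5562794293) (nat_lit 107) (nat_lit 5) (nat_lit 111) (nat_lit 5) (nat_lit 108) (nat_lit 5) (nat_lit 623) (nat_lit 508) (nat_lit 429))))) (XT.nd (nat_lit 74958) (nat_lit 0) (nat_lit 41268) (XT.nd (nat_lit 74802) (nat_lit 0) (nat_lit 43624) (XT.lf (nat_lit 0) (nat_lit 5122638331) (nat_lit 304)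 (nat_lit 2589334149) (nat_lit 380) (nat_lit 5456307466) (nat_lit 103) (nat_lit 5) (nat_lit 107) (nat_lit 5) (nat_lit 108) (nat_lit 5) (nat_lit 624) (nat_lit 508) (nat_lit 428)) (XT.nd (nat_lit 78) (nat_lit 988) (nat_lit 0) (XT.lf (nat_lit 0) (nat_lit 1069695082) (nat_lit 988) (nat_lit 1197299032) (nat_lit 0) (nat_lit 1069695082) (nat_lit 690) (nat_lit 5) (nat_lit 703) (nat_lit 4) (nat_lit 690) (nat_lit 4) (nat_lit 542) (nat_lit 509) (nat_lit 509)) (XT.lf (nat_lit 0) (nat_lit 1967114456) (nat_lit 988) (nat_lit 3481528416) (nat_lit 988) (nat_lit 1246455544) (nat_lit 677) (nat_lit 4) (nat_lit 690) (nat_lit 5) (nat_lit 690) (nat_lit 4) (nat_lit 543) (nat_lit 509) (nat_lit 508)))) (XT.nd (nat_lit 78) (nat_lit 2280) (nat_lit 0) (XT.lf (nat_lit 0) (nat_lit 2022410546) (nat_lit 1064) (nat_lit 341051481) (nat_lit 76) (nat_lit 4354663460) (nat_lit 676) (nat_lit 5) (nat_lit 690) (nat_lit 5) (nat_lit 677) (nat_lit 4) (nat_lit 544) (nat_lit 509) (nat_lit 507)) (XT.nd (nat_lit 78) (nat_lit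 1216) (nat_lit 0) (XT.lf (nat_lit 0) (nat_lit 4121720796) (nat_lit 1064) (nat_lit 1173489030) (nat_lit 1140) (nat_lit 1447143878) (nat_lit 662) (nat_lit 5) (nat_lit 676) (nat_lit 5) (nat_lit 677) (nat_lit 4) (nat_lit 545) (nat_lit 509) (nat_lit 506)) (XT.lf (nat_lit 0) (nat_lit 1785878339) (nat_lit 1216) (nat_lit 4903076872) (nat_lit 76) (nat_lit 78999662) (nat_lit 646) (nat_lit 5) (nat_lit 662) (nat_lit 5) (nat_lit 647) (nat_lit 4) (nat_lit 546) (nat_lit 509) (nat_lit 505))))))))
noncomputable def xc44 : XT := (XT.nd (nat_lit 1560) (nat_lit 10792) (nat_lit 0) (XT.nd (nat_lit 780) (nat_lit 8512) (nat_lit 0) (XT.nd (nat_lit 390) (nat_lit 6384) (nat_lit 0) (XT.nd (nat_lit 156) (nat_lit 2736) (nat_lit 0) (XT.nd (nat_lit 78) (nat_lit 1292) (nat_lit 0) (XT.lf (nat_lit 0) (nat_lit 5019792696) (nat_lit 1216) (nat_lit 394944235) (nat_lit 76) (nat_lit 1380037353) (nat_lit 646) (nat_lit 5) (nat_lit 662) (nat_lit 5) (nat_lit 647) (nat_lit 4) (nat_lit 547) (nat_lit 509) (nat_lit 504))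 (XT.lf (nat_lit 0) (nat_lit 1435107066) (nat_lit 1292) (nat_lit 2632182646) (nat_lit 76) (nat_lit 2755485899) (nat_lit 629) (nat_lit 5) (nat_lit 646) (nat_lit 5) (nat_lit 630) (nat_lit 5) (nat_lit 548) (nat_lit 509) (nat_lit 503))) (XT.nd (nat_lit 78) (nat_lit 1444) (nat_lit 0) (XT.lf (nat_lit 0) (nat_lit 1977326813) (nat_lit 1292) (nat_lit 2655830576) (nat_lit 1368) (nat_lit 2219003534) (nat_lit 612) (nat_lit 5) (nat_lit 629) (nat_lit 5) (nat_lit 630) (nat_lit 5) (nat_lit 549) (nat_lit 509) (nat_lit 502)) (XT.nd (nat_lit 78) (nat_lit 1368) (nat_lit 0) (XT.lf (nat_lit 0) (nat_lit 950029269) (nat_lit 1368) (nat_lit 233032217) (nat_lit 76) (nat_lit 5699944091) (nat_lit 611) (nat_lit 5) (nat_lit 629) (nat_lit 5) (nat_lit 612) (nat_lit 5) (nat_lit 550) (nat_lit 509) (nat_lit 501)) (XT.lf (nat_lit 0) (nat_lit 4118133712) (nat_lit 1444) (nat_lit 2429672316) (nat_lit 76) (nat_lit 367068297) (nat_lit 593) (nat_lit 5) (nat_lit 612) (nat_lit 5) (nat_lit 594) (nat_lit 5) (nat_lit 551)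 (nat_lit 509) (nat_lit 500))))) (XT.nd (nat_lit 156) (nat_lit 3344) (nat_lit 0) (XT.nd (nat_lit 78) (nat_lit 1520) (nat_lit 0) (XT.lf (nat_lit 0) (nat_lit 355914908) (nat_lit 1520) (nat_lit 4633473111) (nat_lit 76) (nat_lit 1958769080) (nat_lit 573) (nat_lit 5) (nat_lit 593) (nat_lit 5) (nat_lit 574) (nat_lit 5) (nat_lit 552) (nat_lit 509) (nat_lit 499)) (XT.lf (nat_lit 0) (nat_lit 128578093) (nat_lit 1520) (nat_lit 3358138235) (nat_lit 1596) (nat_lit 3495976771) (nat_lit 553) (nat_lit 5) (nat_lit 573) (nat_lit 5) (nat_lit 574) (nat_lit 5) (nat_lit 553) (nat_lit 509) (nat_lit 498))) (XT.nd (nat_lit 78) (nat_lit 3344) (nat_lit 0) (XT.lf (nat_lit 0) (nat_lit 4989508503) (nat_lit 1520) (nat_lit 1657862549) (nat_lit 1596) (nat_lit 371211988) (nat_lit 553) (nat_lit 5) (nat_lit 573) (nat_lit 5) (nat_lit 574) (nat_lit 5) (nat_lit 554) (nat_lit 509) (nat_lit 497)) (XT.nd (nat_lit 78) (nat_lit 1672) (nat_lit 0) (XT.lf (nat_lit 0) (nat_lit 2735378002) (nat_lit 1672) (nat_lit 4203747328)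 (nat_lit 76) (nat_lit 116582175) (nat_lit 531) (nat_lit 5) (nat_lit 553) (nat_lit 5) (nat_lit 532) (nat_lit 5) (nat_lit 555) (nat_lit 509) (nat_lit 496)) (XT.lf (nat_lit 0) (nat_lit 700738095) (nat_lit 1672) (nat_lit 5165485261) (nat_lit 1748) (nat_lit 1227967651) (nat_lit 509) (nat_lit 5) (nat_lit 531) (nat_lit 5) (nat_lit 532) (nat_lit 5) (nat_lit 556) (nat_lit 509) (nat_lit 495)))))) (XT.nd (nat_lit 390) (nat_lit 3724) (nat_lit 0) (XT.nd (nat_lit 156) (nat_lit 2964) (nat_lit 0) (XT.nd (nat_lit 78) (nat_lit 1748) (nat_lit 0) (XT.lf (nat_lit 0) (nat_lit 1867648746) (nat_lit 1748) (nat_lit 1445454144) (nat_lit 76) (nat_lit 3820764969) (nat_lit 508) (nat_lit 5) (nat_lit 531) (nat_lit 5) (nat_lit 509) (nat_lit 5) (nat_lit 557) (nat_lit 509) (nat_lit 494)) (XT.lf (nat_lit 0) (nat_lit 3581345268) (nat_lit 1748) (nat_lit 1390142005) (nat_lit 1824) (nat_lit 2203440665) (nat_lit 485) (nat_lit 5) (nat_lit 508) (nat_lit 5) (nat_lit 509) (nat_lit 5) (nat_lit 558) (nat_lit 509) (nat_lit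 493))) (XT.nd (nat_lit 78) (nat_lit 1064) (nat_lit 0) (XT.lf (nat_lit 0) (nat_lit 871567222) (nat_lit 1900) (nat_lit 5755971740) (nat_lit 76) (nat_lit 589896559) (nat_lit 460) (nat_lit 5) (nat_lit 485) (nat_lit 5) (nat_lit 461) (nat_lit 5) (nat_lit 559) (nat_lit 509) (nat_lit 492)) (XT.nd (nat_lit 78) (nat_lit 1064) (nat_lit 0) (XT.lf (nat_lit 0) (nat_lit 3952765118) (nat_lit 1900) (nat_lit 678164701) (nat_lit 76) (nat_lit 2630094928) (nat_lit 460) (nat_lit 5) (nat_lit 485) (nat_lit 5) (nat_lit 461) (nat_lit 5) (nat_lit 560) (nat_lit 509) (nat_lit 491)) (XT.lf (nat_lit 0) (nat_lit 4501194610) (nat_lit 1064) (nat_lit 2565465702) (nat_lit 1140) (nat_lit 239410513) (nat_lit 446) (nat_lit 5) (nat_lit 460) (nat_lit 5) (nat_lit 461) (nat_lit 5) (nat_lit 561) (nat_lit 509) (nat_lit 490))))) (XT.nd (nat_lit 156) (nat_lit 1824) (nat_lit 0) (XT.nd (nat_lit 78) (nat_lit 912) (nat_lit 0) (XT.lf (nat_lit 0) (nat_lit 2394589682) (nat_lit 912) (nat_lit 420662211) (nat_lit 988) (nat_lit 4537149833)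 (nat_lit 433) (nat_lit 5) (nat_lit 445) (nat_lit 5) (nat_lit 446) (nat_lit 5) (nat_lit 562) (nat_lit 509) (nat_lit 489)) (XT.lf (nat_lit 0) (nat_lit 266934558) (nat_lit 912) (nat_lit 5635981272) (nat_lit 988) (nat_lit 1497215642) (nat_lit 421) (nat_lit 5) (nat_lit 433) (nat_lit 5) (nat_lit 434) (nat_lit 5) (nat_lit 563) (nat_lit 509) (nat_lit 488))) (XT.nd (nat_lit 78) (nat_lit 1748) (nat_lit 0) (XT.lf (nat_lit 0) (nat_lit 1562072280) (nat_lit 988) (nat_lit 1858716959) (nat_lit 76) (nat_lit 4028232561) (nat_lit 420) (nat_lit 5) (nat_lit 433) (nat_lit 5) (nat_lit 421) (nat_lit 5) (nat_lit 564) (nat_lit 509) (nat_lit 487)) (XT.nd (nat_lit 78) (nat_lit 912) (nat_lit 0) (XT.lf (nat_lit 0) (nat_lit 3497869497) (nat_lit 836) (nat_lit 1131779315) (nat_lit 912) (nat_lit 2869705980) (nat_lit 409) (nat_lit 5) (nat_lit 420) (nat_lit 5) (nat_lit 421) (nat_lit 5) (nat_lit 565) (nat_lit 509) (nat_lit 486)) (XT.lf (nat_lit 0) (nat_lit 179452246) (nat_lit 912) (nat_lit 6165790214) (nat_lit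 76) (nat_lit 1205944643) (nat_lit 397) (nat_lit 5) (nat_lit 409) (nat_lit 5) (nat_lit 398) (nat_lit 5) (nat_lit 566) (nat_lit 509) (nat_lit 485))))))) (XT.nd (nat_lit 780) (nat_lit 5244) (nat_lit 0) (XT.nd (nat_lit 390) (nat_lit 2964) (nat_lit 0) (XT.nd (nat_lit 156) (nat_lit 1748) (nat_lit 0) (XT.nd (nat_lit 78) (nat_lit 836) (nat_lit 0) (XT.lf (nat_lit 0) (nat_lit 3231155930) (nat_lit 912) (nat_lit 756303795) (nat_lit 76) (nat_lit 3616622674) (nat_lit 397) (nat_lit 5) (nat_lit 409) (nat_lit 5) (nat_lit 398) (nat_lit 5) (nat_lit 567) (nat_lit 509) (nat_lit 484)) (XT.lf (nat_lit 0) (nat_lit 4764680671) (nat_lit 836) (nat_lit 1556645159) (nat_lit 912) (nat_lit 1337166488) (nat_lit 386) (nat_lit 5) (nat_lit 397) (nat_lit 5) (nat_lit 398) (nat_lit 5) (nat_lit 568) (nat_lit 509) (nat_lit 483))) (XT.nd (nat_lit 78) (nat_lit 836) (nat_lit 0) (XT.lf (nat_lit 0) (nat_lit 1711573473) (nat_lit 912) (nat_lit 5064232128) (nat_lit 76) (nat_lit 938454766) (nat_lit 374) (nat_lit 5) (nat_lit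 386) (nat_lit 5) (nat_lit 375) (nat_lit 5) (nat_lit 569) (nat_lit 509) (nat_lit 482)) (XT.nd (nat_lit 78) (nat_lit 76) (nat_lit 0) (XT.lf (nat_lit 0) (nat_lit 500359800) (nat_lit 760) (nat_lit 4283571078) (nat_lit 836) (nat_lit 2987430230) (nat_lit 364) (nat_lit 5) (nat_lit 374) (nat_lit 5) (nat_lit 375) (nat_lit 5) (nat_lit 570) (nat_lit 509) (nat_lit 481)) (XT.lf (nat_lit 0) (nat_lit 68904077) (nat_lit 836) (nat_lit 1645260458) (nat_lit 76) (nat_lit 6115794173) (nat_lit 363) (nat_lit 5) (nat_lit 374) (nat_lit 5) (nat_lit 364) (nat_lit 5) (nat_lit 571) (nat_lit 509) (nat_lit 480))))) (XT.nd (nat_lit 156) (nat_lit 1520) (nat_lit 0) (XT.nd (nat_lit 78) (nat_lit 684) (nat_lit 0) (XT.lf (nat_lit 0) (nat_lit 3127693682) (nat_lit 836) (nat_lit 3828665034) (nat_lit 76) (nat_lit 933352758) (nat_lit 353) (nat_lit 5) (nat_lit 364) (nat_lit 5) (nat_lit 354) (nat_lit 5) (nat_lit 572) (nat_lit 509) (nat_lit 479)) (XT.lf (nat_lit 0) (nat_lit 1907111001) (nat_lit 684) (nat_lit 4324710320)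 (nat_lit 760) (nat_lit 1719159396) (nat_lit 344) (nat_lit 5) (nat_lit 353) (nat_lit 5) (nat_lit 354) (nat_lit 5) (nat_lit 573) (nat_lit 509) (nat_lit 478))) (XT.nd (nat_lit 78) (nat_lit 1444) (nat_lit 0) (XT.lf (nat_lit 0) (nat_lit 1341846075) (nat_lit 760) (nat_lit 272719731) (nat_lit 76) (nat_lit 6399225263) (nat_lit 343) (nat_lit 5) (nat_lit 353) (nat_lit 5) (nat_lit 344) (nat_lit 5) (nat_lit 574) (nat_lit 509) (nat_lit 477)) (XT.nd (nat_lit 78) (nat_lit 684) (nat_lit 0) (XT.lf (nat_lit 0) (nat_lit 4435839363) (nat_lit 836) (nat_lit 2468396243) (nat_lit 76) (nat_lit 1173503401) (nat_lit 333) (nat_lit 5) (nat_lit 344) (nat_lit 5) (nat_lit 334) (nat_lit 5) (nat_lit 575) (nat_lit 509) (nat_lit 476)) (XT.lf (nat_lit 0) (nat_lit 3444837291) (nat_lit 684) (nat_lit 4132876832) (nat_lit 760) (nat_lit 565536061) (nat_lit 324) (nat_lit 5) (nat_lit 333) (nat_lit 5) (nat_lit 334) (nat_lit 5) (nat_lit 576) (nat_lit 509) (nat_lit 475)))))) (XT.nd (nat_lit 390) (nat_lit 2508) (nat_lit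 0) (XT.nd (nat_lit 156) (nat_lit 1976) (nat_lit 0) (XT.nd (nat_lit 78) (nat_lit 0) (nat_lit 0) (XT.lf (nat_lit 0) (nat_lit 1239792654) (nat_lit 684) (nat_lit 1274900624) (nat_lit 760) (nat_lit 5695526912) (nat_lit 314) (nat_lit 5) (nat_lit 323) (nat_lit 5) (nat_lit 324) (nat_lit 5) (nat_lit 577) (nat_lit 509) (nat_lit 474)) (XT.lf (nat_lit 0) (nat_lit 5643196540) (nat_lit 760) (nat_lit 992263169) (nat_lit 76) (nat_lit 1643114349) (nat_lit 314) (nat_lit 5) (nat_lit 324) (nat_lit 5) (nat_lit 315) (nat_lit 5) (nat_lit 578) (nat_lit 509) (nat_lit 473))) (XT.nd (nat_lit 78) (nat_lit 1292) (nat_lit 0) (XT.lf (nat_lit 0) (nat_lit 473939620) (nat_lit 684) (nat_lit 3246586245) (nat_lit 76) (nat_lit 4627823170) (nat_lit 305) (nat_lit 5) (nat_lit 314) (nat_lit 5) (nat_lit 306) (nat_lit 5) (nat_lit 579) (nat_lit 509) (nat_lit 472)) (XT.nd (nat_lit 78) (nat_lit 608) (nat_lit 0) (XT.lf (nat_lit 0) (nat_lit 2872641333) (nat_lit 684) (nat_lit 715924703) (nat_lit 760) (nat_lit 4831040693)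 (nat_lit 296) (nat_lit 5) (nat_lit 305) (nat_lit 5) (nat_lit 306) (nat_lit 5) (nat_lit 580) (nat_lit 509) (nat_lit 471)) (XT.lf (nat_lit 0) (nat_lit 599139683) (nat_lit 608) (nat_lit 6160897532) (nat_lit 684) (nat_lit 1732365070) (nat_lit 288) (nat_lit 5) (nat_lit 296) (nat_lit 5) (nat_lit 297) (nat_lit 5) (nat_lit 581) (nat_lit 509) (nat_lit 470))))) (XT.nd (nat_lit 234) (nat_lit 1216) (nat_lit 0) (XT.nd (nat_lit 78) (nat_lit 1216) (nat_lit 0) (XT.lf (nat_lit 0) (nat_lit 1405463173) (nat_lit 684) (nat_lit 1696770922) (nat_lit 76) (nat_lit 5464319570) (nat_lit 287) (nat_lit 5) (nat_lit 296) (nat_lit 5) (nat_lit 288) (nat_lit 5) (nat_lit 582) (nat_lit 509) (nat_lit 469)) (XT.nd (nat_lit 78) (nat_lit 608) (nat_lit 0) (XT.lf (nat_lit 0) (nat_lit 4567739912) (nat_lit 684) (nat_lit 4028664691) (nat_lit 76) (nat_lit 45860223) (nat_lit 279) (nat_lit 5) (nat_lit 288) (nat_lit 5) (nat_lit 280) (nat_lit 5) (nat_lit 583) (nat_lit 509) (nat_lit 468)) (XT.lf (nat_lit 0) (nat_lit 2304308796)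 (nat_lit 608) (nat_lit 5490952214) (nat_lit 684) (nat_lit 924192691) (nat_lit 271) (nat_lit 5) (nat_lit 279) (nat_lit 5) (nat_lit 280) (nat_lit 5) (nat_lit 584) (nat_lit 509) (nat_lit 467)))) (XT.nd (nat_lit 78) (nat_lit 1140) (nat_lit 0) (XT.lf (nat_lit 0) (nat_lit 2241570596) (nat_lit 684) (nat_lit 53553648) (nat_lit 76) (nat_lit 6503119248) (nat_lit 270) (nat_lit 5) (nat_lit 279) (nat_lit 5) (nat_lit 271) (nat_lit 5) (nat_lit 585) (nat_lit 509) (nat_lit 466)) (XT.nd (nat_lit 78) (nat_lit 532) (nat_lit 0) (XT.lf (nat_lit 0) (nat_lit 5462798633) (nat_lit 684) (nat_lit 2429455032) (nat_lit 76) (nat_lit 986146015) (nat_lit 262) (nat_lit 5) (nat_lit 271) (nat_lit 5) (nat_lit 263) (nat_lit 5) (nat_lit 586) (nat_lit 509) (nat_lit 465)) (XT.lf (nat_lit 0) (nat_lit 4102017130) (nat_lit 532) (nat_lit 4645130548) (nat_lit 608) (nat_lit 213040588) (nat_lit 255) (nat_lit 5) (nat_lit 262) (nat_lit 5) (nat_lit 263) (nat_lit 5) (nat_lit 587) (nat_lit 509) (nat_lit 464))))))))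
noncomputable def xc45 : XT := (XT.nd (nat_lit 1560) (nat_lit 4332) (nat_lit 0) (XT.nd (nat_lit 780) (nat_lit 3116) (nat_lit 0) (XT.nd (nat_lit 390) (nat_lit 1596) (nat_lit 0) (XT.nd (nat_lit 156) (nat_lit 1596) (nat_lit 0) (XT.nd (nat_lit 78) (nat_lit 0) (nat_lit 0) (XT.lf (nat_lit 0) (nat_lit 1697250489) (nat_lit 532) (nat_lit 1300391808) (nat_lit 608) (nat_lit 6045894502) (nat_lit 247) (nat_lit 5) (nat_lit 254) (nat_lit 5) (nat_lit 255) (nat_lit 5) (nat_lit 588) (nat_lit 509) (nat_lit 463)) (XT.lf (nat_lit 0) (nat_lit 6273270422) (nat_lit 608) (nat_lit 752811237) (nat_lit 76) (nat_lit 2102373814) (nat_lit 247) (nat_lit 5) (nat_lit 255) (nat_lit 5) (nat_lit 248) (nat_lit 5) (nat_lit 589) (nat_lit 509) (nat_lit 462))) (XT.nd (nat_lit 78) (nat_lit 988) (nat_lit 0) (XT.lf (nat_lit 0) (nat_lit 399499260) (nat_lit 608) (nat_lit 3233239005) (nat_lit 76) (nat_lit 5582177340) (nat_lit 239) (nat_lit 5) (nat_lit 247) (nat_lit 5) (nat_lit 240) (nat_lit 5) (nat_lit 590) (nat_lit 509)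 (nat_lit 461)) (XT.nd (nat_lit 78) (nat_lit 456) (nat_lit 0) (XT.lf (nat_lit 0) (nat_lit 3527143920) (nat_lit 532) (nat_lit 139995496) (nat_lit 608) (nat_lit 5635869051) (nat_lit 232) (nat_lit 5) (nat_lit 239) (nat_lit 5) (nat_lit 240) (nat_lit 5) (nat_lit 591) (nat_lit 509) (nat_lit 460)) (XT.lf (nat_lit 0) (nat_lit 1006395027) (nat_lit 456) (nat_lit 6002745649) (nat_lit 532) (nat_lit 2383545133) (nat_lit 226) (nat_lit 5) (nat_lit 232) (nat_lit 5) (nat_lit 233) (nat_lit 5) (nat_lit 592) (nat_lit 509) (nat_lit 459))))) (XT.nd (nat_lit 156) (nat_lit 988) (nat_lit 0) (XT.nd (nat_lit 78) (nat_lit 532) (nat_lit 0) (XT.lf (nat_lit 0) (nat_lit 920095219) (nat_lit 532) (nat_lit 1546774238) (nat_lit 76) (nat_lit 7017198315) (nat_lit 225) (nat_lit 5) (nat_lit 232) (nat_lit 5) (nat_lit 226) (nat_lit 5) (nat_lit 593) (nat_lit 509) (nat_lit 458)) (XT.lf (nat_lit 0) (nat_lit 4260174593) (nat_lit 608) (nat_lit 4157358545) (nat_lit 76) (nat_lit 1159386121) (nat_lit 218) (nat_lit 5) (nat_lit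 226) (nat_lit 5) (nat_lit 219) (nat_lit 5) (nat_lit 594) (nat_lit 509) (nat_lit 457))) (XT.nd (nat_lit 78) (nat_lit 532) (nat_lit 0) (XT.lf (nat_lit 0) (nat_lit 2837675827) (nat_lit 456) (nat_lit 4834290107) (nat_lit 532) (nat_lit 1999566211) (nat_lit 212) (nat_lit 5) (nat_lit 218) (nat_lit 5) (nat_lit 219) (nat_lit 5) (nat_lit 595) (nat_lit 509) (nat_lit 456)) (XT.nd (nat_lit 78) (nat_lit 0) (nat_lit 0) (XT.lf (nat_lit 0) (nat_lit 196837517) (nat_lit 456) (nat_lit 1158179383) (nat_lit 532) (nat_lit 8413058917) (nat_lit 205) (nat_lit 5) (nat_lit 211) (nat_lit 5) (nat_lit 212) (nat_lit 5) (nat_lit 596) (nat_lit 509) (nat_lit 455)) (XT.lf (nat_lit 0) (nat_lit 4773077783) (nat_lit 532) (nat_lit 2493582602) (nat_lit 76) (nat_lit 2599164855) (nat_lit 205) (nat_lit 5) (nat_lit 212) (nat_lit 5) (nat_lit 206) (nat_lit 5) (nat_lit 597) (nat_lit 509) (nat_lit 454)))))) (XT.nd (nat_lit 390) (nat_lit 1216) (nat_lit 0) (XT.nd (nat_lit 156) (nat_lit 912) (nat_lit 0) (XT.nd (nat_lit 78)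 (nat_lit 532) (nat_lit 0) (XT.lf (nat_lit 0) (nat_lit 4722681166) (nat_lit 456) (nat_lit 3536080346) (nat_lit 532) (nat_lit 1706785286) (nat_lit 199) (nat_lit 5) (nat_lit 205) (nat_lit 5) (nat_lit 206) (nat_lit 5) (nat_lit 598) (nat_lit 509) (nat_lit 453)) (XT.lf (nat_lit 0) (nat_lit 1716832481) (nat_lit 532) (nat_lit 8061455678) (nat_lit 76) (nat_lit 288893132) (nat_lit 192) (nat_lit 5) (nat_lit 199) (nat_lit 5) (nat_lit 193) (nat_lit 5) (nat_lit 599) (nat_lit 509) (nat_lit 452))) (XT.nd (nat_lit 78) (nat_lit 912) (nat_lit 0) (XT.lf (nat_lit 0) (nat_lit 5206264392) (nat_lit 532) (nat_lit 792374695) (nat_lit 76) (nat_lit 4171582079) (nat_lit 192) (nat_lit 5) (nat_lit 199) (nat_lit 5) (nat_lit 193) (nat_lit 5) (nat_lit 600) (nat_lit 509) (nat_lit 451)) (XT.nd (nat_lit 78) (nat_lit 532) (nat_lit 0) (XT.lf (nat_lit 0) (nat_lit 6652838118) (nat_lit 380) (nat_lit 2117940625) (nat_lit 456) (nat_lit 1504439419) (nat_lit 187) (nat_lit 5) (nat_lit 192) (nat_lit 5) (nat_lit 193) (nat_lit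 5) (nat_lit 601) (nat_lit 509) (nat_lit 450)) (XT.lf (nat_lit 0) (nat_lit 2002451432) (nat_lit 532) (nat_lit 6538067497) (nat_lit 76) (nat_lit 1841440788) (nat_lit 180) (nat_lit 5) (nat_lit 187) (nat_lit 5) (nat_lit 181) (nat_lit 5) (nat_lit 602) (nat_lit 509) (nat_lit 449))))) (XT.nd (nat_lit 156) (nat_lit 836) (nat_lit 0) (XT.nd (nat_lit 78) (nat_lit 0) (nat_lit 0) (XT.lf (nat_lit 0) (nat_lit 949656716) (nat_lit 380) (nat_lit 4616838845) (nat_lit 456) (nat_lit 4924000530) (nat_lit 175) (nat_lit 5) (nat_lit 180) (nat_lit 5) (nat_lit 181) (nat_lit 5) (nat_lit 603) (nat_lit 509) (nat_lit 448)) (XT.lf (nat_lit 0) (nat_lit 8619244664) (nat_lit 380) (nat_lit 589298646) (nat_lit 456) (nat_lit 1392527458) (nat_lit 175) (nat_lit 5) (nat_lit 180) (nat_lit 5) (nat_lit 181) (nat_lit 5) (nat_lit 604) (nat_lit 509) (nat_lit 447))) (XT.nd (nat_lit 78) (nat_lit 380) (nat_lit 0) (XT.lf (nat_lit 0) (nat_lit 2204217743) (nat_lit 456) (nat_lit 5003305940) (nat_lit 76) (nat_lit 3505575855) (nat_lit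 169) (nat_lit 5) (nat_lit 175) (nat_lit 5) (nat_lit 170) (nat_lit 5) (nat_lit 605) (nat_lit 509) (nat_lit 446)) (XT.nd (nat_lit 78) (nat_lit 0) (nat_lit 0) (XT.lf (nat_lit 0) (nat_lit 2721352689) (nat_lit 380) (nat_lit 3131443029) (nat_lit 456) (nat_lit 4974420111) (nat_lit 164) (nat_lit 5) (nat_lit 169) (nat_lit 5) (nat_lit 170) (nat_lit 5) (nat_lit 606) (nat_lit 509) (nat_lit 445)) (XT.lf (nat_lit 0) (nat_lit 9578597181) (nat_lit 456) (nat_lit 337861131) (nat_lit 76) (nat_lit 1027072972) (nat_lit 164) (nat_lit 5) (nat_lit 170) (nat_lit 5) (nat_lit 165) (nat_lit 5) (nat_lit 607) (nat_lit 509) (nat_lit 444))))))) (XT.nd (nat_lit 780) (nat_lit 1292) (nat_lit 0) (XT.nd (nat_lit 390) (nat_lit 1444) (nat_lit 0) (XT.nd (nat_lit 156) (nat_lit 760) (nat_lit 0) (XT.nd (nat_lit 78) (nat_lit 380) (nat_lit 0) (XT.lf (nat_lit 0) (nat_lit 2321229669) (nat_lit 456) (nat_lit 3467446799) (nat_lit 76) (nat_lit 5272500097) (nat_lit 158) (nat_lit 5) (nat_lit 164) (nat_lit 5) (nat_lit 159) (nat_lit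 5) (nat_lit 608) (nat_lit 509) (nat_lit 443)) (XT.lf (nat_lit 0) (nat_lit 4502031029) (nat_lit 380) (nat_lit 1556945962) (nat_lit 456) (nat_lit 5122096348) (nat_lit 153) (nat_lit 5) (nat_lit 158) (nat_lit 5) (nat_lit 159) (nat_lit 5) (nat_lit 609) (nat_lit 509) (nat_lit 442))) (XT.nd (nat_lit 78) (nat_lit 380) (nat_lit 0) (XT.lf (nat_lit 0) (nat_lit 1318650529) (nat_lit 380) (nat_lit 8567543411) (nat_lit 456) (nat_lit 1416881551) (nat_lit 148) (nat_lit 5) (nat_lit 153) (nat_lit 5) (nat_lit 154) (nat_lit 5) (nat_lit 610) (nat_lit 509) (nat_lit 441)) (XT.nd (nat_lit 78) (nat_lit 304) (nat_lit 0) (XT.lf (nat_lit 0) (nat_lit 2351794992) (nat_lit 456) (nat_lit 1941408080) (nat_lit 76) (nat_lit 7133602684) (nat_lit 147) (nat_lit 5) (nat_lit 153) (nat_lit 5) (nat_lit 148) (nat_lit 5) (nat_lit 611) (nat_lit 509) (nat_lit 440)) (XT.lf (nat_lit 0) (nat_lit 6183905713) (nat_lit 380) (nat_lit 5272452344) (nat_lit 76) (nat_lit 96326238) (nat_lit 143) (nat_lit 5) (nat_lit 148) (nat_lit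 5) (nat_lit 144) (nat_lit 5) (nat_lit 612) (nat_lit 509) (nat_lit 439))))) (XT.nd (nat_lit 156) (nat_lit 988) (nat_lit 0) (XT.nd (nat_lit 78) (nat_lit 76) (nat_lit 0) (XT.lf (nat_lit 0) (nat_lit 2967425938) (nat_lit 380) (nat_lit 7151838381) (nat_lit 456) (nat_lit 1561285574) (nat_lit 138) (nat_lit 5) (nat_lit 143) (nat_lit 5) (nat_lit 144) (nat_lit 5) (nat_lit 613) (nat_lit 509) (nat_lit 438)) (XT.lf (nat_lit 0) (nat_lit 2293399058) (nat_lit 456) (nat_lit 436876596) (nat_lit 76) (nat_lit 9080367124) (nat_lit 137) (nat_lit 5) (nat_lit 143) (nat_lit 5) (nat_lit 138) (nat_lit 5) (nat_lit 614) (nat_lit 509) (nat_lit 437))) (XT.nd (nat_lit 78) (nat_lit 684) (nat_lit 0) (XT.lf (nat_lit 0) (nat_lit 6234924199) (nat_lit 380) (nat_lit 3908303361) (nat_lit 76) (nat_lit 1799292021) (nat_lit 133) (nat_lit 5) (nat_lit 138) (nat_lit 5) (nat_lit 134) (nat_lit 5) (nat_lit 615) (nat_lit 509) (nat_lit 436)) (XT.nd (nat_lit 78) (nat_lit 380) (nat_lit 0) (XT.lf (nat_lit 0) (nat_lit 4591826806)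 (nat_lit 304) (nat_lit 5681029213) (nat_lit 380) (nat_lit 1803827855) (nat_lit 129) (nat_lit 5) (nat_lit 133) (nat_lit 5) (nat_lit 134) (nat_lit 5) (nat_lit 616) (nat_lit 509) (nat_lit 435)) (XT.lf (nat_lit 0) (nat_lit 1047291294) (nat_lit 304) (nat_lit 1102173922) (nat_lit 380) (nat_lit 10063784533) (nat_lit 124) (nat_lit 5) (nat_lit 128) (nat_lit 5) (nat_lit 129) (nat_lit 5) (nat_lit 617) (nat_lit 509) (nat_lit 434)))))) (XT.nd (nat_lit 390) (nat_lit 304) (nat_lit 0) (XT.nd (nat_lit 156) (nat_lit 684) (nat_lit 0) (XT.nd (nat_lit 78) (nat_lit 304) (nat_lit 0) (XT.lf (nat_lit 0) (nat_lit 6198402834) (nat_lit 380) (nat_lit 2589674832) (nat_lit 76) (nat_lit 3563417565) (nat_lit 124) (nat_lit 5) (nat_lit 129) (nat_lit 5) (nat_lit 125) (nat_lit 5) (nat_lit 618) (nat_lit 509) (nat_lit 433)) (XT.lf (nat_lit 0) (nat_lit 6178705167) (nat_lit 304) (nat_lit 4164658765) (nat_lit 380) (nat_lit 2148842162) (nat_lit 120) (nat_lit 5) (nat_lit 124) (nat_lit 5) (nat_lit 125) (nat_lit 5) (nat_lit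 619) (nat_lit 509) (nat_lit 432))) (XT.nd (nat_lit 78) (nat_lit 304) (nat_lit 0) (XT.lf (nat_lit 0) (nat_lit 1915217757) (nat_lit 380) (nat_lit 10150315106) (nat_lit 76) (nat_lit 569846116) (nat_lit 115) (nat_lit 5) (nat_lit 120) (nat_lit 5) (nat_lit 116) (nat_lit 5) (nat_lit 620) (nat_lit 509) (nat_lit 431)) (XT.nd (nat_lit 78) (nat_lit 304) (nat_lit 0) (XT.lf (nat_lit 0) (nat_lit 6069902251) (nat_lit 380) (nat_lit 1330879739) (nat_lit 76) (nat_lit 5379588215) (nat_lit 115) (nat_lit 5) (nat_lit 120) (nat_lit 5) (nat_lit 116) (nat_lit 5) (nat_lit 621) (nat_lit 509) (nat_lit 430)) (XT.lf (nat_lit 0) (nat_lit 7713757679) (nat_lit 304) (nat_lit 2612497217) (nat_lit 380) (nat_lit 2601636132) (nat_lit 111) (nat_lit 5) (nat_lit 115) (nat_lit 5) (nat_lit 116) (nat_lit 5) (nat_lit 622) (nat_lit 509) (nat_lit 429))))) (XT.nd (nat_lit 74802) (nat_lit 0) (nat_lit 43244) (XT.nd (nat_lit 78) (nat_lit 0) (nat_lit 0) (XT.lf (nat_lit 0) (nat_lit 1586094971) (nat_lit 304) (nat_lit 9225955350)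 (nat_lit 76) (nat_lit 2265755426) (nat_lit 107) (nat_lit 5) (nat_lit 111) (nat_lit 5) (nat_lit 108) (nat_lit 5) (nat_lit 623) (nat_lit 509) (nat_lit 428)) (XT.nd (nat_lit 74646) (nat_lit 0) (nat_lit 45296) (XT.lf (nat_lit 0) (nat_lit 5844006062) (nat_lit 304) (nat_lit 147520691) (nat_lit 76) (nat_lit 7238424035) (nat_lit 107) (nat_lit 5) (nat_lit 111) (nat_lit 5) (nat_lit 108) (nat_lit 5) (nat_lit 624) (nat_lit 509) (nat_lit 427)) (XT.lf (nat_lit 0) (nat_lit 1170476018) (nat_lit 836) (nat_lit 1073061011) (nat_lit 836) (nat_lit 1073061011) (nat_lit 703) (nat_lit 4) (nat_lit 714) (nat_lit 5) (nat_lit 714) (nat_lit 4) (nat_lit 540) (nat_lit 510) (nat_lit 510)))) (XT.nd (nat_lit 78) (nat_lit 1976) (nat_lit 0) (XT.lf (nat_lit 0) (nat_lit 1123257991) (nat_lit 912) (nat_lit 56388673) (nat_lit 76) (nat_lit 5473479129) (nat_lit 702) (nat_lit 5) (nat_lit 714) (nat_lit 5) (nat_lit 703) (nat_lit 4) (nat_lit 541) (nat_lit 510) (nat_lit 509)) (XT.nd (nat_lit 78) (nat_lit 1064) (nat_lit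 0) (XT.lf (nat_lit 0) (nat_lit 4249786631) (nat_lit 912) (nat_lit 133842466) (nat_lit 988) (nat_lit 2290465417) (nat_lit 690) (nat_lit 5) (nat_lit 702) (nat_lit 5) (nat_lit 703) (nat_lit 4) (nat_lit 542) (nat_lit 510) (nat_lit 508)) (XT.lf (nat_lit 0) (nat_lit 946805371) (nat_lit 1064) (nat_lit 4793548266) (nat_lit 76) (nat_lit 956080335) (nat_lit 676) (nat_lit 5) (nat_lit 690) (nat_lit 5) (nat_lit 677) (nat_lit 4) (nat_lit 543) (nat_lit 510) (nat_lit 507))))))))
noncomputable def xc46 : XT := (XT.nd (nat_lit 1560) (nat_lit 12312) (nat_lit 0) (XT.nd (nat_lit 780) (nat_lit 10640) (nat_lit 0) (XT.nd (nat_lit 390) (nat_lit 4256) (nat_lit 0) (XT.nd (nat_lit 156) (nat_lit 2432) (nat_lit 0) (XT.nd (nat_lit 78) (nat_lit 1140) (nat_lit 0) (XT.lf (nat_lit 0) (nat_lit 4163912766) (nat_lit 1064) (nat_lit 443273596) (nat_lit 76) (nat_lit 2112826149) (nat_lit 676) (nat_lit 5) (nat_lit 690) (nat_lit 5) (nat_lit 677) (nat_lit 4) (nat_lit 544) (nat_lit 510) (nat_lit 506)) (XT.lf (nat_lit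 0) (nat_lit 647575282) (nat_lit 1140) (nat_lit 2759454428) (nat_lit 76) (nat_lit 3337842283) (nat_lit 661) (nat_lit 5) (nat_lit 676) (nat_lit 5) (nat_lit 662) (nat_lit 5) (nat_lit 545) (nat_lit 510) (nat_lit 505))) (XT.nd (nat_lit 78) (nat_lit 1292) (nat_lit 0) (XT.lf (nat_lit 0) (nat_lit 1686561936) (nat_lit 1140) (nat_lit 2138926873) (nat_lit 1216) (nat_lit 2945523827) (nat_lit 646) (nat_lit 5) (nat_lit 661) (nat_lit 5) (nat_lit 662) (nat_lit 5) (nat_lit 546) (nat_lit 510) (nat_lit 504)) (XT.nd (nat_lit 78) (nat_lit 1216) (nat_lit 0) (XT.lf (nat_lit 0) (nat_lit 215339716) (nat_lit 1216) (nat_lit 597956313) (nat_lit 76) (nat_lit 5985362687) (nat_lit 645) (nat_lit 5) (nat_lit 661) (nat_lit 5) (nat_lit 646) (nat_lit 5) (nat_lit 547) (nat_lit 510) (nat_lit 503)) (XT.lf (nat_lit 0) (nat_lit 3361860265) (nat_lit 1292) (nat_lit 2877120191) (nat_lit 76) (nat_lit 588259408) (nat_lit 629) (nat_lit 5) (nat_lit 646) (nat_lit 5) (nat_lit 630) (nat_lit 5) (nat_lit 548) (nat_lit 510) (nat_lit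 502))))) (XT.nd (nat_lit 156) (nat_lit 2888) (nat_lit 0) (XT.nd (nat_lit 78) (nat_lit 76) (nat_lit 0) (XT.lf (nat_lit 0) (nat_lit 1700244161) (nat_lit 1292) (nat_lit 4824863507) (nat_lit 1368) (nat_lit 332218008) (nat_lit 612) (nat_lit 5) (nat_lit 629) (nat_lit 5) (nat_lit 630) (nat_lit 5) (nat_lit 549) (nat_lit 510) (nat_lit 501)) (XT.lf (nat_lit 0) (nat_lit 2779308790) (nat_lit 1368) (nat_lit 556293069) (nat_lit 76) (nat_lit 3552982943) (nat_lit 611) (nat_lit 5) (nat_lit 629) (nat_lit 5) (nat_lit 612) (nat_lit 5) (nat_lit 550) (nat_lit 510) (nat_lit 500))) (XT.nd (nat_lit 78) (nat_lit 1520) (nat_lit 0) (XT.lf (nat_lit 0) (nat_lit 4131534461) (nat_lit 1368) (nat_lit 1779033499) (nat_lit 1444) (nat_lit 1010626679) (nat_lit 593) (nat_lit 5) (nat_lit 611) (nat_lit 5) (nat_lit 612) (nat_lit 5) (nat_lit 551) (nat_lit 510) (nat_lit 499)) (XT.nd (nat_lit 78) (nat_lit 0) (nat_lit 0) (XT.lf (nat_lit 0) (nat_lit 1920023083) (nat_lit 1444) (nat_lit 153593075) (nat_lit 1520) (nat_lit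 4881533093) (nat_lit 573) (nat_lit 5) (nat_lit 592) (nat_lit 5) (nat_lit 593) (nat_lit 5) (nat_lit 552) (nat_lit 510) (nat_lit 498)) (XT.lf (nat_lit 0) (nat_lit 5171163953) (nat_lit 1520) (nat_lit 302671855) (nat_lit 76) (nat_lit 1516518460) (nat_lit 573) (nat_lit 5) (nat_lit 593) (nat_lit 5) (nat_lit 574) (nat_lit 5) (nat_lit 553) (nat_lit 510) (nat_lit 497)))))) (XT.nd (nat_lit 390) (nat_lit 3952) (nat_lit 0) (XT.nd (nat_lit 156) (nat_lit 3496) (nat_lit 0) (XT.nd (nat_lit 78) (nat_lit 1596) (nat_lit 0) (XT.lf (nat_lit 0) (nat_lit 1255246186) (nat_lit 1596) (nat_lit 2509647345) (nat_lit 76) (nat_lit 3261849043) (nat_lit 552) (nat_lit 5) (nat_lit 573) (nat_lit 5) (nat_lit 553) (nat_lit 5) (nat_lit 554) (nat_lit 510) (nat_lit 496)) (XT.lf (nat_lit 0) (nat_lit 2334396593) (nat_lit 1596) (nat_lit 1987849435) (nat_lit 1672) (nat_lit 2742270955) (nat_lit 531) (nat_lit 5) (nat_lit 552) (nat_lit 5) (nat_lit 553) (nat_lit 5) (nat_lit 555) (nat_lit 510) (nat_lit 495))) (XT.nd (nat_lit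 78) (nat_lit 1748) (nat_lit 0) (XT.lf (nat_lit 0) (nat_lit 148060266) (nat_lit 1672) (nat_lit 151472877) (nat_lit 1748) (nat_lit 6804344778) (nat_lit 508) (nat_lit 5) (nat_lit 530) (nat_lit 5) (nat_lit 531) (nat_lit 5) (nat_lit 556) (nat_lit 510) (nat_lit 494)) (XT.nd (nat_lit 78) (nat_lit 1748) (nat_lit 0) (XT.lf (nat_lit 0) (nat_lit 3348102870) (nat_lit 1748) (nat_lit 2044014682) (nat_lit 76) (nat_lit 1751900101) (nat_lit 508) (nat_lit 5) (nat_lit 531) (nat_lit 5) (nat_lit 509) (nat_lit 5) (nat_lit 557) (nat_lit 510) (nat_lit 493)) (XT.lf (nat_lit 0) (nat_lit 2945815846) (nat_lit 1748) (nat_lit 3472628494) (nat_lit 1824) (nat_lit 767306765) (nat_lit 485) (nat_lit 5) (nat_lit 508) (nat_lit 5) (nat_lit 509) (nat_lit 5) (nat_lit 558) (nat_lit 510) (nat_lit 492))))) (XT.nd (nat_lit 156) (nat_lit 2052) (nat_lit 0) (XT.nd (nat_lit 78) (nat_lit 0) (nat_lit 0) (XT.lf (nat_lit 0) (nat_lit 771812115) (nat_lit 1824) (nat_lit 1479494770) (nat_lit 1900) (nat_lit 4977519797) (nat_lit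 460) (nat_lit 5) (nat_lit 484) (nat_lit 5) (nat_lit 485) (nat_lit 5) (nat_lit 559) (nat_lit 510) (nat_lit 491)) (XT.lf (nat_lit 0) (nat_lit 5294111099) (nat_lit 1900) (nat_lit 1398828323) (nat_lit 76) (nat_lit 580247596) (nat_lit 460) (nat_lit 5) (nat_lit 485) (nat_lit 5) (nat_lit 461) (nat_lit 5) (nat_lit 560) (nat_lit 510) (nat_lit 490))) (XT.nd (nat_lit 78) (nat_lit 912) (nat_lit 0) (XT.lf (nat_lit 0) (nat_lit 1042104865) (nat_lit 1140) (nat_lit 3583835909) (nat_lit 76) (nat_lit 2692821435) (nat_lit 445) (nat_lit 5) (nat_lit 460) (nat_lit 5) (nat_lit 446) (nat_lit 5) (nat_lit 561) (nat_lit 510) (nat_lit 489)) (XT.nd (nat_lit 78) (nat_lit 0) (nat_lit 0) (XT.lf (nat_lit 0) (nat_lit 1574478887) (nat_lit 912) (nat_lit 2485781463) (nat_lit 988) (nat_lit 3305472059) (nat_lit 433) (nat_lit 5) (nat_lit 445) (nat_lit 5) (nat_lit 446) (nat_lit 5) (nat_lit 562) (nat_lit 510) (nat_lit 488)) (XT.lf (nat_lit 0) (nat_lit 6826664704) (nat_lit 912) (nat_lit 280253139) (nat_lit 988) (nat_lit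 307367430) (nat_lit 433) (nat_lit 5) (nat_lit 445) (nat_lit 5) (nat_lit 446) (nat_lit 5) (nat_lit 563) (nat_lit 510) (nat_lit 487))))))) (XT.nd (nat_lit 780) (nat_lit 5548) (nat_lit 0) (XT.nd (nat_lit 390) (nat_lit 3192) (nat_lit 0) (XT.nd (nat_lit 156) (nat_lit 1748) (nat_lit 0) (XT.nd (nat_lit 78) (nat_lit 836) (nat_lit 0) (XT.lf (nat_lit 0) (nat_lit 2703090114) (nat_lit 988) (nat_lit 2770570165) (nat_lit 76) (nat_lit 1990028194) (nat_lit 420) (nat_lit 5) (nat_lit 433) (nat_lit 5) (nat_lit 421) (nat_lit 5) (nat_lit 564) (nat_lit 510) (nat_lit 486)) (XT.lf (nat_lit 0) (nat_lit 2544713818) (nat_lit 836) (nat_lit 3192789615) (nat_lit 912) (nat_lit 1777184113) (nat_lit 409) (nat_lit 5) (nat_lit 420) (nat_lit 5) (nat_lit 421) (nat_lit 5) (nat_lit 565) (nat_lit 510) (nat_lit 485))) (XT.nd (nat_lit 78) (nat_lit 836) (nat_lit 0) (XT.lf (nat_lit 0) (nat_lit 375586437) (nat_lit 836) (nat_lit 840705667) (nat_lit 912) (nat_lit 6350915660) (nat_lit 397) (nat_lit 5) (nat_lit 408) (nat_lit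 5) (nat_lit 409) (nat_lit 5) (nat_lit 566) (nat_lit 510) (nat_lit 484)) (XT.nd (nat_lit 78) (nat_lit 836) (nat_lit 0) (XT.lf (nat_lit 0) (nat_lit 4236050575) (nat_lit 912) (nat_lit 1805974175) (nat_lit 76) (nat_lit 1578719868) (nat_lit 397) (nat_lit 5) (nat_lit 409) (nat_lit 5) (nat_lit 398) (nat_lit 5) (nat_lit 567) (nat_lit 510) (nat_lit 483)) (XT.lf (nat_lit 0) (nat_lit 3671955787) (nat_lit 836) (nat_lit 3621202548) (nat_lit 912) (nat_lit 382660046) (nat_lit 386) (nat_lit 5) (nat_lit 397) (nat_lit 5) (nat_lit 398) (nat_lit 5) (nat_lit 568) (nat_lit 510) (nat_lit 482))))) (XT.nd (nat_lit 156) (nat_lit 2280) (nat_lit 0) (XT.nd (nat_lit 78) (nat_lit 0) (nat_lit 0) (XT.lf (nat_lit 0) (nat_lit 1495979547) (nat_lit 836) (nat_lit 1118058177) (nat_lit 912) (nat_lit 5118217733) (nat_lit 374) (nat_lit 5) (nat_lit 385) (nat_lit 5) (nat_lit 386) (nat_lit 5) (nat_lit 569) (nat_lit 510) (nat_lit 481)) (XT.lf (nat_lit 0) (nat_lit 5650370585) (nat_lit 912) (nat_lit 700168584) (nat_lit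 76) (nat_lit 1439539972) (nat_lit 374) (nat_lit 5) (nat_lit 386) (nat_lit 5) (nat_lit 375) (nat_lit 5) (nat_lit 570) (nat_lit 510) (nat_lit 480))) (XT.nd (nat_lit 78) (nat_lit 1444) (nat_lit 0) (XT.lf (nat_lit 0) (nat_lit 875496968) (nat_lit 836) (nat_lit 2908706386) (nat_lit 76) (nat_lit 4064965878) (nat_lit 363) (nat_lit 5) (nat_lit 374) (nat_lit 5) (nat_lit 364) (nat_lit 5) (nat_lit 571) (nat_lit 510) (nat_lit 479)) (XT.nd (nat_lit 78) (nat_lit 684) (nat_lit 0) (XT.lf (nat_lit 0) (nat_lit 2757937177) (nat_lit 760) (nat_lit 1136831247) (nat_lit 836) (nat_lit 4014946249) (nat_lit 353) (nat_lit 5) (nat_lit 363) (nat_lit 5) (nat_lit 364) (nat_lit 5) (nat_lit 572) (nat_lit 510) (nat_lit 478)) (XT.lf (nat_lit 0) (nat_lit 544475765) (nat_lit 684) (nat_lit 6413592148) (nat_lit 760) (nat_lit 1013734830) (nat_lit 344) (nat_lit 5) (nat_lit 353) (nat_lit 5) (nat_lit 354) (nat_lit 5) (nat_lit 573) (nat_lit 510) (nat_lit 477)))))) (XT.nd (nat_lit 390) (nat_lit 3268) (nat_lit 0) (XT.nd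 (nat_lit 156) (nat_lit 1444) (nat_lit 0) (XT.nd (nat_lit 78) (nat_lit 760) (nat_lit 0) (XT.lf (nat_lit 0) (nat_lit 2013550858) (nat_lit 760) (nat_lit 1689926048) (nat_lit 76) (nat_lit 4331536124) (nat_lit 343) (nat_lit 5) (nat_lit 353) (nat_lit 5) (nat_lit 344) (nat_lit 5) (nat_lit 574) (nat_lit 510) (nat_lit 476)) (XT.lf (nat_lit 0) (nat_lit 4152200277) (nat_lit 760) (nat_lit 914123338) (nat_lit 836) (nat_lit 3033463898) (nat_lit 333) (nat_lit 5) (nat_lit 343) (nat_lit 5) (nat_lit 344) (nat_lit 5) (nat_lit 575) (nat_lit 510) (nat_lit 475))) (XT.nd (nat_lit 78) (nat_lit 684) (nat_lit 0) (XT.lf (nat_lit 0) (nat_lit 2522763) (nat_lit 760) (nat_lit 6243343722) (nat_lit 76) (nat_lit 1920224971) (nat_lit 323) (nat_lit 5) (nat_lit 333) (nat_lit 5) (nat_lit 324) (nat_lit 5) (nat_lit 576) (nat_lit 510) (nat_lit 474)) (XT.nd (nat_lit 78) (nat_lit 684) (nat_lit 0) (XT.lf (nat_lit 0) (nat_lit 3043674436) (nat_lit 760) (nat_lit 354050542) (nat_lit 76) (nat_lit 4835898270) (nat_lit 323)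 (nat_lit 5) (nat_lit 333) (nat_lit 5) (nat_lit 324) (nat_lit 5) (nat_lit 577) (nat_lit 510) (nat_lit 473)) (XT.lf (nat_lit 0) (nat_lit 5669998940) (nat_lit 684) (nat_lit 465704549) (nat_lit 760) (nat_lit 2167005083) (nat_lit 314) (nat_lit 5) (nat_lit 323) (nat_lit 5) (nat_lit 324) (nat_lit 5) (nat_lit 578) (nat_lit 510) (nat_lit 472))))) (XT.nd (nat_lit 234) (nat_lit 1900) (nat_lit 0) (XT.nd (nat_lit 78) (nat_lit 684) (nat_lit 0) (XT.lf (nat_lit 0) (nat_lit 899026203) (nat_lit 684) (nat_lit 4962471304) (nat_lit 76) (nat_lit 2511669978) (nat_lit 305) (nat_lit 5) (nat_lit 314) (nat_lit 5) (nat_lit 306) (nat_lit 5) (nat_lit 579) (nat_lit 510) (nat_lit 471)) (XT.nd (nat_lit 78) (nat_lit 0) (nat_lit 0) (XT.lf (nat_lit 0) (nat_lit 1104804387) (nat_lit 684) (nat_lit 2874570735) (nat_lit 760) (nat_lit 4465737465) (nat_lit 296) (nat_lit 5) (nat_lit 305) (nat_lit 5) (nat_lit 306) (nat_lit 5) (nat_lit 580) (nat_lit 510) (nat_lit 470)) (XT.lf (nat_lit 0) (nat_lit 7110363699) (nat_lit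 760) (nat_lit 1217036090) (nat_lit 76) (nat_lit 191319827) (nat_lit 296) (nat_lit 5) (nat_lit 306) (nat_lit 5) (nat_lit 297) (nat_lit 5) (nat_lit 581) (nat_lit 510) (nat_lit 469)))) (XT.nd (nat_lit 78) (nat_lit 1216) (nat_lit 0) (XT.lf (nat_lit 0) (nat_lit 1694691933) (nat_lit 684) (nat_lit 3586748750) (nat_lit 76) (nat_lit 3312000610) (nat_lit 287) (nat_lit 5) (nat_lit 296) (nat_lit 5) (nat_lit 288) (nat_lit 5) (nat_lit 582) (nat_lit 510) (nat_lit 468)) (XT.nd (nat_lit 78) (nat_lit 608) (nat_lit 0) (XT.lf (nat_lit 0) (nat_lit 2669904532) (nat_lit 608) (nat_lit 2152110166) (nat_lit 684) (nat_lit 3847838552) (nat_lit 279) (nat_lit 5) (nat_lit 287) (nat_lit 5) (nat_lit 288) (nat_lit 5) (nat_lit 583) (nat_lit 510) (nat_lit 467)) (XT.lf (nat_lit 0) (nat_lit 291867546) (nat_lit 608) (nat_lit 7708804087) (nat_lit 684) (nat_lit 747349458) (nat_lit 271) (nat_lit 5) (nat_lit 279) (nat_lit 5) (nat_lit 280) (nat_lit 5) (nat_lit 584) (nat_lit 510) (nat_lit 466))))))))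
noncomputable def xc47 : XT := (XT.nd (nat_lit 1560) (nat_lit 5168) (nat_lit 0) (XT.nd (nat_lit 780) (nat_lit 3268) (nat_lit 0) (XT.nd (nat_lit 390) (nat_lit 2204) (nat_lit 0) (XT.nd (nat_lit 156) (nat_lit 1140) (nat_lit 0) (XT.nd (nat_lit 78) (nat_lit 608) (nat_lit 0) (XT.lf (nat_lit 0) (nat_lit 2394367400) (nat_lit 684) (nat_lit 2124548394) (nat_lit 76) (nat_lit 4308308284) (nat_lit 270) (nat_lit 5) (nat_lit 279) (nat_lit 5) (nat_lit 271) (nat_lit 5) (nat_lit 585) (nat_lit 510) (nat_lit 465)) (XT.lf (nat_lit 0) (nat_lit 4328396832) (nat_lit 608) (nat_lit 1245598757) (nat_lit 684) (nat_lit 3334218259) (nat_lit 262) (nat_lit 5) (nat_lit 270) (nat_lit 5) (nat_lit 271) (nat_lit 5) (nat_lit 586) (nat_lit 510) (nat_lit 464))) (XT.nd (nat_lit 78) (nat_lit 608) (nat_lit 0) (XT.lf (nat_lit 0) (nat_lit 1902430670) (nat_lit 532) (nat_lit 6912434189) (nat_lit 608) (nat_lit 176008726) (nat_lit 255) (nat_lit 5) (nat_lit 262) (nat_lit 5) (nat_lit 263) (nat_lit 5) (nat_lit 587) (nat_lit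 510) (nat_lit 463)) (XT.nd (nat_lit 78) (nat_lit 532) (nat_lit 0) (XT.lf (nat_lit 0) (nat_lit 3002148027) (nat_lit 608) (nat_lit 584078814) (nat_lit 76) (nat_lit 5488632771) (nat_lit 254) (nat_lit 5) (nat_lit 262) (nat_lit 5) (nat_lit 255) (nat_lit 5) (nat_lit 588) (nat_lit 510) (nat_lit 462)) (XT.lf (nat_lit 0) (nat_lit 6072291400) (nat_lit 532) (nat_lit 167017920) (nat_lit 608) (nat_lit 2921239767) (nat_lit 247) (nat_lit 5) (nat_lit 254) (nat_lit 5) (nat_lit 255) (nat_lit 5) (nat_lit 589) (nat_lit 510) (nat_lit 461))))) (XT.nd (nat_lit 156) (nat_lit 1064) (nat_lit 0) (XT.nd (nat_lit 78) (nat_lit 532) (nat_lit 0) (XT.lf (nat_lit 0) (nat_lit 297003294) (nat_lit 608) (nat_lit 5659333989) (nat_lit 76) (nat_lit 3291428073) (nat_lit 239) (nat_lit 5) (nat_lit 247) (nat_lit 5) (nat_lit 240) (nat_lit 5) (nat_lit 590) (nat_lit 510) (nat_lit 460)) (XT.lf (nat_lit 0) (nat_lit 1040171268) (nat_lit 532) (nat_lit 2487975451) (nat_lit 608) (nat_lit 5808442813) (nat_lit 232) (nat_lit 5)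 (nat_lit 239) (nat_lit 5) (nat_lit 240) (nat_lit 5) (nat_lit 591) (nat_lit 510) (nat_lit 459))) (XT.nd (nat_lit 78) (nat_lit 1064) (nat_lit 0) (XT.lf (nat_lit 0) (nat_lit 6828184670) (nat_lit 608) (nat_lit 1540540197) (nat_lit 76) (nat_lit 1058382628) (nat_lit 232) (nat_lit 5) (nat_lit 240) (nat_lit 5) (nat_lit 233) (nat_lit 5) (nat_lit 592) (nat_lit 510) (nat_lit 458)) (XT.nd (nat_lit 78) (nat_lit 532) (nat_lit 0) (XT.lf (nat_lit 0) (nat_lit 677234354) (nat_lit 532) (nat_lit 4175849895) (nat_lit 76) (nat_lit 4666040634) (nat_lit 225) (nat_lit 5) (nat_lit 232) (nat_lit 5) (nat_lit 226) (nat_lit 5) (nat_lit 593) (nat_lit 510) (nat_lit 457)) (XT.lf (nat_lit 0) (nat_lit 2735005101) (nat_lit 532) (nat_lit 1237489249) (nat_lit 608) (nat_lit 5640379684) (nat_lit 218) (nat_lit 5) (nat_lit 225) (nat_lit 5) (nat_lit 226) (nat_lit 5) (nat_lit 594) (nat_lit 510) (nat_lit 456)))))) (XT.nd (nat_lit 390) (nat_lit 1748) (nat_lit 0) (XT.nd (nat_lit 156) (nat_lit 988) (nat_lit 0) (XT.nd (nat_lit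 78) (nat_lit 76) (nat_lit 0) (XT.lf (nat_lit 0) (nat_lit 60675763) (nat_lit 456) (nat_lit 7277986385) (nat_lit 532) (nat_lit 2369738494) (nat_lit 212) (nat_lit 5) (nat_lit 218) (nat_lit 5) (nat_lit 219) (nat_lit 5) (nat_lit 595) (nat_lit 510) (nat_lit 455)) (XT.lf (nat_lit 0) (nat_lit 968935519) (nat_lit 532) (nat_lit 2645387890) (nat_lit 76) (nat_lit 6191085453) (nat_lit 211) (nat_lit 5) (nat_lit 218) (nat_lit 5) (nat_lit 212) (nat_lit 5) (nat_lit 596) (nat_lit 510) (nat_lit 454))) (XT.nd (nat_lit 78) (nat_lit 532) (nat_lit 0) (XT.lf (nat_lit 0) (nat_lit 4334188176) (nat_lit 532) (nat_lit 5420906432) (nat_lit 76) (nat_lit 149121019) (nat_lit 205) (nat_lit 5) (nat_lit 212) (nat_lit 5) (nat_lit 206) (nat_lit 5) (nat_lit 597) (nat_lit 510) (nat_lit 453)) (XT.nd (nat_lit 78) (nat_lit 76) (nat_lit 0) (XT.lf (nat_lit 0) (nat_lit 1728317422) (nat_lit 456) (nat_lit 6053150162) (nat_lit 532) (nat_lit 2223238843) (nat_lit 199) (nat_lit 5) (nat_lit 205) (nat_lit 5) (nat_lit 206) (nat_lit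 5) (nat_lit 598) (nat_lit 510) (nat_lit 452)) (XT.lf (nat_lit 0) (nat_lit 1173320973) (nat_lit 532) (nat_lit 1076674685) (nat_lit 76) (nat_lit 7857090062) (nat_lit 198) (nat_lit 5) (nat_lit 205) (nat_lit 5) (nat_lit 199) (nat_lit 5) (nat_lit 599) (nat_lit 510) (nat_lit 451))))) (XT.nd (nat_lit 156) (nat_lit 912) (nat_lit 0) (XT.nd (nat_lit 78) (nat_lit 380) (nat_lit 0) (XT.lf (nat_lit 0) (nat_lit 4622251334) (nat_lit 532) (nat_lit 3942445918) (nat_lit 76) (nat_lit 1646239463) (nat_lit 192) (nat_lit 5) (nat_lit 199) (nat_lit 5) (nat_lit 193) (nat_lit 5) (nat_lit 600) (nat_lit 510) (nat_lit 450)) (XT.lf (nat_lit 0) (nat_lit 3433116370) (nat_lit 380) (nat_lit 4714349853) (nat_lit 456) (nat_lit 2169254544) (nat_lit 187) (nat_lit 5) (nat_lit 192) (nat_lit 5) (nat_lit 193) (nat_lit 5) (nat_lit 601) (nat_lit 510) (nat_lit 449))) (XT.nd (nat_lit 78) (nat_lit 380) (nat_lit 0) (XT.lf (nat_lit 0) (nat_lit 528205901) (nat_lit 456) (nat_lit 766094245) (nat_lit 532) (nat_lit 9130290637)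 (nat_lit 180) (nat_lit 5) (nat_lit 186) (nat_lit 5) (nat_lit 187) (nat_lit 5) (nat_lit 602) (nat_lit 510) (nat_lit 448)) (XT.nd (nat_lit 78) (nat_lit 380) (nat_lit 0) (XT.lf (nat_lit 0) (nat_lit 4828994484) (nat_lit 532) (nat_lit 2443752862) (nat_lit 76) (nat_lit 3260967812) (nat_lit 180) (nat_lit 5) (nat_lit 187) (nat_lit 5) (nat_lit 181) (nat_lit 5) (nat_lit 603) (nat_lit 510) (nat_lit 447)) (XT.lf (nat_lit 0) (nat_lit 5165929283) (nat_lit 380) (nat_lit 3271004597) (nat_lit 456) (nat_lit 2208039108) (nat_lit 175) (nat_lit 5) (nat_lit 180) (nat_lit 5) (nat_lit 181) (nat_lit 5) (nat_lit 604) (nat_lit 510) (nat_lit 446))))))) (XT.nd (nat_lit 780) (nat_lit 2280) (nat_lit 0) (XT.nd (nat_lit 390) (nat_lit 1216) (nat_lit 0) (XT.nd (nat_lit 156) (nat_lit 1216) (nat_lit 0) (XT.nd (nat_lit 78) (nat_lit 0) (nat_lit 0) (XT.lf (nat_lit 0) (nat_lit 1340794110) (nat_lit 456) (nat_lit 8596291872) (nat_lit 76) (nat_lit 821194772) (nat_lit 169) (nat_lit 5) (nat_lit 175) (nat_lit 5) (nat_lit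 170) (nat_lit 5) (nat_lit 605) (nat_lit 510) (nat_lit 445)) (XT.lf (nat_lit 0) (nat_lit 4954021132) (nat_lit 456) (nat_lit 934567797) (nat_lit 76) (nat_lit 4984516064) (nat_lit 169) (nat_lit 5) (nat_lit 175) (nat_lit 5) (nat_lit 170) (nat_lit 5) (nat_lit 606) (nat_lit 510) (nat_lit 444))) (XT.nd (nat_lit 78) (nat_lit 836) (nat_lit 0) (XT.lf (nat_lit 0) (nat_lit 6917157660) (nat_lit 380) (nat_lit 1732248265) (nat_lit 456) (nat_lit 2340623768) (nat_lit 164) (nat_lit 5) (nat_lit 169) (nat_lit 5) (nat_lit 170) (nat_lit 5) (nat_lit 607) (nat_lit 510) (nat_lit 443)) (XT.nd (nat_lit 78) (nat_lit 380) (nat_lit 0) (XT.lf (nat_lit 0) (nat_lit 1304833109) (nat_lit 456) (nat_lit 7308746592) (nat_lit 76) (nat_lit 2495292909) (nat_lit 158) (nat_lit 5) (nat_lit 164) (nat_lit 5) (nat_lit 159) (nat_lit 5) (nat_lit 608) (nat_lit 510) (nat_lit 442)) (XT.lf (nat_lit 0) (nat_lit 582455529) (nat_lit 380) (nat_lit 4417498806) (nat_lit 456) (nat_lit 6229668431) (nat_lit 153) (nat_lit 5) (nat_lit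 158) (nat_lit 5) (nat_lit 159) (nat_lit 5) (nat_lit 609) (nat_lit 510) (nat_lit 441))))) (XT.nd (nat_lit 156) (nat_lit 760) (nat_lit 0) (XT.nd (nat_lit 78) (nat_lit 456) (nat_lit 0) (XT.lf (nat_lit 0) (nat_lit 8676633825) (nat_lit 380) (nat_lit 107021202) (nat_lit 456) (nat_lit 2568841055) (nat_lit 153) (nat_lit 5) (nat_lit 158) (nat_lit 5) (nat_lit 159) (nat_lit 5) (nat_lit 610) (nat_lit 510) (nat_lit 440)) (XT.lf (nat_lit 0) (nat_lit 1179498939) (nat_lit 456) (nat_lit 6039984573) (nat_lit 76) (nat_lit 4257602124) (nat_lit 147) (nat_lit 5) (nat_lit 153) (nat_lit 5) (nat_lit 148) (nat_lit 5) (nat_lit 611) (nat_lit 510) (nat_lit 439))) (XT.nd (nat_lit 78) (nat_lit 456) (nat_lit 0) (XT.lf (nat_lit 0) (nat_lit 2100990754) (nat_lit 304) (nat_lit 2866151568) (nat_lit 380) (nat_lit 6636711993) (nat_lit 143) (nat_lit 5) (nat_lit 147) (nat_lit 5) (nat_lit 148) (nat_lit 5) (nat_lit 612) (nat_lit 510) (nat_lit 438)) (XT.nd (nat_lit 78) (nat_lit 456) (nat_lit 0) (XT.lf (nat_lit 0) (nat_lit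 8848023463) (nat_lit 380) (nat_lit 1309879549) (nat_lit 76) (nat_lit 1574907227) (nat_lit 143) (nat_lit 5) (nat_lit 148) (nat_lit 5) (nat_lit 144) (nat_lit 5) (nat_lit 613) (nat_lit 510) (nat_lit 437)) (XT.lf (nat_lit 0) (nat_lit 962023481) (nat_lit 456) (nat_lit 4802003067) (nat_lit 76) (nat_lit 6099553831) (nat_lit 137) (nat_lit 5) (nat_lit 143) (nat_lit 5) (nat_lit 138) (nat_lit 5) (nat_lit 614) (nat_lit 510) (nat_lit 436)))))) (XT.nd (nat_lit 390) (nat_lit 988) (nat_lit 0) (XT.nd (nat_lit 156) (nat_lit 684) (nat_lit 0) (XT.nd (nat_lit 78) (nat_lit 304) (nat_lit 0) (XT.lf (nat_lit 0) (nat_lit 3596698123) (nat_lit 304) (nat_lit 1249890375) (nat_lit 380) (nat_lit 7150008618) (nat_lit 133) (nat_lit 5) (nat_lit 137) (nat_lit 5) (nat_lit 138) (nat_lit 5) (nat_lit 615) (nat_lit 510) (nat_lit 435)) (XT.lf (nat_lit 0) (nat_lit 22219818) (nat_lit 304) (nat_lit 8808369409) (nat_lit 380) (nat_lit 3301251523) (nat_lit 129) (nat_lit 5) (nat_lit 133) (nat_lit 5) (nat_lit 134) (nat_lit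 5) (nat_lit 616) (nat_lit 510) (nat_lit 434))) (XT.nd (nat_lit 78) (nat_lit 608) (nat_lit 0) (XT.lf (nat_lit 0) (nat_lit 648774765) (nat_lit 380) (nat_lit 3607723362) (nat_lit 76) (nat_lit 8012561748) (nat_lit 128) (nat_lit 5) (nat_lit 133) (nat_lit 5) (nat_lit 129) (nat_lit 5) (nat_lit 617) (nat_lit 510) (nat_lit 433)) (XT.nd (nat_lit 78) (nat_lit 304) (nat_lit 0) (XT.lf (nat_lit 0) (nat_lit 4637315117) (nat_lit 380) (nat_lit 7354601198) (nat_lit 76) (nat_lit 416597665) (nat_lit 124) (nat_lit 5) (nat_lit 129) (nat_lit 5) (nat_lit 125) (nat_lit 5) (nat_lit 618) (nat_lit 510) (nat_lit 432)) (XT.lf (nat_lit 0) (nat_lit 1324309304) (nat_lit 304) (nat_lit 7410738077) (nat_lit 380) (nat_lit 3815122702) (nat_lit 120) (nat_lit 5) (nat_lit 124) (nat_lit 5) (nat_lit 125) (nat_lit 5) (nat_lit 619) (nat_lit 510) (nat_lit 431))))) (XT.nd (nat_lit 234) (nat_lit 304) (nat_lit 0) (XT.nd (nat_lit 78) (nat_lit 608) (nat_lit 0) (XT.lf (nat_lit 0) (nat_lit 235209290) (nat_lit 380) (nat_lit 2471138012)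 (nat_lit 76) (nat_lit 9987924306) (nat_lit 119) (nat_lit 5) (nat_lit 124) (nat_lit 5) (nat_lit 120) (nat_lit 5) (nat_lit 620) (nat_lit 510) (nat_lit 430)) (XT.nd (nat_lit 78) (nat_lit 304) (nat_lit 0) (XT.lf (nat_lit 0) (nat_lit 4340359027) (nat_lit 380) (nat_lit 6387378269) (nat_lit 76) (nat_lit 2112516858) (nat_lit 115) (nat_lit 5) (nat_lit 120) (nat_lit 5) (nat_lit 116) (nat_lit 5) (nat_lit 621) (nat_lit 510) (nat_lit 429)) (XT.lf (nat_lit 0) (nat_lit 2564313648) (nat_lit 304) (nat_lit 5983672063) (nat_lit 380) (nat_lit 4440764399) (nat_lit 111) (nat_lit 5) (nat_lit 115) (nat_lit 5) (nat_lit 116) (nat_lit 5) (nat_lit 622) (nat_lit 510) (nat_lit 428)))) (XT.nd (nat_lit 78) (nat_lit 304) (nat_lit 0) (XT.lf (nat_lit 0) (nat_lit 11730632252) (nat_lit 304) (nat_lit 1121379428) (nat_lit 380) (nat_lit 287960584) (nat_lit 111) (nat_lit 5) (nat_lit 115) (nat_lit 5) (nat_lit 116) (nat_lit 5) (nat_lit 623) (nat_lit 510) (nat_lit 427)) (XT.nd (nat_lit 74490) (nat_lit 0) (nat_lit 46132)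 (XT.lf (nat_lit 0) (nat_lit 3941924781) (nat_lit 304) (nat_lit 5506096149) (nat_lit 76) (nat_lit 3844770393) (nat_lit 107) (nat_lit 5) (nat_lit 111) (nat_lit 5) (nat_lit 108) (nat_lit 5) (nat_lit 624) (nat_lit 510) (nat_lit 426)) (XT.lf (nat_lit 0) (nat_lit 150909114) (nat_lit 836) (nat_lit 2996717501) (nat_lit 0) (nat_lit 150909114) (nat_lit 714) (nat_lit 5) (nat_lit 725) (nat_lit 4) (nat_lit 714) (nat_lit 4) (nat_lit 538) (nat_lit 511) (nat_lit 511))))))))
noncomputable def xc48 : XT := (XT.nd (nat_lit 1560) (nat_lit 13604) (nat_lit 0) (XT.nd (nat_lit 780) (nat_lit 11020) (nat_lit 0) (XT.nd (nat_lit 390) (nat_lit 3572) (nat_lit 0) (XT.nd (nat_lit 156) (nat_lit 1976) (nat_lit 0) (XT.nd (nat_lit 78) (nat_lit 912) (nat_lit 0) (XT.lf (nat_lit 0) (nat_lit 3558867147) (nat_lit 836) (nat_lit 1868876142) (nat_lit 0) (nat_lit 1186989935) (nat_lit 714) (nat_lit 5) (nat_lit 725) (nat_lit 4) (nat_lit 714) (nat_lit 4) (nat_lit 539) (nat_lit 511) (nat_lit 510)) (XT.lf (nat_lit 0) (nat_lit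 185791985) (nat_lit 912) (nat_lit 4321947218) (nat_lit 76) (nat_lit 2126173134) (nat_lit 702) (nat_lit 5) (nat_lit 714) (nat_lit 5) (nat_lit 703) (nat_lit 4) (nat_lit 540) (nat_lit 511) (nat_lit 509))) (XT.nd (nat_lit 78) (nat_lit 1976) (nat_lit 0) (XT.lf (nat_lit 0) (nat_lit 3390748376) (nat_lit 912) (nat_lit 127709637) (nat_lit 76) (nat_lit 3135836303) (nat_lit 702) (nat_lit 5) (nat_lit 714) (nat_lit 5) (nat_lit 703) (nat_lit 4) (nat_lit 541) (nat_lit 511) (nat_lit 508)) (XT.nd (nat_lit 78) (nat_lit 1064) (nat_lit 0) (XT.lf (nat_lit 0) (nat_lit 4150016234) (nat_lit 912) (nat_lit 2464889936) (nat_lit 988) (nat_lit 61086439) (nat_lit 690) (nat_lit 5) (nat_lit 702) (nat_lit 5) (nat_lit 703) (nat_lit 4) (nat_lit 542) (nat_lit 511) (nat_lit 507)) (XT.lf (nat_lit 0) (nat_lit 1763813988) (nat_lit 988) (nat_lit 1340616611) (nat_lit 1064) (nat_lit 3594467377) (nat_lit 676) (nat_lit 5) (nat_lit 689) (nat_lit 5) (nat_lit 690) (nat_lit 5) (nat_lit 543) (nat_lit 511) (nat_lit 506)))))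 (XT.nd (nat_lit 156) (nat_lit 2432) (nat_lit 0) (XT.nd (nat_lit 78) (nat_lit 1140) (nat_lit 0) (XT.lf (nat_lit 0) (nat_lit 6118173747) (nat_lit 988) (nat_lit 160988449) (nat_lit 1064) (nat_lit 444166838) (nat_lit 676) (nat_lit 5) (nat_lit 689) (nat_lit 5) (nat_lit 690) (nat_lit 5) (nat_lit 544) (nat_lit 511) (nat_lit 505)) (XT.lf (nat_lit 0) (nat_lit 2695244286) (nat_lit 1140) (nat_lit 2967768294) (nat_lit 76) (nat_lit 1085637811) (nat_lit 661) (nat_lit 5) (nat_lit 676) (nat_lit 5) (nat_lit 662) (nat_lit 5) (nat_lit 545) (nat_lit 511) (nat_lit 504))) (XT.nd (nat_lit 78) (nat_lit 1292) (nat_lit 0) (XT.lf (nat_lit 0) (nat_lit 1447382504) (nat_lit 1140) (nat_lit 4390449635) (nat_lit 1216) (nat_lit 937670120) (nat_lit 646) (nat_lit 5) (nat_lit 661) (nat_lit 5) (nat_lit 662) (nat_lit 5) (nat_lit 546) (nat_lit 511) (nat_lit 503)) (XT.nd (nat_lit 78) (nat_lit 1216) (nat_lit 0) (XT.lf (nat_lit 0) (nat_lit 2163345643) (nat_lit 1216) (nat_lit 882657864) (nat_lit 76) (nat_lit 3757558924)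 (nat_lit 645) (nat_lit 5) (nat_lit 661) (nat_lit 5) (nat_lit 646) (nat_lit 5) (nat_lit 547) (nat_lit 511) (nat_lit 502)) (XT.lf (nat_lit 0) (nat_lit 3637770128) (nat_lit 1216) (nat_lit 1633315053) (nat_lit 1292) (nat_lit 1561838458) (nat_lit 629) (nat_lit 5) (nat_lit 645) (nat_lit 5) (nat_lit 646) (nat_lit 5) (nat_lit 548) (nat_lit 511) (nat_lit 501)))))) (XT.nd (nat_lit 390) (nat_lit 6764) (nat_lit 0) (XT.nd (nat_lit 156) (nat_lit 2888) (nat_lit 0) (XT.nd (nat_lit 78) (nat_lit 0) (nat_lit 0) (XT.lf (nat_lit 0) (nat_lit 1349265596) (nat_lit 1292) (nat_lit 156997462) (nat_lit 1368) (nat_lit 5357435656) (nat_lit 611) (nat_lit 5) (nat_lit 628) (nat_lit 5) (nat_lit 629) (nat_lit 5) (nat_lit 549) (nat_lit 511) (nat_lit 500)) (XT.lf (nat_lit 0) (nat_lit 4580295316) (nat_lit 1368) (nat_lit 942981520) (nat_lit 76) (nat_lit 1372304799) (nat_lit 611) (nat_lit 5) (nat_lit 629) (nat_lit 5) (nat_lit 612) (nat_lit 5) (nat_lit 550) (nat_lit 511) (nat_lit 499))) (XT.nd (nat_lit 78) (nat_lit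 1444) (nat_lit 0) (XT.lf (nat_lit 0) (nat_lit 738644202) (nat_lit 1444) (nat_lit 3222045915) (nat_lit 76) (nat_lit 2968092551) (nat_lit 592) (nat_lit 5) (nat_lit 611) (nat_lit 5) (nat_lit 593) (nat_lit 5) (nat_lit 551) (nat_lit 511) (nat_lit 498)) (XT.nd (nat_lit 78) (nat_lit 0) (nat_lit 0) (XT.lf (nat_lit 0) (nat_lit 1446988000) (nat_lit 1444) (nat_lit 2328314395) (nat_lit 1520) (nat_lit 3187994197) (nat_lit 573) (nat_lit 5) (nat_lit 592) (nat_lit 5) (nat_lit 593) (nat_lit 5) (nat_lit 552) (nat_lit 511) (nat_lit 497)) (XT.lf (nat_lit 0) (nat_lit 6197123666) (nat_lit 1444) (nat_lit 634923662) (nat_lit 1520) (nat_lit 167274204) (nat_lit 573) (nat_lit 5) (nat_lit 592) (nat_lit 5) (nat_lit 593) (nat_lit 5) (nat_lit 553) (nat_lit 511) (nat_lit 496))))) (XT.nd (nat_lit 156) (nat_lit 3572) (nat_lit 0) (XT.nd (nat_lit 78) (nat_lit 1596) (nat_lit 0) (XT.lf (nat_lit 0) (nat_lit 2847477452) (nat_lit 1596) (nat_lit 3059990762) (nat_lit 76) (nat_lit 1128791226) (nat_lit 552) (nat_lit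 5) (nat_lit 573) (nat_lit 5) (nat_lit 553) (nat_lit 5) (nat_lit 554) (nat_lit 511) (nat_lit 495)) (XT.lf (nat_lit 0) (nat_lit 1748362575) (nat_lit 1596) (nat_lit 4132320382) (nat_lit 1672) (nat_lit 1194030422) (nat_lit 531) (nat_lit 5) (nat_lit 552) (nat_lit 5) (nat_lit 553) (nat_lit 5) (nat_lit 555) (nat_lit 511) (nat_lit 494))) (XT.nd (nat_lit 78) (nat_lit 3496) (nat_lit 0) (XT.lf (nat_lit 0) (nat_lit 1796725470) (nat_lit 1672) (nat_lit 488383886) (nat_lit 76) (nat_lit 4829382274) (nat_lit 530) (nat_lit 5) (nat_lit 552) (nat_lit 5) (nat_lit 531) (nat_lit 5) (nat_lit 556) (nat_lit 511) (nat_lit 493)) (XT.nd (nat_lit 78) (nat_lit 1824) (nat_lit 0) (XT.lf (nat_lit 0) (nat_lit 4440790583) (nat_lit 1672) (nat_lit 360386389) (nat_lit 1748) (nat_lit 2354340187) (nat_lit 508) (nat_lit 5) (nat_lit 530) (nat_lit 5) (nat_lit 531) (nat_lit 5) (nat_lit 557) (nat_lit 511) (nat_lit 492)) (XT.lf (nat_lit 0) (nat_lit 629468213) (nat_lit 1824) (nat_lit 4961993459) (nat_lit 76) (nat_lit 1606423810)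 (nat_lit 484) (nat_lit 5) (nat_lit 508) (nat_lit 5) (nat_lit 485) (nat_lit 5) (nat_lit 558) (nat_lit 511) (nat_lit 491))))))) (XT.nd (nat_lit 780) (nat_lit 6080) (nat_lit 0) (XT.nd (nat_lit 390) (nat_lit 3572) (nat_lit 0) (XT.nd (nat_lit 156) (nat_lit 2128) (nat_lit 0) (XT.nd (nat_lit 78) (nat_lit 0) (nat_lit 0) (XT.lf (nat_lit 0) (nat_lit 6463347) (nat_lit 1824) (nat_lit 3597983249) (nat_lit 1900) (nat_lit 3637089500) (nat_lit 460) (nat_lit 5) (nat_lit 484) (nat_lit 5) (nat_lit 485) (nat_lit 5) (nat_lit 559) (nat_lit 511) (nat_lit 490)) (XT.lf (nat_lit 0) (nat_lit 5084818670) (nat_lit 1824) (nat_lit 1530390462) (nat_lit 1900) (nat_lit 671331304) (nat_lit 460) (nat_lit 5) (nat_lit 484) (nat_lit 5) (nat_lit 485) (nat_lit 5) (nat_lit 560) (nat_lit 511) (nat_lit 489))) (XT.nd (nat_lit 78) (nat_lit 988) (nat_lit 0) (XT.lf (nat_lit 0) (nat_lit 2289402382) (nat_lit 1140) (nat_lit 4438218690) (nat_lit 76) (nat_lit 605193705) (nat_lit 445) (nat_lit 5) (nat_lit 460) (nat_lit 5) (nat_lit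 446) (nat_lit 5) (nat_lit 561) (nat_lit 511) (nat_lit 488)) (XT.nd (nat_lit 78) (nat_lit 76) (nat_lit 0) (XT.lf (nat_lit 0) (nat_lit 680090762) (nat_lit 912) (nat_lit 4594167687) (nat_lit 988) (nat_lit 2106195506) (nat_lit 433) (nat_lit 5) (nat_lit 445) (nat_lit 5) (nat_lit 446) (nat_lit 5) (nat_lit 562) (nat_lit 511) (nat_lit 487)) (XT.lf (nat_lit 0) (nat_lit 852893212) (nat_lit 988) (nat_lit 1530976286) (nat_lit 76) (nat_lit 5045570742) (nat_lit 432) (nat_lit 5) (nat_lit 445) (nat_lit 5) (nat_lit 433) (nat_lit 5) (nat_lit 563) (nat_lit 511) (nat_lit 486))))) (XT.nd (nat_lit 156) (nat_lit 1824) (nat_lit 0) (XT.nd (nat_lit 78) (nat_lit 836) (nat_lit 0) (XT.lf (nat_lit 0) (nat_lit 3720289898) (nat_lit 912) (nat_lit 92751729) (nat_lit 988) (nat_lit 3666690275) (nat_lit 420) (nat_lit 5) (nat_lit 432) (nat_lit 5) (nat_lit 433) (nat_lit 5) (nat_lit 564) (nat_lit 511) (nat_lit 485)) (XT.lf (nat_lit 0) (nat_lit 1514698421) (nat_lit 836) (nat_lit 5299020998) (nat_lit 912) (nat_lit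 717689027) (nat_lit 409) (nat_lit 5) (nat_lit 420) (nat_lit 5) (nat_lit 421) (nat_lit 5) (nat_lit 565) (nat_lit 511) (nat_lit 484))) (XT.nd (nat_lit 78) (nat_lit 1748) (nat_lit 0) (XT.lf (nat_lit 0) (nat_lit 2233168224) (nat_lit 912) (nat_lit 711357811) (nat_lit 76) (nat_lit 4639842174) (nat_lit 408) (nat_lit 5) (nat_lit 420) (nat_lit 5) (nat_lit 409) (nat_lit 5) (nat_lit 566) (nat_lit 511) (nat_lit 483)) (XT.nd (nat_lit 78) (nat_lit 912) (nat_lit 0) (XT.lf (nat_lit 0) (nat_lit 4700750404) (nat_lit 836) (nat_lit 511157240) (nat_lit 912) (nat_lit 2426820400) (nat_lit 397) (nat_lit 5) (nat_lit 408) (nat_lit 5) (nat_lit 409) (nat_lit 5) (nat_lit 567) (nat_lit 511) (nat_lit 482)) (XT.lf (nat_lit 0) (nat_lit 531038197) (nat_lit 912) (nat_lit 5198288574) (nat_lit 76) (nat_lit 1965135470) (nat_lit 385) (nat_lit 5) (nat_lit 397) (nat_lit 5) (nat_lit 386) (nat_lit 5) (nat_lit 568) (nat_lit 511) (nat_lit 481)))))) (XT.nd (nat_lit 390) (nat_lit 3648) (nat_lit 0) (XT.nd (nat_lit 156)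 (nat_lit 1596) (nat_lit 0) (XT.nd (nat_lit 78) (nat_lit 0) (nat_lit 0) (XT.lf (nat_lit 0) (nat_lit 254472940) (nat_lit 836) (nat_lit 3234873997) (nat_lit 912) (nat_lit 4262172551) (nat_lit 374) (nat_lit 5) (nat_lit 385) (nat_lit 5) (nat_lit 386) (nat_lit 5) (nat_lit 569) (nat_lit 511) (nat_lit 480)) (XT.lf (nat_lit 0) (nat_lit 5829936734) (nat_lit 836) (nat_lit 661276362) (nat_lit 912) (nat_lit 1318821813) (nat_lit 374) (nat_lit 5) (nat_lit 385) (nat_lit 5) (nat_lit 386) (nat_lit 5) (nat_lit 570) (nat_lit 511) (nat_lit 479))) (XT.nd (nat_lit 78) (nat_lit 760) (nat_lit 0) (XT.lf (nat_lit 0) (nat_lit 1647971480) (nat_lit 836) (nat_lit 4255504246) (nat_lit 76) (nat_lit 1966297913) (nat_lit 363) (nat_lit 5) (nat_lit 374) (nat_lit 5) (nat_lit 364) (nat_lit 5) (nat_lit 571) (nat_lit 511) (nat_lit 478)) (XT.nd (nat_lit 78) (nat_lit 0) (nat_lit 0) (XT.lf (nat_lit 0) (nat_lit 1364676286) (nat_lit 760) (nat_lit 3269132091) (nat_lit 836) (nat_lit 3297181657) (nat_lit 353) (nat_lit 5)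 (nat_lit 363) (nat_lit 5) (nat_lit 364) (nat_lit 5) (nat_lit 572) (nat_lit 511) (nat_lit 477)) (XT.lf (nat_lit 0) (nat_lit 7098375412) (nat_lit 760) (nat_lit 560877028) (nat_lit 836) (nat_lit 334584995) (nat_lit 353) (nat_lit 5) (nat_lit 363) (nat_lit 5) (nat_lit 364) (nat_lit 5) (nat_lit 573) (nat_lit 511) (nat_lit 476))))) (XT.nd (nat_lit 234) (nat_lit 1368) (nat_lit 0) (XT.nd (nat_lit 78) (nat_lit 1520) (nat_lit 0) (XT.lf (nat_lit 0) (nat_lit 2650233474) (nat_lit 760) (nat_lit 3193242492) (nat_lit 76) (nat_lit 2214156900) (nat_lit 343) (nat_lit 5) (nat_lit 353) (nat_lit 5) (nat_lit 344) (nat_lit 5) (nat_lit 574) (nat_lit 511) (nat_lit 475)) (XT.nd (nat_lit 78) (nat_lit 760) (nat_lit 0) (XT.lf (nat_lit 0) (nat_lit 2600496657) (nat_lit 760) (nat_lit 3068916995) (nat_lit 836) (nat_lit 2453667642) (nat_lit 333) (nat_lit 5) (nat_lit 343) (nat_lit 5) (nat_lit 344) (nat_lit 5) (nat_lit 575) (nat_lit 511) (nat_lit 474)) (XT.lf (nat_lit 0) (nat_lit 307351670) (nat_lit 684) (nat_lit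 220764768) (nat_lit 760) (nat_lit 7662127490) (nat_lit 323) (nat_lit 5) (nat_lit 332) (nat_lit 5) (nat_lit 333) (nat_lit 5) (nat_lit 576) (nat_lit 511) (nat_lit 473)))) (XT.nd (nat_lit 78) (nat_lit 1368) (nat_lit 0) (XT.lf (nat_lit 0) (nat_lit 3544686717) (nat_lit 760) (nat_lit 2020577913) (nat_lit 76) (nat_lit 2693004689) (nat_lit 323) (nat_lit 5) (nat_lit 333) (nat_lit 5) (nat_lit 324) (nat_lit 5) (nat_lit 577) (nat_lit 511) (nat_lit 472)) (XT.nd (nat_lit 78) (nat_lit 684) (nat_lit 0) (XT.lf (nat_lit 0) (nat_lit 3953099034) (nat_lit 684) (nat_lit 2649775324) (nat_lit 760) (nat_lit 1725159046) (nat_lit 314) (nat_lit 5) (nat_lit 323) (nat_lit 5) (nat_lit 324) (nat_lit 5) (nat_lit 578) (nat_lit 511) (nat_lit 471)) (XT.lf (nat_lit 0) (nat_lit 1286559474) (nat_lit 684) (nat_lit 6770782167) (nat_lit 76) (nat_lit 342065516) (nat_lit 305) (nat_lit 5) (nat_lit 314) (nat_lit 5) (nat_lit 306) (nat_lit 5) (nat_lit 579) (nat_lit 511) (nat_lit 470))))))))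
noncomputable def xc49 : XT := (XT.nd (nat_lit 1560) (nat_lit 5928) (nat_lit 0) (XT.nd (nat_lit 780) (nat_lit 3724) (nat_lit 0) (XT.nd (nat_lit 390) (nat_lit 2432) (nat_lit 0) (XT.nd (nat_lit 156) (nat_lit 1292) (nat_lit 0) (XT.nd (nat_lit 78) (nat_lit 684) (nat_lit 0) (XT.lf (nat_lit 0) (nat_lit 4337382793) (nat_lit 684) (nat_lit 746198525) (nat_lit 76) (nat_lit 3388363275) (nat_lit 305) (nat_lit 5) (nat_lit 314) (nat_lit 5) (nat_lit 306) (nat_lit 5) (nat_lit 580) (nat_lit 511) (nat_lit 469)) (XT.lf (nat_lit 0) (nat_lit 5414031086) (nat_lit 684) (nat_lit 2026076302) (nat_lit 760) (nat_lit 1106011300) (nat_lit 296) (nat_lit 5) (nat_lit 305) (nat_lit 5) (nat_lit 306) (nat_lit 5) (nat_lit 581) (nat_lit 511) (nat_lit 468))) (XT.nd (nat_lit 78) (nat_lit 608) (nat_lit 0) (XT.lf (nat_lit 0) (nat_lit 1945203653) (nat_lit 684) (nat_lit 5572155863) (nat_lit 76) (nat_lit 1104400657) (nat_lit 287) (nat_lit 5) (nat_lit 296) (nat_lit 5) (nat_lit 288) (nat_lit 5) (nat_lit 582) (nat_lit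 511) (nat_lit 467)) (XT.nd (nat_lit 78) (nat_lit 0) (nat_lit 0) (XT.lf (nat_lit 0) (nat_lit 629770529) (nat_lit 608) (nat_lit 4407911454) (nat_lit 684) (nat_lit 3661188718) (nat_lit 279) (nat_lit 5) (nat_lit 287) (nat_lit 5) (nat_lit 288) (nat_lit 5) (nat_lit 583) (nat_lit 511) (nat_lit 466)) (XT.lf (nat_lit 0) (nat_lit 6975139465) (nat_lit 608) (nat_lit 1211124531) (nat_lit 684) (nat_lit 591377694) (nat_lit 279) (nat_lit 5) (nat_lit 287) (nat_lit 5) (nat_lit 288) (nat_lit 5) (nat_lit 584) (nat_lit 511) (nat_lit 465))))) (XT.nd (nat_lit 156) (nat_lit 1140) (nat_lit 0) (XT.nd (nat_lit 78) (nat_lit 608) (nat_lit 0) (XT.lf (nat_lit 0) (nat_lit 2507191965) (nat_lit 684) (nat_lit 4294073430) (nat_lit 76) (nat_lit 2056382646) (nat_lit 270) (nat_lit 5) (nat_lit 279) (nat_lit 5) (nat_lit 271) (nat_lit 5) (nat_lit 585) (nat_lit 511) (nat_lit 464)) (XT.lf (nat_lit 0) (nat_lit 2101953480) (nat_lit 608) (nat_lit 3549527719) (nat_lit 684) (nat_lit 3287864947) (nat_lit 262) (nat_lit 5)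 (nat_lit 270) (nat_lit 5) (nat_lit 271) (nat_lit 5) (nat_lit 586) (nat_lit 511) (nat_lit 463))) (XT.nd (nat_lit 78) (nat_lit 1140) (nat_lit 0) (XT.lf (nat_lit 0) (nat_lit 8628485999) (nat_lit 608) (nat_lit 217267235) (nat_lit 684) (nat_lit 177186116) (nat_lit 262) (nat_lit 5) (nat_lit 270) (nat_lit 5) (nat_lit 271) (nat_lit 5) (nat_lit 587) (nat_lit 511) (nat_lit 462)) (XT.nd (nat_lit 78) (nat_lit 532) (nat_lit 0) (XT.lf (nat_lit 0) (nat_lit 2976354556) (nat_lit 608) (nat_lit 2944884505) (nat_lit 76) (nat_lit 3186180566) (nat_lit 254) (nat_lit 5) (nat_lit 262) (nat_lit 5) (nat_lit 255) (nat_lit 5) (nat_lit 588) (nat_lit 511) (nat_lit 461)) (XT.lf (nat_lit 0) (nat_lit 3652298641) (nat_lit 532) (nat_lit 2525300494) (nat_lit 608) (nat_lit 3016229737) (nat_lit 247) (nat_lit 5) (nat_lit 254) (nat_lit 5) (nat_lit 255) (nat_lit 5) (nat_lit 589) (nat_lit 511) (nat_lit 460)))))) (XT.nd (nat_lit 390) (nat_lit 2052) (nat_lit 0) (XT.nd (nat_lit 156) (nat_lit 1064) (nat_lit 0) (XT.nd (nat_lit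 78) (nat_lit 0) (nat_lit 0) (XT.lf (nat_lit 0) (nat_lit 151351109) (nat_lit 608) (nat_lit 8191037232) (nat_lit 76) (nat_lit 939708676) (nat_lit 239) (nat_lit 5) (nat_lit 247) (nat_lit 5) (nat_lit 240) (nat_lit 5) (nat_lit 590) (nat_lit 511) (nat_lit 459)) (XT.lf (nat_lit 0) (nat_lit 3355790412) (nat_lit 608) (nat_lit 1532880452) (nat_lit 76) (nat_lit 4482785765) (nat_lit 239) (nat_lit 5) (nat_lit 247) (nat_lit 5) (nat_lit 240) (nat_lit 5) (nat_lit 591) (nat_lit 511) (nat_lit 458))) (XT.nd (nat_lit 78) (nat_lit 532) (nat_lit 0) (XT.lf (nat_lit 0) (nat_lit 5272722541) (nat_lit 532) (nat_lit 1346319880) (nat_lit 608) (nat_lit 2843669215) (nat_lit 232) (nat_lit 5) (nat_lit 239) (nat_lit 5) (nat_lit 240) (nat_lit 5) (nat_lit 592) (nat_lit 511) (nat_lit 457)) (XT.nd (nat_lit 78) (nat_lit 0) (nat_lit 0) (XT.lf (nat_lit 0) (nat_lit 389699227) (nat_lit 532) (nat_lit 6913965218) (nat_lit 76) (nat_lit 2252017610) (nat_lit 225) (nat_lit 5) (nat_lit 232) (nat_lit 5) (nat_lit 226) (nat_lit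 5) (nat_lit 593) (nat_lit 511) (nat_lit 456)) (XT.lf (nat_lit 0) (nat_lit 3647876845) (nat_lit 532) (nat_lit 66381853) (nat_lit 76) (nat_lit 5935915405) (nat_lit 225) (nat_lit 5) (nat_lit 232) (nat_lit 5) (nat_lit 226) (nat_lit 5) (nat_lit 594) (nat_lit 511) (nat_lit 455))))) (XT.nd (nat_lit 156) (nat_lit 988) (nat_lit 0) (XT.nd (nat_lit 78) (nat_lit 532) (nat_lit 0) (XT.lf (nat_lit 0) (nat_lit 6955104815) (nat_lit 532) (nat_lit 22999453) (nat_lit 608) (nat_lit 2768316476) (nat_lit 218) (nat_lit 5) (nat_lit 225) (nat_lit 5) (nat_lit 226) (nat_lit 5) (nat_lit 595) (nat_lit 511) (nat_lit 454)) (XT.lf (nat_lit 0) (nat_lit 537846198) (nat_lit 532) (nat_lit 5597629476) (nat_lit 76) (nat_lit 3708761000) (nat_lit 211) (nat_lit 5) (nat_lit 218) (nat_lit 5) (nat_lit 212) (nat_lit 5) (nat_lit 596) (nat_lit 511) (nat_lit 453))) (XT.nd (nat_lit 78) (nat_lit 532) (nat_lit 0) (XT.lf (nat_lit 0) (nat_lit 1465390137) (nat_lit 456) (nat_lit 2398397518) (nat_lit 532) (nat_lit 6080043163) (nat_lit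 205) (nat_lit 5) (nat_lit 211) (nat_lit 5) (nat_lit 212) (nat_lit 5) (nat_lit 597) (nat_lit 511) (nat_lit 452)) (XT.nd (nat_lit 78) (nat_lit 532) (nat_lit 0) (XT.lf (nat_lit 0) (nat_lit 7265682590) (nat_lit 532) (nat_lit 1363535852) (nat_lit 76) (nat_lit 1416011998) (nat_lit 205) (nat_lit 5) (nat_lit 212) (nat_lit 5) (nat_lit 206) (nat_lit 5) (nat_lit 598) (nat_lit 511) (nat_lit 451)) (XT.lf (nat_lit 0) (nat_lit 596752891) (nat_lit 532) (nat_lit 4250972716) (nat_lit 76) (nat_lit 5300508557) (nat_lit 198) (nat_lit 5) (nat_lit 205) (nat_lit 5) (nat_lit 199) (nat_lit 5) (nat_lit 599) (nat_lit 511) (nat_lit 450))))))) (XT.nd (nat_lit 780) (nat_lit 2888) (nat_lit 0) (XT.nd (nat_lit 390) (nat_lit 1292) (nat_lit 0) (XT.nd (nat_lit 156) (nat_lit 912) (nat_lit 0) (XT.nd (nat_lit 78) (nat_lit 380) (nat_lit 0) (XT.lf (nat_lit 0) (nat_lit 3035942710) (nat_lit 456) (nat_lit 959688557) (nat_lit 532) (nat_lit 6257455999) (nat_lit 192) (nat_lit 5) (nat_lit 198) (nat_lit 5) (nat_lit 199) (nat_lit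 5) (nat_lit 600) (nat_lit 511) (nat_lit 449)) (XT.lf (nat_lit 0) (nat_lit 93969572) (nat_lit 380) (nat_lit 7380931485) (nat_lit 456) (nat_lit 2884890209) (nat_lit 187) (nat_lit 5) (nat_lit 192) (nat_lit 5) (nat_lit 193) (nat_lit 5) (nat_lit 601) (nat_lit 511) (nat_lit 448))) (XT.nd (nat_lit 78) (nat_lit 836) (nat_lit 0) (XT.lf (nat_lit 0) (nat_lit 566647451) (nat_lit 456) (nat_lit 2883241094) (nat_lit 76) (nat_lit 7018294725) (nat_lit 186) (nat_lit 5) (nat_lit 192) (nat_lit 5) (nat_lit 187) (nat_lit 5) (nat_lit 602) (nat_lit 511) (nat_lit 447)) (XT.nd (nat_lit 78) (nat_lit 380) (nat_lit 0) (XT.lf (nat_lit 0) (nat_lit 4046969564) (nat_lit 532) (nat_lit 5947007750) (nat_lit 76) (nat_lit 584418761) (nat_lit 180) (nat_lit 5) (nat_lit 187) (nat_lit 5) (nat_lit 181) (nat_lit 5) (nat_lit 603) (nat_lit 511) (nat_lit 446)) (XT.lf (nat_lit 0) (nat_lit 1589226203) (nat_lit 380) (nat_lit 6024957546) (nat_lit 456) (nat_lit 3076285627) (nat_lit 175) (nat_lit 5) (nat_lit 180) (nat_lit 5)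 (nat_lit 181) (nat_lit 5) (nat_lit 604) (nat_lit 511) (nat_lit 445))))) (XT.nd (nat_lit 156) (nat_lit 836) (nat_lit 0) (XT.nd (nat_lit 78) (nat_lit 380) (nat_lit 0) (XT.lf (nat_lit 0) (nat_lit 447012785) (nat_lit 456) (nat_lit 1504087121) (nat_lit 76) (nat_lit 8853529349) (nat_lit 174) (nat_lit 5) (nat_lit 180) (nat_lit 5) (nat_lit 175) (nat_lit 5) (nat_lit 605) (nat_lit 511) (nat_lit 444)) (XT.lf (nat_lit 0) (nat_lit 4020275712) (nat_lit 456) (nat_lit 4681154708) (nat_lit 76) (nat_lit 2218823267) (nat_lit 169) (nat_lit 5) (nat_lit 175) (nat_lit 5) (nat_lit 170) (nat_lit 5) (nat_lit 606) (nat_lit 511) (nat_lit 443))) (XT.nd (nat_lit 78) (nat_lit 456) (nat_lit 0) (XT.lf (nat_lit 0) (nat_lit 3094246962) (nat_lit 380) (nat_lit 4579597162) (nat_lit 456) (nat_lit 3364171482) (nat_lit 164) (nat_lit 5) (nat_lit 169) (nat_lit 5) (nat_lit 170) (nat_lit 5) (nat_lit 607) (nat_lit 511) (nat_lit 442)) (XT.nd (nat_lit 78) (nat_lit 380) (nat_lit 0) (XT.lf (nat_lit 0) (nat_lit 236567862)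 (nat_lit 456) (nat_lit 123678641) (nat_lit 76) (nat_lit 10797908622) (nat_lit 163) (nat_lit 5) (nat_lit 169) (nat_lit 5) (nat_lit 164) (nat_lit 5) (nat_lit 608) (nat_lit 511) (nat_lit 441)) (XT.lf (nat_lit 0) (nat_lit 3907908580) (nat_lit 456) (nat_lit 3423929116) (nat_lit 76) (nat_lit 3947544036) (nat_lit 158) (nat_lit 5) (nat_lit 164) (nat_lit 5) (nat_lit 159) (nat_lit 5) (nat_lit 609) (nat_lit 511) (nat_lit 440)))))) (XT.nd (nat_lit 390) (nat_lit 1368) (nat_lit 0) (XT.nd (nat_lit 156) (nat_lit 760) (nat_lit 0) (XT.nd (nat_lit 78) (nat_lit 380) (nat_lit 0) (XT.lf (nat_lit 0) (nat_lit 4598577360) (nat_lit 380) (nat_lit 3053825567) (nat_lit 456) (nat_lit 3750637074) (nat_lit 153) (nat_lit 5) (nat_lit 158) (nat_lit 5) (nat_lit 159) (nat_lit 5) (nat_lit 610) (nat_lit 511) (nat_lit 439)) (XT.lf (nat_lit 0) (nat_lit 1254667219) (nat_lit 380) (nat_lit 10223742413) (nat_lit 456) (nat_lit 50630989) (nat_lit 148) (nat_lit 5) (nat_lit 153) (nat_lit 5) (nat_lit 154) (nat_lit 5) (nat_lit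 611) (nat_lit 511) (nat_lit 438))) (XT.nd (nat_lit 78) (nat_lit 684) (nat_lit 0) (XT.lf (nat_lit 0) (nat_lit 3707667746) (nat_lit 456) (nat_lit 2186595908) (nat_lit 76) (nat_lit 5762153171) (nat_lit 147) (nat_lit 5) (nat_lit 153) (nat_lit 5) (nat_lit 148) (nat_lit 5) (nat_lit 612) (nat_lit 511) (nat_lit 437)) (XT.nd (nat_lit 78) (nat_lit 380) (nat_lit 0) (XT.lf (nat_lit 0) (nat_lit 6091052950) (nat_lit 304) (nat_lit 1456534967) (nat_lit 380) (nat_lit 4238604813) (nat_lit 143) (nat_lit 5) (nat_lit 147) (nat_lit 5) (nat_lit 148) (nat_lit 5) (nat_lit 613) (nat_lit 511) (nat_lit 436)) (XT.lf (nat_lit 0) (nat_lit 2608185273) (nat_lit 380) (nat_lit 8875523996) (nat_lit 456) (nat_lit 434468338) (nat_lit 138) (nat_lit 5) (nat_lit 143) (nat_lit 5) (nat_lit 144) (nat_lit 5) (nat_lit 614) (nat_lit 511) (nat_lit 435))))) (XT.nd (nat_lit 234) (nat_lit 684) (nat_lit 0) (XT.nd (nat_lit 78) (nat_lit 608) (nat_lit 0) (XT.lf (nat_lit 0) (nat_lit 3416527981) (nat_lit 456) (nat_lit 981238315)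 (nat_lit 76) (nat_lit 7654270521) (nat_lit 137) (nat_lit 5) (nat_lit 143) (nat_lit 5) (nat_lit 138) (nat_lit 5) (nat_lit 615) (nat_lit 511) (nat_lit 434)) (XT.nd (nat_lit 78) (nat_lit 304) (nat_lit 0) (XT.lf (nat_lit 0) (nat_lit 7357617633) (nat_lit 380) (nat_lit 4629817759) (nat_lit 76) (nat_lit 200703984) (nat_lit 133) (nat_lit 5) (nat_lit 138) (nat_lit 5) (nat_lit 134) (nat_lit 5) (nat_lit 616) (nat_lit 511) (nat_lit 433)) (XT.lf (nat_lit 0) (nat_lit 3926612051) (nat_lit 304) (nat_lit 7480813220) (nat_lit 380) (nat_lit 918942187) (nat_lit 129) (nat_lit 5) (nat_lit 133) (nat_lit 5) (nat_lit 134) (nat_lit 5) (nat_lit 617) (nat_lit 511) (nat_lit 432)))) (XT.nd (nat_lit 78) (nat_lit 304) (nat_lit 0) (XT.lf (nat_lit 0) (nat_lit 181484462) (nat_lit 304) (nat_lit 2850291195) (nat_lit 380) (nat_lit 9435163387) (nat_lit 124) (nat_lit 5) (nat_lit 128) (nat_lit 5) (nat_lit 129) (nat_lit 5) (nat_lit 618) (nat_lit 511) (nat_lit 431)) (XT.nd (nat_lit 78) (nat_lit 304) (nat_lit 0) (XT.lf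 (nat_lit 0) (nat_lit 7087000828) (nat_lit 380) (nat_lit 3630703929) (nat_lit 76) (nat_lit 1891741183) (nat_lit 124) (nat_lit 5) (nat_lit 129) (nat_lit 5) (nat_lit 125) (nat_lit 5) (nat_lit 619) (nat_lit 511) (nat_lit 430)) (XT.lf (nat_lit 0) (nat_lit 5196317749) (nat_lit 304) (nat_lit 6049123172) (nat_lit 380) (nat_lit 1508921133) (nat_lit 120) (nat_lit 5) (nat_lit 124) (nat_lit 5) (nat_lit 125) (nat_lit 5) (nat_lit 620) (nat_lit 511) (nat_lit 429))))))))
noncomputable def xc50 : XT := (XT.nd (nat_lit 75816) (nat_lit 0) (nat_lit 19456) (XT.nd (nat_lit 75036) (nat_lit 0) (nat_lit 36860) (XT.nd (nat_lit 74646) (nat_lit 0) (nat_lit 45220) (XT.nd (nat_lit 156) (nat_lit 608) (nat_lit 0) (XT.nd (nat_lit 78) (nat_lit 0) (nat_lit 0) (XT.lf (nat_lit 0) (nat_lit 1297301504) (nat_lit 304) (nat_lit 1256188888) (nat_lit 380) (nat_lit 10348301319) (nat_lit 115) (nat_lit 5) (nat_lit 119) (nat_lit 5) (nat_lit 120) (nat_lit 5) (nat_lit 621) (nat_lit 511) (nat_lit 428)) (XT.lf (nat_lit 0) (nat_lit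 6721319335) (nat_lit 380) (nat_lit 2703185102) (nat_lit 76) (nat_lit 3626579786) (nat_lit 115) (nat_lit 5) (nat_lit 120) (nat_lit 5) (nat_lit 116) (nat_lit 5) (nat_lit 622) (nat_lit 511) (nat_lit 427))) (XT.nd (nat_lit 78) (nat_lit 304) (nat_lit 0) (XT.lf (nat_lit 0) (nat_lit 6402462096) (nat_lit 304) (nat_lit 4590239883) (nat_lit 380) (nat_lit 2210257853) (nat_lit 111) (nat_lit 5) (nat_lit 115) (nat_lit 5) (nat_lit 116) (nat_lit 5) (nat_lit 623) (nat_lit 511) (nat_lit 426)) (XT.nd (nat_lit 74334) (nat_lit 0) (nat_lit 47652) (XT.lf (nat_lit 0) (nat_lit 1971723159) (nat_lit 304) (nat_lit 11022373767) (nat_lit 76) (nat_lit 363394461) (nat_lit 107) (nat_lit 5) (nat_lit 111) (nat_lit 5) (nat_lit 108) (nat_lit 5) (nat_lit 624) (nat_lit 511) (nat_lit 425)) (XT.lf (nat_lit 0) (nat_lit 1404699705) (nat_lit 684) (nat_lit 472792064) (nat_lit 0) (nat_lit 1404699705) (nat_lit 734) (nat_lit 5) (nat_lit 743) (nat_lit 4) (nat_lit 734) (nat_lit 4) (nat_lit 536) (nat_lit 512) (nat_lit 512)))))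 (XT.nd (nat_lit 156) (nat_lit 912) (nat_lit 0) (XT.nd (nat_lit 78) (nat_lit 836) (nat_lit 0) (XT.lf (nat_lit 0) (nat_lit 3092254426) (nat_lit 684) (nat_lit 2977888317) (nat_lit 684) (nat_lit 510187265) (nat_lit 725) (nat_lit 4) (nat_lit 734) (nat_lit 5) (nat_lit 734) (nat_lit 4) (nat_lit 537) (nat_lit 512) (nat_lit 511)) (XT.lf (nat_lit 0) (nat_lit 562322912) (nat_lit 760) (nat_lit 2135369523) (nat_lit 836) (nat_lit 3899853580) (nat_lit 714) (nat_lit 5) (nat_lit 724) (nat_lit 5) (nat_lit 725) (nat_lit 4) (nat_lit 538) (nat_lit 512) (nat_lit 510))) (XT.nd (nat_lit 78) (nat_lit 912) (nat_lit 0) (XT.lf (nat_lit 0) (nat_lit 4683910927) (nat_lit 760) (nat_lit 1228368255) (nat_lit 836) (nat_lit 703783472) (nat_lit 714) (nat_lit 5) (nat_lit 724) (nat_lit 5) (nat_lit 725) (nat_lit 4) (nat_lit 539) (nat_lit 512) (nat_lit 509)) (XT.nd (nat_lit 78) (nat_lit 0) (nat_lit 0) (XT.lf (nat_lit 0) (nat_lit 2211786595) (nat_lit 836) (nat_lit 252206226) (nat_lit 912) (nat_lit 4171809609) (nat_lit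 702) (nat_lit 5) (nat_lit 713) (nat_lit 5) (nat_lit 714) (nat_lit 5) (nat_lit 540) (nat_lit 512) (nat_lit 508)) (XT.lf (nat_lit 0) (nat_lit 5631746186) (nat_lit 912) (nat_lit 255281690) (nat_lit 76) (nat_lit 769905900) (nat_lit 702) (nat_lit 5) (nat_lit 714) (nat_lit 5) (nat_lit 703) (nat_lit 4) (nat_lit 541) (nat_lit 512) (nat_lit 507)))))) (XT.nd (nat_lit 390) (nat_lit 4028) (nat_lit 0) (XT.nd (nat_lit 156) (nat_lit 2356) (nat_lit 0) (XT.nd (nat_lit 78) (nat_lit 988) (nat_lit 0) (XT.lf (nat_lit 0) (nat_lit 2112591309) (nat_lit 988) (nat_lit 2699467101) (nat_lit 76) (nat_lit 1867018539) (nat_lit 689) (nat_lit 5) (nat_lit 702) (nat_lit 5) (nat_lit 690) (nat_lit 5) (nat_lit 542) (nat_lit 512) (nat_lit 506)) (XT.lf (nat_lit 0) (nat_lit 1560359953) (nat_lit 988) (nat_lit 3681037612) (nat_lit 1064) (nat_lit 1461300014) (nat_lit 676) (nat_lit 5) (nat_lit 689) (nat_lit 5) (nat_lit 690) (nat_lit 5) (nat_lit 543) (nat_lit 512) (nat_lit 505))) (XT.nd (nat_lit 78) (nat_lit 2280) (nat_lit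 0) (XT.lf (nat_lit 0) (nat_lit 1632534470) (nat_lit 1064) (nat_lit 850557260) (nat_lit 76) (nat_lit 4244508680) (nat_lit 675) (nat_lit 5) (nat_lit 689) (nat_lit 5) (nat_lit 676) (nat_lit 5) (nat_lit 544) (nat_lit 512) (nat_lit 504)) (XT.nd (nat_lit 78) (nat_lit 1216) (nat_lit 0) (XT.lf (nat_lit 0) (nat_lit 3509578518) (nat_lit 1064) (nat_lit 1213948934) (nat_lit 1140) (nat_lit 2030193207) (nat_lit 661) (nat_lit 5) (nat_lit 675) (nat_lit 5) (nat_lit 676) (nat_lit 5) (nat_lit 545) (nat_lit 512) (nat_lit 503)) (XT.lf (nat_lit 0) (nat_lit 1028079219) (nat_lit 1216) (nat_lit 5640423538) (nat_lit 76) (nat_lit 112797868) (nat_lit 645) (nat_lit 5) (nat_lit 661) (nat_lit 5) (nat_lit 646) (nat_lit 5) (nat_lit 546) (nat_lit 512) (nat_lit 502))))) (XT.nd (nat_lit 156) (nat_lit 2736) (nat_lit 0) (XT.nd (nat_lit 78) (nat_lit 1292) (nat_lit 0) (XT.lf (nat_lit 0) (nat_lit 4083939998) (nat_lit 1216) (nat_lit 1228496855) (nat_lit 76) (nat_lit 1497463770) (nat_lit 645) (nat_lit 5) (nat_lit 661)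 (nat_lit 5) (nat_lit 646) (nat_lit 5) (nat_lit 547) (nat_lit 512) (nat_lit 501)) (XT.lf (nat_lit 0) (nat_lit 312896512) (nat_lit 1292) (nat_lit 3581949561) (nat_lit 76) (nat_lit 2945072247) (nat_lit 628) (nat_lit 5) (nat_lit 645) (nat_lit 5) (nat_lit 629) (nat_lit 5) (nat_lit 548) (nat_lit 512) (nat_lit 500))) (XT.nd (nat_lit 78) (nat_lit 1444) (nat_lit 0) (XT.lf (nat_lit 0) (nat_lit 919531961) (nat_lit 1292) (nat_lit 2406222704) (nat_lit 1368) (nat_lit 3545435297) (nat_lit 611) (nat_lit 5) (nat_lit 628) (nat_lit 5) (nat_lit 629) (nat_lit 5) (nat_lit 549) (nat_lit 512) (nat_lit 499)) (XT.nd (nat_lit 78) (nat_lit 1444) (nat_lit 0) (XT.lf (nat_lit 0) (nat_lit 5505092999) (nat_lit 1292) (nat_lit 854147810) (nat_lit 1368) (nat_lit 544647097) (nat_lit 611) (nat_lit 5) (nat_lit 628) (nat_lit 5) (nat_lit 629) (nat_lit 5) (nat_lit 550) (nat_lit 512) (nat_lit 498)) (XT.lf (nat_lit 0) (nat_lit 2446238011) (nat_lit 1444) (nat_lit 3726097428) (nat_lit 76) (nat_lit 765323985) (nat_lit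 592) (nat_lit 5) (nat_lit 611) (nat_lit 5) (nat_lit 593) (nat_lit 5) (nat_lit 551) (nat_lit 512) (nat_lit 497))))))) (XT.nd (nat_lit 780) (nat_lit 6232) (nat_lit 0) (XT.nd (nat_lit 390) (nat_lit 6460) (nat_lit 0) (XT.nd (nat_lit 156) (nat_lit 3192) (nat_lit 0) (XT.nd (nat_lit 78) (nat_lit 76) (nat_lit 0) (XT.lf (nat_lit 0) (nat_lit 908537607) (nat_lit 1444) (nat_lit 4540216702) (nat_lit 1520) (nat_lit 1524105742) (nat_lit 573) (nat_lit 5) (nat_lit 592) (nat_lit 5) (nat_lit 593) (nat_lit 5) (nat_lit 552) (nat_lit 512) (nat_lit 496)) (XT.lf (nat_lit 0) (nat_lit 1446560663) (nat_lit 1520) (nat_lit 1387493939) (nat_lit 76) (nat_lit 4175248268) (nat_lit 572) (nat_lit 5) (nat_lit 592) (nat_lit 5) (nat_lit 573) (nat_lit 5) (nat_lit 553) (nat_lit 512) (nat_lit 495))) (XT.nd (nat_lit 78) (nat_lit 1672) (nat_lit 0) (XT.lf (nat_lit 0) (nat_lit 3362284765) (nat_lit 1520) (nat_lit 1055543245) (nat_lit 1596) (nat_lit 2629220499) (nat_lit 552) (nat_lit 5) (nat_lit 572) (nat_lit 5) (nat_lit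 573) (nat_lit 5) (nat_lit 554) (nat_lit 512) (nat_lit 494)) (XT.nd (nat_lit 78) (nat_lit 0) (nat_lit 0) (XT.lf (nat_lit 0) (nat_lit 319964757) (nat_lit 1672) (nat_lit 5994010428) (nat_lit 76) (nat_lit 772298746) (nat_lit 530) (nat_lit 5) (nat_lit 552) (nat_lit 5) (nat_lit 531) (nat_lit 5) (nat_lit 555) (nat_lit 512) (nat_lit 493)) (XT.lf (nat_lit 0) (nat_lit 3265863229) (nat_lit 1672) (nat_lit 1191462317) (nat_lit 76) (nat_lit 2669158969) (nat_lit 530) (nat_lit 5) (nat_lit 552) (nat_lit 5) (nat_lit 531) (nat_lit 5) (nat_lit 556) (nat_lit 512) (nat_lit 492))))) (XT.nd (nat_lit 156) (nat_lit 2964) (nat_lit 0) (XT.nd (nat_lit 78) (nat_lit 1824) (nat_lit 0) (XT.lf (nat_lit 0) (nat_lit 3700884255) (nat_lit 1672) (nat_lit 2536001514) (nat_lit 1748) (nat_lit 931296218) (nat_lit 508) (nat_lit 5) (nat_lit 530) (nat_lit 5) (nat_lit 531) (nat_lit 5) (nat_lit 557) (nat_lit 512) (nat_lit 491)) (XT.lf (nat_lit 0) (nat_lit 1447047769) (nat_lit 1748) (nat_lit 542611728) (nat_lit 1824) (nat_lit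 5221593047) (nat_lit 484) (nat_lit 5) (nat_lit 507) (nat_lit 5) (nat_lit 508) (nat_lit 5) (nat_lit 558) (nat_lit 512) (nat_lit 490))) (XT.nd (nat_lit 78) (nat_lit 2964) (nat_lit 0) (XT.lf (nat_lit 0) (nat_lit 4933031009) (nat_lit 1824) (nat_lit 820026424) (nat_lit 76) (nat_lit 1502481033) (nat_lit 484) (nat_lit 5) (nat_lit 508) (nat_lit 5) (nat_lit 485) (nat_lit 5) (nat_lit 559) (nat_lit 512) (nat_lit 489)) (XT.nd (nat_lit 78) (nat_lit 1064) (nat_lit 0) (XT.lf (nat_lit 0) (nat_lit 601526589) (nat_lit 1900) (nat_lit 3085267801) (nat_lit 76) (nat_lit 3614333692) (nat_lit 459) (nat_lit 5) (nat_lit 484) (nat_lit 5) (nat_lit 460) (nat_lit 5) (nat_lit 560) (nat_lit 512) (nat_lit 488)) (XT.lf (nat_lit 0) (nat_lit 1971228717) (nat_lit 1064) (nat_lit 1544912966) (nat_lit 1140) (nat_lit 3831922832) (nat_lit 445) (nat_lit 5) (nat_lit 459) (nat_lit 5) (nat_lit 460) (nat_lit 5) (nat_lit 561) (nat_lit 512) (nat_lit 487)))))) (XT.nd (nat_lit 390) (nat_lit 3420) (nat_lit 0) (XT.nd (nat_lit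 156) (nat_lit 1824) (nat_lit 0) (XT.nd (nat_lit 78) (nat_lit 988) (nat_lit 0) (XT.lf (nat_lit 0) (nat_lit 6459598161) (nat_lit 1140) (nat_lit 285136125) (nat_lit 76) (nat_lit 651800328) (nat_lit 445) (nat_lit 5) (nat_lit 460) (nat_lit 5) (nat_lit 446) (nat_lit 5) (nat_lit 562) (nat_lit 512) (nat_lit 486)) (XT.lf (nat_lit 0) (nat_lit 1978146194) (nat_lit 988) (nat_lit 2551587079) (nat_lit 76) (nat_lit 2916212031) (nat_lit 432) (nat_lit 5) (nat_lit 445) (nat_lit 5) (nat_lit 433) (nat_lit 5) (nat_lit 563) (nat_lit 512) (nat_lit 485))) (XT.nd (nat_lit 78) (nat_lit 912) (nat_lit 0) (XT.lf (nat_lit 0) (nat_lit 2658402023) (nat_lit 912) (nat_lit 2246740549) (nat_lit 988) (nat_lit 2591760196) (nat_lit 420) (nat_lit 5) (nat_lit 432) (nat_lit 5) (nat_lit 433) (nat_lit 5) (nat_lit 564) (nat_lit 512) (nat_lit 484)) (XT.nd (nat_lit 78) (nat_lit 0) (nat_lit 0) (XT.lf (nat_lit 0) (nat_lit 305139620) (nat_lit 912) (nat_lit 7144112168) (nat_lit 76) (nat_lit 100232112) (nat_lit 408) (nat_lit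 5) (nat_lit 420) (nat_lit 5) (nat_lit 409) (nat_lit 5) (nat_lit 565) (nat_lit 512) (nat_lit 483)) (XT.lf (nat_lit 0) (nat_lit 3220814701) (nat_lit 912) (nat_lit 1871265866) (nat_lit 76) (nat_lit 2510787893) (nat_lit 408) (nat_lit 5) (nat_lit 420) (nat_lit 5) (nat_lit 409) (nat_lit 5) (nat_lit 566) (nat_lit 512) (nat_lit 482))))) (XT.nd (nat_lit 234) (nat_lit 1672) (nat_lit 0) (XT.nd (nat_lit 78) (nat_lit 912) (nat_lit 0) (XT.lf (nat_lit 0) (nat_lit 3497764780) (nat_lit 836) (nat_lit 2668714495) (nat_lit 912) (nat_lit 1491413068) (nat_lit 397) (nat_lit 5) (nat_lit 408) (nat_lit 5) (nat_lit 409) (nat_lit 5) (nat_lit 567) (nat_lit 512) (nat_lit 481)) (XT.nd (nat_lit 78) (nat_lit 0) (nat_lit 0) (XT.lf (nat_lit 0) (nat_lit 1236993453) (nat_lit 836) (nat_lit 170881826) (nat_lit 912) (nat_lit 6306558292) (nat_lit 385) (nat_lit 5) (nat_lit 396) (nat_lit 5) (nat_lit 397) (nat_lit 5) (nat_lit 568) (nat_lit 512) (nat_lit 480)) (XT.lf (nat_lit 0) (nat_lit 4338608912) (nat_lit 912) (nat_lit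 1054664976) (nat_lit 76) (nat_lit 2378770834) (nat_lit 385) (nat_lit 5) (nat_lit 397) (nat_lit 5) (nat_lit 386) (nat_lit 5) (nat_lit 569) (nat_lit 512) (nat_lit 479)))) (XT.nd (nat_lit 78) (nat_lit 836) (nat_lit 0) (XT.lf (nat_lit 0) (nat_lit 4479207102) (nat_lit 836) (nat_lit 2829823459) (nat_lit 912) (nat_lit 522160830) (nat_lit 374) (nat_lit 5) (nat_lit 385) (nat_lit 5) (nat_lit 386) (nat_lit 5) (nat_lit 570) (nat_lit 512) (nat_lit 478)) (XT.nd (nat_lit 78) (nat_lit 0) (nat_lit 0) (XT.lf (nat_lit 0) (nat_lit 2204382989) (nat_lit 760) (nat_lit 183438557) (nat_lit 836) (nat_lit 5503934641) (nat_lit 363) (nat_lit 5) (nat_lit 373) (nat_lit 5) (nat_lit 374) (nat_lit 5) (nat_lit 571) (nat_lit 512) (nat_lit 477)) (XT.lf (nat_lit 0) (nat_lit 5339696680) (nat_lit 836) (nat_lit 111537051) (nat_lit 76) (nat_lit 2502420307) (nat_lit 363) (nat_lit 5) (nat_lit 374) (nat_lit 5) (nat_lit 364) (nat_lit 5) (nat_lit 572) (nat_lit 512) (nat_lit 476))))))))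
noncomputable def xc51 : XT := (XT.nd (nat_lit 1560) (nat_lit 6764) (nat_lit 0) (XT.nd (nat_lit 780) (nat_lit 4180) (nat_lit 0) (XT.nd (nat_lit 390) (nat_lit 2736) (nat_lit 0) (XT.nd (nat_lit 156) (nat_lit 1520) (nat_lit 0) (XT.nd (nat_lit 78) (nat_lit 684) (nat_lit 0) (XT.lf (nat_lit 0) (nat_lit 319549803) (nat_lit 836) (nat_lit 2425868774) (nat_lit 76) (nat_lit 5271530064) (nat_lit 352) (nat_lit 5) (nat_lit 363) (nat_lit 5) (nat_lit 353) (nat_lit 5) (nat_lit 573) (nat_lit 512) (nat_lit 475)) (XT.lf (nat_lit 0) (nat_lit 3252143604) (nat_lit 760) (nat_lit 4783258600) (nat_lit 76) (nat_lit 46257246) (nat_lit 343) (nat_lit 5) (nat_lit 353) (nat_lit 5) (nat_lit 344) (nat_lit 5) (nat_lit 574) (nat_lit 512) (nat_lit 474))) (XT.nd (nat_lit 78) (nat_lit 760) (nat_lit 0) (XT.lf (nat_lit 0) (nat_lit 961498217) (nat_lit 760) (nat_lit 5276127343) (nat_lit 836) (nat_lit 1910158331) (nat_lit 333) (nat_lit 5) (nat_lit 343) (nat_lit 5) (nat_lit 344) (nat_lit 5) (nat_lit 575) (nat_lit 512)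 (nat_lit 473)) (XT.nd (nat_lit 78) (nat_lit 684) (nat_lit 0) (XT.lf (nat_lit 0) (nat_lit 1039567188) (nat_lit 836) (nat_lit 1391521665) (nat_lit 76) (nat_lit 5784287675) (nat_lit 332) (nat_lit 5) (nat_lit 343) (nat_lit 5) (nat_lit 333) (nat_lit 5) (nat_lit 576) (nat_lit 512) (nat_lit 472)) (XT.lf (nat_lit 0) (nat_lit 4009877042) (nat_lit 760) (nat_lit 3776703101) (nat_lit 76) (nat_lit 497748918) (nat_lit 323) (nat_lit 5) (nat_lit 333) (nat_lit 5) (nat_lit 324) (nat_lit 5) (nat_lit 577) (nat_lit 512) (nat_lit 471))))) (XT.nd (nat_lit 156) (nat_lit 1976) (nat_lit 0) (XT.nd (nat_lit 78) (nat_lit 76) (nat_lit 0) (XT.lf (nat_lit 0) (nat_lit 2145964039) (nat_lit 684) (nat_lit 4888118349) (nat_lit 760) (nat_lit 1320692299) (nat_lit 314) (nat_lit 5) (nat_lit 323) (nat_lit 5) (nat_lit 324) (nat_lit 5) (nat_lit 578) (nat_lit 512) (nat_lit 470)) (XT.lf (nat_lit 0) (nat_lit 1650745604) (nat_lit 760) (nat_lit 254396973) (nat_lit 76) (nat_lit 6521654682) (nat_lit 313) (nat_lit 5) (nat_lit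 323) (nat_lit 5) (nat_lit 314) (nat_lit 5) (nat_lit 579) (nat_lit 512) (nat_lit 469))) (XT.nd (nat_lit 78) (nat_lit 1368) (nat_lit 0) (XT.lf (nat_lit 0) (nat_lit 4665600532) (nat_lit 684) (nat_lit 2675293687) (nat_lit 76) (nat_lit 1159161629) (nat_lit 305) (nat_lit 5) (nat_lit 314) (nat_lit 5) (nat_lit 306) (nat_lit 5) (nat_lit 580) (nat_lit 512) (nat_lit 468)) (XT.nd (nat_lit 78) (nat_lit 684) (nat_lit 0) (XT.lf (nat_lit 0) (nat_lit 3431831814) (nat_lit 684) (nat_lit 4302139058) (nat_lit 760) (nat_lit 840947908) (nat_lit 296) (nat_lit 5) (nat_lit 305) (nat_lit 5) (nat_lit 306) (nat_lit 5) (nat_lit 581) (nat_lit 512) (nat_lit 467)) (XT.lf (nat_lit 0) (nat_lit 989970736) (nat_lit 608) (nat_lit 1174753113) (nat_lit 684) (nat_lit 6486645015) (nat_lit 287) (nat_lit 5) (nat_lit 295) (nat_lit 5) (nat_lit 296) (nat_lit 5) (nat_lit 582) (nat_lit 512) (nat_lit 466)))))) (XT.nd (nat_lit 390) (nat_lit 2280) (nat_lit 0) (XT.nd (nat_lit 156) (nat_lit 1292) (nat_lit 0) (XT.nd (nat_lit 78)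 (nat_lit 608) (nat_lit 0) (XT.lf (nat_lit 0) (nat_lit 5224310985) (nat_lit 684) (nat_lit 1487525744) (nat_lit 76) (nat_lit 2017302138) (nat_lit 287) (nat_lit 5) (nat_lit 296) (nat_lit 5) (nat_lit 288) (nat_lit 5) (nat_lit 583) (nat_lit 512) (nat_lit 465)) (XT.lf (nat_lit 0) (nat_lit 4810833432) (nat_lit 608) (nat_lit 3531336508) (nat_lit 684) (nat_lit 466355993) (nat_lit 279) (nat_lit 5) (nat_lit 287) (nat_lit 5) (nat_lit 288) (nat_lit 5) (nat_lit 584) (nat_lit 512) (nat_lit 464))) (XT.nd (nat_lit 78) (nat_lit 608) (nat_lit 0) (XT.lf (nat_lit 0) (nat_lit 2324846371) (nat_lit 608) (nat_lit 256910197) (nat_lit 684) (nat_lit 6307737386) (nat_lit 270) (nat_lit 5) (nat_lit 278) (nat_lit 5) (nat_lit 279) (nat_lit 5) (nat_lit 585) (nat_lit 512) (nat_lit 463)) (XT.nd (nat_lit 78) (nat_lit 608) (nat_lit 0) (XT.lf (nat_lit 0) (nat_lit 5690256564) (nat_lit 684) (nat_lit 221694758) (nat_lit 76) (nat_lit 3059958045) (nat_lit 270) (nat_lit 5) (nat_lit 279) (nat_lit 5) (nat_lit 271) (nat_lit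 5) (nat_lit 586) (nat_lit 512) (nat_lit 462)) (XT.lf (nat_lit 0) (nat_lit 6274895716) (nat_lit 608) (nat_lit 2587926610) (nat_lit 684) (nat_lit 193115865) (nat_lit 262) (nat_lit 5) (nat_lit 270) (nat_lit 5) (nat_lit 271) (nat_lit 5) (nat_lit 587) (nat_lit 512) (nat_lit 461))))) (XT.nd (nat_lit 156) (nat_lit 1140) (nat_lit 0) (XT.nd (nat_lit 78) (nat_lit 532) (nat_lit 0) (XT.lf (nat_lit 0) (nat_lit 2909232093) (nat_lit 608) (nat_lit 5408352134) (nat_lit 76) (nat_lit 823865777) (nat_lit 254) (nat_lit 5) (nat_lit 262) (nat_lit 5) (nat_lit 255) (nat_lit 5) (nat_lit 588) (nat_lit 512) (nat_lit 460)) (XT.lf (nat_lit 0) (nat_lit 1128824976) (nat_lit 532) (nat_lit 4945459282) (nat_lit 608) (nat_lit 3154300248) (nat_lit 247) (nat_lit 5) (nat_lit 254) (nat_lit 5) (nat_lit 255) (nat_lit 5) (nat_lit 589) (nat_lit 512) (nat_lit 459))) (XT.nd (nat_lit 78) (nat_lit 1140) (nat_lit 0) (XT.lf (nat_lit 0) (nat_lit 7816056238) (nat_lit 532) (nat_lit 1483295211) (nat_lit 608) (nat_lit 18178759)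 (nat_lit 247) (nat_lit 5) (nat_lit 254) (nat_lit 5) (nat_lit 255) (nat_lit 5) (nat_lit 590) (nat_lit 512) (nat_lit 458)) (XT.nd (nat_lit 78) (nat_lit 532) (nat_lit 0) (XT.lf (nat_lit 0) (nat_lit 3147365437) (nat_lit 608) (nat_lit 4198347960) (nat_lit 76) (nat_lit 2061962782) (nat_lit 239) (nat_lit 5) (nat_lit 247) (nat_lit 5) (nat_lit 240) (nat_lit 5) (nat_lit 591) (nat_lit 512) (nat_lit 457)) (XT.lf (nat_lit 0) (nat_lit 2544847896) (nat_lit 532) (nat_lit 3828882445) (nat_lit 608) (nat_lit 3125939888) (nat_lit 232) (nat_lit 5) (nat_lit 239) (nat_lit 5) (nat_lit 240) (nat_lit 5) (nat_lit 592) (nat_lit 512) (nat_lit 456))))))) (XT.nd (nat_lit 780) (nat_lit 3344) (nat_lit 0) (XT.nd (nat_lit 390) (nat_lit 1824) (nat_lit 0) (XT.nd (nat_lit 156) (nat_lit 1064) (nat_lit 0) (XT.nd (nat_lit 78) (nat_lit 456) (nat_lit 0) (XT.lf (nat_lit 0) (nat_lit 59966184) (nat_lit 608) (nat_lit 167726707) (nat_lit 76) (nat_lit 9366008947) (nat_lit 231) (nat_lit 5) (nat_lit 239) (nat_lit 5) (nat_lit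 232) (nat_lit 5) (nat_lit 593) (nat_lit 512) (nat_lit 455)) (XT.lf (nat_lit 0) (nat_lit 3296608706) (nat_lit 532) (nat_lit 2941474875) (nat_lit 76) (nat_lit 3450542235) (nat_lit 225) (nat_lit 5) (nat_lit 232) (nat_lit 5) (nat_lit 226) (nat_lit 5) (nat_lit 594) (nat_lit 512) (nat_lit 454))) (XT.nd (nat_lit 78) (nat_lit 532) (nat_lit 0) (XT.lf (nat_lit 0) (nat_lit 4015115795) (nat_lit 532) (nat_lit 2574057474) (nat_lit 608) (nat_lit 3196453646) (nat_lit 218) (nat_lit 5) (nat_lit 225) (nat_lit 5) (nat_lit 226) (nat_lit 5) (nat_lit 595) (nat_lit 512) (nat_lit 453)) (XT.nd (nat_lit 78) (nat_lit 0) (nat_lit 0) (XT.lf (nat_lit 0) (nat_lit 60301882) (nat_lit 532) (nat_lit 8663626539) (nat_lit 76) (nat_lit 1160671618) (nat_lit 211) (nat_lit 5) (nat_lit 218) (nat_lit 5) (nat_lit 212) (nat_lit 5) (nat_lit 596) (nat_lit 512) (nat_lit 452)) (XT.lf (nat_lit 0) (nat_lit 3358366986) (nat_lit 532) (nat_lit 1646379192) (nat_lit 76) (nat_lit 4980006666) (nat_lit 211) (nat_lit 5) (nat_lit 218)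 (nat_lit 5) (nat_lit 212) (nat_lit 5) (nat_lit 597) (nat_lit 512) (nat_lit 451))))) (XT.nd (nat_lit 156) (nat_lit 912) (nat_lit 0) (XT.nd (nat_lit 78) (nat_lit 456) (nat_lit 0) (XT.lf (nat_lit 0) (nat_lit 5531169215) (nat_lit 456) (nat_lit 1190772098) (nat_lit 532) (nat_lit 3364978675) (nat_lit 205) (nat_lit 5) (nat_lit 211) (nat_lit 5) (nat_lit 212) (nat_lit 5) (nat_lit 598) (nat_lit 512) (nat_lit 450)) (XT.lf (nat_lit 0) (nat_lit 2647947797) (nat_lit 456) (nat_lit 7514583863) (nat_lit 532) (nat_lit 28406123) (nat_lit 199) (nat_lit 5) (nat_lit 205) (nat_lit 5) (nat_lit 206) (nat_lit 5) (nat_lit 599) (nat_lit 512) (nat_lit 449))) (XT.nd (nat_lit 78) (nat_lit 836) (nat_lit 0) (XT.lf (nat_lit 0) (nat_lit 3333327674) (nat_lit 532) (nat_lit 321939274) (nat_lit 76) (nat_lit 6641279015) (nat_lit 198) (nat_lit 5) (nat_lit 205) (nat_lit 5) (nat_lit 199) (nat_lit 5) (nat_lit 600) (nat_lit 512) (nat_lit 448)) (XT.nd (nat_lit 78) (nat_lit 380) (nat_lit 0) (XT.lf (nat_lit 0) (nat_lit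 6774673224) (nat_lit 532) (nat_lit 3321767206) (nat_lit 76) (nat_lit 307569043) (nat_lit 192) (nat_lit 5) (nat_lit 199) (nat_lit 5) (nat_lit 193) (nat_lit 5) (nat_lit 601) (nat_lit 512) (nat_lit 447)) (XT.lf (nat_lit 0) (nat_lit 4102678357) (nat_lit 380) (nat_lit 6200171877) (nat_lit 456) (nat_lit 210413961) (nat_lit 187) (nat_lit 5) (nat_lit 192) (nat_lit 5) (nat_lit 193) (nat_lit 5) (nat_lit 602) (nat_lit 512) (nat_lit 446)))))) (XT.nd (nat_lit 390) (nat_lit 1976) (nat_lit 0) (XT.nd (nat_lit 156) (nat_lit 836) (nat_lit 0) (XT.nd (nat_lit 78) (nat_lit 0) (nat_lit 0) (XT.lf (nat_lit 0) (nat_lit 1036226740) (nat_lit 456) (nat_lit 2191953196) (nat_lit 532) (nat_lit 7396215110) (nat_lit 180) (nat_lit 5) (nat_lit 186) (nat_lit 5) (nat_lit 187) (nat_lit 5) (nat_lit 603) (nat_lit 512) (nat_lit 445)) (XT.lf (nat_lit 0) (nat_lit 6753684509) (nat_lit 532) (nat_lit 2084564439) (nat_lit 76) (nat_lit 1899054540) (nat_lit 180) (nat_lit 5) (nat_lit 187) (nat_lit 5) (nat_lit 181) (nat_lit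 5) (nat_lit 604) (nat_lit 512) (nat_lit 444))) (XT.nd (nat_lit 78) (nat_lit 456) (nat_lit 0) (XT.lf (nat_lit 0) (nat_lit 5576200881) (nat_lit 380) (nat_lit 4790236019) (nat_lit 456) (nat_lit 485700319) (nat_lit 175) (nat_lit 5) (nat_lit 180) (nat_lit 5) (nat_lit 181) (nat_lit 5) (nat_lit 605) (nat_lit 512) (nat_lit 443)) (XT.nd (nat_lit 78) (nat_lit 0) (nat_lit 0) (XT.lf (nat_lit 0) (nat_lit 2409304534) (nat_lit 380) (nat_lit 628299258) (nat_lit 456) (nat_lit 7931348398) (nat_lit 169) (nat_lit 5) (nat_lit 174) (nat_lit 5) (nat_lit 175) (nat_lit 5) (nat_lit 606) (nat_lit 512) (nat_lit 442)) (XT.lf (nat_lit 0) (nat_lit 6650340704) (nat_lit 456) (nat_lit 846420438) (nat_lit 76) (nat_lit 3590770474) (nat_lit 169) (nat_lit 5) (nat_lit 175) (nat_lit 5) (nat_lit 170) (nat_lit 5) (nat_lit 607) (nat_lit 512) (nat_lit 441))))) (XT.nd (nat_lit 234) (nat_lit 760) (nat_lit 0) (XT.nd (nat_lit 78) (nat_lit 836) (nat_lit 0) (XT.lf (nat_lit 0) (nat_lit 7058644809) (nat_lit 380) (nat_lit 3293680055)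 (nat_lit 456) (nat_lit 855819649) (nat_lit 164) (nat_lit 5) (nat_lit 169) (nat_lit 5) (nat_lit 170) (nat_lit 5) (nat_lit 608) (nat_lit 512) (nat_lit 440)) (XT.nd (nat_lit 78) (nat_lit 380) (nat_lit 0) (XT.lf (nat_lit 0) (nat_lit 2764527848) (nat_lit 456) (nat_lit 7554818961) (nat_lit 76) (nat_lit 1011380615) (nat_lit 158) (nat_lit 5) (nat_lit 164) (nat_lit 5) (nat_lit 159) (nat_lit 5) (nat_lit 609) (nat_lit 512) (nat_lit 439)) (XT.lf (nat_lit 0) (nat_lit 387133689) (nat_lit 380) (nat_lit 6078358172) (nat_lit 456) (nat_lit 4989765249) (nat_lit 153) (nat_lit 5) (nat_lit 158) (nat_lit 5) (nat_lit 159) (nat_lit 5) (nat_lit 610) (nat_lit 512) (nat_lit 438)))) (XT.nd (nat_lit 78) (nat_lit 760) (nat_lit 0) (XT.lf (nat_lit 0) (nat_lit 8539523072) (nat_lit 380) (nat_lit 1719262694) (nat_lit 456) (nat_lit 1323127011) (nat_lit 153) (nat_lit 5) (nat_lit 158) (nat_lit 5) (nat_lit 159) (nat_lit 5) (nat_lit 611) (nat_lit 512) (nat_lit 437)) (XT.nd (nat_lit 78) (nat_lit 304) (nat_lit 0) (XT.lf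 (nat_lit 0) (nat_lit 2404503145) (nat_lit 456) (nat_lit 6583262470) (nat_lit 76) (nat_lit 2722636518) (nat_lit 147) (nat_lit 5) (nat_lit 153) (nat_lit 5) (nat_lit 148) (nat_lit 5) (nat_lit 612) (nat_lit 512) (nat_lit 436)) (XT.lf (nat_lit 0) (nat_lit 1610662076) (nat_lit 304) (nat_lit 4588939490) (nat_lit 380) (nat_lit 5641473655) (nat_lit 143) (nat_lit 5) (nat_lit 147) (nat_lit 5) (nat_lit 148) (nat_lit 5) (nat_lit 613) (nat_lit 512) (nat_lit 435))))))))
noncomputable def xc52 : XT := (XT.nd (nat_lit 75738) (nat_lit 0) (nat_lit 23484) (XT.nd (nat_lit 74958) (nat_lit 0) (nat_lit 42864) (XT.nd (nat_lit 390) (nat_lit 1292) (nat_lit 0) (XT.nd (nat_lit 156) (nat_lit 684) (nat_lit 0) (XT.nd (nat_lit 78) (nat_lit 456) (nat_lit 0) (XT.lf (nat_lit 0) (nat_lit 10007609093) (nat_lit 304) (nat_lit 75689087) (nat_lit 380) (nat_lit 1890811146) (nat_lit 143) (nat_lit 5) (nat_lit 147) (nat_lit 5) (nat_lit 148) (nat_lit 5) (nat_lit 614) (nat_lit 512) (nat_lit 434)) (XT.lf (nat_lit 0) (nat_lit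 1950168142) (nat_lit 456) (nat_lit 5653310188) (nat_lit 76) (nat_lit 4505262365) (nat_lit 137) (nat_lit 5) (nat_lit 143) (nat_lit 5) (nat_lit 138) (nat_lit 5) (nat_lit 615) (nat_lit 512) (nat_lit 433))) (XT.nd (nat_lit 78) (nat_lit 380) (nat_lit 0) (XT.lf (nat_lit 0) (nat_lit 2800577505) (nat_lit 304) (nat_lit 3043164001) (nat_lit 380) (nat_lit 6402052764) (nat_lit 133) (nat_lit 5) (nat_lit 137) (nat_lit 5) (nat_lit 138) (nat_lit 5) (nat_lit 616) (nat_lit 512) (nat_lit 432)) (XT.nd (nat_lit 78) (nat_lit 380) (nat_lit 0) (XT.lf (nat_lit 0) (nat_lit 9833081005) (nat_lit 380) (nat_lit 945211312) (nat_lit 76) (nat_lit 1606940073) (nat_lit 133) (nat_lit 5) (nat_lit 138) (nat_lit 5) (nat_lit 134) (nat_lit 5) (nat_lit 617) (nat_lit 512) (nat_lit 431)) (XT.lf (nat_lit 0) (nat_lit 1397371200) (nat_lit 380) (nat_lit 4778349029) (nat_lit 76) (nat_lit 6350748778) (nat_lit 128) (nat_lit 5) (nat_lit 133) (nat_lit 5) (nat_lit 129) (nat_lit 5) (nat_lit 618) (nat_lit 512) (nat_lit 430)))))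 (XT.nd (nat_lit 156) (nat_lit 684) (nat_lit 0) (XT.nd (nat_lit 78) (nat_lit 304) (nat_lit 0) (XT.lf (nat_lit 0) (nat_lit 3943539692) (nat_lit 304) (nat_lit 1450135530) (nat_lit 380) (nat_lit 7276479742) (nat_lit 124) (nat_lit 5) (nat_lit 128) (nat_lit 5) (nat_lit 129) (nat_lit 5) (nat_lit 619) (nat_lit 512) (nat_lit 429)) (XT.lf (nat_lit 0) (nat_lit 17586705) (nat_lit 304) (nat_lit 9476684902) (nat_lit 380) (nat_lit 3321956970) (nat_lit 120) (nat_lit 5) (nat_lit 124) (nat_lit 5) (nat_lit 125) (nat_lit 5) (nat_lit 620) (nat_lit 512) (nat_lit 428))) (XT.nd (nat_lit 78) (nat_lit 608) (nat_lit 0) (XT.lf (nat_lit 0) (nat_lit 741040888) (nat_lit 380) (nat_lit 3972890832) (nat_lit 76) (nat_lit 8250426383) (nat_lit 119) (nat_lit 5) (nat_lit 124) (nat_lit 5) (nat_lit 120) (nat_lit 5) (nat_lit 621) (nat_lit 512) (nat_lit 427)) (XT.nd (nat_lit 78) (nat_lit 304) (nat_lit 0) (XT.lf (nat_lit 0) (nat_lit 4845410802) (nat_lit 380) (nat_lit 8091064083) (nat_lit 76) (nat_lit 178445500) (nat_lit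 115) (nat_lit 5) (nat_lit 120) (nat_lit 5) (nat_lit 116) (nat_lit 5) (nat_lit 622) (nat_lit 512) (nat_lit 426)) (XT.lf (nat_lit 0) (nat_lit 918718786) (nat_lit 304) (nat_lit 8148060233) (nat_lit 380) (nat_lit 4201017841) (nat_lit 111) (nat_lit 5) (nat_lit 115) (nat_lit 5) (nat_lit 116) (nat_lit 5) (nat_lit 623) (nat_lit 512) (nat_lit 425)))))) (XT.nd (nat_lit 390) (nat_lit 2964) (nat_lit 0) (XT.nd (nat_lit 156) (nat_lit 1520) (nat_lit 0) (XT.nd (nat_lit 78) (nat_lit 684) (nat_lit 0) (XT.lf (nat_lit 0) (nat_lit 2125328753) (nat_lit 532) (nat_lit 571276531) (nat_lit 532) (nat_lit 571276531) (nat_lit 743) (nat_lit 4) (nat_lit 750) (nat_lit 5) (nat_lit 750) (nat_lit 4) (nat_lit 534) (nat_lit 513) (nat_lit 513)) (XT.lf (nat_lit 0) (nat_lit 1630070636) (nat_lit 608) (nat_lit 447883230) (nat_lit 684) (nat_lit 4471840418) (nat_lit 734) (nat_lit 5) (nat_lit 742) (nat_lit 5) (nat_lit 743) (nat_lit 4) (nat_lit 535) (nat_lit 513) (nat_lit 512))) (XT.nd (nat_lit 78) (nat_lit 1520) (nat_lit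 0) (XT.lf (nat_lit 0) (nat_lit 5288944395) (nat_lit 684) (nat_lit 972006462) (nat_lit 0) (nat_lit 304188271) (nat_lit 734) (nat_lit 5) (nat_lit 743) (nat_lit 4) (nat_lit 734) (nat_lit 4) (nat_lit 536) (nat_lit 513) (nat_lit 511)) (XT.nd (nat_lit 78) (nat_lit 760) (nat_lit 0) (XT.lf (nat_lit 0) (nat_lit 1905412524) (nat_lit 760) (nat_lit 3555137581) (nat_lit 76) (nat_lit 1121033604) (nat_lit 724) (nat_lit 5) (nat_lit 734) (nat_lit 5) (nat_lit 725) (nat_lit 4) (nat_lit 537) (nat_lit 513) (nat_lit 510)) (XT.lf (nat_lit 0) (nat_lit 464440622) (nat_lit 760) (nat_lit 4605058742) (nat_lit 836) (nat_lit 1529981769) (nat_lit 714) (nat_lit 5) (nat_lit 724) (nat_lit 5) (nat_lit 725) (nat_lit 4) (nat_lit 538) (nat_lit 513) (nat_lit 509))))) (XT.nd (nat_lit 156) (nat_lit 2052) (nat_lit 0) (XT.nd (nat_lit 78) (nat_lit 836) (nat_lit 0) (XT.lf (nat_lit 0) (nat_lit 1608073689) (nat_lit 836) (nat_lit 2069324041) (nat_lit 76) (nat_lit 2941112379) (nat_lit 713) (nat_lit 5) (nat_lit 724) (nat_lit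 5) (nat_lit 714) (nat_lit 5) (nat_lit 539) (nat_lit 513) (nat_lit 508)) (XT.lf (nat_lit 0) (nat_lit 2041798213) (nat_lit 836) (nat_lit 2688263336) (nat_lit 912) (nat_lit 1908833418) (nat_lit 702) (nat_lit 5) (nat_lit 713) (nat_lit 5) (nat_lit 714) (nat_lit 5) (nat_lit 540) (nat_lit 513) (nat_lit 507))) (XT.nd (nat_lit 78) (nat_lit 1976) (nat_lit 0) (XT.lf (nat_lit 0) (nat_lit 1181292492) (nat_lit 912) (nat_lit 457618890) (nat_lit 76) (nat_lit 5021764548) (nat_lit 701) (nat_lit 5) (nat_lit 713) (nat_lit 5) (nat_lit 702) (nat_lit 5) (nat_lit 541) (nat_lit 513) (nat_lit 506)) (XT.nd (nat_lit 78) (nat_lit 1064) (nat_lit 0) (XT.lf (nat_lit 0) (nat_lit 3749055939) (nat_lit 912) (nat_lit 513333287) (nat_lit 988) (nat_lit 2421166487) (nat_lit 689) (nat_lit 5) (nat_lit 701) (nat_lit 5) (nat_lit 702) (nat_lit 5) (nat_lit 542) (nat_lit 513) (nat_lit 505)) (XT.lf (nat_lit 0) (nat_lit 635844188) (nat_lit 1064) (nat_lit 5413283636) (nat_lit 76) (nat_lit 658748579) (nat_lit 675) (nat_lit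 5) (nat_lit 689) (nat_lit 5) (nat_lit 676) (nat_lit 5) (nat_lit 543) (nat_lit 513) (nat_lit 504))))))) (XT.nd (nat_lit 780) (nat_lit 11552) (nat_lit 0) (XT.nd (nat_lit 390) (nat_lit 4256) (nat_lit 0) (XT.nd (nat_lit 156) (nat_lit 2508) (nat_lit 0) (XT.nd (nat_lit 78) (nat_lit 1064) (nat_lit 0) (XT.lf (nat_lit 0) (nat_lit 3676871784) (nat_lit 1064) (nat_lit 1157640239) (nat_lit 76) (nat_lit 1898755003) (nat_lit 675) (nat_lit 5) (nat_lit 689) (nat_lit 5) (nat_lit 676) (nat_lit 5) (nat_lit 544) (nat_lit 513) (nat_lit 503)) (XT.lf (nat_lit 0) (nat_lit 3171940652) (nat_lit 1064) (nat_lit 3560749910) (nat_lit 1140) (nat_lit 27404818) (nat_lit 661) (nat_lit 5) (nat_lit 675) (nat_lit 5) (nat_lit 676) (nat_lit 5) (nat_lit 545) (nat_lit 513) (nat_lit 502))) (XT.nd (nat_lit 78) (nat_lit 1292) (nat_lit 0) (XT.lf (nat_lit 0) (nat_lit 753128545) (nat_lit 1140) (nat_lit 2215484034) (nat_lit 1216) (nat_lit 3819526899) (nat_lit 645) (nat_lit 5) (nat_lit 660) (nat_lit 5) (nat_lit 661) (nat_lit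 5) (nat_lit 546) (nat_lit 513) (nat_lit 501)) (XT.nd (nat_lit 78) (nat_lit 1292) (nat_lit 0) (XT.lf (nat_lit 0) (nat_lit 5176726570) (nat_lit 1140) (nat_lit 806384970) (nat_lit 1216) (nat_lit 834459527) (nat_lit 645) (nat_lit 5) (nat_lit 660) (nat_lit 5) (nat_lit 661) (nat_lit 5) (nat_lit 547) (nat_lit 513) (nat_lit 500)) (XT.lf (nat_lit 0) (nat_lit 2139654413) (nat_lit 1292) (nat_lit 4041690175) (nat_lit 76) (nat_lit 666801460) (nat_lit 628) (nat_lit 5) (nat_lit 645) (nat_lit 5) (nat_lit 629) (nat_lit 5) (nat_lit 548) (nat_lit 513) (nat_lit 499))))) (XT.nd (nat_lit 156) (nat_lit 2888) (nat_lit 0) (XT.nd (nat_lit 78) (nat_lit 76) (nat_lit 0) (XT.lf (nat_lit 0) (nat_lit 426699268) (nat_lit 1292) (nat_lit 4691270896) (nat_lit 1368) (nat_lit 1762142474) (nat_lit 611) (nat_lit 5) (nat_lit 628) (nat_lit 5) (nat_lit 629) (nat_lit 5) (nat_lit 549) (nat_lit 513) (nat_lit 498)) (XT.lf (nat_lit 0) (nat_lit 1191292264) (nat_lit 1368) (nat_lit 1935463048) (nat_lit 76) (nat_lit 3786520541)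 (nat_lit 610) (nat_lit 5) (nat_lit 628) (nat_lit 5) (nat_lit 611) (nat_lit 5) (nat_lit 550) (nat_lit 513) (nat_lit 497))) (XT.nd (nat_lit 78) (nat_lit 1520) (nat_lit 0) (XT.lf (nat_lit 0) (nat_lit 2642620461) (nat_lit 1368) (nat_lit 1493153018) (nat_lit 1444) (nat_lit 2811992246) (nat_lit 592) (nat_lit 5) (nat_lit 610) (nat_lit 5) (nat_lit 611) (nat_lit 5) (nat_lit 551) (nat_lit 513) (nat_lit 496)) (XT.nd (nat_lit 78) (nat_lit 0) (nat_lit 0) (XT.lf (nat_lit 0) (nat_lit 109331814) (nat_lit 1520) (nat_lit 6680101918) (nat_lit 76) (nat_lit 194395257) (nat_lit 572) (nat_lit 5) (nat_lit 592) (nat_lit 5) (nat_lit 573) (nat_lit 5) (nat_lit 552) (nat_lit 513) (nat_lit 495)) (XT.lf (nat_lit 0) (nat_lit 3030180651) (nat_lit 1520) (nat_lit 2040193633) (nat_lit 76) (nat_lit 1950299830) (nat_lit 572) (nat_lit 5) (nat_lit 592) (nat_lit 5) (nat_lit 573) (nat_lit 5) (nat_lit 553) (nat_lit 513) (nat_lit 494)))))) (XT.nd (nat_lit 390) (nat_lit 4864) (nat_lit 0) (XT.nd (nat_lit 156) (nat_lit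 3496) (nat_lit 0) (XT.nd (nat_lit 78) (nat_lit 1672) (nat_lit 0) (XT.lf (nat_lit 0) (nat_lit 2674064115) (nat_lit 1520) (nat_lit 3293671725) (nat_lit 1596) (nat_lit 1091361729) (nat_lit 552) (nat_lit 5) (nat_lit 572) (nat_lit 5) (nat_lit 573) (nat_lit 5) (nat_lit 554) (nat_lit 513) (nat_lit 493)) (XT.lf (nat_lit 0) (nat_lit 350687846) (nat_lit 1596) (nat_lit 1448001311) (nat_lit 1672) (nat_lit 5300216871) (nat_lit 530) (nat_lit 5) (nat_lit 551) (nat_lit 5) (nat_lit 552) (nat_lit 5) (nat_lit 555) (nat_lit 513) (nat_lit 492))) (XT.nd (nat_lit 78) (nat_lit 3496) (nat_lit 0) (XT.lf (nat_lit 0) (nat_lit 4706561247) (nat_lit 1672) (nat_lit 1963392579) (nat_lit 76) (nat_lit 469926679) (nat_lit 530) (nat_lit 5) (nat_lit 552) (nat_lit 5) (nat_lit 531) (nat_lit 5) (nat_lit 556) (nat_lit 513) (nat_lit 491)) (XT.nd (nat_lit 78) (nat_lit 1748) (nat_lit 0) (XT.lf (nat_lit 0) (nat_lit 455959544) (nat_lit 1748) (nat_lit 4293497355) (nat_lit 76) (nat_lit 2432730726) (nat_lit 507) (nat_lit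 5) (nat_lit 530) (nat_lit 5) (nat_lit 508) (nat_lit 5) (nat_lit 557) (nat_lit 513) (nat_lit 490)) (XT.lf (nat_lit 0) (nat_lit 576594734) (nat_lit 1748) (nat_lit 2754583342) (nat_lit 1824) (nat_lit 3894632807) (nat_lit 484) (nat_lit 5) (nat_lit 507) (nat_lit 5) (nat_lit 508) (nat_lit 5) (nat_lit 558) (nat_lit 513) (nat_lit 489))))) (XT.nd (nat_lit 234) (nat_lit 1900) (nat_lit 0) (XT.nd (nat_lit 78) (nat_lit 2964) (nat_lit 0) (XT.lf (nat_lit 0) (nat_lit 5548527027) (nat_lit 1748) (nat_lit 688640011) (nat_lit 1824) (nat_lit 1033680528) (nat_lit 484) (nat_lit 5) (nat_lit 507) (nat_lit 5) (nat_lit 508) (nat_lit 5) (nat_lit 559) (nat_lit 513) (nat_lit 488)) (XT.nd (nat_lit 78) (nat_lit 1064) (nat_lit 0) (XT.lf (nat_lit 0) (nat_lit 1835692814) (nat_lit 1900) (nat_lit 4046198635) (nat_lit 76) (nat_lit 1435136512) (nat_lit 459) (nat_lit 5) (nat_lit 484) (nat_lit 5) (nat_lit 460) (nat_lit 5) (nat_lit 560) (nat_lit 513) (nat_lit 487)) (XT.lf (nat_lit 0) (nat_lit 970347237) (nat_lit 1064)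 (nat_lit 3746686852) (nat_lit 1140) (nat_lit 2647598711) (nat_lit 445) (nat_lit 5) (nat_lit 459) (nat_lit 5) (nat_lit 460) (nat_lit 5) (nat_lit 561) (nat_lit 513) (nat_lit 486)))) (XT.nd (nat_lit 78) (nat_lit 1824) (nat_lit 0) (XT.lf (nat_lit 0) (nat_lit 213225312) (nat_lit 1140) (nat_lit 1326879303) (nat_lit 76) (nat_lit 5873587333) (nat_lit 444) (nat_lit 5) (nat_lit 459) (nat_lit 5) (nat_lit 445) (nat_lit 5) (nat_lit 562) (nat_lit 513) (nat_lit 485)) (XT.nd (nat_lit 78) (nat_lit 912) (nat_lit 0) (XT.lf (nat_lit 0) (nat_lit 3072863971) (nat_lit 988) (nat_lit 3647857555) (nat_lit 76) (nat_lit 743125325) (nat_lit 432) (nat_lit 5) (nat_lit 445) (nat_lit 5) (nat_lit 433) (nat_lit 5) (nat_lit 563) (nat_lit 513) (nat_lit 484)) (XT.lf (nat_lit 0) (nat_lit 1520392393) (nat_lit 912) (nat_lit 4446336540) (nat_lit 988) (nat_lit 1548740718) (nat_lit 420) (nat_lit 5) (nat_lit 432) (nat_lit 5) (nat_lit 433) (nat_lit 5) (nat_lit 564) (nat_lit 513) (nat_lit 483))))))))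
noncomputable def xc53 : XT := (XT.nd (nat_lit 1560) (nat_lit 7904) (nat_lit 0) (XT.nd (nat_lit 780) (nat_lit 4864) (nat_lit 0) (XT.nd (nat_lit 390) (nat_lit 3192) (nat_lit 0) (XT.nd (nat_lit 156) (nat_lit 1748) (nat_lit 0) (XT.nd (nat_lit 78) (nat_lit 836) (nat_lit 0) (XT.lf (nat_lit 0) (nat_lit 1305602183) (nat_lit 988) (nat_lit 789609603) (nat_lit 76) (nat_lit 5473283709) (nat_lit 419) (nat_lit 5) (nat_lit 432) (nat_lit 5) (nat_lit 420) (nat_lit 5) (nat_lit 565) (nat_lit 513) (nat_lit 482)) (XT.lf (nat_lit 0) (nat_lit 4177180291) (nat_lit 912) (nat_lit 3109518478) (nat_lit 76) (nat_lit 336065776) (nat_lit 408) (nat_lit 5) (nat_lit 420) (nat_lit 5) (nat_lit 409) (nat_lit 5) (nat_lit 566) (nat_lit 513) (nat_lit 481))) (XT.nd (nat_lit 78) (nat_lit 912) (nat_lit 0) (XT.lf (nat_lit 0) (nat_lit 2215935854) (nat_lit 836) (nat_lit 4873817641) (nat_lit 912) (nat_lit 588699262) (nat_lit 397) (nat_lit 5) (nat_lit 408) (nat_lit 5) (nat_lit 409) (nat_lit 5) (nat_lit 567) (nat_lit 513)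 (nat_lit 480)) (XT.nd (nat_lit 78) (nat_lit 836) (nat_lit 0) (XT.lf (nat_lit 0) (nat_lit 2266098216) (nat_lit 912) (nat_lit 114398699) (nat_lit 76) (nat_lit 5355035284) (nat_lit 396) (nat_lit 5) (nat_lit 408) (nat_lit 5) (nat_lit 397) (nat_lit 5) (nat_lit 568) (nat_lit 513) (nat_lit 479)) (XT.lf (nat_lit 0) (nat_lit 5157401070) (nat_lit 912) (nat_lit 2441553950) (nat_lit 76) (nat_lit 194979304) (nat_lit 385) (nat_lit 5) (nat_lit 397) (nat_lit 5) (nat_lit 386) (nat_lit 5) (nat_lit 569) (nat_lit 513) (nat_lit 478))))) (XT.nd (nat_lit 156) (nat_lit 1520) (nat_lit 0) (XT.nd (nat_lit 78) (nat_lit 760) (nat_lit 0) (XT.lf (nat_lit 0) (nat_lit 237766938) (nat_lit 912) (nat_lit 4808458518) (nat_lit 76) (nat_lit 2807489553) (nat_lit 373) (nat_lit 5) (nat_lit 385) (nat_lit 5) (nat_lit 374) (nat_lit 5) (nat_lit 570) (nat_lit 513) (nat_lit 477)) (XT.lf (nat_lit 0) (nat_lit 697938941) (nat_lit 760) (nat_lit 2409468753) (nat_lit 836) (nat_lit 4807476396) (nat_lit 363) (nat_lit 5) (nat_lit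 373) (nat_lit 5) (nat_lit 374) (nat_lit 5) (nat_lit 571) (nat_lit 513) (nat_lit 476))) (XT.nd (nat_lit 78) (nat_lit 1520) (nat_lit 0) (XT.lf (nat_lit 0) (nat_lit 6021388418) (nat_lit 836) (nat_lit 1653751642) (nat_lit 76) (nat_lit 302401946) (nat_lit 363) (nat_lit 5) (nat_lit 374) (nat_lit 5) (nat_lit 364) (nat_lit 5) (nat_lit 572) (nat_lit 513) (nat_lit 475)) (XT.nd (nat_lit 78) (nat_lit 684) (nat_lit 0) (XT.lf (nat_lit 0) (nat_lit 935200884) (nat_lit 836) (nat_lit 4044102324) (nat_lit 76) (nat_lit 3062120584) (nat_lit 352) (nat_lit 5) (nat_lit 363) (nat_lit 5) (nat_lit 353) (nat_lit 5) (nat_lit 573) (nat_lit 513) (nat_lit 474)) (XT.lf (nat_lit 0) (nat_lit 1631922234) (nat_lit 684) (nat_lit 2201891194) (nat_lit 760) (nat_lit 4273002850) (nat_lit 343) (nat_lit 5) (nat_lit 352) (nat_lit 5) (nat_lit 353) (nat_lit 5) (nat_lit 574) (nat_lit 513) (nat_lit 473)))))) (XT.nd (nat_lit 390) (nat_lit 2584) (nat_lit 0) (XT.nd (nat_lit 156) (nat_lit 1444) (nat_lit 0) (XT.nd (nat_lit 78)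 (nat_lit 836) (nat_lit 0) (XT.lf (nat_lit 0) (nat_lit 6776151901) (nat_lit 760) (nat_lit 755398930) (nat_lit 76) (nat_lit 642254770) (nat_lit 343) (nat_lit 5) (nat_lit 353) (nat_lit 5) (nat_lit 344) (nat_lit 5) (nat_lit 575) (nat_lit 513) (nat_lit 472)) (XT.lf (nat_lit 0) (nat_lit 1517862481) (nat_lit 836) (nat_lit 3174944460) (nat_lit 76) (nat_lit 3549076433) (nat_lit 332) (nat_lit 5) (nat_lit 343) (nat_lit 5) (nat_lit 333) (nat_lit 5) (nat_lit 576) (nat_lit 513) (nat_lit 471))) (XT.nd (nat_lit 78) (nat_lit 760) (nat_lit 0) (XT.lf (nat_lit 0) (nat_lit 2676949590) (nat_lit 684) (nat_lit 1773996208) (nat_lit 760) (nat_lit 3860636535) (nat_lit 323) (nat_lit 5) (nat_lit 332) (nat_lit 5) (nat_lit 333) (nat_lit 5) (nat_lit 577) (nat_lit 513) (nat_lit 470)) (XT.nd (nat_lit 78) (nat_lit 76) (nat_lit 0) (XT.lf (nat_lit 0) (nat_lit 247885275) (nat_lit 684) (nat_lit 7181611404) (nat_lit 760) (nat_lit 953446226) (nat_lit 314) (nat_lit 5) (nat_lit 323) (nat_lit 5) (nat_lit 324) (nat_lit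 5) (nat_lit 578) (nat_lit 513) (nat_lit 469)) (XT.lf (nat_lit 0) (nat_lit 1991472713) (nat_lit 760) (nat_lit 2209915858) (nat_lit 76) (nat_lit 4253965055) (nat_lit 313) (nat_lit 5) (nat_lit 323) (nat_lit 5) (nat_lit 314) (nat_lit 5) (nat_lit 579) (nat_lit 513) (nat_lit 468))))) (XT.nd (nat_lit 156) (nat_lit 1292) (nat_lit 0) (XT.nd (nat_lit 78) (nat_lit 684) (nat_lit 0) (XT.lf (nat_lit 0) (nat_lit 3824323440) (nat_lit 608) (nat_lit 1140062531) (nat_lit 684) (nat_lit 3565066828) (nat_lit 305) (nat_lit 5) (nat_lit 313) (nat_lit 5) (nat_lit 314) (nat_lit 5) (nat_lit 580) (nat_lit 513) (nat_lit 467)) (XT.lf (nat_lit 0) (nat_lit 1355592233) (nat_lit 684) (nat_lit 6635218473) (nat_lit 760) (nat_lit 614345652) (nat_lit 296) (nat_lit 5) (nat_lit 305) (nat_lit 5) (nat_lit 306) (nat_lit 5) (nat_lit 581) (nat_lit 513) (nat_lit 466))) (XT.nd (nat_lit 78) (nat_lit 1216) (nat_lit 0) (XT.lf (nat_lit 0) (nat_lit 2360965431) (nat_lit 760) (nat_lit 1157642388) (nat_lit 76) (nat_lit 5163518624)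 (nat_lit 295) (nat_lit 5) (nat_lit 305) (nat_lit 5) (nat_lit 296) (nat_lit 5) (nat_lit 582) (nat_lit 513) (nat_lit 465)) (XT.nd (nat_lit 78) (nat_lit 608) (nat_lit 0) (XT.lf (nat_lit 0) (nat_lit 5065647164) (nat_lit 608) (nat_lit 313295323) (nat_lit 684) (nat_lit 3381787776) (nat_lit 287) (nat_lit 5) (nat_lit 295) (nat_lit 5) (nat_lit 296) (nat_lit 5) (nat_lit 583) (nat_lit 513) (nat_lit 464)) (XT.lf (nat_lit 0) (nat_lit 2549292773) (nat_lit 608) (nat_lit 5910438348) (nat_lit 684) (nat_lit 381129201) (nat_lit 279) (nat_lit 5) (nat_lit 287) (nat_lit 5) (nat_lit 288) (nat_lit 5) (nat_lit 584) (nat_lit 513) (nat_lit 463))))))) (XT.nd (nat_lit 780) (nat_lit 3800) (nat_lit 0) (XT.nd (nat_lit 390) (nat_lit 2204) (nat_lit 0) (XT.nd (nat_lit 156) (nat_lit 1216) (nat_lit 0) (XT.nd (nat_lit 78) (nat_lit 608) (nat_lit 0) (XT.lf (nat_lit 0) (nat_lit 2630512640) (nat_lit 684) (nat_lit 26527064) (nat_lit 76) (nat_lit 6265486155) (nat_lit 278) (nat_lit 5) (nat_lit 287) (nat_lit 5) (nat_lit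 279) (nat_lit 5) (nat_lit 585) (nat_lit 513) (nat_lit 462)) (XT.lf (nat_lit 0) (nat_lit 5703181248) (nat_lit 684) (nat_lit 2617513514) (nat_lit 76) (nat_lit 684964633) (nat_lit 270) (nat_lit 5) (nat_lit 279) (nat_lit 5) (nat_lit 271) (nat_lit 5) (nat_lit 586) (nat_lit 513) (nat_lit 461))) (XT.nd (nat_lit 78) (nat_lit 608) (nat_lit 0) (XT.lf (nat_lit 0) (nat_lit 3820771281) (nat_lit 608) (nat_lit 5019363023) (nat_lit 684) (nat_lit 250267634) (nat_lit 262) (nat_lit 5) (nat_lit 270) (nat_lit 5) (nat_lit 271) (nat_lit 5) (nat_lit 587) (nat_lit 513) (nat_lit 460)) (XT.nd (nat_lit 78) (nat_lit 0) (nat_lit 0) (XT.lf (nat_lit 0) (nat_lit 1190784595) (nat_lit 532) (nat_lit 1620491024) (nat_lit 608) (nat_lit 6365478047) (nat_lit 254) (nat_lit 5) (nat_lit 261) (nat_lit 5) (nat_lit 262) (nat_lit 5) (nat_lit 588) (nat_lit 513) (nat_lit 459)) (XT.lf (nat_lit 0) (nat_lit 5939057453) (nat_lit 608) (nat_lit 1479457971) (nat_lit 76) (nat_lit 1846119531) (nat_lit 254) (nat_lit 5) (nat_lit 262)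 (nat_lit 5) (nat_lit 255) (nat_lit 5) (nat_lit 589) (nat_lit 513) (nat_lit 458))))) (XT.nd (nat_lit 156) (nat_lit 1064) (nat_lit 0) (XT.nd (nat_lit 78) (nat_lit 608) (nat_lit 0) (XT.lf (nat_lit 0) (nat_lit 5161903068) (nat_lit 532) (nat_lit 3973278965) (nat_lit 608) (nat_lit 218978829) (nat_lit 247) (nat_lit 5) (nat_lit 254) (nat_lit 5) (nat_lit 255) (nat_lit 5) (nat_lit 590) (nat_lit 513) (nat_lit 457)) (XT.lf (nat_lit 0) (nat_lit 2471650011) (nat_lit 532) (nat_lit 427159971) (nat_lit 608) (nat_lit 6546532004) (nat_lit 239) (nat_lit 5) (nat_lit 246) (nat_lit 5) (nat_lit 247) (nat_lit 5) (nat_lit 591) (nat_lit 513) (nat_lit 456))) (XT.nd (nat_lit 78) (nat_lit 1064) (nat_lit 0) (XT.lf (nat_lit 0) (nat_lit 6087078706) (nat_lit 608) (nat_lit 287207253) (nat_lit 76) (nat_lit 3163813276) (nat_lit 239) (nat_lit 5) (nat_lit 247) (nat_lit 5) (nat_lit 240) (nat_lit 5) (nat_lit 592) (nat_lit 513) (nat_lit 455)) (XT.nd (nat_lit 78) (nat_lit 532) (nat_lit 0) (XT.lf (nat_lit 0) (nat_lit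 6564568917) (nat_lit 532) (nat_lit 2782763053) (nat_lit 608) (nat_lit 285217800) (nat_lit 232) (nat_lit 5) (nat_lit 239) (nat_lit 5) (nat_lit 240) (nat_lit 5) (nat_lit 593) (nat_lit 513) (nat_lit 454)) (XT.lf (nat_lit 0) (nat_lit 2900794712) (nat_lit 532) (nat_lit 5927271535) (nat_lit 76) (nat_lit 900533153) (nat_lit 225) (nat_lit 5) (nat_lit 232) (nat_lit 5) (nat_lit 226) (nat_lit 5) (nat_lit 594) (nat_lit 513) (nat_lit 453)))))) (XT.nd (nat_lit 390) (nat_lit 2280) (nat_lit 0) (XT.nd (nat_lit 156) (nat_lit 988) (nat_lit 0) (XT.nd (nat_lit 78) (nat_lit 0) (nat_lit 0) (XT.lf (nat_lit 0) (nat_lit 963475229) (nat_lit 532) (nat_lit 5191860476) (nat_lit 608) (nat_lit 3671026443) (nat_lit 218) (nat_lit 5) (nat_lit 225) (nat_lit 5) (nat_lit 226) (nat_lit 5) (nat_lit 595) (nat_lit 513) (nat_lit 452)) (XT.lf (nat_lit 0) (nat_lit 8020567198) (nat_lit 532) (nat_lit 1457775488) (nat_lit 608) (nat_lit 447672296) (nat_lit 218) (nat_lit 5) (nat_lit 225) (nat_lit 5) (nat_lit 226) (nat_lit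 5) (nat_lit 596) (nat_lit 513) (nat_lit 451))) (XT.nd (nat_lit 78) (nat_lit 456) (nat_lit 0) (XT.lf (nat_lit 0) (nat_lit 2816178376) (nat_lit 532) (nat_lit 4853366842) (nat_lit 76) (nat_lit 2357483526) (nat_lit 211) (nat_lit 5) (nat_lit 218) (nat_lit 5) (nat_lit 212) (nat_lit 5) (nat_lit 597) (nat_lit 513) (nat_lit 450)) (XT.nd (nat_lit 78) (nat_lit 0) (nat_lit 0) (XT.lf (nat_lit 0) (nat_lit 2255700900) (nat_lit 456) (nat_lit 3885136241) (nat_lit 532) (nat_lit 3989138146) (nat_lit 205) (nat_lit 5) (nat_lit 211) (nat_lit 5) (nat_lit 212) (nat_lit 5) (nat_lit 598) (nat_lit 513) (nat_lit 449)) (XT.lf (nat_lit 0) (nat_lit 9521522775) (nat_lit 456) (nat_lit 7750390) (nat_lit 532) (nat_lit 705764071) (nat_lit 205) (nat_lit 5) (nat_lit 211) (nat_lit 5) (nat_lit 212) (nat_lit 5) (nat_lit 599) (nat_lit 513) (nat_lit 448))))) (XT.nd (nat_lit 234) (nat_lit 912) (nat_lit 0) (XT.nd (nat_lit 78) (nat_lit 836) (nat_lit 0) (XT.lf (nat_lit 0) (nat_lit 2642621173) (nat_lit 532) (nat_lit 3758315689)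 (nat_lit 76) (nat_lit 3940242180) (nat_lit 198) (nat_lit 5) (nat_lit 205) (nat_lit 5) (nat_lit 199) (nat_lit 5) (nat_lit 600) (nat_lit 513) (nat_lit 447)) (XT.nd (nat_lit 78) (nat_lit 380) (nat_lit 0) (XT.lf (nat_lit 0) (nat_lit 3576713511) (nat_lit 456) (nat_lit 2465341757) (nat_lit 532) (nat_lit 4407426520) (nat_lit 192) (nat_lit 5) (nat_lit 198) (nat_lit 5) (nat_lit 199) (nat_lit 5) (nat_lit 601) (nat_lit 513) (nat_lit 446)) (XT.lf (nat_lit 0) (nat_lit 495034131) (nat_lit 380) (nat_lit 9018774257) (nat_lit 456) (nat_lit 1046057585) (nat_lit 187) (nat_lit 5) (nat_lit 192) (nat_lit 5) (nat_lit 193) (nat_lit 5) (nat_lit 602) (nat_lit 513) (nat_lit 445)))) (XT.nd (nat_lit 78) (nat_lit 836) (nat_lit 0) (XT.lf (nat_lit 0) (nat_lit 2379831456) (nat_lit 456) (nat_lit 2651578245) (nat_lit 76) (nat_lit 5640169871) (nat_lit 186) (nat_lit 5) (nat_lit 192) (nat_lit 5) (nat_lit 187) (nat_lit 5) (nat_lit 603) (nat_lit 513) (nat_lit 444)) (XT.nd (nat_lit 78) (nat_lit 380) (nat_lit 0) (XT.lf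 (nat_lit 0) (nat_lit 4917212471) (nat_lit 456) (nat_lit 941416879) (nat_lit 532) (nat_lit 4926793726) (nat_lit 180) (nat_lit 5) (nat_lit 186) (nat_lit 5) (nat_lit 187) (nat_lit 5) (nat_lit 604) (nat_lit 513) (nat_lit 443)) (XT.lf (nat_lit 0) (nat_lit 1723124858) (nat_lit 380) (nat_lit 7700634499) (nat_lit 456) (nat_lit 1477450810) (nat_lit 175) (nat_lit 5) (nat_lit 180) (nat_lit 5) (nat_lit 181) (nat_lit 5) (nat_lit 605) (nat_lit 513) (nat_lit 442))))))))
noncomputable def xc54 : XT := (XT.nd (nat_lit 75582) (nat_lit 0) (nat_lit 33136) (XT.nd (nat_lit 780) (nat_lit 1672) (nat_lit 0) (XT.nd (nat_lit 390) (nat_lit 1596) (nat_lit 0) (XT.nd (nat_lit 156) (nat_lit 836) (nat_lit 0) (XT.nd (nat_lit 78) (nat_lit 380) (nat_lit 0) (XT.lf (nat_lit 0) (nat_lit 2026777189) (nat_lit 456) (nat_lit 1543067000) (nat_lit 76) (nat_lit 7448952268) (nat_lit 174) (nat_lit 5) (nat_lit 180) (nat_lit 5) (nat_lit 175) (nat_lit 5) (nat_lit 606) (nat_lit 513) (nat_lit 441)) (XT.lf (nat_lit 0) (nat_lit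 5593861100) (nat_lit 456) (nat_lit 4875348939) (nat_lit 76) (nat_lit 669079761) (nat_lit 169) (nat_lit 5) (nat_lit 175) (nat_lit 5) (nat_lit 170) (nat_lit 5) (nat_lit 607) (nat_lit 513) (nat_lit 440))) (XT.nd (nat_lit 78) (nat_lit 456) (nat_lit 0) (XT.lf (nat_lit 0) (nat_lit 2951170747) (nat_lit 380) (nat_lit 6301990821) (nat_lit 456) (nat_lit 2006595645) (nat_lit 164) (nat_lit 5) (nat_lit 169) (nat_lit 5) (nat_lit 170) (nat_lit 5) (nat_lit 608) (nat_lit 513) (nat_lit 439)) (XT.nd (nat_lit 78) (nat_lit 380) (nat_lit 0) (XT.lf (nat_lit 0) (nat_lit 1581664672) (nat_lit 456) (nat_lit 443256485) (nat_lit 76) (nat_lit 9358512805) (nat_lit 163) (nat_lit 5) (nat_lit 169) (nat_lit 5) (nat_lit 164) (nat_lit 5) (nat_lit 609) (nat_lit 513) (nat_lit 438)) (XT.lf (nat_lit 0) (nat_lit 5248163092) (nat_lit 456) (nat_lit 3907421164) (nat_lit 76) (nat_lit 2353069495) (nat_lit 158) (nat_lit 5) (nat_lit 164) (nat_lit 5) (nat_lit 159) (nat_lit 5) (nat_lit 610) (nat_lit 513) (nat_lit 437)))))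 (XT.nd (nat_lit 156) (nat_lit 760) (nat_lit 0) (XT.nd (nat_lit 78) (nat_lit 456) (nat_lit 0) (XT.lf (nat_lit 0) (nat_lit 4168380446) (nat_lit 380) (nat_lit 4831651430) (nat_lit 456) (nat_lit 2636106824) (nat_lit 153) (nat_lit 5) (nat_lit 158) (nat_lit 5) (nat_lit 159) (nat_lit 5) (nat_lit 611) (nat_lit 513) (nat_lit 436)) (XT.lf (nat_lit 0) (nat_lit 645161025) (nat_lit 380) (nat_lit 400938583) (nat_lit 456) (nat_lit 10719952562) (nat_lit 147) (nat_lit 5) (nat_lit 152) (nat_lit 5) (nat_lit 153) (nat_lit 5) (nat_lit 612) (nat_lit 513) (nat_lit 435))) (XT.nd (nat_lit 78) (nat_lit 760) (nat_lit 0) (XT.lf (nat_lit 0) (nat_lit 4812713776) (nat_lit 456) (nat_lit 2969961268) (nat_lit 76) (nat_lit 4114620632) (nat_lit 147) (nat_lit 5) (nat_lit 153) (nat_lit 5) (nat_lit 148) (nat_lit 5) (nat_lit 613) (nat_lit 513) (nat_lit 434)) (XT.nd (nat_lit 78) (nat_lit 456) (nat_lit 0) (XT.lf (nat_lit 0) (nat_lit 5363203831) (nat_lit 304) (nat_lit 3298388301) (nat_lit 380) (nat_lit 3369434732)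 (nat_lit 143) (nat_lit 5) (nat_lit 147) (nat_lit 5) (nat_lit 148) (nat_lit 5) (nat_lit 614) (nat_lit 513) (nat_lit 433)) (XT.lf (nat_lit 0) (nat_lit 423581788) (nat_lit 456) (nat_lit 10468521023) (nat_lit 76) (nat_lit 1275095219) (nat_lit 137) (nat_lit 5) (nat_lit 143) (nat_lit 5) (nat_lit 138) (nat_lit 5) (nat_lit 615) (nat_lit 513) (nat_lit 432)))))) (XT.nd (nat_lit 390) (nat_lit 684) (nat_lit 0) (XT.nd (nat_lit 156) (nat_lit 684) (nat_lit 0) (XT.nd (nat_lit 78) (nat_lit 304) (nat_lit 0) (XT.lf (nat_lit 0) (nat_lit 4283975190) (nat_lit 456) (nat_lit 2075483736) (nat_lit 76) (nat_lit 5945456956) (nat_lit 137) (nat_lit 5) (nat_lit 143) (nat_lit 5) (nat_lit 138) (nat_lit 5) (nat_lit 616) (nat_lit 513) (nat_lit 431)) (XT.lf (nat_lit 0) (nat_lit 6523199522) (nat_lit 304) (nat_lit 1711030416) (nat_lit 380) (nat_lit 4210906423) (nat_lit 133) (nat_lit 5) (nat_lit 137) (nat_lit 5) (nat_lit 138) (nat_lit 5) (nat_lit 617) (nat_lit 513) (nat_lit 430))) (XT.nd (nat_lit 78) (nat_lit 380)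 (nat_lit 0) (XT.lf (nat_lit 0) (nat_lit 2701849111) (nat_lit 304) (nat_lit 9583335575) (nat_lit 380) (nat_lit 302543981) (nat_lit 129) (nat_lit 5) (nat_lit 133) (nat_lit 5) (nat_lit 134) (nat_lit 5) (nat_lit 618) (nat_lit 513) (nat_lit 429)) (XT.nd (nat_lit 78) (nat_lit 304) (nat_lit 0) (XT.lf (nat_lit 0) (nat_lit 3657536134) (nat_lit 380) (nat_lit 1237510996) (nat_lit 76) (nat_lit 7837211241) (nat_lit 128) (nat_lit 5) (nat_lit 133) (nat_lit 5) (nat_lit 129) (nat_lit 5) (nat_lit 619) (nat_lit 513) (nat_lit 428)) (XT.lf (nat_lit 0) (nat_lit 7634891782) (nat_lit 304) (nat_lit 78560108) (nat_lit 380) (nat_lit 5165774319) (nat_lit 124) (nat_lit 5) (nat_lit 128) (nat_lit 5) (nat_lit 129) (nat_lit 5) (nat_lit 620) (nat_lit 513) (nat_lit 427))))) (XT.nd (nat_lit 156) (nat_lit 304) (nat_lit 0) (XT.nd (nat_lit 78) (nat_lit 76) (nat_lit 0) (XT.lf (nat_lit 0) (nat_lit 3641659952) (nat_lit 304) (nat_lit 8243472384) (nat_lit 380) (nat_lit 1143309356) (nat_lit 120) (nat_lit 5) (nat_lit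 124) (nat_lit 5) (nat_lit 125) (nat_lit 5) (nat_lit 621) (nat_lit 513) (nat_lit 426)) (XT.lf (nat_lit 0) (nat_lit 2928059782) (nat_lit 380) (nat_lit 470724750) (nat_lit 76) (nat_lit 9781328392) (nat_lit 119) (nat_lit 5) (nat_lit 124) (nat_lit 5) (nat_lit 120) (nat_lit 5) (nat_lit 622) (nat_lit 513) (nat_lit 425))) (XT.nd (nat_lit 74100) (nat_lit 0) (nat_lit 47728) (XT.lf (nat_lit 0) (nat_lit 7104150749) (nat_lit 380) (nat_lit 4660808474) (nat_lit 76) (nat_lit 1568936287) (nat_lit 115) (nat_lit 5) (nat_lit 120) (nat_lit 5) (nat_lit 116) (nat_lit 5) (nat_lit 623) (nat_lit 513) (nat_lit 424)) (XT.nd (nat_lit 78) (nat_lit 532) (nat_lit 0) (XT.lf (nat_lit 0) (nat_lit 767105300) (nat_lit 532) (nat_lit 1721235864) (nat_lit 0) (nat_lit 767105300) (nat_lit 750) (nat_lit 5) (nat_lit 757) (nat_lit 4) (nat_lit 750) (nat_lit 4) (nat_lit 532) (nat_lit 514) (nat_lit 514)) (XT.lf (nat_lit 0) (nat_lit 355653640) (nat_lit 532) (nat_lit 4393069157) (nat_lit 532) (nat_lit 1774325059) (nat_lit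 743) (nat_lit 4) (nat_lit 750) (nat_lit 5) (nat_lit 750) (nat_lit 4) (nat_lit 533) (nat_lit 514) (nat_lit 513))))))) (XT.nd (nat_lit 780) (nat_lit 9424) (nat_lit 0) (XT.nd (nat_lit 390) (nat_lit 2888) (nat_lit 0) (XT.nd (nat_lit 156) (nat_lit 1596) (nat_lit 0) (XT.nd (nat_lit 78) (nat_lit 608) (nat_lit 0) (XT.lf (nat_lit 0) (nat_lit 1418660202) (nat_lit 608) (nat_lit 2320446663) (nat_lit 76) (nat_lit 2797234582) (nat_lit 742) (nat_lit 5) (nat_lit 750) (nat_lit 5) (nat_lit 743) (nat_lit 4) (nat_lit 534) (nat_lit 514) (nat_lit 512)) (XT.lf (nat_lit 0) (nat_lit 1561156969) (nat_lit 608) (nat_lit 3025156057) (nat_lit 684) (nat_lit 1964674070) (nat_lit 734) (nat_lit 5) (nat_lit 742) (nat_lit 5) (nat_lit 743) (nat_lit 4) (nat_lit 535) (nat_lit 514) (nat_lit 511))) (XT.nd (nat_lit 78) (nat_lit 1520) (nat_lit 0) (XT.lf (nat_lit 0) (nat_lit 1175711890) (nat_lit 684) (nat_lit 1073674505) (nat_lit 76) (nat_lit 4317573749) (nat_lit 733) (nat_lit 5) (nat_lit 742) (nat_lit 5) (nat_lit 734)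 (nat_lit 5) (nat_lit 536) (nat_lit 514) (nat_lit 510)) (XT.nd (nat_lit 78) (nat_lit 836) (nat_lit 0) (XT.lf (nat_lit 0) (nat_lit 2895096957) (nat_lit 684) (nat_lit 1402848939) (nat_lit 760) (nat_lit 2286151459) (nat_lit 724) (nat_lit 5) (nat_lit 733) (nat_lit 5) (nat_lit 734) (nat_lit 5) (nat_lit 537) (nat_lit 514) (nat_lit 509)) (XT.lf (nat_lit 0) (nat_lit 303262208) (nat_lit 760) (nat_lit 502601082) (nat_lit 836) (nat_lit 5796883124) (nat_lit 713) (nat_lit 5) (nat_lit 723) (nat_lit 5) (nat_lit 724) (nat_lit 5) (nat_lit 538) (nat_lit 514) (nat_lit 508))))) (XT.nd (nat_lit 156) (nat_lit 1976) (nat_lit 0) (XT.nd (nat_lit 78) (nat_lit 912) (nat_lit 0) (XT.lf (nat_lit 0) (nat_lit 3885135033) (nat_lit 836) (nat_lit 2266455384) (nat_lit 76) (nat_lit 470765962) (nat_lit 713) (nat_lit 5) (nat_lit 724) (nat_lit 5) (nat_lit 714) (nat_lit 5) (nat_lit 539) (nat_lit 514) (nat_lit 507)) (XT.lf (nat_lit 0) (nat_lit 323133645) (nat_lit 912) (nat_lit 4829395747) (nat_lit 76) (nat_lit 1490899011)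 (nat_lit 701) (nat_lit 5) (nat_lit 713) (nat_lit 5) (nat_lit 702) (nat_lit 5) (nat_lit 540) (nat_lit 514) (nat_lit 506))) (XT.nd (nat_lit 78) (nat_lit 1976) (nat_lit 0) (XT.lf (nat_lit 0) (nat_lit 3353750771) (nat_lit 912) (nat_lit 728113698) (nat_lit 76) (nat_lit 2583791510) (nat_lit 701) (nat_lit 5) (nat_lit 713) (nat_lit 5) (nat_lit 702) (nat_lit 5) (nat_lit 541) (nat_lit 514) (nat_lit 505)) (XT.nd (nat_lit 78) (nat_lit 1064) (nat_lit 0) (XT.lf (nat_lit 0) (nat_lit 3449333746) (nat_lit 912) (nat_lit 2949769634) (nat_lit 988) (nat_lit 290152167) (nat_lit 689) (nat_lit 5) (nat_lit 701) (nat_lit 5) (nat_lit 702) (nat_lit 5) (nat_lit 542) (nat_lit 514) (nat_lit 504)) (XT.lf (nat_lit 0) (nat_lit 949592335) (nat_lit 988) (nat_lit 1749191145) (nat_lit 1064) (nat_lit 4015323278) (nat_lit 675) (nat_lit 5) (nat_lit 688) (nat_lit 5) (nat_lit 689) (nat_lit 5) (nat_lit 543) (nat_lit 514) (nat_lit 503)))))) (XT.nd (nat_lit 390) (nat_lit 5852) (nat_lit 0) (XT.nd (nat_lit 156) (nat_lit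 2432) (nat_lit 0) (XT.nd (nat_lit 78) (nat_lit 1140) (nat_lit 0) (XT.lf (nat_lit 0) (nat_lit 5213535466) (nat_lit 988) (nat_lit 485086167) (nat_lit 1064) (nat_lit 1041704157) (nat_lit 675) (nat_lit 5) (nat_lit 688) (nat_lit 5) (nat_lit 689) (nat_lit 5) (nat_lit 544) (nat_lit 514) (nat_lit 502)) (XT.lf (nat_lit 0) (nat_lit 1922904874) (nat_lit 1140) (nat_lit 4005449296) (nat_lit 76) (nat_lit 839312715) (nat_lit 660) (nat_lit 5) (nat_lit 675) (nat_lit 5) (nat_lit 661) (nat_lit 5) (nat_lit 545) (nat_lit 514) (nat_lit 501))) (XT.nd (nat_lit 78) (nat_lit 1292) (nat_lit 0) (XT.lf (nat_lit 0) (nat_lit 303887564) (nat_lit 1140) (nat_lit 4579676585) (nat_lit 1216) (nat_lit 1912847603) (nat_lit 645) (nat_lit 5) (nat_lit 660) (nat_lit 5) (nat_lit 661) (nat_lit 5) (nat_lit 546) (nat_lit 514) (nat_lit 500)) (XT.nd (nat_lit 78) (nat_lit 1216) (nat_lit 0) (XT.lf (nat_lit 0) (nat_lit 1026324020) (nat_lit 1216) (nat_lit 2131452913) (nat_lit 76) (nat_lit 3668568028) (nat_lit 644) (nat_lit 5)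 (nat_lit 660) (nat_lit 5) (nat_lit 645) (nat_lit 5) (nat_lit 547) (nat_lit 514) (nat_lit 499)) (XT.lf (nat_lit 0) (nat_lit 2282350585) (nat_lit 1216) (nat_lit 1668115336) (nat_lit 1292) (nat_lit 2907130325) (nat_lit 628) (nat_lit 5) (nat_lit 644) (nat_lit 5) (nat_lit 645) (nat_lit 5) (nat_lit 548) (nat_lit 514) (nat_lit 498))))) (XT.nd (nat_lit 234) (nat_lit 3116) (nat_lit 0) (XT.nd (nat_lit 78) (nat_lit 2736) (nat_lit 0) (XT.lf (nat_lit 0) (nat_lit 6761908276) (nat_lit 1216) (nat_lit 123345268) (nat_lit 1292) (nat_lit 5183879) (nat_lit 628) (nat_lit 5) (nat_lit 644) (nat_lit 5) (nat_lit 645) (nat_lit 5) (nat_lit 549) (nat_lit 514) (nat_lit 497)) (XT.nd (nat_lit 78) (nat_lit 1368) (nat_lit 0) (XT.lf (nat_lit 0) (nat_lit 2893057575) (nat_lit 1368) (nat_lit 2539685929) (nat_lit 76) (nat_lit 1491275859) (nat_lit 610) (nat_lit 5) (nat_lit 628) (nat_lit 5) (nat_lit 611) (nat_lit 5) (nat_lit 550) (nat_lit 514) (nat_lit 496)) (XT.lf (nat_lit 0) (nat_lit 2004197306) (nat_lit 1368)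 (nat_lit 3799295996) (nat_lit 1444) (nat_lit 1155700635) (nat_lit 592) (nat_lit 5) (nat_lit 610) (nat_lit 5) (nat_lit 611) (nat_lit 5) (nat_lit 551) (nat_lit 514) (nat_lit 495)))) (XT.nd (nat_lit 78) (nat_lit 3040) (nat_lit 0) (XT.lf (nat_lit 0) (nat_lit 1710961852) (nat_lit 1444) (nat_lit 385629480) (nat_lit 76) (nat_lit 4899113217) (nat_lit 591) (nat_lit 5) (nat_lit 610) (nat_lit 5) (nat_lit 592) (nat_lit 5) (nat_lit 552) (nat_lit 514) (nat_lit 494)) (XT.nd (nat_lit 78) (nat_lit 1596) (nat_lit 0) (XT.lf (nat_lit 0) (nat_lit 4271898184) (nat_lit 1444) (nat_lit 316557735) (nat_lit 1520) (nat_lit 2444964422) (nat_lit 572) (nat_lit 5) (nat_lit 591) (nat_lit 5) (nat_lit 592) (nat_lit 5) (nat_lit 553) (nat_lit 514) (nat_lit 493)) (XT.lf (nat_lit 0) (nat_lit 412342801) (nat_lit 1596) (nat_lit 5156361029) (nat_lit 76) (nat_lit 1503801782) (nat_lit 551) (nat_lit 5) (nat_lit 572) (nat_lit 5) (nat_lit 552) (nat_lit 5) (nat_lit 554) (nat_lit 514) (nat_lit 492))))))))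
noncomputable def xc55 : XT := (XT.nd (nat_lit 1560) (nat_lit 9652) (nat_lit 0) (XT.nd (nat_lit 780) (nat_lit 5168) (nat_lit 0) (XT.nd (nat_lit 390) (nat_lit 4788) (nat_lit 0) (XT.nd (nat_lit 156) (nat_lit 3572) (nat_lit 0) (XT.nd (nat_lit 78) (nat_lit 1596) (nat_lit 0) (XT.lf (nat_lit 0) (nat_lit 3257336999) (nat_lit 1596) (nat_lit 458510997) (nat_lit 76) (nat_lit 3396942589) (nat_lit 551) (nat_lit 5) (nat_lit 572) (nat_lit 5) (nat_lit 552) (nat_lit 5) (nat_lit 555) (nat_lit 514) (nat_lit 491)) (XT.lf (nat_lit 0) (nat_lit 4338335354) (nat_lit 1596) (nat_lit 1792688471) (nat_lit 1672) (nat_lit 1023428243) (nat_lit 530) (nat_lit 5) (nat_lit 551) (nat_lit 5) (nat_lit 552) (nat_lit 5) (nat_lit 556) (nat_lit 514) (nat_lit 490))) (XT.nd (nat_lit 78) (nat_lit 1824) (nat_lit 0) (XT.lf (nat_lit 0) (nat_lit 1802201576) (nat_lit 1748) (nat_lit 5196505653) (nat_lit 76) (nat_lit 198775212) (nat_lit 507) (nat_lit 5) (nat_lit 530) (nat_lit 5) (nat_lit 508) (nat_lit 5) (nat_lit 557) (nat_lit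 514) (nat_lit 489)) (XT.nd (nat_lit 78) (nat_lit 1824) (nat_lit 0) (XT.lf (nat_lit 0) (nat_lit 4646351465) (nat_lit 1748) (nat_lit 360241073) (nat_lit 76) (nat_lit 2235137643) (nat_lit 507) (nat_lit 5) (nat_lit 530) (nat_lit 5) (nat_lit 508) (nat_lit 5) (nat_lit 558) (nat_lit 514) (nat_lit 488)) (XT.lf (nat_lit 0) (nat_lit 232564639) (nat_lit 1824) (nat_lit 2708075276) (nat_lit 76) (nat_lit 4346685967) (nat_lit 483) (nat_lit 5) (nat_lit 507) (nat_lit 5) (nat_lit 484) (nat_lit 5) (nat_lit 559) (nat_lit 514) (nat_lit 487))))) (XT.nd (nat_lit 156) (nat_lit 2964) (nat_lit 0) (XT.nd (nat_lit 78) (nat_lit 0) (nat_lit 0) (XT.lf (nat_lit 0) (nat_lit 2248522239) (nat_lit 1824) (nat_lit 797109109) (nat_lit 1900) (nat_lit 4288598627) (nat_lit 459) (nat_lit 5) (nat_lit 483) (nat_lit 5) (nat_lit 484) (nat_lit 5) (nat_lit 560) (nat_lit 514) (nat_lit 486)) (XT.lf (nat_lit 0) (nat_lit 5889246701) (nat_lit 1900) (nat_lit 103010729) (nat_lit 76) (nat_lit 1390334776) (nat_lit 459) (nat_lit 5)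 (nat_lit 484) (nat_lit 5) (nat_lit 460) (nat_lit 5) (nat_lit 561) (nat_lit 514) (nat_lit 485))) (XT.nd (nat_lit 78) (nat_lit 1824) (nat_lit 0) (XT.lf (nat_lit 0) (nat_lit 1325578420) (nat_lit 1140) (nat_lit 2453543157) (nat_lit 76) (nat_lit 3652917890) (nat_lit 444) (nat_lit 5) (nat_lit 459) (nat_lit 5) (nat_lit 445) (nat_lit 5) (nat_lit 562) (nat_lit 514) (nat_lit 484)) (XT.nd (nat_lit 78) (nat_lit 912) (nat_lit 0) (XT.lf (nat_lit 0) (nat_lit 2653039328) (nat_lit 912) (nat_lit 1494137446) (nat_lit 988) (nat_lit 3335781110) (nat_lit 432) (nat_lit 5) (nat_lit 444) (nat_lit 5) (nat_lit 445) (nat_lit 5) (nat_lit 563) (nat_lit 514) (nat_lit 483)) (XT.lf (nat_lit 0) (nat_lit 305814730) (nat_lit 912) (nat_lit 6692402287) (nat_lit 988) (nat_lit 537222814) (nat_lit 420) (nat_lit 5) (nat_lit 432) (nat_lit 5) (nat_lit 433) (nat_lit 5) (nat_lit 564) (nat_lit 514) (nat_lit 482)))))) (XT.nd (nat_lit 390) (nat_lit 2508) (nat_lit 0) (XT.nd (nat_lit 156) (nat_lit 1748) (nat_lit 0) (XT.nd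 (nat_lit 78) (nat_lit 836) (nat_lit 0) (XT.lf (nat_lit 0) (nat_lit 2278773656) (nat_lit 988) (nat_lit 2057175985) (nat_lit 76) (nat_lit 3252888840) (nat_lit 419) (nat_lit 5) (nat_lit 432) (nat_lit 5) (nat_lit 420) (nat_lit 5) (nat_lit 565) (nat_lit 514) (nat_lit 481)) (XT.lf (nat_lit 0) (nat_lit 3204812502) (nat_lit 836) (nat_lit 1910230019) (nat_lit 912) (nat_lit 2528773696) (nat_lit 408) (nat_lit 5) (nat_lit 419) (nat_lit 5) (nat_lit 420) (nat_lit 5) (nat_lit 566) (nat_lit 514) (nat_lit 480))) (XT.nd (nat_lit 78) (nat_lit 836) (nat_lit 0) (XT.lf (nat_lit 0) (nat_lit 277980805) (nat_lit 912) (nat_lit 6847485220) (nat_lit 76) (nat_lit 574914745) (nat_lit 396) (nat_lit 5) (nat_lit 408) (nat_lit 5) (nat_lit 397) (nat_lit 5) (nat_lit 567) (nat_lit 514) (nat_lit 479)) (XT.nd (nat_lit 78) (nat_lit 836) (nat_lit 0) (XT.lf (nat_lit 0) (nat_lit 3100919903) (nat_lit 912) (nat_lit 1529579837) (nat_lit 76) (nat_lit 3127369134) (nat_lit 396) (nat_lit 5) (nat_lit 408) (nat_lit 5) (nat_lit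 397) (nat_lit 5) (nat_lit 568) (nat_lit 514) (nat_lit 478)) (XT.lf (nat_lit 0) (nat_lit 3893483666) (nat_lit 836) (nat_lit 2064311511) (nat_lit 912) (nat_lit 1859166683) (nat_lit 385) (nat_lit 5) (nat_lit 396) (nat_lit 5) (nat_lit 397) (nat_lit 5) (nat_lit 569) (nat_lit 514) (nat_lit 477))))) (XT.nd (nat_lit 156) (nat_lit 1596) (nat_lit 0) (XT.nd (nat_lit 78) (nat_lit 0) (nat_lit 0) (XT.lf (nat_lit 0) (nat_lit 958008706) (nat_lit 912) (nat_lit 6351701335) (nat_lit 76) (nat_lit 567872371) (nat_lit 373) (nat_lit 5) (nat_lit 385) (nat_lit 5) (nat_lit 374) (nat_lit 5) (nat_lit 570) (nat_lit 514) (nat_lit 476)) (XT.lf (nat_lit 0) (nat_lit 3799870377) (nat_lit 912) (nat_lit 880753861) (nat_lit 76) (nat_lit 3258685013) (nat_lit 373) (nat_lit 5) (nat_lit 385) (nat_lit 5) (nat_lit 374) (nat_lit 5) (nat_lit 571) (nat_lit 514) (nat_lit 475))) (XT.nd (nat_lit 78) (nat_lit 836) (nat_lit 0) (XT.lf (nat_lit 0) (nat_lit 4709298693) (nat_lit 760) (nat_lit 1973807110) (nat_lit 836) (nat_lit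 1319478405) (nat_lit 363) (nat_lit 5) (nat_lit 373) (nat_lit 5) (nat_lit 374) (nat_lit 5) (nat_lit 572) (nat_lit 514) (nat_lit 474)) (XT.nd (nat_lit 78) (nat_lit 0) (nat_lit 0) (XT.lf (nat_lit 0) (nat_lit 1516997820) (nat_lit 836) (nat_lit 5748624928) (nat_lit 76) (nat_lit 801693186) (nat_lit 352) (nat_lit 5) (nat_lit 363) (nat_lit 5) (nat_lit 353) (nat_lit 5) (nat_lit 573) (nat_lit 514) (nat_lit 473)) (XT.lf (nat_lit 0) (nat_lit 4382607948) (nat_lit 836) (nat_lit 120175125) (nat_lit 76) (nat_lit 3630587405) (nat_lit 352) (nat_lit 5) (nat_lit 363) (nat_lit 5) (nat_lit 353) (nat_lit 5) (nat_lit 574) (nat_lit 514) (nat_lit 472))))))) (XT.nd (nat_lit 780) (nat_lit 4104) (nat_lit 0) (XT.nd (nat_lit 390) (nat_lit 2584) (nat_lit 0) (XT.nd (nat_lit 156) (nat_lit 1444) (nat_lit 0) (XT.nd (nat_lit 78) (nat_lit 836) (nat_lit 0) (XT.lf (nat_lit 0) (nat_lit 5643022495) (nat_lit 684) (nat_lit 1654771588) (nat_lit 760) (nat_lit 903110737) (nat_lit 343) (nat_lit 5) (nat_lit 352) (nat_lit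 5) (nat_lit 353) (nat_lit 5) (nat_lit 575) (nat_lit 514) (nat_lit 471)) (XT.lf (nat_lit 0) (nat_lit 1961194353) (nat_lit 836) (nat_lit 5047647068) (nat_lit 76) (nat_lit 1260973350) (nat_lit 332) (nat_lit 5) (nat_lit 343) (nat_lit 5) (nat_lit 333) (nat_lit 5) (nat_lit 576) (nat_lit 514) (nat_lit 470))) (XT.nd (nat_lit 78) (nat_lit 760) (nat_lit 0) (XT.lf (nat_lit 0) (nat_lit 752994080) (nat_lit 684) (nat_lit 4107180012) (nat_lit 760) (nat_lit 3480023568) (nat_lit 323) (nat_lit 5) (nat_lit 332) (nat_lit 5) (nat_lit 333) (nat_lit 5) (nat_lit 577) (nat_lit 514) (nat_lit 469)) (XT.nd (nat_lit 78) (nat_lit 760) (nat_lit 0) (XT.lf (nat_lit 0) (nat_lit 6685855874) (nat_lit 684) (nat_lit 1122010713) (nat_lit 760) (nat_lit 604310636) (nat_lit 323) (nat_lit 5) (nat_lit 332) (nat_lit 5) (nat_lit 333) (nat_lit 5) (nat_lit 578) (nat_lit 514) (nat_lit 468)) (XT.lf (nat_lit 0) (nat_lit 2296034970) (nat_lit 760) (nat_lit 4257792907) (nat_lit 76) (nat_lit 1931516366) (nat_lit 313) (nat_lit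 5) (nat_lit 323) (nat_lit 5) (nat_lit 314) (nat_lit 5) (nat_lit 579) (nat_lit 514) (nat_lit 467))))) (XT.nd (nat_lit 156) (nat_lit 1976) (nat_lit 0) (XT.nd (nat_lit 78) (nat_lit 0) (nat_lit 0) (XT.lf (nat_lit 0) (nat_lit 1723044315) (nat_lit 608) (nat_lit 3511401283) (nat_lit 684) (nat_lit 3325689587) (nat_lit 305) (nat_lit 5) (nat_lit 313) (nat_lit 5) (nat_lit 314) (nat_lit 5) (nat_lit 580) (nat_lit 514) (nat_lit 466)) (XT.lf (nat_lit 0) (nat_lit 7829353518) (nat_lit 608) (nat_lit 389195790) (nat_lit 684) (nat_lit 418137540) (nat_lit 305) (nat_lit 5) (nat_lit 313) (nat_lit 5) (nat_lit 314) (nat_lit 5) (nat_lit 581) (nat_lit 514) (nat_lit 465))) (XT.nd (nat_lit 78) (nat_lit 1216) (nat_lit 0) (XT.lf (nat_lit 0) (nat_lit 2526176549) (nat_lit 760) (nat_lit 3387803437) (nat_lit 76) (nat_lit 2800221560) (nat_lit 295) (nat_lit 5) (nat_lit 305) (nat_lit 5) (nat_lit 296) (nat_lit 5) (nat_lit 582) (nat_lit 514) (nat_lit 464)) (XT.nd (nat_lit 78) (nat_lit 608) (nat_lit 0) (XT.lf (nat_lit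 0) (nat_lit 2779862630) (nat_lit 608) (nat_lit 2729302897) (nat_lit 684) (nat_lit 3284341187) (nat_lit 287) (nat_lit 5) (nat_lit 295) (nat_lit 5) (nat_lit 296) (nat_lit 5) (nat_lit 583) (nat_lit 514) (nat_lit 463)) (XT.lf (nat_lit 0) (nat_lit 189630609) (nat_lit 608) (nat_lit 8349363032) (nat_lit 684) (nat_lit 335663897) (nat_lit 279) (nat_lit 5) (nat_lit 287) (nat_lit 5) (nat_lit 288) (nat_lit 5) (nat_lit 584) (nat_lit 514) (nat_lit 462)))))) (XT.nd (nat_lit 390) (nat_lit 2204) (nat_lit 0) (XT.nd (nat_lit 156) (nat_lit 1216) (nat_lit 0) (XT.nd (nat_lit 78) (nat_lit 608) (nat_lit 0) (XT.lf (nat_lit 0) (nat_lit 2655520375) (nat_lit 684) (nat_lit 2446217183) (nat_lit 76) (nat_lit 3854978332) (nat_lit 278) (nat_lit 5) (nat_lit 287) (nat_lit 5) (nat_lit 279) (nat_lit 5) (nat_lit 585) (nat_lit 514) (nat_lit 461)) (XT.lf (nat_lit 0) (nat_lit 3915130907) (nat_lit 608) (nat_lit 1772993586) (nat_lit 684) (nat_lit 3352527688) (nat_lit 270) (nat_lit 5) (nat_lit 278) (nat_lit 5) (nat_lit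 279) (nat_lit 5) (nat_lit 586) (nat_lit 514) (nat_lit 460))) (XT.nd (nat_lit 78) (nat_lit 608) (nat_lit 0) (XT.lf (nat_lit 0) (nat_lit 1265150293) (nat_lit 608) (nat_lit 7512529978) (nat_lit 684) (nat_lit 348663835) (nat_lit 262) (nat_lit 5) (nat_lit 270) (nat_lit 5) (nat_lit 271) (nat_lit 5) (nat_lit 587) (nat_lit 514) (nat_lit 459)) (XT.nd (nat_lit 78) (nat_lit 532) (nat_lit 0) (XT.lf (nat_lit 0) (nat_lit 2687230880) (nat_lit 684) (nat_lit 1441452482) (nat_lit 76) (nat_lit 5084565409) (nat_lit 261) (nat_lit 5) (nat_lit 270) (nat_lit 5) (nat_lit 262) (nat_lit 5) (nat_lit 588) (nat_lit 514) (nat_lit 458)) (XT.lf (nat_lit 0) (nat_lit 5120645822) (nat_lit 532) (nat_lit 653741356) (nat_lit 608) (nat_lit 3527556747) (nat_lit 254) (nat_lit 5) (nat_lit 261) (nat_lit 5) (nat_lit 262) (nat_lit 5) (nat_lit 589) (nat_lit 514) (nat_lit 457))))) (XT.nd (nat_lit 234) (nat_lit 1064) (nat_lit 0) (XT.nd (nat_lit 78) (nat_lit 608) (nat_lit 0) (XT.lf (nat_lit 0) (nat_lit 2402762732) (nat_lit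 532) (nat_lit 6526924486) (nat_lit 608) (nat_lit 462600432) (nat_lit 247) (nat_lit 5) (nat_lit 254) (nat_lit 5) (nat_lit 255) (nat_lit 5) (nat_lit 590) (nat_lit 514) (nat_lit 456)) (XT.nd (nat_lit 78) (nat_lit 532) (nat_lit 0) (XT.lf (nat_lit 0) (nat_lit 2623748960) (nat_lit 608) (nat_lit 381891055) (nat_lit 76) (nat_lit 6478554360) (nat_lit 246) (nat_lit 5) (nat_lit 254) (nat_lit 5) (nat_lit 247) (nat_lit 5) (nat_lit 591) (nat_lit 514) (nat_lit 455)) (XT.lf (nat_lit 0) (nat_lit 5774316093) (nat_lit 608) (nat_lit 3193564719) (nat_lit 76) (nat_lit 609826093) (nat_lit 239) (nat_lit 5) (nat_lit 247) (nat_lit 5) (nat_lit 240) (nat_lit 5) (nat_lit 592) (nat_lit 514) (nat_lit 454)))) (XT.nd (nat_lit 78) (nat_lit 532) (nat_lit 0) (XT.lf (nat_lit 0) (nat_lit 3594159415) (nat_lit 532) (nat_lit 5403054164) (nat_lit 608) (nat_lit 675692204) (nat_lit 232) (nat_lit 5) (nat_lit 239) (nat_lit 5) (nat_lit 240) (nat_lit 5) (nat_lit 593) (nat_lit 514) (nat_lit 453)) (XT.nd (nat_lit 78) (nat_lit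 0) (nat_lit 0) (XT.lf (nat_lit 0) (nat_lit 733658495) (nat_lit 456) (nat_lit 1737904778) (nat_lit 532) (nat_lit 7298321585) (nat_lit 225) (nat_lit 5) (nat_lit 231) (nat_lit 5) (nat_lit 232) (nat_lit 5) (nat_lit 594) (nat_lit 514) (nat_lit 452)) (XT.lf (nat_lit 0) (nat_lit 5690711886) (nat_lit 532) (nat_lit 2172146915) (nat_lit 76) (nat_lit 2005497808) (nat_lit 225) (nat_lit 5) (nat_lit 232) (nat_lit 5) (nat_lit 226) (nat_lit 5) (nat_lit 595) (nat_lit 514) (nat_lit 451))))))))
noncomputable def xc56 : XT := (XT.nd (nat_lit 1560) (nat_lit 2128) (nat_lit 0) (XT.nd (nat_lit 780) (nat_lit 2812) (nat_lit 0) (XT.nd (nat_lit 390) (nat_lit 1368) (nat_lit 0) (XT.nd (nat_lit 156) (nat_lit 988) (nat_lit 0) (XT.nd (nat_lit 78) (nat_lit 532) (nat_lit 0) (XT.lf (nat_lit 0) (nat_lit 4830930113) (nat_lit 532) (nat_lit 4150831867) (nat_lit 608) (nat_lit 986887733) (nat_lit 218) (nat_lit 5) (nat_lit 225) (nat_lit 5) (nat_lit 226) (nat_lit 5) (nat_lit 596) (nat_lit 514) (nat_lit 450)) (XT.lf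 (nat_lit 0) (nat_lit 1892583622) (nat_lit 456) (nat_lit 337099970) (nat_lit 532) (nat_lit 7841138015) (nat_lit 211) (nat_lit 5) (nat_lit 217) (nat_lit 5) (nat_lit 218) (nat_lit 5) (nat_lit 597) (nat_lit 514) (nat_lit 449))) (XT.nd (nat_lit 78) (nat_lit 988) (nat_lit 0) (XT.lf (nat_lit 0) (nat_lit 5520205188) (nat_lit 532) (nat_lit 1121587361) (nat_lit 76) (nat_lit 3532659413) (nat_lit 211) (nat_lit 5) (nat_lit 218) (nat_lit 5) (nat_lit 212) (nat_lit 5) (nat_lit 598) (nat_lit 514) (nat_lit 448)) (XT.nd (nat_lit 78) (nat_lit 532) (nat_lit 0) (XT.lf (nat_lit 0) (nat_lit 6104471953) (nat_lit 456) (nat_lit 2779665290) (nat_lit 532) (nat_lit 1395867793) (nat_lit 205) (nat_lit 5) (nat_lit 211) (nat_lit 5) (nat_lit 212) (nat_lit 5) (nat_lit 599) (nat_lit 514) (nat_lit 447)) (XT.lf (nat_lit 0) (nat_lit 1903529545) (nat_lit 532) (nat_lit 7314351069) (nat_lit 76) (nat_lit 1169517621) (nat_lit 198) (nat_lit 5) (nat_lit 205) (nat_lit 5) (nat_lit 199) (nat_lit 5) (nat_lit 600) (nat_lit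 514) (nat_lit 446))))) (XT.nd (nat_lit 156) (nat_lit 912) (nat_lit 0) (XT.nd (nat_lit 78) (nat_lit 456) (nat_lit 0) (XT.lf (nat_lit 0) (nat_lit 5262962464) (nat_lit 532) (nat_lit 50950307) (nat_lit 76) (nat_lit 5182589219) (nat_lit 198) (nat_lit 5) (nat_lit 205) (nat_lit 5) (nat_lit 199) (nat_lit 5) (nat_lit 601) (nat_lit 514) (nat_lit 445)) (XT.lf (nat_lit 0) (nat_lit 7405894401) (nat_lit 456) (nat_lit 1298545056) (nat_lit 532) (nat_lit 1903053208) (nat_lit 192) (nat_lit 5) (nat_lit 198) (nat_lit 5) (nat_lit 199) (nat_lit 5) (nat_lit 602) (nat_lit 514) (nat_lit 444))) (XT.nd (nat_lit 78) (nat_lit 456) (nat_lit 0) (XT.lf (nat_lit 0) (nat_lit 1487837319) (nat_lit 456) (nat_lit 6449567769) (nat_lit 76) (nat_lit 2782838151) (nat_lit 186) (nat_lit 5) (nat_lit 192) (nat_lit 5) (nat_lit 187) (nat_lit 5) (nat_lit 603) (nat_lit 514) (nat_lit 443)) (XT.nd (nat_lit 78) (nat_lit 0) (nat_lit 0) (XT.lf (nat_lit 0) (nat_lit 1044017148) (nat_lit 456) (nat_lit 3881191779) (nat_lit 532) (nat_lit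 5909707253) (nat_lit 180) (nat_lit 5) (nat_lit 186) (nat_lit 5) (nat_lit 187) (nat_lit 5) (nat_lit 604) (nat_lit 514) (nat_lit 442)) (XT.lf (nat_lit 0) (nat_lit 8443894338) (nat_lit 532) (nat_lit 2227593706) (nat_lit 76) (nat_lit 280145010) (nat_lit 180) (nat_lit 5) (nat_lit 187) (nat_lit 5) (nat_lit 181) (nat_lit 5) (nat_lit 605) (nat_lit 514) (nat_lit 441)))))) (XT.nd (nat_lit 390) (nat_lit 1140) (nat_lit 0) (XT.nd (nat_lit 156) (nat_lit 836) (nat_lit 0) (XT.nd (nat_lit 78) (nat_lit 380) (nat_lit 0) (XT.lf (nat_lit 0) (nat_lit 979131480) (nat_lit 456) (nat_lit 5591890508) (nat_lit 76) (nat_lit 4498949407) (nat_lit 174) (nat_lit 5) (nat_lit 180) (nat_lit 5) (nat_lit 175) (nat_lit 5) (nat_lit 606) (nat_lit 514) (nat_lit 440)) (XT.lf (nat_lit 0) (nat_lit 2140390386) (nat_lit 380) (nat_lit 2358825782) (nat_lit 456) (nat_lit 6691189396) (nat_lit 169) (nat_lit 5) (nat_lit 174) (nat_lit 5) (nat_lit 175) (nat_lit 5) (nat_lit 607) (nat_lit 514) (nat_lit 439))) (XT.nd (nat_lit 78)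 (nat_lit 836) (nat_lit 0) (XT.lf (nat_lit 0) (nat_lit 8108339393) (nat_lit 456) (nat_lit 1271077036) (nat_lit 76) (nat_lit 1933460916) (nat_lit 169) (nat_lit 5) (nat_lit 175) (nat_lit 5) (nat_lit 170) (nat_lit 5) (nat_lit 608) (nat_lit 514) (nat_lit 438)) (XT.nd (nat_lit 78) (nat_lit 380) (nat_lit 0) (XT.lf (nat_lit 0) (nat_lit 375362701) (nat_lit 456) (nat_lit 4752091509) (nat_lit 76) (nat_lit 6309737652) (nat_lit 163) (nat_lit 5) (nat_lit 169) (nat_lit 5) (nat_lit 164) (nat_lit 5) (nat_lit 609) (nat_lit 514) (nat_lit 437)) (XT.lf (nat_lit 0) (nat_lit 3226844098) (nat_lit 380) (nat_lit 755686111) (nat_lit 456) (nat_lit 7581068838) (nat_lit 158) (nat_lit 5) (nat_lit 163) (nat_lit 5) (nat_lit 164) (nat_lit 5) (nat_lit 610) (nat_lit 514) (nat_lit 436))))) (XT.nd (nat_lit 156) (nat_lit 760) (nat_lit 0) (XT.nd (nat_lit 78) (nat_lit 380) (nat_lit 0) (XT.lf (nat_lit 0) (nat_lit 7687175458) (nat_lit 456) (nat_lit 334575570) (nat_lit 76) (nat_lit 3670278200) (nat_lit 158) (nat_lit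 5) (nat_lit 164) (nat_lit 5) (nat_lit 159) (nat_lit 5) (nat_lit 611) (nat_lit 514) (nat_lit 435)) (XT.lf (nat_lit 0) (nat_lit 7878722375) (nat_lit 380) (nat_lit 3613142296) (nat_lit 456) (nat_lit 330645829) (nat_lit 153) (nat_lit 5) (nat_lit 158) (nat_lit 5) (nat_lit 159) (nat_lit 5) (nat_lit 612) (nat_lit 514) (nat_lit 434))) (XT.nd (nat_lit 78) (nat_lit 304) (nat_lit 0) (XT.lf (nat_lit 0) (nat_lit 3378210073) (nat_lit 456) (nat_lit 7669118010) (nat_lit 76) (nat_lit 907711472) (nat_lit 147) (nat_lit 5) (nat_lit 153) (nat_lit 5) (nat_lit 148) (nat_lit 5) (nat_lit 613) (nat_lit 514) (nat_lit 433)) (XT.nd (nat_lit 78) (nat_lit 0) (nat_lit 0) (XT.lf (nat_lit 0) (nat_lit 577761795) (nat_lit 304) (nat_lit 6603431679) (nat_lit 380) (nat_lit 4908495872) (nat_lit 143) (nat_lit 5) (nat_lit 147) (nat_lit 5) (nat_lit 148) (nat_lit 5) (nat_lit 614) (nat_lit 514) (nat_lit 432)) (XT.lf (nat_lit 0) (nat_lit 9046331531) (nat_lit 304) (nat_lit 2035703646) (nat_lit 380) (nat_lit 1144562378)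 (nat_lit 143) (nat_lit 5) (nat_lit 147) (nat_lit 5) (nat_lit 148) (nat_lit 5) (nat_lit 615) (nat_lit 514) (nat_lit 431))))))) (XT.nd (nat_lit 74646) (nat_lit 0) (nat_lit 43548) (XT.nd (nat_lit 390) (nat_lit 684) (nat_lit 0) (XT.nd (nat_lit 156) (nat_lit 684) (nat_lit 0) (XT.nd (nat_lit 78) (nat_lit 304) (nat_lit 0) (XT.lf (nat_lit 0) (nat_lit 2681860959) (nat_lit 456) (nat_lit 7059369232) (nat_lit 76) (nat_lit 2624214127) (nat_lit 137) (nat_lit 5) (nat_lit 143) (nat_lit 5) (nat_lit 138) (nat_lit 5) (nat_lit 616) (nat_lit 514) (nat_lit 430)) (XT.lf (nat_lit 0) (nat_lit 1449589005) (nat_lit 304) (nat_lit 5135171044) (nat_lit 380) (nat_lit 5921852513) (nat_lit 133) (nat_lit 5) (nat_lit 137) (nat_lit 5) (nat_lit 138) (nat_lit 5) (nat_lit 617) (nat_lit 514) (nat_lit 429))) (XT.nd (nat_lit 78) (nat_lit 684) (nat_lit 0) (XT.lf (nat_lit 0) (nat_lit 10177895027) (nat_lit 304) (nat_lit 406345925) (nat_lit 380) (nat_lit 2065994029) (nat_lit 133) (nat_lit 5) (nat_lit 137) (nat_lit 5)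 (nat_lit 138) (nat_lit 5) (nat_lit 618) (nat_lit 514) (nat_lit 428)) (XT.nd (nat_lit 78) (nat_lit 304) (nat_lit 0) (XT.lf (nat_lit 0) (nat_lit 1883900955) (nat_lit 380) (nat_lit 6516490590) (nat_lit 76) (nat_lit 4395269005) (nat_lit 128) (nat_lit 5) (nat_lit 133) (nat_lit 5) (nat_lit 129) (nat_lit 5) (nat_lit 619) (nat_lit 514) (nat_lit 427)) (XT.lf (nat_lit 0) (nat_lit 2262612325) (nat_lit 304) (nat_lit 3628302694) (nat_lit 380) (nat_lit 7052692004) (nat_lit 124) (nat_lit 5) (nat_lit 128) (nat_lit 5) (nat_lit 129) (nat_lit 5) (nat_lit 620) (nat_lit 514) (nat_lit 426))))) (XT.nd (nat_lit 156) (nat_lit 304) (nat_lit 0) (XT.nd (nat_lit 78) (nat_lit 380) (nat_lit 0) (XT.lf (nat_lit 0) (nat_lit 10001953303) (nat_lit 380) (nat_lit 1842626583) (nat_lit 76) (nat_lit 1249456052) (nat_lit 124) (nat_lit 5) (nat_lit 129) (nat_lit 5) (nat_lit 125) (nat_lit 5) (nat_lit 621) (nat_lit 514) (nat_lit 425)) (XT.lf (nat_lit 0) (nat_lit 978725014) (nat_lit 380) (nat_lit 6055549811) (nat_lit 76)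 (nat_lit 6212208365) (nat_lit 119) (nat_lit 5) (nat_lit 124) (nat_lit 5) (nat_lit 120) (nat_lit 5) (nat_lit 622) (nat_lit 514) (nat_lit 424))) (XT.nd (nat_lit 73944) (nat_lit 0) (nat_lit 48716) (XT.lf (nat_lit 0) (nat_lit 3001774647) (nat_lit 304) (nat_lit 2092184819) (nat_lit 380) (nat_lit 8307523997) (nat_lit 115) (nat_lit 5) (nat_lit 119) (nat_lit 5) (nat_lit 120) (nat_lit 5) (nat_lit 623) (nat_lit 514) (nat_lit 423)) (XT.nd (nat_lit 78) (nat_lit 76) (nat_lit 0) (XT.lf (nat_lit 0) (nat_lit 1038670689) (nat_lit 380) (nat_lit 1103131616) (nat_lit 380) (nat_lit 1103131616) (nat_lit 757) (nat_lit 4) (nat_lit 762) (nat_lit 5) (nat_lit 762) (nat_lit 4) (nat_lit 530) (nat_lit 515) (nat_lit 515)) (XT.lf (nat_lit 0) (nat_lit 995676802) (nat_lit 456) (nat_lit 713274217) (nat_lit 76) (nat_lit 4791201281) (nat_lit 756) (nat_lit 5) (nat_lit 762) (nat_lit 5) (nat_lit 757) (nat_lit 4) (nat_lit 531) (nat_lit 515) (nat_lit 514)))))) (XT.nd (nat_lit 390) (nat_lit 3420) (nat_lit 0) (XT.nd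 (nat_lit 156) (nat_lit 684) (nat_lit 0) (XT.nd (nat_lit 78) (nat_lit 608) (nat_lit 0) (XT.lf (nat_lit 0) (nat_lit 3036251517) (nat_lit 456) (nat_lit 1137962272) (nat_lit 532) (nat_lit 2337307799) (nat_lit 750) (nat_lit 5) (nat_lit 756) (nat_lit 5) (nat_lit 757) (nat_lit 4) (nat_lit 532) (nat_lit 515) (nat_lit 513)) (XT.lf (nat_lit 0) (nat_lit 295828074) (nat_lit 532) (nat_lit 515446805) (nat_lit 608) (nat_lit 5713143986) (nat_lit 742) (nat_lit 5) (nat_lit 749) (nat_lit 5) (nat_lit 750) (nat_lit 5) (nat_lit 533) (nat_lit 515) (nat_lit 512))) (XT.nd (nat_lit 78) (nat_lit 684) (nat_lit 0) (XT.lf (nat_lit 0) (nat_lit 3940221044) (nat_lit 608) (nat_lit 2415067815) (nat_lit 76) (nat_lit 183014543) (nat_lit 742) (nat_lit 5) (nat_lit 750) (nat_lit 5) (nat_lit 743) (nat_lit 4) (nat_lit 534) (nat_lit 515) (nat_lit 511)) (XT.nd (nat_lit 78) (nat_lit 0) (nat_lit 0) (XT.lf (nat_lit 0) (nat_lit 509919430) (nat_lit 684) (nat_lit 5116865739) (nat_lit 76) (nat_lit 926852116) (nat_lit 733)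 (nat_lit 5) (nat_lit 742) (nat_lit 5) (nat_lit 734) (nat_lit 5) (nat_lit 535) (nat_lit 515) (nat_lit 510)) (XT.lf (nat_lit 0) (nat_lit 3588164986) (nat_lit 684) (nat_lit 1238548214) (nat_lit 76) (nat_lit 1743375114) (nat_lit 733) (nat_lit 5) (nat_lit 742) (nat_lit 5) (nat_lit 734) (nat_lit 5) (nat_lit 536) (nat_lit 515) (nat_lit 509))))) (XT.nd (nat_lit 234) (nat_lit 1900) (nat_lit 0) (XT.nd (nat_lit 78) (nat_lit 760) (nat_lit 0) (XT.lf (nat_lit 0) (nat_lit 84401540) (nat_lit 760) (nat_lit 3885409401) (nat_lit 76) (nat_lit 2618147130) (nat_lit 723) (nat_lit 5) (nat_lit 733) (nat_lit 5) (nat_lit 724) (nat_lit 5) (nat_lit 537) (nat_lit 515) (nat_lit 508)) (XT.nd (nat_lit 78) (nat_lit 0) (nat_lit 0) (XT.lf (nat_lit 0) (nat_lit 63967871) (nat_lit 760) (nat_lit 3045554016) (nat_lit 836) (nat_lit 3497531908) (nat_lit 713) (nat_lit 5) (nat_lit 723) (nat_lit 5) (nat_lit 724) (nat_lit 5) (nat_lit 538) (nat_lit 515) (nat_lit 507)) (XT.lf (nat_lit 0) (nat_lit 4095025853) (nat_lit 760)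 (nat_lit 2055845831) (nat_lit 836) (nat_lit 476555718) (nat_lit 713) (nat_lit 5) (nat_lit 723) (nat_lit 5) (nat_lit 724) (nat_lit 5) (nat_lit 539) (nat_lit 515) (nat_lit 506)))) (XT.nd (nat_lit 78) (nat_lit 988) (nat_lit 0) (XT.lf (nat_lit 0) (nat_lit 1511479967) (nat_lit 836) (nat_lit 999576947) (nat_lit 912) (nat_lit 4138015824) (nat_lit 701) (nat_lit 5) (nat_lit 712) (nat_lit 5) (nat_lit 713) (nat_lit 5) (nat_lit 540) (nat_lit 515) (nat_lit 505)) (XT.nd (nat_lit 78) (nat_lit 988) (nat_lit 0) (XT.lf (nat_lit 0) (nat_lit 5501385995) (nat_lit 912) (nat_lit 1055117279) (nat_lit 76) (nat_lit 115607704) (nat_lit 701) (nat_lit 5) (nat_lit 713) (nat_lit 5) (nat_lit 702) (nat_lit 5) (nat_lit 541) (nat_lit 515) (nat_lit 504)) (XT.lf (nat_lit 0) (nat_lit 1791062060) (nat_lit 988) (nat_lit 3615353245) (nat_lit 76) (nat_lit 1289773381) (nat_lit 688) (nat_lit 5) (nat_lit 701) (nat_lit 5) (nat_lit 689) (nat_lit 5) (nat_lit 542) (nat_lit 515) (nat_lit 503))))))))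
noncomputable def xc57 : XT := (XT.nd (nat_lit 1560) (nat_lit 11932) (nat_lit 0) (XT.nd (nat_lit 780) (nat_lit 11172) (nat_lit 0) (XT.nd (nat_lit 390) (nat_lit 4028) (nat_lit 0) (XT.nd (nat_lit 156) (nat_lit 2280) (nat_lit 0) (XT.nd (nat_lit 78) (nat_lit 76) (nat_lit 0) (XT.lf (nat_lit 0) (nat_lit 541850726) (nat_lit 988) (nat_lit 4198827741) (nat_lit 1064) (nat_lit 1981038650) (nat_lit 675) (nat_lit 5) (nat_lit 688) (nat_lit 5) (nat_lit 689) (nat_lit 5) (nat_lit 543) (nat_lit 515) (nat_lit 502)) (XT.lf (nat_lit 0) (nat_lit 946959837) (nat_lit 1064) (nat_lit 1973938207) (nat_lit 76) (nat_lit 3827565710) (nat_lit 674) (nat_lit 5) (nat_lit 688) (nat_lit 5) (nat_lit 675) (nat_lit 5) (nat_lit 544) (nat_lit 515) (nat_lit 501))) (XT.nd (nat_lit 78) (nat_lit 1216) (nat_lit 0) (XT.lf (nat_lit 0) (nat_lit 2282721622) (nat_lit 1064) (nat_lit 1574550048) (nat_lit 1140) (nat_lit 2919214964) (nat_lit 660) (nat_lit 5) (nat_lit 674) (nat_lit 5) (nat_lit 675) (nat_lit 5) (nat_lit 545) (nat_lit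 515) (nat_lit 500)) (XT.nd (nat_lit 78) (nat_lit 1216) (nat_lit 0) (XT.lf (nat_lit 0) (nat_lit 6601396439) (nat_lit 1064) (nat_lit 174015393) (nat_lit 1140) (nat_lit 30674321) (nat_lit 660) (nat_lit 5) (nat_lit 674) (nat_lit 5) (nat_lit 675) (nat_lit 5) (nat_lit 546) (nat_lit 515) (nat_lit 499)) (XT.lf (nat_lit 0) (nat_lit 2850117668) (nat_lit 1216) (nat_lit 2689154495) (nat_lit 76) (nat_lit 1297180786) (nat_lit 644) (nat_lit 5) (nat_lit 660) (nat_lit 5) (nat_lit 645) (nat_lit 5) (nat_lit 547) (nat_lit 515) (nat_lit 498))))) (XT.nd (nat_lit 156) (nat_lit 2736) (nat_lit 0) (XT.nd (nat_lit 78) (nat_lit 76) (nat_lit 0) (XT.lf (nat_lit 0) (nat_lit 1691784827) (nat_lit 1216) (nat_lit 4048043134) (nat_lit 1292) (nat_lit 1128568926) (nat_lit 628) (nat_lit 5) (nat_lit 644) (nat_lit 5) (nat_lit 645) (nat_lit 5) (nat_lit 548) (nat_lit 515) (nat_lit 497)) (XT.lf (nat_lit 0) (nat_lit 1719756400) (nat_lit 1292) (nat_lit 766770406) (nat_lit 76) (nat_lit 4415092103) (nat_lit 627) (nat_lit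 5) (nat_lit 644) (nat_lit 5) (nat_lit 628) (nat_lit 5) (nat_lit 549) (nat_lit 515) (nat_lit 496))) (XT.nd (nat_lit 78) (nat_lit 1444) (nat_lit 0) (XT.lf (nat_lit 0) (nat_lit 3722389356) (nat_lit 1292) (nat_lit 851599129) (nat_lit 1368) (nat_lit 2362094310) (nat_lit 610) (nat_lit 5) (nat_lit 627) (nat_lit 5) (nat_lit 628) (nat_lit 5) (nat_lit 550) (nat_lit 515) (nat_lit 495)) (XT.nd (nat_lit 78) (nat_lit 0) (nat_lit 0) (XT.lf (nat_lit 0) (nat_lit 466764168) (nat_lit 1444) (nat_lit 5673942163) (nat_lit 76) (nat_lit 831281491) (nat_lit 591) (nat_lit 5) (nat_lit 610) (nat_lit 5) (nat_lit 592) (nat_lit 5) (nat_lit 551) (nat_lit 515) (nat_lit 494)) (XT.lf (nat_lit 0) (nat_lit 3289171761) (nat_lit 1444) (nat_lit 1137623090) (nat_lit 76) (nat_lit 2582139037) (nat_lit 591) (nat_lit 5) (nat_lit 610) (nat_lit 5) (nat_lit 592) (nat_lit 5) (nat_lit 552) (nat_lit 515) (nat_lit 493)))))) (XT.nd (nat_lit 390) (nat_lit 4788) (nat_lit 0) (XT.nd (nat_lit 156) (nat_lit 3344) (nat_lit 0) (XT.nd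 (nat_lit 78) (nat_lit 1596) (nat_lit 0) (XT.lf (nat_lit 0) (nat_lit 3484534528) (nat_lit 1444) (nat_lit 2648492081) (nat_lit 1520) (nat_lit 914299356) (nat_lit 572) (nat_lit 5) (nat_lit 591) (nat_lit 5) (nat_lit 592) (nat_lit 5) (nat_lit 553) (nat_lit 515) (nat_lit 492)) (XT.lf (nat_lit 0) (nat_lit 1078653741) (nat_lit 1520) (nat_lit 800563700) (nat_lit 1596) (nat_lit 5207872710) (nat_lit 551) (nat_lit 5) (nat_lit 571) (nat_lit 5) (nat_lit 572) (nat_lit 5) (nat_lit 554) (nat_lit 515) (nat_lit 491))) (XT.nd (nat_lit 78) (nat_lit 3344) (nat_lit 0) (XT.lf (nat_lit 0) (nat_lit 4691105628) (nat_lit 1596) (nat_lit 1331061226) (nat_lit 76) (nat_lit 1105873690) (nat_lit 551) (nat_lit 5) (nat_lit 572) (nat_lit 5) (nat_lit 552) (nat_lit 5) (nat_lit 555) (nat_lit 515) (nat_lit 490)) (XT.nd (nat_lit 78) (nat_lit 1672) (nat_lit 0) (XT.lf (nat_lit 0) (nat_lit 356418191) (nat_lit 1672) (nat_lit 3744029804) (nat_lit 76) (nat_lit 3069875708) (nat_lit 529) (nat_lit 5) (nat_lit 551) (nat_lit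 5) (nat_lit 530) (nat_lit 5) (nat_lit 556) (nat_lit 515) (nat_lit 489)) (XT.lf (nat_lit 0) (nat_lit 1029628070) (nat_lit 1672) (nat_lit 2104205761) (nat_lit 1748) (nat_lit 4080086294) (nat_lit 507) (nat_lit 5) (nat_lit 529) (nat_lit 5) (nat_lit 530) (nat_lit 5) (nat_lit 557) (nat_lit 515) (nat_lit 488))))) (XT.nd (nat_lit 156) (nat_lit 2964) (nat_lit 0) (XT.nd (nat_lit 78) (nat_lit 1824) (nat_lit 0) (XT.lf (nat_lit 0) (nat_lit 5898604515) (nat_lit 1672) (nat_lit 39182481) (nat_lit 1748) (nat_lit 1321187851) (nat_lit 507) (nat_lit 5) (nat_lit 529) (nat_lit 5) (nat_lit 530) (nat_lit 5) (nat_lit 558) (nat_lit 515) (nat_lit 487)) (XT.lf (nat_lit 0) (nat_lit 1456558474) (nat_lit 1824) (nat_lit 3772784393) (nat_lit 76) (nat_lit 2075734869) (nat_lit 483) (nat_lit 5) (nat_lit 507) (nat_lit 5) (nat_lit 484) (nat_lit 5) (nat_lit 559) (nat_lit 515) (nat_lit 486))) (XT.nd (nat_lit 78) (nat_lit 1140) (nat_lit 0) (XT.lf (nat_lit 0) (nat_lit 1143896856) (nat_lit 1824) (nat_lit 3092470078)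 (nat_lit 1900) (nat_lit 3116282933) (nat_lit 459) (nat_lit 5) (nat_lit 483) (nat_lit 5) (nat_lit 484) (nat_lit 5) (nat_lit 560) (nat_lit 515) (nat_lit 485)) (XT.nd (nat_lit 78) (nat_lit 1140) (nat_lit 0) (XT.lf (nat_lit 0) (nat_lit 6159024361) (nat_lit 1824) (nat_lit 886072175) (nat_lit 1900) (nat_lit 356616091) (nat_lit 459) (nat_lit 5) (nat_lit 483) (nat_lit 5) (nat_lit 484) (nat_lit 5) (nat_lit 561) (nat_lit 515) (nat_lit 484)) (XT.lf (nat_lit 0) (nat_lit 2408530620) (nat_lit 1140) (nat_lit 3655169745) (nat_lit 76) (nat_lit 1388092000) (nat_lit 444) (nat_lit 5) (nat_lit 459) (nat_lit 5) (nat_lit 445) (nat_lit 5) (nat_lit 562) (nat_lit 515) (nat_lit 483))))))) (XT.nd (nat_lit 780) (nat_lit 5776) (nat_lit 0) (XT.nd (nat_lit 390) (nat_lit 3344) (nat_lit 0) (XT.nd (nat_lit 156) (nat_lit 1824) (nat_lit 0) (XT.nd (nat_lit 78) (nat_lit 76) (nat_lit 0) (XT.lf (nat_lit 0) (nat_lit 1409659336) (nat_lit 912) (nat_lit 3787329826) (nat_lit 988) (nat_lit 2306387068) (nat_lit 432) (nat_lit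 5) (nat_lit 444) (nat_lit 5) (nat_lit 445) (nat_lit 5) (nat_lit 563) (nat_lit 515) (nat_lit 482)) (XT.lf (nat_lit 0) (nat_lit 453241743) (nat_lit 988) (nat_lit 985219274) (nat_lit 76) (nat_lit 6117985292) (nat_lit 431) (nat_lit 5) (nat_lit 444) (nat_lit 5) (nat_lit 432) (nat_lit 5) (nat_lit 564) (nat_lit 515) (nat_lit 481))) (XT.nd (nat_lit 78) (nat_lit 912) (nat_lit 0) (XT.lf (nat_lit 0) (nat_lit 3221739943) (nat_lit 988) (nat_lit 3402477231) (nat_lit 76) (nat_lit 986369575) (nat_lit 419) (nat_lit 5) (nat_lit 432) (nat_lit 5) (nat_lit 420) (nat_lit 5) (nat_lit 565) (nat_lit 515) (nat_lit 480)) (XT.nd (nat_lit 78) (nat_lit 76) (nat_lit 0) (XT.lf (nat_lit 0) (nat_lit 1815871074) (nat_lit 836) (nat_lit 4209013508) (nat_lit 912) (nat_lit 1641344840) (nat_lit 408) (nat_lit 5) (nat_lit 419) (nat_lit 5) (nat_lit 420) (nat_lit 5) (nat_lit 566) (nat_lit 515) (nat_lit 479)) (XT.lf (nat_lit 0) (nat_lit 1120468346) (nat_lit 912) (nat_lit 597176797) (nat_lit 76) (nat_lit 6005702003) (nat_lit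 407) (nat_lit 5) (nat_lit 419) (nat_lit 5) (nat_lit 408) (nat_lit 5) (nat_lit 567) (nat_lit 515) (nat_lit 478))))) (XT.nd (nat_lit 156) (nat_lit 1672) (nat_lit 0) (XT.nd (nat_lit 78) (nat_lit 836) (nat_lit 0) (XT.lf (nat_lit 0) (nat_lit 3904636339) (nat_lit 912) (nat_lit 3025328323) (nat_lit 76) (nat_lit 851648320) (nat_lit 396) (nat_lit 5) (nat_lit 408) (nat_lit 5) (nat_lit 397) (nat_lit 5) (nat_lit 568) (nat_lit 515) (nat_lit 477)) (XT.lf (nat_lit 0) (nat_lit 2352154555) (nat_lit 836) (nat_lit 4376149530) (nat_lit 912) (nat_lit 1113068297) (nat_lit 385) (nat_lit 5) (nat_lit 396) (nat_lit 5) (nat_lit 397) (nat_lit 5) (nat_lit 569) (nat_lit 515) (nat_lit 476))) (XT.nd (nat_lit 78) (nat_lit 1596) (nat_lit 0) (XT.lf (nat_lit 0) (nat_lit 1657591296) (nat_lit 912) (nat_lit 86461786) (nat_lit 76) (nat_lit 6158579760) (nat_lit 384) (nat_lit 5) (nat_lit 396) (nat_lit 5) (nat_lit 385) (nat_lit 5) (nat_lit 570) (nat_lit 515) (nat_lit 475)) (XT.nd (nat_lit 78) (nat_lit 760) (nat_lit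 0) (XT.lf (nat_lit 0) (nat_lit 4464765056) (nat_lit 912) (nat_lit 2533761022) (nat_lit 76) (nat_lit 966529494) (nat_lit 373) (nat_lit 5) (nat_lit 385) (nat_lit 5) (nat_lit 374) (nat_lit 5) (nat_lit 571) (nat_lit 515) (nat_lit 474)) (XT.lf (nat_lit 0) (nat_lit 3008712772) (nat_lit 760) (nat_lit 4305901509) (nat_lit 836) (nat_lit 714386064) (nat_lit 363) (nat_lit 5) (nat_lit 373) (nat_lit 5) (nat_lit 374) (nat_lit 5) (nat_lit 572) (nat_lit 515) (nat_lit 473)))))) (XT.nd (nat_lit 390) (nat_lit 3420) (nat_lit 0) (XT.nd (nat_lit 156) (nat_lit 1520) (nat_lit 0) (XT.nd (nat_lit 78) (nat_lit 0) (nat_lit 0) (XT.lf (nat_lit 0) (nat_lit 544393015) (nat_lit 760) (nat_lit 1530714164) (nat_lit 836) (nat_lit 6019329272) (nat_lit 352) (nat_lit 5) (nat_lit 362) (nat_lit 5) (nat_lit 363) (nat_lit 5) (nat_lit 573) (nat_lit 515) (nat_lit 472)) (XT.lf (nat_lit 0) (nat_lit 4908811351) (nat_lit 836) (nat_lit 1937313852) (nat_lit 76) (nat_lit 1315005882) (nat_lit 352) (nat_lit 5) (nat_lit 363) (nat_lit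 5) (nat_lit 353) (nat_lit 5) (nat_lit 574) (nat_lit 515) (nat_lit 471))) (XT.nd (nat_lit 78) (nat_lit 836) (nat_lit 0) (XT.lf (nat_lit 0) (nat_lit 3776245127) (nat_lit 684) (nat_lit 4014095195) (nat_lit 760) (nat_lit 439000182) (nat_lit 343) (nat_lit 5) (nat_lit 352) (nat_lit 5) (nat_lit 353) (nat_lit 5) (nat_lit 575) (nat_lit 515) (nat_lit 470)) (XT.nd (nat_lit 78) (nat_lit 0) (nat_lit 0) (XT.lf (nat_lit 0) (nat_lit 1281564257) (nat_lit 760) (nat_lit 1095283710) (nat_lit 836) (nat_lit 5922191481) (nat_lit 332) (nat_lit 5) (nat_lit 342) (nat_lit 5) (nat_lit 343) (nat_lit 5) (nat_lit 576) (nat_lit 515) (nat_lit 469)) (XT.lf (nat_lit 0) (nat_lit 5242639245) (nat_lit 836) (nat_lit 1245108071) (nat_lit 76) (nat_lit 1882340611) (nat_lit 332) (nat_lit 5) (nat_lit 343) (nat_lit 5) (nat_lit 333) (nat_lit 5) (nat_lit 577) (nat_lit 515) (nat_lit 468))))) (XT.nd (nat_lit 234) (nat_lit 1976) (nat_lit 0) (XT.nd (nat_lit 78) (nat_lit 760) (nat_lit 0) (XT.lf (nat_lit 0) (nat_lit 4645865033)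 (nat_lit 684) (nat_lit 3515337907) (nat_lit 760) (nat_lit 281448911) (nat_lit 323) (nat_lit 5) (nat_lit 332) (nat_lit 5) (nat_lit 333) (nat_lit 5) (nat_lit 578) (nat_lit 515) (nat_lit 467)) (XT.nd (nat_lit 78) (nat_lit 0) (nat_lit 0) (XT.lf (nat_lit 0) (nat_lit 2114952729) (nat_lit 684) (nat_lit 452537256) (nat_lit 760) (nat_lit 5949232125) (nat_lit 313) (nat_lit 5) (nat_lit 322) (nat_lit 5) (nat_lit 323) (nat_lit 5) (nat_lit 579) (nat_lit 515) (nat_lit 466)) (XT.lf (nat_lit 0) (nat_lit 5471324577) (nat_lit 760) (nat_lit 465928711) (nat_lit 76) (nat_lit 2654952968) (nat_lit 313) (nat_lit 5) (nat_lit 323) (nat_lit 5) (nat_lit 314) (nat_lit 5) (nat_lit 580) (nat_lit 515) (nat_lit 465)))) (XT.nd (nat_lit 78) (nat_lit 1368) (nat_lit 0) (XT.lf (nat_lit 0) (nat_lit 5609018544) (nat_lit 608) (nat_lit 2823131278) (nat_lit 684) (nat_lit 237075316) (nat_lit 305) (nat_lit 5) (nat_lit 313) (nat_lit 5) (nat_lit 314) (nat_lit 5) (nat_lit 581) (nat_lit 515) (nat_lit 464)) (XT.nd (nat_lit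 78) (nat_lit 608) (nat_lit 0) (XT.lf (nat_lit 0) (nat_lit 2653994447) (nat_lit 760) (nat_lit 5714370627) (nat_lit 76) (nat_lit 379370229) (nat_lit 295) (nat_lit 5) (nat_lit 305) (nat_lit 5) (nat_lit 296) (nat_lit 5) (nat_lit 582) (nat_lit 515) (nat_lit 463)) (XT.lf (nat_lit 0) (nat_lit 396900293) (nat_lit 608) (nat_lit 5204859154) (nat_lit 684) (nat_lit 3225987058) (nat_lit 287) (nat_lit 5) (nat_lit 295) (nat_lit 5) (nat_lit 296) (nat_lit 5) (nat_lit 583) (nat_lit 515) (nat_lit 462))))))))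
noncomputable def xc58 : XT := (XT.nd (nat_lit 1560) (nat_lit 5092) (nat_lit 0) (XT.nd (nat_lit 780) (nat_lit 3496) (nat_lit 0) (XT.nd (nat_lit 390) (nat_lit 2204) (nat_lit 0) (XT.nd (nat_lit 156) (nat_lit 1292) (nat_lit 0) (XT.nd (nat_lit 78) (nat_lit 684) (nat_lit 0) (XT.lf (nat_lit 0) (nat_lit 6657403379) (nat_lit 608) (nat_lit 1949978117) (nat_lit 684) (nat_lit 302001479) (nat_lit 287) (nat_lit 5) (nat_lit 295) (nat_lit 5) (nat_lit 296) (nat_lit 5) (nat_lit 584) (nat_lit 515) (nat_lit 461)) (XT.lf (nat_lit 0) (nat_lit 2641695135) (nat_lit 684) (nat_lit 4965663662) (nat_lit 76) (nat_lit 1385020548) (nat_lit 278) (nat_lit 5) (nat_lit 287) (nat_lit 5) (nat_lit 279) (nat_lit 5) (nat_lit 585) (nat_lit 515) (nat_lit 460))) (XT.nd (nat_lit 78) (nat_lit 684) (nat_lit 0) (XT.lf (nat_lit 0) (nat_lit 1336942584) (nat_lit 608) (nat_lit 4301527313) (nat_lit 684) (nat_lit 3438563760) (nat_lit 270) (nat_lit 5) (nat_lit 278) (nat_lit 5) (nat_lit 279) (nat_lit 5) (nat_lit 586) (nat_lit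 515) (nat_lit 459)) (XT.nd (nat_lit 78) (nat_lit 684) (nat_lit 0) (XT.lf (nat_lit 0) (nat_lit 7782887671) (nat_lit 608) (nat_lit 907484134) (nat_lit 684) (nat_lit 473108263) (nat_lit 270) (nat_lit 5) (nat_lit 278) (nat_lit 5) (nat_lit 279) (nat_lit 5) (nat_lit 587) (nat_lit 515) (nat_lit 458)) (XT.lf (nat_lit 0) (nat_lit 2530552541) (nat_lit 684) (nat_lit 4161291612) (nat_lit 76) (nat_lit 2559235414) (nat_lit 261) (nat_lit 5) (nat_lit 270) (nat_lit 5) (nat_lit 262) (nat_lit 5) (nat_lit 588) (nat_lit 515) (nat_lit 457))))) (XT.nd (nat_lit 156) (nat_lit 1672) (nat_lit 0) (XT.nd (nat_lit 78) (nat_lit 0) (nat_lit 0) (XT.lf (nat_lit 0) (nat_lit 2339635606) (nat_lit 532) (nat_lit 3241555268) (nat_lit 608) (nat_lit 3759315533) (nat_lit 254) (nat_lit 5) (nat_lit 261) (nat_lit 5) (nat_lit 262) (nat_lit 5) (nat_lit 589) (nat_lit 515) (nat_lit 456)) (XT.lf (nat_lit 0) (nat_lit 8685788928) (nat_lit 608) (nat_lit 456381713) (nat_lit 76) (nat_lit 289694831) (nat_lit 254) (nat_lit 5) (nat_lit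 262) (nat_lit 5) (nat_lit 255) (nat_lit 5) (nat_lit 590) (nat_lit 515) (nat_lit 455))) (XT.nd (nat_lit 78) (nat_lit 1064) (nat_lit 0) (XT.lf (nat_lit 0) (nat_lit 2322745774) (nat_lit 608) (nat_lit 3309818794) (nat_lit 76) (nat_lit 3891670589) (nat_lit 246) (nat_lit 5) (nat_lit 254) (nat_lit 5) (nat_lit 247) (nat_lit 5) (nat_lit 591) (nat_lit 515) (nat_lit 454)) (XT.nd (nat_lit 78) (nat_lit 532) (nat_lit 0) (XT.lf (nat_lit 0) (nat_lit 3396619421) (nat_lit 532) (nat_lit 2035392708) (nat_lit 608) (nat_lit 4186562799) (nat_lit 239) (nat_lit 5) (nat_lit 246) (nat_lit 5) (nat_lit 247) (nat_lit 5) (nat_lit 592) (nat_lit 515) (nat_lit 453)) (XT.lf (nat_lit 0) (nat_lit 513984163) (nat_lit 532) (nat_lit 8089996194) (nat_lit 608) (nat_lit 1110813235) (nat_lit 232) (nat_lit 5) (nat_lit 239) (nat_lit 5) (nat_lit 240) (nat_lit 5) (nat_lit 593) (nat_lit 515) (nat_lit 452)))))) (XT.nd (nat_lit 390) (nat_lit 1900) (nat_lit 0) (XT.nd (nat_lit 156) (nat_lit 1064) (nat_lit 0) (XT.nd (nat_lit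 78) (nat_lit 456) (nat_lit 0) (XT.lf (nat_lit 0) (nat_lit 2019741381) (nat_lit 608) (nat_lit 2419877843) (nat_lit 76) (nat_lit 5372659252) (nat_lit 231) (nat_lit 5) (nat_lit 239) (nat_lit 5) (nat_lit 232) (nat_lit 5) (nat_lit 594) (nat_lit 515) (nat_lit 451)) (XT.lf (nat_lit 0) (nat_lit 4499458436) (nat_lit 456) (nat_lit 692859894) (nat_lit 532) (nat_lit 4719364463) (nat_lit 225) (nat_lit 5) (nat_lit 231) (nat_lit 5) (nat_lit 232) (nat_lit 5) (nat_lit 595) (nat_lit 515) (nat_lit 450))) (XT.nd (nat_lit 78) (nat_lit 532) (nat_lit 0) (XT.lf (nat_lit 0) (nat_lit 1527696887) (nat_lit 532) (nat_lit 6912566283) (nat_lit 608) (nat_lit 1572575943) (nat_lit 218) (nat_lit 5) (nat_lit 225) (nat_lit 5) (nat_lit 226) (nat_lit 5) (nat_lit 596) (nat_lit 515) (nat_lit 449)) (XT.nd (nat_lit 78) (nat_lit 456) (nat_lit 0) (XT.lf (nat_lit 0) (nat_lit 1622294917) (nat_lit 608) (nat_lit 1500257851) (nat_lit 76) (nat_lit 6993122995) (nat_lit 217) (nat_lit 5) (nat_lit 225) (nat_lit 5) (nat_lit 218)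 (nat_lit 5) (nat_lit 597) (nat_lit 515) (nat_lit 448)) (XT.lf (nat_lit 0) (nat_lit 4867832309) (nat_lit 532) (nat_lit 4585798906) (nat_lit 76) (nat_lit 766575634) (nat_lit 211) (nat_lit 5) (nat_lit 218) (nat_lit 5) (nat_lit 212) (nat_lit 5) (nat_lit 598) (nat_lit 515) (nat_lit 447))))) (XT.nd (nat_lit 156) (nat_lit 1368) (nat_lit 0) (XT.nd (nat_lit 78) (nat_lit 76) (nat_lit 0) (XT.lf (nat_lit 0) (nat_lit 2569853004) (nat_lit 456) (nat_lit 5622331178) (nat_lit 532) (nat_lit 2134368371) (nat_lit 205) (nat_lit 5) (nat_lit 211) (nat_lit 5) (nat_lit 212) (nat_lit 5) (nat_lit 599) (nat_lit 515) (nat_lit 446)) (XT.lf (nat_lit 0) (nat_lit 1130447010) (nat_lit 532) (nat_lit 559996090) (nat_lit 76) (nat_lit 8744484885) (nat_lit 204) (nat_lit 5) (nat_lit 211) (nat_lit 5) (nat_lit 205) (nat_lit 5) (nat_lit 600) (nat_lit 515) (nat_lit 445))) (XT.nd (nat_lit 78) (nat_lit 912) (nat_lit 0) (XT.lf (nat_lit 0) (nat_lit 4458746084) (nat_lit 532) (nat_lit 3752273682) (nat_lit 76) (nat_lit 2333635617)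 (nat_lit 198) (nat_lit 5) (nat_lit 205) (nat_lit 5) (nat_lit 199) (nat_lit 5) (nat_lit 601) (nat_lit 515) (nat_lit 444)) (XT.nd (nat_lit 78) (nat_lit 456) (nat_lit 0) (XT.lf (nat_lit 0) (nat_lit 3631307315) (nat_lit 456) (nat_lit 4228281399) (nat_lit 532) (nat_lit 2796870978) (nat_lit 192) (nat_lit 5) (nat_lit 198) (nat_lit 5) (nat_lit 199) (nat_lit 5) (nat_lit 602) (nat_lit 515) (nat_lit 443)) (XT.lf (nat_lit 0) (nat_lit 396729008) (nat_lit 380) (nat_lit 149360594) (nat_lit 456) (nat_lit 10224430692) (nat_lit 186) (nat_lit 5) (nat_lit 191) (nat_lit 5) (nat_lit 192) (nat_lit 5) (nat_lit 603) (nat_lit 515) (nat_lit 442))))))) (XT.nd (nat_lit 780) (nat_lit 2508) (nat_lit 0) (XT.nd (nat_lit 390) (nat_lit 1292) (nat_lit 0) (XT.nd (nat_lit 156) (nat_lit 836) (nat_lit 0) (XT.nd (nat_lit 78) (nat_lit 456) (nat_lit 0) (XT.lf (nat_lit 0) (nat_lit 3959753272) (nat_lit 456) (nat_lit 2916858648) (nat_lit 76) (nat_lit 4009056365) (nat_lit 186) (nat_lit 5) (nat_lit 192) (nat_lit 5) (nat_lit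 187) (nat_lit 5) (nat_lit 604) (nat_lit 515) (nat_lit 441)) (XT.lf (nat_lit 0) (nat_lit 4702507833) (nat_lit 456) (nat_lit 2739096784) (nat_lit 532) (nat_lit 3561518100) (nat_lit 180) (nat_lit 5) (nat_lit 186) (nat_lit 5) (nat_lit 187) (nat_lit 5) (nat_lit 605) (nat_lit 515) (nat_lit 440))) (XT.nd (nat_lit 78) (nat_lit 456) (nat_lit 0) (XT.lf (nat_lit 0) (nat_lit 1351643133) (nat_lit 380) (nat_lit 9648150674) (nat_lit 456) (nat_lit 123000148) (nat_lit 175) (nat_lit 5) (nat_lit 180) (nat_lit 5) (nat_lit 181) (nat_lit 5) (nat_lit 606) (nat_lit 515) (nat_lit 439)) (XT.nd (nat_lit 78) (nat_lit 380) (nat_lit 0) (XT.lf (nat_lit 0) (nat_lit 3369308816) (nat_lit 456) (nat_lit 2089760551) (nat_lit 76) (nat_lit 5784763331) (nat_lit 174) (nat_lit 5) (nat_lit 180) (nat_lit 5) (nat_lit 175) (nat_lit 5) (nat_lit 607) (nat_lit 515) (nat_lit 438)) (XT.lf (nat_lit 0) (nat_lit 5773389857) (nat_lit 380) (nat_lit 1163232997) (nat_lit 456) (nat_lit 4430518619) (nat_lit 169) (nat_lit 5) (nat_lit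 174) (nat_lit 5) (nat_lit 175) (nat_lit 5) (nat_lit 608) (nat_lit 515) (nat_lit 437))))) (XT.nd (nat_lit 156) (nat_lit 836) (nat_lit 0) (XT.nd (nat_lit 78) (nat_lit 76) (nat_lit 0) (XT.lf (nat_lit 0) (nat_lit 2291590338) (nat_lit 380) (nat_lit 8303099510) (nat_lit 456) (nat_lit 897840043) (nat_lit 164) (nat_lit 5) (nat_lit 169) (nat_lit 5) (nat_lit 170) (nat_lit 5) (nat_lit 609) (nat_lit 515) (nat_lit 436)) (XT.lf (nat_lit 0) (nat_lit 2685106654) (nat_lit 456) (nat_lit 1281795032) (nat_lit 76) (nat_lit 7652872663) (nat_lit 163) (nat_lit 5) (nat_lit 169) (nat_lit 5) (nat_lit 164) (nat_lit 5) (nat_lit 610) (nat_lit 515) (nat_lit 435))) (XT.nd (nat_lit 78) (nat_lit 456) (nat_lit 0) (XT.lf (nat_lit 0) (nat_lit 6345459705) (nat_lit 456) (nat_lit 4919079605) (nat_lit 76) (nat_lit 484551810) (nat_lit 158) (nat_lit 5) (nat_lit 164) (nat_lit 5) (nat_lit 159) (nat_lit 5) (nat_lit 611) (nat_lit 515) (nat_lit 434)) (XT.nd (nat_lit 78) (nat_lit 76) (nat_lit 0) (XT.lf (nat_lit 0) (nat_lit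 3210054835) (nat_lit 380) (nat_lit 6895121069) (nat_lit 456) (nat_lit 1775296681) (nat_lit 153) (nat_lit 5) (nat_lit 158) (nat_lit 5) (nat_lit 159) (nat_lit 5) (nat_lit 612) (nat_lit 515) (nat_lit 433)) (XT.lf (nat_lit 0) (nat_lit 1904049444) (nat_lit 456) (nat_lit 504504933) (nat_lit 76) (nat_lit 9605604691) (nat_lit 152) (nat_lit 5) (nat_lit 158) (nat_lit 5) (nat_lit 153) (nat_lit 5) (nat_lit 613) (nat_lit 515) (nat_lit 432)))))) (XT.nd (nat_lit 390) (nat_lit 1064) (nat_lit 0) (XT.nd (nat_lit 156) (nat_lit 760) (nat_lit 0) (XT.nd (nat_lit 78) (nat_lit 304) (nat_lit 0) (XT.lf (nat_lit 0) (nat_lit 5669768598) (nat_lit 456) (nat_lit 4293534841) (nat_lit 76) (nat_lit 2186251396) (nat_lit 147) (nat_lit 5) (nat_lit 153) (nat_lit 5) (nat_lit 148) (nat_lit 5) (nat_lit 614) (nat_lit 515) (nat_lit 431)) (XT.lf (nat_lit 0) (nat_lit 4095065681) (nat_lit 304) (nat_lit 5432899900) (nat_lit 380) (nat_lit 2759351035) (nat_lit 143) (nat_lit 5) (nat_lit 147) (nat_lit 5) (nat_lit 148) (nat_lit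 5) (nat_lit 615) (nat_lit 515) (nat_lit 430))) (XT.nd (nat_lit 78) (nat_lit 304) (nat_lit 0) (XT.lf (nat_lit 0) (nat_lit 232765326) (nat_lit 380) (nat_lit 790957421) (nat_lit 456) (nat_lit 11403941525) (nat_lit 137) (nat_lit 5) (nat_lit 142) (nat_lit 5) (nat_lit 143) (nat_lit 5) (nat_lit 616) (nat_lit 515) (nat_lit 429)) (XT.nd (nat_lit 78) (nat_lit 304) (nat_lit 0) (XT.lf (nat_lit 0) (nat_lit 4897942945) (nat_lit 456) (nat_lit 3722546033) (nat_lit 76) (nat_lit 3948917753) (nat_lit 137) (nat_lit 5) (nat_lit 143) (nat_lit 5) (nat_lit 138) (nat_lit 5) (nat_lit 617) (nat_lit 515) (nat_lit 428)) (XT.lf (nat_lit 0) (nat_lit 4933709720) (nat_lit 304) (nat_lit 3925222406) (nat_lit 380) (nat_lit 3854867482) (nat_lit 133) (nat_lit 5) (nat_lit 137) (nat_lit 5) (nat_lit 138) (nat_lit 5) (nat_lit 618) (nat_lit 515) (nat_lit 427))))) (XT.nd (nat_lit 234) (nat_lit 380) (nat_lit 0) (XT.nd (nat_lit 78) (nat_lit 304) (nat_lit 0) (XT.lf (nat_lit 0) (nat_lit 46470067) (nat_lit 380) (nat_lit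 11947189509) (nat_lit 76) (nat_lit 867238872) (nat_lit 128) (nat_lit 5) (nat_lit 133) (nat_lit 5) (nat_lit 129) (nat_lit 5) (nat_lit 619) (nat_lit 515) (nat_lit 426)) (XT.nd (nat_lit 78) (nat_lit 304) (nat_lit 0) (XT.lf (nat_lit 0) (nat_lit 4025047389) (nat_lit 380) (nat_lit 3220154740) (nat_lit 76) (nat_lit 5764212115) (nat_lit 128) (nat_lit 5) (nat_lit 133) (nat_lit 5) (nat_lit 129) (nat_lit 5) (nat_lit 620) (nat_lit 515) (nat_lit 425)) (XT.lf (nat_lit 0) (nat_lit 5711986381) (nat_lit 304) (nat_lit 2381072693) (nat_lit 380) (nat_lit 5067645195) (nat_lit 124) (nat_lit 5) (nat_lit 128) (nat_lit 5) (nat_lit 129) (nat_lit 5) (nat_lit 621) (nat_lit 515) (nat_lit 424)))) (XT.nd (nat_lit 78) (nat_lit 76) (nat_lit 0) (XT.lf (nat_lit 0) (nat_lit 1510257311) (nat_lit 304) (nat_lit 10753398242) (nat_lit 380) (nat_lit 1050941192) (nat_lit 120) (nat_lit 5) (nat_lit 124) (nat_lit 5) (nat_lit 125) (nat_lit 5) (nat_lit 622) (nat_lit 515) (nat_lit 423)) (XT.nd (nat_lit 73788) (nat_lit 0)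 (nat_lit 48868) (XT.lf (nat_lit 0) (nat_lit 3045210276) (nat_lit 380) (nat_lit 2801616613) (nat_lit 76) (nat_lit 7623564467) (nat_lit 119) (nat_lit 5) (nat_lit 124) (nat_lit 5) (nat_lit 120) (nat_lit 5) (nat_lit 623) (nat_lit 515) (nat_lit 422)) (XT.lf (nat_lit 0) (nat_lit 321215194) (nat_lit 380) (nat_lit 2593983959) (nat_lit 0) (nat_lit 321215194) (nat_lit 762) (nat_lit 5) (nat_lit 767) (nat_lit 4) (nat_lit 762) (nat_lit 4) (nat_lit 528) (nat_lit 516) (nat_lit 516))))))))
noncomputable def xc59 : XT := (XT.nd (nat_lit 1560) (nat_lit 18392) (nat_lit 0) (XT.nd (nat_lit 780) (nat_lit 7296) (nat_lit 0) (XT.nd (nat_lit 390) (nat_lit 1444) (nat_lit 0) (XT.nd (nat_lit 156) (nat_lit 1064) (nat_lit 0) (XT.nd (nat_lit 78) (nat_lit 456) (nat_lit 0) (XT.lf (nat_lit 0) (nat_lit 3833657163) (nat_lit 380) (nat_lit 1592720312) (nat_lit 0) (nat_lit 1054624976) (nat_lit 762) (nat_lit 5) (nat_lit 767) (nat_lit 4) (nat_lit 762) (nat_lit 4) (nat_lit 529) (nat_lit 516) (nat_lit 515)) (XT.lf (nat_lit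 0) (nat_lit 526052144) (nat_lit 456) (nat_lit 4440948213) (nat_lit 76) (nat_lit 1523583678) (nat_lit 756) (nat_lit 5) (nat_lit 762) (nat_lit 5) (nat_lit 757) (nat_lit 4) (nat_lit 530) (nat_lit 516) (nat_lit 514))) (XT.nd (nat_lit 78) (nat_lit 1064) (nat_lit 0) (XT.lf (nat_lit 0) (nat_lit 3660620524) (nat_lit 456) (nat_lit 780239067) (nat_lit 76) (nat_lit 2060497475) (nat_lit 756) (nat_lit 5) (nat_lit 762) (nat_lit 5) (nat_lit 757) (nat_lit 4) (nat_lit 531) (nat_lit 516) (nat_lit 513)) (XT.nd (nat_lit 78) (nat_lit 532) (nat_lit 0) (XT.lf (nat_lit 0) (nat_lit 283611078) (nat_lit 532) (nat_lit 3571026523) (nat_lit 76) (nat_lit 2658823236) (nat_lit 749) (nat_lit 5) (nat_lit 756) (nat_lit 5) (nat_lit 750) (nat_lit 5) (nat_lit 532) (nat_lit 516) (nat_lit 512)) (XT.lf (nat_lit 0) (nat_lit 159012091) (nat_lit 532) (nat_lit 3204290723) (nat_lit 608) (nat_lit 3163522506) (nat_lit 742) (nat_lit 5) (nat_lit 749) (nat_lit 5) (nat_lit 750) (nat_lit 5) (nat_lit 533) (nat_lit 516) (nat_lit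 511))))) (XT.nd (nat_lit 156) (nat_lit 760) (nat_lit 0) (XT.nd (nat_lit 78) (nat_lit 684) (nat_lit 0) (XT.lf (nat_lit 0) (nat_lit 3963716400) (nat_lit 532) (nat_lit 2490557046) (nat_lit 608) (nat_lit 87201779) (nat_lit 742) (nat_lit 5) (nat_lit 749) (nat_lit 5) (nat_lit 750) (nat_lit 5) (nat_lit 534) (nat_lit 516) (nat_lit 510)) (XT.lf (nat_lit 0) (nat_lit 1236122708) (nat_lit 608) (nat_lit 1709222937) (nat_lit 684) (nat_lit 3611993522) (nat_lit 733) (nat_lit 5) (nat_lit 741) (nat_lit 5) (nat_lit 742) (nat_lit 5) (nat_lit 535) (nat_lit 516) (nat_lit 509))) (XT.nd (nat_lit 78) (nat_lit 760) (nat_lit 0) (XT.lf (nat_lit 0) (nat_lit 5112578070) (nat_lit 608) (nat_lit 869903566) (nat_lit 684) (nat_lit 592136273) (nat_lit 733) (nat_lit 5) (nat_lit 741) (nat_lit 5) (nat_lit 742) (nat_lit 5) (nat_lit 536) (nat_lit 516) (nat_lit 508)) (XT.nd (nat_lit 78) (nat_lit 0) (nat_lit 0) (XT.lf (nat_lit 0) (nat_lit 2400360583) (nat_lit 760) (nat_lit 4151192202) (nat_lit 76) (nat_lit 41479576)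 (nat_lit 723) (nat_lit 5) (nat_lit 733) (nat_lit 5) (nat_lit 724) (nat_lit 5) (nat_lit 537) (nat_lit 516) (nat_lit 507)) (XT.lf (nat_lit 0) (nat_lit 5390401435) (nat_lit 760) (nat_lit 227069303) (nat_lit 76) (nat_lit 995364140) (nat_lit 723) (nat_lit 5) (nat_lit 733) (nat_lit 5) (nat_lit 724) (nat_lit 5) (nat_lit 538) (nat_lit 516) (nat_lit 506)))))) (XT.nd (nat_lit 390) (nat_lit 3572) (nat_lit 0) (XT.nd (nat_lit 156) (nat_lit 2052) (nat_lit 0) (XT.nd (nat_lit 78) (nat_lit 836) (nat_lit 0) (XT.lf (nat_lit 0) (nat_lit 1739077662) (nat_lit 836) (nat_lit 2868651354) (nat_lit 76) (nat_lit 2025968461) (nat_lit 712) (nat_lit 5) (nat_lit 723) (nat_lit 5) (nat_lit 713) (nat_lit 5) (nat_lit 539) (nat_lit 516) (nat_lit 505)) (XT.lf (nat_lit 0) (nat_lit 1143072356) (nat_lit 836) (nat_lit 3541276759) (nat_lit 912) (nat_lit 1971658539) (nat_lit 701) (nat_lit 5) (nat_lit 712) (nat_lit 5) (nat_lit 713) (nat_lit 5) (nat_lit 540) (nat_lit 516) (nat_lit 504))) (XT.nd (nat_lit 78) (nat_lit 1976)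 (nat_lit 0) (XT.lf (nat_lit 0) (nat_lit 948389567) (nat_lit 912) (nat_lit 1460679873) (nat_lit 76) (nat_lit 4270535578) (nat_lit 700) (nat_lit 5) (nat_lit 712) (nat_lit 5) (nat_lit 701) (nat_lit 5) (nat_lit 541) (nat_lit 516) (nat_lit 503)) (XT.nd (nat_lit 78) (nat_lit 1064) (nat_lit 0) (XT.lf (nat_lit 0) (nat_lit 2645700217) (nat_lit 912) (nat_lit 1205757063) (nat_lit 988) (nat_lit 2852945343) (nat_lit 688) (nat_lit 5) (nat_lit 700) (nat_lit 5) (nat_lit 701) (nat_lit 5) (nat_lit 542) (nat_lit 516) (nat_lit 502)) (XT.lf (nat_lit 0) (nat_lit 26842160) (nat_lit 1064) (nat_lit 6655345141) (nat_lit 76) (nat_lit 48606303) (nat_lit 674) (nat_lit 5) (nat_lit 688) (nat_lit 5) (nat_lit 675) (nat_lit 5) (nat_lit 543) (nat_lit 516) (nat_lit 501))))) (XT.nd (nat_lit 156) (nat_lit 2508) (nat_lit 0) (XT.nd (nat_lit 78) (nat_lit 1064) (nat_lit 0) (XT.lf (nat_lit 0) (nat_lit 2896895477) (nat_lit 1064) (nat_lit 2487133511) (nat_lit 76) (nat_lit 1373897632) (nat_lit 674) (nat_lit 5) (nat_lit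 688) (nat_lit 5) (nat_lit 675) (nat_lit 5) (nat_lit 544) (nat_lit 516) (nat_lit 500)) (XT.lf (nat_lit 0) (nat_lit 1738015399) (nat_lit 1064) (nat_lit 4034318560) (nat_lit 1140) (nat_lit 1014317277) (nat_lit 660) (nat_lit 5) (nat_lit 674) (nat_lit 5) (nat_lit 675) (nat_lit 5) (nat_lit 545) (nat_lit 516) (nat_lit 499))) (XT.nd (nat_lit 78) (nat_lit 2432) (nat_lit 0) (XT.lf (nat_lit 0) (nat_lit 1818554483) (nat_lit 1140) (nat_lit 796353175) (nat_lit 76) (nat_lit 4201725587) (nat_lit 659) (nat_lit 5) (nat_lit 674) (nat_lit 5) (nat_lit 660) (nat_lit 5) (nat_lit 546) (nat_lit 516) (nat_lit 498)) (XT.nd (nat_lit 78) (nat_lit 1292) (nat_lit 0) (XT.lf (nat_lit 0) (nat_lit 3531813122) (nat_lit 1140) (nat_lit 1124065775) (nat_lit 1216) (nat_lit 2191982489) (nat_lit 644) (nat_lit 5) (nat_lit 659) (nat_lit 5) (nat_lit 660) (nat_lit 5) (nat_lit 547) (nat_lit 516) (nat_lit 497)) (XT.lf (nat_lit 0) (nat_lit 615239241) (nat_lit 1292) (nat_lit 5845685975) (nat_lit 76) (nat_lit 419633774) (nat_lit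 627) (nat_lit 5) (nat_lit 644) (nat_lit 5) (nat_lit 628) (nat_lit 5) (nat_lit 548) (nat_lit 516) (nat_lit 496))))))) (XT.nd (nat_lit 780) (nat_lit 9272) (nat_lit 0) (XT.nd (nat_lit 390) (nat_lit 4864) (nat_lit 0) (XT.nd (nat_lit 156) (nat_lit 2964) (nat_lit 0) (XT.nd (nat_lit 78) (nat_lit 1292) (nat_lit 0) (XT.lf (nat_lit 0) (nat_lit 3418995581) (nat_lit 1292) (nat_lit 1468035384) (nat_lit 76) (nat_lit 2027202641) (nat_lit 627) (nat_lit 5) (nat_lit 644) (nat_lit 5) (nat_lit 628) (nat_lit 5) (nat_lit 549) (nat_lit 516) (nat_lit 495)) (XT.lf (nat_lit 0) (nat_lit 2987104868) (nat_lit 1292) (nat_lit 3252164921) (nat_lit 1368) (nat_lit 710110577) (nat_lit 610) (nat_lit 5) (nat_lit 627) (nat_lit 5) (nat_lit 628) (nat_lit 5) (nat_lit 550) (nat_lit 516) (nat_lit 494))) (XT.nd (nat_lit 78) (nat_lit 1520) (nat_lit 0) (XT.lf (nat_lit 0) (nat_lit 509294157) (nat_lit 1368) (nat_lit 1548198375) (nat_lit 1444) (nat_lit 4928373703) (nat_lit 591) (nat_lit 5) (nat_lit 609) (nat_lit 5) (nat_lit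 610) (nat_lit 5) (nat_lit 551) (nat_lit 516) (nat_lit 493)) (XT.nd (nat_lit 78) (nat_lit 1520) (nat_lit 0) (XT.lf (nat_lit 0) (nat_lit 4841321063) (nat_lit 1444) (nat_lit 1955244705) (nat_lit 76) (nat_lit 227021615) (nat_lit 591) (nat_lit 5) (nat_lit 610) (nat_lit 5) (nat_lit 592) (nat_lit 5) (nat_lit 552) (nat_lit 516) (nat_lit 492)) (XT.lf (nat_lit 0) (nat_lit 581289424) (nat_lit 1520) (nat_lit 4435309051) (nat_lit 76) (nat_lit 2045978100) (nat_lit 571) (nat_lit 5) (nat_lit 591) (nat_lit 5) (nat_lit 572) (nat_lit 5) (nat_lit 553) (nat_lit 516) (nat_lit 491))))) (XT.nd (nat_lit 156) (nat_lit 3344) (nat_lit 0) (XT.nd (nat_lit 78) (nat_lit 0) (nat_lit 0) (XT.lf (nat_lit 0) (nat_lit 163433296) (nat_lit 1520) (nat_lit 3165675801) (nat_lit 1596) (nat_lit 3773790356) (nat_lit 551) (nat_lit 5) (nat_lit 571) (nat_lit 5) (nat_lit 572) (nat_lit 5) (nat_lit 554) (nat_lit 516) (nat_lit 490)) (XT.lf (nat_lit 0) (nat_lit 4864579472) (nat_lit 1520) (nat_lit 1241763285) (nat_lit 1596) (nat_lit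 1038203414) (nat_lit 551) (nat_lit 5) (nat_lit 571) (nat_lit 5) (nat_lit 572) (nat_lit 5) (nat_lit 555) (nat_lit 516) (nat_lit 489))) (XT.nd (nat_lit 78) (nat_lit 1672) (nat_lit 0) (XT.lf (nat_lit 0) (nat_lit 1695289884) (nat_lit 1672) (nat_lit 4748521847) (nat_lit 76) (nat_lit 743669384) (nat_lit 529) (nat_lit 5) (nat_lit 551) (nat_lit 5) (nat_lit 530) (nat_lit 5) (nat_lit 556) (nat_lit 516) (nat_lit 488)) (XT.nd (nat_lit 78) (nat_lit 1672) (nat_lit 0) (XT.lf (nat_lit 0) (nat_lit 4439384513) (nat_lit 1672) (nat_lit 13238154) (nat_lit 76) (nat_lit 2779124337) (nat_lit 529) (nat_lit 5) (nat_lit 551) (nat_lit 5) (nat_lit 530) (nat_lit 5) (nat_lit 557) (nat_lit 516) (nat_lit 487)) (XT.lf (nat_lit 0) (nat_lit 4830855560) (nat_lit 1672) (nat_lit 2386120904) (nat_lit 1748) (nat_lit 60355475) (nat_lit 507) (nat_lit 5) (nat_lit 529) (nat_lit 5) (nat_lit 530) (nat_lit 5) (nat_lit 558) (nat_lit 516) (nat_lit 486)))))) (XT.nd (nat_lit 390) (nat_lit 3572) (nat_lit 0) (XT.nd (nat_lit 156)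 (nat_lit 3876) (nat_lit 0) (XT.nd (nat_lit 78) (nat_lit 0) (nat_lit 0) (XT.lf (nat_lit 0) (nat_lit 2412491467) (nat_lit 1748) (nat_lit 241413833) (nat_lit 1824) (nat_lit 4670307668) (nat_lit 483) (nat_lit 5) (nat_lit 506) (nat_lit 5) (nat_lit 507) (nat_lit 5) (nat_lit 559) (nat_lit 516) (nat_lit 485)) (XT.lf (nat_lit 0) (nat_lit 5399144610) (nat_lit 1824) (nat_lit 33405546) (nat_lit 76) (nat_lit 1939929141) (nat_lit 483) (nat_lit 5) (nat_lit 507) (nat_lit 5) (nat_lit 484) (nat_lit 5) (nat_lit 560) (nat_lit 516) (nat_lit 484))) (XT.nd (nat_lit 78) (nat_lit 1976) (nat_lit 0) (XT.lf (nat_lit 0) (nat_lit 750394073) (nat_lit 1900) (nat_lit 2470478969) (nat_lit 76) (nat_lit 4201082119) (nat_lit 458) (nat_lit 5) (nat_lit 483) (nat_lit 5) (nat_lit 459) (nat_lit 5) (nat_lit 561) (nat_lit 516) (nat_lit 483)) (XT.nd (nat_lit 78) (nat_lit 912) (nat_lit 0) (XT.lf (nat_lit 0) (nat_lit 2534542474) (nat_lit 1064) (nat_lit 934028455) (nat_lit 1140) (nat_lit 4004266169) (nat_lit 444) (nat_lit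 5) (nat_lit 458) (nat_lit 5) (nat_lit 459) (nat_lit 5) (nat_lit 562) (nat_lit 516) (nat_lit 482)) (XT.lf (nat_lit 0) (nat_lit 90348484) (nat_lit 912) (nat_lit 6127475361) (nat_lit 988) (nat_lit 1307383834) (nat_lit 432) (nat_lit 5) (nat_lit 444) (nat_lit 5) (nat_lit 445) (nat_lit 5) (nat_lit 563) (nat_lit 516) (nat_lit 481))))) (XT.nd (nat_lit 234) (nat_lit 1748) (nat_lit 0) (XT.nd (nat_lit 78) (nat_lit 1748) (nat_lit 0) (XT.lf (nat_lit 0) (nat_lit 1414725236) (nat_lit 988) (nat_lit 2357957943) (nat_lit 76) (nat_lit 3805955708) (nat_lit 431) (nat_lit 5) (nat_lit 444) (nat_lit 5) (nat_lit 432) (nat_lit 5) (nat_lit 564) (nat_lit 516) (nat_lit 480)) (XT.nd (nat_lit 78) (nat_lit 836) (nat_lit 0) (XT.lf (nat_lit 0) (nat_lit 2798801958) (nat_lit 912) (nat_lit 1344800213) (nat_lit 988) (nat_lit 3489972033) (nat_lit 419) (nat_lit 5) (nat_lit 431) (nat_lit 5) (nat_lit 432) (nat_lit 5) (nat_lit 565) (nat_lit 516) (nat_lit 479)) (XT.lf (nat_lit 0) (nat_lit 348132279) (nat_lit 836) (nat_lit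 6556720036) (nat_lit 912) (nat_lit 785204853) (nat_lit 408) (nat_lit 5) (nat_lit 419) (nat_lit 5) (nat_lit 420) (nat_lit 5) (nat_lit 566) (nat_lit 516) (nat_lit 478)))) (XT.nd (nat_lit 78) (nat_lit 1672) (nat_lit 0) (XT.lf (nat_lit 0) (nat_lit 1941892079) (nat_lit 912) (nat_lit 2119377890) (nat_lit 76) (nat_lit 3686265817) (nat_lit 407) (nat_lit 5) (nat_lit 419) (nat_lit 5) (nat_lit 408) (nat_lit 5) (nat_lit 567) (nat_lit 516) (nat_lit 477)) (XT.nd (nat_lit 78) (nat_lit 836) (nat_lit 0) (XT.lf (nat_lit 0) (nat_lit 3194658373) (nat_lit 836) (nat_lit 1492595252) (nat_lit 912) (nat_lit 3119326392) (nat_lit 396) (nat_lit 5) (nat_lit 407) (nat_lit 5) (nat_lit 408) (nat_lit 5) (nat_lit 568) (nat_lit 516) (nat_lit 476)) (XT.lf (nat_lit 0) (nat_lit 729097014) (nat_lit 836) (nat_lit 6738850183) (nat_lit 912) (nat_lit 399253924) (nat_lit 385) (nat_lit 5) (nat_lit 396) (nat_lit 5) (nat_lit 397) (nat_lit 5) (nat_lit 569) (nat_lit 516) (nat_lit 475))))))))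
noncomputable def xc60 : XT := (XT.nd (nat_lit 1560) (nat_lit 7448) (nat_lit 0) (XT.nd (nat_lit 780) (nat_lit 4636) (nat_lit 0) (XT.nd (nat_lit 390) (nat_lit 2280) (nat_lit 0) (XT.nd (nat_lit 156) (nat_lit 1596) (nat_lit 0) (XT.nd (nat_lit 78) (nat_lit 836) (nat_lit 0) (XT.lf (nat_lit 0) (nat_lit 2339433272) (nat_lit 912) (nat_lit 1764990077) (nat_lit 76) (nat_lit 3824399885) (nat_lit 384) (nat_lit 5) (nat_lit 396) (nat_lit 5) (nat_lit 385) (nat_lit 5) (nat_lit 570) (nat_lit 516) (nat_lit 474)) (XT.lf (nat_lit 0) (nat_lit 3712102491) (nat_lit 836) (nat_lit 1394774300) (nat_lit 912) (nat_lit 2885165871) (nat_lit 373) (nat_lit 5) (nat_lit 384) (nat_lit 5) (nat_lit 385) (nat_lit 5) (nat_lit 571) (nat_lit 516) (nat_lit 473))) (XT.nd (nat_lit 78) (nat_lit 836) (nat_lit 0) (XT.lf (nat_lit 0) (nat_lit 1223394981) (nat_lit 760) (nat_lit 6690777034) (nat_lit 836) (nat_lit 142668552) (nat_lit 363) (nat_lit 5) (nat_lit 373) (nat_lit 5) (nat_lit 374) (nat_lit 5) (nat_lit 572) (nat_lit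 516) (nat_lit 472)) (XT.nd (nat_lit 78) (nat_lit 760) (nat_lit 0) (XT.lf (nat_lit 0) (nat_lit 2614009658) (nat_lit 836) (nat_lit 1304524879) (nat_lit 76) (nat_lit 4204176205) (nat_lit 362) (nat_lit 5) (nat_lit 373) (nat_lit 5) (nat_lit 363) (nat_lit 5) (nat_lit 573) (nat_lit 516) (nat_lit 471)) (XT.lf (nat_lit 0) (nat_lit 4341643042) (nat_lit 760) (nat_lit 1067321186) (nat_lit 836) (nat_lit 2781218074) (nat_lit 352) (nat_lit 5) (nat_lit 362) (nat_lit 5) (nat_lit 363) (nat_lit 5) (nat_lit 574) (nat_lit 516) (nat_lit 470))))) (XT.nd (nat_lit 156) (nat_lit 1520) (nat_lit 0) (XT.nd (nat_lit 78) (nat_lit 76) (nat_lit 0) (XT.lf (nat_lit 0) (nat_lit 1821652366) (nat_lit 684) (nat_lit 6428106046) (nat_lit 760) (nat_lit 9449899) (nat_lit 343) (nat_lit 5) (nat_lit 352) (nat_lit 5) (nat_lit 353) (nat_lit 5) (nat_lit 575) (nat_lit 516) (nat_lit 469)) (XT.lf (nat_lit 0) (nat_lit 2771444302) (nat_lit 760) (nat_lit 747274098) (nat_lit 76) (nat_lit 4810721304) (nat_lit 342) (nat_lit 5) (nat_lit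 352) (nat_lit 5) (nat_lit 343) (nat_lit 5) (nat_lit 576) (nat_lit 516) (nat_lit 468))) (XT.nd (nat_lit 78) (nat_lit 760) (nat_lit 0) (XT.lf (nat_lit 0) (nat_lit 5074224233) (nat_lit 760) (nat_lit 524963615) (nat_lit 836) (nat_lit 2802063076) (nat_lit 332) (nat_lit 5) (nat_lit 342) (nat_lit 5) (nat_lit 343) (nat_lit 5) (nat_lit 577) (nat_lit 516) (nat_lit 467)) (XT.nd (nat_lit 78) (nat_lit 0) (nat_lit 0) (XT.lf (nat_lit 0) (nat_lit 5500075) (nat_lit 760) (nat_lit 5959717416) (nat_lit 76) (nat_lit 2509350575) (nat_lit 322) (nat_lit 5) (nat_lit 332) (nat_lit 5) (nat_lit 323) (nat_lit 5) (nat_lit 578) (nat_lit 516) (nat_lit 466)) (XT.lf (nat_lit 0) (nat_lit 2816756799) (nat_lit 760) (nat_lit 102171926) (nat_lit 76) (nat_lit 5630354555) (nat_lit 322) (nat_lit 5) (nat_lit 332) (nat_lit 5) (nat_lit 323) (nat_lit 5) (nat_lit 579) (nat_lit 516) (nat_lit 465)))))) (XT.nd (nat_lit 390) (nat_lit 1976) (nat_lit 0) (XT.nd (nat_lit 156) (nat_lit 1368) (nat_lit 0) (XT.nd (nat_lit 78) (nat_lit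 608) (nat_lit 0) (XT.lf (nat_lit 0) (nat_lit 5683851582) (nat_lit 760) (nat_lit 2725807781) (nat_lit 76) (nat_lit 215844508) (nat_lit 313) (nat_lit 5) (nat_lit 323) (nat_lit 5) (nat_lit 314) (nat_lit 5) (nat_lit 580) (nat_lit 516) (nat_lit 464)) (XT.lf (nat_lit 0) (nat_lit 3294430400) (nat_lit 608) (nat_lit 5315561993) (nat_lit 684) (nat_lit 93225665) (nat_lit 305) (nat_lit 5) (nat_lit 313) (nat_lit 5) (nat_lit 314) (nat_lit 5) (nat_lit 581) (nat_lit 516) (nat_lit 463))) (XT.nd (nat_lit 78) (nat_lit 608) (nat_lit 0) (XT.lf (nat_lit 0) (nat_lit 630392523) (nat_lit 684) (nat_lit 2127892413) (nat_lit 760) (nat_lit 6024179615) (nat_lit 295) (nat_lit 5) (nat_lit 304) (nat_lit 5) (nat_lit 305) (nat_lit 5) (nat_lit 582) (nat_lit 516) (nat_lit 462)) (XT.nd (nat_lit 78) (nat_lit 608) (nat_lit 0) (XT.lf (nat_lit 0) (nat_lit 5670292401) (nat_lit 760) (nat_lit 2056840020) (nat_lit 76) (nat_lit 1136060006) (nat_lit 295) (nat_lit 5) (nat_lit 305) (nat_lit 5) (nat_lit 296) (nat_lit 5) (nat_lit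 583) (nat_lit 516) (nat_lit 461)) (XT.lf (nat_lit 0) (nat_lit 4151841726) (nat_lit 608) (nat_lit 4491396692) (nat_lit 684) (nat_lit 302245494) (nat_lit 287) (nat_lit 5) (nat_lit 295) (nat_lit 5) (nat_lit 296) (nat_lit 5) (nat_lit 584) (nat_lit 516) (nat_lit 460))))) (XT.nd (nat_lit 156) (nat_lit 1292) (nat_lit 0) (XT.nd (nat_lit 78) (nat_lit 0) (nat_lit 0) (XT.lf (nat_lit 0) (nat_lit 1435989747) (nat_lit 608) (nat_lit 1160576985) (nat_lit 684) (nat_lit 6432812769) (nat_lit 278) (nat_lit 5) (nat_lit 286) (nat_lit 5) (nat_lit 287) (nat_lit 5) (nat_lit 585) (nat_lit 516) (nat_lit 459)) (XT.lf (nat_lit 0) (nat_lit 5558410211) (nat_lit 684) (nat_lit 1325222161) (nat_lit 76) (nat_lit 2231101476) (nat_lit 278) (nat_lit 5) (nat_lit 287) (nat_lit 5) (nat_lit 279) (nat_lit 5) (nat_lit 586) (nat_lit 516) (nat_lit 458))) (XT.nd (nat_lit 78) (nat_lit 684) (nat_lit 0) (XT.lf (nat_lit 0) (nat_lit 5078832560) (nat_lit 608) (nat_lit 3504254601) (nat_lit 684) (nat_lit 618638977) (nat_lit 270)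 (nat_lit 5) (nat_lit 278) (nat_lit 5) (nat_lit 279) (nat_lit 5) (nat_lit 587) (nat_lit 516) (nat_lit 457)) (XT.nd (nat_lit 78) (nat_lit 0) (nat_lit 0) (XT.lf (nat_lit 0) (nat_lit 2304807857) (nat_lit 608) (nat_lit 28827102) (nat_lit 684) (nat_lit 6956776814) (nat_lit 261) (nat_lit 5) (nat_lit 269) (nat_lit 5) (nat_lit 270) (nat_lit 5) (nat_lit 588) (nat_lit 516) (nat_lit 456)) (XT.lf (nat_lit 0) (nat_lit 5350795856) (nat_lit 684) (nat_lit 539387643) (nat_lit 76) (nat_lit 3490325962) (nat_lit 261) (nat_lit 5) (nat_lit 270) (nat_lit 5) (nat_lit 262) (nat_lit 5) (nat_lit 589) (nat_lit 516) (nat_lit 455))))))) (XT.nd (nat_lit 780) (nat_lit 3648) (nat_lit 0) (XT.nd (nat_lit 390) (nat_lit 1520) (nat_lit 0) (XT.nd (nat_lit 156) (nat_lit 1140) (nat_lit 0) (XT.nd (nat_lit 78) (nat_lit 608) (nat_lit 0) (XT.lf (nat_lit 0) (nat_lit 6067182265) (nat_lit 532) (nat_lit 2364856072) (nat_lit 608) (nat_lit 1040298577) (nat_lit 254) (nat_lit 5) (nat_lit 261) (nat_lit 5) (nat_lit 262) (nat_lit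 5) (nat_lit 590) (nat_lit 516) (nat_lit 454)) (XT.lf (nat_lit 0) (nat_lit 1979634790) (nat_lit 608) (nat_lit 6345697546) (nat_lit 76) (nat_lit 1240468648) (nat_lit 246) (nat_lit 5) (nat_lit 254) (nat_lit 5) (nat_lit 247) (nat_lit 5) (nat_lit 591) (nat_lit 516) (nat_lit 453))) (XT.nd (nat_lit 78) (nat_lit 608) (nat_lit 0) (XT.lf (nat_lit 0) (nat_lit 296104592) (nat_lit 532) (nat_lit 4755151039) (nat_lit 608) (nat_lit 4609639237) (nat_lit 239) (nat_lit 5) (nat_lit 246) (nat_lit 5) (nat_lit 247) (nat_lit 5) (nat_lit 592) (nat_lit 516) (nat_lit 452)) (XT.nd (nat_lit 78) (nat_lit 608) (nat_lit 0) (XT.lf (nat_lit 0) (nat_lit 7108654973) (nat_lit 532) (nat_lit 1083238152) (nat_lit 608) (nat_lit 1565848200) (nat_lit 239) (nat_lit 5) (nat_lit 246) (nat_lit 5) (nat_lit 247) (nat_lit 5) (nat_lit 593) (nat_lit 516) (nat_lit 451)) (XT.lf (nat_lit 0) (nat_lit 1528799373) (nat_lit 608) (nat_lit 5675539170) (nat_lit 76) (nat_lit 2651785383) (nat_lit 231) (nat_lit 5) (nat_lit 239) (nat_lit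 5) (nat_lit 232) (nat_lit 5) (nat_lit 594) (nat_lit 516) (nat_lit 450))))) (XT.nd (nat_lit 156) (nat_lit 1064) (nat_lit 0) (XT.nd (nat_lit 78) (nat_lit 0) (nat_lit 0) (XT.lf (nat_lit 0) (nat_lit 1176497784) (nat_lit 456) (nat_lit 3486344663) (nat_lit 532) (nat_lit 5293457584) (nat_lit 225) (nat_lit 5) (nat_lit 231) (nat_lit 5) (nat_lit 232) (nat_lit 5) (nat_lit 595) (nat_lit 516) (nat_lit 449)) (XT.lf (nat_lit 0) (nat_lit 7865907813) (nat_lit 532) (nat_lit 1865634563) (nat_lit 76) (nat_lit 326812653) (nat_lit 225) (nat_lit 5) (nat_lit 232) (nat_lit 5) (nat_lit 226) (nat_lit 5) (nat_lit 596) (nat_lit 516) (nat_lit 448))) (XT.nd (nat_lit 78) (nat_lit 456) (nat_lit 0) (XT.lf (nat_lit 0) (nat_lit 981439383) (nat_lit 608) (nat_lit 4983959619) (nat_lit 76) (nat_lit 4196456496) (nat_lit 217) (nat_lit 5) (nat_lit 225) (nat_lit 5) (nat_lit 218) (nat_lit 5) (nat_lit 597) (nat_lit 516) (nat_lit 447)) (XT.nd (nat_lit 78) (nat_lit 0) (nat_lit 0) (XT.lf (nat_lit 0) (nat_lit 2085789596)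 (nat_lit 456) (nat_lit 2096640350) (nat_lit 532) (nat_lit 6084848600) (nat_lit 211) (nat_lit 5) (nat_lit 217) (nat_lit 5) (nat_lit 218) (nat_lit 5) (nat_lit 598) (nat_lit 516) (nat_lit 446)) (XT.lf (nat_lit 0) (nat_lit 7460178857) (nat_lit 532) (nat_lit 1069507012) (nat_lit 76) (nat_lit 1844871444) (nat_lit 211) (nat_lit 5) (nat_lit 218) (nat_lit 5) (nat_lit 212) (nat_lit 5) (nat_lit 599) (nat_lit 516) (nat_lit 445)))))) (XT.nd (nat_lit 390) (nat_lit 1748) (nat_lit 0) (XT.nd (nat_lit 156) (nat_lit 912) (nat_lit 0) (XT.nd (nat_lit 78) (nat_lit 456) (nat_lit 0) (XT.lf (nat_lit 0) (nat_lit 337338857) (nat_lit 532) (nat_lit 4280244241) (nat_lit 76) (nat_lit 5865918462) (nat_lit 204) (nat_lit 5) (nat_lit 211) (nat_lit 5) (nat_lit 205) (nat_lit 5) (nat_lit 600) (nat_lit 516) (nat_lit 444)) (XT.lf (nat_lit 0) (nat_lit 3014868460) (nat_lit 456) (nat_lit 594862132) (nat_lit 532) (nat_lit 6984617462) (nat_lit 198) (nat_lit 5) (nat_lit 204) (nat_lit 5) (nat_lit 205) (nat_lit 5) (nat_lit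 601) (nat_lit 516) (nat_lit 443))) (XT.nd (nat_lit 78) (nat_lit 912) (nat_lit 0) (XT.lf (nat_lit 0) (nat_lit 6967323109) (nat_lit 532) (nat_lit 262955057) (nat_lit 76) (nat_lit 3476740128) (nat_lit 198) (nat_lit 5) (nat_lit 205) (nat_lit 5) (nat_lit 199) (nat_lit 5) (nat_lit 602) (nat_lit 516) (nat_lit 442)) (XT.nd (nat_lit 78) (nat_lit 456) (nat_lit 0) (XT.lf (nat_lit 0) (nat_lit 7244847797) (nat_lit 456) (nat_lit 3166885502) (nat_lit 532) (nat_lit 409817163) (nat_lit 192) (nat_lit 5) (nat_lit 198) (nat_lit 5) (nat_lit 199) (nat_lit 5) (nat_lit 603) (nat_lit 516) (nat_lit 441)) (XT.lf (nat_lit 0) (nat_lit 2950295984) (nat_lit 456) (nat_lit 6990375541) (nat_lit 76) (nat_lit 997259528) (nat_lit 186) (nat_lit 5) (nat_lit 192) (nat_lit 5) (nat_lit 187) (nat_lit 5) (nat_lit 604) (nat_lit 516) (nat_lit 440))))) (XT.nd (nat_lit 234) (nat_lit 836) (nat_lit 0) (XT.nd (nat_lit 78) (nat_lit 456) (nat_lit 0) (XT.lf (nat_lit 0) (nat_lit 551550041) (nat_lit 456) (nat_lit 5838306513) (nat_lit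 532) (nat_lit 4666375603) (nat_lit 180) (nat_lit 5) (nat_lit 186) (nat_lit 5) (nat_lit 187) (nat_lit 5) (nat_lit 605) (nat_lit 516) (nat_lit 439)) (XT.nd (nat_lit 78) (nat_lit 456) (nat_lit 0) (XT.lf (nat_lit 0) (nat_lit 8292915489) (nat_lit 456) (nat_lit 1621523057) (nat_lit 532) (nat_lit 1262137834) (nat_lit 180) (nat_lit 5) (nat_lit 186) (nat_lit 5) (nat_lit 187) (nat_lit 5) (nat_lit 606) (nat_lit 516) (nat_lit 438)) (XT.lf (nat_lit 0) (nat_lit 2200297738) (nat_lit 456) (nat_lit 6422653614) (nat_lit 76) (nat_lit 2675708769) (nat_lit 174) (nat_lit 5) (nat_lit 180) (nat_lit 5) (nat_lit 175) (nat_lit 5) (nat_lit 607) (nat_lit 516) (nat_lit 437)))) (XT.nd (nat_lit 78) (nat_lit 456) (nat_lit 0) (XT.lf (nat_lit 0) (nat_lit 1359912731) (nat_lit 380) (nat_lit 4364153342) (nat_lit 456) (nat_lit 5698774530) (nat_lit 169) (nat_lit 5) (nat_lit 174) (nat_lit 5) (nat_lit 175) (nat_lit 5) (nat_lit 608) (nat_lit 516) (nat_lit 436)) (XT.nd (nat_lit 78) (nat_lit 456) (nat_lit 0) (XT.lf (nat_lit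 0) (nat_lit 9331676432) (nat_lit 456) (nat_lit 2209654201) (nat_lit 76) (nat_lit 7908298) (nat_lit 169) (nat_lit 5) (nat_lit 175) (nat_lit 5) (nat_lit 170) (nat_lit 5) (nat_lit 609) (nat_lit 516) (nat_lit 435)) (XT.lf (nat_lit 0) (nat_lit 1353308797) (nat_lit 456) (nat_lit 5883582672) (nat_lit 76) (nat_lit 4440351713) (nat_lit 163) (nat_lit 5) (nat_lit 169) (nat_lit 5) (nat_lit 164) (nat_lit 5) (nat_lit 610) (nat_lit 516) (nat_lit 434))))))))
noncomputable def xc61 : XT := (XT.nd (nat_lit 75114) (nat_lit 0) (nat_lit 34352) (XT.nd (nat_lit 780) (nat_lit 684) (nat_lit 0) (XT.nd (nat_lit 390) (nat_lit 1444) (nat_lit 0) (XT.nd (nat_lit 156) (nat_lit 836) (nat_lit 0) (XT.nd (nat_lit 78) (nat_lit 0) (nat_lit 0) (XT.lf (nat_lit 0) (nat_lit 2147627461) (nat_lit 380) (nat_lit 2817963188) (nat_lit 456) (nat_lit 6841931461) (nat_lit 158) (nat_lit 5) (nat_lit 163) (nat_lit 5) (nat_lit 164) (nat_lit 5) (nat_lit 611) (nat_lit 516) (nat_lit 433)) (XT.lf (nat_lit 0) (nat_lit 8671795500) (nat_lit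 456) (nat_lit 1577047991) (nat_lit 76) (nat_lit 1691131030) (nat_lit 158) (nat_lit 5) (nat_lit 164) (nat_lit 5) (nat_lit 159) (nat_lit 5) (nat_lit 612) (nat_lit 516) (nat_lit 432))) (XT.nd (nat_lit 78) (nat_lit 380) (nat_lit 0) (XT.lf (nat_lit 0) (nat_lit 405970878) (nat_lit 456) (nat_lit 5385040501) (nat_lit 76) (nat_lit 6283339684) (nat_lit 152) (nat_lit 5) (nat_lit 158) (nat_lit 5) (nat_lit 153) (nat_lit 5) (nat_lit 613) (nat_lit 516) (nat_lit 431)) (XT.nd (nat_lit 78) (nat_lit 0) (nat_lit 0) (XT.lf (nat_lit 0) (nat_lit 2902917123) (nat_lit 380) (nat_lit 1208084985) (nat_lit 456) (nat_lit 8099959156) (nat_lit 147) (nat_lit 5) (nat_lit 152) (nat_lit 5) (nat_lit 153) (nat_lit 5) (nat_lit 614) (nat_lit 516) (nat_lit 430)) (XT.lf (nat_lit 0) (nat_lit 7920797883) (nat_lit 456) (nat_lit 987474042) (nat_lit 76) (nat_lit 3441419807) (nat_lit 147) (nat_lit 5) (nat_lit 153) (nat_lit 5) (nat_lit 148) (nat_lit 5) (nat_lit 615) (nat_lit 516) (nat_lit 429))))) (XT.nd (nat_lit 156) (nat_lit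 684) (nat_lit 0) (XT.nd (nat_lit 78) (nat_lit 456) (nat_lit 0) (XT.lf (nat_lit 0) (nat_lit 7546583152) (nat_lit 304) (nat_lit 4289539046) (nat_lit 380) (nat_lit 654489272) (nat_lit 143) (nat_lit 5) (nat_lit 147) (nat_lit 5) (nat_lit 148) (nat_lit 5) (nat_lit 616) (nat_lit 516) (nat_lit 428)) (XT.lf (nat_lit 0) (nat_lit 3159002962) (nat_lit 456) (nat_lit 9023744498) (nat_lit 76) (nat_lit 451078315) (nat_lit 137) (nat_lit 5) (nat_lit 143) (nat_lit 5) (nat_lit 138) (nat_lit 5) (nat_lit 617) (nat_lit 516) (nat_lit 427))) (XT.nd (nat_lit 78) (nat_lit 684) (nat_lit 0) (XT.lf (nat_lit 0) (nat_lit 7074376204) (nat_lit 456) (nat_lit 454041759) (nat_lit 76) (nat_lit 5250713623) (nat_lit 137) (nat_lit 5) (nat_lit 143) (nat_lit 5) (nat_lit 138) (nat_lit 5) (nat_lit 618) (nat_lit 516) (nat_lit 426)) (XT.nd (nat_lit 78) (nat_lit 380) (nat_lit 0) (XT.lf (nat_lit 0) (nat_lit 8353345983) (nat_lit 304) (nat_lit 2742046676) (nat_lit 380) (nat_lit 1831405354) (nat_lit 133) (nat_lit 5) (nat_lit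 137) (nat_lit 5) (nat_lit 138) (nat_lit 5) (nat_lit 619) (nat_lit 516) (nat_lit 425)) (XT.lf (nat_lit 0) (nat_lit 2109623405) (nat_lit 380) (nat_lit 8826657160) (nat_lit 76) (nat_lit 2140502992) (nat_lit 128) (nat_lit 5) (nat_lit 133) (nat_lit 5) (nat_lit 129) (nat_lit 5) (nat_lit 620) (nat_lit 516) (nat_lit 424)))))) (XT.nd (nat_lit 73944) (nat_lit 0) (nat_lit 47880) (XT.nd (nat_lit 156) (nat_lit 380) (nat_lit 0) (XT.nd (nat_lit 78) (nat_lit 0) (nat_lit 0) (XT.lf (nat_lit 0) (nat_lit 9166441) (nat_lit 304) (nat_lit 6118229583) (nat_lit 380) (nat_lit 7101682903) (nat_lit 124) (nat_lit 5) (nat_lit 128) (nat_lit 5) (nat_lit 129) (nat_lit 5) (nat_lit 621) (nat_lit 516) (nat_lit 423)) (XT.lf (nat_lit 0) (nat_lit 9098161718) (nat_lit 304) (nat_lit 1160147381) (nat_lit 380) (nat_lit 3125456529) (nat_lit 124) (nat_lit 5) (nat_lit 128) (nat_lit 5) (nat_lit 129) (nat_lit 5) (nat_lit 622) (nat_lit 516) (nat_lit 422))) (XT.nd (nat_lit 73632) (nat_lit 0) (nat_lit 49172) (XT.lf (nat_lit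 0) (nat_lit 948874188) (nat_lit 380) (nat_lit 8724599491) (nat_lit 76) (nat_lit 3867337043) (nat_lit 119) (nat_lit 5) (nat_lit 124) (nat_lit 5) (nat_lit 120) (nat_lit 5) (nat_lit 623) (nat_lit 516) (nat_lit 421)) (XT.nd (nat_lit 78) (nat_lit 76) (nat_lit 0) (XT.lf (nat_lit 0) (nat_lit 335226120) (nat_lit 228) (nat_lit 1447228862) (nat_lit 228) (nat_lit 1447228862) (nat_lit 767) (nat_lit 4) (nat_lit 770) (nat_lit 5) (nat_lit 770) (nat_lit 4) (nat_lit 526) (nat_lit 517) (nat_lit 517)) (XT.lf (nat_lit 0) (nat_lit 301928305) (nat_lit 304) (nat_lit 2281409910) (nat_lit 76) (nat_lit 3882419547) (nat_lit 766) (nat_lit 5) (nat_lit 770) (nat_lit 5) (nat_lit 767) (nat_lit 4) (nat_lit 527) (nat_lit 517) (nat_lit 516))))) (XT.nd (nat_lit 156) (nat_lit 912) (nat_lit 0) (XT.nd (nat_lit 78) (nat_lit 76) (nat_lit 0) (XT.lf (nat_lit 0) (nat_lit 1246719932) (nat_lit 304) (nat_lit 2205080983) (nat_lit 380) (nat_lit 3021539356) (nat_lit 762) (nat_lit 5) (nat_lit 766) (nat_lit 5) (nat_lit 767)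 (nat_lit 4) (nat_lit 528) (nat_lit 517) (nat_lit 515)) (XT.lf (nat_lit 0) (nat_lit 117514755) (nat_lit 380) (nat_lit 1653189116) (nat_lit 76) (nat_lit 4711633264) (nat_lit 761) (nat_lit 5) (nat_lit 766) (nat_lit 5) (nat_lit 762) (nat_lit 5) (nat_lit 529) (nat_lit 517) (nat_lit 514))) (XT.nd (nat_lit 78) (nat_lit 532) (nat_lit 0) (XT.lf (nat_lit 0) (nat_lit 1950750729) (nat_lit 380) (nat_lit 1263310140) (nat_lit 456) (nat_lit 3278363045) (nat_lit 756) (nat_lit 5) (nat_lit 761) (nat_lit 5) (nat_lit 762) (nat_lit 5) (nat_lit 530) (nat_lit 517) (nat_lit 513)) (XT.nd (nat_lit 78) (nat_lit 532) (nat_lit 0) (XT.lf (nat_lit 0) (nat_lit 5602950677) (nat_lit 380) (nat_lit 704367074) (nat_lit 456) (nat_lit 196711640) (nat_lit 756) (nat_lit 5) (nat_lit 761) (nat_lit 5) (nat_lit 762) (nat_lit 5) (nat_lit 531) (nat_lit 517) (nat_lit 512)) (XT.lf (nat_lit 0) (nat_lit 2783366108) (nat_lit 456) (nat_lit 67308105) (nat_lit 532) (nat_lit 3665967289) (nat_lit 749) (nat_lit 5) (nat_lit 755) (nat_lit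 5) (nat_lit 756) (nat_lit 5) (nat_lit 532) (nat_lit 517) (nat_lit 511))))))) (XT.nd (nat_lit 780) (nat_lit 8892) (nat_lit 0) (XT.nd (nat_lit 390) (nat_lit 2660) (nat_lit 0) (XT.nd (nat_lit 156) (nat_lit 1368) (nat_lit 0) (XT.nd (nat_lit 78) (nat_lit 608) (nat_lit 0) (XT.lf (nat_lit 0) (nat_lit 5892280419) (nat_lit 532) (nat_lit 28502707) (nat_lit 76) (nat_lit 609990428) (nat_lit 749) (nat_lit 5) (nat_lit 756) (nat_lit 5) (nat_lit 750) (nat_lit 5) (nat_lit 533) (nat_lit 517) (nat_lit 510)) (XT.lf (nat_lit 0) (nat_lit 2369371391) (nat_lit 608) (nat_lit 2809381205) (nat_lit 76) (nat_lit 1367089609) (nat_lit 741) (nat_lit 5) (nat_lit 749) (nat_lit 5) (nat_lit 742) (nat_lit 5) (nat_lit 534) (nat_lit 517) (nat_lit 509))) (XT.nd (nat_lit 78) (nat_lit 760) (nat_lit 0) (XT.lf (nat_lit 0) (nat_lit 977056002) (nat_lit 608) (nat_lit 4386453887) (nat_lit 684) (nat_lit 1198935761) (nat_lit 733) (nat_lit 5) (nat_lit 741) (nat_lit 5) (nat_lit 742) (nat_lit 5) (nat_lit 535) (nat_lit 517) (nat_lit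 508)) (XT.nd (nat_lit 78) (nat_lit 684) (nat_lit 0) (XT.lf (nat_lit 0) (nat_lit 1761765435) (nat_lit 684) (nat_lit 1761835714) (nat_lit 76) (nat_lit 3056597582) (nat_lit 732) (nat_lit 5) (nat_lit 741) (nat_lit 5) (nat_lit 733) (nat_lit 5) (nat_lit 536) (nat_lit 517) (nat_lit 507)) (XT.lf (nat_lit 0) (nat_lit 2110799395) (nat_lit 684) (nat_lit 2598690201) (nat_lit 760) (nat_lit 1889792035) (nat_lit 723) (nat_lit 5) (nat_lit 732) (nat_lit 5) (nat_lit 733) (nat_lit 5) (nat_lit 537) (nat_lit 517) (nat_lit 506))))) (XT.nd (nat_lit 156) (nat_lit 1824) (nat_lit 0) (XT.nd (nat_lit 78) (nat_lit 760) (nat_lit 0) (XT.lf (nat_lit 0) (nat_lit 1025673278) (nat_lit 760) (nat_lit 588697714) (nat_lit 76) (nat_lit 5005389912) (nat_lit 722) (nat_lit 5) (nat_lit 732) (nat_lit 5) (nat_lit 723) (nat_lit 5) (nat_lit 538) (nat_lit 517) (nat_lit 505)) (XT.lf (nat_lit 0) (nat_lit 3374000444) (nat_lit 760) (nat_lit 554173993) (nat_lit 836) (nat_lit 2713154781) (nat_lit 712) (nat_lit 5) (nat_lit 722)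 (nat_lit 5) (nat_lit 723) (nat_lit 5) (nat_lit 539) (nat_lit 517) (nat_lit 504))) (XT.nd (nat_lit 78) (nat_lit 912) (nat_lit 0) (XT.lf (nat_lit 0) (nat_lit 167397308) (nat_lit 912) (nat_lit 5946863275) (nat_lit 76) (nat_lit 550149433) (nat_lit 700) (nat_lit 5) (nat_lit 712) (nat_lit 5) (nat_lit 701) (nat_lit 5) (nat_lit 540) (nat_lit 517) (nat_lit 503)) (XT.nd (nat_lit 78) (nat_lit 912) (nat_lit 0) (XT.lf (nat_lit 0) (nat_lit 3028822815) (nat_lit 912) (nat_lit 1931449726) (nat_lit 76) (nat_lit 1728138709) (nat_lit 700) (nat_lit 5) (nat_lit 712) (nat_lit 5) (nat_lit 701) (nat_lit 5) (nat_lit 541) (nat_lit 517) (nat_lit 502)) (XT.lf (nat_lit 0) (nat_lit 2144791678) (nat_lit 912) (nat_lit 3751725105) (nat_lit 988) (nat_lit 817404077) (nat_lit 688) (nat_lit 5) (nat_lit 700) (nat_lit 5) (nat_lit 701) (nat_lit 5) (nat_lit 542) (nat_lit 517) (nat_lit 501)))))) (XT.nd (nat_lit 390) (nat_lit 5548) (nat_lit 0) (XT.nd (nat_lit 156) (nat_lit 2280) (nat_lit 0) (XT.nd (nat_lit 78) (nat_lit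 988) (nat_lit 0) (XT.lf (nat_lit 0) (nat_lit 2003017536) (nat_lit 988) (nat_lit 472703864) (nat_lit 76) (nat_lit 4264983863) (nat_lit 687) (nat_lit 5) (nat_lit 700) (nat_lit 5) (nat_lit 688) (nat_lit 5) (nat_lit 543) (nat_lit 517) (nat_lit 500)) (XT.lf (nat_lit 0) (nat_lit 3701567209) (nat_lit 988) (nat_lit 1128287966) (nat_lit 1064) (nat_lit 1938851685) (nat_lit 674) (nat_lit 5) (nat_lit 687) (nat_lit 5) (nat_lit 688) (nat_lit 5) (nat_lit 544) (nat_lit 517) (nat_lit 499))) (XT.nd (nat_lit 78) (nat_lit 1140) (nat_lit 0) (XT.lf (nat_lit 0) (nat_lit 853700605) (nat_lit 1140) (nat_lit 5670374024) (nat_lit 76) (nat_lit 274088156) (nat_lit 659) (nat_lit 5) (nat_lit 674) (nat_lit 5) (nat_lit 660) (nat_lit 5) (nat_lit 545) (nat_lit 517) (nat_lit 498)) (XT.nd (nat_lit 78) (nat_lit 1140) (nat_lit 0) (XT.lf (nat_lit 0) (nat_lit 3642790876) (nat_lit 1140) (nat_lit 1448818096) (nat_lit 76) (nat_lit 1737017702) (nat_lit 659) (nat_lit 5) (nat_lit 674) (nat_lit 5) (nat_lit 660) (nat_lit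 5) (nat_lit 546) (nat_lit 517) (nat_lit 497)) (XT.lf (nat_lit 0) (nat_lit 2846694996) (nat_lit 1140) (nat_lit 3599091136) (nat_lit 1216) (nat_lit 414759209) (nat_lit 644) (nat_lit 5) (nat_lit 659) (nat_lit 5) (nat_lit 660) (nat_lit 5) (nat_lit 547) (nat_lit 517) (nat_lit 496))))) (XT.nd (nat_lit 234) (nat_lit 2888) (nat_lit 0) (XT.nd (nat_lit 78) (nat_lit 1368) (nat_lit 0) (XT.lf (nat_lit 0) (nat_lit 294693643) (nat_lit 1216) (nat_lit 2037229002) (nat_lit 1292) (nat_lit 4561837937) (nat_lit 627) (nat_lit 5) (nat_lit 643) (nat_lit 5) (nat_lit 644) (nat_lit 5) (nat_lit 548) (nat_lit 517) (nat_lit 495)) (XT.nd (nat_lit 78) (nat_lit 1368) (nat_lit 0) (XT.lf (nat_lit 0) (nat_lit 4693053960) (nat_lit 1216) (nat_lit 402829497) (nat_lit 1292) (nat_lit 1832351368) (nat_lit 627) (nat_lit 5) (nat_lit 643) (nat_lit 5) (nat_lit 644) (nat_lit 5) (nat_lit 549) (nat_lit 517) (nat_lit 494)) (XT.lf (nat_lit 0) (nat_lit 903621348) (nat_lit 1368) (nat_lit 4781859519) (nat_lit 76) (nat_lit 1278513744)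 (nat_lit 609) (nat_lit 5) (nat_lit 627) (nat_lit 5) (nat_lit 610) (nat_lit 5) (nat_lit 550) (nat_lit 517) (nat_lit 493)))) (XT.nd (nat_lit 78) (nat_lit 2888) (nat_lit 0) (XT.lf (nat_lit 0) (nat_lit 3630209425) (nat_lit 1368) (nat_lit 345701649) (nat_lit 76) (nat_lit 3025114733) (nat_lit 609) (nat_lit 5) (nat_lit 627) (nat_lit 5) (nat_lit 610) (nat_lit 5) (nat_lit 551) (nat_lit 517) (nat_lit 492)) (XT.nd (nat_lit 78) (nat_lit 1520) (nat_lit 0) (XT.lf (nat_lit 0) (nat_lit 4186313017) (nat_lit 1368) (nat_lit 2195963076) (nat_lit 1444) (nat_lit 657109533) (nat_lit 591) (nat_lit 5) (nat_lit 609) (nat_lit 5) (nat_lit 610) (nat_lit 5) (nat_lit 552) (nat_lit 517) (nat_lit 491)) (XT.lf (nat_lit 0) (nat_lit 1695499332) (nat_lit 1444) (nat_lit 345218324) (nat_lit 1520) (nat_lit 5038376932) (nat_lit 571) (nat_lit 5) (nat_lit 590) (nat_lit 5) (nat_lit 591) (nat_lit 5) (nat_lit 553) (nat_lit 517) (nat_lit 490))))))))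
noncomputable def xc62 : XT := (XT.nd (nat_lit 1560) (nat_lit 9956) (nat_lit 0) (XT.nd (nat_lit 780) (nat_lit 6232) (nat_lit 0) (XT.nd (nat_lit 390) (nat_lit 4712) (nat_lit 0) (XT.nd (nat_lit 156) (nat_lit 3344) (nat_lit 0) (XT.nd (nat_lit 78) (nat_lit 1596) (nat_lit 0) (XT.lf (nat_lit 0) (nat_lit 4758015506) (nat_lit 1520) (nat_lit 809032738) (nat_lit 76) (nat_lit 1552982894) (nat_lit 571) (nat_lit 5) (nat_lit 591) (nat_lit 5) (nat_lit 572) (nat_lit 5) (nat_lit 554) (nat_lit 517) (nat_lit 489)) (XT.lf (nat_lit 0) (nat_lit 336290932) (nat_lit 1596) (nat_lit 3307292981) (nat_lit 76) (nat_lit 3518696160) (nat_lit 550) (nat_lit 5) (nat_lit 571) (nat_lit 5) (nat_lit 551) (nat_lit 5) (nat_lit 555) (nat_lit 517) (nat_lit 488))) (XT.nd (nat_lit 78) (nat_lit 1748) (nat_lit 0) (XT.lf (nat_lit 0) (nat_lit 1371821276) (nat_lit 1596) (nat_lit 1645999974) (nat_lit 1672) (nat_lit 4188028937) (nat_lit 529) (nat_lit 5) (nat_lit 550) (nat_lit 5) (nat_lit 551) (nat_lit 5) (nat_lit 556) (nat_lit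 517) (nat_lit 487)) (XT.nd (nat_lit 78) (nat_lit 1748) (nat_lit 0) (XT.lf (nat_lit 0) (nat_lit 5725115248) (nat_lit 1672) (nat_lit 1112441062) (nat_lit 76) (nat_lit 413298766) (nat_lit 529) (nat_lit 5) (nat_lit 551) (nat_lit 5) (nat_lit 530) (nat_lit 5) (nat_lit 557) (nat_lit 517) (nat_lit 486)) (XT.lf (nat_lit 0) (nat_lit 1157234864) (nat_lit 1748) (nat_lit 3611893671) (nat_lit 76) (nat_lit 2527821948) (nat_lit 506) (nat_lit 5) (nat_lit 529) (nat_lit 5) (nat_lit 507) (nat_lit 5) (nat_lit 558) (nat_lit 517) (nat_lit 485))))) (XT.nd (nat_lit 156) (nat_lit 2964) (nat_lit 0) (XT.nd (nat_lit 78) (nat_lit 0) (nat_lit 0) (XT.lf (nat_lit 0) (nat_lit 1206781105) (nat_lit 1748) (nat_lit 2630670747) (nat_lit 1824) (nat_lit 3507039684) (nat_lit 483) (nat_lit 5) (nat_lit 506) (nat_lit 5) (nat_lit 507) (nat_lit 5) (nat_lit 559) (nat_lit 517) (nat_lit 484)) (XT.lf (nat_lit 0) (nat_lit 6122451714) (nat_lit 1748) (nat_lit 422395954) (nat_lit 1824) (nat_lit 848669827) (nat_lit 483) (nat_lit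 5) (nat_lit 506) (nat_lit 5) (nat_lit 507) (nat_lit 5) (nat_lit 560) (nat_lit 517) (nat_lit 483))) (XT.nd (nat_lit 78) (nat_lit 1064) (nat_lit 0) (XT.lf (nat_lit 0) (nat_lit 1824464003) (nat_lit 1900) (nat_lit 3774908088) (nat_lit 76) (nat_lit 1844194775) (nat_lit 458) (nat_lit 5) (nat_lit 483) (nat_lit 5) (nat_lit 459) (nat_lit 5) (nat_lit 561) (nat_lit 517) (nat_lit 482)) (XT.nd (nat_lit 78) (nat_lit 0) (nat_lit 0) (XT.lf (nat_lit 0) (nat_lit 1188325804) (nat_lit 1064) (nat_lit 3321157026) (nat_lit 1140) (nat_lit 2985631736) (nat_lit 444) (nat_lit 5) (nat_lit 458) (nat_lit 5) (nat_lit 459) (nat_lit 5) (nat_lit 562) (nat_lit 517) (nat_lit 481)) (XT.lf (nat_lit 0) (nat_lit 6253568956) (nat_lit 1064) (nat_lit 971294068) (nat_lit 1140) (nat_lit 323302127) (nat_lit 444) (nat_lit 5) (nat_lit 458) (nat_lit 5) (nat_lit 459) (nat_lit 5) (nat_lit 563) (nat_lit 517) (nat_lit 480)))))) (XT.nd (nat_lit 390) (nat_lit 2584) (nat_lit 0) (XT.nd (nat_lit 156) (nat_lit 1748) (nat_lit 0) (XT.nd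 (nat_lit 78) (nat_lit 912) (nat_lit 0) (XT.lf (nat_lit 0) (nat_lit 2347081908) (nat_lit 988) (nat_lit 3807879381) (nat_lit 76) (nat_lit 1447286109) (nat_lit 431) (nat_lit 5) (nat_lit 444) (nat_lit 5) (nat_lit 432) (nat_lit 5) (nat_lit 564) (nat_lit 517) (nat_lit 479)) (XT.lf (nat_lit 0) (nat_lit 1305155966) (nat_lit 912) (nat_lit 3737635668) (nat_lit 988) (nat_lit 2615056828) (nat_lit 419) (nat_lit 5) (nat_lit 431) (nat_lit 5) (nat_lit 432) (nat_lit 5) (nat_lit 565) (nat_lit 517) (nat_lit 478))) (XT.nd (nat_lit 78) (nat_lit 1672) (nat_lit 0) (XT.lf (nat_lit 0) (nat_lit 55447246) (nat_lit 988) (nat_lit 1191719266) (nat_lit 76) (nat_lit 6467817306) (nat_lit 418) (nat_lit 5) (nat_lit 431) (nat_lit 5) (nat_lit 419) (nat_lit 5) (nat_lit 566) (nat_lit 517) (nat_lit 477)) (XT.nd (nat_lit 78) (nat_lit 836) (nat_lit 0) (XT.lf (nat_lit 0) (nat_lit 2733229186) (nat_lit 912) (nat_lit 3721683168) (nat_lit 76) (nat_lit 1318230724) (nat_lit 407) (nat_lit 5) (nat_lit 419) (nat_lit 5) (nat_lit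 408) (nat_lit 5) (nat_lit 567) (nat_lit 517) (nat_lit 476)) (XT.lf (nat_lit 0) (nat_lit 1546636802) (nat_lit 836) (nat_lit 3898678119) (nat_lit 912) (nat_lit 2387540125) (nat_lit 396) (nat_lit 5) (nat_lit 407) (nat_lit 5) (nat_lit 408) (nat_lit 5) (nat_lit 568) (nat_lit 517) (nat_lit 475))))) (XT.nd (nat_lit 156) (nat_lit 1672) (nat_lit 0) (XT.nd (nat_lit 78) (nat_lit 836) (nat_lit 0) (XT.lf (nat_lit 0) (nat_lit 293526503) (nat_lit 912) (nat_lit 973692275) (nat_lit 76) (nat_lit 6626909217) (nat_lit 395) (nat_lit 5) (nat_lit 407) (nat_lit 5) (nat_lit 396) (nat_lit 5) (nat_lit 569) (nat_lit 517) (nat_lit 474)) (XT.lf (nat_lit 0) (nat_lit 2990134248) (nat_lit 912) (nat_lit 3526613502) (nat_lit 76) (nat_lit 1439689469) (nat_lit 384) (nat_lit 5) (nat_lit 396) (nat_lit 5) (nat_lit 385) (nat_lit 5) (nat_lit 570) (nat_lit 517) (nat_lit 473))) (XT.nd (nat_lit 78) (nat_lit 836) (nat_lit 0) (XT.lf (nat_lit 0) (nat_lit 1902712202) (nat_lit 836) (nat_lit 3821385208) (nat_lit 912) (nat_lit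 2296230896) (nat_lit 373) (nat_lit 5) (nat_lit 384) (nat_lit 5) (nat_lit 385) (nat_lit 5) (nat_lit 571) (nat_lit 517) (nat_lit 472)) (XT.nd (nat_lit 78) (nat_lit 760) (nat_lit 0) (XT.lf (nat_lit 0) (nat_lit 401818074) (nat_lit 912) (nat_lit 648344025) (nat_lit 76) (nat_lit 7035680043) (nat_lit 372) (nat_lit 5) (nat_lit 384) (nat_lit 5) (nat_lit 373) (nat_lit 5) (nat_lit 572) (nat_lit 517) (nat_lit 471)) (XT.lf (nat_lit 0) (nat_lit 3124157952) (nat_lit 836) (nat_lit 3232466328) (nat_lit 76) (nat_lit 1795720788) (nat_lit 362) (nat_lit 5) (nat_lit 373) (nat_lit 5) (nat_lit 363) (nat_lit 5) (nat_lit 573) (nat_lit 517) (nat_lit 470))))))) (XT.nd (nat_lit 780) (nat_lit 4864) (nat_lit 0) (XT.nd (nat_lit 390) (nat_lit 2052) (nat_lit 0) (XT.nd (nat_lit 156) (nat_lit 2204) (nat_lit 0) (XT.nd (nat_lit 78) (nat_lit 76) (nat_lit 0) (XT.lf (nat_lit 0) (nat_lit 2363821216) (nat_lit 760) (nat_lit 3521513513) (nat_lit 836) (nat_lit 2335159350) (nat_lit 352) (nat_lit 5) (nat_lit 362) (nat_lit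 5) (nat_lit 363) (nat_lit 5) (nat_lit 574) (nat_lit 517) (nat_lit 469)) (XT.lf (nat_lit 0) (nat_lit 386109591) (nat_lit 836) (nat_lit 225142662) (nat_lit 76) (nat_lit 7679108422) (nat_lit 351) (nat_lit 5) (nat_lit 362) (nat_lit 5) (nat_lit 352) (nat_lit 5) (nat_lit 575) (nat_lit 517) (nat_lit 468))) (XT.nd (nat_lit 78) (nat_lit 1520) (nat_lit 0) (XT.lf (nat_lit 0) (nat_lit 3140832391) (nat_lit 760) (nat_lit 2848621050) (nat_lit 76) (nat_lit 2371660135) (nat_lit 342) (nat_lit 5) (nat_lit 352) (nat_lit 5) (nat_lit 343) (nat_lit 5) (nat_lit 576) (nat_lit 517) (nat_lit 467)) (XT.nd (nat_lit 78) (nat_lit 760) (nat_lit 0) (XT.lf (nat_lit 0) (nat_lit 2920816305) (nat_lit 760) (nat_lit 3013594164) (nat_lit 836) (nat_lit 2499199387) (nat_lit 332) (nat_lit 5) (nat_lit 342) (nat_lit 5) (nat_lit 343) (nat_lit 5) (nat_lit 577) (nat_lit 517) (nat_lit 466)) (XT.lf (nat_lit 0) (nat_lit 253499290) (nat_lit 760) (nat_lit 8217520540) (nat_lit 76) (nat_lit 36887371) (nat_lit 322) (nat_lit 5)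 (nat_lit 332) (nat_lit 5) (nat_lit 323) (nat_lit 5) (nat_lit 578) (nat_lit 517) (nat_lit 465))))) (XT.nd (nat_lit 156) (nat_lit 1368) (nat_lit 0) (XT.nd (nat_lit 78) (nat_lit 684) (nat_lit 0) (XT.lf (nat_lit 0) (nat_lit 3044894009) (nat_lit 760) (nat_lit 2384120854) (nat_lit 76) (nat_lit 3154006441) (nat_lit 322) (nat_lit 5) (nat_lit 332) (nat_lit 5) (nat_lit 323) (nat_lit 5) (nat_lit 579) (nat_lit 517) (nat_lit 464)) (XT.lf (nat_lit 0) (nat_lit 3564882743) (nat_lit 684) (nat_lit 2311044905) (nat_lit 760) (nat_lit 2784037088) (nat_lit 313) (nat_lit 5) (nat_lit 322) (nat_lit 5) (nat_lit 323) (nat_lit 5) (nat_lit 580) (nat_lit 517) (nat_lit 463))) (XT.nd (nat_lit 78) (nat_lit 684) (nat_lit 0) (XT.lf (nat_lit 0) (nat_lit 13291189) (nat_lit 684) (nat_lit 7854084980) (nat_lit 76) (nat_lit 871301025) (nat_lit 304) (nat_lit 5) (nat_lit 313) (nat_lit 5) (nat_lit 305) (nat_lit 5) (nat_lit 581) (nat_lit 517) (nat_lit 462)) (XT.nd (nat_lit 78) (nat_lit 684) (nat_lit 0) (XT.lf (nat_lit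 0) (nat_lit 2840311221) (nat_lit 684) (nat_lit 1847752393) (nat_lit 76) (nat_lit 4130314848) (nat_lit 304) (nat_lit 5) (nat_lit 313) (nat_lit 5) (nat_lit 305) (nat_lit 5) (nat_lit 582) (nat_lit 517) (nat_lit 461)) (XT.lf (nat_lit 0) (nat_lit 4287458520) (nat_lit 684) (nat_lit 1426276194) (nat_lit 760) (nat_lit 3186144799) (nat_lit 295) (nat_lit 5) (nat_lit 304) (nat_lit 5) (nat_lit 305) (nat_lit 5) (nat_lit 583) (nat_lit 517) (nat_lit 460)))))) (XT.nd (nat_lit 390) (nat_lit 2888) (nat_lit 0) (XT.nd (nat_lit 156) (nat_lit 1292) (nat_lit 0) (XT.nd (nat_lit 78) (nat_lit 76) (nat_lit 0) (XT.lf (nat_lit 0) (nat_lit 1547674943) (nat_lit 608) (nat_lit 7094224535) (nat_lit 684) (nat_lit 341168609) (nat_lit 287) (nat_lit 5) (nat_lit 295) (nat_lit 5) (nat_lit 296) (nat_lit 5) (nat_lit 584) (nat_lit 517) (nat_lit 459)) (XT.lf (nat_lit 0) (nat_lit 2530306629) (nat_lit 684) (nat_lit 1248125499) (nat_lit 76) (nat_lit 5289094960) (nat_lit 286) (nat_lit 5) (nat_lit 295) (nat_lit 5) (nat_lit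 287) (nat_lit 5) (nat_lit 585) (nat_lit 517) (nat_lit 458))) (XT.nd (nat_lit 78) (nat_lit 684) (nat_lit 0) (XT.lf (nat_lit 0) (nat_lit 5080154106) (nat_lit 608) (nat_lit 370792089) (nat_lit 684) (nat_lit 3702760698) (nat_lit 278) (nat_lit 5) (nat_lit 286) (nat_lit 5) (nat_lit 287) (nat_lit 5) (nat_lit 586) (nat_lit 517) (nat_lit 457)) (XT.nd (nat_lit 78) (nat_lit 76) (nat_lit 0) (XT.lf (nat_lit 0) (nat_lit 2272614683) (nat_lit 608) (nat_lit 6164392230) (nat_lit 684) (nat_lit 804465948) (nat_lit 270) (nat_lit 5) (nat_lit 278) (nat_lit 5) (nat_lit 279) (nat_lit 5) (nat_lit 587) (nat_lit 517) (nat_lit 456)) (XT.lf (nat_lit 0) (nat_lit 2117373927) (nat_lit 684) (nat_lit 593753556) (nat_lit 76) (nat_lit 6619713868) (nat_lit 269) (nat_lit 5) (nat_lit 278) (nat_lit 5) (nat_lit 270) (nat_lit 5) (nat_lit 588) (nat_lit 517) (nat_lit 455))))) (XT.nd (nat_lit 234) (nat_lit 1140) (nat_lit 0) (XT.nd (nat_lit 78) (nat_lit 1140) (nat_lit 0) (XT.lf (nat_lit 0) (nat_lit 5095442500) (nat_lit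 684) (nat_lit 3492644889) (nat_lit 76) (nat_lit 833634773) (nat_lit 261) (nat_lit 5) (nat_lit 270) (nat_lit 5) (nat_lit 262) (nat_lit 5) (nat_lit 589) (nat_lit 517) (nat_lit 454)) (XT.nd (nat_lit 78) (nat_lit 608) (nat_lit 0) (XT.lf (nat_lit 0) (nat_lit 3051095363) (nat_lit 532) (nat_lit 5088610214) (nat_lit 608) (nat_lit 1374584877) (nat_lit 254) (nat_lit 5) (nat_lit 261) (nat_lit 5) (nat_lit 262) (nat_lit 5) (nat_lit 590) (nat_lit 517) (nat_lit 453)) (XT.lf (nat_lit 0) (nat_lit 108284958) (nat_lit 532) (nat_lit 1495707625) (nat_lit 608) (nat_lit 8004721353) (nat_lit 246) (nat_lit 5) (nat_lit 253) (nat_lit 5) (nat_lit 254) (nat_lit 5) (nat_lit 591) (nat_lit 517) (nat_lit 452)))) (XT.nd (nat_lit 78) (nat_lit 1140) (nat_lit 0) (XT.lf (nat_lit 0) (nat_lit 4646808305) (nat_lit 608) (nat_lit 2876301402) (nat_lit 76) (nat_lit 2181275394) (nat_lit 246) (nat_lit 5) (nat_lit 254) (nat_lit 5) (nat_lit 247) (nat_lit 5) (nat_lit 592) (nat_lit 517) (nat_lit 451)) (XT.nd (nat_lit 78) (nat_lit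 608) (nat_lit 0) (XT.lf (nat_lit 0) (nat_lit 3874676844) (nat_lit 532) (nat_lit 3876859540) (nat_lit 608) (nat_lit 2050414517) (nat_lit 239) (nat_lit 5) (nat_lit 246) (nat_lit 5) (nat_lit 247) (nat_lit 5) (nat_lit 593) (nat_lit 517) (nat_lit 450)) (XT.lf (nat_lit 0) (nat_lit 856393594) (nat_lit 532) (nat_lit 138285573) (nat_lit 608) (nat_lit 8906836549) (nat_lit 231) (nat_lit 5) (nat_lit 238) (nat_lit 5) (nat_lit 239) (nat_lit 5) (nat_lit 594) (nat_lit 517) (nat_lit 449))))))))
noncomputable def xc63 : XT := (XT.nd (nat_lit 1560) (nat_lit 2128) (nat_lit 0) (XT.nd (nat_lit 780) (nat_lit 2964) (nat_lit 0) (XT.nd (nat_lit 390) (nat_lit 1520) (nat_lit 0) (XT.nd (nat_lit 156) (nat_lit 1064) (nat_lit 0) (XT.nd (nat_lit 78) (nat_lit 456) (nat_lit 0) (XT.lf (nat_lit 0) (nat_lit 4103559317) (nat_lit 608) (nat_lit 2230870341) (nat_lit 76) (nat_lit 3667766510) (nat_lit 231) (nat_lit 5) (nat_lit 239) (nat_lit 5) (nat_lit 232) (nat_lit 5) (nat_lit 595) (nat_lit 517) (nat_lit 448)) (XT.lf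 (nat_lit 0) (nat_lit 4734798276) (nat_lit 456) (nat_lit 2538549092) (nat_lit 532) (nat_lit 2831570411) (nat_lit 225) (nat_lit 5) (nat_lit 231) (nat_lit 5) (nat_lit 232) (nat_lit 5) (nat_lit 596) (nat_lit 517) (nat_lit 447))) (XT.nd (nat_lit 78) (nat_lit 456) (nat_lit 0) (XT.lf (nat_lit 0) (nat_lit 294577766) (nat_lit 608) (nat_lit 8584709414) (nat_lit 76) (nat_lit 1330337500) (nat_lit 217) (nat_lit 5) (nat_lit 225) (nat_lit 5) (nat_lit 218) (nat_lit 5) (nat_lit 597) (nat_lit 517) (nat_lit 446)) (XT.nd (nat_lit 78) (nat_lit 456) (nat_lit 0) (XT.lf (nat_lit 0) (nat_lit 3465917976) (nat_lit 608) (nat_lit 1565308322) (nat_lit 76) (nat_lit 5284415442) (nat_lit 217) (nat_lit 5) (nat_lit 225) (nat_lit 5) (nat_lit 218) (nat_lit 5) (nat_lit 598) (nat_lit 517) (nat_lit 445)) (XT.lf (nat_lit 0) (nat_lit 5622688967) (nat_lit 456) (nat_lit 1082602045) (nat_lit 532) (nat_lit 3718397999) (nat_lit 211) (nat_lit 5) (nat_lit 217) (nat_lit 5) (nat_lit 218) (nat_lit 5) (nat_lit 599) (nat_lit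 517) (nat_lit 444))))) (XT.nd (nat_lit 156) (nat_lit 988) (nat_lit 0) (XT.nd (nat_lit 78) (nat_lit 76) (nat_lit 0) (XT.lf (nat_lit 0) (nat_lit 2408596552) (nat_lit 456) (nat_lit 7614530493) (nat_lit 532) (nat_lit 510498626) (nat_lit 205) (nat_lit 5) (nat_lit 211) (nat_lit 5) (nat_lit 212) (nat_lit 5) (nat_lit 600) (nat_lit 517) (nat_lit 443)) (XT.lf (nat_lit 0) (nat_lit 2733399474) (nat_lit 532) (nat_lit 888864881) (nat_lit 76) (nat_lit 7022978805) (nat_lit 204) (nat_lit 5) (nat_lit 211) (nat_lit 5) (nat_lit 205) (nat_lit 5) (nat_lit 601) (nat_lit 517) (nat_lit 442))) (XT.nd (nat_lit 78) (nat_lit 532) (nat_lit 0) (XT.lf (nat_lit 0) (nat_lit 6049948566) (nat_lit 532) (nat_lit 4232655095) (nat_lit 76) (nat_lit 476131518) (nat_lit 198) (nat_lit 5) (nat_lit 205) (nat_lit 5) (nat_lit 199) (nat_lit 5) (nat_lit 602) (nat_lit 517) (nat_lit 441)) (XT.nd (nat_lit 78) (nat_lit 76) (nat_lit 0) (XT.lf (nat_lit 0) (nat_lit 3199706058) (nat_lit 456) (nat_lit 6253191898) (nat_lit 532) (nat_lit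 1421199501) (nat_lit 192) (nat_lit 5) (nat_lit 198) (nat_lit 5) (nat_lit 199) (nat_lit 5) (nat_lit 603) (nat_lit 517) (nat_lit 440)) (XT.lf (nat_lit 0) (nat_lit 1904799616) (nat_lit 532) (nat_lit 211178946) (nat_lit 76) (nat_lit 8875579244) (nat_lit 191) (nat_lit 5) (nat_lit 198) (nat_lit 5) (nat_lit 192) (nat_lit 5) (nat_lit 604) (nat_lit 517) (nat_lit 439)))))) (XT.nd (nat_lit 390) (nat_lit 1292) (nat_lit 0) (XT.nd (nat_lit 156) (nat_lit 836) (nat_lit 0) (XT.nd (nat_lit 78) (nat_lit 456) (nat_lit 0) (XT.lf (nat_lit 0) (nat_lit 5310603068) (nat_lit 456) (nat_lit 3679680910) (nat_lit 76) (nat_lit 2120250918) (nat_lit 186) (nat_lit 5) (nat_lit 192) (nat_lit 5) (nat_lit 187) (nat_lit 5) (nat_lit 605) (nat_lit 517) (nat_lit 438)) (XT.lf (nat_lit 0) (nat_lit 3990382512) (nat_lit 456) (nat_lit 4805704347) (nat_lit 532) (nat_lit 2435575049) (nat_lit 180) (nat_lit 5) (nat_lit 186) (nat_lit 5) (nat_lit 187) (nat_lit 5) (nat_lit 606) (nat_lit 517) (nat_lit 437))) (XT.nd (nat_lit 78)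 (nat_lit 380) (nat_lit 0) (XT.lf (nat_lit 0) (nat_lit 463700623) (nat_lit 380) (nat_lit 517486908) (nat_lit 456) (nat_lit 10373932541) (nat_lit 174) (nat_lit 5) (nat_lit 179) (nat_lit 5) (nat_lit 180) (nat_lit 5) (nat_lit 607) (nat_lit 517) (nat_lit 436)) (XT.nd (nat_lit 78) (nat_lit 380) (nat_lit 0) (XT.lf (nat_lit 0) (nat_lit 4478168031) (nat_lit 456) (nat_lit 3145584144) (nat_lit 76) (nat_lit 3856084914) (nat_lit 174) (nat_lit 5) (nat_lit 180) (nat_lit 5) (nat_lit 175) (nat_lit 5) (nat_lit 608) (nat_lit 517) (nat_lit 435)) (XT.lf (nat_lit 0) (nat_lit 4770228775) (nat_lit 380) (nat_lit 3280347140) (nat_lit 456) (nat_lit 3556364313) (nat_lit 169) (nat_lit 5) (nat_lit 174) (nat_lit 5) (nat_lit 175) (nat_lit 5) (nat_lit 609) (nat_lit 517) (nat_lit 434))))) (XT.nd (nat_lit 156) (nat_lit 836) (nat_lit 0) (XT.nd (nat_lit 78) (nat_lit 76) (nat_lit 0) (XT.lf (nat_lit 0) (nat_lit 1113572603) (nat_lit 380) (nat_lit 10588077222) (nat_lit 456) (nat_lit 34792757) (nat_lit 164) (nat_lit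 5) (nat_lit 169) (nat_lit 5) (nat_lit 170) (nat_lit 5) (nat_lit 610) (nat_lit 517) (nat_lit 433)) (XT.lf (nat_lit 0) (nat_lit 3549824034) (nat_lit 456) (nat_lit 2641556409) (nat_lit 76) (nat_lit 5675908732) (nat_lit 163) (nat_lit 5) (nat_lit 169) (nat_lit 5) (nat_lit 164) (nat_lit 5) (nat_lit 611) (nat_lit 517) (nat_lit 432))) (XT.nd (nat_lit 78) (nat_lit 456) (nat_lit 0) (XT.lf (nat_lit 0) (nat_lit 5528174651) (nat_lit 380) (nat_lit 1685308533) (nat_lit 456) (nat_lit 4787110018) (nat_lit 158) (nat_lit 5) (nat_lit 163) (nat_lit 5) (nat_lit 164) (nat_lit 5) (nat_lit 612) (nat_lit 517) (nat_lit 431)) (XT.nd (nat_lit 78) (nat_lit 76) (nat_lit 0) (XT.lf (nat_lit 0) (nat_lit 1720797384) (nat_lit 380) (nat_lit 9249626768) (nat_lit 456) (nat_lit 1165740381) (nat_lit 153) (nat_lit 5) (nat_lit 158) (nat_lit 5) (nat_lit 159) (nat_lit 5) (nat_lit 613) (nat_lit 517) (nat_lit 430)) (XT.lf (nat_lit 0) (nat_lit 2521956974) (nat_lit 456) (nat_lit 2179564962) (nat_lit 76) (nat_lit 7572057293)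 (nat_lit 152) (nat_lit 5) (nat_lit 158) (nat_lit 5) (nat_lit 153) (nat_lit 5) (nat_lit 614) (nat_lit 517) (nat_lit 429))))))) (XT.nd (nat_lit 74178) (nat_lit 0) (nat_lit 46208) (XT.nd (nat_lit 390) (nat_lit 684) (nat_lit 0) (XT.nd (nat_lit 156) (nat_lit 760) (nat_lit 0) (XT.nd (nat_lit 78) (nat_lit 304) (nat_lit 0) (XT.lf (nat_lit 0) (nat_lit 6252354602) (nat_lit 380) (nat_lit 28773324) (nat_lit 456) (nat_lit 6132194917) (nat_lit 147) (nat_lit 5) (nat_lit 152) (nat_lit 5) (nat_lit 153) (nat_lit 5) (nat_lit 615) (nat_lit 517) (nat_lit 428)) (XT.lf (nat_lit 0) (nat_lit 2282936258) (nat_lit 304) (nat_lit 7865726902) (nat_lit 380) (nat_lit 2406535841) (nat_lit 143) (nat_lit 5) (nat_lit 147) (nat_lit 5) (nat_lit 148) (nat_lit 5) (nat_lit 616) (nat_lit 517) (nat_lit 427))) (XT.nd (nat_lit 78) (nat_lit 684) (nat_lit 0) (XT.lf (nat_lit 0) (nat_lit 1390118455) (nat_lit 380) (nat_lit 1772481511) (nat_lit 76) (nat_lit 9536837788) (nat_lit 142) (nat_lit 5) (nat_lit 147) (nat_lit 5) (nat_lit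 143) (nat_lit 5) (nat_lit 617) (nat_lit 517) (nat_lit 426)) (XT.nd (nat_lit 78) (nat_lit 304) (nat_lit 0) (XT.lf (nat_lit 0) (nat_lit 5259903022) (nat_lit 456) (nat_lit 5926812335) (nat_lit 76) (nat_lit 1658940583) (nat_lit 137) (nat_lit 5) (nat_lit 143) (nat_lit 5) (nat_lit 138) (nat_lit 5) (nat_lit 618) (nat_lit 517) (nat_lit 425)) (XT.lf (nat_lit 0) (nat_lit 2786567914) (nat_lit 304) (nat_lit 6445152768) (nat_lit 380) (nat_lit 3762586249) (nat_lit 133) (nat_lit 5) (nat_lit 137) (nat_lit 5) (nat_lit 138) (nat_lit 5) (nat_lit 619) (nat_lit 517) (nat_lit 424))))) (XT.nd (nat_lit 156) (nat_lit 304) (nat_lit 0) (XT.nd (nat_lit 78) (nat_lit 304) (nat_lit 0) (XT.lf (nat_lit 0) (nat_lit 148978881) (nat_lit 380) (nat_lit 1434221401) (nat_lit 76) (nat_lit 11562439358) (nat_lit 132) (nat_lit 5) (nat_lit 137) (nat_lit 5) (nat_lit 133) (nat_lit 5) (nat_lit 620) (nat_lit 517) (nat_lit 423)) (XT.lf (nat_lit 0) (nat_lit 4133961141) (nat_lit 380) (nat_lit 5774166717) (nat_lit 76) (nat_lit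 3390463516) (nat_lit 128) (nat_lit 5) (nat_lit 133) (nat_lit 5) (nat_lit 129) (nat_lit 5) (nat_lit 621) (nat_lit 517) (nat_lit 422))) (XT.nd (nat_lit 78) (nat_lit 0) (nat_lit 0) (XT.lf (nat_lit 0) (nat_lit 3217129780) (nat_lit 304) (nat_lit 4996920875) (nat_lit 380) (nat_lit 5240244434) (nat_lit 124) (nat_lit 5) (nat_lit 128) (nat_lit 5) (nat_lit 129) (nat_lit 5) (nat_lit 622) (nat_lit 517) (nat_lit 421)) (XT.nd (nat_lit 73476) (nat_lit 0) (nat_lit 49096) (XT.lf (nat_lit 0) (nat_lit 12389303423) (nat_lit 380) (nat_lit 1188073408) (nat_lit 76) (nat_lit 35465897) (nat_lit 124) (nat_lit 5) (nat_lit 129) (nat_lit 5) (nat_lit 125) (nat_lit 5) (nat_lit 623) (nat_lit 517) (nat_lit 420)) (XT.lf (nat_lit 0) (nat_lit 65732121) (nat_lit 228) (nat_lit 3093558151) (nat_lit 0) (nat_lit 65732121) (nat_lit 770) (nat_lit 5) (nat_lit 773) (nat_lit 4) (nat_lit 770) (nat_lit 4) (nat_lit 524) (nat_lit 518) (nat_lit 518)))))) (XT.nd (nat_lit 390) (nat_lit 2204) (nat_lit 0) (XT.nd (nat_lit 156)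 (nat_lit 380) (nat_lit 0) (XT.nd (nat_lit 78) (nat_lit 304) (nat_lit 0) (XT.lf (nat_lit 0) (nat_lit 3309138781) (nat_lit 228) (nat_lit 2785150516) (nat_lit 0) (nat_lit 360007592) (nat_lit 770) (nat_lit 5) (nat_lit 773) (nat_lit 4) (nat_lit 770) (nat_lit 4) (nat_lit 525) (nat_lit 518) (nat_lit 517)) (XT.lf (nat_lit 0) (nat_lit 13653731) (nat_lit 304) (nat_lit 5812855738) (nat_lit 76) (nat_lit 633664038) (nat_lit 766) (nat_lit 5) (nat_lit 770) (nat_lit 5) (nat_lit 767) (nat_lit 4) (nat_lit 526) (nat_lit 518) (nat_lit 516))) (XT.nd (nat_lit 78) (nat_lit 380) (nat_lit 0) (XT.lf (nat_lit 0) (nat_lit 3132565995) (nat_lit 304) (nat_lit 2347265794) (nat_lit 76) (nat_lit 987152915) (nat_lit 766) (nat_lit 5) (nat_lit 770) (nat_lit 5) (nat_lit 767) (nat_lit 4) (nat_lit 527) (nat_lit 518) (nat_lit 515)) (XT.nd (nat_lit 78) (nat_lit 76) (nat_lit 0) (XT.lf (nat_lit 0) (nat_lit 1157018126) (nat_lit 304) (nat_lit 5086100397) (nat_lit 380) (nat_lit 232241691) (nat_lit 762) (nat_lit 5) (nat_lit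 766) (nat_lit 5) (nat_lit 767) (nat_lit 4) (nat_lit 528) (nat_lit 518) (nat_lit 514)) (XT.lf (nat_lit 0) (nat_lit 2831847085) (nat_lit 380) (nat_lit 1786057595) (nat_lit 76) (nat_lit 1866864205) (nat_lit 761) (nat_lit 5) (nat_lit 766) (nat_lit 5) (nat_lit 762) (nat_lit 5) (nat_lit 529) (nat_lit 518) (nat_lit 513))))) (XT.nd (nat_lit 234) (nat_lit 1292) (nat_lit 0) (XT.nd (nat_lit 78) (nat_lit 532) (nat_lit 0) (XT.lf (nat_lit 0) (nat_lit 1793231296) (nat_lit 380) (nat_lit 4096508598) (nat_lit 456) (nat_lit 605895054) (nat_lit 756) (nat_lit 5) (nat_lit 761) (nat_lit 5) (nat_lit 762) (nat_lit 5) (nat_lit 530) (nat_lit 518) (nat_lit 512)) (XT.nd (nat_lit 78) (nat_lit 456) (nat_lit 0) (XT.lf (nat_lit 0) (nat_lit 2405996655) (nat_lit 456) (nat_lit 1100821443) (nat_lit 76) (nat_lit 3000852612) (nat_lit 755) (nat_lit 5) (nat_lit 761) (nat_lit 5) (nat_lit 756) (nat_lit 5) (nat_lit 531) (nat_lit 518) (nat_lit 511)) (XT.lf (nat_lit 0) (nat_lit 2556887647) (nat_lit 456) (nat_lit 2855885970)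 (nat_lit 532) (nat_lit 1108250099) (nat_lit 749) (nat_lit 5) (nat_lit 755) (nat_lit 5) (nat_lit 756) (nat_lit 5) (nat_lit 532) (nat_lit 518) (nat_lit 510)))) (XT.nd (nat_lit 78) (nat_lit 1216) (nat_lit 0) (XT.lf (nat_lit 0) (nat_lit 1853782673) (nat_lit 532) (nat_lit 290612000) (nat_lit 76) (nat_lit 4391322917) (nat_lit 748) (nat_lit 5) (nat_lit 755) (nat_lit 5) (nat_lit 749) (nat_lit 5) (nat_lit 533) (nat_lit 518) (nat_lit 509)) (XT.nd (nat_lit 78) (nat_lit 684) (nat_lit 0) (XT.lf (nat_lit 0) (nat_lit 3449071100) (nat_lit 532) (nat_lit 1361801987) (nat_lit 608) (nat_lit 1740683768) (nat_lit 741) (nat_lit 5) (nat_lit 748) (nat_lit 5) (nat_lit 749) (nat_lit 5) (nat_lit 534) (nat_lit 518) (nat_lit 508)) (XT.lf (nat_lit 0) (nat_lit 654339731) (nat_lit 608) (nat_lit 523632644) (nat_lit 684) (nat_lit 5390885769) (nat_lit 732) (nat_lit 5) (nat_lit 740) (nat_lit 5) (nat_lit 741) (nat_lit 5) (nat_lit 535) (nat_lit 518) (nat_lit 507))))))))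
noncomputable def xc64 : XT := (XT.nd (nat_lit 1560) (nat_lit 15808) (nat_lit 0) (XT.nd (nat_lit 780) (nat_lit 8284) (nat_lit 0) (XT.nd (nat_lit 390) (nat_lit 3116) (nat_lit 0) (XT.nd (nat_lit 156) (nat_lit 1672) (nat_lit 0) (XT.nd (nat_lit 78) (nat_lit 760) (nat_lit 0) (XT.lf (nat_lit 0) (nat_lit 4084966859) (nat_lit 684) (nat_lit 2118682384) (nat_lit 76) (nat_lit 383571150) (nat_lit 732) (nat_lit 5) (nat_lit 741) (nat_lit 5) (nat_lit 733) (nat_lit 5) (nat_lit 536) (nat_lit 518) (nat_lit 506)) (XT.lf (nat_lit 0) (nat_lit 384146694) (nat_lit 760) (nat_lit 4883533189) (nat_lit 76) (nat_lit 1339306020) (nat_lit 722) (nat_lit 5) (nat_lit 732) (nat_lit 5) (nat_lit 723) (nat_lit 5) (nat_lit 537) (nat_lit 518) (nat_lit 505))) (XT.nd (nat_lit 78) (nat_lit 1672) (nat_lit 0) (XT.lf (nat_lit 0) (nat_lit 3241213656) (nat_lit 760) (nat_lit 1019195428) (nat_lit 76) (nat_lit 2367487867) (nat_lit 722) (nat_lit 5) (nat_lit 732) (nat_lit 5) (nat_lit 723) (nat_lit 5) (nat_lit 538) (nat_lit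 518) (nat_lit 504)) (XT.nd (nat_lit 78) (nat_lit 912) (nat_lit 0) (XT.lf (nat_lit 0) (nat_lit 2914757144) (nat_lit 760) (nat_lit 3193021656) (nat_lit 836) (nat_lit 542409992) (nat_lit 712) (nat_lit 5) (nat_lit 722) (nat_lit 5) (nat_lit 723) (nat_lit 5) (nat_lit 539) (nat_lit 518) (nat_lit 503)) (XT.lf (nat_lit 0) (nat_lit 209315906) (nat_lit 836) (nat_lit 2060739056) (nat_lit 912) (nat_lit 4403729717) (nat_lit 700) (nat_lit 5) (nat_lit 711) (nat_lit 5) (nat_lit 712) (nat_lit 5) (nat_lit 540) (nat_lit 518) (nat_lit 502))))) (XT.nd (nat_lit 156) (nat_lit 2128) (nat_lit 0) (XT.nd (nat_lit 78) (nat_lit 988) (nat_lit 0) (XT.lf (nat_lit 0) (nat_lit 4233775130) (nat_lit 836) (nat_lit 857773373) (nat_lit 912) (nat_lit 1607040579) (nat_lit 700) (nat_lit 5) (nat_lit 711) (nat_lit 5) (nat_lit 712) (nat_lit 5) (nat_lit 541) (nat_lit 518) (nat_lit 501)) (XT.lf (nat_lit 0) (nat_lit 1177985556) (nat_lit 988) (nat_lit 5146098295) (nat_lit 76) (nat_lit 400677989) (nat_lit 687) (nat_lit 5)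 (nat_lit 700) (nat_lit 5) (nat_lit 688) (nat_lit 5) (nat_lit 542) (nat_lit 518) (nat_lit 500))) (XT.nd (nat_lit 78) (nat_lit 2128) (nat_lit 0) (XT.lf (nat_lit 0) (nat_lit 3956453785) (nat_lit 988) (nat_lit 1078354462) (nat_lit 76) (nat_lit 1717260780) (nat_lit 687) (nat_lit 5) (nat_lit 700) (nat_lit 5) (nat_lit 688) (nat_lit 5) (nat_lit 543) (nat_lit 518) (nat_lit 499)) (XT.nd (nat_lit 78) (nat_lit 1140) (nat_lit 0) (XT.lf (nat_lit 0) (nat_lit 3064647255) (nat_lit 988) (nat_lit 3683888290) (nat_lit 1064) (nat_lit 32234382) (nat_lit 674) (nat_lit 5) (nat_lit 687) (nat_lit 5) (nat_lit 688) (nat_lit 5) (nat_lit 544) (nat_lit 518) (nat_lit 498)) (XT.lf (nat_lit 0) (nat_lit 435995963) (nat_lit 1064) (nat_lit 2262637773) (nat_lit 1140) (nat_lit 4112082129) (nat_lit 659) (nat_lit 5) (nat_lit 673) (nat_lit 5) (nat_lit 674) (nat_lit 5) (nat_lit 545) (nat_lit 518) (nat_lit 497)))))) (XT.nd (nat_lit 390) (nat_lit 4484) (nat_lit 0) (XT.nd (nat_lit 156) (nat_lit 2584) (nat_lit 0) (XT.nd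 (nat_lit 78) (nat_lit 1216) (nat_lit 0) (XT.lf (nat_lit 0) (nat_lit 4674812341) (nat_lit 1064) (nat_lit 773361379) (nat_lit 1140) (nat_lit 1393800981) (nat_lit 659) (nat_lit 5) (nat_lit 673) (nat_lit 5) (nat_lit 674) (nat_lit 5) (nat_lit 546) (nat_lit 518) (nat_lit 496)) (XT.lf (nat_lit 0) (nat_lit 1319787462) (nat_lit 1216) (nat_lit 4782983113) (nat_lit 76) (nat_lit 771736238) (nat_lit 643) (nat_lit 5) (nat_lit 659) (nat_lit 5) (nat_lit 644) (nat_lit 5) (nat_lit 547) (nat_lit 518) (nat_lit 495))) (XT.nd (nat_lit 78) (nat_lit 2584) (nat_lit 0) (XT.lf (nat_lit 0) (nat_lit 4030051129) (nat_lit 1216) (nat_lit 504437981) (nat_lit 76) (nat_lit 2373802374) (nat_lit 643) (nat_lit 5) (nat_lit 659) (nat_lit 5) (nat_lit 644) (nat_lit 5) (nat_lit 548) (nat_lit 518) (nat_lit 494)) (XT.nd (nat_lit 78) (nat_lit 1368) (nat_lit 0) (XT.lf (nat_lit 0) (nat_lit 3863931831) (nat_lit 1216) (nat_lit 2898114949) (nat_lit 1292) (nat_lit 181361892) (nat_lit 627) (nat_lit 5) (nat_lit 643) (nat_lit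 5) (nat_lit 644) (nat_lit 5) (nat_lit 549) (nat_lit 518) (nat_lit 493)) (XT.lf (nat_lit 0) (nat_lit 1300818717) (nat_lit 1292) (nat_lit 1189675704) (nat_lit 1368) (nat_lit 4489312419) (nat_lit 609) (nat_lit 5) (nat_lit 626) (nat_lit 5) (nat_lit 627) (nat_lit 5) (nat_lit 550) (nat_lit 518) (nat_lit 492))))) (XT.nd (nat_lit 156) (nat_lit 3040) (nat_lit 0) (XT.nd (nat_lit 78) (nat_lit 1444) (nat_lit 0) (XT.lf (nat_lit 0) (nat_lit 5181519973) (nat_lit 1368) (nat_lit 1258754906) (nat_lit 76) (nat_lit 577277841) (nat_lit 609) (nat_lit 5) (nat_lit 627) (nat_lit 5) (nat_lit 610) (nat_lit 5) (nat_lit 551) (nat_lit 518) (nat_lit 491)) (XT.lf (nat_lit 0) (nat_lit 832486415) (nat_lit 1444) (nat_lit 3824429297) (nat_lit 76) (nat_lit 2399559694) (nat_lit 590) (nat_lit 5) (nat_lit 609) (nat_lit 5) (nat_lit 591) (nat_lit 5) (nat_lit 552) (nat_lit 518) (nat_lit 490))) (XT.nd (nat_lit 78) (nat_lit 1596) (nat_lit 0) (XT.lf (nat_lit 0) (nat_lit 683204014) (nat_lit 1444) (nat_lit 2804830634) (nat_lit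 1520) (nat_lit 3608740844) (nat_lit 571) (nat_lit 5) (nat_lit 590) (nat_lit 5) (nat_lit 591) (nat_lit 5) (nat_lit 553) (nat_lit 518) (nat_lit 489)) (XT.nd (nat_lit 78) (nat_lit 1596) (nat_lit 0) (XT.lf (nat_lit 0) (nat_lit 5285882530) (nat_lit 1444) (nat_lit 882524862) (nat_lit 1520) (nat_lit 970046322) (nat_lit 571) (nat_lit 5) (nat_lit 590) (nat_lit 5) (nat_lit 591) (nat_lit 5) (nat_lit 554) (nat_lit 518) (nat_lit 488)) (XT.lf (nat_lit 0) (nat_lit 1670870301) (nat_lit 1596) (nat_lit 4410521837) (nat_lit 76) (nat_lit 1099915489) (nat_lit 550) (nat_lit 5) (nat_lit 571) (nat_lit 5) (nat_lit 551) (nat_lit 5) (nat_lit 555) (nat_lit 518) (nat_lit 487))))))) (XT.nd (nat_lit 780) (nat_lit 6764) (nat_lit 0) (XT.nd (nat_lit 390) (nat_lit 3876) (nat_lit 0) (XT.nd (nat_lit 156) (nat_lit 3572) (nat_lit 0) (XT.nd (nat_lit 78) (nat_lit 0) (nat_lit 0) (XT.lf (nat_lit 0) (nat_lit 230088724) (nat_lit 1596) (nat_lit 4088925258) (nat_lit 1672) (nat_lit 2906534478) (nat_lit 529) (nat_lit 5)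 (nat_lit 550) (nat_lit 5) (nat_lit 551) (nat_lit 5) (nat_lit 556) (nat_lit 518) (nat_lit 486)) (XT.lf (nat_lit 0) (nat_lit 4976080046) (nat_lit 1596) (nat_lit 2021892636) (nat_lit 1672) (nat_lit 273150304) (nat_lit 529) (nat_lit 5) (nat_lit 550) (nat_lit 5) (nat_lit 551) (nat_lit 5) (nat_lit 557) (nat_lit 518) (nat_lit 485))) (XT.nd (nat_lit 78) (nat_lit 1824) (nat_lit 0) (XT.lf (nat_lit 0) (nat_lit 2347013240) (nat_lit 1748) (nat_lit 4849676965) (nat_lit 76) (nat_lit 121296016) (nat_lit 506) (nat_lit 5) (nat_lit 529) (nat_lit 5) (nat_lit 507) (nat_lit 5) (nat_lit 558) (nat_lit 518) (nat_lit 484)) (XT.nd (nat_lit 78) (nat_lit 1824) (nat_lit 0) (XT.lf (nat_lit 0) (nat_lit 4994469570) (nat_lit 1748) (nat_lit 70445117) (nat_lit 76) (nat_lit 2301270559) (nat_lit 506) (nat_lit 5) (nat_lit 529) (nat_lit 5) (nat_lit 507) (nat_lit 5) (nat_lit 559) (nat_lit 518) (nat_lit 483)) (XT.lf (nat_lit 0) (nat_lit 257673600) (nat_lit 1824) (nat_lit 2596581283) (nat_lit 76) (nat_lit 4561426175)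 (nat_lit 482) (nat_lit 5) (nat_lit 506) (nat_lit 5) (nat_lit 483) (nat_lit 5) (nat_lit 560) (nat_lit 518) (nat_lit 482))))) (XT.nd (nat_lit 156) (nat_lit 2052) (nat_lit 0) (XT.nd (nat_lit 78) (nat_lit 0) (nat_lit 0) (XT.lf (nat_lit 0) (nat_lit 2308684524) (nat_lit 1824) (nat_lit 565680234) (nat_lit 1900) (nat_lit 4592164314) (nat_lit 458) (nat_lit 5) (nat_lit 482) (nat_lit 5) (nat_lit 483) (nat_lit 5) (nat_lit 561) (nat_lit 518) (nat_lit 481)) (XT.lf (nat_lit 0) (nat_lit 5524056692) (nat_lit 1900) (nat_lit 230181499) (nat_lit 76) (nat_lit 1764547669) (nat_lit 458) (nat_lit 5) (nat_lit 483) (nat_lit 5) (nat_lit 459) (nat_lit 5) (nat_lit 562) (nat_lit 518) (nat_lit 480))) (XT.nd (nat_lit 78) (nat_lit 912) (nat_lit 0) (XT.lf (nat_lit 0) (nat_lit 633539521) (nat_lit 1140) (nat_lit 2768009893) (nat_lit 76) (nat_lit 4170708897) (nat_lit 443) (nat_lit 5) (nat_lit 458) (nat_lit 5) (nat_lit 444) (nat_lit 5) (nat_lit 563) (nat_lit 518) (nat_lit 479)) (XT.nd (nat_lit 78) (nat_lit 0)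 (nat_lit 0) (XT.lf (nat_lit 0) (nat_lit 2285293865) (nat_lit 912) (nat_lit 971692394) (nat_lit 988) (nat_lit 4370168663) (nat_lit 431) (nat_lit 5) (nat_lit 443) (nat_lit 5) (nat_lit 444) (nat_lit 5) (nat_lit 564) (nat_lit 518) (nat_lit 478)) (XT.lf (nat_lit 0) (nat_lit 5914903894) (nat_lit 988) (nat_lit 263296073) (nat_lit 76) (nat_lit 1505314217) (nat_lit 431) (nat_lit 5) (nat_lit 444) (nat_lit 5) (nat_lit 432) (nat_lit 5) (nat_lit 565) (nat_lit 518) (nat_lit 477)))))) (XT.nd (nat_lit 390) (nat_lit 3192) (nat_lit 0) (XT.nd (nat_lit 156) (nat_lit 1748) (nat_lit 0) (XT.nd (nat_lit 78) (nat_lit 836) (nat_lit 0) (XT.lf (nat_lit 0) (nat_lit 866185383) (nat_lit 988) (nat_lit 2818667277) (nat_lit 76) (nat_lit 4056181374) (nat_lit 418) (nat_lit 5) (nat_lit 431) (nat_lit 5) (nat_lit 419) (nat_lit 5) (nat_lit 566) (nat_lit 518) (nat_lit 476)) (XT.lf (nat_lit 0) (nat_lit 2388080981) (nat_lit 836) (nat_lit 1113941459) (nat_lit 912) (nat_lit 4298011971) (nat_lit 407) (nat_lit 5) (nat_lit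 418) (nat_lit 5) (nat_lit 419) (nat_lit 5) (nat_lit 567) (nat_lit 518) (nat_lit 475))) (XT.nd (nat_lit 78) (nat_lit 1748) (nat_lit 0) (XT.lf (nat_lit 0) (nat_lit 6174700836) (nat_lit 912) (nat_lit 180315036) (nat_lit 76) (nat_lit 1505520830) (nat_lit 407) (nat_lit 5) (nat_lit 419) (nat_lit 5) (nat_lit 408) (nat_lit 5) (nat_lit 568) (nat_lit 518) (nat_lit 474)) (XT.nd (nat_lit 78) (nat_lit 836) (nat_lit 0) (XT.lf (nat_lit 0) (nat_lit 962835299) (nat_lit 912) (nat_lit 2759062445) (nat_lit 76) (nat_lit 4200286732) (nat_lit 395) (nat_lit 5) (nat_lit 407) (nat_lit 5) (nat_lit 396) (nat_lit 5) (nat_lit 569) (nat_lit 518) (nat_lit 473)) (XT.lf (nat_lit 0) (nat_lit 2606775780) (nat_lit 836) (nat_lit 1009729453) (nat_lit 912) (nat_lit 4368849274) (nat_lit 384) (nat_lit 5) (nat_lit 395) (nat_lit 5) (nat_lit 396) (nat_lit 5) (nat_lit 570) (nat_lit 518) (nat_lit 472))))) (XT.nd (nat_lit 234) (nat_lit 1520) (nat_lit 0) (XT.nd (nat_lit 78) (nat_lit 836) (nat_lit 0) (XT.lf (nat_lit 0) (nat_lit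 8900040) (nat_lit 836) (nat_lit 6301410171) (nat_lit 912) (nat_lit 1739740558) (nat_lit 373) (nat_lit 5) (nat_lit 384) (nat_lit 5) (nat_lit 385) (nat_lit 5) (nat_lit 571) (nat_lit 518) (nat_lit 471)) (XT.nd (nat_lit 78) (nat_lit 760) (nat_lit 0) (XT.lf (nat_lit 0) (nat_lit 929827967) (nat_lit 912) (nat_lit 2599185235) (nat_lit 76) (nat_lit 4586904713) (nat_lit 372) (nat_lit 5) (nat_lit 384) (nat_lit 5) (nat_lit 373) (nat_lit 5) (nat_lit 572) (nat_lit 518) (nat_lit 470)) (XT.lf (nat_lit 0) (nat_lit 2931624508) (nat_lit 760) (nat_lit 674975440) (nat_lit 836) (nat_lit 4576734147) (nat_lit 362) (nat_lit 5) (nat_lit 372) (nat_lit 5) (nat_lit 373) (nat_lit 5) (nat_lit 573) (nat_lit 518) (nat_lit 469)))) (XT.nd (nat_lit 78) (nat_lit 760) (nat_lit 0) (XT.lf (nat_lit 0) (nat_lit 298400522) (nat_lit 760) (nat_lit 6031057790) (nat_lit 836) (nat_lit 1922793019) (nat_lit 352) (nat_lit 5) (nat_lit 362) (nat_lit 5) (nat_lit 363) (nat_lit 5) (nat_lit 574) (nat_lit 518) (nat_lit 468)) (XT.nd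 (nat_lit 78) (nat_lit 684) (nat_lit 0) (XT.lf (nat_lit 0) (nat_lit 772656732) (nat_lit 836) (nat_lit 2348588041) (nat_lit 76) (nat_lit 5201229611) (nat_lit 351) (nat_lit 5) (nat_lit 362) (nat_lit 5) (nat_lit 352) (nat_lit 5) (nat_lit 575) (nat_lit 518) (nat_lit 467)) (XT.lf (nat_lit 0) (nat_lit 3353307884) (nat_lit 684) (nat_lit 124335713) (nat_lit 760) (nat_lit 4916580158) (nat_lit 342) (nat_lit 5) (nat_lit 351) (nat_lit 5) (nat_lit 352) (nat_lit 5) (nat_lit 576) (nat_lit 518) (nat_lit 466))))))))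
noncomputable def xc65 : XT := (XT.nd (nat_lit 1560) (nat_lit 6232) (nat_lit 0) (XT.nd (nat_lit 780) (nat_lit 4028) (nat_lit 0) (XT.nd (nat_lit 390) (nat_lit 2584) (nat_lit 0) (XT.nd (nat_lit 156) (nat_lit 1444) (nat_lit 0) (XT.nd (nat_lit 78) (nat_lit 76) (nat_lit 0) (XT.lf (nat_lit 0) (nat_lit 676543095) (nat_lit 760) (nat_lit 5559511651) (nat_lit 836) (nat_lit 2231370343) (nat_lit 332) (nat_lit 5) (nat_lit 342) (nat_lit 5) (nat_lit 343) (nat_lit 5) (nat_lit 577) (nat_lit 518) (nat_lit 465)) (XT.lf (nat_lit 0) (nat_lit 496003942) (nat_lit 836) (nat_lit 2016466088) (nat_lit 76) (nat_lit 6029655511) (nat_lit 331) (nat_lit 5) (nat_lit 342) (nat_lit 5) (nat_lit 332) (nat_lit 5) (nat_lit 578) (nat_lit 518) (nat_lit 464))) (XT.nd (nat_lit 78) (nat_lit 760) (nat_lit 0) (XT.lf (nat_lit 0) (nat_lit 3238259406) (nat_lit 760) (nat_lit 4759526921) (nat_lit 76) (nat_lit 620437720) (nat_lit 322) (nat_lit 5) (nat_lit 332) (nat_lit 5) (nat_lit 323) (nat_lit 5) (nat_lit 579) (nat_lit 518)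 (nat_lit 463)) (XT.nd (nat_lit 78) (nat_lit 76) (nat_lit 0) (XT.lf (nat_lit 0) (nat_lit 1134392162) (nat_lit 684) (nat_lit 4900029787) (nat_lit 760) (nat_lit 2661444538) (nat_lit 313) (nat_lit 5) (nat_lit 322) (nat_lit 5) (nat_lit 323) (nat_lit 5) (nat_lit 580) (nat_lit 518) (nat_lit 462)) (XT.lf (nat_lit 0) (nat_lit 103769774) (nat_lit 760) (nat_lit 1611736881) (nat_lit 76) (nat_lit 7059668018) (nat_lit 312) (nat_lit 5) (nat_lit 322) (nat_lit 5) (nat_lit 313) (nat_lit 5) (nat_lit 581) (nat_lit 518) (nat_lit 461))))) (XT.nd (nat_lit 156) (nat_lit 1292) (nat_lit 0) (XT.nd (nat_lit 78) (nat_lit 684) (nat_lit 0) (XT.lf (nat_lit 0) (nat_lit 2890178852) (nat_lit 684) (nat_lit 4414506257) (nat_lit 76) (nat_lit 1551004545) (nat_lit 304) (nat_lit 5) (nat_lit 313) (nat_lit 5) (nat_lit 305) (nat_lit 5) (nat_lit 582) (nat_lit 518) (nat_lit 460)) (XT.lf (nat_lit 0) (nat_lit 1663243971) (nat_lit 684) (nat_lit 4064889847) (nat_lit 760) (nat_lit 3209767722) (nat_lit 295) (nat_lit 5) (nat_lit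 304) (nat_lit 5) (nat_lit 305) (nat_lit 5) (nat_lit 583) (nat_lit 518) (nat_lit 459))) (XT.nd (nat_lit 78) (nat_lit 1292) (nat_lit 0) (XT.lf (nat_lit 0) (nat_lit 7876147085) (nat_lit 684) (nat_lit 739524836) (nat_lit 760) (nat_lit 406232162) (nat_lit 295) (nat_lit 5) (nat_lit 304) (nat_lit 5) (nat_lit 305) (nat_lit 5) (nat_lit 584) (nat_lit 518) (nat_lit 458)) (XT.nd (nat_lit 78) (nat_lit 608) (nat_lit 0) (XT.lf (nat_lit 0) (nat_lit 2435546259) (nat_lit 684) (nat_lit 4013814255) (nat_lit 76) (nat_lit 2657623402) (nat_lit 286) (nat_lit 5) (nat_lit 295) (nat_lit 5) (nat_lit 287) (nat_lit 5) (nat_lit 585) (nat_lit 518) (nat_lit 457)) (XT.lf (nat_lit 0) (nat_lit 2254546814) (nat_lit 608) (nat_lit 3065488534) (nat_lit 684) (nat_lit 3873852738) (nat_lit 278) (nat_lit 5) (nat_lit 286) (nat_lit 5) (nat_lit 287) (nat_lit 5) (nat_lit 586) (nat_lit 518) (nat_lit 456)))))) (XT.nd (nat_lit 390) (nat_lit 2128) (nat_lit 0) (XT.nd (nat_lit 156) (nat_lit 1216) (nat_lit 0) (XT.nd (nat_lit 78)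 (nat_lit 684) (nat_lit 0) (XT.lf (nat_lit 0) (nat_lit 8256208736) (nat_lit 684) (nat_lit 628513818) (nat_lit 76) (nat_lit 397930573) (nat_lit 278) (nat_lit 5) (nat_lit 287) (nat_lit 5) (nat_lit 279) (nat_lit 5) (nat_lit 587) (nat_lit 518) (nat_lit 455)) (XT.lf (nat_lit 0) (nat_lit 1876588669) (nat_lit 684) (nat_lit 3566142119) (nat_lit 76) (nat_lit 3929755290) (nat_lit 269) (nat_lit 5) (nat_lit 278) (nat_lit 5) (nat_lit 270) (nat_lit 5) (nat_lit 588) (nat_lit 518) (nat_lit 454))) (XT.nd (nat_lit 78) (nat_lit 608) (nat_lit 0) (XT.lf (nat_lit 0) (nat_lit 2899820325) (nat_lit 608) (nat_lit 1912436683) (nat_lit 684) (nat_lit 4651959136) (nat_lit 261) (nat_lit 5) (nat_lit 269) (nat_lit 5) (nat_lit 270) (nat_lit 5) (nat_lit 589) (nat_lit 518) (nat_lit 453)) (XT.nd (nat_lit 78) (nat_lit 608) (nat_lit 0) (XT.lf (nat_lit 0) (nat_lit 7807237692) (nat_lit 684) (nat_lit 71071223) (nat_lit 76) (nat_lit 1679462394) (nat_lit 261) (nat_lit 5) (nat_lit 270) (nat_lit 5) (nat_lit 262) (nat_lit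 5) (nat_lit 590) (nat_lit 518) (nat_lit 452)) (XT.lf (nat_lit 0) (nat_lit 1214819262) (nat_lit 608) (nat_lit 3080186047) (nat_lit 76) (nat_lit 5357602583) (nat_lit 253) (nat_lit 5) (nat_lit 261) (nat_lit 5) (nat_lit 254) (nat_lit 5) (nat_lit 591) (nat_lit 518) (nat_lit 451))))) (XT.nd (nat_lit 156) (nat_lit 1064) (nat_lit 0) (XT.nd (nat_lit 78) (nat_lit 532) (nat_lit 0) (XT.lf (nat_lit 0) (nat_lit 3590573222) (nat_lit 532) (nat_lit 615650703) (nat_lit 608) (nat_lit 5543084508) (nat_lit 246) (nat_lit 5) (nat_lit 253) (nat_lit 5) (nat_lit 254) (nat_lit 5) (nat_lit 592) (nat_lit 518) (nat_lit 450)) (XT.lf (nat_lit 0) (nat_lit 529781743) (nat_lit 532) (nat_lit 6738951075) (nat_lit 608) (nat_lit 2578986932) (nat_lit 239) (nat_lit 5) (nat_lit 246) (nat_lit 5) (nat_lit 247) (nat_lit 5) (nat_lit 593) (nat_lit 518) (nat_lit 449))) (XT.nd (nat_lit 78) (nat_lit 988) (nat_lit 0) (XT.lf (nat_lit 0) (nat_lit 451042803) (nat_lit 608) (nat_lit 2564730769) (nat_lit 76) (nat_lit 6932020644)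 (nat_lit 238) (nat_lit 5) (nat_lit 246) (nat_lit 5) (nat_lit 239) (nat_lit 5) (nat_lit 594) (nat_lit 518) (nat_lit 448)) (XT.nd (nat_lit 78) (nat_lit 456) (nat_lit 0) (XT.lf (nat_lit 0) (nat_lit 3507954949) (nat_lit 608) (nat_lit 5736697382) (nat_lit 76) (nat_lit 804862764) (nat_lit 231) (nat_lit 5) (nat_lit 239) (nat_lit 5) (nat_lit 232) (nat_lit 5) (nat_lit 595) (nat_lit 518) (nat_lit 447)) (XT.lf (nat_lit 0) (nat_lit 1159733526) (nat_lit 456) (nat_lit 5478816929) (nat_lit 532) (nat_lit 3514471148) (nat_lit 225) (nat_lit 5) (nat_lit 231) (nat_lit 5) (nat_lit 232) (nat_lit 5) (nat_lit 596) (nat_lit 518) (nat_lit 446))))))) (XT.nd (nat_lit 780) (nat_lit 3268) (nat_lit 0) (XT.nd (nat_lit 390) (nat_lit 1368) (nat_lit 0) (XT.nd (nat_lit 156) (nat_lit 988) (nat_lit 0) (XT.nd (nat_lit 78) (nat_lit 608) (nat_lit 0) (XT.lf (nat_lit 0) (nat_lit 8227005330) (nat_lit 456) (nat_lit 1611309247) (nat_lit 532) (nat_lit 420154602) (nat_lit 225) (nat_lit 5) (nat_lit 231) (nat_lit 5) (nat_lit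 232) (nat_lit 5) (nat_lit 597) (nat_lit 518) (nat_lit 445)) (XT.lf (nat_lit 0) (nat_lit 2716988738) (nat_lit 608) (nat_lit 5307059984) (nat_lit 76) (nat_lit 2341287206) (nat_lit 217) (nat_lit 5) (nat_lit 225) (nat_lit 5) (nat_lit 218) (nat_lit 5) (nat_lit 598) (nat_lit 518) (nat_lit 444))) (XT.nd (nat_lit 78) (nat_lit 532) (nat_lit 0) (XT.lf (nat_lit 0) (nat_lit 1808817912) (nat_lit 456) (nat_lit 4107299152) (nat_lit 532) (nat_lit 4558071997) (nat_lit 211) (nat_lit 5) (nat_lit 217) (nat_lit 5) (nat_lit 218) (nat_lit 5) (nat_lit 599) (nat_lit 518) (nat_lit 443)) (XT.nd (nat_lit 78) (nat_lit 532) (nat_lit 0) (XT.lf (nat_lit 0) (nat_lit 9094604086) (nat_lit 456) (nat_lit 89287620) (nat_lit 532) (nat_lit 1401236190) (nat_lit 211) (nat_lit 5) (nat_lit 217) (nat_lit 5) (nat_lit 218) (nat_lit 5) (nat_lit 600) (nat_lit 518) (nat_lit 442)) (XT.lf (nat_lit 0) (nat_lit 1828585136) (nat_lit 532) (nat_lit 4875340832) (nat_lit 76) (nat_lit 3993451173) (nat_lit 204) (nat_lit 5) (nat_lit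 211) (nat_lit 5) (nat_lit 205) (nat_lit 5) (nat_lit 601) (nat_lit 518) (nat_lit 441))))) (XT.nd (nat_lit 156) (nat_lit 912) (nat_lit 0) (XT.nd (nat_lit 78) (nat_lit 0) (nat_lit 0) (XT.lf (nat_lit 0) (nat_lit 2467690738) (nat_lit 456) (nat_lit 2632932481) (nat_lit 532) (nat_lit 5711137053) (nat_lit 198) (nat_lit 5) (nat_lit 204) (nat_lit 5) (nat_lit 205) (nat_lit 5) (nat_lit 602) (nat_lit 518) (nat_lit 440)) (XT.lf (nat_lit 0) (nat_lit 8450804176) (nat_lit 532) (nat_lit 958528298) (nat_lit 76) (nat_lit 1518846321) (nat_lit 198) (nat_lit 5) (nat_lit 205) (nat_lit 5) (nat_lit 199) (nat_lit 5) (nat_lit 603) (nat_lit 518) (nat_lit 439))) (XT.nd (nat_lit 78) (nat_lit 380) (nat_lit 0) (XT.lf (nat_lit 0) (nat_lit 841281523) (nat_lit 532) (nat_lit 4451463632) (nat_lit 76) (nat_lit 5753455877) (nat_lit 191) (nat_lit 5) (nat_lit 198) (nat_lit 5) (nat_lit 192) (nat_lit 5) (nat_lit 604) (nat_lit 518) (nat_lit 438)) (XT.nd (nat_lit 78) (nat_lit 0) (nat_lit 0) (XT.lf (nat_lit 0) (nat_lit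 3126587226) (nat_lit 380) (nat_lit 1063954282) (nat_lit 456) (nat_lit 6975768307) (nat_lit 186) (nat_lit 5) (nat_lit 191) (nat_lit 5) (nat_lit 192) (nat_lit 5) (nat_lit 605) (nat_lit 518) (nat_lit 437)) (XT.lf (nat_lit 0) (nat_lit 7628753966) (nat_lit 456) (nat_lit 436759589) (nat_lit 76) (nat_lit 3222869507) (nat_lit 186) (nat_lit 5) (nat_lit 192) (nat_lit 5) (nat_lit 187) (nat_lit 5) (nat_lit 606) (nat_lit 518) (nat_lit 436)))))) (XT.nd (nat_lit 390) (nat_lit 1520) (nat_lit 0) (XT.nd (nat_lit 156) (nat_lit 836) (nat_lit 0) (XT.nd (nat_lit 78) (nat_lit 456) (nat_lit 0) (XT.lf (nat_lit 0) (nat_lit 7364885923) (nat_lit 456) (nat_lit 3797081509) (nat_lit 532) (nat_lit 250407208) (nat_lit 180) (nat_lit 5) (nat_lit 186) (nat_lit 5) (nat_lit 187) (nat_lit 5) (nat_lit 607) (nat_lit 518) (nat_lit 435)) (XT.lf (nat_lit 0) (nat_lit 3187447294) (nat_lit 456) (nat_lit 7767073182) (nat_lit 76) (nat_lit 583852662) (nat_lit 174) (nat_lit 5) (nat_lit 180) (nat_lit 5) (nat_lit 175) (nat_lit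 5) (nat_lit 608) (nat_lit 518) (nat_lit 434))) (XT.nd (nat_lit 78) (nat_lit 456) (nat_lit 0) (XT.lf (nat_lit 0) (nat_lit 65647098) (nat_lit 380) (nat_lit 6649631181) (nat_lit 456) (nat_lit 4951090283) (nat_lit 169) (nat_lit 5) (nat_lit 174) (nat_lit 5) (nat_lit 175) (nat_lit 5) (nat_lit 609) (nat_lit 518) (nat_lit 433)) (XT.nd (nat_lit 78) (nat_lit 456) (nat_lit 0) (XT.lf (nat_lit 0) (nat_lit 8117380553) (nat_lit 380) (nat_lit 2220339639) (nat_lit 456) (nat_lit 1458724097) (nat_lit 169) (nat_lit 5) (nat_lit 174) (nat_lit 5) (nat_lit 175) (nat_lit 5) (nat_lit 610) (nat_lit 518) (nat_lit 432)) (XT.lf (nat_lit 0) (nat_lit 2091887670) (nat_lit 456) (nat_lit 7541275477) (nat_lit 76) (nat_lit 2295366943) (nat_lit 163) (nat_lit 5) (nat_lit 169) (nat_lit 5) (nat_lit 164) (nat_lit 5) (nat_lit 611) (nat_lit 518) (nat_lit 431))))) (XT.nd (nat_lit 234) (nat_lit 684) (nat_lit 0) (XT.nd (nat_lit 78) (nat_lit 456) (nat_lit 0) (XT.lf (nat_lit 0) (nat_lit 541957079) (nat_lit 380) (nat_lit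 5167588889) (nat_lit 456) (nat_lit 6353208858) (nat_lit 158) (nat_lit 5) (nat_lit 163) (nat_lit 5) (nat_lit 164) (nat_lit 5) (nat_lit 612) (nat_lit 518) (nat_lit 430)) (XT.nd (nat_lit 78) (nat_lit 456) (nat_lit 0) (XT.lf (nat_lit 0) (nat_lit 8846729918) (nat_lit 380) (nat_lit 576171644) (nat_lit 456) (nat_lit 2776296979) (nat_lit 158) (nat_lit 5) (nat_lit 163) (nat_lit 5) (nat_lit 164) (nat_lit 5) (nat_lit 613) (nat_lit 518) (nat_lit 429)) (XT.lf (nat_lit 0) (nat_lit 893075443) (nat_lit 456) (nat_lit 7367742250) (nat_lit 76) (nat_lit 4076794283) (nat_lit 152) (nat_lit 5) (nat_lit 158) (nat_lit 5) (nat_lit 153) (nat_lit 5) (nat_lit 614) (nat_lit 518) (nat_lit 428)))) (XT.nd (nat_lit 78) (nat_lit 304) (nat_lit 0) (XT.lf (nat_lit 0) (nat_lit 974141452) (nat_lit 380) (nat_lit 3630595080) (nat_lit 456) (nat_lit 7873569893) (nat_lit 147) (nat_lit 5) (nat_lit 152) (nat_lit 5) (nat_lit 153) (nat_lit 5) (nat_lit 615) (nat_lit 518) (nat_lit 427)) (XT.nd (nat_lit 78) (nat_lit 304) (nat_lit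 0) (XT.lf (nat_lit 0) (nat_lit 8420900113) (nat_lit 456) (nat_lit 3087704249) (nat_lit 76) (nat_lit 1112606280) (nat_lit 147) (nat_lit 5) (nat_lit 153) (nat_lit 5) (nat_lit 148) (nat_lit 5) (nat_lit 616) (nat_lit 518) (nat_lit 426)) (XT.lf (nat_lit 0) (nat_lit 5503859548) (nat_lit 304) (nat_lit 6843236113) (nat_lit 380) (nat_lit 419204345) (nat_lit 143) (nat_lit 5) (nat_lit 147) (nat_lit 5) (nat_lit 148) (nat_lit 5) (nat_lit 617) (nat_lit 518) (nat_lit 425))))))))
noncomputable def xc66 : XT := (XT.nd (nat_lit 74880) (nat_lit 0) (nat_lit 30400) (XT.nd (nat_lit 74100) (nat_lit 0) (nat_lit 45904) (XT.nd (nat_lit 73710) (nat_lit 0) (nat_lit 48488) (XT.nd (nat_lit 156) (nat_lit 684) (nat_lit 0) (XT.nd (nat_lit 78) (nat_lit 0) (nat_lit 0) (XT.lf (nat_lit 0) (nat_lit 1349028241) (nat_lit 380) (nat_lit 2047030545) (nat_lit 456) (nat_lit 9517714816) (nat_lit 137) (nat_lit 5) (nat_lit 142) (nat_lit 5) (nat_lit 143) (nat_lit 5) (nat_lit 618) (nat_lit 518) (nat_lit 424)) (XT.lf (nat_lit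 0) (nat_lit 7323693932) (nat_lit 456) (nat_lit 2895207239) (nat_lit 76) (nat_lit 2844407650) (nat_lit 137) (nat_lit 5) (nat_lit 143) (nat_lit 5) (nat_lit 138) (nat_lit 5) (nat_lit 619) (nat_lit 518) (nat_lit 423))) (XT.nd (nat_lit 78) (nat_lit 380) (nat_lit 0) (XT.lf (nat_lit 0) (nat_lit 5971716001) (nat_lit 304) (nat_lit 5385146411) (nat_lit 380) (nat_lit 1858433863) (nat_lit 133) (nat_lit 5) (nat_lit 137) (nat_lit 5) (nat_lit 138) (nat_lit 5) (nat_lit 620) (nat_lit 518) (nat_lit 422)) (XT.nd (nat_lit 78) (nat_lit 0) (nat_lit 0) (XT.lf (nat_lit 0) (nat_lit 1652355222) (nat_lit 304) (nat_lit 425472471) (nat_lit 380) (nat_lit 11292124071) (nat_lit 128) (nat_lit 5) (nat_lit 132) (nat_lit 5) (nat_lit 133) (nat_lit 5) (nat_lit 621) (nat_lit 518) (nat_lit 421)) (XT.lf (nat_lit 0) (nat_lit 6121816515) (nat_lit 380) (nat_lit 2786013387) (nat_lit 76) (nat_lit 4618548126) (nat_lit 128) (nat_lit 5) (nat_lit 133) (nat_lit 5) (nat_lit 129) (nat_lit 5) (nat_lit 622) (nat_lit 518) (nat_lit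 420))))) (XT.nd (nat_lit 156) (nat_lit 532) (nat_lit 0) (XT.nd (nat_lit 78) (nat_lit 0) (nat_lit 0) (XT.lf (nat_lit 0) (nat_lit 13035213) (nat_lit 76) (nat_lit 1604518672) (nat_lit 76) (nat_lit 1604518672) (nat_lit 773) (nat_lit 4) (nat_lit 774) (nat_lit 5) (nat_lit 774) (nat_lit 4) (nat_lit 522) (nat_lit 519) (nat_lit 519)) (XT.lf (nat_lit 0) (nat_lit 3346408282) (nat_lit 76) (nat_lit 3084277997) (nat_lit 76) (nat_lit 16001908) (nat_lit 773) (nat_lit 4) (nat_lit 774) (nat_lit 5) (nat_lit 774) (nat_lit 4) (nat_lit 523) (nat_lit 519) (nat_lit 518))) (XT.nd (nat_lit 78) (nat_lit 304) (nat_lit 0) (XT.lf (nat_lit 0) (nat_lit 221372750) (nat_lit 152) (nat_lit 2896331532) (nat_lit 228) (nat_lit 3332785124) (nat_lit 770) (nat_lit 5) (nat_lit 772) (nat_lit 5) (nat_lit 773) (nat_lit 4) (nat_lit 524) (nat_lit 519) (nat_lit 517)) (XT.nd (nat_lit 78) (nat_lit 304) (nat_lit 0) (XT.lf (nat_lit 0) (nat_lit 3607308693) (nat_lit 152) (nat_lit 2646567437) (nat_lit 228) (nat_lit 201702434) (nat_lit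 770) (nat_lit 5) (nat_lit 772) (nat_lit 5) (nat_lit 773) (nat_lit 4) (nat_lit 525) (nat_lit 519) (nat_lit 516)) (XT.lf (nat_lit 0) (nat_lit 543620585) (nat_lit 228) (nat_lit 2332918010) (nat_lit 304) (nat_lit 3585380436) (nat_lit 766) (nat_lit 5) (nat_lit 769) (nat_lit 5) (nat_lit 770) (nat_lit 5) (nat_lit 526) (nat_lit 519) (nat_lit 515)))))) (XT.nd (nat_lit 390) (nat_lit 1748) (nat_lit 0) (XT.nd (nat_lit 156) (nat_lit 456) (nat_lit 0) (XT.nd (nat_lit 78) (nat_lit 380) (nat_lit 0) (XT.lf (nat_lit 0) (nat_lit 3996618777) (nat_lit 228) (nat_lit 1957657966) (nat_lit 304) (nat_lit 515283566) (nat_lit 766) (nat_lit 5) (nat_lit 769) (nat_lit 5) (nat_lit 770) (nat_lit 5) (nat_lit 527) (nat_lit 519) (nat_lit 514)) (XT.lf (nat_lit 0) (nat_lit 993196960) (nat_lit 304) (nat_lit 1517696914) (nat_lit 380) (nat_lit 3967553810) (nat_lit 761) (nat_lit 5) (nat_lit 765) (nat_lit 5) (nat_lit 766) (nat_lit 5) (nat_lit 528) (nat_lit 519) (nat_lit 513))) (XT.nd (nat_lit 78) (nat_lit 456) (nat_lit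 0) (XT.lf (nat_lit 0) (nat_lit 4514847022) (nat_lit 304) (nat_lit 1016203123) (nat_lit 380) (nat_lit 957600003) (nat_lit 761) (nat_lit 5) (nat_lit 765) (nat_lit 5) (nat_lit 766) (nat_lit 5) (nat_lit 529) (nat_lit 519) (nat_lit 512)) (XT.nd (nat_lit 78) (nat_lit 0) (nat_lit 0) (XT.lf (nat_lit 0) (nat_lit 1570731369) (nat_lit 380) (nat_lit 449076953) (nat_lit 456) (nat_lit 4480286849) (nat_lit 755) (nat_lit 5) (nat_lit 760) (nat_lit 5) (nat_lit 761) (nat_lit 5) (nat_lit 530) (nat_lit 519) (nat_lit 511)) (XT.lf (nat_lit 0) (nat_lit 4984279370) (nat_lit 456) (nat_lit 1351288005) (nat_lit 76) (nat_lit 177280225) (nat_lit 755) (nat_lit 5) (nat_lit 761) (nat_lit 5) (nat_lit 756) (nat_lit 5) (nat_lit 531) (nat_lit 519) (nat_lit 510))))) (XT.nd (nat_lit 156) (nat_lit 1216) (nat_lit 0) (XT.nd (nat_lit 78) (nat_lit 0) (nat_lit 0) (XT.lf (nat_lit 0) (nat_lit 1407754419) (nat_lit 532) (nat_lit 4255468364) (nat_lit 76) (nat_lit 863551028) (nat_lit 748) (nat_lit 5) (nat_lit 755) (nat_lit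 5) (nat_lit 749) (nat_lit 5) (nat_lit 532) (nat_lit 519) (nat_lit 509)) (XT.lf (nat_lit 0) (nat_lit 4319731959) (nat_lit 532) (nat_lit 611519608) (nat_lit 76) (nat_lit 1610788136) (nat_lit 748) (nat_lit 5) (nat_lit 755) (nat_lit 5) (nat_lit 749) (nat_lit 5) (nat_lit 533) (nat_lit 519) (nat_lit 508))) (XT.nd (nat_lit 78) (nat_lit 608) (nat_lit 0) (XT.lf (nat_lit 0) (nat_lit 672183991) (nat_lit 608) (nat_lit 3461382017) (nat_lit 76) (nat_lit 2424971516) (nat_lit 740) (nat_lit 5) (nat_lit 748) (nat_lit 5) (nat_lit 741) (nat_lit 5) (nat_lit 534) (nat_lit 519) (nat_lit 507)) (XT.nd (nat_lit 78) (nat_lit 0) (nat_lit 0) (XT.lf (nat_lit 0) (nat_lit 256665693) (nat_lit 608) (nat_lit 3274248270) (nat_lit 684) (nat_lit 3045445956) (nat_lit 732) (nat_lit 5) (nat_lit 740) (nat_lit 5) (nat_lit 741) (nat_lit 5) (nat_lit 535) (nat_lit 519) (nat_lit 506)) (XT.lf (nat_lit 0) (nat_lit 4051323851) (nat_lit 608) (nat_lit 2350079455) (nat_lit 684) (nat_lit 194054066) (nat_lit 732) (nat_lit 5) (nat_lit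 740) (nat_lit 5) (nat_lit 741) (nat_lit 5) (nat_lit 536) (nat_lit 519) (nat_lit 505))))))) (XT.nd (nat_lit 780) (nat_lit 9880) (nat_lit 0) (XT.nd (nat_lit 390) (nat_lit 3116) (nat_lit 0) (XT.nd (nat_lit 156) (nat_lit 1748) (nat_lit 0) (XT.nd (nat_lit 78) (nat_lit 0) (nat_lit 0) (XT.lf (nat_lit 0) (nat_lit 1261150287) (nat_lit 684) (nat_lit 1358051575) (nat_lit 760) (nat_lit 3996583632) (nat_lit 722) (nat_lit 5) (nat_lit 731) (nat_lit 5) (nat_lit 732) (nat_lit 5) (nat_lit 537) (nat_lit 519) (nat_lit 504)) (XT.lf (nat_lit 0) (nat_lit 5131313217) (nat_lit 684) (nat_lit 305165267) (nat_lit 760) (nat_lit 1201018671) (nat_lit 722) (nat_lit 5) (nat_lit 731) (nat_lit 5) (nat_lit 732) (nat_lit 5) (nat_lit 538) (nat_lit 519) (nat_lit 503))) (XT.nd (nat_lit 78) (nat_lit 912) (nat_lit 0) (XT.lf (nat_lit 0) (nat_lit 1583822345) (nat_lit 836) (nat_lit 4270234688) (nat_lit 76) (nat_lit 806280814) (nat_lit 711) (nat_lit 5) (nat_lit 722) (nat_lit 5) (nat_lit 712) (nat_lit 5) (nat_lit 539)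 (nat_lit 519) (nat_lit 502)) (XT.nd (nat_lit 78) (nat_lit 912) (nat_lit 0) (XT.lf (nat_lit 0) (nat_lit 4355780868) (nat_lit 836) (nat_lit 354314702) (nat_lit 76) (nat_lit 1974440113) (nat_lit 711) (nat_lit 5) (nat_lit 722) (nat_lit 5) (nat_lit 712) (nat_lit 5) (nat_lit 540) (nat_lit 519) (nat_lit 501)) (XT.lf (nat_lit 0) (nat_lit 427686480) (nat_lit 912) (nat_lit 3069812273) (nat_lit 76) (nat_lit 3212467141) (nat_lit 699) (nat_lit 5) (nat_lit 711) (nat_lit 5) (nat_lit 700) (nat_lit 5) (nat_lit 541) (nat_lit 519) (nat_lit 500))))) (XT.nd (nat_lit 156) (nat_lit 2204) (nat_lit 0) (XT.nd (nat_lit 78) (nat_lit 0) (nat_lit 0) (XT.lf (nat_lit 0) (nat_lit 935052769) (nat_lit 912) (nat_lit 2218609462) (nat_lit 988) (nat_lit 3583031484) (nat_lit 687) (nat_lit 5) (nat_lit 699) (nat_lit 5) (nat_lit 700) (nat_lit 5) (nat_lit 542) (nat_lit 519) (nat_lit 499)) (XT.lf (nat_lit 0) (nat_lit 5016695151) (nat_lit 912) (nat_lit 876098263) (nat_lit 988) (nat_lit 871998413) (nat_lit 687) (nat_lit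 5) (nat_lit 699) (nat_lit 5) (nat_lit 700) (nat_lit 5) (nat_lit 543) (nat_lit 519) (nat_lit 498))) (XT.nd (nat_lit 78) (nat_lit 1140) (nat_lit 0) (XT.lf (nat_lit 0) (nat_lit 1826081224) (nat_lit 1064) (nat_lit 4437311969) (nat_lit 76) (nat_lit 530667861) (nat_lit 673) (nat_lit 5) (nat_lit 687) (nat_lit 5) (nat_lit 674) (nat_lit 5) (nat_lit 544) (nat_lit 519) (nat_lit 497)) (XT.nd (nat_lit 78) (nat_lit 1140) (nat_lit 0) (XT.lf (nat_lit 0) (nat_lit 4523919521) (nat_lit 1064) (nat_lit 313839334) (nat_lit 76) (nat_lit 1986900034) (nat_lit 673) (nat_lit 5) (nat_lit 687) (nat_lit 5) (nat_lit 674) (nat_lit 5) (nat_lit 545) (nat_lit 519) (nat_lit 496)) (XT.lf (nat_lit 0) (nat_lit 380450152) (nat_lit 1140) (nat_lit 2960815429) (nat_lit 76) (nat_lit 3515234026) (nat_lit 658) (nat_lit 5) (nat_lit 673) (nat_lit 5) (nat_lit 659) (nat_lit 5) (nat_lit 546) (nat_lit 519) (nat_lit 495)))))) (XT.nd (nat_lit 390) (nat_lit 6156) (nat_lit 0) (XT.nd (nat_lit 156) (nat_lit 2584) (nat_lit 0) (XT.nd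 (nat_lit 78) (nat_lit 0) (nat_lit 0) (XT.lf (nat_lit 0) (nat_lit 1260518095) (nat_lit 1140) (nat_lit 1775776349) (nat_lit 1216) (nat_lit 3853349285) (nat_lit 643) (nat_lit 5) (nat_lit 658) (nat_lit 5) (nat_lit 659) (nat_lit 5) (nat_lit 547) (nat_lit 519) (nat_lit 494)) (XT.lf (nat_lit 0) (nat_lit 5561231625) (nat_lit 1140) (nat_lit 146251232) (nat_lit 1216) (nat_lit 1216730690) (nat_lit 643) (nat_lit 5) (nat_lit 658) (nat_lit 5) (nat_lit 659) (nat_lit 5) (nat_lit 548) (nat_lit 519) (nat_lit 493))) (XT.nd (nat_lit 78) (nat_lit 1292) (nat_lit 0) (XT.lf (nat_lit 0) (nat_lit 1425825778) (nat_lit 1292) (nat_lit 3997297982) (nat_lit 76) (nat_lit 1536716467) (nat_lit 626) (nat_lit 5) (nat_lit 643) (nat_lit 5) (nat_lit 627) (nat_lit 5) (nat_lit 549) (nat_lit 519) (nat_lit 492)) (XT.nd (nat_lit 78) (nat_lit 0) (nat_lit 0) (XT.lf (nat_lit 0) (nat_lit 346550304) (nat_lit 1292) (nat_lit 3714837540) (nat_lit 1368) (nat_lit 2935508747) (nat_lit 609) (nat_lit 5) (nat_lit 626) (nat_lit 5)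 (nat_lit 627) (nat_lit 5) (nat_lit 550) (nat_lit 519) (nat_lit 491)) (XT.lf (nat_lit 0) (nat_lit 4785798590) (nat_lit 1292) (nat_lit 1935493777) (nat_lit 1368) (nat_lit 313975890) (nat_lit 609) (nat_lit 5) (nat_lit 626) (nat_lit 5) (nat_lit 627) (nat_lit 5) (nat_lit 551) (nat_lit 519) (nat_lit 490))))) (XT.nd (nat_lit 234) (nat_lit 3192) (nat_lit 0) (XT.nd (nat_lit 78) (nat_lit 1520) (nat_lit 0) (XT.lf (nat_lit 0) (nat_lit 2207557843) (nat_lit 1368) (nat_lit 81335575) (nat_lit 1444) (nat_lit 4786016871) (nat_lit 590) (nat_lit 5) (nat_lit 608) (nat_lit 5) (nat_lit 609) (nat_lit 5) (nat_lit 552) (nat_lit 519) (nat_lit 489)) (XT.nd (nat_lit 78) (nat_lit 1520) (nat_lit 0) (XT.lf (nat_lit 0) (nat_lit 4912920543) (nat_lit 1444) (nat_lit 391088457) (nat_lit 76) (nat_lit 1811834968) (nat_lit 590) (nat_lit 5) (nat_lit 609) (nat_lit 5) (nat_lit 591) (nat_lit 5) (nat_lit 553) (nat_lit 519) (nat_lit 488)) (XT.lf (nat_lit 0) (nat_lit 401104990) (nat_lit 1520) (nat_lit 2977132759) (nat_lit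 76) (nat_lit 3779809920) (nat_lit 570) (nat_lit 5) (nat_lit 590) (nat_lit 5) (nat_lit 571) (nat_lit 5) (nat_lit 554) (nat_lit 519) (nat_lit 487)))) (XT.nd (nat_lit 78) (nat_lit 1672) (nat_lit 0) (XT.lf (nat_lit 0) (nat_lit 1609291214) (nat_lit 1520) (nat_lit 1379338647) (nat_lit 1596) (nat_lit 4212962134) (nat_lit 550) (nat_lit 5) (nat_lit 570) (nat_lit 5) (nat_lit 571) (nat_lit 5) (nat_lit 555) (nat_lit 519) (nat_lit 486)) (XT.nd (nat_lit 78) (nat_lit 1672) (nat_lit 0) (XT.lf (nat_lit 0) (nat_lit 5600859612) (nat_lit 1596) (nat_lit 968820597) (nat_lit 76) (nat_lit 676873829) (nat_lit 550) (nat_lit 5) (nat_lit 571) (nat_lit 5) (nat_lit 551) (nat_lit 5) (nat_lit 556) (nat_lit 519) (nat_lit 485)) (XT.lf (nat_lit 0) (nat_lit 943036889) (nat_lit 1672) (nat_lit 3557586310) (nat_lit 76) (nat_lit 2792013908) (nat_lit 528) (nat_lit 5) (nat_lit 550) (nat_lit 5) (nat_lit 529) (nat_lit 5) (nat_lit 557) (nat_lit 519) (nat_lit 484))))))))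
noncomputable def xc67 : XT := (XT.nd (nat_lit 1560) (nat_lit 9500) (nat_lit 0) (XT.nd (nat_lit 780) (nat_lit 4940) (nat_lit 0) (XT.nd (nat_lit 390) (nat_lit 3876) (nat_lit 0) (XT.nd (nat_lit 156) (nat_lit 3648) (nat_lit 0) (XT.nd (nat_lit 78) (nat_lit 0) (nat_lit 0) (XT.lf (nat_lit 0) (nat_lit 1164901912) (nat_lit 1672) (nat_lit 2360662882) (nat_lit 1748) (nat_lit 3814583903) (nat_lit 506) (nat_lit 5) (nat_lit 528) (nat_lit 5) (nat_lit 529) (nat_lit 5) (nat_lit 558) (nat_lit 519) (nat_lit 483)) (XT.lf (nat_lit 0) (nat_lit 5984312192) (nat_lit 1672) (nat_lit 149918614) (nat_lit 1748) (nat_lit 1254895430) (nat_lit 506) (nat_lit 5) (nat_lit 528) (nat_lit 5) (nat_lit 529) (nat_lit 5) (nat_lit 559) (nat_lit 519) (nat_lit 482))) (XT.nd (nat_lit 78) (nat_lit 1824) (nat_lit 0) (XT.lf (nat_lit 0) (nat_lit 1325767147) (nat_lit 1824) (nat_lit 4001344993) (nat_lit 76) (nat_lit 2112049074) (nat_lit 482) (nat_lit 5) (nat_lit 506) (nat_lit 5) (nat_lit 483) (nat_lit 5) (nat_lit 560) (nat_lit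 519) (nat_lit 481)) (XT.nd (nat_lit 78) (nat_lit 0) (nat_lit 0) (XT.lf (nat_lit 0) (nat_lit 862080171) (nat_lit 1824) (nat_lit 3047192534) (nat_lit 1900) (nat_lit 3581402786) (nat_lit 458) (nat_lit 5) (nat_lit 482) (nat_lit 5) (nat_lit 483) (nat_lit 5) (nat_lit 561) (nat_lit 519) (nat_lit 480)) (XT.lf (nat_lit 0) (nat_lit 5831123336) (nat_lit 1824) (nat_lit 692758188) (nat_lit 1900) (nat_lit 1019754918) (nat_lit 458) (nat_lit 5) (nat_lit 482) (nat_lit 5) (nat_lit 483) (nat_lit 5) (nat_lit 562) (nat_lit 519) (nat_lit 479))))) (XT.nd (nat_lit 156) (nat_lit 1824) (nat_lit 0) (XT.nd (nat_lit 78) (nat_lit 912) (nat_lit 0) (XT.lf (nat_lit 0) (nat_lit 1558097652) (nat_lit 1140) (nat_lit 4320208543) (nat_lit 76) (nat_lit 1719431081) (nat_lit 443) (nat_lit 5) (nat_lit 458) (nat_lit 5) (nat_lit 444) (nat_lit 5) (nat_lit 563) (nat_lit 519) (nat_lit 478)) (XT.lf (nat_lit 0) (nat_lit 689266698) (nat_lit 912) (nat_lit 3459057827) (nat_lit 988) (nat_lit 3504976115) (nat_lit 431) (nat_lit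 5) (nat_lit 443) (nat_lit 5) (nat_lit 444) (nat_lit 5) (nat_lit 564) (nat_lit 519) (nat_lit 477))) (XT.nd (nat_lit 78) (nat_lit 1824) (nat_lit 0) (XT.lf (nat_lit 0) (nat_lit 5811546695) (nat_lit 912) (nat_lit 962235187) (nat_lit 988) (nat_lit 936529535) (nat_lit 431) (nat_lit 5) (nat_lit 443) (nat_lit 5) (nat_lit 444) (nat_lit 5) (nat_lit 565) (nat_lit 519) (nat_lit 476)) (XT.nd (nat_lit 78) (nat_lit 836) (nat_lit 0) (XT.lf (nat_lit 0) (nat_lit 1647859745) (nat_lit 988) (nat_lit 4525311975) (nat_lit 76) (nat_lit 1595343589) (nat_lit 418) (nat_lit 5) (nat_lit 431) (nat_lit 5) (nat_lit 419) (nat_lit 5) (nat_lit 566) (nat_lit 519) (nat_lit 475)) (XT.lf (nat_lit 0) (nat_lit 635564052) (nat_lit 836) (nat_lit 3614778643) (nat_lit 912) (nat_lit 3577842251) (nat_lit 407) (nat_lit 5) (nat_lit 418) (nat_lit 5) (nat_lit 419) (nat_lit 5) (nat_lit 567) (nat_lit 519) (nat_lit 474)))))) (XT.nd (nat_lit 390) (nat_lit 2280) (nat_lit 0) (XT.nd (nat_lit 156) (nat_lit 1748) (nat_lit 0) (XT.nd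 (nat_lit 78) (nat_lit 912) (nat_lit 0) (XT.lf (nat_lit 0) (nat_lit 5915070495) (nat_lit 836) (nat_lit 976353518) (nat_lit 912) (nat_lit 997897299) (nat_lit 407) (nat_lit 5) (nat_lit 418) (nat_lit 5) (nat_lit 419) (nat_lit 5) (nat_lit 568) (nat_lit 519) (nat_lit 473)) (XT.lf (nat_lit 0) (nat_lit 1601964917) (nat_lit 912) (nat_lit 4627211135) (nat_lit 76) (nat_lit 1722501484) (nat_lit 395) (nat_lit 5) (nat_lit 407) (nat_lit 5) (nat_lit 396) (nat_lit 5) (nat_lit 569) (nat_lit 519) (nat_lit 472))) (XT.nd (nat_lit 78) (nat_lit 912) (nat_lit 0) (XT.lf (nat_lit 0) (nat_lit 690651151) (nat_lit 836) (nat_lit 3531398825) (nat_lit 912) (nat_lit 3793471301) (nat_lit 384) (nat_lit 5) (nat_lit 395) (nat_lit 5) (nat_lit 396) (nat_lit 5) (nat_lit 570) (nat_lit 519) (nat_lit 471)) (XT.nd (nat_lit 78) (nat_lit 912) (nat_lit 0) (XT.lf (nat_lit 0) (nat_lit 6131749201) (nat_lit 836) (nat_lit 751667247) (nat_lit 912) (nat_lit 1197451831) (nat_lit 384) (nat_lit 5) (nat_lit 395) (nat_lit 5) (nat_lit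 396) (nat_lit 5) (nat_lit 571) (nat_lit 519) (nat_lit 470)) (XT.lf (nat_lit 0) (nat_lit 1426449442) (nat_lit 912) (nat_lit 4635965652) (nat_lit 76) (nat_lit 2085022910) (nat_lit 372) (nat_lit 5) (nat_lit 384) (nat_lit 5) (nat_lit 373) (nat_lit 5) (nat_lit 572) (nat_lit 519) (nat_lit 469))))) (XT.nd (nat_lit 156) (nat_lit 1520) (nat_lit 0) (XT.nd (nat_lit 78) (nat_lit 0) (nat_lit 0) (XT.lf (nat_lit 0) (nat_lit 844700271) (nat_lit 760) (nat_lit 3224612004) (nat_lit 836) (nat_lit 4146221950) (nat_lit 362) (nat_lit 5) (nat_lit 372) (nat_lit 5) (nat_lit 373) (nat_lit 5) (nat_lit 573) (nat_lit 519) (nat_lit 468)) (XT.lf (nat_lit 0) (nat_lit 6452121558) (nat_lit 760) (nat_lit 303404163) (nat_lit 836) (nat_lit 1529660460) (nat_lit 362) (nat_lit 5) (nat_lit 372) (nat_lit 5) (nat_lit 373) (nat_lit 5) (nat_lit 574) (nat_lit 519) (nat_lit 467))) (XT.nd (nat_lit 78) (nat_lit 684) (nat_lit 0) (XT.lf (nat_lit 0) (nat_lit 1126513168) (nat_lit 836) (nat_lit 4561219932) (nat_lit 76) (nat_lit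 2668309237) (nat_lit 351) (nat_lit 5) (nat_lit 362) (nat_lit 5) (nat_lit 352) (nat_lit 5) (nat_lit 575) (nat_lit 519) (nat_lit 466)) (XT.nd (nat_lit 78) (nat_lit 0) (nat_lit 0) (XT.lf (nat_lit 0) (nat_lit 1088295908) (nat_lit 684) (nat_lit 2708879815) (nat_lit 760) (nat_lit 4631304188) (nat_lit 342) (nat_lit 5) (nat_lit 351) (nat_lit 5) (nat_lit 352) (nat_lit 5) (nat_lit 576) (nat_lit 519) (nat_lit 465)) (XT.lf (nat_lit 0) (nat_lit 6515013389) (nat_lit 760) (nat_lit 1637711182) (nat_lit 76) (nat_lit 349769826) (nat_lit 342) (nat_lit 5) (nat_lit 352) (nat_lit 5) (nat_lit 343) (nat_lit 5) (nat_lit 577) (nat_lit 519) (nat_lit 464))))))) (XT.nd (nat_lit 780) (nat_lit 4636) (nat_lit 0) (XT.nd (nat_lit 390) (nat_lit 1976) (nat_lit 0) (XT.nd (nat_lit 156) (nat_lit 1368) (nat_lit 0) (XT.nd (nat_lit 78) (nat_lit 684) (nat_lit 0) (XT.lf (nat_lit 0) (nat_lit 706552682) (nat_lit 836) (nat_lit 4412282794) (nat_lit 76) (nat_lit 3458932160) (nat_lit 331) (nat_lit 5) (nat_lit 342) (nat_lit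 5) (nat_lit 332) (nat_lit 5) (nat_lit 578) (nat_lit 519) (nat_lit 463)) (XT.lf (nat_lit 0) (nat_lit 1412354891) (nat_lit 684) (nat_lit 1997543302) (nat_lit 760) (nat_lit 5244747733) (nat_lit 322) (nat_lit 5) (nat_lit 331) (nat_lit 5) (nat_lit 332) (nat_lit 5) (nat_lit 579) (nat_lit 519) (nat_lit 462))) (XT.nd (nat_lit 78) (nat_lit 1368) (nat_lit 0) (XT.lf (nat_lit 0) (nat_lit 6167009724) (nat_lit 760) (nat_lit 1373033463) (nat_lit 76) (nat_lit 1193027753) (nat_lit 322) (nat_lit 5) (nat_lit 332) (nat_lit 5) (nat_lit 323) (nat_lit 5) (nat_lit 580) (nat_lit 519) (nat_lit 461)) (XT.nd (nat_lit 78) (nat_lit 608) (nat_lit 0) (XT.lf (nat_lit 0) (nat_lit 170189015) (nat_lit 760) (nat_lit 4198206370) (nat_lit 76) (nat_lit 4444527112) (nat_lit 312) (nat_lit 5) (nat_lit 322) (nat_lit 5) (nat_lit 313) (nat_lit 5) (nat_lit 581) (nat_lit 519) (nat_lit 460)) (XT.lf (nat_lit 0) (nat_lit 1808047106) (nat_lit 608) (nat_lit 1102928293) (nat_lit 684) (nat_lit 5983375998) (nat_lit 304) (nat_lit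 5) (nat_lit 312) (nat_lit 5) (nat_lit 313) (nat_lit 5) (nat_lit 582) (nat_lit 519) (nat_lit 459))))) (XT.nd (nat_lit 156) (nat_lit 1292) (nat_lit 0) (XT.nd (nat_lit 78) (nat_lit 684) (nat_lit 0) (XT.lf (nat_lit 0) (nat_lit 5712901537) (nat_lit 684) (nat_lit 1045798667) (nat_lit 76) (nat_lit 2218585092) (nat_lit 304) (nat_lit 5) (nat_lit 313) (nat_lit 5) (nat_lit 305) (nat_lit 5) (nat_lit 583) (nat_lit 519) (nat_lit 458)) (XT.lf (nat_lit 0) (nat_lit 5130763159) (nat_lit 684) (nat_lit 3444935800) (nat_lit 760) (nat_lit 486085103) (nat_lit 295) (nat_lit 5) (nat_lit 304) (nat_lit 5) (nat_lit 305) (nat_lit 5) (nat_lit 584) (nat_lit 519) (nat_lit 457))) (XT.nd (nat_lit 78) (nat_lit 608) (nat_lit 0) (XT.lf (nat_lit 0) (nat_lit 2266716201) (nat_lit 608) (nat_lit 36445491) (nat_lit 684) (nat_lit 6844785503) (nat_lit 286) (nat_lit 5) (nat_lit 294) (nat_lit 5) (nat_lit 295) (nat_lit 5) (nat_lit 585) (nat_lit 519) (nat_lit 456)) (XT.nd (nat_lit 78) (nat_lit 608) (nat_lit 0) (XT.lf (nat_lit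 0) (nat_lit 5155320491) (nat_lit 684) (nat_lit 664614033) (nat_lit 76) (nat_lit 3415564772) (nat_lit 286) (nat_lit 5) (nat_lit 295) (nat_lit 5) (nat_lit 287) (nat_lit 5) (nat_lit 586) (nat_lit 519) (nat_lit 455)) (XT.lf (nat_lit 0) (nat_lit 5706551912) (nat_lit 608) (nat_lit 2360693606) (nat_lit 684) (nat_lit 1257505089) (nat_lit 278) (nat_lit 5) (nat_lit 286) (nat_lit 5) (nat_lit 287) (nat_lit 5) (nat_lit 587) (nat_lit 519) (nat_lit 454)))))) (XT.nd (nat_lit 390) (nat_lit 2204) (nat_lit 0) (XT.nd (nat_lit 156) (nat_lit 1748) (nat_lit 0) (XT.nd (nat_lit 78) (nat_lit 0) (nat_lit 0) (XT.lf (nat_lit 0) (nat_lit 1596220419) (nat_lit 684) (nat_lit 6643751444) (nat_lit 76) (nat_lit 1175689708) (nat_lit 269) (nat_lit 5) (nat_lit 278) (nat_lit 5) (nat_lit 270) (nat_lit 5) (nat_lit 588) (nat_lit 519) (nat_lit 453)) (XT.lf (nat_lit 0) (nat_lit 4496187155) (nat_lit 684) (nat_lit 238036248) (nat_lit 76) (nat_lit 4773883493) (nat_lit 269) (nat_lit 5) (nat_lit 278) (nat_lit 5) (nat_lit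 270) (nat_lit 5) (nat_lit 589) (nat_lit 519) (nat_lit 452))) (XT.nd (nat_lit 78) (nat_lit 1140) (nat_lit 0) (XT.lf (nat_lit 0) (nat_lit 6334880783) (nat_lit 608) (nat_lit 1126985458) (nat_lit 684) (nat_lit 2140383051) (nat_lit 261) (nat_lit 5) (nat_lit 269) (nat_lit 5) (nat_lit 270) (nat_lit 5) (nat_lit 590) (nat_lit 519) (nat_lit 451)) (XT.nd (nat_lit 78) (nat_lit 532) (nat_lit 0) (XT.lf (nat_lit 0) (nat_lit 784949586) (nat_lit 608) (nat_lit 6376316083) (nat_lit 76) (nat_lit 2536774649) (nat_lit 253) (nat_lit 5) (nat_lit 261) (nat_lit 5) (nat_lit 254) (nat_lit 5) (nat_lit 591) (nat_lit 519) (nat_lit 450)) (XT.lf (nat_lit 0) (nat_lit 228342366) (nat_lit 532) (nat_lit 3509859974) (nat_lit 608) (nat_lit 6057302690) (nat_lit 246) (nat_lit 5) (nat_lit 253) (nat_lit 5) (nat_lit 254) (nat_lit 5) (nat_lit 592) (nat_lit 519) (nat_lit 449))))) (XT.nd (nat_lit 234) (nat_lit 1064) (nat_lit 0) (XT.nd (nat_lit 78) (nat_lit 1140) (nat_lit 0) (XT.lf (nat_lit 0) (nat_lit 6762299338) (nat_lit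 608) (nat_lit 2888949434) (nat_lit 76) (nat_lit 243436923) (nat_lit 246) (nat_lit 5) (nat_lit 254) (nat_lit 5) (nat_lit 247) (nat_lit 5) (nat_lit 593) (nat_lit 519) (nat_lit 448)) (XT.nd (nat_lit 78) (nat_lit 608) (nat_lit 0) (XT.lf (nat_lit 0) (nat_lit 3906965418) (nat_lit 532) (nat_lit 5956478700) (nat_lit 608) (nat_lit 132076737) (nat_lit 239) (nat_lit 5) (nat_lit 246) (nat_lit 5) (nat_lit 247) (nat_lit 5) (nat_lit 594) (nat_lit 519) (nat_lit 447)) (XT.lf (nat_lit 0) (nat_lit 726363231) (nat_lit 532) (nat_lit 2155790762) (nat_lit 608) (nat_lit 7215994210) (nat_lit 231) (nat_lit 5) (nat_lit 238) (nat_lit 5) (nat_lit 239) (nat_lit 5) (nat_lit 595) (nat_lit 519) (nat_lit 446)))) (XT.nd (nat_lit 78) (nat_lit 1064) (nat_lit 0) (XT.lf (nat_lit 0) (nat_lit 5975555414) (nat_lit 608) (nat_lit 2498479210) (nat_lit 76) (nat_lit 1728364995) (nat_lit 231) (nat_lit 5) (nat_lit 239) (nat_lit 5) (nat_lit 232) (nat_lit 5) (nat_lit 596) (nat_lit 519) (nat_lit 445)) (XT.nd (nat_lit 78) (nat_lit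 608) (nat_lit 0) (XT.lf (nat_lit 0) (nat_lit 4513821420) (nat_lit 456) (nat_lit 4629559123) (nat_lit 532) (nat_lit 1165106437) (nat_lit 225) (nat_lit 5) (nat_lit 231) (nat_lit 5) (nat_lit 232) (nat_lit 5) (nat_lit 597) (nat_lit 519) (nat_lit 444)) (XT.lf (nat_lit 0) (nat_lit 1243844041) (nat_lit 532) (nat_lit 682392710) (nat_lit 608) (nat_lit 8490326086) (nat_lit 217) (nat_lit 5) (nat_lit 224) (nat_lit 5) (nat_lit 225) (nat_lit 5) (nat_lit 598) (nat_lit 519) (nat_lit 443))))))))
noncomputable def xc68 : XT := (XT.nd (nat_lit 1560) (nat_lit 1064) (nat_lit 0) (XT.nd (nat_lit 780) (nat_lit 2812) (nat_lit 0) (XT.nd (nat_lit 390) (nat_lit 1444) (nat_lit 0) (XT.nd (nat_lit 156) (nat_lit 988) (nat_lit 0) (XT.nd (nat_lit 78) (nat_lit 456) (nat_lit 0) (XT.lf (nat_lit 0) (nat_lit 5094011536) (nat_lit 608) (nat_lit 2097799783) (nat_lit 76) (nat_lit 3334232669) (nat_lit 217) (nat_lit 5) (nat_lit 225) (nat_lit 5) (nat_lit 218) (nat_lit 5) (nat_lit 599) (nat_lit 519) (nat_lit 442)) (XT.lf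 (nat_lit 0) (nat_lit 5138583820) (nat_lit 456) (nat_lit 3194379972) (nat_lit 532) (nat_lit 2304596408) (nat_lit 211) (nat_lit 5) (nat_lit 217) (nat_lit 5) (nat_lit 218) (nat_lit 5) (nat_lit 600) (nat_lit 519) (nat_lit 441))) (XT.nd (nat_lit 78) (nat_lit 456) (nat_lit 0) (XT.lf (nat_lit 0) (nat_lit 875358223) (nat_lit 532) (nat_lit 8985663260) (nat_lit 76) (nat_lit 890140448) (nat_lit 204) (nat_lit 5) (nat_lit 211) (nat_lit 5) (nat_lit 205) (nat_lit 5) (nat_lit 601) (nat_lit 519) (nat_lit 440)) (XT.nd (nat_lit 78) (nat_lit 456) (nat_lit 0) (XT.lf (nat_lit 0) (nat_lit 4116660634) (nat_lit 532) (nat_lit 1696407737) (nat_lit 76) (nat_lit 5053092280) (nat_lit 204) (nat_lit 5) (nat_lit 211) (nat_lit 5) (nat_lit 205) (nat_lit 5) (nat_lit 602) (nat_lit 519) (nat_lit 439)) (XT.lf (nat_lit 0) (nat_lit 5771928939) (nat_lit 456) (nat_lit 1659196276) (nat_lit 532) (nat_lit 3552169144) (nat_lit 198) (nat_lit 5) (nat_lit 204) (nat_lit 5) (nat_lit 205) (nat_lit 5) (nat_lit 603) (nat_lit 519)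 (nat_lit 438))))) (XT.nd (nat_lit 156) (nat_lit 912) (nat_lit 0) (XT.nd (nat_lit 78) (nat_lit 76) (nat_lit 0) (XT.lf (nat_lit 0) (nat_lit 2280565544) (nat_lit 456) (nat_lit 8545388686) (nat_lit 532) (nat_lit 276536708) (nat_lit 192) (nat_lit 5) (nat_lit 198) (nat_lit 5) (nat_lit 199) (nat_lit 5) (nat_lit 604) (nat_lit 519) (nat_lit 437)) (XT.lf (nat_lit 0) (nat_lit 3041779723) (nat_lit 532) (nat_lit 1304234083) (nat_lit 76) (nat_lit 6877314040) (nat_lit 191) (nat_lit 5) (nat_lit 198) (nat_lit 5) (nat_lit 192) (nat_lit 5) (nat_lit 605) (nat_lit 519) (nat_lit 436))) (XT.nd (nat_lit 78) (nat_lit 532) (nat_lit 0) (XT.lf (nat_lit 0) (nat_lit 6404086616) (nat_lit 380) (nat_lit 31994886) (nat_lit 456) (nat_lit 4910198598) (nat_lit 186) (nat_lit 5) (nat_lit 191) (nat_lit 5) (nat_lit 192) (nat_lit 5) (nat_lit 606) (nat_lit 519) (nat_lit 435)) (XT.nd (nat_lit 78) (nat_lit 76) (nat_lit 0) (XT.lf (nat_lit 0) (nat_lit 2778678710) (nat_lit 456) (nat_lit 7146737915) (nat_lit 532) (nat_lit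 1545733398) (nat_lit 180) (nat_lit 5) (nat_lit 186) (nat_lit 5) (nat_lit 187) (nat_lit 5) (nat_lit 607) (nat_lit 519) (nat_lit 434)) (XT.lf (nat_lit 0) (nat_lit 1866909486) (nat_lit 532) (nat_lit 931747065) (nat_lit 76) (nat_lit 8799504920) (nat_lit 179) (nat_lit 5) (nat_lit 186) (nat_lit 5) (nat_lit 180) (nat_lit 5) (nat_lit 608) (nat_lit 519) (nat_lit 433)))))) (XT.nd (nat_lit 390) (nat_lit 1216) (nat_lit 0) (XT.nd (nat_lit 156) (nat_lit 836) (nat_lit 0) (XT.nd (nat_lit 78) (nat_lit 380) (nat_lit 0) (XT.lf (nat_lit 0) (nat_lit 5356216498) (nat_lit 456) (nat_lit 4713314693) (nat_lit 76) (nat_lit 1657396916) (nat_lit 174) (nat_lit 5) (nat_lit 180) (nat_lit 5) (nat_lit 175) (nat_lit 5) (nat_lit 609) (nat_lit 519) (nat_lit 432)) (XT.lf (nat_lit 0) (nat_lit 3254947494) (nat_lit 380) (nat_lit 5679080232) (nat_lit 456) (nat_lit 2923869440) (nat_lit 169) (nat_lit 5) (nat_lit 174) (nat_lit 5) (nat_lit 175) (nat_lit 5) (nat_lit 610) (nat_lit 519) (nat_lit 431))) (XT.nd (nat_lit 78)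 (nat_lit 760) (nat_lit 0) (XT.lf (nat_lit 0) (nat_lit 588827824) (nat_lit 456) (nat_lit 590061799) (nat_lit 76) (nat_lit 10812426891) (nat_lit 168) (nat_lit 5) (nat_lit 174) (nat_lit 5) (nat_lit 169) (nat_lit 5) (nat_lit 611) (nat_lit 519) (nat_lit 430)) (XT.nd (nat_lit 78) (nat_lit 380) (nat_lit 0) (XT.lf (nat_lit 0) (nat_lit 4178045726) (nat_lit 456) (nat_lit 4526182603) (nat_lit 76) (nat_lit 3421882405) (nat_lit 163) (nat_lit 5) (nat_lit 169) (nat_lit 5) (nat_lit 164) (nat_lit 5) (nat_lit 612) (nat_lit 519) (nat_lit 429)) (XT.lf (nat_lit 0) (nat_lit 3697886194) (nat_lit 380) (nat_lit 4150506295) (nat_lit 456) (nat_lit 4415022800) (nat_lit 158) (nat_lit 5) (nat_lit 163) (nat_lit 5) (nat_lit 164) (nat_lit 5) (nat_lit 613) (nat_lit 519) (nat_lit 428))))) (XT.nd (nat_lit 156) (nat_lit 760) (nat_lit 0) (XT.nd (nat_lit 78) (nat_lit 456) (nat_lit 0) (XT.lf (nat_lit 0) (nat_lit 11599632323) (nat_lit 456) (nat_lit 299614049) (nat_lit 76) (nat_lit 504071153) (nat_lit 158) (nat_lit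 5) (nat_lit 164) (nat_lit 5) (nat_lit 159) (nat_lit 5) (nat_lit 614) (nat_lit 519) (nat_lit 427)) (XT.lf (nat_lit 0) (nat_lit 2897226801) (nat_lit 456) (nat_lit 4393017023) (nat_lit 76) (nat_lit 5254298928) (nat_lit 152) (nat_lit 5) (nat_lit 158) (nat_lit 5) (nat_lit 153) (nat_lit 5) (nat_lit 615) (nat_lit 519) (nat_lit 426))) (XT.nd (nat_lit 78) (nat_lit 380) (nat_lit 0) (XT.lf (nat_lit 0) (nat_lit 4095164353) (nat_lit 380) (nat_lit 2569147155) (nat_lit 456) (nat_lit 6024117651) (nat_lit 147) (nat_lit 5) (nat_lit 152) (nat_lit 5) (nat_lit 153) (nat_lit 5) (nat_lit 616) (nat_lit 519) (nat_lit 425)) (XT.nd (nat_lit 78) (nat_lit 380) (nat_lit 0) (XT.lf (nat_lit 0) (nat_lit 10525439011) (nat_lit 456) (nat_lit 77281472) (nat_lit 76) (nat_lit 2232100002) (nat_lit 147) (nat_lit 5) (nat_lit 153) (nat_lit 5) (nat_lit 148) (nat_lit 5) (nat_lit 617) (nat_lit 519) (nat_lit 424)) (XT.lf (nat_lit 0) (nat_lit 1508783364) (nat_lit 380) (nat_lit 4327200692) (nat_lit 76) (nat_lit 7146993815)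 (nat_lit 142) (nat_lit 5) (nat_lit 147) (nat_lit 5) (nat_lit 143) (nat_lit 5) (nat_lit 618) (nat_lit 519) (nat_lit 423))))))) (XT.nd (nat_lit 73944) (nat_lit 0) (nat_lit 45828) (XT.nd (nat_lit 73554) (nat_lit 0) (nat_lit 48716) (XT.nd (nat_lit 156) (nat_lit 380) (nat_lit 0) (XT.nd (nat_lit 78) (nat_lit 304) (nat_lit 0) (XT.lf (nat_lit 0) (nat_lit 4433473086) (nat_lit 380) (nat_lit 943263744) (nat_lit 456) (nat_lit 7756970459) (nat_lit 137) (nat_lit 5) (nat_lit 142) (nat_lit 5) (nat_lit 143) (nat_lit 5) (nat_lit 619) (nat_lit 519) (nat_lit 422)) (XT.lf (nat_lit 0) (nat_lit 75698936) (nat_lit 304) (nat_lit 9277498664) (nat_lit 380) (nat_lit 3933631853) (nat_lit 133) (nat_lit 5) (nat_lit 137) (nat_lit 5) (nat_lit 138) (nat_lit 5) (nat_lit 620) (nat_lit 519) (nat_lit 421))) (XT.nd (nat_lit 78) (nat_lit 304) (nat_lit 0) (XT.lf (nat_lit 0) (nat_lit 6847891) (nat_lit 380) (nat_lit 4343212884) (nat_lit 76) (nat_lit 9092154139) (nat_lit 132) (nat_lit 5) (nat_lit 137) (nat_lit 5) (nat_lit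 133) (nat_lit 5) (nat_lit 621) (nat_lit 519) (nat_lit 420)) (XT.nd (nat_lit 73242) (nat_lit 0) (nat_lit 49172) (XT.lf (nat_lit 0) (nat_lit 3984386306) (nat_lit 380) (nat_lit 8906349731) (nat_lit 76) (nat_lit 709234673) (nat_lit 128) (nat_lit 5) (nat_lit 133) (nat_lit 5) (nat_lit 129) (nat_lit 5) (nat_lit 622) (nat_lit 519) (nat_lit 419)) (XT.lf (nat_lit 0) (nat_lit 1073741823) (nat_lit 0) (nat_lit 0) (nat_lit 0) (nat_lit 0) (nat_lit 775) (nat_lit 0) (nat_lit 1) (nat_lit 0) (nat_lit 1) (nat_lit 0) (nat_lit 520) (nat_lit 520) (nat_lit 520))))) (XT.nd (nat_lit 156) (nat_lit 304) (nat_lit 0) (XT.nd (nat_lit 78) (nat_lit 76) (nat_lit 0) (XT.lf (nat_lit 0) (nat_lit 3171508339) (nat_lit 76) (nat_lit 3229497977) (nat_lit 0) (nat_lit 41866728) (nat_lit 774) (nat_lit 5) (nat_lit 775) (nat_lit 0) (nat_lit 774) (nat_lit 4) (nat_lit 521) (nat_lit 520) (nat_lit 519)) (XT.lf (nat_lit 0) (nat_lit 4229530) (nat_lit 76) (nat_lit 6319332234) (nat_lit 76) (nat_lit 121414535) (nat_lit 773) (nat_lit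 4) (nat_lit 774) (nat_lit 5) (nat_lit 774) (nat_lit 4) (nat_lit 522) (nat_lit 520) (nat_lit 518))) (XT.nd (nat_lit 78) (nat_lit 228) (nat_lit 0) (XT.lf (nat_lit 0) (nat_lit 2990681415) (nat_lit 152) (nat_lit 3164855052) (nat_lit 76) (nat_lit 292404278) (nat_lit 772) (nat_lit 5) (nat_lit 774) (nat_lit 5) (nat_lit 773) (nat_lit 4) (nat_lit 523) (nat_lit 520) (nat_lit 517)) (XT.nd (nat_lit 78) (nat_lit 76) (nat_lit 0) (XT.lf (nat_lit 0) (nat_lit 134018566) (nat_lit 152) (nat_lit 5949734535) (nat_lit 228) (nat_lit 368802279) (nat_lit 770) (nat_lit 5) (nat_lit 772) (nat_lit 5) (nat_lit 773) (nat_lit 4) (nat_lit 524) (nat_lit 520) (nat_lit 516)) (XT.lf (nat_lit 0) (nat_lit 2686571310) (nat_lit 228) (nat_lit 2977543836) (nat_lit 76) (nat_lit 793967056) (nat_lit 769) (nat_lit 5) (nat_lit 772) (nat_lit 5) (nat_lit 770) (nat_lit 5) (nat_lit 525) (nat_lit 520) (nat_lit 515)))))) (XT.nd (nat_lit 390) (nat_lit 1824) (nat_lit 0) (XT.nd (nat_lit 156) (nat_lit 760) (nat_lit 0) (XT.nd (nat_lit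 78) (nat_lit 76) (nat_lit 0) (XT.lf (nat_lit 0) (nat_lit 389526601) (nat_lit 228) (nat_lit 5332932741) (nat_lit 304) (nat_lit 742737887) (nat_lit 766) (nat_lit 5) (nat_lit 769) (nat_lit 5) (nat_lit 770) (nat_lit 5) (nat_lit 526) (nat_lit 520) (nat_lit 514)) (XT.lf (nat_lit 0) (nat_lit 2258489842) (nat_lit 304) (nat_lit 2667288488) (nat_lit 76) (nat_lit 1547531213) (nat_lit 765) (nat_lit 5) (nat_lit 769) (nat_lit 5) (nat_lit 766) (nat_lit 5) (nat_lit 527) (nat_lit 520) (nat_lit 513))) (XT.nd (nat_lit 78) (nat_lit 456) (nat_lit 0) (XT.lf (nat_lit 0) (nat_lit 771157038) (nat_lit 304) (nat_lit 4467717039) (nat_lit 380) (nat_lit 1244042851) (nat_lit 761) (nat_lit 5) (nat_lit 765) (nat_lit 5) (nat_lit 766) (nat_lit 5) (nat_lit 528) (nat_lit 520) (nat_lit 512)) (XT.nd (nat_lit 78) (nat_lit 380) (nat_lit 0) (XT.lf (nat_lit 0) (nat_lit 1705505035) (nat_lit 380) (nat_lit 2233572997) (nat_lit 76) (nat_lit 2554562941) (nat_lit 760) (nat_lit 5) (nat_lit 765) (nat_lit 5) (nat_lit 761) (nat_lit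 5) (nat_lit 529) (nat_lit 520) (nat_lit 511)) (XT.lf (nat_lit 0) (nat_lit 1279557444) (nat_lit 380) (nat_lit 3352390954) (nat_lit 456) (nat_lit 1873787228) (nat_lit 755) (nat_lit 5) (nat_lit 760) (nat_lit 5) (nat_lit 761) (nat_lit 5) (nat_lit 530) (nat_lit 520) (nat_lit 510))))) (XT.nd (nat_lit 234) (nat_lit 1216) (nat_lit 0) (XT.nd (nat_lit 78) (nat_lit 532) (nat_lit 0) (XT.lf (nat_lit 0) (nat_lit 1026439213) (nat_lit 456) (nat_lit 1675640748) (nat_lit 76) (nat_lit 3817020849) (nat_lit 754) (nat_lit 5) (nat_lit 760) (nat_lit 5) (nat_lit 755) (nat_lit 5) (nat_lit 531) (nat_lit 520) (nat_lit 509)) (XT.nd (nat_lit 78) (nat_lit 76) (nat_lit 0) (XT.lf (nat_lit 0) (nat_lit 1915620189) (nat_lit 456) (nat_lit 1984768601) (nat_lit 532) (nat_lit 2633291775) (nat_lit 748) (nat_lit 5) (nat_lit 754) (nat_lit 5) (nat_lit 755) (nat_lit 5) (nat_lit 532) (nat_lit 520) (nat_lit 508)) (XT.lf (nat_lit 0) (nat_lit 219866697) (nat_lit 532) (nat_lit 992493704) (nat_lit 76) (nat_lit 5337359125)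 (nat_lit 747) (nat_lit 5) (nat_lit 754) (nat_lit 5) (nat_lit 748) (nat_lit 5) (nat_lit 533) (nat_lit 520) (nat_lit 507)))) (XT.nd (nat_lit 78) (nat_lit 684) (nat_lit 0) (XT.lf (nat_lit 0) (nat_lit 2680483483) (nat_lit 532) (nat_lit 362171157) (nat_lit 608) (nat_lit 3524130492) (nat_lit 740) (nat_lit 5) (nat_lit 747) (nat_lit 5) (nat_lit 748) (nat_lit 5) (nat_lit 534) (nat_lit 520) (nat_lit 506)) (XT.nd (nat_lit 78) (nat_lit 684) (nat_lit 0) (XT.lf (nat_lit 0) (nat_lit 5863528647) (nat_lit 608) (nat_lit 191092754) (nat_lit 76) (nat_lit 530748346) (nat_lit 740) (nat_lit 5) (nat_lit 748) (nat_lit 5) (nat_lit 741) (nat_lit 5) (nat_lit 535) (nat_lit 520) (nat_lit 505)) (XT.lf (nat_lit 0) (nat_lit 2066814927) (nat_lit 684) (nat_lit 3039415714) (nat_lit 76) (nat_lit 1498661061) (nat_lit 731) (nat_lit 5) (nat_lit 740) (nat_lit 5) (nat_lit 732) (nat_lit 5) (nat_lit 536) (nat_lit 520) (nat_lit 504))))))))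
noncomputable def xc69 : XT := (XT.nd (nat_lit 1560) (nat_lit 15808) (nat_lit 0) (XT.nd (nat_lit 780) (nat_lit 8208) (nat_lit 0) (XT.nd (nat_lit 390) (nat_lit 3116) (nat_lit 0) (XT.nd (nat_lit 156) (nat_lit 1672) (nat_lit 0) (XT.nd (nat_lit 78) (nat_lit 76) (nat_lit 0) (XT.lf (nat_lit 0) (nat_lit 736023864) (nat_lit 684) (nat_lit 4105209227) (nat_lit 760) (nat_lit 1784692195) (nat_lit 722) (nat_lit 5) (nat_lit 731) (nat_lit 5) (nat_lit 732) (nat_lit 5) (nat_lit 537) (nat_lit 520) (nat_lit 503)) (XT.lf (nat_lit 0) (nat_lit 965017493) (nat_lit 760) (nat_lit 2070005665) (nat_lit 76) (nat_lit 3613139094) (nat_lit 721) (nat_lit 5) (nat_lit 731) (nat_lit 5) (nat_lit 722) (nat_lit 5) (nat_lit 538) (nat_lit 520) (nat_lit 502))) (XT.nd (nat_lit 78) (nat_lit 912) (nat_lit 0) (XT.lf (nat_lit 0) (nat_lit 1794450100) (nat_lit 760) (nat_lit 1898491523) (nat_lit 836) (nat_lit 2978733201) (nat_lit 711) (nat_lit 5) (nat_lit 721) (nat_lit 5) (nat_lit 722) (nat_lit 5) (nat_lit 539) (nat_lit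 520) (nat_lit 501)) (XT.nd (nat_lit 78) (nat_lit 912) (nat_lit 0) (XT.lf (nat_lit 0) (nat_lit 5720987700) (nat_lit 760) (nat_lit 704756426) (nat_lit 836) (nat_lit 270916094) (nat_lit 711) (nat_lit 5) (nat_lit 721) (nat_lit 5) (nat_lit 722) (nat_lit 5) (nat_lit 540) (nat_lit 520) (nat_lit 500)) (XT.lf (nat_lit 0) (nat_lit 2418704063) (nat_lit 912) (nat_lit 3742782849) (nat_lit 76) (nat_lit 561137213) (nat_lit 699) (nat_lit 5) (nat_lit 711) (nat_lit 5) (nat_lit 700) (nat_lit 5) (nat_lit 541) (nat_lit 520) (nat_lit 499))))) (XT.nd (nat_lit 156) (nat_lit 2128) (nat_lit 0) (XT.nd (nat_lit 78) (nat_lit 76) (nat_lit 0) (XT.lf (nat_lit 0) (nat_lit 230895167) (nat_lit 912) (nat_lit 4878681893) (nat_lit 988) (nat_lit 1640481126) (nat_lit 687) (nat_lit 5) (nat_lit 699) (nat_lit 5) (nat_lit 700) (nat_lit 5) (nat_lit 542) (nat_lit 520) (nat_lit 498)) (XT.lf (nat_lit 0) (nat_lit 1026234410) (nat_lit 988) (nat_lit 2494783322) (nat_lit 76) (nat_lit 3257609114) (nat_lit 686) (nat_lit 5) (nat_lit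 699) (nat_lit 5) (nat_lit 687) (nat_lit 5) (nat_lit 543) (nat_lit 520) (nat_lit 497))) (XT.nd (nat_lit 78) (nat_lit 1140) (nat_lit 0) (XT.lf (nat_lit 0) (nat_lit 1575895899) (nat_lit 988) (nat_lit 2098714174) (nat_lit 1064) (nat_lit 3133942063) (nat_lit 673) (nat_lit 5) (nat_lit 686) (nat_lit 5) (nat_lit 687) (nat_lit 5) (nat_lit 544) (nat_lit 520) (nat_lit 496)) (XT.nd (nat_lit 78) (nat_lit 1140) (nat_lit 0) (XT.lf (nat_lit 0) (nat_lit 5718103458) (nat_lit 988) (nat_lit 615522611) (nat_lit 1064) (nat_lit 506304214) (nat_lit 673) (nat_lit 5) (nat_lit 686) (nat_lit 5) (nat_lit 687) (nat_lit 5) (nat_lit 545) (nat_lit 520) (nat_lit 495)) (XT.lf (nat_lit 0) (nat_lit 2113045749) (nat_lit 1140) (nat_lit 3825052541) (nat_lit 76) (nat_lit 934209518) (nat_lit 658) (nat_lit 5) (nat_lit 673) (nat_lit 5) (nat_lit 659) (nat_lit 5) (nat_lit 546) (nat_lit 520) (nat_lit 494)))))) (XT.nd (nat_lit 390) (nat_lit 4408) (nat_lit 0) (XT.nd (nat_lit 156) (nat_lit 2584) (nat_lit 0) (XT.nd (nat_lit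 78) (nat_lit 76) (nat_lit 0) (XT.lf (nat_lit 0) (nat_lit 362428748) (nat_lit 1140) (nat_lit 4372240179) (nat_lit 1216) (nat_lit 2171471068) (nat_lit 643) (nat_lit 5) (nat_lit 658) (nat_lit 5) (nat_lit 659) (nat_lit 5) (nat_lit 547) (nat_lit 520) (nat_lit 493)) (XT.lf (nat_lit 0) (nat_lit 430882410) (nat_lit 1216) (nat_lit 2302893786) (nat_lit 76) (nat_lit 4207440010) (nat_lit 642) (nat_lit 5) (nat_lit 658) (nat_lit 5) (nat_lit 643) (nat_lit 5) (nat_lit 548) (nat_lit 520) (nat_lit 492))) (XT.nd (nat_lit 78) (nat_lit 1368) (nat_lit 0) (XT.lf (nat_lit 0) (nat_lit 1990287363) (nat_lit 1216) (nat_lit 1023092044) (nat_lit 1292) (nat_lit 3964190950) (nat_lit 626) (nat_lit 5) (nat_lit 642) (nat_lit 5) (nat_lit 643) (nat_lit 5) (nat_lit 549) (nat_lit 520) (nat_lit 491)) (XT.nd (nat_lit 78) (nat_lit 1368) (nat_lit 0) (XT.lf (nat_lit 0) (nat_lit 5612872465) (nat_lit 1292) (nat_lit 663645371) (nat_lit 76) (nat_lit 738833632) (nat_lit 626) (nat_lit 5) (nat_lit 643) (nat_lit 5) (nat_lit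 627) (nat_lit 5) (nat_lit 550) (nat_lit 520) (nat_lit 490)) (XT.lf (nat_lit 0) (nat_lit 1171702684) (nat_lit 1368) (nat_lit 3317436078) (nat_lit 76) (nat_lit 2565056569) (nat_lit 608) (nat_lit 5) (nat_lit 626) (nat_lit 5) (nat_lit 609) (nat_lit 5) (nat_lit 551) (nat_lit 520) (nat_lit 489))))) (XT.nd (nat_lit 156) (nat_lit 3040) (nat_lit 0) (XT.nd (nat_lit 78) (nat_lit 0) (nat_lit 0) (XT.lf (nat_lit 0) (nat_lit 1100958220) (nat_lit 1368) (nat_lit 2635871874) (nat_lit 1444) (nat_lit 3357642151) (nat_lit 590) (nat_lit 5) (nat_lit 608) (nat_lit 5) (nat_lit 609) (nat_lit 5) (nat_lit 552) (nat_lit 520) (nat_lit 488)) (XT.lf (nat_lit 0) (nat_lit 5608378108) (nat_lit 1368) (nat_lit 714495866) (nat_lit 1444) (nat_lit 813294723) (nat_lit 590) (nat_lit 5) (nat_lit 608) (nat_lit 5) (nat_lit 609) (nat_lit 5) (nat_lit 553) (nat_lit 520) (nat_lit 487))) (XT.nd (nat_lit 78) (nat_lit 1520) (nat_lit 0) (XT.lf (nat_lit 0) (nat_lit 1734497634) (nat_lit 1520) (nat_lit 4176435061) (nat_lit 76)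 (nat_lit 1268022462) (nat_lit 570) (nat_lit 5) (nat_lit 590) (nat_lit 5) (nat_lit 571) (nat_lit 5) (nat_lit 554) (nat_lit 520) (nat_lit 486)) (XT.nd (nat_lit 78) (nat_lit 0) (nat_lit 0) (XT.lf (nat_lit 0) (nat_lit 371514249) (nat_lit 1520) (nat_lit 3917134513) (nat_lit 1596) (nat_lit 2934521125) (nat_lit 550) (nat_lit 5) (nat_lit 570) (nat_lit 5) (nat_lit 571) (nat_lit 5) (nat_lit 555) (nat_lit 520) (nat_lit 485)) (XT.lf (nat_lit 0) (nat_lit 5022403982) (nat_lit 1520) (nat_lit 1849037495) (nat_lit 1596) (nat_lit 397282064) (nat_lit 550) (nat_lit 5) (nat_lit 570) (nat_lit 5) (nat_lit 571) (nat_lit 5) (nat_lit 556) (nat_lit 520) (nat_lit 484))))))) (XT.nd (nat_lit 780) (nat_lit 5776) (nat_lit 0) (XT.nd (nat_lit 390) (nat_lit 4864) (nat_lit 0) (XT.nd (nat_lit 156) (nat_lit 3496) (nat_lit 0) (XT.nd (nat_lit 78) (nat_lit 0) (nat_lit 0) (XT.lf (nat_lit 0) (nat_lit 2129823310) (nat_lit 1672) (nat_lit 4893244207) (nat_lit 76) (nat_lit 292484801) (nat_lit 528) (nat_lit 5) (nat_lit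 550) (nat_lit 5) (nat_lit 529) (nat_lit 5) (nat_lit 557) (nat_lit 520) (nat_lit 483)) (XT.lf (nat_lit 0) (nat_lit 4680486574) (nat_lit 1672) (nat_lit 208386201) (nat_lit 76) (nat_lit 2474831133) (nat_lit 528) (nat_lit 5) (nat_lit 550) (nat_lit 5) (nat_lit 529) (nat_lit 5) (nat_lit 558) (nat_lit 520) (nat_lit 482))) (XT.nd (nat_lit 78) (nat_lit 1824) (nat_lit 0) (XT.lf (nat_lit 0) (nat_lit 4586049471) (nat_lit 1672) (nat_lit 2677763151) (nat_lit 1748) (nat_lit 149378276) (nat_lit 506) (nat_lit 5) (nat_lit 528) (nat_lit 5) (nat_lit 529) (nat_lit 5) (nat_lit 559) (nat_lit 520) (nat_lit 481)) (XT.nd (nat_lit 78) (nat_lit 0) (nat_lit 0) (XT.lf (nat_lit 0) (nat_lit 1981106346) (nat_lit 1748) (nat_lit 388576680) (nat_lit 1824) (nat_lit 5094343890) (nat_lit 482) (nat_lit 5) (nat_lit 505) (nat_lit 5) (nat_lit 506) (nat_lit 5) (nat_lit 560) (nat_lit 520) (nat_lit 480)) (XT.lf (nat_lit 0) (nat_lit 4921741742) (nat_lit 1824) (nat_lit 650698614) (nat_lit 76) (nat_lit 1943732275) (nat_lit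 482) (nat_lit 5) (nat_lit 506) (nat_lit 5) (nat_lit 483) (nat_lit 5) (nat_lit 561) (nat_lit 520) (nat_lit 479))))) (XT.nd (nat_lit 156) (nat_lit 1900) (nat_lit 0) (XT.nd (nat_lit 78) (nat_lit 1140) (nat_lit 0) (XT.lf (nat_lit 0) (nat_lit 4287424835) (nat_lit 1824) (nat_lit 3221630845) (nat_lit 1900) (nat_lit 60626251) (nat_lit 458) (nat_lit 5) (nat_lit 482) (nat_lit 5) (nat_lit 483) (nat_lit 5) (nat_lit 562) (nat_lit 520) (nat_lit 478)) (XT.lf (nat_lit 0) (nat_lit 1669717896) (nat_lit 1064) (nat_lit 790388834) (nat_lit 1140) (nat_lit 5164444654) (nat_lit 443) (nat_lit 5) (nat_lit 457) (nat_lit 5) (nat_lit 458) (nat_lit 5) (nat_lit 563) (nat_lit 520) (nat_lit 477))) (XT.nd (nat_lit 78) (nat_lit 1900) (nat_lit 0) (XT.lf (nat_lit 0) (nat_lit 5018317484) (nat_lit 1140) (nat_lit 971713760) (nat_lit 76) (nat_lit 1690726135) (nat_lit 443) (nat_lit 5) (nat_lit 458) (nat_lit 5) (nat_lit 444) (nat_lit 5) (nat_lit 564) (nat_lit 520) (nat_lit 476)) (XT.nd (nat_lit 78) (nat_lit 988) (nat_lit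 0) (XT.lf (nat_lit 0) (nat_lit 4115352967) (nat_lit 912) (nat_lit 3499914420) (nat_lit 988) (nat_lit 123073186) (nat_lit 431) (nat_lit 5) (nat_lit 443) (nat_lit 5) (nat_lit 444) (nat_lit 5) (nat_lit 565) (nat_lit 520) (nat_lit 475)) (XT.lf (nat_lit 0) (nat_lit 1478971222) (nat_lit 912) (nat_lit 927829736) (nat_lit 988) (nat_lit 5390516983) (nat_lit 418) (nat_lit 5) (nat_lit 430) (nat_lit 5) (nat_lit 431) (nat_lit 5) (nat_lit 566) (nat_lit 520) (nat_lit 474)))))) (XT.nd (nat_lit 390) (nat_lit 3192) (nat_lit 0) (XT.nd (nat_lit 156) (nat_lit 1748) (nat_lit 0) (XT.nd (nat_lit 78) (nat_lit 836) (nat_lit 0) (XT.lf (nat_lit 0) (nat_lit 4977588608) (nat_lit 988) (nat_lit 1182221020) (nat_lit 76) (nat_lit 1697813989) (nat_lit 418) (nat_lit 5) (nat_lit 431) (nat_lit 5) (nat_lit 419) (nat_lit 5) (nat_lit 567) (nat_lit 520) (nat_lit 473)) (XT.lf (nat_lit 0) (nat_lit 4059283072) (nat_lit 836) (nat_lit 3530342088) (nat_lit 912) (nat_lit 329717811) (nat_lit 407) (nat_lit 5) (nat_lit 418)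 (nat_lit 5) (nat_lit 419) (nat_lit 5) (nat_lit 568) (nat_lit 520) (nat_lit 472))) (XT.nd (nat_lit 78) (nat_lit 836) (nat_lit 0) (XT.lf (nat_lit 0) (nat_lit 1398329591) (nat_lit 836) (nat_lit 818148369) (nat_lit 912) (nat_lit 5766034544) (nat_lit 395) (nat_lit 5) (nat_lit 406) (nat_lit 5) (nat_lit 407) (nat_lit 5) (nat_lit 569) (nat_lit 520) (nat_lit 471)) (XT.nd (nat_lit 78) (nat_lit 836) (nat_lit 0) (XT.lf (nat_lit 0) (nat_lit 4806037359) (nat_lit 912) (nat_lit 1292464346) (nat_lit 76) (nat_lit 1948467024) (nat_lit 395) (nat_lit 5) (nat_lit 407) (nat_lit 5) (nat_lit 396) (nat_lit 5) (nat_lit 570) (nat_lit 520) (nat_lit 470)) (XT.lf (nat_lit 0) (nat_lit 4109207218) (nat_lit 836) (nat_lit 3329226022) (nat_lit 912) (nat_lit 674463836) (nat_lit 384) (nat_lit 5) (nat_lit 395) (nat_lit 5) (nat_lit 396) (nat_lit 5) (nat_lit 571) (nat_lit 520) (nat_lit 469))))) (XT.nd (nat_lit 234) (nat_lit 1520) (nat_lit 0) (XT.nd (nat_lit 78) (nat_lit 760) (nat_lit 0) (XT.lf (nat_lit 0) (nat_lit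 1417770458) (nat_lit 836) (nat_lit 477205127) (nat_lit 912) (nat_lit 6285377217) (nat_lit 372) (nat_lit 5) (nat_lit 383) (nat_lit 5) (nat_lit 384) (nat_lit 5) (nat_lit 572) (nat_lit 520) (nat_lit 468)) (XT.nd (nat_lit 78) (nat_lit 760) (nat_lit 0) (XT.lf (nat_lit 0) (nat_lit 4509295484) (nat_lit 912) (nat_lit 1312223381) (nat_lit 76) (nat_lit 2427502838) (nat_lit 372) (nat_lit 5) (nat_lit 384) (nat_lit 5) (nat_lit 373) (nat_lit 5) (nat_lit 573) (nat_lit 520) (nat_lit 467)) (XT.lf (nat_lit 0) (nat_lit 4255579139) (nat_lit 760) (nat_lit 2911583865) (nat_lit 836) (nat_lit 1152079360) (nat_lit 362) (nat_lit 5) (nat_lit 372) (nat_lit 5) (nat_lit 373) (nat_lit 5) (nat_lit 574) (nat_lit 520) (nat_lit 466)))) (XT.nd (nat_lit 78) (nat_lit 684) (nat_lit 0) (XT.lf (nat_lit 0) (nat_lit 1447817665) (nat_lit 836) (nat_lit 6863906034) (nat_lit 76) (nat_lit 79353999) (nat_lit 351) (nat_lit 5) (nat_lit 362) (nat_lit 5) (nat_lit 352) (nat_lit 5) (nat_lit 575) (nat_lit 520) (nat_lit 465)) (XT.nd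 (nat_lit 78) (nat_lit 684) (nat_lit 0) (XT.lf (nat_lit 0) (nat_lit 4092180605) (nat_lit 836) (nat_lit 1250892846) (nat_lit 76) (nat_lit 3120969495) (nat_lit 351) (nat_lit 5) (nat_lit 362) (nat_lit 5) (nat_lit 352) (nat_lit 5) (nat_lit 576) (nat_lit 520) (nat_lit 464)) (XT.lf (nat_lit 0) (nat_lit 4489234683) (nat_lit 684) (nat_lit 2291252988) (nat_lit 760) (nat_lit 1758162024) (nat_lit 342) (nat_lit 5) (nat_lit 351) (nat_lit 5) (nat_lit 352) (nat_lit 5) (nat_lit 577) (nat_lit 520) (nat_lit 463))))))))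
noncomputable def xc70 : XT := (XT.nd (nat_lit 1560) (nat_lit 6232) (nat_lit 0) (XT.nd (nat_lit 780) (nat_lit 4028) (nat_lit 0) (XT.nd (nat_lit 390) (nat_lit 2584) (nat_lit 0) (XT.nd (nat_lit 156) (nat_lit 1444) (nat_lit 0) (XT.nd (nat_lit 78) (nat_lit 0) (nat_lit 0) (XT.lf (nat_lit 0) (nat_lit 883098408) (nat_lit 836) (nat_lit 6901567177) (nat_lit 76) (nat_lit 830224470) (nat_lit 331) (nat_lit 5) (nat_lit 342) (nat_lit 5) (nat_lit 332) (nat_lit 5) (nat_lit 578) (nat_lit 520) (nat_lit 462)) (XT.lf (nat_lit 0) (nat_lit 3558727097) (nat_lit 836) (nat_lit 1117560789) (nat_lit 76) (nat_lit 4016036351) (nat_lit 331) (nat_lit 5) (nat_lit 342) (nat_lit 5) (nat_lit 332) (nat_lit 5) (nat_lit 579) (nat_lit 520) (nat_lit 461))) (XT.nd (nat_lit 78) (nat_lit 760) (nat_lit 0) (XT.lf (nat_lit 0) (nat_lit 4801313283) (nat_lit 684) (nat_lit 1480998293) (nat_lit 760) (nat_lit 2489109739) (nat_lit 322) (nat_lit 5) (nat_lit 331) (nat_lit 5) (nat_lit 332) (nat_lit 5) (nat_lit 580) (nat_lit 520)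 (nat_lit 460)) (XT.nd (nat_lit 78) (nat_lit 0) (nat_lit 0) (XT.lf (nat_lit 0) (nat_lit 201061394) (nat_lit 760) (nat_lit 6881661934) (nat_lit 76) (nat_lit 1769442415) (nat_lit 312) (nat_lit 5) (nat_lit 322) (nat_lit 5) (nat_lit 313) (nat_lit 5) (nat_lit 581) (nat_lit 520) (nat_lit 459)) (XT.lf (nat_lit 0) (nat_lit 2912211609) (nat_lit 760) (nat_lit 921086318) (nat_lit 76) (nat_lit 5100890876) (nat_lit 312) (nat_lit 5) (nat_lit 322) (nat_lit 5) (nat_lit 313) (nat_lit 5) (nat_lit 582) (nat_lit 520) (nat_lit 458))))) (XT.nd (nat_lit 156) (nat_lit 1292) (nat_lit 0) (XT.nd (nat_lit 78) (nat_lit 684) (nat_lit 0) (XT.lf (nat_lit 0) (nat_lit 5183179832) (nat_lit 608) (nat_lit 492614301) (nat_lit 684) (nat_lit 3342096848) (nat_lit 304) (nat_lit 5) (nat_lit 312) (nat_lit 5) (nat_lit 313) (nat_lit 5) (nat_lit 583) (nat_lit 520) (nat_lit 457)) (XT.lf (nat_lit 0) (nat_lit 2286025271) (nat_lit 684) (nat_lit 6213530617) (nat_lit 760) (nat_lit 603615953) (nat_lit 295) (nat_lit 5) (nat_lit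 304) (nat_lit 5) (nat_lit 305) (nat_lit 5) (nat_lit 584) (nat_lit 520) (nat_lit 456))) (XT.nd (nat_lit 78) (nat_lit 1216) (nat_lit 0) (XT.lf (nat_lit 0) (nat_lit 2155173348) (nat_lit 760) (nat_lit 670177439) (nat_lit 76) (nat_lit 6364640755) (nat_lit 294) (nat_lit 5) (nat_lit 304) (nat_lit 5) (nat_lit 295) (nat_lit 5) (nat_lit 585) (nat_lit 520) (nat_lit 455)) (XT.nd (nat_lit 78) (nat_lit 608) (nat_lit 0) (XT.lf (nat_lit 0) (nat_lit 4967673082) (nat_lit 684) (nat_lit 3656382384) (nat_lit 76) (nat_lit 654282659) (nat_lit 286) (nat_lit 5) (nat_lit 295) (nat_lit 5) (nat_lit 287) (nat_lit 5) (nat_lit 586) (nat_lit 520) (nat_lit 454)) (XT.lf (nat_lit 0) (nat_lit 2653196590) (nat_lit 608) (nat_lit 5189799286) (nat_lit 684) (nat_lit 1525326879) (nat_lit 278) (nat_lit 5) (nat_lit 286) (nat_lit 5) (nat_lit 287) (nat_lit 5) (nat_lit 587) (nat_lit 520) (nat_lit 453)))))) (XT.nd (nat_lit 390) (nat_lit 2128) (nat_lit 0) (XT.nd (nat_lit 156) (nat_lit 1216) (nat_lit 0) (XT.nd (nat_lit 78)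 (nat_lit 608) (nat_lit 0) (XT.lf (nat_lit 0) (nat_lit 1289429180) (nat_lit 684) (nat_lit 373469629) (nat_lit 76) (nat_lit 7797220553) (nat_lit 277) (nat_lit 5) (nat_lit 286) (nat_lit 5) (nat_lit 278) (nat_lit 5) (nat_lit 588) (nat_lit 520) (nat_lit 452)) (XT.lf (nat_lit 0) (nat_lit 4159582781) (nat_lit 684) (nat_lit 3443853223) (nat_lit 76) (nat_lit 1949726147) (nat_lit 269) (nat_lit 5) (nat_lit 278) (nat_lit 5) (nat_lit 270) (nat_lit 5) (nat_lit 589) (nat_lit 520) (nat_lit 451))) (XT.nd (nat_lit 78) (nat_lit 608) (nat_lit 0) (XT.lf (nat_lit 0) (nat_lit 3064823492) (nat_lit 608) (nat_lit 4022988188) (nat_lit 684) (nat_lit 2560243051) (nat_lit 261) (nat_lit 5) (nat_lit 269) (nat_lit 5) (nat_lit 270) (nat_lit 5) (nat_lit 590) (nat_lit 520) (nat_lit 450)) (XT.nd (nat_lit 78) (nat_lit 532) (nat_lit 0) (XT.lf (nat_lit 0) (nat_lit 316083585) (nat_lit 684) (nat_lit 39605810) (nat_lit 76) (nat_lit 9389302265) (nat_lit 260) (nat_lit 5) (nat_lit 269) (nat_lit 5) (nat_lit 261) (nat_lit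 5) (nat_lit 591) (nat_lit 520) (nat_lit 449)) (XT.lf (nat_lit 0) (nat_lit 3249280091) (nat_lit 608) (nat_lit 3202727322) (nat_lit 76) (nat_lit 3390851193) (nat_lit 253) (nat_lit 5) (nat_lit 261) (nat_lit 5) (nat_lit 254) (nat_lit 5) (nat_lit 592) (nat_lit 520) (nat_lit 448))))) (XT.nd (nat_lit 156) (nat_lit 1064) (nat_lit 0) (XT.nd (nat_lit 78) (nat_lit 532) (nat_lit 0) (XT.lf (nat_lit 0) (nat_lit 3512306434) (nat_lit 532) (nat_lit 2722571106) (nat_lit 608) (nat_lit 3707932811) (nat_lit 246) (nat_lit 5) (nat_lit 253) (nat_lit 5) (nat_lit 254) (nat_lit 5) (nat_lit 593) (nat_lit 520) (nat_lit 447)) (XT.lf (nat_lit 0) (nat_lit 314687616) (nat_lit 532) (nat_lit 8964781772) (nat_lit 608) (nat_lit 765308248) (nat_lit 239) (nat_lit 5) (nat_lit 246) (nat_lit 5) (nat_lit 247) (nat_lit 5) (nat_lit 594) (nat_lit 520) (nat_lit 446))) (XT.nd (nat_lit 78) (nat_lit 988) (nat_lit 0) (XT.lf (nat_lit 0) (nat_lit 2237023388) (nat_lit 608) (nat_lit 2941939874) (nat_lit 76) (nat_lit 4968929056)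 (nat_lit 238) (nat_lit 5) (nat_lit 246) (nat_lit 5) (nat_lit 239) (nat_lit 5) (nat_lit 595) (nat_lit 520) (nat_lit 445)) (XT.nd (nat_lit 78) (nat_lit 456) (nat_lit 0) (XT.lf (nat_lit 0) (nat_lit 3986905697) (nat_lit 532) (nat_lit 1297471371) (nat_lit 608) (nat_lit 4968688626) (nat_lit 231) (nat_lit 5) (nat_lit 238) (nat_lit 5) (nat_lit 239) (nat_lit 5) (nat_lit 596) (nat_lit 520) (nat_lit 444)) (XT.lf (nat_lit 0) (nat_lit 683265253) (nat_lit 456) (nat_lit 7720583275) (nat_lit 532) (nat_lit 1956272587) (nat_lit 225) (nat_lit 5) (nat_lit 231) (nat_lit 5) (nat_lit 232) (nat_lit 5) (nat_lit 597) (nat_lit 520) (nat_lit 443))))))) (XT.nd (nat_lit 780) (nat_lit 3268) (nat_lit 0) (XT.nd (nat_lit 390) (nat_lit 1368) (nat_lit 0) (XT.nd (nat_lit 156) (nat_lit 988) (nat_lit 0) (XT.nd (nat_lit 78) (nat_lit 532) (nat_lit 0) (XT.lf (nat_lit 0) (nat_lit 1122371719) (nat_lit 532) (nat_lit 2670645435) (nat_lit 76) (nat_lit 6675745004) (nat_lit 224) (nat_lit 5) (nat_lit 231) (nat_lit 5) (nat_lit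 225) (nat_lit 5) (nat_lit 598) (nat_lit 520) (nat_lit 442)) (XT.lf (nat_lit 0) (nat_lit 4237382548) (nat_lit 608) (nat_lit 6101260486) (nat_lit 76) (nat_lit 240656484) (nat_lit 217) (nat_lit 5) (nat_lit 225) (nat_lit 5) (nat_lit 218) (nat_lit 5) (nat_lit 599) (nat_lit 520) (nat_lit 441))) (XT.nd (nat_lit 78) (nat_lit 532) (nat_lit 0) (XT.lf (nat_lit 0) (nat_lit 1060817354) (nat_lit 456) (nat_lit 6374452352) (nat_lit 532) (nat_lit 3256368236) (nat_lit 211) (nat_lit 5) (nat_lit 217) (nat_lit 5) (nat_lit 218) (nat_lit 5) (nat_lit 600) (nat_lit 520) (nat_lit 440)) (XT.nd (nat_lit 78) (nat_lit 532) (nat_lit 0) (XT.lf (nat_lit 0) (nat_lit 8407050949) (nat_lit 456) (nat_lit 2301842001) (nat_lit 532) (nat_lit 97096421) (nat_lit 211) (nat_lit 5) (nat_lit 217) (nat_lit 5) (nat_lit 218) (nat_lit 5) (nat_lit 601) (nat_lit 520) (nat_lit 439)) (XT.lf (nat_lit 0) (nat_lit 3100222050) (nat_lit 532) (nat_lit 5953180533) (nat_lit 76) (nat_lit 1868504123) (nat_lit 204) (nat_lit 5) (nat_lit 211)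 (nat_lit 5) (nat_lit 205) (nat_lit 5) (nat_lit 602) (nat_lit 520) (nat_lit 438))))) (XT.nd (nat_lit 156) (nat_lit 912) (nat_lit 0) (XT.nd (nat_lit 78) (nat_lit 0) (nat_lit 0) (XT.lf (nat_lit 0) (nat_lit 1437731977) (nat_lit 456) (nat_lit 4934671739) (nat_lit 532) (nat_lit 4667483198) (nat_lit 198) (nat_lit 5) (nat_lit 204) (nat_lit 5) (nat_lit 205) (nat_lit 5) (nat_lit 603) (nat_lit 520) (nat_lit 437)) (XT.lf (nat_lit 0) (nat_lit 9015860776) (nat_lit 456) (nat_lit 705841510) (nat_lit 532) (nat_lit 1438292640) (nat_lit 198) (nat_lit 5) (nat_lit 204) (nat_lit 5) (nat_lit 205) (nat_lit 5) (nat_lit 604) (nat_lit 520) (nat_lit 436))) (XT.nd (nat_lit 78) (nat_lit 380) (nat_lit 0) (XT.lf (nat_lit 0) (nat_lit 1862487384) (nat_lit 532) (nat_lit 5823729766) (nat_lit 76) (nat_lit 3595421796) (nat_lit 191) (nat_lit 5) (nat_lit 198) (nat_lit 5) (nat_lit 192) (nat_lit 5) (nat_lit 605) (nat_lit 520) (nat_lit 435)) (XT.nd (nat_lit 78) (nat_lit 0) (nat_lit 0) (XT.lf (nat_lit 0) (nat_lit 1803931062)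 (nat_lit 380) (nat_lit 3409274475) (nat_lit 456) (nat_lit 6192258112) (nat_lit 186) (nat_lit 5) (nat_lit 191) (nat_lit 5) (nat_lit 192) (nat_lit 5) (nat_lit 606) (nat_lit 520) (nat_lit 434)) (XT.lf (nat_lit 0) (nat_lit 8648950613) (nat_lit 456) (nat_lit 1915599368) (nat_lit 76) (nat_lit 966856154) (nat_lit 186) (nat_lit 5) (nat_lit 192) (nat_lit 5) (nat_lit 187) (nat_lit 5) (nat_lit 607) (nat_lit 520) (nat_lit 433)))))) (XT.nd (nat_lit 390) (nat_lit 1520) (nat_lit 0) (XT.nd (nat_lit 156) (nat_lit 836) (nat_lit 0) (XT.nd (nat_lit 78) (nat_lit 380) (nat_lit 0) (XT.lf (nat_lit 0) (nat_lit 521456447) (nat_lit 532) (nat_lit 5723698700) (nat_lit 76) (nat_lit 5413961991) (nat_lit 179) (nat_lit 5) (nat_lit 186) (nat_lit 5) (nat_lit 180) (nat_lit 5) (nat_lit 608) (nat_lit 520) (nat_lit 432)) (XT.lf (nat_lit 0) (nat_lit 2148765512) (nat_lit 380) (nat_lit 1806126012) (nat_lit 456) (nat_lit 7834110408) (nat_lit 174) (nat_lit 5) (nat_lit 179) (nat_lit 5) (nat_lit 180) (nat_lit 5) (nat_lit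 609) (nat_lit 520) (nat_lit 431))) (XT.nd (nat_lit 78) (nat_lit 836) (nat_lit 0) (XT.lf (nat_lit 0) (nat_lit 7486620584) (nat_lit 456) (nat_lit 1723094296) (nat_lit 76) (nat_lit 2711178458) (nat_lit 174) (nat_lit 5) (nat_lit 180) (nat_lit 5) (nat_lit 175) (nat_lit 5) (nat_lit 610) (nat_lit 520) (nat_lit 430)) (XT.nd (nat_lit 78) (nat_lit 456) (nat_lit 0) (XT.lf (nat_lit 0) (nat_lit 6384240459) (nat_lit 380) (nat_lit 4731970205) (nat_lit 456) (nat_lit 938668774) (nat_lit 169) (nat_lit 5) (nat_lit 174) (nat_lit 5) (nat_lit 175) (nat_lit 5) (nat_lit 611) (nat_lit 520) (nat_lit 429)) (XT.lf (nat_lit 0) (nat_lit 2460903105) (nat_lit 380) (nat_lit 133007374) (nat_lit 456) (nat_lit 9597264721) (nat_lit 163) (nat_lit 5) (nat_lit 168) (nat_lit 5) (nat_lit 169) (nat_lit 5) (nat_lit 612) (nat_lit 520) (nat_lit 428))))) (XT.nd (nat_lit 234) (nat_lit 684) (nat_lit 0) (XT.nd (nat_lit 78) (nat_lit 836) (nat_lit 0) (XT.lf (nat_lit 0) (nat_lit 6226543495) (nat_lit 456) (nat_lit 1573724340)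 (nat_lit 76) (nat_lit 4528966845) (nat_lit 163) (nat_lit 5) (nat_lit 169) (nat_lit 5) (nat_lit 164) (nat_lit 5) (nat_lit 613) (nat_lit 520) (nat_lit 427)) (XT.nd (nat_lit 78) (nat_lit 456) (nat_lit 0) (XT.lf (nat_lit 0) (nat_lit 6794806215) (nat_lit 380) (nat_lit 3156589880) (nat_lit 456) (nat_lit 2518269204) (nat_lit 158) (nat_lit 5) (nat_lit 163) (nat_lit 5) (nat_lit 164) (nat_lit 5) (nat_lit 614) (nat_lit 520) (nat_lit 426)) (XT.lf (nat_lit 0) (nat_lit 1136311484) (nat_lit 456) (nat_lit 9894893217) (nat_lit 76) (nat_lit 1581285450) (nat_lit 152) (nat_lit 5) (nat_lit 158) (nat_lit 5) (nat_lit 153) (nat_lit 5) (nat_lit 615) (nat_lit 520) (nat_lit 425)))) (XT.nd (nat_lit 78) (nat_lit 684) (nat_lit 0) (XT.lf (nat_lit 0) (nat_lit 4864331130) (nat_lit 456) (nat_lit 1480031466) (nat_lit 76) (nat_lit 6412795864) (nat_lit 152) (nat_lit 5) (nat_lit 158) (nat_lit 5) (nat_lit 153) (nat_lit 5) (nat_lit 616) (nat_lit 520) (nat_lit 424)) (XT.nd (nat_lit 78) (nat_lit 304) (nat_lit 0) (XT.lf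 (nat_lit 0) (nat_lit 7158171130) (nat_lit 380) (nat_lit 1530507196) (nat_lit 456) (nat_lit 4215607655) (nat_lit 147) (nat_lit 5) (nat_lit 152) (nat_lit 5) (nat_lit 153) (nat_lit 5) (nat_lit 617) (nat_lit 520) (nat_lit 423)) (XT.lf (nat_lit 0) (nat_lit 2912248043) (nat_lit 304) (nat_lit 9703546955) (nat_lit 380) (nat_lit 438036572) (nat_lit 143) (nat_lit 5) (nat_lit 147) (nat_lit 5) (nat_lit 148) (nat_lit 5) (nat_lit 618) (nat_lit 520) (nat_lit 422))))))))
noncomputable def xc71 : XT := (XT.nd (nat_lit 74802) (nat_lit 0) (nat_lit 30096) (XT.nd (nat_lit 74022) (nat_lit 0) (nat_lit 45524) (XT.nd (nat_lit 73632) (nat_lit 0) (nat_lit 48032) (XT.nd (nat_lit 156) (nat_lit 380) (nat_lit 0) (XT.nd (nat_lit 78) (nat_lit 380) (nat_lit 0) (XT.lf (nat_lit 0) (nat_lit 3394749014) (nat_lit 380) (nat_lit 1455543641) (nat_lit 76) (nat_lit 8355144025) (nat_lit 142) (nat_lit 5) (nat_lit 147) (nat_lit 5) (nat_lit 143) (nat_lit 5) (nat_lit 619) (nat_lit 520) (nat_lit 421)) (XT.lf (nat_lit 0) (nat_lit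 7323650574) (nat_lit 456) (nat_lit 5899543563) (nat_lit 76) (nat_lit 136316435) (nat_lit 137) (nat_lit 5) (nat_lit 143) (nat_lit 5) (nat_lit 138) (nat_lit 5) (nat_lit 620) (nat_lit 520) (nat_lit 420))) (XT.nd (nat_lit 78) (nat_lit 76) (nat_lit 0) (XT.lf (nat_lit 0) (nat_lit 3026132192) (nat_lit 304) (nat_lit 8342712745) (nat_lit 380) (nat_lit 2147067787) (nat_lit 133) (nat_lit 5) (nat_lit 137) (nat_lit 5) (nat_lit 138) (nat_lit 5) (nat_lit 621) (nat_lit 520) (nat_lit 419)) (XT.nd (nat_lit 73320) (nat_lit 0) (nat_lit 48792) (XT.lf (nat_lit 0) (nat_lit 1811665034) (nat_lit 380) (nat_lit 1514918082) (nat_lit 76) (nat_lit 10348304015) (nat_lit 132) (nat_lit 5) (nat_lit 137) (nat_lit 5) (nat_lit 133) (nat_lit 5) (nat_lit 622) (nat_lit 520) (nat_lit 418)) (XT.lf (nat_lit 0) (nat_lit 1575321576) (nat_lit 0) (nat_lit 1575321576) (nat_lit 76) (nat_lit 71425439) (nat_lit 774) (nat_lit 5) (nat_lit 774) (nat_lit 3) (nat_lit 775) (nat_lit 0) (nat_lit 521) (nat_lit 521) (nat_lit 518)))))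 (XT.nd (nat_lit 156) (nat_lit 532) (nat_lit 0) (XT.nd (nat_lit 78) (nat_lit 0) (nat_lit 0) (XT.lf (nat_lit 0) (nat_lit 2926431757) (nat_lit 228) (nat_lit 99524603) (nat_lit 228) (nat_lit 3420725317) (nat_lit 771) (nat_lit 3) (nat_lit 774) (nat_lit 3) (nat_lit 774) (nat_lit 5) (nat_lit 522) (nat_lit 521) (nat_lit 517)) (XT.lf (nat_lit 76) (nat_lit 3157732262) (nat_lit 0) (nat_lit 2837462668) (nat_lit 228) (nat_lit 455277237) (nat_lit 772) (nat_lit 5) (nat_lit 771) (nat_lit 3) (nat_lit 774) (nat_lit 5) (nat_lit 523) (nat_lit 521) (nat_lit 516))) (XT.nd (nat_lit 78) (nat_lit 304) (nat_lit 0) (XT.lf (nat_lit 0) (nat_lit 2556915831) (nat_lit 228) (nat_lit 32051112) (nat_lit 304) (nat_lit 3866619251) (nat_lit 768) (nat_lit 5) (nat_lit 771) (nat_lit 3) (nat_lit 772) (nat_lit 5) (nat_lit 524) (nat_lit 521) (nat_lit 515)) (XT.nd (nat_lit 78) (nat_lit 304) (nat_lit 0) (XT.lf (nat_lit 76) (nat_lit 3292982218) (nat_lit 0) (nat_lit 2273502680) (nat_lit 304) (nat_lit 895406178) (nat_lit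 769) (nat_lit 5) (nat_lit 768) (nat_lit 5) (nat_lit 772) (nat_lit 5) (nat_lit 525) (nat_lit 521) (nat_lit 514)) (XT.lf (nat_lit 76) (nat_lit 162878307) (nat_lit 0) (nat_lit 1900474355) (nat_lit 380) (nat_lit 4406223451) (nat_lit 765) (nat_lit 5) (nat_lit 764) (nat_lit 5) (nat_lit 769) (nat_lit 5) (nat_lit 526) (nat_lit 521) (nat_lit 513)))))) (XT.nd (nat_lit 390) (nat_lit 1748) (nat_lit 0) (XT.nd (nat_lit 156) (nat_lit 380) (nat_lit 0) (XT.nd (nat_lit 78) (nat_lit 380) (nat_lit 0) (XT.lf (nat_lit 76) (nat_lit 3556709282) (nat_lit 0) (nat_lit 1457661395) (nat_lit 380) (nat_lit 1464036891) (nat_lit 765) (nat_lit 5) (nat_lit 764) (nat_lit 5) (nat_lit 769) (nat_lit 5) (nat_lit 527) (nat_lit 521) (nat_lit 512)) (XT.lf (nat_lit 76) (nat_lit 485656177) (nat_lit 0) (nat_lit 959155471) (nat_lit 456) (nat_lit 5043856970) (nat_lit 760) (nat_lit 5) (nat_lit 759) (nat_lit 5) (nat_lit 765) (nat_lit 5) (nat_lit 528) (nat_lit 521) (nat_lit 511))) (XT.nd (nat_lit 78) (nat_lit 380) (nat_lit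 0) (XT.lf (nat_lit 76) (nat_lit 3949476904) (nat_lit 0) (nat_lit 388345333) (nat_lit 456) (nat_lit 2162219170) (nat_lit 760) (nat_lit 5) (nat_lit 759) (nat_lit 5) (nat_lit 765) (nat_lit 5) (nat_lit 529) (nat_lit 521) (nat_lit 510)) (XT.nd (nat_lit 78) (nat_lit 0) (nat_lit 0) (XT.lf (nat_lit 0) (nat_lit 701463677) (nat_lit 456) (nat_lit 5577886361) (nat_lit 76) (nat_lit 233510018) (nat_lit 754) (nat_lit 5) (nat_lit 760) (nat_lit 5) (nat_lit 755) (nat_lit 5) (nat_lit 530) (nat_lit 521) (nat_lit 509)) (XT.lf (nat_lit 0) (nat_lit 3541643621) (nat_lit 456) (nat_lit 2060802797) (nat_lit 76) (nat_lit 924250457) (nat_lit 754) (nat_lit 5) (nat_lit 760) (nat_lit 5) (nat_lit 755) (nat_lit 5) (nat_lit 531) (nat_lit 521) (nat_lit 508))))) (XT.nd (nat_lit 156) (nat_lit 1216) (nat_lit 0) (XT.nd (nat_lit 78) (nat_lit 76) (nat_lit 0) (XT.lf (nat_lit 0) (nat_lit 1504191593) (nat_lit 456) (nat_lit 4873954415) (nat_lit 532) (nat_lit 163884979) (nat_lit 748) (nat_lit 5) (nat_lit 754) (nat_lit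 5) (nat_lit 755) (nat_lit 5) (nat_lit 532) (nat_lit 521) (nat_lit 507)) (XT.lf (nat_lit 0) (nat_lit 2622426206) (nat_lit 532) (nat_lit 1449502195) (nat_lit 76) (nat_lit 2486515299) (nat_lit 747) (nat_lit 5) (nat_lit 754) (nat_lit 5) (nat_lit 748) (nat_lit 5) (nat_lit 533) (nat_lit 521) (nat_lit 506))) (XT.nd (nat_lit 78) (nat_lit 684) (nat_lit 0) (XT.lf (nat_lit 0) (nat_lit 2196344593) (nat_lit 532) (nat_lit 3211941329) (nat_lit 608) (nat_lit 1167967050) (nat_lit 740) (nat_lit 5) (nat_lit 747) (nat_lit 5) (nat_lit 748) (nat_lit 5) (nat_lit 534) (nat_lit 521) (nat_lit 505)) (XT.nd (nat_lit 78) (nat_lit 608) (nat_lit 0) (XT.lf (nat_lit 0) (nat_lit 1575891380) (nat_lit 608) (nat_lit 712889670) (nat_lit 76) (nat_lit 4306589148) (nat_lit 739) (nat_lit 5) (nat_lit 747) (nat_lit 5) (nat_lit 740) (nat_lit 5) (nat_lit 535) (nat_lit 521) (nat_lit 504)) (XT.lf (nat_lit 0) (nat_lit 3017535721) (nat_lit 608) (nat_lit 1294751865) (nat_lit 684) (nat_lit 2303371494) (nat_lit 731) (nat_lit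 5) (nat_lit 739) (nat_lit 5) (nat_lit 740) (nat_lit 5) (nat_lit 536) (nat_lit 521) (nat_lit 503))))))) (XT.nd (nat_lit 780) (nat_lit 9880) (nat_lit 0) (XT.nd (nat_lit 390) (nat_lit 3116) (nat_lit 0) (XT.nd (nat_lit 156) (nat_lit 1672) (nat_lit 0) (XT.nd (nat_lit 78) (nat_lit 0) (nat_lit 0) (XT.lf (nat_lit 0) (nat_lit 152529090) (nat_lit 684) (nat_lit 248491431) (nat_lit 760) (nat_lit 6236480139) (nat_lit 721) (nat_lit 5) (nat_lit 730) (nat_lit 5) (nat_lit 731) (nat_lit 5) (nat_lit 537) (nat_lit 521) (nat_lit 502)) (XT.lf (nat_lit 0) (nat_lit 3093751952) (nat_lit 760) (nat_lit 2696610881) (nat_lit 76) (nat_lit 869819008) (nat_lit 721) (nat_lit 5) (nat_lit 731) (nat_lit 5) (nat_lit 722) (nat_lit 5) (nat_lit 538) (nat_lit 521) (nat_lit 501))) (XT.nd (nat_lit 78) (nat_lit 912) (nat_lit 0) (XT.lf (nat_lit 0) (nat_lit 1138098446) (nat_lit 760) (nat_lit 4647984472) (nat_lit 836) (nat_lit 898327799) (nat_lit 711) (nat_lit 5) (nat_lit 721) (nat_lit 5) (nat_lit 722) (nat_lit 5) (nat_lit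 539) (nat_lit 521) (nat_lit 500)) (XT.nd (nat_lit 78) (nat_lit 836) (nat_lit 0) (XT.lf (nat_lit 0) (nat_lit 1754695216) (nat_lit 836) (nat_lit 1677924743) (nat_lit 76) (nat_lit 3277166699) (nat_lit 710) (nat_lit 5) (nat_lit 721) (nat_lit 5) (nat_lit 711) (nat_lit 5) (nat_lit 540) (nat_lit 521) (nat_lit 499)) (XT.lf (nat_lit 0) (nat_lit 2248964300) (nat_lit 836) (nat_lit 2152883234) (nat_lit 912) (nat_lit 2334650329) (nat_lit 699) (nat_lit 5) (nat_lit 710) (nat_lit 5) (nat_lit 711) (nat_lit 5) (nat_lit 541) (nat_lit 521) (nat_lit 498))))) (XT.nd (nat_lit 156) (nat_lit 2128) (nat_lit 0) (XT.nd (nat_lit 78) (nat_lit 912) (nat_lit 0) (XT.lf (nat_lit 0) (nat_lit 284106061) (nat_lit 912) (nat_lit 531604910) (nat_lit 76) (nat_lit 5948989690) (nat_lit 698) (nat_lit 5) (nat_lit 710) (nat_lit 5) (nat_lit 699) (nat_lit 5) (nat_lit 542) (nat_lit 521) (nat_lit 497)) (XT.lf (nat_lit 0) (nat_lit 2890806309) (nat_lit 988) (nat_lit 3306170639) (nat_lit 76) (nat_lit 596853295) (nat_lit 686)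 (nat_lit 5) (nat_lit 699) (nat_lit 5) (nat_lit 687) (nat_lit 5) (nat_lit 543) (nat_lit 521) (nat_lit 496))) (XT.nd (nat_lit 78) (nat_lit 1140) (nat_lit 0) (XT.lf (nat_lit 0) (nat_lit 732090676) (nat_lit 988) (nat_lit 4772511395) (nat_lit 1064) (nat_lit 1319848926) (nat_lit 673) (nat_lit 5) (nat_lit 686) (nat_lit 5) (nat_lit 687) (nat_lit 5) (nat_lit 544) (nat_lit 521) (nat_lit 495)) (XT.nd (nat_lit 78) (nat_lit 1064) (nat_lit 0) (XT.lf (nat_lit 0) (nat_lit 1261774980) (nat_lit 1064) (nat_lit 2011620001) (nat_lit 76) (nat_lit 3582845299) (nat_lit 672) (nat_lit 5) (nat_lit 686) (nat_lit 5) (nat_lit 673) (nat_lit 5) (nat_lit 545) (nat_lit 521) (nat_lit 494)) (XT.lf (nat_lit 0) (nat_lit 2127119333) (nat_lit 1064) (nat_lit 1706908258) (nat_lit 1140) (nat_lit 3055337254) (nat_lit 658) (nat_lit 5) (nat_lit 672) (nat_lit 5) (nat_lit 673) (nat_lit 5) (nat_lit 546) (nat_lit 521) (nat_lit 493)))))) (XT.nd (nat_lit 390) (nat_lit 6080) (nat_lit 0) (XT.nd (nat_lit 156) (nat_lit 2584) (nat_lit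 0) (XT.nd (nat_lit 78) (nat_lit 1216) (nat_lit 0) (XT.lf (nat_lit 0) (nat_lit 6333410267) (nat_lit 1064) (nat_lit 81500695) (nat_lit 1140) (nat_lit 509104436) (nat_lit 658) (nat_lit 5) (nat_lit 672) (nat_lit 5) (nat_lit 673) (nat_lit 5) (nat_lit 547) (nat_lit 521) (nat_lit 492)) (XT.lf (nat_lit 0) (nat_lit 2039393980) (nat_lit 1216) (nat_lit 3313836740) (nat_lit 76) (nat_lit 1606289515) (nat_lit 642) (nat_lit 5) (nat_lit 658) (nat_lit 5) (nat_lit 643) (nat_lit 5) (nat_lit 548) (nat_lit 521) (nat_lit 491))) (XT.nd (nat_lit 78) (nat_lit 1368) (nat_lit 0) (XT.lf (nat_lit 0) (nat_lit 944184555) (nat_lit 1216) (nat_lit 3643843473) (nat_lit 1292) (nat_lit 2408526982) (nat_lit 626) (nat_lit 5) (nat_lit 642) (nat_lit 5) (nat_lit 643) (nat_lit 5) (nat_lit 549) (nat_lit 521) (nat_lit 490)) (XT.nd (nat_lit 78) (nat_lit 1292) (nat_lit 0) (XT.lf (nat_lit 0) (nat_lit 119424602) (nat_lit 1292) (nat_lit 1746493616) (nat_lit 76) (nat_lit 5169036272) (nat_lit 625) (nat_lit 5) (nat_lit 642)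 (nat_lit 5) (nat_lit 626) (nat_lit 5) (nat_lit 550) (nat_lit 521) (nat_lit 489)) (XT.lf (nat_lit 0) (nat_lit 2621031958) (nat_lit 1292) (nat_lit 8510595) (nat_lit 1368) (nat_lit 4444990255) (nat_lit 608) (nat_lit 5) (nat_lit 625) (nat_lit 5) (nat_lit 626) (nat_lit 5) (nat_lit 551) (nat_lit 521) (nat_lit 488))))) (XT.nd (nat_lit 234) (nat_lit 3192) (nat_lit 0) (XT.nd (nat_lit 78) (nat_lit 2888) (nat_lit 0) (XT.lf (nat_lit 0) (nat_lit 5161545703) (nat_lit 1368) (nat_lit 71139010) (nat_lit 76) (nat_lit 1882790602) (nat_lit 608) (nat_lit 5) (nat_lit 626) (nat_lit 5) (nat_lit 609) (nat_lit 5) (nat_lit 552) (nat_lit 521) (nat_lit 487)) (XT.nd (nat_lit 78) (nat_lit 1444) (nat_lit 0) (XT.lf (nat_lit 0) (nat_lit 556478798) (nat_lit 1444) (nat_lit 2747526815) (nat_lit 76) (nat_lit 3853616388) (nat_lit 589) (nat_lit 5) (nat_lit 608) (nat_lit 5) (nat_lit 590) (nat_lit 5) (nat_lit 553) (nat_lit 521) (nat_lit 486)) (XT.lf (nat_lit 0) (nat_lit 1748025570) (nat_lit 1444) (nat_lit 1303816508)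 (nat_lit 1520) (nat_lit 4149298953) (nat_lit 570) (nat_lit 5) (nat_lit 589) (nat_lit 5) (nat_lit 590) (nat_lit 5) (nat_lit 554) (nat_lit 521) (nat_lit 485)))) (XT.nd (nat_lit 78) (nat_lit 3192) (nat_lit 0) (XT.lf (nat_lit 0) (nat_lit 5570275385) (nat_lit 1520) (nat_lit 923378283) (nat_lit 76) (nat_lit 752419322) (nat_lit 570) (nat_lit 5) (nat_lit 590) (nat_lit 5) (nat_lit 571) (nat_lit 5) (nat_lit 555) (nat_lit 521) (nat_lit 484)) (XT.nd (nat_lit 78) (nat_lit 1596) (nat_lit 0) (XT.lf (nat_lit 0) (nat_lit 819369379) (nat_lit 1596) (nat_lit 3604052635) (nat_lit 76) (nat_lit 2868711013) (nat_lit 549) (nat_lit 5) (nat_lit 570) (nat_lit 5) (nat_lit 550) (nat_lit 5) (nat_lit 556) (nat_lit 521) (nat_lit 483)) (XT.lf (nat_lit 0) (nat_lit 1024033279) (nat_lit 1596) (nat_lit 2282040017) (nat_lit 1672) (nat_lit 4033543445) (nat_lit 528) (nat_lit 5) (nat_lit 549) (nat_lit 5) (nat_lit 550) (nat_lit 5) (nat_lit 557) (nat_lit 521) (nat_lit 482))))))))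
noncomputable def xc72 : XT := (XT.nd (nat_lit 1560) (nat_lit 8968) (nat_lit 0) (XT.nd (nat_lit 780) (nat_lit 5776) (nat_lit 0) (XT.nd (nat_lit 390) (nat_lit 2964) (nat_lit 0) (XT.nd (nat_lit 156) (nat_lit 3648) (nat_lit 0) (XT.nd (nat_lit 78) (nat_lit 1748) (nat_lit 0) (XT.lf (nat_lit 0) (nat_lit 5750268718) (nat_lit 1596) (nat_lit 68269749) (nat_lit 1672) (nat_lit 1569996481) (nat_lit 528) (nat_lit 5) (nat_lit 549) (nat_lit 5) (nat_lit 550) (nat_lit 5) (nat_lit 558) (nat_lit 521) (nat_lit 481)) (XT.lf (nat_lit 0) (nat_lit 917631739) (nat_lit 1748) (nat_lit 4328882156) (nat_lit 76) (nat_lit 2192056833) (nat_lit 505) (nat_lit 5) (nat_lit 528) (nat_lit 5) (nat_lit 506) (nat_lit 5) (nat_lit 559) (nat_lit 521) (nat_lit 480))) (XT.nd (nat_lit 78) (nat_lit 1900) (nat_lit 0) (XT.lf (nat_lit 0) (nat_lit 436484021) (nat_lit 1748) (nat_lit 2965027843) (nat_lit 1824) (nat_lit 4088542427) (nat_lit 482) (nat_lit 5) (nat_lit 505) (nat_lit 5) (nat_lit 506) (nat_lit 5) (nat_lit 560) (nat_lit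 521) (nat_lit 479)) (XT.nd (nat_lit 78) (nat_lit 1900) (nat_lit 0) (XT.lf (nat_lit 0) (nat_lit 5312383882) (nat_lit 1748) (nat_lit 605520746) (nat_lit 1824) (nat_lit 1625011147) (nat_lit 482) (nat_lit 5) (nat_lit 505) (nat_lit 5) (nat_lit 506) (nat_lit 5) (nat_lit 561) (nat_lit 521) (nat_lit 478)) (XT.lf (nat_lit 0) (nat_lit 859766077) (nat_lit 1900) (nat_lit 4934076543) (nat_lit 76) (nat_lit 1803208970) (nat_lit 457) (nat_lit 5) (nat_lit 482) (nat_lit 5) (nat_lit 458) (nat_lit 5) (nat_lit 562) (nat_lit 521) (nat_lit 477))))) (XT.nd (nat_lit 156) (nat_lit 1900) (nat_lit 0) (XT.nd (nat_lit 78) (nat_lit 1064) (nat_lit 0) (XT.lf (nat_lit 0) (nat_lit 3346593894) (nat_lit 1900) (nat_lit 26099493) (nat_lit 76) (nat_lit 4279884295) (nat_lit 457) (nat_lit 5) (nat_lit 482) (nat_lit 5) (nat_lit 458) (nat_lit 5) (nat_lit 563) (nat_lit 521) (nat_lit 476)) (XT.lf (nat_lit 0) (nat_lit 5002662177) (nat_lit 1064) (nat_lit 868875088) (nat_lit 1140) (nat_lit 1837914025) (nat_lit 443) (nat_lit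 5) (nat_lit 457) (nat_lit 5) (nat_lit 458) (nat_lit 5) (nat_lit 564) (nat_lit 521) (nat_lit 475))) (XT.nd (nat_lit 78) (nat_lit 912) (nat_lit 0) (XT.lf (nat_lit 0) (nat_lit 653294371) (nat_lit 988) (nat_lit 5431035494) (nat_lit 76) (nat_lit 1683394881) (nat_lit 430) (nat_lit 5) (nat_lit 443) (nat_lit 5) (nat_lit 431) (nat_lit 5) (nat_lit 565) (nat_lit 521) (nat_lit 474)) (XT.nd (nat_lit 78) (nat_lit 912) (nat_lit 0) (XT.lf (nat_lit 0) (nat_lit 3150553146) (nat_lit 988) (nat_lit 370993006) (nat_lit 76) (nat_lit 4305762140) (nat_lit 430) (nat_lit 5) (nat_lit 443) (nat_lit 5) (nat_lit 431) (nat_lit 5) (nat_lit 566) (nat_lit 521) (nat_lit 473)) (XT.lf (nat_lit 0) (nat_lit 4810323896) (nat_lit 912) (nat_lit 876287036) (nat_lit 988) (nat_lit 2201699726) (nat_lit 418) (nat_lit 5) (nat_lit 430) (nat_lit 5) (nat_lit 431) (nat_lit 5) (nat_lit 567) (nat_lit 521) (nat_lit 472)))))) (XT.nd (nat_lit 390) (nat_lit 3116) (nat_lit 0) (XT.nd (nat_lit 156) (nat_lit 1748) (nat_lit 0) (XT.nd (nat_lit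 78) (nat_lit 0) (nat_lit 0) (XT.lf (nat_lit 0) (nat_lit 304811015) (nat_lit 912) (nat_lit 5830582406) (nat_lit 76) (nat_lit 1815378019) (nat_lit 406) (nat_lit 5) (nat_lit 418) (nat_lit 5) (nat_lit 407) (nat_lit 5) (nat_lit 568) (nat_lit 521) (nat_lit 471)) (XT.lf (nat_lit 0) (nat_lit 2817025067) (nat_lit 912) (nat_lit 614374113) (nat_lit 76) (nat_lit 4583094098) (nat_lit 406) (nat_lit 5) (nat_lit 418) (nat_lit 5) (nat_lit 407) (nat_lit 5) (nat_lit 569) (nat_lit 521) (nat_lit 470))) (XT.nd (nat_lit 78) (nat_lit 912) (nat_lit 0) (XT.lf (nat_lit 0) (nat_lit 4725152872) (nat_lit 836) (nat_lit 644255797) (nat_lit 912) (nat_lit 2710286282) (nat_lit 395) (nat_lit 5) (nat_lit 406) (nat_lit 5) (nat_lit 407) (nat_lit 5) (nat_lit 570) (nat_lit 521) (nat_lit 469)) (XT.nd (nat_lit 78) (nat_lit 76) (nat_lit 0) (XT.lf (nat_lit 0) (nat_lit 2002150049) (nat_lit 836) (nat_lit 5961866574) (nat_lit 912) (nat_lit 182364330) (nat_lit 384) (nat_lit 5) (nat_lit 395) (nat_lit 5) (nat_lit 396) (nat_lit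 5) (nat_lit 571) (nat_lit 521) (nat_lit 468)) (XT.lf (nat_lit 0) (nat_lit 2351611139) (nat_lit 912) (nat_lit 766211263) (nat_lit 76) (nat_lit 5096532397) (nat_lit 383) (nat_lit 5) (nat_lit 395) (nat_lit 5) (nat_lit 384) (nat_lit 5) (nat_lit 572) (nat_lit 521) (nat_lit 467))))) (XT.nd (nat_lit 156) (nat_lit 1520) (nat_lit 0) (XT.nd (nat_lit 78) (nat_lit 760) (nat_lit 0) (XT.lf (nat_lit 0) (nat_lit 4737414996) (nat_lit 836) (nat_lit 187948572) (nat_lit 912) (nat_lit 3358473266) (nat_lit 372) (nat_lit 5) (nat_lit 383) (nat_lit 5) (nat_lit 384) (nat_lit 5) (nat_lit 573) (nat_lit 521) (nat_lit 466)) (XT.lf (nat_lit 0) (nat_lit 1971180757) (nat_lit 760) (nat_lit 5576813049) (nat_lit 836) (nat_lit 806770186) (nat_lit 362) (nat_lit 5) (nat_lit 372) (nat_lit 5) (nat_lit 373) (nat_lit 5) (nat_lit 574) (nat_lit 521) (nat_lit 465))) (XT.nd (nat_lit 78) (nat_lit 1444) (nat_lit 0) (XT.lf (nat_lit 0) (nat_lit 1759082536) (nat_lit 836) (nat_lit 836067834) (nat_lit 76) (nat_lit 5831996109)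 (nat_lit 361) (nat_lit 5) (nat_lit 372) (nat_lit 5) (nat_lit 362) (nat_lit 5) (nat_lit 575) (nat_lit 521) (nat_lit 464)) (XT.nd (nat_lit 78) (nat_lit 684) (nat_lit 0) (XT.lf (nat_lit 0) (nat_lit 4362202621) (nat_lit 836) (nat_lit 3666329758) (nat_lit 76) (nat_lit 472405856) (nat_lit 351) (nat_lit 5) (nat_lit 362) (nat_lit 5) (nat_lit 352) (nat_lit 5) (nat_lit 576) (nat_lit 521) (nat_lit 463)) (XT.lf (nat_lit 0) (nat_lit 2020047679) (nat_lit 684) (nat_lit 4995943598) (nat_lit 760) (nat_lit 1560245692) (nat_lit 342) (nat_lit 5) (nat_lit 351) (nat_lit 5) (nat_lit 352) (nat_lit 5) (nat_lit 577) (nat_lit 521) (nat_lit 462))))))) (XT.nd (nat_lit 780) (nat_lit 4712) (nat_lit 0) (XT.nd (nat_lit 390) (nat_lit 1976) (nat_lit 0) (XT.nd (nat_lit 156) (nat_lit 1444) (nat_lit 0) (XT.nd (nat_lit 78) (nat_lit 760) (nat_lit 0) (XT.lf (nat_lit 0) (nat_lit 1043412188) (nat_lit 760) (nat_lit 833180333) (nat_lit 76) (nat_lit 6776560799) (nat_lit 341) (nat_lit 5) (nat_lit 351) (nat_lit 5) (nat_lit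 342) (nat_lit 5) (nat_lit 578) (nat_lit 521) (nat_lit 461)) (XT.lf (nat_lit 0) (nat_lit 3683155828) (nat_lit 836) (nat_lit 3722963559) (nat_lit 76) (nat_lit 1325187339) (nat_lit 331) (nat_lit 5) (nat_lit 342) (nat_lit 5) (nat_lit 332) (nat_lit 5) (nat_lit 579) (nat_lit 521) (nat_lit 460))) (XT.nd (nat_lit 78) (nat_lit 760) (nat_lit 0) (XT.lf (nat_lit 0) (nat_lit 2139754158) (nat_lit 684) (nat_lit 4231878862) (nat_lit 760) (nat_lit 2439474426) (nat_lit 322) (nat_lit 5) (nat_lit 331) (nat_lit 5) (nat_lit 332) (nat_lit 5) (nat_lit 580) (nat_lit 521) (nat_lit 459)) (XT.nd (nat_lit 78) (nat_lit 684) (nat_lit 0) (XT.lf (nat_lit 0) (nat_lit 207801460) (nat_lit 760) (nat_lit 766535879) (nat_lit 76) (nat_lit 7918354410) (nat_lit 321) (nat_lit 5) (nat_lit 331) (nat_lit 5) (nat_lit 322) (nat_lit 5) (nat_lit 581) (nat_lit 521) (nat_lit 458)) (XT.lf (nat_lit 0) (nat_lit 2890003028) (nat_lit 760) (nat_lit 3724114604) (nat_lit 76) (nat_lit 2361177558) (nat_lit 312) (nat_lit 5) (nat_lit 322)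 (nat_lit 5) (nat_lit 313) (nat_lit 5) (nat_lit 582) (nat_lit 521) (nat_lit 457))))) (XT.nd (nat_lit 156) (nat_lit 1368) (nat_lit 0) (XT.nd (nat_lit 78) (nat_lit 0) (nat_lit 0) (XT.lf (nat_lit 0) (nat_lit 2321508136) (nat_lit 608) (nat_lit 3296295383) (nat_lit 684) (nat_lit 3441910871) (nat_lit 304) (nat_lit 5) (nat_lit 312) (nat_lit 5) (nat_lit 313) (nat_lit 5) (nat_lit 583) (nat_lit 521) (nat_lit 456)) (XT.lf (nat_lit 0) (nat_lit 8391492698) (nat_lit 684) (nat_lit 650536869) (nat_lit 76) (nat_lit 103968487) (nat_lit 304) (nat_lit 5) (nat_lit 313) (nat_lit 5) (nat_lit 305) (nat_lit 5) (nat_lit 584) (nat_lit 521) (nat_lit 455))) (XT.nd (nat_lit 78) (nat_lit 608) (nat_lit 0) (XT.lf (nat_lit 0) (nat_lit 1985011647) (nat_lit 760) (nat_lit 3678663833) (nat_lit 76) (nat_lit 3569588193) (nat_lit 294) (nat_lit 5) (nat_lit 304) (nat_lit 5) (nat_lit 295) (nat_lit 5) (nat_lit 585) (nat_lit 521) (nat_lit 454)) (XT.nd (nat_lit 78) (nat_lit 0) (nat_lit 0) (XT.lf (nat_lit 0) (nat_lit 2556644185)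 (nat_lit 608) (nat_lit 2200021332) (nat_lit 684) (nat_lit 4565762933) (nat_lit 286) (nat_lit 5) (nat_lit 294) (nat_lit 5) (nat_lit 295) (nat_lit 5) (nat_lit 586) (nat_lit 521) (nat_lit 453)) (XT.lf (nat_lit 0) (nat_lit 7584029154) (nat_lit 684) (nat_lit 497837724) (nat_lit 76) (nat_lit 1331506635) (nat_lit 286) (nat_lit 5) (nat_lit 295) (nat_lit 5) (nat_lit 287) (nat_lit 5) (nat_lit 587) (nat_lit 521) (nat_lit 452)))))) (XT.nd (nat_lit 390) (nat_lit 2204) (nat_lit 0) (XT.nd (nat_lit 156) (nat_lit 1216) (nat_lit 0) (XT.nd (nat_lit 78) (nat_lit 608) (nat_lit 0) (XT.lf (nat_lit 0) (nat_lit 969730557) (nat_lit 684) (nat_lit 3595439743) (nat_lit 76) (nat_lit 4940433868) (nat_lit 277) (nat_lit 5) (nat_lit 286) (nat_lit 5) (nat_lit 278) (nat_lit 5) (nat_lit 588) (nat_lit 521) (nat_lit 451)) (XT.lf (nat_lit 0) (nat_lit 2836544576) (nat_lit 608) (nat_lit 953128092) (nat_lit 684) (nat_lit 5809979697) (nat_lit 269) (nat_lit 5) (nat_lit 277) (nat_lit 5) (nat_lit 278) (nat_lit 5) (nat_lit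 589) (nat_lit 521) (nat_lit 450))) (XT.nd (nat_lit 78) (nat_lit 1216) (nat_lit 0) (XT.lf (nat_lit 0) (nat_lit 6675913569) (nat_lit 684) (nat_lit 309372686) (nat_lit 76) (nat_lit 2710099605) (nat_lit 269) (nat_lit 5) (nat_lit 278) (nat_lit 5) (nat_lit 270) (nat_lit 5) (nat_lit 590) (nat_lit 521) (nat_lit 449)) (XT.nd (nat_lit 78) (nat_lit 608) (nat_lit 0) (XT.lf (nat_lit 0) (nat_lit 6308402843) (nat_lit 608) (nat_lit 3327257083) (nat_lit 684) (nat_lit 157060773) (nat_lit 261) (nat_lit 5) (nat_lit 269) (nat_lit 5) (nat_lit 270) (nat_lit 5) (nat_lit 591) (nat_lit 521) (nat_lit 448)) (XT.lf (nat_lit 0) (nat_lit 2720401292) (nat_lit 608) (nat_lit 6742086949) (nat_lit 76) (nat_lit 429276775) (nat_lit 253) (nat_lit 5) (nat_lit 261) (nat_lit 5) (nat_lit 254) (nat_lit 5) (nat_lit 592) (nat_lit 521) (nat_lit 447))))) (XT.nd (nat_lit 234) (nat_lit 1064) (nat_lit 0) (XT.nd (nat_lit 78) (nat_lit 1140) (nat_lit 0) (XT.lf (nat_lit 0) (nat_lit 5667813860) (nat_lit 608) (nat_lit 93853108)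 (nat_lit 76) (nat_lit 4230814555) (nat_lit 253) (nat_lit 5) (nat_lit 261) (nat_lit 5) (nat_lit 254) (nat_lit 5) (nat_lit 593) (nat_lit 521) (nat_lit 446)) (XT.nd (nat_lit 78) (nat_lit 608) (nat_lit 0) (XT.lf (nat_lit 0) (nat_lit 6734606792) (nat_lit 532) (nat_lit 1952833689) (nat_lit 608) (nat_lit 1407508679) (nat_lit 246) (nat_lit 5) (nat_lit 253) (nat_lit 5) (nat_lit 254) (nat_lit 5) (nat_lit 594) (nat_lit 521) (nat_lit 445)) (XT.lf (nat_lit 0) (nat_lit 1553128196) (nat_lit 608) (nat_lit 6716180426) (nat_lit 76) (nat_lit 1929841965) (nat_lit 238) (nat_lit 5) (nat_lit 246) (nat_lit 5) (nat_lit 239) (nat_lit 5) (nat_lit 595) (nat_lit 521) (nat_lit 444)))) (XT.nd (nat_lit 78) (nat_lit 532) (nat_lit 0) (XT.lf (nat_lit 0) (nat_lit 141710404) (nat_lit 532) (nat_lit 4418919326) (nat_lit 608) (nat_lit 5744492261) (nat_lit 231) (nat_lit 5) (nat_lit 238) (nat_lit 5) (nat_lit 239) (nat_lit 5) (nat_lit 596) (nat_lit 521) (nat_lit 443)) (XT.nd (nat_lit 78) (nat_lit 532) (nat_lit 0) (XT.lf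 (nat_lit 0) (nat_lit 7186612287) (nat_lit 532) (nat_lit 456989420) (nat_lit 608) (nat_lit 2769306661) (nat_lit 231) (nat_lit 5) (nat_lit 238) (nat_lit 5) (nat_lit 239) (nat_lit 5) (nat_lit 597) (nat_lit 521) (nat_lit 442)) (XT.lf (nat_lit 0) (nat_lit 280962252) (nat_lit 532) (nat_lit 6688616454) (nat_lit 76) (nat_lit 3552857980) (nat_lit 224) (nat_lit 5) (nat_lit 231) (nat_lit 5) (nat_lit 225) (nat_lit 5) (nat_lit 598) (nat_lit 521) (nat_lit 441))))))))
noncomputable def xc73 : XT := (XT.nd (nat_lit 1560) (nat_lit 1064) (nat_lit 0) (XT.nd (nat_lit 780) (nat_lit 2508) (nat_lit 0) (XT.nd (nat_lit 390) (nat_lit 1824) (nat_lit 0) (XT.nd (nat_lit 156) (nat_lit 988) (nat_lit 0) (XT.nd (nat_lit 78) (nat_lit 0) (nat_lit 0) (XT.lf (nat_lit 0) (nat_lit 387713924) (nat_lit 532) (nat_lit 2965691434) (nat_lit 608) (nat_lit 7280420951) (nat_lit 217) (nat_lit 5) (nat_lit 224) (nat_lit 5) (nat_lit 225) (nat_lit 5) (nat_lit 599) (nat_lit 521) (nat_lit 440)) (XT.lf (nat_lit 0) (nat_lit 6510846288)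 (nat_lit 608) (nat_lit 3099108907) (nat_lit 76) (nat_lit 1137019357) (nat_lit 217) (nat_lit 5) (nat_lit 225) (nat_lit 5) (nat_lit 218) (nat_lit 5) (nat_lit 600) (nat_lit 521) (nat_lit 439))) (XT.nd (nat_lit 78) (nat_lit 532) (nat_lit 0) (XT.lf (nat_lit 0) (nat_lit 4185656694) (nat_lit 456) (nat_lit 5564269272) (nat_lit 532) (nat_lit 1112091762) (nat_lit 211) (nat_lit 5) (nat_lit 217) (nat_lit 5) (nat_lit 218) (nat_lit 5) (nat_lit 601) (nat_lit 521) (nat_lit 438)) (XT.nd (nat_lit 78) (nat_lit 0) (nat_lit 0) (XT.lf (nat_lit 0) (nat_lit 633337113) (nat_lit 456) (nat_lit 1410709124) (nat_lit 532) (nat_lit 8935111314) (nat_lit 204) (nat_lit 5) (nat_lit 210) (nat_lit 5) (nat_lit 211) (nat_lit 5) (nat_lit 602) (nat_lit 521) (nat_lit 437)) (XT.lf (nat_lit 0) (nat_lit 5283868804) (nat_lit 532) (nat_lit 2984781638) (nat_lit 76) (nat_lit 2829135323) (nat_lit 204) (nat_lit 5) (nat_lit 211) (nat_lit 5) (nat_lit 205) (nat_lit 5) (nat_lit 603) (nat_lit 521) (nat_lit 436))))) (XT.nd (nat_lit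 156) (nat_lit 836) (nat_lit 0) (XT.nd (nat_lit 78) (nat_lit 532) (nat_lit 0) (XT.lf (nat_lit 0) (nat_lit 4533636869) (nat_lit 456) (nat_lit 4066170377) (nat_lit 532) (nat_lit 2618754541) (nat_lit 198) (nat_lit 5) (nat_lit 204) (nat_lit 5) (nat_lit 205) (nat_lit 5) (nat_lit 604) (nat_lit 521) (nat_lit 435)) (XT.lf (nat_lit 0) (nat_lit 631902143) (nat_lit 532) (nat_lit 10474677928) (nat_lit 76) (nat_lit 235091908) (nat_lit 191) (nat_lit 5) (nat_lit 198) (nat_lit 5) (nat_lit 192) (nat_lit 5) (nat_lit 605) (nat_lit 521) (nat_lit 434))) (XT.nd (nat_lit 78) (nat_lit 836) (nat_lit 0) (XT.lf (nat_lit 0) (nat_lit 3957460566) (nat_lit 532) (nat_lit 2890605393) (nat_lit 76) (nat_lit 4617934681) (nat_lit 191) (nat_lit 5) (nat_lit 198) (nat_lit 5) (nat_lit 192) (nat_lit 5) (nat_lit 606) (nat_lit 521) (nat_lit 433)) (XT.nd (nat_lit 78) (nat_lit 456) (nat_lit 0) (XT.lf (nat_lit 0) (nat_lit 4869545501) (nat_lit 380) (nat_lit 2484969820) (nat_lit 456) (nat_lit 4238202359) (nat_lit 186) (nat_lit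 5) (nat_lit 191) (nat_lit 5) (nat_lit 192) (nat_lit 5) (nat_lit 607) (nat_lit 521) (nat_lit 432)) (XT.lf (nat_lit 0) (nat_lit 1063911799) (nat_lit 456) (nat_lit 9768346601) (nat_lit 532) (nat_lit 889457195) (nat_lit 180) (nat_lit 5) (nat_lit 186) (nat_lit 5) (nat_lit 187) (nat_lit 5) (nat_lit 608) (nat_lit 521) (nat_lit 431)))))) (XT.nd (nat_lit 390) (nat_lit 1216) (nat_lit 0) (XT.nd (nat_lit 156) (nat_lit 836) (nat_lit 0) (XT.nd (nat_lit 78) (nat_lit 380) (nat_lit 0) (XT.lf (nat_lit 0) (nat_lit 2528643065) (nat_lit 532) (nat_lit 2827421623) (nat_lit 76) (nat_lit 6496191908) (nat_lit 179) (nat_lit 5) (nat_lit 186) (nat_lit 5) (nat_lit 180) (nat_lit 5) (nat_lit 609) (nat_lit 521) (nat_lit 430)) (XT.lf (nat_lit 0) (nat_lit 5182684301) (nat_lit 380) (nat_lit 828329624) (nat_lit 456) (nat_lit 5974121931) (nat_lit 174) (nat_lit 5) (nat_lit 179) (nat_lit 5) (nat_lit 180) (nat_lit 5) (nat_lit 610) (nat_lit 521) (nat_lit 429))) (XT.nd (nat_lit 78) (nat_lit 456) (nat_lit 0) (XT.lf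 (nat_lit 0) (nat_lit 1223198600) (nat_lit 380) (nat_lit 8365809549) (nat_lit 456) (nat_lit 2531146400) (nat_lit 169) (nat_lit 5) (nat_lit 174) (nat_lit 5) (nat_lit 175) (nat_lit 5) (nat_lit 611) (nat_lit 521) (nat_lit 428)) (XT.nd (nat_lit 78) (nat_lit 380) (nat_lit 0) (XT.lf (nat_lit 0) (nat_lit 993672017) (nat_lit 456) (nat_lit 2806765847) (nat_lit 76) (nat_lit 8456792816) (nat_lit 168) (nat_lit 5) (nat_lit 174) (nat_lit 5) (nat_lit 169) (nat_lit 5) (nat_lit 612) (nat_lit 521) (nat_lit 427)) (XT.lf (nat_lit 0) (nat_lit 4571316526) (nat_lit 456) (nat_lit 6940681091) (nat_lit 76) (nat_lit 884392950) (nat_lit 163) (nat_lit 5) (nat_lit 169) (nat_lit 5) (nat_lit 164) (nat_lit 5) (nat_lit 613) (nat_lit 521) (nat_lit 426))))) (XT.nd (nat_lit 156) (nat_lit 836) (nat_lit 0) (XT.nd (nat_lit 78) (nat_lit 0) (nat_lit 0) (XT.lf (nat_lit 0) (nat_lit 1337157451) (nat_lit 380) (nat_lit 6911234587) (nat_lit 456) (nat_lit 4289385315) (nat_lit 158) (nat_lit 5) (nat_lit 163) (nat_lit 5) (nat_lit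 164) (nat_lit 5) (nat_lit 614) (nat_lit 521) (nat_lit 425)) (XT.lf (nat_lit 0) (nat_lit 9836279326) (nat_lit 380) (nat_lit 2184613508) (nat_lit 456) (nat_lit 660662605) (nat_lit 158) (nat_lit 5) (nat_lit 163) (nat_lit 5) (nat_lit 164) (nat_lit 5) (nat_lit 615) (nat_lit 521) (nat_lit 424))) (XT.nd (nat_lit 78) (nat_lit 380) (nat_lit 0) (XT.lf (nat_lit 0) (nat_lit 3030763002) (nat_lit 456) (nat_lit 7150785299) (nat_lit 76) (nat_lit 2645666999) (nat_lit 152) (nat_lit 5) (nat_lit 158) (nat_lit 5) (nat_lit 153) (nat_lit 5) (nat_lit 616) (nat_lit 521) (nat_lit 423)) (XT.nd (nat_lit 78) (nat_lit 0) (nat_lit 0) (XT.lf (nat_lit 0) (nat_lit 1392956169) (nat_lit 380) (nat_lit 5412730371) (nat_lit 456) (nat_lit 6169645333) (nat_lit 147) (nat_lit 5) (nat_lit 152) (nat_lit 5) (nat_lit 153) (nat_lit 5) (nat_lit 617) (nat_lit 521) (nat_lit 422)) (XT.lf (nat_lit 0) (nat_lit 10166678161) (nat_lit 380) (nat_lit 513421357) (nat_lit 456) (nat_lit 2445832582) (nat_lit 147) (nat_lit 5) (nat_lit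 152) (nat_lit 5) (nat_lit 153) (nat_lit 5) (nat_lit 618) (nat_lit 521) (nat_lit 421))))))) (XT.nd (nat_lit 74100) (nat_lit 0) (nat_lit 44688) (XT.nd (nat_lit 73710) (nat_lit 0) (nat_lit 47576) (XT.nd (nat_lit 156) (nat_lit 304) (nat_lit 0) (XT.nd (nat_lit 78) (nat_lit 380) (nat_lit 0) (XT.lf (nat_lit 0) (nat_lit 1378464467) (nat_lit 380) (nat_lit 7441317170) (nat_lit 76) (nat_lit 4458713260) (nat_lit 142) (nat_lit 5) (nat_lit 147) (nat_lit 5) (nat_lit 143) (nat_lit 5) (nat_lit 619) (nat_lit 521) (nat_lit 420)) (XT.lf (nat_lit 0) (nat_lit 1376732087) (nat_lit 380) (nat_lit 3878577960) (nat_lit 456) (nat_lit 8178300395) (nat_lit 137) (nat_lit 5) (nat_lit 142) (nat_lit 5) (nat_lit 143) (nat_lit 5) (nat_lit 620) (nat_lit 521) (nat_lit 419))) (XT.nd (nat_lit 78) (nat_lit 304) (nat_lit 0) (XT.lf (nat_lit 0) (nat_lit 9244081473) (nat_lit 456) (nat_lit 3164354365) (nat_lit 76) (nat_lit 1182705738) (nat_lit 137) (nat_lit 5) (nat_lit 143) (nat_lit 5) (nat_lit 138) (nat_lit 5) (nat_lit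 621) (nat_lit 521) (nat_lit 418)) (XT.nd (nat_lit 73398) (nat_lit 0) (nat_lit 48488) (XT.lf (nat_lit 0) (nat_lit 5921063984) (nat_lit 304) (nat_lit 7432735116) (nat_lit 380) (nat_lit 397201854) (nat_lit 133) (nat_lit 5) (nat_lit 137) (nat_lit 5) (nat_lit 138) (nat_lit 5) (nat_lit 622) (nat_lit 521) (nat_lit 417)) (XT.lf (nat_lit 0) (nat_lit 2976995631) (nat_lit 228) (nat_lit 124005088) (nat_lit 228) (nat_lit 124005088) (nat_lit 771) (nat_lit 3) (nat_lit 774) (nat_lit 3) (nat_lit 774) (nat_lit 5) (nat_lit 522) (nat_lit 522) (nat_lit 516))))) (XT.nd (nat_lit 156) (nat_lit 684) (nat_lit 0) (XT.nd (nat_lit 78) (nat_lit 0) (nat_lit 0) (XT.lf (nat_lit 0) (nat_lit 2494810980) (nat_lit 228) (nat_lit 3483945407) (nat_lit 304) (nat_lit 475527842) (nat_lit 768) (nat_lit 5) (nat_lit 771) (nat_lit 3) (nat_lit 772) (nat_lit 5) (nat_lit 523) (nat_lit 522) (nat_lit 515)) (XT.lf (nat_lit 0) (nat_lit 5462341113) (nat_lit 228) (nat_lit 246530502) (nat_lit 304) (nat_lit 751247959) (nat_lit 768)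 (nat_lit 5) (nat_lit 771) (nat_lit 3) (nat_lit 772) (nat_lit 5) (nat_lit 524) (nat_lit 522) (nat_lit 514))) (XT.nd (nat_lit 78) (nat_lit 380) (nat_lit 0) (XT.lf (nat_lit 0) (nat_lit 1939440280) (nat_lit 304) (nat_lit 3424511654) (nat_lit 380) (nat_lit 1103013308) (nat_lit 764) (nat_lit 5) (nat_lit 768) (nat_lit 5) (nat_lit 769) (nat_lit 5) (nat_lit 525) (nat_lit 522) (nat_lit 513)) (XT.nd (nat_lit 78) (nat_lit 380) (nat_lit 0) (XT.lf (nat_lit 0) (nat_lit 4847826878) (nat_lit 304) (nat_lit 120968244) (nat_lit 380) (nat_lit 1506517680) (nat_lit 764) (nat_lit 5) (nat_lit 768) (nat_lit 5) (nat_lit 769) (nat_lit 5) (nat_lit 526) (nat_lit 522) (nat_lit 512)) (XT.lf (nat_lit 0) (nat_lit 1259440645) (nat_lit 380) (nat_lit 3242096743) (nat_lit 456) (nat_lit 1983202478) (nat_lit 759) (nat_lit 5) (nat_lit 764) (nat_lit 5) (nat_lit 765) (nat_lit 5) (nat_lit 527) (nat_lit 522) (nat_lit 511)))))) (XT.nd (nat_lit 390) (nat_lit 1900) (nat_lit 0) (XT.nd (nat_lit 156) (nat_lit 532) (nat_lit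 0) (XT.nd (nat_lit 78) (nat_lit 456) (nat_lit 0) (XT.lf (nat_lit 76) (nat_lit 130842845) (nat_lit 0) (nat_lit 3979454941) (nat_lit 456) (nat_lit 2385294683) (nat_lit 760) (nat_lit 5) (nat_lit 759) (nat_lit 5) (nat_lit 765) (nat_lit 5) (nat_lit 528) (nat_lit 522) (nat_lit 510)) (XT.lf (nat_lit 0) (nat_lit 453688223) (nat_lit 456) (nat_lit 2936132932) (nat_lit 532) (nat_lit 3117808188) (nat_lit 753) (nat_lit 5) (nat_lit 759) (nat_lit 5) (nat_lit 760) (nat_lit 5) (nat_lit 529) (nat_lit 522) (nat_lit 509))) (XT.nd (nat_lit 78) (nat_lit 532) (nat_lit 0) (XT.lf (nat_lit 76) (nat_lit 511150041) (nat_lit 0) (nat_lit 2738128436) (nat_lit 532) (nat_lit 3271688960) (nat_lit 754) (nat_lit 5) (nat_lit 753) (nat_lit 5) (nat_lit 760) (nat_lit 5) (nat_lit 530) (nat_lit 522) (nat_lit 508)) (XT.nd (nat_lit 78) (nat_lit 532) (nat_lit 0) (XT.lf (nat_lit 76) (nat_lit 4026634014) (nat_lit 0) (nat_lit 2023408045) (nat_lit 532) (nat_lit 485555936) (nat_lit 754) (nat_lit 5) (nat_lit 753) (nat_lit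 5) (nat_lit 760) (nat_lit 5) (nat_lit 531) (nat_lit 522) (nat_lit 507)) (XT.lf (nat_lit 76) (nat_lit 1019291812) (nat_lit 0) (nat_lit 1243194356) (nat_lit 608) (nat_lit 4288997738) (nat_lit 747) (nat_lit 5) (nat_lit 746) (nat_lit 5) (nat_lit 754) (nat_lit 5) (nat_lit 532) (nat_lit 522) (nat_lit 506))))) (XT.nd (nat_lit 234) (nat_lit 1368) (nat_lit 0) (XT.nd (nat_lit 78) (nat_lit 532) (nat_lit 0) (XT.lf (nat_lit 76) (nat_lit 4608447489) (nat_lit 0) (nat_lit 398934110) (nat_lit 608) (nat_lit 1561284168) (nat_lit 747) (nat_lit 5) (nat_lit 746) (nat_lit 5) (nat_lit 754) (nat_lit 5) (nat_lit 533) (nat_lit 522) (nat_lit 505)) (XT.nd (nat_lit 78) (nat_lit 0) (nat_lit 0) (XT.lf (nat_lit 0) (nat_lit 1151485309) (nat_lit 608) (nat_lit 4934017579) (nat_lit 76) (nat_lit 501609431) (nat_lit 739) (nat_lit 5) (nat_lit 747) (nat_lit 5) (nat_lit 740) (nat_lit 5) (nat_lit 534) (nat_lit 522) (nat_lit 504)) (XT.lf (nat_lit 0) (nat_lit 3847200504) (nat_lit 608) (nat_lit 1295262450) (nat_lit 76)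 (nat_lit 1464276236) (nat_lit 739) (nat_lit 5) (nat_lit 747) (nat_lit 5) (nat_lit 740) (nat_lit 5) (nat_lit 535) (nat_lit 522) (nat_lit 503)))) (XT.nd (nat_lit 78) (nat_lit 760) (nat_lit 0) (XT.lf (nat_lit 0) (nat_lit 2406879204) (nat_lit 608) (nat_lit 4140571212) (nat_lit 684) (nat_lit 80305294) (nat_lit 731) (nat_lit 5) (nat_lit 739) (nat_lit 5) (nat_lit 740) (nat_lit 5) (nat_lit 536) (nat_lit 522) (nat_lit 502)) (XT.nd (nat_lit 78) (nat_lit 684) (nat_lit 0) (XT.lf (nat_lit 0) (nat_lit 2562044851) (nat_lit 684) (nat_lit 507228007) (nat_lit 76) (nat_lit 3580698008) (nat_lit 730) (nat_lit 5) (nat_lit 739) (nat_lit 5) (nat_lit 731) (nat_lit 5) (nat_lit 537) (nat_lit 522) (nat_lit 501)) (XT.lf (nat_lit 0) (nat_lit 3282475456) (nat_lit 684) (nat_lit 1931838398) (nat_lit 760) (nat_lit 1459151882) (nat_lit 721) (nat_lit 5) (nat_lit 730) (nat_lit 5) (nat_lit 731) (nat_lit 5) (nat_lit 538) (nat_lit 522) (nat_lit 500))))))))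
noncomputable def xc74 : XT := (XT.nd (nat_lit 1560) (nat_lit 14972) (nat_lit 0) (XT.nd (nat_lit 780) (nat_lit 8664) (nat_lit 0) (XT.nd (nat_lit 390) (nat_lit 3344) (nat_lit 0) (XT.nd (nat_lit 156) (nat_lit 1824) (nat_lit 0) (XT.nd (nat_lit 78) (nat_lit 0) (nat_lit 0) (XT.lf (nat_lit 0) (nat_lit 413644209) (nat_lit 760) (nat_lit 736025535) (nat_lit 836) (nat_lit 5548740646) (nat_lit 710) (nat_lit 5) (nat_lit 720) (nat_lit 5) (nat_lit 721) (nat_lit 5) (nat_lit 539) (nat_lit 522) (nat_lit 499)) (XT.lf (nat_lit 0) (nat_lit 3755679017) (nat_lit 836) (nat_lit 2438428772) (nat_lit 76) (nat_lit 530270718) (nat_lit 710) (nat_lit 5) (nat_lit 721) (nat_lit 5) (nat_lit 711) (nat_lit 5) (nat_lit 540) (nat_lit 522) (nat_lit 498))) (XT.nd (nat_lit 78) (nat_lit 988) (nat_lit 0) (XT.lf (nat_lit 0) (nat_lit 1457495363) (nat_lit 836) (nat_lit 4910341105) (nat_lit 912) (nat_lit 383957243) (nat_lit 699) (nat_lit 5) (nat_lit 710) (nat_lit 5) (nat_lit 711) (nat_lit 5) (nat_lit 541) (nat_lit 522)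 (nat_lit 497)) (XT.nd (nat_lit 78) (nat_lit 912) (nat_lit 0) (XT.lf (nat_lit 0) (nat_lit 2179613281) (nat_lit 912) (nat_lit 1371881454) (nat_lit 76) (nat_lit 3228844456) (nat_lit 698) (nat_lit 5) (nat_lit 710) (nat_lit 5) (nat_lit 699) (nat_lit 5) (nat_lit 542) (nat_lit 522) (nat_lit 496)) (XT.lf (nat_lit 0) (nat_lit 2619512010) (nat_lit 912) (nat_lit 2128190518) (nat_lit 988) (nat_lit 2062542332) (nat_lit 686) (nat_lit 5) (nat_lit 698) (nat_lit 5) (nat_lit 699) (nat_lit 5) (nat_lit 543) (nat_lit 522) (nat_lit 495))))) (XT.nd (nat_lit 156) (nat_lit 2280) (nat_lit 0) (XT.nd (nat_lit 78) (nat_lit 988) (nat_lit 0) (XT.lf (nat_lit 0) (nat_lit 470637382) (nat_lit 988) (nat_lit 176506500) (nat_lit 76) (nat_lit 6194521183) (nat_lit 685) (nat_lit 5) (nat_lit 698) (nat_lit 5) (nat_lit 686) (nat_lit 5) (nat_lit 544) (nat_lit 522) (nat_lit 494)) (XT.lf (nat_lit 0) (nat_lit 3001284496) (nat_lit 1064) (nat_lit 2965334672) (nat_lit 76) (nat_lit 907340771) (nat_lit 672) (nat_lit 5) (nat_lit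 686) (nat_lit 5) (nat_lit 673) (nat_lit 5) (nat_lit 545) (nat_lit 522) (nat_lit 493))) (XT.nd (nat_lit 78) (nat_lit 1216) (nat_lit 0) (XT.lf (nat_lit 0) (nat_lit 1139695036) (nat_lit 1064) (nat_lit 4399689751) (nat_lit 1140) (nat_lit 1368386334) (nat_lit 658) (nat_lit 5) (nat_lit 672) (nat_lit 5) (nat_lit 673) (nat_lit 5) (nat_lit 546) (nat_lit 522) (nat_lit 492)) (XT.nd (nat_lit 78) (nat_lit 1140) (nat_lit 0) (XT.lf (nat_lit 0) (nat_lit 1134883102) (nat_lit 1140) (nat_lit 1625074971) (nat_lit 76) (nat_lit 4182864401) (nat_lit 657) (nat_lit 5) (nat_lit 672) (nat_lit 5) (nat_lit 658) (nat_lit 5) (nat_lit 547) (nat_lit 522) (nat_lit 491)) (XT.lf (nat_lit 0) (nat_lit 2584041972) (nat_lit 1140) (nat_lit 1048155802) (nat_lit 1216) (nat_lit 3346956929) (nat_lit 642) (nat_lit 5) (nat_lit 657) (nat_lit 5) (nat_lit 658) (nat_lit 5) (nat_lit 548) (nat_lit 522) (nat_lit 490)))))) (XT.nd (nat_lit 390) (nat_lit 4636) (nat_lit 0) (XT.nd (nat_lit 156) (nat_lit 2736) (nat_lit 0) (XT.nd (nat_lit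 78) (nat_lit 1292) (nat_lit 0) (XT.lf (nat_lit 0) (nat_lit 6141356074) (nat_lit 1216) (nat_lit 163688898) (nat_lit 76) (nat_lit 711937321) (nat_lit 642) (nat_lit 5) (nat_lit 658) (nat_lit 5) (nat_lit 643) (nat_lit 5) (nat_lit 549) (nat_lit 522) (nat_lit 489)) (XT.lf (nat_lit 0) (nat_lit 1604805324) (nat_lit 1292) (nat_lit 2908171160) (nat_lit 76) (nat_lit 2542757722) (nat_lit 625) (nat_lit 5) (nat_lit 642) (nat_lit 5) (nat_lit 626) (nat_lit 5) (nat_lit 550) (nat_lit 522) (nat_lit 488))) (XT.nd (nat_lit 78) (nat_lit 1444) (nat_lit 0) (XT.lf (nat_lit 0) (nat_lit 1422821576) (nat_lit 1292) (nat_lit 2658506691) (nat_lit 1368) (nat_lit 3014659266) (nat_lit 608) (nat_lit 5) (nat_lit 625) (nat_lit 5) (nat_lit 626) (nat_lit 5) (nat_lit 551) (nat_lit 522) (nat_lit 487)) (XT.nd (nat_lit 78) (nat_lit 1444) (nat_lit 0) (XT.lf (nat_lit 0) (nat_lit 5838079309) (nat_lit 1292) (nat_lit 737421806) (nat_lit 1368) (nat_lit 562188580) (nat_lit 608) (nat_lit 5) (nat_lit 625) (nat_lit 5) (nat_lit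 626) (nat_lit 5) (nat_lit 552) (nat_lit 522) (nat_lit 486)) (XT.lf (nat_lit 0) (nat_lit 1891823433) (nat_lit 1444) (nat_lit 4040317131) (nat_lit 76) (nat_lit 1248280893) (nat_lit 589) (nat_lit 5) (nat_lit 608) (nat_lit 5) (nat_lit 590) (nat_lit 5) (nat_lit 553) (nat_lit 522) (nat_lit 485))))) (XT.nd (nat_lit 156) (nat_lit 3192) (nat_lit 0) (XT.nd (nat_lit 78) (nat_lit 0) (nat_lit 0) (XT.lf (nat_lit 0) (nat_lit 416773258) (nat_lit 1444) (nat_lit 3937044534) (nat_lit 1520) (nat_lit 2870792947) (nat_lit 570) (nat_lit 5) (nat_lit 589) (nat_lit 5) (nat_lit 590) (nat_lit 5) (nat_lit 554) (nat_lit 522) (nat_lit 484)) (XT.lf (nat_lit 0) (nat_lit 4975627316) (nat_lit 1444) (nat_lit 1867297457) (nat_lit 1520) (nat_lit 427207267) (nat_lit 570) (nat_lit 5) (nat_lit 589) (nat_lit 5) (nat_lit 590) (nat_lit 5) (nat_lit 555) (nat_lit 522) (nat_lit 483))) (XT.nd (nat_lit 78) (nat_lit 1596) (nat_lit 0) (XT.lf (nat_lit 0) (nat_lit 2006204672) (nat_lit 1596) (nat_lit 5035123987) (nat_lit 76)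 (nat_lit 275611582) (nat_lit 549) (nat_lit 5) (nat_lit 570) (nat_lit 5) (nat_lit 550) (nat_lit 5) (nat_lit 556) (nat_lit 522) (nat_lit 482)) (XT.nd (nat_lit 78) (nat_lit 1596) (nat_lit 0) (XT.lf (nat_lit 0) (nat_lit 4462558400) (nat_lit 1596) (nat_lit 441606390) (nat_lit 76) (nat_lit 2460868823) (nat_lit 549) (nat_lit 5) (nat_lit 570) (nat_lit 5) (nat_lit 550) (nat_lit 5) (nat_lit 557) (nat_lit 522) (nat_lit 481)) (XT.lf (nat_lit 0) (nat_lit 4257761458) (nat_lit 1596) (nat_lit 2690983715) (nat_lit 1672) (nat_lit 465734816) (nat_lit 528) (nat_lit 5) (nat_lit 549) (nat_lit 5) (nat_lit 550) (nat_lit 5) (nat_lit 558) (nat_lit 522) (nat_lit 480))))))) (XT.nd (nat_lit 780) (nat_lit 5700) (nat_lit 0) (XT.nd (nat_lit 390) (nat_lit 3876) (nat_lit 0) (XT.nd (nat_lit 156) (nat_lit 3648) (nat_lit 0) (XT.nd (nat_lit 78) (nat_lit 0) (nat_lit 0) (XT.lf (nat_lit 0) (nat_lit 1557327910) (nat_lit 1672) (nat_lit 402417950) (nat_lit 1748) (nat_lit 5505582316) (nat_lit 505) (nat_lit 5) (nat_lit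 527) (nat_lit 5) (nat_lit 528) (nat_lit 5) (nat_lit 559) (nat_lit 522) (nat_lit 479)) (XT.lf (nat_lit 0) (nat_lit 4415440705) (nat_lit 1748) (nat_lit 1166975043) (nat_lit 76) (nat_lit 1934962148) (nat_lit 505) (nat_lit 5) (nat_lit 528) (nat_lit 5) (nat_lit 506) (nat_lit 5) (nat_lit 560) (nat_lit 522) (nat_lit 478))) (XT.nd (nat_lit 78) (nat_lit 1900) (nat_lit 0) (XT.lf (nat_lit 0) (nat_lit 3672326848) (nat_lit 1748) (nat_lit 3229399510) (nat_lit 1824) (nat_lit 669117569) (nat_lit 482) (nat_lit 5) (nat_lit 505) (nat_lit 5) (nat_lit 506) (nat_lit 5) (nat_lit 561) (nat_lit 522) (nat_lit 477)) (XT.nd (nat_lit 78) (nat_lit 0) (nat_lit 0) (XT.lf (nat_lit 0) (nat_lit 957383735) (nat_lit 1824) (nat_lit 800585791) (nat_lit 1900) (nat_lit 5867791467) (nat_lit 457) (nat_lit 5) (nat_lit 481) (nat_lit 5) (nat_lit 482) (nat_lit 5) (nat_lit 562) (nat_lit 522) (nat_lit 476)) (XT.lf (nat_lit 0) (nat_lit 4217766933) (nat_lit 1900) (nat_lit 1776482341) (nat_lit 76) (nat_lit 1687580684) (nat_lit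 457) (nat_lit 5) (nat_lit 482) (nat_lit 5) (nat_lit 458) (nat_lit 5) (nat_lit 563) (nat_lit 522) (nat_lit 475))))) (XT.nd (nat_lit 156) (nat_lit 1824) (nat_lit 0) (XT.nd (nat_lit 78) (nat_lit 988) (nat_lit 0) (XT.lf (nat_lit 0) (nat_lit 3207877596) (nat_lit 1064) (nat_lit 3501775387) (nat_lit 1140) (nat_lit 1029713950) (nat_lit 443) (nat_lit 5) (nat_lit 457) (nat_lit 5) (nat_lit 458) (nat_lit 5) (nat_lit 564) (nat_lit 522) (nat_lit 474)) (XT.lf (nat_lit 0) (nat_lit 472429628) (nat_lit 912) (nat_lit 933951538) (nat_lit 988) (nat_lit 6392046681) (nat_lit 430) (nat_lit 5) (nat_lit 442) (nat_lit 5) (nat_lit 443) (nat_lit 5) (nat_lit 565) (nat_lit 522) (nat_lit 473))) (XT.nd (nat_lit 78) (nat_lit 1824) (nat_lit 0) (XT.lf (nat_lit 0) (nat_lit 3876596912) (nat_lit 988) (nat_lit 2281186304) (nat_lit 76) (nat_lit 1700771130) (nat_lit 430) (nat_lit 5) (nat_lit 443) (nat_lit 5) (nat_lit 431) (nat_lit 5) (nat_lit 566) (nat_lit 522) (nat_lit 472)) (XT.nd (nat_lit 78) (nat_lit 912) (nat_lit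 0) (XT.lf (nat_lit 0) (nat_lit 2853590824) (nat_lit 912) (nat_lit 3525791626) (nat_lit 988) (nat_lit 1540841759) (nat_lit 418) (nat_lit 5) (nat_lit 430) (nat_lit 5) (nat_lit 431) (nat_lit 5) (nat_lit 567) (nat_lit 522) (nat_lit 471)) (XT.lf (nat_lit 0) (nat_lit 91656413) (nat_lit 836) (nat_lit 819716727) (nat_lit 912) (nat_lit 7072140579) (nat_lit 406) (nat_lit 5) (nat_lit 417) (nat_lit 5) (nat_lit 418) (nat_lit 5) (nat_lit 568) (nat_lit 522) (nat_lit 470)))))) (XT.nd (nat_lit 390) (nat_lit 3116) (nat_lit 0) (XT.nd (nat_lit 156) (nat_lit 1748) (nat_lit 0) (XT.nd (nat_lit 78) (nat_lit 836) (nat_lit 0) (XT.lf (nat_lit 0) (nat_lit 3398090019) (nat_lit 912) (nat_lit 2691602464) (nat_lit 76) (nat_lit 1958054950) (nat_lit 406) (nat_lit 5) (nat_lit 418) (nat_lit 5) (nat_lit 407) (nat_lit 5) (nat_lit 569) (nat_lit 522) (nat_lit 469)) (XT.lf (nat_lit 0) (nat_lit 2599183626) (nat_lit 836) (nat_lit 3317707354) (nat_lit 912) (nat_lit 2196731674) (nat_lit 395) (nat_lit 5) (nat_lit 406)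 (nat_lit 5) (nat_lit 407) (nat_lit 5) (nat_lit 570) (nat_lit 522) (nat_lit 468))) (XT.nd (nat_lit 78) (nat_lit 1672) (nat_lit 0) (XT.lf (nat_lit 0) (nat_lit 279723099) (nat_lit 912) (nat_lit 192673039) (nat_lit 76) (nat_lit 7708813804) (nat_lit 394) (nat_lit 5) (nat_lit 406) (nat_lit 5) (nat_lit 395) (nat_lit 5) (nat_lit 571) (nat_lit 522) (nat_lit 467)) (XT.nd (nat_lit 78) (nat_lit 836) (nat_lit 0) (XT.lf (nat_lit 0) (nat_lit 2787547197) (nat_lit 912) (nat_lit 3017784532) (nat_lit 76) (nat_lit 2444305357) (nat_lit 383) (nat_lit 5) (nat_lit 395) (nat_lit 5) (nat_lit 384) (nat_lit 5) (nat_lit 572) (nat_lit 522) (nat_lit 466)) (XT.lf (nat_lit 0) (nat_lit 2434832363) (nat_lit 836) (nat_lit 2892481544) (nat_lit 912) (nat_lit 2992486680) (nat_lit 372) (nat_lit 5) (nat_lit 383) (nat_lit 5) (nat_lit 384) (nat_lit 5) (nat_lit 573) (nat_lit 522) (nat_lit 465))))) (XT.nd (nat_lit 234) (nat_lit 1520) (nat_lit 0) (XT.nd (nat_lit 78) (nat_lit 1596) (nat_lit 0) (XT.lf (nat_lit 0) (nat_lit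 7900777323) (nat_lit 912) (nat_lit 396697528) (nat_lit 76) (nat_lit 94237946) (nat_lit 372) (nat_lit 5) (nat_lit 384) (nat_lit 5) (nat_lit 373) (nat_lit 5) (nat_lit 574) (nat_lit 522) (nat_lit 464)) (XT.nd (nat_lit 78) (nat_lit 760) (nat_lit 0) (XT.lf (nat_lit 0) (nat_lit 2049447319) (nat_lit 836) (nat_lit 3269403236) (nat_lit 76) (nat_lit 3145631922) (nat_lit 361) (nat_lit 5) (nat_lit 372) (nat_lit 5) (nat_lit 362) (nat_lit 5) (nat_lit 575) (nat_lit 522) (nat_lit 463)) (XT.lf (nat_lit 0) (nat_lit 2351093683) (nat_lit 760) (nat_lit 2263886691) (nat_lit 836) (nat_lit 3924047215) (nat_lit 351) (nat_lit 5) (nat_lit 361) (nat_lit 5) (nat_lit 362) (nat_lit 5) (nat_lit 576) (nat_lit 522) (nat_lit 462)))) (XT.nd (nat_lit 78) (nat_lit 1520) (nat_lit 0) (XT.lf (nat_lit 0) (nat_lit 7222830566) (nat_lit 836) (nat_lit 534298417) (nat_lit 76) (nat_lit 858117696) (nat_lit 351) (nat_lit 5) (nat_lit 362) (nat_lit 5) (nat_lit 352) (nat_lit 5) (nat_lit 577) (nat_lit 522) (nat_lit 461)) (XT.nd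 (nat_lit 78) (nat_lit 760) (nat_lit 0) (XT.lf (nat_lit 0) (nat_lit 1187478094) (nat_lit 760) (nat_lit 3455823928) (nat_lit 76) (nat_lit 4049271991) (nat_lit 341) (nat_lit 5) (nat_lit 351) (nat_lit 5) (nat_lit 342) (nat_lit 5) (nat_lit 578) (nat_lit 522) (nat_lit 460)) (XT.lf (nat_lit 0) (nat_lit 2338826657) (nat_lit 760) (nat_lit 1444615987) (nat_lit 836) (nat_lit 4988161850) (nat_lit 331) (nat_lit 5) (nat_lit 341) (nat_lit 5) (nat_lit 342) (nat_lit 5) (nat_lit 579) (nat_lit 522) (nat_lit 459))))))))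
noncomputable def xc75 : XT := (XT.nd (nat_lit 1560) (nat_lit 6232) (nat_lit 0) (XT.nd (nat_lit 780) (nat_lit 4028) (nat_lit 0) (XT.nd (nat_lit 390) (nat_lit 2052) (nat_lit 0) (XT.nd (nat_lit 156) (nat_lit 1292) (nat_lit 0) (XT.nd (nat_lit 78) (nat_lit 760) (nat_lit 0) (XT.lf (nat_lit 0) (nat_lit 6431170591) (nat_lit 836) (nat_lit 609576847) (nat_lit 76) (nat_lit 1811474227) (nat_lit 331) (nat_lit 5) (nat_lit 342) (nat_lit 5) (nat_lit 332) (nat_lit 5) (nat_lit 580) (nat_lit 522) (nat_lit 458)) (XT.lf (nat_lit 0) (nat_lit 204561653) (nat_lit 760) (nat_lit 3586183577) (nat_lit 76) (nat_lit 5143488184) (nat_lit 321) (nat_lit 5) (nat_lit 331) (nat_lit 5) (nat_lit 322) (nat_lit 5) (nat_lit 581) (nat_lit 522) (nat_lit 457))) (XT.nd (nat_lit 78) (nat_lit 608) (nat_lit 0) (XT.lf (nat_lit 0) (nat_lit 2389115432) (nat_lit 684) (nat_lit 446384700) (nat_lit 760) (nat_lit 6182363364) (nat_lit 312) (nat_lit 5) (nat_lit 321) (nat_lit 5) (nat_lit 322) (nat_lit 5) (nat_lit 582) (nat_lit 522)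 (nat_lit 456)) (XT.nd (nat_lit 78) (nat_lit 608) (nat_lit 0) (XT.lf (nat_lit 0) (nat_lit 5528464763) (nat_lit 760) (nat_lit 631372205) (nat_lit 76) (nat_lit 2943143800) (nat_lit 312) (nat_lit 5) (nat_lit 322) (nat_lit 5) (nat_lit 313) (nat_lit 5) (nat_lit 583) (nat_lit 522) (nat_lit 455)) (XT.lf (nat_lit 0) (nat_lit 5514325985) (nat_lit 608) (nat_lit 2766322505) (nat_lit 684) (nat_lit 909047378) (nat_lit 304) (nat_lit 5) (nat_lit 312) (nat_lit 5) (nat_lit 313) (nat_lit 5) (nat_lit 584) (nat_lit 522) (nat_lit 454))))) (XT.nd (nat_lit 156) (nat_lit 1292) (nat_lit 0) (XT.nd (nat_lit 78) (nat_lit 0) (nat_lit 0) (XT.lf (nat_lit 0) (nat_lit 1777892835) (nat_lit 760) (nat_lit 6789651171) (nat_lit 76) (nat_lit 710530897) (nat_lit 294) (nat_lit 5) (nat_lit 304) (nat_lit 5) (nat_lit 295) (nat_lit 5) (nat_lit 585) (nat_lit 522) (nat_lit 453)) (XT.lf (nat_lit 0) (nat_lit 4516662147) (nat_lit 760) (nat_lit 608419144) (nat_lit 76) (nat_lit 4242817329) (nat_lit 294) (nat_lit 5) (nat_lit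 304) (nat_lit 5) (nat_lit 295) (nat_lit 5) (nat_lit 586) (nat_lit 522) (nat_lit 452))) (XT.nd (nat_lit 78) (nat_lit 684) (nat_lit 0) (XT.lf (nat_lit 0) (nat_lit 5730912021) (nat_lit 608) (nat_lit 1584252766) (nat_lit 684) (nat_lit 2144257342) (nat_lit 286) (nat_lit 5) (nat_lit 294) (nat_lit 5) (nat_lit 295) (nat_lit 5) (nat_lit 587) (nat_lit 522) (nat_lit 451)) (XT.nd (nat_lit 78) (nat_lit 0) (nat_lit 0) (XT.lf (nat_lit 0) (nat_lit 611216075) (nat_lit 684) (nat_lit 6923831806) (nat_lit 76) (nat_lit 2017601607) (nat_lit 277) (nat_lit 5) (nat_lit 286) (nat_lit 5) (nat_lit 278) (nat_lit 5) (nat_lit 588) (nat_lit 522) (nat_lit 450)) (XT.lf (nat_lit 0) (nat_lit 3397005733) (nat_lit 684) (nat_lit 549425198) (nat_lit 76) (nat_lit 5700950957) (nat_lit 277) (nat_lit 5) (nat_lit 286) (nat_lit 5) (nat_lit 278) (nat_lit 5) (nat_lit 589) (nat_lit 522) (nat_lit 449)))))) (XT.nd (nat_lit 390) (nat_lit 1672) (nat_lit 0) (XT.nd (nat_lit 156) (nat_lit 1140) (nat_lit 0) (XT.nd (nat_lit 78) (nat_lit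 608) (nat_lit 0) (XT.lf (nat_lit 0) (nat_lit 5990686154) (nat_lit 608) (nat_lit 255557633) (nat_lit 684) (nat_lit 3497612786) (nat_lit 269) (nat_lit 5) (nat_lit 277) (nat_lit 5) (nat_lit 278) (nat_lit 5) (nat_lit 590) (nat_lit 522) (nat_lit 448)) (XT.lf (nat_lit 0) (nat_lit 2800131409) (nat_lit 608) (nat_lit 6366138116) (nat_lit 684) (nat_lit 675717410) (nat_lit 261) (nat_lit 5) (nat_lit 269) (nat_lit 5) (nat_lit 270) (nat_lit 5) (nat_lit 591) (nat_lit 522) (nat_lit 447))) (XT.nd (nat_lit 78) (nat_lit 1064) (nat_lit 0) (XT.lf (nat_lit 0) (nat_lit 2170039622) (nat_lit 684) (nat_lit 463150064) (nat_lit 76) (nat_lit 7308680127) (nat_lit 260) (nat_lit 5) (nat_lit 269) (nat_lit 5) (nat_lit 261) (nat_lit 5) (nat_lit 592) (nat_lit 522) (nat_lit 446)) (XT.nd (nat_lit 78) (nat_lit 532) (nat_lit 0) (XT.lf (nat_lit 0) (nat_lit 5082209482) (nat_lit 608) (nat_lit 3766214216) (nat_lit 76) (nat_lit 1194868524) (nat_lit 253) (nat_lit 5) (nat_lit 261) (nat_lit 5) (nat_lit 254) (nat_lit 5)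 (nat_lit 593) (nat_lit 522) (nat_lit 445)) (XT.lf (nat_lit 0) (nat_lit 2993246870) (nat_lit 532) (nat_lit 5069514435) (nat_lit 608) (nat_lit 2083781076) (nat_lit 246) (nat_lit 5) (nat_lit 253) (nat_lit 5) (nat_lit 254) (nat_lit 5) (nat_lit 594) (nat_lit 522) (nat_lit 444))))) (XT.nd (nat_lit 156) (nat_lit 1064) (nat_lit 0) (XT.nd (nat_lit 78) (nat_lit 532) (nat_lit 0) (XT.lf (nat_lit 0) (nat_lit 835611158) (nat_lit 608) (nat_lit 358487232) (nat_lit 76) (nat_lit 9057736500) (nat_lit 245) (nat_lit 5) (nat_lit 253) (nat_lit 5) (nat_lit 246) (nat_lit 5) (nat_lit 595) (nat_lit 522) (nat_lit 443)) (XT.lf (nat_lit 0) (nat_lit 3817470953) (nat_lit 608) (nat_lit 3771454506) (nat_lit 76) (nat_lit 2769394638) (nat_lit 238) (nat_lit 5) (nat_lit 246) (nat_lit 5) (nat_lit 239) (nat_lit 5) (nat_lit 596) (nat_lit 522) (nat_lit 442))) (XT.nd (nat_lit 78) (nat_lit 532) (nat_lit 0) (XT.lf (nat_lit 0) (nat_lit 3203337235) (nat_lit 532) (nat_lit 3657855185) (nat_lit 608) (nat_lit 3605700011) (nat_lit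 231) (nat_lit 5) (nat_lit 238) (nat_lit 5) (nat_lit 239) (nat_lit 5) (nat_lit 597) (nat_lit 522) (nat_lit 441)) (XT.nd (nat_lit 78) (nat_lit 532) (nat_lit 0) (XT.lf (nat_lit 0) (nat_lit 9964883832) (nat_lit 608) (nat_lit 250923545) (nat_lit 76) (nat_lit 361848802) (nat_lit 231) (nat_lit 5) (nat_lit 239) (nat_lit 5) (nat_lit 232) (nat_lit 5) (nat_lit 598) (nat_lit 522) (nat_lit 440)) (XT.lf (nat_lit 0) (nat_lit 2449394154) (nat_lit 532) (nat_lit 3776616889) (nat_lit 76) (nat_lit 4463481488) (nat_lit 224) (nat_lit 5) (nat_lit 231) (nat_lit 5) (nat_lit 225) (nat_lit 5) (nat_lit 599) (nat_lit 522) (nat_lit 439))))))) (XT.nd (nat_lit 780) (nat_lit 2812) (nat_lit 0) (XT.nd (nat_lit 390) (nat_lit 1900) (nat_lit 0) (XT.nd (nat_lit 156) (nat_lit 988) (nat_lit 0) (XT.nd (nat_lit 78) (nat_lit 0) (nat_lit 0) (XT.lf (nat_lit 0) (nat_lit 3421202124) (nat_lit 532) (nat_lit 2139320979) (nat_lit 608) (nat_lit 5243044785) (nat_lit 217) (nat_lit 5) (nat_lit 224) (nat_lit 5) (nat_lit 225) (nat_lit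 5) (nat_lit 600) (nat_lit 522) (nat_lit 438)) (XT.lf (nat_lit 0) (nat_lit 8744788789) (nat_lit 608) (nat_lit 158229890) (nat_lit 76) (nat_lit 2016689523) (nat_lit 217) (nat_lit 5) (nat_lit 225) (nat_lit 5) (nat_lit 218) (nat_lit 5) (nat_lit 601) (nat_lit 522) (nat_lit 437))) (XT.nd (nat_lit 78) (nat_lit 456) (nat_lit 0) (XT.lf (nat_lit 0) (nat_lit 976301859) (nat_lit 532) (nat_lit 3791440122) (nat_lit 76) (nat_lit 6269621999) (nat_lit 210) (nat_lit 5) (nat_lit 217) (nat_lit 5) (nat_lit 211) (nat_lit 5) (nat_lit 602) (nat_lit 522) (nat_lit 436)) (XT.nd (nat_lit 78) (nat_lit 0) (nat_lit 0) (XT.lf (nat_lit 0) (nat_lit 3637277383) (nat_lit 456) (nat_lit 521736275) (nat_lit 532) (nat_lit 6998121560) (nat_lit 204) (nat_lit 5) (nat_lit 210) (nat_lit 5) (nat_lit 211) (nat_lit 5) (nat_lit 603) (nat_lit 522) (nat_lit 435)) (XT.lf (nat_lit 0) (nat_lit 7428802536) (nat_lit 532) (nat_lit 76904696) (nat_lit 76) (nat_lit 3773127793) (nat_lit 204) (nat_lit 5) (nat_lit 211) (nat_lit 5) (nat_lit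 205) (nat_lit 5) (nat_lit 604) (nat_lit 522) (nat_lit 434))))) (XT.nd (nat_lit 156) (nat_lit 912) (nat_lit 0) (XT.nd (nat_lit 78) (nat_lit 532) (nat_lit 0) (XT.lf (nat_lit 0) (nat_lit 7572358677) (nat_lit 456) (nat_lit 3217856342) (nat_lit 532) (nat_lit 612230823) (nat_lit 198) (nat_lit 5) (nat_lit 204) (nat_lit 5) (nat_lit 205) (nat_lit 5) (nat_lit 605) (nat_lit 522) (nat_lit 433)) (XT.lf (nat_lit 0) (nat_lit 2661916102) (nat_lit 532) (nat_lit 7694368577) (nat_lit 76) (nat_lit 1171758891) (nat_lit 191) (nat_lit 5) (nat_lit 198) (nat_lit 5) (nat_lit 192) (nat_lit 5) (nat_lit 606) (nat_lit 522) (nat_lit 432))) (XT.nd (nat_lit 78) (nat_lit 912) (nat_lit 0) (XT.lf (nat_lit 0) (nat_lit 6014429302) (nat_lit 532) (nat_lit 17238178) (nat_lit 76) (nat_lit 5623984693) (nat_lit 191) (nat_lit 5) (nat_lit 198) (nat_lit 5) (nat_lit 192) (nat_lit 5) (nat_lit 607) (nat_lit 522) (nat_lit 431)) (XT.nd (nat_lit 78) (nat_lit 532) (nat_lit 0) (XT.lf (nat_lit 0) (nat_lit 7878831660) (nat_lit 380)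 (nat_lit 1580718673) (nat_lit 456) (nat_lit 2325752916) (nat_lit 186) (nat_lit 5) (nat_lit 191) (nat_lit 5) (nat_lit 192) (nat_lit 5) (nat_lit 608) (nat_lit 522) (nat_lit 430)) (XT.lf (nat_lit 0) (nat_lit 1062257740) (nat_lit 532) (nat_lit 7913352710) (nat_lit 76) (nat_lit 2941399535) (nat_lit 179) (nat_lit 5) (nat_lit 186) (nat_lit 5) (nat_lit 180) (nat_lit 5) (nat_lit 609) (nat_lit 522) (nat_lit 429)))))) (XT.nd (nat_lit 390) (nat_lit 1596) (nat_lit 0) (XT.nd (nat_lit 156) (nat_lit 836) (nat_lit 0) (XT.nd (nat_lit 78) (nat_lit 0) (nat_lit 0) (XT.lf (nat_lit 0) (nat_lit 10001028) (nat_lit 380) (nat_lit 4488500793) (nat_lit 456) (nat_lit 7552310637) (nat_lit 174) (nat_lit 5) (nat_lit 179) (nat_lit 5) (nat_lit 180) (nat_lit 5) (nat_lit 610) (nat_lit 522) (nat_lit 428)) (XT.lf (nat_lit 0) (nat_lit 8032330280) (nat_lit 456) (nat_lit 4026434260) (nat_lit 76) (nat_lit 127950589) (nat_lit 174) (nat_lit 5) (nat_lit 180) (nat_lit 5) (nat_lit 175) (nat_lit 5) (nat_lit 611) (nat_lit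 522) (nat_lit 427))) (XT.nd (nat_lit 78) (nat_lit 456) (nat_lit 0) (XT.lf (nat_lit 0) (nat_lit 4135121030) (nat_lit 380) (nat_lit 7533612326) (nat_lit 456) (nat_lit 655965852) (nat_lit 169) (nat_lit 5) (nat_lit 174) (nat_lit 5) (nat_lit 175) (nat_lit 5) (nat_lit 612) (nat_lit 522) (nat_lit 426)) (XT.nd (nat_lit 78) (nat_lit 380) (nat_lit 0) (XT.lf (nat_lit 0) (nat_lit 2876826062) (nat_lit 456) (nat_lit 7201854) (nat_lit 76) (nat_lit 9580986099) (nat_lit 168) (nat_lit 5) (nat_lit 174) (nat_lit 5) (nat_lit 169) (nat_lit 5) (nat_lit 613) (nat_lit 522) (nat_lit 425)) (XT.lf (nat_lit 0) (nat_lit 6514346740) (nat_lit 456) (nat_lit 4212024891) (nat_lit 76) (nat_lit 1880820879) (nat_lit 163) (nat_lit 5) (nat_lit 169) (nat_lit 5) (nat_lit 164) (nat_lit 5) (nat_lit 614) (nat_lit 522) (nat_lit 424))))) (XT.nd (nat_lit 234) (nat_lit 760) (nat_lit 0) (XT.nd (nat_lit 78) (nat_lit 456) (nat_lit 0) (XT.lf (nat_lit 0) (nat_lit 4212505489) (nat_lit 380) (nat_lit 6034647348) (nat_lit 456) (nat_lit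 2504612254) (nat_lit 158) (nat_lit 5) (nat_lit 163) (nat_lit 5) (nat_lit 164) (nat_lit 5) (nat_lit 615) (nat_lit 522) (nat_lit 423)) (XT.nd (nat_lit 78) (nat_lit 380) (nat_lit 0) (XT.lf (nat_lit 0) (nat_lit 1144793545) (nat_lit 456) (nat_lit 80916408) (nat_lit 76) (nat_lit 11673279091) (nat_lit 157) (nat_lit 5) (nat_lit 163) (nat_lit 5) (nat_lit 158) (nat_lit 5) (nat_lit 616) (nat_lit 522) (nat_lit 422)) (XT.lf (nat_lit 0) (nat_lit 4890422175) (nat_lit 456) (nat_lit 4466036893) (nat_lit 76) (nat_lit 3691233012) (nat_lit 152) (nat_lit 5) (nat_lit 158) (nat_lit 5) (nat_lit 153) (nat_lit 5) (nat_lit 617) (nat_lit 522) (nat_lit 421)))) (XT.nd (nat_lit 78) (nat_lit 380) (nat_lit 0) (XT.lf (nat_lit 0) (nat_lit 4229975693) (nat_lit 380) (nat_lit 4493832053) (nat_lit 456) (nat_lit 4475305665) (nat_lit 147) (nat_lit 5) (nat_lit 152) (nat_lit 5) (nat_lit 153) (nat_lit 5) (nat_lit 618) (nat_lit 522) (nat_lit 420)) (XT.nd (nat_lit 78) (nat_lit 380) (nat_lit 0) (XT.lf (nat_lit 0) (nat_lit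 12643905714) (nat_lit 456) (nat_lit 232473641) (nat_lit 76) (nat_lit 476984020) (nat_lit 147) (nat_lit 5) (nat_lit 153) (nat_lit 5) (nat_lit 148) (nat_lit 5) (nat_lit 619) (nat_lit 522) (nat_lit 419)) (XT.lf (nat_lit 0) (nat_lit 3154786105) (nat_lit 380) (nat_lit 4802564580) (nat_lit 76) (nat_lit 5551659014) (nat_lit 142) (nat_lit 5) (nat_lit 147) (nat_lit 5) (nat_lit 143) (nat_lit 5) (nat_lit 620) (nat_lit 522) (nat_lit 418))))))))
noncomputable def xc76 : XT := (XT.nd (nat_lit 74958) (nat_lit 0) (nat_lit 26144) (XT.nd (nat_lit 74178) (nat_lit 0) (nat_lit 43548) (XT.nd (nat_lit 73788) (nat_lit 0) (nat_lit 46740) (XT.nd (nat_lit 73554) (nat_lit 0) (nat_lit 47576) (XT.nd (nat_lit 78) (nat_lit 0) (nat_lit 0) (XT.lf (nat_lit 0) (nat_lit 4173506327) (nat_lit 380) (nat_lit 2919352748) (nat_lit 456) (nat_lit 6574696239) (nat_lit 137) (nat_lit 5) (nat_lit 142) (nat_lit 5) (nat_lit 143) (nat_lit 5) (nat_lit 621) (nat_lit 522) (nat_lit 417)) (XT.lf (nat_lit 0) (nat_lit 11134036043)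 (nat_lit 456) (nat_lit 485253842) (nat_lit 76) (nat_lit 2209496123) (nat_lit 137) (nat_lit 5) (nat_lit 143) (nat_lit 5) (nat_lit 138) (nat_lit 5) (nat_lit 622) (nat_lit 522) (nat_lit 416))) (XT.nd (nat_lit 78) (nat_lit 380) (nat_lit 0) (XT.lf (nat_lit 0) (nat_lit 1359326041) (nat_lit 0) (nat_lit 1359326041) (nat_lit 228) (nat_lit 511015760) (nat_lit 768) (nat_lit 5) (nat_lit 768) (nat_lit 3) (nat_lit 771) (nat_lit 3) (nat_lit 523) (nat_lit 523) (nat_lit 514)) (XT.nd (nat_lit 78) (nat_lit 0) (nat_lit 0) (XT.lf (nat_lit 0) (nat_lit 1874083085) (nat_lit 380) (nat_lit 533580236) (nat_lit 380) (nat_lit 4058065004) (nat_lit 763) (nat_lit 3) (nat_lit 768) (nat_lit 3) (nat_lit 768) (nat_lit 5) (nat_lit 524) (nat_lit 523) (nat_lit 513)) (XT.lf (nat_lit 76) (nat_lit 2727969974) (nat_lit 0) (nat_lit 2028310490) (nat_lit 380) (nat_lit 1717008888) (nat_lit 764) (nat_lit 5) (nat_lit 763) (nat_lit 3) (nat_lit 768) (nat_lit 5) (nat_lit 525) (nat_lit 523) (nat_lit 512))))) (XT.nd (nat_lit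 156) (nat_lit 456) (nat_lit 0) (XT.nd (nat_lit 78) (nat_lit 0) (nat_lit 0) (XT.lf (nat_lit 0) (nat_lit 1127640608) (nat_lit 380) (nat_lit 466319784) (nat_lit 456) (nat_lit 4888326355) (nat_lit 758) (nat_lit 5) (nat_lit 763) (nat_lit 3) (nat_lit 764) (nat_lit 5) (nat_lit 526) (nat_lit 523) (nat_lit 511)) (XT.lf (nat_lit 76) (nat_lit 2865787211) (nat_lit 0) (nat_lit 1085359316) (nat_lit 456) (nat_lit 2541203325) (nat_lit 759) (nat_lit 5) (nat_lit 758) (nat_lit 5) (nat_lit 764) (nat_lit 5) (nat_lit 527) (nat_lit 523) (nat_lit 510))) (XT.nd (nat_lit 78) (nat_lit 0) (nat_lit 76) (XT.lf (nat_lit 0) (nat_lit 254379586) (nat_lit 456) (nat_lit 273261397) (nat_lit 532) (nat_lit 5976338360) (nat_lit 752) (nat_lit 5) (nat_lit 758) (nat_lit 5) (nat_lit 759) (nat_lit 5) (nat_lit 528) (nat_lit 523) (nat_lit 509)) (XT.nd (nat_lit 78) (nat_lit 0) (nat_lit 0) (XT.lf (nat_lit 0) (nat_lit 3021406918) (nat_lit 456) (nat_lit 3384545285) (nat_lit 532) (nat_lit 110573237) (nat_lit 753) (nat_lit 5)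 (nat_lit 759) (nat_lit 5) (nat_lit 760) (nat_lit 5) (nat_lit 529) (nat_lit 523) (nat_lit 508)) (XT.lf (nat_lit 76) (nat_lit 36706883) (nat_lit 0) (nat_lit 5742468190) (nat_lit 532) (nat_lit 751450315) (nat_lit 754) (nat_lit 5) (nat_lit 753) (nat_lit 5) (nat_lit 760) (nat_lit 5) (nat_lit 530) (nat_lit 523) (nat_lit 507)))))) (XT.nd (nat_lit 390) (nat_lit 2128) (nat_lit 0) (XT.nd (nat_lit 156) (nat_lit 608) (nat_lit 0) (XT.nd (nat_lit 78) (nat_lit 0) (nat_lit 0) (XT.lf (nat_lit 0) (nat_lit 1973577576) (nat_lit 532) (nat_lit 3026416306) (nat_lit 608) (nat_lit 1545691455) (nat_lit 746) (nat_lit 5) (nat_lit 753) (nat_lit 5) (nat_lit 754) (nat_lit 5) (nat_lit 531) (nat_lit 523) (nat_lit 506)) (XT.lf (nat_lit 76) (nat_lit 471760172) (nat_lit 0) (nat_lit 4206191416) (nat_lit 608) (nat_lit 1884307709) (nat_lit 747) (nat_lit 5) (nat_lit 746) (nat_lit 5) (nat_lit 754) (nat_lit 5) (nat_lit 532) (nat_lit 523) (nat_lit 505))) (XT.nd (nat_lit 78) (nat_lit 0) (nat_lit 0) (XT.lf (nat_lit 0)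 (nat_lit 798908872) (nat_lit 608) (nat_lit 2544066386) (nat_lit 684) (nat_lit 3237029994) (nat_lit 738) (nat_lit 5) (nat_lit 746) (nat_lit 5) (nat_lit 747) (nat_lit 5) (nat_lit 533) (nat_lit 523) (nat_lit 504)) (XT.nd (nat_lit 78) (nat_lit 0) (nat_lit 0) (XT.lf (nat_lit 76) (nat_lit 1034648937) (nat_lit 0) (nat_lit 2416435645) (nat_lit 684) (nat_lit 3147971636) (nat_lit 739) (nat_lit 5) (nat_lit 738) (nat_lit 5) (nat_lit 747) (nat_lit 5) (nat_lit 534) (nat_lit 523) (nat_lit 503)) (XT.lf (nat_lit 76) (nat_lit 4679948665) (nat_lit 0) (nat_lit 1428253673) (nat_lit 684) (nat_lit 511257413) (nat_lit 739) (nat_lit 5) (nat_lit 738) (nat_lit 5) (nat_lit 747) (nat_lit 5) (nat_lit 535) (nat_lit 523) (nat_lit 502))))) (XT.nd (nat_lit 156) (nat_lit 1444) (nat_lit 0) (XT.nd (nat_lit 78) (nat_lit 0) (nat_lit 76) (XT.lf (nat_lit 76) (nat_lit 1726822967) (nat_lit 0) (nat_lit 369684499) (nat_lit 760) (nat_lit 4544552517) (nat_lit 730) (nat_lit 5) (nat_lit 729) (nat_lit 5) (nat_lit 739) (nat_lit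 5) (nat_lit 536) (nat_lit 523) (nat_lit 501)) (XT.lf (nat_lit 0) (nat_lit 4704133923) (nat_lit 684) (nat_lit 1218876229) (nat_lit 76) (nat_lit 740932409) (nat_lit 730) (nat_lit 5) (nat_lit 739) (nat_lit 5) (nat_lit 731) (nat_lit 5) (nat_lit 537) (nat_lit 523) (nat_lit 500))) (XT.nd (nat_lit 78) (nat_lit 760) (nat_lit 0) (XT.lf (nat_lit 0) (nat_lit 624483640) (nat_lit 760) (nat_lit 4150923686) (nat_lit 76) (nat_lit 1912661671) (nat_lit 720) (nat_lit 5) (nat_lit 730) (nat_lit 5) (nat_lit 721) (nat_lit 5) (nat_lit 538) (nat_lit 523) (nat_lit 499)) (XT.nd (nat_lit 78) (nat_lit 760) (nat_lit 0) (XT.lf (nat_lit 0) (nat_lit 3181094980) (nat_lit 760) (nat_lit 381237072) (nat_lit 76) (nat_lit 3151157774) (nat_lit 720) (nat_lit 5) (nat_lit 730) (nat_lit 5) (nat_lit 721) (nat_lit 5) (nat_lit 539) (nat_lit 523) (nat_lit 498)) (XT.lf (nat_lit 0) (nat_lit 3469643233) (nat_lit 760) (nat_lit 2281543179) (nat_lit 836) (nat_lit 988993989) (nat_lit 710) (nat_lit 5) (nat_lit 720) (nat_lit 5)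 (nat_lit 721) (nat_lit 5) (nat_lit 540) (nat_lit 523) (nat_lit 497))))))) (XT.nd (nat_lit 780) (nat_lit 10944) (nat_lit 0) (XT.nd (nat_lit 390) (nat_lit 3572) (nat_lit 0) (XT.nd (nat_lit 156) (nat_lit 1976) (nat_lit 0) (XT.nd (nat_lit 78) (nat_lit 0) (nat_lit 0) (XT.lf (nat_lit 0) (nat_lit 592441236) (nat_lit 836) (nat_lit 938546040) (nat_lit 912) (nat_lit 5237281708) (nat_lit 698) (nat_lit 5) (nat_lit 709) (nat_lit 5) (nat_lit 710) (nat_lit 5) (nat_lit 541) (nat_lit 523) (nat_lit 496)) (XT.lf (nat_lit 0) (nat_lit 4054406729) (nat_lit 912) (nat_lit 2270247905) (nat_lit 76) (nat_lit 472816145) (nat_lit 698) (nat_lit 5) (nat_lit 710) (nat_lit 5) (nat_lit 699) (nat_lit 5) (nat_lit 542) (nat_lit 523) (nat_lit 495))) (XT.nd (nat_lit 78) (nat_lit 1064) (nat_lit 0) (XT.lf (nat_lit 0) (nat_lit 1688903391) (nat_lit 912) (nat_lit 4899097770) (nat_lit 988) (nat_lit 240068973) (nat_lit 686) (nat_lit 5) (nat_lit 698) (nat_lit 5) (nat_lit 699) (nat_lit 5) (nat_lit 543) (nat_lit 523) (nat_lit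 494)) (XT.nd (nat_lit 78) (nat_lit 988) (nat_lit 0) (XT.lf (nat_lit 0) (nat_lit 2240995390) (nat_lit 988) (nat_lit 1157056927) (nat_lit 76) (nat_lit 3461769277) (nat_lit 685) (nat_lit 5) (nat_lit 698) (nat_lit 5) (nat_lit 686) (nat_lit 5) (nat_lit 544) (nat_lit 523) (nat_lit 493)) (XT.lf (nat_lit 0) (nat_lit 2900982194) (nat_lit 988) (nat_lit 1830449059) (nat_lit 1064) (nat_lit 2161493011) (nat_lit 672) (nat_lit 5) (nat_lit 685) (nat_lit 5) (nat_lit 686) (nat_lit 5) (nat_lit 545) (nat_lit 523) (nat_lit 492))))) (XT.nd (nat_lit 156) (nat_lit 2432) (nat_lit 0) (XT.nd (nat_lit 78) (nat_lit 0) (nat_lit 0) (XT.lf (nat_lit 0) (nat_lit 87540475) (nat_lit 1064) (nat_lit 205897688) (nat_lit 1140) (nat_lit 6634153445) (nat_lit 657) (nat_lit 5) (nat_lit 671) (nat_lit 5) (nat_lit 672) (nat_lit 5) (nat_lit 546) (nat_lit 523) (nat_lit 491)) (XT.lf (nat_lit 0) (nat_lit 2750447953) (nat_lit 1140) (nat_lit 2725177966) (nat_lit 76) (nat_lit 1487408978) (nat_lit 657) (nat_lit 5) (nat_lit 672)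 (nat_lit 5) (nat_lit 658) (nat_lit 5) (nat_lit 547) (nat_lit 523) (nat_lit 490))) (XT.nd (nat_lit 78) (nat_lit 1292) (nat_lit 0) (XT.lf (nat_lit 0) (nat_lit 1448874284) (nat_lit 1140) (nat_lit 3765070835) (nat_lit 1216) (nat_lit 1786101656) (nat_lit 642) (nat_lit 5) (nat_lit 657) (nat_lit 5) (nat_lit 658) (nat_lit 5) (nat_lit 548) (nat_lit 523) (nat_lit 489)) (XT.nd (nat_lit 78) (nat_lit 1216) (nat_lit 0) (XT.lf (nat_lit 0) (nat_lit 645292758) (nat_lit 1216) (nat_lit 1339878640) (nat_lit 76) (nat_lit 5053236147) (nat_lit 641) (nat_lit 5) (nat_lit 657) (nat_lit 5) (nat_lit 642) (nat_lit 5) (nat_lit 549) (nat_lit 523) (nat_lit 488)) (XT.lf (nat_lit 0) (nat_lit 2942005777) (nat_lit 1216) (nat_lit 126562439) (nat_lit 1292) (nat_lit 4009394090) (nat_lit 625) (nat_lit 5) (nat_lit 641) (nat_lit 5) (nat_lit 642) (nat_lit 5) (nat_lit 550) (nat_lit 523) (nat_lit 487)))))) (XT.nd (nat_lit 390) (nat_lit 6688) (nat_lit 0) (XT.nd (nat_lit 156) (nat_lit 2888) (nat_lit 0) (XT.nd (nat_lit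 78) (nat_lit 76) (nat_lit 0) (XT.lf (nat_lit 0) (nat_lit 158871102) (nat_lit 1292) (nat_lit 5351882680) (nat_lit 1368) (nat_lit 1608151647) (nat_lit 608) (nat_lit 5) (nat_lit 625) (nat_lit 5) (nat_lit 626) (nat_lit 5) (nat_lit 551) (nat_lit 523) (nat_lit 486)) (XT.lf (nat_lit 0) (nat_lit 808132867) (nat_lit 1368) (nat_lit 2612572920) (nat_lit 76) (nat_lit 3740297351) (nat_lit 607) (nat_lit 5) (nat_lit 625) (nat_lit 5) (nat_lit 608) (nat_lit 5) (nat_lit 552) (nat_lit 523) (nat_lit 485))) (XT.nd (nat_lit 78) (nat_lit 1520) (nat_lit 0) (XT.lf (nat_lit 0) (nat_lit 1793894548) (nat_lit 1368) (nat_lit 1419249514) (nat_lit 1444) (nat_lit 3991353261) (nat_lit 589) (nat_lit 5) (nat_lit 607) (nat_lit 5) (nat_lit 608) (nat_lit 5) (nat_lit 553) (nat_lit 523) (nat_lit 484)) (XT.nd (nat_lit 78) (nat_lit 1520) (nat_lit 0) (XT.lf (nat_lit 0) (nat_lit 5638977010) (nat_lit 1444) (nat_lit 970354303) (nat_lit 76) (nat_lit 640081335) (nat_lit 589) (nat_lit 5) (nat_lit 608) (nat_lit 5) (nat_lit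 590) (nat_lit 5) (nat_lit 554) (nat_lit 523) (nat_lit 483)) (XT.lf (nat_lit 0) (nat_lit 791737715) (nat_lit 1520) (nat_lit 3745602006) (nat_lit 76) (nat_lit 2758098456) (nat_lit 569) (nat_lit 5) (nat_lit 589) (nat_lit 5) (nat_lit 570) (nat_lit 5) (nat_lit 555) (nat_lit 523) (nat_lit 482))))) (XT.nd (nat_lit 234) (nat_lit 3496) (nat_lit 0) (XT.nd (nat_lit 78) (nat_lit 1672) (nat_lit 0) (XT.lf (nat_lit 0) (nat_lit 789832726) (nat_lit 1520) (nat_lit 2394614365) (nat_lit 1596) (nat_lit 4158448461) (nat_lit 549) (nat_lit 5) (nat_lit 569) (nat_lit 5) (nat_lit 570) (nat_lit 5) (nat_lit 556) (nat_lit 523) (nat_lit 481)) (XT.nd (nat_lit 78) (nat_lit 1672) (nat_lit 0) (XT.lf (nat_lit 0) (nat_lit 5425871790) (nat_lit 1520) (nat_lit 177295974) (nat_lit 1596) (nat_lit 1788576422) (nat_lit 549) (nat_lit 5) (nat_lit 569) (nat_lit 5) (nat_lit 570) (nat_lit 5) (nat_lit 557) (nat_lit 523) (nat_lit 480)) (XT.lf (nat_lit 0) (nat_lit 605348523) (nat_lit 1672) (nat_lit 4752039346) (nat_lit 76)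 (nat_lit 2084407319) (nat_lit 527) (nat_lit 5) (nat_lit 549) (nat_lit 5) (nat_lit 528) (nat_lit 5) (nat_lit 558) (nat_lit 523) (nat_lit 479)))) (XT.nd (nat_lit 78) (nat_lit 3496) (nat_lit 0) (XT.lf (nat_lit 0) (nat_lit 2991993067) (nat_lit 1672) (nat_lit 81927876) (nat_lit 76) (nat_lit 4419318967) (nat_lit 527) (nat_lit 5) (nat_lit 549) (nat_lit 5) (nat_lit 528) (nat_lit 5) (nat_lit 559) (nat_lit 523) (nat_lit 478)) (XT.nd (nat_lit 78) (nat_lit 1824) (nat_lit 0) (XT.lf (nat_lit 0) (nat_lit 4702691206) (nat_lit 1672) (nat_lit 709422290) (nat_lit 1748) (nat_lit 2133890026) (nat_lit 505) (nat_lit 5) (nat_lit 527) (nat_lit 5) (nat_lit 528) (nat_lit 5) (nat_lit 560) (nat_lit 523) (nat_lit 477)) (XT.lf (nat_lit 0) (nat_lit 257163667) (nat_lit 1824) (nat_lit 5644212437) (nat_lit 76) (nat_lit 1698813848) (nat_lit 481) (nat_lit 5) (nat_lit 505) (nat_lit 5) (nat_lit 482) (nat_lit 5) (nat_lit 561) (nat_lit 523) (nat_lit 476))))))))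
noncomputable def xc77 : XT := (XT.nd (nat_lit 1560) (nat_lit 8360) (nat_lit 0) (XT.nd (nat_lit 780) (nat_lit 5548) (nat_lit 0) (XT.nd (nat_lit 390) (nat_lit 2736) (nat_lit 0) (XT.nd (nat_lit 156) (nat_lit 2052) (nat_lit 0) (XT.nd (nat_lit 78) (nat_lit 1824) (nat_lit 0) (XT.lf (nat_lit 0) (nat_lit 2647555470) (nat_lit 1824) (nat_lit 825773488) (nat_lit 76) (nat_lit 4182251834) (nat_lit 481) (nat_lit 5) (nat_lit 505) (nat_lit 5) (nat_lit 482) (nat_lit 5) (nat_lit 562) (nat_lit 523) (nat_lit 475)) (XT.lf (nat_lit 0) (nat_lit 4102114873) (nat_lit 1824) (nat_lit 967291995) (nat_lit 1900) (nat_lit 2643004028) (nat_lit 457) (nat_lit 5) (nat_lit 481) (nat_lit 5) (nat_lit 482) (nat_lit 5) (nat_lit 563) (nat_lit 523) (nat_lit 474))) (XT.nd (nat_lit 78) (nat_lit 988) (nat_lit 0) (XT.lf (nat_lit 0) (nat_lit 1335331703) (nat_lit 1064) (nat_lit 6186538410) (nat_lit 1140) (nat_lit 248868391) (nat_lit 443) (nat_lit 5) (nat_lit 457) (nat_lit 5) (nat_lit 458) (nat_lit 5) (nat_lit 564) (nat_lit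 523) (nat_lit 473)) (XT.nd (nat_lit 78) (nat_lit 912) (nat_lit 0) (XT.lf (nat_lit 0) (nat_lit 2153074087) (nat_lit 1140) (nat_lit 1463351877) (nat_lit 76) (nat_lit 4213752386) (nat_lit 442) (nat_lit 5) (nat_lit 457) (nat_lit 5) (nat_lit 443) (nat_lit 5) (nat_lit 565) (nat_lit 523) (nat_lit 472)) (XT.lf (nat_lit 0) (nat_lit 3613089671) (nat_lit 912) (nat_lit 968815036) (nat_lit 988) (nat_lit 3309229895) (nat_lit 430) (nat_lit 5) (nat_lit 442) (nat_lit 5) (nat_lit 443) (nat_lit 5) (nat_lit 566) (nat_lit 523) (nat_lit 471))))) (XT.nd (nat_lit 156) (nat_lit 1748) (nat_lit 0) (XT.nd (nat_lit 78) (nat_lit 76) (nat_lit 0) (XT.lf (nat_lit 0) (nat_lit 815829259) (nat_lit 912) (nat_lit 6229175747) (nat_lit 988) (nat_lit 908595174) (nat_lit 418) (nat_lit 5) (nat_lit 430) (nat_lit 5) (nat_lit 431) (nat_lit 5) (nat_lit 567) (nat_lit 523) (nat_lit 470)) (XT.lf (nat_lit 0) (nat_lit 1514697682) (nat_lit 988) (nat_lit 2005389226) (nat_lit 76) (nat_lit 4497135216) (nat_lit 417) (nat_lit 5)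 (nat_lit 430) (nat_lit 5) (nat_lit 418) (nat_lit 5) (nat_lit 568) (nat_lit 523) (nat_lit 469))) (XT.nd (nat_lit 78) (nat_lit 912) (nat_lit 0) (XT.lf (nat_lit 0) (nat_lit 3225122825) (nat_lit 836) (nat_lit 730441489) (nat_lit 912) (nat_lit 4126810424) (nat_lit 406) (nat_lit 5) (nat_lit 417) (nat_lit 5) (nat_lit 418) (nat_lit 5) (nat_lit 569) (nat_lit 523) (nat_lit 468)) (XT.nd (nat_lit 78) (nat_lit 76) (nat_lit 0) (XT.lf (nat_lit 0) (nat_lit 388838170) (nat_lit 836) (nat_lit 6047041959) (nat_lit 912) (nat_lit 1713141392) (nat_lit 395) (nat_lit 5) (nat_lit 406) (nat_lit 5) (nat_lit 407) (nat_lit 5) (nat_lit 570) (nat_lit 523) (nat_lit 467)) (XT.lf (nat_lit 0) (nat_lit 737699156) (nat_lit 912) (nat_lit 2462129951) (nat_lit 76) (nat_lit 5017104129) (nat_lit 394) (nat_lit 5) (nat_lit 406) (nat_lit 5) (nat_lit 395) (nat_lit 5) (nat_lit 571) (nat_lit 523) (nat_lit 466)))))) (XT.nd (nat_lit 390) (nat_lit 3040) (nat_lit 0) (XT.nd (nat_lit 156) (nat_lit 836) (nat_lit 0) (XT.nd (nat_lit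 78) (nat_lit 836) (nat_lit 0) (XT.lf (nat_lit 0) (nat_lit 2928200877) (nat_lit 836) (nat_lit 267284117) (nat_lit 912) (nat_lit 5090877902) (nat_lit 383) (nat_lit 5) (nat_lit 394) (nat_lit 5) (nat_lit 395) (nat_lit 5) (nat_lit 572) (nat_lit 523) (nat_lit 465)) (XT.lf (nat_lit 0) (nat_lit 44437273) (nat_lit 836) (nat_lit 5654896441) (nat_lit 912) (nat_lit 2657912758) (nat_lit 372) (nat_lit 5) (nat_lit 383) (nat_lit 5) (nat_lit 384) (nat_lit 5) (nat_lit 573) (nat_lit 523) (nat_lit 464))) (XT.nd (nat_lit 78) (nat_lit 836) (nat_lit 0) (XT.lf (nat_lit 0) (nat_lit 5584984266) (nat_lit 836) (nat_lit 2668764641) (nat_lit 912) (nat_lit 175792423) (nat_lit 372) (nat_lit 5) (nat_lit 383) (nat_lit 5) (nat_lit 384) (nat_lit 5) (nat_lit 574) (nat_lit 523) (nat_lit 463)) (XT.nd (nat_lit 78) (nat_lit 0) (nat_lit 0) (XT.lf (nat_lit 0) (nat_lit 2308584946) (nat_lit 836) (nat_lit 5793292398) (nat_lit 76) (nat_lit 401431806) (nat_lit 361) (nat_lit 5) (nat_lit 372) (nat_lit 5) (nat_lit 362) (nat_lit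 5) (nat_lit 575) (nat_lit 523) (nat_lit 462)) (XT.lf (nat_lit 0) (nat_lit 4840878744) (nat_lit 836) (nat_lit 223960067) (nat_lit 76) (nat_lit 3513681823) (nat_lit 361) (nat_lit 5) (nat_lit 372) (nat_lit 5) (nat_lit 362) (nat_lit 5) (nat_lit 576) (nat_lit 523) (nat_lit 461))))) (XT.nd (nat_lit 156) (nat_lit 1520) (nat_lit 0) (XT.nd (nat_lit 78) (nat_lit 760) (nat_lit 0) (XT.lf (nat_lit 0) (nat_lit 5488480796) (nat_lit 760) (nat_lit 1935376122) (nat_lit 836) (nat_lit 1231381801) (nat_lit 351) (nat_lit 5) (nat_lit 361) (nat_lit 5) (nat_lit 362) (nat_lit 5) (nat_lit 577) (nat_lit 523) (nat_lit 460)) (XT.lf (nat_lit 0) (nat_lit 1298730418) (nat_lit 760) (nat_lit 6172608754) (nat_lit 76) (nat_lit 1262160862) (nat_lit 341) (nat_lit 5) (nat_lit 351) (nat_lit 5) (nat_lit 342) (nat_lit 5) (nat_lit 578) (nat_lit 523) (nat_lit 459))) (XT.nd (nat_lit 78) (nat_lit 1520) (nat_lit 0) (XT.lf (nat_lit 0) (nat_lit 3862185498) (nat_lit 760) (nat_lit 428865440) (nat_lit 76) (nat_lit 4522131234)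 (nat_lit 341) (nat_lit 5) (nat_lit 351) (nat_lit 5) (nat_lit 342) (nat_lit 5) (nat_lit 579) (nat_lit 523) (nat_lit 458)) (XT.nd (nat_lit 78) (nat_lit 760) (nat_lit 0) (XT.lf (nat_lit 0) (nat_lit 5461309243) (nat_lit 760) (nat_lit 1016750055) (nat_lit 836) (nat_lit 2416378562) (nat_lit 331) (nat_lit 5) (nat_lit 341) (nat_lit 5) (nat_lit 342) (nat_lit 5) (nat_lit 580) (nat_lit 523) (nat_lit 457)) (XT.lf (nat_lit 0) (nat_lit 166828724) (nat_lit 760) (nat_lit 6503670377) (nat_lit 76) (nat_lit 2306798165) (nat_lit 321) (nat_lit 5) (nat_lit 331) (nat_lit 5) (nat_lit 322) (nat_lit 5) (nat_lit 581) (nat_lit 523) (nat_lit 456))))))) (XT.nd (nat_lit 780) (nat_lit 4408) (nat_lit 0) (XT.nd (nat_lit 390) (nat_lit 1900) (nat_lit 0) (XT.nd (nat_lit 156) (nat_lit 1368) (nat_lit 0) (XT.nd (nat_lit 78) (nat_lit 684) (nat_lit 0) (XT.lf (nat_lit 0) (nat_lit 2765545946) (nat_lit 760) (nat_lit 579820630) (nat_lit 76) (nat_lit 5716206551) (nat_lit 321) (nat_lit 5) (nat_lit 331) (nat_lit 5) (nat_lit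 322) (nat_lit 5) (nat_lit 582) (nat_lit 523) (nat_lit 455)) (XT.lf (nat_lit 0) (nat_lit 5419314410) (nat_lit 760) (nat_lit 3653244591) (nat_lit 76) (nat_lit 74916648) (nat_lit 312) (nat_lit 5) (nat_lit 322) (nat_lit 5) (nat_lit 313) (nat_lit 5) (nat_lit 583) (nat_lit 523) (nat_lit 454))) (XT.nd (nat_lit 78) (nat_lit 760) (nat_lit 0) (XT.lf (nat_lit 0) (nat_lit 2432135744) (nat_lit 608) (nat_lit 5703140788) (nat_lit 684) (nat_lit 1099639950) (nat_lit 304) (nat_lit 5) (nat_lit 312) (nat_lit 5) (nat_lit 313) (nat_lit 5) (nat_lit 584) (nat_lit 523) (nat_lit 453)) (XT.nd (nat_lit 78) (nat_lit 684) (nat_lit 0) (XT.lf (nat_lit 0) (nat_lit 1552810108) (nat_lit 684) (nat_lit 685659364) (nat_lit 76) (nat_lit 7085591842) (nat_lit 303) (nat_lit 5) (nat_lit 312) (nat_lit 5) (nat_lit 304) (nat_lit 5) (nat_lit 585) (nat_lit 523) (nat_lit 452)) (XT.lf (nat_lit 0) (nat_lit 4256539189) (nat_lit 760) (nat_lit 3843269718) (nat_lit 76) (nat_lit 1314778154) (nat_lit 294) (nat_lit 5) (nat_lit 304)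 (nat_lit 5) (nat_lit 295) (nat_lit 5) (nat_lit 586) (nat_lit 523) (nat_lit 451))))) (XT.nd (nat_lit 156) (nat_lit 1216) (nat_lit 0) (XT.nd (nat_lit 78) (nat_lit 76) (nat_lit 0) (XT.lf (nat_lit 0) (nat_lit 2433062203) (nat_lit 608) (nat_lit 4584915042) (nat_lit 684) (nat_lit 2488875819) (nat_lit 286) (nat_lit 5) (nat_lit 294) (nat_lit 5) (nat_lit 295) (nat_lit 5) (nat_lit 587) (nat_lit 523) (nat_lit 450)) (XT.lf (nat_lit 0) (nat_lit 225110860) (nat_lit 684) (nat_lit 755166991) (nat_lit 76) (nat_lit 8620768605) (nat_lit 285) (nat_lit 5) (nat_lit 294) (nat_lit 5) (nat_lit 286) (nat_lit 5) (nat_lit 588) (nat_lit 523) (nat_lit 449))) (XT.nd (nat_lit 78) (nat_lit 608) (nat_lit 0) (XT.lf (nat_lit 0) (nat_lit 2984107617) (nat_lit 684) (nat_lit 4005520854) (nat_lit 76) (nat_lit 2706687377) (nat_lit 277) (nat_lit 5) (nat_lit 286) (nat_lit 5) (nat_lit 278) (nat_lit 5) (nat_lit 589) (nat_lit 523) (nat_lit 448)) (XT.nd (nat_lit 78) (nat_lit 0) (nat_lit 0) (XT.lf (nat_lit 0) (nat_lit 2468815837)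 (nat_lit 608) (nat_lit 3326538828) (nat_lit 684) (nat_lit 3998196797) (nat_lit 269) (nat_lit 5) (nat_lit 277) (nat_lit 5) (nat_lit 278) (nat_lit 5) (nat_lit 590) (nat_lit 523) (nat_lit 447)) (XT.lf (nat_lit 0) (nat_lit 8662277576) (nat_lit 684) (nat_lit 807945979) (nat_lit 76) (nat_lit 422521414) (nat_lit 269) (nat_lit 5) (nat_lit 278) (nat_lit 5) (nat_lit 270) (nat_lit 5) (nat_lit 591) (nat_lit 523) (nat_lit 446)))))) (XT.nd (nat_lit 390) (nat_lit 2052) (nat_lit 0) (XT.nd (nat_lit 156) (nat_lit 1140) (nat_lit 0) (XT.nd (nat_lit 78) (nat_lit 532) (nat_lit 0) (XT.lf (nat_lit 0) (nat_lit 1602298358) (nat_lit 684) (nat_lit 4148988263) (nat_lit 76) (nat_lit 4241819647) (nat_lit 260) (nat_lit 5) (nat_lit 269) (nat_lit 5) (nat_lit 261) (nat_lit 5) (nat_lit 592) (nat_lit 523) (nat_lit 445)) (XT.lf (nat_lit 0) (nat_lit 2530609096) (nat_lit 532) (nat_lit 1936997710) (nat_lit 608) (nat_lit 5627860125) (nat_lit 253) (nat_lit 5) (nat_lit 260) (nat_lit 5) (nat_lit 261) (nat_lit 5) (nat_lit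 593) (nat_lit 523) (nat_lit 444))) (XT.nd (nat_lit 78) (nat_lit 1140) (nat_lit 0) (XT.lf (nat_lit 0) (nat_lit 7401654675) (nat_lit 608) (nat_lit 851616864) (nat_lit 76) (nat_lit 1946376635) (nat_lit 253) (nat_lit 5) (nat_lit 261) (nat_lit 5) (nat_lit 254) (nat_lit 5) (nat_lit 594) (nat_lit 523) (nat_lit 443)) (XT.nd (nat_lit 78) (nat_lit 532) (nat_lit 0) (XT.lf (nat_lit 0) (nat_lit 110694625) (nat_lit 608) (nat_lit 4282815729) (nat_lit 76) (nat_lit 5911925462) (nat_lit 245) (nat_lit 5) (nat_lit 253) (nat_lit 5) (nat_lit 246) (nat_lit 5) (nat_lit 595) (nat_lit 523) (nat_lit 442)) (XT.lf (nat_lit 0) (nat_lit 2609494282) (nat_lit 532) (nat_lit 424747722) (nat_lit 608) (nat_lit 7378846214) (nat_lit 238) (nat_lit 5) (nat_lit 245) (nat_lit 5) (nat_lit 246) (nat_lit 5) (nat_lit 596) (nat_lit 523) (nat_lit 441))))) (XT.nd (nat_lit 234) (nat_lit 988) (nat_lit 0) (XT.nd (nat_lit 78) (nat_lit 1064) (nat_lit 0) (XT.lf (nat_lit 0) (nat_lit 6040379573) (nat_lit 608) (nat_lit 887397314)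 (nat_lit 76) (nat_lit 3594636273) (nat_lit 238) (nat_lit 5) (nat_lit 246) (nat_lit 5) (nat_lit 239) (nat_lit 5) (nat_lit 597) (nat_lit 523) (nat_lit 440)) (XT.nd (nat_lit 78) (nat_lit 532) (nat_lit 0) (XT.lf (nat_lit 0) (nat_lit 6207419958) (nat_lit 532) (nat_lit 2914554649) (nat_lit 608) (nat_lit 1511645139) (nat_lit 231) (nat_lit 5) (nat_lit 238) (nat_lit 5) (nat_lit 239) (nat_lit 5) (nat_lit 598) (nat_lit 523) (nat_lit 439)) (XT.lf (nat_lit 0) (nat_lit 1501879141) (nat_lit 532) (nat_lit 8058466209) (nat_lit 76) (nat_lit 1186436967) (nat_lit 224) (nat_lit 5) (nat_lit 231) (nat_lit 5) (nat_lit 225) (nat_lit 5) (nat_lit 599) (nat_lit 523) (nat_lit 438)))) (XT.nd (nat_lit 78) (nat_lit 988) (nat_lit 0) (XT.lf (nat_lit 0) (nat_lit 4577210042) (nat_lit 532) (nat_lit 924648368) (nat_lit 76) (nat_lit 5359716083) (nat_lit 224) (nat_lit 5) (nat_lit 231) (nat_lit 5) (nat_lit 225) (nat_lit 5) (nat_lit 600) (nat_lit 523) (nat_lit 437)) (XT.nd (nat_lit 78) (nat_lit 456) (nat_lit 0) (XT.lf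 (nat_lit 0) (nat_lit 6397867151) (nat_lit 532) (nat_lit 1330815315) (nat_lit 608) (nat_lit 3249689047) (nat_lit 217) (nat_lit 5) (nat_lit 224) (nat_lit 5) (nat_lit 225) (nat_lit 5) (nat_lit 601) (nat_lit 523) (nat_lit 436)) (XT.lf (nat_lit 0) (nat_lit 2761073928) (nat_lit 456) (nat_lit 8198572706) (nat_lit 532) (nat_lit 137530261) (nat_lit 211) (nat_lit 5) (nat_lit 217) (nat_lit 5) (nat_lit 218) (nat_lit 5) (nat_lit 602) (nat_lit 523) (nat_lit 435))))))))
noncomputable def xc78 : XT := (XT.nd (nat_lit 75036) (nat_lit 0) (nat_lit 41648) (XT.nd (nat_lit 780) (nat_lit 2812) (nat_lit 0) (XT.nd (nat_lit 390) (nat_lit 1292) (nat_lit 0) (XT.nd (nat_lit 156) (nat_lit 988) (nat_lit 0) (XT.nd (nat_lit 78) (nat_lit 456) (nat_lit 0) (XT.lf (nat_lit 0) (nat_lit 3010205509) (nat_lit 532) (nat_lit 973109672) (nat_lit 76) (nat_lit 7234387199) (nat_lit 210) (nat_lit 5) (nat_lit 217) (nat_lit 5) (nat_lit 211) (nat_lit 5) (nat_lit 603) (nat_lit 523) (nat_lit 434)) (XT.lf (nat_lit 0) (nat_lit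 6238009662) (nat_lit 532) (nat_lit 4757414908) (nat_lit 76) (nat_lit 344818088) (nat_lit 204) (nat_lit 5) (nat_lit 211) (nat_lit 5) (nat_lit 205) (nat_lit 5) (nat_lit 604) (nat_lit 523) (nat_lit 433))) (XT.nd (nat_lit 78) (nat_lit 532) (nat_lit 0) (XT.lf (nat_lit 0) (nat_lit 2810758932) (nat_lit 456) (nat_lit 6744938512) (nat_lit 532) (nat_lit 1909031288) (nat_lit 198) (nat_lit 5) (nat_lit 204) (nat_lit 5) (nat_lit 205) (nat_lit 5) (nat_lit 605) (nat_lit 523) (nat_lit 432)) (XT.nd (nat_lit 78) (nat_lit 456) (nat_lit 0) (XT.lf (nat_lit 0) (nat_lit 1336709650) (nat_lit 532) (nat_lit 1042995304) (nat_lit 76) (nat_lit 9211698907) (nat_lit 197) (nat_lit 5) (nat_lit 204) (nat_lit 5) (nat_lit 198) (nat_lit 5) (nat_lit 606) (nat_lit 523) (nat_lit 431)) (XT.lf (nat_lit 0) (nat_lit 4654193175) (nat_lit 532) (nat_lit 4974550729) (nat_lit 76) (nat_lit 2090969872) (nat_lit 191) (nat_lit 5) (nat_lit 198) (nat_lit 5) (nat_lit 192) (nat_lit 5) (nat_lit 607) (nat_lit 523) (nat_lit 430)))))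 (XT.nd (nat_lit 156) (nat_lit 912) (nat_lit 0) (XT.nd (nat_lit 78) (nat_lit 0) (nat_lit 0) (XT.lf (nat_lit 0) (nat_lit 2836982653) (nat_lit 380) (nat_lit 5217173191) (nat_lit 456) (nat_lit 3796112878) (nat_lit 186) (nat_lit 5) (nat_lit 191) (nat_lit 5) (nat_lit 192) (nat_lit 5) (nat_lit 608) (nat_lit 523) (nat_lit 429)) (XT.lf (nat_lit 0) (nat_lit 10835231101) (nat_lit 380) (nat_lit 695425565) (nat_lit 456) (nat_lit 452608718) (nat_lit 186) (nat_lit 5) (nat_lit 191) (nat_lit 5) (nat_lit 192) (nat_lit 5) (nat_lit 609) (nat_lit 523) (nat_lit 428))) (XT.nd (nat_lit 78) (nat_lit 380) (nat_lit 0) (XT.lf (nat_lit 0) (nat_lit 2965092073) (nat_lit 532) (nat_lit 5234521804) (nat_lit 76) (nat_lit 3918003002) (nat_lit 179) (nat_lit 5) (nat_lit 186) (nat_lit 5) (nat_lit 180) (nat_lit 5) (nat_lit 610) (nat_lit 523) (nat_lit 427)) (XT.nd (nat_lit 78) (nat_lit 0) (nat_lit 0) (XT.lf (nat_lit 0) (nat_lit 2828633891) (nat_lit 380) (nat_lit 3622832375) (nat_lit 456) (nat_lit 5803003022) (nat_lit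 174) (nat_lit 5) (nat_lit 179) (nat_lit 5) (nat_lit 180) (nat_lit 5) (nat_lit 611) (nat_lit 523) (nat_lit 426)) (XT.lf (nat_lit 0) (nat_lit 10025523698) (nat_lit 456) (nat_lit 1313248317) (nat_lit 76) (nat_lit 1054928901) (nat_lit 174) (nat_lit 5) (nat_lit 180) (nat_lit 5) (nat_lit 175) (nat_lit 5) (nat_lit 612) (nat_lit 523) (nat_lit 425)))))) (XT.nd (nat_lit 390) (nat_lit 1140) (nat_lit 0) (XT.nd (nat_lit 156) (nat_lit 836) (nat_lit 0) (XT.nd (nat_lit 78) (nat_lit 380) (nat_lit 0) (XT.lf (nat_lit 0) (nat_lit 1166435693) (nat_lit 456) (nat_lit 5549320391) (nat_lit 76) (nat_lit 5818895287) (nat_lit 168) (nat_lit 5) (nat_lit 174) (nat_lit 5) (nat_lit 169) (nat_lit 5) (nat_lit 613) (nat_lit 523) (nat_lit 424)) (XT.lf (nat_lit 0) (nat_lit 2773842578) (nat_lit 380) (nat_lit 1969456779) (nat_lit 456) (nat_lit 7934744252) (nat_lit 163) (nat_lit 5) (nat_lit 168) (nat_lit 5) (nat_lit 169) (nat_lit 5) (nat_lit 614) (nat_lit 523) (nat_lit 423))) (XT.nd (nat_lit 78) (nat_lit 836) (nat_lit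 0) (XT.lf (nat_lit 0) (nat_lit 8424337523) (nat_lit 456) (nat_lit 1540142915) (nat_lit 76) (nat_lit 2859171697) (nat_lit 163) (nat_lit 5) (nat_lit 169) (nat_lit 5) (nat_lit 164) (nat_lit 5) (nat_lit 615) (nat_lit 523) (nat_lit 422)) (XT.nd (nat_lit 78) (nat_lit 456) (nat_lit 0) (XT.lf (nat_lit 0) (nat_lit 7034745688) (nat_lit 380) (nat_lit 5179934747) (nat_lit 456) (nat_lit 756779885) (nat_lit 158) (nat_lit 5) (nat_lit 163) (nat_lit 5) (nat_lit 164) (nat_lit 5) (nat_lit 616) (nat_lit 523) (nat_lit 421)) (XT.lf (nat_lit 0) (nat_lit 2659856467) (nat_lit 380) (nat_lit 264655941) (nat_lit 456) (nat_lit 10197235008) (nat_lit 152) (nat_lit 5) (nat_lit 157) (nat_lit 5) (nat_lit 158) (nat_lit 5) (nat_lit 617) (nat_lit 523) (nat_lit 420))))) (XT.nd (nat_lit 156) (nat_lit 760) (nat_lit 0) (XT.nd (nat_lit 78) (nat_lit 380) (nat_lit 0) (XT.lf (nat_lit 0) (nat_lit 6717415465) (nat_lit 456) (nat_lit 1837399046) (nat_lit 76) (nat_lit 4719164431) (nat_lit 152) (nat_lit 5) (nat_lit 158) (nat_lit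 5) (nat_lit 153) (nat_lit 5) (nat_lit 618) (nat_lit 523) (nat_lit 419)) (XT.lf (nat_lit 0) (nat_lit 7014652486) (nat_lit 380) (nat_lit 3596441369) (nat_lit 456) (nat_lit 2817663976) (nat_lit 147) (nat_lit 5) (nat_lit 152) (nat_lit 5) (nat_lit 153) (nat_lit 5) (nat_lit 619) (nat_lit 523) (nat_lit 418))) (XT.nd (nat_lit 78) (nat_lit 380) (nat_lit 0) (XT.lf (nat_lit 0) (nat_lit 998736678) (nat_lit 380) (nat_lit 11123106950) (nat_lit 76) (nat_lit 1464344649) (nat_lit 142) (nat_lit 5) (nat_lit 147) (nat_lit 5) (nat_lit 143) (nat_lit 5) (nat_lit 620) (nat_lit 523) (nat_lit 417)) (XT.nd (nat_lit 78) (nat_lit 380) (nat_lit 0) (XT.lf (nat_lit 0) (nat_lit 4898727991) (nat_lit 380) (nat_lit 2219282025) (nat_lit 76) (nat_lit 6627486012) (nat_lit 142) (nat_lit 5) (nat_lit 147) (nat_lit 5) (nat_lit 143) (nat_lit 5) (nat_lit 621) (nat_lit 523) (nat_lit 416)) (XT.lf (nat_lit 0) (nat_lit 6918683103) (nat_lit 380) (nat_lit 1981203114) (nat_lit 456) (nat_lit 5007641372) (nat_lit 137) (nat_lit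 5) (nat_lit 142) (nat_lit 5) (nat_lit 143) (nat_lit 5) (nat_lit 622) (nat_lit 523) (nat_lit 415))))))) (XT.nd (nat_lit 780) (nat_lit 3952) (nat_lit 0) (XT.nd (nat_lit 390) (nat_lit 1140) (nat_lit 0) (XT.nd (nat_lit 156) (nat_lit 456) (nat_lit 0) (XT.nd (nat_lit 78) (nat_lit 380) (nat_lit 0) (XT.lf (nat_lit 0) (nat_lit 2359614826) (nat_lit 380) (nat_lit 438379022) (nat_lit 380) (nat_lit 438379022) (nat_lit 763) (nat_lit 3) (nat_lit 768) (nat_lit 3) (nat_lit 768) (nat_lit 5) (nat_lit 524) (nat_lit 524) (nat_lit 512)) (XT.lf (nat_lit 0) (nat_lit 1066942193) (nat_lit 380) (nat_lit 4126919532) (nat_lit 456) (nat_lit 1287094930) (nat_lit 758) (nat_lit 5) (nat_lit 763) (nat_lit 3) (nat_lit 764) (nat_lit 5) (nat_lit 525) (nat_lit 524) (nat_lit 511))) (XT.nd (nat_lit 78) (nat_lit 456) (nat_lit 0) (XT.lf (nat_lit 0) (nat_lit 3852600581) (nat_lit 380) (nat_lit 878219870) (nat_lit 456) (nat_lit 1759645941) (nat_lit 758) (nat_lit 5) (nat_lit 763) (nat_lit 3) (nat_lit 764) (nat_lit 5) (nat_lit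 526) (nat_lit 524) (nat_lit 510)) (XT.nd (nat_lit 78) (nat_lit 0) (nat_lit 0) (XT.lf (nat_lit 0) (nat_lit 134422558) (nat_lit 456) (nat_lit 4072804196) (nat_lit 532) (nat_lit 2294062611) (nat_lit 752) (nat_lit 5) (nat_lit 758) (nat_lit 5) (nat_lit 759) (nat_lit 5) (nat_lit 527) (nat_lit 524) (nat_lit 509)) (XT.lf (nat_lit 0) (nat_lit 2861261538) (nat_lit 456) (nat_lit 755131220) (nat_lit 532) (nat_lit 2896909947) (nat_lit 752) (nat_lit 5) (nat_lit 758) (nat_lit 5) (nat_lit 759) (nat_lit 5) (nat_lit 528) (nat_lit 524) (nat_lit 508))))) (XT.nd (nat_lit 156) (nat_lit 608) (nat_lit 0) (XT.nd (nat_lit 78) (nat_lit 532) (nat_lit 0) (XT.lf (nat_lit 76) (nat_lit 2625445299) (nat_lit 0) (nat_lit 2964101367) (nat_lit 532) (nat_lit 937082393) (nat_lit 753) (nat_lit 5) (nat_lit 752) (nat_lit 5) (nat_lit 759) (nat_lit 5) (nat_lit 529) (nat_lit 524) (nat_lit 507)) (XT.lf (nat_lit 0) (nat_lit 1743773684) (nat_lit 532) (nat_lit 506748146) (nat_lit 608) (nat_lit 4290760158) (nat_lit 745) (nat_lit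 5) (nat_lit 752) (nat_lit 5) (nat_lit 753) (nat_lit 5) (nat_lit 530) (nat_lit 524) (nat_lit 506))) (XT.nd (nat_lit 78) (nat_lit 608) (nat_lit 0) (XT.lf (nat_lit 76) (nat_lit 2950252005) (nat_lit 0) (nat_lit 1466502844) (nat_lit 608) (nat_lit 2140338437) (nat_lit 746) (nat_lit 5) (nat_lit 745) (nat_lit 5) (nat_lit 753) (nat_lit 5) (nat_lit 531) (nat_lit 524) (nat_lit 505)) (XT.nd (nat_lit 78) (nat_lit 0) (nat_lit 76) (XT.lf (nat_lit 0) (nat_lit 498449174) (nat_lit 608) (nat_lit 132083957) (nat_lit 684) (nat_lit 5943904575) (nat_lit 737) (nat_lit 5) (nat_lit 745) (nat_lit 5) (nat_lit 746) (nat_lit 5) (nat_lit 532) (nat_lit 524) (nat_lit 504)) (XT.lf (nat_lit 0) (nat_lit 3119204186) (nat_lit 608) (nat_lit 3189667904) (nat_lit 684) (nat_lit 283826666) (nat_lit 738) (nat_lit 5) (nat_lit 746) (nat_lit 5) (nat_lit 747) (nat_lit 5) (nat_lit 533) (nat_lit 524) (nat_lit 503)))))) (XT.nd (nat_lit 390) (nat_lit 2584) (nat_lit 0) (XT.nd (nat_lit 156) (nat_lit 760) (nat_lit 0) (XT.nd (nat_lit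 78) (nat_lit 684) (nat_lit 0) (XT.lf (nat_lit 76) (nat_lit 360925442) (nat_lit 0) (nat_lit 5373942970) (nat_lit 684) (nat_lit 877616251) (nat_lit 739) (nat_lit 5) (nat_lit 738) (nat_lit 5) (nat_lit 747) (nat_lit 5) (nat_lit 534) (nat_lit 524) (nat_lit 502)) (XT.lf (nat_lit 0) (nat_lit 1704181570) (nat_lit 684) (nat_lit 2657671088) (nat_lit 760) (nat_lit 2271448552) (nat_lit 729) (nat_lit 5) (nat_lit 738) (nat_lit 5) (nat_lit 739) (nat_lit 5) (nat_lit 535) (nat_lit 524) (nat_lit 501))) (XT.nd (nat_lit 78) (nat_lit 760) (nat_lit 0) (XT.lf (nat_lit 76) (nat_lit 976297491) (nat_lit 0) (nat_lit 3292849723) (nat_lit 760) (nat_lit 2386414160) (nat_lit 730) (nat_lit 5) (nat_lit 729) (nat_lit 5) (nat_lit 739) (nat_lit 5) (nat_lit 536) (nat_lit 524) (nat_lit 500)) (XT.nd (nat_lit 78) (nat_lit 0) (nat_lit 0) (XT.lf (nat_lit 0) (nat_lit 159881154) (nat_lit 760) (nat_lit 1999775841) (nat_lit 836) (nat_lit 4519482420) (nat_lit 719) (nat_lit 5) (nat_lit 729) (nat_lit 5) (nat_lit 730) (nat_lit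 5) (nat_lit 537) (nat_lit 524) (nat_lit 499)) (XT.lf (nat_lit 76) (nat_lit 1721473739) (nat_lit 0) (nat_lit 953606856) (nat_lit 836) (nat_lit 4028802745) (nat_lit 720) (nat_lit 5) (nat_lit 719) (nat_lit 5) (nat_lit 730) (nat_lit 5) (nat_lit 538) (nat_lit 524) (nat_lit 498))))) (XT.nd (nat_lit 234) (nat_lit 1824) (nat_lit 0) (XT.nd (nat_lit 78) (nat_lit 836) (nat_lit 0) (XT.lf (nat_lit 0) (nat_lit 5195708725) (nat_lit 760) (nat_lit 1226187497) (nat_lit 76) (nat_lit 308131713) (nat_lit 720) (nat_lit 5) (nat_lit 730) (nat_lit 5) (nat_lit 721) (nat_lit 5) (nat_lit 539) (nat_lit 524) (nat_lit 497)) (XT.nd (nat_lit 78) (nat_lit 0) (nat_lit 0) (XT.lf (nat_lit 0) (nat_lit 960719034) (nat_lit 836) (nat_lit 4169803698) (nat_lit 76) (nat_lit 1626771255) (nat_lit 709) (nat_lit 5) (nat_lit 720) (nat_lit 5) (nat_lit 710) (nat_lit 5) (nat_lit 540) (nat_lit 524) (nat_lit 496)) (XT.lf (nat_lit 0) (nat_lit 3434929390) (nat_lit 836) (nat_lit 340548882) (nat_lit 76) (nat_lit 3010435742) (nat_lit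 709) (nat_lit 5) (nat_lit 720) (nat_lit 5) (nat_lit 710) (nat_lit 5) (nat_lit 541) (nat_lit 524) (nat_lit 495)))) (XT.nd (nat_lit 78) (nat_lit 988) (nat_lit 0) (XT.lf (nat_lit 0) (nat_lit 3573475978) (nat_lit 836) (nat_lit 2351009957) (nat_lit 912) (nat_lit 891310922) (nat_lit 698) (nat_lit 5) (nat_lit 709) (nat_lit 5) (nat_lit 710) (nat_lit 5) (nat_lit 542) (nat_lit 524) (nat_lit 494)) (XT.nd (nat_lit 78) (nat_lit 0) (nat_lit 0) (XT.lf (nat_lit 0) (nat_lit 683421570) (nat_lit 912) (nat_lit 862811831) (nat_lit 988) (nat_lit 5300843435) (nat_lit 685) (nat_lit 5) (nat_lit 697) (nat_lit 5) (nat_lit 698) (nat_lit 5) (nat_lit 543) (nat_lit 524) (nat_lit 493)) (XT.lf (nat_lit 0) (nat_lit 3990887188) (nat_lit 988) (nat_lit 2197388296) (nat_lit 76) (nat_lit 691190450) (nat_lit 685) (nat_lit 5) (nat_lit 698) (nat_lit 5) (nat_lit 686) (nat_lit 5) (nat_lit 544) (nat_lit 524) (nat_lit 492))))))))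
noncomputable def xc79 : XT := (XT.nd (nat_lit 1560) (nat_lit 11628) (nat_lit 0) (XT.nd (nat_lit 780) (nat_lit 10108) (nat_lit 0) (XT.nd (nat_lit 390) (nat_lit 3952) (nat_lit 0) (XT.nd (nat_lit 156) (nat_lit 2280) (nat_lit 0) (XT.nd (nat_lit 78) (nat_lit 76) (nat_lit 0) (XT.lf (nat_lit 0) (nat_lit 1827070092) (nat_lit 988) (nat_lit 4620162680) (nat_lit 1064) (nat_lit 466021139) (nat_lit 672) (nat_lit 5) (nat_lit 685) (nat_lit 5) (nat_lit 686) (nat_lit 5) (nat_lit 545) (nat_lit 524) (nat_lit 491)) (XT.lf (nat_lit 0) (nat_lit 1939213200) (nat_lit 1064) (nat_lit 1038586175) (nat_lit 76) (nat_lit 3970454290) (nat_lit 671) (nat_lit 5) (nat_lit 685) (nat_lit 5) (nat_lit 672) (nat_lit 5) (nat_lit 546) (nat_lit 524) (nat_lit 490))) (XT.nd (nat_lit 78) (nat_lit 1216) (nat_lit 0) (XT.lf (nat_lit 0) (nat_lit 3088310443) (nat_lit 1064) (nat_lit 1264802158) (nat_lit 1140) (nat_lit 2631449861) (nat_lit 657) (nat_lit 5) (nat_lit 671) (nat_lit 5) (nat_lit 672) (nat_lit 5) (nat_lit 547) (nat_lit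 524) (nat_lit 489)) (XT.nd (nat_lit 78) (nat_lit 76) (nat_lit 0) (XT.lf (nat_lit 0) (nat_lit 250514317) (nat_lit 1140) (nat_lit 6524174299) (nat_lit 1216) (nat_lit 247727382) (nat_lit 642) (nat_lit 5) (nat_lit 657) (nat_lit 5) (nat_lit 658) (nat_lit 5) (nat_lit 548) (nat_lit 524) (nat_lit 488)) (XT.lf (nat_lit 0) (nat_lit 2137770802) (nat_lit 1216) (nat_lit 2590591896) (nat_lit 76) (nat_lit 2332731820) (nat_lit 641) (nat_lit 5) (nat_lit 657) (nat_lit 5) (nat_lit 642) (nat_lit 5) (nat_lit 549) (nat_lit 524) (nat_lit 487))))) (XT.nd (nat_lit 156) (nat_lit 2736) (nat_lit 0) (XT.nd (nat_lit 78) (nat_lit 0) (nat_lit 0) (XT.lf (nat_lit 0) (nat_lit 1654806833) (nat_lit 1216) (nat_lit 2872666222) (nat_lit 1292) (nat_lit 2573850736) (nat_lit 625) (nat_lit 5) (nat_lit 641) (nat_lit 5) (nat_lit 642) (nat_lit 5) (nat_lit 550) (nat_lit 524) (nat_lit 486)) (XT.lf (nat_lit 0) (nat_lit 5980890456) (nat_lit 1216) (nat_lit 951270433) (nat_lit 1292) (nat_lit 210858968) (nat_lit 625) (nat_lit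 5) (nat_lit 641) (nat_lit 5) (nat_lit 642) (nat_lit 5) (nat_lit 551) (nat_lit 524) (nat_lit 485))) (XT.nd (nat_lit 78) (nat_lit 1368) (nat_lit 0) (XT.lf (nat_lit 0) (nat_lit 2148606934) (nat_lit 1368) (nat_lit 3996338213) (nat_lit 76) (nat_lit 1040763705) (nat_lit 607) (nat_lit 5) (nat_lit 625) (nat_lit 5) (nat_lit 608) (nat_lit 5) (nat_lit 552) (nat_lit 524) (nat_lit 484)) (XT.nd (nat_lit 78) (nat_lit 0) (nat_lit 0) (XT.lf (nat_lit 0) (nat_lit 371664569) (nat_lit 1368) (nat_lit 4148581885) (nat_lit 1444) (nat_lit 2709626833) (nat_lit 589) (nat_lit 5) (nat_lit 607) (nat_lit 5) (nat_lit 608) (nat_lit 5) (nat_lit 553) (nat_lit 524) (nat_lit 483)) (XT.lf (nat_lit 0) (nat_lit 4841442107) (nat_lit 1368) (nat_lit 2076634120) (nat_lit 1444) (nat_lit 357275211) (nat_lit 589) (nat_lit 5) (nat_lit 607) (nat_lit 5) (nat_lit 608) (nat_lit 5) (nat_lit 554) (nat_lit 524) (nat_lit 482)))))) (XT.nd (nat_lit 390) (nat_lit 5396) (nat_lit 0) (XT.nd (nat_lit 156) (nat_lit 3192) (nat_lit 0) (XT.nd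 (nat_lit 78) (nat_lit 0) (nat_lit 0) (XT.lf (nat_lit 0) (nat_lit 1981699941) (nat_lit 1520) (nat_lit 5269698112) (nat_lit 76) (nat_lit 70754095) (nat_lit 569) (nat_lit 5) (nat_lit 589) (nat_lit 5) (nat_lit 570) (nat_lit 5) (nat_lit 555) (nat_lit 524) (nat_lit 481)) (XT.lf (nat_lit 0) (nat_lit 4346156223) (nat_lit 1520) (nat_lit 764592908) (nat_lit 76) (nat_lit 2259428054) (nat_lit 569) (nat_lit 5) (nat_lit 589) (nat_lit 5) (nat_lit 570) (nat_lit 5) (nat_lit 556) (nat_lit 524) (nat_lit 480))) (XT.nd (nat_lit 78) (nat_lit 1672) (nat_lit 0) (XT.lf (nat_lit 0) (nat_lit 3841445774) (nat_lit 1520) (nat_lit 2895600550) (nat_lit 1596) (nat_lit 682538657) (nat_lit 549) (nat_lit 5) (nat_lit 569) (nat_lit 5) (nat_lit 570) (nat_lit 5) (nat_lit 557) (nat_lit 524) (nat_lit 479)) (XT.nd (nat_lit 78) (nat_lit 0) (nat_lit 0) (XT.lf (nat_lit 0) (nat_lit 1042759415) (nat_lit 1596) (nat_lit 607119780) (nat_lit 1672) (nat_lit 5820555641) (nat_lit 527) (nat_lit 5) (nat_lit 548) (nat_lit 5) (nat_lit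 549) (nat_lit 5) (nat_lit 558) (nat_lit 524) (nat_lit 478)) (XT.lf (nat_lit 0) (nat_lit 4010408650) (nat_lit 1672) (nat_lit 1773706909) (nat_lit 76) (nat_lit 1738288705) (nat_lit 527) (nat_lit 5) (nat_lit 549) (nat_lit 5) (nat_lit 528) (nat_lit 5) (nat_lit 559) (nat_lit 524) (nat_lit 477))))) (XT.nd (nat_lit 156) (nat_lit 1900) (nat_lit 0) (XT.nd (nat_lit 78) (nat_lit 1824) (nat_lit 0) (XT.lf (nat_lit 0) (nat_lit 2968476675) (nat_lit 1672) (nat_lit 3429054236) (nat_lit 1748) (nat_lit 1178299283) (nat_lit 505) (nat_lit 5) (nat_lit 527) (nat_lit 5) (nat_lit 528) (nat_lit 5) (nat_lit 560) (nat_lit 524) (nat_lit 476)) (XT.lf (nat_lit 0) (nat_lit 153491970) (nat_lit 1748) (nat_lit 1002192822) (nat_lit 1824) (nat_lit 6475100750) (nat_lit 481) (nat_lit 5) (nat_lit 504) (nat_lit 5) (nat_lit 505) (nat_lit 5) (nat_lit 561) (nat_lit 524) (nat_lit 475))) (XT.nd (nat_lit 78) (nat_lit 1900) (nat_lit 0) (XT.lf (nat_lit 0) (nat_lit 3518291531) (nat_lit 1824) (nat_lit 2672505812) (nat_lit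 76) (nat_lit 1495936959) (nat_lit 481) (nat_lit 5) (nat_lit 505) (nat_lit 5) (nat_lit 482) (nat_lit 5) (nat_lit 562) (nat_lit 524) (nat_lit 474)) (XT.nd (nat_lit 78) (nat_lit 76) (nat_lit 0) (XT.lf (nat_lit 0) (nat_lit 2210814977) (nat_lit 1824) (nat_lit 3696187434) (nat_lit 1900) (nat_lit 1837226983) (nat_lit 457) (nat_lit 5) (nat_lit 481) (nat_lit 5) (nat_lit 482) (nat_lit 5) (nat_lit 563) (nat_lit 524) (nat_lit 473)) (XT.lf (nat_lit 0) (nat_lit 509725676) (nat_lit 1900) (nat_lit 618334469) (nat_lit 76) (nat_lit 6675224213) (nat_lit 456) (nat_lit 5) (nat_lit 481) (nat_lit 5) (nat_lit 457) (nat_lit 5) (nat_lit 564) (nat_lit 524) (nat_lit 472))))))) (XT.nd (nat_lit 780) (nat_lit 5168) (nat_lit 0) (XT.nd (nat_lit 390) (nat_lit 2660) (nat_lit 0) (XT.nd (nat_lit 156) (nat_lit 1824) (nat_lit 0) (XT.nd (nat_lit 78) (nat_lit 912) (nat_lit 0) (XT.lf (nat_lit 0) (nat_lit 2876549488) (nat_lit 1140) (nat_lit 3472321754) (nat_lit 76) (nat_lit 1514459791) (nat_lit 442) (nat_lit 5) (nat_lit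 457) (nat_lit 5) (nat_lit 443) (nat_lit 5) (nat_lit 565) (nat_lit 524) (nat_lit 471)) (XT.lf (nat_lit 0) (nat_lit 1557360113) (nat_lit 912) (nat_lit 3714637866) (nat_lit 988) (nat_lit 2652958960) (nat_lit 430) (nat_lit 5) (nat_lit 442) (nat_lit 5) (nat_lit 443) (nat_lit 5) (nat_lit 566) (nat_lit 524) (nat_lit 470))) (XT.nd (nat_lit 78) (nat_lit 1824) (nat_lit 0) (XT.lf (nat_lit 0) (nat_lit 6694974158) (nat_lit 912) (nat_lit 1003747340) (nat_lit 988) (nat_lit 289430526) (nat_lit 430) (nat_lit 5) (nat_lit 442) (nat_lit 5) (nat_lit 443) (nat_lit 5) (nat_lit 567) (nat_lit 524) (nat_lit 469)) (XT.nd (nat_lit 78) (nat_lit 836) (nat_lit 0) (XT.lf (nat_lit 0) (nat_lit 2091018709) (nat_lit 988) (nat_lit 4183947804) (nat_lit 76) (nat_lit 1777423413) (nat_lit 417) (nat_lit 5) (nat_lit 430) (nat_lit 5) (nat_lit 418) (nat_lit 5) (nat_lit 568) (nat_lit 524) (nat_lit 468)) (XT.lf (nat_lit 0) (nat_lit 997548119) (nat_lit 836) (nat_lit 3500617389) (nat_lit 912) (nat_lit 3620053287) (nat_lit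 406) (nat_lit 5) (nat_lit 417) (nat_lit 5) (nat_lit 418) (nat_lit 5) (nat_lit 569) (nat_lit 524) (nat_lit 467))))) (XT.nd (nat_lit 156) (nat_lit 1748) (nat_lit 0) (XT.nd (nat_lit 78) (nat_lit 912) (nat_lit 0) (XT.lf (nat_lit 0) (nat_lit 6299653428) (nat_lit 836) (nat_lit 643484025) (nat_lit 912) (nat_lit 1242436823) (nat_lit 406) (nat_lit 5) (nat_lit 417) (nat_lit 5) (nat_lit 418) (nat_lit 5) (nat_lit 570) (nat_lit 524) (nat_lit 466)) (XT.lf (nat_lit 0) (nat_lit 1166668911) (nat_lit 912) (nat_lit 4817718215) (nat_lit 76) (nat_lit 2269750723) (nat_lit 394) (nat_lit 5) (nat_lit 406) (nat_lit 5) (nat_lit 395) (nat_lit 5) (nat_lit 571) (nat_lit 524) (nat_lit 465))) (XT.nd (nat_lit 78) (nat_lit 912) (nat_lit 0) (XT.lf (nat_lit 0) (nat_lit 521271366) (nat_lit 836) (nat_lit 3069032498) (nat_lit 912) (nat_lit 4733948379) (nat_lit 383) (nat_lit 5) (nat_lit 394) (nat_lit 5) (nat_lit 395) (nat_lit 5) (nat_lit 572) (nat_lit 524) (nat_lit 464)) (XT.nd (nat_lit 78) (nat_lit 912) (nat_lit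 0) (XT.lf (nat_lit 0) (nat_lit 5992665617) (nat_lit 836) (nat_lit 65133894) (nat_lit 912) (nat_lit 2338065053) (nat_lit 383) (nat_lit 5) (nat_lit 394) (nat_lit 5) (nat_lit 395) (nat_lit 5) (nat_lit 573) (nat_lit 524) (nat_lit 463)) (XT.lf (nat_lit 0) (nat_lit 107639678) (nat_lit 912) (nat_lit 5383586752) (nat_lit 76) (nat_lit 2977606428) (nat_lit 371) (nat_lit 5) (nat_lit 383) (nat_lit 5) (nat_lit 372) (nat_lit 5) (nat_lit 574) (nat_lit 524) (nat_lit 462)))))) (XT.nd (nat_lit 390) (nat_lit 2888) (nat_lit 0) (XT.nd (nat_lit 156) (nat_lit 1520) (nat_lit 0) (XT.nd (nat_lit 78) (nat_lit 0) (nat_lit 0) (XT.lf (nat_lit 0) (nat_lit 118800106) (nat_lit 760) (nat_lit 2433597462) (nat_lit 836) (nat_lit 5990928146) (nat_lit 361) (nat_lit 5) (nat_lit 371) (nat_lit 5) (nat_lit 372) (nat_lit 5) (nat_lit 575) (nat_lit 524) (nat_lit 461)) (XT.lf (nat_lit 0) (nat_lit 5051268879) (nat_lit 836) (nat_lit 2859323703) (nat_lit 76) (nat_lit 708614622) (nat_lit 361) (nat_lit 5) (nat_lit 372) (nat_lit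 5) (nat_lit 362) (nat_lit 5) (nat_lit 576) (nat_lit 524) (nat_lit 460))) (XT.nd (nat_lit 78) (nat_lit 760) (nat_lit 0) (XT.lf (nat_lit 0) (nat_lit 2798294735) (nat_lit 760) (nat_lit 4801209414) (nat_lit 836) (nat_lit 1097117521) (nat_lit 351) (nat_lit 5) (nat_lit 361) (nat_lit 5) (nat_lit 362) (nat_lit 5) (nat_lit 577) (nat_lit 524) (nat_lit 459)) (XT.nd (nat_lit 78) (nat_lit 684) (nat_lit 0) (XT.lf (nat_lit 0) (nat_lit 1389069922) (nat_lit 836) (nat_lit 216418683) (nat_lit 76) (nat_lit 7170221689) (nat_lit 350) (nat_lit 5) (nat_lit 361) (nat_lit 5) (nat_lit 351) (nat_lit 5) (nat_lit 578) (nat_lit 524) (nat_lit 458)) (XT.lf (nat_lit 0) (nat_lit 3923683303) (nat_lit 760) (nat_lit 3260693315) (nat_lit 76) (nat_lit 1671594083) (nat_lit 341) (nat_lit 5) (nat_lit 351) (nat_lit 5) (nat_lit 342) (nat_lit 5) (nat_lit 579) (nat_lit 524) (nat_lit 457))))) (XT.nd (nat_lit 234) (nat_lit 1368) (nat_lit 0) (XT.nd (nat_lit 78) (nat_lit 760) (nat_lit 0) (XT.lf (nat_lit 0) (nat_lit 2572141957)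 (nat_lit 760) (nat_lit 3932005220) (nat_lit 836) (nat_lit 2433788819) (nat_lit 331) (nat_lit 5) (nat_lit 341) (nat_lit 5) (nat_lit 342) (nat_lit 5) (nat_lit 580) (nat_lit 524) (nat_lit 456)) (XT.nd (nat_lit 78) (nat_lit 684) (nat_lit 0) (XT.lf (nat_lit 0) (nat_lit 101748795) (nat_lit 836) (nat_lit 495631700) (nat_lit 76) (nat_lit 8424376482) (nat_lit 330) (nat_lit 5) (nat_lit 341) (nat_lit 5) (nat_lit 331) (nat_lit 5) (nat_lit 581) (nat_lit 524) (nat_lit 455)) (XT.lf (nat_lit 0) (nat_lit 2676923201) (nat_lit 760) (nat_lit 3616011806) (nat_lit 76) (nat_lit 2813570014) (nat_lit 321) (nat_lit 5) (nat_lit 331) (nat_lit 5) (nat_lit 322) (nat_lit 5) (nat_lit 582) (nat_lit 524) (nat_lit 454)))) (XT.nd (nat_lit 78) (nat_lit 684) (nat_lit 0) (XT.lf (nat_lit 0) (nat_lit 2398601814) (nat_lit 684) (nat_lit 2895434152) (nat_lit 760) (nat_lit 3899105992) (nat_lit 312) (nat_lit 5) (nat_lit 321) (nat_lit 5) (nat_lit 322) (nat_lit 5) (nat_lit 583) (nat_lit 524) (nat_lit 453)) (XT.nd (nat_lit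 78) (nat_lit 684) (nat_lit 0) (XT.lf (nat_lit 0) (nat_lit 7959515832) (nat_lit 760) (nat_lit 741762918) (nat_lit 76) (nat_lit 580314961) (nat_lit 312) (nat_lit 5) (nat_lit 322) (nat_lit 5) (nat_lit 313) (nat_lit 5) (nat_lit 584) (nat_lit 524) (nat_lit 452)) (XT.lf (nat_lit 0) (nat_lit 1312565575) (nat_lit 684) (nat_lit 3934301288) (nat_lit 76) (nat_lit 4124316268) (nat_lit 303) (nat_lit 5) (nat_lit 312) (nat_lit 5) (nat_lit 304) (nat_lit 5) (nat_lit 585) (nat_lit 524) (nat_lit 451))))))))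
noncomputable def xc80 : XT := (XT.nd (nat_lit 1560) (nat_lit 4712) (nat_lit 0) (XT.nd (nat_lit 780) (nat_lit 3192) (nat_lit 0) (XT.nd (nat_lit 390) (nat_lit 2356) (nat_lit 0) (XT.nd (nat_lit 156) (nat_lit 1292) (nat_lit 0) (XT.nd (nat_lit 78) (nat_lit 0) (nat_lit 0) (XT.lf (nat_lit 0) (nat_lit 2268867068) (nat_lit 684) (nat_lit 1701777201) (nat_lit 760) (nat_lit 5491978819) (nat_lit 294) (nat_lit 5) (nat_lit 303) (nat_lit 5) (nat_lit 304) (nat_lit 5) (nat_lit 586) (nat_lit 524) (nat_lit 450)) (XT.lf (nat_lit 0) (nat_lit 6689890366) (nat_lit 760) (nat_lit 957645228) (nat_lit 76) (nat_lit 1908198514) (nat_lit 294) (nat_lit 5) (nat_lit 304) (nat_lit 5) (nat_lit 295) (nat_lit 5) (nat_lit 587) (nat_lit 524) (nat_lit 449))) (XT.nd (nat_lit 78) (nat_lit 684) (nat_lit 0) (XT.lf (nat_lit 0) (nat_lit 5424723266) (nat_lit 608) (nat_lit 4054898285) (nat_lit 684) (nat_lit 170766125) (nat_lit 286) (nat_lit 5) (nat_lit 294) (nat_lit 5) (nat_lit 295) (nat_lit 5) (nat_lit 588) (nat_lit 524)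 (nat_lit 448)) (XT.nd (nat_lit 78) (nat_lit 0) (nat_lit 0) (XT.lf (nat_lit 0) (nat_lit 2174154261) (nat_lit 608) (nat_lit 360586576) (nat_lit 684) (nat_lit 7212054105) (nat_lit 277) (nat_lit 5) (nat_lit 285) (nat_lit 5) (nat_lit 286) (nat_lit 5) (nat_lit 589) (nat_lit 524) (nat_lit 447)) (XT.lf (nat_lit 0) (nat_lit 5312789404) (nat_lit 684) (nat_lit 1147542470) (nat_lit 76) (nat_lit 3384363740) (nat_lit 277) (nat_lit 5) (nat_lit 286) (nat_lit 5) (nat_lit 278) (nat_lit 5) (nat_lit 590) (nat_lit 524) (nat_lit 446))))) (XT.nd (nat_lit 156) (nat_lit 1064) (nat_lit 0) (XT.nd (nat_lit 78) (nat_lit 684) (nat_lit 0) (XT.lf (nat_lit 0) (nat_lit 5436951423) (nat_lit 608) (nat_lit 2717770303) (nat_lit 684) (nat_lit 1789668274) (nat_lit 269) (nat_lit 5) (nat_lit 277) (nat_lit 5) (nat_lit 278) (nat_lit 5) (nat_lit 591) (nat_lit 524) (nat_lit 445)) (XT.lf (nat_lit 0) (nat_lit 993662165) (nat_lit 684) (nat_lit 7947747659) (nat_lit 76) (nat_lit 1104550502) (nat_lit 260) (nat_lit 5) (nat_lit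 269) (nat_lit 5) (nat_lit 261) (nat_lit 5) (nat_lit 592) (nat_lit 524) (nat_lit 444))) (XT.nd (nat_lit 78) (nat_lit 1064) (nat_lit 0) (XT.lf (nat_lit 0) (nat_lit 3828203148) (nat_lit 684) (nat_lit 1320367275) (nat_lit 76) (nat_lit 5000366921) (nat_lit 260) (nat_lit 5) (nat_lit 269) (nat_lit 5) (nat_lit 261) (nat_lit 5) (nat_lit 593) (nat_lit 524) (nat_lit 443)) (XT.nd (nat_lit 78) (nat_lit 532) (nat_lit 0) (XT.lf (nat_lit 0) (nat_lit 5473666763) (nat_lit 532) (nat_lit 1252913837) (nat_lit 608) (nat_lit 3527252381) (nat_lit 253) (nat_lit 5) (nat_lit 260) (nat_lit 5) (nat_lit 261) (nat_lit 5) (nat_lit 594) (nat_lit 524) (nat_lit 442)) (XT.lf (nat_lit 0) (nat_lit 2031817790) (nat_lit 532) (nat_lit 7662742974) (nat_lit 608) (nat_lit 666035015) (nat_lit 246) (nat_lit 5) (nat_lit 253) (nat_lit 5) (nat_lit 254) (nat_lit 5) (nat_lit 595) (nat_lit 524) (nat_lit 441)))))) (XT.nd (nat_lit 390) (nat_lit 1520) (nat_lit 0) (XT.nd (nat_lit 156) (nat_lit 1064) (nat_lit 0) (XT.nd (nat_lit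 78) (nat_lit 532) (nat_lit 0) (XT.lf (nat_lit 0) (nat_lit 2235434062) (nat_lit 608) (nat_lit 1485210011) (nat_lit 76) (nat_lit 6748307794) (nat_lit 245) (nat_lit 5) (nat_lit 253) (nat_lit 5) (nat_lit 246) (nat_lit 5) (nat_lit 596) (nat_lit 524) (nat_lit 440)) (XT.lf (nat_lit 0) (nat_lit 5196583750) (nat_lit 608) (nat_lit 5055395777) (nat_lit 76) (nat_lit 327197949) (nat_lit 238) (nat_lit 5) (nat_lit 246) (nat_lit 5) (nat_lit 239) (nat_lit 5) (nat_lit 597) (nat_lit 524) (nat_lit 439))) (XT.nd (nat_lit 78) (nat_lit 532) (nat_lit 0) (XT.lf (nat_lit 0) (nat_lit 1965194440) (nat_lit 532) (nat_lit 6271957760) (nat_lit 608) (nat_lit 2454053287) (nat_lit 231) (nat_lit 5) (nat_lit 238) (nat_lit 5) (nat_lit 239) (nat_lit 5) (nat_lit 598) (nat_lit 524) (nat_lit 438)) (XT.nd (nat_lit 78) (nat_lit 456) (nat_lit 0) (XT.lf (nat_lit 0) (nat_lit 533091350) (nat_lit 608) (nat_lit 1651423474) (nat_lit 76) (nat_lit 8620751257) (nat_lit 230) (nat_lit 5) (nat_lit 238) (nat_lit 5) (nat_lit 231)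 (nat_lit 5) (nat_lit 599) (nat_lit 524) (nat_lit 437)) (XT.lf (nat_lit 0) (nat_lit 3569983396) (nat_lit 532) (nat_lit 5349536652) (nat_lit 76) (nat_lit 2001307828) (nat_lit 224) (nat_lit 5) (nat_lit 231) (nat_lit 5) (nat_lit 225) (nat_lit 5) (nat_lit 600) (nat_lit 524) (nat_lit 436))))) (XT.nd (nat_lit 156) (nat_lit 988) (nat_lit 0) (XT.nd (nat_lit 78) (nat_lit 0) (nat_lit 0) (XT.lf (nat_lit 0) (nat_lit 1895541464) (nat_lit 532) (nat_lit 4783624471) (nat_lit 608) (nat_lit 4359305584) (nat_lit 217) (nat_lit 5) (nat_lit 224) (nat_lit 5) (nat_lit 225) (nat_lit 5) (nat_lit 601) (nat_lit 524) (nat_lit 435)) (XT.lf (nat_lit 0) (nat_lit 9321134937) (nat_lit 532) (nat_lit 539196247) (nat_lit 608) (nat_lit 1297942504) (nat_lit 217) (nat_lit 5) (nat_lit 224) (nat_lit 5) (nat_lit 225) (nat_lit 5) (nat_lit 602) (nat_lit 524) (nat_lit 434))) (XT.nd (nat_lit 78) (nat_lit 456) (nat_lit 0) (XT.lf (nat_lit 0) (nat_lit 1836438954) (nat_lit 532) (nat_lit 5664503198) (nat_lit 76) (nat_lit 3778579947)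 (nat_lit 210) (nat_lit 5) (nat_lit 217) (nat_lit 5) (nat_lit 211) (nat_lit 5) (nat_lit 603) (nat_lit 524) (nat_lit 433)) (XT.nd (nat_lit 78) (nat_lit 0) (nat_lit 0) (XT.lf (nat_lit 0) (nat_lit 1812981230) (nat_lit 456) (nat_lit 3205356340) (nat_lit 532) (nat_lit 6384643682) (nat_lit 204) (nat_lit 5) (nat_lit 210) (nat_lit 5) (nat_lit 211) (nat_lit 5) (nat_lit 604) (nat_lit 524) (nat_lit 432)) (XT.lf (nat_lit 0) (nat_lit 8284406666) (nat_lit 532) (nat_lit 2056153290) (nat_lit 76) (nat_lit 1187940490) (nat_lit 204) (nat_lit 5) (nat_lit 211) (nat_lit 5) (nat_lit 205) (nat_lit 5) (nat_lit 605) (nat_lit 524) (nat_lit 431))))))) (XT.nd (nat_lit 780) (nat_lit 1596) (nat_lit 0) (XT.nd (nat_lit 390) (nat_lit 1216) (nat_lit 0) (XT.nd (nat_lit 156) (nat_lit 912) (nat_lit 0) (XT.nd (nat_lit 78) (nat_lit 532) (nat_lit 0) (XT.lf (nat_lit 0) (nat_lit 5644986593) (nat_lit 456) (nat_lit 6003819156) (nat_lit 532) (nat_lit 7065582) (nat_lit 198) (nat_lit 5) (nat_lit 204) (nat_lit 5) (nat_lit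 205) (nat_lit 5) (nat_lit 606) (nat_lit 524) (nat_lit 430)) (XT.lf (nat_lit 0) (nat_lit 1707129929) (nat_lit 456) (nat_lit 1544555541) (nat_lit 532) (nat_lit 8533673900) (nat_lit 191) (nat_lit 5) (nat_lit 197) (nat_lit 5) (nat_lit 198) (nat_lit 5) (nat_lit 607) (nat_lit 524) (nat_lit 429))) (XT.nd (nat_lit 78) (nat_lit 912) (nat_lit 0) (XT.lf (nat_lit 0) (nat_lit 6611020551) (nat_lit 532) (nat_lit 2311926001) (nat_lit 76) (nat_lit 2993781007) (nat_lit 191) (nat_lit 5) (nat_lit 198) (nat_lit 5) (nat_lit 192) (nat_lit 5) (nat_lit 608) (nat_lit 524) (nat_lit 428)) (XT.nd (nat_lit 78) (nat_lit 532) (nat_lit 0) (XT.lf (nat_lit 0) (nat_lit 5637666235) (nat_lit 380) (nat_lit 4422587752) (nat_lit 456) (nat_lit 1990016257) (nat_lit 186) (nat_lit 5) (nat_lit 191) (nat_lit 5) (nat_lit 192) (nat_lit 5) (nat_lit 609) (nat_lit 524) (nat_lit 427)) (XT.lf (nat_lit 0) (nat_lit 1376728745) (nat_lit 532) (nat_lit 10620519163) (nat_lit 76) (nat_lit 188996503) (nat_lit 179) (nat_lit 5) (nat_lit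 186) (nat_lit 5) (nat_lit 180) (nat_lit 5) (nat_lit 610) (nat_lit 524) (nat_lit 426))))) (XT.nd (nat_lit 156) (nat_lit 836) (nat_lit 0) (XT.nd (nat_lit 78) (nat_lit 380) (nat_lit 0) (XT.lf (nat_lit 0) (nat_lit 4832918692) (nat_lit 532) (nat_lit 2612282252) (nat_lit 76) (nat_lit 4878500198) (nat_lit 179) (nat_lit 5) (nat_lit 186) (nat_lit 5) (nat_lit 180) (nat_lit 5) (nat_lit 611) (nat_lit 524) (nat_lit 425)) (XT.lf (nat_lit 0) (nat_lit 5594196228) (nat_lit 380) (nat_lit 2776951428) (nat_lit 456) (nat_lit 4092502310) (nat_lit 174) (nat_lit 5) (nat_lit 179) (nat_lit 5) (nat_lit 180) (nat_lit 5) (nat_lit 612) (nat_lit 524) (nat_lit 424))) (XT.nd (nat_lit 78) (nat_lit 456) (nat_lit 0) (XT.lf (nat_lit 0) (nat_lit 1363601884) (nat_lit 380) (nat_lit 10632672481) (nat_lit 456) (nat_lit 609801975) (nat_lit 169) (nat_lit 5) (nat_lit 174) (nat_lit 5) (nat_lit 175) (nat_lit 5) (nat_lit 613) (nat_lit 524) (nat_lit 423)) (XT.nd (nat_lit 78) (nat_lit 380) (nat_lit 0) (XT.lf (nat_lit 0) (nat_lit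 2945575336) (nat_lit 456) (nat_lit 2969317558) (nat_lit 76) (nat_lit 6835245137) (nat_lit 168) (nat_lit 5) (nat_lit 174) (nat_lit 5) (nat_lit 169) (nat_lit 5) (nat_lit 614) (nat_lit 524) (nat_lit 422)) (XT.lf (nat_lit 0) (nat_lit 5502604793) (nat_lit 380) (nat_lit 1074300556) (nat_lit 456) (nat_lit 6319835950) (nat_lit 163) (nat_lit 5) (nat_lit 168) (nat_lit 5) (nat_lit 169) (nat_lit 5) (nat_lit 615) (nat_lit 524) (nat_lit 421)))))) (XT.nd (nat_lit 390) (nat_lit 380) (nat_lit 0) (XT.nd (nat_lit 156) (nat_lit 760) (nat_lit 0) (XT.nd (nat_lit 78) (nat_lit 76) (nat_lit 0) (XT.lf (nat_lit 0) (nat_lit 1092481192) (nat_lit 380) (nat_lit 9218031972) (nat_lit 456) (nat_lit 2735171588) (nat_lit 158) (nat_lit 5) (nat_lit 163) (nat_lit 5) (nat_lit 164) (nat_lit 5) (nat_lit 616) (nat_lit 524) (nat_lit 420)) (XT.lf (nat_lit 0) (nat_lit 943652876) (nat_lit 456) (nat_lit 3396018797) (nat_lit 76) (nat_lit 8857125915) (nat_lit 157) (nat_lit 5) (nat_lit 163) (nat_lit 5) (nat_lit 158) (nat_lit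 5) (nat_lit 617) (nat_lit 524) (nat_lit 419))) (XT.nd (nat_lit 78) (nat_lit 380) (nat_lit 0) (XT.lf (nat_lit 0) (nat_lit 4676529229) (nat_lit 456) (nat_lit 8004710800) (nat_lit 76) (nat_lit 668990153) (nat_lit 152) (nat_lit 5) (nat_lit 158) (nat_lit 5) (nat_lit 153) (nat_lit 5) (nat_lit 618) (nat_lit 524) (nat_lit 418)) (XT.nd (nat_lit 78) (nat_lit 0) (nat_lit 0) (XT.lf (nat_lit 0) (nat_lit 748081132) (nat_lit 380) (nat_lit 7770578172) (nat_lit 456) (nat_lit 4987381257) (nat_lit 147) (nat_lit 5) (nat_lit 152) (nat_lit 5) (nat_lit 153) (nat_lit 5) (nat_lit 619) (nat_lit 524) (nat_lit 417)) (XT.lf (nat_lit 0) (nat_lit 9750175522) (nat_lit 380) (nat_lit 2719439664) (nat_lit 456) (nat_lit 1194713331) (nat_lit 147) (nat_lit 5) (nat_lit 152) (nat_lit 5) (nat_lit 153) (nat_lit 5) (nat_lit 620) (nat_lit 524) (nat_lit 416))))) (XT.nd (nat_lit 73866) (nat_lit 0) (nat_lit 45828) (XT.nd (nat_lit 73710) (nat_lit 0) (nat_lit 46284) (XT.lf (nat_lit 0) (nat_lit 2666599807) (nat_lit 380) (nat_lit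 8718771201) (nat_lit 76) (nat_lit 2439507834) (nat_lit 142) (nat_lit 5) (nat_lit 147) (nat_lit 5) (nat_lit 143) (nat_lit 5) (nat_lit 621) (nat_lit 524) (nat_lit 415)) (XT.nd (nat_lit 78) (nat_lit 532) (nat_lit 0) (XT.lf (nat_lit 0) (nat_lit 955584428) (nat_lit 0) (nat_lit 955584428) (nat_lit 380) (nat_lit 1333724656) (nat_lit 758) (nat_lit 5) (nat_lit 758) (nat_lit 3) (nat_lit 763) (nat_lit 3) (nat_lit 525) (nat_lit 525) (nat_lit 510)) (XT.lf (nat_lit 0) (nat_lit 68027462) (nat_lit 532) (nat_lit 1345917156) (nat_lit 532) (nat_lit 5086128587) (nat_lit 751) (nat_lit 3) (nat_lit 758) (nat_lit 3) (nat_lit 758) (nat_lit 5) (nat_lit 526) (nat_lit 525) (nat_lit 509)))) (XT.nd (nat_lit 78) (nat_lit 456) (nat_lit 0) (XT.lf (nat_lit 76) (nat_lit 1922503093) (nat_lit 0) (nat_lit 840983686) (nat_lit 532) (nat_lit 3747917043) (nat_lit 752) (nat_lit 5) (nat_lit 751) (nat_lit 3) (nat_lit 758) (nat_lit 5) (nat_lit 527) (nat_lit 525) (nat_lit 508)) (XT.nd (nat_lit 78) (nat_lit 456) (nat_lit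 0) (XT.lf (nat_lit 76) (nat_lit 5238292501) (nat_lit 0) (nat_lit 213236336) (nat_lit 532) (nat_lit 1072669677) (nat_lit 752) (nat_lit 5) (nat_lit 751) (nat_lit 3) (nat_lit 758) (nat_lit 5) (nat_lit 528) (nat_lit 525) (nat_lit 507)) (XT.lf (nat_lit 0) (nat_lit 1581457848) (nat_lit 532) (nat_lit 4478326047) (nat_lit 608) (nat_lit 478318767) (nat_lit 745) (nat_lit 5) (nat_lit 752) (nat_lit 5) (nat_lit 753) (nat_lit 5) (nat_lit 529) (nat_lit 525) (nat_lit 506))))))))
noncomputable def xc81 : XT := (XT.nd (nat_lit 1560) (nat_lit 17860) (nat_lit 0) (XT.nd (nat_lit 780) (nat_lit 5092) (nat_lit 0) (XT.nd (nat_lit 390) (nat_lit 1520) (nat_lit 0) (XT.nd (nat_lit 156) (nat_lit 684) (nat_lit 0) (XT.nd (nat_lit 78) (nat_lit 608) (nat_lit 0) (XT.lf (nat_lit 0) (nat_lit 4216305494) (nat_lit 532) (nat_lit 1108693116) (nat_lit 608) (nat_lit 1228314765) (nat_lit 745) (nat_lit 5) (nat_lit 752) (nat_lit 5) (nat_lit 753) (nat_lit 5) (nat_lit 530) (nat_lit 525) (nat_lit 505)) (XT.lf (nat_lit 0)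 (nat_lit 278573940) (nat_lit 608) (nat_lit 4249993034) (nat_lit 684) (nat_lit 2041268809) (nat_lit 737) (nat_lit 5) (nat_lit 745) (nat_lit 5) (nat_lit 746) (nat_lit 5) (nat_lit 531) (nat_lit 525) (nat_lit 504))) (XT.nd (nat_lit 78) (nat_lit 684) (nat_lit 0) (XT.lf (nat_lit 0) (nat_lit 2856542910) (nat_lit 608) (nat_lit 807802973) (nat_lit 684) (nat_lit 2923216151) (nat_lit 737) (nat_lit 5) (nat_lit 745) (nat_lit 5) (nat_lit 746) (nat_lit 5) (nat_lit 532) (nat_lit 525) (nat_lit 503)) (XT.nd (nat_lit 78) (nat_lit 684) (nat_lit 0) (XT.lf (nat_lit 76) (nat_lit 2701688579) (nat_lit 0) (nat_lit 2737070511) (nat_lit 684) (nat_lit 1167839483) (nat_lit 738) (nat_lit 5) (nat_lit 737) (nat_lit 5) (nat_lit 746) (nat_lit 5) (nat_lit 533) (nat_lit 525) (nat_lit 502)) (XT.lf (nat_lit 0) (nat_lit 1368835925) (nat_lit 684) (nat_lit 380610897) (nat_lit 760) (nat_lit 4877566231) (nat_lit 728) (nat_lit 5) (nat_lit 737) (nat_lit 5) (nat_lit 738) (nat_lit 5) (nat_lit 534) (nat_lit 525) (nat_lit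 501))))) (XT.nd (nat_lit 156) (nat_lit 1520) (nat_lit 0) (XT.nd (nat_lit 78) (nat_lit 0) (nat_lit 76) (XT.lf (nat_lit 76) (nat_lit 3211704179) (nat_lit 0) (nat_lit 686778228) (nat_lit 760) (nat_lit 2750050497) (nat_lit 729) (nat_lit 5) (nat_lit 728) (nat_lit 5) (nat_lit 738) (nat_lit 5) (nat_lit 535) (nat_lit 525) (nat_lit 500)) (XT.lf (nat_lit 76) (nat_lit 172227094) (nat_lit 0) (nat_lit 6250932464) (nat_lit 760) (nat_lit 248443633) (nat_lit 730) (nat_lit 5) (nat_lit 729) (nat_lit 5) (nat_lit 739) (nat_lit 5) (nat_lit 536) (nat_lit 525) (nat_lit 499))) (XT.nd (nat_lit 78) (nat_lit 836) (nat_lit 0) (XT.lf (nat_lit 0) (nat_lit 2239477896) (nat_lit 760) (nat_lit 2852878877) (nat_lit 836) (nat_lit 1603157700) (nat_lit 719) (nat_lit 5) (nat_lit 729) (nat_lit 5) (nat_lit 730) (nat_lit 5) (nat_lit 537) (nat_lit 525) (nat_lit 498)) (XT.nd (nat_lit 78) (nat_lit 836) (nat_lit 0) (XT.lf (nat_lit 76) (nat_lit 838049435) (nat_lit 0) (nat_lit 3881152990) (nat_lit 836) (nat_lit 2001769573)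 (nat_lit 720) (nat_lit 5) (nat_lit 719) (nat_lit 5) (nat_lit 730) (nat_lit 5) (nat_lit 538) (nat_lit 525) (nat_lit 497)) (XT.lf (nat_lit 0) (nat_lit 454736610) (nat_lit 836) (nat_lit 2146866267) (nat_lit 912) (nat_lit 4146083985) (nat_lit 708) (nat_lit 5) (nat_lit 719) (nat_lit 5) (nat_lit 720) (nat_lit 5) (nat_lit 539) (nat_lit 525) (nat_lit 496)))))) (XT.nd (nat_lit 390) (nat_lit 3344) (nat_lit 0) (XT.nd (nat_lit 156) (nat_lit 1748) (nat_lit 0) (XT.nd (nat_lit 78) (nat_lit 0) (nat_lit 76) (XT.lf (nat_lit 76) (nat_lit 1634448403) (nat_lit 0) (nat_lit 1251386314) (nat_lit 912) (nat_lit 3889799172) (nat_lit 709) (nat_lit 5) (nat_lit 708) (nat_lit 5) (nat_lit 720) (nat_lit 5) (nat_lit 540) (nat_lit 525) (nat_lit 495)) (XT.lf (nat_lit 0) (nat_lit 5323534404) (nat_lit 836) (nat_lit 1322955262) (nat_lit 76) (nat_lit 158498253) (nat_lit 709) (nat_lit 5) (nat_lit 720) (nat_lit 5) (nat_lit 710) (nat_lit 5) (nat_lit 541) (nat_lit 525) (nat_lit 494))) (XT.nd (nat_lit 78) (nat_lit 912)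 (nat_lit 0) (XT.lf (nat_lit 0) (nat_lit 930743099) (nat_lit 912) (nat_lit 4282695611) (nat_lit 76) (nat_lit 1622001620) (nat_lit 697) (nat_lit 5) (nat_lit 709) (nat_lit 5) (nat_lit 698) (nat_lit 5) (nat_lit 542) (nat_lit 525) (nat_lit 493)) (XT.nd (nat_lit 78) (nat_lit 912) (nat_lit 0) (XT.lf (nat_lit 0) (nat_lit 3324570740) (nat_lit 912) (nat_lit 390723994) (nat_lit 76) (nat_lit 3151953947) (nat_lit 697) (nat_lit 5) (nat_lit 709) (nat_lit 5) (nat_lit 698) (nat_lit 5) (nat_lit 543) (nat_lit 525) (nat_lit 492)) (XT.lf (nat_lit 0) (nat_lit 3588482290) (nat_lit 912) (nat_lit 2146452915) (nat_lit 988) (nat_lit 1165391862) (nat_lit 685) (nat_lit 5) (nat_lit 697) (nat_lit 5) (nat_lit 698) (nat_lit 5) (nat_lit 544) (nat_lit 525) (nat_lit 491))))) (XT.nd (nat_lit 156) (nat_lit 2280) (nat_lit 0) (XT.nd (nat_lit 78) (nat_lit 0) (nat_lit 0) (XT.lf (nat_lit 0) (nat_lit 681146085) (nat_lit 988) (nat_lit 514664500) (nat_lit 1064) (nat_lit 5739041921) (nat_lit 671) (nat_lit 5) (nat_lit 684)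 (nat_lit 5) (nat_lit 685) (nat_lit 5) (nat_lit 545) (nat_lit 525) (nat_lit 490)) (XT.lf (nat_lit 0) (nat_lit 3565226682) (nat_lit 1064) (nat_lit 2225134780) (nat_lit 76) (nat_lit 1180027709) (nat_lit 671) (nat_lit 5) (nat_lit 685) (nat_lit 5) (nat_lit 672) (nat_lit 5) (nat_lit 546) (nat_lit 525) (nat_lit 489))) (XT.nd (nat_lit 78) (nat_lit 1216) (nat_lit 0) (XT.lf (nat_lit 0) (nat_lit 1866778653) (nat_lit 1064) (nat_lit 4078568641) (nat_lit 1140) (nat_lit 1062029484) (nat_lit 657) (nat_lit 5) (nat_lit 671) (nat_lit 5) (nat_lit 672) (nat_lit 5) (nat_lit 547) (nat_lit 525) (nat_lit 488)) (XT.nd (nat_lit 78) (nat_lit 1140) (nat_lit 0) (XT.lf (nat_lit 0) (nat_lit 1273797590) (nat_lit 1140) (nat_lit 1021580630) (nat_lit 76) (nat_lit 4750294800) (nat_lit 656) (nat_lit 5) (nat_lit 671) (nat_lit 5) (nat_lit 657) (nat_lit 5) (nat_lit 548) (nat_lit 525) (nat_lit 487)) (XT.lf (nat_lit 0) (nat_lit 3176456601) (nat_lit 1140) (nat_lit 435533548) (nat_lit 1216) (nat_lit 3473213403) (nat_lit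 641) (nat_lit 5) (nat_lit 656) (nat_lit 5) (nat_lit 657) (nat_lit 5) (nat_lit 549) (nat_lit 525) (nat_lit 486))))))) (XT.nd (nat_lit 780) (nat_lit 9196) (nat_lit 0) (XT.nd (nat_lit 390) (nat_lit 4636) (nat_lit 0) (XT.nd (nat_lit 156) (nat_lit 2736) (nat_lit 0) (XT.nd (nat_lit 78) (nat_lit 76) (nat_lit 0) (XT.lf (nat_lit 0) (nat_lit 302524673) (nat_lit 1216) (nat_lit 5662838617) (nat_lit 1292) (nat_lit 1160799107) (nat_lit 625) (nat_lit 5) (nat_lit 641) (nat_lit 5) (nat_lit 642) (nat_lit 5) (nat_lit 550) (nat_lit 525) (nat_lit 485)) (XT.lf (nat_lit 0) (nat_lit 1161900809) (nat_lit 1292) (nat_lit 2566477403) (nat_lit 76) (nat_lit 3439817511) (nat_lit 624) (nat_lit 5) (nat_lit 641) (nat_lit 5) (nat_lit 625) (nat_lit 5) (nat_lit 551) (nat_lit 525) (nat_lit 484))) (XT.nd (nat_lit 78) (nat_lit 1444) (nat_lit 0) (XT.lf (nat_lit 0) (nat_lit 1752662405) (nat_lit 1292) (nat_lit 1725674317) (nat_lit 1368) (nat_lit 3733328722) (nat_lit 607) (nat_lit 5) (nat_lit 624) (nat_lit 5) (nat_lit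 625) (nat_lit 5) (nat_lit 552) (nat_lit 525) (nat_lit 483)) (XT.nd (nat_lit 78) (nat_lit 1444) (nat_lit 0) (XT.lf (nat_lit 0) (nat_lit 5812694599) (nat_lit 1368) (nat_lit 1104093899) (nat_lit 76) (nat_lit 339789775) (nat_lit 607) (nat_lit 5) (nat_lit 625) (nat_lit 5) (nat_lit 608) (nat_lit 5) (nat_lit 553) (nat_lit 525) (nat_lit 482)) (XT.lf (nat_lit 0) (nat_lit 865758600) (nat_lit 1444) (nat_lit 3976651516) (nat_lit 76) (nat_lit 2460146886) (nat_lit 588) (nat_lit 5) (nat_lit 607) (nat_lit 5) (nat_lit 589) (nat_lit 5) (nat_lit 554) (nat_lit 525) (nat_lit 481))))) (XT.nd (nat_lit 156) (nat_lit 3192) (nat_lit 0) (XT.nd (nat_lit 78) (nat_lit 0) (nat_lit 0) (XT.lf (nat_lit 0) (nat_lit 467852580) (nat_lit 1444) (nat_lit 2698416287) (nat_lit 1520) (nat_lit 4183720636) (nat_lit 569) (nat_lit 5) (nat_lit 588) (nat_lit 5) (nat_lit 589) (nat_lit 5) (nat_lit 555) (nat_lit 525) (nat_lit 480)) (XT.lf (nat_lit 0) (nat_lit 5016570621) (nat_lit 1444) (nat_lit 477060469) (nat_lit 1520) (nat_lit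 1905127883) (nat_lit 569) (nat_lit 5) (nat_lit 588) (nat_lit 5) (nat_lit 589) (nat_lit 5) (nat_lit 556) (nat_lit 525) (nat_lit 479))) (XT.nd (nat_lit 78) (nat_lit 1596) (nat_lit 0) (XT.lf (nat_lit 0) (nat_lit 394317818) (nat_lit 1596) (nat_lit 5265443357) (nat_lit 76) (nat_lit 1789077658) (nat_lit 548) (nat_lit 5) (nat_lit 569) (nat_lit 5) (nat_lit 549) (nat_lit 5) (nat_lit 557) (nat_lit 525) (nat_lit 478)) (XT.nd (nat_lit 78) (nat_lit 1596) (nat_lit 0) (XT.lf (nat_lit 0) (nat_lit 2688951228) (nat_lit 1596) (nat_lit 682016764) (nat_lit 76) (nat_lit 4129211125) (nat_lit 548) (nat_lit 5) (nat_lit 569) (nat_lit 5) (nat_lit 549) (nat_lit 5) (nat_lit 558) (nat_lit 525) (nat_lit 477)) (XT.lf (nat_lit 0) (nat_lit 4007285201) (nat_lit 1596) (nat_lit 1004517577) (nat_lit 1672) (nat_lit 2541101682) (nat_lit 527) (nat_lit 5) (nat_lit 548) (nat_lit 5) (nat_lit 549) (nat_lit 5) (nat_lit 559) (nat_lit 525) (nat_lit 476)))))) (XT.nd (nat_lit 390) (nat_lit 3800) (nat_lit 0) (XT.nd (nat_lit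 156) (nat_lit 3648) (nat_lit 0) (XT.nd (nat_lit 78) (nat_lit 76) (nat_lit 0) (XT.lf (nat_lit 0) (nat_lit 1160063794) (nat_lit 1672) (nat_lit 6199285583) (nat_lit 1748) (nat_lit 247774836) (nat_lit 505) (nat_lit 5) (nat_lit 527) (nat_lit 5) (nat_lit 528) (nat_lit 5) (nat_lit 560) (nat_lit 525) (nat_lit 475)) (XT.lf (nat_lit 0) (nat_lit 2051848360) (nat_lit 1748) (nat_lit 1713730875) (nat_lit 76) (nat_lit 3896824852) (nat_lit 504) (nat_lit 5) (nat_lit 527) (nat_lit 5) (nat_lit 505) (nat_lit 5) (nat_lit 561) (nat_lit 525) (nat_lit 474))) (XT.nd (nat_lit 78) (nat_lit 1900) (nat_lit 0) (XT.lf (nat_lit 0) (nat_lit 3114936333) (nat_lit 1748) (nat_lit 1257531601) (nat_lit 1824) (nat_lit 3346726834) (nat_lit 481) (nat_lit 5) (nat_lit 504) (nat_lit 5) (nat_lit 505) (nat_lit 5) (nat_lit 562) (nat_lit 525) (nat_lit 473)) (XT.nd (nat_lit 78) (nat_lit 76) (nat_lit 0) (XT.lf (nat_lit 0) (nat_lit 242030798) (nat_lit 1824) (nat_lit 6477748728) (nat_lit 1900) (nat_lit 1057740454) (nat_lit 457)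 (nat_lit 5) (nat_lit 481) (nat_lit 5) (nat_lit 482) (nat_lit 5) (nat_lit 563) (nat_lit 525) (nat_lit 472)) (XT.lf (nat_lit 0) (nat_lit 1258677561) (nat_lit 1900) (nat_lit 2644990015) (nat_lit 76) (nat_lit 3933214432) (nat_lit 456) (nat_lit 5) (nat_lit 481) (nat_lit 5) (nat_lit 457) (nat_lit 5) (nat_lit 564) (nat_lit 525) (nat_lit 471))))) (XT.nd (nat_lit 234) (nat_lit 1748) (nat_lit 0) (XT.nd (nat_lit 78) (nat_lit 988) (nat_lit 0) (XT.lf (nat_lit 0) (nat_lit 2328191953) (nat_lit 1064) (nat_lit 1253973433) (nat_lit 1140) (nat_lit 4315632026) (nat_lit 442) (nat_lit 5) (nat_lit 456) (nat_lit 5) (nat_lit 457) (nat_lit 5) (nat_lit 565) (nat_lit 525) (nat_lit 470)) (XT.nd (nat_lit 78) (nat_lit 988) (nat_lit 0) (XT.lf (nat_lit 0) (nat_lit 5939718709) (nat_lit 1140) (nat_lit 571617238) (nat_lit 76) (nat_lit 1448847247) (nat_lit 442) (nat_lit 5) (nat_lit 457) (nat_lit 5) (nat_lit 443) (nat_lit 5) (nat_lit 566) (nat_lit 525) (nat_lit 469)) (XT.lf (nat_lit 0) (nat_lit 315266610) (nat_lit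 988) (nat_lit 3486799392) (nat_lit 76) (nat_lit 4221735585) (nat_lit 429) (nat_lit 5) (nat_lit 442) (nat_lit 5) (nat_lit 430) (nat_lit 5) (nat_lit 567) (nat_lit 525) (nat_lit 468)))) (XT.nd (nat_lit 78) (nat_lit 836) (nat_lit 0) (XT.lf (nat_lit 0) (nat_lit 1636276677) (nat_lit 912) (nat_lit 1010249669) (nat_lit 988) (nat_lit 5442385287) (nat_lit 417) (nat_lit 5) (nat_lit 429) (nat_lit 5) (nat_lit 430) (nat_lit 5) (nat_lit 568) (nat_lit 525) (nat_lit 467)) (XT.nd (nat_lit 78) (nat_lit 836) (nat_lit 0) (XT.lf (nat_lit 0) (nat_lit 5021757837) (nat_lit 988) (nat_lit 1297075674) (nat_lit 76) (nat_lit 1836547119) (nat_lit 417) (nat_lit 5) (nat_lit 430) (nat_lit 5) (nat_lit 418) (nat_lit 5) (nat_lit 569) (nat_lit 525) (nat_lit 466)) (XT.lf (nat_lit 0) (nat_lit 3968507068) (nat_lit 836) (nat_lit 3471054939) (nat_lit 912) (nat_lit 783719246) (nat_lit 406) (nat_lit 5) (nat_lit 417) (nat_lit 5) (nat_lit 418) (nat_lit 5) (nat_lit 570) (nat_lit 525) (nat_lit 465))))))))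
noncomputable def xc82 : XT := (XT.nd (nat_lit 1560) (nat_lit 7448) (nat_lit 0) (XT.nd (nat_lit 780) (nat_lit 4864) (nat_lit 0) (XT.nd (nat_lit 390) (nat_lit 2280) (nat_lit 0) (XT.nd (nat_lit 156) (nat_lit 1748) (nat_lit 0) (XT.nd (nat_lit 78) (nat_lit 0) (nat_lit 0) (XT.lf (nat_lit 0) (nat_lit 1028891186) (nat_lit 836) (nat_lit 541424688) (nat_lit 912) (nat_lit 6722452190) (nat_lit 394) (nat_lit 5) (nat_lit 405) (nat_lit 5) (nat_lit 406) (nat_lit 5) (nat_lit 571) (nat_lit 525) (nat_lit 464)) (XT.lf (nat_lit 0) (nat_lit 3968890804) (nat_lit 912) (nat_lit 1947594785) (nat_lit 76) (nat_lit 2446899752) (nat_lit 394) (nat_lit 5) (nat_lit 406) (nat_lit 5) (nat_lit 395) (nat_lit 5) (nat_lit 572) (nat_lit 525) (nat_lit 463))) (XT.nd (nat_lit 78) (nat_lit 912) (nat_lit 0) (XT.lf (nat_lit 0) (nat_lit 3478658286) (nat_lit 836) (nat_lit 2926985789) (nat_lit 912) (nat_lit 2029970084) (nat_lit 383) (nat_lit 5) (nat_lit 394) (nat_lit 5) (nat_lit 395) (nat_lit 5) (nat_lit 573) (nat_lit 525)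 (nat_lit 462)) (XT.nd (nat_lit 78) (nat_lit 0) (nat_lit 0) (XT.lf (nat_lit 0) (nat_lit 358369044) (nat_lit 912) (nat_lit 8014395246) (nat_lit 76) (nat_lit 136846240) (nat_lit 371) (nat_lit 5) (nat_lit 383) (nat_lit 5) (nat_lit 372) (nat_lit 5) (nat_lit 574) (nat_lit 525) (nat_lit 461)) (XT.lf (nat_lit 0) (nat_lit 2784873699) (nat_lit 912) (nat_lit 2532899624) (nat_lit 76) (nat_lit 3266696683) (nat_lit 371) (nat_lit 5) (nat_lit 383) (nat_lit 5) (nat_lit 372) (nat_lit 5) (nat_lit 575) (nat_lit 525) (nat_lit 460))))) (XT.nd (nat_lit 156) (nat_lit 760) (nat_lit 0) (XT.nd (nat_lit 78) (nat_lit 760) (nat_lit 0) (XT.lf (nat_lit 0) (nat_lit 3060072084) (nat_lit 760) (nat_lit 2185083352) (nat_lit 836) (nat_lit 3415969374) (nat_lit 361) (nat_lit 5) (nat_lit 371) (nat_lit 5) (nat_lit 372) (nat_lit 5) (nat_lit 576) (nat_lit 525) (nat_lit 459)) (XT.lf (nat_lit 0) (nat_lit 15093527) (nat_lit 760) (nat_lit 7729102104) (nat_lit 836) (nat_lit 995329042) (nat_lit 351) (nat_lit 5) (nat_lit 361)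 (nat_lit 5) (nat_lit 362) (nat_lit 5) (nat_lit 577) (nat_lit 525) (nat_lit 458))) (XT.nd (nat_lit 78) (nat_lit 684) (nat_lit 0) (XT.lf (nat_lit 0) (nat_lit 1472682064) (nat_lit 836) (nat_lit 3062439999) (nat_lit 76) (nat_lit 4283816279) (nat_lit 350) (nat_lit 5) (nat_lit 361) (nat_lit 5) (nat_lit 351) (nat_lit 5) (nat_lit 578) (nat_lit 525) (nat_lit 457)) (XT.nd (nat_lit 78) (nat_lit 0) (nat_lit 0) (XT.lf (nat_lit 0) (nat_lit 2703521680) (nat_lit 684) (nat_lit 1257417269) (nat_lit 760) (nat_lit 4939188338) (nat_lit 341) (nat_lit 5) (nat_lit 350) (nat_lit 5) (nat_lit 351) (nat_lit 5) (nat_lit 579) (nat_lit 525) (nat_lit 456)) (XT.lf (nat_lit 0) (nat_lit 6500213752) (nat_lit 760) (nat_lit 408406591) (nat_lit 76) (nat_lit 2074297402) (nat_lit 341) (nat_lit 5) (nat_lit 351) (nat_lit 5) (nat_lit 342) (nat_lit 5) (nat_lit 580) (nat_lit 525) (nat_lit 455)))))) (XT.nd (nat_lit 390) (nat_lit 1976) (nat_lit 0) (XT.nd (nat_lit 156) (nat_lit 1368) (nat_lit 0) (XT.nd (nat_lit 78) (nat_lit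 684) (nat_lit 0) (XT.lf (nat_lit 0) (nat_lit 34534418) (nat_lit 836) (nat_lit 3545465660) (nat_lit 76) (nat_lit 5487125141) (nat_lit 330) (nat_lit 5) (nat_lit 341) (nat_lit 5) (nat_lit 331) (nat_lit 5) (nat_lit 581) (nat_lit 525) (nat_lit 454)) (XT.lf (nat_lit 0) (nat_lit 2399977342) (nat_lit 684) (nat_lit 155115188) (nat_lit 760) (nat_lit 6597874360) (nat_lit 321) (nat_lit 5) (nat_lit 330) (nat_lit 5) (nat_lit 331) (nat_lit 5) (nat_lit 582) (nat_lit 525) (nat_lit 453))) (XT.nd (nat_lit 78) (nat_lit 1368) (nat_lit 0) (XT.lf (nat_lit 0) (nat_lit 5139879103) (nat_lit 760) (nat_lit 787782274) (nat_lit 76) (nat_lit 3312590248) (nat_lit 321) (nat_lit 5) (nat_lit 331) (nat_lit 5) (nat_lit 322) (nat_lit 5) (nat_lit 583) (nat_lit 525) (nat_lit 452)) (XT.nd (nat_lit 78) (nat_lit 684) (nat_lit 0) (XT.lf (nat_lit 0) (nat_lit 5328041054) (nat_lit 684) (nat_lit 2452757986) (nat_lit 760) (nat_lit 1548396788) (nat_lit 312) (nat_lit 5) (nat_lit 321) (nat_lit 5) (nat_lit 322) (nat_lit 5) (nat_lit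 584) (nat_lit 525) (nat_lit 451)) (XT.lf (nat_lit 0) (nat_lit 1036203023) (nat_lit 684) (nat_lit 7286706638) (nat_lit 76) (nat_lit 1096966413) (nat_lit 303) (nat_lit 5) (nat_lit 312) (nat_lit 5) (nat_lit 304) (nat_lit 5) (nat_lit 585) (nat_lit 525) (nat_lit 450))))) (XT.nd (nat_lit 156) (nat_lit 1292) (nat_lit 0) (XT.nd (nat_lit 78) (nat_lit 684) (nat_lit 0) (XT.lf (nat_lit 0) (nat_lit 3664353131) (nat_lit 684) (nat_lit 1132121607) (nat_lit 76) (nat_lit 4715441043) (nat_lit 303) (nat_lit 5) (nat_lit 312) (nat_lit 5) (nat_lit 304) (nat_lit 5) (nat_lit 586) (nat_lit 525) (nat_lit 449)) (XT.lf (nat_lit 0) (nat_lit 5176157053) (nat_lit 684) (nat_lit 1172419032) (nat_lit 760) (nat_lit 3257152334) (nat_lit 294) (nat_lit 5) (nat_lit 303) (nat_lit 5) (nat_lit 304) (nat_lit 5) (nat_lit 587) (nat_lit 525) (nat_lit 448))) (XT.nd (nat_lit 78) (nat_lit 684) (nat_lit 0) (XT.lf (nat_lit 0) (nat_lit 1895514674) (nat_lit 608) (nat_lit 7197516570) (nat_lit 684) (nat_lit 608257398) (nat_lit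 286) (nat_lit 5) (nat_lit 294) (nat_lit 5) (nat_lit 295) (nat_lit 5) (nat_lit 588) (nat_lit 525) (nat_lit 447)) (XT.nd (nat_lit 78) (nat_lit 608) (nat_lit 0) (XT.lf (nat_lit 0) (nat_lit 2074192883) (nat_lit 684) (nat_lit 1450311338) (nat_lit 76) (nat_lit 6273825472) (nat_lit 285) (nat_lit 5) (nat_lit 294) (nat_lit 5) (nat_lit 286) (nat_lit 5) (nat_lit 589) (nat_lit 525) (nat_lit 446)) (XT.lf (nat_lit 0) (nat_lit 4807557110) (nat_lit 684) (nat_lit 4841226288) (nat_lit 76) (nat_lit 248341723) (nat_lit 277) (nat_lit 5) (nat_lit 286) (nat_lit 5) (nat_lit 278) (nat_lit 5) (nat_lit 590) (nat_lit 525) (nat_lit 445))))))) (XT.nd (nat_lit 780) (nat_lit 3420) (nat_lit 0) (XT.nd (nat_lit 390) (nat_lit 2204) (nat_lit 0) (XT.nd (nat_lit 156) (nat_lit 1140) (nat_lit 0) (XT.nd (nat_lit 78) (nat_lit 76) (nat_lit 0) (XT.lf (nat_lit 0) (nat_lit 1675480134) (nat_lit 608) (nat_lit 5935335000) (nat_lit 684) (nat_lit 2386778904) (nat_lit 269) (nat_lit 5) (nat_lit 277) (nat_lit 5) (nat_lit 278)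 (nat_lit 5) (nat_lit 591) (nat_lit 525) (nat_lit 444)) (XT.lf (nat_lit 0) (nat_lit 369258613) (nat_lit 684) (nat_lit 1751312569) (nat_lit 76) (nat_lit 7979374207) (nat_lit 268) (nat_lit 5) (nat_lit 277) (nat_lit 5) (nat_lit 269) (nat_lit 5) (nat_lit 592) (nat_lit 525) (nat_lit 443))) (XT.nd (nat_lit 78) (nat_lit 532) (nat_lit 0) (XT.lf (nat_lit 0) (nat_lit 3164377392) (nat_lit 684) (nat_lit 5252192069) (nat_lit 76) (nat_lit 1787142376) (nat_lit 260) (nat_lit 5) (nat_lit 269) (nat_lit 5) (nat_lit 261) (nat_lit 5) (nat_lit 593) (nat_lit 525) (nat_lit 442)) (XT.nd (nat_lit 78) (nat_lit 0) (nat_lit 0) (XT.lf (nat_lit 0) (nat_lit 1471058320) (nat_lit 532) (nat_lit 4551928587) (nat_lit 608) (nat_lit 4286416891) (nat_lit 253) (nat_lit 5) (nat_lit 260) (nat_lit 5) (nat_lit 261) (nat_lit 5) (nat_lit 594) (nat_lit 525) (nat_lit 441)) (XT.lf (nat_lit 0) (nat_lit 8363268400) (nat_lit 532) (nat_lit 583216416) (nat_lit 608) (nat_lit 1470572374) (nat_lit 253) (nat_lit 5) (nat_lit 260) (nat_lit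 5) (nat_lit 261) (nat_lit 5) (nat_lit 595) (nat_lit 525) (nat_lit 440))))) (XT.nd (nat_lit 156) (nat_lit 1064) (nat_lit 0) (XT.nd (nat_lit 78) (nat_lit 532) (nat_lit 0) (XT.lf (nat_lit 0) (nat_lit 1410461552) (nat_lit 608) (nat_lit 5664215240) (nat_lit 76) (nat_lit 3451461604) (nat_lit 245) (nat_lit 5) (nat_lit 253) (nat_lit 5) (nat_lit 246) (nat_lit 5) (nat_lit 596) (nat_lit 525) (nat_lit 439)) (XT.lf (nat_lit 0) (nat_lit 1273083966) (nat_lit 532) (nat_lit 3055429772) (nat_lit 608) (nat_lit 6308713110) (nat_lit 238) (nat_lit 5) (nat_lit 245) (nat_lit 5) (nat_lit 246) (nat_lit 5) (nat_lit 597) (nat_lit 525) (nat_lit 438))) (XT.nd (nat_lit 78) (nat_lit 1064) (nat_lit 0) (XT.lf (nat_lit 0) (nat_lit 7323266102) (nat_lit 608) (nat_lit 2367713670) (nat_lit 76) (nat_lit 1059192284) (nat_lit 238) (nat_lit 5) (nat_lit 246) (nat_lit 5) (nat_lit 239) (nat_lit 5) (nat_lit 598) (nat_lit 525) (nat_lit 437)) (XT.nd (nat_lit 78) (nat_lit 532) (nat_lit 0) (XT.lf (nat_lit 0) (nat_lit 4774941049)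 (nat_lit 532) (nat_lit 5628030647) (nat_lit 608) (nat_lit 461905043) (nat_lit 231) (nat_lit 5) (nat_lit 238) (nat_lit 5) (nat_lit 239) (nat_lit 5) (nat_lit 599) (nat_lit 525) (nat_lit 436)) (XT.lf (nat_lit 0) (nat_lit 1072101569) (nat_lit 456) (nat_lit 1453571440) (nat_lit 532) (nat_lit 8455933767) (nat_lit 224) (nat_lit 5) (nat_lit 230) (nat_lit 5) (nat_lit 231) (nat_lit 5) (nat_lit 600) (nat_lit 525) (nat_lit 435)))))) (XT.nd (nat_lit 390) (nat_lit 1900) (nat_lit 0) (XT.nd (nat_lit 156) (nat_lit 988) (nat_lit 0) (XT.nd (nat_lit 78) (nat_lit 532) (nat_lit 0) (XT.lf (nat_lit 0) (nat_lit 5600309123) (nat_lit 532) (nat_lit 2697877941) (nat_lit 76) (nat_lit 2801755094) (nat_lit 224) (nat_lit 5) (nat_lit 231) (nat_lit 5) (nat_lit 225) (nat_lit 5) (nat_lit 601) (nat_lit 525) (nat_lit 434)) (XT.lf (nat_lit 0) (nat_lit 4673952727) (nat_lit 532) (nat_lit 4077105417) (nat_lit 608) (nat_lit 2469295299) (nat_lit 217) (nat_lit 5) (nat_lit 224) (nat_lit 5) (nat_lit 225) (nat_lit 5) (nat_lit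 602) (nat_lit 525) (nat_lit 433))) (XT.nd (nat_lit 78) (nat_lit 456) (nat_lit 0) (XT.lf (nat_lit 0) (nat_lit 613638077) (nat_lit 532) (nat_lit 10486446505) (nat_lit 76) (nat_lit 243006352) (nat_lit 210) (nat_lit 5) (nat_lit 217) (nat_lit 5) (nat_lit 211) (nat_lit 5) (nat_lit 603) (nat_lit 525) (nat_lit 432)) (XT.nd (nat_lit 78) (nat_lit 456) (nat_lit 0) (XT.lf (nat_lit 0) (nat_lit 3771360748) (nat_lit 532) (nat_lit 3050562359) (nat_lit 76) (nat_lit 4645111245) (nat_lit 210) (nat_lit 5) (nat_lit 217) (nat_lit 5) (nat_lit 211) (nat_lit 5) (nat_lit 604) (nat_lit 525) (nat_lit 431)) (XT.lf (nat_lit 0) (nat_lit 4558529450) (nat_lit 456) (nat_lit 2438738914) (nat_lit 532) (nat_lit 4596089144) (nat_lit 204) (nat_lit 5) (nat_lit 210) (nat_lit 5) (nat_lit 211) (nat_lit 5) (nat_lit 605) (nat_lit 525) (nat_lit 430))))) (XT.nd (nat_lit 234) (nat_lit 912) (nat_lit 0) (XT.nd (nat_lit 78) (nat_lit 532) (nat_lit 0) (XT.lf (nat_lit 0) (nat_lit 598393594) (nat_lit 456) (nat_lit 9702603684)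 (nat_lit 532) (nat_lit 1420945237) (nat_lit 198) (nat_lit 5) (nat_lit 204) (nat_lit 5) (nat_lit 205) (nat_lit 5) (nat_lit 606) (nat_lit 525) (nat_lit 429)) (XT.nd (nat_lit 78) (nat_lit 456) (nat_lit 0) (XT.lf (nat_lit 0) (nat_lit 1833238417) (nat_lit 532) (nat_lit 3436353852) (nat_lit 76) (nat_lit 6582484785) (nat_lit 197) (nat_lit 5) (nat_lit 204) (nat_lit 5) (nat_lit 198) (nat_lit 5) (nat_lit 607) (nat_lit 525) (nat_lit 428)) (XT.lf (nat_lit 0) (nat_lit 4418246015) (nat_lit 456) (nat_lit 720119334) (nat_lit 532) (nat_lit 6846164733) (nat_lit 191) (nat_lit 5) (nat_lit 197) (nat_lit 5) (nat_lit 198) (nat_lit 5) (nat_lit 608) (nat_lit 525) (nat_lit 427)))) (XT.nd (nat_lit 78) (nat_lit 532) (nat_lit 0) (XT.lf (nat_lit 0) (nat_lit 300637820) (nat_lit 380) (nat_lit 8235927162) (nat_lit 456) (nat_lit 3582529126) (nat_lit 186) (nat_lit 5) (nat_lit 191) (nat_lit 5) (nat_lit 192) (nat_lit 5) (nat_lit 609) (nat_lit 525) (nat_lit 426)) (XT.nd (nat_lit 78) (nat_lit 532) (nat_lit 0) (XT.lf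 (nat_lit 0) (nat_lit 8387812802) (nat_lit 380) (nat_lit 3647017109) (nat_lit 456) (nat_lit 220878790) (nat_lit 186) (nat_lit 5) (nat_lit 191) (nat_lit 5) (nat_lit 192) (nat_lit 5) (nat_lit 610) (nat_lit 525) (nat_lit 425)) (XT.lf (nat_lit 0) (nat_lit 3177326827) (nat_lit 532) (nat_lit 8159468774) (nat_lit 76) (nat_lit 1057616762) (nat_lit 179) (nat_lit 5) (nat_lit 186) (nat_lit 5) (nat_lit 180) (nat_lit 5) (nat_lit 611) (nat_lit 525) (nat_lit 424))))))))
noncomputable def xc83 : XT := (XT.nd (nat_lit 75270) (nat_lit 0) (nat_lit 32148) (XT.nd (nat_lit 74490) (nat_lit 0) (nat_lit 44232) (XT.nd (nat_lit 390) (nat_lit 1292) (nat_lit 0) (XT.nd (nat_lit 156) (nat_lit 836) (nat_lit 0) (XT.nd (nat_lit 78) (nat_lit 380) (nat_lit 0) (XT.lf (nat_lit 0) (nat_lit 6667874622) (nat_lit 532) (nat_lit 43487924) (nat_lit 76) (nat_lit 5823952877) (nat_lit 179) (nat_lit 5) (nat_lit 186) (nat_lit 5) (nat_lit 180) (nat_lit 5) (nat_lit 612) (nat_lit 525) (nat_lit 423)) (XT.lf (nat_lit 0) (nat_lit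 8309876442) (nat_lit 380) (nat_lit 1949813030) (nat_lit 456) (nat_lit 2418719165) (nat_lit 174) (nat_lit 5) (nat_lit 179) (nat_lit 5) (nat_lit 180) (nat_lit 5) (nat_lit 613) (nat_lit 525) (nat_lit 422))) (XT.nd (nat_lit 78) (nat_lit 380) (nat_lit 0) (XT.lf (nat_lit 0) (nat_lit 1107542864) (nat_lit 456) (nat_lit 8825060777) (nat_lit 76) (nat_lit 2891158949) (nat_lit 168) (nat_lit 5) (nat_lit 174) (nat_lit 5) (nat_lit 169) (nat_lit 5) (nat_lit 614) (nat_lit 525) (nat_lit 421)) (XT.nd (nat_lit 78) (nat_lit 380) (nat_lit 0) (XT.lf (nat_lit 0) (nat_lit 4692117494) (nat_lit 456) (nat_lit 442209061) (nat_lit 76) (nat_lit 7836974977) (nat_lit 168) (nat_lit 5) (nat_lit 174) (nat_lit 5) (nat_lit 169) (nat_lit 5) (nat_lit 615) (nat_lit 525) (nat_lit 420)) (XT.lf (nat_lit 0) (nat_lit 8182135325) (nat_lit 380) (nat_lit 197530744) (nat_lit 456) (nat_lit 4741500656) (nat_lit 163) (nat_lit 5) (nat_lit 168) (nat_lit 5) (nat_lit 169) (nat_lit 5) (nat_lit 616) (nat_lit 525) (nat_lit 419)))))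 (XT.nd (nat_lit 156) (nat_lit 836) (nat_lit 0) (XT.nd (nat_lit 78) (nat_lit 76) (nat_lit 0) (XT.lf (nat_lit 0) (nat_lit 3694400029) (nat_lit 380) (nat_lit 8483246180) (nat_lit 456) (nat_lit 1095650501) (nat_lit 158) (nat_lit 5) (nat_lit 163) (nat_lit 5) (nat_lit 164) (nat_lit 5) (nat_lit 617) (nat_lit 525) (nat_lit 418)) (XT.lf (nat_lit 0) (nat_lit 2601745992) (nat_lit 456) (nat_lit 912595132) (nat_lit 76) (nat_lit 9913527966) (nat_lit 157) (nat_lit 5) (nat_lit 163) (nat_lit 5) (nat_lit 158) (nat_lit 5) (nat_lit 618) (nat_lit 525) (nat_lit 417))) (XT.nd (nat_lit 78) (nat_lit 456) (nat_lit 0) (XT.lf (nat_lit 0) (nat_lit 6399509314) (nat_lit 456) (nat_lit 5603611937) (nat_lit 76) (nat_lit 1581446065) (nat_lit 152) (nat_lit 5) (nat_lit 158) (nat_lit 5) (nat_lit 153) (nat_lit 5) (nat_lit 619) (nat_lit 525) (nat_lit 416)) (XT.nd (nat_lit 78) (nat_lit 76) (nat_lit 0) (XT.lf (nat_lit 0) (nat_lit 3307385879) (nat_lit 380) (nat_lit 6995665685) (nat_lit 456) (nat_lit 3440752486) (nat_lit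 147) (nat_lit 5) (nat_lit 152) (nat_lit 5) (nat_lit 153) (nat_lit 5) (nat_lit 620) (nat_lit 525) (nat_lit 415)) (XT.lf (nat_lit 0) (nat_lit 390300025) (nat_lit 456) (nat_lit 1468826911) (nat_lit 76) (nat_lit 12046713932) (nat_lit 146) (nat_lit 5) (nat_lit 152) (nat_lit 5) (nat_lit 147) (nat_lit 5) (nat_lit 621) (nat_lit 525) (nat_lit 414)))))) (XT.nd (nat_lit 390) (nat_lit 608) (nat_lit 0) (XT.nd (nat_lit 156) (nat_lit 1140) (nat_lit 0) (XT.nd (nat_lit 78) (nat_lit 0) (nat_lit 0) (XT.lf (nat_lit 0) (nat_lit 1366555773) (nat_lit 532) (nat_lit 944403789) (nat_lit 532) (nat_lit 944403789) (nat_lit 751) (nat_lit 3) (nat_lit 758) (nat_lit 3) (nat_lit 758) (nat_lit 5) (nat_lit 526) (nat_lit 526) (nat_lit 508)) (XT.lf (nat_lit 76) (nat_lit 1354455613) (nat_lit 0) (nat_lit 4035712782) (nat_lit 532) (nat_lit 1132662386) (nat_lit 752) (nat_lit 5) (nat_lit 751) (nat_lit 3) (nat_lit 758) (nat_lit 5) (nat_lit 527) (nat_lit 526) (nat_lit 507))) (XT.nd (nat_lit 78) (nat_lit 608) (nat_lit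 0) (XT.lf (nat_lit 0) (nat_lit 1487974454) (nat_lit 532) (nat_lit 1893448542) (nat_lit 608) (nat_lit 3154694955) (nat_lit 744) (nat_lit 5) (nat_lit 751) (nat_lit 3) (nat_lit 752) (nat_lit 5) (nat_lit 528) (nat_lit 526) (nat_lit 506)) (XT.nd (nat_lit 78) (nat_lit 608) (nat_lit 0) (XT.lf (nat_lit 76) (nat_lit 1422379062) (nat_lit 0) (nat_lit 2664643437) (nat_lit 608) (nat_lit 2463685635) (nat_lit 745) (nat_lit 5) (nat_lit 744) (nat_lit 5) (nat_lit 752) (nat_lit 5) (nat_lit 529) (nat_lit 526) (nat_lit 505)) (XT.lf (nat_lit 0) (nat_lit 115556166) (nat_lit 608) (nat_lit 1772772558) (nat_lit 684) (nat_lit 4678341771) (nat_lit 736) (nat_lit 5) (nat_lit 744) (nat_lit 5) (nat_lit 745) (nat_lit 5) (nat_lit 530) (nat_lit 526) (nat_lit 504))))) (XT.nd (nat_lit 156) (nat_lit 608) (nat_lit 0) (XT.nd (nat_lit 78) (nat_lit 0) (nat_lit 0) (XT.lf (nat_lit 76) (nat_lit 1619106224) (nat_lit 0) (nat_lit 1038719665) (nat_lit 684) (nat_lit 3925921589) (nat_lit 737) (nat_lit 5) (nat_lit 736) (nat_lit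 5) (nat_lit 745) (nat_lit 5) (nat_lit 531) (nat_lit 526) (nat_lit 503)) (XT.lf (nat_lit 76) (nat_lit 5067379970) (nat_lit 0) (nat_lit 130411947) (nat_lit 684) (nat_lit 1404446583) (nat_lit 737) (nat_lit 5) (nat_lit 736) (nat_lit 5) (nat_lit 745) (nat_lit 5) (nat_lit 532) (nat_lit 526) (nat_lit 502))) (XT.nd (nat_lit 78) (nat_lit 0) (nat_lit 0) (XT.lf (nat_lit 0) (nat_lit 1106066467) (nat_lit 684) (nat_lit 4681656222) (nat_lit 760) (nat_lit 834155806) (nat_lit 728) (nat_lit 5) (nat_lit 737) (nat_lit 5) (nat_lit 738) (nat_lit 5) (nat_lit 533) (nat_lit 526) (nat_lit 501)) (XT.nd (nat_lit 78) (nat_lit 0) (nat_lit 0) (XT.lf (nat_lit 0) (nat_lit 3596241196) (nat_lit 684) (nat_lit 1183186070) (nat_lit 760) (nat_lit 1863342186) (nat_lit 728) (nat_lit 5) (nat_lit 737) (nat_lit 5) (nat_lit 738) (nat_lit 5) (nat_lit 534) (nat_lit 526) (nat_lit 500)) (XT.lf (nat_lit 76) (nat_lit 2380336691) (nat_lit 0) (nat_lit 3709580399) (nat_lit 760) (nat_lit 575095979) (nat_lit 729) (nat_lit 5) (nat_lit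 728) (nat_lit 5) (nat_lit 738) (nat_lit 5) (nat_lit 535) (nat_lit 526) (nat_lit 499))))))) (XT.nd (nat_lit 780) (nat_lit 8740) (nat_lit 0) (XT.nd (nat_lit 390) (nat_lit 1748) (nat_lit 0) (XT.nd (nat_lit 156) (nat_lit 836) (nat_lit 0) (XT.nd (nat_lit 78) (nat_lit 0) (nat_lit 0) (XT.lf (nat_lit 0) (nat_lit 1867048047) (nat_lit 760) (nat_lit 705779478) (nat_lit 836) (nat_lit 4115693779) (nat_lit 718) (nat_lit 5) (nat_lit 728) (nat_lit 5) (nat_lit 729) (nat_lit 5) (nat_lit 536) (nat_lit 526) (nat_lit 498)) (XT.lf (nat_lit 76) (nat_lit 2943491946) (nat_lit 0) (nat_lit 1365970358) (nat_lit 836) (nat_lit 2403787099) (nat_lit 719) (nat_lit 5) (nat_lit 718) (nat_lit 5) (nat_lit 729) (nat_lit 5) (nat_lit 537) (nat_lit 526) (nat_lit 497))) (XT.nd (nat_lit 78) (nat_lit 0) (nat_lit 76) (XT.lf (nat_lit 0) (nat_lit 6758464) (nat_lit 836) (nat_lit 100057453) (nat_lit 912) (nat_lit 6632749587) (nat_lit 707) (nat_lit 5) (nat_lit 718) (nat_lit 5) (nat_lit 719) (nat_lit 5) (nat_lit 538) (nat_lit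 526) (nat_lit 496)) (XT.nd (nat_lit 78) (nat_lit 0) (nat_lit 0) (XT.lf (nat_lit 0) (nat_lit 2406758153) (nat_lit 836) (nat_lit 3135843171) (nat_lit 912) (nat_lit 1224028033) (nat_lit 708) (nat_lit 5) (nat_lit 719) (nat_lit 5) (nat_lit 720) (nat_lit 5) (nat_lit 539) (nat_lit 526) (nat_lit 495)) (XT.lf (nat_lit 76) (nat_lit 613816417) (nat_lit 0) (nat_lit 4189083051) (nat_lit 912) (nat_lit 1992379840) (nat_lit 709) (nat_lit 5) (nat_lit 708) (nat_lit 5) (nat_lit 720) (nat_lit 5) (nat_lit 540) (nat_lit 526) (nat_lit 494))))) (XT.nd (nat_lit 156) (nat_lit 912) (nat_lit 0) (XT.nd (nat_lit 78) (nat_lit 0) (nat_lit 0) (XT.lf (nat_lit 0) (nat_lit 381379793) (nat_lit 912) (nat_lit 2383409675) (nat_lit 988) (nat_lit 4060376110) (nat_lit 696) (nat_lit 5) (nat_lit 708) (nat_lit 5) (nat_lit 709) (nat_lit 5) (nat_lit 541) (nat_lit 526) (nat_lit 493)) (XT.lf (nat_lit 76) (nat_lit 1459867840) (nat_lit 0) (nat_lit 1269960988) (nat_lit 988) (nat_lit 4126486723) (nat_lit 697) (nat_lit 5) (nat_lit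 696) (nat_lit 5) (nat_lit 709) (nat_lit 5) (nat_lit 542) (nat_lit 526) (nat_lit 492))) (XT.nd (nat_lit 78) (nat_lit 988) (nat_lit 0) (XT.lf (nat_lit 0) (nat_lit 5088362260) (nat_lit 912) (nat_lit 1514878365) (nat_lit 76) (nat_lit 285592662) (nat_lit 697) (nat_lit 5) (nat_lit 709) (nat_lit 5) (nat_lit 698) (nat_lit 5) (nat_lit 543) (nat_lit 526) (nat_lit 491)) (XT.nd (nat_lit 78) (nat_lit 0) (nat_lit 0) (XT.lf (nat_lit 0) (nat_lit 534986797) (nat_lit 988) (nat_lit 4495251963) (nat_lit 76) (nat_lit 1892286640) (nat_lit 684) (nat_lit 5) (nat_lit 697) (nat_lit 5) (nat_lit 685) (nat_lit 5) (nat_lit 544) (nat_lit 526) (nat_lit 490)) (XT.lf (nat_lit 0) (nat_lit 2850189831) (nat_lit 988) (nat_lit 537275448) (nat_lit 76) (nat_lit 3570051833) (nat_lit 684) (nat_lit 5) (nat_lit 697) (nat_lit 5) (nat_lit 685) (nat_lit 5) (nat_lit 545) (nat_lit 526) (nat_lit 489)))))) (XT.nd (nat_lit 390) (nat_lit 5396) (nat_lit 0) (XT.nd (nat_lit 156) (nat_lit 1216) (nat_lit 0) (XT.nd (nat_lit 78) (nat_lit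 1140) (nat_lit 0) (XT.lf (nat_lit 0) (nat_lit 3509218665) (nat_lit 988) (nat_lit 1673192700) (nat_lit 1064) (nat_lit 1811389537) (nat_lit 671) (nat_lit 5) (nat_lit 684) (nat_lit 5) (nat_lit 685) (nat_lit 5) (nat_lit 546) (nat_lit 526) (nat_lit 488)) (XT.lf (nat_lit 0) (nat_lit 479930325) (nat_lit 1140) (nat_lit 6452076114) (nat_lit 76) (nat_lit 99612916) (nat_lit 656) (nat_lit 5) (nat_lit 671) (nat_lit 5) (nat_lit 657) (nat_lit 5) (nat_lit 547) (nat_lit 526) (nat_lit 487))) (XT.nd (nat_lit 78) (nat_lit 1216) (nat_lit 0) (XT.lf (nat_lit 0) (nat_lit 2776696297) (nat_lit 1140) (nat_lit 2358759516) (nat_lit 76) (nat_lit 1934827570) (nat_lit 656) (nat_lit 5) (nat_lit 671) (nat_lit 5) (nat_lit 657) (nat_lit 5) (nat_lit 548) (nat_lit 526) (nat_lit 486)) (XT.nd (nat_lit 78) (nat_lit 76) (nat_lit 0) (XT.lf (nat_lit 0) (nat_lit 1802825534) (nat_lit 1140) (nat_lit 3278505196) (nat_lit 1216) (nat_lit 2029157337) (nat_lit 641) (nat_lit 5) (nat_lit 656) (nat_lit 5) (nat_lit 657) (nat_lit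 5) (nat_lit 549) (nat_lit 526) (nat_lit 485)) (XT.lf (nat_lit 0) (nat_lit 243447870) (nat_lit 1216) (nat_lit 1111149901) (nat_lit 76) (nat_lit 5797537113) (nat_lit 640) (nat_lit 5) (nat_lit 656) (nat_lit 5) (nat_lit 641) (nat_lit 5) (nat_lit 550) (nat_lit 526) (nat_lit 484))))) (XT.nd (nat_lit 234) (nat_lit 2888) (nat_lit 0) (XT.nd (nat_lit 78) (nat_lit 1292) (nat_lit 0) (XT.lf (nat_lit 0) (nat_lit 2510726143) (nat_lit 1292) (nat_lit 4038771571) (nat_lit 76) (nat_lit 645326530) (nat_lit 624) (nat_lit 5) (nat_lit 641) (nat_lit 5) (nat_lit 625) (nat_lit 5) (nat_lit 551) (nat_lit 526) (nat_lit 483)) (XT.nd (nat_lit 78) (nat_lit 0) (nat_lit 0) (XT.lf (nat_lit 0) (nat_lit 241886508) (nat_lit 1292) (nat_lit 4551894042) (nat_lit 1368) (nat_lit 2445183807) (nat_lit 607) (nat_lit 5) (nat_lit 624) (nat_lit 5) (nat_lit 625) (nat_lit 5) (nat_lit 552) (nat_lit 526) (nat_lit 482)) (XT.lf (nat_lit 0) (nat_lit 4625443826) (nat_lit 1292) (nat_lit 2477228395) (nat_lit 1368) (nat_lit 181716994)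 (nat_lit 607) (nat_lit 5) (nat_lit 624) (nat_lit 5) (nat_lit 625) (nat_lit 5) (nat_lit 553) (nat_lit 526) (nat_lit 481)))) (XT.nd (nat_lit 78) (nat_lit 1444) (nat_lit 0) (XT.lf (nat_lit 0) (nat_lit 1737581612) (nat_lit 1368) (nat_lit 326506882) (nat_lit 1444) (nat_lit 5267063820) (nat_lit 588) (nat_lit 5) (nat_lit 606) (nat_lit 5) (nat_lit 607) (nat_lit 5) (nat_lit 554) (nat_lit 526) (nat_lit 480)) (XT.nd (nat_lit 78) (nat_lit 1444) (nat_lit 0) (XT.lf (nat_lit 0) (nat_lit 4336870371) (nat_lit 1444) (nat_lit 1171931540) (nat_lit 76) (nat_lit 1870340023) (nat_lit 588) (nat_lit 5) (nat_lit 607) (nat_lit 5) (nat_lit 589) (nat_lit 5) (nat_lit 555) (nat_lit 526) (nat_lit 479)) (XT.lf (nat_lit 0) (nat_lit 3342487290) (nat_lit 1444) (nat_lit 3291785336) (nat_lit 1520) (nat_lit 794240478) (nat_lit 569) (nat_lit 5) (nat_lit 588) (nat_lit 5) (nat_lit 589) (nat_lit 5) (nat_lit 556) (nat_lit 526) (nat_lit 478))))))))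
noncomputable def xc84 : XT := (XT.nd (nat_lit 1560) (nat_lit 8816) (nat_lit 0) (XT.nd (nat_lit 780) (nat_lit 6156) (nat_lit 0) (XT.nd (nat_lit 390) (nat_lit 4712) (nat_lit 0) (XT.nd (nat_lit 156) (nat_lit 3344) (nat_lit 0) (XT.nd (nat_lit 78) (nat_lit 0) (nat_lit 0) (XT.lf (nat_lit 0) (nat_lit 442712269) (nat_lit 1520) (nat_lit 1002813099) (nat_lit 1596) (nat_lit 6033827953) (nat_lit 548) (nat_lit 5) (nat_lit 568) (nat_lit 5) (nat_lit 569) (nat_lit 5) (nat_lit 557) (nat_lit 526) (nat_lit 477)) (XT.lf (nat_lit 0) (nat_lit 3712017910) (nat_lit 1596) (nat_lit 2465688396) (nat_lit 76) (nat_lit 1353552475) (nat_lit 548) (nat_lit 5) (nat_lit 569) (nat_lit 5) (nat_lit 549) (nat_lit 5) (nat_lit 558) (nat_lit 526) (nat_lit 476))) (XT.nd (nat_lit 78) (nat_lit 1748) (nat_lit 0) (XT.lf (nat_lit 0) (nat_lit 2181049548) (nat_lit 1596) (nat_lit 3820756952) (nat_lit 1672) (nat_lit 1582841192) (nat_lit 527) (nat_lit 5) (nat_lit 548) (nat_lit 5) (nat_lit 549) (nat_lit 5) (nat_lit 559) (nat_lit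 526) (nat_lit 475)) (XT.nd (nat_lit 78) (nat_lit 1672) (nat_lit 0) (XT.lf (nat_lit 0) (nat_lit 663261380) (nat_lit 1672) (nat_lit 727191178) (nat_lit 76) (nat_lit 6249082971) (nat_lit 526) (nat_lit 5) (nat_lit 548) (nat_lit 5) (nat_lit 527) (nat_lit 5) (nat_lit 560) (nat_lit 526) (nat_lit 474)) (XT.lf (nat_lit 0) (nat_lit 2925045986) (nat_lit 1748) (nat_lit 3654785826) (nat_lit 76) (nat_lit 1115645374) (nat_lit 504) (nat_lit 5) (nat_lit 527) (nat_lit 5) (nat_lit 505) (nat_lit 5) (nat_lit 561) (nat_lit 526) (nat_lit 473))))) (XT.nd (nat_lit 156) (nat_lit 2964) (nat_lit 0) (XT.nd (nat_lit 78) (nat_lit 0) (nat_lit 0) (XT.lf (nat_lit 0) (nat_lit 1129131613) (nat_lit 1748) (nat_lit 4083302154) (nat_lit 1824) (nat_lit 2540500868) (nat_lit 481) (nat_lit 5) (nat_lit 504) (nat_lit 5) (nat_lit 505) (nat_lit 5) (nat_lit 562) (nat_lit 526) (nat_lit 472)) (XT.lf (nat_lit 0) (nat_lit 6020732295) (nat_lit 1748) (nat_lit 1508840367) (nat_lit 1824) (nat_lit 282292732) (nat_lit 481) (nat_lit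 5) (nat_lit 504) (nat_lit 5) (nat_lit 505) (nat_lit 5) (nat_lit 563) (nat_lit 526) (nat_lit 471))) (XT.nd (nat_lit 78) (nat_lit 1064) (nat_lit 0) (XT.lf (nat_lit 0) (nat_lit 1982383672) (nat_lit 1900) (nat_lit 4750835606) (nat_lit 76) (nat_lit 1138740890) (nat_lit 456) (nat_lit 5) (nat_lit 481) (nat_lit 5) (nat_lit 457) (nat_lit 5) (nat_lit 564) (nat_lit 526) (nat_lit 470)) (XT.nd (nat_lit 78) (nat_lit 0) (nat_lit 0) (XT.lf (nat_lit 0) (nat_lit 175349588) (nat_lit 1064) (nat_lit 4097021412) (nat_lit 1140) (nat_lit 3661176554) (nat_lit 442) (nat_lit 5) (nat_lit 456) (nat_lit 5) (nat_lit 457) (nat_lit 5) (nat_lit 565) (nat_lit 526) (nat_lit 469)) (XT.lf (nat_lit 0) (nat_lit 5226807694) (nat_lit 1064) (nat_lit 1374323709) (nat_lit 1140) (nat_lit 1395379724) (nat_lit 442) (nat_lit 5) (nat_lit 456) (nat_lit 5) (nat_lit 457) (nat_lit 5) (nat_lit 566) (nat_lit 526) (nat_lit 468)))))) (XT.nd (nat_lit 390) (nat_lit 3344) (nat_lit 0) (XT.nd (nat_lit 156) (nat_lit 1824) (nat_lit 0) (XT.nd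 (nat_lit 78) (nat_lit 0) (nat_lit 0) (XT.lf (nat_lit 0) (nat_lit 889543538) (nat_lit 988) (nat_lit 5764914337) (nat_lit 76) (nat_lit 1406444528) (nat_lit 429) (nat_lit 5) (nat_lit 442) (nat_lit 5) (nat_lit 430) (nat_lit 5) (nat_lit 567) (nat_lit 526) (nat_lit 467)) (XT.lf (nat_lit 0) (nat_lit 3191424725) (nat_lit 988) (nat_lit 682083144) (nat_lit 76) (nat_lit 4253093973) (nat_lit 429) (nat_lit 5) (nat_lit 442) (nat_lit 5) (nat_lit 430) (nat_lit 5) (nat_lit 568) (nat_lit 526) (nat_lit 466))) (XT.nd (nat_lit 78) (nat_lit 912) (nat_lit 0) (XT.lf (nat_lit 0) (nat_lit 4524543577) (nat_lit 912) (nat_lit 1007034525) (nat_lit 988) (nat_lit 2662196085) (nat_lit 417) (nat_lit 5) (nat_lit 429) (nat_lit 5) (nat_lit 430) (nat_lit 5) (nat_lit 569) (nat_lit 526) (nat_lit 465)) (XT.nd (nat_lit 78) (nat_lit 76) (nat_lit 0) (XT.lf (nat_lit 0) (nat_lit 1552545694) (nat_lit 836) (nat_lit 6356465972) (nat_lit 912) (nat_lit 353472305) (nat_lit 406) (nat_lit 5) (nat_lit 417) (nat_lit 5) (nat_lit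 418) (nat_lit 5) (nat_lit 570) (nat_lit 526) (nat_lit 464)) (XT.lf (nat_lit 0) (nat_lit 1970208710) (nat_lit 912) (nat_lit 1461338003) (nat_lit 76) (nat_lit 4900864112) (nat_lit 405) (nat_lit 5) (nat_lit 417) (nat_lit 5) (nat_lit 406) (nat_lit 5) (nat_lit 571) (nat_lit 526) (nat_lit 463))))) (XT.nd (nat_lit 156) (nat_lit 1672) (nat_lit 0) (XT.nd (nat_lit 78) (nat_lit 836) (nat_lit 0) (XT.lf (nat_lit 0) (nat_lit 3903906920) (nat_lit 836) (nat_lit 421365970) (nat_lit 912) (nat_lit 4078627076) (nat_lit 394) (nat_lit 5) (nat_lit 405) (nat_lit 5) (nat_lit 406) (nat_lit 5) (nat_lit 572) (nat_lit 526) (nat_lit 462)) (XT.lf (nat_lit 0) (nat_lit 876231092) (nat_lit 836) (nat_lit 5848707489) (nat_lit 912) (nat_lit 1751933573) (nat_lit 383) (nat_lit 5) (nat_lit 394) (nat_lit 5) (nat_lit 395) (nat_lit 5) (nat_lit 573) (nat_lit 526) (nat_lit 461))) (XT.nd (nat_lit 78) (nat_lit 1596) (nat_lit 0) (XT.lf (nat_lit 0) (nat_lit 611288796) (nat_lit 912) (nat_lit 2174606612) (nat_lit 76) (nat_lit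 5765367972) (nat_lit 382) (nat_lit 5) (nat_lit 394) (nat_lit 5) (nat_lit 383) (nat_lit 5) (nat_lit 574) (nat_lit 526) (nat_lit 460)) (XT.nd (nat_lit 78) (nat_lit 760) (nat_lit 0) (XT.lf (nat_lit 0) (nat_lit 2988165079) (nat_lit 912) (nat_lit 5274331325) (nat_lit 76) (nat_lit 364620544) (nat_lit 371) (nat_lit 5) (nat_lit 383) (nat_lit 5) (nat_lit 372) (nat_lit 5) (nat_lit 575) (nat_lit 526) (nat_lit 459)) (XT.lf (nat_lit 0) (nat_lit 263378826) (nat_lit 760) (nat_lit 5150106939) (nat_lit 836) (nat_lit 3290986701) (nat_lit 361) (nat_lit 5) (nat_lit 371) (nat_lit 5) (nat_lit 372) (nat_lit 5) (nat_lit 576) (nat_lit 526) (nat_lit 458))))))) (XT.nd (nat_lit 780) (nat_lit 4408) (nat_lit 0) (XT.nd (nat_lit 390) (nat_lit 2128) (nat_lit 0) (XT.nd (nat_lit 156) (nat_lit 1444) (nat_lit 0) (XT.nd (nat_lit 78) (nat_lit 836) (nat_lit 0) (XT.lf (nat_lit 0) (nat_lit 5946048589) (nat_lit 760) (nat_lit 1943139056) (nat_lit 836) (nat_lit 894152915) (nat_lit 361) (nat_lit 5) (nat_lit 371) (nat_lit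 5) (nat_lit 372) (nat_lit 5) (nat_lit 577) (nat_lit 526) (nat_lit 457)) (XT.lf (nat_lit 0) (nat_lit 1524613948) (nat_lit 836) (nat_lit 6003516621) (nat_lit 76) (nat_lit 1335570278) (nat_lit 350) (nat_lit 5) (nat_lit 361) (nat_lit 5) (nat_lit 351) (nat_lit 5) (nat_lit 578) (nat_lit 526) (nat_lit 456))) (XT.nd (nat_lit 78) (nat_lit 1444) (nat_lit 0) (XT.lf (nat_lit 0) (nat_lit 3979130386) (nat_lit 836) (nat_lit 291520598) (nat_lit 76) (nat_lit 4674914997) (nat_lit 350) (nat_lit 5) (nat_lit 361) (nat_lit 5) (nat_lit 351) (nat_lit 5) (nat_lit 579) (nat_lit 526) (nat_lit 455)) (XT.nd (nat_lit 78) (nat_lit 760) (nat_lit 0) (XT.lf (nat_lit 0) (nat_lit 5571127629) (nat_lit 684) (nat_lit 915723595) (nat_lit 760) (nat_lit 2542137646) (nat_lit 341) (nat_lit 5) (nat_lit 350) (nat_lit 5) (nat_lit 351) (nat_lit 5) (nat_lit 580) (nat_lit 526) (nat_lit 454)) (XT.lf (nat_lit 0) (nat_lit 2419366186) (nat_lit 760) (nat_lit 6627614164) (nat_lit 836) (nat_lit 67057471) (nat_lit 331) (nat_lit 5)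 (nat_lit 341) (nat_lit 5) (nat_lit 342) (nat_lit 5) (nat_lit 581) (nat_lit 526) (nat_lit 453))))) (XT.nd (nat_lit 156) (nat_lit 1368) (nat_lit 0) (XT.nd (nat_lit 78) (nat_lit 684) (nat_lit 0) (XT.lf (nat_lit 0) (nat_lit 2423192278) (nat_lit 836) (nat_lit 798683264) (nat_lit 76) (nat_lit 5978637690) (nat_lit 330) (nat_lit 5) (nat_lit 341) (nat_lit 5) (nat_lit 331) (nat_lit 5) (nat_lit 582) (nat_lit 526) (nat_lit 452)) (XT.lf (nat_lit 0) (nat_lit 4967341087) (nat_lit 760) (nat_lit 4043345843) (nat_lit 76) (nat_lit 277925042) (nat_lit 321) (nat_lit 5) (nat_lit 331) (nat_lit 5) (nat_lit 322) (nat_lit 5) (nat_lit 583) (nat_lit 526) (nat_lit 451))) (XT.nd (nat_lit 78) (nat_lit 684) (nat_lit 0) (XT.lf (nat_lit 0) (nat_lit 2010751330) (nat_lit 684) (nat_lit 5560837308) (nat_lit 760) (nat_lit 1806702210) (nat_lit 312) (nat_lit 5) (nat_lit 321) (nat_lit 5) (nat_lit 322) (nat_lit 5) (nat_lit 584) (nat_lit 526) (nat_lit 450)) (XT.nd (nat_lit 78) (nat_lit 608) (nat_lit 0) (XT.lf (nat_lit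 0) (nat_lit 745115364) (nat_lit 760) (nat_lit 1270551135) (nat_lit 76) (nat_lit 7454062714) (nat_lit 311) (nat_lit 5) (nat_lit 321) (nat_lit 5) (nat_lit 312) (nat_lit 5) (nat_lit 585) (nat_lit 526) (nat_lit 449)) (XT.lf (nat_lit 0) (nat_lit 3336864578) (nat_lit 684) (nat_lit 4608062627) (nat_lit 76) (nat_lit 1617570888) (nat_lit 303) (nat_lit 5) (nat_lit 312) (nat_lit 5) (nat_lit 304) (nat_lit 5) (nat_lit 586) (nat_lit 526) (nat_lit 448)))))) (XT.nd (nat_lit 390) (nat_lit 2432) (nat_lit 0) (XT.nd (nat_lit 156) (nat_lit 1292) (nat_lit 0) (XT.nd (nat_lit 78) (nat_lit 0) (nat_lit 0) (XT.lf (nat_lit 0) (nat_lit 1635686462) (nat_lit 684) (nat_lit 4347806531) (nat_lit 760) (nat_lit 3673570762) (nat_lit 294) (nat_lit 5) (nat_lit 303) (nat_lit 5) (nat_lit 304) (nat_lit 5) (nat_lit 587) (nat_lit 526) (nat_lit 447)) (XT.lf (nat_lit 0) (nat_lit 8030461281) (nat_lit 684) (nat_lit 654350964) (nat_lit 760) (nat_lit 1068675561) (nat_lit 294) (nat_lit 5) (nat_lit 303) (nat_lit 5) (nat_lit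 304) (nat_lit 5) (nat_lit 588) (nat_lit 526) (nat_lit 446))) (XT.nd (nat_lit 78) (nat_lit 608) (nat_lit 0) (XT.lf (nat_lit 0) (nat_lit 1589763339) (nat_lit 684) (nat_lit 5155179429) (nat_lit 76) (nat_lit 3106247940) (nat_lit 285) (nat_lit 5) (nat_lit 294) (nat_lit 5) (nat_lit 286) (nat_lit 5) (nat_lit 589) (nat_lit 526) (nat_lit 445)) (XT.nd (nat_lit 78) (nat_lit 0) (nat_lit 0) (XT.lf (nat_lit 0) (nat_lit 1285266210) (nat_lit 608) (nat_lit 2997626834) (nat_lit 684) (nat_lit 5667898829) (nat_lit 277) (nat_lit 5) (nat_lit 285) (nat_lit 5) (nat_lit 286) (nat_lit 5) (nat_lit 590) (nat_lit 526) (nat_lit 444)) (XT.lf (nat_lit 0) (nat_lit 7041837285) (nat_lit 684) (nat_lit 2169424116) (nat_lit 76) (nat_lit 840886690) (nat_lit 277) (nat_lit 5) (nat_lit 286) (nat_lit 5) (nat_lit 278) (nat_lit 5) (nat_lit 591) (nat_lit 526) (nat_lit 443))))) (XT.nd (nat_lit 234) (nat_lit 1140) (nat_lit 0) (XT.nd (nat_lit 78) (nat_lit 684) (nat_lit 0) (XT.lf (nat_lit 0) (nat_lit 4459401785) (nat_lit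 608) (nat_lit 5417692086) (nat_lit 684) (nat_lit 278016926) (nat_lit 269) (nat_lit 5) (nat_lit 277) (nat_lit 5) (nat_lit 278) (nat_lit 5) (nat_lit 592) (nat_lit 526) (nat_lit 442)) (XT.nd (nat_lit 78) (nat_lit 0) (nat_lit 0) (XT.lf (nat_lit 0) (nat_lit 950485554) (nat_lit 608) (nat_lit 1518814417) (nat_lit 684) (nat_lit 7790643305) (nat_lit 260) (nat_lit 5) (nat_lit 268) (nat_lit 5) (nat_lit 269) (nat_lit 5) (nat_lit 593) (nat_lit 526) (nat_lit 441)) (XT.lf (nat_lit 0) (nat_lit 5294987107) (nat_lit 684) (nat_lit 2613569492) (nat_lit 76) (nat_lit 2457738034) (nat_lit 260) (nat_lit 5) (nat_lit 269) (nat_lit 5) (nat_lit 261) (nat_lit 5) (nat_lit 594) (nat_lit 526) (nat_lit 440)))) (XT.nd (nat_lit 78) (nat_lit 608) (nat_lit 0) (XT.lf (nat_lit 0) (nat_lit 4226095469) (nat_lit 532) (nat_lit 3961834122) (nat_lit 608) (nat_lit 2286630470) (nat_lit 253) (nat_lit 5) (nat_lit 260) (nat_lit 5) (nat_lit 261) (nat_lit 5) (nat_lit 595) (nat_lit 526) (nat_lit 439)) (XT.nd (nat_lit 78) (nat_lit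 0) (nat_lit 0) (XT.lf (nat_lit 0) (nat_lit 542058390) (nat_lit 608) (nat_lit 9963384215) (nat_lit 76) (nat_lit 79566479) (nat_lit 245) (nat_lit 5) (nat_lit 253) (nat_lit 5) (nat_lit 246) (nat_lit 5) (nat_lit 596) (nat_lit 526) (nat_lit 438)) (XT.lf (nat_lit 0) (nat_lit 3438774009) (nat_lit 608) (nat_lit 3060537335) (nat_lit 76) (nat_lit 4197213799) (nat_lit 245) (nat_lit 5) (nat_lit 253) (nat_lit 5) (nat_lit 246) (nat_lit 5) (nat_lit 597) (nat_lit 526) (nat_lit 437))))))))
noncomputable def xc85 : XT := (XT.nd (nat_lit 1560) (nat_lit 1216) (nat_lit 0) (XT.nd (nat_lit 780) (nat_lit 2584) (nat_lit 0) (XT.nd (nat_lit 390) (nat_lit 2052) (nat_lit 0) (XT.nd (nat_lit 156) (nat_lit 532) (nat_lit 0) (XT.nd (nat_lit 78) (nat_lit 532) (nat_lit 0) (XT.lf (nat_lit 0) (nat_lit 3997633103) (nat_lit 532) (nat_lit 2395860692) (nat_lit 608) (nat_lit 4416778066) (nat_lit 238) (nat_lit 5) (nat_lit 245) (nat_lit 5) (nat_lit 246) (nat_lit 5) (nat_lit 598) (nat_lit 526) (nat_lit 436)) (XT.lf (nat_lit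 0) (nat_lit 268957387) (nat_lit 532) (nat_lit 9146725090) (nat_lit 608) (nat_lit 1510445245) (nat_lit 231) (nat_lit 5) (nat_lit 238) (nat_lit 5) (nat_lit 239) (nat_lit 5) (nat_lit 599) (nat_lit 526) (nat_lit 435))) (XT.nd (nat_lit 78) (nat_lit 456) (nat_lit 0) (XT.lf (nat_lit 0) (nat_lit 1471270334) (nat_lit 608) (nat_lit 3519957088) (nat_lit 76) (nat_lit 6052159589) (nat_lit 230) (nat_lit 5) (nat_lit 238) (nat_lit 5) (nat_lit 231) (nat_lit 5) (nat_lit 600) (nat_lit 526) (nat_lit 434)) (XT.nd (nat_lit 78) (nat_lit 0) (nat_lit 0) (XT.lf (nat_lit 0) (nat_lit 3764573007) (nat_lit 456) (nat_lit 727224530) (nat_lit 532) (nat_lit 6671007826) (nat_lit 224) (nat_lit 5) (nat_lit 230) (nat_lit 5) (nat_lit 231) (nat_lit 5) (nat_lit 601) (nat_lit 526) (nat_lit 433)) (XT.lf (nat_lit 0) (nat_lit 7595173878) (nat_lit 532) (nat_lit 100307776) (nat_lit 76) (nat_lit 3588683227) (nat_lit 224) (nat_lit 5) (nat_lit 231) (nat_lit 5) (nat_lit 225) (nat_lit 5) (nat_lit 602) (nat_lit 526) (nat_lit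 432))))) (XT.nd (nat_lit 156) (nat_lit 988) (nat_lit 0) (XT.nd (nat_lit 78) (nat_lit 532) (nat_lit 0) (XT.lf (nat_lit 0) (nat_lit 7401515244) (nat_lit 532) (nat_lit 3387606057) (nat_lit 608) (nat_lit 618261755) (nat_lit 217) (nat_lit 5) (nat_lit 224) (nat_lit 5) (nat_lit 225) (nat_lit 5) (nat_lit 603) (nat_lit 526) (nat_lit 431)) (XT.lf (nat_lit 0) (nat_lit 2486884382) (nat_lit 532) (nat_lit 8022419647) (nat_lit 76) (nat_lit 1023317164) (nat_lit 210) (nat_lit 5) (nat_lit 217) (nat_lit 5) (nat_lit 211) (nat_lit 5) (nat_lit 604) (nat_lit 526) (nat_lit 430))) (XT.nd (nat_lit 78) (nat_lit 988) (nat_lit 0) (XT.lf (nat_lit 0) (nat_lit 5671271829) (nat_lit 532) (nat_lit 490244402) (nat_lit 76) (nat_lit 5498259239) (nat_lit 210) (nat_lit 5) (nat_lit 217) (nat_lit 5) (nat_lit 211) (nat_lit 5) (nat_lit 605) (nat_lit 526) (nat_lit 429)) (XT.nd (nat_lit 78) (nat_lit 532) (nat_lit 0) (XT.lf (nat_lit 0) (nat_lit 7253783655) (nat_lit 456) (nat_lit 1689047187) (nat_lit 532) (nat_lit 2846173738)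 (nat_lit 204) (nat_lit 5) (nat_lit 210) (nat_lit 5) (nat_lit 211) (nat_lit 5) (nat_lit 606) (nat_lit 526) (nat_lit 428)) (XT.lf (nat_lit 0) (nat_lit 373910011) (nat_lit 532) (nat_lit 8694745168) (nat_lit 76) (nat_lit 2851725529) (nat_lit 197) (nat_lit 5) (nat_lit 204) (nat_lit 5) (nat_lit 198) (nat_lit 5) (nat_lit 607) (nat_lit 526) (nat_lit 427)))))) (XT.nd (nat_lit 390) (nat_lit 1216) (nat_lit 0) (XT.nd (nat_lit 156) (nat_lit 912) (nat_lit 0) (XT.nd (nat_lit 78) (nat_lit 456) (nat_lit 0) (XT.lf (nat_lit 0) (nat_lit 3638790913) (nat_lit 532) (nat_lit 915017695) (nat_lit 76) (nat_lit 7499830711) (nat_lit 197) (nat_lit 5) (nat_lit 204) (nat_lit 5) (nat_lit 198) (nat_lit 5) (nat_lit 608) (nat_lit 526) (nat_lit 426)) (XT.lf (nat_lit 0) (nat_lit 6992610793) (nat_lit 532) (nat_lit 5110037391) (nat_lit 76) (nat_lit 86443406) (nat_lit 191) (nat_lit 5) (nat_lit 198) (nat_lit 5) (nat_lit 192) (nat_lit 5) (nat_lit 609) (nat_lit 526) (nat_lit 425))) (XT.nd (nat_lit 78) (nat_lit 532)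 (nat_lit 0) (XT.lf (nat_lit 0) (nat_lit 2892330225) (nat_lit 380) (nat_lit 7553564923) (nat_lit 456) (nat_lit 1880711285) (nat_lit 186) (nat_lit 5) (nat_lit 191) (nat_lit 5) (nat_lit 192) (nat_lit 5) (nat_lit 610) (nat_lit 526) (nat_lit 424)) (XT.nd (nat_lit 78) (nat_lit 456) (nat_lit 0) (XT.lf (nat_lit 0) (nat_lit 1493549677) (nat_lit 456) (nat_lit 1385913914) (nat_lit 76) (nat_lit 9586976924) (nat_lit 185) (nat_lit 5) (nat_lit 191) (nat_lit 5) (nat_lit 186) (nat_lit 5) (nat_lit 611) (nat_lit 526) (nat_lit 423)) (XT.lf (nat_lit 0) (nat_lit 4945086653) (nat_lit 532) (nat_lit 5753011117) (nat_lit 76) (nat_lit 1910026623) (nat_lit 179) (nat_lit 5) (nat_lit 186) (nat_lit 5) (nat_lit 180) (nat_lit 5) (nat_lit 612) (nat_lit 526) (nat_lit 422))))) (XT.nd (nat_lit 156) (nat_lit 836) (nat_lit 0) (XT.nd (nat_lit 78) (nat_lit 0) (nat_lit 0) (XT.lf (nat_lit 0) (nat_lit 2507794287) (nat_lit 380) (nat_lit 5980517434) (nat_lit 456) (nat_lit 4263878270) (nat_lit 174) (nat_lit 5) (nat_lit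 179) (nat_lit 5) (nat_lit 180) (nat_lit 5) (nat_lit 613) (nat_lit 526) (nat_lit 421)) (XT.lf (nat_lit 0) (nat_lit 10978761677) (nat_lit 380) (nat_lit 1140407304) (nat_lit 456) (nat_lit 779633733) (nat_lit 174) (nat_lit 5) (nat_lit 179) (nat_lit 5) (nat_lit 180) (nat_lit 5) (nat_lit 614) (nat_lit 526) (nat_lit 420))) (XT.nd (nat_lit 78) (nat_lit 380) (nat_lit 0) (XT.lf (nat_lit 0) (nat_lit 2784233576) (nat_lit 456) (nat_lit 6465782729) (nat_lit 76) (nat_lit 3797045791) (nat_lit 168) (nat_lit 5) (nat_lit 174) (nat_lit 5) (nat_lit 169) (nat_lit 5) (nat_lit 615) (nat_lit 526) (nat_lit 419)) (XT.nd (nat_lit 78) (nat_lit 0) (nat_lit 0) (XT.lf (nat_lit 0) (nat_lit 2062049002) (nat_lit 380) (nat_lit 4359396927) (nat_lit 456) (nat_lit 6776488628) (nat_lit 163) (nat_lit 5) (nat_lit 168) (nat_lit 5) (nat_lit 169) (nat_lit 5) (nat_lit 616) (nat_lit 526) (nat_lit 418)) (XT.lf (nat_lit 0) (nat_lit 10157883848) (nat_lit 456) (nat_lit 2540198837) (nat_lit 76) (nat_lit 653213235) (nat_lit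 163) (nat_lit 5) (nat_lit 169) (nat_lit 5) (nat_lit 164) (nat_lit 5) (nat_lit 617) (nat_lit 526) (nat_lit 417))))))) (XT.nd (nat_lit 74568) (nat_lit 0) (nat_lit 41724) (XT.nd (nat_lit 74178) (nat_lit 0) (nat_lit 44080) (XT.nd (nat_lit 156) (nat_lit 380) (nat_lit 0) (XT.nd (nat_lit 78) (nat_lit 380) (nat_lit 0) (XT.lf (nat_lit 0) (nat_lit 504172024) (nat_lit 456) (nat_lit 7261900963) (nat_lit 76) (nat_lit 5740614726) (nat_lit 157) (nat_lit 5) (nat_lit 163) (nat_lit 5) (nat_lit 158) (nat_lit 5) (nat_lit 618) (nat_lit 526) (nat_lit 416)) (XT.lf (nat_lit 0) (nat_lit 1541644148) (nat_lit 380) (nat_lit 2697713286) (nat_lit 456) (nat_lit 9425280566) (nat_lit 152) (nat_lit 5) (nat_lit 157) (nat_lit 5) (nat_lit 158) (nat_lit 5) (nat_lit 619) (nat_lit 526) (nat_lit 415))) (XT.nd (nat_lit 78) (nat_lit 380) (nat_lit 0) (XT.lf (nat_lit 0) (nat_lit 8093675491) (nat_lit 456) (nat_lit 3253945346) (nat_lit 76) (nat_lit 2477238874) (nat_lit 152) (nat_lit 5) (nat_lit 158) (nat_lit 5) (nat_lit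 153) (nat_lit 5) (nat_lit 620) (nat_lit 526) (nat_lit 414)) (XT.nd (nat_lit 73866) (nat_lit 0) (nat_lit 45372) (XT.lf (nat_lit 0) (nat_lit 5819076777) (nat_lit 380) (nat_lit 6241380564) (nat_lit 456) (nat_lit 1927121941) (nat_lit 147) (nat_lit 5) (nat_lit 152) (nat_lit 5) (nat_lit 153) (nat_lit 5) (nat_lit 621) (nat_lit 526) (nat_lit 413)) (XT.lf (nat_lit 0) (nat_lit 362507026) (nat_lit 0) (nat_lit 362507026) (nat_lit 532) (nat_lit 2542782075) (nat_lit 744) (nat_lit 5) (nat_lit 744) (nat_lit 3) (nat_lit 751) (nat_lit 3) (nat_lit 527) (nat_lit 527) (nat_lit 506))))) (XT.nd (nat_lit 156) (nat_lit 684) (nat_lit 0) (XT.nd (nat_lit 78) (nat_lit 608) (nat_lit 0) (XT.lf (nat_lit 0) (nat_lit 3993348457) (nat_lit 0) (nat_lit 24206165) (nat_lit 532) (nat_lit 2531947928) (nat_lit 744) (nat_lit 5) (nat_lit 744) (nat_lit 3) (nat_lit 751) (nat_lit 3) (nat_lit 528) (nat_lit 527) (nat_lit 505)) (XT.lf (nat_lit 0) (nat_lit 13892376) (nat_lit 608) (nat_lit 5831499059) (nat_lit 684) (nat_lit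 719457958) (nat_lit 736) (nat_lit 5) (nat_lit 744) (nat_lit 5) (nat_lit 745) (nat_lit 5) (nat_lit 529) (nat_lit 527) (nat_lit 504))) (XT.nd (nat_lit 78) (nat_lit 684) (nat_lit 0) (XT.lf (nat_lit 0) (nat_lit 2528094126) (nat_lit 608) (nat_lit 2509615620) (nat_lit 684) (nat_lit 1543441467) (nat_lit 736) (nat_lit 5) (nat_lit 744) (nat_lit 5) (nat_lit 745) (nat_lit 5) (nat_lit 530) (nat_lit 527) (nat_lit 503)) (XT.nd (nat_lit 78) (nat_lit 684) (nat_lit 0) (XT.lf (nat_lit 76) (nat_lit 854910009) (nat_lit 0) (nat_lit 4178405531) (nat_lit 684) (nat_lit 1565658333) (nat_lit 737) (nat_lit 5) (nat_lit 736) (nat_lit 5) (nat_lit 745) (nat_lit 5) (nat_lit 531) (nat_lit 527) (nat_lit 502)) (XT.lf (nat_lit 0) (nat_lit 911498066) (nat_lit 684) (nat_lit 2338130409) (nat_lit 760) (nat_lit 3368352492) (nat_lit 727) (nat_lit 5) (nat_lit 736) (nat_lit 5) (nat_lit 737) (nat_lit 5) (nat_lit 532) (nat_lit 527) (nat_lit 501)))))) (XT.nd (nat_lit 390) (nat_lit 1596) (nat_lit 0) (XT.nd (nat_lit 156)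 (nat_lit 760) (nat_lit 0) (XT.nd (nat_lit 78) (nat_lit 0) (nat_lit 0) (XT.lf (nat_lit 76) (nat_lit 1105105782) (nat_lit 0) (nat_lit 2256379719) (nat_lit 760) (nat_lit 3276799649) (nat_lit 728) (nat_lit 5) (nat_lit 727) (nat_lit 5) (nat_lit 737) (nat_lit 5) (nat_lit 533) (nat_lit 527) (nat_lit 500)) (XT.lf (nat_lit 76) (nat_lit 4614189551) (nat_lit 0) (nat_lit 1200039419) (nat_lit 760) (nat_lit 845700116) (nat_lit 728) (nat_lit 5) (nat_lit 727) (nat_lit 5) (nat_lit 737) (nat_lit 5) (nat_lit 534) (nat_lit 527) (nat_lit 499))) (XT.nd (nat_lit 78) (nat_lit 0) (nat_lit 76) (XT.lf (nat_lit 76) (nat_lit 1485470811) (nat_lit 0) (nat_lit 75634734) (nat_lit 836) (nat_lit 5121726332) (nat_lit 718) (nat_lit 5) (nat_lit 717) (nat_lit 5) (nat_lit 728) (nat_lit 5) (nat_lit 535) (nat_lit 527) (nat_lit 498)) (XT.nd (nat_lit 78) (nat_lit 0) (nat_lit 0) (XT.lf (nat_lit 0) (nat_lit 3965517790) (nat_lit 760) (nat_lit 1639528414) (nat_lit 836) (nat_lit 1101827118) (nat_lit 718) (nat_lit 5) (nat_lit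 728) (nat_lit 5) (nat_lit 729) (nat_lit 5) (nat_lit 536) (nat_lit 527) (nat_lit 497)) (XT.lf (nat_lit 76) (nat_lit 1979629809) (nat_lit 0) (nat_lit 4392928300) (nat_lit 836) (nat_lit 359754814) (nat_lit 719) (nat_lit 5) (nat_lit 718) (nat_lit 5) (nat_lit 729) (nat_lit 5) (nat_lit 537) (nat_lit 527) (nat_lit 496))))) (XT.nd (nat_lit 234) (nat_lit 836) (nat_lit 0) (XT.nd (nat_lit 78) (nat_lit 0) (nat_lit 0) (XT.lf (nat_lit 0) (nat_lit 1995131520) (nat_lit 836) (nat_lit 1113998636) (nat_lit 912) (nat_lit 3649814336) (nat_lit 707) (nat_lit 5) (nat_lit 718) (nat_lit 5) (nat_lit 719) (nat_lit 5) (nat_lit 538) (nat_lit 527) (nat_lit 495)) (XT.nd (nat_lit 78) (nat_lit 0) (nat_lit 0) (XT.lf (nat_lit 76) (nat_lit 2593956556) (nat_lit 0) (nat_lit 1758051058) (nat_lit 912) (nat_lit 2434866992) (nat_lit 708) (nat_lit 5) (nat_lit 707) (nat_lit 5) (nat_lit 719) (nat_lit 5) (nat_lit 539) (nat_lit 527) (nat_lit 494)) (XT.lf (nat_lit 76) (nat_lit 6356261887) (nat_lit 0) (nat_lit 350991497)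 (nat_lit 912) (nat_lit 109092801) (nat_lit 708) (nat_lit 5) (nat_lit 707) (nat_lit 5) (nat_lit 719) (nat_lit 5) (nat_lit 540) (nat_lit 527) (nat_lit 493)))) (XT.nd (nat_lit 78) (nat_lit 0) (nat_lit 0) (XT.lf (nat_lit 0) (nat_lit 2207111105) (nat_lit 912) (nat_lit 3512643403) (nat_lit 988) (nat_lit 1126894088) (nat_lit 696) (nat_lit 5) (nat_lit 708) (nat_lit 5) (nat_lit 709) (nat_lit 5) (nat_lit 541) (nat_lit 527) (nat_lit 492)) (XT.nd (nat_lit 78) (nat_lit 0) (nat_lit 0) (XT.lf (nat_lit 76) (nat_lit 297583996) (nat_lit 0) (nat_lit 4223439343) (nat_lit 988) (nat_lit 2357469467) (nat_lit 697) (nat_lit 5) (nat_lit 696) (nat_lit 5) (nat_lit 709) (nat_lit 5) (nat_lit 542) (nat_lit 527) (nat_lit 491)) (XT.lf (nat_lit 76) (nat_lit 4195898149) (nat_lit 0) (nat_lit 2655203612) (nat_lit 988) (nat_lit 60481314) (nat_lit 697) (nat_lit 5) (nat_lit 696) (nat_lit 5) (nat_lit 709) (nat_lit 5) (nat_lit 543) (nat_lit 527) (nat_lit 490))))))))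
noncomputable def xc86 : XT := (XT.nd (nat_lit 1560) (nat_lit 12084) (nat_lit 0) (XT.nd (nat_lit 780) (nat_lit 9576) (nat_lit 0) (XT.nd (nat_lit 390) (nat_lit 3800) (nat_lit 0) (XT.nd (nat_lit 156) (nat_lit 2052) (nat_lit 0) (XT.nd (nat_lit 78) (nat_lit 0) (nat_lit 76) (XT.lf (nat_lit 76) (nat_lit 1191913651) (nat_lit 0) (nat_lit 1015350567) (nat_lit 1064) (nat_lit 4738686167) (nat_lit 684) (nat_lit 5) (nat_lit 683) (nat_lit 5) (nat_lit 697) (nat_lit 5) (nat_lit 544) (nat_lit 527) (nat_lit 489)) (XT.lf (nat_lit 0) (nat_lit 4490097827) (nat_lit 988) (nat_lit 1807619358) (nat_lit 76) (nat_lit 683875534) (nat_lit 684) (nat_lit 5) (nat_lit 697) (nat_lit 5) (nat_lit 685) (nat_lit 5) (nat_lit 545) (nat_lit 527) (nat_lit 488))) (XT.nd (nat_lit 78) (nat_lit 1140) (nat_lit 0) (XT.lf (nat_lit 0) (nat_lit 2203960502) (nat_lit 988) (nat_lit 4584612594) (nat_lit 1064) (nat_lit 229981510) (nat_lit 671) (nat_lit 5) (nat_lit 684) (nat_lit 5) (nat_lit 685) (nat_lit 5) (nat_lit 546) (nat_lit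 527) (nat_lit 487)) (XT.nd (nat_lit 78) (nat_lit 1064) (nat_lit 0) (XT.lf (nat_lit 0) (nat_lit 2011116604) (nat_lit 1064) (nat_lit 785691848) (nat_lit 76) (nat_lit 4259951930) (nat_lit 670) (nat_lit 5) (nat_lit 684) (nat_lit 5) (nat_lit 671) (nat_lit 5) (nat_lit 547) (nat_lit 527) (nat_lit 486)) (XT.lf (nat_lit 0) (nat_lit 3330266573) (nat_lit 1064) (nat_lit 935689525) (nat_lit 1140) (nat_lit 2830309832) (nat_lit 656) (nat_lit 5) (nat_lit 670) (nat_lit 5) (nat_lit 671) (nat_lit 5) (nat_lit 548) (nat_lit 527) (nat_lit 485))))) (XT.nd (nat_lit 156) (nat_lit 2584) (nat_lit 0) (XT.nd (nat_lit 78) (nat_lit 76) (nat_lit 0) (XT.lf (nat_lit 0) (nat_lit 364724601) (nat_lit 1140) (nat_lit 6166297234) (nat_lit 1216) (nat_lit 606243081) (nat_lit 641) (nat_lit 5) (nat_lit 656) (nat_lit 5) (nat_lit 657) (nat_lit 5) (nat_lit 549) (nat_lit 527) (nat_lit 484)) (XT.lf (nat_lit 0) (nat_lit 1623740502) (nat_lit 1216) (nat_lit 2603543758) (nat_lit 76) (nat_lit 2951924717) (nat_lit 640) (nat_lit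 5) (nat_lit 656) (nat_lit 5) (nat_lit 641) (nat_lit 5) (nat_lit 550) (nat_lit 527) (nat_lit 483))) (XT.nd (nat_lit 78) (nat_lit 1368) (nat_lit 0) (XT.lf (nat_lit 0) (nat_lit 1629998846) (nat_lit 1216) (nat_lit 2223348042) (nat_lit 1292) (nat_lit 3369307647) (nat_lit 624) (nat_lit 5) (nat_lit 640) (nat_lit 5) (nat_lit 641) (nat_lit 5) (nat_lit 551) (nat_lit 527) (nat_lit 482)) (XT.nd (nat_lit 78) (nat_lit 1368) (nat_lit 0) (XT.lf (nat_lit 0) (nat_lit 5947545401) (nat_lit 1216) (nat_lit 150718177) (nat_lit 1292) (nat_lit 1169296529) (nat_lit 624) (nat_lit 5) (nat_lit 640) (nat_lit 5) (nat_lit 641) (nat_lit 5) (nat_lit 552) (nat_lit 527) (nat_lit 481)) (XT.lf (nat_lit 0) (nat_lit 1047170971) (nat_lit 1368) (nat_lit 4291714855) (nat_lit 76) (nat_lit 1974612642) (nat_lit 606) (nat_lit 5) (nat_lit 624) (nat_lit 5) (nat_lit 607) (nat_lit 5) (nat_lit 553) (nat_lit 527) (nat_lit 480)))))) (XT.nd (nat_lit 390) (nat_lit 5168) (nat_lit 0) (XT.nd (nat_lit 156) (nat_lit 3040) (nat_lit 0)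 (XT.nd (nat_lit 78) (nat_lit 0) (nat_lit 0) (XT.lf (nat_lit 0) (nat_lit 63551121) (nat_lit 1368) (nat_lit 3193694065) (nat_lit 1444) (nat_lit 4103662295) (nat_lit 588) (nat_lit 5) (nat_lit 606) (nat_lit 5) (nat_lit 607) (nat_lit 5) (nat_lit 554) (nat_lit 527) (nat_lit 479)) (XT.lf (nat_lit 0) (nat_lit 4527724134) (nat_lit 1368) (nat_lit 967842808) (nat_lit 1444) (nat_lit 1914021862) (nat_lit 588) (nat_lit 5) (nat_lit 606) (nat_lit 5) (nat_lit 607) (nat_lit 5) (nat_lit 555) (nat_lit 527) (nat_lit 478))) (XT.nd (nat_lit 78) (nat_lit 1520) (nat_lit 0) (XT.lf (nat_lit 0) (nat_lit 290060194) (nat_lit 1520) (nat_lit 5863817099) (nat_lit 76) (nat_lit 1305833079) (nat_lit 568) (nat_lit 5) (nat_lit 588) (nat_lit 5) (nat_lit 569) (nat_lit 5) (nat_lit 556) (nat_lit 527) (nat_lit 477)) (XT.nd (nat_lit 78) (nat_lit 1520) (nat_lit 0) (XT.lf (nat_lit 0) (nat_lit 2495005152) (nat_lit 1520) (nat_lit 1364328227) (nat_lit 76) (nat_lit 3651604519) (nat_lit 568) (nat_lit 5) (nat_lit 588) (nat_lit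 5) (nat_lit 569) (nat_lit 5) (nat_lit 557) (nat_lit 527) (nat_lit 476)) (XT.lf (nat_lit 0) (nat_lit 3231315811) (nat_lit 1520) (nat_lit 1491075395) (nat_lit 1596) (nat_lit 2841236591) (nat_lit 548) (nat_lit 5) (nat_lit 568) (nat_lit 5) (nat_lit 569) (nat_lit 5) (nat_lit 558) (nat_lit 527) (nat_lit 475))))) (XT.nd (nat_lit 156) (nat_lit 3496) (nat_lit 0) (XT.nd (nat_lit 78) (nat_lit 76) (nat_lit 0) (XT.lf (nat_lit 0) (nat_lit 280939060) (nat_lit 1596) (nat_lit 6688432885) (nat_lit 1672) (nat_lit 648503186) (nat_lit 527) (nat_lit 5) (nat_lit 548) (nat_lit 5) (nat_lit 549) (nat_lit 5) (nat_lit 559) (nat_lit 527) (nat_lit 474)) (XT.lf (nat_lit 0) (nat_lit 1564707348) (nat_lit 1672) (nat_lit 2684999501) (nat_lit 76) (nat_lit 3423349730) (nat_lit 526) (nat_lit 5) (nat_lit 548) (nat_lit 5) (nat_lit 527) (nat_lit 5) (nat_lit 560) (nat_lit 527) (nat_lit 473))) (XT.nd (nat_lit 78) (nat_lit 1824) (nat_lit 0) (XT.lf (nat_lit 0) (nat_lit 2046068389) (nat_lit 1672) (nat_lit 1739851409)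 (nat_lit 1748) (nat_lit 3943892013) (nat_lit 504) (nat_lit 5) (nat_lit 526) (nat_lit 5) (nat_lit 527) (nat_lit 5) (nat_lit 561) (nat_lit 527) (nat_lit 472)) (XT.nd (nat_lit 78) (nat_lit 1824) (nat_lit 0) (XT.lf (nat_lit 0) (nat_lit 6034740405) (nat_lit 1748) (nat_lit 921677284) (nat_lit 76) (nat_lit 831625008) (nat_lit 504) (nat_lit 5) (nat_lit 527) (nat_lit 5) (nat_lit 505) (nat_lit 5) (nat_lit 562) (nat_lit 527) (nat_lit 471)) (XT.lf (nat_lit 0) (nat_lit 472380676) (nat_lit 1824) (nat_lit 3911141258) (nat_lit 76) (nat_lit 3463906034) (nat_lit 480) (nat_lit 5) (nat_lit 504) (nat_lit 5) (nat_lit 481) (nat_lit 5) (nat_lit 563) (nat_lit 527) (nat_lit 470))))))) (XT.nd (nat_lit 780) (nat_lit 5548) (nat_lit 0) (XT.nd (nat_lit 390) (nat_lit 2660) (nat_lit 0) (XT.nd (nat_lit 156) (nat_lit 2052) (nat_lit 0) (XT.nd (nat_lit 78) (nat_lit 0) (nat_lit 0) (XT.lf (nat_lit 0) (nat_lit 960365281) (nat_lit 1824) (nat_lit 1732007878) (nat_lit 1900) (nat_lit 5215934529) (nat_lit 456) (nat_lit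 5) (nat_lit 480) (nat_lit 5) (nat_lit 481) (nat_lit 5) (nat_lit 564) (nat_lit 527) (nat_lit 469)) (XT.lf (nat_lit 0) (nat_lit 4950836642) (nat_lit 1900) (nat_lit 2031205590) (nat_lit 76) (nat_lit 988485253) (nat_lit 456) (nat_lit 5) (nat_lit 481) (nat_lit 5) (nat_lit 457) (nat_lit 5) (nat_lit 565) (nat_lit 527) (nat_lit 468))) (XT.nd (nat_lit 78) (nat_lit 988) (nat_lit 0) (XT.lf (nat_lit 0) (nat_lit 2974985895) (nat_lit 1064) (nat_lit 4272364593) (nat_lit 1140) (nat_lit 786787396) (nat_lit 442) (nat_lit 5) (nat_lit 456) (nat_lit 5) (nat_lit 457) (nat_lit 5) (nat_lit 566) (nat_lit 527) (nat_lit 467)) (XT.nd (nat_lit 78) (nat_lit 912) (nat_lit 0) (XT.lf (nat_lit 0) (nat_lit 1447295251) (nat_lit 1140) (nat_lit 36374145) (nat_lit 76) (nat_lit 6615639734) (nat_lit 441) (nat_lit 5) (nat_lit 456) (nat_lit 5) (nat_lit 442) (nat_lit 5) (nat_lit 567) (nat_lit 527) (nat_lit 466)) (XT.lf (nat_lit 0) (nat_lit 3720915568) (nat_lit 988) (nat_lit 3062122196) (nat_lit 76) (nat_lit 1382537808)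 (nat_lit 429) (nat_lit 5) (nat_lit 442) (nat_lit 5) (nat_lit 430) (nat_lit 5) (nat_lit 568) (nat_lit 527) (nat_lit 465))))) (XT.nd (nat_lit 156) (nat_lit 1672) (nat_lit 0) (XT.nd (nat_lit 78) (nat_lit 76) (nat_lit 0) (XT.lf (nat_lit 0) (nat_lit 2094579734) (nat_lit 912) (nat_lit 3932685787) (nat_lit 988) (nat_lit 2206160214) (nat_lit 417) (nat_lit 5) (nat_lit 429) (nat_lit 5) (nat_lit 430) (nat_lit 5) (nat_lit 569) (nat_lit 527) (nat_lit 464)) (XT.lf (nat_lit 0) (nat_lit 60606646) (nat_lit 988) (nat_lit 943651162) (nat_lit 76) (nat_lit 7298678314) (nat_lit 416) (nat_lit 5) (nat_lit 429) (nat_lit 5) (nat_lit 417) (nat_lit 5) (nat_lit 570) (nat_lit 527) (nat_lit 463))) (XT.nd (nat_lit 78) (nat_lit 836) (nat_lit 0) (XT.lf (nat_lit 0) (nat_lit 2349204612) (nat_lit 912) (nat_lit 4024794724) (nat_lit 76) (nat_lit 1999428332) (nat_lit 405) (nat_lit 5) (nat_lit 417) (nat_lit 5) (nat_lit 406) (nat_lit 5) (nat_lit 571) (nat_lit 527) (nat_lit 462)) (XT.nd (nat_lit 78) (nat_lit 0) (nat_lit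 0) (XT.lf (nat_lit 0) (nat_lit 1288094954) (nat_lit 836) (nat_lit 3381859326) (nat_lit 912) (nat_lit 3775650437) (nat_lit 394) (nat_lit 5) (nat_lit 405) (nat_lit 5) (nat_lit 406) (nat_lit 5) (nat_lit 572) (nat_lit 527) (nat_lit 461)) (XT.lf (nat_lit 0) (nat_lit 6725581666) (nat_lit 836) (nat_lit 303988588) (nat_lit 912) (nat_lit 1489809231) (nat_lit 394) (nat_lit 5) (nat_lit 405) (nat_lit 5) (nat_lit 406) (nat_lit 5) (nat_lit 573) (nat_lit 527) (nat_lit 460)))))) (XT.nd (nat_lit 390) (nat_lit 2964) (nat_lit 0) (XT.nd (nat_lit 156) (nat_lit 836) (nat_lit 0) (XT.nd (nat_lit 78) (nat_lit 836) (nat_lit 0) (XT.lf (nat_lit 0) (nat_lit 839113621) (nat_lit 912) (nat_lit 4929242979) (nat_lit 76) (nat_lit 2825998832) (nat_lit 382) (nat_lit 5) (nat_lit 394) (nat_lit 5) (nat_lit 383) (nat_lit 5) (nat_lit 574) (nat_lit 527) (nat_lit 459)) (XT.lf (nat_lit 0) (nat_lit 545733843) (nat_lit 836) (nat_lit 2632941057) (nat_lit 912) (nat_lit 5492281894) (nat_lit 371) (nat_lit 5) (nat_lit 382)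 (nat_lit 5) (nat_lit 383) (nat_lit 5) (nat_lit 575) (nat_lit 527) (nat_lit 458))) (XT.nd (nat_lit 78) (nat_lit 836) (nat_lit 0) (XT.lf (nat_lit 0) (nat_lit 5568717168) (nat_lit 912) (nat_lit 2592090321) (nat_lit 76) (nat_lit 588211858) (nat_lit 371) (nat_lit 5) (nat_lit 383) (nat_lit 5) (nat_lit 372) (nat_lit 5) (nat_lit 576) (nat_lit 527) (nat_lit 457)) (XT.nd (nat_lit 78) (nat_lit 76) (nat_lit 0) (XT.lf (nat_lit 0) (nat_lit 3038033720) (nat_lit 760) (nat_lit 4973064017) (nat_lit 836) (nat_lit 817457566) (nat_lit 361) (nat_lit 5) (nat_lit 371) (nat_lit 5) (nat_lit 372) (nat_lit 5) (nat_lit 577) (nat_lit 527) (nat_lit 456)) (XT.lf (nat_lit 0) (nat_lit 1556832259) (nat_lit 836) (nat_lit 140168432) (nat_lit 76) (nat_lit 7212775742) (nat_lit 360) (nat_lit 5) (nat_lit 371) (nat_lit 5) (nat_lit 361) (nat_lit 5) (nat_lit 578) (nat_lit 527) (nat_lit 455))))) (XT.nd (nat_lit 234) (nat_lit 1520) (nat_lit 0) (XT.nd (nat_lit 78) (nat_lit 684) (nat_lit 0) (XT.lf (nat_lit 0) (nat_lit 3983532383)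 (nat_lit 836) (nat_lit 3346951462) (nat_lit 76) (nat_lit 1661715401) (nat_lit 350) (nat_lit 5) (nat_lit 361) (nat_lit 5) (nat_lit 351) (nat_lit 5) (nat_lit 579) (nat_lit 527) (nat_lit 454)) (XT.nd (nat_lit 78) (nat_lit 0) (nat_lit 0) (XT.lf (nat_lit 0) (nat_lit 2457065503) (nat_lit 684) (nat_lit 3998410347) (nat_lit 760) (nat_lit 2620863162) (nat_lit 341) (nat_lit 5) (nat_lit 350) (nat_lit 5) (nat_lit 351) (nat_lit 5) (nat_lit 580) (nat_lit 527) (nat_lit 453)) (XT.lf (nat_lit 0) (nat_lit 8386832684) (nat_lit 684) (nat_lit 581440970) (nat_lit 760) (nat_lit 194062235) (nat_lit 341) (nat_lit 5) (nat_lit 350) (nat_lit 5) (nat_lit 351) (nat_lit 5) (nat_lit 581) (nat_lit 527) (nat_lit 452)))) (XT.nd (nat_lit 78) (nat_lit 684) (nat_lit 0) (XT.lf (nat_lit 0) (nat_lit 2273642724) (nat_lit 836) (nat_lit 4065678127) (nat_lit 76) (nat_lit 2909992400) (nat_lit 330) (nat_lit 5) (nat_lit 341) (nat_lit 5) (nat_lit 331) (nat_lit 5) (nat_lit 582) (nat_lit 527) (nat_lit 451)) (XT.nd (nat_lit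 78) (nat_lit 0) (nat_lit 0) (XT.lf (nat_lit 0) (nat_lit 1918785594) (nat_lit 684) (nat_lit 2860568053) (nat_lit 760) (nat_lit 4558828328) (nat_lit 321) (nat_lit 5) (nat_lit 330) (nat_lit 5) (nat_lit 331) (nat_lit 5) (nat_lit 583) (nat_lit 527) (nat_lit 450)) (XT.lf (nat_lit 0) (nat_lit 7337135773) (nat_lit 760) (nat_lit 1390959931) (nat_lit 76) (nat_lit 700695657) (nat_lit 321) (nat_lit 5) (nat_lit 331) (nat_lit 5) (nat_lit 322) (nat_lit 5) (nat_lit 584) (nat_lit 527) (nat_lit 449))))))))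
noncomputable def xc87 : XT := (XT.nd (nat_lit 1560) (nat_lit 4864) (nat_lit 0) (XT.nd (nat_lit 780) (nat_lit 3344) (nat_lit 0) (XT.nd (nat_lit 390) (nat_lit 1900) (nat_lit 0) (XT.nd (nat_lit 156) (nat_lit 1368) (nat_lit 0) (XT.nd (nat_lit 78) (nat_lit 608) (nat_lit 0) (XT.lf (nat_lit 0) (nat_lit 439927419) (nat_lit 760) (nat_lit 4757462206) (nat_lit 76) (nat_lit 4323357695) (nat_lit 311) (nat_lit 5) (nat_lit 321) (nat_lit 5) (nat_lit 312) (nat_lit 5) (nat_lit 585) (nat_lit 527) (nat_lit 448)) (XT.lf (nat_lit 0) (nat_lit 1414216115) (nat_lit 608) (nat_lit 1569291963) (nat_lit 684) (nat_lit 6630972625) (nat_lit 303) (nat_lit 5) (nat_lit 311) (nat_lit 5) (nat_lit 312) (nat_lit 5) (nat_lit 586) (nat_lit 527) (nat_lit 447))) (XT.nd (nat_lit 78) (nat_lit 1368) (nat_lit 0) (XT.lf (nat_lit 0) (nat_lit 5595006613) (nat_lit 684) (nat_lit 1985519781) (nat_lit 76) (nat_lit 2129223678) (nat_lit 303) (nat_lit 5) (nat_lit 312) (nat_lit 5) (nat_lit 304) (nat_lit 5) (nat_lit 587) (nat_lit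 527) (nat_lit 446)) (XT.nd (nat_lit 78) (nat_lit 684) (nat_lit 0) (XT.lf (nat_lit 0) (nat_lit 4365244395) (nat_lit 684) (nat_lit 3903864182) (nat_lit 760) (nat_lit 1537610981) (nat_lit 294) (nat_lit 5) (nat_lit 303) (nat_lit 5) (nat_lit 304) (nat_lit 5) (nat_lit 588) (nat_lit 527) (nat_lit 445)) (XT.lf (nat_lit 0) (nat_lit 934378713) (nat_lit 608) (nat_lit 133635115) (nat_lit 684) (nat_lit 8837649856) (nat_lit 285) (nat_lit 5) (nat_lit 293) (nat_lit 5) (nat_lit 294) (nat_lit 5) (nat_lit 589) (nat_lit 527) (nat_lit 444))))) (XT.nd (nat_lit 156) (nat_lit 1292) (nat_lit 0) (XT.nd (nat_lit 78) (nat_lit 608) (nat_lit 0) (XT.lf (nat_lit 0) (nat_lit 3738099294) (nat_lit 684) (nat_lit 2564432745) (nat_lit 76) (nat_lit 3703194719) (nat_lit 285) (nat_lit 5) (nat_lit 294) (nat_lit 5) (nat_lit 286) (nat_lit 5) (nat_lit 590) (nat_lit 527) (nat_lit 443)) (XT.lf (nat_lit 0) (nat_lit 3987099107) (nat_lit 608) (nat_lit 2473866883) (nat_lit 684) (nat_lit 3646839544) (nat_lit 277) (nat_lit 5)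 (nat_lit 285) (nat_lit 5) (nat_lit 286) (nat_lit 5) (nat_lit 591) (nat_lit 527) (nat_lit 442))) (XT.nd (nat_lit 78) (nat_lit 684) (nat_lit 0) (XT.lf (nat_lit 0) (nat_lit 454262686) (nat_lit 608) (nat_lit 8786463596) (nat_lit 684) (nat_lit 971152870) (nat_lit 269) (nat_lit 5) (nat_lit 277) (nat_lit 5) (nat_lit 278) (nat_lit 5) (nat_lit 592) (nat_lit 527) (nat_lit 441)) (XT.nd (nat_lit 78) (nat_lit 608) (nat_lit 0) (XT.lf (nat_lit 0) (nat_lit 1765715433) (nat_lit 684) (nat_lit 3136842231) (nat_lit 76) (nat_lit 5414635704) (nat_lit 268) (nat_lit 5) (nat_lit 277) (nat_lit 5) (nat_lit 269) (nat_lit 5) (nat_lit 593) (nat_lit 527) (nat_lit 440)) (XT.lf (nat_lit 0) (nat_lit 3622863082) (nat_lit 608) (nat_lit 918514558) (nat_lit 684) (nat_lit 5883168512) (nat_lit 260) (nat_lit 5) (nat_lit 268) (nat_lit 5) (nat_lit 269) (nat_lit 5) (nat_lit 594) (nat_lit 527) (nat_lit 439)))))) (XT.nd (nat_lit 390) (nat_lit 1672) (nat_lit 0) (XT.nd (nat_lit 156) (nat_lit 1140) (nat_lit 0) (XT.nd (nat_lit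 78) (nat_lit 532) (nat_lit 0) (XT.lf (nat_lit 0) (nat_lit 7387932377) (nat_lit 684) (nat_lit 28714373) (nat_lit 76) (nat_lit 3117093497) (nat_lit 260) (nat_lit 5) (nat_lit 269) (nat_lit 5) (nat_lit 261) (nat_lit 5) (nat_lit 595) (nat_lit 527) (nat_lit 438)) (XT.lf (nat_lit 0) (nat_lit 6930394370) (nat_lit 532) (nat_lit 3386386994) (nat_lit 608) (nat_lit 327831400) (nat_lit 253) (nat_lit 5) (nat_lit 260) (nat_lit 5) (nat_lit 261) (nat_lit 5) (nat_lit 596) (nat_lit 527) (nat_lit 437))) (XT.nd (nat_lit 78) (nat_lit 532) (nat_lit 0) (XT.lf (nat_lit 0) (nat_lit 2513785073) (nat_lit 608) (nat_lit 7498963459) (nat_lit 76) (nat_lit 744611694) (nat_lit 245) (nat_lit 5) (nat_lit 253) (nat_lit 5) (nat_lit 246) (nat_lit 5) (nat_lit 597) (nat_lit 527) (nat_lit 436)) (XT.nd (nat_lit 78) (nat_lit 532) (nat_lit 0) (XT.lf (nat_lit 0) (nat_lit 5429986270) (nat_lit 608) (nat_lit 510288827) (nat_lit 76) (nat_lit 4931603060) (nat_lit 245) (nat_lit 5) (nat_lit 253) (nat_lit 5) (nat_lit 246) (nat_lit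 5) (nat_lit 598) (nat_lit 527) (nat_lit 435)) (XT.lf (nat_lit 0) (nat_lit 6671864368) (nat_lit 532) (nat_lit 1751085022) (nat_lit 608) (nat_lit 2565369964) (nat_lit 238) (nat_lit 5) (nat_lit 245) (nat_lit 5) (nat_lit 246) (nat_lit 5) (nat_lit 599) (nat_lit 527) (nat_lit 434))))) (XT.nd (nat_lit 156) (nat_lit 1064) (nat_lit 0) (XT.nd (nat_lit 78) (nat_lit 0) (nat_lit 0) (XT.lf (nat_lit 0) (nat_lit 377820777) (nat_lit 608) (nat_lit 8224312419) (nat_lit 76) (nat_lit 2504630432) (nat_lit 230) (nat_lit 5) (nat_lit 238) (nat_lit 5) (nat_lit 231) (nat_lit 5) (nat_lit 600) (nat_lit 527) (nat_lit 433)) (XT.lf (nat_lit 0) (nat_lit 3361743753) (nat_lit 608) (nat_lit 1006044097) (nat_lit 76) (nat_lit 6859126992) (nat_lit 230) (nat_lit 5) (nat_lit 238) (nat_lit 5) (nat_lit 231) (nat_lit 5) (nat_lit 601) (nat_lit 527) (nat_lit 432))) (XT.nd (nat_lit 78) (nat_lit 608) (nat_lit 0) (XT.lf (nat_lit 0) (nat_lit 6407174545) (nat_lit 456) (nat_lit 15684497) (nat_lit 532) (nat_lit 4926261300) (nat_lit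 224) (nat_lit 5) (nat_lit 230) (nat_lit 5) (nat_lit 231) (nat_lit 5) (nat_lit 602) (nat_lit 527) (nat_lit 431)) (XT.nd (nat_lit 78) (nat_lit 76) (nat_lit 0) (XT.lf (nat_lit 0) (nat_lit 2478761137) (nat_lit 532) (nat_lit 7094154859) (nat_lit 608) (nat_lit 1900301079) (nat_lit 217) (nat_lit 5) (nat_lit 224) (nat_lit 5) (nat_lit 225) (nat_lit 5) (nat_lit 603) (nat_lit 527) (nat_lit 430)) (XT.lf (nat_lit 0) (nat_lit 1180311143) (nat_lit 608) (nat_lit 1526025538) (nat_lit 76) (nat_lit 8893112689) (nat_lit 216) (nat_lit 5) (nat_lit 224) (nat_lit 5) (nat_lit 217) (nat_lit 5) (nat_lit 604) (nat_lit 527) (nat_lit 429))))))) (XT.nd (nat_lit 780) (nat_lit 1672) (nat_lit 0) (XT.nd (nat_lit 390) (nat_lit 1292) (nat_lit 0) (XT.nd (nat_lit 156) (nat_lit 988) (nat_lit 0) (XT.nd (nat_lit 78) (nat_lit 456) (nat_lit 0) (XT.lf (nat_lit 0) (nat_lit 4325331743) (nat_lit 532) (nat_lit 5612937448) (nat_lit 76) (nat_lit 1789122497) (nat_lit 210) (nat_lit 5) (nat_lit 217) (nat_lit 5) (nat_lit 211)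 (nat_lit 5) (nat_lit 605) (nat_lit 527) (nat_lit 428)) (XT.lf (nat_lit 0) (nat_lit 2046328470) (nat_lit 456) (nat_lit 5505291851) (nat_lit 532) (nat_lit 4305906575) (nat_lit 204) (nat_lit 5) (nat_lit 210) (nat_lit 5) (nat_lit 211) (nat_lit 5) (nat_lit 606) (nat_lit 527) (nat_lit 427))) (XT.nd (nat_lit 78) (nat_lit 988) (nat_lit 0) (XT.lf (nat_lit 0) (nat_lit 9901823205) (nat_lit 456) (nat_lit 955367052) (nat_lit 532) (nat_lit 1132780806) (nat_lit 204) (nat_lit 5) (nat_lit 210) (nat_lit 5) (nat_lit 211) (nat_lit 5) (nat_lit 607) (nat_lit 527) (nat_lit 426)) (XT.nd (nat_lit 78) (nat_lit 456) (nat_lit 0) (XT.lf (nat_lit 0) (nat_lit 2115591866) (nat_lit 532) (nat_lit 6329362391) (nat_lit 76) (nat_lit 3679050461) (nat_lit 197) (nat_lit 5) (nat_lit 204) (nat_lit 5) (nat_lit 198) (nat_lit 5) (nat_lit 608) (nat_lit 527) (nat_lit 425)) (XT.lf (nat_lit 0) (nat_lit 1576850550) (nat_lit 456) (nat_lit 3845153802) (nat_lit 532) (nat_lit 6838401421) (nat_lit 191) (nat_lit 5) (nat_lit 197)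 (nat_lit 5) (nat_lit 198) (nat_lit 5) (nat_lit 609) (nat_lit 527) (nat_lit 424))))) (XT.nd (nat_lit 156) (nat_lit 912) (nat_lit 0) (XT.nd (nat_lit 78) (nat_lit 380) (nat_lit 0) (XT.lf (nat_lit 0) (nat_lit 8820512930) (nat_lit 532) (nat_lit 2710504810) (nat_lit 76) (nat_lit 867999017) (nat_lit 191) (nat_lit 5) (nat_lit 198) (nat_lit 5) (nat_lit 192) (nat_lit 5) (nat_lit 610) (nat_lit 527) (nat_lit 423)) (XT.lf (nat_lit 0) (nat_lit 5435451386) (nat_lit 380) (nat_lit 6890448619) (nat_lit 456) (nat_lit 213723027) (nat_lit 186) (nat_lit 5) (nat_lit 191) (nat_lit 5) (nat_lit 192) (nat_lit 5) (nat_lit 611) (nat_lit 527) (nat_lit 422))) (XT.nd (nat_lit 78) (nat_lit 380) (nat_lit 0) (XT.lf (nat_lit 0) (nat_lit 1058805880) (nat_lit 456) (nat_lit 2120750353) (nat_lit 532) (nat_lit 9503000232) (nat_lit 179) (nat_lit 5) (nat_lit 185) (nat_lit 5) (nat_lit 186) (nat_lit 5) (nat_lit 612) (nat_lit 527) (nat_lit 421)) (XT.nd (nat_lit 78) (nat_lit 380) (nat_lit 0) (XT.lf (nat_lit 0) (nat_lit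 6682024998) (nat_lit 532) (nat_lit 3398206832) (nat_lit 76) (nat_lit 2747205938) (nat_lit 179) (nat_lit 5) (nat_lit 186) (nat_lit 5) (nat_lit 180) (nat_lit 5) (nat_lit 613) (nat_lit 527) (nat_lit 420)) (XT.lf (nat_lit 0) (nat_lit 5011565570) (nat_lit 380) (nat_lit 5268361130) (nat_lit 456) (nat_lit 2694783468) (nat_lit 174) (nat_lit 5) (nat_lit 179) (nat_lit 5) (nat_lit 180) (nat_lit 5) (nat_lit 614) (nat_lit 527) (nat_lit 419)))))) (XT.nd (nat_lit 390) (nat_lit 380) (nat_lit 0) (XT.nd (nat_lit 156) (nat_lit 836) (nat_lit 0) (XT.nd (nat_lit 78) (nat_lit 0) (nat_lit 0) (XT.lf (nat_lit 0) (nat_lit 479875458) (nat_lit 380) (nat_lit 339105081) (nat_lit 456) (nat_lit 12305742660) (nat_lit 168) (nat_lit 5) (nat_lit 173) (nat_lit 5) (nat_lit 174) (nat_lit 5) (nat_lit 615) (nat_lit 527) (nat_lit 418)) (XT.lf (nat_lit 0) (nat_lit 4430210302) (nat_lit 456) (nat_lit 4157786519) (nat_lit 76) (nat_lit 4688119025) (nat_lit 168) (nat_lit 5) (nat_lit 174) (nat_lit 5) (nat_lit 169) (nat_lit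 5) (nat_lit 616) (nat_lit 527) (nat_lit 417))) (XT.nd (nat_lit 78) (nat_lit 456) (nat_lit 0) (XT.lf (nat_lit 0) (nat_lit 4524566900) (nat_lit 380) (nat_lit 3600138342) (nat_lit 456) (nat_lit 5305611350) (nat_lit 163) (nat_lit 5) (nat_lit 168) (nat_lit 5) (nat_lit 169) (nat_lit 5) (nat_lit 617) (nat_lit 527) (nat_lit 416)) (XT.nd (nat_lit 78) (nat_lit 456) (nat_lit 0) (XT.lf (nat_lit 0) (nat_lit 11910380825) (nat_lit 456) (nat_lit 191632341) (nat_lit 76) (nat_lit 1485243407) (nat_lit 163) (nat_lit 5) (nat_lit 169) (nat_lit 5) (nat_lit 164) (nat_lit 5) (nat_lit 618) (nat_lit 527) (nat_lit 415)) (XT.lf (nat_lit 0) (nat_lit 2058929137) (nat_lit 456) (nat_lit 5002950509) (nat_lit 76) (nat_lit 6683972916) (nat_lit 157) (nat_lit 5) (nat_lit 163) (nat_lit 5) (nat_lit 158) (nat_lit 5) (nat_lit 619) (nat_lit 527) (nat_lit 414))))) (XT.nd (nat_lit 74100) (nat_lit 0) (nat_lit 43624) (XT.nd (nat_lit 78) (nat_lit 0) (nat_lit 0) (XT.lf (nat_lit 0) (nat_lit 3960848475) (nat_lit 380) (nat_lit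 1893188953) (nat_lit 456) (nat_lit 8053221522) (nat_lit 152) (nat_lit 5) (nat_lit 157) (nat_lit 5) (nat_lit 158) (nat_lit 5) (nat_lit 620) (nat_lit 527) (nat_lit 413)) (XT.nd (nat_lit 73944) (nat_lit 0) (nat_lit 44992) (XT.lf (nat_lit 0) (nat_lit 9760908469) (nat_lit 456) (nat_lit 952877741) (nat_lit 76) (nat_lit 3357391002) (nat_lit 152) (nat_lit 5) (nat_lit 158) (nat_lit 5) (nat_lit 153) (nat_lit 5) (nat_lit 621) (nat_lit 527) (nat_lit 412)) (XT.lf (nat_lit 0) (nat_lit 1637982315) (nat_lit 0) (nat_lit 1637982315) (nat_lit 532) (nat_lit 6075812) (nat_lit 744) (nat_lit 5) (nat_lit 744) (nat_lit 3) (nat_lit 751) (nat_lit 3) (nat_lit 528) (nat_lit 528) (nat_lit 504)))) (XT.nd (nat_lit 78) (nat_lit 684) (nat_lit 0) (XT.lf (nat_lit 0) (nat_lit 2458393155) (nat_lit 684) (nat_lit 36515998) (nat_lit 684) (nat_lit 4085041136) (nat_lit 735) (nat_lit 3) (nat_lit 744) (nat_lit 3) (nat_lit 744) (nat_lit 5) (nat_lit 529) (nat_lit 528) (nat_lit 503)) (XT.nd (nat_lit 78) (nat_lit 684) (nat_lit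 0) (XT.lf (nat_lit 76) (nat_lit 3290132565) (nat_lit 0) (nat_lit 1644613186) (nat_lit 684) (nat_lit 1662268052) (nat_lit 736) (nat_lit 5) (nat_lit 735) (nat_lit 3) (nat_lit 744) (nat_lit 5) (nat_lit 530) (nat_lit 528) (nat_lit 502)) (XT.lf (nat_lit 76) (nat_lit 30602535) (nat_lit 0) (nat_lit 740775310) (nat_lit 760) (nat_lit 5844214625) (nat_lit 727) (nat_lit 5) (nat_lit 726) (nat_lit 5) (nat_lit 736) (nat_lit 5) (nat_lit 531) (nat_lit 528) (nat_lit 501))))))))
noncomputable def xc88 : XT := (XT.nd (nat_lit 1560) (nat_lit 16644) (nat_lit 0) (XT.nd (nat_lit 780) (nat_lit 5396) (nat_lit 0) (XT.nd (nat_lit 390) (nat_lit 1672) (nat_lit 0) (XT.nd (nat_lit 156) (nat_lit 760) (nat_lit 0) (XT.nd (nat_lit 78) (nat_lit 0) (nat_lit 0) (XT.lf (nat_lit 0) (nat_lit 3192031045) (nat_lit 684) (nat_lit 3201709690) (nat_lit 760) (nat_lit 241379349) (nat_lit 727) (nat_lit 5) (nat_lit 736) (nat_lit 5) (nat_lit 737) (nat_lit 5) (nat_lit 532) (nat_lit 528) (nat_lit 500)) (XT.lf (nat_lit 76) (nat_lit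 212866264) (nat_lit 0) (nat_lit 5392810476) (nat_lit 760) (nat_lit 1050478716) (nat_lit 728) (nat_lit 5) (nat_lit 727) (nat_lit 5) (nat_lit 737) (nat_lit 5) (nat_lit 533) (nat_lit 528) (nat_lit 499))) (XT.nd (nat_lit 78) (nat_lit 0) (nat_lit 0) (XT.lf (nat_lit 0) (nat_lit 1332251331) (nat_lit 760) (nat_lit 2982066408) (nat_lit 836) (nat_lit 2363911807) (nat_lit 717) (nat_lit 5) (nat_lit 727) (nat_lit 5) (nat_lit 728) (nat_lit 5) (nat_lit 534) (nat_lit 528) (nat_lit 498)) (XT.nd (nat_lit 78) (nat_lit 0) (nat_lit 0) (XT.lf (nat_lit 76) (nat_lit 513997196) (nat_lit 0) (nat_lit 3177991823) (nat_lit 836) (nat_lit 3009757134) (nat_lit 718) (nat_lit 5) (nat_lit 717) (nat_lit 5) (nat_lit 728) (nat_lit 5) (nat_lit 535) (nat_lit 528) (nat_lit 497)) (XT.lf (nat_lit 76) (nat_lit 4086461569) (nat_lit 0) (nat_lit 1973494462) (nat_lit 836) (nat_lit 666564492) (nat_lit 718) (nat_lit 5) (nat_lit 717) (nat_lit 5) (nat_lit 728) (nat_lit 5) (nat_lit 536) (nat_lit 528) (nat_lit 496))))) (XT.nd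 (nat_lit 156) (nat_lit 836) (nat_lit 0) (XT.nd (nat_lit 78) (nat_lit 0) (nat_lit 76) (XT.lf (nat_lit 76) (nat_lit 945739285) (nat_lit 0) (nat_lit 703078139) (nat_lit 912) (nat_lit 5103798379) (nat_lit 707) (nat_lit 5) (nat_lit 706) (nat_lit 5) (nat_lit 718) (nat_lit 5) (nat_lit 537) (nat_lit 528) (nat_lit 495)) (XT.lf (nat_lit 0) (nat_lit 3966134997) (nat_lit 836) (nat_lit 2183359343) (nat_lit 912) (nat_lit 630367117) (nat_lit 707) (nat_lit 5) (nat_lit 718) (nat_lit 5) (nat_lit 719) (nat_lit 5) (nat_lit 538) (nat_lit 528) (nat_lit 494))) (XT.nd (nat_lit 78) (nat_lit 912) (nat_lit 0) (XT.lf (nat_lit 76) (nat_lit 1493102673) (nat_lit 0) (nat_lit 4795029901) (nat_lit 912) (nat_lit 520360283) (nat_lit 708) (nat_lit 5) (nat_lit 707) (nat_lit 5) (nat_lit 719) (nat_lit 5) (nat_lit 539) (nat_lit 528) (nat_lit 493)) (XT.nd (nat_lit 78) (nat_lit 0) (nat_lit 0) (XT.lf (nat_lit 0) (nat_lit 1754253905) (nat_lit 912) (nat_lit 1611590239) (nat_lit 988) (nat_lit 3472439057) (nat_lit 695)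 (nat_lit 5) (nat_lit 707) (nat_lit 5) (nat_lit 708) (nat_lit 5) (nat_lit 540) (nat_lit 528) (nat_lit 492)) (XT.lf (nat_lit 76) (nat_lit 2156842713) (nat_lit 0) (nat_lit 1870135714) (nat_lit 988) (nat_lit 2842437493) (nat_lit 696) (nat_lit 5) (nat_lit 695) (nat_lit 5) (nat_lit 708) (nat_lit 5) (nat_lit 541) (nat_lit 528) (nat_lit 491)))))) (XT.nd (nat_lit 390) (nat_lit 3420) (nat_lit 0) (XT.nd (nat_lit 156) (nat_lit 1064) (nat_lit 0) (XT.nd (nat_lit 78) (nat_lit 912) (nat_lit 0) (XT.lf (nat_lit 76) (nat_lit 5988431132) (nat_lit 0) (nat_lit 313962449) (nat_lit 988) (nat_lit 599639923) (nat_lit 696) (nat_lit 5) (nat_lit 695) (nat_lit 5) (nat_lit 708) (nat_lit 5) (nat_lit 542) (nat_lit 528) (nat_lit 490)) (XT.lf (nat_lit 0) (nat_lit 1640767522) (nat_lit 988) (nat_lit 3989310002) (nat_lit 1064) (nat_lit 1305515536) (nat_lit 683) (nat_lit 5) (nat_lit 696) (nat_lit 5) (nat_lit 697) (nat_lit 5) (nat_lit 543) (nat_lit 528) (nat_lit 489))) (XT.nd (nat_lit 78) (nat_lit 1064) (nat_lit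 0) (XT.lf (nat_lit 0) (nat_lit 3874264589) (nat_lit 988) (nat_lit 115083769) (nat_lit 1064) (nat_lit 2981276498) (nat_lit 683) (nat_lit 5) (nat_lit 696) (nat_lit 5) (nat_lit 697) (nat_lit 5) (nat_lit 544) (nat_lit 528) (nat_lit 488)) (XT.nd (nat_lit 78) (nat_lit 1064) (nat_lit 0) (XT.lf (nat_lit 76) (nat_lit 3852802332) (nat_lit 0) (nat_lit 2273715359) (nat_lit 1064) (nat_lit 880364280) (nat_lit 684) (nat_lit 5) (nat_lit 683) (nat_lit 5) (nat_lit 697) (nat_lit 5) (nat_lit 545) (nat_lit 528) (nat_lit 487)) (XT.lf (nat_lit 76) (nat_lit 824804164) (nat_lit 0) (nat_lit 492691546) (nat_lit 1140) (nat_lit 5727082637) (nat_lit 670) (nat_lit 5) (nat_lit 669) (nat_lit 5) (nat_lit 684) (nat_lit 5) (nat_lit 546) (nat_lit 528) (nat_lit 486))))) (XT.nd (nat_lit 156) (nat_lit 2432) (nat_lit 0) (XT.nd (nat_lit 78) (nat_lit 1064) (nat_lit 0) (XT.lf (nat_lit 0) (nat_lit 3527811216) (nat_lit 1064) (nat_lit 2206827560) (nat_lit 76) (nat_lit 1348673798) (nat_lit 670) (nat_lit 5) (nat_lit 684)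 (nat_lit 5) (nat_lit 671) (nat_lit 5) (nat_lit 547) (nat_lit 528) (nat_lit 485)) (XT.lf (nat_lit 0) (nat_lit 1872699586) (nat_lit 1064) (nat_lit 3876401867) (nat_lit 1140) (nat_lit 1374390583) (nat_lit 656) (nat_lit 5) (nat_lit 670) (nat_lit 5) (nat_lit 671) (nat_lit 5) (nat_lit 548) (nat_lit 528) (nat_lit 484))) (XT.nd (nat_lit 78) (nat_lit 2356) (nat_lit 0) (XT.lf (nat_lit 0) (nat_lit 805849097) (nat_lit 1140) (nat_lit 1141459675) (nat_lit 76) (nat_lit 5217728402) (nat_lit 655) (nat_lit 5) (nat_lit 670) (nat_lit 5) (nat_lit 656) (nat_lit 5) (nat_lit 549) (nat_lit 528) (nat_lit 483)) (XT.nd (nat_lit 78) (nat_lit 1216) (nat_lit 0) (XT.lf (nat_lit 0) (nat_lit 2984189090) (nat_lit 1216) (nat_lit 4161982249) (nat_lit 76) (nat_lit 61607785) (nat_lit 640) (nat_lit 5) (nat_lit 656) (nat_lit 5) (nat_lit 641) (nat_lit 5) (nat_lit 550) (nat_lit 528) (nat_lit 482)) (XT.lf (nat_lit 0) (nat_lit 33048229) (nat_lit 1216) (nat_lit 5147349327) (nat_lit 1292) (nat_lit 2071497792) (nat_lit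 624) (nat_lit 5) (nat_lit 640) (nat_lit 5) (nat_lit 641) (nat_lit 5) (nat_lit 551) (nat_lit 528) (nat_lit 481))))))) (XT.nd (nat_lit 780) (nat_lit 9196) (nat_lit 0) (XT.nd (nat_lit 390) (nat_lit 4636) (nat_lit 0) (XT.nd (nat_lit 156) (nat_lit 1444) (nat_lit 0) (XT.nd (nat_lit 78) (nat_lit 1292) (nat_lit 0) (XT.lf (nat_lit 0) (nat_lit 103983746) (nat_lit 1292) (nat_lit 2964798971) (nat_lit 76) (nat_lit 4228461000) (nat_lit 623) (nat_lit 5) (nat_lit 640) (nat_lit 5) (nat_lit 624) (nat_lit 5) (nat_lit 552) (nat_lit 528) (nat_lit 480)) (XT.lf (nat_lit 0) (nat_lit 1343057374) (nat_lit 1292) (nat_lit 915685850) (nat_lit 1368) (nat_lit 5085217016) (nat_lit 606) (nat_lit 5) (nat_lit 623) (nat_lit 5) (nat_lit 624) (nat_lit 5) (nat_lit 553) (nat_lit 528) (nat_lit 479))) (XT.nd (nat_lit 78) (nat_lit 1444) (nat_lit 0) (XT.lf (nat_lit 0) (nat_lit 4440421243) (nat_lit 1368) (nat_lit 1658295709) (nat_lit 76) (nat_lit 1293222725) (nat_lit 606) (nat_lit 5) (nat_lit 624) (nat_lit 5) (nat_lit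 607) (nat_lit 5) (nat_lit 554) (nat_lit 528) (nat_lit 478)) (XT.nd (nat_lit 78) (nat_lit 76) (nat_lit 0) (XT.lf (nat_lit 0) (nat_lit 2766185761) (nat_lit 1368) (nat_lit 3879926562) (nat_lit 1444) (nat_lit 795163743) (nat_lit 588) (nat_lit 5) (nat_lit 606) (nat_lit 5) (nat_lit 607) (nat_lit 5) (nat_lit 555) (nat_lit 528) (nat_lit 477)) (XT.lf (nat_lit 0) (nat_lit 1353796455) (nat_lit 1444) (nat_lit 234474028) (nat_lit 76) (nat_lit 5903793177) (nat_lit 587) (nat_lit 5) (nat_lit 606) (nat_lit 5) (nat_lit 588) (nat_lit 5) (nat_lit 556) (nat_lit 528) (nat_lit 476))))) (XT.nd (nat_lit 156) (nat_lit 1672) (nat_lit 0) (XT.nd (nat_lit 78) (nat_lit 1520) (nat_lit 0) (XT.lf (nat_lit 0) (nat_lit 3525768753) (nat_lit 1520) (nat_lit 3237801056) (nat_lit 76) (nat_lit 780383140) (nat_lit 568) (nat_lit 5) (nat_lit 588) (nat_lit 5) (nat_lit 569) (nat_lit 5) (nat_lit 557) (nat_lit 528) (nat_lit 475)) (XT.lf (nat_lit 0) (nat_lit 1315135788) (nat_lit 1520) (nat_lit 4404884039) (nat_lit 1596) (nat_lit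 1877287985) (nat_lit 548) (nat_lit 5) (nat_lit 568) (nat_lit 5) (nat_lit 569) (nat_lit 5) (nat_lit 558) (nat_lit 528) (nat_lit 474))) (XT.nd (nat_lit 78) (nat_lit 1596) (nat_lit 0) (XT.lf (nat_lit 0) (nat_lit 282790234) (nat_lit 1596) (nat_lit 1686234021) (nat_lit 76) (nat_lit 5683062466) (nat_lit 547) (nat_lit 5) (nat_lit 568) (nat_lit 5) (nat_lit 548) (nat_lit 5) (nat_lit 559) (nat_lit 528) (nat_lit 473)) (XT.nd (nat_lit 78) (nat_lit 0) (nat_lit 0) (XT.lf (nat_lit 0) (nat_lit 2443310848) (nat_lit 1672) (nat_lit 4718411232) (nat_lit 76) (nat_lit 546347707) (nat_lit 526) (nat_lit 5) (nat_lit 548) (nat_lit 5) (nat_lit 527) (nat_lit 5) (nat_lit 560) (nat_lit 528) (nat_lit 472)) (XT.lf (nat_lit 0) (nat_lit 4631402238) (nat_lit 1672) (nat_lit 31867297) (nat_lit 76) (nat_lit 3102219999) (nat_lit 526) (nat_lit 5) (nat_lit 548) (nat_lit 5) (nat_lit 527) (nat_lit 5) (nat_lit 561) (nat_lit 528) (nat_lit 471)))))) (XT.nd (nat_lit 390) (nat_lit 2812) (nat_lit 0) (XT.nd (nat_lit 156)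 (nat_lit 2888) (nat_lit 0) (XT.nd (nat_lit 78) (nat_lit 1824) (nat_lit 0) (XT.lf (nat_lit 0) (nat_lit 4776013844) (nat_lit 1672) (nat_lit 2078966359) (nat_lit 1748) (nat_lit 969247120) (nat_lit 504) (nat_lit 5) (nat_lit 526) (nat_lit 5) (nat_lit 527) (nat_lit 5) (nat_lit 562) (nat_lit 528) (nat_lit 470)) (XT.lf (nat_lit 0) (nat_lit 1199160586) (nat_lit 1824) (nat_lit 6112023235) (nat_lit 76) (nat_lit 573268778) (nat_lit 480) (nat_lit 5) (nat_lit 504) (nat_lit 5) (nat_lit 481) (nat_lit 5) (nat_lit 563) (nat_lit 528) (nat_lit 469))) (XT.nd (nat_lit 78) (nat_lit 2888) (nat_lit 0) (XT.lf (nat_lit 0) (nat_lit 3393887165) (nat_lit 1824) (nat_lit 1270877621) (nat_lit 76) (nat_lit 3281074785) (nat_lit 480) (nat_lit 5) (nat_lit 504) (nat_lit 5) (nat_lit 481) (nat_lit 5) (nat_lit 564) (nat_lit 528) (nat_lit 468)) (XT.nd (nat_lit 78) (nat_lit 1064) (nat_lit 0) (XT.lf (nat_lit 0) (nat_lit 3680174270) (nat_lit 1824) (nat_lit 1938540132) (nat_lit 1900) (nat_lit 2390019585) (nat_lit 456)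 (nat_lit 5) (nat_lit 480) (nat_lit 5) (nat_lit 481) (nat_lit 5) (nat_lit 565) (nat_lit 528) (nat_lit 467)) (XT.lf (nat_lit 0) (nat_lit 641940021) (nat_lit 1064) (nat_lit 7227157471) (nat_lit 1140) (nat_lit 204171366) (nat_lit 442) (nat_lit 5) (nat_lit 456) (nat_lit 5) (nat_lit 457) (nat_lit 5) (nat_lit 566) (nat_lit 528) (nat_lit 466))))) (XT.nd (nat_lit 234) (nat_lit 1824) (nat_lit 0) (XT.nd (nat_lit 78) (nat_lit 912) (nat_lit 0) (XT.lf (nat_lit 0) (nat_lit 2003998072) (nat_lit 1140) (nat_lit 2430141740) (nat_lit 76) (nat_lit 3704591865) (nat_lit 441) (nat_lit 5) (nat_lit 456) (nat_lit 5) (nat_lit 442) (nat_lit 5) (nat_lit 567) (nat_lit 528) (nat_lit 465)) (XT.nd (nat_lit 78) (nat_lit 0) (nat_lit 0) (XT.lf (nat_lit 0) (nat_lit 2669460568) (nat_lit 912) (nat_lit 1565285027) (nat_lit 988) (nat_lit 3971111732) (nat_lit 429) (nat_lit 5) (nat_lit 441) (nat_lit 5) (nat_lit 442) (nat_lit 5) (nat_lit 568) (nat_lit 528) (nat_lit 464)) (XT.lf (nat_lit 0) (nat_lit 6499660254) (nat_lit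 988) (nat_lit 414704099) (nat_lit 76) (nat_lit 1360173560) (nat_lit 429) (nat_lit 5) (nat_lit 442) (nat_lit 5) (nat_lit 430) (nat_lit 5) (nat_lit 569) (nat_lit 528) (nat_lit 463)))) (XT.nd (nat_lit 78) (nat_lit 836) (nat_lit 0) (XT.lf (nat_lit 0) (nat_lit 465928638) (nat_lit 988) (nat_lit 3520214920) (nat_lit 76) (nat_lit 4358256471) (nat_lit 416) (nat_lit 5) (nat_lit 429) (nat_lit 5) (nat_lit 417) (nat_lit 5) (nat_lit 570) (nat_lit 528) (nat_lit 462)) (XT.nd (nat_lit 78) (nat_lit 0) (nat_lit 0) (XT.lf (nat_lit 0) (nat_lit 1733542585) (nat_lit 836) (nat_lit 973550311) (nat_lit 912) (nat_lit 5708748971) (nat_lit 405) (nat_lit 5) (nat_lit 416) (nat_lit 5) (nat_lit 417) (nat_lit 5) (nat_lit 571) (nat_lit 528) (nat_lit 461)) (XT.lf (nat_lit 0) (nat_lit 4996167361) (nat_lit 912) (nat_lit 1397676774) (nat_lit 76) (nat_lit 2094809871) (nat_lit 405) (nat_lit 5) (nat_lit 417) (nat_lit 5) (nat_lit 406) (nat_lit 5) (nat_lit 572) (nat_lit 528) (nat_lit 460))))))))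
noncomputable def xc89 : XT := (XT.nd (nat_lit 1560) (nat_lit 7448) (nat_lit 0) (XT.nd (nat_lit 780) (nat_lit 4028) (nat_lit 0) (XT.nd (nat_lit 390) (nat_lit 2356) (nat_lit 0) (XT.nd (nat_lit 156) (nat_lit 1596) (nat_lit 0) (XT.nd (nat_lit 78) (nat_lit 912) (nat_lit 0) (XT.lf (nat_lit 0) (nat_lit 4003657449) (nat_lit 836) (nat_lit 3326158569) (nat_lit 912) (nat_lit 1233133656) (nat_lit 394) (nat_lit 5) (nat_lit 405) (nat_lit 5) (nat_lit 406) (nat_lit 5) (nat_lit 573) (nat_lit 528) (nat_lit 459)) (XT.lf (nat_lit 0) (nat_lit 862454487) (nat_lit 836) (nat_lit 176502815) (nat_lit 912) (nat_lit 7600005794) (nat_lit 382) (nat_lit 5) (nat_lit 393) (nat_lit 5) (nat_lit 394) (nat_lit 5) (nat_lit 574) (nat_lit 528) (nat_lit 458))) (XT.nd (nat_lit 78) (nat_lit 1596) (nat_lit 0) (XT.lf (nat_lit 0) (nat_lit 3357481249) (nat_lit 912) (nat_lit 2325205103) (nat_lit 76) (nat_lit 3033300318) (nat_lit 382) (nat_lit 5) (nat_lit 394) (nat_lit 5) (nat_lit 383) (nat_lit 5) (nat_lit 575) (nat_lit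 528) (nat_lit 457)) (XT.nd (nat_lit 78) (nat_lit 760) (nat_lit 0) (XT.lf (nat_lit 0) (nat_lit 3241490843) (nat_lit 836) (nat_lit 2470723994) (nat_lit 912) (nat_lit 3082541995) (nat_lit 371) (nat_lit 5) (nat_lit 382) (nat_lit 5) (nat_lit 383) (nat_lit 5) (nat_lit 576) (nat_lit 528) (nat_lit 456)) (XT.lf (nat_lit 0) (nat_lit 36017010) (nat_lit 760) (nat_lit 8067211833) (nat_lit 836) (nat_lit 772092684) (nat_lit 361) (nat_lit 5) (nat_lit 371) (nat_lit 5) (nat_lit 372) (nat_lit 5) (nat_lit 577) (nat_lit 528) (nat_lit 455))))) (XT.nd (nat_lit 156) (nat_lit 1520) (nat_lit 0) (XT.nd (nat_lit 78) (nat_lit 760) (nat_lit 0) (XT.lf (nat_lit 0) (nat_lit 1585860883) (nat_lit 836) (nat_lit 3206851882) (nat_lit 76) (nat_lit 4164140181) (nat_lit 360) (nat_lit 5) (nat_lit 371) (nat_lit 5) (nat_lit 361) (nat_lit 5) (nat_lit 578) (nat_lit 528) (nat_lit 454)) (XT.lf (nat_lit 0) (nat_lit 2531470564) (nat_lit 760) (nat_lit 1434436362) (nat_lit 836) (nat_lit 5074303243) (nat_lit 350) (nat_lit 5)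 (nat_lit 360) (nat_lit 5) (nat_lit 361) (nat_lit 5) (nat_lit 579) (nat_lit 528) (nat_lit 453))) (XT.nd (nat_lit 78) (nat_lit 1520) (nat_lit 0) (XT.lf (nat_lit 0) (nat_lit 6397330441) (nat_lit 836) (nat_lit 745075141) (nat_lit 76) (nat_lit 1982756051) (nat_lit 350) (nat_lit 5) (nat_lit 361) (nat_lit 5) (nat_lit 351) (nat_lit 5) (nat_lit 580) (nat_lit 528) (nat_lit 452)) (XT.nd (nat_lit 78) (nat_lit 836) (nat_lit 0) (XT.lf (nat_lit 0) (nat_lit 5157464168) (nat_lit 684) (nat_lit 3732695125) (nat_lit 760) (nat_lit 321399871) (nat_lit 341) (nat_lit 5) (nat_lit 350) (nat_lit 5) (nat_lit 351) (nat_lit 5) (nat_lit 581) (nat_lit 528) (nat_lit 451)) (XT.lf (nat_lit 0) (nat_lit 1864424182) (nat_lit 760) (nat_lit 227858203) (nat_lit 836) (nat_lit 7207385759) (nat_lit 330) (nat_lit 5) (nat_lit 340) (nat_lit 5) (nat_lit 341) (nat_lit 5) (nat_lit 582) (nat_lit 528) (nat_lit 450)))))) (XT.nd (nat_lit 390) (nat_lit 1976) (nat_lit 0) (XT.nd (nat_lit 156) (nat_lit 1368) (nat_lit 0) (XT.nd (nat_lit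 78) (nat_lit 684) (nat_lit 0) (XT.lf (nat_lit 0) (nat_lit 4569350378) (nat_lit 836) (nat_lit 1491817861) (nat_lit 76) (nat_lit 3327942689) (nat_lit 330) (nat_lit 5) (nat_lit 341) (nat_lit 5) (nat_lit 331) (nat_lit 5) (nat_lit 583) (nat_lit 528) (nat_lit 449)) (XT.lf (nat_lit 0) (nat_lit 4594866886) (nat_lit 684) (nat_lit 2503312117) (nat_lit 760) (nat_lit 2382121559) (nat_lit 321) (nat_lit 5) (nat_lit 330) (nat_lit 5) (nat_lit 331) (nat_lit 5) (nat_lit 584) (nat_lit 528) (nat_lit 448))) (XT.nd (nat_lit 78) (nat_lit 608) (nat_lit 0) (XT.lf (nat_lit 0) (nat_lit 99404877) (nat_lit 760) (nat_lit 8349643414) (nat_lit 76) (nat_lit 1124324402) (nat_lit 311) (nat_lit 5) (nat_lit 321) (nat_lit 5) (nat_lit 312) (nat_lit 5) (nat_lit 585) (nat_lit 528) (nat_lit 447)) (XT.nd (nat_lit 78) (nat_lit 608) (nat_lit 0) (XT.lf (nat_lit 0) (nat_lit 2619616534) (nat_lit 760) (nat_lit 2213757945) (nat_lit 76) (nat_lit 4834200088) (nat_lit 311) (nat_lit 5) (nat_lit 321) (nat_lit 5) (nat_lit 312)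 (nat_lit 5) (nat_lit 586) (nat_lit 528) (nat_lit 446)) (XT.lf (nat_lit 0) (nat_lit 4063993065) (nat_lit 608) (nat_lit 1124529729) (nat_lit 684) (nat_lit 4575174076) (nat_lit 303) (nat_lit 5) (nat_lit 311) (nat_lit 5) (nat_lit 312) (nat_lit 5) (nat_lit 587) (nat_lit 528) (nat_lit 445))))) (XT.nd (nat_lit 156) (nat_lit 1216) (nat_lit 0) (XT.nd (nat_lit 78) (nat_lit 76) (nat_lit 0) (XT.lf (nat_lit 0) (nat_lit 591820484) (nat_lit 684) (nat_lit 7225238579) (nat_lit 760) (nat_lit 2044519673) (nat_lit 294) (nat_lit 5) (nat_lit 303) (nat_lit 5) (nat_lit 304) (nat_lit 5) (nat_lit 588) (nat_lit 528) (nat_lit 444)) (XT.lf (nat_lit 0) (nat_lit 547990582) (nat_lit 760) (nat_lit 2919990535) (nat_lit 76) (nat_lit 6493003851) (nat_lit 293) (nat_lit 5) (nat_lit 303) (nat_lit 5) (nat_lit 294) (nat_lit 5) (nat_lit 589) (nat_lit 528) (nat_lit 443))) (XT.nd (nat_lit 78) (nat_lit 608) (nat_lit 0) (XT.lf (nat_lit 0) (nat_lit 3163528996) (nat_lit 684) (nat_lit 6508795992) (nat_lit 76) (nat_lit 389815000)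 (nat_lit 285) (nat_lit 5) (nat_lit 294) (nat_lit 5) (nat_lit 286) (nat_lit 5) (nat_lit 590) (nat_lit 528) (nat_lit 442)) (XT.nd (nat_lit 78) (nat_lit 608) (nat_lit 0) (XT.lf (nat_lit 0) (nat_lit 5847214114) (nat_lit 684) (nat_lit 26476617) (nat_lit 76) (nat_lit 4291312650) (nat_lit 285) (nat_lit 5) (nat_lit 294) (nat_lit 5) (nat_lit 286) (nat_lit 5) (nat_lit 591) (nat_lit 528) (nat_lit 441)) (XT.lf (nat_lit 0) (nat_lit 6639051367) (nat_lit 608) (nat_lit 1962298000) (nat_lit 684) (nat_lit 1668241098) (nat_lit 277) (nat_lit 5) (nat_lit 285) (nat_lit 5) (nat_lit 286) (nat_lit 5) (nat_lit 592) (nat_lit 528) (nat_lit 440))))))) (XT.nd (nat_lit 780) (nat_lit 3420) (nat_lit 0) (XT.nd (nat_lit 390) (nat_lit 2128) (nat_lit 0) (XT.nd (nat_lit 156) (nat_lit 1216) (nat_lit 0) (XT.nd (nat_lit 78) (nat_lit 0) (nat_lit 0) (XT.lf (nat_lit 0) (nat_lit 1027879900) (nat_lit 684) (nat_lit 7327768898) (nat_lit 76) (nat_lit 2020345127) (nat_lit 268) (nat_lit 5) (nat_lit 277) (nat_lit 5) (nat_lit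 269) (nat_lit 5) (nat_lit 593) (nat_lit 528) (nat_lit 439)) (XT.lf (nat_lit 0) (nat_lit 3767171160) (nat_lit 684) (nat_lit 632355133) (nat_lit 76) (nat_lit 6084548746) (nat_lit 268) (nat_lit 5) (nat_lit 277) (nat_lit 5) (nat_lit 269) (nat_lit 5) (nat_lit 594) (nat_lit 528) (nat_lit 438))) (XT.nd (nat_lit 78) (nat_lit 608) (nat_lit 0) (XT.lf (nat_lit 0) (nat_lit 6245654656) (nat_lit 608) (nat_lit 330698625) (nat_lit 684) (nat_lit 4017664198) (nat_lit 260) (nat_lit 5) (nat_lit 268) (nat_lit 5) (nat_lit 269) (nat_lit 5) (nat_lit 595) (nat_lit 528) (nat_lit 437)) (XT.nd (nat_lit 78) (nat_lit 76) (nat_lit 0) (XT.lf (nat_lit 0) (nat_lit 2538730923) (nat_lit 532) (nat_lit 6923329355) (nat_lit 608) (nat_lit 1243693434) (nat_lit 253) (nat_lit 5) (nat_lit 260) (nat_lit 5) (nat_lit 261) (nat_lit 5) (nat_lit 596) (nat_lit 528) (nat_lit 436)) (XT.lf (nat_lit 0) (nat_lit 1571421873) (nat_lit 608) (nat_lit 1242886152) (nat_lit 76) (nat_lit 8005083174) (nat_lit 252) (nat_lit 5) (nat_lit 260)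 (nat_lit 5) (nat_lit 253) (nat_lit 5) (nat_lit 597) (nat_lit 528) (nat_lit 435))))) (XT.nd (nat_lit 156) (nat_lit 1064) (nat_lit 0) (XT.nd (nat_lit 78) (nat_lit 532) (nat_lit 0) (XT.lf (nat_lit 0) (nat_lit 4448802716) (nat_lit 608) (nat_lit 5088688556) (nat_lit 76) (nat_lit 1397195090) (nat_lit 245) (nat_lit 5) (nat_lit 253) (nat_lit 5) (nat_lit 246) (nat_lit 5) (nat_lit 598) (nat_lit 528) (nat_lit 434)) (XT.lf (nat_lit 0) (nat_lit 2015998691) (nat_lit 532) (nat_lit 5383462721) (nat_lit 608) (nat_lit 3652513045) (nat_lit 238) (nat_lit 5) (nat_lit 245) (nat_lit 5) (nat_lit 246) (nat_lit 5) (nat_lit 599) (nat_lit 528) (nat_lit 433))) (XT.nd (nat_lit 78) (nat_lit 1064) (nat_lit 0) (XT.lf (nat_lit 0) (nat_lit 9298841257) (nat_lit 532) (nat_lit 1120311948) (nat_lit 608) (nat_lit 752256311) (nat_lit 238) (nat_lit 5) (nat_lit 245) (nat_lit 5) (nat_lit 246) (nat_lit 5) (nat_lit 600) (nat_lit 528) (nat_lit 432)) (XT.nd (nat_lit 78) (nat_lit 456) (nat_lit 0) (XT.lf (nat_lit 0) (nat_lit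 2209934068) (nat_lit 608) (nat_lit 5855159322) (nat_lit 76) (nat_lit 3227197757) (nat_lit 230) (nat_lit 5) (nat_lit 238) (nat_lit 5) (nat_lit 231) (nat_lit 5) (nat_lit 601) (nat_lit 528) (nat_lit 431)) (XT.lf (nat_lit 0) (nat_lit 1477168493) (nat_lit 456) (nat_lit 3750182142) (nat_lit 532) (nat_lit 6188020734) (nat_lit 224) (nat_lit 5) (nat_lit 230) (nat_lit 5) (nat_lit 231) (nat_lit 5) (nat_lit 602) (nat_lit 528) (nat_lit 430)))))) (XT.nd (nat_lit 390) (nat_lit 1900) (nat_lit 0) (XT.nd (nat_lit 156) (nat_lit 988) (nat_lit 0) (XT.nd (nat_lit 78) (nat_lit 532) (nat_lit 0) (XT.lf (nat_lit 0) (nat_lit 8325472039) (nat_lit 532) (nat_lit 2542087048) (nat_lit 76) (nat_lit 672948458) (nat_lit 224) (nat_lit 5) (nat_lit 231) (nat_lit 5) (nat_lit 225) (nat_lit 5) (nat_lit 603) (nat_lit 528) (nat_lit 429)) (XT.lf (nat_lit 0) (nat_lit 5010492037) (nat_lit 532) (nat_lit 6509468360) (nat_lit 608) (nat_lit 147499408) (nat_lit 217) (nat_lit 5) (nat_lit 224) (nat_lit 5) (nat_lit 225) (nat_lit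 5) (nat_lit 604) (nat_lit 528) (nat_lit 428))) (XT.nd (nat_lit 78) (nat_lit 456) (nat_lit 0) (XT.lf (nat_lit 0) (nat_lit 912033253) (nat_lit 456) (nat_lit 2030473214) (nat_lit 532) (nat_lit 8854054484) (nat_lit 210) (nat_lit 5) (nat_lit 216) (nat_lit 5) (nat_lit 217) (nat_lit 5) (nat_lit 605) (nat_lit 528) (nat_lit 427)) (XT.nd (nat_lit 78) (nat_lit 456) (nat_lit 0) (XT.lf (nat_lit 0) (nat_lit 6131090274) (nat_lit 532) (nat_lit 3255059142) (nat_lit 76) (nat_lit 2541301515) (nat_lit 210) (nat_lit 5) (nat_lit 217) (nat_lit 5) (nat_lit 211) (nat_lit 5) (nat_lit 606) (nat_lit 528) (nat_lit 426)) (XT.lf (nat_lit 0) (nat_lit 4541141193) (nat_lit 456) (nat_lit 4862984866) (nat_lit 532) (nat_lit 2656420386) (nat_lit 204) (nat_lit 5) (nat_lit 210) (nat_lit 5) (nat_lit 211) (nat_lit 5) (nat_lit 607) (nat_lit 528) (nat_lit 425))))) (XT.nd (nat_lit 234) (nat_lit 912) (nat_lit 0) (XT.nd (nat_lit 78) (nat_lit 456) (nat_lit 0) (XT.lf (nat_lit 0) (nat_lit 309839394) (nat_lit 456) (nat_lit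 231146050) (nat_lit 532) (nat_lit 11655212136) (nat_lit 197) (nat_lit 5) (nat_lit 203) (nat_lit 5) (nat_lit 204) (nat_lit 5) (nat_lit 608) (nat_lit 528) (nat_lit 424)) (XT.nd (nat_lit 78) (nat_lit 456) (nat_lit 0) (XT.lf (nat_lit 0) (nat_lit 3824766116) (nat_lit 532) (nat_lit 4015275205) (nat_lit 76) (nat_lit 4493010576) (nat_lit 197) (nat_lit 5) (nat_lit 204) (nat_lit 5) (nat_lit 198) (nat_lit 5) (nat_lit 609) (nat_lit 528) (nat_lit 423)) (XT.lf (nat_lit 0) (nat_lit 4033004926) (nat_lit 456) (nat_lit 3147360574) (nat_lit 532) (nat_lit 5292156178) (nat_lit 191) (nat_lit 5) (nat_lit 197) (nat_lit 5) (nat_lit 198) (nat_lit 5) (nat_lit 610) (nat_lit 528) (nat_lit 422)))) (XT.nd (nat_lit 78) (nat_lit 912) (nat_lit 0) (XT.lf (nat_lit 0) (nat_lit 10619424073) (nat_lit 532) (nat_lit 360126932) (nat_lit 76) (nat_lit 1634904118) (nat_lit 191) (nat_lit 5) (nat_lit 198) (nat_lit 5) (nat_lit 192) (nat_lit 5) (nat_lit 611) (nat_lit 528) (nat_lit 421)) (XT.nd (nat_lit 78) (nat_lit 456)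 (nat_lit 0) (XT.lf (nat_lit 0) (nat_lit 1401784228) (nat_lit 456) (nat_lit 4834494946) (nat_lit 76) (nat_lit 6521737792) (nat_lit 185) (nat_lit 5) (nat_lit 191) (nat_lit 5) (nat_lit 186) (nat_lit 5) (nat_lit 612) (nat_lit 528) (nat_lit 420)) (XT.lf (nat_lit 0) (nat_lit 3474469215) (nat_lit 456) (nat_lit 1369443017) (nat_lit 532) (nat_lit 8060193417) (nat_lit 179) (nat_lit 5) (nat_lit 185) (nat_lit 5) (nat_lit 186) (nat_lit 5) (nat_lit 613) (nat_lit 528) (nat_lit 419))))))))
noncomputable def xc90 : XT := (XT.nd (nat_lit 75582) (nat_lit 0) (nat_lit 26372) (XT.nd (nat_lit 74802) (nat_lit 0) (nat_lit 40812) (XT.nd (nat_lit 390) (nat_lit 456) (nat_lit 0) (XT.nd (nat_lit 156) (nat_lit 836) (nat_lit 0) (XT.nd (nat_lit 78) (nat_lit 380) (nat_lit 0) (XT.lf (nat_lit 0) (nat_lit 8390095151) (nat_lit 532) (nat_lit 1092214311) (nat_lit 76) (nat_lit 3570103519) (nat_lit 179) (nat_lit 5) (nat_lit 186) (nat_lit 5) (nat_lit 180) (nat_lit 5) (nat_lit 614) (nat_lit 528) (nat_lit 418)) (XT.lf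 (nat_lit 0) (nat_lit 7470135404) (nat_lit 380) (nat_lit 4574260212) (nat_lit 456) (nat_lit 1158548065) (nat_lit 174) (nat_lit 5) (nat_lit 179) (nat_lit 5) (nat_lit 180) (nat_lit 5) (nat_lit 615) (nat_lit 528) (nat_lit 417))) (XT.nd (nat_lit 78) (nat_lit 380) (nat_lit 0) (XT.lf (nat_lit 0) (nat_lit 2392224280) (nat_lit 456) (nat_lit 10505977532) (nat_lit 76) (nat_lit 457798520) (nat_lit 168) (nat_lit 5) (nat_lit 174) (nat_lit 5) (nat_lit 169) (nat_lit 5) (nat_lit 616) (nat_lit 528) (nat_lit 416)) (XT.nd (nat_lit 78) (nat_lit 380) (nat_lit 0) (XT.lf (nat_lit 0) (nat_lit 6047353585) (nat_lit 456) (nat_lit 1898274175) (nat_lit 76) (nat_lit 5565361142) (nat_lit 168) (nat_lit 5) (nat_lit 174) (nat_lit 5) (nat_lit 169) (nat_lit 5) (nat_lit 617) (nat_lit 528) (nat_lit 415)) (XT.lf (nat_lit 0) (nat_lit 6942314022) (nat_lit 380) (nat_lit 2858563134) (nat_lit 456) (nat_lit 3867695270) (nat_lit 163) (nat_lit 5) (nat_lit 168) (nat_lit 5) (nat_lit 169) (nat_lit 5) (nat_lit 618) (nat_lit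 528) (nat_lit 414))))) (XT.nd (nat_lit 74178) (nat_lit 0) (nat_lit 43244) (XT.nd (nat_lit 78) (nat_lit 76) (nat_lit 0) (XT.lf (nat_lit 0) (nat_lit 2138785562) (nat_lit 380) (nat_lit 11512865860) (nat_lit 456) (nat_lit 177213590) (nat_lit 158) (nat_lit 5) (nat_lit 163) (nat_lit 5) (nat_lit 164) (nat_lit 5) (nat_lit 619) (nat_lit 528) (nat_lit 413)) (XT.lf (nat_lit 0) (nat_lit 3584799831) (nat_lit 456) (nat_lit 2792178614) (nat_lit 76) (nat_lit 7614024822) (nat_lit 157) (nat_lit 5) (nat_lit 163) (nat_lit 5) (nat_lit 158) (nat_lit 5) (nat_lit 620) (nat_lit 528) (nat_lit 412))) (XT.nd (nat_lit 78) (nat_lit 684) (nat_lit 0) (XT.lf (nat_lit 0) (nat_lit 2448349122) (nat_lit 684) (nat_lit 424941547) (nat_lit 684) (nat_lit 424941547) (nat_lit 735) (nat_lit 3) (nat_lit 744) (nat_lit 3) (nat_lit 744) (nat_lit 5) (nat_lit 529) (nat_lit 529) (nat_lit 502)) (XT.nd (nat_lit 78) (nat_lit 0) (nat_lit 0) (XT.lf (nat_lit 0) (nat_lit 712404694) (nat_lit 684) (nat_lit 4169257020) (nat_lit 760)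 (nat_lit 1732515276) (nat_lit 726) (nat_lit 5) (nat_lit 735) (nat_lit 3) (nat_lit 736) (nat_lit 5) (nat_lit 530) (nat_lit 529) (nat_lit 501)) (XT.lf (nat_lit 0) (nat_lit 3092903525) (nat_lit 684) (nat_lit 859322450) (nat_lit 760) (nat_lit 2680945194) (nat_lit 726) (nat_lit 5) (nat_lit 735) (nat_lit 3) (nat_lit 736) (nat_lit 5) (nat_lit 531) (nat_lit 529) (nat_lit 500)))))) (XT.nd (nat_lit 390) (nat_lit 912) (nat_lit 0) (XT.nd (nat_lit 156) (nat_lit 760) (nat_lit 0) (XT.nd (nat_lit 78) (nat_lit 760) (nat_lit 0) (XT.lf (nat_lit 76) (nat_lit 2517437549) (nat_lit 0) (nat_lit 2958235528) (nat_lit 760) (nat_lit 1177787733) (nat_lit 727) (nat_lit 5) (nat_lit 726) (nat_lit 5) (nat_lit 736) (nat_lit 5) (nat_lit 532) (nat_lit 529) (nat_lit 499)) (XT.lf (nat_lit 0) (nat_lit 1160495396) (nat_lit 760) (nat_lit 741693771) (nat_lit 836) (nat_lit 4772921343) (nat_lit 716) (nat_lit 5) (nat_lit 726) (nat_lit 5) (nat_lit 727) (nat_lit 5) (nat_lit 533) (nat_lit 529) (nat_lit 498))) (XT.nd (nat_lit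 78) (nat_lit 760) (nat_lit 0) (XT.lf (nat_lit 76) (nat_lit 2715992955) (nat_lit 0) (nat_lit 771533410) (nat_lit 836) (nat_lit 3210364366) (nat_lit 717) (nat_lit 5) (nat_lit 716) (nat_lit 5) (nat_lit 727) (nat_lit 5) (nat_lit 534) (nat_lit 529) (nat_lit 497)) (XT.nd (nat_lit 78) (nat_lit 836) (nat_lit 0) (XT.lf (nat_lit 0) (nat_lit 5809830268) (nat_lit 760) (nat_lit 504149213) (nat_lit 836) (nat_lit 408180554) (nat_lit 717) (nat_lit 5) (nat_lit 727) (nat_lit 5) (nat_lit 728) (nat_lit 5) (nat_lit 535) (nat_lit 529) (nat_lit 496)) (XT.lf (nat_lit 0) (nat_lit 1379940768) (nat_lit 836) (nat_lit 3711514520) (nat_lit 912) (nat_lit 1655940302) (nat_lit 706) (nat_lit 5) (nat_lit 717) (nat_lit 5) (nat_lit 718) (nat_lit 5) (nat_lit 536) (nat_lit 529) (nat_lit 495))))) (XT.nd (nat_lit 156) (nat_lit 912) (nat_lit 0) (XT.nd (nat_lit 78) (nat_lit 0) (nat_lit 0) (XT.lf (nat_lit 0) (nat_lit 3652187907) (nat_lit 836) (nat_lit 158977908) (nat_lit 912) (nat_lit 2962930142) (nat_lit 706) (nat_lit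 5) (nat_lit 717) (nat_lit 5) (nat_lit 718) (nat_lit 5) (nat_lit 537) (nat_lit 529) (nat_lit 494)) (XT.lf (nat_lit 76) (nat_lit 3477480726) (nat_lit 0) (nat_lit 2459026742) (nat_lit 912) (nat_lit 865497819) (nat_lit 707) (nat_lit 5) (nat_lit 706) (nat_lit 5) (nat_lit 718) (nat_lit 5) (nat_lit 538) (nat_lit 529) (nat_lit 493))) (XT.nd (nat_lit 78) (nat_lit 0) (nat_lit 76) (XT.lf (nat_lit 76) (nat_lit 319972698) (nat_lit 0) (nat_lit 1044948716) (nat_lit 988) (nat_lit 5466417835) (nat_lit 695) (nat_lit 5) (nat_lit 694) (nat_lit 5) (nat_lit 707) (nat_lit 5) (nat_lit 539) (nat_lit 529) (nat_lit 492)) (XT.nd (nat_lit 78) (nat_lit 0) (nat_lit 0) (XT.lf (nat_lit 0) (nat_lit 3598983667) (nat_lit 912) (nat_lit 2821133044) (nat_lit 988) (nat_lit 441623360) (nat_lit 695) (nat_lit 5) (nat_lit 707) (nat_lit 5) (nat_lit 708) (nat_lit 5) (nat_lit 540) (nat_lit 529) (nat_lit 491)) (XT.lf (nat_lit 76) (nat_lit 914364967) (nat_lit 0) (nat_lit 4922861705) (nat_lit 988) (nat_lit 1056339181) (nat_lit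 696) (nat_lit 5) (nat_lit 695) (nat_lit 5) (nat_lit 708) (nat_lit 5) (nat_lit 541) (nat_lit 529) (nat_lit 490))))))) (XT.nd (nat_lit 780) (nat_lit 10336) (nat_lit 0) (XT.nd (nat_lit 390) (nat_lit 2204) (nat_lit 0) (XT.nd (nat_lit 156) (nat_lit 988) (nat_lit 0) (XT.nd (nat_lit 78) (nat_lit 0) (nat_lit 0) (XT.lf (nat_lit 0) (nat_lit 1144718319) (nat_lit 988) (nat_lit 2204814687) (nat_lit 1064) (nat_lit 3577023253) (nat_lit 682) (nat_lit 5) (nat_lit 695) (nat_lit 5) (nat_lit 696) (nat_lit 5) (nat_lit 542) (nat_lit 529) (nat_lit 489)) (XT.lf (nat_lit 76) (nat_lit 1625956609) (nat_lit 0) (nat_lit 1708420407) (nat_lit 1064) (nat_lit 3626521856) (nat_lit 683) (nat_lit 5) (nat_lit 682) (nat_lit 5) (nat_lit 696) (nat_lit 5) (nat_lit 543) (nat_lit 529) (nat_lit 488))) (XT.nd (nat_lit 78) (nat_lit 988) (nat_lit 0) (XT.lf (nat_lit 76) (nat_lit 5530018405) (nat_lit 0) (nat_lit 1561312) (nat_lit 1064) (nat_lit 1465080009) (nat_lit 683) (nat_lit 5) (nat_lit 682) (nat_lit 5) (nat_lit 696)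 (nat_lit 5) (nat_lit 544) (nat_lit 529) (nat_lit 487)) (XT.nd (nat_lit 78) (nat_lit 0) (nat_lit 0) (XT.lf (nat_lit 0) (nat_lit 707111599) (nat_lit 1064) (nat_lit 4571848491) (nat_lit 1140) (nat_lit 1754541410) (nat_lit 669) (nat_lit 5) (nat_lit 683) (nat_lit 5) (nat_lit 684) (nat_lit 5) (nat_lit 545) (nat_lit 529) (nat_lit 486)) (XT.lf (nat_lit 0) (nat_lit 2863565248) (nat_lit 1064) (nat_lit 626390876) (nat_lit 1140) (nat_lit 3581727626) (nat_lit 669) (nat_lit 5) (nat_lit 683) (nat_lit 5) (nat_lit 684) (nat_lit 5) (nat_lit 546) (nat_lit 529) (nat_lit 485))))) (XT.nd (nat_lit 156) (nat_lit 1140) (nat_lit 0) (XT.nd (nat_lit 78) (nat_lit 1064) (nat_lit 0) (XT.lf (nat_lit 76) (nat_lit 3409234192) (nat_lit 0) (nat_lit 1627519218) (nat_lit 1140) (nat_lit 2074410045) (nat_lit 670) (nat_lit 5) (nat_lit 669) (nat_lit 5) (nat_lit 684) (nat_lit 5) (nat_lit 547) (nat_lit 529) (nat_lit 484)) (XT.lf (nat_lit 0) (nat_lit 60947930) (nat_lit 1140) (nat_lit 6801392912) (nat_lit 76) (nat_lit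 289878103) (nat_lit 655) (nat_lit 5) (nat_lit 670) (nat_lit 5) (nat_lit 656) (nat_lit 5) (nat_lit 548) (nat_lit 529) (nat_lit 483))) (XT.nd (nat_lit 78) (nat_lit 1140) (nat_lit 0) (XT.lf (nat_lit 0) (nat_lit 2199745436) (nat_lit 1140) (nat_lit 2718161379) (nat_lit 76) (nat_lit 2276149895) (nat_lit 655) (nat_lit 5) (nat_lit 670) (nat_lit 5) (nat_lit 656) (nat_lit 5) (nat_lit 549) (nat_lit 529) (nat_lit 482)) (XT.nd (nat_lit 78) (nat_lit 0) (nat_lit 0) (XT.lf (nat_lit 0) (nat_lit 1431490281) (nat_lit 1140) (nat_lit 2912748359) (nat_lit 1216) (nat_lit 2893239664) (nat_lit 640) (nat_lit 5) (nat_lit 655) (nat_lit 5) (nat_lit 656) (nat_lit 5) (nat_lit 550) (nat_lit 529) (nat_lit 481)) (XT.lf (nat_lit 0) (nat_lit 5667185420) (nat_lit 1140) (nat_lit 836992027) (nat_lit 1216) (nat_lit 778145126) (nat_lit 640) (nat_lit 5) (nat_lit 655) (nat_lit 5) (nat_lit 656) (nat_lit 5) (nat_lit 551) (nat_lit 529) (nat_lit 480)))))) (XT.nd (nat_lit 390) (nat_lit 6308) (nat_lit 0) (XT.nd (nat_lit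 156) (nat_lit 2736) (nat_lit 0) (XT.nd (nat_lit 78) (nat_lit 0) (nat_lit 0) (XT.lf (nat_lit 0) (nat_lit 1341847100) (nat_lit 1292) (nat_lit 4685391282) (nat_lit 76) (nat_lit 1301037700) (nat_lit 623) (nat_lit 5) (nat_lit 640) (nat_lit 5) (nat_lit 624) (nat_lit 5) (nat_lit 552) (nat_lit 529) (nat_lit 479)) (XT.lf (nat_lit 0) (nat_lit 3465929520) (nat_lit 1292) (nat_lit 412218234) (nat_lit 76) (nat_lit 3497460893) (nat_lit 623) (nat_lit 5) (nat_lit 640) (nat_lit 5) (nat_lit 624) (nat_lit 5) (nat_lit 553) (nat_lit 529) (nat_lit 478))) (XT.nd (nat_lit 78) (nat_lit 1444) (nat_lit 0) (XT.lf (nat_lit 0) (nat_lit 3964611839) (nat_lit 1292) (nat_lit 1650139091) (nat_lit 1368) (nat_lit 1809496738) (nat_lit 606) (nat_lit 5) (nat_lit 623) (nat_lit 5) (nat_lit 624) (nat_lit 5) (nat_lit 554) (nat_lit 529) (nat_lit 477)) (XT.nd (nat_lit 78) (nat_lit 0) (nat_lit 0) (XT.lf (nat_lit 0) (nat_lit 298227312) (nat_lit 1444) (nat_lit 6541968821) (nat_lit 76) (nat_lit 634226869) (nat_lit 587) (nat_lit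 5) (nat_lit 606) (nat_lit 5) (nat_lit 588) (nat_lit 5) (nat_lit 555) (nat_lit 529) (nat_lit 476)) (XT.lf (nat_lit 0) (nat_lit 2415740820) (nat_lit 1444) (nat_lit 2123765052) (nat_lit 76) (nat_lit 2986024139) (nat_lit 587) (nat_lit 5) (nat_lit 606) (nat_lit 5) (nat_lit 588) (nat_lit 5) (nat_lit 556) (nat_lit 529) (nat_lit 475))))) (XT.nd (nat_lit 234) (nat_lit 3268) (nat_lit 0) (XT.nd (nat_lit 78) (nat_lit 1596) (nat_lit 0) (XT.lf (nat_lit 0) (nat_lit 2379853674) (nat_lit 1444) (nat_lit 2169578680) (nat_lit 1520) (nat_lit 3028754827) (nat_lit 568) (nat_lit 5) (nat_lit 587) (nat_lit 5) (nat_lit 588) (nat_lit 5) (nat_lit 557) (nat_lit 529) (nat_lit 474)) (XT.nd (nat_lit 78) (nat_lit 1596) (nat_lit 0) (XT.lf (nat_lit 0) (nat_lit 6700770244) (nat_lit 1520) (nat_lit 665790079) (nat_lit 76) (nat_lit 265842204) (nat_lit 568) (nat_lit 5) (nat_lit 588) (nat_lit 5) (nat_lit 569) (nat_lit 5) (nat_lit 558) (nat_lit 529) (nat_lit 473)) (XT.lf (nat_lit 0) (nat_lit 1191498233) (nat_lit 1596)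 (nat_lit 3734688910) (nat_lit 76) (nat_lit 2761364537) (nat_lit 547) (nat_lit 5) (nat_lit 568) (nat_lit 5) (nat_lit 548) (nat_lit 5) (nat_lit 559) (nat_lit 529) (nat_lit 472)))) (XT.nd (nat_lit 78) (nat_lit 1672) (nat_lit 0) (XT.lf (nat_lit 0) (nat_lit 900373569) (nat_lit 1596) (nat_lit 2414720830) (nat_lit 1672) (nat_lit 4429180927) (nat_lit 526) (nat_lit 5) (nat_lit 547) (nat_lit 5) (nat_lit 548) (nat_lit 5) (nat_lit 560) (nat_lit 529) (nat_lit 471)) (XT.nd (nat_lit 78) (nat_lit 1672) (nat_lit 0) (XT.lf (nat_lit 0) (nat_lit 5468060146) (nat_lit 1672) (nat_lit 2159022404) (nat_lit 76) (nat_lit 175317087) (nat_lit 526) (nat_lit 5) (nat_lit 548) (nat_lit 5) (nat_lit 527) (nat_lit 5) (nat_lit 561) (nat_lit 529) (nat_lit 470)) (XT.lf (nat_lit 0) (nat_lit 2603361511) (nat_lit 1672) (nat_lit 5055103954) (nat_lit 1748) (nat_lit 203337427) (nat_lit 504) (nat_lit 5) (nat_lit 526) (nat_lit 5) (nat_lit 527) (nat_lit 5) (nat_lit 562) (nat_lit 529) (nat_lit 469))))))))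
noncomputable def xc91 : XT := (XT.nd (nat_lit 1560) (nat_lit 8816) (nat_lit 0) (XT.nd (nat_lit 780) (nat_lit 4940) (nat_lit 0) (XT.nd (nat_lit 390) (nat_lit 2736) (nat_lit 0) (XT.nd (nat_lit 156) (nat_lit 2964) (nat_lit 0) (XT.nd (nat_lit 78) (nat_lit 1748) (nat_lit 0) (XT.lf (nat_lit 0) (nat_lit 1920792341) (nat_lit 1748) (nat_lit 479364704) (nat_lit 76) (nat_lit 5522458256) (nat_lit 503) (nat_lit 5) (nat_lit 526) (nat_lit 5) (nat_lit 504) (nat_lit 5) (nat_lit 563) (nat_lit 529) (nat_lit 468)) (XT.lf (nat_lit 0) (nat_lit 4078103479) (nat_lit 1824) (nat_lit 3569080893) (nat_lit 76) (nat_lit 337568104) (nat_lit 480) (nat_lit 5) (nat_lit 504) (nat_lit 5) (nat_lit 481) (nat_lit 5) (nat_lit 564) (nat_lit 529) (nat_lit 467))) (XT.nd (nat_lit 78) (nat_lit 1140) (nat_lit 0) (XT.lf (nat_lit 0) (nat_lit 1334126454) (nat_lit 1824) (nat_lit 4935280567) (nat_lit 1900) (nat_lit 1778912203) (nat_lit 456) (nat_lit 5) (nat_lit 480) (nat_lit 5) (nat_lit 481) (nat_lit 5) (nat_lit 565) (nat_lit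 529) (nat_lit 466)) (XT.nd (nat_lit 78) (nat_lit 1064) (nat_lit 0) (XT.lf (nat_lit 0) (nat_lit 373663325) (nat_lit 1900) (nat_lit 1766357447) (nat_lit 76) (nat_lit 5973340981) (nat_lit 455) (nat_lit 5) (nat_lit 480) (nat_lit 5) (nat_lit 456) (nat_lit 5) (nat_lit 566) (nat_lit 529) (nat_lit 465)) (XT.lf (nat_lit 0) (nat_lit 2535649035) (nat_lit 1140) (nat_lit 4907051544) (nat_lit 76) (nat_lit 736969351) (nat_lit 441) (nat_lit 5) (nat_lit 456) (nat_lit 5) (nat_lit 442) (nat_lit 5) (nat_lit 567) (nat_lit 529) (nat_lit 464))))) (XT.nd (nat_lit 156) (nat_lit 1824) (nat_lit 0) (XT.nd (nat_lit 78) (nat_lit 0) (nat_lit 0) (XT.lf (nat_lit 0) (nat_lit 142289956) (nat_lit 912) (nat_lit 4590135967) (nat_lit 988) (nat_lit 3515050786) (nat_lit 429) (nat_lit 5) (nat_lit 441) (nat_lit 5) (nat_lit 442) (nat_lit 5) (nat_lit 568) (nat_lit 529) (nat_lit 463)) (XT.lf (nat_lit 0) (nat_lit 5324786782) (nat_lit 912) (nat_lit 1646276686) (nat_lit 988) (nat_lit 1345621052) (nat_lit 429) (nat_lit 5)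 (nat_lit 441) (nat_lit 5) (nat_lit 442) (nat_lit 5) (nat_lit 569) (nat_lit 529) (nat_lit 462))) (XT.nd (nat_lit 78) (nat_lit 836) (nat_lit 0) (XT.lf (nat_lit 0) (nat_lit 844585680) (nat_lit 988) (nat_lit 6183600299) (nat_lit 76) (nat_lit 1359205930) (nat_lit 416) (nat_lit 5) (nat_lit 429) (nat_lit 5) (nat_lit 417) (nat_lit 5) (nat_lit 570) (nat_lit 529) (nat_lit 461)) (XT.nd (nat_lit 78) (nat_lit 836) (nat_lit 0) (XT.lf (nat_lit 0) (nat_lit 3057618592) (nat_lit 988) (nat_lit 969706425) (nat_lit 76) (nat_lit 4432072942) (nat_lit 416) (nat_lit 5) (nat_lit 429) (nat_lit 5) (nat_lit 417) (nat_lit 5) (nat_lit 571) (nat_lit 529) (nat_lit 460)) (XT.lf (nat_lit 0) (nat_lit 4371883383) (nat_lit 836) (nat_lit 937992772) (nat_lit 912) (nat_lit 3223071836) (nat_lit 405) (nat_lit 5) (nat_lit 416) (nat_lit 5) (nat_lit 417) (nat_lit 5) (nat_lit 572) (nat_lit 529) (nat_lit 459)))))) (XT.nd (nat_lit 390) (nat_lit 2356) (nat_lit 0) (XT.nd (nat_lit 156) (nat_lit 1672) (nat_lit 0) (XT.nd (nat_lit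 78) (nat_lit 76) (nat_lit 0) (XT.lf (nat_lit 0) (nat_lit 1192483220) (nat_lit 836) (nat_lit 6410368196) (nat_lit 912) (nat_lit 1005207236) (nat_lit 394) (nat_lit 5) (nat_lit 405) (nat_lit 5) (nat_lit 406) (nat_lit 5) (nat_lit 573) (nat_lit 529) (nat_lit 458)) (XT.lf (nat_lit 0) (nat_lit 1242065772) (nat_lit 912) (nat_lit 2023732473) (nat_lit 76) (nat_lit 5418682270) (nat_lit 393) (nat_lit 5) (nat_lit 405) (nat_lit 5) (nat_lit 394) (nat_lit 5) (nat_lit 574) (nat_lit 529) (nat_lit 457))) (XT.nd (nat_lit 78) (nat_lit 836) (nat_lit 0) (XT.lf (nat_lit 0) (nat_lit 3481055232) (nat_lit 836) (nat_lit 30243345) (nat_lit 912) (nat_lit 5251192769) (nat_lit 382) (nat_lit 5) (nat_lit 393) (nat_lit 5) (nat_lit 394) (nat_lit 5) (nat_lit 575) (nat_lit 529) (nat_lit 456)) (XT.nd (nat_lit 78) (nat_lit 0) (nat_lit 0) (XT.lf (nat_lit 0) (nat_lit 228970383) (nat_lit 836) (nat_lit 5601592865) (nat_lit 912) (nat_lit 3011409048) (nat_lit 371) (nat_lit 5) (nat_lit 382) (nat_lit 5) (nat_lit 383) (nat_lit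 5) (nat_lit 576) (nat_lit 529) (nat_lit 455)) (XT.lf (nat_lit 0) (nat_lit 5886907284) (nat_lit 836) (nat_lit 2313606482) (nat_lit 912) (nat_lit 722445875) (nat_lit 371) (nat_lit 5) (nat_lit 382) (nat_lit 5) (nat_lit 383) (nat_lit 5) (nat_lit 577) (nat_lit 529) (nat_lit 454))))) (XT.nd (nat_lit 156) (nat_lit 1520) (nat_lit 0) (XT.nd (nat_lit 78) (nat_lit 0) (nat_lit 0) (XT.lf (nat_lit 0) (nat_lit 1584296154) (nat_lit 836) (nat_lit 6369735738) (nat_lit 76) (nat_lit 1051465257) (nat_lit 360) (nat_lit 5) (nat_lit 371) (nat_lit 5) (nat_lit 361) (nat_lit 5) (nat_lit 578) (nat_lit 529) (nat_lit 453)) (XT.lf (nat_lit 0) (nat_lit 3932776175) (nat_lit 836) (nat_lit 681536298) (nat_lit 76) (nat_lit 4475174519) (nat_lit 360) (nat_lit 5) (nat_lit 371) (nat_lit 5) (nat_lit 361) (nat_lit 5) (nat_lit 579) (nat_lit 529) (nat_lit 452))) (XT.nd (nat_lit 78) (nat_lit 760) (nat_lit 0) (XT.lf (nat_lit 0) (nat_lit 5154516723) (nat_lit 760) (nat_lit 1177212210) (nat_lit 836) (nat_lit 2843360213)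 (nat_lit 350) (nat_lit 5) (nat_lit 360) (nat_lit 5) (nat_lit 361) (nat_lit 5) (nat_lit 580) (nat_lit 529) (nat_lit 451)) (XT.nd (nat_lit 78) (nat_lit 76) (nat_lit 0) (XT.lf (nat_lit 0) (nat_lit 1829195582) (nat_lit 684) (nat_lit 6951448215) (nat_lit 760) (nat_lit 481722411) (nat_lit 341) (nat_lit 5) (nat_lit 350) (nat_lit 5) (nat_lit 351) (nat_lit 5) (nat_lit 581) (nat_lit 529) (nat_lit 450)) (XT.lf (nat_lit 0) (nat_lit 1907378243) (nat_lit 760) (nat_lit 1554911153) (nat_lit 76) (nat_lit 5888741497) (nat_lit 340) (nat_lit 5) (nat_lit 350) (nat_lit 5) (nat_lit 341) (nat_lit 5) (nat_lit 582) (nat_lit 529) (nat_lit 449))))))) (XT.nd (nat_lit 780) (nat_lit 4028) (nat_lit 0) (XT.nd (nat_lit 390) (nat_lit 1976) (nat_lit 0) (XT.nd (nat_lit 156) (nat_lit 1368) (nat_lit 0) (XT.nd (nat_lit 78) (nat_lit 684) (nat_lit 0) (XT.lf (nat_lit 0) (nat_lit 4338731587) (nat_lit 836) (nat_lit 4979328249) (nat_lit 76) (nat_lit 123329312) (nat_lit 330) (nat_lit 5) (nat_lit 341) (nat_lit 5) (nat_lit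 331) (nat_lit 5) (nat_lit 583) (nat_lit 529) (nat_lit 448)) (XT.lf (nat_lit 0) (nat_lit 1044109660) (nat_lit 684) (nat_lit 5786262217) (nat_lit 760) (nat_lit 2702951827) (nat_lit 321) (nat_lit 5) (nat_lit 330) (nat_lit 5) (nat_lit 331) (nat_lit 5) (nat_lit 584) (nat_lit 529) (nat_lit 447))) (XT.nd (nat_lit 78) (nat_lit 1368) (nat_lit 0) (XT.lf (nat_lit 0) (nat_lit 7222044481) (nat_lit 684) (nat_lit 2155005332) (nat_lit 760) (nat_lit 249945329) (nat_lit 321) (nat_lit 5) (nat_lit 330) (nat_lit 5) (nat_lit 331) (nat_lit 5) (nat_lit 585) (nat_lit 529) (nat_lit 446)) (XT.nd (nat_lit 78) (nat_lit 608) (nat_lit 0) (XT.lf (nat_lit 0) (nat_lit 2229717059) (nat_lit 760) (nat_lit 5929525003) (nat_lit 76) (nat_lit 1562865046) (nat_lit 311) (nat_lit 5) (nat_lit 321) (nat_lit 5) (nat_lit 312) (nat_lit 5) (nat_lit 586) (nat_lit 529) (nat_lit 445)) (XT.lf (nat_lit 0) (nat_lit 282049635) (nat_lit 608) (nat_lit 4478382723) (nat_lit 684) (nat_lit 5058561939) (nat_lit 303) (nat_lit 5) (nat_lit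 311) (nat_lit 5) (nat_lit 312) (nat_lit 5) (nat_lit 587) (nat_lit 529) (nat_lit 444))))) (XT.nd (nat_lit 156) (nat_lit 1292) (nat_lit 0) (XT.nd (nat_lit 78) (nat_lit 684) (nat_lit 0) (XT.lf (nat_lit 0) (nat_lit 6664969800) (nat_lit 608) (nat_lit 689361660) (nat_lit 684) (nat_lit 2563238493) (nat_lit 303) (nat_lit 5) (nat_lit 311) (nat_lit 5) (nat_lit 312) (nat_lit 5) (nat_lit 588) (nat_lit 529) (nat_lit 443)) (XT.lf (nat_lit 0) (nat_lit 3144953419) (nat_lit 684) (nat_lit 6869465856) (nat_lit 760) (nat_lit 3413704) (nat_lit 294) (nat_lit 5) (nat_lit 303) (nat_lit 5) (nat_lit 304) (nat_lit 5) (nat_lit 589) (nat_lit 529) (nat_lit 442))) (XT.nd (nat_lit 78) (nat_lit 1216) (nat_lit 0) (XT.lf (nat_lit 0) (nat_lit 2573352948) (nat_lit 760) (nat_lit 460001958) (nat_lit 76) (nat_lit 7086410853) (nat_lit 293) (nat_lit 5) (nat_lit 303) (nat_lit 5) (nat_lit 294) (nat_lit 5) (nat_lit 590) (nat_lit 529) (nat_lit 441)) (XT.nd (nat_lit 78) (nat_lit 608) (nat_lit 0) (XT.lf (nat_lit 0) (nat_lit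 5221263138) (nat_lit 684) (nat_lit 4100496634) (nat_lit 76) (nat_lit 901585846) (nat_lit 285) (nat_lit 5) (nat_lit 294) (nat_lit 5) (nat_lit 286) (nat_lit 5) (nat_lit 591) (nat_lit 529) (nat_lit 440)) (XT.lf (nat_lit 0) (nat_lit 2494409735) (nat_lit 608) (nat_lit 5441300458) (nat_lit 684) (nat_lit 2393017222) (nat_lit 277) (nat_lit 5) (nat_lit 285) (nat_lit 5) (nat_lit 286) (nat_lit 5) (nat_lit 592) (nat_lit 529) (nat_lit 439)))))) (XT.nd (nat_lit 390) (nat_lit 2128) (nat_lit 0) (XT.nd (nat_lit 156) (nat_lit 1216) (nat_lit 0) (XT.nd (nat_lit 78) (nat_lit 608) (nat_lit 0) (XT.lf (nat_lit 0) (nat_lit 266721119) (nat_lit 684) (nat_lit 1193772890) (nat_lit 76) (nat_lit 8975649654) (nat_lit 276) (nat_lit 5) (nat_lit 285) (nat_lit 5) (nat_lit 277) (nat_lit 5) (nat_lit 593) (nat_lit 529) (nat_lit 438)) (XT.lf (nat_lit 0) (nat_lit 2976027124) (nat_lit 684) (nat_lit 4957438057) (nat_lit 76) (nat_lit 2611360194) (nat_lit 268) (nat_lit 5) (nat_lit 277) (nat_lit 5) (nat_lit 269) (nat_lit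 5) (nat_lit 594) (nat_lit 529) (nat_lit 437))) (XT.nd (nat_lit 78) (nat_lit 608) (nat_lit 0) (XT.lf (nat_lit 0) (nat_lit 1846753780) (nat_lit 608) (nat_lit 3897544904) (nat_lit 684) (nat_lit 4911288218) (nat_lit 260) (nat_lit 5) (nat_lit 268) (nat_lit 5) (nat_lit 269) (nat_lit 5) (nat_lit 595) (nat_lit 529) (nat_lit 436)) (XT.nd (nat_lit 78) (nat_lit 608) (nat_lit 0) (XT.lf (nat_lit 0) (nat_lit 8578127671) (nat_lit 684) (nat_lit 1948116815) (nat_lit 76) (nat_lit 242117067) (nat_lit 260) (nat_lit 5) (nat_lit 269) (nat_lit 5) (nat_lit 261) (nat_lit 5) (nat_lit 596) (nat_lit 529) (nat_lit 435)) (XT.lf (nat_lit 0) (nat_lit 612211697) (nat_lit 608) (nat_lit 5828552804) (nat_lit 76) (nat_lit 4441859951) (nat_lit 252) (nat_lit 5) (nat_lit 260) (nat_lit 5) (nat_lit 253) (nat_lit 5) (nat_lit 597) (nat_lit 529) (nat_lit 434))))) (XT.nd (nat_lit 234) (nat_lit 1064) (nat_lit 0) (XT.nd (nat_lit 78) (nat_lit 532) (nat_lit 0) (XT.lf (nat_lit 0) (nat_lit 1192577442) (nat_lit 532) (nat_lit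 2245605589) (nat_lit 608) (nat_lit 7560765583) (nat_lit 245) (nat_lit 5) (nat_lit 252) (nat_lit 5) (nat_lit 253) (nat_lit 5) (nat_lit 598) (nat_lit 529) (nat_lit 433)) (XT.nd (nat_lit 78) (nat_lit 532) (nat_lit 0) (XT.lf (nat_lit 0) (nat_lit 6349333885) (nat_lit 608) (nat_lit 2729625945) (nat_lit 76) (nat_lit 2038067829) (nat_lit 245) (nat_lit 5) (nat_lit 253) (nat_lit 5) (nat_lit 246) (nat_lit 5) (nat_lit 599) (nat_lit 529) (nat_lit 432)) (XT.lf (nat_lit 0) (nat_lit 4500965334) (nat_lit 532) (nat_lit 4838392001) (nat_lit 608) (nat_lit 1897699529) (nat_lit 238) (nat_lit 5) (nat_lit 245) (nat_lit 5) (nat_lit 246) (nat_lit 5) (nat_lit 600) (nat_lit 529) (nat_lit 431)))) (XT.nd (nat_lit 78) (nat_lit 456) (nat_lit 0) (XT.lf (nat_lit 0) (nat_lit 522139617) (nat_lit 532) (nat_lit 492532919) (nat_lit 608) (nat_lit 10344712264) (nat_lit 230) (nat_lit 5) (nat_lit 237) (nat_lit 5) (nat_lit 238) (nat_lit 5) (nat_lit 601) (nat_lit 529) (nat_lit 430)) (XT.nd (nat_lit 78) (nat_lit 456)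 (nat_lit 0) (XT.lf (nat_lit 0) (nat_lit 4007839857) (nat_lit 608) (nat_lit 3537007467) (nat_lit 76) (nat_lit 3938103416) (nat_lit 230) (nat_lit 5) (nat_lit 238) (nat_lit 5) (nat_lit 231) (nat_lit 5) (nat_lit 602) (nat_lit 529) (nat_lit 429)) (XT.lf (nat_lit 0) (nat_lit 3925945490) (nat_lit 456) (nat_lit 3140980122) (nat_lit 532) (nat_lit 4541942736) (nat_lit 224) (nat_lit 5) (nat_lit 230) (nat_lit 5) (nat_lit 231) (nat_lit 5) (nat_lit 603) (nat_lit 529) (nat_lit 428))))))))
noncomputable def xc92 : XT := (XT.nd (nat_lit 75660) (nat_lit 0) (nat_lit 35416) (XT.nd (nat_lit 780) (nat_lit 2128) (nat_lit 0) (XT.nd (nat_lit 390) (nat_lit 1444) (nat_lit 0) (XT.nd (nat_lit 156) (nat_lit 912) (nat_lit 0) (XT.nd (nat_lit 78) (nat_lit 608) (nat_lit 0) (XT.lf (nat_lit 0) (nat_lit 10197344499) (nat_lit 532) (nat_lit 191358436) (nat_lit 76) (nat_lit 1348399764) (nat_lit 224) (nat_lit 5) (nat_lit 231) (nat_lit 5) (nat_lit 225) (nat_lit 5) (nat_lit 604) (nat_lit 529) (nat_lit 427)) (XT.lf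 (nat_lit 0) (nat_lit 1550217477) (nat_lit 608) (nat_lit 4380681461) (nat_lit 76) (nat_lit 5935852173) (nat_lit 216) (nat_lit 5) (nat_lit 224) (nat_lit 5) (nat_lit 217) (nat_lit 5) (nat_lit 605) (nat_lit 529) (nat_lit 426))) (XT.nd (nat_lit 78) (nat_lit 456) (nat_lit 0) (XT.lf (nat_lit 0) (nat_lit 3322877705) (nat_lit 456) (nat_lit 1359399245) (nat_lit 532) (nat_lit 7316495291) (nat_lit 210) (nat_lit 5) (nat_lit 216) (nat_lit 5) (nat_lit 217) (nat_lit 5) (nat_lit 606) (nat_lit 529) (nat_lit 425)) (XT.nd (nat_lit 78) (nat_lit 456) (nat_lit 0) (XT.lf (nat_lit 0) (nat_lit 7906203329) (nat_lit 532) (nat_lit 945941703) (nat_lit 76) (nat_lit 3280705562) (nat_lit 210) (nat_lit 5) (nat_lit 217) (nat_lit 5) (nat_lit 211) (nat_lit 5) (nat_lit 607) (nat_lit 529) (nat_lit 424)) (XT.lf (nat_lit 0) (nat_lit 6990562780) (nat_lit 456) (nat_lit 4237048848) (nat_lit 532) (nat_lit 1041340105) (nat_lit 204) (nat_lit 5) (nat_lit 210) (nat_lit 5) (nat_lit 211) (nat_lit 5) (nat_lit 608) (nat_lit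 529) (nat_lit 423))))) (XT.nd (nat_lit 156) (nat_lit 912) (nat_lit 0) (XT.nd (nat_lit 78) (nat_lit 0) (nat_lit 0) (XT.lf (nat_lit 0) (nat_lit 2184453221) (nat_lit 532) (nat_lit 9729736510) (nat_lit 76) (nat_lit 493185049) (nat_lit 197) (nat_lit 5) (nat_lit 204) (nat_lit 5) (nat_lit 198) (nat_lit 5) (nat_lit 609) (nat_lit 529) (nat_lit 422)) (XT.lf (nat_lit 0) (nat_lit 5503397553) (nat_lit 532) (nat_lit 1749680639) (nat_lit 76) (nat_lit 5294500070) (nat_lit 197) (nat_lit 5) (nat_lit 204) (nat_lit 5) (nat_lit 198) (nat_lit 5) (nat_lit 610) (nat_lit 529) (nat_lit 421))) (XT.nd (nat_lit 78) (nat_lit 456) (nat_lit 0) (XT.lf (nat_lit 0) (nat_lit 6444131542) (nat_lit 456) (nat_lit 2465693883) (nat_lit 532) (nat_lit 3780339485) (nat_lit 191) (nat_lit 5) (nat_lit 197) (nat_lit 5) (nat_lit 198) (nat_lit 5) (nat_lit 611) (nat_lit 529) (nat_lit 420)) (XT.nd (nat_lit 78) (nat_lit 76) (nat_lit 0) (XT.lf (nat_lit 0) (nat_lit 1969718636) (nat_lit 380) (nat_lit 10434379837) (nat_lit 456) (nat_lit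 431111654) (nat_lit 186) (nat_lit 5) (nat_lit 191) (nat_lit 5) (nat_lit 192) (nat_lit 5) (nat_lit 612) (nat_lit 529) (nat_lit 419)) (XT.lf (nat_lit 0) (nat_lit 2983955477) (nat_lit 456) (nat_lit 2614436720) (nat_lit 76) (nat_lit 7383617449) (nat_lit 185) (nat_lit 5) (nat_lit 191) (nat_lit 5) (nat_lit 186) (nat_lit 5) (nat_lit 613) (nat_lit 529) (nat_lit 418)))))) (XT.nd (nat_lit 390) (nat_lit 456) (nat_lit 0) (XT.nd (nat_lit 156) (nat_lit 836) (nat_lit 0) (XT.nd (nat_lit 78) (nat_lit 380) (nat_lit 0) (XT.lf (nat_lit 0) (nat_lit 5845464960) (nat_lit 456) (nat_lit 633930740) (nat_lit 532) (nat_lit 6651936675) (nat_lit 179) (nat_lit 5) (nat_lit 185) (nat_lit 5) (nat_lit 186) (nat_lit 5) (nat_lit 614) (nat_lit 529) (nat_lit 417)) (XT.lf (nat_lit 0) (nat_lit 1183232739) (nat_lit 380) (nat_lit 8895639277) (nat_lit 456) (nat_lit 3204088075) (nat_lit 174) (nat_lit 5) (nat_lit 179) (nat_lit 5) (nat_lit 180) (nat_lit 5) (nat_lit 615) (nat_lit 529) (nat_lit 416))) (XT.nd (nat_lit 78)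 (nat_lit 760) (nat_lit 0) (XT.lf (nat_lit 0) (nat_lit 342118740) (nat_lit 456) (nat_lit 3552907061) (nat_lit 76) (nat_lit 9541884938) (nat_lit 173) (nat_lit 5) (nat_lit 179) (nat_lit 5) (nat_lit 174) (nat_lit 5) (nat_lit 616) (nat_lit 529) (nat_lit 415)) (XT.nd (nat_lit 78) (nat_lit 380) (nat_lit 0) (XT.lf (nat_lit 0) (nat_lit 3938636487) (nat_lit 456) (nat_lit 8419363676) (nat_lit 76) (nat_lit 1235071879) (nat_lit 168) (nat_lit 5) (nat_lit 174) (nat_lit 5) (nat_lit 169) (nat_lit 5) (nat_lit 617) (nat_lit 529) (nat_lit 414)) (XT.lf (nat_lit 0) (nat_lit 319652052) (nat_lit 380) (nat_lit 7319908038) (nat_lit 456) (nat_lit 6112147969) (nat_lit 163) (nat_lit 5) (nat_lit 168) (nat_lit 5) (nat_lit 169) (nat_lit 5) (nat_lit 618) (nat_lit 529) (nat_lit 413))))) (XT.nd (nat_lit 74256) (nat_lit 0) (nat_lit 42484) (XT.nd (nat_lit 78) (nat_lit 456) (nat_lit 0) (XT.lf (nat_lit 0) (nat_lit 9318045908) (nat_lit 380) (nat_lit 2133748647) (nat_lit 456) (nat_lit 2460977369) (nat_lit 163) (nat_lit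 5) (nat_lit 168) (nat_lit 5) (nat_lit 169) (nat_lit 5) (nat_lit 619) (nat_lit 529) (nat_lit 412)) (XT.lf (nat_lit 0) (nat_lit 1277193310) (nat_lit 456) (nat_lit 9657186945) (nat_lit 76) (nat_lit 3141902838) (nat_lit 157) (nat_lit 5) (nat_lit 163) (nat_lit 5) (nat_lit 158) (nat_lit 5) (nat_lit 620) (nat_lit 529) (nat_lit 411))) (XT.nd (nat_lit 78) (nat_lit 760) (nat_lit 0) (XT.lf (nat_lit 0) (nat_lit 764836944) (nat_lit 0) (nat_lit 764836944) (nat_lit 684) (nat_lit 1786592094) (nat_lit 726) (nat_lit 5) (nat_lit 726) (nat_lit 3) (nat_lit 735) (nat_lit 3) (nat_lit 530) (nat_lit 530) (nat_lit 500)) (XT.nd (nat_lit 78) (nat_lit 760) (nat_lit 0) (XT.lf (nat_lit 0) (nat_lit 4849649025) (nat_lit 0) (nat_lit 553321760) (nat_lit 684) (nat_lit 1249297229) (nat_lit 726) (nat_lit 5) (nat_lit 726) (nat_lit 3) (nat_lit 735) (nat_lit 3) (nat_lit 531) (nat_lit 530) (nat_lit 499)) (XT.lf (nat_lit 0) (nat_lit 1058499038) (nat_lit 760) (nat_lit 5131005805) (nat_lit 836) (nat_lit 483714127) (nat_lit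 716) (nat_lit 5) (nat_lit 726) (nat_lit 5) (nat_lit 727) (nat_lit 5) (nat_lit 532) (nat_lit 530) (nat_lit 498))))))) (XT.nd (nat_lit 780) (nat_lit 4408) (nat_lit 0) (XT.nd (nat_lit 390) (nat_lit 1824) (nat_lit 0) (XT.nd (nat_lit 156) (nat_lit 836) (nat_lit 0) (XT.nd (nat_lit 78) (nat_lit 0) (nat_lit 0) (XT.lf (nat_lit 0) (nat_lit 3351683778) (nat_lit 760) (nat_lit 1760338230) (nat_lit 836) (nat_lit 1583290855) (nat_lit 716) (nat_lit 5) (nat_lit 726) (nat_lit 5) (nat_lit 727) (nat_lit 5) (nat_lit 533) (nat_lit 530) (nat_lit 497)) (XT.lf (nat_lit 76) (nat_lit 1667901672) (nat_lit 0) (nat_lit 3974938081) (nat_lit 836) (nat_lit 1075974854) (nat_lit 717) (nat_lit 5) (nat_lit 716) (nat_lit 5) (nat_lit 727) (nat_lit 5) (nat_lit 534) (nat_lit 530) (nat_lit 496))) (XT.nd (nat_lit 78) (nat_lit 0) (nat_lit 0) (XT.lf (nat_lit 0) (nat_lit 1174534365) (nat_lit 836) (nat_lit 1594379765) (nat_lit 912) (nat_lit 3974644914) (nat_lit 705) (nat_lit 5) (nat_lit 716) (nat_lit 5) (nat_lit 717) (nat_lit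 5) (nat_lit 535) (nat_lit 530) (nat_lit 495)) (XT.nd (nat_lit 78) (nat_lit 0) (nat_lit 0) (XT.lf (nat_lit 76) (nat_lit 1917653888) (nat_lit 0) (nat_lit 1493431999) (nat_lit 912) (nat_lit 3358469107) (nat_lit 706) (nat_lit 5) (nat_lit 705) (nat_lit 5) (nat_lit 717) (nat_lit 5) (nat_lit 536) (nat_lit 530) (nat_lit 494)) (XT.lf (nat_lit 76) (nat_lit 5490093814) (nat_lit 0) (nat_lit 156862987) (nat_lit 912) (nat_lit 1150029800) (nat_lit 706) (nat_lit 5) (nat_lit 705) (nat_lit 5) (nat_lit 717) (nat_lit 5) (nat_lit 537) (nat_lit 530) (nat_lit 493))))) (XT.nd (nat_lit 156) (nat_lit 988) (nat_lit 0) (XT.nd (nat_lit 78) (nat_lit 0) (nat_lit 0) (XT.lf (nat_lit 0) (nat_lit 1055805630) (nat_lit 912) (nat_lit 4533319045) (nat_lit 988) (nat_lit 1236352448) (nat_lit 694) (nat_lit 5) (nat_lit 706) (nat_lit 5) (nat_lit 707) (nat_lit 5) (nat_lit 538) (nat_lit 530) (nat_lit 492)) (XT.lf (nat_lit 0) (nat_lit 3245890465) (nat_lit 912) (nat_lit 914782622) (nat_lit 988) (nat_lit 2694608775) (nat_lit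 694) (nat_lit 5) (nat_lit 706) (nat_lit 5) (nat_lit 707) (nat_lit 5) (nat_lit 539) (nat_lit 530) (nat_lit 491))) (XT.nd (nat_lit 78) (nat_lit 988) (nat_lit 0) (XT.lf (nat_lit 76) (nat_lit 2780619515) (nat_lit 0) (nat_lit 2663927144) (nat_lit 988) (nat_lit 1441847580) (nat_lit 695) (nat_lit 5) (nat_lit 694) (nat_lit 5) (nat_lit 707) (nat_lit 5) (nat_lit 540) (nat_lit 530) (nat_lit 490)) (XT.nd (nat_lit 78) (nat_lit 0) (nat_lit 76) (XT.lf (nat_lit 0) (nat_lit 712340812) (nat_lit 988) (nat_lit 393181418) (nat_lit 1064) (nat_lit 5813445834) (nat_lit 681) (nat_lit 5) (nat_lit 694) (nat_lit 5) (nat_lit 695) (nat_lit 5) (nat_lit 541) (nat_lit 530) (nat_lit 489)) (XT.lf (nat_lit 0) (nat_lit 2864096471) (nat_lit 988) (nat_lit 3559254089) (nat_lit 1064) (nat_lit 529182933) (nat_lit 682) (nat_lit 5) (nat_lit 695) (nat_lit 5) (nat_lit 696) (nat_lit 5) (nat_lit 542) (nat_lit 530) (nat_lit 488)))))) (XT.nd (nat_lit 390) (nat_lit 3420) (nat_lit 0) (XT.nd (nat_lit 156) (nat_lit 0) (nat_lit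 0) (XT.nd (nat_lit 78) (nat_lit 1064) (nat_lit 0) (XT.lf (nat_lit 76) (nat_lit 237075950) (nat_lit 0) (nat_lit 4782498810) (nat_lit 1064) (nat_lit 1967988125) (nat_lit 683) (nat_lit 5) (nat_lit 682) (nat_lit 5) (nat_lit 696) (nat_lit 5) (nat_lit 543) (nat_lit 530) (nat_lit 487)) (XT.lf (nat_lit 0) (nat_lit 165975267) (nat_lit 1064) (nat_lit 2899895616) (nat_lit 1140) (nat_lit 3957929609) (nat_lit 668) (nat_lit 5) (nat_lit 682) (nat_lit 5) (nat_lit 683) (nat_lit 5) (nat_lit 544) (nat_lit 530) (nat_lit 486))) (XT.nd (nat_lit 78) (nat_lit 0) (nat_lit 76) (XT.lf (nat_lit 76) (nat_lit 995141387) (nat_lit 0) (nat_lit 1278217425) (nat_lit 1140) (nat_lit 4788008063) (nat_lit 669) (nat_lit 5) (nat_lit 668) (nat_lit 5) (nat_lit 683) (nat_lit 5) (nat_lit 545) (nat_lit 530) (nat_lit 485)) (XT.nd (nat_lit 78) (nat_lit 0) (nat_lit 0) (XT.lf (nat_lit 0) (nat_lit 4397488886) (nat_lit 1064) (nat_lit 2129030431) (nat_lit 1140) (nat_lit 573679208) (nat_lit 669) (nat_lit 5) (nat_lit 683) (nat_lit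 5) (nat_lit 684) (nat_lit 5) (nat_lit 546) (nat_lit 530) (nat_lit 484)) (XT.lf (nat_lit 76) (nat_lit 1870172712) (nat_lit 0) (nat_lit 4666958258) (nat_lit 1140) (nat_lit 603221054) (nat_lit 670) (nat_lit 5) (nat_lit 669) (nat_lit 5) (nat_lit 684) (nat_lit 5) (nat_lit 547) (nat_lit 530) (nat_lit 483))))) (XT.nd (nat_lit 234) (nat_lit 2356) (nat_lit 0) (XT.nd (nat_lit 78) (nat_lit 0) (nat_lit 0) (XT.lf (nat_lit 0) (nat_lit 1485291733) (nat_lit 1140) (nat_lit 1246100516) (nat_lit 1216) (nat_lit 4450377993) (nat_lit 654) (nat_lit 5) (nat_lit 669) (nat_lit 5) (nat_lit 670) (nat_lit 5) (nat_lit 548) (nat_lit 530) (nat_lit 482)) (XT.nd (nat_lit 78) (nat_lit 0) (nat_lit 76) (XT.lf (nat_lit 76) (nat_lit 2859402727) (nat_lit 0) (nat_lit 720419982) (nat_lit 1216) (nat_lit 3644673335) (nat_lit 655) (nat_lit 5) (nat_lit 654) (nat_lit 5) (nat_lit 670) (nat_lit 5) (nat_lit 549) (nat_lit 530) (nat_lit 481)) (XT.lf (nat_lit 0) (nat_lit 5687836792) (nat_lit 1140) (nat_lit 246049217) (nat_lit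 76) (nat_lit 1334763863) (nat_lit 655) (nat_lit 5) (nat_lit 670) (nat_lit 5) (nat_lit 656) (nat_lit 5) (nat_lit 550) (nat_lit 530) (nat_lit 480)))) (XT.nd (nat_lit 78) (nat_lit 1216) (nat_lit 0) (XT.lf (nat_lit 0) (nat_lit 503322725) (nat_lit 1216) (nat_lit 3347309980) (nat_lit 76) (nat_lit 3463273641) (nat_lit 639) (nat_lit 5) (nat_lit 655) (nat_lit 5) (nat_lit 640) (nat_lit 5) (nat_lit 551) (nat_lit 530) (nat_lit 479)) (XT.nd (nat_lit 78) (nat_lit 0) (nat_lit 0) (XT.lf (nat_lit 0) (nat_lit 874712129) (nat_lit 1216) (nat_lit 1696416634) (nat_lit 1292) (nat_lit 4789472161) (nat_lit 623) (nat_lit 5) (nat_lit 639) (nat_lit 5) (nat_lit 640) (nat_lit 5) (nat_lit 552) (nat_lit 530) (nat_lit 478)) (XT.lf (nat_lit 0) (nat_lit 4662670413) (nat_lit 1292) (nat_lit 2218435659) (nat_lit 76) (nat_lit 527480683) (nat_lit 623) (nat_lit 5) (nat_lit 640) (nat_lit 5) (nat_lit 624) (nat_lit 5) (nat_lit 553) (nat_lit 530) (nat_lit 477))))))))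
noncomputable def xc93 : XT := (XT.nd (nat_lit 1560) (nat_lit 10412) (nat_lit 0) (XT.nd (nat_lit 780) (nat_lit 7448) (nat_lit 0) (XT.nd (nat_lit 390) (nat_lit 4864) (nat_lit 0) (XT.nd (nat_lit 156) (nat_lit 2888) (nat_lit 0) (XT.nd (nat_lit 78) (nat_lit 76) (nat_lit 0) (XT.lf (nat_lit 0) (nat_lit 2117766652) (nat_lit 1292) (nat_lit 4660629807) (nat_lit 1368) (nat_lit 679493628) (nat_lit 606) (nat_lit 5) (nat_lit 623) (nat_lit 5) (nat_lit 624) (nat_lit 5) (nat_lit 554) (nat_lit 530) (nat_lit 476)) (XT.lf (nat_lit 0) (nat_lit 1382219462) (nat_lit 1368) (nat_lit 979977944) (nat_lit 76) (nat_lit 5146347407) (nat_lit 605) (nat_lit 5) (nat_lit 623) (nat_lit 5) (nat_lit 606) (nat_lit 5) (nat_lit 555) (nat_lit 530) (nat_lit 475))) (XT.nd (nat_lit 78) (nat_lit 1520) (nat_lit 0) (XT.lf (nat_lit 0) (nat_lit 3457300240) (nat_lit 1444) (nat_lit 4085003223) (nat_lit 76) (nat_lit 18199279) (nat_lit 587) (nat_lit 5) (nat_lit 606) (nat_lit 5) (nat_lit 588) (nat_lit 5) (nat_lit 556) (nat_lit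 530) (nat_lit 474)) (XT.nd (nat_lit 78) (nat_lit 76) (nat_lit 0) (XT.lf (nat_lit 0) (nat_lit 375751393) (nat_lit 1444) (nat_lit 5182026597) (nat_lit 1520) (nat_lit 2056048416) (nat_lit 568) (nat_lit 5) (nat_lit 587) (nat_lit 5) (nat_lit 588) (nat_lit 5) (nat_lit 557) (nat_lit 530) (nat_lit 473)) (XT.lf (nat_lit 0) (nat_lit 18728219) (nat_lit 1520) (nat_lit 2720777136) (nat_lit 76) (nat_lit 4928969343) (nat_lit 567) (nat_lit 5) (nat_lit 587) (nat_lit 5) (nat_lit 568) (nat_lit 5) (nat_lit 558) (nat_lit 530) (nat_lit 472))))) (XT.nd (nat_lit 156) (nat_lit 3344) (nat_lit 0) (XT.nd (nat_lit 78) (nat_lit 0) (nat_lit 0) (XT.lf (nat_lit 0) (nat_lit 1864553840) (nat_lit 1520) (nat_lit 215347452) (nat_lit 1596) (nat_lit 5644598454) (nat_lit 547) (nat_lit 5) (nat_lit 567) (nat_lit 5) (nat_lit 568) (nat_lit 5) (nat_lit 559) (nat_lit 530) (nat_lit 471)) (XT.lf (nat_lit 0) (nat_lit 4176899314) (nat_lit 1596) (nat_lit 1252006501) (nat_lit 76) (nat_lit 2352851592) (nat_lit 547) (nat_lit 5)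 (nat_lit 568) (nat_lit 5) (nat_lit 548) (nat_lit 5) (nat_lit 560) (nat_lit 530) (nat_lit 470))) (XT.nd (nat_lit 78) (nat_lit 1748) (nat_lit 0) (XT.lf (nat_lit 0) (nat_lit 3458932384) (nat_lit 1596) (nat_lit 2842459942) (nat_lit 1672) (nat_lit 1539060857) (nat_lit 526) (nat_lit 5) (nat_lit 547) (nat_lit 5) (nat_lit 548) (nat_lit 5) (nat_lit 561) (nat_lit 530) (nat_lit 469)) (XT.nd (nat_lit 78) (nat_lit 0) (nat_lit 0) (XT.lf (nat_lit 0) (nat_lit 348341796) (nat_lit 1672) (nat_lit 184934418) (nat_lit 1748) (nat_lit 7367523322) (nat_lit 503) (nat_lit 5) (nat_lit 525) (nat_lit 5) (nat_lit 526) (nat_lit 5) (nat_lit 562) (nat_lit 530) (nat_lit 468)) (XT.lf (nat_lit 0) (nat_lit 2634980984) (nat_lit 1748) (nat_lit 2790308514) (nat_lit 76) (nat_lit 2536693103) (nat_lit 503) (nat_lit 5) (nat_lit 526) (nat_lit 5) (nat_lit 504) (nat_lit 5) (nat_lit 563) (nat_lit 530) (nat_lit 467)))))) (XT.nd (nat_lit 390) (nat_lit 2736) (nat_lit 0) (XT.nd (nat_lit 156) (nat_lit 2964) (nat_lit 0) (XT.nd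 (nat_lit 78) (nat_lit 0) (nat_lit 0) (XT.lf (nat_lit 0) (nat_lit 2059584418) (nat_lit 1748) (nat_lit 2696981268) (nat_lit 1824) (nat_lit 3268270476) (nat_lit 480) (nat_lit 5) (nat_lit 503) (nat_lit 5) (nat_lit 504) (nat_lit 5) (nat_lit 564) (nat_lit 530) (nat_lit 466)) (XT.lf (nat_lit 0) (nat_lit 6903763667) (nat_lit 1824) (nat_lit 1078772001) (nat_lit 76) (nat_lit 106751176) (nat_lit 480) (nat_lit 5) (nat_lit 504) (nat_lit 5) (nat_lit 481) (nat_lit 5) (nat_lit 565) (nat_lit 530) (nat_lit 465))) (XT.nd (nat_lit 78) (nat_lit 1064) (nat_lit 0) (XT.lf (nat_lit 0) (nat_lit 934317563) (nat_lit 1900) (nat_lit 4255376614) (nat_lit 76) (nat_lit 2965058941) (nat_lit 455) (nat_lit 5) (nat_lit 480) (nat_lit 5) (nat_lit 456) (nat_lit 5) (nat_lit 566) (nat_lit 530) (nat_lit 464)) (XT.nd (nat_lit 78) (nat_lit 0) (nat_lit 0) (XT.lf (nat_lit 0) (nat_lit 738708737) (nat_lit 1064) (nat_lit 2318803102) (nat_lit 1140) (nat_lit 5164327000) (nat_lit 441) (nat_lit 5) (nat_lit 455) (nat_lit 5) (nat_lit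 456) (nat_lit 5) (nat_lit 567) (nat_lit 530) (nat_lit 463)) (XT.lf (nat_lit 0) (nat_lit 5221091477) (nat_lit 1140) (nat_lit 2437380444) (nat_lit 76) (nat_lit 631839325) (nat_lit 441) (nat_lit 5) (nat_lit 456) (nat_lit 5) (nat_lit 442) (nat_lit 5) (nat_lit 568) (nat_lit 530) (nat_lit 462))))) (XT.nd (nat_lit 156) (nat_lit 1748) (nat_lit 0) (XT.nd (nat_lit 78) (nat_lit 76) (nat_lit 0) (XT.lf (nat_lit 0) (nat_lit 2696054386) (nat_lit 912) (nat_lit 4730650410) (nat_lit 988) (nat_lit 933476395) (nat_lit 429) (nat_lit 5) (nat_lit 441) (nat_lit 5) (nat_lit 442) (nat_lit 5) (nat_lit 569) (nat_lit 530) (nat_lit 461)) (XT.lf (nat_lit 0) (nat_lit 1211247533) (nat_lit 988) (nat_lit 507583169) (nat_lit 76) (nat_lit 6712807494) (nat_lit 428) (nat_lit 5) (nat_lit 441) (nat_lit 5) (nat_lit 429) (nat_lit 5) (nat_lit 570) (nat_lit 530) (nat_lit 460))) (XT.nd (nat_lit 78) (nat_lit 836) (nat_lit 0) (XT.lf (nat_lit 0) (nat_lit 3393214043) (nat_lit 988) (nat_lit 3737749959) (nat_lit 76) (nat_lit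 1373303128) (nat_lit 416) (nat_lit 5) (nat_lit 429) (nat_lit 5) (nat_lit 417) (nat_lit 5) (nat_lit 571) (nat_lit 530) (nat_lit 459)) (XT.nd (nat_lit 78) (nat_lit 0) (nat_lit 0) (XT.lf (nat_lit 0) (nat_lit 1550372413) (nat_lit 836) (nat_lit 4060559350) (nat_lit 912) (nat_lit 2967577719) (nat_lit 405) (nat_lit 5) (nat_lit 416) (nat_lit 5) (nat_lit 417) (nat_lit 5) (nat_lit 572) (nat_lit 530) (nat_lit 458)) (XT.lf (nat_lit 0) (nat_lit 6961887319) (nat_lit 836) (nat_lit 903860909) (nat_lit 912) (nat_lit 788636585) (nat_lit 405) (nat_lit 5) (nat_lit 416) (nat_lit 5) (nat_lit 417) (nat_lit 5) (nat_lit 573) (nat_lit 530) (nat_lit 457))))))) (XT.nd (nat_lit 780) (nat_lit 4712) (nat_lit 0) (XT.nd (nat_lit 390) (nat_lit 3040) (nat_lit 0) (XT.nd (nat_lit 156) (nat_lit 912) (nat_lit 0) (XT.nd (nat_lit 78) (nat_lit 836) (nat_lit 0) (XT.lf (nat_lit 0) (nat_lit 1422808191) (nat_lit 912) (nat_lit 4989995479) (nat_lit 76) (nat_lit 2318636078) (nat_lit 393) (nat_lit 5) (nat_lit 405) (nat_lit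 5) (nat_lit 394) (nat_lit 5) (nat_lit 574) (nat_lit 530) (nat_lit 456)) (XT.lf (nat_lit 0) (nat_lit 458705410) (nat_lit 836) (nat_lit 3198113650) (nat_lit 912) (nat_lit 5153337365) (nat_lit 382) (nat_lit 5) (nat_lit 393) (nat_lit 5) (nat_lit 394) (nat_lit 5) (nat_lit 575) (nat_lit 530) (nat_lit 455))) (XT.nd (nat_lit 78) (nat_lit 912) (nat_lit 0) (XT.lf (nat_lit 0) (nat_lit 5938624015) (nat_lit 912) (nat_lit 2840122784) (nat_lit 76) (nat_lit 111641151) (nat_lit 382) (nat_lit 5) (nat_lit 394) (nat_lit 5) (nat_lit 383) (nat_lit 5) (nat_lit 576) (nat_lit 530) (nat_lit 454)) (XT.nd (nat_lit 78) (nat_lit 76) (nat_lit 0) (XT.lf (nat_lit 0) (nat_lit 2763536677) (nat_lit 836) (nat_lit 5511142377) (nat_lit 912) (nat_lit 697375504) (nat_lit 371) (nat_lit 5) (nat_lit 382) (nat_lit 5) (nat_lit 383) (nat_lit 5) (nat_lit 577) (nat_lit 530) (nat_lit 453)) (XT.lf (nat_lit 0) (nat_lit 1569948984) (nat_lit 912) (nat_lit 580882340) (nat_lit 76) (nat_lit 6904540561) (nat_lit 370) (nat_lit 5)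 (nat_lit 382) (nat_lit 5) (nat_lit 371) (nat_lit 5) (nat_lit 578) (nat_lit 530) (nat_lit 452))))) (XT.nd (nat_lit 156) (nat_lit 1520) (nat_lit 0) (XT.nd (nat_lit 78) (nat_lit 760) (nat_lit 0) (XT.lf (nat_lit 0) (nat_lit 3885784110) (nat_lit 836) (nat_lit 3958451413) (nat_lit 76) (nat_lit 1295780379) (nat_lit 360) (nat_lit 5) (nat_lit 371) (nat_lit 5) (nat_lit 361) (nat_lit 5) (nat_lit 579) (nat_lit 530) (nat_lit 451)) (XT.lf (nat_lit 0) (nat_lit 1817571775) (nat_lit 760) (nat_lit 4430956916) (nat_lit 836) (nat_lit 2977814780) (nat_lit 350) (nat_lit 5) (nat_lit 360) (nat_lit 5) (nat_lit 361) (nat_lit 5) (nat_lit 580) (nat_lit 530) (nat_lit 450))) (XT.nd (nat_lit 78) (nat_lit 1520) (nat_lit 0) (XT.lf (nat_lit 0) (nat_lit 7730133729) (nat_lit 760) (nat_lit 925945921) (nat_lit 836) (nat_lit 658369387) (nat_lit 350) (nat_lit 5) (nat_lit 360) (nat_lit 5) (nat_lit 361) (nat_lit 5) (nat_lit 581) (nat_lit 530) (nat_lit 449)) (XT.nd (nat_lit 78) (nat_lit 760) (nat_lit 0) (XT.lf (nat_lit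 0) (nat_lit 1702250698) (nat_lit 760) (nat_lit 5051058268) (nat_lit 76) (nat_lit 2650444818) (nat_lit 340) (nat_lit 5) (nat_lit 350) (nat_lit 5) (nat_lit 341) (nat_lit 5) (nat_lit 582) (nat_lit 530) (nat_lit 448)) (XT.lf (nat_lit 0) (nat_lit 903870098) (nat_lit 760) (nat_lit 3191802003) (nat_lit 836) (nat_lit 5399199733) (nat_lit 330) (nat_lit 5) (nat_lit 340) (nat_lit 5) (nat_lit 341) (nat_lit 5) (nat_lit 583) (nat_lit 530) (nat_lit 447)))))) (XT.nd (nat_lit 390) (nat_lit 2660) (nat_lit 0) (XT.nd (nat_lit 156) (nat_lit 1368) (nat_lit 0) (XT.nd (nat_lit 78) (nat_lit 684) (nat_lit 0) (XT.lf (nat_lit 0) (nat_lit 6545952728) (nat_lit 836) (nat_lit 2576885213) (nat_lit 76) (nat_lit 464796774) (nat_lit 330) (nat_lit 5) (nat_lit 341) (nat_lit 5) (nat_lit 331) (nat_lit 5) (nat_lit 584) (nat_lit 530) (nat_lit 446)) (XT.lf (nat_lit 0) (nat_lit 3550560734) (nat_lit 684) (nat_lit 5511425670) (nat_lit 760) (nat_lit 619933744) (nat_lit 321) (nat_lit 5) (nat_lit 330) (nat_lit 5) (nat_lit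 331) (nat_lit 5) (nat_lit 585) (nat_lit 530) (nat_lit 445))) (XT.nd (nat_lit 78) (nat_lit 608) (nat_lit 0) (XT.lf (nat_lit 0) (nat_lit 13253519) (nat_lit 684) (nat_lit 1802927000) (nat_lit 760) (nat_lit 7961868717) (nat_lit 311) (nat_lit 5) (nat_lit 320) (nat_lit 5) (nat_lit 321) (nat_lit 5) (nat_lit 586) (nat_lit 530) (nat_lit 444)) (XT.nd (nat_lit 78) (nat_lit 608) (nat_lit 0) (XT.lf (nat_lit 0) (nat_lit 4319990067) (nat_lit 760) (nat_lit 3561464907) (nat_lit 76) (nat_lit 1994020613) (nat_lit 311) (nat_lit 5) (nat_lit 321) (nat_lit 5) (nat_lit 312) (nat_lit 5) (nat_lit 587) (nat_lit 530) (nat_lit 443)) (XT.lf (nat_lit 0) (nat_lit 2757981680) (nat_lit 608) (nat_lit 4119265414) (nat_lit 684) (nat_lit 3097538017) (nat_lit 303) (nat_lit 5) (nat_lit 311) (nat_lit 5) (nat_lit 312) (nat_lit 5) (nat_lit 588) (nat_lit 530) (nat_lit 442))))) (XT.nd (nat_lit 234) (nat_lit 1292) (nat_lit 0) (XT.nd (nat_lit 78) (nat_lit 1368) (nat_lit 0) (XT.lf (nat_lit 0) (nat_lit 9220123168) (nat_lit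 608) (nat_lit 263261674) (nat_lit 684) (nat_lit 592743302) (nat_lit 303) (nat_lit 5) (nat_lit 311) (nat_lit 5) (nat_lit 312) (nat_lit 5) (nat_lit 589) (nat_lit 530) (nat_lit 441)) (XT.nd (nat_lit 78) (nat_lit 608) (nat_lit 0) (XT.lf (nat_lit 0) (nat_lit 1971468153) (nat_lit 760) (nat_lit 4541306322) (nat_lit 76) (nat_lit 3665769629) (nat_lit 293) (nat_lit 5) (nat_lit 303) (nat_lit 5) (nat_lit 294) (nat_lit 5) (nat_lit 590) (nat_lit 530) (nat_lit 440)) (XT.lf (nat_lit 0) (nat_lit 1977327302) (nat_lit 608) (nat_lit 2596511674) (nat_lit 684) (nat_lit 5709196721) (nat_lit 285) (nat_lit 5) (nat_lit 293) (nat_lit 5) (nat_lit 294) (nat_lit 5) (nat_lit 591) (nat_lit 530) (nat_lit 439)))) (XT.nd (nat_lit 78) (nat_lit 1292) (nat_lit 0) (XT.lf (nat_lit 0) (nat_lit 7242704513) (nat_lit 684) (nat_lit 1742603378) (nat_lit 76) (nat_lit 1404022163) (nat_lit 285) (nat_lit 5) (nat_lit 294) (nat_lit 5) (nat_lit 286) (nat_lit 5) (nat_lit 592) (nat_lit 530) (nat_lit 438)) (XT.nd (nat_lit 78) (nat_lit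 684) (nat_lit 0) (XT.lf (nat_lit 0) (nat_lit 4968149124) (nat_lit 608) (nat_lit 5021440083) (nat_lit 684) (nat_lit 507670092) (nat_lit 277) (nat_lit 5) (nat_lit 285) (nat_lit 5) (nat_lit 286) (nat_lit 5) (nat_lit 593) (nat_lit 530) (nat_lit 437)) (XT.lf (nat_lit 0) (nat_lit 1199397845) (nat_lit 608) (nat_lit 950889208) (nat_lit 684) (nat_lit 8456880897) (nat_lit 268) (nat_lit 5) (nat_lit 276) (nat_lit 5) (nat_lit 277) (nat_lit 5) (nat_lit 594) (nat_lit 530) (nat_lit 436))))))))
noncomputable def xc94 : XT := (XT.nd (nat_lit 1560) (nat_lit 1672) (nat_lit 0) (XT.nd (nat_lit 780) (nat_lit 2964) (nat_lit 0) (XT.nd (nat_lit 390) (nat_lit 1596) (nat_lit 0) (XT.nd (nat_lit 156) (nat_lit 1140) (nat_lit 0) (XT.nd (nat_lit 78) (nat_lit 608) (nat_lit 0) (XT.lf (nat_lit 0) (nat_lit 4888286638) (nat_lit 684) (nat_lit 2637434359) (nat_lit 76) (nat_lit 3192814777) (nat_lit 268) (nat_lit 5) (nat_lit 277) (nat_lit 5) (nat_lit 269) (nat_lit 5) (nat_lit 595) (nat_lit 530) (nat_lit 435)) (XT.lf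 (nat_lit 0) (nat_lit 4286925838) (nat_lit 608) (nat_lit 3404272985) (nat_lit 684) (nat_lit 3140730780) (nat_lit 260) (nat_lit 5) (nat_lit 268) (nat_lit 5) (nat_lit 269) (nat_lit 5) (nat_lit 596) (nat_lit 530) (nat_lit 434))) (XT.nd (nat_lit 78) (nat_lit 608) (nat_lit 0) (XT.lf (nat_lit 0) (nat_lit 406782602) (nat_lit 532) (nat_lit 10145277079) (nat_lit 608) (nat_lit 395495484) (nat_lit 253) (nat_lit 5) (nat_lit 260) (nat_lit 5) (nat_lit 261) (nat_lit 5) (nat_lit 597) (nat_lit 530) (nat_lit 433)) (XT.nd (nat_lit 78) (nat_lit 532) (nat_lit 0) (XT.lf (nat_lit 0) (nat_lit 2416210557) (nat_lit 608) (nat_lit 3548378320) (nat_lit 76) (nat_lit 5099731645) (nat_lit 252) (nat_lit 5) (nat_lit 260) (nat_lit 5) (nat_lit 253) (nat_lit 5) (nat_lit 598) (nat_lit 530) (nat_lit 432)) (XT.lf (nat_lit 0) (nat_lit 3597406468) (nat_lit 532) (nat_lit 1681621291) (nat_lit 608) (nat_lit 5904339258) (nat_lit 245) (nat_lit 5) (nat_lit 252) (nat_lit 5) (nat_lit 253) (nat_lit 5) (nat_lit 599) (nat_lit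 530) (nat_lit 431))))) (XT.nd (nat_lit 156) (nat_lit 1064) (nat_lit 0) (XT.nd (nat_lit 78) (nat_lit 532) (nat_lit 0) (XT.lf (nat_lit 0) (nat_lit 8217530785) (nat_lit 608) (nat_lit 418939358) (nat_lit 76) (nat_lit 2667957249) (nat_lit 245) (nat_lit 5) (nat_lit 253) (nat_lit 5) (nat_lit 246) (nat_lit 5) (nat_lit 600) (nat_lit 530) (nat_lit 430)) (XT.lf (nat_lit 0) (nat_lit 6940702700) (nat_lit 532) (nat_lit 4307766554) (nat_lit 608) (nat_lit 178767921) (nat_lit 238) (nat_lit 5) (nat_lit 245) (nat_lit 5) (nat_lit 246) (nat_lit 5) (nat_lit 601) (nat_lit 530) (nat_lit 429))) (XT.nd (nat_lit 78) (nat_lit 456) (nat_lit 0) (XT.lf (nat_lit 0) (nat_lit 2751024874) (nat_lit 608) (nat_lit 8663223337) (nat_lit 76) (nat_lit 137893217) (nat_lit 230) (nat_lit 5) (nat_lit 238) (nat_lit 5) (nat_lit 231) (nat_lit 5) (nat_lit 602) (nat_lit 530) (nat_lit 428)) (XT.nd (nat_lit 78) (nat_lit 456) (nat_lit 0) (XT.lf (nat_lit 0) (nat_lit 5773605177) (nat_lit 608) (nat_lit 1267056496) (nat_lit 76) (nat_lit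 4638128175) (nat_lit 230) (nat_lit 5) (nat_lit 238) (nat_lit 5) (nat_lit 231) (nat_lit 5) (nat_lit 603) (nat_lit 530) (nat_lit 427)) (XT.lf (nat_lit 0) (nat_lit 6329756236) (nat_lit 456) (nat_lit 2546162600) (nat_lit 532) (nat_lit 2931668160) (nat_lit 224) (nat_lit 5) (nat_lit 230) (nat_lit 5) (nat_lit 231) (nat_lit 5) (nat_lit 604) (nat_lit 530) (nat_lit 426)))))) (XT.nd (nat_lit 390) (nat_lit 1368) (nat_lit 0) (XT.nd (nat_lit 156) (nat_lit 988) (nat_lit 0) (XT.nd (nat_lit 78) (nat_lit 0) (nat_lit 0) (XT.lf (nat_lit 0) (nat_lit 114138087) (nat_lit 608) (nat_lit 9798220020) (nat_lit 76) (nat_lit 2026307199) (nat_lit 216) (nat_lit 5) (nat_lit 224) (nat_lit 5) (nat_lit 217) (nat_lit 5) (nat_lit 605) (nat_lit 530) (nat_lit 425)) (XT.lf (nat_lit 0) (nat_lit 3213953182) (nat_lit 608) (nat_lit 2153369249) (nat_lit 76) (nat_lit 6704009543) (nat_lit 216) (nat_lit 5) (nat_lit 224) (nat_lit 5) (nat_lit 217) (nat_lit 5) (nat_lit 606) (nat_lit 530) (nat_lit 424))) (XT.nd (nat_lit 78)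 (nat_lit 532) (nat_lit 0) (XT.lf (nat_lit 0) (nat_lit 5689031325) (nat_lit 456) (nat_lit 702539332) (nat_lit 532) (nat_lit 5814766486) (nat_lit 210) (nat_lit 5) (nat_lit 216) (nat_lit 5) (nat_lit 217) (nat_lit 5) (nat_lit 607) (nat_lit 530) (nat_lit 423)) (XT.nd (nat_lit 78) (nat_lit 76) (nat_lit 0) (XT.lf (nat_lit 0) (nat_lit 1334668702) (nat_lit 456) (nat_lit 8326647248) (nat_lit 532) (nat_lit 2682156218) (nat_lit 204) (nat_lit 5) (nat_lit 210) (nat_lit 5) (nat_lit 211) (nat_lit 5) (nat_lit 608) (nat_lit 530) (nat_lit 422)) (XT.lf (nat_lit 0) (nat_lit 534164439) (nat_lit 532) (nat_lit 3088927717) (nat_lit 76) (nat_lit 8859636570) (nat_lit 203) (nat_lit 5) (nat_lit 210) (nat_lit 5) (nat_lit 204) (nat_lit 5) (nat_lit 609) (nat_lit 530) (nat_lit 421))))) (XT.nd (nat_lit 156) (nat_lit 456) (nat_lit 0) (XT.nd (nat_lit 78) (nat_lit 456) (nat_lit 0) (XT.lf (nat_lit 0) (nat_lit 3798863966) (nat_lit 532) (nat_lit 7624429210) (nat_lit 76) (nat_lit 1200724517) (nat_lit 197) (nat_lit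 5) (nat_lit 204) (nat_lit 5) (nat_lit 198) (nat_lit 5) (nat_lit 610) (nat_lit 530) (nat_lit 420)) (XT.lf (nat_lit 0) (nat_lit 476379462) (nat_lit 456) (nat_lit 6680102230) (nat_lit 532) (nat_lit 5611099431) (nat_lit 191) (nat_lit 5) (nat_lit 197) (nat_lit 5) (nat_lit 198) (nat_lit 5) (nat_lit 611) (nat_lit 530) (nat_lit 419))) (XT.nd (nat_lit 78) (nat_lit 456) (nat_lit 0) (XT.lf (nat_lit 0) (nat_lit 8812985835) (nat_lit 456) (nat_lit 1799308124) (nat_lit 532) (nat_lit 2301102161) (nat_lit 191) (nat_lit 5) (nat_lit 197) (nat_lit 5) (nat_lit 198) (nat_lit 5) (nat_lit 612) (nat_lit 530) (nat_lit 418)) (XT.nd (nat_lit 78) (nat_lit 0) (nat_lit 0) (XT.lf (nat_lit 0) (nat_lit 1089695618) (nat_lit 456) (nat_lit 8808624586) (nat_lit 76) (nat_lit 3163094696) (nat_lit 185) (nat_lit 5) (nat_lit 191) (nat_lit 5) (nat_lit 186) (nat_lit 5) (nat_lit 613) (nat_lit 530) (nat_lit 417)) (XT.lf (nat_lit 0) (nat_lit 4537421172) (nat_lit 456) (nat_lit 439939484) (nat_lit 76) (nat_lit 8234331801)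 (nat_lit 185) (nat_lit 5) (nat_lit 191) (nat_lit 5) (nat_lit 186) (nat_lit 5) (nat_lit 614) (nat_lit 530) (nat_lit 416))))))) (XT.nd (nat_lit 74958) (nat_lit 0) (nat_lit 38380) (XT.nd (nat_lit 390) (nat_lit 0) (nat_lit 0) (XT.nd (nat_lit 156) (nat_lit 836) (nat_lit 0) (XT.nd (nat_lit 78) (nat_lit 380) (nat_lit 0) (XT.lf (nat_lit 0) (nat_lit 8088405624) (nat_lit 532) (nat_lit 5190354167) (nat_lit 76) (nat_lit 85530742) (nat_lit 179) (nat_lit 5) (nat_lit 186) (nat_lit 5) (nat_lit 180) (nat_lit 5) (nat_lit 615) (nat_lit 530) (nat_lit 415)) (XT.lf (nat_lit 0) (nat_lit 3429212455) (nat_lit 380) (nat_lit 8320195378) (nat_lit 456) (nat_lit 1769753813) (nat_lit 174) (nat_lit 5) (nat_lit 179) (nat_lit 5) (nat_lit 180) (nat_lit 5) (nat_lit 616) (nat_lit 530) (nat_lit 414))) (XT.nd (nat_lit 78) (nat_lit 760) (nat_lit 0) (XT.lf (nat_lit 0) (nat_lit 1798729770) (nat_lit 456) (nat_lit 1425882851) (nat_lit 76) (nat_lit 10451965527) (nat_lit 173) (nat_lit 5) (nat_lit 179) (nat_lit 5) (nat_lit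 174) (nat_lit 5) (nat_lit 617) (nat_lit 530) (nat_lit 413)) (XT.nd (nat_lit 78) (nat_lit 380) (nat_lit 0) (XT.lf (nat_lit 0) (nat_lit 5457785728) (nat_lit 456) (nat_lit 6380202501) (nat_lit 76) (nat_lit 1998063771) (nat_lit 168) (nat_lit 5) (nat_lit 174) (nat_lit 5) (nat_lit 169) (nat_lit 5) (nat_lit 618) (nat_lit 530) (nat_lit 412)) (XT.lf (nat_lit 0) (nat_lit 2519070197) (nat_lit 380) (nat_lit 6699653503) (nat_lit 456) (nat_lit 4779418570) (nat_lit 163) (nat_lit 5) (nat_lit 168) (nat_lit 5) (nat_lit 169) (nat_lit 5) (nat_lit 619) (nat_lit 530) (nat_lit 411))))) (XT.nd (nat_lit 74334) (nat_lit 0) (nat_lit 41116) (XT.nd (nat_lit 74256) (nat_lit 0) (nat_lit 41952) (XT.lf (nat_lit 0) (nat_lit 11654431438) (nat_lit 380) (nat_lit 1424803330) (nat_lit 456) (nat_lit 1083753427) (nat_lit 163) (nat_lit 5) (nat_lit 168) (nat_lit 5) (nat_lit 169) (nat_lit 5) (nat_lit 620) (nat_lit 530) (nat_lit 410)) (XT.lf (nat_lit 0) (nat_lit 515128862) (nat_lit 836) (nat_lit 1410553939) (nat_lit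 836) (nat_lit 1410553939) (nat_lit 715) (nat_lit 3) (nat_lit 726) (nat_lit 3) (nat_lit 726) (nat_lit 5) (nat_lit 531) (nat_lit 531) (nat_lit 498))) (XT.nd (nat_lit 78) (nat_lit 836) (nat_lit 0) (XT.lf (nat_lit 76) (nat_lit 489893724) (nat_lit 0) (nat_lit 2792094097) (nat_lit 836) (nat_lit 3412072119) (nat_lit 716) (nat_lit 5) (nat_lit 715) (nat_lit 3) (nat_lit 726) (nat_lit 5) (nat_lit 532) (nat_lit 531) (nat_lit 497)) (XT.nd (nat_lit 78) (nat_lit 836) (nat_lit 0) (XT.lf (nat_lit 76) (nat_lit 3875012078) (nat_lit 0) (nat_lit 1663764528) (nat_lit 836) (nat_lit 1178109168) (nat_lit 716) (nat_lit 5) (nat_lit 715) (nat_lit 3) (nat_lit 726) (nat_lit 5) (nat_lit 533) (nat_lit 531) (nat_lit 496)) (XT.lf (nat_lit 76) (nat_lit 557298710) (nat_lit 0) (nat_lit 474276679) (nat_lit 912) (nat_lit 5709548115) (nat_lit 705) (nat_lit 5) (nat_lit 704) (nat_lit 5) (nat_lit 716) (nat_lit 5) (nat_lit 534) (nat_lit 531) (nat_lit 495)))))) (XT.nd (nat_lit 390) (nat_lit 1900) (nat_lit 0) (XT.nd (nat_lit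 156) (nat_lit 912) (nat_lit 0) (XT.nd (nat_lit 78) (nat_lit 0) (nat_lit 0) (XT.lf (nat_lit 0) (nat_lit 3236663624) (nat_lit 836) (nat_lit 2746868988) (nat_lit 912) (nat_lit 782825589) (nat_lit 705) (nat_lit 5) (nat_lit 716) (nat_lit 5) (nat_lit 717) (nat_lit 5) (nat_lit 535) (nat_lit 531) (nat_lit 494)) (XT.lf (nat_lit 76) (nat_lit 734281047) (nat_lit 0) (nat_lit 4703574325) (nat_lit 912) (nat_lit 1355209688) (nat_lit 706) (nat_lit 5) (nat_lit 705) (nat_lit 5) (nat_lit 717) (nat_lit 5) (nat_lit 536) (nat_lit 531) (nat_lit 493))) (XT.nd (nat_lit 78) (nat_lit 0) (nat_lit 0) (XT.lf (nat_lit 0) (nat_lit 814622464) (nat_lit 912) (nat_lit 2534945749) (nat_lit 988) (nat_lit 3471369569) (nat_lit 693) (nat_lit 5) (nat_lit 705) (nat_lit 5) (nat_lit 706) (nat_lit 5) (nat_lit 537) (nat_lit 531) (nat_lit 492)) (XT.nd (nat_lit 78) (nat_lit 0) (nat_lit 0) (XT.lf (nat_lit 76) (nat_lit 1032988038) (nat_lit 0) (nat_lit 1929144569) (nat_lit 988) (nat_lit 3888014713) (nat_lit 694) (nat_lit 5)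 (nat_lit 693) (nat_lit 5) (nat_lit 706) (nat_lit 5) (nat_lit 538) (nat_lit 531) (nat_lit 491)) (XT.lf (nat_lit 76) (nat_lit 4675891838) (nat_lit 0) (nat_lit 440280713) (nat_lit 988) (nat_lit 1764503840) (nat_lit 694) (nat_lit 5) (nat_lit 693) (nat_lit 5) (nat_lit 706) (nat_lit 5) (nat_lit 539) (nat_lit 531) (nat_lit 490))))) (XT.nd (nat_lit 234) (nat_lit 988) (nat_lit 0) (XT.nd (nat_lit 78) (nat_lit 0) (nat_lit 0) (XT.lf (nat_lit 0) (nat_lit 360214047) (nat_lit 988) (nat_lit 5454261285) (nat_lit 1064) (nat_lit 1098015197) (nat_lit 681) (nat_lit 5) (nat_lit 694) (nat_lit 5) (nat_lit 695) (nat_lit 5) (nat_lit 540) (nat_lit 531) (nat_lit 489)) (XT.nd (nat_lit 78) (nat_lit 0) (nat_lit 0) (XT.lf (nat_lit 0) (nat_lit 2469866532) (nat_lit 988) (nat_lit 1766789130) (nat_lit 1064) (nat_lit 2708737216) (nat_lit 681) (nat_lit 5) (nat_lit 694) (nat_lit 5) (nat_lit 695) (nat_lit 5) (nat_lit 541) (nat_lit 531) (nat_lit 488)) (XT.lf (nat_lit 76) (nat_lit 1989312227) (nat_lit 0) (nat_lit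 2594566603) (nat_lit 1064) (nat_lit 2395837515) (nat_lit 682) (nat_lit 5) (nat_lit 681) (nat_lit 5) (nat_lit 695) (nat_lit 5) (nat_lit 542) (nat_lit 531) (nat_lit 487)))) (XT.nd (nat_lit 78) (nat_lit 988) (nat_lit 0) (XT.lf (nat_lit 76) (nat_lit 5813479808) (nat_lit 0) (nat_lit 888592256) (nat_lit 1064) (nat_lit 313422482) (nat_lit 682) (nat_lit 5) (nat_lit 681) (nat_lit 5) (nat_lit 695) (nat_lit 5) (nat_lit 543) (nat_lit 531) (nat_lit 486)) (XT.nd (nat_lit 78) (nat_lit 0) (nat_lit 0) (XT.lf (nat_lit 0) (nat_lit 1760659061) (nat_lit 1064) (nat_lit 4404102080) (nat_lit 1140) (nat_lit 887522789) (nat_lit 668) (nat_lit 5) (nat_lit 682) (nat_lit 5) (nat_lit 683) (nat_lit 5) (nat_lit 544) (nat_lit 531) (nat_lit 485)) (XT.lf (nat_lit 0) (nat_lit 3837608714) (nat_lit 1064) (nat_lit 537931214) (nat_lit 1140) (nat_lit 2714921992) (nat_lit 668) (nat_lit 5) (nat_lit 682) (nat_lit 5) (nat_lit 683) (nat_lit 5) (nat_lit 545) (nat_lit 531) (nat_lit 484))))))))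
noncomputable def xc95 : XT := (XT.nd (nat_lit 1560) (nat_lit 12160) (nat_lit 0) (XT.nd (nat_lit 780) (nat_lit 9500) (nat_lit 0) (XT.nd (nat_lit 390) (nat_lit 3648) (nat_lit 0) (XT.nd (nat_lit 156) (nat_lit 0) (nat_lit 76) (XT.nd (nat_lit 78) (nat_lit 1140) (nat_lit 0) (XT.lf (nat_lit 76) (nat_lit 3419085724) (nat_lit 0) (nat_lit 2511735113) (nat_lit 1140) (nat_lit 1199093965) (nat_lit 669) (nat_lit 5) (nat_lit 668) (nat_lit 5) (nat_lit 683) (nat_lit 5) (nat_lit 546) (nat_lit 531) (nat_lit 483)) (XT.lf (nat_lit 76) (nat_lit 258253423) (nat_lit 0) (nat_lit 583987896) (nat_lit 1216) (nat_lit 6328639712) (nat_lit 654) (nat_lit 5) (nat_lit 653) (nat_lit 5) (nat_lit 669) (nat_lit 5) (nat_lit 547) (nat_lit 531) (nat_lit 482))) (XT.nd (nat_lit 78) (nat_lit 0) (nat_lit 0) (XT.lf (nat_lit 0) (nat_lit 2896156254) (nat_lit 1140) (nat_lit 2904794413) (nat_lit 1216) (nat_lit 1411806689) (nat_lit 654) (nat_lit 5) (nat_lit 669) (nat_lit 5) (nat_lit 670) (nat_lit 5) (nat_lit 548) (nat_lit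 531) (nat_lit 481)) (XT.nd (nat_lit 78) (nat_lit 0) (nat_lit 0) (XT.lf (nat_lit 76) (nat_lit 1162650992) (nat_lit 0) (nat_lit 3794573855) (nat_lit 1216) (nat_lit 2298930212) (nat_lit 655) (nat_lit 5) (nat_lit 654) (nat_lit 5) (nat_lit 670) (nat_lit 5) (nat_lit 549) (nat_lit 531) (nat_lit 480)) (XT.lf (nat_lit 76) (nat_lit 5319105232) (nat_lit 0) (nat_lit 1715244588) (nat_lit 1216) (nat_lit 266579451) (nat_lit 655) (nat_lit 5) (nat_lit 654) (nat_lit 5) (nat_lit 670) (nat_lit 5) (nat_lit 550) (nat_lit 531) (nat_lit 479))))) (XT.nd (nat_lit 156) (nat_lit 2584) (nat_lit 0) (XT.nd (nat_lit 78) (nat_lit 0) (nat_lit 0) (XT.lf (nat_lit 0) (nat_lit 1755803861) (nat_lit 1216) (nat_lit 5152354721) (nat_lit 76) (nat_lit 438749327) (nat_lit 639) (nat_lit 5) (nat_lit 655) (nat_lit 5) (nat_lit 640) (nat_lit 5) (nat_lit 551) (nat_lit 531) (nat_lit 478)) (XT.lf (nat_lit 0) (nat_lit 3796475413) (nat_lit 1216) (nat_lit 957857413) (nat_lit 76) (nat_lit 2639814802) (nat_lit 639) (nat_lit 5) (nat_lit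 655) (nat_lit 5) (nat_lit 640) (nat_lit 5) (nat_lit 552) (nat_lit 531) (nat_lit 477))) (XT.nd (nat_lit 78) (nat_lit 1368) (nat_lit 0) (XT.lf (nat_lit 0) (nat_lit 3332444620) (nat_lit 1216) (nat_lit 2524662357) (nat_lit 1292) (nat_lit 1585647087) (nat_lit 623) (nat_lit 5) (nat_lit 639) (nat_lit 5) (nat_lit 640) (nat_lit 5) (nat_lit 553) (nat_lit 531) (nat_lit 476)) (XT.nd (nat_lit 78) (nat_lit 0) (nat_lit 0) (XT.lf (nat_lit 0) (nat_lit 196693722) (nat_lit 1292) (nat_lit 229408694) (nat_lit 1368) (nat_lit 7066862215) (nat_lit 605) (nat_lit 5) (nat_lit 622) (nat_lit 5) (nat_lit 623) (nat_lit 5) (nat_lit 554) (nat_lit 531) (nat_lit 475)) (XT.lf (nat_lit 0) (nat_lit 2456888396) (nat_lit 1368) (nat_lit 2955301260) (nat_lit 76) (nat_lit 2131784039) (nat_lit 605) (nat_lit 5) (nat_lit 623) (nat_lit 5) (nat_lit 606) (nat_lit 5) (nat_lit 555) (nat_lit 531) (nat_lit 474)))))) (XT.nd (nat_lit 390) (nat_lit 5092) (nat_lit 0) (XT.nd (nat_lit 156) (nat_lit 3040) (nat_lit 0) (XT.nd (nat_lit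 78) (nat_lit 0) (nat_lit 0) (XT.lf (nat_lit 0) (nat_lit 1457900661) (nat_lit 1368) (nat_lit 3040724909) (nat_lit 1444) (nat_lit 3097975146) (nat_lit 587) (nat_lit 5) (nat_lit 605) (nat_lit 5) (nat_lit 606) (nat_lit 5) (nat_lit 556) (nat_lit 531) (nat_lit 473)) (XT.lf (nat_lit 0) (nat_lit 5967449788) (nat_lit 1368) (nat_lit 593519317) (nat_lit 1444) (nat_lit 1089720138) (nat_lit 587) (nat_lit 5) (nat_lit 605) (nat_lit 5) (nat_lit 606) (nat_lit 5) (nat_lit 557) (nat_lit 531) (nat_lit 472))) (XT.nd (nat_lit 78) (nat_lit 1520) (nat_lit 0) (XT.lf (nat_lit 0) (nat_lit 937728531) (nat_lit 1520) (nat_lit 4857980042) (nat_lit 76) (nat_lit 1910198661) (nat_lit 567) (nat_lit 5) (nat_lit 587) (nat_lit 5) (nat_lit 568) (nat_lit 5) (nat_lit 558) (nat_lit 531) (nat_lit 471)) (XT.nd (nat_lit 78) (nat_lit 1520) (nat_lit 0) (XT.lf (nat_lit 0) (nat_lit 2967527453) (nat_lit 1520) (nat_lit 313192426) (nat_lit 76) (nat_lit 4481841936) (nat_lit 567) (nat_lit 5) (nat_lit 587) (nat_lit 5) (nat_lit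 568) (nat_lit 5) (nat_lit 559) (nat_lit 531) (nat_lit 470)) (XT.lf (nat_lit 0) (nat_lit 4347647799) (nat_lit 1520) (nat_lit 680343714) (nat_lit 1596) (nat_lit 2792560654) (nat_lit 547) (nat_lit 5) (nat_lit 567) (nat_lit 5) (nat_lit 568) (nat_lit 5) (nat_lit 560) (nat_lit 531) (nat_lit 469))))) (XT.nd (nat_lit 156) (nat_lit 3420) (nat_lit 0) (XT.nd (nat_lit 78) (nat_lit 76) (nat_lit 0) (XT.lf (nat_lit 0) (nat_lit 1196718702) (nat_lit 1596) (nat_lit 5918058190) (nat_lit 1672) (nat_lit 765227175) (nat_lit 526) (nat_lit 5) (nat_lit 547) (nat_lit 5) (nat_lit 548) (nat_lit 5) (nat_lit 561) (nat_lit 531) (nat_lit 468)) (XT.lf (nat_lit 0) (nat_lit 1276234436) (nat_lit 1672) (nat_lit 1979220895) (nat_lit 76) (nat_lit 4685211030) (nat_lit 525) (nat_lit 5) (nat_lit 547) (nat_lit 5) (nat_lit 526) (nat_lit 5) (nat_lit 562) (nat_lit 531) (nat_lit 467))) (XT.nd (nat_lit 78) (nat_lit 1748) (nat_lit 0) (XT.lf (nat_lit 0) (nat_lit 2818732432) (nat_lit 1672) (nat_lit 511289518) (nat_lit 1748)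 (nat_lit 4672787679) (nat_lit 503) (nat_lit 5) (nat_lit 525) (nat_lit 5) (nat_lit 526) (nat_lit 5) (nat_lit 563) (nat_lit 531) (nat_lit 466)) (XT.nd (nat_lit 78) (nat_lit 1748) (nat_lit 0) (XT.lf (nat_lit 0) (nat_lit 5417077967) (nat_lit 1748) (nat_lit 374031746) (nat_lit 76) (nat_lit 2275245872) (nat_lit 503) (nat_lit 5) (nat_lit 526) (nat_lit 5) (nat_lit 504) (nat_lit 5) (nat_lit 564) (nat_lit 531) (nat_lit 465)) (XT.lf (nat_lit 0) (nat_lit 4556595341) (nat_lit 1748) (nat_lit 2986926234) (nat_lit 1824) (nat_lit 587701564) (nat_lit 480) (nat_lit 5) (nat_lit 503) (nat_lit 5) (nat_lit 504) (nat_lit 5) (nat_lit 565) (nat_lit 531) (nat_lit 464))))))) (XT.nd (nat_lit 780) (nat_lit 5548) (nat_lit 0) (XT.nd (nat_lit 390) (nat_lit 2660) (nat_lit 0) (XT.nd (nat_lit 156) (nat_lit 2052) (nat_lit 0) (XT.nd (nat_lit 78) (nat_lit 0) (nat_lit 0) (XT.lf (nat_lit 0) (nat_lit 1369420844) (nat_lit 1824) (nat_lit 102160114) (nat_lit 1900) (nat_lit 6726086897) (nat_lit 455) (nat_lit 5) (nat_lit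 479) (nat_lit 5) (nat_lit 480) (nat_lit 5) (nat_lit 566) (nat_lit 531) (nat_lit 463)) (XT.lf (nat_lit 0) (nat_lit 3572199072) (nat_lit 1900) (nat_lit 1859400777) (nat_lit 76) (nat_lit 2833606933) (nat_lit 455) (nat_lit 5) (nat_lit 480) (nat_lit 5) (nat_lit 456) (nat_lit 5) (nat_lit 567) (nat_lit 531) (nat_lit 462))) (XT.nd (nat_lit 78) (nat_lit 988) (nat_lit 0) (XT.lf (nat_lit 0) (nat_lit 3218243364) (nat_lit 1064) (nat_lit 2484259962) (nat_lit 1140) (nat_lit 2631843020) (nat_lit 441) (nat_lit 5) (nat_lit 455) (nat_lit 5) (nat_lit 456) (nat_lit 5) (nat_lit 568) (nat_lit 531) (nat_lit 461)) (XT.nd (nat_lit 78) (nat_lit 988) (nat_lit 0) (XT.lf (nat_lit 0) (nat_lit 7857933011) (nat_lit 1140) (nat_lit 18027196) (nat_lit 76) (nat_lit 529261375) (nat_lit 441) (nat_lit 5) (nat_lit 456) (nat_lit 5) (nat_lit 442) (nat_lit 5) (nat_lit 569) (nat_lit 531) (nat_lit 460)) (XT.lf (nat_lit 0) (nat_lit 1575812214) (nat_lit 988) (nat_lit 3285696863) (nat_lit 76) (nat_lit 3615452081) (nat_lit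 428) (nat_lit 5) (nat_lit 441) (nat_lit 5) (nat_lit 429) (nat_lit 5) (nat_lit 570) (nat_lit 531) (nat_lit 459))))) (XT.nd (nat_lit 156) (nat_lit 1748) (nat_lit 0) (XT.nd (nat_lit 78) (nat_lit 0) (nat_lit 0) (XT.lf (nat_lit 0) (nat_lit 1944563084) (nat_lit 912) (nat_lit 1769682413) (nat_lit 988) (nat_lit 4836216783) (nat_lit 416) (nat_lit 5) (nat_lit 428) (nat_lit 5) (nat_lit 429) (nat_lit 5) (nat_lit 571) (nat_lit 531) (nat_lit 458)) (XT.lf (nat_lit 0) (nat_lit 5894504553) (nat_lit 988) (nat_lit 1342760296) (nat_lit 76) (nat_lit 1388190451) (nat_lit 416) (nat_lit 5) (nat_lit 429) (nat_lit 5) (nat_lit 417) (nat_lit 5) (nat_lit 572) (nat_lit 531) (nat_lit 457))) (XT.nd (nat_lit 78) (nat_lit 912) (nat_lit 0) (XT.lf (nat_lit 0) (nat_lit 4034876203) (nat_lit 836) (nat_lit 4089915911) (nat_lit 912) (nat_lit 577030560) (nat_lit 405) (nat_lit 5) (nat_lit 416) (nat_lit 5) (nat_lit 417) (nat_lit 5) (nat_lit 573) (nat_lit 531) (nat_lit 456)) (XT.nd (nat_lit 78) (nat_lit 0) (nat_lit 0)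 (XT.lf (nat_lit 0) (nat_lit 725495188) (nat_lit 836) (nat_lit 855716500) (nat_lit 912) (nat_lit 7198648395) (nat_lit 393) (nat_lit 5) (nat_lit 404) (nat_lit 5) (nat_lit 405) (nat_lit 5) (nat_lit 574) (nat_lit 531) (nat_lit 455)) (XT.lf (nat_lit 0) (nat_lit 3791395485) (nat_lit 912) (nat_lit 2622249771) (nat_lit 76) (nat_lit 2445409428) (nat_lit 393) (nat_lit 5) (nat_lit 405) (nat_lit 5) (nat_lit 394) (nat_lit 5) (nat_lit 575) (nat_lit 531) (nat_lit 454)))))) (XT.nd (nat_lit 390) (nat_lit 3040) (nat_lit 0) (XT.nd (nat_lit 156) (nat_lit 1672) (nat_lit 0) (XT.nd (nat_lit 78) (nat_lit 0) (nat_lit 0) (XT.lf (nat_lit 0) (nat_lit 2919191283) (nat_lit 836) (nat_lit 3120925908) (nat_lit 912) (nat_lit 2899832036) (nat_lit 382) (nat_lit 5) (nat_lit 393) (nat_lit 5) (nat_lit 394) (nat_lit 5) (nat_lit 576) (nat_lit 531) (nat_lit 453)) (XT.lf (nat_lit 0) (nat_lit 8323159425) (nat_lit 912) (nat_lit 449076561) (nat_lit 76) (nat_lit 250441432) (nat_lit 382) (nat_lit 5) (nat_lit 394) (nat_lit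 5) (nat_lit 383) (nat_lit 5) (nat_lit 577) (nat_lit 531) (nat_lit 452))) (XT.nd (nat_lit 78) (nat_lit 760) (nat_lit 0) (XT.lf (nat_lit 0) (nat_lit 1550142654) (nat_lit 912) (nat_lit 3866200589) (nat_lit 76) (nat_lit 3690006895) (nat_lit 370) (nat_lit 5) (nat_lit 382) (nat_lit 5) (nat_lit 371) (nat_lit 5) (nat_lit 578) (nat_lit 531) (nat_lit 451)) (XT.nd (nat_lit 78) (nat_lit 0) (nat_lit 0) (XT.lf (nat_lit 0) (nat_lit 1845298760) (nat_lit 760) (nat_lit 1976007107) (nat_lit 836) (nat_lit 5370582977) (nat_lit 360) (nat_lit 5) (nat_lit 370) (nat_lit 5) (nat_lit 371) (nat_lit 5) (nat_lit 579) (nat_lit 531) (nat_lit 450)) (XT.lf (nat_lit 0) (nat_lit 6145162647) (nat_lit 836) (nat_lit 1597521402) (nat_lit 76) (nat_lit 1536311344) (nat_lit 360) (nat_lit 5) (nat_lit 371) (nat_lit 5) (nat_lit 361) (nat_lit 5) (nat_lit 580) (nat_lit 531) (nat_lit 449))))) (XT.nd (nat_lit 234) (nat_lit 1520) (nat_lit 0) (XT.nd (nat_lit 78) (nat_lit 760) (nat_lit 0) (XT.lf (nat_lit 0) (nat_lit 4277968966)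 (nat_lit 760) (nat_lit 4250153963) (nat_lit 836) (nat_lit 839471045) (nat_lit 350) (nat_lit 5) (nat_lit 360) (nat_lit 5) (nat_lit 361) (nat_lit 5) (nat_lit 581) (nat_lit 531) (nat_lit 448)) (XT.nd (nat_lit 78) (nat_lit 0) (nat_lit 0) (XT.lf (nat_lit 0) (nat_lit 803853976) (nat_lit 684) (nat_lit 665179036) (nat_lit 760) (nat_lit 7988980205) (nat_lit 340) (nat_lit 5) (nat_lit 349) (nat_lit 5) (nat_lit 350) (nat_lit 5) (nat_lit 582) (nat_lit 531) (nat_lit 447)) (XT.lf (nat_lit 0) (nat_lit 3838528818) (nat_lit 760) (nat_lit 2722643104) (nat_lit 76) (nat_lit 2988438989) (nat_lit 340) (nat_lit 5) (nat_lit 350) (nat_lit 5) (nat_lit 341) (nat_lit 5) (nat_lit 583) (nat_lit 531) (nat_lit 446)))) (XT.nd (nat_lit 78) (nat_lit 760) (nat_lit 0) (XT.lf (nat_lit 0) (nat_lit 3335400695) (nat_lit 760) (nat_lit 2918867436) (nat_lit 836) (nat_lit 3388797598) (nat_lit 330) (nat_lit 5) (nat_lit 340) (nat_lit 5) (nat_lit 341) (nat_lit 5) (nat_lit 584) (nat_lit 531) (nat_lit 445)) (XT.nd (nat_lit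 78) (nat_lit 760) (nat_lit 0) (XT.lf (nat_lit 0) (nat_lit 8714978770) (nat_lit 836) (nat_lit 223550175) (nat_lit 76) (nat_lit 799929768) (nat_lit 330) (nat_lit 5) (nat_lit 341) (nat_lit 5) (nat_lit 331) (nat_lit 5) (nat_lit 585) (nat_lit 531) (nat_lit 444)) (XT.lf (nat_lit 0) (nat_lit 1403112759) (nat_lit 760) (nat_lit 3833729997) (nat_lit 76) (nat_lit 4598094775) (nat_lit 320) (nat_lit 5) (nat_lit 330) (nat_lit 5) (nat_lit 321) (nat_lit 5) (nat_lit 586) (nat_lit 531) (nat_lit 443))))))))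
noncomputable def xc96 : XT := (XT.nd (nat_lit 1560) (nat_lit 4028) (nat_lit 0) (XT.nd (nat_lit 780) (nat_lit 3952) (nat_lit 0) (XT.nd (nat_lit 390) (nat_lit 1900) (nat_lit 0) (XT.nd (nat_lit 156) (nat_lit 1368) (nat_lit 0) (XT.nd (nat_lit 78) (nat_lit 0) (nat_lit 0) (XT.lf (nat_lit 0) (nat_lit 2413773943) (nat_lit 684) (nat_lit 1441718184) (nat_lit 760) (nat_lit 6077901384) (nat_lit 311) (nat_lit 5) (nat_lit 320) (nat_lit 5) (nat_lit 321) (nat_lit 5) (nat_lit 587) (nat_lit 531) (nat_lit 442)) (XT.lf (nat_lit 0) (nat_lit 6372632339) (nat_lit 760) (nat_lit 1242603283) (nat_lit 76) (nat_lit 2418270754) (nat_lit 311) (nat_lit 5) (nat_lit 321) (nat_lit 5) (nat_lit 312) (nat_lit 5) (nat_lit 588) (nat_lit 531) (nat_lit 441))) (XT.nd (nat_lit 78) (nat_lit 760) (nat_lit 0) (XT.lf (nat_lit 0) (nat_lit 5187507953) (nat_lit 608) (nat_lit 3770388742) (nat_lit 684) (nat_lit 1177371168) (nat_lit 303) (nat_lit 5) (nat_lit 311) (nat_lit 5) (nat_lit 312) (nat_lit 5) (nat_lit 589) (nat_lit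 531) (nat_lit 440)) (XT.nd (nat_lit 78) (nat_lit 0) (nat_lit 0) (XT.lf (nat_lit 0) (nat_lit 1331986354) (nat_lit 760) (nat_lit 8736190796) (nat_lit 76) (nat_lit 170833966) (nat_lit 293) (nat_lit 5) (nat_lit 303) (nat_lit 5) (nat_lit 294) (nat_lit 5) (nat_lit 590) (nat_lit 531) (nat_lit 439)) (XT.lf (nat_lit 0) (nat_lit 3909114034) (nat_lit 760) (nat_lit 2258998824) (nat_lit 76) (nat_lit 4175895643) (nat_lit 293) (nat_lit 5) (nat_lit 303) (nat_lit 5) (nat_lit 294) (nat_lit 5) (nat_lit 591) (nat_lit 531) (nat_lit 438))))) (XT.nd (nat_lit 156) (nat_lit 684) (nat_lit 0) (XT.nd (nat_lit 78) (nat_lit 608) (nat_lit 0) (XT.lf (nat_lit 0) (nat_lit 4374394752) (nat_lit 608) (nat_lit 2167224180) (nat_lit 684) (nat_lit 3909412049) (nat_lit 285) (nat_lit 5) (nat_lit 293) (nat_lit 5) (nat_lit 294) (nat_lit 5) (nat_lit 592) (nat_lit 531) (nat_lit 437)) (XT.lf (nat_lit 0) (nat_lit 575247807) (nat_lit 608) (nat_lit 8658621726) (nat_lit 684) (nat_lit 1326184268) (nat_lit 277) (nat_lit 5) (nat_lit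 285) (nat_lit 5) (nat_lit 286) (nat_lit 5) (nat_lit 593) (nat_lit 531) (nat_lit 436))) (XT.nd (nat_lit 78) (nat_lit 608) (nat_lit 0) (XT.lf (nat_lit 0) (nat_lit 1322736702) (nat_lit 684) (nat_lit 3282099075) (nat_lit 76) (nat_lit 6065629242) (nat_lit 276) (nat_lit 5) (nat_lit 285) (nat_lit 5) (nat_lit 277) (nat_lit 5) (nat_lit 594) (nat_lit 531) (nat_lit 435)) (XT.nd (nat_lit 78) (nat_lit 0) (nat_lit 0) (XT.lf (nat_lit 0) (nat_lit 3562128689) (nat_lit 608) (nat_lit 444161373) (nat_lit 684) (nat_lit 6776632548) (nat_lit 268) (nat_lit 5) (nat_lit 276) (nat_lit 5) (nat_lit 277) (nat_lit 5) (nat_lit 595) (nat_lit 531) (nat_lit 434)) (XT.lf (nat_lit 0) (nat_lit 6766847230) (nat_lit 684) (nat_lit 364969226) (nat_lit 76) (nat_lit 3765347907) (nat_lit 268) (nat_lit 5) (nat_lit 277) (nat_lit 5) (nat_lit 269) (nat_lit 5) (nat_lit 596) (nat_lit 531) (nat_lit 433)))))) (XT.nd (nat_lit 390) (nat_lit 1672) (nat_lit 0) (XT.nd (nat_lit 156) (nat_lit 1064) (nat_lit 0) (XT.nd (nat_lit 78) (nat_lit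 608) (nat_lit 0) (XT.lf (nat_lit 0) (nat_lit 6682580716) (nat_lit 608) (nat_lit 2923316905) (nat_lit 684) (nat_lit 1407329322) (nat_lit 260) (nat_lit 5) (nat_lit 268) (nat_lit 5) (nat_lit 269) (nat_lit 5) (nat_lit 597) (nat_lit 531) (nat_lit 432)) (XT.lf (nat_lit 0) (nat_lit 1358507522) (nat_lit 608) (nat_lit 8399218309) (nat_lit 76) (nat_lit 1373581428) (nat_lit 252) (nat_lit 5) (nat_lit 260) (nat_lit 5) (nat_lit 253) (nat_lit 5) (nat_lit 598) (nat_lit 531) (nat_lit 431))) (XT.nd (nat_lit 78) (nat_lit 1064) (nat_lit 0) (XT.lf (nat_lit 0) (nat_lit 4186713377) (nat_lit 608) (nat_lit 1315668897) (nat_lit 76) (nat_lit 5748664469) (nat_lit 252) (nat_lit 5) (nat_lit 260) (nat_lit 5) (nat_lit 253) (nat_lit 5) (nat_lit 599) (nat_lit 531) (nat_lit 430)) (XT.nd (nat_lit 78) (nat_lit 532) (nat_lit 0) (XT.lf (nat_lit 0) (nat_lit 5957875818) (nat_lit 532) (nat_lit 1130001496) (nat_lit 608) (nat_lit 4284977334) (nat_lit 245) (nat_lit 5) (nat_lit 252) (nat_lit 5) (nat_lit 253) (nat_lit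 5) (nat_lit 600) (nat_lit 531) (nat_lit 429)) (XT.lf (nat_lit 0) (nat_lit 1870648177) (nat_lit 532) (nat_lit 8196975618) (nat_lit 608) (nat_lit 1429065208) (nat_lit 238) (nat_lit 5) (nat_lit 245) (nat_lit 5) (nat_lit 246) (nat_lit 5) (nat_lit 601) (nat_lit 531) (nat_lit 428))))) (XT.nd (nat_lit 156) (nat_lit 1064) (nat_lit 0) (XT.nd (nat_lit 78) (nat_lit 532) (nat_lit 0) (XT.lf (nat_lit 0) (nat_lit 1486564647) (nat_lit 608) (nat_lit 2294350766) (nat_lit 76) (nat_lit 7841452118) (nat_lit 237) (nat_lit 5) (nat_lit 245) (nat_lit 5) (nat_lit 238) (nat_lit 5) (nat_lit 602) (nat_lit 531) (nat_lit 427)) (XT.lf (nat_lit 0) (nat_lit 4458602747) (nat_lit 608) (nat_lit 6541692588) (nat_lit 76) (nat_lit 749732151) (nat_lit 230) (nat_lit 5) (nat_lit 238) (nat_lit 5) (nat_lit 231) (nat_lit 5) (nat_lit 603) (nat_lit 531) (nat_lit 426))) (XT.nd (nat_lit 78) (nat_lit 608) (nat_lit 0) (XT.lf (nat_lit 0) (nat_lit 970124968) (nat_lit 456) (nat_lit 6545405297) (nat_lit 532) (nat_lit 4364202768)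 (nat_lit 224) (nat_lit 5) (nat_lit 230) (nat_lit 5) (nat_lit 231) (nat_lit 5) (nat_lit 604) (nat_lit 531) (nat_lit 425)) (XT.nd (nat_lit 78) (nat_lit 608) (nat_lit 0) (XT.lf (nat_lit 0) (nat_lit 8691349282) (nat_lit 456) (nat_lit 1964985579) (nat_lit 532) (nat_lit 1355244401) (nat_lit 224) (nat_lit 5) (nat_lit 230) (nat_lit 5) (nat_lit 231) (nat_lit 5) (nat_lit 605) (nat_lit 531) (nat_lit 424)) (XT.lf (nat_lit 0) (nat_lit 1717137865) (nat_lit 608) (nat_lit 7724649282) (nat_lit 76) (nat_lit 2703539546) (nat_lit 216) (nat_lit 5) (nat_lit 224) (nat_lit 5) (nat_lit 217) (nat_lit 5) (nat_lit 606) (nat_lit 531) (nat_lit 423))))))) (XT.nd (nat_lit 780) (nat_lit 1216) (nat_lit 0) (XT.nd (nat_lit 390) (nat_lit 1368) (nat_lit 0) (XT.nd (nat_lit 156) (nat_lit 988) (nat_lit 0) (XT.nd (nat_lit 78) (nat_lit 0) (nat_lit 0) (XT.lf (nat_lit 0) (nat_lit 28977864) (nat_lit 456) (nat_lit 4818772932) (nat_lit 532) (nat_lit 7433521780) (nat_lit 210) (nat_lit 5) (nat_lit 216) (nat_lit 5) (nat_lit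 217) (nat_lit 5) (nat_lit 607) (nat_lit 531) (nat_lit 422)) (XT.lf (nat_lit 0) (nat_lit 8013208016) (nat_lit 456) (nat_lit 59104634) (nat_lit 532) (nat_lit 4346999234) (nat_lit 210) (nat_lit 5) (nat_lit 216) (nat_lit 5) (nat_lit 217) (nat_lit 5) (nat_lit 608) (nat_lit 531) (nat_lit 421))) (XT.nd (nat_lit 78) (nat_lit 532) (nat_lit 0) (XT.lf (nat_lit 0) (nat_lit 3583922369) (nat_lit 456) (nat_lit 7811696719) (nat_lit 532) (nat_lit 1163809037) (nat_lit 204) (nat_lit 5) (nat_lit 210) (nat_lit 5) (nat_lit 211) (nat_lit 5) (nat_lit 609) (nat_lit 531) (nat_lit 420)) (XT.nd (nat_lit 78) (nat_lit 456) (nat_lit 0) (XT.lf (nat_lit 0) (nat_lit 2065802013) (nat_lit 532) (nat_lit 951424530) (nat_lit 76) (nat_lit 9684649292) (nat_lit 203) (nat_lit 5) (nat_lit 210) (nat_lit 5) (nat_lit 204) (nat_lit 5) (nat_lit 610) (nat_lit 531) (nat_lit 419)) (XT.lf (nat_lit 0) (nat_lit 5384569889) (nat_lit 532) (nat_lit 5566323763) (nat_lit 76) (nat_lit 1895323175) (nat_lit 197) (nat_lit 5) (nat_lit 204)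 (nat_lit 5) (nat_lit 198) (nat_lit 5) (nat_lit 611) (nat_lit 531) (nat_lit 418))))) (XT.nd (nat_lit 156) (nat_lit 912) (nat_lit 0) (XT.nd (nat_lit 78) (nat_lit 0) (nat_lit 0) (XT.lf (nat_lit 0) (nat_lit 2681957700) (nat_lit 456) (nat_lit 6112037963) (nat_lit 532) (nat_lit 4198964446) (nat_lit 191) (nat_lit 5) (nat_lit 197) (nat_lit 5) (nat_lit 198) (nat_lit 5) (nat_lit 612) (nat_lit 531) (nat_lit 417)) (XT.lf (nat_lit 0) (nat_lit 11142236385) (nat_lit 456) (nat_lit 1147386138) (nat_lit 532) (nat_lit 852656583) (nat_lit 191) (nat_lit 5) (nat_lit 197) (nat_lit 5) (nat_lit 198) (nat_lit 5) (nat_lit 613) (nat_lit 531) (nat_lit 416))) (XT.nd (nat_lit 78) (nat_lit 456) (nat_lit 0) (XT.lf (nat_lit 0) (nat_lit 2575986183) (nat_lit 456) (nat_lit 6801673577) (nat_lit 76) (nat_lit 3915613456) (nat_lit 185) (nat_lit 5) (nat_lit 191) (nat_lit 5) (nat_lit 186) (nat_lit 5) (nat_lit 614) (nat_lit 531) (nat_lit 415)) (XT.nd (nat_lit 78) (nat_lit 0) (nat_lit 0) (XT.lf (nat_lit 0) (nat_lit 1714059077)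 (nat_lit 456) (nat_lit 4361020359) (nat_lit 532) (nat_lit 7371830194) (nat_lit 179) (nat_lit 5) (nat_lit 185) (nat_lit 5) (nat_lit 186) (nat_lit 5) (nat_lit 615) (nat_lit 531) (nat_lit 414)) (XT.lf (nat_lit 0) (nat_lit 9676183182) (nat_lit 532) (nat_lit 3143995565) (nat_lit 76) (nat_lit 782800468) (nat_lit 179) (nat_lit 5) (nat_lit 186) (nat_lit 5) (nat_lit 180) (nat_lit 5) (nat_lit 616) (nat_lit 531) (nat_lit 413)))))) (XT.nd (nat_lit 74646) (nat_lit 0) (nat_lit 40204) (XT.nd (nat_lit 156) (nat_lit 380) (nat_lit 0) (XT.nd (nat_lit 78) (nat_lit 456) (nat_lit 0) (XT.lf (nat_lit 0) (nat_lit 5633816564) (nat_lit 380) (nat_lit 7762496359) (nat_lit 456) (nat_lit 364918185) (nat_lit 174) (nat_lit 5) (nat_lit 179) (nat_lit 5) (nat_lit 180) (nat_lit 5) (nat_lit 617) (nat_lit 531) (nat_lit 412)) (XT.lf (nat_lit 0) (nat_lit 667076453) (nat_lit 380) (nat_lit 2565431387) (nat_lit 456) (nat_lit 10689573299) (nat_lit 168) (nat_lit 5) (nat_lit 173) (nat_lit 5) (nat_lit 174) (nat_lit 5) (nat_lit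 618) (nat_lit 531) (nat_lit 411))) (XT.nd (nat_lit 78) (nat_lit 380) (nat_lit 0) (XT.lf (nat_lit 0) (nat_lit 6951386378) (nat_lit 456) (nat_lit 4385979899) (nat_lit 76) (nat_lit 2747646783) (nat_lit 168) (nat_lit 5) (nat_lit 174) (nat_lit 5) (nat_lit 169) (nat_lit 5) (nat_lit 619) (nat_lit 531) (nat_lit 410)) (XT.nd (nat_lit 74334) (nat_lit 0) (nat_lit 41952) (XT.lf (nat_lit 0) (nat_lit 4677318867) (nat_lit 380) (nat_lit 6096763936) (nat_lit 456) (nat_lit 3476532932) (nat_lit 163) (nat_lit 5) (nat_lit 168) (nat_lit 5) (nat_lit 169) (nat_lit 5) (nat_lit 620) (nat_lit 531) (nat_lit 409)) (XT.lf (nat_lit 0) (nat_lit 2749146062) (nat_lit 836) (nat_lit 304516704) (nat_lit 836) (nat_lit 304516704) (nat_lit 715) (nat_lit 3) (nat_lit 726) (nat_lit 3) (nat_lit 726) (nat_lit 5) (nat_lit 532) (nat_lit 532) (nat_lit 496))))) (XT.nd (nat_lit 234) (nat_lit 912) (nat_lit 0) (XT.nd (nat_lit 78) (nat_lit 0) (nat_lit 0) (XT.lf (nat_lit 0) (nat_lit 969755814) (nat_lit 836) (nat_lit 3992956721)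 (nat_lit 912) (nat_lit 1777000519) (nat_lit 704) (nat_lit 5) (nat_lit 715) (nat_lit 3) (nat_lit 716) (nat_lit 5) (nat_lit 533) (nat_lit 532) (nat_lit 495)) (XT.nd (nat_lit 78) (nat_lit 0) (nat_lit 0) (XT.lf (nat_lit 0) (nat_lit 3132151959) (nat_lit 836) (nat_lit 623559793) (nat_lit 912) (nat_lit 3008726586) (nat_lit 704) (nat_lit 5) (nat_lit 715) (nat_lit 3) (nat_lit 716) (nat_lit 5) (nat_lit 534) (nat_lit 532) (nat_lit 494)) (XT.lf (nat_lit 76) (nat_lit 2820877242) (nat_lit 0) (nat_lit 2479349211) (nat_lit 912) (nat_lit 1490190572) (nat_lit 705) (nat_lit 5) (nat_lit 704) (nat_lit 5) (nat_lit 716) (nat_lit 5) (nat_lit 535) (nat_lit 532) (nat_lit 493)))) (XT.nd (nat_lit 78) (nat_lit 0) (nat_lit 76) (XT.lf (nat_lit 0) (nat_lit 634498115) (nat_lit 912) (nat_lit 508608401) (nat_lit 988) (nat_lit 5674748515) (nat_lit 692) (nat_lit 5) (nat_lit 704) (nat_lit 5) (nat_lit 705) (nat_lit 5) (nat_lit 536) (nat_lit 532) (nat_lit 492)) (XT.nd (nat_lit 78) (nat_lit 0) (nat_lit 0) (XT.lf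 (nat_lit 0) (nat_lit 2748887068) (nat_lit 912) (nat_lit 3826130029) (nat_lit 988) (nat_lit 271291566) (nat_lit 693) (nat_lit 5) (nat_lit 705) (nat_lit 5) (nat_lit 706) (nat_lit 5) (nat_lit 537) (nat_lit 532) (nat_lit 491)) (XT.lf (nat_lit 0) (nat_lit 4863338106) (nat_lit 912) (nat_lit 286767442) (nat_lit 988) (nat_lit 1726077268) (nat_lit 693) (nat_lit 5) (nat_lit 705) (nat_lit 5) (nat_lit 706) (nat_lit 5) (nat_lit 538) (nat_lit 532) (nat_lit 490))))))))
noncomputable def xc97 : XT := (XT.nd (nat_lit 1560) (nat_lit 14972) (nat_lit 0) (XT.nd (nat_lit 780) (nat_lit 6536) (nat_lit 0) (XT.nd (nat_lit 390) (nat_lit 1064) (nat_lit 0) (XT.nd (nat_lit 156) (nat_lit 988) (nat_lit 0) (XT.nd (nat_lit 78) (nat_lit 0) (nat_lit 0) (XT.lf (nat_lit 0) (nat_lit 81208123) (nat_lit 988) (nat_lit 3570405068) (nat_lit 1064) (nat_lit 3255647757) (nat_lit 680) (nat_lit 5) (nat_lit 693) (nat_lit 5) (nat_lit 694) (nat_lit 5) (nat_lit 539) (nat_lit 532) (nat_lit 489)) (XT.lf (nat_lit 76) (nat_lit 55045732)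 (nat_lit 0) (nat_lit 2085760872) (nat_lit 1064) (nat_lit 4798882141) (nat_lit 681) (nat_lit 5) (nat_lit 680) (nat_lit 5) (nat_lit 694) (nat_lit 5) (nat_lit 540) (nat_lit 532) (nat_lit 488))) (XT.nd (nat_lit 78) (nat_lit 988) (nat_lit 0) (XT.lf (nat_lit 76) (nat_lit 3771352261) (nat_lit 0) (nat_lit 443319658) (nat_lit 1064) (nat_lit 2758638090) (nat_lit 681) (nat_lit 5) (nat_lit 680) (nat_lit 5) (nat_lit 694) (nat_lit 5) (nat_lit 541) (nat_lit 532) (nat_lit 487)) (XT.nd (nat_lit 78) (nat_lit 1064) (nat_lit 0) (XT.lf (nat_lit 76) (nat_lit 522638492) (nat_lit 0) (nat_lit 5769014044) (nat_lit 1064) (nat_lit 716724682) (nat_lit 682) (nat_lit 5) (nat_lit 681) (nat_lit 5) (nat_lit 695) (nat_lit 5) (nat_lit 542) (nat_lit 532) (nat_lit 486)) (XT.lf (nat_lit 0) (nat_lit 1323370018) (nat_lit 1064) (nat_lit 2721591782) (nat_lit 1140) (nat_lit 2999507452) (nat_lit 667) (nat_lit 5) (nat_lit 681) (nat_lit 5) (nat_lit 682) (nat_lit 5) (nat_lit 543) (nat_lit 532) (nat_lit 485))))) (XT.nd (nat_lit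 156) (nat_lit 1064) (nat_lit 0) (XT.nd (nat_lit 78) (nat_lit 0) (nat_lit 0) (XT.lf (nat_lit 76) (nat_lit 1097029870) (nat_lit 0) (nat_lit 2256431908) (nat_lit 1140) (nat_lit 3728556670) (nat_lit 668) (nat_lit 5) (nat_lit 667) (nat_lit 5) (nat_lit 682) (nat_lit 5) (nat_lit 544) (nat_lit 532) (nat_lit 484)) (XT.lf (nat_lit 76) (nat_lit 4998666720) (nat_lit 0) (nat_lit 396163897) (nat_lit 1140) (nat_lit 1726080310) (nat_lit 668) (nat_lit 5) (nat_lit 667) (nat_lit 5) (nat_lit 682) (nat_lit 5) (nat_lit 545) (nat_lit 532) (nat_lit 483))) (XT.nd (nat_lit 78) (nat_lit 0) (nat_lit 0) (XT.lf (nat_lit 0) (nat_lit 287019142) (nat_lit 1140) (nat_lit 5362055512) (nat_lit 1216) (nat_lit 1511976610) (nat_lit 653) (nat_lit 5) (nat_lit 668) (nat_lit 5) (nat_lit 669) (nat_lit 5) (nat_lit 546) (nat_lit 532) (nat_lit 482)) (XT.nd (nat_lit 78) (nat_lit 0) (nat_lit 0) (XT.lf (nat_lit 0) (nat_lit 2288110241) (nat_lit 1140) (nat_lit 1419552189) (nat_lit 1216) (nat_lit 3494692420) (nat_lit 653) (nat_lit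 5) (nat_lit 668) (nat_lit 5) (nat_lit 669) (nat_lit 5) (nat_lit 547) (nat_lit 532) (nat_lit 481)) (XT.lf (nat_lit 76) (nat_lit 2605460730) (nat_lit 0) (nat_lit 1695444475) (nat_lit 1216) (nat_lit 2944151023) (nat_lit 654) (nat_lit 5) (nat_lit 653) (nat_lit 5) (nat_lit 669) (nat_lit 5) (nat_lit 548) (nat_lit 532) (nat_lit 480)))))) (XT.nd (nat_lit 390) (nat_lit 4256) (nat_lit 0) (XT.nd (nat_lit 156) (nat_lit 1140) (nat_lit 0) (XT.nd (nat_lit 78) (nat_lit 1216) (nat_lit 0) (XT.lf (nat_lit 0) (nat_lit 6321411318) (nat_lit 1140) (nat_lit 591885260) (nat_lit 1216) (nat_lit 375971205) (nat_lit 654) (nat_lit 5) (nat_lit 669) (nat_lit 5) (nat_lit 670) (nat_lit 5) (nat_lit 549) (nat_lit 532) (nat_lit 479)) (XT.lf (nat_lit 0) (nat_lit 1024793154) (nat_lit 1216) (nat_lit 3799987636) (nat_lit 1292) (nat_lit 2509640280) (nat_lit 638) (nat_lit 5) (nat_lit 654) (nat_lit 5) (nat_lit 655) (nat_lit 5) (nat_lit 550) (nat_lit 532) (nat_lit 478))) (XT.nd (nat_lit 78) (nat_lit 1140) (nat_lit 0)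 (XT.lf (nat_lit 76) (nat_lit 337835492) (nat_lit 0) (nat_lit 2669491581) (nat_lit 1292) (nat_lit 4373767533) (nat_lit 639) (nat_lit 5) (nat_lit 638) (nat_lit 5) (nat_lit 655) (nat_lit 5) (nat_lit 551) (nat_lit 532) (nat_lit 477)) (XT.nd (nat_lit 78) (nat_lit 1140) (nat_lit 0) (XT.lf (nat_lit 76) (nat_lit 4579066269) (nat_lit 0) (nat_lit 433379449) (nat_lit 1292) (nat_lit 2416602068) (nat_lit 639) (nat_lit 5) (nat_lit 638) (nat_lit 5) (nat_lit 655) (nat_lit 5) (nat_lit 552) (nat_lit 532) (nat_lit 476)) (XT.lf (nat_lit 0) (nat_lit 1402391867) (nat_lit 1216) (nat_lit 5634718306) (nat_lit 1292) (nat_lit 441265749) (nat_lit 623) (nat_lit 5) (nat_lit 639) (nat_lit 5) (nat_lit 640) (nat_lit 5) (nat_lit 553) (nat_lit 532) (nat_lit 475))))) (XT.nd (nat_lit 156) (nat_lit 2888) (nat_lit 0) (XT.nd (nat_lit 78) (nat_lit 1292) (nat_lit 0) (XT.lf (nat_lit 0) (nat_lit 1533743786) (nat_lit 1292) (nat_lit 1794592669) (nat_lit 76) (nat_lit 4200538320) (nat_lit 622) (nat_lit 5) (nat_lit 639)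 (nat_lit 5) (nat_lit 623) (nat_lit 5) (nat_lit 554) (nat_lit 532) (nat_lit 474)) (XT.lf (nat_lit 0) (nat_lit 2572342864) (nat_lit 1292) (nat_lit 946201769) (nat_lit 1368) (nat_lit 4062261130) (nat_lit 605) (nat_lit 5) (nat_lit 622) (nat_lit 5) (nat_lit 623) (nat_lit 5) (nat_lit 555) (nat_lit 532) (nat_lit 473))) (XT.nd (nat_lit 78) (nat_lit 2888) (nat_lit 0) (XT.lf (nat_lit 0) (nat_lit 5524943871) (nat_lit 1368) (nat_lit 623860682) (nat_lit 76) (nat_lit 1485337166) (nat_lit 605) (nat_lit 5) (nat_lit 623) (nat_lit 5) (nat_lit 606) (nat_lit 5) (nat_lit 556) (nat_lit 532) (nat_lit 472)) (XT.nd (nat_lit 78) (nat_lit 1520) (nat_lit 0) (XT.lf (nat_lit 0) (nat_lit 3861877997) (nat_lit 1368) (nat_lit 3701862230) (nat_lit 1444) (nat_lit 124963096) (nat_lit 587) (nat_lit 5) (nat_lit 605) (nat_lit 5) (nat_lit 606) (nat_lit 5) (nat_lit 557) (nat_lit 532) (nat_lit 471)) (XT.lf (nat_lit 0) (nat_lit 666647491) (nat_lit 1444) (nat_lit 1177182581) (nat_lit 1520) (nat_lit 5900888067) (nat_lit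 567) (nat_lit 5) (nat_lit 586) (nat_lit 5) (nat_lit 587) (nat_lit 5) (nat_lit 558) (nat_lit 532) (nat_lit 470))))))) (XT.nd (nat_lit 780) (nat_lit 5396) (nat_lit 0) (XT.nd (nat_lit 390) (nat_lit 4712) (nat_lit 0) (XT.nd (nat_lit 156) (nat_lit 3344) (nat_lit 0) (XT.nd (nat_lit 78) (nat_lit 1520) (nat_lit 0) (XT.lf (nat_lit 0) (nat_lit 3847095522) (nat_lit 1520) (nat_lit 2541413906) (nat_lit 76) (nat_lit 1413395973) (nat_lit 567) (nat_lit 5) (nat_lit 587) (nat_lit 5) (nat_lit 568) (nat_lit 5) (nat_lit 559) (nat_lit 532) (nat_lit 469)) (XT.lf (nat_lit 0) (nat_lit 2074144281) (nat_lit 1520) (nat_lit 3800134186) (nat_lit 1596) (nat_lit 1986284879) (nat_lit 547) (nat_lit 5) (nat_lit 567) (nat_lit 5) (nat_lit 568) (nat_lit 5) (nat_lit 560) (nat_lit 532) (nat_lit 468))) (XT.nd (nat_lit 78) (nat_lit 3268) (nat_lit 0) (XT.lf (nat_lit 0) (nat_lit 1367885) (nat_lit 1596) (nat_lit 1135373709) (nat_lit 76) (nat_lit 6784053065) (nat_lit 546) (nat_lit 5) (nat_lit 567) (nat_lit 5) (nat_lit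 547) (nat_lit 5) (nat_lit 561) (nat_lit 532) (nat_lit 467)) (XT.nd (nat_lit 78) (nat_lit 1672) (nat_lit 0) (XT.lf (nat_lit 0) (nat_lit 1999791123) (nat_lit 1672) (nat_lit 4380767791) (nat_lit 76) (nat_lit 1601460575) (nat_lit 525) (nat_lit 5) (nat_lit 547) (nat_lit 5) (nat_lit 526) (nat_lit 5) (nat_lit 562) (nat_lit 532) (nat_lit 466)) (XT.lf (nat_lit 0) (nat_lit 369487198) (nat_lit 1672) (nat_lit 3650441499) (nat_lit 1748) (nat_lit 4024908880) (nat_lit 503) (nat_lit 5) (nat_lit 525) (nat_lit 5) (nat_lit 526) (nat_lit 5) (nat_lit 563) (nat_lit 532) (nat_lit 465))))) (XT.nd (nat_lit 156) (nat_lit 2964) (nat_lit 0) (XT.nd (nat_lit 78) (nat_lit 1748) (nat_lit 0) (XT.lf (nat_lit 0) (nat_lit 5242873131) (nat_lit 1672) (nat_lit 831642578) (nat_lit 1748) (nat_lit 2034518991) (nat_lit 503) (nat_lit 5) (nat_lit 525) (nat_lit 5) (nat_lit 526) (nat_lit 5) (nat_lit 564) (nat_lit 532) (nat_lit 464)) (XT.lf (nat_lit 0) (nat_lit 2021083436) (nat_lit 1748) (nat_lit 6140869842) (nat_lit 1824)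 (nat_lit 12730848) (nat_lit 480) (nat_lit 5) (nat_lit 503) (nat_lit 5) (nat_lit 504) (nat_lit 5) (nat_lit 565) (nat_lit 532) (nat_lit 463))) (XT.nd (nat_lit 78) (nat_lit 2888) (nat_lit 0) (XT.lf (nat_lit 0) (nat_lit 2013097740) (nat_lit 1824) (nat_lit 1246899039) (nat_lit 76) (nat_lit 4981577343) (nat_lit 479) (nat_lit 5) (nat_lit 503) (nat_lit 5) (nat_lit 480) (nat_lit 5) (nat_lit 566) (nat_lit 532) (nat_lit 462)) (XT.nd (nat_lit 78) (nat_lit 1064) (nat_lit 0) (XT.lf (nat_lit 0) (nat_lit 3776379768) (nat_lit 1824) (nat_lit 293701547) (nat_lit 1900) (nat_lit 4239906076) (nat_lit 455) (nat_lit 5) (nat_lit 479) (nat_lit 5) (nat_lit 480) (nat_lit 5) (nat_lit 567) (nat_lit 532) (nat_lit 461)) (XT.lf (nat_lit 0) (nat_lit 494638355) (nat_lit 1064) (nat_lit 5669704836) (nat_lit 1140) (nat_lit 2215506229) (nat_lit 441) (nat_lit 5) (nat_lit 455) (nat_lit 5) (nat_lit 456) (nat_lit 5) (nat_lit 568) (nat_lit 532) (nat_lit 460)))))) (XT.nd (nat_lit 390) (nat_lit 2660) (nat_lit 0) (XT.nd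 (nat_lit 156) (nat_lit 1748) (nat_lit 0) (XT.nd (nat_lit 78) (nat_lit 988) (nat_lit 0) (XT.lf (nat_lit 0) (nat_lit 5651659031) (nat_lit 1064) (nat_lit 2648401907) (nat_lit 1140) (nat_lit 151059541) (nat_lit 441) (nat_lit 5) (nat_lit 455) (nat_lit 5) (nat_lit 456) (nat_lit 5) (nat_lit 569) (nat_lit 532) (nat_lit 459)) (XT.lf (nat_lit 0) (nat_lit 1915112847) (nat_lit 988) (nat_lit 6151540685) (nat_lit 76) (nat_lit 457191232) (nat_lit 428) (nat_lit 5) (nat_lit 441) (nat_lit 5) (nat_lit 429) (nat_lit 5) (nat_lit 570) (nat_lit 532) (nat_lit 458))) (XT.nd (nat_lit 78) (nat_lit 1748) (nat_lit 0) (XT.lf (nat_lit 0) (nat_lit 4025120242) (nat_lit 988) (nat_lit 962396464) (nat_lit 76) (nat_lit 3610399192) (nat_lit 428) (nat_lit 5) (nat_lit 441) (nat_lit 5) (nat_lit 429) (nat_lit 5) (nat_lit 571) (nat_lit 532) (nat_lit 457)) (XT.nd (nat_lit 78) (nat_lit 836) (nat_lit 0) (XT.lf (nat_lit 0) (nat_lit 4356751483) (nat_lit 912) (nat_lit 1817572046) (nat_lit 988) (nat_lit 2499207970) (nat_lit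 416) (nat_lit 5) (nat_lit 428) (nat_lit 5) (nat_lit 429) (nat_lit 5) (nat_lit 572) (nat_lit 532) (nat_lit 456)) (XT.lf (nat_lit 0) (nat_lit 1017571598) (nat_lit 836) (nat_lit 7340363118) (nat_lit 912) (nat_lit 392899120) (nat_lit 405) (nat_lit 5) (nat_lit 416) (nat_lit 5) (nat_lit 417) (nat_lit 5) (nat_lit 573) (nat_lit 532) (nat_lit 455))))) (XT.nd (nat_lit 234) (nat_lit 1748) (nat_lit 0) (XT.nd (nat_lit 78) (nat_lit 836) (nat_lit 0) (XT.lf (nat_lit 0) (nat_lit 1743031024) (nat_lit 912) (nat_lit 2367145501) (nat_lit 76) (nat_lit 4719070136) (nat_lit 404) (nat_lit 5) (nat_lit 416) (nat_lit 5) (nat_lit 405) (nat_lit 5) (nat_lit 574) (nat_lit 532) (nat_lit 454)) (XT.nd (nat_lit 78) (nat_lit 0) (nat_lit 0) (XT.lf (nat_lit 0) (nat_lit 3113604397) (nat_lit 836) (nat_lit 792959153) (nat_lit 912) (nat_lit 5002812090) (nat_lit 393) (nat_lit 5) (nat_lit 404) (nat_lit 5) (nat_lit 405) (nat_lit 5) (nat_lit 575) (nat_lit 532) (nat_lit 453)) (XT.lf (nat_lit 0) (nat_lit 6116484382) (nat_lit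 912) (nat_lit 302966953) (nat_lit 76) (nat_lit 2571596191) (nat_lit 393) (nat_lit 5) (nat_lit 405) (nat_lit 5) (nat_lit 394) (nat_lit 5) (nat_lit 576) (nat_lit 532) (nat_lit 452)))) (XT.nd (nat_lit 78) (nat_lit 912) (nat_lit 0) (XT.lf (nat_lit 0) (nat_lit 5333699450) (nat_lit 836) (nat_lit 3047675437) (nat_lit 912) (nat_lit 692765166) (nat_lit 382) (nat_lit 5) (nat_lit 393) (nat_lit 5) (nat_lit 394) (nat_lit 5) (nat_lit 577) (nat_lit 532) (nat_lit 451)) (XT.nd (nat_lit 78) (nat_lit 0) (nat_lit 0) (XT.lf (nat_lit 0) (nat_lit 1500792938) (nat_lit 912) (nat_lit 7249086832) (nat_lit 76) (nat_lit 409053656) (nat_lit 370) (nat_lit 5) (nat_lit 382) (nat_lit 5) (nat_lit 371) (nat_lit 5) (nat_lit 578) (nat_lit 532) (nat_lit 450)) (XT.lf (nat_lit 0) (nat_lit 3745828840) (nat_lit 912) (nat_lit 1577252715) (nat_lit 76) (nat_lit 3921914348) (nat_lit 370) (nat_lit 5) (nat_lit 382) (nat_lit 5) (nat_lit 371) (nat_lit 5) (nat_lit 579) (nat_lit 532) (nat_lit 449))))))))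
noncomputable def xc98 : XT := (XT.nd (nat_lit 1560) (nat_lit 6384) (nat_lit 0) (XT.nd (nat_lit 780) (nat_lit 3876) (nat_lit 0) (XT.nd (nat_lit 390) (nat_lit 2812) (nat_lit 0) (XT.nd (nat_lit 156) (nat_lit 760) (nat_lit 0) (XT.nd (nat_lit 78) (nat_lit 760) (nat_lit 0) (XT.lf (nat_lit 0) (nat_lit 4232909042) (nat_lit 760) (nat_lit 1802323835) (nat_lit 836) (nat_lit 3297559833) (nat_lit 360) (nat_lit 5) (nat_lit 370) (nat_lit 5) (nat_lit 371) (nat_lit 5) (nat_lit 580) (nat_lit 532) (nat_lit 448)) (XT.lf (nat_lit 0) (nat_lit 725388792) (nat_lit 760) (nat_lit 7644333039) (nat_lit 836) (nat_lit 1052640064) (nat_lit 350) (nat_lit 5) (nat_lit 360) (nat_lit 5) (nat_lit 361) (nat_lit 5) (nat_lit 581) (nat_lit 532) (nat_lit 447))) (XT.nd (nat_lit 78) (nat_lit 684) (nat_lit 0) (XT.lf (nat_lit 0) (nat_lit 1239815925) (nat_lit 836) (nat_lit 2828061196) (nat_lit 76) (nat_lit 5445309708) (nat_lit 349) (nat_lit 5) (nat_lit 360) (nat_lit 5) (nat_lit 350) (nat_lit 5) (nat_lit 582) (nat_lit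 532) (nat_lit 446)) (XT.nd (nat_lit 78) (nat_lit 0) (nat_lit 0) (XT.lf (nat_lit 0) (nat_lit 3162216136) (nat_lit 684) (nat_lit 395372246) (nat_lit 760) (nat_lit 6048231717) (nat_lit 340) (nat_lit 5) (nat_lit 349) (nat_lit 5) (nat_lit 350) (nat_lit 5) (nat_lit 583) (nat_lit 532) (nat_lit 445)) (XT.lf (nat_lit 0) (nat_lit 5935900228) (nat_lit 760) (nat_lit 441997611) (nat_lit 76) (nat_lit 3322126717) (nat_lit 340) (nat_lit 5) (nat_lit 350) (nat_lit 5) (nat_lit 341) (nat_lit 5) (nat_lit 584) (nat_lit 532) (nat_lit 444))))) (XT.nd (nat_lit 156) (nat_lit 1292) (nat_lit 0) (XT.nd (nat_lit 78) (nat_lit 760) (nat_lit 0) (XT.lf (nat_lit 0) (nat_lit 5721844575) (nat_lit 760) (nat_lit 2653551392) (nat_lit 836) (nat_lit 1420446937) (nat_lit 330) (nat_lit 5) (nat_lit 340) (nat_lit 5) (nat_lit 341) (nat_lit 5) (nat_lit 585) (nat_lit 532) (nat_lit 443)) (XT.lf (nat_lit 0) (nat_lit 955635916) (nat_lit 760) (nat_lit 7788745830) (nat_lit 76) (nat_lit 1149106872) (nat_lit 320) (nat_lit 5) (nat_lit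 330) (nat_lit 5) (nat_lit 321) (nat_lit 5) (nat_lit 586) (nat_lit 532) (nat_lit 442))) (XT.nd (nat_lit 78) (nat_lit 1292) (nat_lit 0) (XT.lf (nat_lit 0) (nat_lit 3379610257) (nat_lit 760) (nat_lit 1588075604) (nat_lit 76) (nat_lit 5024827843) (nat_lit 320) (nat_lit 5) (nat_lit 330) (nat_lit 5) (nat_lit 321) (nat_lit 5) (nat_lit 587) (nat_lit 532) (nat_lit 441)) (XT.nd (nat_lit 78) (nat_lit 608) (nat_lit 0) (XT.lf (nat_lit 0) (nat_lit 4769099935) (nat_lit 684) (nat_lit 1088711567) (nat_lit 760) (nat_lit 4235594833) (nat_lit 311) (nat_lit 5) (nat_lit 320) (nat_lit 5) (nat_lit 321) (nat_lit 5) (nat_lit 588) (nat_lit 532) (nat_lit 440)) (XT.lf (nat_lit 0) (nat_lit 1043511267) (nat_lit 608) (nat_lit 7353239765) (nat_lit 684) (nat_lit 1799344252) (nat_lit 303) (nat_lit 5) (nat_lit 311) (nat_lit 5) (nat_lit 312) (nat_lit 5) (nat_lit 589) (nat_lit 532) (nat_lit 439)))))) (XT.nd (nat_lit 390) (nat_lit 1824) (nat_lit 0) (XT.nd (nat_lit 156) (nat_lit 1292) (nat_lit 0) (XT.nd (nat_lit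 78) (nat_lit 684) (nat_lit 0) (XT.lf (nat_lit 0) (nat_lit 694994859) (nat_lit 684) (nat_lit 2731622325) (nat_lit 76) (nat_lit 6873766562) (nat_lit 302) (nat_lit 5) (nat_lit 311) (nat_lit 5) (nat_lit 303) (nat_lit 5) (nat_lit 590) (nat_lit 532) (nat_lit 438)) (XT.lf (nat_lit 0) (nat_lit 3219622667) (nat_lit 760) (nat_lit 6584313019) (nat_lit 76) (nat_lit 602496352) (nat_lit 293) (nat_lit 5) (nat_lit 303) (nat_lit 5) (nat_lit 294) (nat_lit 5) (nat_lit 591) (nat_lit 532) (nat_lit 437))) (XT.nd (nat_lit 78) (nat_lit 1292) (nat_lit 0) (XT.lf (nat_lit 0) (nat_lit 5811802772) (nat_lit 760) (nat_lit 23196847) (nat_lit 76) (nat_lit 4679262288) (nat_lit 293) (nat_lit 5) (nat_lit 303) (nat_lit 5) (nat_lit 294) (nat_lit 5) (nat_lit 592) (nat_lit 532) (nat_lit 436)) (XT.nd (nat_lit 78) (nat_lit 684) (nat_lit 0) (XT.lf (nat_lit 0) (nat_lit 6727858140) (nat_lit 608) (nat_lit 1748037207) (nat_lit 684) (nat_lit 2147953416) (nat_lit 285) (nat_lit 5) (nat_lit 293) (nat_lit 5) (nat_lit 294) (nat_lit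 5) (nat_lit 593) (nat_lit 532) (nat_lit 435)) (XT.lf (nat_lit 0) (nat_lit 462845651) (nat_lit 684) (nat_lit 7867649584) (nat_lit 76) (nat_lit 2404850289) (nat_lit 276) (nat_lit 5) (nat_lit 285) (nat_lit 5) (nat_lit 277) (nat_lit 5) (nat_lit 594) (nat_lit 532) (nat_lit 434))))) (XT.nd (nat_lit 156) (nat_lit 1216) (nat_lit 0) (XT.nd (nat_lit 78) (nat_lit 608) (nat_lit 0) (XT.lf (nat_lit 0) (nat_lit 3111752806) (nat_lit 684) (nat_lit 1084927475) (nat_lit 76) (nat_lit 6651816582) (nat_lit 276) (nat_lit 5) (nat_lit 285) (nat_lit 5) (nat_lit 277) (nat_lit 5) (nat_lit 595) (nat_lit 532) (nat_lit 433)) (XT.lf (nat_lit 0) (nat_lit 5829351710) (nat_lit 684) (nat_lit 5082646941) (nat_lit 76) (nat_lit 51599939) (nat_lit 268) (nat_lit 5) (nat_lit 277) (nat_lit 5) (nat_lit 269) (nat_lit 5) (nat_lit 596) (nat_lit 532) (nat_lit 432))) (XT.nd (nat_lit 78) (nat_lit 608) (nat_lit 0) (XT.lf (nat_lit 0) (nat_lit 1887408018) (nat_lit 608) (nat_lit 6738674885) (nat_lit 684) (nat_lit 2454425445)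 (nat_lit 260) (nat_lit 5) (nat_lit 268) (nat_lit 5) (nat_lit 269) (nat_lit 5) (nat_lit 597) (nat_lit 532) (nat_lit 431)) (XT.nd (nat_lit 78) (nat_lit 532) (nat_lit 0) (XT.lf (nat_lit 0) (nat_lit 287174506) (nat_lit 684) (nat_lit 2164960058) (nat_lit 76) (nat_lit 8747350226) (nat_lit 259) (nat_lit 5) (nat_lit 268) (nat_lit 5) (nat_lit 260) (nat_lit 5) (nat_lit 598) (nat_lit 532) (nat_lit 430)) (XT.lf (nat_lit 0) (nat_lit 3074088074) (nat_lit 608) (nat_lit 6308695823) (nat_lit 76) (nat_lit 1937266970) (nat_lit 252) (nat_lit 5) (nat_lit 260) (nat_lit 5) (nat_lit 253) (nat_lit 5) (nat_lit 599) (nat_lit 532) (nat_lit 429))))))) (XT.nd (nat_lit 780) (nat_lit 3192) (nat_lit 0) (XT.nd (nat_lit 390) (nat_lit 1520) (nat_lit 0) (XT.nd (nat_lit 156) (nat_lit 1140) (nat_lit 0) (XT.nd (nat_lit 78) (nat_lit 0) (nat_lit 0) (XT.lf (nat_lit 0) (nat_lit 883831741) (nat_lit 532) (nat_lit 5047658641) (nat_lit 608) (nat_lit 5511244354) (nat_lit 245) (nat_lit 5) (nat_lit 252) (nat_lit 5) (nat_lit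 253) (nat_lit 5) (nat_lit 600) (nat_lit 532) (nat_lit 428)) (XT.lf (nat_lit 0) (nat_lit 8276688486) (nat_lit 532) (nat_lit 590075362) (nat_lit 608) (nat_lit 2700695422) (nat_lit 245) (nat_lit 5) (nat_lit 252) (nat_lit 5) (nat_lit 253) (nat_lit 5) (nat_lit 601) (nat_lit 532) (nat_lit 427))) (XT.nd (nat_lit 78) (nat_lit 532) (nat_lit 0) (XT.lf (nat_lit 0) (nat_lit 195310453) (nat_lit 608) (nat_lit 7573087335) (nat_lit 76) (nat_lit 3925631859) (nat_lit 237) (nat_lit 5) (nat_lit 245) (nat_lit 5) (nat_lit 238) (nat_lit 5) (nat_lit 602) (nat_lit 532) (nat_lit 426)) (XT.nd (nat_lit 78) (nat_lit 532) (nat_lit 0) (XT.lf (nat_lit 0) (nat_lit 3118099538) (nat_lit 608) (nat_lit 148070821) (nat_lit 76) (nat_lit 8556504899) (nat_lit 237) (nat_lit 5) (nat_lit 245) (nat_lit 5) (nat_lit 238) (nat_lit 5) (nat_lit 603) (nat_lit 532) (nat_lit 425)) (XT.lf (nat_lit 0) (nat_lit 6136161361) (nat_lit 608) (nat_lit 4466840918) (nat_lit 76) (nat_lit 1350156503) (nat_lit 230) (nat_lit 5) (nat_lit 238)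 (nat_lit 5) (nat_lit 231) (nat_lit 5) (nat_lit 604) (nat_lit 532) (nat_lit 424))))) (XT.nd (nat_lit 156) (nat_lit 988) (nat_lit 0) (XT.nd (nat_lit 78) (nat_lit 76) (nat_lit 0) (XT.lf (nat_lit 0) (nat_lit 3180701900) (nat_lit 456) (nat_lit 6056607253) (nat_lit 532) (nat_lit 2848489645) (nat_lit 224) (nat_lit 5) (nat_lit 230) (nat_lit 5) (nat_lit 231) (nat_lit 5) (nat_lit 605) (nat_lit 532) (nat_lit 423)) (XT.lf (nat_lit 0) (nat_lit 186734963) (nat_lit 532) (nat_lit 1208742189) (nat_lit 76) (nat_lit 10825398442) (nat_lit 223) (nat_lit 5) (nat_lit 230) (nat_lit 5) (nat_lit 224) (nat_lit 5) (nat_lit 606) (nat_lit 532) (nat_lit 422))) (XT.nd (nat_lit 78) (nat_lit 456) (nat_lit 0) (XT.lf (nat_lit 0) (nat_lit 3290039845) (nat_lit 608) (nat_lit 5697735945) (nat_lit 76) (nat_lit 3369592461) (nat_lit 216) (nat_lit 5) (nat_lit 224) (nat_lit 5) (nat_lit 217) (nat_lit 5) (nat_lit 607) (nat_lit 532) (nat_lit 421)) (XT.nd (nat_lit 78) (nat_lit 0) (nat_lit 0) (XT.lf (nat_lit 0) (nat_lit 2196612387)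 (nat_lit 456) (nat_lit 4270554779) (nat_lit 532) (nat_lit 6029189684) (nat_lit 210) (nat_lit 5) (nat_lit 216) (nat_lit 5) (nat_lit 217) (nat_lit 5) (nat_lit 608) (nat_lit 532) (nat_lit 420)) (XT.lf (nat_lit 0) (nat_lit 9730079720) (nat_lit 532) (nat_lit 2343431568) (nat_lit 76) (nat_lit 564170268) (nat_lit 210) (nat_lit 5) (nat_lit 217) (nat_lit 5) (nat_lit 211) (nat_lit 5) (nat_lit 609) (nat_lit 532) (nat_lit 419)))))) (XT.nd (nat_lit 390) (nat_lit 1292) (nat_lit 0) (XT.nd (nat_lit 156) (nat_lit 912) (nat_lit 0) (XT.nd (nat_lit 78) (nat_lit 456) (nat_lit 0) (XT.lf (nat_lit 0) (nat_lit 319615270) (nat_lit 532) (nat_lit 6991149956) (nat_lit 76) (nat_lit 5470096327) (nat_lit 203) (nat_lit 5) (nat_lit 210) (nat_lit 5) (nat_lit 204) (nat_lit 5) (nat_lit 610) (nat_lit 532) (nat_lit 418)) (XT.lf (nat_lit 0) (nat_lit 1158623486) (nat_lit 456) (nat_lit 2417910895) (nat_lit 532) (nat_lit 9349905694) (nat_lit 197) (nat_lit 5) (nat_lit 203) (nat_lit 5) (nat_lit 204) (nat_lit 5) (nat_lit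 611) (nat_lit 532) (nat_lit 417))) (XT.nd (nat_lit 78) (nat_lit 912) (nat_lit 0) (XT.lf (nat_lit 0) (nat_lit 6943365327) (nat_lit 532) (nat_lit 3552896268) (nat_lit 76) (nat_lit 2577774205) (nat_lit 197) (nat_lit 5) (nat_lit 204) (nat_lit 5) (nat_lit 198) (nat_lit 5) (nat_lit 612) (nat_lit 532) (nat_lit 416)) (XT.nd (nat_lit 78) (nat_lit 456) (nat_lit 0) (XT.lf (nat_lit 0) (nat_lit 4846372180) (nat_lit 456) (nat_lit 5559858970) (nat_lit 532) (nat_lit 2817779400) (nat_lit 191) (nat_lit 5) (nat_lit 197) (nat_lit 5) (nat_lit 198) (nat_lit 5) (nat_lit 613) (nat_lit 532) (nat_lit 415)) (XT.lf (nat_lit 0) (nat_lit 54624734) (nat_lit 380) (nat_lit 505023120) (nat_lit 456) (nat_lit 12817152266) (nat_lit 185) (nat_lit 5) (nat_lit 190) (nat_lit 5) (nat_lit 191) (nat_lit 5) (nat_lit 614) (nat_lit 532) (nat_lit 414))))) (XT.nd (nat_lit 234) (nat_lit 836) (nat_lit 0) (XT.nd (nat_lit 78) (nat_lit 456) (nat_lit 0) (XT.lf (nat_lit 0) (nat_lit 4035134370) (nat_lit 456) (nat_lit 4839356894)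 (nat_lit 76) (nat_lit 4656417907) (nat_lit 185) (nat_lit 5) (nat_lit 191) (nat_lit 5) (nat_lit 186) (nat_lit 5) (nat_lit 615) (nat_lit 532) (nat_lit 413)) (XT.nd (nat_lit 78) (nat_lit 0) (nat_lit 0) (XT.lf (nat_lit 0) (nat_lit 3832885478) (nat_lit 456) (nat_lit 3757257701) (nat_lit 532) (nat_lit 6097757968) (nat_lit 179) (nat_lit 5) (nat_lit 185) (nat_lit 5) (nat_lit 186) (nat_lit 5) (nat_lit 616) (nat_lit 532) (nat_lit 412)) (XT.lf (nat_lit 0) (nat_lit 11240342605) (nat_lit 532) (nat_lit 1140203344) (nat_lit 76) (nat_lit 1467006181) (nat_lit 179) (nat_lit 5) (nat_lit 186) (nat_lit 5) (nat_lit 180) (nat_lit 5) (nat_lit 617) (nat_lit 532) (nat_lit 411)))) (XT.nd (nat_lit 78) (nat_lit 380) (nat_lit 0) (XT.lf (nat_lit 0) (nat_lit 998814521) (nat_lit 456) (nat_lit 6216244066) (nat_lit 76) (nat_lit 6794051407) (nat_lit 173) (nat_lit 5) (nat_lit 179) (nat_lit 5) (nat_lit 174) (nat_lit 5) (nat_lit 618) (nat_lit 532) (nat_lit 410)) (XT.nd (nat_lit 78) (nat_lit 0) (nat_lit 0) (XT.lf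 (nat_lit 0) (nat_lit 2738093087) (nat_lit 380) (nat_lit 1911786842) (nat_lit 456) (nat_lit 9523518706) (nat_lit 168) (nat_lit 5) (nat_lit 173) (nat_lit 5) (nat_lit 174) (nat_lit 5) (nat_lit 619) (nat_lit 532) (nat_lit 409)) (XT.lf (nat_lit 0) (nat_lit 8421099357) (nat_lit 456) (nat_lit 2434265960) (nat_lit 76) (nat_lit 3484665978) (nat_lit 168) (nat_lit 5) (nat_lit 174) (nat_lit 5) (nat_lit 169) (nat_lit 5) (nat_lit 620) (nat_lit 532) (nat_lit 408))))))))
noncomputable def xc99 : XT := (XT.nd (nat_lit 1560) (nat_lit 16796) (nat_lit 0) (XT.nd (nat_lit 780) (nat_lit 2204) (nat_lit 0) (XT.nd (nat_lit 390) (nat_lit 1976) (nat_lit 0) (XT.nd (nat_lit 156) (nat_lit 912) (nat_lit 0) (XT.nd (nat_lit 78) (nat_lit 0) (nat_lit 0) (XT.lf (nat_lit 0) (nat_lit 774468102) (nat_lit 0) (nat_lit 774468102) (nat_lit 836) (nat_lit 1832957498) (nat_lit 704) (nat_lit 5) (nat_lit 704) (nat_lit 3) (nat_lit 715) (nat_lit 3) (nat_lit 533) (nat_lit 533) (nat_lit 494)) (XT.lf (nat_lit 0) (nat_lit 4937446079)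 (nat_lit 0) (nat_lit 286963277) (nat_lit 836) (nat_lit 1564824233) (nat_lit 704) (nat_lit 5) (nat_lit 704) (nat_lit 3) (nat_lit 715) (nat_lit 3) (nat_lit 534) (nat_lit 533) (nat_lit 493))) (XT.nd (nat_lit 78) (nat_lit 0) (nat_lit 0) (XT.lf (nat_lit 0) (nat_lit 532302731) (nat_lit 912) (nat_lit 5255677168) (nat_lit 988) (nat_lit 1027908944) (nat_lit 692) (nat_lit 5) (nat_lit 704) (nat_lit 5) (nat_lit 705) (nat_lit 5) (nat_lit 535) (nat_lit 533) (nat_lit 492)) (XT.nd (nat_lit 78) (nat_lit 0) (nat_lit 0) (XT.lf (nat_lit 0) (nat_lit 2610583864) (nat_lit 912) (nat_lit 1818929861) (nat_lit 988) (nat_lit 2414160387) (nat_lit 692) (nat_lit 5) (nat_lit 704) (nat_lit 5) (nat_lit 705) (nat_lit 5) (nat_lit 536) (nat_lit 533) (nat_lit 491)) (XT.lf (nat_lit 76) (nat_lit 1679850884) (nat_lit 0) (nat_lit 3008286300) (nat_lit 988) (nat_lit 2184730706) (nat_lit 693) (nat_lit 5) (nat_lit 692) (nat_lit 5) (nat_lit 705) (nat_lit 5) (nat_lit 537) (nat_lit 533) (nat_lit 490))))) (XT.nd (nat_lit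 156) (nat_lit 1064) (nat_lit 0) (XT.nd (nat_lit 78) (nat_lit 912) (nat_lit 0) (XT.lf (nat_lit 76) (nat_lit 5244719298) (nat_lit 0) (nat_lit 1522385921) (nat_lit 988) (nat_lit 136349849) (nat_lit 693) (nat_lit 5) (nat_lit 692) (nat_lit 5) (nat_lit 705) (nat_lit 5) (nat_lit 538) (nat_lit 533) (nat_lit 489)) (XT.lf (nat_lit 0) (nat_lit 1888526596) (nat_lit 988) (nat_lit 5005273531) (nat_lit 1064) (nat_lit 41383956) (nat_lit 680) (nat_lit 5) (nat_lit 693) (nat_lit 5) (nat_lit 694) (nat_lit 5) (nat_lit 539) (nat_lit 533) (nat_lit 488))) (XT.nd (nat_lit 78) (nat_lit 1064) (nat_lit 0) (XT.lf (nat_lit 0) (nat_lit 3922673960) (nat_lit 988) (nat_lit 1395226319) (nat_lit 1064) (nat_lit 1650223795) (nat_lit 680) (nat_lit 5) (nat_lit 693) (nat_lit 5) (nat_lit 694) (nat_lit 5) (nat_lit 540) (nat_lit 533) (nat_lit 487)) (XT.nd (nat_lit 78) (nat_lit 1064) (nat_lit 0) (XT.lf (nat_lit 76) (nat_lit 2287953320) (nat_lit 0) (nat_lit 3674710448) (nat_lit 1064) (nat_lit 1039762189) (nat_lit 681)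 (nat_lit 5) (nat_lit 680) (nat_lit 5) (nat_lit 694) (nat_lit 5) (nat_lit 541) (nat_lit 533) (nat_lit 486)) (XT.lf (nat_lit 0) (nat_lit 953031309) (nat_lit 1064) (nat_lit 1009655830) (nat_lit 1140) (nat_lit 5075398413) (nat_lit 666) (nat_lit 5) (nat_lit 680) (nat_lit 5) (nat_lit 681) (nat_lit 5) (nat_lit 542) (nat_lit 533) (nat_lit 485)))))) (XT.nd (nat_lit 390) (nat_lit 1140) (nat_lit 0) (XT.nd (nat_lit 156) (nat_lit 1064) (nat_lit 0) (XT.nd (nat_lit 78) (nat_lit 0) (nat_lit 76) (XT.lf (nat_lit 76) (nat_lit 2769731767) (nat_lit 0) (nat_lit 171749402) (nat_lit 1140) (nat_lit 4133451174) (nat_lit 667) (nat_lit 5) (nat_lit 666) (nat_lit 5) (nat_lit 681) (nat_lit 5) (nat_lit 543) (nat_lit 533) (nat_lit 484)) (XT.lf (nat_lit 0) (nat_lit 4939873949) (nat_lit 1064) (nat_lit 514629975) (nat_lit 1140) (nat_lit 1658614467) (nat_lit 667) (nat_lit 5) (nat_lit 681) (nat_lit 5) (nat_lit 682) (nat_lit 5) (nat_lit 544) (nat_lit 533) (nat_lit 483))) (XT.nd (nat_lit 78) (nat_lit 1140) (nat_lit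 0) (XT.lf (nat_lit 76) (nat_lit 3365486520) (nat_lit 0) (nat_lit 3589274024) (nat_lit 1140) (nat_lit 197782787) (nat_lit 668) (nat_lit 5) (nat_lit 667) (nat_lit 5) (nat_lit 682) (nat_lit 5) (nat_lit 545) (nat_lit 533) (nat_lit 482)) (XT.nd (nat_lit 78) (nat_lit 0) (nat_lit 76) (XT.lf (nat_lit 76) (nat_lit 97255909) (nat_lit 0) (nat_lit 1654158614) (nat_lit 1216) (nat_lit 5441950562) (nat_lit 653) (nat_lit 5) (nat_lit 652) (nat_lit 5) (nat_lit 668) (nat_lit 5) (nat_lit 546) (nat_lit 533) (nat_lit 481)) (XT.lf (nat_lit 0) (nat_lit 3719372492) (nat_lit 1140) (nat_lit 3157970690) (nat_lit 1216) (nat_lit 357990806) (nat_lit 653) (nat_lit 5) (nat_lit 668) (nat_lit 5) (nat_lit 669) (nat_lit 5) (nat_lit 547) (nat_lit 533) (nat_lit 480))))) (XT.nd (nat_lit 156) (nat_lit 0) (nat_lit 0) (XT.nd (nat_lit 78) (nat_lit 1216) (nat_lit 0) (XT.lf (nat_lit 76) (nat_lit 828934204) (nat_lit 0) (nat_lit 4869744710) (nat_lit 1216) (nat_lit 1580028823) (nat_lit 654) (nat_lit 5) (nat_lit 653) (nat_lit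 5) (nat_lit 669) (nat_lit 5) (nat_lit 548) (nat_lit 533) (nat_lit 479)) (XT.lf (nat_lit 0) (nat_lit 366813878) (nat_lit 1216) (nat_lit 2417149119) (nat_lit 1292) (nat_lit 4539392435) (nat_lit 637) (nat_lit 5) (nat_lit 653) (nat_lit 5) (nat_lit 654) (nat_lit 5) (nat_lit 549) (nat_lit 533) (nat_lit 478))) (XT.nd (nat_lit 78) (nat_lit 0) (nat_lit 76) (XT.lf (nat_lit 76) (nat_lit 1677959169) (nat_lit 0) (nat_lit 621288874) (nat_lit 1292) (nat_lit 5070087885) (nat_lit 638) (nat_lit 5) (nat_lit 637) (nat_lit 5) (nat_lit 654) (nat_lit 5) (nat_lit 550) (nat_lit 533) (nat_lit 477)) (XT.nd (nat_lit 78) (nat_lit 0) (nat_lit 0) (XT.lf (nat_lit 0) (nat_lit 4254581664) (nat_lit 1216) (nat_lit 1569026788) (nat_lit 1292) (nat_lit 1592947422) (nat_lit 638) (nat_lit 5) (nat_lit 654) (nat_lit 5) (nat_lit 655) (nat_lit 5) (nat_lit 551) (nat_lit 533) (nat_lit 476)) (XT.lf (nat_lit 76) (nat_lit 2636375430) (nat_lit 0) (nat_lit 3592343301) (nat_lit 1292) (nat_lit 1236412310) (nat_lit 639) (nat_lit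 5) (nat_lit 638) (nat_lit 5) (nat_lit 655) (nat_lit 5) (nat_lit 552) (nat_lit 533) (nat_lit 475))))))) (XT.nd (nat_lit 780) (nat_lit 8284) (nat_lit 0) (XT.nd (nat_lit 390) (nat_lit 4636) (nat_lit 0) (XT.nd (nat_lit 156) (nat_lit 2660) (nat_lit 0) (XT.nd (nat_lit 78) (nat_lit 0) (nat_lit 76) (XT.lf (nat_lit 0) (nat_lit 687527610) (nat_lit 1292) (nat_lit 602319371) (nat_lit 1368) (nat_lit 6225352613) (nat_lit 621) (nat_lit 5) (nat_lit 638) (nat_lit 5) (nat_lit 639) (nat_lit 5) (nat_lit 553) (nat_lit 533) (nat_lit 474)) (XT.lf (nat_lit 0) (nat_lit 2624333380) (nat_lit 1292) (nat_lit 3853971651) (nat_lit 76) (nat_lit 1087986668) (nat_lit 622) (nat_lit 5) (nat_lit 639) (nat_lit 5) (nat_lit 623) (nat_lit 5) (nat_lit 554) (nat_lit 533) (nat_lit 473))) (XT.nd (nat_lit 78) (nat_lit 1444) (nat_lit 0) (XT.lf (nat_lit 0) (nat_lit 470400347) (nat_lit 1292) (nat_lit 4105426798) (nat_lit 1368) (nat_lit 3043063860) (nat_lit 605) (nat_lit 5) (nat_lit 622) (nat_lit 5) (nat_lit 623) (nat_lit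 5) (nat_lit 555) (nat_lit 533) (nat_lit 472)) (XT.nd (nat_lit 78) (nat_lit 1444) (nat_lit 0) (XT.lf (nat_lit 0) (nat_lit 4903408394) (nat_lit 1292) (nat_lit 1649674921) (nat_lit 1368) (nat_lit 1119728642) (nat_lit 605) (nat_lit 5) (nat_lit 622) (nat_lit 5) (nat_lit 623) (nat_lit 5) (nat_lit 556) (nat_lit 533) (nat_lit 471)) (XT.lf (nat_lit 0) (nat_lit 809058378) (nat_lit 1444) (nat_lit 6050115007) (nat_lit 76) (nat_lit 868972160) (nat_lit 586) (nat_lit 5) (nat_lit 605) (nat_lit 5) (nat_lit 587) (nat_lit 5) (nat_lit 557) (nat_lit 533) (nat_lit 470))))) (XT.nd (nat_lit 156) (nat_lit 3192) (nat_lit 0) (XT.nd (nat_lit 78) (nat_lit 1444) (nat_lit 0) (XT.lf (nat_lit 0) (nat_lit 2753070689) (nat_lit 1444) (nat_lit 1581365787) (nat_lit 76) (nat_lit 3450172509) (nat_lit 586) (nat_lit 5) (nat_lit 605) (nat_lit 5) (nat_lit 587) (nat_lit 5) (nat_lit 558) (nat_lit 533) (nat_lit 469)) (XT.lf (nat_lit 0) (nat_lit 2985878072) (nat_lit 1444) (nat_lit 1732213113) (nat_lit 1520) (nat_lit 3124471932)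 (nat_lit 567) (nat_lit 5) (nat_lit 586) (nat_lit 5) (nat_lit 587) (nat_lit 5) (nat_lit 559) (nat_lit 533) (nat_lit 468))) (XT.nd (nat_lit 78) (nat_lit 3192) (nat_lit 0) (XT.lf (nat_lit 0) (nat_lit 6702403850) (nat_lit 1520) (nat_lit 272244359) (nat_lit 76) (nat_lit 927432192) (nat_lit 567) (nat_lit 5) (nat_lit 587) (nat_lit 5) (nat_lit 568) (nat_lit 5) (nat_lit 560) (nat_lit 533) (nat_lit 467)) (XT.nd (nat_lit 78) (nat_lit 1596) (nat_lit 0) (XT.lf (nat_lit 0) (nat_lit 757837699) (nat_lit 1596) (nat_lit 3547331510) (nat_lit 76) (nat_lit 3657438659) (nat_lit 546) (nat_lit 5) (nat_lit 567) (nat_lit 5) (nat_lit 547) (nat_lit 5) (nat_lit 561) (nat_lit 533) (nat_lit 466)) (XT.lf (nat_lit 0) (nat_lit 1152784590) (nat_lit 1596) (nat_lit 1559307828) (nat_lit 1672) (nat_lit 5312625471) (nat_lit 525) (nat_lit 5) (nat_lit 546) (nat_lit 5) (nat_lit 547) (nat_lit 5) (nat_lit 562) (nat_lit 533) (nat_lit 465)))))) (XT.nd (nat_lit 390) (nat_lit 2964) (nat_lit 0) (XT.nd (nat_lit 156) (nat_lit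 3648) (nat_lit 0) (XT.nd (nat_lit 78) (nat_lit 1672) (nat_lit 0) (XT.lf (nat_lit 0) (nat_lit 4702307158) (nat_lit 1672) (nat_lit 2131670774) (nat_lit 76) (nat_lit 1254158288) (nat_lit 525) (nat_lit 5) (nat_lit 547) (nat_lit 5) (nat_lit 526) (nat_lit 5) (nat_lit 563) (nat_lit 533) (nat_lit 464)) (XT.lf (nat_lit 0) (nat_lit 2698216207) (nat_lit 1672) (nat_lit 4027496672) (nat_lit 1748) (nat_lit 1427245840) (nat_lit 503) (nat_lit 5) (nat_lit 525) (nat_lit 5) (nat_lit 526) (nat_lit 5) (nat_lit 564) (nat_lit 533) (nat_lit 463))) (XT.nd (nat_lit 78) (nat_lit 3572) (nat_lit 0) (XT.lf (nat_lit 0) (nat_lit 543219775) (nat_lit 1748) (nat_lit 599495013) (nat_lit 76) (nat_lit 7076688336) (nat_lit 502) (nat_lit 5) (nat_lit 525) (nat_lit 5) (nat_lit 503) (nat_lit 5) (nat_lit 565) (nat_lit 533) (nat_lit 462)) (XT.nd (nat_lit 78) (nat_lit 1824) (nat_lit 0) (XT.lf (nat_lit 0) (nat_lit 2540803829) (nat_lit 1824) (nat_lit 3928226382) (nat_lit 76) (nat_lit 1817824458) (nat_lit 479) (nat_lit 5)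 (nat_lit 503) (nat_lit 5) (nat_lit 480) (nat_lit 5) (nat_lit 566) (nat_lit 533) (nat_lit 461)) (XT.lf (nat_lit 0) (nat_lit 1044173197) (nat_lit 1824) (nat_lit 3519513991) (nat_lit 1900) (nat_lit 3792264373) (nat_lit 455) (nat_lit 5) (nat_lit 479) (nat_lit 5) (nat_lit 480) (nat_lit 5) (nat_lit 567) (nat_lit 533) (nat_lit 460))))) (XT.nd (nat_lit 234) (nat_lit 1824) (nat_lit 0) (XT.nd (nat_lit 78) (nat_lit 1140) (nat_lit 0) (XT.lf (nat_lit 0) (nat_lit 6139076248) (nat_lit 1824) (nat_lit 481715362) (nat_lit 1900) (nat_lit 1805766713) (nat_lit 455) (nat_lit 5) (nat_lit 479) (nat_lit 5) (nat_lit 480) (nat_lit 5) (nat_lit 568) (nat_lit 533) (nat_lit 459)) (XT.nd (nat_lit 78) (nat_lit 0) (nat_lit 0) (XT.lf (nat_lit 0) (nat_lit 220992206) (nat_lit 1140) (nat_lit 5672836248) (nat_lit 76) (nat_lit 2604654766) (nat_lit 440) (nat_lit 5) (nat_lit 455) (nat_lit 5) (nat_lit 441) (nat_lit 5) (nat_lit 569) (nat_lit 533) (nat_lit 458)) (XT.lf (nat_lit 0) (nat_lit 2251048555) (nat_lit 1140)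 (nat_lit 545227919) (nat_lit 76) (nat_lit 5775595605) (nat_lit 440) (nat_lit 5) (nat_lit 455) (nat_lit 5) (nat_lit 441) (nat_lit 5) (nat_lit 570) (nat_lit 533) (nat_lit 457)))) (XT.nd (nat_lit 78) (nat_lit 912) (nat_lit 0) (XT.lf (nat_lit 0) (nat_lit 4323799206) (nat_lit 988) (nat_lit 3932400581) (nat_lit 76) (nat_lit 390490026) (nat_lit 428) (nat_lit 5) (nat_lit 441) (nat_lit 5) (nat_lit 429) (nat_lit 5) (nat_lit 571) (nat_lit 533) (nat_lit 456)) (XT.nd (nat_lit 78) (nat_lit 0) (nat_lit 0) (XT.lf (nat_lit 0) (nat_lit 1332071968) (nat_lit 912) (nat_lit 5106105356) (nat_lit 988) (nat_lit 2284826029) (nat_lit 416) (nat_lit 5) (nat_lit 428) (nat_lit 5) (nat_lit 429) (nat_lit 5) (nat_lit 572) (nat_lit 533) (nat_lit 455)) (XT.lf (nat_lit 0) (nat_lit 6725025629) (nat_lit 912) (nat_lit 1865934237) (nat_lit 988) (nat_lit 209963806) (nat_lit 416) (nat_lit 5) (nat_lit 428) (nat_lit 5) (nat_lit 429) (nat_lit 5) (nat_lit 573) (nat_lit 533) (nat_lit 454))))))))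
noncomputable def xc100 : XT := (XT.nd (nat_lit 1560) (nat_lit 7144) (nat_lit 0) (XT.nd (nat_lit 780) (nat_lit 4864) (nat_lit 0) (XT.nd (nat_lit 390) (nat_lit 2432) (nat_lit 0) (XT.nd (nat_lit 156) (nat_lit 1748) (nat_lit 0) (XT.nd (nat_lit 78) (nat_lit 0) (nat_lit 0) (XT.lf (nat_lit 0) (nat_lit 1882815544) (nat_lit 912) (nat_lit 5542856380) (nat_lit 76) (nat_lit 1454457202) (nat_lit 404) (nat_lit 5) (nat_lit 416) (nat_lit 5) (nat_lit 405) (nat_lit 5) (nat_lit 574) (nat_lit 533) (nat_lit 453)) (XT.lf (nat_lit 0) (nat_lit 4011535415) (nat_lit 912) (nat_lit 117950056) (nat_lit 76) (nat_lit 4831470215) (nat_lit 404) (nat_lit 5) (nat_lit 416) (nat_lit 5) (nat_lit 405) (nat_lit 5) (nat_lit 575) (nat_lit 533) (nat_lit 452))) (XT.nd (nat_lit 78) (nat_lit 912) (nat_lit 0) (XT.lf (nat_lit 0) (nat_lit 5457306035) (nat_lit 836) (nat_lit 732048173) (nat_lit 912) (nat_lit 2853916705) (nat_lit 393) (nat_lit 5) (nat_lit 404) (nat_lit 5) (nat_lit 405) (nat_lit 5) (nat_lit 576) (nat_lit 533)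 (nat_lit 451)) (XT.nd (nat_lit 78) (nat_lit 76) (nat_lit 0) (XT.lf (nat_lit 0) (nat_lit 1996792735) (nat_lit 836) (nat_lit 6416905280) (nat_lit 912) (nat_lit 713477635) (nat_lit 382) (nat_lit 5) (nat_lit 393) (nat_lit 5) (nat_lit 394) (nat_lit 5) (nat_lit 577) (nat_lit 533) (nat_lit 450)) (XT.lf (nat_lit 0) (nat_lit 1451202152) (nat_lit 912) (nat_lit 1517287667) (nat_lit 76) (nat_lit 6244066118) (nat_lit 381) (nat_lit 5) (nat_lit 393) (nat_lit 5) (nat_lit 382) (nat_lit 5) (nat_lit 578) (nat_lit 533) (nat_lit 449))))) (XT.nd (nat_lit 156) (nat_lit 836) (nat_lit 0) (XT.nd (nat_lit 78) (nat_lit 760) (nat_lit 0) (XT.lf (nat_lit 0) (nat_lit 3653047358) (nat_lit 912) (nat_lit 5074194171) (nat_lit 76) (nat_lit 572241901) (nat_lit 370) (nat_lit 5) (nat_lit 382) (nat_lit 5) (nat_lit 371) (nat_lit 5) (nat_lit 579) (nat_lit 533) (nat_lit 448)) (XT.lf (nat_lit 0) (nat_lit 674434220) (nat_lit 760) (nat_lit 5231316112) (nat_lit 836) (nat_lit 3482265105) (nat_lit 360) (nat_lit 5) (nat_lit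 370) (nat_lit 5) (nat_lit 371) (nat_lit 5) (nat_lit 580) (nat_lit 533) (nat_lit 447))) (XT.nd (nat_lit 78) (nat_lit 836) (nat_lit 0) (XT.lf (nat_lit 0) (nat_lit 6576990817) (nat_lit 760) (nat_lit 1633445846) (nat_lit 836) (nat_lit 1267745167) (nat_lit 360) (nat_lit 5) (nat_lit 370) (nat_lit 5) (nat_lit 371) (nat_lit 5) (nat_lit 581) (nat_lit 533) (nat_lit 446)) (XT.nd (nat_lit 78) (nat_lit 0) (nat_lit 0) (XT.lf (nat_lit 0) (nat_lit 984355849) (nat_lit 836) (nat_lit 6552375849) (nat_lit 76) (nat_lit 2033167628) (nat_lit 349) (nat_lit 5) (nat_lit 360) (nat_lit 5) (nat_lit 350) (nat_lit 5) (nat_lit 582) (nat_lit 533) (nat_lit 445)) (XT.lf (nat_lit 0) (nat_lit 3268501499) (nat_lit 836) (nat_lit 618381645) (nat_lit 76) (nat_lit 5776323078) (nat_lit 349) (nat_lit 5) (nat_lit 360) (nat_lit 5) (nat_lit 350) (nat_lit 5) (nat_lit 583) (nat_lit 533) (nat_lit 444)))))) (XT.nd (nat_lit 390) (nat_lit 1976) (nat_lit 0) (XT.nd (nat_lit 156) (nat_lit 1444) (nat_lit 0) (XT.nd (nat_lit 78) (nat_lit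 760) (nat_lit 0) (XT.lf (nat_lit 0) (nat_lit 5476791755) (nat_lit 684) (nat_lit 131162841) (nat_lit 760) (nat_lit 4150234325) (nat_lit 340) (nat_lit 5) (nat_lit 349) (nat_lit 5) (nat_lit 350) (nat_lit 5) (nat_lit 584) (nat_lit 533) (nat_lit 443)) (XT.lf (nat_lit 0) (nat_lit 1817421891) (nat_lit 760) (nat_lit 6191134689) (nat_lit 836) (nat_lit 1846229609) (nat_lit 330) (nat_lit 5) (nat_lit 340) (nat_lit 5) (nat_lit 341) (nat_lit 5) (nat_lit 585) (nat_lit 533) (nat_lit 442))) (XT.nd (nat_lit 78) (nat_lit 1368) (nat_lit 0) (XT.lf (nat_lit 0) (nat_lit 501540253) (nat_lit 836) (nat_lit 1890592582) (nat_lit 76) (nat_lit 7561033309) (nat_lit 329) (nat_lit 5) (nat_lit 340) (nat_lit 5) (nat_lit 330) (nat_lit 5) (nat_lit 586) (nat_lit 533) (nat_lit 441)) (XT.nd (nat_lit 78) (nat_lit 684) (nat_lit 0) (XT.lf (nat_lit 0) (nat_lit 2884979265) (nat_lit 760) (nat_lit 5667727616) (nat_lit 76) (nat_lit 1500296042) (nat_lit 320) (nat_lit 5) (nat_lit 330) (nat_lit 5) (nat_lit 321) (nat_lit 5)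 (nat_lit 587) (nat_lit 533) (nat_lit 440)) (XT.lf (nat_lit 0) (nat_lit 620450328) (nat_lit 684) (nat_lit 4703555636) (nat_lit 760) (nat_lit 4830674046) (nat_lit 311) (nat_lit 5) (nat_lit 320) (nat_lit 5) (nat_lit 321) (nat_lit 5) (nat_lit 588) (nat_lit 533) (nat_lit 439))))) (XT.nd (nat_lit 156) (nat_lit 1292) (nat_lit 0) (XT.nd (nat_lit 78) (nat_lit 684) (nat_lit 0) (XT.lf (nat_lit 0) (nat_lit 7081946864) (nat_lit 684) (nat_lit 743472168) (nat_lit 760) (nat_lit 2432701406) (nat_lit 311) (nat_lit 5) (nat_lit 320) (nat_lit 5) (nat_lit 321) (nat_lit 5) (nat_lit 589) (nat_lit 533) (nat_lit 438)) (XT.lf (nat_lit 0) (nat_lit 32036802) (nat_lit 684) (nat_lit 7061664978) (nat_lit 76) (nat_lit 3269548422) (nat_lit 302) (nat_lit 5) (nat_lit 311) (nat_lit 5) (nat_lit 303) (nat_lit 5) (nat_lit 590) (nat_lit 533) (nat_lit 437))) (XT.nd (nat_lit 78) (nat_lit 1292) (nat_lit 0) (XT.lf (nat_lit 0) (nat_lit 2516048915) (nat_lit 684) (nat_lit 568554249) (nat_lit 76) (nat_lit 7385508538) (nat_lit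 302) (nat_lit 5) (nat_lit 311) (nat_lit 5) (nat_lit 303) (nat_lit 5) (nat_lit 591) (nat_lit 533) (nat_lit 436)) (XT.nd (nat_lit 78) (nat_lit 608) (nat_lit 0) (XT.lf (nat_lit 0) (nat_lit 5072746941) (nat_lit 760) (nat_lit 4479742462) (nat_lit 76) (nat_lit 1026162684) (nat_lit 293) (nat_lit 5) (nat_lit 303) (nat_lit 5) (nat_lit 294) (nat_lit 5) (nat_lit 592) (nat_lit 533) (nat_lit 435)) (XT.lf (nat_lit 0) (nat_lit 2197569377) (nat_lit 608) (nat_lit 5498396176) (nat_lit 684) (nat_lit 2993091728) (nat_lit 285) (nat_lit 5) (nat_lit 293) (nat_lit 5) (nat_lit 294) (nat_lit 5) (nat_lit 593) (nat_lit 533) (nat_lit 434))))))) (XT.nd (nat_lit 780) (nat_lit 3496) (nat_lit 0) (XT.nd (nat_lit 390) (nat_lit 1748) (nat_lit 0) (XT.nd (nat_lit 156) (nat_lit 1216) (nat_lit 0) (XT.nd (nat_lit 78) (nat_lit 684) (nat_lit 0) (XT.lf (nat_lit 0) (nat_lit 9040400206) (nat_lit 608) (nat_lit 1338427154) (nat_lit 684) (nat_lit 422701341) (nat_lit 285) (nat_lit 5) (nat_lit 293) (nat_lit 5) (nat_lit 294)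 (nat_lit 5) (nat_lit 594) (nat_lit 533) (nat_lit 433)) (XT.lf (nat_lit 0) (nat_lit 2200103907) (nat_lit 684) (nat_lit 5806557888) (nat_lit 76) (nat_lit 2908706859) (nat_lit 276) (nat_lit 5) (nat_lit 285) (nat_lit 5) (nat_lit 277) (nat_lit 5) (nat_lit 595) (nat_lit 533) (nat_lit 432))) (XT.nd (nat_lit 78) (nat_lit 608) (nat_lit 0) (XT.lf (nat_lit 0) (nat_lit 1082517154) (nat_lit 608) (nat_lit 3792618090) (nat_lit 684) (nat_lit 6156187281) (nat_lit 268) (nat_lit 5) (nat_lit 276) (nat_lit 5) (nat_lit 277) (nat_lit 5) (nat_lit 596) (nat_lit 533) (nat_lit 431)) (XT.nd (nat_lit 78) (nat_lit 608) (nat_lit 0) (XT.lf (nat_lit 0) (nat_lit 7624021513) (nat_lit 684) (nat_lit 2993198964) (nat_lit 76) (nat_lit 531969481) (nat_lit 268) (nat_lit 5) (nat_lit 277) (nat_lit 5) (nat_lit 269) (nat_lit 5) (nat_lit 597) (nat_lit 533) (nat_lit 430)) (XT.lf (nat_lit 0) (nat_lit 4101841957) (nat_lit 608) (nat_lit 6356074278) (nat_lit 684) (nat_lit 810899430) (nat_lit 260) (nat_lit 5) (nat_lit 268)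 (nat_lit 5) (nat_lit 269) (nat_lit 5) (nat_lit 598) (nat_lit 533) (nat_lit 429))))) (XT.nd (nat_lit 156) (nat_lit 1140) (nat_lit 0) (XT.nd (nat_lit 78) (nat_lit 532) (nat_lit 0) (XT.lf (nat_lit 0) (nat_lit 1930580329) (nat_lit 684) (nat_lit 52377835) (nat_lit 76) (nat_lit 9407650986) (nat_lit 259) (nat_lit 5) (nat_lit 268) (nat_lit 5) (nat_lit 260) (nat_lit 5) (nat_lit 599) (nat_lit 533) (nat_lit 428)) (XT.lf (nat_lit 0) (nat_lit 4758417203) (nat_lit 608) (nat_lit 4264063460) (nat_lit 76) (nat_lit 2491404382) (nat_lit 252) (nat_lit 5) (nat_lit 260) (nat_lit 5) (nat_lit 253) (nat_lit 5) (nat_lit 600) (nat_lit 533) (nat_lit 427))) (XT.nd (nat_lit 78) (nat_lit 608) (nat_lit 0) (XT.lf (nat_lit 0) (nat_lit 3058033034) (nat_lit 532) (nat_lit 4597115575) (nat_lit 608) (nat_lit 3984232517) (nat_lit 245) (nat_lit 5) (nat_lit 252) (nat_lit 5) (nat_lit 253) (nat_lit 5) (nat_lit 601) (nat_lit 533) (nat_lit 426)) (XT.nd (nat_lit 78) (nat_lit 608) (nat_lit 0) (XT.lf (nat_lit 0) (nat_lit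 10556462117) (nat_lit 532) (nat_lit 61194282) (nat_lit 608) (nat_lit 1149575287) (nat_lit 245) (nat_lit 5) (nat_lit 252) (nat_lit 5) (nat_lit 253) (nat_lit 5) (nat_lit 602) (nat_lit 533) (nat_lit 425)) (XT.lf (nat_lit 0) (nat_lit 1769612346) (nat_lit 608) (nat_lit 5575365787) (nat_lit 76) (nat_lit 4551422671) (nat_lit 237) (nat_lit 5) (nat_lit 245) (nat_lit 5) (nat_lit 238) (nat_lit 5) (nat_lit 603) (nat_lit 533) (nat_lit 424)))))) (XT.nd (nat_lit 390) (nat_lit 1900) (nat_lit 0) (XT.nd (nat_lit 156) (nat_lit 1064) (nat_lit 0) (XT.nd (nat_lit 78) (nat_lit 0) (nat_lit 0) (XT.lf (nat_lit 0) (nat_lit 1982004554) (nat_lit 532) (nat_lit 2750929074) (nat_lit 608) (nat_lit 7295046162) (nat_lit 230) (nat_lit 5) (nat_lit 237) (nat_lit 5) (nat_lit 238) (nat_lit 5) (nat_lit 604) (nat_lit 533) (nat_lit 423)) (XT.lf (nat_lit 0) (nat_lit 7785592161) (nat_lit 608) (nat_lit 2436141673) (nat_lit 76) (nat_lit 1939856393) (nat_lit 230) (nat_lit 5) (nat_lit 238) (nat_lit 5) (nat_lit 231) (nat_lit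 5) (nat_lit 605) (nat_lit 533) (nat_lit 422))) (XT.nd (nat_lit 78) (nat_lit 608) (nat_lit 0) (XT.lf (nat_lit 0) (nat_lit 5350404396) (nat_lit 456) (nat_lit 5582097193) (nat_lit 532) (nat_lit 1364708593) (nat_lit 224) (nat_lit 5) (nat_lit 230) (nat_lit 5) (nat_lit 231) (nat_lit 5) (nat_lit 606) (nat_lit 533) (nat_lit 421)) (XT.nd (nat_lit 78) (nat_lit 0) (nat_lit 0) (XT.lf (nat_lit 0) (nat_lit 863098217) (nat_lit 532) (nat_lit 823704290) (nat_lit 608) (nat_lit 10748471989) (nat_lit 216) (nat_lit 5) (nat_lit 223) (nat_lit 5) (nat_lit 224) (nat_lit 5) (nat_lit 607) (nat_lit 533) (nat_lit 420)) (XT.lf (nat_lit 0) (nat_lit 4834655735) (nat_lit 608) (nat_lit 3714991007) (nat_lit 76) (nat_lit 4025202424) (nat_lit 216) (nat_lit 5) (nat_lit 224) (nat_lit 5) (nat_lit 217) (nat_lit 5) (nat_lit 608) (nat_lit 533) (nat_lit 419))))) (XT.nd (nat_lit 234) (nat_lit 912) (nat_lit 0) (XT.nd (nat_lit 78) (nat_lit 532) (nat_lit 0) (XT.lf (nat_lit 0) (nat_lit 4323450215) (nat_lit 456) (nat_lit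 3736402618) (nat_lit 532) (nat_lit 4657075927) (nat_lit 210) (nat_lit 5) (nat_lit 216) (nat_lit 5) (nat_lit 217) (nat_lit 5) (nat_lit 609) (nat_lit 533) (nat_lit 418)) (XT.nd (nat_lit 78) (nat_lit 532) (nat_lit 0) (XT.lf (nat_lit 0) (nat_lit 11363274392) (nat_lit 532) (nat_lit 323400012) (nat_lit 76) (nat_lit 1174902275) (nat_lit 210) (nat_lit 5) (nat_lit 217) (nat_lit 5) (nat_lit 211) (nat_lit 5) (nat_lit 610) (nat_lit 533) (nat_lit 417)) (XT.lf (nat_lit 0) (nat_lit 1759236767) (nat_lit 532) (nat_lit 5058540650) (nat_lit 76) (nat_lit 6189953499) (nat_lit 203) (nat_lit 5) (nat_lit 210) (nat_lit 5) (nat_lit 204) (nat_lit 5) (nat_lit 611) (nat_lit 533) (nat_lit 416)))) (XT.nd (nat_lit 78) (nat_lit 456) (nat_lit 0) (XT.lf (nat_lit 0) (nat_lit 3240593838) (nat_lit 456) (nat_lit 1825964972) (nat_lit 532) (nat_lit 8089958542) (nat_lit 197) (nat_lit 5) (nat_lit 203) (nat_lit 5) (nat_lit 204) (nat_lit 5) (nat_lit 612) (nat_lit 533) (nat_lit 415)) (XT.nd (nat_lit 78) (nat_lit 456)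 (nat_lit 0) (XT.lf (nat_lit 0) (nat_lit 8476988535) (nat_lit 532) (nat_lit 1581707009) (nat_lit 76) (nat_lit 3248845804) (nat_lit 197) (nat_lit 5) (nat_lit 204) (nat_lit 5) (nat_lit 198) (nat_lit 5) (nat_lit 613) (nat_lit 533) (nat_lit 414)) (XT.lf (nat_lit 0) (nat_lit 6972110972) (nat_lit 456) (nat_lit 5022824937) (nat_lit 532) (nat_lit 1465864770) (nat_lit 191) (nat_lit 5) (nat_lit 197) (nat_lit 5) (nat_lit 198) (nat_lit 5) (nat_lit 614) (nat_lit 533) (nat_lit 413))))))))
noncomputable def xc101 : XT := (XT.nd (nat_lit 76050) (nat_lit 0) (nat_lit 21356) (XT.nd (nat_lit 75270) (nat_lit 0) (nat_lit 36404) (XT.nd (nat_lit 74880) (nat_lit 0) (nat_lit 38456) (XT.nd (nat_lit 156) (nat_lit 912) (nat_lit 0) (XT.nd (nat_lit 78) (nat_lit 0) (nat_lit 0) (XT.lf (nat_lit 0) (nat_lit 1947524192) (nat_lit 456) (nat_lit 11528068336) (nat_lit 76) (nat_lit 141134494) (nat_lit 185) (nat_lit 5) (nat_lit 191) (nat_lit 5) (nat_lit 186) (nat_lit 5) (nat_lit 615) (nat_lit 533) (nat_lit 412)) (XT.lf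 (nat_lit 0) (nat_lit 5468805591) (nat_lit 456) (nat_lit 2919275371) (nat_lit 76) (nat_lit 5386313068) (nat_lit 185) (nat_lit 5) (nat_lit 191) (nat_lit 5) (nat_lit 186) (nat_lit 5) (nat_lit 616) (nat_lit 533) (nat_lit 411))) (XT.nd (nat_lit 78) (nat_lit 456) (nat_lit 0) (XT.lf (nat_lit 0) (nat_lit 5913142976) (nat_lit 456) (nat_lit 3168251505) (nat_lit 532) (nat_lit 4853403218) (nat_lit 179) (nat_lit 5) (nat_lit 185) (nat_lit 5) (nat_lit 186) (nat_lit 5) (nat_lit 617) (nat_lit 533) (nat_lit 410)) (XT.nd (nat_lit 78) (nat_lit 76) (nat_lit 0) (XT.lf (nat_lit 0) (nat_lit 834356052) (nat_lit 380) (nat_lit 11953622901) (nat_lit 456) (nat_lit 1309996549) (nat_lit 174) (nat_lit 5) (nat_lit 179) (nat_lit 5) (nat_lit 180) (nat_lit 5) (nat_lit 618) (nat_lit 533) (nat_lit 409)) (XT.lf (nat_lit 0) (nat_lit 2331890950) (nat_lit 456) (nat_lit 4349698040) (nat_lit 76) (nat_lit 7581372880) (nat_lit 173) (nat_lit 5) (nat_lit 179) (nat_lit 5) (nat_lit 174) (nat_lit 5) (nat_lit 619) (nat_lit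 533) (nat_lit 408))))) (XT.nd (nat_lit 156) (nat_lit 912) (nat_lit 0) (XT.nd (nat_lit 78) (nat_lit 0) (nat_lit 0) (XT.lf (nat_lit 0) (nat_lit 250918992) (nat_lit 988) (nat_lit 1578330907) (nat_lit 988) (nat_lit 1578330907) (nat_lit 691) (nat_lit 3) (nat_lit 704) (nat_lit 3) (nat_lit 704) (nat_lit 5) (nat_lit 534) (nat_lit 534) (nat_lit 492)) (XT.lf (nat_lit 76) (nat_lit 220717729) (nat_lit 0) (nat_lit 2315361894) (nat_lit 988) (nat_lit 4306384797) (nat_lit 692) (nat_lit 5) (nat_lit 691) (nat_lit 3) (nat_lit 704) (nat_lit 5) (nat_lit 535) (nat_lit 534) (nat_lit 491))) (XT.nd (nat_lit 78) (nat_lit 912) (nat_lit 0) (XT.lf (nat_lit 76) (nat_lit 3680943503) (nat_lit 0) (nat_lit 897877299) (nat_lit 988) (nat_lit 2292143119) (nat_lit 692) (nat_lit 5) (nat_lit 691) (nat_lit 3) (nat_lit 704) (nat_lit 5) (nat_lit 536) (nat_lit 534) (nat_lit 490)) (XT.nd (nat_lit 78) (nat_lit 988) (nat_lit 0) (XT.lf (nat_lit 76) (nat_lit 282315639) (nat_lit 0) (nat_lit 6333334844) (nat_lit 988) (nat_lit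 285325053) (nat_lit 693) (nat_lit 5) (nat_lit 692) (nat_lit 5) (nat_lit 705) (nat_lit 5) (nat_lit 537) (nat_lit 534) (nat_lit 489)) (XT.lf (nat_lit 0) (nat_lit 1714357551) (nat_lit 988) (nat_lit 3110022338) (nat_lit 1064) (nat_lit 2107468630) (nat_lit 679) (nat_lit 5) (nat_lit 692) (nat_lit 5) (nat_lit 693) (nat_lit 5) (nat_lit 538) (nat_lit 534) (nat_lit 488)))))) (XT.nd (nat_lit 390) (nat_lit 1064) (nat_lit 0) (XT.nd (nat_lit 156) (nat_lit 988) (nat_lit 0) (XT.nd (nat_lit 78) (nat_lit 0) (nat_lit 0) (XT.lf (nat_lit 76) (nat_lit 444614469) (nat_lit 0) (nat_lit 3257839702) (nat_lit 1064) (nat_lit 3261808660) (nat_lit 680) (nat_lit 5) (nat_lit 679) (nat_lit 5) (nat_lit 693) (nat_lit 5) (nat_lit 539) (nat_lit 534) (nat_lit 487)) (XT.lf (nat_lit 76) (nat_lit 4084571021) (nat_lit 0) (nat_lit 1616773936) (nat_lit 1064) (nat_lit 1296566106) (nat_lit 680) (nat_lit 5) (nat_lit 679) (nat_lit 5) (nat_lit 693) (nat_lit 5) (nat_lit 540) (nat_lit 534) (nat_lit 486))) (XT.nd (nat_lit 78)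 (nat_lit 0) (nat_lit 0) (XT.lf (nat_lit 0) (nat_lit 654895159) (nat_lit 1064) (nat_lit 6291414822) (nat_lit 1140) (nat_lit 86712400) (nat_lit 666) (nat_lit 5) (nat_lit 680) (nat_lit 5) (nat_lit 681) (nat_lit 5) (nat_lit 541) (nat_lit 534) (nat_lit 485)) (XT.nd (nat_lit 78) (nat_lit 0) (nat_lit 0) (XT.lf (nat_lit 0) (nat_lit 2610154444) (nat_lit 1064) (nat_lit 2607688065) (nat_lit 1140) (nat_lit 1851185332) (nat_lit 666) (nat_lit 5) (nat_lit 680) (nat_lit 5) (nat_lit 681) (nat_lit 5) (nat_lit 542) (nat_lit 534) (nat_lit 484)) (XT.lf (nat_lit 76) (nat_lit 1136217637) (nat_lit 0) (nat_lit 3428351843) (nat_lit 1140) (nat_lit 2541988719) (nat_lit 667) (nat_lit 5) (nat_lit 666) (nat_lit 5) (nat_lit 681) (nat_lit 5) (nat_lit 543) (nat_lit 534) (nat_lit 483))))) (XT.nd (nat_lit 156) (nat_lit 0) (nat_lit 0) (XT.nd (nat_lit 78) (nat_lit 1064) (nat_lit 0) (XT.lf (nat_lit 76) (nat_lit 4962138887) (nat_lit 0) (nat_lit 1566851187) (nat_lit 1140) (nat_lit 616436434) (nat_lit 667) (nat_lit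 5) (nat_lit 666) (nat_lit 5) (nat_lit 681) (nat_lit 5) (nat_lit 544) (nat_lit 534) (nat_lit 482)) (XT.lf (nat_lit 0) (nat_lit 1297181281) (nat_lit 1140) (nat_lit 5523694654) (nat_lit 1216) (nat_lit 364682147) (nat_lit 652) (nat_lit 5) (nat_lit 667) (nat_lit 5) (nat_lit 668) (nat_lit 5) (nat_lit 545) (nat_lit 534) (nat_lit 481))) (XT.nd (nat_lit 78) (nat_lit 0) (nat_lit 0) (XT.lf (nat_lit 0) (nat_lit 3220803843) (nat_lit 1140) (nat_lit 1656352366) (nat_lit 1216) (nat_lit 2349660214) (nat_lit 652) (nat_lit 5) (nat_lit 667) (nat_lit 5) (nat_lit 668) (nat_lit 5) (nat_lit 546) (nat_lit 534) (nat_lit 480)) (XT.nd (nat_lit 78) (nat_lit 0) (nat_lit 0) (XT.lf (nat_lit 76) (nat_lit 2289829318) (nat_lit 0) (nat_lit 2863676167) (nat_lit 1216) (nat_lit 2115987569) (nat_lit 653) (nat_lit 5) (nat_lit 652) (nat_lit 5) (nat_lit 668) (nat_lit 5) (nat_lit 547) (nat_lit 534) (nat_lit 479)) (XT.lf (nat_lit 76) (nat_lit 6309035712) (nat_lit 0) (nat_lit 783363757) (nat_lit 1216) (nat_lit 221278134)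 (nat_lit 653) (nat_lit 5) (nat_lit 652) (nat_lit 5) (nat_lit 668) (nat_lit 5) (nat_lit 548) (nat_lit 534) (nat_lit 478))))))) (XT.nd (nat_lit 780) (nat_lit 10032) (nat_lit 0) (XT.nd (nat_lit 390) (nat_lit 2660) (nat_lit 0) (XT.nd (nat_lit 156) (nat_lit 1216) (nat_lit 0) (XT.nd (nat_lit 78) (nat_lit 0) (nat_lit 0) (XT.lf (nat_lit 0) (nat_lit 1674666812) (nat_lit 1216) (nat_lit 4317579158) (nat_lit 1292) (nat_lit 1366566890) (nat_lit 637) (nat_lit 5) (nat_lit 653) (nat_lit 5) (nat_lit 654) (nat_lit 5) (nat_lit 549) (nat_lit 534) (nat_lit 477)) (XT.lf (nat_lit 0) (nat_lit 3575286825) (nat_lit 1216) (nat_lit 258897905) (nat_lit 1292) (nat_lit 3571247311) (nat_lit 637) (nat_lit 5) (nat_lit 653) (nat_lit 5) (nat_lit 654) (nat_lit 5) (nat_lit 550) (nat_lit 534) (nat_lit 476))) (XT.nd (nat_lit 78) (nat_lit 1216) (nat_lit 0) (XT.lf (nat_lit 76) (nat_lit 3903595481) (nat_lit 0) (nat_lit 1594239225) (nat_lit 1292) (nat_lit 1955475352) (nat_lit 638) (nat_lit 5) (nat_lit 637) (nat_lit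 5) (nat_lit 654) (nat_lit 5) (nat_lit 551) (nat_lit 534) (nat_lit 475)) (XT.nd (nat_lit 78) (nat_lit 1292) (nat_lit 0) (XT.lf (nat_lit 76) (nat_lit 625170407) (nat_lit 0) (nat_lit 6803233812) (nat_lit 1292) (nat_lit 74354668) (nat_lit 639) (nat_lit 5) (nat_lit 638) (nat_lit 5) (nat_lit 655) (nat_lit 5) (nat_lit 552) (nat_lit 534) (nat_lit 474)) (XT.lf (nat_lit 0) (nat_lit 1814354103) (nat_lit 1292) (nat_lit 2673360416) (nat_lit 1368) (nat_lit 3065364057) (nat_lit 621) (nat_lit 5) (nat_lit 638) (nat_lit 5) (nat_lit 639) (nat_lit 5) (nat_lit 553) (nat_lit 534) (nat_lit 473))))) (XT.nd (nat_lit 156) (nat_lit 2660) (nat_lit 0) (XT.nd (nat_lit 78) (nat_lit 0) (nat_lit 76) (XT.lf (nat_lit 76) (nat_lit 1606490065) (nat_lit 0) (nat_lit 2104193570) (nat_lit 1368) (nat_lit 3894298747) (nat_lit 622) (nat_lit 5) (nat_lit 621) (nat_lit 5) (nat_lit 639) (nat_lit 5) (nat_lit 554) (nat_lit 534) (nat_lit 472)) (XT.lf (nat_lit 0) (nat_lit 5626187041) (nat_lit 1292) (nat_lit 1681330020) (nat_lit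 76) (nat_lit 350786568) (nat_lit 622) (nat_lit 5) (nat_lit 639) (nat_lit 5) (nat_lit 623) (nat_lit 5) (nat_lit 555) (nat_lit 534) (nat_lit 471))) (XT.nd (nat_lit 78) (nat_lit 1444) (nat_lit 0) (XT.lf (nat_lit 0) (nat_lit 2714728622) (nat_lit 1292) (nat_lit 4858661919) (nat_lit 1368) (nat_lit 139437186) (nat_lit 605) (nat_lit 5) (nat_lit 622) (nat_lit 5) (nat_lit 623) (nat_lit 5) (nat_lit 556) (nat_lit 534) (nat_lit 470)) (XT.nd (nat_lit 78) (nat_lit 1368) (nat_lit 0) (XT.lf (nat_lit 0) (nat_lit 1741099228) (nat_lit 1368) (nat_lit 587852739) (nat_lit 76) (nat_lit 5439791943) (nat_lit 604) (nat_lit 5) (nat_lit 622) (nat_lit 5) (nat_lit 605) (nat_lit 5) (nat_lit 557) (nat_lit 534) (nat_lit 469)) (XT.lf (nat_lit 0) (nat_lit 3647652640) (nat_lit 1444) (nat_lit 3895461939) (nat_lit 76) (nat_lit 282843920) (nat_lit 586) (nat_lit 5) (nat_lit 605) (nat_lit 5) (nat_lit 587) (nat_lit 5) (nat_lit 558) (nat_lit 534) (nat_lit 468)))))) (XT.nd (nat_lit 390) (nat_lit 5396) (nat_lit 0) (XT.nd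 (nat_lit 156) (nat_lit 3192) (nat_lit 0) (XT.nd (nat_lit 78) (nat_lit 0) (nat_lit 0) (XT.lf (nat_lit 0) (nat_lit 626255019) (nat_lit 1444) (nat_lit 4953014807) (nat_lit 1520) (nat_lit 2305312804) (nat_lit 567) (nat_lit 5) (nat_lit 586) (nat_lit 5) (nat_lit 587) (nat_lit 5) (nat_lit 559) (nat_lit 534) (nat_lit 467)) (XT.lf (nat_lit 0) (nat_lit 5261952449) (nat_lit 1444) (nat_lit 2277705972) (nat_lit 1520) (nat_lit 404921870) (nat_lit 567) (nat_lit 5) (nat_lit 586) (nat_lit 5) (nat_lit 587) (nat_lit 5) (nat_lit 560) (nat_lit 534) (nat_lit 466))) (XT.nd (nat_lit 78) (nat_lit 1596) (nat_lit 0) (XT.lf (nat_lit 0) (nat_lit 1493752102) (nat_lit 1596) (nat_lit 6037834365) (nat_lit 76) (nat_lit 474388250) (nat_lit 546) (nat_lit 5) (nat_lit 567) (nat_lit 5) (nat_lit 547) (nat_lit 5) (nat_lit 561) (nat_lit 534) (nat_lit 465)) (XT.nd (nat_lit 78) (nat_lit 1596) (nat_lit 0) (XT.lf (nat_lit 0) (nat_lit 3423202819) (nat_lit 1596) (nat_lit 1367545986) (nat_lit 76) (nat_lit 3277833798) (nat_lit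 546) (nat_lit 5) (nat_lit 567) (nat_lit 5) (nat_lit 547) (nat_lit 5) (nat_lit 562) (nat_lit 534) (nat_lit 464)) (XT.lf (nat_lit 0) (nat_lit 3411764988) (nat_lit 1596) (nat_lit 1967329881) (nat_lit 1672) (nat_lit 2753594269) (nat_lit 525) (nat_lit 5) (nat_lit 546) (nat_lit 5) (nat_lit 547) (nat_lit 5) (nat_lit 563) (nat_lit 534) (nat_lit 463))))) (XT.nd (nat_lit 234) (nat_lit 1900) (nat_lit 0) (XT.nd (nat_lit 78) (nat_lit 1824) (nat_lit 0) (XT.lf (nat_lit 0) (nat_lit 72623261) (nat_lit 1672) (nat_lit 7283332866) (nat_lit 1748) (nat_lit 842488117) (nat_lit 503) (nat_lit 5) (nat_lit 525) (nat_lit 5) (nat_lit 526) (nat_lit 5) (nat_lit 564) (nat_lit 534) (nat_lit 462)) (XT.nd (nat_lit 78) (nat_lit 1748) (nat_lit 0) (XT.lf (nat_lit 0) (nat_lit 1103706516) (nat_lit 1748) (nat_lit 3289173490) (nat_lit 76) (nat_lit 3872266395) (nat_lit 502) (nat_lit 5) (nat_lit 525) (nat_lit 5) (nat_lit 503) (nat_lit 5) (nat_lit 565) (nat_lit 534) (nat_lit 461)) (XT.lf (nat_lit 0) (nat_lit 1630697977)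 (nat_lit 1748) (nat_lit 1424566233) (nat_lit 1824) (nat_lit 5278255880) (nat_lit 479) (nat_lit 5) (nat_lit 502) (nat_lit 5) (nat_lit 503) (nat_lit 5) (nat_lit 566) (nat_lit 534) (nat_lit 460)))) (XT.nd (nat_lit 78) (nat_lit 1900) (nat_lit 0) (XT.lf (nat_lit 0) (nat_lit 5046078757) (nat_lit 1824) (nat_lit 1749618656) (nat_lit 76) (nat_lit 1607562530) (nat_lit 479) (nat_lit 5) (nat_lit 503) (nat_lit 5) (nat_lit 480) (nat_lit 5) (nat_lit 567) (nat_lit 534) (nat_lit 459)) (XT.nd (nat_lit 78) (nat_lit 76) (nat_lit 0) (XT.lf (nat_lit 0) (nat_lit 3307379096) (nat_lit 1824) (nat_lit 3768472686) (nat_lit 1900) (nat_lit 1398563107) (nat_lit 455) (nat_lit 5) (nat_lit 479) (nat_lit 5) (nat_lit 480) (nat_lit 5) (nat_lit 568) (nat_lit 534) (nat_lit 458)) (XT.lf (nat_lit 0) (nat_lit 571645160) (nat_lit 1900) (nat_lit 90935543) (nat_lit 76) (nat_lit 7884731902) (nat_lit 454) (nat_lit 5) (nat_lit 479) (nat_lit 5) (nat_lit 455) (nat_lit 5) (nat_lit 569) (nat_lit 534) (nat_lit 457))))))))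
noncomputable def xc102 : XT := (XT.nd (nat_lit 1560) (nat_lit 7676) (nat_lit 0) (XT.nd (nat_lit 780) (nat_lit 4484) (nat_lit 0) (XT.nd (nat_lit 390) (nat_lit 2584) (nat_lit 0) (XT.nd (nat_lit 156) (nat_lit 1824) (nat_lit 0) (XT.nd (nat_lit 78) (nat_lit 912) (nat_lit 0) (XT.lf (nat_lit 0) (nat_lit 2581400767) (nat_lit 1140) (nat_lit 3522349479) (nat_lit 76) (nat_lit 2517358699) (nat_lit 440) (nat_lit 5) (nat_lit 455) (nat_lit 5) (nat_lit 441) (nat_lit 5) (nat_lit 570) (nat_lit 534) (nat_lit 456)) (XT.lf (nat_lit 0) (nat_lit 1685525943) (nat_lit 912) (nat_lit 2931279996) (nat_lit 988) (nat_lit 4079869086) (nat_lit 428) (nat_lit 5) (nat_lit 440) (nat_lit 5) (nat_lit 441) (nat_lit 5) (nat_lit 571) (nat_lit 534) (nat_lit 455))) (XT.nd (nat_lit 78) (nat_lit 1824) (nat_lit 0) (XT.lf (nat_lit 0) (nat_lit 6688614389) (nat_lit 988) (nat_lit 1759827026) (nat_lit 76) (nat_lit 325399951) (nat_lit 428) (nat_lit 5) (nat_lit 441) (nat_lit 5) (nat_lit 429) (nat_lit 5) (nat_lit 572) (nat_lit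 534) (nat_lit 454)) (XT.nd (nat_lit 78) (nat_lit 912) (nat_lit 0) (XT.lf (nat_lit 0) (nat_lit 3595124306) (nat_lit 912) (nat_lit 5220002709) (nat_lit 988) (nat_lit 37161448) (nat_lit 416) (nat_lit 5) (nat_lit 428) (nat_lit 5) (nat_lit 429) (nat_lit 5) (nat_lit 573) (nat_lit 534) (nat_lit 453)) (XT.lf (nat_lit 0) (nat_lit 107636981) (nat_lit 836) (nat_lit 1900612729) (nat_lit 912) (nat_lit 6924125132) (nat_lit 404) (nat_lit 5) (nat_lit 415) (nat_lit 5) (nat_lit 416) (nat_lit 5) (nat_lit 574) (nat_lit 534) (nat_lit 452))))) (XT.nd (nat_lit 156) (nat_lit 1748) (nat_lit 0) (XT.nd (nat_lit 78) (nat_lit 836) (nat_lit 0) (XT.lf (nat_lit 0) (nat_lit 4110318689) (nat_lit 912) (nat_lit 3402205316) (nat_lit 76) (nat_lit 1501211716) (nat_lit 404) (nat_lit 5) (nat_lit 416) (nat_lit 5) (nat_lit 405) (nat_lit 5) (nat_lit 575) (nat_lit 534) (nat_lit 451)) (XT.lf (nat_lit 0) (nat_lit 2114787736) (nat_lit 836) (nat_lit 4137617652) (nat_lit 912) (nat_lit 2844361478) (nat_lit 393) (nat_lit 5)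 (nat_lit 404) (nat_lit 5) (nat_lit 405) (nat_lit 5) (nat_lit 576) (nat_lit 534) (nat_lit 450))) (XT.nd (nat_lit 78) (nat_lit 1748) (nat_lit 0) (XT.lf (nat_lit 0) (nat_lit 7759291016) (nat_lit 836) (nat_lit 672900053) (nat_lit 912) (nat_lit 749372945) (nat_lit 393) (nat_lit 5) (nat_lit 404) (nat_lit 5) (nat_lit 405) (nat_lit 5) (nat_lit 577) (nat_lit 534) (nat_lit 449)) (XT.nd (nat_lit 78) (nat_lit 836) (nat_lit 0) (XT.lf (nat_lit 0) (nat_lit 1388223980) (nat_lit 912) (nat_lit 5019859773) (nat_lit 76) (nat_lit 2859417485) (nat_lit 381) (nat_lit 5) (nat_lit 393) (nat_lit 5) (nat_lit 382) (nat_lit 5) (nat_lit 578) (nat_lit 534) (nat_lit 448)) (XT.lf (nat_lit 0) (nat_lit 665412985) (nat_lit 836) (nat_lit 2884257663) (nat_lit 912) (nat_lit 5805567232) (nat_lit 370) (nat_lit 5) (nat_lit 381) (nat_lit 5) (nat_lit 382) (nat_lit 5) (nat_lit 579) (nat_lit 534) (nat_lit 447)))))) (XT.nd (nat_lit 390) (nat_lit 2204) (nat_lit 0) (XT.nd (nat_lit 156) (nat_lit 1520) (nat_lit 0) (XT.nd (nat_lit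 78) (nat_lit 760) (nat_lit 0) (XT.lf (nat_lit 0) (nat_lit 5765937757) (nat_lit 912) (nat_lit 2945887207) (nat_lit 76) (nat_lit 732674793) (nat_lit 370) (nat_lit 5) (nat_lit 382) (nat_lit 5) (nat_lit 371) (nat_lit 5) (nat_lit 580) (nat_lit 534) (nat_lit 446)) (XT.lf (nat_lit 0) (nat_lit 2903044075) (nat_lit 760) (nat_lit 5135036095) (nat_lit 836) (nat_lit 1497237993) (nat_lit 360) (nat_lit 5) (nat_lit 370) (nat_lit 5) (nat_lit 371) (nat_lit 5) (nat_lit 581) (nat_lit 534) (nat_lit 445))) (XT.nd (nat_lit 78) (nat_lit 1444) (nat_lit 0) (XT.lf (nat_lit 0) (nat_lit 711824871) (nat_lit 836) (nat_lit 752546173) (nat_lit 76) (nat_lit 8163616464) (nat_lit 359) (nat_lit 5) (nat_lit 370) (nat_lit 5) (nat_lit 360) (nat_lit 5) (nat_lit 582) (nat_lit 534) (nat_lit 444)) (XT.nd (nat_lit 78) (nat_lit 684) (nat_lit 0) (XT.lf (nat_lit 0) (nat_lit 2968640276) (nat_lit 836) (nat_lit 4461618685) (nat_lit 76) (nat_lit 2291583114) (nat_lit 349) (nat_lit 5) (nat_lit 360) (nat_lit 5) (nat_lit 350)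 (nat_lit 5) (nat_lit 583) (nat_lit 534) (nat_lit 443)) (XT.lf (nat_lit 0) (nat_lit 1568055940) (nat_lit 684) (nat_lit 3702072242) (nat_lit 760) (nat_lit 4547456942) (nat_lit 340) (nat_lit 5) (nat_lit 349) (nat_lit 5) (nat_lit 350) (nat_lit 5) (nat_lit 584) (nat_lit 534) (nat_lit 442))))) (XT.nd (nat_lit 156) (nat_lit 1368) (nat_lit 0) (XT.nd (nat_lit 78) (nat_lit 836) (nat_lit 0) (XT.lf (nat_lit 0) (nat_lit 7623302354) (nat_lit 760) (nat_lit 2165741148) (nat_lit 76) (nat_lit 126088473) (nat_lit 340) (nat_lit 5) (nat_lit 350) (nat_lit 5) (nat_lit 341) (nat_lit 5) (nat_lit 585) (nat_lit 534) (nat_lit 441)) (XT.lf (nat_lit 0) (nat_lit 35067355) (nat_lit 836) (nat_lit 5974631193) (nat_lit 76) (nat_lit 4004406571) (nat_lit 329) (nat_lit 5) (nat_lit 340) (nat_lit 5) (nat_lit 330) (nat_lit 5) (nat_lit 586) (nat_lit 534) (nat_lit 440))) (XT.nd (nat_lit 78) (nat_lit 684) (nat_lit 0) (XT.lf (nat_lit 0) (nat_lit 242674069) (nat_lit 684) (nat_lit 2126868326) (nat_lit 760) (nat_lit 7745379747)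 (nat_lit 320) (nat_lit 5) (nat_lit 329) (nat_lit 5) (nat_lit 330) (nat_lit 5) (nat_lit 587) (nat_lit 534) (nat_lit 439)) (XT.nd (nat_lit 78) (nat_lit 684) (nat_lit 0) (XT.lf (nat_lit 0) (nat_lit 4778732896) (nat_lit 760) (nat_lit 3592699690) (nat_lit 76) (nat_lit 1845764315) (nat_lit 320) (nat_lit 5) (nat_lit 330) (nat_lit 5) (nat_lit 321) (nat_lit 5) (nat_lit 588) (nat_lit 534) (nat_lit 438)) (XT.lf (nat_lit 0) (nat_lit 2806844560) (nat_lit 684) (nat_lit 4437809464) (nat_lit 760) (nat_lit 3076694072) (nat_lit 311) (nat_lit 5) (nat_lit 320) (nat_lit 5) (nat_lit 321) (nat_lit 5) (nat_lit 589) (nat_lit 534) (nat_lit 437))))))) (XT.nd (nat_lit 780) (nat_lit 3724) (nat_lit 0) (XT.nd (nat_lit 390) (nat_lit 1976) (nat_lit 0) (XT.nd (nat_lit 156) (nat_lit 1292) (nat_lit 0) (XT.nd (nat_lit 78) (nat_lit 684) (nat_lit 0) (XT.lf (nat_lit 0) (nat_lit 9354943865) (nat_lit 684) (nat_lit 405579568) (nat_lit 760) (nat_lit 667048125) (nat_lit 311) (nat_lit 5) (nat_lit 320) (nat_lit 5) (nat_lit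 321) (nat_lit 5) (nat_lit 590) (nat_lit 534) (nat_lit 436)) (XT.lf (nat_lit 0) (nat_lit 1804397303) (nat_lit 684) (nat_lit 5028682079) (nat_lit 76) (nat_lit 3701867474) (nat_lit 302) (nat_lit 5) (nat_lit 311) (nat_lit 5) (nat_lit 303) (nat_lit 5) (nat_lit 591) (nat_lit 534) (nat_lit 435))) (XT.nd (nat_lit 78) (nat_lit 608) (nat_lit 0) (XT.lf (nat_lit 0) (nat_lit 1572279908) (nat_lit 684) (nat_lit 2741278431) (nat_lit 760) (nat_lit 6330880500) (nat_lit 293) (nat_lit 5) (nat_lit 302) (nat_lit 5) (nat_lit 303) (nat_lit 5) (nat_lit 592) (nat_lit 534) (nat_lit 434)) (XT.nd (nat_lit 78) (nat_lit 608) (nat_lit 0) (XT.lf (nat_lit 0) (nat_lit 6893475064) (nat_lit 760) (nat_lit 2419917072) (nat_lit 76) (nat_lit 1442318775) (nat_lit 293) (nat_lit 5) (nat_lit 303) (nat_lit 5) (nat_lit 294) (nat_lit 5) (nat_lit 593) (nat_lit 534) (nat_lit 433)) (XT.lf (nat_lit 0) (nat_lit 4376800082) (nat_lit 608) (nat_lit 5172510377) (nat_lit 684) (nat_lit 1319413226) (nat_lit 285) (nat_lit 5) (nat_lit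 293) (nat_lit 5) (nat_lit 294) (nat_lit 5) (nat_lit 594) (nat_lit 534) (nat_lit 432))))) (XT.nd (nat_lit 156) (nat_lit 1292) (nat_lit 0) (XT.nd (nat_lit 78) (nat_lit 0) (nat_lit 0) (XT.lf (nat_lit 0) (nat_lit 326553404) (nat_lit 608) (nat_lit 927325561) (nat_lit 684) (nat_lit 9730027376) (nat_lit 276) (nat_lit 5) (nat_lit 284) (nat_lit 5) (nat_lit 285) (nat_lit 5) (nat_lit 595) (nat_lit 534) (nat_lit 431)) (XT.lf (nat_lit 0) (nat_lit 3905006929) (nat_lit 684) (nat_lit 3790389268) (nat_lit 76) (nat_lit 3404942861) (nat_lit 276) (nat_lit 5) (nat_lit 285) (nat_lit 5) (nat_lit 277) (nat_lit 5) (nat_lit 596) (nat_lit 534) (nat_lit 430))) (XT.nd (nat_lit 78) (nat_lit 684) (nat_lit 0) (XT.lf (nat_lit 0) (nat_lit 3222438986) (nat_lit 608) (nat_lit 3392286446) (nat_lit 684) (nat_lit 4604265177) (nat_lit 268) (nat_lit 5) (nat_lit 276) (nat_lit 5) (nat_lit 277) (nat_lit 5) (nat_lit 597) (nat_lit 534) (nat_lit 429)) (XT.nd (nat_lit 78) (nat_lit 684) (nat_lit 0) (XT.lf (nat_lit 0) (nat_lit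 9389422714) (nat_lit 684) (nat_lit 947045146) (nat_lit 76) (nat_lit 1003333152) (nat_lit 268) (nat_lit 5) (nat_lit 277) (nat_lit 5) (nat_lit 269) (nat_lit 5) (nat_lit 598) (nat_lit 534) (nat_lit 428)) (XT.lf (nat_lit 0) (nat_lit 789281681) (nat_lit 684) (nat_lit 5191333749) (nat_lit 76) (nat_lit 5481463036) (nat_lit 259) (nat_lit 5) (nat_lit 268) (nat_lit 5) (nat_lit 260) (nat_lit 5) (nat_lit 599) (nat_lit 534) (nat_lit 427)))))) (XT.nd (nat_lit 390) (nat_lit 2052) (nat_lit 0) (XT.nd (nat_lit 156) (nat_lit 1140) (nat_lit 0) (XT.nd (nat_lit 78) (nat_lit 0) (nat_lit 0) (XT.lf (nat_lit 0) (nat_lit 2045568527) (nat_lit 532) (nat_lit 1510974504) (nat_lit 608) (nat_lit 8030023545) (nat_lit 252) (nat_lit 5) (nat_lit 259) (nat_lit 5) (nat_lit 260) (nat_lit 5) (nat_lit 600) (nat_lit 534) (nat_lit 426)) (XT.lf (nat_lit 0) (nat_lit 6413415774) (nat_lit 608) (nat_lit 2262833504) (nat_lit 76) (nat_lit 3036611241) (nat_lit 252) (nat_lit 5) (nat_lit 260) (nat_lit 5) (nat_lit 253) (nat_lit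 5) (nat_lit 601) (nat_lit 534) (nat_lit 425))) (XT.nd (nat_lit 78) (nat_lit 608) (nat_lit 0) (XT.lf (nat_lit 0) (nat_lit 5191977873) (nat_lit 532) (nat_lit 4158976918) (nat_lit 608) (nat_lit 2490256341) (nat_lit 245) (nat_lit 5) (nat_lit 252) (nat_lit 5) (nat_lit 253) (nat_lit 5) (nat_lit 602) (nat_lit 534) (nat_lit 424)) (XT.nd (nat_lit 78) (nat_lit 0) (nat_lit 0) (XT.lf (nat_lit 0) (nat_lit 373831273) (nat_lit 608) (nat_lit 11139021486) (nat_lit 76) (nat_lit 459155898) (nat_lit 237) (nat_lit 5) (nat_lit 245) (nat_lit 5) (nat_lit 238) (nat_lit 5) (nat_lit 603) (nat_lit 534) (nat_lit 423)) (XT.lf (nat_lit 0) (nat_lit 3314419898) (nat_lit 608) (nat_lit 3621145215) (nat_lit 76) (nat_lit 5168477822) (nat_lit 237) (nat_lit 5) (nat_lit 245) (nat_lit 5) (nat_lit 238) (nat_lit 5) (nat_lit 604) (nat_lit 534) (nat_lit 422))))) (XT.nd (nat_lit 234) (nat_lit 988) (nat_lit 0) (XT.nd (nat_lit 78) (nat_lit 532) (nat_lit 0) (XT.lf (nat_lit 0) (nat_lit 4073782218) (nat_lit 532) (nat_lit 2246952848)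 (nat_lit 608) (nat_lit 5917845799) (nat_lit 230) (nat_lit 5) (nat_lit 237) (nat_lit 5) (nat_lit 238) (nat_lit 5) (nat_lit 605) (nat_lit 534) (nat_lit 421)) (XT.nd (nat_lit 78) (nat_lit 532) (nat_lit 0) (XT.lf (nat_lit 0) (nat_lit 9408727662) (nat_lit 608) (nat_lit 447152026) (nat_lit 76) (nat_lit 2519500080) (nat_lit 230) (nat_lit 5) (nat_lit 238) (nat_lit 5) (nat_lit 231) (nat_lit 5) (nat_lit 606) (nat_lit 534) (nat_lit 420)) (XT.lf (nat_lit 0) (nat_lit 87752660) (nat_lit 532) (nat_lit 5032884919) (nat_lit 76) (nat_lit 7393377434) (nat_lit 223) (nat_lit 5) (nat_lit 230) (nat_lit 5) (nat_lit 224) (nat_lit 5) (nat_lit 607) (nat_lit 534) (nat_lit 419)))) (XT.nd (nat_lit 78) (nat_lit 456) (nat_lit 0) (XT.lf (nat_lit 0) (nat_lit 2910733181) (nat_lit 532) (nat_lit 255830119) (nat_lit 608) (nat_lit 9488407811) (nat_lit 216) (nat_lit 5) (nat_lit 223) (nat_lit 5) (nat_lit 224) (nat_lit 5) (nat_lit 608) (nat_lit 534) (nat_lit 418)) (XT.nd (nat_lit 78) (nat_lit 456) (nat_lit 0) (XT.lf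 (nat_lit 0) (nat_lit 6352739751) (nat_lit 608) (nat_lit 1774008574) (nat_lit 76) (nat_lit 4671083359) (nat_lit 216) (nat_lit 5) (nat_lit 224) (nat_lit 5) (nat_lit 217) (nat_lit 5) (nat_lit 609) (nat_lit 534) (nat_lit 417)) (XT.lf (nat_lit 0) (nat_lit 6411943037) (nat_lit 456) (nat_lit 3215625810) (nat_lit 532) (nat_lit 3315483160) (nat_lit 210) (nat_lit 5) (nat_lit 216) (nat_lit 5) (nat_lit 217) (nat_lit 5) (nat_lit 610) (nat_lit 534) (nat_lit 416))))))))
noncomputable def xc103 : XT := (XT.nd (nat_lit 76128) (nat_lit 0) (nat_lit 24928) (XT.nd (nat_lit 75348) (nat_lit 0) (nat_lit 36252) (XT.nd (nat_lit 390) (nat_lit 1292) (nat_lit 0) (XT.nd (nat_lit 156) (nat_lit 912) (nat_lit 0) (XT.nd (nat_lit 78) (nat_lit 76) (nat_lit 0) (XT.lf (nat_lit 0) (nat_lit 1678789548) (nat_lit 456) (nat_lit 11305380901) (nat_lit 532) (nat_lit 106681868) (nat_lit 204) (nat_lit 5) (nat_lit 210) (nat_lit 5) (nat_lit 211) (nat_lit 5) (nat_lit 611) (nat_lit 534) (nat_lit 415)) (XT.lf (nat_lit 0) (nat_lit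 3171996659) (nat_lit 532) (nat_lit 3167754229) (nat_lit 76) (nat_lit 6900503094) (nat_lit 203) (nat_lit 5) (nat_lit 210) (nat_lit 5) (nat_lit 204) (nat_lit 5) (nat_lit 612) (nat_lit 534) (nat_lit 414))) (XT.nd (nat_lit 78) (nat_lit 456) (nat_lit 0) (XT.lf (nat_lit 0) (nat_lit 5284257966) (nat_lit 456) (nat_lit 1247043920) (nat_lit 532) (nat_lit 6860999096) (nat_lit 197) (nat_lit 5) (nat_lit 203) (nat_lit 5) (nat_lit 204) (nat_lit 5) (nat_lit 613) (nat_lit 534) (nat_lit 413)) (XT.nd (nat_lit 78) (nat_lit 0) (nat_lit 0) (XT.lf (nat_lit 0) (nat_lit 354249128) (nat_lit 456) (nat_lit 9635175027) (nat_lit 532) (nat_lit 3557333161) (nat_lit 191) (nat_lit 5) (nat_lit 197) (nat_lit 5) (nat_lit 198) (nat_lit 5) (nat_lit 614) (nat_lit 534) (nat_lit 412)) (XT.lf (nat_lit 0) (nat_lit 9061583321) (nat_lit 456) (nat_lit 4500221832) (nat_lit 532) (nat_lit 141596696) (nat_lit 191) (nat_lit 5) (nat_lit 197) (nat_lit 5) (nat_lit 198) (nat_lit 5) (nat_lit 615) (nat_lit 534) (nat_lit 411)))))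 (XT.nd (nat_lit 156) (nat_lit 836) (nat_lit 0) (XT.nd (nat_lit 78) (nat_lit 0) (nat_lit 0) (XT.lf (nat_lit 0) (nat_lit 3312914415) (nat_lit 456) (nat_lit 9781307486) (nat_lit 76) (nat_lit 768238364) (nat_lit 185) (nat_lit 5) (nat_lit 191) (nat_lit 5) (nat_lit 186) (nat_lit 5) (nat_lit 616) (nat_lit 534) (nat_lit 410)) (XT.lf (nat_lit 0) (nat_lit 6878612820) (nat_lit 456) (nat_lit 1039109685) (nat_lit 76) (nat_lit 6106079702) (nat_lit 185) (nat_lit 5) (nat_lit 191) (nat_lit 5) (nat_lit 186) (nat_lit 5) (nat_lit 617) (nat_lit 534) (nat_lit 409))) (XT.nd (nat_lit 78) (nat_lit 380) (nat_lit 0) (XT.lf (nat_lit 0) (nat_lit 7957203402) (nat_lit 456) (nat_lit 2593254991) (nat_lit 532) (nat_lit 3637216851) (nat_lit 179) (nat_lit 5) (nat_lit 185) (nat_lit 5) (nat_lit 186) (nat_lit 5) (nat_lit 618) (nat_lit 534) (nat_lit 408)) (XT.nd (nat_lit 74646) (nat_lit 0) (nat_lit 39292) (XT.lf (nat_lit 0) (nat_lit 2785702170) (nat_lit 380) (nat_lit 11536853029) (nat_lit 456) (nat_lit 31735158)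 (nat_lit 174) (nat_lit 5) (nat_lit 179) (nat_lit 5) (nat_lit 180) (nat_lit 5) (nat_lit 619) (nat_lit 534) (nat_lit 407)) (XT.lf (nat_lit 0) (nat_lit 2270561826) (nat_lit 988) (nat_lit 582307739) (nat_lit 988) (nat_lit 582307739) (nat_lit 691) (nat_lit 3) (nat_lit 704) (nat_lit 3) (nat_lit 704) (nat_lit 5) (nat_lit 535) (nat_lit 535) (nat_lit 490)))))) (XT.nd (nat_lit 390) (nat_lit 1064) (nat_lit 0) (XT.nd (nat_lit 156) (nat_lit 988) (nat_lit 0) (XT.nd (nat_lit 78) (nat_lit 988) (nat_lit 0) (XT.lf (nat_lit 76) (nat_lit 2266790738) (nat_lit 0) (nat_lit 4283510307) (nat_lit 988) (nat_lit 349227707) (nat_lit 692) (nat_lit 5) (nat_lit 691) (nat_lit 3) (nat_lit 704) (nat_lit 5) (nat_lit 536) (nat_lit 535) (nat_lit 489)) (XT.lf (nat_lit 0) (nat_lit 1604693182) (nat_lit 988) (nat_lit 1184531342) (nat_lit 1064) (nat_lit 4140726987) (nat_lit 678) (nat_lit 5) (nat_lit 691) (nat_lit 3) (nat_lit 692) (nat_lit 5) (nat_lit 537) (nat_lit 535) (nat_lit 488))) (XT.nd (nat_lit 78) (nat_lit 988)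 (nat_lit 0) (XT.lf (nat_lit 76) (nat_lit 2334357834) (nat_lit 0) (nat_lit 1223189567) (nat_lit 1064) (nat_lit 3404104938) (nat_lit 679) (nat_lit 5) (nat_lit 678) (nat_lit 5) (nat_lit 692) (nat_lit 5) (nat_lit 538) (nat_lit 535) (nat_lit 487)) (XT.nd (nat_lit 78) (nat_lit 1064) (nat_lit 0) (XT.lf (nat_lit 0) (nat_lit 5510233200) (nat_lit 988) (nat_lit 1084192611) (nat_lit 1064) (nat_lit 400352166) (nat_lit 679) (nat_lit 5) (nat_lit 692) (nat_lit 5) (nat_lit 693) (nat_lit 5) (nat_lit 539) (nat_lit 535) (nat_lit 486)) (XT.lf (nat_lit 0) (nat_lit 442861720) (nat_lit 1064) (nat_lit 4504169354) (nat_lit 1140) (nat_lit 2081966336) (nat_lit 665) (nat_lit 5) (nat_lit 679) (nat_lit 5) (nat_lit 680) (nat_lit 5) (nat_lit 540) (nat_lit 535) (nat_lit 485))))) (XT.nd (nat_lit 156) (nat_lit 1064) (nat_lit 0) (XT.nd (nat_lit 78) (nat_lit 0) (nat_lit 0) (XT.lf (nat_lit 0) (nat_lit 2348054973) (nat_lit 1064) (nat_lit 880402084) (nat_lit 1140) (nat_lit 3836071502) (nat_lit 665) (nat_lit 5) (nat_lit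 679) (nat_lit 5) (nat_lit 680) (nat_lit 5) (nat_lit 541) (nat_lit 535) (nat_lit 484)) (XT.lf (nat_lit 76) (nat_lit 2825950028) (nat_lit 0) (nat_lit 1436470017) (nat_lit 1140) (nat_lit 2838934731) (nat_lit 666) (nat_lit 5) (nat_lit 665) (nat_lit 5) (nat_lit 680) (nat_lit 5) (nat_lit 542) (nat_lit 535) (nat_lit 483))) (XT.nd (nat_lit 78) (nat_lit 1140) (nat_lit 0) (XT.lf (nat_lit 0) (nat_lit 6177161912) (nat_lit 1064) (nat_lit 550856644) (nat_lit 1140) (nat_lit 411662858) (nat_lit 666) (nat_lit 5) (nat_lit 680) (nat_lit 5) (nat_lit 681) (nat_lit 5) (nat_lit 543) (nat_lit 535) (nat_lit 482)) (XT.nd (nat_lit 78) (nat_lit 0) (nat_lit 0) (XT.lf (nat_lit 0) (nat_lit 923993842) (nat_lit 1140) (nat_lit 3931103765) (nat_lit 1216) (nat_lit 2323857942) (nat_lit 651) (nat_lit 5) (nat_lit 666) (nat_lit 5) (nat_lit 667) (nat_lit 5) (nat_lit 544) (nat_lit 535) (nat_lit 481)) (XT.lf (nat_lit 0) (nat_lit 2794007601) (nat_lit 1140) (nat_lit 123058026) (nat_lit 1216) (nat_lit 4302654488) (nat_lit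 651) (nat_lit 5) (nat_lit 666) (nat_lit 5) (nat_lit 667) (nat_lit 5) (nat_lit 545) (nat_lit 535) (nat_lit 480))))))) (XT.nd (nat_lit 780) (nat_lit 8968) (nat_lit 0) (XT.nd (nat_lit 390) (nat_lit 1216) (nat_lit 0) (XT.nd (nat_lit 156) (nat_lit 1140) (nat_lit 0) (XT.nd (nat_lit 78) (nat_lit 0) (nat_lit 76) (XT.lf (nat_lit 76) (nat_lit 3783595278) (nat_lit 0) (nat_lit 898201003) (nat_lit 1216) (nat_lit 2579901455) (nat_lit 652) (nat_lit 5) (nat_lit 651) (nat_lit 5) (nat_lit 667) (nat_lit 5) (nat_lit 546) (nat_lit 535) (nat_lit 479)) (XT.lf (nat_lit 76) (nat_lit 435743088) (nat_lit 0) (nat_lit 6139403670) (nat_lit 1216) (nat_lit 730017182) (nat_lit 653) (nat_lit 5) (nat_lit 652) (nat_lit 5) (nat_lit 668) (nat_lit 5) (nat_lit 547) (nat_lit 535) (nat_lit 478))) (XT.nd (nat_lit 78) (nat_lit 0) (nat_lit 0) (XT.lf (nat_lit 0) (nat_lit 1128124948) (nat_lit 1216) (nat_lit 2916006429) (nat_lit 1292) (nat_lit 3305494167) (nat_lit 636) (nat_lit 5) (nat_lit 652) (nat_lit 5) (nat_lit 653)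 (nat_lit 5) (nat_lit 548) (nat_lit 535) (nat_lit 477)) (XT.nd (nat_lit 78) (nat_lit 0) (nat_lit 76) (XT.lf (nat_lit 76) (nat_lit 1098229678) (nat_lit 0) (nat_lit 1880398068) (nat_lit 1292) (nat_lit 4416957526) (nat_lit 637) (nat_lit 5) (nat_lit 636) (nat_lit 5) (nat_lit 653) (nat_lit 5) (nat_lit 549) (nat_lit 535) (nat_lit 476)) (XT.lf (nat_lit 0) (nat_lit 4846529432) (nat_lit 1216) (nat_lit 2240603099) (nat_lit 1292) (nat_lit 355728647) (nat_lit 637) (nat_lit 5) (nat_lit 653) (nat_lit 5) (nat_lit 654) (nat_lit 5) (nat_lit 550) (nat_lit 535) (nat_lit 475))))) (XT.nd (nat_lit 156) (nat_lit 0) (nat_lit 0) (XT.nd (nat_lit 78) (nat_lit 1292) (nat_lit 0) (XT.lf (nat_lit 76) (nat_lit 1881509930) (nat_lit 0) (nat_lit 4854331273) (nat_lit 1292) (nat_lit 755565023) (nat_lit 638) (nat_lit 5) (nat_lit 637) (nat_lit 5) (nat_lit 654) (nat_lit 5) (nat_lit 551) (nat_lit 535) (nat_lit 474)) (XT.lf (nat_lit 0) (nat_lit 1082166256) (nat_lit 1292) (nat_lit 1459922083) (nat_lit 1368) (nat_lit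 4999195331) (nat_lit 620) (nat_lit 5) (nat_lit 637) (nat_lit 5) (nat_lit 638) (nat_lit 5) (nat_lit 552) (nat_lit 535) (nat_lit 473))) (XT.nd (nat_lit 78) (nat_lit 0) (nat_lit 76) (XT.lf (nat_lit 76) (nat_lit 2776666954) (nat_lit 0) (nat_lit 148424706) (nat_lit 1368) (nat_lit 4667400382) (nat_lit 621) (nat_lit 5) (nat_lit 620) (nat_lit 5) (nat_lit 638) (nat_lit 5) (nat_lit 553) (nat_lit 535) (nat_lit 472)) (XT.nd (nat_lit 78) (nat_lit 0) (nat_lit 0) (XT.lf (nat_lit 0) (nat_lit 4790812826) (nat_lit 1292) (nat_lit 570174273) (nat_lit 1368) (nat_lit 2284023051) (nat_lit 621) (nat_lit 5) (nat_lit 638) (nat_lit 5) (nat_lit 639) (nat_lit 5) (nat_lit 554) (nat_lit 535) (nat_lit 471)) (XT.lf (nat_lit 76) (nat_lit 3781084709) (nat_lit 0) (nat_lit 2900244119) (nat_lit 1368) (nat_lit 1017504410) (nat_lit 622) (nat_lit 5) (nat_lit 621) (nat_lit 5) (nat_lit 639) (nat_lit 5) (nat_lit 555) (nat_lit 535) (nat_lit 470)))))) (XT.nd (nat_lit 390) (nat_lit 4864) (nat_lit 0) (XT.nd (nat_lit 156)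 (nat_lit 2812) (nat_lit 0) (XT.nd (nat_lit 78) (nat_lit 0) (nat_lit 76) (XT.lf (nat_lit 76) (nat_lit 445467841) (nat_lit 0) (nat_lit 368234631) (nat_lit 1444) (nat_lit 6940543119) (nat_lit 604) (nat_lit 5) (nat_lit 603) (nat_lit 5) (nat_lit 622) (nat_lit 5) (nat_lit 556) (nat_lit 535) (nat_lit 469)) (XT.lf (nat_lit 0) (nat_lit 2671642616) (nat_lit 1368) (nat_lit 2911330334) (nat_lit 76) (nat_lit 2227588039) (nat_lit 604) (nat_lit 5) (nat_lit 622) (nat_lit 5) (nat_lit 605) (nat_lit 5) (nat_lit 557) (nat_lit 535) (nat_lit 468))) (XT.nd (nat_lit 78) (nat_lit 1520) (nat_lit 0) (XT.lf (nat_lit 0) (nat_lit 1563848724) (nat_lit 1368) (nat_lit 2979091942) (nat_lit 1444) (nat_lit 3325541954) (nat_lit 586) (nat_lit 5) (nat_lit 604) (nat_lit 5) (nat_lit 605) (nat_lit 5) (nat_lit 558) (nat_lit 535) (nat_lit 467)) (XT.nd (nat_lit 78) (nat_lit 1520) (nat_lit 0) (XT.lf (nat_lit 0) (nat_lit 6139892500) (nat_lit 1368) (nat_lit 295446783) (nat_lit 1444) (nat_lit 1492553734) (nat_lit 586) (nat_lit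 5) (nat_lit 604) (nat_lit 5) (nat_lit 605) (nat_lit 5) (nat_lit 559) (nat_lit 535) (nat_lit 466)) (XT.lf (nat_lit 0) (nat_lit 371138412) (nat_lit 1520) (nat_lit 5179278115) (nat_lit 76) (nat_lit 2438050012) (nat_lit 566) (nat_lit 5) (nat_lit 586) (nat_lit 5) (nat_lit 567) (nat_lit 5) (nat_lit 560) (nat_lit 535) (nat_lit 465))))) (XT.nd (nat_lit 234) (nat_lit 1748) (nat_lit 0) (XT.nd (nat_lit 78) (nat_lit 3116) (nat_lit 0) (XT.lf (nat_lit 0) (nat_lit 2231335928) (nat_lit 1520) (nat_lit 567962448) (nat_lit 76) (nat_lit 5251175110) (nat_lit 566) (nat_lit 5) (nat_lit 586) (nat_lit 5) (nat_lit 567) (nat_lit 5) (nat_lit 561) (nat_lit 535) (nat_lit 464)) (XT.nd (nat_lit 78) (nat_lit 1596) (nat_lit 0) (XT.lf (nat_lit 0) (nat_lit 4121870640) (nat_lit 1596) (nat_lit 3951990901) (nat_lit 76) (nat_lit 39999903) (nat_lit 546) (nat_lit 5) (nat_lit 567) (nat_lit 5) (nat_lit 547) (nat_lit 5) (nat_lit 562) (nat_lit 535) (nat_lit 463)) (XT.lf (nat_lit 0) (nat_lit 778648693) (nat_lit 1596) (nat_lit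 5265371232) (nat_lit 1672) (nat_lit 2134624626) (nat_lit 525) (nat_lit 5) (nat_lit 546) (nat_lit 5) (nat_lit 547) (nat_lit 5) (nat_lit 563) (nat_lit 535) (nat_lit 462)))) (XT.nd (nat_lit 78) (nat_lit 1748) (nat_lit 0) (XT.lf (nat_lit 0) (nat_lit 5629101312) (nat_lit 1596) (nat_lit 2368879378) (nat_lit 1672) (nat_lit 246878658) (nat_lit 525) (nat_lit 5) (nat_lit 546) (nat_lit 5) (nat_lit 547) (nat_lit 5) (nat_lit 564) (nat_lit 535) (nat_lit 461)) (XT.nd (nat_lit 78) (nat_lit 0) (nat_lit 0) (XT.lf (nat_lit 0) (nat_lit 1642524958) (nat_lit 1748) (nat_lit 6061962017) (nat_lit 76) (nat_lit 607978396) (nat_lit 502) (nat_lit 5) (nat_lit 525) (nat_lit 5) (nat_lit 503) (nat_lit 5) (nat_lit 565) (nat_lit 535) (nat_lit 460)) (XT.lf (nat_lit 0) (nat_lit 3567537968) (nat_lit 1748) (nat_lit 1177705985) (nat_lit 76) (nat_lit 3636127588) (nat_lit 502) (nat_lit 5) (nat_lit 525) (nat_lit 5) (nat_lit 503) (nat_lit 5) (nat_lit 566) (nat_lit 535) (nat_lit 459))))))))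
noncomputable def xc104 : XT := (XT.nd (nat_lit 1560) (nat_lit 8816) (nat_lit 0) (XT.nd (nat_lit 780) (nat_lit 4864) (nat_lit 0) (XT.nd (nat_lit 390) (nat_lit 2736) (nat_lit 0) (XT.nd (nat_lit 156) (nat_lit 1140) (nat_lit 0) (XT.nd (nat_lit 78) (nat_lit 1824) (nat_lit 0) (XT.lf (nat_lit 0) (nat_lit 3826238892) (nat_lit 1748) (nat_lit 1698053485) (nat_lit 1824) (nat_lit 2927501773) (nat_lit 479) (nat_lit 5) (nat_lit 502) (nat_lit 5) (nat_lit 503) (nat_lit 5) (nat_lit 567) (nat_lit 535) (nat_lit 458)) (XT.lf (nat_lit 0) (nat_lit 390027757) (nat_lit 1824) (nat_lit 7118654116) (nat_lit 1900) (nat_lit 1015176418) (nat_lit 455) (nat_lit 5) (nat_lit 479) (nat_lit 5) (nat_lit 480) (nat_lit 5) (nat_lit 568) (nat_lit 535) (nat_lit 457))) (XT.nd (nat_lit 78) (nat_lit 1064) (nat_lit 0) (XT.lf (nat_lit 0) (nat_lit 934695075) (nat_lit 1900) (nat_lit 3074509155) (nat_lit 76) (nat_lit 4587809629) (nat_lit 454) (nat_lit 5) (nat_lit 479) (nat_lit 5) (nat_lit 455) (nat_lit 5) (nat_lit 569) (nat_lit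 535) (nat_lit 456)) (XT.nd (nat_lit 78) (nat_lit 0) (nat_lit 0) (XT.lf (nat_lit 0) (nat_lit 2078232875) (nat_lit 1064) (nat_lit 814926875) (nat_lit 1140) (nat_lit 5778677704) (nat_lit 440) (nat_lit 5) (nat_lit 454) (nat_lit 5) (nat_lit 455) (nat_lit 5) (nat_lit 570) (nat_lit 535) (nat_lit 455)) (XT.lf (nat_lit 0) (nat_lit 4897531587) (nat_lit 1140) (nat_lit 1416764659) (nat_lit 76) (nat_lit 2433729362) (nat_lit 440) (nat_lit 5) (nat_lit 455) (nat_lit 5) (nat_lit 441) (nat_lit 5) (nat_lit 571) (nat_lit 535) (nat_lit 454))))) (XT.nd (nat_lit 156) (nat_lit 836) (nat_lit 0) (XT.nd (nat_lit 78) (nat_lit 988) (nat_lit 0) (XT.lf (nat_lit 0) (nat_lit 3880952272) (nat_lit 912) (nat_lit 3062325867) (nat_lit 988) (nat_lit 1882436429) (nat_lit 428) (nat_lit 5) (nat_lit 440) (nat_lit 5) (nat_lit 441) (nat_lit 5) (nat_lit 572) (nat_lit 535) (nat_lit 453)) (XT.lf (nat_lit 0) (nat_lit 107981154) (nat_lit 988) (nat_lit 8532294390) (nat_lit 76) (nat_lit 264975455) (nat_lit 415) (nat_lit 5)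 (nat_lit 428) (nat_lit 5) (nat_lit 416) (nat_lit 5) (nat_lit 573) (nat_lit 535) (nat_lit 452))) (XT.nd (nat_lit 78) (nat_lit 836) (nat_lit 0) (XT.lf (nat_lit 0) (nat_lit 2137989660) (nat_lit 988) (nat_lit 3183384065) (nat_lit 76) (nat_lit 3664258434) (nat_lit 415) (nat_lit 5) (nat_lit 428) (nat_lit 5) (nat_lit 416) (nat_lit 5) (nat_lit 574) (nat_lit 535) (nat_lit 451)) (XT.nd (nat_lit 78) (nat_lit 0) (nat_lit 0) (XT.lf (nat_lit 0) (nat_lit 2274133591) (nat_lit 836) (nat_lit 1921075834) (nat_lit 912) (nat_lit 4872681872) (nat_lit 404) (nat_lit 5) (nat_lit 415) (nat_lit 5) (nat_lit 416) (nat_lit 5) (nat_lit 575) (nat_lit 535) (nat_lit 450)) (XT.lf (nat_lit 0) (nat_lit 6297337475) (nat_lit 912) (nat_lit 1306170038) (nat_lit 76) (nat_lit 1548215352) (nat_lit 404) (nat_lit 5) (nat_lit 416) (nat_lit 5) (nat_lit 405) (nat_lit 5) (nat_lit 576) (nat_lit 535) (nat_lit 449)))))) (XT.nd (nat_lit 390) (nat_lit 2280) (nat_lit 0) (XT.nd (nat_lit 156) (nat_lit 836) (nat_lit 0) (XT.nd (nat_lit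 78) (nat_lit 912) (nat_lit 0) (XT.lf (nat_lit 0) (nat_lit 4306925511) (nat_lit 836) (nat_lit 4148027766) (nat_lit 912) (nat_lit 782011360) (nat_lit 393) (nat_lit 5) (nat_lit 404) (nat_lit 5) (nat_lit 405) (nat_lit 5) (nat_lit 577) (nat_lit 535) (nat_lit 448)) (XT.lf (nat_lit 0) (nat_lit 698523270) (nat_lit 836) (nat_lit 602110804) (nat_lit 912) (nat_lit 8023380794) (nat_lit 381) (nat_lit 5) (nat_lit 392) (nat_lit 5) (nat_lit 393) (nat_lit 5) (nat_lit 578) (nat_lit 535) (nat_lit 447))) (XT.nd (nat_lit 78) (nat_lit 836) (nat_lit 0) (XT.lf (nat_lit 0) (nat_lit 3440619981) (nat_lit 912) (nat_lit 2959159521) (nat_lit 76) (nat_lit 3012402378) (nat_lit 381) (nat_lit 5) (nat_lit 393) (nat_lit 5) (nat_lit 382) (nat_lit 5) (nat_lit 579) (nat_lit 535) (nat_lit 446)) (XT.nd (nat_lit 78) (nat_lit 0) (nat_lit 0) (XT.lf (nat_lit 0) (nat_lit 2825600945) (nat_lit 836) (nat_lit 2793934946) (nat_lit 912) (nat_lit 3882656023) (nat_lit 370) (nat_lit 5) (nat_lit 381) (nat_lit 5) (nat_lit 382) (nat_lit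 5) (nat_lit 580) (nat_lit 535) (nat_lit 445)) (XT.lf (nat_lit 0) (nat_lit 7841876901) (nat_lit 912) (nat_lit 861599601) (nat_lit 76) (nat_lit 890530956) (nat_lit 370) (nat_lit 5) (nat_lit 382) (nat_lit 5) (nat_lit 371) (nat_lit 5) (nat_lit 581) (nat_lit 535) (nat_lit 444))))) (XT.nd (nat_lit 156) (nat_lit 684) (nat_lit 0) (XT.nd (nat_lit 78) (nat_lit 760) (nat_lit 0) (XT.lf (nat_lit 0) (nat_lit 441832506) (nat_lit 836) (nat_lit 4599834481) (nat_lit 76) (nat_lit 4645412837) (nat_lit 359) (nat_lit 5) (nat_lit 370) (nat_lit 5) (nat_lit 360) (nat_lit 5) (nat_lit 582) (nat_lit 535) (nat_lit 443)) (XT.lf (nat_lit 0) (nat_lit 1363192799) (nat_lit 760) (nat_lit 1282489892) (nat_lit 836) (nat_lit 7136312051) (nat_lit 349) (nat_lit 5) (nat_lit 359) (nat_lit 5) (nat_lit 360) (nat_lit 5) (nat_lit 583) (nat_lit 535) (nat_lit 442))) (XT.nd (nat_lit 78) (nat_lit 684) (nat_lit 0) (XT.lf (nat_lit 0) (nat_lit 4916322684) (nat_lit 836) (nat_lit 2415321761) (nat_lit 76) (nat_lit 2546711329) (nat_lit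 349) (nat_lit 5) (nat_lit 360) (nat_lit 5) (nat_lit 350) (nat_lit 5) (nat_lit 584) (nat_lit 535) (nat_lit 441)) (XT.nd (nat_lit 78) (nat_lit 0) (nat_lit 0) (XT.lf (nat_lit 0) (nat_lit 3720896822) (nat_lit 684) (nat_lit 3519691901) (nat_lit 760) (nat_lit 2735893071) (nat_lit 340) (nat_lit 5) (nat_lit 349) (nat_lit 5) (nat_lit 350) (nat_lit 5) (nat_lit 585) (nat_lit 535) (nat_lit 440)) (XT.lf (nat_lit 0) (nat_lit 9605888830) (nat_lit 760) (nat_lit 94085446) (nat_lit 76) (nat_lit 376707073) (nat_lit 340) (nat_lit 5) (nat_lit 350) (nat_lit 5) (nat_lit 341) (nat_lit 5) (nat_lit 586) (nat_lit 535) (nat_lit 439))))))) (XT.nd (nat_lit 780) (nat_lit 3952) (nat_lit 0) (XT.nd (nat_lit 390) (nat_lit 1976) (nat_lit 0) (XT.nd (nat_lit 156) (nat_lit 1368) (nat_lit 0) (XT.nd (nat_lit 78) (nat_lit 684) (nat_lit 0) (XT.lf (nat_lit 0) (nat_lit 1855764522) (nat_lit 836) (nat_lit 3968735787) (nat_lit 76) (nat_lit 4353341997) (nat_lit 329) (nat_lit 5) (nat_lit 340) (nat_lit 5) (nat_lit 330) (nat_lit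 5) (nat_lit 587) (nat_lit 535) (nat_lit 438)) (XT.lf (nat_lit 0) (nat_lit 2358932764) (nat_lit 684) (nat_lit 1856018750) (nat_lit 760) (nat_lit 6066166550) (nat_lit 320) (nat_lit 5) (nat_lit 329) (nat_lit 5) (nat_lit 330) (nat_lit 5) (nat_lit 588) (nat_lit 535) (nat_lit 437))) (XT.nd (nat_lit 78) (nat_lit 1368) (nat_lit 0) (XT.lf (nat_lit 0) (nat_lit 6639065384) (nat_lit 760) (nat_lit 1561148764) (nat_lit 76) (nat_lit 2185892167) (nat_lit 320) (nat_lit 5) (nat_lit 330) (nat_lit 5) (nat_lit 321) (nat_lit 5) (nat_lit 589) (nat_lit 535) (nat_lit 436)) (XT.nd (nat_lit 78) (nat_lit 684) (nat_lit 0) (XT.lf (nat_lit 0) (nat_lit 4952548180) (nat_lit 684) (nat_lit 4180720513) (nat_lit 760) (nat_lit 1359495299) (nat_lit 311) (nat_lit 5) (nat_lit 320) (nat_lit 5) (nat_lit 321) (nat_lit 5) (nat_lit 590) (nat_lit 535) (nat_lit 435)) (XT.lf (nat_lit 0) (nat_lit 994983821) (nat_lit 608) (nat_lit 60995175) (nat_lit 684) (nat_lit 9545552121) (nat_lit 302) (nat_lit 5) (nat_lit 310) (nat_lit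 5) (nat_lit 311) (nat_lit 5) (nat_lit 591) (nat_lit 535) (nat_lit 434))))) (XT.nd (nat_lit 156) (nat_lit 1292) (nat_lit 0) (XT.nd (nat_lit 78) (nat_lit 684) (nat_lit 0) (XT.lf (nat_lit 0) (nat_lit 3543406975) (nat_lit 684) (nat_lit 3039466986) (nat_lit 76) (nat_lit 4128584642) (nat_lit 302) (nat_lit 5) (nat_lit 311) (nat_lit 5) (nat_lit 303) (nat_lit 5) (nat_lit 592) (nat_lit 535) (nat_lit 433)) (XT.lf (nat_lit 0) (nat_lit 3679765630) (nat_lit 684) (nat_lit 2403074009) (nat_lit 760) (nat_lit 4740701543) (nat_lit 293) (nat_lit 5) (nat_lit 302) (nat_lit 5) (nat_lit 303) (nat_lit 5) (nat_lit 593) (nat_lit 535) (nat_lit 432))) (XT.nd (nat_lit 78) (nat_lit 1292) (nat_lit 0) (XT.lf (nat_lit 0) (nat_lit 8683856277) (nat_lit 760) (nat_lit 402359781) (nat_lit 76) (nat_lit 1851435082) (nat_lit 293) (nat_lit 5) (nat_lit 303) (nat_lit 5) (nat_lit 294) (nat_lit 5) (nat_lit 594) (nat_lit 535) (nat_lit 431)) (XT.nd (nat_lit 78) (nat_lit 608) (nat_lit 0) (XT.lf (nat_lit 0) (nat_lit 316220951)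 (nat_lit 684) (nat_lit 4538688634) (nat_lit 76) (nat_lit 6198356942) (nat_lit 284) (nat_lit 5) (nat_lit 293) (nat_lit 5) (nat_lit 285) (nat_lit 5) (nat_lit 595) (nat_lit 535) (nat_lit 430)) (XT.lf (nat_lit 0) (nat_lit 2393773134) (nat_lit 608) (nat_lit 510692194) (nat_lit 684) (nat_lit 8266492349) (nat_lit 276) (nat_lit 5) (nat_lit 284) (nat_lit 5) (nat_lit 285) (nat_lit 5) (nat_lit 596) (nat_lit 535) (nat_lit 429)))))) (XT.nd (nat_lit 390) (nat_lit 2128) (nat_lit 0) (XT.nd (nat_lit 156) (nat_lit 1216) (nat_lit 0) (XT.nd (nat_lit 78) (nat_lit 608) (nat_lit 0) (XT.lf (nat_lit 0) (nat_lit 5579513205) (nat_lit 684) (nat_lit 1816697076) (nat_lit 76) (nat_lit 3894093106) (nat_lit 276) (nat_lit 5) (nat_lit 285) (nat_lit 5) (nat_lit 277) (nat_lit 5) (nat_lit 597) (nat_lit 535) (nat_lit 428)) (XT.lf (nat_lit 0) (nat_lit 5322904191) (nat_lit 608) (nat_lit 3002438974) (nat_lit 684) (nat_lit 3086348703) (nat_lit 268) (nat_lit 5) (nat_lit 276) (nat_lit 5) (nat_lit 277) (nat_lit 5) (nat_lit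 598) (nat_lit 535) (nat_lit 427))) (XT.nd (nat_lit 78) (nat_lit 608) (nat_lit 0) (XT.lf (nat_lit 0) (nat_lit 1072316128) (nat_lit 608) (nat_lit 10062146318) (nat_lit 684) (nat_lit 400879670) (nat_lit 260) (nat_lit 5) (nat_lit 268) (nat_lit 5) (nat_lit 269) (nat_lit 5) (nat_lit 599) (nat_lit 535) (nat_lit 426)) (XT.nd (nat_lit 78) (nat_lit 532) (nat_lit 0) (XT.lf (nat_lit 0) (nat_lit 2348273107) (nat_lit 684) (nat_lit 3263625208) (nat_lit 76) (nat_lit 6048451981) (nat_lit 259) (nat_lit 5) (nat_lit 268) (nat_lit 5) (nat_lit 260) (nat_lit 5) (nat_lit 600) (nat_lit 535) (nat_lit 425)) (XT.lf (nat_lit 0) (nat_lit 4104649750) (nat_lit 532) (nat_lit 1049074294) (nat_lit 608) (nat_lit 6633949307) (nat_lit 252) (nat_lit 5) (nat_lit 259) (nat_lit 5) (nat_lit 260) (nat_lit 5) (nat_lit 601) (nat_lit 535) (nat_lit 424))))) (XT.nd (nat_lit 234) (nat_lit 988) (nat_lit 0) (XT.nd (nat_lit 78) (nat_lit 1140) (nat_lit 0) (XT.lf (nat_lit 0) (nat_lit 8040944207) (nat_lit 608) (nat_lit 302600723)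 (nat_lit 76) (nat_lit 3573486075) (nat_lit 252) (nat_lit 5) (nat_lit 260) (nat_lit 5) (nat_lit 253) (nat_lit 5) (nat_lit 602) (nat_lit 535) (nat_lit 423)) (XT.nd (nat_lit 78) (nat_lit 608) (nat_lit 0) (XT.lf (nat_lit 0) (nat_lit 7288112873) (nat_lit 532) (nat_lit 3732659179) (nat_lit 608) (nat_lit 1027507809) (nat_lit 245) (nat_lit 5) (nat_lit 252) (nat_lit 5) (nat_lit 253) (nat_lit 5) (nat_lit 603) (nat_lit 535) (nat_lit 422)) (XT.lf (nat_lit 0) (nat_lit 1861126826) (nat_lit 608) (nat_lit 9336578496) (nat_lit 76) (nat_lit 984051464) (nat_lit 237) (nat_lit 5) (nat_lit 245) (nat_lit 5) (nat_lit 238) (nat_lit 5) (nat_lit 604) (nat_lit 535) (nat_lit 421)))) (XT.nd (nat_lit 78) (nat_lit 988) (nat_lit 0) (XT.lf (nat_lit 0) (nat_lit 4831511165) (nat_lit 608) (nat_lit 1708054963) (nat_lit 76) (nat_lit 5777447817) (nat_lit 237) (nat_lit 5) (nat_lit 245) (nat_lit 5) (nat_lit 238) (nat_lit 5) (nat_lit 605) (nat_lit 535) (nat_lit 420)) (XT.nd (nat_lit 78) (nat_lit 456) (nat_lit 0) (XT.lf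 (nat_lit 0) (nat_lit 6127708432) (nat_lit 532) (nat_lit 1754603547) (nat_lit 608) (nat_lit 4572245307) (nat_lit 230) (nat_lit 5) (nat_lit 237) (nat_lit 5) (nat_lit 238) (nat_lit 5) (nat_lit 606) (nat_lit 535) (nat_lit 419)) (XT.lf (nat_lit 0) (nat_lit 1522457862) (nat_lit 456) (nat_lit 9494770967) (nat_lit 532) (nat_lit 1577161854) (nat_lit 224) (nat_lit 5) (nat_lit 230) (nat_lit 5) (nat_lit 231) (nat_lit 5) (nat_lit 607) (nat_lit 535) (nat_lit 418))))))))
noncomputable def xc105 : XT := (XT.nd (nat_lit 76206) (nat_lit 0) (nat_lit 26220) (XT.nd (nat_lit 780) (nat_lit 456) (nat_lit 0) (XT.nd (nat_lit 390) (nat_lit 1368) (nat_lit 0) (XT.nd (nat_lit 156) (nat_lit 988) (nat_lit 0) (XT.nd (nat_lit 78) (nat_lit 532) (nat_lit 0) (XT.lf (nat_lit 0) (nat_lit 1494254982) (nat_lit 532) (nat_lit 3169087428) (nat_lit 76) (nat_lit 8072771309) (nat_lit 223) (nat_lit 5) (nat_lit 230) (nat_lit 5) (nat_lit 224) (nat_lit 5) (nat_lit 608) (nat_lit 535) (nat_lit 417)) (XT.lf (nat_lit 0) (nat_lit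 4621720818) (nat_lit 608) (nat_lit 7961661535) (nat_lit 76) (nat_lit 296766707) (nat_lit 216) (nat_lit 5) (nat_lit 224) (nat_lit 5) (nat_lit 217) (nat_lit 5) (nat_lit 609) (nat_lit 535) (nat_lit 416))) (XT.nd (nat_lit 78) (nat_lit 532) (nat_lit 0) (XT.lf (nat_lit 0) (nat_lit 129232550) (nat_lit 456) (nat_lit 7717597619) (nat_lit 532) (nat_lit 5179534153) (nat_lit 210) (nat_lit 5) (nat_lit 216) (nat_lit 5) (nat_lit 217) (nat_lit 5) (nat_lit 610) (nat_lit 535) (nat_lit 415)) (XT.nd (nat_lit 78) (nat_lit 532) (nat_lit 0) (XT.lf (nat_lit 0) (nat_lit 8464464691) (nat_lit 456) (nat_lit 2707557645) (nat_lit 532) (nat_lit 2002771018) (nat_lit 210) (nat_lit 5) (nat_lit 216) (nat_lit 5) (nat_lit 217) (nat_lit 5) (nat_lit 611) (nat_lit 535) (nat_lit 414)) (XT.lf (nat_lit 0) (nat_lit 1243175507) (nat_lit 532) (nat_lit 9686698274) (nat_lit 76) (nat_lit 2395719955) (nat_lit 203) (nat_lit 5) (nat_lit 210) (nat_lit 5) (nat_lit 204) (nat_lit 5) (nat_lit 612) (nat_lit 535) (nat_lit 413)))))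 (XT.nd (nat_lit 156) (nat_lit 912) (nat_lit 0) (XT.nd (nat_lit 78) (nat_lit 456) (nat_lit 0) (XT.lf (nat_lit 0) (nat_lit 4559518826) (nat_lit 532) (nat_lit 1316502208) (nat_lit 76) (nat_lit 7602479443) (nat_lit 203) (nat_lit 5) (nat_lit 210) (nat_lit 5) (nat_lit 204) (nat_lit 5) (nat_lit 613) (nat_lit 535) (nat_lit 412)) (XT.lf (nat_lit 0) (nat_lit 7291954132) (nat_lit 456) (nat_lit 680442745) (nat_lit 532) (nat_lit 5661465312) (nat_lit 197) (nat_lit 5) (nat_lit 203) (nat_lit 5) (nat_lit 204) (nat_lit 5) (nat_lit 614) (nat_lit 535) (nat_lit 411))) (XT.nd (nat_lit 78) (nat_lit 456) (nat_lit 0) (XT.lf (nat_lit 0) (nat_lit 2273128357) (nat_lit 456) (nat_lit 9217035779) (nat_lit 532) (nat_lit 2301435345) (nat_lit 191) (nat_lit 5) (nat_lit 197) (nat_lit 5) (nat_lit 198) (nat_lit 5) (nat_lit 615) (nat_lit 535) (nat_lit 410)) (XT.nd (nat_lit 78) (nat_lit 380) (nat_lit 0) (XT.lf (nat_lit 0) (nat_lit 1141426413) (nat_lit 532) (nat_lit 2842274844) (nat_lit 76) (nat_lit 9968037087) (nat_lit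 190) (nat_lit 5) (nat_lit 197) (nat_lit 5) (nat_lit 191) (nat_lit 5) (nat_lit 616) (nat_lit 535) (nat_lit 409)) (XT.lf (nat_lit 0) (nat_lit 4654105171) (nat_lit 456) (nat_lit 8076393250) (nat_lit 76) (nat_lit 1383642712) (nat_lit 185) (nat_lit 5) (nat_lit 191) (nat_lit 5) (nat_lit 186) (nat_lit 5) (nat_lit 617) (nat_lit 535) (nat_lit 408)))))) (XT.nd (nat_lit 75036) (nat_lit 0) (nat_lit 35796) (XT.nd (nat_lit 74802) (nat_lit 0) (nat_lit 37924) (XT.nd (nat_lit 78) (nat_lit 0) (nat_lit 0) (XT.lf (nat_lit 0) (nat_lit 814059545) (nat_lit 456) (nat_lit 7457344737) (nat_lit 532) (nat_lit 6007701264) (nat_lit 179) (nat_lit 5) (nat_lit 185) (nat_lit 5) (nat_lit 186) (nat_lit 5) (nat_lit 618) (nat_lit 535) (nat_lit 407)) (XT.lf (nat_lit 0) (nat_lit 9967363970) (nat_lit 456) (nat_lit 2031546904) (nat_lit 532) (nat_lit 2447702028) (nat_lit 179) (nat_lit 5) (nat_lit 185) (nat_lit 5) (nat_lit 186) (nat_lit 5) (nat_lit 619) (nat_lit 535) (nat_lit 406))) (XT.nd (nat_lit 78) (nat_lit 0) (nat_lit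 0) (XT.lf (nat_lit 0) (nat_lit 391142977) (nat_lit 0) (nat_lit 391142977) (nat_lit 988) (nat_lit 2682409387) (nat_lit 678) (nat_lit 5) (nat_lit 678) (nat_lit 3) (nat_lit 691) (nat_lit 3) (nat_lit 536) (nat_lit 536) (nat_lit 488)) (XT.nd (nat_lit 78) (nat_lit 0) (nat_lit 0) (XT.lf (nat_lit 0) (nat_lit 3483769386) (nat_lit 988) (nat_lit 2709246941) (nat_lit 1064) (nat_lit 767357800) (nat_lit 678) (nat_lit 5) (nat_lit 691) (nat_lit 3) (nat_lit 692) (nat_lit 5) (nat_lit 537) (nat_lit 536) (nat_lit 487)) (XT.lf (nat_lit 76) (nat_lit 776305563) (nat_lit 0) (nat_lit 4625629479) (nat_lit 1064) (nat_lit 1590836795) (nat_lit 679) (nat_lit 5) (nat_lit 678) (nat_lit 5) (nat_lit 692) (nat_lit 5) (nat_lit 538) (nat_lit 536) (nat_lit 486))))) (XT.nd (nat_lit 156) (nat_lit 1064) (nat_lit 0) (XT.nd (nat_lit 78) (nat_lit 0) (nat_lit 0) (XT.lf (nat_lit 0) (nat_lit 297423600) (nat_lit 1064) (nat_lit 2685991399) (nat_lit 1140) (nat_lit 4042982548) (nat_lit 664) (nat_lit 5) (nat_lit 678) (nat_lit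 5) (nat_lit 679) (nat_lit 5) (nat_lit 539) (nat_lit 536) (nat_lit 485)) (XT.lf (nat_lit 76) (nat_lit 890202386) (nat_lit 0) (nat_lit 1269548087) (nat_lit 1140) (nat_lit 4901588855) (nat_lit 665) (nat_lit 5) (nat_lit 664) (nat_lit 5) (nat_lit 679) (nat_lit 5) (nat_lit 540) (nat_lit 536) (nat_lit 484))) (XT.nd (nat_lit 78) (nat_lit 1140) (nat_lit 0) (XT.lf (nat_lit 0) (nat_lit 4033295044) (nat_lit 1064) (nat_lit 2552470164) (nat_lit 1140) (nat_lit 511741116) (nat_lit 665) (nat_lit 5) (nat_lit 679) (nat_lit 5) (nat_lit 680) (nat_lit 5) (nat_lit 541) (nat_lit 536) (nat_lit 483)) (XT.nd (nat_lit 78) (nat_lit 1140) (nat_lit 0) (XT.lf (nat_lit 76) (nat_lit 1118405588) (nat_lit 0) (nat_lit 4795221022) (nat_lit 1140) (nat_lit 1221389415) (nat_lit 666) (nat_lit 5) (nat_lit 665) (nat_lit 5) (nat_lit 680) (nat_lit 5) (nat_lit 542) (nat_lit 536) (nat_lit 482)) (XT.lf (nat_lit 0) (nat_lit 620975087) (nat_lit 1140) (nat_lit 2306889321) (nat_lit 1216) (nat_lit 4245905104) (nat_lit 650) (nat_lit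 5) (nat_lit 665) (nat_lit 5) (nat_lit 666) (nat_lit 5) (nat_lit 543) (nat_lit 536) (nat_lit 481))))))) (XT.nd (nat_lit 780) (nat_lit 7220) (nat_lit 0) (XT.nd (nat_lit 390) (nat_lit 1216) (nat_lit 0) (XT.nd (nat_lit 156) (nat_lit 1140) (nat_lit 0) (XT.nd (nat_lit 78) (nat_lit 0) (nat_lit 76) (XT.lf (nat_lit 76) (nat_lit 1461768960) (nat_lit 0) (nat_lit 986547937) (nat_lit 1216) (nat_lit 4765535375) (nat_lit 651) (nat_lit 5) (nat_lit 650) (nat_lit 5) (nat_lit 666) (nat_lit 5) (nat_lit 544) (nat_lit 536) (nat_lit 480)) (XT.lf (nat_lit 0) (nat_lit 4290048618) (nat_lit 1140) (nat_lit 1951085657) (nat_lit 1216) (nat_lit 1014050806) (nat_lit 651) (nat_lit 5) (nat_lit 666) (nat_lit 5) (nat_lit 667) (nat_lit 5) (nat_lit 545) (nat_lit 536) (nat_lit 479))) (XT.nd (nat_lit 78) (nat_lit 1216) (nat_lit 0) (XT.lf (nat_lit 76) (nat_lit 1917909226) (nat_lit 0) (nat_lit 4226367041) (nat_lit 1216) (nat_lit 1153560206) (nat_lit 652) (nat_lit 5) (nat_lit 651) (nat_lit 5) (nat_lit 667) (nat_lit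 5) (nat_lit 546) (nat_lit 536) (nat_lit 478)) (XT.nd (nat_lit 78) (nat_lit 0) (nat_lit 76) (XT.lf (nat_lit 0) (nat_lit 655387679) (nat_lit 1216) (nat_lit 1481985034) (nat_lit 1292) (nat_lit 5204478075) (nat_lit 635) (nat_lit 5) (nat_lit 651) (nat_lit 5) (nat_lit 652) (nat_lit 5) (nat_lit 547) (nat_lit 536) (nat_lit 477)) (XT.lf (nat_lit 0) (nat_lit 2459389129) (nat_lit 1216) (nat_lit 4894879210) (nat_lit 1292) (nat_lit 32842989) (nat_lit 636) (nat_lit 5) (nat_lit 652) (nat_lit 5) (nat_lit 653) (nat_lit 5) (nat_lit 548) (nat_lit 536) (nat_lit 476))))) (XT.nd (nat_lit 156) (nat_lit 1292) (nat_lit 0) (XT.nd (nat_lit 78) (nat_lit 0) (nat_lit 0) (XT.lf (nat_lit 0) (nat_lit 4282296137) (nat_lit 1216) (nat_lit 908546646) (nat_lit 1292) (nat_lit 2242782544) (nat_lit 636) (nat_lit 5) (nat_lit 652) (nat_lit 5) (nat_lit 653) (nat_lit 5) (nat_lit 549) (nat_lit 536) (nat_lit 475)) (XT.lf (nat_lit 76) (nat_lit 3172383525) (nat_lit 0) (nat_lit 2949345547) (nat_lit 1292) (nat_lit 1359743845)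 (nat_lit 637) (nat_lit 5) (nat_lit 636) (nat_lit 5) (nat_lit 653) (nat_lit 5) (nat_lit 550) (nat_lit 536) (nat_lit 474))) (XT.nd (nat_lit 78) (nat_lit 0) (nat_lit 76) (XT.lf (nat_lit 0) (nat_lit 427500813) (nat_lit 1292) (nat_lit 213082389) (nat_lit 1368) (nat_lit 6890318789) (nat_lit 619) (nat_lit 5) (nat_lit 636) (nat_lit 5) (nat_lit 637) (nat_lit 5) (nat_lit 551) (nat_lit 536) (nat_lit 473)) (XT.nd (nat_lit 78) (nat_lit 0) (nat_lit 0) (XT.lf (nat_lit 0) (nat_lit 2230207487) (nat_lit 1292) (nat_lit 3611368304) (nat_lit 1368) (nat_lit 1739610013) (nat_lit 620) (nat_lit 5) (nat_lit 637) (nat_lit 5) (nat_lit 638) (nat_lit 5) (nat_lit 552) (nat_lit 536) (nat_lit 472)) (XT.lf (nat_lit 76) (nat_lit 582958587) (nat_lit 0) (nat_lit 3456769527) (nat_lit 1368) (nat_lit 3593336293) (nat_lit 621) (nat_lit 5) (nat_lit 620) (nat_lit 5) (nat_lit 638) (nat_lit 5) (nat_lit 553) (nat_lit 536) (nat_lit 471)))))) (XT.nd (nat_lit 390) (nat_lit 6004) (nat_lit 0) (XT.nd (nat_lit 156) (nat_lit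 1292) (nat_lit 0) (XT.nd (nat_lit 78) (nat_lit 0) (nat_lit 76) (XT.lf (nat_lit 76) (nat_lit 4883052000) (nat_lit 0) (nat_lit 988497749) (nat_lit 1368) (nat_lit 1814712849) (nat_lit 621) (nat_lit 5) (nat_lit 620) (nat_lit 5) (nat_lit 638) (nat_lit 5) (nat_lit 554) (nat_lit 536) (nat_lit 470)) (XT.lf (nat_lit 76) (nat_lit 1511149107) (nat_lit 0) (nat_lit 6211292551) (nat_lit 1368) (nat_lit 18438560) (nat_lit 622) (nat_lit 5) (nat_lit 621) (nat_lit 5) (nat_lit 639) (nat_lit 5) (nat_lit 555) (nat_lit 536) (nat_lit 469))) (XT.nd (nat_lit 78) (nat_lit 0) (nat_lit 0) (XT.lf (nat_lit 0) (nat_lit 1778457215) (nat_lit 1368) (nat_lit 1892546634) (nat_lit 1444) (nat_lit 4125585126) (nat_lit 603) (nat_lit 5) (nat_lit 621) (nat_lit 5) (nat_lit 622) (nat_lit 5) (nat_lit 556) (nat_lit 536) (nat_lit 468)) (XT.nd (nat_lit 78) (nat_lit 0) (nat_lit 76) (XT.lf (nat_lit 76) (nat_lit 2537400766) (nat_lit 0) (nat_lit 1053845288) (nat_lit 1444) (nat_lit 4262563278) (nat_lit 604) (nat_lit 5) (nat_lit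 603) (nat_lit 5) (nat_lit 622) (nat_lit 5) (nat_lit 557) (nat_lit 536) (nat_lit 467)) (XT.lf (nat_lit 0) (nat_lit 5427885184) (nat_lit 1368) (nat_lit 868627175) (nat_lit 76) (nat_lit 1615913675) (nat_lit 604) (nat_lit 5) (nat_lit 622) (nat_lit 5) (nat_lit 605) (nat_lit 5) (nat_lit 558) (nat_lit 536) (nat_lit 466))))) (XT.nd (nat_lit 234) (nat_lit 3192) (nat_lit 0) (XT.nd (nat_lit 78) (nat_lit 1520) (nat_lit 0) (XT.lf (nat_lit 0) (nat_lit 3682233557) (nat_lit 1368) (nat_lit 3614930257) (nat_lit 1444) (nat_lit 675136876) (nat_lit 586) (nat_lit 5) (nat_lit 604) (nat_lit 5) (nat_lit 605) (nat_lit 5) (nat_lit 559) (nat_lit 536) (nat_lit 465)) (XT.nd (nat_lit 78) (nat_lit 0) (nat_lit 0) (XT.lf (nat_lit 0) (nat_lit 271070662) (nat_lit 1444) (nat_lit 856960009) (nat_lit 1520) (nat_lit 6905735263) (nat_lit 566) (nat_lit 5) (nat_lit 585) (nat_lit 5) (nat_lit 586) (nat_lit 5) (nat_lit 560) (nat_lit 536) (nat_lit 464)) (XT.lf (nat_lit 0) (nat_lit 2965756671) (nat_lit 1520) (nat_lit 3159690785)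 (nat_lit 76) (nat_lit 1970776606) (nat_lit 566) (nat_lit 5) (nat_lit 586) (nat_lit 5) (nat_lit 567) (nat_lit 5) (nat_lit 561) (nat_lit 536) (nat_lit 463)))) (XT.nd (nat_lit 78) (nat_lit 1672) (nat_lit 0) (XT.lf (nat_lit 0) (nat_lit 1522184071) (nat_lit 1520) (nat_lit 3300127772) (nat_lit 1596) (nat_lit 3337981485) (nat_lit 546) (nat_lit 5) (nat_lit 566) (nat_lit 5) (nat_lit 567) (nat_lit 5) (nat_lit 562) (nat_lit 536) (nat_lit 462)) (XT.nd (nat_lit 78) (nat_lit 1672) (nat_lit 0) (XT.lf (nat_lit 0) (nat_lit 6313229438) (nat_lit 1520) (nat_lit 390967569) (nat_lit 1596) (nat_lit 1521686392) (nat_lit 546) (nat_lit 5) (nat_lit 566) (nat_lit 5) (nat_lit 567) (nat_lit 5) (nat_lit 563) (nat_lit 536) (nat_lit 461)) (XT.lf (nat_lit 0) (nat_lit 329855642) (nat_lit 1672) (nat_lit 5393710391) (nat_lit 76) (nat_lit 2569114308) (nat_lit 524) (nat_lit 5) (nat_lit 546) (nat_lit 5) (nat_lit 525) (nat_lit 5) (nat_lit 564) (nat_lit 536) (nat_lit 460))))))))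
noncomputable def xc106 : XT := (XT.nd (nat_lit 1560) (nat_lit 8512) (nat_lit 0) (XT.nd (nat_lit 780) (nat_lit 5016) (nat_lit 0) (XT.nd (nat_lit 390) (nat_lit 2964) (nat_lit 0) (XT.nd (nat_lit 156) (nat_lit 3648) (nat_lit 0) (XT.nd (nat_lit 78) (nat_lit 1672) (nat_lit 0) (XT.lf (nat_lit 0) (nat_lit 2181502908) (nat_lit 1672) (nat_lit 568253144) (nat_lit 76) (nat_lit 5611190209) (nat_lit 524) (nat_lit 5) (nat_lit 546) (nat_lit 5) (nat_lit 525) (nat_lit 5) (nat_lit 565) (nat_lit 536) (nat_lit 459)) (XT.lf (nat_lit 0) (nat_lit 4069255184) (nat_lit 1748) (nat_lit 4048641478) (nat_lit 76) (nat_lit 312702537) (nat_lit 502) (nat_lit 5) (nat_lit 525) (nat_lit 5) (nat_lit 503) (nat_lit 5) (nat_lit 566) (nat_lit 536) (nat_lit 458))) (XT.nd (nat_lit 78) (nat_lit 1900) (nat_lit 0) (XT.lf (nat_lit 0) (nat_lit 903292403) (nat_lit 1748) (nat_lit 5088402005) (nat_lit 1824) (nat_lit 2510015229) (nat_lit 479) (nat_lit 5) (nat_lit 502) (nat_lit 5) (nat_lit 503) (nat_lit 5) (nat_lit 567) (nat_lit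 536) (nat_lit 457)) (XT.nd (nat_lit 78) (nat_lit 1900) (nat_lit 0) (XT.lf (nat_lit 0) (nat_lit 5981701535) (nat_lit 1748) (nat_lit 1967496992) (nat_lit 1824) (nat_lit 625114452) (nat_lit 479) (nat_lit 5) (nat_lit 502) (nat_lit 5) (nat_lit 503) (nat_lit 5) (nat_lit 568) (nat_lit 536) (nat_lit 456)) (XT.lf (nat_lit 0) (nat_lit 1274688980) (nat_lit 1900) (nat_lit 6146053390) (nat_lit 76) (nat_lit 1227576010) (nat_lit 454) (nat_lit 5) (nat_lit 479) (nat_lit 5) (nat_lit 455) (nat_lit 5) (nat_lit 569) (nat_lit 536) (nat_lit 455))))) (XT.nd (nat_lit 156) (nat_lit 1900) (nat_lit 0) (XT.nd (nat_lit 78) (nat_lit 1064) (nat_lit 0) (XT.lf (nat_lit 0) (nat_lit 3204946253) (nat_lit 1900) (nat_lit 1034302541) (nat_lit 76) (nat_lit 4484458737) (nat_lit 454) (nat_lit 5) (nat_lit 479) (nat_lit 5) (nat_lit 455) (nat_lit 5) (nat_lit 570) (nat_lit 536) (nat_lit 454)) (XT.lf (nat_lit 0) (nat_lit 4207667377) (nat_lit 1064) (nat_lit 964320499) (nat_lit 1140) (nat_lit 3628655794) (nat_lit 440) (nat_lit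 5) (nat_lit 454) (nat_lit 5) (nat_lit 455) (nat_lit 5) (nat_lit 571) (nat_lit 536) (nat_lit 453))) (XT.nd (nat_lit 78) (nat_lit 988) (nat_lit 0) (XT.lf (nat_lit 0) (nat_lit 655024655) (nat_lit 912) (nat_lit 6521279818) (nat_lit 988) (nat_lit 1702858109) (nat_lit 428) (nat_lit 5) (nat_lit 440) (nat_lit 5) (nat_lit 441) (nat_lit 5) (nat_lit 572) (nat_lit 536) (nat_lit 452)) (XT.nd (nat_lit 78) (nat_lit 912) (nat_lit 0) (XT.lf (nat_lit 0) (nat_lit 266900400) (nat_lit 988) (nat_lit 2924489046) (nat_lit 76) (nat_lit 5767653626) (nat_lit 427) (nat_lit 5) (nat_lit 440) (nat_lit 5) (nat_lit 428) (nat_lit 5) (nat_lit 573) (nat_lit 536) (nat_lit 451)) (XT.lf (nat_lit 0) (nat_lit 2242883141) (nat_lit 988) (nat_lit 6566982167) (nat_lit 76) (nat_lit 230640715) (nat_lit 415) (nat_lit 5) (nat_lit 428) (nat_lit 5) (nat_lit 416) (nat_lit 5) (nat_lit 574) (nat_lit 536) (nat_lit 450)))))) (XT.nd (nat_lit 390) (nat_lit 2432) (nat_lit 0) (XT.nd (nat_lit 156) (nat_lit 1748) (nat_lit 0) (XT.nd (nat_lit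 78) (nat_lit 836) (nat_lit 0) (XT.lf (nat_lit 0) (nat_lit 4271673339) (nat_lit 988) (nat_lit 1152975167) (nat_lit 76) (nat_lit 3698686496) (nat_lit 415) (nat_lit 5) (nat_lit 428) (nat_lit 5) (nat_lit 416) (nat_lit 5) (nat_lit 575) (nat_lit 536) (nat_lit 449)) (XT.lf (nat_lit 0) (nat_lit 4399916022) (nat_lit 836) (nat_lit 1942629655) (nat_lit 912) (nat_lit 2865247233) (nat_lit 404) (nat_lit 5) (nat_lit 415) (nat_lit 5) (nat_lit 416) (nat_lit 5) (nat_lit 576) (nat_lit 536) (nat_lit 448))) (XT.nd (nat_lit 78) (nat_lit 912) (nat_lit 0) (XT.lf (nat_lit 0) (nat_lit 757689337) (nat_lit 836) (nat_lit 7693594290) (nat_lit 912) (nat_lit 842729814) (nat_lit 393) (nat_lit 5) (nat_lit 404) (nat_lit 5) (nat_lit 405) (nat_lit 5) (nat_lit 577) (nat_lit 536) (nat_lit 447)) (XT.nd (nat_lit 78) (nat_lit 836) (nat_lit 0) (XT.lf (nat_lit 0) (nat_lit 1223039637) (nat_lit 912) (nat_lit 2930208343) (nat_lit 76) (nat_lit 5228178178) (nat_lit 392) (nat_lit 5) (nat_lit 404) (nat_lit 5) (nat_lit 393)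 (nat_lit 5) (nat_lit 578) (nat_lit 536) (nat_lit 446)) (XT.lf (nat_lit 0) (nat_lit 2791975020) (nat_lit 836) (nat_lit 518986716) (nat_lit 912) (nat_lit 6159673843) (nat_lit 381) (nat_lit 5) (nat_lit 392) (nat_lit 5) (nat_lit 393) (nat_lit 5) (nat_lit 579) (nat_lit 536) (nat_lit 445))))) (XT.nd (nat_lit 156) (nat_lit 1596) (nat_lit 0) (XT.nd (nat_lit 78) (nat_lit 836) (nat_lit 0) (XT.lf (nat_lit 0) (nat_lit 5455444992) (nat_lit 912) (nat_lit 941163313) (nat_lit 76) (nat_lit 3164727073) (nat_lit 381) (nat_lit 5) (nat_lit 393) (nat_lit 5) (nat_lit 382) (nat_lit 5) (nat_lit 580) (nat_lit 536) (nat_lit 444)) (XT.lf (nat_lit 0) (nat_lit 4945626709) (nat_lit 836) (nat_lit 2707553101) (nat_lit 912) (nat_lit 2000464321) (nat_lit 370) (nat_lit 5) (nat_lit 381) (nat_lit 5) (nat_lit 382) (nat_lit 5) (nat_lit 581) (nat_lit 536) (nat_lit 443))) (XT.nd (nat_lit 78) (nat_lit 760) (nat_lit 0) (XT.lf (nat_lit 0) (nat_lit 141216423) (nat_lit 836) (nat_lit 8551960864) (nat_lit 76) (nat_lit 1054683290)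 (nat_lit 359) (nat_lit 5) (nat_lit 370) (nat_lit 5) (nat_lit 360) (nat_lit 5) (nat_lit 582) (nat_lit 536) (nat_lit 442)) (XT.nd (nat_lit 78) (nat_lit 760) (nat_lit 0) (XT.lf (nat_lit 0) (nat_lit 2323973637) (nat_lit 836) (nat_lit 2620349428) (nat_lit 76) (nat_lit 4898875315) (nat_lit 359) (nat_lit 5) (nat_lit 370) (nat_lit 5) (nat_lit 360) (nat_lit 5) (nat_lit 583) (nat_lit 536) (nat_lit 441)) (XT.lf (nat_lit 0) (nat_lit 3448310228) (nat_lit 760) (nat_lit 1100220088) (nat_lit 836) (nat_lit 5391951768) (nat_lit 349) (nat_lit 5) (nat_lit 359) (nat_lit 5) (nat_lit 360) (nat_lit 5) (nat_lit 584) (nat_lit 536) (nat_lit 440))))))) (XT.nd (nat_lit 780) (nat_lit 4256) (nat_lit 0) (XT.nd (nat_lit 390) (nat_lit 2052) (nat_lit 0) (XT.nd (nat_lit 156) (nat_lit 1520) (nat_lit 0) (XT.nd (nat_lit 78) (nat_lit 684) (nat_lit 0) (XT.lf (nat_lit 0) (nat_lit 6829633376) (nat_lit 836) (nat_lit 411024105) (nat_lit 76) (nat_lit 2798814869) (nat_lit 349) (nat_lit 5) (nat_lit 360) (nat_lit 5) (nat_lit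 350) (nat_lit 5) (nat_lit 585) (nat_lit 536) (nat_lit 439)) (XT.lf (nat_lit 0) (nat_lit 5834414876) (nat_lit 684) (nat_lit 3343621124) (nat_lit 760) (nat_lit 961974822) (nat_lit 340) (nat_lit 5) (nat_lit 349) (nat_lit 5) (nat_lit 350) (nat_lit 5) (nat_lit 586) (nat_lit 536) (nat_lit 438))) (XT.nd (nat_lit 78) (nat_lit 684) (nat_lit 0) (XT.lf (nat_lit 0) (nat_lit 1309763731) (nat_lit 836) (nat_lit 8288634347) (nat_lit 76) (nat_lit 644063619) (nat_lit 329) (nat_lit 5) (nat_lit 340) (nat_lit 5) (nat_lit 330) (nat_lit 5) (nat_lit 587) (nat_lit 536) (nat_lit 437)) (XT.nd (nat_lit 78) (nat_lit 684) (nat_lit 0) (XT.lf (nat_lit 0) (nat_lit 3642202977) (nat_lit 836) (nat_lit 2005253881) (nat_lit 76) (nat_lit 4698816463) (nat_lit 329) (nat_lit 5) (nat_lit 340) (nat_lit 5) (nat_lit 330) (nat_lit 5) (nat_lit 588) (nat_lit 536) (nat_lit 436)) (XT.lf (nat_lit 0) (nat_lit 4435528195) (nat_lit 684) (nat_lit 1591921379) (nat_lit 760) (nat_lit 4424590236) (nat_lit 320) (nat_lit 5) (nat_lit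 329) (nat_lit 5) (nat_lit 330) (nat_lit 5) (nat_lit 589) (nat_lit 536) (nat_lit 435))))) (XT.nd (nat_lit 156) (nat_lit 1292) (nat_lit 0) (XT.nd (nat_lit 78) (nat_lit 76) (nat_lit 0) (XT.lf (nat_lit 0) (nat_lit 435061310) (nat_lit 684) (nat_lit 8035840221) (nat_lit 760) (nat_lit 2088811858) (nat_lit 311) (nat_lit 5) (nat_lit 320) (nat_lit 5) (nat_lit 321) (nat_lit 5) (nat_lit 590) (nat_lit 536) (nat_lit 434)) (XT.lf (nat_lit 0) (nat_lit 318741190) (nat_lit 760) (nat_lit 3611039259) (nat_lit 76) (nat_lit 6739145339) (nat_lit 310) (nat_lit 5) (nat_lit 320) (nat_lit 5) (nat_lit 311) (nat_lit 5) (nat_lit 591) (nat_lit 536) (nat_lit 433))) (XT.nd (nat_lit 78) (nat_lit 684) (nat_lit 0) (XT.lf (nat_lit 0) (nat_lit 2746225740) (nat_lit 684) (nat_lit 7749461817) (nat_lit 76) (nat_lit 284365411) (nat_lit 302) (nat_lit 5) (nat_lit 311) (nat_lit 5) (nat_lit 303) (nat_lit 5) (nat_lit 592) (nat_lit 536) (nat_lit 432)) (XT.nd (nat_lit 78) (nat_lit 684) (nat_lit 0) (XT.lf (nat_lit 0) (nat_lit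 5251070315) (nat_lit 684) (nat_lit 1091616636) (nat_lit 76) (nat_lit 4550141166) (nat_lit 302) (nat_lit 5) (nat_lit 311) (nat_lit 5) (nat_lit 303) (nat_lit 5) (nat_lit 593) (nat_lit 536) (nat_lit 431)) (XT.lf (nat_lit 0) (nat_lit 5748785898) (nat_lit 684) (nat_lit 2073367333) (nat_lit 760) (nat_lit 3185384311) (nat_lit 293) (nat_lit 5) (nat_lit 302) (nat_lit 5) (nat_lit 303) (nat_lit 5) (nat_lit 594) (nat_lit 536) (nat_lit 430)))))) (XT.nd (nat_lit 390) (nat_lit 2356) (nat_lit 0) (XT.nd (nat_lit 156) (nat_lit 1216) (nat_lit 0) (XT.nd (nat_lit 78) (nat_lit 76) (nat_lit 0) (XT.lf (nat_lit 0) (nat_lit 1596260320) (nat_lit 608) (nat_lit 8859979730) (nat_lit 684) (nat_lit 668071031) (nat_lit 285) (nat_lit 5) (nat_lit 293) (nat_lit 5) (nat_lit 294) (nat_lit 5) (nat_lit 595) (nat_lit 536) (nat_lit 429)) (XT.lf (nat_lit 0) (nat_lit 1903064414) (nat_lit 684) (nat_lit 2635675780) (nat_lit 76) (nat_lit 6703866952) (nat_lit 284) (nat_lit 5) (nat_lit 293) (nat_lit 5) (nat_lit 285) (nat_lit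 5) (nat_lit 596) (nat_lit 536) (nat_lit 428))) (XT.nd (nat_lit 78) (nat_lit 608) (nat_lit 0) (XT.lf (nat_lit 0) (nat_lit 4422318206) (nat_lit 608) (nat_lit 102624725) (nat_lit 684) (nat_lit 6838074046) (nat_lit 276) (nat_lit 5) (nat_lit 284) (nat_lit 5) (nat_lit 285) (nat_lit 5) (nat_lit 597) (nat_lit 536) (nat_lit 427)) (XT.nd (nat_lit 78) (nat_lit 0) (nat_lit 0) (XT.lf (nat_lit 0) (nat_lit 118437709) (nat_lit 608) (nat_lit 7107850476) (nat_lit 684) (nat_lit 4259007685) (nat_lit 268) (nat_lit 5) (nat_lit 276) (nat_lit 5) (nat_lit 277) (nat_lit 5) (nat_lit 598) (nat_lit 536) (nat_lit 426)) (XT.lf (nat_lit 0) (nat_lit 7386317701) (nat_lit 608) (nat_lit 2622567338) (nat_lit 684) (nat_lit 1600592231) (nat_lit 268) (nat_lit 5) (nat_lit 276) (nat_lit 5) (nat_lit 277) (nat_lit 5) (nat_lit 599) (nat_lit 536) (nat_lit 425))))) (XT.nd (nat_lit 234) (nat_lit 1140) (nat_lit 0) (XT.nd (nat_lit 78) (nat_lit 532) (nat_lit 0) (XT.lf (nat_lit 0) (nat_lit 1109412352) (nat_lit 684) (nat_lit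 8677930484) (nat_lit 76) (nat_lit 1948396730) (nat_lit 259) (nat_lit 5) (nat_lit 268) (nat_lit 5) (nat_lit 260) (nat_lit 5) (nat_lit 600) (nat_lit 536) (nat_lit 424)) (XT.nd (nat_lit 78) (nat_lit 532) (nat_lit 0) (XT.lf (nat_lit 0) (nat_lit 3878519800) (nat_lit 684) (nat_lit 1376249484) (nat_lit 76) (nat_lit 6609020872) (nat_lit 259) (nat_lit 5) (nat_lit 268) (nat_lit 5) (nat_lit 260) (nat_lit 5) (nat_lit 601) (nat_lit 536) (nat_lit 423)) (XT.lf (nat_lit 0) (nat_lit 6126544603) (nat_lit 532) (nat_lit 597045688) (nat_lit 608) (nat_lit 5270401162) (nat_lit 252) (nat_lit 5) (nat_lit 259) (nat_lit 5) (nat_lit 260) (nat_lit 5) (nat_lit 602) (nat_lit 536) (nat_lit 422)))) (XT.nd (nat_lit 78) (nat_lit 608) (nat_lit 0) (XT.lf (nat_lit 0) (nat_lit 1640476255) (nat_lit 532) (nat_lit 8012979916) (nat_lit 608) (nat_lit 2472784013) (nat_lit 245) (nat_lit 5) (nat_lit 252) (nat_lit 5) (nat_lit 253) (nat_lit 5) (nat_lit 603) (nat_lit 536) (nat_lit 421)) (XT.nd (nat_lit 78) (nat_lit 532) (nat_lit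 0) (XT.lf (nat_lit 0) (nat_lit 400439757) (nat_lit 608) (nat_lit 2914472565) (nat_lit 76) (nat_lit 8945680393) (nat_lit 244) (nat_lit 5) (nat_lit 252) (nat_lit 5) (nat_lit 245) (nat_lit 5) (nat_lit 604) (nat_lit 536) (nat_lit 420)) (XT.lf (nat_lit 0) (nat_lit 3320705117) (nat_lit 608) (nat_lit 7576728540) (nat_lit 76) (nat_lit 1499419198) (nat_lit 237) (nat_lit 5) (nat_lit 245) (nat_lit 5) (nat_lit 238) (nat_lit 5) (nat_lit 605) (nat_lit 536) (nat_lit 419))))))))
noncomputable def xc107 : XT := (XT.nd (nat_lit 76284) (nat_lit 0) (nat_lit 27892) (XT.nd (nat_lit 780) (nat_lit 1368) (nat_lit 0) (XT.nd (nat_lit 390) (nat_lit 1444) (nat_lit 0) (XT.nd (nat_lit 156) (nat_lit 1064) (nat_lit 0) (XT.nd (nat_lit 78) (nat_lit 0) (nat_lit 0) (XT.lf (nat_lit 0) (nat_lit 168405871) (nat_lit 532) (nat_lit 6155295346) (nat_lit 608) (nat_lit 6211651662) (nat_lit 230) (nat_lit 5) (nat_lit 237) (nat_lit 5) (nat_lit 238) (nat_lit 5) (nat_lit 606) (nat_lit 536) (nat_lit 418)) (XT.lf (nat_lit 0)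 (nat_lit 8146120511) (nat_lit 532) (nat_lit 1273270821) (nat_lit 608) (nat_lit 3256580056) (nat_lit 230) (nat_lit 5) (nat_lit 237) (nat_lit 5) (nat_lit 238) (nat_lit 5) (nat_lit 607) (nat_lit 536) (nat_lit 417))) (XT.nd (nat_lit 78) (nat_lit 608) (nat_lit 0) (XT.lf (nat_lit 0) (nat_lit 3460456224) (nat_lit 456) (nat_lit 9145174890) (nat_lit 532) (nat_lit 213199581) (nat_lit 224) (nat_lit 5) (nat_lit 230) (nat_lit 5) (nat_lit 231) (nat_lit 5) (nat_lit 608) (nat_lit 536) (nat_lit 416)) (XT.nd (nat_lit 78) (nat_lit 532) (nat_lit 0) (XT.lf (nat_lit 0) (nat_lit 2874339302) (nat_lit 532) (nat_lit 1344296177) (nat_lit 76) (nat_lit 8745113247) (nat_lit 223) (nat_lit 5) (nat_lit 230) (nat_lit 5) (nat_lit 224) (nat_lit 5) (nat_lit 609) (nat_lit 536) (nat_lit 415)) (XT.lf (nat_lit 0) (nat_lit 6053563627) (nat_lit 608) (nat_lit 6221849287) (nat_lit 76) (nat_lit 835469309) (nat_lit 216) (nat_lit 5) (nat_lit 224) (nat_lit 5) (nat_lit 217) (nat_lit 5) (nat_lit 610) (nat_lit 536) (nat_lit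 414))))) (XT.nd (nat_lit 156) (nat_lit 988) (nat_lit 0) (XT.nd (nat_lit 78) (nat_lit 0) (nat_lit 0) (XT.lf (nat_lit 0) (nat_lit 2018368959) (nat_lit 456) (nat_lit 7310792041) (nat_lit 532) (nat_lit 3931142675) (nat_lit 210) (nat_lit 5) (nat_lit 216) (nat_lit 5) (nat_lit 217) (nat_lit 5) (nat_lit 611) (nat_lit 536) (nat_lit 413)) (XT.lf (nat_lit 0) (nat_lit 10483314532) (nat_lit 456) (nat_lit 2211554357) (nat_lit 532) (nat_lit 717353731) (nat_lit 210) (nat_lit 5) (nat_lit 216) (nat_lit 5) (nat_lit 217) (nat_lit 5) (nat_lit 612) (nat_lit 536) (nat_lit 412))) (XT.nd (nat_lit 78) (nat_lit 456) (nat_lit 0) (XT.lf (nat_lit 0) (nat_lit 2566158855) (nat_lit 532) (nat_lit 8003366450) (nat_lit 76) (nat_lit 2996542478) (nat_lit 203) (nat_lit 5) (nat_lit 210) (nat_lit 5) (nat_lit 204) (nat_lit 5) (nat_lit 613) (nat_lit 536) (nat_lit 411)) (XT.nd (nat_lit 78) (nat_lit 0) (nat_lit 0) (XT.lf (nat_lit 0) (nat_lit 504038886) (nat_lit 456) (nat_lit 5422609377) (nat_lit 532) (nat_lit 7795829488)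 (nat_lit 197) (nat_lit 5) (nat_lit 203) (nat_lit 5) (nat_lit 204) (nat_lit 5) (nat_lit 614) (nat_lit 536) (nat_lit 410)) (XT.lf (nat_lit 0) (nat_lit 9265946816) (nat_lit 456) (nat_lit 125479847) (nat_lit 532) (nat_lit 4489848631) (nat_lit 197) (nat_lit 5) (nat_lit 203) (nat_lit 5) (nat_lit 204) (nat_lit 5) (nat_lit 615) (nat_lit 536) (nat_lit 409)))))) (XT.nd (nat_lit 75114) (nat_lit 0) (nat_lit 35720) (XT.nd (nat_lit 156) (nat_lit 836) (nat_lit 0) (XT.nd (nat_lit 78) (nat_lit 76) (nat_lit 0) (XT.lf (nat_lit 0) (nat_lit 4156147869) (nat_lit 456) (nat_lit 8814253514) (nat_lit 532) (nat_lit 1071950326) (nat_lit 191) (nat_lit 5) (nat_lit 197) (nat_lit 5) (nat_lit 198) (nat_lit 5) (nat_lit 616) (nat_lit 536) (nat_lit 408)) (XT.lf (nat_lit 0) (nat_lit 2398358013) (nat_lit 532) (nat_lit 1081125022) (nat_lit 76) (nat_lit 10726539692) (nat_lit 190) (nat_lit 5) (nat_lit 197) (nat_lit 5) (nat_lit 191) (nat_lit 5) (nat_lit 617) (nat_lit 536) (nat_lit 407))) (XT.nd (nat_lit 78) (nat_lit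 456) (nat_lit 0) (XT.lf (nat_lit 0) (nat_lit 5972612561) (nat_lit 456) (nat_lit 6411181030) (nat_lit 76) (nat_lit 1988054878) (nat_lit 185) (nat_lit 5) (nat_lit 191) (nat_lit 5) (nat_lit 186) (nat_lit 5) (nat_lit 618) (nat_lit 536) (nat_lit 406)) (XT.nd (nat_lit 74802) (nat_lit 0) (nat_lit 37924) (XT.lf (nat_lit 0) (nat_lit 2645062795) (nat_lit 456) (nat_lit 7004949292) (nat_lit 532) (nat_lit 4890346308) (nat_lit 179) (nat_lit 5) (nat_lit 185) (nat_lit 5) (nat_lit 186) (nat_lit 5) (nat_lit 619) (nat_lit 536) (nat_lit 405)) (XT.lf (nat_lit 0) (nat_lit 1342054341) (nat_lit 0) (nat_lit 1342054341) (nat_lit 988) (nat_lit 811919153) (nat_lit 678) (nat_lit 5) (nat_lit 678) (nat_lit 3) (nat_lit 691) (nat_lit 3) (nat_lit 537) (nat_lit 537) (nat_lit 486))))) (XT.nd (nat_lit 156) (nat_lit 1064) (nat_lit 0) (XT.nd (nat_lit 78) (nat_lit 0) (nat_lit 76) (XT.lf (nat_lit 0) (nat_lit 218527124) (nat_lit 1140) (nat_lit 836092896) (nat_lit 1140) (nat_lit 5970601683) (nat_lit 663) (nat_lit 3)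 (nat_lit 678) (nat_lit 3) (nat_lit 678) (nat_lit 5) (nat_lit 538) (nat_lit 537) (nat_lit 485)) (XT.lf (nat_lit 0) (nat_lit 2049679116) (nat_lit 1064) (nat_lit 4358392359) (nat_lit 1140) (nat_lit 651297177) (nat_lit 664) (nat_lit 5) (nat_lit 678) (nat_lit 5) (nat_lit 679) (nat_lit 5) (nat_lit 539) (nat_lit 537) (nat_lit 484))) (XT.nd (nat_lit 78) (nat_lit 1140) (nat_lit 0) (XT.lf (nat_lit 0) (nat_lit 3882834087) (nat_lit 1064) (nat_lit 806507405) (nat_lit 1140) (nat_lit 2405555252) (nat_lit 664) (nat_lit 5) (nat_lit 678) (nat_lit 5) (nat_lit 679) (nat_lit 5) (nat_lit 540) (nat_lit 537) (nat_lit 483)) (XT.nd (nat_lit 78) (nat_lit 1140) (nat_lit 0) (XT.lf (nat_lit 76) (nat_lit 2828491809) (nat_lit 0) (nat_lit 2896199223) (nat_lit 1140) (nat_lit 1407009276) (nat_lit 665) (nat_lit 5) (nat_lit 664) (nat_lit 5) (nat_lit 679) (nat_lit 5) (nat_lit 541) (nat_lit 537) (nat_lit 482)) (XT.lf (nat_lit 0) (nat_lit 388013264) (nat_lit 1140) (nat_lit 650333154) (nat_lit 1216) (nat_lit 6131651378)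 (nat_lit 649) (nat_lit 5) (nat_lit 664) (nat_lit 5) (nat_lit 665) (nat_lit 5) (nat_lit 542) (nat_lit 537) (nat_lit 481))))))) (XT.nd (nat_lit 780) (nat_lit 5548) (nat_lit 0) (XT.nd (nat_lit 390) (nat_lit 1140) (nat_lit 0) (XT.nd (nat_lit 156) (nat_lit 1216) (nat_lit 0) (XT.nd (nat_lit 78) (nat_lit 0) (nat_lit 0) (XT.lf (nat_lit 0) (nat_lit 2181022609) (nat_lit 1140) (nat_lit 4133537670) (nat_lit 1216) (nat_lit 894701783) (nat_lit 650) (nat_lit 5) (nat_lit 665) (nat_lit 5) (nat_lit 666) (nat_lit 5) (nat_lit 543) (nat_lit 537) (nat_lit 480)) (XT.lf (nat_lit 0) (nat_lit 3977022724) (nat_lit 1140) (nat_lit 396834652) (nat_lit 1216) (nat_lit 2876116883) (nat_lit 650) (nat_lit 5) (nat_lit 665) (nat_lit 5) (nat_lit 666) (nat_lit 5) (nat_lit 544) (nat_lit 537) (nat_lit 479))) (XT.nd (nat_lit 78) (nat_lit 1216) (nat_lit 0) (XT.lf (nat_lit 76) (nat_lit 3434327107) (nat_lit 0) (nat_lit 2353640267) (nat_lit 1216) (nat_lit 1503957986) (nat_lit 651) (nat_lit 5) (nat_lit 650) (nat_lit 5)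 (nat_lit 666) (nat_lit 5) (nat_lit 545) (nat_lit 537) (nat_lit 478)) (XT.nd (nat_lit 78) (nat_lit 0) (nat_lit 76) (XT.lf (nat_lit 0) (nat_lit 256280820) (nat_lit 1216) (nat_lit 14864372) (nat_lit 1292) (nat_lit 7064340125) (nat_lit 634) (nat_lit 5) (nat_lit 650) (nat_lit 5) (nat_lit 651) (nat_lit 5) (nat_lit 546) (nat_lit 537) (nat_lit 477)) (XT.lf (nat_lit 0) (nat_lit 2027402846) (nat_lit 1216) (nat_lit 3471460797) (nat_lit 1292) (nat_lit 1880942532) (nat_lit 635) (nat_lit 5) (nat_lit 651) (nat_lit 5) (nat_lit 652) (nat_lit 5) (nat_lit 547) (nat_lit 537) (nat_lit 476))))) (XT.nd (nat_lit 156) (nat_lit 1216) (nat_lit 0) (XT.nd (nat_lit 78) (nat_lit 0) (nat_lit 0) (XT.lf (nat_lit 76) (nat_lit 463498765) (nat_lit 0) (nat_lit 3334086915) (nat_lit 1292) (nat_lit 3628159765) (nat_lit 636) (nat_lit 5) (nat_lit 635) (nat_lit 5) (nat_lit 652) (nat_lit 5) (nat_lit 548) (nat_lit 537) (nat_lit 475)) (XT.lf (nat_lit 76) (nat_lit 4498391952) (nat_lit 0) (nat_lit 1087450004) (nat_lit 1292)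 (nat_lit 1887112813) (nat_lit 636) (nat_lit 5) (nat_lit 635) (nat_lit 5) (nat_lit 652) (nat_lit 5) (nat_lit 549) (nat_lit 537) (nat_lit 474))) (XT.nd (nat_lit 78) (nat_lit 1292) (nat_lit 0) (XT.lf (nat_lit 76) (nat_lit 1072917080) (nat_lit 0) (nat_lit 6311995576) (nat_lit 1292) (nat_lit 136699213) (nat_lit 637) (nat_lit 5) (nat_lit 636) (nat_lit 5) (nat_lit 653) (nat_lit 5) (nat_lit 550) (nat_lit 537) (nat_lit 473)) (XT.nd (nat_lit 78) (nat_lit 0) (nat_lit 0) (XT.lf (nat_lit 0) (nat_lit 1615005880) (nat_lit 1292) (nat_lit 2373780386) (nat_lit 1368) (nat_lit 3582488020) (nat_lit 619) (nat_lit 5) (nat_lit 636) (nat_lit 5) (nat_lit 637) (nat_lit 5) (nat_lit 551) (nat_lit 537) (nat_lit 472)) (XT.lf (nat_lit 76) (nat_lit 1779013405) (nat_lit 0) (nat_lit 1593837618) (nat_lit 1368) (nat_lit 4249606439) (nat_lit 620) (nat_lit 5) (nat_lit 619) (nat_lit 5) (nat_lit 637) (nat_lit 5) (nat_lit 552) (nat_lit 537) (nat_lit 471)))))) (XT.nd (nat_lit 390) (nat_lit 4256) (nat_lit 0) (XT.nd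 (nat_lit 156) (nat_lit 1368) (nat_lit 0) (XT.nd (nat_lit 78) (nat_lit 0) (nat_lit 0) (XT.lf (nat_lit 0) (nat_lit 5149452402) (nat_lit 1292) (nat_lit 1659641253) (nat_lit 1368) (nat_lit 865902889) (nat_lit 620) (nat_lit 5) (nat_lit 637) (nat_lit 5) (nat_lit 638) (nat_lit 5) (nat_lit 553) (nat_lit 537) (nat_lit 470)) (XT.lf (nat_lit 76) (nat_lit 2605256687) (nat_lit 0) (nat_lit 4346595652) (nat_lit 1368) (nat_lit 776932880) (nat_lit 621) (nat_lit 5) (nat_lit 620) (nat_lit 5) (nat_lit 638) (nat_lit 5) (nat_lit 554) (nat_lit 537) (nat_lit 469))) (XT.nd (nat_lit 78) (nat_lit 0) (nat_lit 76) (XT.lf (nat_lit 0) (nat_lit 967769142) (nat_lit 1368) (nat_lit 838603080) (nat_lit 1444) (nat_lit 5977664292) (nat_lit 602) (nat_lit 5) (nat_lit 620) (nat_lit 5) (nat_lit 621) (nat_lit 5) (nat_lit 555) (nat_lit 537) (nat_lit 468)) (XT.nd (nat_lit 78) (nat_lit 0) (nat_lit 0) (XT.lf (nat_lit 0) (nat_lit 2729184491) (nat_lit 1368) (nat_lit 4298499285) (nat_lit 1444) (nat_lit 812765805) (nat_lit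 603) (nat_lit 5) (nat_lit 621) (nat_lit 5) (nat_lit 622) (nat_lit 5) (nat_lit 556) (nat_lit 537) (nat_lit 467)) (XT.lf (nat_lit 76) (nat_lit 86128433) (nat_lit 0) (nat_lit 4422324934) (nat_lit 1444) (nat_lit 3389888866) (nat_lit 604) (nat_lit 5) (nat_lit 603) (nat_lit 5) (nat_lit 622) (nat_lit 5) (nat_lit 557) (nat_lit 537) (nat_lit 466))))) (XT.nd (nat_lit 234) (nat_lit 2964) (nat_lit 0) (XT.nd (nat_lit 78) (nat_lit 1368) (nat_lit 0) (XT.lf (nat_lit 76) (nat_lit 4590286005) (nat_lit 0) (nat_lit 1726831042) (nat_lit 1444) (nat_lit 1640403256) (nat_lit 604) (nat_lit 5) (nat_lit 603) (nat_lit 5) (nat_lit 622) (nat_lit 5) (nat_lit 558) (nat_lit 537) (nat_lit 465)) (XT.nd (nat_lit 78) (nat_lit 0) (nat_lit 0) (XT.lf (nat_lit 0) (nat_lit 121846585) (nat_lit 1444) (nat_lit 6870681221) (nat_lit 76) (nat_lit 1025745746) (nat_lit 585) (nat_lit 5) (nat_lit 604) (nat_lit 5) (nat_lit 586) (nat_lit 5) (nat_lit 559) (nat_lit 537) (nat_lit 464)) (XT.lf (nat_lit 0) (nat_lit 1897557603) (nat_lit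 1444) (nat_lit 2330817382) (nat_lit 76) (nat_lit 3851649932) (nat_lit 585) (nat_lit 5) (nat_lit 604) (nat_lit 5) (nat_lit 586) (nat_lit 5) (nat_lit 560) (nat_lit 537) (nat_lit 463)))) (XT.nd (nat_lit 78) (nat_lit 1520) (nat_lit 0) (XT.lf (nat_lit 0) (nat_lit 2303647196) (nat_lit 1444) (nat_lit 1386738651) (nat_lit 1520) (nat_lit 4452996870) (nat_lit 566) (nat_lit 5) (nat_lit 585) (nat_lit 5) (nat_lit 586) (nat_lit 5) (nat_lit 561) (nat_lit 537) (nat_lit 462)) (XT.nd (nat_lit 78) (nat_lit 1520) (nat_lit 0) (XT.lf (nat_lit 0) (nat_lit 5511803341) (nat_lit 1520) (nat_lit 1182157100) (nat_lit 76) (nat_lit 1514195977) (nat_lit 566) (nat_lit 5) (nat_lit 586) (nat_lit 5) (nat_lit 567) (nat_lit 5) (nat_lit 562) (nat_lit 537) (nat_lit 461)) (XT.lf (nat_lit 0) (nat_lit 3579929414) (nat_lit 1520) (nat_lit 3789963347) (nat_lit 1596) (nat_lit 904331293) (nat_lit 546) (nat_lit 5) (nat_lit 566) (nat_lit 5) (nat_lit 567) (nat_lit 5) (nat_lit 563) (nat_lit 537) (nat_lit 460))))))))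
noncomputable def xc108 : XT := (XT.nd (nat_lit 1560) (nat_lit 8664) (nat_lit 0) (XT.nd (nat_lit 780) (nat_lit 5168) (nat_lit 0) (XT.nd (nat_lit 390) (nat_lit 3952) (nat_lit 0) (XT.nd (nat_lit 156) (nat_lit 3420) (nat_lit 0) (XT.nd (nat_lit 78) (nat_lit 0) (nat_lit 0) (XT.lf (nat_lit 0) (nat_lit 80165344) (nat_lit 1596) (nat_lit 807823215) (nat_lit 1672) (nat_lit 7453976366) (nat_lit 524) (nat_lit 5) (nat_lit 545) (nat_lit 5) (nat_lit 546) (nat_lit 5) (nat_lit 564) (nat_lit 537) (nat_lit 459)) (XT.lf (nat_lit 0) (nat_lit 2718821897) (nat_lit 1672) (nat_lit 3444540387) (nat_lit 76) (nat_lit 2247286396) (nat_lit 524) (nat_lit 5) (nat_lit 546) (nat_lit 5) (nat_lit 525) (nat_lit 5) (nat_lit 565) (nat_lit 537) (nat_lit 458))) (XT.nd (nat_lit 78) (nat_lit 1748) (nat_lit 0) (XT.lf (nat_lit 0) (nat_lit 1456189997) (nat_lit 1672) (nat_lit 3114053542) (nat_lit 1748) (nat_lit 3910786215) (nat_lit 502) (nat_lit 5) (nat_lit 524) (nat_lit 5) (nat_lit 525) (nat_lit 5) (nat_lit 566) (nat_lit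 537) (nat_lit 457)) (XT.nd (nat_lit 78) (nat_lit 1748) (nat_lit 0) (XT.lf (nat_lit 0) (nat_lit 6451562747) (nat_lit 1748) (nat_lit 2077942087) (nat_lit 76) (nat_lit 23459254) (nat_lit 502) (nat_lit 5) (nat_lit 525) (nat_lit 5) (nat_lit 503) (nat_lit 5) (nat_lit 567) (nat_lit 537) (nat_lit 456)) (XT.lf (nat_lit 0) (nat_lit 2959532628) (nat_lit 1748) (nat_lit 5421035180) (nat_lit 1824) (nat_lit 245571067) (nat_lit 479) (nat_lit 5) (nat_lit 502) (nat_lit 5) (nat_lit 503) (nat_lit 5) (nat_lit 568) (nat_lit 537) (nat_lit 455))))) (XT.nd (nat_lit 156) (nat_lit 2052) (nat_lit 0) (XT.nd (nat_lit 78) (nat_lit 1824) (nat_lit 0) (XT.lf (nat_lit 0) (nat_lit 1610243254) (nat_lit 1824) (nat_lit 612136465) (nat_lit 76) (nat_lit 6478496906) (nat_lit 478) (nat_lit 5) (nat_lit 502) (nat_lit 5) (nat_lit 479) (nat_lit 5) (nat_lit 569) (nat_lit 537) (nat_lit 454)) (XT.lf (nat_lit 0) (nat_lit 3507591854) (nat_lit 1900) (nat_lit 4208487402) (nat_lit 76) (nat_lit 1060846075) (nat_lit 454) (nat_lit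 5) (nat_lit 479) (nat_lit 5) (nat_lit 455) (nat_lit 5) (nat_lit 570) (nat_lit 537) (nat_lit 453))) (XT.nd (nat_lit 78) (nat_lit 988) (nat_lit 0) (XT.lf (nat_lit 0) (nat_lit 977922383) (nat_lit 1064) (nat_lit 4461598678) (nat_lit 1140) (nat_lit 3415044010) (nat_lit 440) (nat_lit 5) (nat_lit 454) (nat_lit 5) (nat_lit 455) (nat_lit 5) (nat_lit 571) (nat_lit 537) (nat_lit 452)) (XT.nd (nat_lit 78) (nat_lit 988) (nat_lit 0) (XT.lf (nat_lit 0) (nat_lit 6298616037) (nat_lit 1064) (nat_lit 1111533751) (nat_lit 1140) (nat_lit 1523609279) (nat_lit 440) (nat_lit 5) (nat_lit 454) (nat_lit 5) (nat_lit 455) (nat_lit 5) (nat_lit 572) (nat_lit 537) (nat_lit 451)) (XT.lf (nat_lit 0) (nat_lit 405279680) (nat_lit 988) (nat_lit 6311949333) (nat_lit 76) (nat_lit 2297158917) (nat_lit 427) (nat_lit 5) (nat_lit 440) (nat_lit 5) (nat_lit 428) (nat_lit 5) (nat_lit 573) (nat_lit 537) (nat_lit 450)))))) (XT.nd (nat_lit 390) (nat_lit 2508) (nat_lit 0) (XT.nd (nat_lit 156) (nat_lit 1748) (nat_lit 0) (XT.nd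 (nat_lit 78) (nat_lit 912) (nat_lit 0) (XT.lf (nat_lit 0) (nat_lit 2350096247) (nat_lit 988) (nat_lit 958082604) (nat_lit 76) (nat_lit 5788296604) (nat_lit 427) (nat_lit 5) (nat_lit 440) (nat_lit 5) (nat_lit 428) (nat_lit 5) (nat_lit 574) (nat_lit 537) (nat_lit 449)) (XT.lf (nat_lit 0) (nat_lit 4337666182) (nat_lit 988) (nat_lit 4645305556) (nat_lit 76) (nat_lit 197158327) (nat_lit 415) (nat_lit 5) (nat_lit 428) (nat_lit 5) (nat_lit 416) (nat_lit 5) (nat_lit 575) (nat_lit 537) (nat_lit 448))) (XT.nd (nat_lit 78) (nat_lit 912) (nat_lit 0) (XT.lf (nat_lit 0) (nat_lit 847846015) (nat_lit 836) (nat_lit 5524496332) (nat_lit 912) (nat_lit 2892970751) (nat_lit 404) (nat_lit 5) (nat_lit 415) (nat_lit 5) (nat_lit 416) (nat_lit 5) (nat_lit 576) (nat_lit 537) (nat_lit 447)) (XT.nd (nat_lit 78) (nat_lit 912) (nat_lit 0) (XT.lf (nat_lit 0) (nat_lit 6487433528) (nat_lit 836) (nat_lit 1965269546) (nat_lit 912) (nat_lit 899399279) (nat_lit 404) (nat_lit 5) (nat_lit 415) (nat_lit 5) (nat_lit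 416) (nat_lit 5) (nat_lit 577) (nat_lit 537) (nat_lit 446)) (XT.lf (nat_lit 0) (nat_lit 1122502801) (nat_lit 912) (nat_lit 6649261082) (nat_lit 76) (nat_lit 1668651889) (nat_lit 392) (nat_lit 5) (nat_lit 404) (nat_lit 5) (nat_lit 393) (nat_lit 5) (nat_lit 578) (nat_lit 537) (nat_lit 445))))) (XT.nd (nat_lit 156) (nat_lit 1672) (nat_lit 0) (XT.nd (nat_lit 78) (nat_lit 836) (nat_lit 0) (XT.lf (nat_lit 0) (nat_lit 3179670634) (nat_lit 912) (nat_lit 976843379) (nat_lit 76) (nat_lit 5373727375) (nat_lit 392) (nat_lit 5) (nat_lit 404) (nat_lit 5) (nat_lit 393) (nat_lit 5) (nat_lit 579) (nat_lit 537) (nat_lit 444)) (XT.lf (nat_lit 0) (nat_lit 4846547011) (nat_lit 836) (nat_lit 437895571) (nat_lit 912) (nat_lit 4337293919) (nat_lit 381) (nat_lit 5) (nat_lit 392) (nat_lit 5) (nat_lit 393) (nat_lit 5) (nat_lit 580) (nat_lit 537) (nat_lit 443))) (XT.nd (nat_lit 78) (nat_lit 836) (nat_lit 0) (XT.lf (nat_lit 0) (nat_lit 1050308395) (nat_lit 836) (nat_lit 6391511365) (nat_lit 912) (nat_lit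 2273033716) (nat_lit 370) (nat_lit 5) (nat_lit 381) (nat_lit 5) (nat_lit 382) (nat_lit 5) (nat_lit 581) (nat_lit 537) (nat_lit 442)) (XT.nd (nat_lit 78) (nat_lit 836) (nat_lit 0) (XT.lf (nat_lit 0) (nat_lit 7027924235) (nat_lit 836) (nat_lit 2624967769) (nat_lit 912) (nat_lit 156731948) (nat_lit 370) (nat_lit 5) (nat_lit 381) (nat_lit 5) (nat_lit 382) (nat_lit 5) (nat_lit 582) (nat_lit 537) (nat_lit 441)) (XT.lf (nat_lit 0) (nat_lit 1980613772) (nat_lit 836) (nat_lit 6692135628) (nat_lit 76) (nat_lit 1233183055) (nat_lit 359) (nat_lit 5) (nat_lit 370) (nat_lit 5) (nat_lit 360) (nat_lit 5) (nat_lit 583) (nat_lit 537) (nat_lit 440))))))) (XT.nd (nat_lit 780) (nat_lit 4332) (nat_lit 0) (XT.nd (nat_lit 390) (nat_lit 2052) (nat_lit 0) (XT.nd (nat_lit 156) (nat_lit 1520) (nat_lit 0) (XT.nd (nat_lit 78) (nat_lit 760) (nat_lit 0) (XT.lf (nat_lit 0) (nat_lit 4171014895) (nat_lit 836) (nat_lit 681712835) (nat_lit 76) (nat_lit 5151172526) (nat_lit 359) (nat_lit 5) (nat_lit 370) (nat_lit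 5) (nat_lit 360) (nat_lit 5) (nat_lit 584) (nat_lit 537) (nat_lit 439)) (XT.lf (nat_lit 0) (nat_lit 5495221044) (nat_lit 760) (nat_lit 922378660) (nat_lit 836) (nat_lit 3685982149) (nat_lit 349) (nat_lit 5) (nat_lit 359) (nat_lit 5) (nat_lit 360) (nat_lit 5) (nat_lit 585) (nat_lit 537) (nat_lit 438))) (XT.nd (nat_lit 78) (nat_lit 836) (nat_lit 0) (XT.lf (nat_lit 0) (nat_lit 1574301635) (nat_lit 684) (nat_lit 7146652007) (nat_lit 760) (nat_lit 1484068604) (nat_lit 340) (nat_lit 5) (nat_lit 349) (nat_lit 5) (nat_lit 350) (nat_lit 5) (nat_lit 586) (nat_lit 537) (nat_lit 437)) (XT.nd (nat_lit 78) (nat_lit 760) (nat_lit 0) (XT.lf (nat_lit 0) (nat_lit 766230819) (nat_lit 760) (nat_lit 2402226822) (nat_lit 76) (nat_lit 7139649917) (nat_lit 339) (nat_lit 5) (nat_lit 349) (nat_lit 5) (nat_lit 340) (nat_lit 5) (nat_lit 587) (nat_lit 537) (nat_lit 436)) (XT.lf (nat_lit 0) (nat_lit 3050981716) (nat_lit 836) (nat_lit 6451606425) (nat_lit 76) (nat_lit 910285701) (nat_lit 329) (nat_lit 5)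 (nat_lit 340) (nat_lit 5) (nat_lit 330) (nat_lit 5) (nat_lit 588) (nat_lit 537) (nat_lit 435))))) (XT.nd (nat_lit 156) (nat_lit 1368) (nat_lit 0) (XT.nd (nat_lit 78) (nat_lit 684) (nat_lit 0) (XT.lf (nat_lit 0) (nat_lit 5396441851) (nat_lit 836) (nat_lit 81828949) (nat_lit 76) (nat_lit 5041166136) (nat_lit 329) (nat_lit 5) (nat_lit 340) (nat_lit 5) (nat_lit 330) (nat_lit 5) (nat_lit 589) (nat_lit 537) (nat_lit 434)) (XT.lf (nat_lit 0) (nat_lit 6474850808) (nat_lit 684) (nat_lit 1334238713) (nat_lit 760) (nat_lit 2818637937) (nat_lit 320) (nat_lit 5) (nat_lit 329) (nat_lit 5) (nat_lit 330) (nat_lit 5) (nat_lit 590) (nat_lit 537) (nat_lit 433))) (XT.nd (nat_lit 78) (nat_lit 684) (nat_lit 0) (XT.lf (nat_lit 0) (nat_lit 2412807935) (nat_lit 684) (nat_lit 7870659425) (nat_lit 760) (nat_lit 454448587) (nat_lit 311) (nat_lit 5) (nat_lit 320) (nat_lit 5) (nat_lit 321) (nat_lit 5) (nat_lit 591) (nat_lit 537) (nat_lit 432)) (XT.nd (nat_lit 78) (nat_lit 608) (nat_lit 0) (XT.lf (nat_lit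 0) (nat_lit 1946838207) (nat_lit 760) (nat_lit 1731147790) (nat_lit 76) (nat_lit 7171760108) (nat_lit 310) (nat_lit 5) (nat_lit 320) (nat_lit 5) (nat_lit 311) (nat_lit 5) (nat_lit 592) (nat_lit 537) (nat_lit 431)) (XT.lf (nat_lit 0) (nat_lit 4405851431) (nat_lit 684) (nat_lit 5935196454) (nat_lit 76) (nat_lit 622390789) (nat_lit 302) (nat_lit 5) (nat_lit 311) (nat_lit 5) (nat_lit 303) (nat_lit 5) (nat_lit 593) (nat_lit 537) (nat_lit 430)))))) (XT.nd (nat_lit 390) (nat_lit 2356) (nat_lit 0) (XT.nd (nat_lit 156) (nat_lit 1292) (nat_lit 0) (XT.nd (nat_lit 78) (nat_lit 0) (nat_lit 0) (XT.lf (nat_lit 0) (nat_lit 828052856) (nat_lit 684) (nat_lit 6106651581) (nat_lit 760) (nat_lit 4144289038) (nat_lit 293) (nat_lit 5) (nat_lit 302) (nat_lit 5) (nat_lit 303) (nat_lit 5) (nat_lit 594) (nat_lit 537) (nat_lit 429)) (XT.lf (nat_lit 0) (nat_lit 7781701789) (nat_lit 684) (nat_lit 1751735721) (nat_lit 760) (nat_lit 1663037342) (nat_lit 293) (nat_lit 5) (nat_lit 302) (nat_lit 5) (nat_lit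 303) (nat_lit 5) (nat_lit 595) (nat_lit 537) (nat_lit 428))) (XT.nd (nat_lit 78) (nat_lit 608) (nat_lit 0) (XT.lf (nat_lit 0) (nat_lit 877033131) (nat_lit 684) (nat_lit 7759494694) (nat_lit 76) (nat_lit 2679255306) (nat_lit 284) (nat_lit 5) (nat_lit 293) (nat_lit 5) (nat_lit 285) (nat_lit 5) (nat_lit 596) (nat_lit 537) (nat_lit 427)) (XT.nd (nat_lit 78) (nat_lit 608) (nat_lit 0) (XT.lf (nat_lit 0) (nat_lit 3460271266) (nat_lit 684) (nat_lit 772023833) (nat_lit 76) (nat_lit 7204671387) (nat_lit 284) (nat_lit 5) (nat_lit 293) (nat_lit 5) (nat_lit 285) (nat_lit 5) (nat_lit 597) (nat_lit 537) (nat_lit 426)) (XT.lf (nat_lit 0) (nat_lit 6119091313) (nat_lit 684) (nat_lit 5147543508) (nat_lit 76) (nat_lit 293461768) (nat_lit 276) (nat_lit 5) (nat_lit 285) (nat_lit 5) (nat_lit 277) (nat_lit 5) (nat_lit 598) (nat_lit 537) (nat_lit 425))))) (XT.nd (nat_lit 234) (nat_lit 1064) (nat_lit 0) (XT.nd (nat_lit 78) (nat_lit 684) (nat_lit 0) (XT.lf (nat_lit 0) (nat_lit 2039390214) (nat_lit 608)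 (nat_lit 6818712960) (nat_lit 684) (nat_lit 2827047205) (nat_lit 268) (nat_lit 5) (nat_lit 276) (nat_lit 5) (nat_lit 277) (nat_lit 5) (nat_lit 599) (nat_lit 537) (nat_lit 424)) (XT.nd (nat_lit 78) (nat_lit 684) (nat_lit 0) (XT.lf (nat_lit 0) (nat_lit 9415008517) (nat_lit 608) (nat_lit 2252180915) (nat_lit 684) (nat_lit 145211298) (nat_lit 268) (nat_lit 5) (nat_lit 276) (nat_lit 5) (nat_lit 277) (nat_lit 5) (nat_lit 600) (nat_lit 537) (nat_lit 423)) (XT.lf (nat_lit 0) (nat_lit 2585797884) (nat_lit 684) (nat_lit 6937128086) (nat_lit 76) (nat_lit 2418344910) (nat_lit 259) (nat_lit 5) (nat_lit 268) (nat_lit 5) (nat_lit 260) (nat_lit 5) (nat_lit 601) (nat_lit 537) (nat_lit 422)))) (XT.nd (nat_lit 78) (nat_lit 532) (nat_lit 0) (XT.lf (nat_lit 0) (nat_lit 479336629) (nat_lit 532) (nat_lit 4905549351) (nat_lit 608) (nat_lit 6687506484) (nat_lit 252) (nat_lit 5) (nat_lit 259) (nat_lit 5) (nat_lit 260) (nat_lit 5) (nat_lit 602) (nat_lit 537) (nat_lit 421)) (XT.nd (nat_lit 78) (nat_lit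 532) (nat_lit 0) (XT.lf (nat_lit 0) (nat_lit 8113552482) (nat_lit 532) (nat_lit 154344068) (nat_lit 608) (nat_lit 3937682376) (nat_lit 252) (nat_lit 5) (nat_lit 259) (nat_lit 5) (nat_lit 260) (nat_lit 5) (nat_lit 603) (nat_lit 537) (nat_lit 420)) (XT.lf (nat_lit 0) (nat_lit 3550670272) (nat_lit 532) (nat_lit 7693128850) (nat_lit 608) (nat_lit 1096926598) (nat_lit 245) (nat_lit 5) (nat_lit 252) (nat_lit 5) (nat_lit 253) (nat_lit 5) (nat_lit 604) (nat_lit 537) (nat_lit 419))))))))
noncomputable def xc109 : XT := (XT.nd (nat_lit 76440) (nat_lit 0) (nat_lit 27360) (XT.nd (nat_lit 780) (nat_lit 1368) (nat_lit 0) (XT.nd (nat_lit 390) (nat_lit 1520) (nat_lit 0) (XT.nd (nat_lit 156) (nat_lit 1064) (nat_lit 0) (XT.nd (nat_lit 78) (nat_lit 532) (nat_lit 0) (XT.lf (nat_lit 0) (nat_lit 1787487628) (nat_lit 608) (nat_lit 1113772133) (nat_lit 76) (nat_lit 9576873879) (nat_lit 244) (nat_lit 5) (nat_lit 252) (nat_lit 5) (nat_lit 245) (nat_lit 5) (nat_lit 605) (nat_lit 537) (nat_lit 418))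 (XT.lf (nat_lit 0) (nat_lit 4754243166) (nat_lit 608) (nat_lit 5857269718) (nat_lit 76) (nat_lit 2005846169) (nat_lit 237) (nat_lit 5) (nat_lit 245) (nat_lit 5) (nat_lit 238) (nat_lit 5) (nat_lit 606) (nat_lit 537) (nat_lit 417))) (XT.nd (nat_lit 78) (nat_lit 532) (nat_lit 0) (XT.lf (nat_lit 0) (nat_lit 2030458214) (nat_lit 532) (nat_lit 5772102433) (nat_lit 608) (nat_lit 4956364934) (nat_lit 230) (nat_lit 5) (nat_lit 237) (nat_lit 5) (nat_lit 238) (nat_lit 5) (nat_lit 607) (nat_lit 537) (nat_lit 416)) (XT.nd (nat_lit 78) (nat_lit 532) (nat_lit 0) (XT.lf (nat_lit 0) (nat_lit 10131282359) (nat_lit 532) (nat_lit 802364846) (nat_lit 608) (nat_lit 1969241302) (nat_lit 230) (nat_lit 5) (nat_lit 237) (nat_lit 5) (nat_lit 238) (nat_lit 5) (nat_lit 608) (nat_lit 537) (nat_lit 415)) (XT.lf (nat_lit 0) (nat_lit 1109113226) (nat_lit 532) (nat_lit 7692980044) (nat_lit 76) (nat_lit 4246586133) (nat_lit 223) (nat_lit 5) (nat_lit 230) (nat_lit 5) (nat_lit 224) (nat_lit 5) (nat_lit 609) (nat_lit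 537) (nat_lit 414))))) (XT.nd (nat_lit 156) (nat_lit 988) (nat_lit 0) (XT.nd (nat_lit 78) (nat_lit 0) (nat_lit 0) (XT.lf (nat_lit 0) (nat_lit 449566991) (nat_lit 532) (nat_lit 3782947322) (nat_lit 608) (nat_lit 8964415574) (nat_lit 216) (nat_lit 5) (nat_lit 223) (nat_lit 5) (nat_lit 224) (nat_lit 5) (nat_lit 610) (nat_lit 537) (nat_lit 413)) (XT.lf (nat_lit 0) (nat_lit 7462032431) (nat_lit 608) (nat_lit 4520983045) (nat_lit 76) (nat_lit 1364257961) (nat_lit 216) (nat_lit 5) (nat_lit 224) (nat_lit 5) (nat_lit 217) (nat_lit 5) (nat_lit 611) (nat_lit 537) (nat_lit 412))) (XT.nd (nat_lit 78) (nat_lit 532) (nat_lit 0) (XT.lf (nat_lit 0) (nat_lit 3872030992) (nat_lit 456) (nat_lit 6917640782) (nat_lit 532) (nat_lit 2710282482) (nat_lit 210) (nat_lit 5) (nat_lit 216) (nat_lit 5) (nat_lit 217) (nat_lit 5) (nat_lit 612) (nat_lit 537) (nat_lit 411)) (XT.nd (nat_lit 78) (nat_lit 456) (nat_lit 0) (XT.lf (nat_lit 0) (nat_lit 535189789) (nat_lit 532) (nat_lit 1188212975) (nat_lit 76) (nat_lit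 11931939484) (nat_lit 209) (nat_lit 5) (nat_lit 216) (nat_lit 5) (nat_lit 210) (nat_lit 5) (nat_lit 613) (nat_lit 537) (nat_lit 410)) (XT.lf (nat_lit 0) (nat_lit 3865194293) (nat_lit 532) (nat_lit 6359256741) (nat_lit 76) (nat_lit 3587911356) (nat_lit 203) (nat_lit 5) (nat_lit 210) (nat_lit 5) (nat_lit 204) (nat_lit 5) (nat_lit 614) (nat_lit 537) (nat_lit 409)))))) (XT.nd (nat_lit 75270) (nat_lit 0) (nat_lit 35264) (XT.nd (nat_lit 156) (nat_lit 912) (nat_lit 0) (XT.nd (nat_lit 78) (nat_lit 0) (nat_lit 0) (XT.lf (nat_lit 0) (nat_lit 2306427116) (nat_lit 456) (nat_lit 4973638277) (nat_lit 532) (nat_lit 6692093149) (nat_lit 197) (nat_lit 5) (nat_lit 203) (nat_lit 5) (nat_lit 204) (nat_lit 5) (nat_lit 615) (nat_lit 537) (nat_lit 408)) (XT.lf (nat_lit 0) (nat_lit 10792643151) (nat_lit 532) (nat_lit 2928904982) (nat_lit 76) (nat_lit 413015220) (nat_lit 197) (nat_lit 5) (nat_lit 204) (nat_lit 5) (nat_lit 198) (nat_lit 5) (nat_lit 616) (nat_lit 537) (nat_lit 407))) (XT.nd (nat_lit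 78) (nat_lit 380) (nat_lit 0) (XT.lf (nat_lit 0) (nat_lit 130855636) (nat_lit 532) (nat_lit 8294480558) (nat_lit 76) (nat_lit 5873739448) (nat_lit 190) (nat_lit 5) (nat_lit 197) (nat_lit 5) (nat_lit 191) (nat_lit 5) (nat_lit 617) (nat_lit 537) (nat_lit 406)) (XT.nd (nat_lit 74958) (nat_lit 0) (nat_lit 36328) (XT.lf (nat_lit 0) (nat_lit 653219917) (nat_lit 380) (nat_lit 2983527738) (nat_lit 456) (nat_lit 10829521409) (nat_lit 185) (nat_lit 5) (nat_lit 190) (nat_lit 5) (nat_lit 191) (nat_lit 5) (nat_lit 618) (nat_lit 537) (nat_lit 405)) (XT.lf (nat_lit 0) (nat_lit 1007870180) (nat_lit 1140) (nat_lit 1260729137) (nat_lit 1140) (nat_lit 1260729137) (nat_lit 663) (nat_lit 3) (nat_lit 678) (nat_lit 3) (nat_lit 678) (nat_lit 5) (nat_lit 538) (nat_lit 538) (nat_lit 484))))) (XT.nd (nat_lit 156) (nat_lit 1064) (nat_lit 0) (XT.nd (nat_lit 78) (nat_lit 0) (nat_lit 0) (XT.lf (nat_lit 76) (nat_lit 985496244) (nat_lit 0) (nat_lit 2822557333) (nat_lit 1140) (nat_lit 3285529929) (nat_lit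 664) (nat_lit 5) (nat_lit 663) (nat_lit 3) (nat_lit 678) (nat_lit 5) (nat_lit 539) (nat_lit 538) (nat_lit 483)) (XT.lf (nat_lit 76) (nat_lit 4572830697) (nat_lit 0) (nat_lit 1033830801) (nat_lit 1140) (nat_lit 1523143856) (nat_lit 664) (nat_lit 5) (nat_lit 663) (nat_lit 3) (nat_lit 678) (nat_lit 5) (nat_lit 540) (nat_lit 538) (nat_lit 482))) (XT.nd (nat_lit 78) (nat_lit 0) (nat_lit 0) (XT.lf (nat_lit 0) (nat_lit 237191602) (nat_lit 1140) (nat_lit 6119728286) (nat_lit 1216) (nat_lit 810475542) (nat_lit 649) (nat_lit 5) (nat_lit 664) (nat_lit 5) (nat_lit 665) (nat_lit 5) (nat_lit 541) (nat_lit 538) (nat_lit 481)) (XT.nd (nat_lit 78) (nat_lit 0) (nat_lit 0) (XT.lf (nat_lit 0) (nat_lit 1991490555) (nat_lit 1140) (nat_lit 2488349992) (nat_lit 1216) (nat_lit 2726117728) (nat_lit 649) (nat_lit 5) (nat_lit 664) (nat_lit 5) (nat_lit 665) (nat_lit 5) (nat_lit 542) (nat_lit 538) (nat_lit 480)) (XT.lf (nat_lit 76) (nat_lit 1207004712) (nat_lit 0) (nat_lit 2537603310) (nat_lit 1216) (nat_lit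 3501414959) (nat_lit 650) (nat_lit 5) (nat_lit 649) (nat_lit 5) (nat_lit 665) (nat_lit 5) (nat_lit 543) (nat_lit 538) (nat_lit 479))))))) (XT.nd (nat_lit 780) (nat_lit 5548) (nat_lit 0) (XT.nd (nat_lit 390) (nat_lit 1216) (nat_lit 0) (XT.nd (nat_lit 156) (nat_lit 1140) (nat_lit 0) (XT.nd (nat_lit 78) (nat_lit 0) (nat_lit 76) (XT.lf (nat_lit 76) (nat_lit 4985676572) (nat_lit 0) (nat_lit 520412149) (nat_lit 1216) (nat_lit 1781339395) (nat_lit 650) (nat_lit 5) (nat_lit 649) (nat_lit 5) (nat_lit 665) (nat_lit 5) (nat_lit 544) (nat_lit 538) (nat_lit 478)) (XT.lf (nat_lit 76) (nat_lit 1495067856) (nat_lit 0) (nat_lit 5784993273) (nat_lit 1216) (nat_lit 50060033) (nat_lit 651) (nat_lit 5) (nat_lit 650) (nat_lit 5) (nat_lit 666) (nat_lit 5) (nat_lit 545) (nat_lit 538) (nat_lit 477))) (XT.nd (nat_lit 78) (nat_lit 0) (nat_lit 0) (XT.lf (nat_lit 0) (nat_lit 1670301467) (nat_lit 1216) (nat_lit 2014244690) (nat_lit 1292) (nat_lit 3689364756) (nat_lit 634) (nat_lit 5) (nat_lit 650) (nat_lit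 5) (nat_lit 651) (nat_lit 5) (nat_lit 546) (nat_lit 538) (nat_lit 476)) (XT.nd (nat_lit 78) (nat_lit 0) (nat_lit 76) (XT.lf (nat_lit 76) (nat_lit 1882613012) (nat_lit 0) (nat_lit 1512800361) (nat_lit 1292) (nat_lit 4023740957) (nat_lit 635) (nat_lit 5) (nat_lit 634) (nat_lit 5) (nat_lit 651) (nat_lit 5) (nat_lit 547) (nat_lit 538) (nat_lit 475)) (XT.lf (nat_lit 0) (nat_lit 5132736105) (nat_lit 1216) (nat_lit 1610454101) (nat_lit 1292) (nat_lit 722562905) (nat_lit 635) (nat_lit 5) (nat_lit 651) (nat_lit 5) (nat_lit 652) (nat_lit 5) (nat_lit 548) (nat_lit 538) (nat_lit 474))))) (XT.nd (nat_lit 156) (nat_lit 0) (nat_lit 76) (XT.nd (nat_lit 78) (nat_lit 1292) (nat_lit 0) (XT.lf (nat_lit 76) (nat_lit 2390504416) (nat_lit 0) (nat_lit 4500175564) (nat_lit 1292) (nat_lit 622890969) (nat_lit 636) (nat_lit 5) (nat_lit 635) (nat_lit 5) (nat_lit 652) (nat_lit 5) (nat_lit 549) (nat_lit 538) (nat_lit 473)) (XT.lf (nat_lit 0) (nat_lit 1078297271) (nat_lit 1292) (nat_lit 1101515703) (nat_lit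 1368) (nat_lit 5382959592) (nat_lit 618) (nat_lit 5) (nat_lit 635) (nat_lit 5) (nat_lit 636) (nat_lit 5) (nat_lit 550) (nat_lit 538) (nat_lit 472))) (XT.nd (nat_lit 78) (nat_lit 0) (nat_lit 0) (XT.lf (nat_lit 0) (nat_lit 2787645153) (nat_lit 1292) (nat_lit 4603738031) (nat_lit 1368) (nat_lit 221847471) (nat_lit 619) (nat_lit 5) (nat_lit 636) (nat_lit 5) (nat_lit 637) (nat_lit 5) (nat_lit 551) (nat_lit 538) (nat_lit 471)) (XT.nd (nat_lit 78) (nat_lit 0) (nat_lit 0) (XT.lf (nat_lit 0) (nat_lit 4515197820) (nat_lit 1292) (nat_lit 486917403) (nat_lit 1368) (nat_lit 2662906549) (nat_lit 619) (nat_lit 5) (nat_lit 636) (nat_lit 5) (nat_lit 637) (nat_lit 5) (nat_lit 552) (nat_lit 538) (nat_lit 470)) (XT.lf (nat_lit 76) (nat_lit 3736206351) (nat_lit 0) (nat_lit 2528236726) (nat_lit 1368) (nat_lit 1453666950) (nat_lit 620) (nat_lit 5) (nat_lit 619) (nat_lit 5) (nat_lit 637) (nat_lit 5) (nat_lit 553) (nat_lit 538) (nat_lit 469)))))) (XT.nd (nat_lit 390) (nat_lit 4332) (nat_lit 0) (XT.nd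 (nat_lit 156) (nat_lit 0) (nat_lit 0) (XT.nd (nat_lit 78) (nat_lit 0) (nat_lit 0) (XT.lf (nat_lit 0) (nat_lit 241019535) (nat_lit 1368) (nat_lit 7518597191) (nat_lit 1444) (nat_lit 13246779) (nat_lit 602) (nat_lit 5) (nat_lit 620) (nat_lit 5) (nat_lit 621) (nat_lit 5) (nat_lit 554) (nat_lit 538) (nat_lit 468)) (XT.lf (nat_lit 0) (nat_lit 1957627709) (nat_lit 1368) (nat_lit 3251585456) (nat_lit 1444) (nat_lit 2619160767) (nat_lit 602) (nat_lit 5) (nat_lit 620) (nat_lit 5) (nat_lit 621) (nat_lit 5) (nat_lit 555) (nat_lit 538) (nat_lit 467))) (XT.nd (nat_lit 78) (nat_lit 0) (nat_lit 76) (XT.lf (nat_lit 76) (nat_lit 1089570055) (nat_lit 0) (nat_lit 2590614798) (nat_lit 1444) (nat_lit 4205381204) (nat_lit 603) (nat_lit 5) (nat_lit 602) (nat_lit 5) (nat_lit 621) (nat_lit 5) (nat_lit 556) (nat_lit 538) (nat_lit 466)) (XT.nd (nat_lit 78) (nat_lit 0) (nat_lit 0) (XT.lf (nat_lit 0) (nat_lit 5424815050) (nat_lit 1368) (nat_lit 2408590437) (nat_lit 1444) (nat_lit 110747855) (nat_lit 603)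 (nat_lit 5) (nat_lit 621) (nat_lit 5) (nat_lit 622) (nat_lit 5) (nat_lit 557) (nat_lit 538) (nat_lit 465)) (XT.lf (nat_lit 76) (nat_lit 2050730633) (nat_lit 0) (nat_lit 5149897754) (nat_lit 1444) (nat_lit 803361852) (nat_lit 604) (nat_lit 5) (nat_lit 603) (nat_lit 5) (nat_lit 622) (nat_lit 5) (nat_lit 558) (nat_lit 538) (nat_lit 464))))) (XT.nd (nat_lit 234) (nat_lit 2964) (nat_lit 0) (XT.nd (nat_lit 78) (nat_lit 0) (nat_lit 76) (XT.lf (nat_lit 0) (nat_lit 916882992) (nat_lit 1444) (nat_lit 1464926335) (nat_lit 1520) (nat_lit 5683447760) (nat_lit 584) (nat_lit 5) (nat_lit 603) (nat_lit 5) (nat_lit 604) (nat_lit 5) (nat_lit 559) (nat_lit 538) (nat_lit 463)) (XT.nd (nat_lit 78) (nat_lit 0) (nat_lit 0) (XT.lf (nat_lit 0) (nat_lit 2650916444) (nat_lit 1444) (nat_lit 5007526229) (nat_lit 76) (nat_lit 469401047) (nat_lit 585) (nat_lit 5) (nat_lit 604) (nat_lit 5) (nat_lit 586) (nat_lit 5) (nat_lit 560) (nat_lit 538) (nat_lit 462)) (XT.lf (nat_lit 0) (nat_lit 4412599861) (nat_lit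 1444) (nat_lit 416091949) (nat_lit 76) (nat_lit 3363134290) (nat_lit 585) (nat_lit 5) (nat_lit 604) (nat_lit 5) (nat_lit 586) (nat_lit 5) (nat_lit 561) (nat_lit 538) (nat_lit 461)))) (XT.nd (nat_lit 78) (nat_lit 1596) (nat_lit 0) (XT.lf (nat_lit 0) (nat_lit 4298158356) (nat_lit 1444) (nat_lit 1907206453) (nat_lit 1520) (nat_lit 2051809693) (nat_lit 566) (nat_lit 5) (nat_lit 585) (nat_lit 5) (nat_lit 586) (nat_lit 5) (nat_lit 562) (nat_lit 538) (nat_lit 460)) (XT.nd (nat_lit 78) (nat_lit 76) (nat_lit 0) (XT.lf (nat_lit 0) (nat_lit 765725955) (nat_lit 1520) (nat_lit 7251453774) (nat_lit 1596) (nat_lit 306989516) (nat_lit 546) (nat_lit 5) (nat_lit 566) (nat_lit 5) (nat_lit 567) (nat_lit 5) (nat_lit 563) (nat_lit 538) (nat_lit 459)) (XT.lf (nat_lit 0) (nat_lit 1461475697) (nat_lit 1596) (nat_lit 2801854713) (nat_lit 76) (nat_lit 4128824101) (nat_lit 545) (nat_lit 5) (nat_lit 566) (nat_lit 5) (nat_lit 546) (nat_lit 5) (nat_lit 564) (nat_lit 538) (nat_lit 458))))))))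
noncomputable def xc110 : XT := (XT.nd (nat_lit 1560) (nat_lit 8740) (nat_lit 0) (XT.nd (nat_lit 780) (nat_lit 5168) (nat_lit 0) (XT.nd (nat_lit 390) (nat_lit 3876) (nat_lit 0) (XT.nd (nat_lit 156) (nat_lit 3496) (nat_lit 0) (XT.nd (nat_lit 78) (nat_lit 0) (nat_lit 0) (XT.lf (nat_lit 0) (nat_lit 2049076991) (nat_lit 1596) (nat_lit 1194734548) (nat_lit 1672) (nat_lit 5217998201) (nat_lit 524) (nat_lit 5) (nat_lit 545) (nat_lit 5) (nat_lit 546) (nat_lit 5) (nat_lit 565) (nat_lit 538) (nat_lit 457)) (XT.lf (nat_lit 0) (nat_lit 5063057180) (nat_lit 1672) (nat_lit 1536264517) (nat_lit 76) (nat_lit 1933514132) (nat_lit 524) (nat_lit 5) (nat_lit 546) (nat_lit 5) (nat_lit 525) (nat_lit 5) (nat_lit 566) (nat_lit 538) (nat_lit 456))) (XT.nd (nat_lit 78) (nat_lit 1824) (nat_lit 0) (XT.lf (nat_lit 0) (nat_lit 3449472799) (nat_lit 1672) (nat_lit 3469887885) (nat_lit 1748) (nat_lit 1685911255) (nat_lit 502) (nat_lit 5) (nat_lit 524) (nat_lit 5) (nat_lit 525) (nat_lit 5) (nat_lit 567) (nat_lit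 538) (nat_lit 455)) (XT.nd (nat_lit 78) (nat_lit 1748) (nat_lit 0) (XT.lf (nat_lit 0) (nat_lit 112842485) (nat_lit 1748) (nat_lit 149951172) (nat_lit 76) (nat_lit 8416729375) (nat_lit 501) (nat_lit 5) (nat_lit 524) (nat_lit 5) (nat_lit 502) (nat_lit 5) (nat_lit 568) (nat_lit 538) (nat_lit 454)) (XT.lf (nat_lit 0) (nat_lit 1948388455) (nat_lit 1824) (nat_lit 3789893076) (nat_lit 76) (nat_lit 3016289696) (nat_lit 478) (nat_lit 5) (nat_lit 502) (nat_lit 5) (nat_lit 479) (nat_lit 5) (nat_lit 569) (nat_lit 538) (nat_lit 453))))) (XT.nd (nat_lit 156) (nat_lit 2052) (nat_lit 0) (XT.nd (nat_lit 78) (nat_lit 0) (nat_lit 0) (XT.lf (nat_lit 0) (nat_lit 1342660427) (nat_lit 1824) (nat_lit 2461040252) (nat_lit 1900) (nat_lit 5027761335) (nat_lit 454) (nat_lit 5) (nat_lit 478) (nat_lit 5) (nat_lit 479) (nat_lit 5) (nat_lit 570) (nat_lit 538) (nat_lit 452)) (XT.lf (nat_lit 0) (nat_lit 5699436400) (nat_lit 1900) (nat_lit 2312181318) (nat_lit 76) (nat_lit 898209232) (nat_lit 454) (nat_lit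 5) (nat_lit 479) (nat_lit 5) (nat_lit 455) (nat_lit 5) (nat_lit 571) (nat_lit 538) (nat_lit 451))) (XT.nd (nat_lit 78) (nat_lit 988) (nat_lit 0) (XT.lf (nat_lit 0) (nat_lit 2964927216) (nat_lit 1064) (nat_lit 4676249124) (nat_lit 1140) (nat_lit 1348423684) (nat_lit 440) (nat_lit 5) (nat_lit 454) (nat_lit 5) (nat_lit 455) (nat_lit 5) (nat_lit 572) (nat_lit 538) (nat_lit 450)) (XT.nd (nat_lit 78) (nat_lit 912) (nat_lit 0) (XT.lf (nat_lit 0) (nat_lit 531909740) (nat_lit 1140) (nat_lit 721244578) (nat_lit 76) (nat_lit 7817978229) (nat_lit 439) (nat_lit 5) (nat_lit 454) (nat_lit 5) (nat_lit 440) (nat_lit 5) (nat_lit 573) (nat_lit 538) (nat_lit 449)) (XT.lf (nat_lit 0) (nat_lit 2450500803) (nat_lit 988) (nat_lit 4452995944) (nat_lit 76) (nat_lit 2250249061) (nat_lit 427) (nat_lit 5) (nat_lit 440) (nat_lit 5) (nat_lit 428) (nat_lit 5) (nat_lit 574) (nat_lit 538) (nat_lit 448)))))) (XT.nd (nat_lit 390) (nat_lit 2508) (nat_lit 0) (XT.nd (nat_lit 156) (nat_lit 1748) (nat_lit 0) (XT.nd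 (nat_lit 78) (nat_lit 0) (nat_lit 0) (XT.lf (nat_lit 0) (nat_lit 981900581) (nat_lit 912) (nat_lit 3418744828) (nat_lit 988) (nat_lit 4837504718) (nat_lit 415) (nat_lit 5) (nat_lit 427) (nat_lit 5) (nat_lit 428) (nat_lit 5) (nat_lit 575) (nat_lit 538) (nat_lit 447)) (XT.lf (nat_lit 0) (nat_lit 6394743784) (nat_lit 988) (nat_lit 2764916536) (nat_lit 76) (nat_lit 164485574) (nat_lit 415) (nat_lit 5) (nat_lit 428) (nat_lit 5) (nat_lit 416) (nat_lit 5) (nat_lit 576) (nat_lit 538) (nat_lit 446))) (XT.nd (nat_lit 78) (nat_lit 912) (nat_lit 0) (XT.lf (nat_lit 0) (nat_lit 2825115862) (nat_lit 836) (nat_lit 5619091453) (nat_lit 912) (nat_lit 967346932) (nat_lit 404) (nat_lit 5) (nat_lit 415) (nat_lit 5) (nat_lit 416) (nat_lit 5) (nat_lit 577) (nat_lit 538) (nat_lit 445)) (XT.nd (nat_lit 78) (nat_lit 836) (nat_lit 0) (XT.lf (nat_lit 0) (nat_lit 1013732174) (nat_lit 912) (nat_lit 968456943) (nat_lit 76) (nat_lit 7518522765) (nat_lit 403) (nat_lit 5) (nat_lit 415) (nat_lit 5) (nat_lit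 404) (nat_lit 5) (nat_lit 578) (nat_lit 538) (nat_lit 444)) (XT.lf (nat_lit 0) (nat_lit 3039237372) (nat_lit 912) (nat_lit 4809727548) (nat_lit 76) (nat_lit 1742206919) (nat_lit 392) (nat_lit 5) (nat_lit 404) (nat_lit 5) (nat_lit 393) (nat_lit 5) (nat_lit 579) (nat_lit 538) (nat_lit 443))))) (XT.nd (nat_lit 156) (nat_lit 1672) (nat_lit 0) (XT.nd (nat_lit 78) (nat_lit 0) (nat_lit 0) (XT.lf (nat_lit 0) (nat_lit 949920041) (nat_lit 836) (nat_lit 4156653197) (nat_lit 912) (nat_lit 4576843503) (nat_lit 381) (nat_lit 5) (nat_lit 392) (nat_lit 5) (nat_lit 393) (nat_lit 5) (nat_lit 580) (nat_lit 538) (nat_lit 442)) (XT.lf (nat_lit 0) (nat_lit 6864597224) (nat_lit 836) (nat_lit 358734528) (nat_lit 912) (nat_lit 2554015383) (nat_lit 381) (nat_lit 5) (nat_lit 392) (nat_lit 5) (nat_lit 393) (nat_lit 5) (nat_lit 581) (nat_lit 538) (nat_lit 441))) (XT.nd (nat_lit 78) (nat_lit 836) (nat_lit 0) (XT.lf (nat_lit 0) (nat_lit 3015809653) (nat_lit 836) (nat_lit 6385286304) (nat_lit 912) (nat_lit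 471688842) (nat_lit 370) (nat_lit 5) (nat_lit 381) (nat_lit 5) (nat_lit 382) (nat_lit 5) (nat_lit 582) (nat_lit 538) (nat_lit 440)) (XT.nd (nat_lit 78) (nat_lit 760) (nat_lit 0) (XT.lf (nat_lit 0) (nat_lit 1629077504) (nat_lit 912) (nat_lit 906030900) (nat_lit 76) (nat_lit 7434840983) (nat_lit 369) (nat_lit 5) (nat_lit 381) (nat_lit 5) (nat_lit 370) (nat_lit 5) (nat_lit 583) (nat_lit 538) (nat_lit 439)) (XT.lf (nat_lit 0) (nat_lit 3785482700) (nat_lit 836) (nat_lit 4873974829) (nat_lit 76) (nat_lit 1409140544) (nat_lit 359) (nat_lit 5) (nat_lit 370) (nat_lit 5) (nat_lit 360) (nat_lit 5) (nat_lit 584) (nat_lit 538) (nat_lit 438))))))) (XT.nd (nat_lit 780) (nat_lit 4408) (nat_lit 0) (XT.nd (nat_lit 390) (nat_lit 2052) (nat_lit 0) (XT.nd (nat_lit 156) (nat_lit 1520) (nat_lit 0) (XT.nd (nat_lit 78) (nat_lit 0) (nat_lit 0) (XT.lf (nat_lit 0) (nat_lit 1234573494) (nat_lit 760) (nat_lit 4758521146) (nat_lit 836) (nat_lit 4175965435) (nat_lit 349) (nat_lit 5) (nat_lit 359) (nat_lit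 5) (nat_lit 360) (nat_lit 5) (nat_lit 585) (nat_lit 538) (nat_lit 437)) (XT.lf (nat_lit 0) (nat_lit 7506264076) (nat_lit 760) (nat_lit 748740660) (nat_lit 836) (nat_lit 2016325538) (nat_lit 349) (nat_lit 5) (nat_lit 359) (nat_lit 5) (nat_lit 360) (nat_lit 5) (nat_lit 586) (nat_lit 538) (nat_lit 436))) (XT.nd (nat_lit 78) (nat_lit 760) (nat_lit 0) (XT.lf (nat_lit 0) (nat_lit 206668161) (nat_lit 760) (nat_lit 6849280922) (nat_lit 76) (nat_lit 3319222238) (nat_lit 339) (nat_lit 5) (nat_lit 349) (nat_lit 5) (nat_lit 340) (nat_lit 5) (nat_lit 587) (nat_lit 538) (nat_lit 435)) (XT.nd (nat_lit 78) (nat_lit 760) (nat_lit 0) (XT.lf (nat_lit 0) (nat_lit 2448776058) (nat_lit 760) (nat_lit 544167601) (nat_lit 76) (nat_lit 7487847682) (nat_lit 339) (nat_lit 5) (nat_lit 349) (nat_lit 5) (nat_lit 340) (nat_lit 5) (nat_lit 588) (nat_lit 538) (nat_lit 434)) (XT.lf (nat_lit 0) (nat_lit 4760427638) (nat_lit 836) (nat_lit 4655609132) (nat_lit 76) (nat_lit 1171994693) (nat_lit 329) (nat_lit 5)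 (nat_lit 340) (nat_lit 5) (nat_lit 330) (nat_lit 5) (nat_lit 589) (nat_lit 538) (nat_lit 433))))) (XT.nd (nat_lit 156) (nat_lit 1368) (nat_lit 0) (XT.nd (nat_lit 78) (nat_lit 0) (nat_lit 0) (XT.lf (nat_lit 0) (nat_lit 1827790012) (nat_lit 684) (nat_lit 5304552105) (nat_lit 760) (nat_lit 3564795375) (nat_lit 320) (nat_lit 5) (nat_lit 329) (nat_lit 5) (nat_lit 330) (nat_lit 5) (nat_lit 590) (nat_lit 538) (nat_lit 432)) (XT.lf (nat_lit 0) (nat_lit 8479215230) (nat_lit 684) (nat_lit 1082644851) (nat_lit 760) (nat_lit 1246363921) (nat_lit 320) (nat_lit 5) (nat_lit 329) (nat_lit 5) (nat_lit 330) (nat_lit 5) (nat_lit 591) (nat_lit 538) (nat_lit 431))) (XT.nd (nat_lit 78) (nat_lit 608) (nat_lit 0) (XT.lf (nat_lit 0) (nat_lit 1132465537) (nat_lit 760) (nat_lit 6574765036) (nat_lit 76) (nat_lit 3213584081) (nat_lit 310) (nat_lit 5) (nat_lit 320) (nat_lit 5) (nat_lit 311) (nat_lit 5) (nat_lit 592) (nat_lit 538) (nat_lit 430)) (XT.nd (nat_lit 78) (nat_lit 0) (nat_lit 0) (XT.lf (nat_lit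 0) (nat_lit 112007609) (nat_lit 608) (nat_lit 3433243333) (nat_lit 684) (nat_lit 7490181616) (nat_lit 302) (nat_lit 5) (nat_lit 310) (nat_lit 5) (nat_lit 311) (nat_lit 5) (nat_lit 593) (nat_lit 538) (nat_lit 429)) (XT.lf (nat_lit 0) (nat_lit 6036357134) (nat_lit 684) (nat_lit 4161114341) (nat_lit 76) (nat_lit 954271583) (nat_lit 302) (nat_lit 5) (nat_lit 311) (nat_lit 5) (nat_lit 303) (nat_lit 5) (nat_lit 594) (nat_lit 538) (nat_lit 428)))))) (XT.nd (nat_lit 390) (nat_lit 2432) (nat_lit 0) (XT.nd (nat_lit 156) (nat_lit 1292) (nat_lit 0) (XT.nd (nat_lit 78) (nat_lit 0) (nat_lit 0) (XT.lf (nat_lit 0) (nat_lit 2724947416) (nat_lit 684) (nat_lit 5872805242) (nat_lit 760) (nat_lit 2672219275) (nat_lit 293) (nat_lit 5) (nat_lit 302) (nat_lit 5) (nat_lit 303) (nat_lit 5) (nat_lit 595) (nat_lit 538) (nat_lit 427)) (XT.lf (nat_lit 0) (nat_lit 9780800043) (nat_lit 684) (nat_lit 1437771052) (nat_lit 760) (nat_lit 171831869) (nat_lit 293) (nat_lit 5) (nat_lit 302) (nat_lit 5) (nat_lit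 303) (nat_lit 5) (nat_lit 596) (nat_lit 538) (nat_lit 426))) (XT.nd (nat_lit 78) (nat_lit 608) (nat_lit 0) (XT.lf (nat_lit 0) (nat_lit 2383932190) (nat_lit 684) (nat_lit 6035894920) (nat_lit 76) (nat_lit 3092376782) (nat_lit 284) (nat_lit 5) (nat_lit 293) (nat_lit 5) (nat_lit 285) (nat_lit 5) (nat_lit 597) (nat_lit 538) (nat_lit 425)) (XT.nd (nat_lit 78) (nat_lit 0) (nat_lit 0) (XT.lf (nat_lit 0) (nat_lit 1068499913) (nat_lit 608) (nat_lit 3928069479) (nat_lit 684) (nat_lit 6639688948) (nat_lit 276) (nat_lit 5) (nat_lit 284) (nat_lit 5) (nat_lit 285) (nat_lit 5) (nat_lit 598) (nat_lit 538) (nat_lit 424)) (XT.lf (nat_lit 0) (nat_lit 7687387363) (nat_lit 684) (nat_lit 3394199104) (nat_lit 76) (nat_lit 680690218) (nat_lit 276) (nat_lit 5) (nat_lit 285) (nat_lit 5) (nat_lit 277) (nat_lit 5) (nat_lit 599) (nat_lit 538) (nat_lit 423))))) (XT.nd (nat_lit 234) (nat_lit 1140) (nat_lit 0) (XT.nd (nat_lit 78) (nat_lit 684) (nat_lit 0) (XT.lf (nat_lit 0) (nat_lit 3924260824) (nat_lit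 608) (nat_lit 6540540386) (nat_lit 684) (nat_lit 1425359936) (nat_lit 268) (nat_lit 5) (nat_lit 276) (nat_lit 5) (nat_lit 277) (nat_lit 5) (nat_lit 600) (nat_lit 538) (nat_lit 422)) (XT.nd (nat_lit 78) (nat_lit 608) (nat_lit 0) (XT.lf (nat_lit 0) (nat_lit 1264712614) (nat_lit 684) (nat_lit 617606567) (nat_lit 76) (nat_lit 10138033505) (nat_lit 267) (nat_lit 5) (nat_lit 276) (nat_lit 5) (nat_lit 268) (nat_lit 5) (nat_lit 601) (nat_lit 538) (nat_lit 421)) (XT.lf (nat_lit 0) (nat_lit 4035242874) (nat_lit 684) (nat_lit 5235846611) (nat_lit 76) (nat_lit 2880956566) (nat_lit 259) (nat_lit 5) (nat_lit 268) (nat_lit 5) (nat_lit 260) (nat_lit 5) (nat_lit 602) (nat_lit 538) (nat_lit 420)))) (XT.nd (nat_lit 78) (nat_lit 608) (nat_lit 0) (XT.lf (nat_lit 0) (nat_lit 2316841977) (nat_lit 532) (nat_lit 4557932363) (nat_lit 608) (nat_lit 5411328369) (nat_lit 252) (nat_lit 5) (nat_lit 259) (nat_lit 5) (nat_lit 260) (nat_lit 5) (nat_lit 603) (nat_lit 538) (nat_lit 419)) (XT.nd (nat_lit 78)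 (nat_lit 608) (nat_lit 0) (XT.lf (nat_lit 0) (nat_lit 9790158416) (nat_lit 608) (nat_lit 2356411242) (nat_lit 76) (nat_lit 275890817) (nat_lit 252) (nat_lit 5) (nat_lit 260) (nat_lit 5) (nat_lit 253) (nat_lit 5) (nat_lit 604) (nat_lit 538) (nat_lit 418)) (XT.lf (nat_lit 0) (nat_lit 247808080) (nat_lit 608) (nat_lit 7136053042) (nat_lit 76) (nat_lit 5176696039) (nat_lit 244) (nat_lit 5) (nat_lit 252) (nat_lit 5) (nat_lit 245) (nat_lit 5) (nat_lit 605) (nat_lit 538) (nat_lit 417))))))))
noncomputable def xc111 : XT := (XT.nd (nat_lit 76518) (nat_lit 0) (nat_lit 25384) (XT.nd (nat_lit 780) (nat_lit 988) (nat_lit 0) (XT.nd (nat_lit 390) (nat_lit 1520) (nat_lit 0) (XT.nd (nat_lit 156) (nat_lit 1064) (nat_lit 0) (XT.nd (nat_lit 78) (nat_lit 0) (nat_lit 0) (XT.lf (nat_lit 0) (nat_lit 659403661) (nat_lit 532) (nat_lit 2493604312) (nat_lit 608) (nat_lit 9548006279) (nat_lit 237) (nat_lit 5) (nat_lit 244) (nat_lit 5) (nat_lit 245) (nat_lit 5) (nat_lit 606) (nat_lit 538) (nat_lit 416))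 (XT.lf (nat_lit 0) (nat_lit 6163364887) (nat_lit 608) (nat_lit 4176074673) (nat_lit 76) (nat_lit 2503900987) (nat_lit 237) (nat_lit 5) (nat_lit 245) (nat_lit 5) (nat_lit 238) (nat_lit 5) (nat_lit 607) (nat_lit 538) (nat_lit 415))) (XT.nd (nat_lit 78) (nat_lit 532) (nat_lit 0) (XT.lf (nat_lit 0) (nat_lit 3857576631) (nat_lit 532) (nat_lit 5400905862) (nat_lit 608) (nat_lit 3729540904) (nat_lit 230) (nat_lit 5) (nat_lit 237) (nat_lit 5) (nat_lit 238) (nat_lit 5) (nat_lit 608) (nat_lit 538) (nat_lit 414)) (XT.nd (nat_lit 78) (nat_lit 532) (nat_lit 0) (XT.lf (nat_lit 0) (nat_lit 12085387665) (nat_lit 532) (nat_lit 341315457) (nat_lit 608) (nat_lit 708673846) (nat_lit 230) (nat_lit 5) (nat_lit 237) (nat_lit 5) (nat_lit 238) (nat_lit 5) (nat_lit 609) (nat_lit 538) (nat_lit 413)) (XT.lf (nat_lit 0) (nat_lit 2403618372) (nat_lit 532) (nat_lit 6067572055) (nat_lit 76) (nat_lit 4812937626) (nat_lit 223) (nat_lit 5) (nat_lit 230) (nat_lit 5) (nat_lit 224) (nat_lit 5) (nat_lit 610) (nat_lit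 538) (nat_lit 412))))) (XT.nd (nat_lit 156) (nat_lit 988) (nat_lit 0) (XT.nd (nat_lit 78) (nat_lit 0) (nat_lit 0) (XT.lf (nat_lit 0) (nat_lit 2226120212) (nat_lit 532) (nat_lit 3349895945) (nat_lit 608) (nat_lit 7859598355) (nat_lit 216) (nat_lit 5) (nat_lit 223) (nat_lit 5) (nat_lit 224) (nat_lit 5) (nat_lit 611) (nat_lit 538) (nat_lit 411)) (XT.lf (nat_lit 0) (nat_lit 8848679396) (nat_lit 608) (nat_lit 2856978227) (nat_lit 76) (nat_lit 1883737724) (nat_lit 216) (nat_lit 5) (nat_lit 224) (nat_lit 5) (nat_lit 217) (nat_lit 5) (nat_lit 612) (nat_lit 538) (nat_lit 410))) (XT.nd (nat_lit 78) (nat_lit 532) (nat_lit 0) (XT.lf (nat_lit 0) (nat_lit 5692353824) (nat_lit 456) (nat_lit 6537570781) (nat_lit 532) (nat_lit 1515465595) (nat_lit 210) (nat_lit 5) (nat_lit 216) (nat_lit 5) (nat_lit 217) (nat_lit 5) (nat_lit 613) (nat_lit 538) (nat_lit 409)) (XT.nd (nat_lit 78) (nat_lit 0) (nat_lit 0) (XT.lf (nat_lit 0) (nat_lit 519677517) (nat_lit 456) (nat_lit 1238062100) (nat_lit 532) (nat_lit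 12146401474) (nat_lit 203) (nat_lit 5) (nat_lit 209) (nat_lit 5) (nat_lit 210) (nat_lit 5) (nat_lit 614) (nat_lit 538) (nat_lit 408)) (XT.lf (nat_lit 0) (nat_lit 5141760253) (nat_lit 532) (nat_lit 4752323231) (nat_lit 76) (nat_lit 4170471225) (nat_lit 203) (nat_lit 5) (nat_lit 210) (nat_lit 5) (nat_lit 204) (nat_lit 5) (nat_lit 615) (nat_lit 538) (nat_lit 407)))))) (XT.nd (nat_lit 75348) (nat_lit 0) (nat_lit 33668) (XT.nd (nat_lit 156) (nat_lit 532) (nat_lit 0) (XT.nd (nat_lit 78) (nat_lit 0) (nat_lit 0) (XT.lf (nat_lit 0) (nat_lit 4075265628) (nat_lit 456) (nat_lit 4537333180) (nat_lit 532) (nat_lit 5615195942) (nat_lit 197) (nat_lit 5) (nat_lit 203) (nat_lit 5) (nat_lit 204) (nat_lit 5) (nat_lit 616) (nat_lit 538) (nat_lit 406)) (XT.lf (nat_lit 0) (nat_lit 12175565359) (nat_lit 532) (nat_lit 1278621996) (nat_lit 76) (nat_lit 939658896) (nat_lit 197) (nat_lit 5) (nat_lit 204) (nat_lit 5) (nat_lit 198) (nat_lit 5) (nat_lit 617) (nat_lit 538) (nat_lit 405))) (XT.nd (nat_lit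 75036) (nat_lit 0) (nat_lit 34808) (XT.lf (nat_lit 0) (nat_lit 1296395637) (nat_lit 532) (nat_lit 6747232577) (nat_lit 76) (nat_lit 6518106104) (nat_lit 190) (nat_lit 5) (nat_lit 197) (nat_lit 5) (nat_lit 191) (nat_lit 5) (nat_lit 618) (nat_lit 538) (nat_lit 404)) (XT.nd (nat_lit 78) (nat_lit 1140) (nat_lit 0) (XT.lf (nat_lit 0) (nat_lit 2782320434) (nat_lit 1140) (nat_lit 391146642) (nat_lit 1140) (nat_lit 391146642) (nat_lit 663) (nat_lit 3) (nat_lit 678) (nat_lit 3) (nat_lit 678) (nat_lit 5) (nat_lit 539) (nat_lit 539) (nat_lit 482)) (XT.lf (nat_lit 0) (nat_lit 167317701) (nat_lit 1140) (nat_lit 4384080172) (nat_lit 1216) (nat_lit 2614586187) (nat_lit 648) (nat_lit 5) (nat_lit 663) (nat_lit 3) (nat_lit 664) (nat_lit 5) (nat_lit 540) (nat_lit 539) (nat_lit 481))))) (XT.nd (nat_lit 156) (nat_lit 1140) (nat_lit 0) (XT.nd (nat_lit 78) (nat_lit 0) (nat_lit 0) (XT.lf (nat_lit 0) (nat_lit 1873245674) (nat_lit 1140) (nat_lit 809389498) (nat_lit 1216) (nat_lit 4521432456) (nat_lit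 648) (nat_lit 5) (nat_lit 663) (nat_lit 3) (nat_lit 664) (nat_lit 5) (nat_lit 541) (nat_lit 539) (nat_lit 480)) (XT.lf (nat_lit 76) (nat_lit 2851038234) (nat_lit 0) (nat_lit 736678020) (nat_lit 1216) (nat_lit 3655713388) (nat_lit 649) (nat_lit 5) (nat_lit 648) (nat_lit 5) (nat_lit 664) (nat_lit 5) (nat_lit 542) (nat_lit 539) (nat_lit 479))) (XT.nd (nat_lit 78) (nat_lit 1216) (nat_lit 0) (XT.lf (nat_lit 0) (nat_lit 5306808423) (nat_lit 1140) (nat_lit 719965575) (nat_lit 1216) (nat_lit 1257403406) (nat_lit 649) (nat_lit 5) (nat_lit 664) (nat_lit 5) (nat_lit 665) (nat_lit 5) (nat_lit 543) (nat_lit 539) (nat_lit 478)) (XT.nd (nat_lit 78) (nat_lit 1216) (nat_lit 0) (XT.lf (nat_lit 76) (nat_lit 3037334701) (nat_lit 0) (nat_lit 4005155265) (nat_lit 1216) (nat_lit 283611056) (nat_lit 650) (nat_lit 5) (nat_lit 649) (nat_lit 5) (nat_lit 665) (nat_lit 5) (nat_lit 544) (nat_lit 539) (nat_lit 477)) (XT.lf (nat_lit 0) (nat_lit 1387953548) (nat_lit 1216) (nat_lit 522572443) (nat_lit 1292)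 (nat_lit 5458897063) (nat_lit 633) (nat_lit 5) (nat_lit 649) (nat_lit 5) (nat_lit 650) (nat_lit 5) (nat_lit 545) (nat_lit 539) (nat_lit 476))))))) (XT.nd (nat_lit 780) (nat_lit 5852) (nat_lit 0) (XT.nd (nat_lit 390) (nat_lit 1216) (nat_lit 0) (XT.nd (nat_lit 156) (nat_lit 1292) (nat_lit 0) (XT.nd (nat_lit 78) (nat_lit 0) (nat_lit 0) (XT.lf (nat_lit 0) (nat_lit 3071392207) (nat_lit 1216) (nat_lit 4078338985) (nat_lit 1292) (nat_lit 264202794) (nat_lit 634) (nat_lit 5) (nat_lit 650) (nat_lit 5) (nat_lit 651) (nat_lit 5) (nat_lit 546) (nat_lit 539) (nat_lit 475)) (XT.lf (nat_lit 0) (nat_lit 4764279815) (nat_lit 1216) (nat_lit 218172853) (nat_lit 1292) (nat_lit 2477371531) (nat_lit 634) (nat_lit 5) (nat_lit 650) (nat_lit 5) (nat_lit 651) (nat_lit 5) (nat_lit 547) (nat_lit 539) (nat_lit 474))) (XT.nd (nat_lit 78) (nat_lit 1292) (nat_lit 0) (XT.lf (nat_lit 76) (nat_lit 3744540708) (nat_lit 0) (nat_lit 2731186435) (nat_lit 1292) (nat_lit 1031215610) (nat_lit 635) (nat_lit 5) (nat_lit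 634) (nat_lit 5) (nat_lit 651) (nat_lit 5) (nat_lit 548) (nat_lit 539) (nat_lit 473)) (XT.nd (nat_lit 78) (nat_lit 0) (nat_lit 76) (XT.lf (nat_lit 76) (nat_lit 208757157) (nat_lit 0) (nat_lit 412482458) (nat_lit 1368) (nat_lit 6934410330) (nat_lit 618) (nat_lit 5) (nat_lit 617) (nat_lit 5) (nat_lit 635) (nat_lit 5) (nat_lit 549) (nat_lit 539) (nat_lit 472)) (XT.lf (nat_lit 0) (nat_lit 2292501102) (nat_lit 1292) (nat_lit 3339009684) (nat_lit 1368) (nat_lit 1973697175) (nat_lit 618) (nat_lit 5) (nat_lit 635) (nat_lit 5) (nat_lit 636) (nat_lit 5) (nat_lit 550) (nat_lit 539) (nat_lit 471))))) (XT.nd (nat_lit 156) (nat_lit 1292) (nat_lit 0) (XT.nd (nat_lit 78) (nat_lit 0) (nat_lit 0) (XT.lf (nat_lit 76) (nat_lit 731531555) (nat_lit 0) (nat_lit 3235352991) (nat_lit 1368) (nat_lit 3689482883) (nat_lit 619) (nat_lit 5) (nat_lit 618) (nat_lit 5) (nat_lit 636) (nat_lit 5) (nat_lit 551) (nat_lit 539) (nat_lit 470)) (XT.lf (nat_lit 76) (nat_lit 4904543031) (nat_lit 0) (nat_lit 755418351)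 (nat_lit 1368) (nat_lit 2048888735) (nat_lit 619) (nat_lit 5) (nat_lit 618) (nat_lit 5) (nat_lit 636) (nat_lit 5) (nat_lit 552) (nat_lit 539) (nat_lit 469))) (XT.nd (nat_lit 78) (nat_lit 1368) (nat_lit 0) (XT.lf (nat_lit 76) (nat_lit 1380677952) (nat_lit 0) (nat_lit 5990316189) (nat_lit 1368) (nat_lit 391710491) (nat_lit 620) (nat_lit 5) (nat_lit 619) (nat_lit 5) (nat_lit 637) (nat_lit 5) (nat_lit 553) (nat_lit 539) (nat_lit 468)) (XT.nd (nat_lit 78) (nat_lit 0) (nat_lit 0) (XT.lf (nat_lit 0) (nat_lit 1269450908) (nat_lit 1368) (nat_lit 2168308181) (nat_lit 1444) (nat_lit 4379955002) (nat_lit 601) (nat_lit 5) (nat_lit 619) (nat_lit 5) (nat_lit 620) (nat_lit 5) (nat_lit 554) (nat_lit 539) (nat_lit 467)) (XT.lf (nat_lit 76) (nat_lit 2130656798) (nat_lit 0) (nat_lit 806404960) (nat_lit 1444) (nat_lit 4937144600) (nat_lit 602) (nat_lit 5) (nat_lit 601) (nat_lit 5) (nat_lit 620) (nat_lit 5) (nat_lit 555) (nat_lit 539) (nat_lit 466)))))) (XT.nd (nat_lit 390) (nat_lit 4484) (nat_lit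 0) (XT.nd (nat_lit 156) (nat_lit 1444) (nat_lit 0) (XT.nd (nat_lit 78) (nat_lit 0) (nat_lit 0) (XT.lf (nat_lit 0) (nat_lit 4630099987) (nat_lit 1368) (nat_lit 1423817860) (nat_lit 1444) (nat_lit 1878072874) (nat_lit 602) (nat_lit 5) (nat_lit 620) (nat_lit 5) (nat_lit 621) (nat_lit 5) (nat_lit 556) (nat_lit 539) (nat_lit 465)) (XT.lf (nat_lit 76) (nat_lit 2991708133) (nat_lit 0) (nat_lit 3355974879) (nat_lit 1444) (nat_lit 1643437757) (nat_lit 603) (nat_lit 5) (nat_lit 602) (nat_lit 5) (nat_lit 621) (nat_lit 5) (nat_lit 557) (nat_lit 539) (nat_lit 464))) (XT.nd (nat_lit 78) (nat_lit 0) (nat_lit 76) (XT.lf (nat_lit 0) (nat_lit 23373990) (nat_lit 1444) (nat_lit 561561780) (nat_lit 1520) (nat_lit 7466978496) (nat_lit 583) (nat_lit 5) (nat_lit 602) (nat_lit 5) (nat_lit 603) (nat_lit 5) (nat_lit 558) (nat_lit 539) (nat_lit 463)) (XT.nd (nat_lit 78) (nat_lit 0) (nat_lit 0) (XT.lf (nat_lit 0) (nat_lit 1709111838) (nat_lit 1444) (nat_lit 4146623098) (nat_lit 1520) (nat_lit 2257822991)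 (nat_lit 584) (nat_lit 5) (nat_lit 603) (nat_lit 5) (nat_lit 604) (nat_lit 5) (nat_lit 559) (nat_lit 539) (nat_lit 462)) (XT.lf (nat_lit 76) (nat_lit 393665011) (nat_lit 0) (nat_lit 3012537034) (nat_lit 1520) (nat_lit 4770683062) (nat_lit 585) (nat_lit 5) (nat_lit 584) (nat_lit 5) (nat_lit 604) (nat_lit 5) (nat_lit 560) (nat_lit 539) (nat_lit 461))))) (XT.nd (nat_lit 234) (nat_lit 3116) (nat_lit 0) (XT.nd (nat_lit 78) (nat_lit 1444) (nat_lit 0) (XT.lf (nat_lit 76) (nat_lit 5056277293) (nat_lit 0) (nat_lit 76676002) (nat_lit 1520) (nat_lit 3108614484) (nat_lit 585) (nat_lit 5) (nat_lit 584) (nat_lit 5) (nat_lit 604) (nat_lit 5) (nat_lit 561) (nat_lit 539) (nat_lit 460)) (XT.nd (nat_lit 78) (nat_lit 76) (nat_lit 0) (XT.lf (nat_lit 0) (nat_lit 1480179520) (nat_lit 1444) (nat_lit 5411185283) (nat_lit 1520) (nat_lit 1416240064) (nat_lit 566) (nat_lit 5) (nat_lit 585) (nat_lit 5) (nat_lit 586) (nat_lit 5) (nat_lit 562) (nat_lit 539) (nat_lit 459)) (XT.lf (nat_lit 0) (nat_lit 296758137)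 (nat_lit 1520) (nat_lit 2120200645) (nat_lit 76) (nat_lit 5958149968) (nat_lit 565) (nat_lit 5) (nat_lit 585) (nat_lit 5) (nat_lit 566) (nat_lit 5) (nat_lit 563) (nat_lit 539) (nat_lit 458)))) (XT.nd (nat_lit 78) (nat_lit 1596) (nat_lit 0) (XT.lf (nat_lit 0) (nat_lit 2016267577) (nat_lit 1596) (nat_lit 5766072376) (nat_lit 76) (nat_lit 661614315) (nat_lit 545) (nat_lit 5) (nat_lit 566) (nat_lit 5) (nat_lit 546) (nat_lit 5) (nat_lit 564) (nat_lit 539) (nat_lit 457)) (XT.nd (nat_lit 78) (nat_lit 1596) (nat_lit 0) (XT.lf (nat_lit 0) (nat_lit 3770401425) (nat_lit 1596) (nat_lit 954453830) (nat_lit 76) (nat_lit 3789319776) (nat_lit 545) (nat_lit 5) (nat_lit 566) (nat_lit 5) (nat_lit 546) (nat_lit 5) (nat_lit 565) (nat_lit 539) (nat_lit 456)) (XT.lf (nat_lit 0) (nat_lit 3980973890) (nat_lit 1596) (nat_lit 1574987244) (nat_lit 1672) (nat_lit 3029915169) (nat_lit 524) (nat_lit 5) (nat_lit 545) (nat_lit 5) (nat_lit 546) (nat_lit 5) (nat_lit 566) (nat_lit 539) (nat_lit 455))))))))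
noncomputable def xc112 : XT := (XT.nd (nat_lit 1560) (nat_lit 8512) (nat_lit 0) (XT.nd (nat_lit 780) (nat_lit 5016) (nat_lit 0) (XT.nd (nat_lit 390) (nat_lit 2964) (nat_lit 0) (XT.nd (nat_lit 156) (nat_lit 3572) (nat_lit 0) (XT.nd (nat_lit 78) (nat_lit 76) (nat_lit 0) (XT.lf (nat_lit 0) (nat_lit 337831802) (nat_lit 1672) (nat_lit 7029620784) (nat_lit 1748) (nat_lit 1291757505) (nat_lit 502) (nat_lit 5) (nat_lit 524) (nat_lit 5) (nat_lit 525) (nat_lit 5) (nat_lit 567) (nat_lit 539) (nat_lit 454)) (XT.lf (nat_lit 0) (nat_lit 487550101) (nat_lit 1748) (nat_lit 3330618066) (nat_lit 76) (nat_lit 4915528750) (nat_lit 501) (nat_lit 5) (nat_lit 524) (nat_lit 5) (nat_lit 502) (nat_lit 5) (nat_lit 568) (nat_lit 539) (nat_lit 453))) (XT.nd (nat_lit 78) (nat_lit 1824) (nat_lit 0) (XT.lf (nat_lit 0) (nat_lit 1749536548) (nat_lit 1748) (nat_lit 518712460) (nat_lit 1824) (nat_lit 6541594398) (nat_lit 478) (nat_lit 5) (nat_lit 501) (nat_lit 5) (nat_lit 502) (nat_lit 5) (nat_lit 569) (nat_lit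 539) (nat_lit 452)) (XT.nd (nat_lit 78) (nat_lit 1824) (nat_lit 0) (XT.lf (nat_lit 0) (nat_lit 4097684772) (nat_lit 1824) (nat_lit 1954484674) (nat_lit 76) (nat_lit 2835083604) (nat_lit 478) (nat_lit 5) (nat_lit 502) (nat_lit 5) (nat_lit 479) (nat_lit 5) (nat_lit 570) (nat_lit 539) (nat_lit 451)) (XT.lf (nat_lit 0) (nat_lit 3268146175) (nat_lit 1824) (nat_lit 2692905256) (nat_lit 1900) (nat_lit 3005215237) (nat_lit 454) (nat_lit 5) (nat_lit 478) (nat_lit 5) (nat_lit 479) (nat_lit 5) (nat_lit 571) (nat_lit 539) (nat_lit 450))))) (XT.nd (nat_lit 156) (nat_lit 1824) (nat_lit 0) (XT.nd (nat_lit 78) (nat_lit 1140) (nat_lit 0) (XT.lf (nat_lit 0) (nat_lit 7852729924) (nat_lit 1900) (nat_lit 454853403) (nat_lit 76) (nat_lit 739458919) (nat_lit 454) (nat_lit 5) (nat_lit 479) (nat_lit 5) (nat_lit 455) (nat_lit 5) (nat_lit 572) (nat_lit 539) (nat_lit 449)) (XT.lf (nat_lit 0) (nat_lit 667753365) (nat_lit 1140) (nat_lit 4218088085) (nat_lit 76) (nat_lit 4243039463) (nat_lit 439) (nat_lit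 5) (nat_lit 454) (nat_lit 5) (nat_lit 440) (nat_lit 5) (nat_lit 573) (nat_lit 539) (nat_lit 448))) (XT.nd (nat_lit 78) (nat_lit 912) (nat_lit 0) (XT.lf (nat_lit 0) (nat_lit 1160082694) (nat_lit 912) (nat_lit 1375396294) (nat_lit 988) (nat_lit 6677033696) (nat_lit 427) (nat_lit 5) (nat_lit 439) (nat_lit 5) (nat_lit 440) (nat_lit 5) (nat_lit 574) (nat_lit 539) (nat_lit 447)) (XT.nd (nat_lit 78) (nat_lit 912) (nat_lit 0) (XT.lf (nat_lit 0) (nat_lit 4457522669) (nat_lit 988) (nat_lit 2633950927) (nat_lit 76) (nat_lit 2206006604) (nat_lit 427) (nat_lit 5) (nat_lit 440) (nat_lit 5) (nat_lit 428) (nat_lit 5) (nat_lit 575) (nat_lit 539) (nat_lit 446)) (XT.lf (nat_lit 0) (nat_lit 2897090206) (nat_lit 912) (nat_lit 3523494749) (nat_lit 988) (nat_lit 2963512888) (nat_lit 415) (nat_lit 5) (nat_lit 427) (nat_lit 5) (nat_lit 428) (nat_lit 5) (nat_lit 576) (nat_lit 539) (nat_lit 445)))))) (XT.nd (nat_lit 390) (nat_lit 2432) (nat_lit 0) (XT.nd (nat_lit 156) (nat_lit 1672) (nat_lit 0) (XT.nd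 (nat_lit 78) (nat_lit 912) (nat_lit 0) (XT.lf (nat_lit 0) (nat_lit 8416452844) (nat_lit 988) (nat_lit 923545191) (nat_lit 76) (nat_lit 132581207) (nat_lit 415) (nat_lit 5) (nat_lit 428) (nat_lit 5) (nat_lit 416) (nat_lit 5) (nat_lit 577) (nat_lit 539) (nat_lit 444)) (XT.lf (nat_lit 0) (nat_lit 907705365) (nat_lit 912) (nat_lit 4802399145) (nat_lit 76) (nat_lit 3852013219) (nat_lit 403) (nat_lit 5) (nat_lit 415) (nat_lit 5) (nat_lit 404) (nat_lit 5) (nat_lit 578) (nat_lit 539) (nat_lit 443))) (XT.nd (nat_lit 78) (nat_lit 836) (nat_lit 0) (XT.lf (nat_lit 0) (nat_lit 895846376) (nat_lit 836) (nat_lit 1988544095) (nat_lit 912) (nat_lit 6769164685) (nat_lit 392) (nat_lit 5) (nat_lit 403) (nat_lit 5) (nat_lit 404) (nat_lit 5) (nat_lit 579) (nat_lit 539) (nat_lit 442)) (XT.nd (nat_lit 78) (nat_lit 836) (nat_lit 0) (XT.lf (nat_lit 0) (nat_lit 4920749258) (nat_lit 912) (nat_lit 3009998651) (nat_lit 76) (nat_lit 1815672735) (nat_lit 392) (nat_lit 5) (nat_lit 404) (nat_lit 5) (nat_lit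 393) (nat_lit 5) (nat_lit 580) (nat_lit 539) (nat_lit 441)) (XT.lf (nat_lit 0) (nat_lit 2852368709) (nat_lit 836) (nat_lit 4153591208) (nat_lit 912) (nat_lit 2835023103) (nat_lit 381) (nat_lit 5) (nat_lit 392) (nat_lit 5) (nat_lit 393) (nat_lit 5) (nat_lit 581) (nat_lit 539) (nat_lit 440))))) (XT.nd (nat_lit 156) (nat_lit 1520) (nat_lit 0) (XT.nd (nat_lit 78) (nat_lit 912) (nat_lit 0) (XT.lf (nat_lit 0) (nat_lit 8848409039) (nat_lit 836) (nat_lit 281404265) (nat_lit 912) (nat_lit 807686603) (nat_lit 381) (nat_lit 5) (nat_lit 392) (nat_lit 5) (nat_lit 393) (nat_lit 5) (nat_lit 582) (nat_lit 539) (nat_lit 439)) (XT.lf (nat_lit 0) (nat_lit 1276998579) (nat_lit 912) (nat_lit 5098574360) (nat_lit 76) (nat_lit 3659545909) (nat_lit 369) (nat_lit 5) (nat_lit 381) (nat_lit 5) (nat_lit 370) (nat_lit 5) (nat_lit 583) (nat_lit 539) (nat_lit 438))) (XT.nd (nat_lit 78) (nat_lit 760) (nat_lit 0) (XT.lf (nat_lit 0) (nat_lit 943533407) (nat_lit 760) (nat_lit 2441713642) (nat_lit 836) (nat_lit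 6749484568) (nat_lit 359) (nat_lit 5) (nat_lit 369) (nat_lit 5) (nat_lit 370) (nat_lit 5) (nat_lit 584) (nat_lit 539) (nat_lit 437)) (XT.nd (nat_lit 78) (nat_lit 760) (nat_lit 0) (XT.lf (nat_lit 0) (nat_lit 5557901939) (nat_lit 836) (nat_lit 3095249489) (nat_lit 76) (nat_lit 1582742260) (nat_lit 359) (nat_lit 5) (nat_lit 370) (nat_lit 5) (nat_lit 360) (nat_lit 5) (nat_lit 585) (nat_lit 539) (nat_lit 436)) (XT.lf (nat_lit 0) (nat_lit 3123126347) (nat_lit 760) (nat_lit 4665372379) (nat_lit 836) (nat_lit 2550292338) (nat_lit 349) (nat_lit 5) (nat_lit 359) (nat_lit 5) (nat_lit 360) (nat_lit 5) (nat_lit 586) (nat_lit 539) (nat_lit 435))))))) (XT.nd (nat_lit 780) (nat_lit 4256) (nat_lit 0) (XT.nd (nat_lit 390) (nat_lit 2052) (nat_lit 0) (XT.nd (nat_lit 156) (nat_lit 1444) (nat_lit 0) (XT.nd (nat_lit 78) (nat_lit 760) (nat_lit 0) (XT.lf (nat_lit 0) (nat_lit 9483704440) (nat_lit 760) (nat_lit 579088816) (nat_lit 836) (nat_lit 380973220) (nat_lit 349) (nat_lit 5) (nat_lit 359) (nat_lit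 5) (nat_lit 360) (nat_lit 5) (nat_lit 587) (nat_lit 539) (nat_lit 434)) (XT.lf (nat_lit 0) (nat_lit 1845331546) (nat_lit 760) (nat_lit 5117537367) (nat_lit 76) (nat_lit 3586983905) (nat_lit 339) (nat_lit 5) (nat_lit 349) (nat_lit 5) (nat_lit 340) (nat_lit 5) (nat_lit 588) (nat_lit 539) (nat_lit 433))) (XT.nd (nat_lit 78) (nat_lit 684) (nat_lit 0) (XT.lf (nat_lit 0) (nat_lit 1294007615) (nat_lit 760) (nat_lit 2814625933) (nat_lit 836) (nat_lit 6549427226) (nat_lit 329) (nat_lit 5) (nat_lit 339) (nat_lit 5) (nat_lit 340) (nat_lit 5) (nat_lit 589) (nat_lit 539) (nat_lit 432)) (XT.nd (nat_lit 78) (nat_lit 684) (nat_lit 0) (XT.lf (nat_lit 0) (nat_lit 6440052077) (nat_lit 836) (nat_lit 2898443132) (nat_lit 76) (nat_lit 1429482336) (nat_lit 329) (nat_lit 5) (nat_lit 340) (nat_lit 5) (nat_lit 330) (nat_lit 5) (nat_lit 590) (nat_lit 539) (nat_lit 431)) (XT.lf (nat_lit 0) (nat_lit 3702451112) (nat_lit 684) (nat_lit 5137820954) (nat_lit 760) (nat_lit 2039378759) (nat_lit 320) (nat_lit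 5) (nat_lit 329) (nat_lit 5) (nat_lit 330) (nat_lit 5) (nat_lit 591) (nat_lit 539) (nat_lit 430))))) (XT.nd (nat_lit 156) (nat_lit 1292) (nat_lit 0) (XT.nd (nat_lit 78) (nat_lit 684) (nat_lit 0) (XT.lf (nat_lit 0) (nat_lit 290255886) (nat_lit 760) (nat_lit 544621354) (nat_lit 76) (nat_lit 10158659898) (nat_lit 319) (nat_lit 5) (nat_lit 329) (nat_lit 5) (nat_lit 320) (nat_lit 5) (nat_lit 592) (nat_lit 539) (nat_lit 429)) (XT.lf (nat_lit 0) (nat_lit 2683299891) (nat_lit 760) (nat_lit 4866741361) (nat_lit 76) (nat_lit 3558509379) (nat_lit 310) (nat_lit 5) (nat_lit 320) (nat_lit 5) (nat_lit 311) (nat_lit 5) (nat_lit 593) (nat_lit 539) (nat_lit 428))) (XT.nd (nat_lit 78) (nat_lit 684) (nat_lit 0) (XT.lf (nat_lit 0) (nat_lit 1941664640) (nat_lit 608) (nat_lit 3184576755) (nat_lit 684) (nat_lit 6099583777) (nat_lit 302) (nat_lit 5) (nat_lit 310) (nat_lit 5) (nat_lit 311) (nat_lit 5) (nat_lit 594) (nat_lit 539) (nat_lit 427)) (XT.nd (nat_lit 78) (nat_lit 684) (nat_lit 0) (XT.lf (nat_lit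 0) (nat_lit 7639580120) (nat_lit 684) (nat_lit 2425049774) (nat_lit 76) (nat_lit 1280386020) (nat_lit 302) (nat_lit 5) (nat_lit 311) (nat_lit 5) (nat_lit 303) (nat_lit 5) (nat_lit 595) (nat_lit 539) (nat_lit 426)) (XT.lf (nat_lit 0) (nat_lit 4586764225) (nat_lit 684) (nat_lit 5648105089) (nat_lit 760) (nat_lit 1231088935) (nat_lit 293) (nat_lit 5) (nat_lit 302) (nat_lit 5) (nat_lit 303) (nat_lit 5) (nat_lit 596) (nat_lit 539) (nat_lit 425)))))) (XT.nd (nat_lit 390) (nat_lit 2356) (nat_lit 0) (XT.nd (nat_lit 156) (nat_lit 1216) (nat_lit 0) (XT.nd (nat_lit 78) (nat_lit 0) (nat_lit 0) (XT.lf (nat_lit 0) (nat_lit 152546807) (nat_lit 608) (nat_lit 1121525866) (nat_lit 684) (nat_lit 10315114637) (nat_lit 284) (nat_lit 5) (nat_lit 292) (nat_lit 5) (nat_lit 293) (nat_lit 5) (nat_lit 597) (nat_lit 539) (nat_lit 424)) (XT.lf (nat_lit 0) (nat_lit 3863135627) (nat_lit 684) (nat_lit 4350778842) (nat_lit 76) (nat_lit 3499799451) (nat_lit 284) (nat_lit 5) (nat_lit 293) (nat_lit 5) (nat_lit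 285) (nat_lit 5) (nat_lit 598) (nat_lit 539) (nat_lit 423))) (XT.nd (nat_lit 78) (nat_lit 608) (nat_lit 0) (XT.lf (nat_lit 0) (nat_lit 2883823400) (nat_lit 608) (nat_lit 3627780595) (nat_lit 684) (nat_lit 5328975925) (nat_lit 276) (nat_lit 5) (nat_lit 284) (nat_lit 5) (nat_lit 285) (nat_lit 5) (nat_lit 599) (nat_lit 539) (nat_lit 422)) (XT.nd (nat_lit 78) (nat_lit 608) (nat_lit 0) (XT.lf (nat_lit 0) (nat_lit 9230902721) (nat_lit 684) (nat_lit 1677870019) (nat_lit 76) (nat_lit 1060854594) (nat_lit 276) (nat_lit 5) (nat_lit 285) (nat_lit 5) (nat_lit 277) (nat_lit 5) (nat_lit 600) (nat_lit 539) (nat_lit 421)) (XT.lf (nat_lit 0) (nat_lit 5775220864) (nat_lit 608) (nat_lit 6272901719) (nat_lit 684) (nat_lit 52263699) (nat_lit 268) (nat_lit 5) (nat_lit 276) (nat_lit 5) (nat_lit 277) (nat_lit 5) (nat_lit 601) (nat_lit 539) (nat_lit 420))))) (XT.nd (nat_lit 234) (nat_lit 1140) (nat_lit 0) (XT.nd (nat_lit 78) (nat_lit 532) (nat_lit 0) (XT.lf (nat_lit 0) (nat_lit 1140839667) (nat_lit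 608) (nat_lit 1512673457) (nat_lit 684) (nat_lit 9579882701) (nat_lit 259) (nat_lit 5) (nat_lit 267) (nat_lit 5) (nat_lit 268) (nat_lit 5) (nat_lit 602) (nat_lit 539) (nat_lit 419)) (XT.nd (nat_lit 78) (nat_lit 532) (nat_lit 0) (XT.lf (nat_lit 0) (nat_lit 5459401242) (nat_lit 684) (nat_lit 3571989883) (nat_lit 76) (nat_lit 3336734825) (nat_lit 259) (nat_lit 5) (nat_lit 268) (nat_lit 5) (nat_lit 260) (nat_lit 5) (nat_lit 603) (nat_lit 539) (nat_lit 418)) (XT.lf (nat_lit 0) (nat_lit 4120117124) (nat_lit 532) (nat_lit 4220671196) (nat_lit 608) (nat_lit 4164375925) (nat_lit 252) (nat_lit 5) (nat_lit 259) (nat_lit 5) (nat_lit 260) (nat_lit 5) (nat_lit 604) (nat_lit 539) (nat_lit 417)))) (XT.nd (nat_lit 78) (nat_lit 1140) (nat_lit 0) (XT.lf (nat_lit 0) (nat_lit 11291157741) (nat_lit 608) (nat_lit 657640211) (nat_lit 76) (nat_lit 695919428) (nat_lit 252) (nat_lit 5) (nat_lit 260) (nat_lit 5) (nat_lit 253) (nat_lit 5) (nat_lit 605) (nat_lit 539) (nat_lit 416)) (XT.nd (nat_lit 78)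 (nat_lit 532) (nat_lit 0) (XT.lf (nat_lit 0) (nat_lit 1552263563) (nat_lit 608) (nat_lit 5527006416) (nat_lit 76) (nat_lit 5706423390) (nat_lit 244) (nat_lit 5) (nat_lit 252) (nat_lit 5) (nat_lit 245) (nat_lit 5) (nat_lit 606) (nat_lit 539) (nat_lit 415)) (XT.lf (nat_lit 0) (nat_lit 2412834634) (nat_lit 532) (nat_lit 2088551253) (nat_lit 608) (nat_lit 8427859013) (nat_lit 237) (nat_lit 5) (nat_lit 244) (nat_lit 5) (nat_lit 245) (nat_lit 5) (nat_lit 607) (nat_lit 539) (nat_lit 414))))))))
noncomputable def xc113 : XT := (XT.nd (nat_lit 76596) (nat_lit 0) (nat_lit 23560) (XT.nd (nat_lit 780) (nat_lit 456) (nat_lit 0) (XT.nd (nat_lit 390) (nat_lit 1444) (nat_lit 0) (XT.nd (nat_lit 156) (nat_lit 1064) (nat_lit 0) (XT.nd (nat_lit 78) (nat_lit 532) (nat_lit 0) (XT.lf (nat_lit 0) (nat_lit 7549643390) (nat_lit 608) (nat_lit 2531087479) (nat_lit 76) (nat_lit 2994134615) (nat_lit 237) (nat_lit 5) (nat_lit 245) (nat_lit 5) (nat_lit 238) (nat_lit 5) (nat_lit 608) (nat_lit 539) (nat_lit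 413)) (XT.lf (nat_lit 0) (nat_lit 5651865084) (nat_lit 532) (nat_lit 5041182130) (nat_lit 608) (nat_lit 2529668700) (nat_lit 230) (nat_lit 5) (nat_lit 237) (nat_lit 5) (nat_lit 238) (nat_lit 5) (nat_lit 609) (nat_lit 539) (nat_lit 412))) (XT.nd (nat_lit 78) (nat_lit 532) (nat_lit 0) (XT.lf (nat_lit 0) (nat_lit 524655313) (nat_lit 532) (nat_lit 12732067175) (nat_lit 76) (nat_lit 116618495) (nat_lit 223) (nat_lit 5) (nat_lit 230) (nat_lit 5) (nat_lit 224) (nat_lit 5) (nat_lit 610) (nat_lit 539) (nat_lit 411)) (XT.nd (nat_lit 78) (nat_lit 532) (nat_lit 0) (XT.lf (nat_lit 0) (nat_lit 3674607773) (nat_lit 532) (nat_lit 4478747036) (nat_lit 76) (nat_lit 5371922032) (nat_lit 223) (nat_lit 5) (nat_lit 230) (nat_lit 5) (nat_lit 224) (nat_lit 5) (nat_lit 611) (nat_lit 539) (nat_lit 410)) (XT.lf (nat_lit 0) (nat_lit 3969567915) (nat_lit 532) (nat_lit 2927937383) (nat_lit 608) (nat_lit 6782548175) (nat_lit 216) (nat_lit 5) (nat_lit 223) (nat_lit 5) (nat_lit 224) (nat_lit 5) (nat_lit 612)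 (nat_lit 539) (nat_lit 409))))) (XT.nd (nat_lit 156) (nat_lit 988) (nat_lit 0) (XT.nd (nat_lit 78) (nat_lit 456) (nat_lit 0) (XT.lf (nat_lit 0) (nat_lit 10215009305) (nat_lit 608) (nat_lit 1227819754) (nat_lit 76) (nat_lit 2394494565) (nat_lit 216) (nat_lit 5) (nat_lit 224) (nat_lit 5) (nat_lit 217) (nat_lit 5) (nat_lit 613) (nat_lit 539) (nat_lit 408)) (XT.lf (nat_lit 0) (nat_lit 7481404873) (nat_lit 456) (nat_lit 6170030368) (nat_lit 532) (nat_lit 345253439) (nat_lit 210) (nat_lit 5) (nat_lit 216) (nat_lit 5) (nat_lit 217) (nat_lit 5) (nat_lit 614) (nat_lit 539) (nat_lit 407))) (XT.nd (nat_lit 78) (nat_lit 456) (nat_lit 0) (XT.lf (nat_lit 0) (nat_lit 2209964659) (nat_lit 456) (nat_lit 755382238) (nat_lit 532) (nat_lit 11193359646) (nat_lit 203) (nat_lit 5) (nat_lit 209) (nat_lit 5) (nat_lit 210) (nat_lit 5) (nat_lit 615) (nat_lit 539) (nat_lit 406)) (XT.nd (nat_lit 78) (nat_lit 456) (nat_lit 0) (XT.lf (nat_lit 0) (nat_lit 6397288724) (nat_lit 532) (nat_lit 3180588991) (nat_lit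 76) (nat_lit 4744847240) (nat_lit 203) (nat_lit 5) (nat_lit 210) (nat_lit 5) (nat_lit 204) (nat_lit 5) (nat_lit 616) (nat_lit 539) (nat_lit 405)) (XT.lf (nat_lit 0) (nat_lit 5812585982) (nat_lit 456) (nat_lit 4113106889) (nat_lit 532) (nat_lit 4563775264) (nat_lit 197) (nat_lit 5) (nat_lit 203) (nat_lit 5) (nat_lit 204) (nat_lit 5) (nat_lit 617) (nat_lit 539) (nat_lit 404)))))) (XT.nd (nat_lit 75426) (nat_lit 0) (nat_lit 32376) (XT.nd (nat_lit 75192) (nat_lit 0) (nat_lit 34732) (XT.nd (nat_lit 75114) (nat_lit 0) (nat_lit 34732) (XT.lf (nat_lit 0) (nat_lit 342805446) (nat_lit 456) (nat_lit 13200247561) (nat_lit 532) (nat_lit 1116126262) (nat_lit 191) (nat_lit 5) (nat_lit 197) (nat_lit 5) (nat_lit 198) (nat_lit 5) (nat_lit 618) (nat_lit 539) (nat_lit 403)) (XT.lf (nat_lit 0) (nat_lit 458048010) (nat_lit 0) (nat_lit 458048010) (nat_lit 1140) (nat_lit 2685639164) (nat_lit 648) (nat_lit 5) (nat_lit 648) (nat_lit 3) (nat_lit 663) (nat_lit 3) (nat_lit 540) (nat_lit 540) (nat_lit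 480))) (XT.nd (nat_lit 78) (nat_lit 0) (nat_lit 0) (XT.lf (nat_lit 0) (nat_lit 3510346973) (nat_lit 1140) (nat_lit 2718195494) (nat_lit 1216) (nat_lit 1013569536) (nat_lit 648) (nat_lit 5) (nat_lit 663) (nat_lit 3) (nat_lit 664) (nat_lit 5) (nat_lit 541) (nat_lit 540) (nat_lit 479)) (XT.nd (nat_lit 78) (nat_lit 0) (nat_lit 0) (XT.lf (nat_lit 76) (nat_lit 905480885) (nat_lit 0) (nat_lit 4285307623) (nat_lit 1216) (nat_lit 2091368639) (nat_lit 649) (nat_lit 5) (nat_lit 648) (nat_lit 5) (nat_lit 664) (nat_lit 5) (nat_lit 542) (nat_lit 540) (nat_lit 478)) (XT.lf (nat_lit 76) (nat_lit 4615931215) (nat_lit 0) (nat_lit 2264626962) (nat_lit 1216) (nat_lit 442935682) (nat_lit 649) (nat_lit 5) (nat_lit 648) (nat_lit 5) (nat_lit 664) (nat_lit 5) (nat_lit 543) (nat_lit 540) (nat_lit 477))))) (XT.nd (nat_lit 156) (nat_lit 1140) (nat_lit 0) (XT.nd (nat_lit 78) (nat_lit 0) (nat_lit 76) (XT.lf (nat_lit 76) (nat_lit 1017571984) (nat_lit 0) (nat_lit 169289564) (nat_lit 1292) (nat_lit 6179347029)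 (nat_lit 633) (nat_lit 5) (nat_lit 632) (nat_lit 5) (nat_lit 649) (nat_lit 5) (nat_lit 544) (nat_lit 540) (nat_lit 476)) (XT.lf (nat_lit 0) (nat_lit 2833226306) (nat_lit 1216) (nat_lit 2594803447) (nat_lit 1292) (nat_lit 1981895989) (nat_lit 633) (nat_lit 5) (nat_lit 649) (nat_lit 5) (nat_lit 650) (nat_lit 5) (nat_lit 545) (nat_lit 540) (nat_lit 475))) (XT.nd (nat_lit 78) (nat_lit 1216) (nat_lit 0) (XT.lf (nat_lit 76) (nat_lit 1226056035) (nat_lit 0) (nat_lit 3255181248) (nat_lit 1292) (nat_lit 2973910255) (nat_lit 634) (nat_lit 5) (nat_lit 633) (nat_lit 5) (nat_lit 650) (nat_lit 5) (nat_lit 546) (nat_lit 540) (nat_lit 474)) (XT.nd (nat_lit 78) (nat_lit 1216) (nat_lit 0) (XT.lf (nat_lit 76) (nat_lit 5135648178) (nat_lit 0) (nat_lit 1004253248) (nat_lit 1292) (nat_lit 1361823059) (nat_lit 634) (nat_lit 5) (nat_lit 633) (nat_lit 5) (nat_lit 650) (nat_lit 5) (nat_lit 547) (nat_lit 540) (nat_lit 473)) (XT.lf (nat_lit 0) (nat_lit 258363141) (nat_lit 1292) (nat_lit 5988331564) (nat_lit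 1368) (nat_lit 1302914733) (nat_lit 617) (nat_lit 5) (nat_lit 634) (nat_lit 5) (nat_lit 635) (nat_lit 5) (nat_lit 548) (nat_lit 540) (nat_lit 472))))))) (XT.nd (nat_lit 780) (nat_lit 6232) (nat_lit 0) (XT.nd (nat_lit 390) (nat_lit 1292) (nat_lit 0) (XT.nd (nat_lit 156) (nat_lit 1292) (nat_lit 0) (XT.nd (nat_lit 78) (nat_lit 0) (nat_lit 0) (XT.lf (nat_lit 0) (nat_lit 1876889034) (nat_lit 1292) (nat_lit 2038319745) (nat_lit 1368) (nat_lit 3683384172) (nat_lit 617) (nat_lit 5) (nat_lit 634) (nat_lit 5) (nat_lit 635) (nat_lit 5) (nat_lit 549) (nat_lit 540) (nat_lit 471)) (XT.lf (nat_lit 76) (nat_lit 1993640629) (nat_lit 0) (nat_lit 1509363639) (nat_lit 1368) (nat_lit 4146051717) (nat_lit 618) (nat_lit 5) (nat_lit 617) (nat_lit 5) (nat_lit 635) (nat_lit 5) (nat_lit 550) (nat_lit 540) (nat_lit 470))) (XT.nd (nat_lit 78) (nat_lit 1368) (nat_lit 0) (XT.lf (nat_lit 0) (nat_lit 5144499891) (nat_lit 1292) (nat_lit 1596492422) (nat_lit 1368) (nat_lit 959882948) (nat_lit 618) (nat_lit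 5) (nat_lit 635) (nat_lit 5) (nat_lit 636) (nat_lit 5) (nat_lit 551) (nat_lit 540) (nat_lit 469)) (XT.nd (nat_lit 78) (nat_lit 1368) (nat_lit 0) (XT.lf (nat_lit 76) (nat_lit 2543556370) (nat_lit 0) (nat_lit 4265461985) (nat_lit 1368) (nat_lit 944912771) (nat_lit 619) (nat_lit 5) (nat_lit 618) (nat_lit 5) (nat_lit 636) (nat_lit 5) (nat_lit 552) (nat_lit 540) (nat_lit 468)) (XT.lf (nat_lit 0) (nat_lit 664401753) (nat_lit 1368) (nat_lit 1048138963) (nat_lit 1444) (nat_lit 6095924813) (nat_lit 600) (nat_lit 5) (nat_lit 618) (nat_lit 5) (nat_lit 619) (nat_lit 5) (nat_lit 553) (nat_lit 540) (nat_lit 467))))) (XT.nd (nat_lit 156) (nat_lit 1368) (nat_lit 0) (XT.nd (nat_lit 78) (nat_lit 0) (nat_lit 0) (XT.lf (nat_lit 0) (nat_lit 2284856960) (nat_lit 1368) (nat_lit 4660399932) (nat_lit 1444) (nat_lit 918880503) (nat_lit 601) (nat_lit 5) (nat_lit 619) (nat_lit 5) (nat_lit 620) (nat_lit 5) (nat_lit 554) (nat_lit 540) (nat_lit 466)) (XT.lf (nat_lit 0) (nat_lit 3921468908) (nat_lit 1368)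 (nat_lit 401210450) (nat_lit 1444) (nat_lit 3598572141) (nat_lit 601) (nat_lit 5) (nat_lit 619) (nat_lit 5) (nat_lit 620) (nat_lit 5) (nat_lit 555) (nat_lit 540) (nat_lit 465))) (XT.nd (nat_lit 78) (nat_lit 1368) (nat_lit 0) (XT.lf (nat_lit 76) (nat_lit 3971822882) (nat_lit 0) (nat_lit 1610783963) (nat_lit 1444) (nat_lit 2397068843) (nat_lit 602) (nat_lit 5) (nat_lit 601) (nat_lit 5) (nat_lit 620) (nat_lit 5) (nat_lit 556) (nat_lit 540) (nat_lit 464)) (XT.nd (nat_lit 78) (nat_lit 1444) (nat_lit 0) (XT.lf (nat_lit 76) (nat_lit 371882690) (nat_lit 0) (nat_lit 6884298514) (nat_lit 1444) (nat_lit 783506492) (nat_lit 603) (nat_lit 5) (nat_lit 602) (nat_lit 5) (nat_lit 621) (nat_lit 5) (nat_lit 557) (nat_lit 540) (nat_lit 463)) (XT.lf (nat_lit 0) (nat_lit 855624371) (nat_lit 1444) (nat_lit 3247568168) (nat_lit 1520) (nat_lit 3997506759) (nat_lit 583) (nat_lit 5) (nat_lit 602) (nat_lit 5) (nat_lit 603) (nat_lit 5) (nat_lit 558) (nat_lit 540) (nat_lit 462)))))) (XT.nd (nat_lit 390)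 (nat_lit 4864) (nat_lit 0) (XT.nd (nat_lit 156) (nat_lit 1368) (nat_lit 0) (XT.nd (nat_lit 78) (nat_lit 0) (nat_lit 76) (XT.lf (nat_lit 76) (nat_lit 1248432386) (nat_lit 0) (nat_lit 1244245934) (nat_lit 1520) (nat_lit 5670640000) (nat_lit 584) (nat_lit 5) (nat_lit 583) (nat_lit 5) (nat_lit 603) (nat_lit 5) (nat_lit 559) (nat_lit 540) (nat_lit 461)) (XT.lf (nat_lit 0) (nat_lit 4163319034) (nat_lit 1444) (nat_lit 2383744887) (nat_lit 1520) (nat_lit 1680112219) (nat_lit 584) (nat_lit 5) (nat_lit 603) (nat_lit 5) (nat_lit 604) (nat_lit 5) (nat_lit 560) (nat_lit 540) (nat_lit 460))) (XT.nd (nat_lit 78) (nat_lit 1444) (nat_lit 0) (XT.lf (nat_lit 76) (nat_lit 2235205493) (nat_lit 0) (nat_lit 3623599467) (nat_lit 1520) (nat_lit 2433680777) (nat_lit 585) (nat_lit 5) (nat_lit 584) (nat_lit 5) (nat_lit 604) (nat_lit 5) (nat_lit 561) (nat_lit 540) (nat_lit 459)) (XT.nd (nat_lit 78) (nat_lit 1444) (nat_lit 0) (XT.lf (nat_lit 76) (nat_lit 6955115762) (nat_lit 0) (nat_lit 618220985) (nat_lit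 1520) (nat_lit 786065258) (nat_lit 585) (nat_lit 5) (nat_lit 584) (nat_lit 5) (nat_lit 604) (nat_lit 5) (nat_lit 562) (nat_lit 540) (nat_lit 458)) (XT.lf (nat_lit 0) (nat_lit 890220052) (nat_lit 1520) (nat_lit 5087528428) (nat_lit 76) (nat_lit 2449646061) (nat_lit 565) (nat_lit 5) (nat_lit 585) (nat_lit 5) (nat_lit 566) (nat_lit 5) (nat_lit 563) (nat_lit 540) (nat_lit 457))))) (XT.nd (nat_lit 234) (nat_lit 1748) (nat_lit 0) (XT.nd (nat_lit 78) (nat_lit 3116) (nat_lit 0) (XT.lf (nat_lit 0) (nat_lit 2573123879) (nat_lit 1520) (nat_lit 332147449) (nat_lit 76) (nat_lit 5591702338) (nat_lit 565) (nat_lit 5) (nat_lit 585) (nat_lit 5) (nat_lit 566) (nat_lit 5) (nat_lit 564) (nat_lit 540) (nat_lit 456)) (XT.nd (nat_lit 78) (nat_lit 1596) (nat_lit 0) (XT.lf (nat_lit 0) (nat_lit 4291589216) (nat_lit 1596) (nat_lit 4015278159) (nat_lit 76) (nat_lit 261041888) (nat_lit 545) (nat_lit 5) (nat_lit 566) (nat_lit 5) (nat_lit 546) (nat_lit 5) (nat_lit 565) (nat_lit 540) (nat_lit 455)) (XT.lf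 (nat_lit 0) (nat_lit 867357808) (nat_lit 1596) (nat_lit 5175255938) (nat_lit 1672) (nat_lit 2597688930) (nat_lit 524) (nat_lit 5) (nat_lit 545) (nat_lit 5) (nat_lit 546) (nat_lit 5) (nat_lit 566) (nat_lit 540) (nat_lit 454)))) (XT.nd (nat_lit 78) (nat_lit 1748) (nat_lit 0) (XT.lf (nat_lit 0) (nat_lit 5878082180) (nat_lit 1596) (nat_lit 1949007178) (nat_lit 1672) (nat_lit 887088832) (nat_lit 524) (nat_lit 5) (nat_lit 545) (nat_lit 5) (nat_lit 546) (nat_lit 5) (nat_lit 567) (nat_lit 540) (nat_lit 453)) (XT.nd (nat_lit 78) (nat_lit 0) (nat_lit 0) (XT.lf (nat_lit 0) (nat_lit 841478330) (nat_lit 1748) (nat_lit 6599709912) (nat_lit 76) (nat_lit 1348334241) (nat_lit 501) (nat_lit 5) (nat_lit 524) (nat_lit 5) (nat_lit 502) (nat_lit 5) (nat_lit 568) (nat_lit 540) (nat_lit 452)) (XT.lf (nat_lit 0) (nat_lit 2597095732) (nat_lit 1748) (nat_lit 1554542919) (nat_lit 76) (nat_lit 4714533279) (nat_lit 501) (nat_lit 5) (nat_lit 524) (nat_lit 5) (nat_lit 502) (nat_lit 5) (nat_lit 569) (nat_lit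 540) (nat_lit 451))))))))
noncomputable def xc114 : XT := (XT.nd (nat_lit 1560) (nat_lit 8284) (nat_lit 0) (XT.nd (nat_lit 780) (nat_lit 4864) (nat_lit 0) (XT.nd (nat_lit 390) (nat_lit 2736) (nat_lit 0) (XT.nd (nat_lit 156) (nat_lit 2964) (nat_lit 0) (XT.nd (nat_lit 78) (nat_lit 0) (nat_lit 0) (XT.lf (nat_lit 0) (nat_lit 3615091843) (nat_lit 1748) (nat_lit 769029570) (nat_lit 1824) (nat_lit 4560309662) (nat_lit 478) (nat_lit 5) (nat_lit 501) (nat_lit 5) (nat_lit 502) (nat_lit 5) (nat_lit 570) (nat_lit 540) (nat_lit 450)) (XT.lf (nat_lit 0) (nat_lit 6208020385) (nat_lit 1824) (nat_lit 156582571) (nat_lit 76) (nat_lit 2659632367) (nat_lit 478) (nat_lit 5) (nat_lit 502) (nat_lit 5) (nat_lit 479) (nat_lit 5) (nat_lit 571) (nat_lit 540) (nat_lit 449))) (XT.nd (nat_lit 78) (nat_lit 1140) (nat_lit 0) (XT.lf (nat_lit 0) (nat_lit 5158415422) (nat_lit 1824) (nat_lit 2922315264) (nat_lit 1900) (nat_lit 1024660829) (nat_lit 454) (nat_lit 5) (nat_lit 478) (nat_lit 5) (nat_lit 479) (nat_lit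 5) (nat_lit 572) (nat_lit 540) (nat_lit 448)) (XT.nd (nat_lit 78) (nat_lit 0) (nat_lit 0) (XT.lf (nat_lit 0) (nat_lit 780104831) (nat_lit 1140) (nat_lit 7809693228) (nat_lit 76) (nat_lit 598512796) (nat_lit 439) (nat_lit 5) (nat_lit 454) (nat_lit 5) (nat_lit 440) (nat_lit 5) (nat_lit 573) (nat_lit 540) (nat_lit 447)) (XT.lf (nat_lit 0) (nat_lit 2627578067) (nat_lit 1140) (nat_lit 2458785658) (nat_lit 76) (nat_lit 4185985126) (nat_lit 439) (nat_lit 5) (nat_lit 454) (nat_lit 5) (nat_lit 440) (nat_lit 5) (nat_lit 574) (nat_lit 540) (nat_lit 446))))) (XT.nd (nat_lit 156) (nat_lit 1824) (nat_lit 0) (XT.nd (nat_lit 78) (nat_lit 0) (nat_lit 0) (XT.lf (nat_lit 0) (nat_lit 3014819167) (nat_lit 912) (nat_lit 1491564503) (nat_lit 988) (nat_lit 4851798614) (nat_lit 427) (nat_lit 5) (nat_lit 439) (nat_lit 5) (nat_lit 440) (nat_lit 5) (nat_lit 575) (nat_lit 540) (nat_lit 445)) (XT.lf (nat_lit 0) (nat_lit 6428652986) (nat_lit 988) (nat_lit 852619049) (nat_lit 76) (nat_lit 2164344885) (nat_lit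 427) (nat_lit 5) (nat_lit 440) (nat_lit 5) (nat_lit 428) (nat_lit 5) (nat_lit 576) (nat_lit 540) (nat_lit 444))) (XT.nd (nat_lit 78) (nat_lit 912) (nat_lit 0) (XT.lf (nat_lit 0) (nat_lit 4776977045) (nat_lit 912) (nat_lit 3628927183) (nat_lit 988) (nat_lit 1128567533) (nat_lit 415) (nat_lit 5) (nat_lit 427) (nat_lit 5) (nat_lit 428) (nat_lit 5) (nat_lit 577) (nat_lit 540) (nat_lit 443)) (XT.nd (nat_lit 78) (nat_lit 0) (nat_lit 0) (XT.lf (nat_lit 0) (nat_lit 775208093) (nat_lit 912) (nat_lit 8737731241) (nat_lit 76) (nat_lit 112301511) (nat_lit 403) (nat_lit 5) (nat_lit 415) (nat_lit 5) (nat_lit 404) (nat_lit 5) (nat_lit 578) (nat_lit 540) (nat_lit 442)) (XT.lf (nat_lit 0) (nat_lit 2734258712) (nat_lit 912) (nat_lit 3063228233) (nat_lit 76) (nat_lit 3919545063) (nat_lit 403) (nat_lit 5) (nat_lit 415) (nat_lit 5) (nat_lit 404) (nat_lit 5) (nat_lit 579) (nat_lit 540) (nat_lit 441)))))) (XT.nd (nat_lit 390) (nat_lit 2280) (nat_lit 0) (XT.nd (nat_lit 156) (nat_lit 1748) (nat_lit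 0) (XT.nd (nat_lit 78) (nat_lit 0) (nat_lit 0) (XT.lf (nat_lit 0) (nat_lit 2736908389) (nat_lit 836) (nat_lit 1989947389) (nat_lit 912) (nat_lit 5083917980) (nat_lit 392) (nat_lit 5) (nat_lit 403) (nat_lit 5) (nat_lit 404) (nat_lit 5) (nat_lit 580) (nat_lit 540) (nat_lit 440)) (XT.lf (nat_lit 0) (nat_lit 6769190327) (nat_lit 912) (nat_lit 1247896195) (nat_lit 76) (nat_lit 1889108141) (nat_lit 392) (nat_lit 5) (nat_lit 404) (nat_lit 5) (nat_lit 393) (nat_lit 5) (nat_lit 581) (nat_lit 540) (nat_lit 439))) (XT.nd (nat_lit 78) (nat_lit 912) (nat_lit 0) (XT.lf (nat_lit 0) (nat_lit 4719729682) (nat_lit 836) (nat_lit 4153815039) (nat_lit 912) (nat_lit 1129557793) (nat_lit 381) (nat_lit 5) (nat_lit 392) (nat_lit 5) (nat_lit 393) (nat_lit 5) (nat_lit 582) (nat_lit 540) (nat_lit 438)) (XT.nd (nat_lit 78) (nat_lit 0) (nat_lit 0) (XT.lf (nat_lit 0) (nat_lit 701294042) (nat_lit 836) (nat_lit 195179243) (nat_lit 912) (nat_lit 9205548424) (nat_lit 369) (nat_lit 5) (nat_lit 380) (nat_lit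 5) (nat_lit 381) (nat_lit 5) (nat_lit 583) (nat_lit 540) (nat_lit 437)) (XT.lf (nat_lit 0) (nat_lit 2986324777) (nat_lit 912) (nat_lit 3381614165) (nat_lit 76) (nat_lit 3834064404) (nat_lit 369) (nat_lit 5) (nat_lit 381) (nat_lit 5) (nat_lit 370) (nat_lit 5) (nat_lit 584) (nat_lit 540) (nat_lit 436))))) (XT.nd (nat_lit 156) (nat_lit 1520) (nat_lit 0) (XT.nd (nat_lit 78) (nat_lit 0) (nat_lit 0) (XT.lf (nat_lit 0) (nat_lit 2769369102) (nat_lit 760) (nat_lit 2346085713) (nat_lit 836) (nat_lit 5188582009) (nat_lit 359) (nat_lit 5) (nat_lit 369) (nat_lit 5) (nat_lit 370) (nat_lit 5) (nat_lit 585) (nat_lit 540) (nat_lit 435)) (XT.lf (nat_lit 0) (nat_lit 7299884262) (nat_lit 836) (nat_lit 1353804963) (nat_lit 76) (nat_lit 1754169216) (nat_lit 359) (nat_lit 5) (nat_lit 370) (nat_lit 5) (nat_lit 360) (nat_lit 5) (nat_lit 586) (nat_lit 540) (nat_lit 434))) (XT.nd (nat_lit 78) (nat_lit 760) (nat_lit 0) (XT.lf (nat_lit 0) (nat_lit 4977074249) (nat_lit 760) (nat_lit 4577673301) (nat_lit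 836) (nat_lit 958475803) (nat_lit 349) (nat_lit 5) (nat_lit 359) (nat_lit 5) (nat_lit 360) (nat_lit 5) (nat_lit 587) (nat_lit 540) (nat_lit 433)) (XT.nd (nat_lit 78) (nat_lit 0) (nat_lit 0) (XT.lf (nat_lit 0) (nat_lit 811513272) (nat_lit 684) (nat_lit 399746123) (nat_lit 760) (nat_lit 9409409003) (nat_lit 339) (nat_lit 5) (nat_lit 348) (nat_lit 5) (nat_lit 349) (nat_lit 5) (nat_lit 588) (nat_lit 540) (nat_lit 432)) (XT.lf (nat_lit 0) (nat_lit 3453297406) (nat_lit 760) (nat_lit 3423723971) (nat_lit 76) (nat_lit 3852281082) (nat_lit 339) (nat_lit 5) (nat_lit 349) (nat_lit 5) (nat_lit 340) (nat_lit 5) (nat_lit 589) (nat_lit 540) (nat_lit 431))))))) (XT.nd (nat_lit 780) (nat_lit 4104) (nat_lit 0) (XT.nd (nat_lit 390) (nat_lit 1976) (nat_lit 0) (XT.nd (nat_lit 156) (nat_lit 1444) (nat_lit 0) (XT.nd (nat_lit 78) (nat_lit 0) (nat_lit 0) (XT.lf (nat_lit 0) (nat_lit 3104235040) (nat_lit 760) (nat_lit 2638410491) (nat_lit 836) (nat_lit 5097415917) (nat_lit 329) (nat_lit 5) (nat_lit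 339) (nat_lit 5) (nat_lit 340) (nat_lit 5) (nat_lit 590) (nat_lit 540) (nat_lit 430)) (XT.lf (nat_lit 0) (nat_lit 8091744205) (nat_lit 836) (nat_lit 1177982369) (nat_lit 76) (nat_lit 1683031372) (nat_lit 329) (nat_lit 5) (nat_lit 340) (nat_lit 5) (nat_lit 330) (nat_lit 5) (nat_lit 591) (nat_lit 540) (nat_lit 429))) (XT.nd (nat_lit 78) (nat_lit 760) (nat_lit 0) (XT.lf (nat_lit 0) (nat_lit 5543229565) (nat_lit 684) (nat_lit 4978349199) (nat_lit 760) (nat_lit 545456104) (nat_lit 320) (nat_lit 5) (nat_lit 329) (nat_lit 5) (nat_lit 330) (nat_lit 5) (nat_lit 592) (nat_lit 540) (nat_lit 428)) (XT.nd (nat_lit 78) (nat_lit 0) (nat_lit 0) (XT.lf (nat_lit 0) (nat_lit 1212321372) (nat_lit 684) (nat_lit 576495364) (nat_lit 760) (nat_lit 9394621699) (nat_lit 310) (nat_lit 5) (nat_lit 319) (nat_lit 5) (nat_lit 320) (nat_lit 5) (nat_lit 593) (nat_lit 540) (nat_lit 427)) (XT.lf (nat_lit 0) (nat_lit 4205809645) (nat_lit 760) (nat_lit 3195987975) (nat_lit 76) (nat_lit 3899435061) (nat_lit 310)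 (nat_lit 5) (nat_lit 320) (nat_lit 5) (nat_lit 311) (nat_lit 5) (nat_lit 594) (nat_lit 540) (nat_lit 426))))) (XT.nd (nat_lit 156) (nat_lit 1368) (nat_lit 0) (XT.nd (nat_lit 78) (nat_lit 0) (nat_lit 0) (XT.lf (nat_lit 0) (nat_lit 3736953986) (nat_lit 608) (nat_lit 2943259212) (nat_lit 684) (nat_lit 4740989647) (nat_lit 302) (nat_lit 5) (nat_lit 310) (nat_lit 5) (nat_lit 311) (nat_lit 5) (nat_lit 595) (nat_lit 540) (nat_lit 425)) (XT.lf (nat_lit 0) (nat_lit 9217300444) (nat_lit 684) (nat_lit 724909042) (nat_lit 76) (nat_lit 1601100436) (nat_lit 302) (nat_lit 5) (nat_lit 311) (nat_lit 5) (nat_lit 303) (nat_lit 5) (nat_lit 596) (nat_lit 540) (nat_lit 424))) (XT.nd (nat_lit 78) (nat_lit 608) (nat_lit 0) (XT.lf (nat_lit 0) (nat_lit 178456263) (nat_lit 760) (nat_lit 5252543478) (nat_lit 76) (nat_lit 6235983217) (nat_lit 292) (nat_lit 5) (nat_lit 302) (nat_lit 5) (nat_lit 293) (nat_lit 5) (nat_lit 597) (nat_lit 540) (nat_lit 423)) (XT.nd (nat_lit 78) (nat_lit 0) (nat_lit 0) (XT.lf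 (nat_lit 0) (nat_lit 1900126095) (nat_lit 608) (nat_lit 800654770) (nat_lit 684) (nat_lit 9092064134) (nat_lit 284) (nat_lit 5) (nat_lit 292) (nat_lit 5) (nat_lit 293) (nat_lit 5) (nat_lit 598) (nat_lit 540) (nat_lit 422)) (XT.lf (nat_lit 0) (nat_lit 5316335282) (nat_lit 684) (nat_lit 2702083177) (nat_lit 76) (nat_lit 3901951470) (nat_lit 284) (nat_lit 5) (nat_lit 293) (nat_lit 5) (nat_lit 285) (nat_lit 5) (nat_lit 599) (nat_lit 540) (nat_lit 421)))))) (XT.nd (nat_lit 390) (nat_lit 2204) (nat_lit 0) (XT.nd (nat_lit 156) (nat_lit 684) (nat_lit 0) (XT.nd (nat_lit 78) (nat_lit 608) (nat_lit 0) (XT.lf (nat_lit 0) (nat_lit 4665791957) (nat_lit 608) (nat_lit 3336197152) (nat_lit 684) (nat_lit 4048101769) (nat_lit 276) (nat_lit 5) (nat_lit 284) (nat_lit 5) (nat_lit 285) (nat_lit 5) (nat_lit 600) (nat_lit 540) (nat_lit 420)) (XT.lf (nat_lit 0) (nat_lit 3549024) (nat_lit 608) (nat_lit 10747796035) (nat_lit 684) (nat_lit 1430862671) (nat_lit 268) (nat_lit 5) (nat_lit 276) (nat_lit 5)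 (nat_lit 277) (nat_lit 5) (nat_lit 601) (nat_lit 540) (nat_lit 419))) (XT.nd (nat_lit 78) (nat_lit 608) (nat_lit 0) (XT.lf (nat_lit 0) (nat_lit 1276899173) (nat_lit 684) (nat_lit 4729914719) (nat_lit 76) (nat_lit 6308904907) (nat_lit 267) (nat_lit 5) (nat_lit 276) (nat_lit 5) (nat_lit 268) (nat_lit 5) (nat_lit 602) (nat_lit 540) (nat_lit 418)) (XT.nd (nat_lit 78) (nat_lit 0) (nat_lit 0) (XT.lf (nat_lit 0) (nat_lit 2873739300) (nat_lit 608) (nat_lit 1147387265) (nat_lit 684) (nat_lit 8430556164) (nat_lit 259) (nat_lit 5) (nat_lit 267) (nat_lit 5) (nat_lit 268) (nat_lit 5) (nat_lit 603) (nat_lit 540) (nat_lit 417)) (XT.lf (nat_lit 0) (nat_lit 6859874840) (nat_lit 684) (nat_lit 1943531891) (nat_lit 76) (nat_lit 3786167646) (nat_lit 259) (nat_lit 5) (nat_lit 268) (nat_lit 5) (nat_lit 260) (nat_lit 5) (nat_lit 604) (nat_lit 540) (nat_lit 416))))) (XT.nd (nat_lit 234) (nat_lit 1064) (nat_lit 0) (XT.nd (nat_lit 78) (nat_lit 608) (nat_lit 0) (XT.lf (nat_lit 0) (nat_lit 5891233718)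 (nat_lit 532) (nat_lit 3893300870) (nat_lit 608) (nat_lit 2945107684) (nat_lit 252) (nat_lit 5) (nat_lit 259) (nat_lit 5) (nat_lit 260) (nat_lit 5) (nat_lit 605) (nat_lit 540) (nat_lit 415)) (XT.nd (nat_lit 78) (nat_lit 76) (nat_lit 0) (XT.lf (nat_lit 0) (nat_lit 1020697474) (nat_lit 532) (nat_lit 11757424265) (nat_lit 608) (nat_lit 94182223) (nat_lit 245) (nat_lit 5) (nat_lit 252) (nat_lit 5) (nat_lit 253) (nat_lit 5) (nat_lit 606) (nat_lit 540) (nat_lit 414)) (XT.lf (nat_lit 0) (nat_lit 2832347013) (nat_lit 608) (nat_lit 3953802132) (nat_lit 76) (nat_lit 6230195678) (nat_lit 244) (nat_lit 5) (nat_lit 252) (nat_lit 5) (nat_lit 245) (nat_lit 5) (nat_lit 607) (nat_lit 540) (nat_lit 413)))) (XT.nd (nat_lit 78) (nat_lit 532) (nat_lit 0) (XT.lf (nat_lit 0) (nat_lit 4133758473) (nat_lit 532) (nat_lit 1693062430) (nat_lit 608) (nat_lit 7336220699) (nat_lit 237) (nat_lit 5) (nat_lit 244) (nat_lit 5) (nat_lit 245) (nat_lit 5) (nat_lit 608) (nat_lit 540) (nat_lit 412)) (XT.nd (nat_lit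 78) (nat_lit 532) (nat_lit 0) (XT.lf (nat_lit 0) (nat_lit 8914603199) (nat_lit 608) (nat_lit 920320639) (nat_lit 76) (nat_lit 3477081138) (nat_lit 237) (nat_lit 5) (nat_lit 245) (nat_lit 5) (nat_lit 238) (nat_lit 5) (nat_lit 609) (nat_lit 540) (nat_lit 411)) (XT.lf (nat_lit 0) (nat_lit 7415360787) (nat_lit 532) (nat_lit 4692426910) (nat_lit 608) (nat_lit 1355288004) (nat_lit 230) (nat_lit 5) (nat_lit 237) (nat_lit 5) (nat_lit 238) (nat_lit 5) (nat_lit 610) (nat_lit 540) (nat_lit 410))))))))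
noncomputable def xc115 : XT := (XT.nd (nat_lit 76674) (nat_lit 0) (nat_lit 19456) (XT.nd (nat_lit 75894) (nat_lit 0) (nat_lit 30552) (XT.nd (nat_lit 390) (nat_lit 912) (nat_lit 0) (XT.nd (nat_lit 156) (nat_lit 1064) (nat_lit 0) (XT.nd (nat_lit 78) (nat_lit 0) (nat_lit 0) (XT.lf (nat_lit 0) (nat_lit 1734086687) (nat_lit 532) (nat_lit 11310064930) (nat_lit 76) (nat_lit 572603467) (nat_lit 223) (nat_lit 5) (nat_lit 230) (nat_lit 5) (nat_lit 224) (nat_lit 5) (nat_lit 611) (nat_lit 540) (nat_lit 409)) (XT.lf (nat_lit 0) (nat_lit 4923529602) (nat_lit 532) (nat_lit 2924553753) (nat_lit 76) (nat_lit 5924117926) (nat_lit 223) (nat_lit 5) (nat_lit 230) (nat_lit 5) (nat_lit 224) (nat_lit 5) (nat_lit 612) (nat_lit 540) (nat_lit 408))) (XT.nd (nat_lit 78) (nat_lit 532) (nat_lit 0) (XT.lf (nat_lit 0) (nat_lit 5681913233) (nat_lit 532) (nat_lit 2516526425) (nat_lit 608) (nat_lit 5731884118) (nat_lit 216) (nat_lit 5) (nat_lit 223) (nat_lit 5) (nat_lit 224) (nat_lit 5) (nat_lit 613) (nat_lit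 540) (nat_lit 407)) (XT.nd (nat_lit 78) (nat_lit 76) (nat_lit 0) (XT.lf (nat_lit 0) (nat_lit 373337266) (nat_lit 456) (nat_lit 11191568344) (nat_lit 532) (nat_lit 2526182877) (nat_lit 210) (nat_lit 5) (nat_lit 216) (nat_lit 5) (nat_lit 217) (nat_lit 5) (nat_lit 614) (nat_lit 540) (nat_lit 406)) (XT.lf (nat_lit 0) (nat_lit 791230215) (nat_lit 532) (nat_lit 5017948640) (nat_lit 76) (nat_lit 8444646943) (nat_lit 209) (nat_lit 5) (nat_lit 216) (nat_lit 5) (nat_lit 210) (nat_lit 5) (nat_lit 615) (nat_lit 540) (nat_lit 405))))) (XT.nd (nat_lit 156) (nat_lit 456) (nat_lit 0) (XT.nd (nat_lit 78) (nat_lit 0) (nat_lit 0) (XT.lf (nat_lit 0) (nat_lit 3868825228) (nat_lit 456) (nat_lit 282753335) (nat_lit 532) (nat_lit 10267697948) (nat_lit 203) (nat_lit 5) (nat_lit 209) (nat_lit 5) (nat_lit 210) (nat_lit 5) (nat_lit 616) (nat_lit 540) (nat_lit 404)) (XT.lf (nat_lit 0) (nat_lit 7633167280) (nat_lit 532) (nat_lit 1642143193) (nat_lit 76) (nat_lit 5311645945) (nat_lit 203) (nat_lit 5) (nat_lit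 210) (nat_lit 5) (nat_lit 204) (nat_lit 5) (nat_lit 617) (nat_lit 540) (nat_lit 403))) (XT.nd (nat_lit 75192) (nat_lit 0) (nat_lit 34276) (XT.lf (nat_lit 0) (nat_lit 7520355427) (nat_lit 456) (nat_lit 3700393099) (nat_lit 532) (nat_lit 3536515017) (nat_lit 197) (nat_lit 5) (nat_lit 203) (nat_lit 5) (nat_lit 204) (nat_lit 5) (nat_lit 618) (nat_lit 540) (nat_lit 402)) (XT.nd (nat_lit 78) (nat_lit 0) (nat_lit 0) (XT.lf (nat_lit 0) (nat_lit 1288424644) (nat_lit 0) (nat_lit 1288424644) (nat_lit 1140) (nat_lit 1063876837) (nat_lit 648) (nat_lit 5) (nat_lit 648) (nat_lit 3) (nat_lit 663) (nat_lit 3) (nat_lit 541) (nat_lit 541) (nat_lit 478)) (XT.lf (nat_lit 0) (nat_lit 6231559266) (nat_lit 0) (nat_lit 562646681) (nat_lit 1140) (nat_lit 528092632) (nat_lit 648) (nat_lit 5) (nat_lit 648) (nat_lit 3) (nat_lit 663) (nat_lit 3) (nat_lit 542) (nat_lit 541) (nat_lit 477)))))) (XT.nd (nat_lit 390) (nat_lit 2508) (nat_lit 0) (XT.nd (nat_lit 156) (nat_lit 0) (nat_lit 0) (XT.nd (nat_lit 78)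 (nat_lit 0) (nat_lit 0) (XT.lf (nat_lit 0) (nat_lit 1073993892) (nat_lit 1216) (nat_lit 4773357311) (nat_lit 1292) (nat_lit 1516774071) (nat_lit 632) (nat_lit 5) (nat_lit 648) (nat_lit 5) (nat_lit 649) (nat_lit 5) (nat_lit 543) (nat_lit 541) (nat_lit 476)) (XT.lf (nat_lit 0) (nat_lit 2671006121) (nat_lit 1216) (nat_lit 1075444908) (nat_lit 1292) (nat_lit 3660873319) (nat_lit 632) (nat_lit 5) (nat_lit 648) (nat_lit 5) (nat_lit 649) (nat_lit 5) (nat_lit 544) (nat_lit 541) (nat_lit 475))) (XT.nd (nat_lit 78) (nat_lit 0) (nat_lit 76) (XT.lf (nat_lit 76) (nat_lit 2710184489) (nat_lit 0) (nat_lit 1567031673) (nat_lit 1292) (nat_lit 3174630755) (nat_lit 633) (nat_lit 5) (nat_lit 632) (nat_lit 5) (nat_lit 649) (nat_lit 5) (nat_lit 545) (nat_lit 541) (nat_lit 474)) (XT.nd (nat_lit 78) (nat_lit 0) (nat_lit 0) (XT.lf (nat_lit 0) (nat_lit 5887502887) (nat_lit 1216) (nat_lit 937876003) (nat_lit 1292) (nat_lit 672446572) (nat_lit 633) (nat_lit 5) (nat_lit 649) (nat_lit 5) (nat_lit 650)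 (nat_lit 5) (nat_lit 546) (nat_lit 541) (nat_lit 473)) (XT.lf (nat_lit 76) (nat_lit 2948158408) (nat_lit 0) (nat_lit 4572560792) (nat_lit 1292) (nat_lit 24194387) (nat_lit 634) (nat_lit 5) (nat_lit 633) (nat_lit 5) (nat_lit 650) (nat_lit 5) (nat_lit 547) (nat_lit 541) (nat_lit 472))))) (XT.nd (nat_lit 156) (nat_lit 1292) (nat_lit 0) (XT.nd (nat_lit 78) (nat_lit 0) (nat_lit 76) (XT.lf (nat_lit 0) (nat_lit 1540656235) (nat_lit 1292) (nat_lit 701064952) (nat_lit 1368) (nat_lit 5351661638) (nat_lit 616) (nat_lit 5) (nat_lit 633) (nat_lit 5) (nat_lit 634) (nat_lit 5) (nat_lit 548) (nat_lit 541) (nat_lit 471)) (XT.lf (nat_lit 0) (nat_lit 3121308725) (nat_lit 1292) (nat_lit 4350744176) (nat_lit 1368) (nat_lit 171072998) (nat_lit 617) (nat_lit 5) (nat_lit 634) (nat_lit 5) (nat_lit 635) (nat_lit 5) (nat_lit 549) (nat_lit 541) (nat_lit 470))) (XT.nd (nat_lit 78) (nat_lit 1368) (nat_lit 0) (XT.lf (nat_lit 0) (nat_lit 4716170266) (nat_lit 1292) (nat_lit 356190043) (nat_lit 1368) (nat_lit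 2621855747) (nat_lit 617) (nat_lit 5) (nat_lit 634) (nat_lit 5) (nat_lit 635) (nat_lit 5) (nat_lit 550) (nat_lit 541) (nat_lit 469)) (XT.nd (nat_lit 78) (nat_lit 1368) (nat_lit 0) (XT.lf (nat_lit 76) (nat_lit 3745074695) (nat_lit 0) (nat_lit 2585909554) (nat_lit 1368) (nat_lit 1415586728) (nat_lit 618) (nat_lit 5) (nat_lit 617) (nat_lit 5) (nat_lit 635) (nat_lit 5) (nat_lit 551) (nat_lit 541) (nat_lit 468)) (XT.lf (nat_lit 76) (nat_lit 110917631) (nat_lit 0) (nat_lit 32060552) (nat_lit 1444) (nat_lit 7657631732) (nat_lit 600) (nat_lit 5) (nat_lit 599) (nat_lit 5) (nat_lit 618) (nat_lit 5) (nat_lit 552) (nat_lit 541) (nat_lit 467))))))) (XT.nd (nat_lit 780) (nat_lit 9804) (nat_lit 0) (XT.nd (nat_lit 390) (nat_lit 0) (nat_lit 76) (XT.nd (nat_lit 156) (nat_lit 1368) (nat_lit 0) (XT.nd (nat_lit 78) (nat_lit 0) (nat_lit 0) (XT.lf (nat_lit 0) (nat_lit 1722220986) (nat_lit 1368) (nat_lit 3544907429) (nat_lit 1444) (nat_lit 2588248678) (nat_lit 600) (nat_lit 5) (nat_lit 618) (nat_lit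 5) (nat_lit 619) (nat_lit 5) (nat_lit 553) (nat_lit 541) (nat_lit 466)) (XT.lf (nat_lit 76) (nat_lit 668506152) (nat_lit 0) (nat_lit 2634496040) (nat_lit 1444) (nat_lit 4608842106) (nat_lit 601) (nat_lit 5) (nat_lit 600) (nat_lit 5) (nat_lit 619) (nat_lit 5) (nat_lit 554) (nat_lit 541) (nat_lit 465))) (XT.nd (nat_lit 78) (nat_lit 1444) (nat_lit 0) (XT.lf (nat_lit 0) (nat_lit 4905680552) (nat_lit 1368) (nat_lit 2978643328) (nat_lit 1444) (nat_lit 85315014) (nat_lit 601) (nat_lit 5) (nat_lit 619) (nat_lit 5) (nat_lit 620) (nat_lit 5) (nat_lit 555) (nat_lit 541) (nat_lit 464)) (XT.nd (nat_lit 78) (nat_lit 1444) (nat_lit 0) (XT.lf (nat_lit 76) (nat_lit 1348614031) (nat_lit 0) (nat_lit 5184674129) (nat_lit 1444) (nat_lit 1495447317) (nat_lit 602) (nat_lit 5) (nat_lit 601) (nat_lit 5) (nat_lit 620) (nat_lit 5) (nat_lit 556) (nat_lit 541) (nat_lit 463)) (XT.lf (nat_lit 0) (nat_lit 90141944) (nat_lit 1444) (nat_lit 2309894959) (nat_lit 1520) (nat_lit 5689225440) (nat_lit 582) (nat_lit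 5) (nat_lit 601) (nat_lit 5) (nat_lit 602) (nat_lit 5) (nat_lit 557) (nat_lit 541) (nat_lit 462))))) (XT.nd (nat_lit 156) (nat_lit 0) (nat_lit 0) (XT.nd (nat_lit 78) (nat_lit 0) (nat_lit 0) (XT.lf (nat_lit 0) (nat_lit 1672035922) (nat_lit 1444) (nat_lit 6011120335) (nat_lit 1520) (nat_lit 467956851) (nat_lit 583) (nat_lit 5) (nat_lit 602) (nat_lit 5) (nat_lit 603) (nat_lit 5) (nat_lit 558) (nat_lit 541) (nat_lit 461)) (XT.lf (nat_lit 0) (nat_lit 3285218427) (nat_lit 1444) (nat_lit 1543056799) (nat_lit 1520) (nat_lit 3385935982) (nat_lit 583) (nat_lit 5) (nat_lit 602) (nat_lit 5) (nat_lit 603) (nat_lit 5) (nat_lit 559) (nat_lit 541) (nat_lit 460))) (XT.nd (nat_lit 78) (nat_lit 0) (nat_lit 76) (XT.lf (nat_lit 76) (nat_lit 3031222564) (nat_lit 0) (nat_lit 1887900273) (nat_lit 1520) (nat_lit 3359682534) (nat_lit 584) (nat_lit 5) (nat_lit 583) (nat_lit 5) (nat_lit 603) (nat_lit 5) (nat_lit 560) (nat_lit 541) (nat_lit 459)) (XT.nd (nat_lit 78) (nat_lit 0) (nat_lit 0) (XT.lf (nat_lit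 0) (nat_lit 6572637856) (nat_lit 1444) (nat_lit 657284190) (nat_lit 1520) (nat_lit 1115033925) (nat_lit 584) (nat_lit 5) (nat_lit 603) (nat_lit 5) (nat_lit 604) (nat_lit 5) (nat_lit 561) (nat_lit 541) (nat_lit 458)) (XT.lf (nat_lit 76) (nat_lit 4042373252) (nat_lit 0) (nat_lit 4225494459) (nat_lit 1520) (nat_lit 144392122) (nat_lit 585) (nat_lit 5) (nat_lit 584) (nat_lit 5) (nat_lit 604) (nat_lit 5) (nat_lit 562) (nat_lit 541) (nat_lit 457)))))) (XT.nd (nat_lit 390) (nat_lit 5396) (nat_lit 0) (XT.nd (nat_lit 156) (nat_lit 3040) (nat_lit 0) (XT.nd (nat_lit 78) (nat_lit 0) (nat_lit 76) (XT.lf (nat_lit 76) (nat_lit 335428720) (nat_lit 0) (nat_lit 1137536425) (nat_lit 1596) (nat_lit 7008215645) (nat_lit 565) (nat_lit 5) (nat_lit 564) (nat_lit 5) (nat_lit 585) (nat_lit 5) (nat_lit 563) (nat_lit 541) (nat_lit 456)) (XT.lf (nat_lit 0) (nat_lit 3133936786) (nat_lit 1520) (nat_lit 3394713106) (nat_lit 76) (nat_lit 2022550130) (nat_lit 565) (nat_lit 5) (nat_lit 585) (nat_lit 5) (nat_lit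 566) (nat_lit 5) (nat_lit 564) (nat_lit 541) (nat_lit 455))) (XT.nd (nat_lit 78) (nat_lit 1596) (nat_lit 0) (XT.lf (nat_lit 0) (nat_lit 1439466791) (nat_lit 1520) (nat_lit 3376732531) (nat_lit 1596) (nat_lit 3806661790) (nat_lit 545) (nat_lit 5) (nat_lit 565) (nat_lit 5) (nat_lit 566) (nat_lit 5) (nat_lit 565) (nat_lit 541) (nat_lit 454)) (XT.nd (nat_lit 78) (nat_lit 1596) (nat_lit 0) (XT.lf (nat_lit 0) (nat_lit 6393273957) (nat_lit 1520) (nat_lit 133220658) (nat_lit 1596) (nat_lit 2169575902) (nat_lit 545) (nat_lit 5) (nat_lit 565) (nat_lit 5) (nat_lit 566) (nat_lit 5) (nat_lit 566) (nat_lit 541) (nat_lit 453)) (XT.lf (nat_lit 0) (nat_lit 2666556740) (nat_lit 1596) (nat_lit 5614565164) (nat_lit 1672) (nat_lit 489422473) (nat_lit 524) (nat_lit 5) (nat_lit 545) (nat_lit 5) (nat_lit 546) (nat_lit 5) (nat_lit 567) (nat_lit 541) (nat_lit 452))))) (XT.nd (nat_lit 234) (nat_lit 1900) (nat_lit 0) (XT.nd (nat_lit 78) (nat_lit 3420) (nat_lit 0) (XT.lf (nat_lit 0) (nat_lit 1197123229)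 (nat_lit 1672) (nat_lit 1112050478) (nat_lit 76) (nat_lit 6537400773) (nat_lit 523) (nat_lit 5) (nat_lit 545) (nat_lit 5) (nat_lit 524) (nat_lit 5) (nat_lit 568) (nat_lit 541) (nat_lit 451)) (XT.nd (nat_lit 78) (nat_lit 1748) (nat_lit 0) (XT.lf (nat_lit 0) (nat_lit 2916930082) (nat_lit 1748) (nat_lit 4925147730) (nat_lit 76) (nat_lit 1081863626) (nat_lit 501) (nat_lit 5) (nat_lit 524) (nat_lit 5) (nat_lit 502) (nat_lit 5) (nat_lit 569) (nat_lit 541) (nat_lit 450)) (XT.lf (nat_lit 0) (nat_lit 187965124) (nat_lit 1748) (nat_lit 4480549961) (nat_lit 1824) (nat_lit 4334395587) (nat_lit 478) (nat_lit 5) (nat_lit 501) (nat_lit 5) (nat_lit 502) (nat_lit 5) (nat_lit 570) (nat_lit 541) (nat_lit 449)))) (XT.nd (nat_lit 78) (nat_lit 1900) (nat_lit 0) (XT.lf (nat_lit 0) (nat_lit 5446875191) (nat_lit 1748) (nat_lit 1015035749) (nat_lit 1824) (nat_lit 2621415293) (nat_lit 478) (nat_lit 5) (nat_lit 501) (nat_lit 5) (nat_lit 502) (nat_lit 5) (nat_lit 571) (nat_lit 541) (nat_lit 448)) (XT.nd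 (nat_lit 78) (nat_lit 76) (nat_lit 0) (XT.lf (nat_lit 0) (nat_lit 1627287105) (nat_lit 1824) (nat_lit 6665076491) (nat_lit 1900) (nat_lit 872965207) (nat_lit 454) (nat_lit 5) (nat_lit 478) (nat_lit 5) (nat_lit 479) (nat_lit 5) (nat_lit 572) (nat_lit 541) (nat_lit 447)) (XT.lf (nat_lit 0) (nat_lit 904246442) (nat_lit 1900) (nat_lit 2239182166) (nat_lit 76) (nat_lit 6105312305) (nat_lit 453) (nat_lit 5) (nat_lit 478) (nat_lit 5) (nat_lit 454) (nat_lit 5) (nat_lit 573) (nat_lit 541) (nat_lit 446))))))))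
noncomputable def xc116 : XT := (XT.nd (nat_lit 1560) (nat_lit 7828) (nat_lit 0) (XT.nd (nat_lit 780) (nat_lit 4636) (nat_lit 0) (XT.nd (nat_lit 390) (nat_lit 2584) (nat_lit 0) (XT.nd (nat_lit 156) (nat_lit 1900) (nat_lit 0) (XT.nd (nat_lit 78) (nat_lit 0) (nat_lit 0) (XT.lf (nat_lit 0) (nat_lit 2704010491) (nat_lit 1140) (nat_lit 6158373182) (nat_lit 76) (nat_lit 471350576) (nat_lit 439) (nat_lit 5) (nat_lit 454) (nat_lit 5) (nat_lit 440) (nat_lit 5) (nat_lit 574) (nat_lit 541) (nat_lit 445)) (XT.lf (nat_lit 0) (nat_lit 4551015475) (nat_lit 1140) (nat_lit 735888911) (nat_lit 76) (nat_lit 4133300440) (nat_lit 439) (nat_lit 5) (nat_lit 454) (nat_lit 5) (nat_lit 440) (nat_lit 5) (nat_lit 575) (nat_lit 541) (nat_lit 444))) (XT.nd (nat_lit 78) (nat_lit 988) (nat_lit 0) (XT.lf (nat_lit 0) (nat_lit 4835529639) (nat_lit 912) (nat_lit 1606613290) (nat_lit 988) (nat_lit 3066120480) (nat_lit 427) (nat_lit 5) (nat_lit 439) (nat_lit 5) (nat_lit 440) (nat_lit 5) (nat_lit 576) (nat_lit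 541) (nat_lit 443)) (XT.nd (nat_lit 78) (nat_lit 76) (nat_lit 0) (XT.lf (nat_lit 0) (nat_lit 904991716) (nat_lit 912) (nat_lit 7467010428) (nat_lit 988) (nat_lit 1226065036) (nat_lit 415) (nat_lit 5) (nat_lit 427) (nat_lit 5) (nat_lit 428) (nat_lit 5) (nat_lit 577) (nat_lit 541) (nat_lit 442)) (XT.lf (nat_lit 0) (nat_lit 660741126) (nat_lit 988) (nat_lit 3069935580) (nat_lit 76) (nat_lit 5958538228) (nat_lit 414) (nat_lit 5) (nat_lit 427) (nat_lit 5) (nat_lit 415) (nat_lit 5) (nat_lit 578) (nat_lit 541) (nat_lit 441))))) (XT.nd (nat_lit 156) (nat_lit 1748) (nat_lit 0) (XT.nd (nat_lit 78) (nat_lit 0) (nat_lit 0) (XT.lf (nat_lit 0) (nat_lit 2563652686) (nat_lit 912) (nat_lit 7113251656) (nat_lit 76) (nat_lit 105225561) (nat_lit 403) (nat_lit 5) (nat_lit 415) (nat_lit 5) (nat_lit 404) (nat_lit 5) (nat_lit 579) (nat_lit 541) (nat_lit 440)) (XT.lf (nat_lit 0) (nat_lit 4527120780) (nat_lit 912) (nat_lit 1360537690) (nat_lit 76) (nat_lit 3988796768) (nat_lit 403) (nat_lit 5) (nat_lit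 415) (nat_lit 5) (nat_lit 404) (nat_lit 5) (nat_lit 580) (nat_lit 541) (nat_lit 439))) (XT.nd (nat_lit 78) (nat_lit 912) (nat_lit 0) (XT.lf (nat_lit 0) (nat_lit 4543996697) (nat_lit 836) (nat_lit 1992868610) (nat_lit 912) (nat_lit 3435663622) (nat_lit 392) (nat_lit 5) (nat_lit 403) (nat_lit 5) (nat_lit 404) (nat_lit 5) (nat_lit 581) (nat_lit 541) (nat_lit 438)) (XT.nd (nat_lit 78) (nat_lit 76) (nat_lit 0) (XT.lf (nat_lit 0) (nat_lit 485047572) (nat_lit 836) (nat_lit 8104746250) (nat_lit 912) (nat_lit 1480672441) (nat_lit 381) (nat_lit 5) (nat_lit 392) (nat_lit 5) (nat_lit 393) (nat_lit 5) (nat_lit 582) (nat_lit 541) (nat_lit 437)) (XT.lf (nat_lit 0) (nat_lit 534486730) (nat_lit 912) (nat_lit 3619187016) (nat_lit 76) (nat_lit 6016067772) (nat_lit 380) (nat_lit 5) (nat_lit 392) (nat_lit 5) (nat_lit 381) (nat_lit 5) (nat_lit 583) (nat_lit 541) (nat_lit 436)))))) (XT.nd (nat_lit 390) (nat_lit 2204) (nat_lit 0) (XT.nd (nat_lit 156) (nat_lit 1596) (nat_lit 0) (XT.nd (nat_lit 78)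 (nat_lit 0) (nat_lit 0) (XT.lf (nat_lit 0) (nat_lit 2466098123) (nat_lit 836) (nat_lit 98421880) (nat_lit 912) (nat_lit 7706400428) (nat_lit 369) (nat_lit 5) (nat_lit 380) (nat_lit 5) (nat_lit 381) (nat_lit 5) (nat_lit 584) (nat_lit 541) (nat_lit 435)) (XT.lf (nat_lit 0) (nat_lit 4664454027) (nat_lit 912) (nat_lit 1700946100) (nat_lit 76) (nat_lit 4008138595) (nat_lit 369) (nat_lit 5) (nat_lit 381) (nat_lit 5) (nat_lit 370) (nat_lit 5) (nat_lit 585) (nat_lit 541) (nat_lit 434))) (XT.nd (nat_lit 78) (nat_lit 836) (nat_lit 0) (XT.lf (nat_lit 0) (nat_lit 4561554856) (nat_lit 760) (nat_lit 2254154870) (nat_lit 836) (nat_lit 3662314963) (nat_lit 359) (nat_lit 5) (nat_lit 369) (nat_lit 5) (nat_lit 370) (nat_lit 5) (nat_lit 586) (nat_lit 541) (nat_lit 433)) (XT.nd (nat_lit 78) (nat_lit 76) (nat_lit 0) (XT.lf (nat_lit 0) (nat_lit 357125965) (nat_lit 760) (nat_lit 8658572070) (nat_lit 836) (nat_lit 1568789924) (nat_lit 349) (nat_lit 5) (nat_lit 359) (nat_lit 5) (nat_lit 360) (nat_lit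 5) (nat_lit 587) (nat_lit 541) (nat_lit 432)) (XT.lf (nat_lit 0) (nat_lit 593497003) (nat_lit 836) (nat_lit 3897769264) (nat_lit 76) (nat_lit 6201055867) (nat_lit 348) (nat_lit 5) (nat_lit 359) (nat_lit 5) (nat_lit 349) (nat_lit 5) (nat_lit 588) (nat_lit 541) (nat_lit 431))))) (XT.nd (nat_lit 156) (nat_lit 1520) (nat_lit 0) (XT.nd (nat_lit 78) (nat_lit 0) (nat_lit 0) (XT.lf (nat_lit 0) (nat_lit 2559033342) (nat_lit 684) (nat_lit 215456951) (nat_lit 760) (nat_lit 8027687604) (nat_lit 339) (nat_lit 5) (nat_lit 348) (nat_lit 5) (nat_lit 349) (nat_lit 5) (nat_lit 589) (nat_lit 541) (nat_lit 430)) (XT.lf (nat_lit 0) (nat_lit 5032416439) (nat_lit 760) (nat_lit 1765781551) (nat_lit 76) (nat_lit 4115368129) (nat_lit 339) (nat_lit 5) (nat_lit 349) (nat_lit 5) (nat_lit 340) (nat_lit 5) (nat_lit 590) (nat_lit 541) (nat_lit 429))) (XT.nd (nat_lit 78) (nat_lit 760) (nat_lit 0) (XT.lf (nat_lit 0) (nat_lit 4881378635) (nat_lit 760) (nat_lit 2467699307) (nat_lit 836) (nat_lit 3677834196)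 (nat_lit 329) (nat_lit 5) (nat_lit 339) (nat_lit 5) (nat_lit 340) (nat_lit 5) (nat_lit 591) (nat_lit 541) (nat_lit 428)) (XT.nd (nat_lit 78) (nat_lit 76) (nat_lit 0) (XT.lf (nat_lit 0) (nat_lit 514577799) (nat_lit 684) (nat_lit 9206097640) (nat_lit 760) (nat_lit 1421679123) (nat_lit 320) (nat_lit 5) (nat_lit 329) (nat_lit 5) (nat_lit 330) (nat_lit 5) (nat_lit 592) (nat_lit 541) (nat_lit 427)) (XT.lf (nat_lit 0) (nat_lit 906700758) (nat_lit 760) (nat_lit 3913085449) (nat_lit 76) (nat_lit 6439434131) (nat_lit 319) (nat_lit 5) (nat_lit 329) (nat_lit 5) (nat_lit 320) (nat_lit 5) (nat_lit 593) (nat_lit 541) (nat_lit 426))))))) (XT.nd (nat_lit 780) (nat_lit 3876) (nat_lit 0) (XT.nd (nat_lit 390) (nat_lit 1900) (nat_lit 0) (XT.nd (nat_lit 156) (nat_lit 1368) (nat_lit 0) (XT.nd (nat_lit 78) (nat_lit 0) (nat_lit 0) (XT.lf (nat_lit 0) (nat_lit 2942851575) (nat_lit 684) (nat_lit 320044485) (nat_lit 760) (nat_lit 8115335194) (nat_lit 310) (nat_lit 5) (nat_lit 319) (nat_lit 5) (nat_lit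 320) (nat_lit 5) (nat_lit 594) (nat_lit 541) (nat_lit 425)) (XT.lf (nat_lit 0) (nat_lit 5701732600) (nat_lit 760) (nat_lit 1560476542) (nat_lit 76) (nat_lit 4236704321) (nat_lit 310) (nat_lit 5) (nat_lit 320) (nat_lit 5) (nat_lit 311) (nat_lit 5) (nat_lit 595) (nat_lit 541) (nat_lit 424))) (XT.nd (nat_lit 78) (nat_lit 760) (nat_lit 0) (XT.lf (nat_lit 0) (nat_lit 5499943790) (nat_lit 608) (nat_lit 2708959192) (nat_lit 684) (nat_lit 3412716586) (nat_lit 302) (nat_lit 5) (nat_lit 310) (nat_lit 5) (nat_lit 311) (nat_lit 5) (nat_lit 596) (nat_lit 541) (nat_lit 423)) (XT.nd (nat_lit 78) (nat_lit 76) (nat_lit 0) (XT.lf (nat_lit 0) (nat_lit 953842429) (nat_lit 684) (nat_lit 9823594004) (nat_lit 760) (nat_lit 969120336) (nat_lit 293) (nat_lit 5) (nat_lit 302) (nat_lit 5) (nat_lit 303) (nat_lit 5) (nat_lit 597) (nat_lit 541) (nat_lit 422)) (XT.lf (nat_lit 0) (nat_lit 1544672548) (nat_lit 760) (nat_lit 3669703614) (nat_lit 76) (nat_lit 6658593981) (nat_lit 292) (nat_lit 5) (nat_lit 302)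 (nat_lit 5) (nat_lit 293) (nat_lit 5) (nat_lit 598) (nat_lit 541) (nat_lit 421))))) (XT.nd (nat_lit 156) (nat_lit 1292) (nat_lit 0) (XT.nd (nat_lit 78) (nat_lit 0) (nat_lit 0) (XT.lf (nat_lit 0) (nat_lit 3614914807) (nat_lit 608) (nat_lit 486697072) (nat_lit 684) (nat_lit 7900056133) (nat_lit 284) (nat_lit 5) (nat_lit 292) (nat_lit 5) (nat_lit 293) (nat_lit 5) (nat_lit 599) (nat_lit 541) (nat_lit 420)) (XT.lf (nat_lit 0) (nat_lit 6745169621) (nat_lit 684) (nat_lit 1087813382) (nat_lit 76) (nat_lit 4299248506) (nat_lit 284) (nat_lit 5) (nat_lit 293) (nat_lit 5) (nat_lit 285) (nat_lit 5) (nat_lit 600) (nat_lit 541) (nat_lit 419))) (XT.nd (nat_lit 78) (nat_lit 684) (nat_lit 0) (XT.lf (nat_lit 0) (nat_lit 6416443522) (nat_lit 608) (nat_lit 3052922004) (nat_lit 684) (nat_lit 2795486648) (nat_lit 276) (nat_lit 5) (nat_lit 284) (nat_lit 5) (nat_lit 285) (nat_lit 5) (nat_lit 601) (nat_lit 541) (nat_lit 418)) (XT.nd (nat_lit 78) (nat_lit 76) (nat_lit 0) (XT.lf (nat_lit 0) (nat_lit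 1673862618) (nat_lit 608) (nat_lit 10587284116) (nat_lit 684) (nat_lit 138717703) (nat_lit 268) (nat_lit 5) (nat_lit 276) (nat_lit 5) (nat_lit 277) (nat_lit 5) (nat_lit 602) (nat_lit 541) (nat_lit 417)) (XT.lf (nat_lit 0) (nat_lit 2580319693) (nat_lit 684) (nat_lit 3169949488) (nat_lit 76) (nat_lit 6786117963) (nat_lit 267) (nat_lit 5) (nat_lit 276) (nat_lit 5) (nat_lit 268) (nat_lit 5) (nat_lit 603) (nat_lit 541) (nat_lit 416)))))) (XT.nd (nat_lit 390) (nat_lit 2128) (nat_lit 0) (XT.nd (nat_lit 156) (nat_lit 1140) (nat_lit 0) (XT.nd (nat_lit 78) (nat_lit 0) (nat_lit 0) (XT.lf (nat_lit 0) (nat_lit 4574892324) (nat_lit 608) (nat_lit 790154637) (nat_lit 684) (nat_lit 7310312817) (nat_lit 259) (nat_lit 5) (nat_lit 267) (nat_lit 5) (nat_lit 268) (nat_lit 5) (nat_lit 604) (nat_lit 541) (nat_lit 415)) (XT.lf (nat_lit 0) (nat_lit 8238215718) (nat_lit 684) (nat_lit 348513842) (nat_lit 76) (nat_lit 4229728489) (nat_lit 259) (nat_lit 5) (nat_lit 268) (nat_lit 5) (nat_lit 260) (nat_lit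 5) (nat_lit 605) (nat_lit 541) (nat_lit 414))) (XT.nd (nat_lit 78) (nat_lit 608) (nat_lit 0) (XT.lf (nat_lit 0) (nat_lit 7632197812) (nat_lit 532) (nat_lit 3575373202) (nat_lit 608) (nat_lit 1752033906) (nat_lit 252) (nat_lit 5) (nat_lit 259) (nat_lit 5) (nat_lit 260) (nat_lit 5) (nat_lit 606) (nat_lit 541) (nat_lit 413)) (XT.nd (nat_lit 78) (nat_lit 0) (nat_lit 0) (XT.lf (nat_lit 0) (nat_lit 1129741286) (nat_lit 608) (nat_lit 10437285079) (nat_lit 76) (nat_lit 1538165156) (nat_lit 244) (nat_lit 5) (nat_lit 252) (nat_lit 5) (nat_lit 245) (nat_lit 5) (nat_lit 607) (nat_lit 541) (nat_lit 412)) (XT.lf (nat_lit 0) (nat_lit 4089530457) (nat_lit 608) (nat_lit 2414515610) (nat_lit 76) (nat_lit 6748536443) (nat_lit 244) (nat_lit 5) (nat_lit 252) (nat_lit 5) (nat_lit 245) (nat_lit 5) (nat_lit 608) (nat_lit 541) (nat_lit 411))))) (XT.nd (nat_lit 234) (nat_lit 1064) (nat_lit 0) (XT.nd (nat_lit 78) (nat_lit 532) (nat_lit 0) (XT.lf (nat_lit 0) (nat_lit 5824149086) (nat_lit 532) (nat_lit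 1306643163) (nat_lit 608) (nat_lit 6271684546) (nat_lit 237) (nat_lit 5) (nat_lit 244) (nat_lit 5) (nat_lit 245) (nat_lit 5) (nat_lit 609) (nat_lit 541) (nat_lit 410)) (XT.nd (nat_lit 78) (nat_lit 0) (nat_lit 0) (XT.lf (nat_lit 0) (nat_lit 666894230) (nat_lit 532) (nat_lit 9597158077) (nat_lit 608) (nat_lit 3290694195) (nat_lit 230) (nat_lit 5) (nat_lit 237) (nat_lit 5) (nat_lit 238) (nat_lit 5) (nat_lit 610) (nat_lit 541) (nat_lit 409)) (XT.lf (nat_lit 0) (nat_lit 9150037092) (nat_lit 532) (nat_lit 4354154280) (nat_lit 608) (nat_lit 204986931) (nat_lit 230) (nat_lit 5) (nat_lit 237) (nat_lit 5) (nat_lit 238) (nat_lit 5) (nat_lit 611) (nat_lit 541) (nat_lit 408)))) (XT.nd (nat_lit 78) (nat_lit 532) (nat_lit 0) (XT.lf (nat_lit 0) (nat_lit 2921150454) (nat_lit 532) (nat_lit 9924728755) (nat_lit 76) (nat_lit 1020092254) (nat_lit 223) (nat_lit 5) (nat_lit 230) (nat_lit 5) (nat_lit 224) (nat_lit 5) (nat_lit 612) (nat_lit 541) (nat_lit 407)) (XT.nd (nat_lit 78) (nat_lit 532) (nat_lit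 0) (XT.lf (nat_lit 0) (nat_lit 6151786502) (nat_lit 532) (nat_lit 1403106128) (nat_lit 76) (nat_lit 6470087263) (nat_lit 223) (nat_lit 5) (nat_lit 230) (nat_lit 5) (nat_lit 224) (nat_lit 5) (nat_lit 613) (nat_lit 541) (nat_lit 406)) (XT.lf (nat_lit 0) (nat_lit 7365095864) (nat_lit 532) (nat_lit 2115136745) (nat_lit 608) (nat_lit 4706272838) (nat_lit 216) (nat_lit 5) (nat_lit 223) (nat_lit 5) (nat_lit 224) (nat_lit 5) (nat_lit 614) (nat_lit 541) (nat_lit 405))))))))
noncomputable def xc117 : XT := (XT.nd (nat_lit 76830) (nat_lit 0) (nat_lit 16036) (XT.nd (nat_lit 76050) (nat_lit 0) (nat_lit 28804) (XT.nd (nat_lit 75660) (nat_lit 0) (nat_lit 31312) (XT.nd (nat_lit 156) (nat_lit 456) (nat_lit 0) (XT.nd (nat_lit 78) (nat_lit 76) (nat_lit 0) (XT.lf (nat_lit 0) (nat_lit 1959386129) (nat_lit 456) (nat_lit 10945848192) (nat_lit 532) (nat_lit 1445428342) (nat_lit 210) (nat_lit 5) (nat_lit 216) (nat_lit 5) (nat_lit 217) (nat_lit 5) (nat_lit 615) (nat_lit 541) (nat_lit 404)) (XT.lf (nat_lit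 0) (nat_lit 1901605090) (nat_lit 532) (nat_lit 3556067708) (nat_lit 76) (nat_lit 9059274130) (nat_lit 209) (nat_lit 5) (nat_lit 216) (nat_lit 5) (nat_lit 210) (nat_lit 5) (nat_lit 616) (nat_lit 541) (nat_lit 403))) (XT.nd (nat_lit 75348) (nat_lit 0) (nat_lit 32528) (XT.lf (nat_lit 0) (nat_lit 5318946205) (nat_lit 532) (nat_lit 9188943085) (nat_lit 76) (nat_lit 178022910) (nat_lit 203) (nat_lit 5) (nat_lit 210) (nat_lit 5) (nat_lit 204) (nat_lit 5) (nat_lit 617) (nat_lit 541) (nat_lit 402)) (XT.nd (nat_lit 78) (nat_lit 0) (nat_lit 0) (XT.lf (nat_lit 0) (nat_lit 518371116) (nat_lit 1292) (nat_lit 1581670344) (nat_lit 1292) (nat_lit 1581670344) (nat_lit 631) (nat_lit 3) (nat_lit 648) (nat_lit 3) (nat_lit 648) (nat_lit 5) (nat_lit 542) (nat_lit 542) (nat_lit 476)) (XT.lf (nat_lit 76) (nat_lit 486801464) (nat_lit 0) (nat_lit 2101030996) (nat_lit 1292) (nat_lit 4818233035) (nat_lit 632) (nat_lit 5) (nat_lit 631) (nat_lit 3) (nat_lit 648) (nat_lit 5) (nat_lit 543) (nat_lit 542) (nat_lit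 475))))) (XT.nd (nat_lit 156) (nat_lit 1292) (nat_lit 0) (XT.nd (nat_lit 78) (nat_lit 0) (nat_lit 0) (XT.lf (nat_lit 0) (nat_lit 4151233724) (nat_lit 1216) (nat_lit 3218495396) (nat_lit 1292) (nat_lit 80209976) (nat_lit 632) (nat_lit 5) (nat_lit 648) (nat_lit 5) (nat_lit 649) (nat_lit 5) (nat_lit 544) (nat_lit 542) (nat_lit 474)) (XT.lf (nat_lit 76) (nat_lit 527939887) (nat_lit 0) (nat_lit 5195757184) (nat_lit 1292) (nat_lit 1771441794) (nat_lit 633) (nat_lit 5) (nat_lit 632) (nat_lit 5) (nat_lit 649) (nat_lit 5) (nat_lit 545) (nat_lit 542) (nat_lit 473))) (XT.nd (nat_lit 78) (nat_lit 1292) (nat_lit 0) (XT.lf (nat_lit 76) (nat_lit 4371713308) (nat_lit 0) (nat_lit 2938584068) (nat_lit 1292) (nat_lit 231295983) (nat_lit 633) (nat_lit 5) (nat_lit 632) (nat_lit 5) (nat_lit 649) (nat_lit 5) (nat_lit 546) (nat_lit 542) (nat_lit 472)) (XT.nd (nat_lit 78) (nat_lit 0) (nat_lit 76) (XT.lf (nat_lit 76) (nat_lit 682319319) (nat_lit 0) (nat_lit 605789573) (nat_lit 1368) (nat_lit 6301377885)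 (nat_lit 616) (nat_lit 5) (nat_lit 615) (nat_lit 5) (nat_lit 633) (nat_lit 5) (nat_lit 547) (nat_lit 542) (nat_lit 471)) (XT.lf (nat_lit 0) (nat_lit 2830055180) (nat_lit 1292) (nat_lit 3018614186) (nat_lit 1368) (nat_lit 1789737340) (nat_lit 616) (nat_lit 5) (nat_lit 633) (nat_lit 5) (nat_lit 634) (nat_lit 5) (nat_lit 548) (nat_lit 542) (nat_lit 470)))))) (XT.nd (nat_lit 390) (nat_lit 1292) (nat_lit 0) (XT.nd (nat_lit 156) (nat_lit 1292) (nat_lit 0) (XT.nd (nat_lit 78) (nat_lit 0) (nat_lit 0) (XT.lf (nat_lit 76) (nat_lit 934340209) (nat_lit 0) (nat_lit 3441636483) (nat_lit 1368) (nat_lit 3312869758) (nat_lit 617) (nat_lit 5) (nat_lit 616) (nat_lit 5) (nat_lit 634) (nat_lit 5) (nat_lit 549) (nat_lit 542) (nat_lit 469)) (XT.lf (nat_lit 76) (nat_lit 4985801857) (nat_lit 0) (nat_lit 950914314) (nat_lit 1368) (nat_lit 1803904891) (nat_lit 617) (nat_lit 5) (nat_lit 616) (nat_lit 5) (nat_lit 634) (nat_lit 5) (nat_lit 550) (nat_lit 542) (nat_lit 468))) (XT.nd (nat_lit 78) (nat_lit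 1368) (nat_lit 0) (XT.lf (nat_lit 76) (nat_lit 1309859135) (nat_lit 0) (nat_lit 6202087350) (nat_lit 1368) (nat_lit 281823142) (nat_lit 618) (nat_lit 5) (nat_lit 617) (nat_lit 5) (nat_lit 635) (nat_lit 5) (nat_lit 551) (nat_lit 542) (nat_lit 467)) (XT.nd (nat_lit 78) (nat_lit 0) (nat_lit 0) (XT.lf (nat_lit 0) (nat_lit 1243712074) (nat_lit 1368) (nat_lit 2391296970) (nat_lit 1444) (nat_lit 4213017397) (nat_lit 599) (nat_lit 5) (nat_lit 617) (nat_lit 5) (nat_lit 618) (nat_lit 5) (nat_lit 552) (nat_lit 542) (nat_lit 466)) (XT.lf (nat_lit 76) (nat_lit 1782932222) (nat_lit 0) (nat_lit 990093566) (nat_lit 1444) (nat_lit 5130768270) (nat_lit 600) (nat_lit 5) (nat_lit 599) (nat_lit 5) (nat_lit 618) (nat_lit 5) (nat_lit 553) (nat_lit 542) (nat_lit 465))))) (XT.nd (nat_lit 156) (nat_lit 1368) (nat_lit 0) (XT.nd (nat_lit 78) (nat_lit 0) (nat_lit 0) (XT.lf (nat_lit 0) (nat_lit 4326245817) (nat_lit 1368) (nat_lit 1920864091) (nat_lit 1444) (nat_lit 1713704400) (nat_lit 600) (nat_lit 5)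 (nat_lit 618) (nat_lit 5) (nat_lit 619) (nat_lit 5) (nat_lit 554) (nat_lit 542) (nat_lit 464)) (XT.lf (nat_lit 76) (nat_lit 2365666830) (nat_lit 0) (nat_lit 3533524171) (nat_lit 1444) (nat_lit 2120014352) (nat_lit 601) (nat_lit 5) (nat_lit 600) (nat_lit 5) (nat_lit 619) (nat_lit 5) (nat_lit 555) (nat_lit 542) (nat_lit 463))) (XT.nd (nat_lit 78) (nat_lit 1368) (nat_lit 0) (XT.lf (nat_lit 76) (nat_lit 6742174491) (nat_lit 0) (nat_lit 741565561) (nat_lit 1444) (nat_lit 595424805) (nat_lit 601) (nat_lit 5) (nat_lit 600) (nat_lit 5) (nat_lit 619) (nat_lit 5) (nat_lit 556) (nat_lit 542) (nat_lit 462)) (XT.nd (nat_lit 78) (nat_lit 0) (nat_lit 0) (XT.lf (nat_lit 0) (nat_lit 948654368) (nat_lit 1444) (nat_lit 5076133705) (nat_lit 1520) (nat_lit 2115382586) (nat_lit 582) (nat_lit 5) (nat_lit 601) (nat_lit 5) (nat_lit 602) (nat_lit 5) (nat_lit 557) (nat_lit 542) (nat_lit 461)) (XT.lf (nat_lit 0) (nat_lit 2497832341) (nat_lit 1444) (nat_lit 662282519) (nat_lit 1520) (nat_lit 5042562533)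 (nat_lit 582) (nat_lit 5) (nat_lit 601) (nat_lit 5) (nat_lit 602) (nat_lit 5) (nat_lit 558) (nat_lit 542) (nat_lit 460))))))) (XT.nd (nat_lit 780) (nat_lit 8284) (nat_lit 0) (XT.nd (nat_lit 390) (nat_lit 3116) (nat_lit 0) (XT.nd (nat_lit 156) (nat_lit 1368) (nat_lit 0) (XT.nd (nat_lit 78) (nat_lit 0) (nat_lit 76) (XT.lf (nat_lit 76) (nat_lit 3868662520) (nat_lit 0) (nat_lit 203312165) (nat_lit 1520) (nat_lit 4194583228) (nat_lit 583) (nat_lit 5) (nat_lit 582) (nat_lit 5) (nat_lit 602) (nat_lit 5) (nat_lit 559) (nat_lit 542) (nat_lit 459)) (XT.lf (nat_lit 76) (nat_lit 128519965) (nat_lit 0) (nat_lit 5542039236) (nat_lit 1520) (nat_lit 2661300861) (nat_lit 584) (nat_lit 5) (nat_lit 583) (nat_lit 5) (nat_lit 603) (nat_lit 5) (nat_lit 560) (nat_lit 542) (nat_lit 458))) (XT.nd (nat_lit 78) (nat_lit 1444) (nat_lit 0) (XT.lf (nat_lit 76) (nat_lit 4781410194) (nat_lit 0) (nat_lit 2520400129) (nat_lit 1520) (nat_lit 1096647171) (nat_lit 584) (nat_lit 5) (nat_lit 583) (nat_lit 5) (nat_lit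 603) (nat_lit 5) (nat_lit 561) (nat_lit 542) (nat_lit 457)) (XT.nd (nat_lit 78) (nat_lit 0) (nat_lit 0) (XT.lf (nat_lit 0) (nat_lit 473563052) (nat_lit 1520) (nat_lit 7421320675) (nat_lit 1596) (nat_lit 571825093) (nat_lit 564) (nat_lit 5) (nat_lit 584) (nat_lit 5) (nat_lit 585) (nat_lit 5) (nat_lit 562) (nat_lit 542) (nat_lit 456)) (XT.lf (nat_lit 0) (nat_lit 2072355862) (nat_lit 1520) (nat_lit 2732606750) (nat_lit 1596) (nat_lit 3730983294) (nat_lit 564) (nat_lit 5) (nat_lit 584) (nat_lit 5) (nat_lit 585) (nat_lit 5) (nat_lit 563) (nat_lit 542) (nat_lit 455))))) (XT.nd (nat_lit 156) (nat_lit 3116) (nat_lit 0) (XT.nd (nat_lit 78) (nat_lit 0) (nat_lit 76) (XT.lf (nat_lit 76) (nat_lit 2054518346) (nat_lit 0) (nat_lit 1633243842) (nat_lit 1596) (nat_lit 4919115693) (nat_lit 565) (nat_lit 5) (nat_lit 564) (nat_lit 5) (nat_lit 585) (nat_lit 5) (nat_lit 564) (nat_lit 542) (nat_lit 454)) (XT.lf (nat_lit 0) (nat_lit 5336092965) (nat_lit 1520) (nat_lit 1737726658) (nat_lit 76) (nat_lit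 1605399391) (nat_lit 565) (nat_lit 5) (nat_lit 585) (nat_lit 5) (nat_lit 566) (nat_lit 5) (nat_lit 565) (nat_lit 542) (nat_lit 453))) (XT.nd (nat_lit 78) (nat_lit 1672) (nat_lit 0) (XT.lf (nat_lit 0) (nat_lit 3181788938) (nat_lit 1520) (nat_lit 3839386668) (nat_lit 1596) (nat_lit 1731758447) (nat_lit 545) (nat_lit 5) (nat_lit 565) (nat_lit 5) (nat_lit 566) (nat_lit 5) (nat_lit 566) (nat_lit 542) (nat_lit 452)) (XT.nd (nat_lit 78) (nat_lit 1672) (nat_lit 0) (XT.lf (nat_lit 0) (nat_lit 8201073565) (nat_lit 1520) (nat_lit 523257117) (nat_lit 1596) (nat_lit 104108030) (nat_lit 545) (nat_lit 5) (nat_lit 565) (nat_lit 5) (nat_lit 566) (nat_lit 5) (nat_lit 567) (nat_lit 542) (nat_lit 451)) (XT.lf (nat_lit 0) (nat_lit 1556441045) (nat_lit 1672) (nat_lit 4482735307) (nat_lit 76) (nat_lit 2865662591) (nat_lit 523) (nat_lit 5) (nat_lit 545) (nat_lit 5) (nat_lit 524) (nat_lit 5) (nat_lit 568) (nat_lit 542) (nat_lit 450)))))) (XT.nd (nat_lit 390) (nat_lit 2964) (nat_lit 0) (XT.nd (nat_lit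 156) (nat_lit 3648) (nat_lit 0) (XT.nd (nat_lit 78) (nat_lit 0) (nat_lit 0) (XT.lf (nat_lit 0) (nat_lit 579277283) (nat_lit 1672) (nat_lit 2654475666) (nat_lit 1748) (nat_lit 5749304127) (nat_lit 501) (nat_lit 5) (nat_lit 523) (nat_lit 5) (nat_lit 524) (nat_lit 5) (nat_lit 569) (nat_lit 542) (nat_lit 449)) (XT.lf (nat_lit 0) (nat_lit 4953952061) (nat_lit 1748) (nat_lit 3287245091) (nat_lit 76) (nat_lit 821458126) (nat_lit 501) (nat_lit 5) (nat_lit 524) (nat_lit 5) (nat_lit 502) (nat_lit 5) (nat_lit 570) (nat_lit 542) (nat_lit 448))) (XT.nd (nat_lit 78) (nat_lit 1900) (nat_lit 0) (XT.lf (nat_lit 0) (nat_lit 1916706300) (nat_lit 1748) (nat_lit 4796264477) (nat_lit 1824) (nat_lit 2430788830) (nat_lit 478) (nat_lit 5) (nat_lit 501) (nat_lit 5) (nat_lit 502) (nat_lit 5) (nat_lit 571) (nat_lit 542) (nat_lit 447)) (XT.nd (nat_lit 78) (nat_lit 1900) (nat_lit 0) (XT.lf (nat_lit 0) (nat_lit 7246971394) (nat_lit 1748) (nat_lit 1257006579) (nat_lit 1824) (nat_lit 722574316) (nat_lit 478)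 (nat_lit 5) (nat_lit 501) (nat_lit 5) (nat_lit 502) (nat_lit 5) (nat_lit 572) (nat_lit 542) (nat_lit 446)) (XT.lf (nat_lit 0) (nat_lit 1018991904) (nat_lit 1900) (nat_lit 5937974623) (nat_lit 76) (nat_lit 2353652958) (nat_lit 453) (nat_lit 5) (nat_lit 478) (nat_lit 5) (nat_lit 454) (nat_lit 5) (nat_lit 573) (nat_lit 542) (nat_lit 445))))) (XT.nd (nat_lit 234) (nat_lit 988) (nat_lit 0) (XT.nd (nat_lit 78) (nat_lit 1976) (nat_lit 0) (XT.lf (nat_lit 0) (nat_lit 2782859153) (nat_lit 1900) (nat_lit 573135728) (nat_lit 76) (nat_lit 6040337008) (nat_lit 453) (nat_lit 5) (nat_lit 478) (nat_lit 5) (nat_lit 454) (nat_lit 5) (nat_lit 574) (nat_lit 542) (nat_lit 444)) (XT.nd (nat_lit 78) (nat_lit 912) (nat_lit 0) (XT.lf (nat_lit 0) (nat_lit 4592292511) (nat_lit 1140) (nat_lit 4544214704) (nat_lit 76) (nat_lit 347047794) (nat_lit 439) (nat_lit 5) (nat_lit 454) (nat_lit 5) (nat_lit 440) (nat_lit 5) (nat_lit 575) (nat_lit 542) (nat_lit 443)) (XT.lf (nat_lit 0) (nat_lit 965314308) (nat_lit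 912) (nat_lit 5481226005) (nat_lit 988) (nat_lit 3125811961) (nat_lit 427) (nat_lit 5) (nat_lit 439) (nat_lit 5) (nat_lit 440) (nat_lit 5) (nat_lit 576) (nat_lit 542) (nat_lit 442)))) (XT.nd (nat_lit 78) (nat_lit 988) (nat_lit 0) (XT.lf (nat_lit 0) (nat_lit 6624295297) (nat_lit 912) (nat_lit 1720653953) (nat_lit 988) (nat_lit 1317836867) (nat_lit 427) (nat_lit 5) (nat_lit 439) (nat_lit 5) (nat_lit 440) (nat_lit 5) (nat_lit 577) (nat_lit 542) (nat_lit 441)) (XT.nd (nat_lit 78) (nat_lit 0) (nat_lit 0) (XT.lf (nat_lit 0) (nat_lit 527366912) (nat_lit 988) (nat_lit 7118390795) (nat_lit 76) (nat_lit 2109045226) (nat_lit 414) (nat_lit 5) (nat_lit 427) (nat_lit 5) (nat_lit 415) (nat_lit 5) (nat_lit 578) (nat_lit 542) (nat_lit 440)) (XT.lf (nat_lit 0) (nat_lit 2400967306) (nat_lit 988) (nat_lit 1425033760) (nat_lit 76) (nat_lit 6022304066) (nat_lit 414) (nat_lit 5) (nat_lit 427) (nat_lit 5) (nat_lit 415) (nat_lit 5) (nat_lit 579) (nat_lit 542) (nat_lit 439))))))))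
noncomputable def xc118 : XT := (XT.nd (nat_lit 1560) (nat_lit 6308) (nat_lit 0) (XT.nd (nat_lit 780) (nat_lit 4256) (nat_lit 0) (XT.nd (nat_lit 390) (nat_lit 2432) (nat_lit 0) (XT.nd (nat_lit 156) (nat_lit 912) (nat_lit 0) (XT.nd (nat_lit 78) (nat_lit 836) (nat_lit 0) (XT.lf (nat_lit 0) (nat_lit 4319020733) (nat_lit 912) (nat_lit 5526148936) (nat_lit 76) (nat_lit 98370076) (nat_lit 403) (nat_lit 5) (nat_lit 415) (nat_lit 5) (nat_lit 404) (nat_lit 5) (nat_lit 580) (nat_lit 542) (nat_lit 438)) (XT.lf (nat_lit 0) (nat_lit 311799442) (nat_lit 836) (nat_lit 5978569527) (nat_lit 912) (nat_lit 3750013359) (nat_lit 392) (nat_lit 5) (nat_lit 403) (nat_lit 5) (nat_lit 404) (nat_lit 5) (nat_lit 581) (nat_lit 542) (nat_lit 437))) (XT.nd (nat_lit 78) (nat_lit 912) (nat_lit 0) (XT.lf (nat_lit 0) (nat_lit 6319180879) (nat_lit 836) (nat_lit 1997280262) (nat_lit 912) (nat_lit 1822396198) (nat_lit 392) (nat_lit 5) (nat_lit 403) (nat_lit 5) (nat_lit 404) (nat_lit 5) (nat_lit 582) (nat_lit 542)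 (nat_lit 436)) (XT.nd (nat_lit 78) (nat_lit 0) (nat_lit 0) (XT.lf (nat_lit 0) (nat_lit 148271819) (nat_lit 912) (nat_lit 8039504859) (nat_lit 76) (nat_lit 2051380659) (nat_lit 380) (nat_lit 5) (nat_lit 392) (nat_lit 5) (nat_lit 381) (nat_lit 5) (nat_lit 583) (nat_lit 542) (nat_lit 435)) (XT.lf (nat_lit 0) (nat_lit 2151794150) (nat_lit 912) (nat_lit 1997633081) (nat_lit 76) (nat_lit 6191440129) (nat_lit 380) (nat_lit 5) (nat_lit 392) (nat_lit 5) (nat_lit 381) (nat_lit 5) (nat_lit 584) (nat_lit 542) (nat_lit 434))))) (XT.nd (nat_lit 156) (nat_lit 1596) (nat_lit 0) (XT.nd (nat_lit 78) (nat_lit 0) (nat_lit 0) (XT.lf (nat_lit 0) (nat_lit 4198213434) (nat_lit 836) (nat_lit 3638156) (nat_lit 912) (nat_lit 6242632469) (nat_lit 369) (nat_lit 5) (nat_lit 380) (nat_lit 5) (nat_lit 381) (nat_lit 5) (nat_lit 585) (nat_lit 542) (nat_lit 433)) (XT.lf (nat_lit 0) (nat_lit 6313301311) (nat_lit 912) (nat_lit 54553307) (nat_lit 76) (nat_lit 4181912386) (nat_lit 369) (nat_lit 5) (nat_lit 381)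 (nat_lit 5) (nat_lit 370) (nat_lit 5) (nat_lit 586) (nat_lit 542) (nat_lit 432))) (XT.nd (nat_lit 78) (nat_lit 836) (nat_lit 0) (XT.lf (nat_lit 0) (nat_lit 6322142328) (nat_lit 760) (nat_lit 2165777223) (nat_lit 836) (nat_lit 2168818965) (nat_lit 359) (nat_lit 5) (nat_lit 369) (nat_lit 5) (nat_lit 370) (nat_lit 5) (nat_lit 587) (nat_lit 542) (nat_lit 431)) (XT.nd (nat_lit 78) (nat_lit 76) (nat_lit 0) (XT.lf (nat_lit 0) (nat_lit 2052425164) (nat_lit 760) (nat_lit 8661177020) (nat_lit 836) (nat_lit 52097501) (nat_lit 349) (nat_lit 5) (nat_lit 359) (nat_lit 5) (nat_lit 360) (nat_lit 5) (nat_lit 588) (nat_lit 542) (nat_lit 430)) (XT.lf (nat_lit 0) (nat_lit 2103175795) (nat_lit 836) (nat_lit 2300642661) (nat_lit 76) (nat_lit 6472272616) (nat_lit 348) (nat_lit 5) (nat_lit 359) (nat_lit 5) (nat_lit 349) (nat_lit 5) (nat_lit 589) (nat_lit 542) (nat_lit 429)))))) (XT.nd (nat_lit 390) (nat_lit 2052) (nat_lit 0) (XT.nd (nat_lit 156) (nat_lit 1520) (nat_lit 0) (XT.nd (nat_lit 78) (nat_lit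 0) (nat_lit 0) (XT.lf (nat_lit 0) (nat_lit 4274275721) (nat_lit 684) (nat_lit 34948621) (nat_lit 760) (nat_lit 6679293280) (nat_lit 339) (nat_lit 5) (nat_lit 348) (nat_lit 5) (nat_lit 349) (nat_lit 5) (nat_lit 590) (nat_lit 542) (nat_lit 428)) (XT.lf (nat_lit 0) (nat_lit 6584480651) (nat_lit 760) (nat_lit 141719154) (nat_lit 76) (nat_lit 4376492702) (nat_lit 339) (nat_lit 5) (nat_lit 349) (nat_lit 5) (nat_lit 340) (nat_lit 5) (nat_lit 591) (nat_lit 542) (nat_lit 427))) (XT.nd (nat_lit 78) (nat_lit 760) (nat_lit 0) (XT.lf (nat_lit 0) (nat_lit 6627467275) (nat_lit 760) (nat_lit 2302251877) (nat_lit 836) (nat_lit 2288943707) (nat_lit 329) (nat_lit 5) (nat_lit 339) (nat_lit 5) (nat_lit 340) (nat_lit 5) (nat_lit 592) (nat_lit 542) (nat_lit 426)) (XT.nd (nat_lit 78) (nat_lit 76) (nat_lit 0) (XT.lf (nat_lit 0) (nat_lit 2189697956) (nat_lit 684) (nat_lit 9143116128) (nat_lit 760) (nat_lit 3920979) (nat_lit 320) (nat_lit 5) (nat_lit 329) (nat_lit 5) (nat_lit 330) (nat_lit 5) (nat_lit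 593) (nat_lit 542) (nat_lit 425)) (XT.lf (nat_lit 0) (nat_lit 2324074639) (nat_lit 760) (nat_lit 2340459358) (nat_lit 76) (nat_lit 6791778216) (nat_lit 319) (nat_lit 5) (nat_lit 329) (nat_lit 5) (nat_lit 320) (nat_lit 5) (nat_lit 594) (nat_lit 542) (nat_lit 424))))) (XT.nd (nat_lit 156) (nat_lit 760) (nat_lit 0) (XT.nd (nat_lit 78) (nat_lit 608) (nat_lit 0) (XT.lf (nat_lit 0) (nat_lit 4641735303) (nat_lit 684) (nat_lit 68870608) (nat_lit 760) (nat_lit 6867435306) (nat_lit 310) (nat_lit 5) (nat_lit 319) (nat_lit 5) (nat_lit 320) (nat_lit 5) (nat_lit 595) (nat_lit 542) (nat_lit 423)) (XT.lf (nat_lit 0) (nat_lit 42309025) (nat_lit 608) (nat_lit 7130717510) (nat_lit 684) (nat_lit 4528616460) (nat_lit 302) (nat_lit 5) (nat_lit 310) (nat_lit 5) (nat_lit 311) (nat_lit 5) (nat_lit 596) (nat_lit 542) (nat_lit 422))) (XT.nd (nat_lit 78) (nat_lit 760) (nat_lit 0) (XT.lf (nat_lit 0) (nat_lit 7232636557) (nat_lit 608) (nat_lit 2481357134) (nat_lit 684) (nat_lit 2113138494) (nat_lit 302)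 (nat_lit 5) (nat_lit 310) (nat_lit 5) (nat_lit 311) (nat_lit 5) (nat_lit 597) (nat_lit 542) (nat_lit 421)) (XT.nd (nat_lit 78) (nat_lit 0) (nat_lit 0) (XT.lf (nat_lit 0) (nat_lit 360390236) (nat_lit 760) (nat_lit 9347355775) (nat_lit 76) (nat_lit 2247054103) (nat_lit 292) (nat_lit 5) (nat_lit 302) (nat_lit 5) (nat_lit 293) (nat_lit 5) (nat_lit 598) (nat_lit 542) (nat_lit 420)) (XT.lf (nat_lit 0) (nat_lit 2885299909) (nat_lit 760) (nat_lit 2120749806) (nat_lit 76) (nat_lit 7078089485) (nat_lit 292) (nat_lit 5) (nat_lit 302) (nat_lit 5) (nat_lit 293) (nat_lit 5) (nat_lit 599) (nat_lit 542) (nat_lit 419))))))) (XT.nd (nat_lit 780) (nat_lit 2660) (nat_lit 0) (XT.nd (nat_lit 390) (nat_lit 1748) (nat_lit 0) (XT.nd (nat_lit 156) (nat_lit 684) (nat_lit 0) (XT.nd (nat_lit 78) (nat_lit 608) (nat_lit 0) (XT.lf (nat_lit 0) (nat_lit 5298887641) (nat_lit 608) (nat_lit 179273389) (nat_lit 684) (nat_lit 6737556213) (nat_lit 284) (nat_lit 5) (nat_lit 292) (nat_lit 5) (nat_lit 293) (nat_lit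 5) (nat_lit 600) (nat_lit 542) (nat_lit 418)) (XT.lf (nat_lit 0) (nat_lit 500523699) (nat_lit 608) (nat_lit 7653952095) (nat_lit 684) (nat_lit 4194820337) (nat_lit 276) (nat_lit 5) (nat_lit 284) (nat_lit 5) (nat_lit 285) (nat_lit 5) (nat_lit 601) (nat_lit 542) (nat_lit 417))) (XT.nd (nat_lit 78) (nat_lit 684) (nat_lit 0) (XT.lf (nat_lit 0) (nat_lit 8137751752) (nat_lit 608) (nat_lit 2777572243) (nat_lit 684) (nat_lit 1569603650) (nat_lit 276) (nat_lit 5) (nat_lit 284) (nat_lit 5) (nat_lit 285) (nat_lit 5) (nat_lit 602) (nat_lit 542) (nat_lit 416)) (XT.nd (nat_lit 78) (nat_lit 0) (nat_lit 0) (XT.lf (nat_lit 0) (nat_lit 1113189651) (nat_lit 684) (nat_lit 9317482093) (nat_lit 76) (nat_lit 2192065187) (nat_lit 267) (nat_lit 5) (nat_lit 276) (nat_lit 5) (nat_lit 268) (nat_lit 5) (nat_lit 603) (nat_lit 542) (nat_lit 415)) (XT.lf (nat_lit 0) (nat_lit 3860186886) (nat_lit 684) (nat_lit 1643033671) (nat_lit 76) (nat_lit 7259244164) (nat_lit 267) (nat_lit 5) (nat_lit 276) (nat_lit 5)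 (nat_lit 268) (nat_lit 5) (nat_lit 604) (nat_lit 542) (nat_lit 414))))) (XT.nd (nat_lit 156) (nat_lit 608) (nat_lit 0) (XT.nd (nat_lit 78) (nat_lit 532) (nat_lit 0) (XT.lf (nat_lit 0) (nat_lit 6246242380) (nat_lit 608) (nat_lit 440540223) (nat_lit 684) (nat_lit 6217712393) (nat_lit 259) (nat_lit 5) (nat_lit 267) (nat_lit 5) (nat_lit 268) (nat_lit 5) (nat_lit 605) (nat_lit 542) (nat_lit 413)) (XT.lf (nat_lit 0) (nat_lit 1231104840) (nat_lit 532) (nat_lit 8372816611) (nat_lit 608) (nat_lit 3444765279) (nat_lit 252) (nat_lit 5) (nat_lit 259) (nat_lit 5) (nat_lit 260) (nat_lit 5) (nat_lit 606) (nat_lit 542) (nat_lit 412))) (XT.nd (nat_lit 78) (nat_lit 608) (nat_lit 0) (XT.lf (nat_lit 0) (nat_lit 9344952705) (nat_lit 532) (nat_lit 3266456131) (nat_lit 608) (nat_lit 583714404) (nat_lit 252) (nat_lit 5) (nat_lit 259) (nat_lit 5) (nat_lit 260) (nat_lit 5) (nat_lit 607) (nat_lit 542) (nat_lit 411)) (XT.nd (nat_lit 78) (nat_lit 0) (nat_lit 0) (XT.lf (nat_lit 0) (nat_lit 2329332685)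 (nat_lit 608) (nat_lit 9059400815) (nat_lit 76) (nat_lit 1954944980) (nat_lit 244) (nat_lit 5) (nat_lit 252) (nat_lit 5) (nat_lit 245) (nat_lit 5) (nat_lit 608) (nat_lit 542) (nat_lit 410)) (XT.lf (nat_lit 0) (nat_lit 5325239275) (nat_lit 608) (nat_lit 907286348) (nat_lit 76) (nat_lit 7261954741) (nat_lit 244) (nat_lit 5) (nat_lit 252) (nat_lit 5) (nat_lit 245) (nat_lit 5) (nat_lit 609) (nat_lit 542) (nat_lit 409)))))) (XT.nd (nat_lit 390) (nat_lit 532) (nat_lit 0) (XT.nd (nat_lit 156) (nat_lit 1064) (nat_lit 0) (XT.nd (nat_lit 78) (nat_lit 532) (nat_lit 0) (XT.lf (nat_lit 0) (nat_lit 7485917960) (nat_lit 532) (nat_lit 928815516) (nat_lit 608) (nat_lit 5232892394) (nat_lit 237) (nat_lit 5) (nat_lit 244) (nat_lit 5) (nat_lit 245) (nat_lit 5) (nat_lit 610) (nat_lit 542) (nat_lit 408)) (XT.lf (nat_lit 0) (nat_lit 2235495929) (nat_lit 532) (nat_lit 9365453035) (nat_lit 608) (nat_lit 2202187654) (nat_lit 230) (nat_lit 5) (nat_lit 237) (nat_lit 5) (nat_lit 238) (nat_lit 5) (nat_lit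 611) (nat_lit 542) (nat_lit 407))) (XT.nd (nat_lit 78) (nat_lit 988) (nat_lit 0) (XT.lf (nat_lit 0) (nat_lit 910499956) (nat_lit 608) (nat_lit 3109286100) (nat_lit 76) (nat_lit 9941196388) (nat_lit 229) (nat_lit 5) (nat_lit 237) (nat_lit 5) (nat_lit 230) (nat_lit 5) (nat_lit 612) (nat_lit 542) (nat_lit 406)) (XT.nd (nat_lit 78) (nat_lit 532) (nat_lit 0) (XT.lf (nat_lit 0) (nat_lit 4087207098) (nat_lit 532) (nat_lit 8574263820) (nat_lit 76) (nat_lit 1459598981) (nat_lit 223) (nat_lit 5) (nat_lit 230) (nat_lit 5) (nat_lit 224) (nat_lit 5) (nat_lit 613) (nat_lit 542) (nat_lit 405)) (XT.lf (nat_lit 0) (nat_lit 88581262) (nat_lit 532) (nat_lit 7272731426) (nat_lit 608) (nat_lit 6922370012) (nat_lit 216) (nat_lit 5) (nat_lit 223) (nat_lit 5) (nat_lit 224) (nat_lit 5) (nat_lit 614) (nat_lit 542) (nat_lit 404))))) (XT.nd (nat_lit 75582) (nat_lit 0) (nat_lit 32072) (XT.nd (nat_lit 78) (nat_lit 532) (nat_lit 0) (XT.lf (nat_lit 0) (nat_lit 9020994828) (nat_lit 532) (nat_lit 1723260117)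 (nat_lit 608) (nat_lit 3704426589) (nat_lit 216) (nat_lit 5) (nat_lit 223) (nat_lit 5) (nat_lit 224) (nat_lit 5) (nat_lit 615) (nat_lit 542) (nat_lit 403)) (XT.nd (nat_lit 78) (nat_lit 76) (nat_lit 0) (XT.lf (nat_lit 0) (nat_lit 3515857701) (nat_lit 456) (nat_lit 10713446896) (nat_lit 532) (nat_lit 386987627) (nat_lit 210) (nat_lit 5) (nat_lit 216) (nat_lit 5) (nat_lit 217) (nat_lit 5) (nat_lit 616) (nat_lit 542) (nat_lit 402)) (XT.lf (nat_lit 0) (nat_lit 2991684742) (nat_lit 532) (nat_lit 2125612837) (nat_lit 76) (nat_lit 9668885457) (nat_lit 209) (nat_lit 5) (nat_lit 216) (nat_lit 5) (nat_lit 210) (nat_lit 5) (nat_lit 617) (nat_lit 542) (nat_lit 401)))) (XT.nd (nat_lit 78) (nat_lit 0) (nat_lit 0) (XT.lf (nat_lit 0) (nat_lit 2056317831) (nat_lit 1292) (nat_lit 834149941) (nat_lit 1292) (nat_lit 834149941) (nat_lit 631) (nat_lit 3) (nat_lit 648) (nat_lit 3) (nat_lit 648) (nat_lit 5) (nat_lit 543) (nat_lit 543) (nat_lit 474)) (XT.nd (nat_lit 78) (nat_lit 0) (nat_lit 0) (XT.lf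 (nat_lit 76) (nat_lit 2044593090) (nat_lit 0) (nat_lit 3600300538) (nat_lit 1292) (nat_lit 1848840534) (nat_lit 632) (nat_lit 5) (nat_lit 631) (nat_lit 3) (nat_lit 648) (nat_lit 5) (nat_lit 544) (nat_lit 543) (nat_lit 473)) (XT.lf (nat_lit 76) (nat_lit 5834323156) (nat_lit 0) (nat_lit 1345773970) (nat_lit 1292) (nat_lit 359584220) (nat_lit 632) (nat_lit 5) (nat_lit 631) (nat_lit 3) (nat_lit 648) (nat_lit 5) (nat_lit 545) (nat_lit 543) (nat_lit 472))))))))
noncomputable def xc119 : XT := (XT.nd (nat_lit 1560) (nat_lit 14744) (nat_lit 0) (XT.nd (nat_lit 780) (nat_lit 2660) (nat_lit 0) (XT.nd (nat_lit 390) (nat_lit 1292) (nat_lit 0) (XT.nd (nat_lit 156) (nat_lit 0) (nat_lit 0) (XT.nd (nat_lit 78) (nat_lit 0) (nat_lit 0) (XT.lf (nat_lit 0) (nat_lit 1126034945) (nat_lit 1292) (nat_lit 5480014195) (nat_lit 1368) (nat_lit 980716402) (nat_lit 615) (nat_lit 5) (nat_lit 632) (nat_lit 5) (nat_lit 633) (nat_lit 5) (nat_lit 546) (nat_lit 543) (nat_lit 471)) (XT.lf (nat_lit 0) (nat_lit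 2619337100) (nat_lit 1292) (nat_lit 1648611224) (nat_lit 1368) (nat_lit 3367144079) (nat_lit 615) (nat_lit 5) (nat_lit 632) (nat_lit 5) (nat_lit 633) (nat_lit 5) (nat_lit 547) (nat_lit 543) (nat_lit 470))) (XT.nd (nat_lit 78) (nat_lit 0) (nat_lit 76) (XT.lf (nat_lit 76) (nat_lit 2268685013) (nat_lit 0) (nat_lit 1851637239) (nat_lit 1368) (nat_lit 3564511353) (nat_lit 616) (nat_lit 5) (nat_lit 615) (nat_lit 5) (nat_lit 633) (nat_lit 5) (nat_lit 548) (nat_lit 543) (nat_lit 469)) (XT.nd (nat_lit 78) (nat_lit 0) (nat_lit 0) (XT.lf (nat_lit 0) (nat_lit 5630225868) (nat_lit 1292) (nat_lit 1473915469) (nat_lit 1368) (nat_lit 631854382) (nat_lit 616) (nat_lit 5) (nat_lit 633) (nat_lit 5) (nat_lit 634) (nat_lit 5) (nat_lit 549) (nat_lit 543) (nat_lit 468)) (XT.lf (nat_lit 76) (nat_lit 2547538336) (nat_lit 0) (nat_lit 4616084617) (nat_lit 1368) (nat_lit 624696196) (nat_lit 617) (nat_lit 5) (nat_lit 616) (nat_lit 5) (nat_lit 634) (nat_lit 5) (nat_lit 550) (nat_lit 543) (nat_lit 467)))))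 (XT.nd (nat_lit 156) (nat_lit 0) (nat_lit 76) (XT.nd (nat_lit 78) (nat_lit 0) (nat_lit 76) (XT.lf (nat_lit 0) (nat_lit 849154699) (nat_lit 1368) (nat_lit 1199016297) (nat_lit 1444) (nat_lit 5793911315) (nat_lit 598) (nat_lit 5) (nat_lit 616) (nat_lit 5) (nat_lit 617) (nat_lit 5) (nat_lit 551) (nat_lit 543) (nat_lit 466)) (XT.lf (nat_lit 0) (nat_lit 2332657095) (nat_lit 1368) (nat_lit 4963825764) (nat_lit 1444) (nat_lit 600588262) (nat_lit 599) (nat_lit 5) (nat_lit 617) (nat_lit 5) (nat_lit 618) (nat_lit 5) (nat_lit 552) (nat_lit 543) (nat_lit 465))) (XT.nd (nat_lit 78) (nat_lit 0) (nat_lit 0) (XT.lf (nat_lit 0) (nat_lit 3833632018) (nat_lit 1368) (nat_lit 823538046) (nat_lit 1444) (nat_lit 3296237272) (nat_lit 599) (nat_lit 5) (nat_lit 617) (nat_lit 5) (nat_lit 618) (nat_lit 5) (nat_lit 553) (nat_lit 543) (nat_lit 464)) (XT.nd (nat_lit 78) (nat_lit 0) (nat_lit 76) (XT.lf (nat_lit 76) (nat_lit 3423546882) (nat_lit 0) (nat_lit 1930110550) (nat_lit 1444) (nat_lit 2657435831)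 (nat_lit 600) (nat_lit 5) (nat_lit 599) (nat_lit 5) (nat_lit 618) (nat_lit 5) (nat_lit 554) (nat_lit 543) (nat_lit 463)) (XT.lf (nat_lit 0) (nat_lit 6882571204) (nat_lit 1368) (nat_lit 330156530) (nat_lit 1444) (nat_lit 857638953) (nat_lit 600) (nat_lit 5) (nat_lit 618) (nat_lit 5) (nat_lit 619) (nat_lit 5) (nat_lit 555) (nat_lit 543) (nat_lit 462)))))) (XT.nd (nat_lit 390) (nat_lit 1368) (nat_lit 0) (XT.nd (nat_lit 156) (nat_lit 0) (nat_lit 76) (XT.nd (nat_lit 78) (nat_lit 0) (nat_lit 0) (XT.lf (nat_lit 0) (nat_lit 314190970) (nat_lit 1444) (nat_lit 4101369164) (nat_lit 1520) (nat_lit 3715087726) (nat_lit 581) (nat_lit 5) (nat_lit 600) (nat_lit 5) (nat_lit 601) (nat_lit 5) (nat_lit 556) (nat_lit 543) (nat_lit 461)) (XT.lf (nat_lit 76) (nat_lit 262479323) (nat_lit 0) (nat_lit 1540097195) (nat_lit 1520) (nat_lit 6389959165) (nat_lit 582) (nat_lit 5) (nat_lit 581) (nat_lit 5) (nat_lit 601) (nat_lit 5) (nat_lit 557) (nat_lit 543) (nat_lit 460))) (XT.nd (nat_lit 78) (nat_lit 0)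 (nat_lit 0) (XT.lf (nat_lit 0) (nat_lit 3326340748) (nat_lit 1444) (nat_lit 3517058008) (nat_lit 1520) (nat_lit 1412153555) (nat_lit 582) (nat_lit 5) (nat_lit 601) (nat_lit 5) (nat_lit 602) (nat_lit 5) (nat_lit 558) (nat_lit 543) (nat_lit 459)) (XT.nd (nat_lit 78) (nat_lit 0) (nat_lit 0) (XT.lf (nat_lit 76) (nat_lit 965167798) (nat_lit 0) (nat_lit 3901351712) (nat_lit 1520) (nat_lit 3453594178) (nat_lit 583) (nat_lit 5) (nat_lit 582) (nat_lit 5) (nat_lit 602) (nat_lit 5) (nat_lit 559) (nat_lit 543) (nat_lit 458)) (XT.lf (nat_lit 76) (nat_lit 5563362616) (nat_lit 0) (nat_lit 867673903) (nat_lit 1520) (nat_lit 1955062222) (nat_lit 583) (nat_lit 5) (nat_lit 582) (nat_lit 5) (nat_lit 602) (nat_lit 5) (nat_lit 560) (nat_lit 543) (nat_lit 457))))) (XT.nd (nat_lit 156) (nat_lit 0) (nat_lit 76) (XT.nd (nat_lit 78) (nat_lit 1520) (nat_lit 0) (XT.lf (nat_lit 76) (nat_lit 1787524852) (nat_lit 0) (nat_lit 6235960266) (nat_lit 1520) (nat_lit 429988629) (nat_lit 584) (nat_lit 5) (nat_lit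 583) (nat_lit 5) (nat_lit 603) (nat_lit 5) (nat_lit 561) (nat_lit 543) (nat_lit 456)) (XT.lf (nat_lit 0) (nat_lit 1106459007) (nat_lit 1520) (nat_lit 2028571501) (nat_lit 1596) (nat_lit 5387109848) (nat_lit 563) (nat_lit 5) (nat_lit 583) (nat_lit 5) (nat_lit 584) (nat_lit 5) (nat_lit 562) (nat_lit 543) (nat_lit 455))) (XT.nd (nat_lit 78) (nat_lit 0) (nat_lit 0) (XT.lf (nat_lit 0) (nat_lit 2657254141) (nat_lit 1520) (nat_lit 5879824221) (nat_lit 1596) (nat_lit 55260469) (nat_lit 564) (nat_lit 5) (nat_lit 584) (nat_lit 5) (nat_lit 585) (nat_lit 5) (nat_lit 563) (nat_lit 543) (nat_lit 454)) (XT.nd (nat_lit 78) (nat_lit 0) (nat_lit 0) (XT.lf (nat_lit 0) (nat_lit 4245391046) (nat_lit 1520) (nat_lit 1130471760) (nat_lit 1596) (nat_lit 3287954798) (nat_lit 564) (nat_lit 5) (nat_lit 584) (nat_lit 5) (nat_lit 585) (nat_lit 5) (nat_lit 564) (nat_lit 543) (nat_lit 453)) (XT.lf (nat_lit 76) (nat_lit 3741495923) (nat_lit 0) (nat_lit 2120499923) (nat_lit 1596) (nat_lit 2874798790) (nat_lit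 565) (nat_lit 5) (nat_lit 564) (nat_lit 5) (nat_lit 585) (nat_lit 5) (nat_lit 565) (nat_lit 543) (nat_lit 452))))))) (XT.nd (nat_lit 780) (nat_lit 5320) (nat_lit 0) (XT.nd (nat_lit 390) (nat_lit 4712) (nat_lit 0) (XT.nd (nat_lit 156) (nat_lit 3268) (nat_lit 0) (XT.nd (nat_lit 78) (nat_lit 1596) (nat_lit 0) (XT.lf (nat_lit 0) (nat_lit 7499213752) (nat_lit 1520) (nat_lit 114579701) (nat_lit 76) (nat_lit 1197674870) (nat_lit 565) (nat_lit 5) (nat_lit 585) (nat_lit 5) (nat_lit 566) (nat_lit 5) (nat_lit 566) (nat_lit 543) (nat_lit 451)) (XT.lf (nat_lit 0) (nat_lit 297166404) (nat_lit 1596) (nat_lit 3996790369) (nat_lit 76) (nat_lit 4593258413) (nat_lit 544) (nat_lit 5) (nat_lit 565) (nat_lit 5) (nat_lit 545) (nat_lit 5) (nat_lit 567) (nat_lit 543) (nat_lit 450))) (XT.nd (nat_lit 78) (nat_lit 1672) (nat_lit 0) (XT.lf (nat_lit 0) (nat_lit 1015575928) (nat_lit 1596) (nat_lit 886606112) (nat_lit 1672) (nat_lit 7062504495) (nat_lit 523) (nat_lit 5) (nat_lit 544) (nat_lit 5) (nat_lit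 545) (nat_lit 5) (nat_lit 568) (nat_lit 543) (nat_lit 449)) (XT.nd (nat_lit 78) (nat_lit 1672) (nat_lit 0) (XT.lf (nat_lit 0) (nat_lit 3557105360) (nat_lit 1672) (nat_lit 2899868988) (nat_lit 76) (nat_lit 2586379342) (nat_lit 523) (nat_lit 5) (nat_lit 545) (nat_lit 5) (nat_lit 524) (nat_lit 5) (nat_lit 569) (nat_lit 543) (nat_lit 448)) (XT.lf (nat_lit 0) (nat_lit 2252380426) (nat_lit 1672) (nat_lit 2987752407) (nat_lit 1748) (nat_lit 3883563717) (nat_lit 501) (nat_lit 5) (nat_lit 523) (nat_lit 5) (nat_lit 524) (nat_lit 5) (nat_lit 570) (nat_lit 543) (nat_lit 447))))) (XT.nd (nat_lit 156) (nat_lit 2964) (nat_lit 0) (XT.nd (nat_lit 78) (nat_lit 1748) (nat_lit 0) (XT.lf (nat_lit 0) (nat_lit 6954879792) (nat_lit 1748) (nat_lit 1684011144) (nat_lit 76) (nat_lit 566796581) (nat_lit 501) (nat_lit 5) (nat_lit 524) (nat_lit 5) (nat_lit 502) (nat_lit 5) (nat_lit 571) (nat_lit 543) (nat_lit 446)) (XT.lf (nat_lit 0) (nat_lit 3613039151) (nat_lit 1748) (nat_lit 5109513409) (nat_lit 1824)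 (nat_lit 566395506) (nat_lit 478) (nat_lit 5) (nat_lit 501) (nat_lit 5) (nat_lit 502) (nat_lit 5) (nat_lit 572) (nat_lit 543) (nat_lit 445))) (XT.nd (nat_lit 78) (nat_lit 2888) (nat_lit 0) (XT.lf (nat_lit 0) (nat_lit 1123542033) (nat_lit 1824) (nat_lit 364127513) (nat_lit 76) (nat_lit 7886318176) (nat_lit 477) (nat_lit 5) (nat_lit 501) (nat_lit 5) (nat_lit 478) (nat_lit 5) (nat_lit 573) (nat_lit 543) (nat_lit 444)) (XT.nd (nat_lit 78) (nat_lit 1064) (nat_lit 0) (XT.lf (nat_lit 0) (nat_lit 2863418588) (nat_lit 1900) (nat_lit 4379449723) (nat_lit 76) (nat_lit 2217312739) (nat_lit 453) (nat_lit 5) (nat_lit 478) (nat_lit 5) (nat_lit 454) (nat_lit 5) (nat_lit 574) (nat_lit 543) (nat_lit 443)) (XT.lf (nat_lit 0) (nat_lit 1073882178) (nat_lit 1064) (nat_lit 3559887734) (nat_lit 1140) (nat_lit 4914416986) (nat_lit 439) (nat_lit 5) (nat_lit 453) (nat_lit 5) (nat_lit 454) (nat_lit 5) (nat_lit 575) (nat_lit 543) (nat_lit 442)))))) (XT.nd (nat_lit 390) (nat_lit 2584) (nat_lit 0) (XT.nd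 (nat_lit 156) (nat_lit 1824) (nat_lit 0) (XT.nd (nat_lit 78) (nat_lit 912) (nat_lit 0) (XT.lf (nat_lit 0) (nat_lit 6447115880) (nat_lit 1140) (nat_lit 2965235540) (nat_lit 76) (nat_lit 225451848) (nat_lit 439) (nat_lit 5) (nat_lit 454) (nat_lit 5) (nat_lit 440) (nat_lit 5) (nat_lit 576) (nat_lit 543) (nat_lit 441)) (XT.lf (nat_lit 0) (nat_lit 2643498109) (nat_lit 912) (nat_lit 5671152876) (nat_lit 988) (nat_lit 1414204648) (nat_lit 427) (nat_lit 5) (nat_lit 439) (nat_lit 5) (nat_lit 440) (nat_lit 5) (nat_lit 577) (nat_lit 543) (nat_lit 440))) (XT.nd (nat_lit 78) (nat_lit 1748) (nat_lit 0) (XT.lf (nat_lit 0) (nat_lit 389960836) (nat_lit 988) (nat_lit 1441217148) (nat_lit 76) (nat_lit 7990554028) (nat_lit 426) (nat_lit 5) (nat_lit 439) (nat_lit 5) (nat_lit 427) (nat_lit 5) (nat_lit 578) (nat_lit 543) (nat_lit 439)) (XT.nd (nat_lit 78) (nat_lit 836) (nat_lit 0) (XT.lf (nat_lit 0) (nat_lit 2231062641) (nat_lit 988) (nat_lit 5587914952) (nat_lit 76) (nat_lit 2096907575) (nat_lit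 414) (nat_lit 5) (nat_lit 427) (nat_lit 5) (nat_lit 415) (nat_lit 5) (nat_lit 579) (nat_lit 543) (nat_lit 438)) (XT.lf (nat_lit 0) (nat_lit 188986965) (nat_lit 836) (nat_lit 3921176118) (nat_lit 912) (nat_lit 5901736725) (nat_lit 403) (nat_lit 5) (nat_lit 414) (nat_lit 5) (nat_lit 415) (nat_lit 5) (nat_lit 580) (nat_lit 543) (nat_lit 437))))) (XT.nd (nat_lit 234) (nat_lit 1748) (nat_lit 0) (XT.nd (nat_lit 78) (nat_lit 836) (nat_lit 0) (XT.lf (nat_lit 0) (nat_lit 6043324056) (nat_lit 912) (nat_lit 3974457620) (nat_lit 76) (nat_lit 91725409) (nat_lit 403) (nat_lit 5) (nat_lit 415) (nat_lit 5) (nat_lit 404) (nat_lit 5) (nat_lit 581) (nat_lit 543) (nat_lit 436)) (XT.nd (nat_lit 78) (nat_lit 0) (nat_lit 0) (XT.lf (nat_lit 0) (nat_lit 1969314106) (nat_lit 836) (nat_lit 6063390212) (nat_lit 912) (nat_lit 2176012943) (nat_lit 392) (nat_lit 5) (nat_lit 403) (nat_lit 5) (nat_lit 404) (nat_lit 5) (nat_lit 582) (nat_lit 543) (nat_lit 435)) (XT.lf (nat_lit 0) (nat_lit 8064465158) (nat_lit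 836) (nat_lit 2003156547) (nat_lit 912) (nat_lit 242176785) (nat_lit 392) (nat_lit 5) (nat_lit 403) (nat_lit 5) (nat_lit 404) (nat_lit 5) (nat_lit 583) (nat_lit 543) (nat_lit 434)))) (XT.nd (nat_lit 78) (nat_lit 836) (nat_lit 0) (XT.lf (nat_lit 0) (nat_lit 1726352633) (nat_lit 912) (nat_lit 6539571745) (nat_lit 76) (nat_lit 2146379842) (nat_lit 380) (nat_lit 5) (nat_lit 392) (nat_lit 5) (nat_lit 381) (nat_lit 5) (nat_lit 584) (nat_lit 543) (nat_lit 433)) (XT.nd (nat_lit 78) (nat_lit 836) (nat_lit 0) (XT.lf (nat_lit 0) (nat_lit 3739060795) (nat_lit 912) (nat_lit 409425731) (nat_lit 76) (nat_lit 6368182236) (nat_lit 380) (nat_lit 5) (nat_lit 392) (nat_lit 5) (nat_lit 381) (nat_lit 5) (nat_lit 585) (nat_lit 543) (nat_lit 432)) (XT.lf (nat_lit 0) (nat_lit 5810921591) (nat_lit 912) (nat_lit 4723709479) (nat_lit 76) (nat_lit 88113257) (nat_lit 369) (nat_lit 5) (nat_lit 381) (nat_lit 5) (nat_lit 370) (nat_lit 5) (nat_lit 586) (nat_lit 543) (nat_lit 431))))))))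
noncomputable def xc120 : XT := (XT.nd (nat_lit 1560) (nat_lit 3800) (nat_lit 0) (XT.nd (nat_lit 780) (nat_lit 3876) (nat_lit 0) (XT.nd (nat_lit 390) (nat_lit 2204) (nat_lit 0) (XT.nd (nat_lit 156) (nat_lit 1520) (nat_lit 0) (XT.nd (nat_lit 78) (nat_lit 0) (nat_lit 0) (XT.lf (nat_lit 0) (nat_lit 1580240038) (nat_lit 760) (nat_lit 6364741247) (nat_lit 836) (nat_lit 2785546550) (nat_lit 359) (nat_lit 5) (nat_lit 369) (nat_lit 5) (nat_lit 370) (nat_lit 5) (nat_lit 587) (nat_lit 543) (nat_lit 430)) (XT.lf (nat_lit 0) (nat_lit 8053118407) (nat_lit 760) (nat_lit 2080814467) (nat_lit 836) (nat_lit 706291559) (nat_lit 359) (nat_lit 5) (nat_lit 369) (nat_lit 5) (nat_lit 370) (nat_lit 5) (nat_lit 588) (nat_lit 543) (nat_lit 429))) (XT.nd (nat_lit 78) (nat_lit 684) (nat_lit 0) (XT.lf (nat_lit 0) (nat_lit 1415997532) (nat_lit 836) (nat_lit 7244957751) (nat_lit 76) (nat_lit 2290577545) (nat_lit 348) (nat_lit 5) (nat_lit 359) (nat_lit 5) (nat_lit 349) (nat_lit 5) (nat_lit 589) (nat_lit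 543) (nat_lit 428)) (XT.nd (nat_lit 78) (nat_lit 684) (nat_lit 0) (XT.lf (nat_lit 0) (nat_lit 3584886419) (nat_lit 836) (nat_lit 736619002) (nat_lit 76) (nat_lit 6743197914) (nat_lit 348) (nat_lit 5) (nat_lit 359) (nat_lit 5) (nat_lit 349) (nat_lit 5) (nat_lit 590) (nat_lit 543) (nat_lit 427)) (XT.lf (nat_lit 0) (nat_lit 5818134130) (nat_lit 760) (nat_lit 5221454088) (nat_lit 76) (nat_lit 140130921) (nat_lit 339) (nat_lit 5) (nat_lit 349) (nat_lit 5) (nat_lit 340) (nat_lit 5) (nat_lit 591) (nat_lit 543) (nat_lit 426))))) (XT.nd (nat_lit 156) (nat_lit 1444) (nat_lit 0) (XT.nd (nat_lit 78) (nat_lit 0) (nat_lit 0) (XT.lf (nat_lit 0) (nat_lit 1469663722) (nat_lit 760) (nat_lit 6651104208) (nat_lit 836) (nat_lit 3175774386) (nat_lit 329) (nat_lit 5) (nat_lit 339) (nat_lit 5) (nat_lit 340) (nat_lit 5) (nat_lit 592) (nat_lit 543) (nat_lit 425)) (XT.lf (nat_lit 0) (nat_lit 8344465935) (nat_lit 760) (nat_lit 2141836499) (nat_lit 836) (nat_lit 929064013) (nat_lit 329) (nat_lit 5) (nat_lit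 339) (nat_lit 5) (nat_lit 340) (nat_lit 5) (nat_lit 593) (nat_lit 543) (nat_lit 424))) (XT.nd (nat_lit 78) (nat_lit 684) (nat_lit 0) (XT.lf (nat_lit 0) (nat_lit 1367856843) (nat_lit 760) (nat_lit 7711434431) (nat_lit 76) (nat_lit 2456637311) (nat_lit 319) (nat_lit 5) (nat_lit 329) (nat_lit 5) (nat_lit 320) (nat_lit 5) (nat_lit 594) (nat_lit 543) (nat_lit 423)) (XT.nd (nat_lit 78) (nat_lit 684) (nat_lit 0) (XT.lf (nat_lit 0) (nat_lit 3715461808) (nat_lit 760) (nat_lit 800486729) (nat_lit 76) (nat_lit 7142488254) (nat_lit 319) (nat_lit 5) (nat_lit 329) (nat_lit 5) (nat_lit 320) (nat_lit 5) (nat_lit 595) (nat_lit 543) (nat_lit 422)) (XT.lf (nat_lit 0) (nat_lit 6134738978) (nat_lit 760) (nat_lit 5473163967) (nat_lit 76) (nat_lit 174999156) (nat_lit 310) (nat_lit 5) (nat_lit 320) (nat_lit 5) (nat_lit 311) (nat_lit 5) (nat_lit 596) (nat_lit 543) (nat_lit 421)))))) (XT.nd (nat_lit 390) (nat_lit 1900) (nat_lit 0) (XT.nd (nat_lit 156) (nat_lit 1368) (nat_lit 0) (XT.nd (nat_lit 78)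 (nat_lit 0) (nat_lit 0) (XT.lf (nat_lit 0) (nat_lit 1634031569) (nat_lit 608) (nat_lit 6997075740) (nat_lit 684) (nat_lit 3278176608) (nat_lit 302) (nat_lit 5) (nat_lit 310) (nat_lit 5) (nat_lit 311) (nat_lit 5) (nat_lit 597) (nat_lit 543) (nat_lit 420)) (XT.lf (nat_lit 0) (nat_lit 8936971998) (nat_lit 608) (nat_lit 2260144944) (nat_lit 684) (nat_lit 840683440) (nat_lit 302) (nat_lit 5) (nat_lit 310) (nat_lit 5) (nat_lit 311) (nat_lit 5) (nat_lit 598) (nat_lit 543) (nat_lit 419))) (XT.nd (nat_lit 78) (nat_lit 608) (nat_lit 0) (XT.lf (nat_lit 0) (nat_lit 1651650894) (nat_lit 760) (nat_lit 7943765753) (nat_lit 76) (nat_lit 2572704621) (nat_lit 292) (nat_lit 5) (nat_lit 302) (nat_lit 5) (nat_lit 293) (nat_lit 5) (nat_lit 599) (nat_lit 543) (nat_lit 418)) (XT.nd (nat_lit 78) (nat_lit 608) (nat_lit 0) (XT.lf (nat_lit 0) (nat_lit 4201881254) (nat_lit 760) (nat_lit 603814668) (nat_lit 76) (nat_lit 7494856605) (nat_lit 292) (nat_lit 5) (nat_lit 302) (nat_lit 5) (nat_lit 293) (nat_lit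 5) (nat_lit 600) (nat_lit 543) (nat_lit 417)) (XT.lf (nat_lit 0) (nat_lit 6832765491) (nat_lit 684) (nat_lit 5481891805) (nat_lit 76) (nat_lit 120383319) (nat_lit 284) (nat_lit 5) (nat_lit 293) (nat_lit 5) (nat_lit 285) (nat_lit 5) (nat_lit 601) (nat_lit 543) (nat_lit 416))))) (XT.nd (nat_lit 156) (nat_lit 1292) (nat_lit 0) (XT.nd (nat_lit 78) (nat_lit 0) (nat_lit 0) (XT.lf (nat_lit 0) (nat_lit 2072278643) (nat_lit 608) (nat_lit 7477219176) (nat_lit 684) (nat_lit 3022057204) (nat_lit 276) (nat_lit 5) (nat_lit 284) (nat_lit 5) (nat_lit 285) (nat_lit 5) (nat_lit 602) (nat_lit 543) (nat_lit 415)) (XT.lf (nat_lit 0) (nat_lit 9831628816) (nat_lit 608) (nat_lit 2509778628) (nat_lit 684) (nat_lit 368976566) (nat_lit 276) (nat_lit 5) (nat_lit 284) (nat_lit 5) (nat_lit 285) (nat_lit 5) (nat_lit 603) (nat_lit 543) (nat_lit 414))) (XT.nd (nat_lit 78) (nat_lit 608) (nat_lit 0) (XT.lf (nat_lit 0) (nat_lit 2339630699) (nat_lit 684) (nat_lit 7944699571) (nat_lit 76) (nat_lit 2566694571)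 (nat_lit 267) (nat_lit 5) (nat_lit 276) (nat_lit 5) (nat_lit 268) (nat_lit 5) (nat_lit 604) (nat_lit 543) (nat_lit 413)) (XT.nd (nat_lit 78) (nat_lit 608) (nat_lit 0) (XT.lf (nat_lit 0) (nat_lit 5117956560) (nat_lit 684) (nat_lit 147333400) (nat_lit 76) (nat_lit 7728731087) (nat_lit 267) (nat_lit 5) (nat_lit 276) (nat_lit 5) (nat_lit 268) (nat_lit 5) (nat_lit 605) (nat_lit 543) (nat_lit 412)) (XT.lf (nat_lit 0) (nat_lit 7889671851) (nat_lit 608) (nat_lit 98123129) (nat_lit 684) (nat_lit 5151364333) (nat_lit 259) (nat_lit 5) (nat_lit 267) (nat_lit 5) (nat_lit 268) (nat_lit 5) (nat_lit 606) (nat_lit 543) (nat_lit 411))))))) (XT.nd (nat_lit 780) (nat_lit 532) (nat_lit 0) (XT.nd (nat_lit 390) (nat_lit 1596) (nat_lit 0) (XT.nd (nat_lit 156) (nat_lit 1064) (nat_lit 0) (XT.nd (nat_lit 78) (nat_lit 76) (nat_lit 0) (XT.lf (nat_lit 0) (nat_lit 2785247464) (nat_lit 532) (nat_lit 8167307714) (nat_lit 608) (nat_lit 2333895702) (nat_lit 252) (nat_lit 5) (nat_lit 259) (nat_lit 5) (nat_lit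 260) (nat_lit 5) (nat_lit 607) (nat_lit 543) (nat_lit 410)) (XT.lf (nat_lit 0) (nat_lit 553882735) (nat_lit 608) (nat_lit 2408533488) (nat_lit 76) (nat_lit 10473782108) (nat_lit 251) (nat_lit 5) (nat_lit 259) (nat_lit 5) (nat_lit 252) (nat_lit 5) (nat_lit 608) (nat_lit 543) (nat_lit 409))) (XT.nd (nat_lit 78) (nat_lit 532) (nat_lit 0) (XT.lf (nat_lit 0) (nat_lit 3507211700) (nat_lit 608) (nat_lit 7715569641) (nat_lit 76) (nat_lit 2365070909) (nat_lit 244) (nat_lit 5) (nat_lit 252) (nat_lit 5) (nat_lit 245) (nat_lit 5) (nat_lit 609) (nat_lit 543) (nat_lit 408)) (XT.nd (nat_lit 78) (nat_lit 0) (nat_lit 0) (XT.lf (nat_lit 0) (nat_lit 577255589) (nat_lit 532) (nat_lit 5967346555) (nat_lit 608) (nat_lit 7197438162) (nat_lit 237) (nat_lit 5) (nat_lit 244) (nat_lit 5) (nat_lit 245) (nat_lit 5) (nat_lit 610) (nat_lit 543) (nat_lit 407)) (XT.lf (nat_lit 0) (nat_lit 9120916877) (nat_lit 532) (nat_lit 559117595) (nat_lit 608) (nat_lit 4218532708) (nat_lit 237) (nat_lit 5) (nat_lit 244)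 (nat_lit 5) (nat_lit 245) (nat_lit 5) (nat_lit 611) (nat_lit 543) (nat_lit 406))))) (XT.nd (nat_lit 156) (nat_lit 988) (nat_lit 0) (XT.nd (nat_lit 78) (nat_lit 76) (nat_lit 0) (XT.lf (nat_lit 0) (nat_lit 3775076871) (nat_lit 532) (nat_lit 9145564668) (nat_lit 608) (nat_lit 1136734651) (nat_lit 230) (nat_lit 5) (nat_lit 237) (nat_lit 5) (nat_lit 238) (nat_lit 5) (nat_lit 612) (nat_lit 543) (nat_lit 405)) (XT.lf (nat_lit 0) (nat_lit 2002185942) (nat_lit 608) (nat_lit 1691579081) (nat_lit 76) (nat_lit 10524900568) (nat_lit 229) (nat_lit 5) (nat_lit 237) (nat_lit 5) (nat_lit 230) (nat_lit 5) (nat_lit 613) (nat_lit 543) (nat_lit 404))) (XT.nd (nat_lit 78) (nat_lit 532) (nat_lit 0) (XT.lf (nat_lit 0) (nat_lit 5233574111) (nat_lit 532) (nat_lit 7256937572) (nat_lit 76) (nat_lit 1891621488) (nat_lit 223) (nat_lit 5) (nat_lit 230) (nat_lit 5) (nat_lit 224) (nat_lit 5) (nat_lit 614) (nat_lit 543) (nat_lit 403)) (XT.nd (nat_lit 78) (nat_lit 0) (nat_lit 0) (XT.lf (nat_lit 0) (nat_lit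 1569369600) (nat_lit 532) (nat_lit 6992520013) (nat_lit 608) (nat_lit 5986335348) (nat_lit 216) (nat_lit 5) (nat_lit 223) (nat_lit 5) (nat_lit 224) (nat_lit 5) (nat_lit 615) (nat_lit 543) (nat_lit 402)) (XT.lf (nat_lit 0) (nat_lit 10651431109) (nat_lit 532) (nat_lit 1340405671) (nat_lit 608) (nat_lit 2725101333) (nat_lit 216) (nat_lit 5) (nat_lit 223) (nat_lit 5) (nat_lit 224) (nat_lit 5) (nat_lit 616) (nat_lit 543) (nat_lit 401)))))) (XT.nd (nat_lit 75816) (nat_lit 0) (nat_lit 29488) (XT.nd (nat_lit 75582) (nat_lit 0) (nat_lit 30780) (XT.nd (nat_lit 75504) (nat_lit 0) (nat_lit 32072) (XT.lf (nat_lit 0) (nat_lit 641868707) (nat_lit 532) (nat_lit 9847746827) (nat_lit 76) (nat_lit 4398364741) (nat_lit 209) (nat_lit 5) (nat_lit 216) (nat_lit 5) (nat_lit 210) (nat_lit 5) (nat_lit 617) (nat_lit 543) (nat_lit 400)) (XT.lf (nat_lit 0) (nat_lit 3565705715) (nat_lit 1292) (nat_lit 101934621) (nat_lit 1292) (nat_lit 101934621) (nat_lit 631) (nat_lit 3) (nat_lit 648) (nat_lit 3) (nat_lit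 648) (nat_lit 5) (nat_lit 544) (nat_lit 544) (nat_lit 472))) (XT.nd (nat_lit 78) (nat_lit 0) (nat_lit 0) (XT.lf (nat_lit 0) (nat_lit 1046978931) (nat_lit 1292) (nat_lit 4018964007) (nat_lit 1368) (nat_lit 2519422951) (nat_lit 614) (nat_lit 5) (nat_lit 631) (nat_lit 3) (nat_lit 632) (nat_lit 5) (nat_lit 545) (nat_lit 544) (nat_lit 471)) (XT.nd (nat_lit 78) (nat_lit 0) (nat_lit 0) (XT.lf (nat_lit 0) (nat_lit 2489077018) (nat_lit 1292) (nat_lit 240107620) (nat_lit 1368) (nat_lit 4903996948) (nat_lit 614) (nat_lit 5) (nat_lit 631) (nat_lit 3) (nat_lit 632) (nat_lit 5) (nat_lit 546) (nat_lit 544) (nat_lit 470)) (XT.lf (nat_lit 76) (nat_lit 3642726973) (nat_lit 0) (nat_lit 304042763) (nat_lit 1368) (nat_lit 3735452951) (nat_lit 615) (nat_lit 5) (nat_lit 614) (nat_lit 5) (nat_lit 632) (nat_lit 5) (nat_lit 547) (nat_lit 544) (nat_lit 469))))) (XT.nd (nat_lit 234) (nat_lit 0) (nat_lit 76) (XT.nd (nat_lit 78) (nat_lit 1368) (nat_lit 0) (XT.lf (nat_lit 0) (nat_lit 5413135651) (nat_lit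 1292) (nat_lit 159923830) (nat_lit 1368) (nat_lit 2159598805) (nat_lit 615) (nat_lit 5) (nat_lit 632) (nat_lit 5) (nat_lit 633) (nat_lit 5) (nat_lit 548) (nat_lit 544) (nat_lit 468)) (XT.nd (nat_lit 78) (nat_lit 1368) (nat_lit 0) (XT.lf (nat_lit 76) (nat_lit 3825707413) (nat_lit 0) (nat_lit 3074494546) (nat_lit 1368) (nat_lit 884077158) (nat_lit 616) (nat_lit 5) (nat_lit 615) (nat_lit 5) (nat_lit 633) (nat_lit 5) (nat_lit 549) (nat_lit 544) (nat_lit 467)) (XT.lf (nat_lit 76) (nat_lit 32932017) (nat_lit 0) (nat_lit 505685611) (nat_lit 1444) (nat_lit 7298920276) (nat_lit 598) (nat_lit 5) (nat_lit 597) (nat_lit 5) (nat_lit 616) (nat_lit 5) (nat_lit 550) (nat_lit 544) (nat_lit 466)))) (XT.nd (nat_lit 78) (nat_lit 0) (nat_lit 0) (XT.lf (nat_lit 0) (nat_lit 1983917703) (nat_lit 1368) (nat_lit 3773858485) (nat_lit 1444) (nat_lit 2133852772) (nat_lit 598) (nat_lit 5) (nat_lit 616) (nat_lit 5) (nat_lit 617) (nat_lit 5) (nat_lit 551) (nat_lit 544) (nat_lit 465)) (XT.nd (nat_lit 78)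 (nat_lit 0) (nat_lit 0) (XT.lf (nat_lit 76) (nat_lit 318038115) (nat_lit 0) (nat_lit 3111685142) (nat_lit 1444) (nat_lit 4517650271) (nat_lit 599) (nat_lit 5) (nat_lit 598) (nat_lit 5) (nat_lit 617) (nat_lit 5) (nat_lit 552) (nat_lit 544) (nat_lit 464)) (XT.lf (nat_lit 76) (nat_lit 4522773800) (nat_lit 0) (nat_lit 373713521) (nat_lit 1444) (nat_lit 3107908425) (nat_lit 599) (nat_lit 5) (nat_lit 598) (nat_lit 5) (nat_lit 617) (nat_lit 5) (nat_lit 553) (nat_lit 544) (nat_lit 463))))))))
noncomputable def xc121 : XT := (XT.nd (nat_lit 1560) (nat_lit 11324) (nat_lit 0) (XT.nd (nat_lit 780) (nat_lit 6460) (nat_lit 0) (XT.nd (nat_lit 390) (nat_lit 1444) (nat_lit 0) (XT.nd (nat_lit 156) (nat_lit 1368) (nat_lit 0) (XT.nd (nat_lit 78) (nat_lit 0) (nat_lit 0) (XT.lf (nat_lit 76) (nat_lit 722314207) (nat_lit 0) (nat_lit 5658122045) (nat_lit 1444) (nat_lit 1682368701) (nat_lit 600) (nat_lit 5) (nat_lit 599) (nat_lit 5) (nat_lit 618) (nat_lit 5) (nat_lit 554) (nat_lit 544) (nat_lit 462))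 (XT.lf (nat_lit 76) (nat_lit 5034651437) (nat_lit 0) (nat_lit 2853194798) (nat_lit 1444) (nat_lit 234663935) (nat_lit 600) (nat_lit 5) (nat_lit 599) (nat_lit 5) (nat_lit 618) (nat_lit 5) (nat_lit 555) (nat_lit 544) (nat_lit 461))) (XT.nd (nat_lit 78) (nat_lit 0) (nat_lit 0) (XT.lf (nat_lit 0) (nat_lit 1202348470) (nat_lit 1444) (nat_lit 6946348661) (nat_lit 1520) (nat_lit 35021566) (nat_lit 581) (nat_lit 5) (nat_lit 600) (nat_lit 5) (nat_lit 601) (nat_lit 5) (nat_lit 556) (nat_lit 544) (nat_lit 460)) (XT.nd (nat_lit 78) (nat_lit 0) (nat_lit 0) (XT.lf (nat_lit 0) (nat_lit 2673651598) (nat_lit 1444) (nat_lit 2596314367) (nat_lit 1520) (nat_lit 2975983820) (nat_lit 581) (nat_lit 5) (nat_lit 600) (nat_lit 5) (nat_lit 601) (nat_lit 5) (nat_lit 557) (nat_lit 544) (nat_lit 459)) (XT.lf (nat_lit 76) (nat_lit 1844369759) (nat_lit 0) (nat_lit 2311530975) (nat_lit 1520) (nat_lit 4153897566) (nat_lit 582) (nat_lit 5) (nat_lit 581) (nat_lit 5) (nat_lit 601) (nat_lit 5) (nat_lit 558) (nat_lit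 544) (nat_lit 458))))) (XT.nd (nat_lit 156) (nat_lit 1520) (nat_lit 0) (XT.nd (nat_lit 78) (nat_lit 0) (nat_lit 0) (XT.lf (nat_lit 0) (nat_lit 5659989144) (nat_lit 1444) (nat_lit 1991283855) (nat_lit 1520) (nat_lit 723810041) (nat_lit 582) (nat_lit 5) (nat_lit 601) (nat_lit 5) (nat_lit 602) (nat_lit 5) (nat_lit 559) (nat_lit 544) (nat_lit 457)) (XT.lf (nat_lit 76) (nat_lit 2570085708) (nat_lit 0) (nat_lit 4626727270) (nat_lit 1520) (nat_lit 1244810502) (nat_lit 583) (nat_lit 5) (nat_lit 582) (nat_lit 5) (nat_lit 602) (nat_lit 5) (nat_lit 560) (nat_lit 544) (nat_lit 456))) (XT.nd (nat_lit 78) (nat_lit 0) (nat_lit 76) (XT.lf (nat_lit 0) (nat_lit 235893360) (nat_lit 1520) (nat_lit 1282206467) (nat_lit 1596) (nat_lit 6991677612) (nat_lit 562) (nat_lit 5) (nat_lit 582) (nat_lit 5) (nat_lit 583) (nat_lit 5) (nat_lit 561) (nat_lit 544) (nat_lit 455)) (XT.nd (nat_lit 78) (nat_lit 0) (nat_lit 0) (XT.lf (nat_lit 0) (nat_lit 1734191943) (nat_lit 1520) (nat_lit 5175288716) (nat_lit 1596)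 (nat_lit 1669559184) (nat_lit 563) (nat_lit 5) (nat_lit 583) (nat_lit 5) (nat_lit 584) (nat_lit 5) (nat_lit 562) (nat_lit 544) (nat_lit 454)) (XT.lf (nat_lit 0) (nat_lit 3253125619) (nat_lit 1520) (nat_lit 479798273) (nat_lit 1596) (nat_lit 4916953063) (nat_lit 563) (nat_lit 5) (nat_lit 583) (nat_lit 5) (nat_lit 584) (nat_lit 5) (nat_lit 563) (nat_lit 544) (nat_lit 453)))))) (XT.nd (nat_lit 390) (nat_lit 5092) (nat_lit 0) (XT.nd (nat_lit 156) (nat_lit 1444) (nat_lit 0) (XT.nd (nat_lit 78) (nat_lit 0) (nat_lit 76) (XT.lf (nat_lit 76) (nat_lit 4346031589) (nat_lit 0) (nat_lit 457127833) (nat_lit 1596) (nat_lit 3918959747) (nat_lit 564) (nat_lit 5) (nat_lit 563) (nat_lit 5) (nat_lit 584) (nat_lit 5) (nat_lit 564) (nat_lit 544) (nat_lit 452)) (XT.lf (nat_lit 76) (nat_lit 445209872) (nat_lit 0) (nat_lit 5936795495) (nat_lit 1596) (nat_lit 2413847365) (nat_lit 565) (nat_lit 5) (nat_lit 564) (nat_lit 5) (nat_lit 585) (nat_lit 5) (nat_lit 565) (nat_lit 544) (nat_lit 451))) (XT.nd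 (nat_lit 78) (nat_lit 1520) (nat_lit 0) (XT.lf (nat_lit 76) (nat_lit 5398301244) (nat_lit 0) (nat_lit 2599848796) (nat_lit 1596) (nat_lit 872799171) (nat_lit 565) (nat_lit 5) (nat_lit 564) (nat_lit 5) (nat_lit 585) (nat_lit 5) (nat_lit 566) (nat_lit 544) (nat_lit 450)) (XT.nd (nat_lit 78) (nat_lit 0) (nat_lit 0) (XT.lf (nat_lit 0) (nat_lit 678666754) (nat_lit 1596) (nat_lit 7455962541) (nat_lit 76) (nat_lit 813054819) (nat_lit 544) (nat_lit 5) (nat_lit 565) (nat_lit 5) (nat_lit 545) (nat_lit 5) (nat_lit 567) (nat_lit 544) (nat_lit 449)) (XT.lf (nat_lit 0) (nat_lit 2264272219) (nat_lit 1596) (nat_lit 2467432588) (nat_lit 76) (nat_lit 4293840111) (nat_lit 544) (nat_lit 5) (nat_lit 565) (nat_lit 5) (nat_lit 545) (nat_lit 5) (nat_lit 568) (nat_lit 544) (nat_lit 448))))) (XT.nd (nat_lit 156) (nat_lit 3496) (nat_lit 0) (XT.nd (nat_lit 78) (nat_lit 0) (nat_lit 0) (XT.lf (nat_lit 0) (nat_lit 2634593578) (nat_lit 1596) (nat_lit 1238720285) (nat_lit 1672) (nat_lit 5231817070) (nat_lit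 523) (nat_lit 5) (nat_lit 544) (nat_lit 5) (nat_lit 545) (nat_lit 5) (nat_lit 569) (nat_lit 544) (nat_lit 447)) (XT.lf (nat_lit 0) (nat_lit 5521303497) (nat_lit 1672) (nat_lit 1350291373) (nat_lit 76) (nat_lit 2314580881) (nat_lit 523) (nat_lit 5) (nat_lit 545) (nat_lit 5) (nat_lit 524) (nat_lit 5) (nat_lit 570) (nat_lit 544) (nat_lit 446))) (XT.nd (nat_lit 78) (nat_lit 1824) (nat_lit 0) (XT.lf (nat_lit 0) (nat_lit 3894426879) (nat_lit 1672) (nat_lit 3316814671) (nat_lit 1748) (nat_lit 2057422523) (nat_lit 501) (nat_lit 5) (nat_lit 523) (nat_lit 5) (nat_lit 524) (nat_lit 5) (nat_lit 571) (nat_lit 544) (nat_lit 445)) (XT.nd (nat_lit 78) (nat_lit 1824) (nat_lit 0) (XT.lf (nat_lit 0) (nat_lit 8921974975) (nat_lit 1748) (nat_lit 113521001) (nat_lit 76) (nat_lit 317568587) (nat_lit 501) (nat_lit 5) (nat_lit 524) (nat_lit 5) (nat_lit 502) (nat_lit 5) (nat_lit 572) (nat_lit 544) (nat_lit 444)) (XT.lf (nat_lit 0) (nat_lit 1244462952) (nat_lit 1824) (nat_lit 4167774423) (nat_lit 76)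 (nat_lit 4026102594) (nat_lit 477) (nat_lit 5) (nat_lit 501) (nat_lit 5) (nat_lit 478) (nat_lit 5) (nat_lit 573) (nat_lit 544) (nat_lit 443))))))) (XT.nd (nat_lit 780) (nat_lit 4864) (nat_lit 0) (XT.nd (nat_lit 390) (nat_lit 2584) (nat_lit 0) (XT.nd (nat_lit 156) (nat_lit 2052) (nat_lit 0) (XT.nd (nat_lit 78) (nat_lit 0) (nat_lit 0) (XT.lf (nat_lit 0) (nat_lit 1230911708) (nat_lit 1824) (nat_lit 1702121905) (nat_lit 1900) (nat_lit 6592526890) (nat_lit 453) (nat_lit 5) (nat_lit 477) (nat_lit 5) (nat_lit 478) (nat_lit 5) (nat_lit 574) (nat_lit 544) (nat_lit 442)) (XT.lf (nat_lit 0) (nat_lit 4673903843) (nat_lit 1900) (nat_lit 2854885321) (nat_lit 76) (nat_lit 2085367877) (nat_lit 453) (nat_lit 5) (nat_lit 478) (nat_lit 5) (nat_lit 454) (nat_lit 5) (nat_lit 575) (nat_lit 544) (nat_lit 441))) (XT.nd (nat_lit 78) (nat_lit 988) (nat_lit 0) (XT.lf (nat_lit 0) (nat_lit 2696906945) (nat_lit 1064) (nat_lit 3758776754) (nat_lit 1140) (nat_lit 3248722080) (nat_lit 439) (nat_lit 5) (nat_lit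 453) (nat_lit 5) (nat_lit 454) (nat_lit 5) (nat_lit 576) (nat_lit 544) (nat_lit 440)) (XT.nd (nat_lit 78) (nat_lit 988) (nat_lit 0) (XT.lf (nat_lit 0) (nat_lit 8270577150) (nat_lit 1140) (nat_lit 1419519626) (nat_lit 76) (nat_lit 106415227) (nat_lit 439) (nat_lit 5) (nat_lit 454) (nat_lit 5) (nat_lit 440) (nat_lit 5) (nat_lit 577) (nat_lit 544) (nat_lit 439)) (XT.lf (nat_lit 0) (nat_lit 259297503) (nat_lit 988) (nat_lit 5600722520) (nat_lit 76) (nat_lit 4029791824) (nat_lit 426) (nat_lit 5) (nat_lit 439) (nat_lit 5) (nat_lit 427) (nat_lit 5) (nat_lit 578) (nat_lit 544) (nat_lit 438))))) (XT.nd (nat_lit 156) (nat_lit 1672) (nat_lit 0) (XT.nd (nat_lit 78) (nat_lit 0) (nat_lit 0) (XT.lf (nat_lit 0) (nat_lit 116760988) (nat_lit 912) (nat_lit 1931627493) (nat_lit 988) (nat_lit 7936617705) (nat_lit 414) (nat_lit 5) (nat_lit 426) (nat_lit 5) (nat_lit 427) (nat_lit 5) (nat_lit 579) (nat_lit 544) (nat_lit 437)) (XT.lf (nat_lit 0) (nat_lit 3903085268) (nat_lit 988) (nat_lit 4091788151)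 (nat_lit 76) (nat_lit 2086636427) (nat_lit 414) (nat_lit 5) (nat_lit 427) (nat_lit 5) (nat_lit 415) (nat_lit 5) (nat_lit 580) (nat_lit 544) (nat_lit 436))) (XT.nd (nat_lit 78) (nat_lit 836) (nat_lit 0) (XT.lf (nat_lit 0) (nat_lit 1790073613) (nat_lit 836) (nat_lit 4008155051) (nat_lit 912) (nat_lit 4381649738) (nat_lit 403) (nat_lit 5) (nat_lit 414) (nat_lit 5) (nat_lit 415) (nat_lit 5) (nat_lit 581) (nat_lit 544) (nat_lit 435)) (XT.nd (nat_lit 78) (nat_lit 836) (nat_lit 0) (XT.lf (nat_lit 0) (nat_lit 7738510902) (nat_lit 912) (nat_lit 2456278284) (nat_lit 76) (nat_lit 85282265) (nat_lit 403) (nat_lit 5) (nat_lit 415) (nat_lit 5) (nat_lit 404) (nat_lit 5) (nat_lit 582) (nat_lit 544) (nat_lit 434)) (XT.lf (nat_lit 0) (nat_lit 3595857899) (nat_lit 836) (nat_lit 6151256722) (nat_lit 912) (nat_lit 634565225) (nat_lit 392) (nat_lit 5) (nat_lit 403) (nat_lit 5) (nat_lit 404) (nat_lit 5) (nat_lit 583) (nat_lit 544) (nat_lit 433)))))) (XT.nd (nat_lit 390) (nat_lit 2356) (nat_lit 0)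 (XT.nd (nat_lit 156) (nat_lit 1596) (nat_lit 0) (XT.nd (nat_lit 78) (nat_lit 836) (nat_lit 0) (XT.lf (nat_lit 0) (nat_lit 1289730018) (nat_lit 912) (nat_lit 712088526) (nat_lit 76) (nat_lit 8483406451) (nat_lit 391) (nat_lit 5) (nat_lit 403) (nat_lit 5) (nat_lit 392) (nat_lit 5) (nat_lit 584) (nat_lit 544) (nat_lit 432)) (XT.lf (nat_lit 0) (nat_lit 3274831413) (nat_lit 912) (nat_lit 5074127874) (nat_lit 76) (nat_lit 2241183228) (nat_lit 380) (nat_lit 5) (nat_lit 392) (nat_lit 5) (nat_lit 381) (nat_lit 5) (nat_lit 585) (nat_lit 544) (nat_lit 431))) (XT.nd (nat_lit 78) (nat_lit 760) (nat_lit 0) (XT.lf (nat_lit 0) (nat_lit 1162569637) (nat_lit 836) (nat_lit 4143086947) (nat_lit 912) (nat_lit 5391383033) (nat_lit 369) (nat_lit 5) (nat_lit 380) (nat_lit 5) (nat_lit 381) (nat_lit 5) (nat_lit 586) (nat_lit 544) (nat_lit 430)) (XT.nd (nat_lit 78) (nat_lit 760) (nat_lit 0) (XT.lf (nat_lit 0) (nat_lit 7392977261) (nat_lit 912) (nat_lit 3234694178) (nat_lit 76) (nat_lit 178087275) (nat_lit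 369) (nat_lit 5) (nat_lit 381) (nat_lit 5) (nat_lit 370) (nat_lit 5) (nat_lit 587) (nat_lit 544) (nat_lit 429)) (XT.lf (nat_lit 0) (nat_lit 3184916635) (nat_lit 760) (nat_lit 6366273033) (nat_lit 836) (nat_lit 1364881221) (nat_lit 359) (nat_lit 5) (nat_lit 369) (nat_lit 5) (nat_lit 370) (nat_lit 5) (nat_lit 588) (nat_lit 544) (nat_lit 428))))) (XT.nd (nat_lit 234) (nat_lit 836) (nat_lit 0) (XT.nd (nat_lit 78) (nat_lit 1444) (nat_lit 0) (XT.lf (nat_lit 0) (nat_lit 717475443) (nat_lit 836) (nat_lit 1276843577) (nat_lit 76) (nat_lit 9034117945) (nat_lit 358) (nat_lit 5) (nat_lit 369) (nat_lit 5) (nat_lit 359) (nat_lit 5) (nat_lit 589) (nat_lit 544) (nat_lit 427)) (XT.nd (nat_lit 78) (nat_lit 684) (nat_lit 0) (XT.lf (nat_lit 0) (nat_lit 2855736217) (nat_lit 836) (nat_lit 5811389737) (nat_lit 76) (nat_lit 2475094827) (nat_lit 348) (nat_lit 5) (nat_lit 359) (nat_lit 5) (nat_lit 349) (nat_lit 5) (nat_lit 590) (nat_lit 544) (nat_lit 426)) (XT.lf (nat_lit 0) (nat_lit 806746070) (nat_lit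 684) (nat_lit 4238819864) (nat_lit 760) (nat_lit 6212539743) (nat_lit 339) (nat_lit 5) (nat_lit 348) (nat_lit 5) (nat_lit 349) (nat_lit 5) (nat_lit 591) (nat_lit 544) (nat_lit 425)))) (XT.nd (nat_lit 78) (nat_lit 836) (nat_lit 0) (XT.lf (nat_lit 0) (nat_lit 7302198416) (nat_lit 760) (nat_lit 3762214193) (nat_lit 76) (nat_lit 311436990) (nat_lit 339) (nat_lit 5) (nat_lit 349) (nat_lit 5) (nat_lit 340) (nat_lit 5) (nat_lit 592) (nat_lit 544) (nat_lit 424)) (XT.nd (nat_lit 78) (nat_lit 76) (nat_lit 0) (XT.lf (nat_lit 0) (nat_lit 3052438677) (nat_lit 760) (nat_lit 6581714120) (nat_lit 836) (nat_lit 1861193239) (nat_lit 329) (nat_lit 5) (nat_lit 339) (nat_lit 5) (nat_lit 340) (nat_lit 5) (nat_lit 593) (nat_lit 544) (nat_lit 423)) (XT.lf (nat_lit 0) (nat_lit 398138783) (nat_lit 836) (nat_lit 1585419419) (nat_lit 76) (nat_lit 9633467966) (nat_lit 328) (nat_lit 5) (nat_lit 339) (nat_lit 5) (nat_lit 329) (nat_lit 5) (nat_lit 594) (nat_lit 544) (nat_lit 422))))))))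
noncomputable def xc122 : XT := (XT.nd (nat_lit 1560) (nat_lit 988) (nat_lit 0) (XT.nd (nat_lit 780) (nat_lit 3496) (nat_lit 0) (XT.nd (nat_lit 390) (nat_lit 1976) (nat_lit 0) (XT.nd (nat_lit 156) (nat_lit 684) (nat_lit 0) (XT.nd (nat_lit 78) (nat_lit 684) (nat_lit 0) (XT.lf (nat_lit 0) (nat_lit 2713748956) (nat_lit 760) (nat_lit 6309994673) (nat_lit 76) (nat_lit 2716431306) (nat_lit 319) (nat_lit 5) (nat_lit 329) (nat_lit 5) (nat_lit 320) (nat_lit 5) (nat_lit 595) (nat_lit 544) (nat_lit 421)) (XT.lf (nat_lit 0) (nat_lit 718086512) (nat_lit 684) (nat_lit 4369028174) (nat_lit 760) (nat_lit 6778444437) (nat_lit 310) (nat_lit 5) (nat_lit 319) (nat_lit 5) (nat_lit 320) (nat_lit 5) (nat_lit 596) (nat_lit 544) (nat_lit 420))) (XT.nd (nat_lit 78) (nat_lit 684) (nat_lit 0) (XT.lf (nat_lit 0) (nat_lit 7536150640) (nat_lit 760) (nat_lit 4043400056) (nat_lit 76) (nat_lit 413337530) (nat_lit 310) (nat_lit 5) (nat_lit 320) (nat_lit 5) (nat_lit 311) (nat_lit 5) (nat_lit 597) (nat_lit 544)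 (nat_lit 419)) (XT.nd (nat_lit 78) (nat_lit 76) (nat_lit 0) (XT.lf (nat_lit 0) (nat_lit 3195812896) (nat_lit 608) (nat_lit 6871488498) (nat_lit 684) (nat_lit 2054801098) (nat_lit 302) (nat_lit 5) (nat_lit 310) (nat_lit 5) (nat_lit 311) (nat_lit 5) (nat_lit 598) (nat_lit 544) (nat_lit 418)) (XT.lf (nat_lit 0) (nat_lit 400841645) (nat_lit 684) (nat_lit 1641494028) (nat_lit 76) (nat_lit 10211298263) (nat_lit 301) (nat_lit 5) (nat_lit 310) (nat_lit 5) (nat_lit 302) (nat_lit 5) (nat_lit 599) (nat_lit 544) (nat_lit 417))))) (XT.nd (nat_lit 156) (nat_lit 684) (nat_lit 0) (XT.nd (nat_lit 78) (nat_lit 608) (nat_lit 0) (XT.lf (nat_lit 0) (nat_lit 2918875428) (nat_lit 760) (nat_lit 6573866427) (nat_lit 76) (nat_lit 2893967860) (nat_lit 292) (nat_lit 5) (nat_lit 302) (nat_lit 5) (nat_lit 293) (nat_lit 5) (nat_lit 600) (nat_lit 544) (nat_lit 416)) (XT.lf (nat_lit 0) (nat_lit 894641084) (nat_lit 608) (nat_lit 4607078080) (nat_lit 684) (nat_lit 7020440026) (nat_lit 284) (nat_lit 5) (nat_lit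 292) (nat_lit 5) (nat_lit 293) (nat_lit 5) (nat_lit 601) (nat_lit 544) (nat_lit 415))) (XT.nd (nat_lit 78) (nat_lit 684) (nat_lit 0) (XT.lf (nat_lit 0) (nat_lit 8167256710) (nat_lit 684) (nat_lit 4080488552) (nat_lit 76) (nat_lit 411952799) (nat_lit 284) (nat_lit 5) (nat_lit 293) (nat_lit 5) (nat_lit 285) (nat_lit 5) (nat_lit 602) (nat_lit 544) (nat_lit 414)) (XT.nd (nat_lit 78) (nat_lit 76) (nat_lit 0) (XT.lf (nat_lit 0) (nat_lit 3614824245) (nat_lit 608) (nat_lit 7309758598) (nat_lit 684) (nat_lit 1874636430) (nat_lit 276) (nat_lit 5) (nat_lit 284) (nat_lit 5) (nat_lit 285) (nat_lit 5) (nat_lit 603) (nat_lit 544) (nat_lit 413)) (XT.lf (nat_lit 0) (nat_lit 797227519) (nat_lit 684) (nat_lit 1446607688) (nat_lit 76) (nat_lit 10697350752) (nat_lit 275) (nat_lit 5) (nat_lit 284) (nat_lit 5) (nat_lit 276) (nat_lit 5) (nat_lit 604) (nat_lit 544) (nat_lit 412)))))) (XT.nd (nat_lit 390) (nat_lit 1672) (nat_lit 0) (XT.nd (nat_lit 156) (nat_lit 608) (nat_lit 0) (XT.nd (nat_lit 78)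 (nat_lit 608) (nat_lit 0) (XT.lf (nat_lit 0) (nat_lit 3543840897) (nat_lit 684) (nat_lit 6605004401) (nat_lit 76) (nat_lit 2935971639) (nat_lit 267) (nat_lit 5) (nat_lit 276) (nat_lit 5) (nat_lit 268) (nat_lit 5) (nat_lit 605) (nat_lit 544) (nat_lit 411)) (XT.lf (nat_lit 0) (nat_lit 1336452810) (nat_lit 608) (nat_lit 5027263140) (nat_lit 684) (nat_lit 6867239033) (nat_lit 259) (nat_lit 5) (nat_lit 267) (nat_lit 5) (nat_lit 268) (nat_lit 5) (nat_lit 606) (nat_lit 544) (nat_lit 410))) (XT.nd (nat_lit 78) (nat_lit 608) (nat_lit 0) (XT.lf (nat_lit 0) (nat_lit 9271042857) (nat_lit 684) (nat_lit 3873964066) (nat_lit 76) (nat_lit 234388796) (nat_lit 259) (nat_lit 5) (nat_lit 268) (nat_lit 5) (nat_lit 260) (nat_lit 5) (nat_lit 607) (nat_lit 544) (nat_lit 409)) (XT.nd (nat_lit 78) (nat_lit 76) (nat_lit 0) (XT.lf (nat_lit 0) (nat_lit 4311079794) (nat_lit 532) (nat_lit 7972171333) (nat_lit 608) (nat_lit 1246620442) (nat_lit 252) (nat_lit 5) (nat_lit 259) (nat_lit 5) (nat_lit 260) (nat_lit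 5) (nat_lit 608) (nat_lit 544) (nat_lit 408)) (XT.lf (nat_lit 0) (nat_lit 1662098796) (nat_lit 608) (nat_lit 1000749909) (nat_lit 76) (nat_lit 11020058321) (nat_lit 251) (nat_lit 5) (nat_lit 259) (nat_lit 5) (nat_lit 252) (nat_lit 5) (nat_lit 609) (nat_lit 544) (nat_lit 407))))) (XT.nd (nat_lit 156) (nat_lit 608) (nat_lit 0) (XT.nd (nat_lit 78) (nat_lit 532) (nat_lit 0) (XT.lf (nat_lit 0) (nat_lit 4664718834) (nat_lit 608) (nat_lit 6404080197) (nat_lit 76) (nat_lit 2768991924) (nat_lit 244) (nat_lit 5) (nat_lit 252) (nat_lit 5) (nat_lit 245) (nat_lit 5) (nat_lit 610) (nat_lit 544) (nat_lit 406)) (XT.lf (nat_lit 0) (nat_lit 2044958110) (nat_lit 532) (nat_lit 5706032475) (nat_lit 608) (nat_lit 6244310911) (nat_lit 237) (nat_lit 5) (nat_lit 244) (nat_lit 5) (nat_lit 245) (nat_lit 5) (nat_lit 611) (nat_lit 544) (nat_lit 405))) (XT.nd (nat_lit 78) (nat_lit 608) (nat_lit 0) (XT.lf (nat_lit 0) (nat_lit 10730940519) (nat_lit 532) (nat_lit 197102877) (nat_lit 608) (nat_lit 3227338642)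 (nat_lit 237) (nat_lit 5) (nat_lit 244) (nat_lit 5) (nat_lit 245) (nat_lit 5) (nat_lit 612) (nat_lit 544) (nat_lit 404)) (XT.nd (nat_lit 78) (nat_lit 76) (nat_lit 0) (XT.lf (nat_lit 0) (nat_lit 5287401769) (nat_lit 532) (nat_lit 8937090506) (nat_lit 608) (nat_lit 93055699) (nat_lit 230) (nat_lit 5) (nat_lit 237) (nat_lit 5) (nat_lit 238) (nat_lit 5) (nat_lit 613) (nat_lit 544) (nat_lit 403)) (XT.lf (nat_lit 0) (nat_lit 3074021267) (nat_lit 608) (nat_lit 302983962) (nat_lit 76) (nat_lit 11105333462) (nat_lit 229) (nat_lit 5) (nat_lit 237) (nat_lit 5) (nat_lit 230) (nat_lit 5) (nat_lit 614) (nat_lit 544) (nat_lit 402))))))) (XT.nd (nat_lit 76284) (nat_lit 0) (nat_lit 26296) (XT.nd (nat_lit 75894) (nat_lit 0) (nat_lit 28956) (XT.nd (nat_lit 156) (nat_lit 0) (nat_lit 0) (XT.nd (nat_lit 78) (nat_lit 532) (nat_lit 0) (XT.lf (nat_lit 0) (nat_lit 6361527861) (nat_lit 532) (nat_lit 5971077164) (nat_lit 76) (nat_lit 2316642046) (nat_lit 223) (nat_lit 5) (nat_lit 230) (nat_lit 5) (nat_lit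 224) (nat_lit 5) (nat_lit 615) (nat_lit 544) (nat_lit 401)) (XT.lf (nat_lit 0) (nat_lit 3022341682) (nat_lit 532) (nat_lit 6723233502) (nat_lit 608) (nat_lit 5073303439) (nat_lit 216) (nat_lit 5) (nat_lit 223) (nat_lit 5) (nat_lit 224) (nat_lit 5) (nat_lit 616) (nat_lit 544) (nat_lit 400))) (XT.nd (nat_lit 75582) (nat_lit 0) (nat_lit 30248) (XT.lf (nat_lit 0) (nat_lit 12258170211) (nat_lit 532) (nat_lit 966099166) (nat_lit 608) (nat_lit 1767094912) (nat_lit 216) (nat_lit 5) (nat_lit 223) (nat_lit 5) (nat_lit 224) (nat_lit 5) (nat_lit 617) (nat_lit 544) (nat_lit 399)) (XT.nd (nat_lit 78) (nat_lit 0) (nat_lit 0) (XT.lf (nat_lit 0) (nat_lit 611792761) (nat_lit 0) (nat_lit 611792761) (nat_lit 1292) (nat_lit 2592671758) (nat_lit 614) (nat_lit 5) (nat_lit 614) (nat_lit 3) (nat_lit 631) (nat_lit 3) (nat_lit 545) (nat_lit 545) (nat_lit 470)) (XT.lf (nat_lit 0) (nat_lit 3863058305) (nat_lit 1292) (nat_lit 2631719385) (nat_lit 1368) (nat_lit 1186078839) (nat_lit 614) (nat_lit 5) (nat_lit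 631) (nat_lit 3) (nat_lit 632) (nat_lit 5) (nat_lit 546) (nat_lit 545) (nat_lit 469))))) (XT.nd (nat_lit 156) (nat_lit 1292) (nat_lit 0) (XT.nd (nat_lit 78) (nat_lit 0) (nat_lit 0) (XT.lf (nat_lit 76) (nat_lit 1209803987) (nat_lit 0) (nat_lit 4077242553) (nat_lit 1368) (nat_lit 2443527189) (nat_lit 615) (nat_lit 5) (nat_lit 614) (nat_lit 5) (nat_lit 632) (nat_lit 5) (nat_lit 547) (nat_lit 545) (nat_lit 468)) (XT.lf (nat_lit 76) (nat_lit 5144962377) (nat_lit 0) (nat_lit 1576624352) (nat_lit 1368) (nat_lit 1060061084) (nat_lit 615) (nat_lit 5) (nat_lit 614) (nat_lit 5) (nat_lit 632) (nat_lit 5) (nat_lit 548) (nat_lit 545) (nat_lit 467))) (XT.nd (nat_lit 78) (nat_lit 0) (nat_lit 0) (XT.lf (nat_lit 0) (nat_lit 326423322) (nat_lit 1368) (nat_lit 6519574612) (nat_lit 1444) (nat_lit 988104617) (nat_lit 597) (nat_lit 5) (nat_lit 615) (nat_lit 5) (nat_lit 616) (nat_lit 5) (nat_lit 549) (nat_lit 545) (nat_lit 466)) (XT.nd (nat_lit 78) (nat_lit 0) (nat_lit 0) (XT.lf (nat_lit 0) (nat_lit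 1720251668) (nat_lit 1368) (nat_lit 2543966523) (nat_lit 1444) (nat_lit 3623375638) (nat_lit 597) (nat_lit 5) (nat_lit 615) (nat_lit 5) (nat_lit 616) (nat_lit 5) (nat_lit 550) (nat_lit 545) (nat_lit 465)) (XT.lf (nat_lit 76) (nat_lit 1511723498) (nat_lit 0) (nat_lit 1606267073) (nat_lit 1444) (nat_lit 4824647359) (nat_lit 598) (nat_lit 5) (nat_lit 597) (nat_lit 5) (nat_lit 616) (nat_lit 5) (nat_lit 551) (nat_lit 545) (nat_lit 464)))))) (XT.nd (nat_lit 390) (nat_lit 1368) (nat_lit 0) (XT.nd (nat_lit 156) (nat_lit 1368) (nat_lit 0) (XT.nd (nat_lit 78) (nat_lit 0) (nat_lit 0) (XT.lf (nat_lit 0) (nat_lit 4534890715) (nat_lit 1368) (nat_lit 2342606623) (nat_lit 1444) (nat_lit 1121465054) (nat_lit 598) (nat_lit 5) (nat_lit 616) (nat_lit 5) (nat_lit 617) (nat_lit 5) (nat_lit 552) (nat_lit 545) (nat_lit 463)) (XT.lf (nat_lit 76) (nat_lit 1821215218) (nat_lit 0) (nat_lit 4148874414) (nat_lit 1444) (nat_lit 2086528031) (nat_lit 599) (nat_lit 5) (nat_lit 598) (nat_lit 5) (nat_lit 617)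 (nat_lit 5) (nat_lit 553) (nat_lit 545) (nat_lit 462))) (XT.nd (nat_lit 78) (nat_lit 1368) (nat_lit 0) (XT.lf (nat_lit 76) (nat_lit 6080696277) (nat_lit 0) (nat_lit 1337026585) (nat_lit 1444) (nat_lit 698032039) (nat_lit 599) (nat_lit 5) (nat_lit 598) (nat_lit 5) (nat_lit 617) (nat_lit 5) (nat_lit 554) (nat_lit 545) (nat_lit 461)) (XT.nd (nat_lit 78) (nat_lit 0) (nat_lit 0) (XT.lf (nat_lit 0) (nat_lit 702027497) (nat_lit 1444) (nat_lit 5931685267) (nat_lit 1520) (nat_lit 1542407919) (nat_lit 580) (nat_lit 5) (nat_lit 599) (nat_lit 5) (nat_lit 600) (nat_lit 5) (nat_lit 555) (nat_lit 545) (nat_lit 460)) (XT.lf (nat_lit 0) (nat_lit 2112348384) (nat_lit 1444) (nat_lit 1633871862) (nat_lit 1520) (nat_lit 4491552385) (nat_lit 580) (nat_lit 5) (nat_lit 599) (nat_lit 5) (nat_lit 600) (nat_lit 5) (nat_lit 556) (nat_lit 545) (nat_lit 459))))) (XT.nd (nat_lit 234) (nat_lit 1368) (nat_lit 0) (XT.nd (nat_lit 78) (nat_lit 0) (nat_lit 76) (XT.lf (nat_lit 76) (nat_lit 2766585355) (nat_lit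 0) (nat_lit 771857583) (nat_lit 1520) (nat_lit 4762466541) (nat_lit 581) (nat_lit 5) (nat_lit 580) (nat_lit 5) (nat_lit 600) (nat_lit 5) (nat_lit 557) (nat_lit 545) (nat_lit 458)) (XT.nd (nat_lit 78) (nat_lit 0) (nat_lit 0) (XT.lf (nat_lit 0) (nat_lit 4988924716) (nat_lit 1444) (nat_lit 1122786810) (nat_lit 1520) (nat_lit 2253683368) (nat_lit 581) (nat_lit 5) (nat_lit 600) (nat_lit 5) (nat_lit 601) (nat_lit 5) (nat_lit 558) (nat_lit 545) (nat_lit 457)) (XT.lf (nat_lit 76) (nat_lit 3396675118) (nat_lit 0) (nat_lit 3069633794) (nat_lit 1520) (nat_lit 1964906331) (nat_lit 582) (nat_lit 5) (nat_lit 581) (nat_lit 5) (nat_lit 601) (nat_lit 5) (nat_lit 559) (nat_lit 545) (nat_lit 456)))) (XT.nd (nat_lit 78) (nat_lit 1520) (nat_lit 0) (XT.lf (nat_lit 0) (nat_lit 7952275414) (nat_lit 1444) (nat_lit 496973322) (nat_lit 1520) (nat_lit 49525588) (nat_lit 582) (nat_lit 5) (nat_lit 601) (nat_lit 5) (nat_lit 602) (nat_lit 5) (nat_lit 560) (nat_lit 545) (nat_lit 455)) (XT.nd (nat_lit 78)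 (nat_lit 0) (nat_lit 0) (XT.lf (nat_lit 0) (nat_lit 907634949) (nat_lit 1520) (nat_lit 4427747349) (nat_lit 1596) (nat_lit 3231804973) (nat_lit 562) (nat_lit 5) (nat_lit 582) (nat_lit 5) (nat_lit 583) (nat_lit 5) (nat_lit 561) (nat_lit 545) (nat_lit 454)) (XT.lf (nat_lit 76) (nat_lit 217529200) (nat_lit 0) (nat_lit 2142817145) (nat_lit 1596) (nat_lit 6277016481) (nat_lit 563) (nat_lit 5) (nat_lit 562) (nat_lit 5) (nat_lit 583) (nat_lit 5) (nat_lit 562) (nat_lit 545) (nat_lit 453))))))))
noncomputable def xc123 : XT := (XT.nd (nat_lit 1560) (nat_lit 9044) (nat_lit 0) (XT.nd (nat_lit 780) (nat_lit 7448) (nat_lit 0) (XT.nd (nat_lit 390) (nat_lit 3192) (nat_lit 0) (XT.nd (nat_lit 156) (nat_lit 1520) (nat_lit 0) (XT.nd (nat_lit 78) (nat_lit 0) (nat_lit 0) (XT.lf (nat_lit 0) (nat_lit 3851755617) (nat_lit 1520) (nat_lit 3720613453) (nat_lit 1596) (nat_lit 1136382738) (nat_lit 563) (nat_lit 5) (nat_lit 583) (nat_lit 5) (nat_lit 584) (nat_lit 5) (nat_lit 563) (nat_lit 545) (nat_lit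 452)) (XT.lf (nat_lit 76) (nat_lit 1052031815) (nat_lit 0) (nat_lit 4315025858) (nat_lit 1596) (nat_lit 3414632337) (nat_lit 564) (nat_lit 5) (nat_lit 563) (nat_lit 5) (nat_lit 584) (nat_lit 5) (nat_lit 564) (nat_lit 545) (nat_lit 451))) (XT.nd (nat_lit 78) (nat_lit 1520) (nat_lit 0) (XT.lf (nat_lit 76) (nat_lit 5950530502) (nat_lit 0) (nat_lit 960544306) (nat_lit 1596) (nat_lit 1945046668) (nat_lit 564) (nat_lit 5) (nat_lit 563) (nat_lit 5) (nat_lit 584) (nat_lit 5) (nat_lit 565) (nat_lit 545) (nat_lit 450)) (XT.nd (nat_lit 78) (nat_lit 1596) (nat_lit 0) (XT.lf (nat_lit 76) (nat_lit 2005070347) (nat_lit 0) (nat_lit 6483902850) (nat_lit 1596) (nat_lit 443010984) (nat_lit 565) (nat_lit 5) (nat_lit 564) (nat_lit 5) (nat_lit 585) (nat_lit 5) (nat_lit 566) (nat_lit 545) (nat_lit 449)) (XT.lf (nat_lit 0) (nat_lit 1074981773) (nat_lit 1596) (nat_lit 1989622309) (nat_lit 1672) (nat_lit 5944617172) (nat_lit 543) (nat_lit 5) (nat_lit 564) (nat_lit 5) (nat_lit 565) (nat_lit 5) (nat_lit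 567) (nat_lit 545) (nat_lit 448))))) (XT.nd (nat_lit 156) (nat_lit 3268) (nat_lit 0) (XT.nd (nat_lit 78) (nat_lit 0) (nat_lit 0) (XT.lf (nat_lit 0) (nat_lit 2614948410) (nat_lit 1596) (nat_lit 6027342980) (nat_lit 76) (nat_lit 445704671) (nat_lit 544) (nat_lit 5) (nat_lit 565) (nat_lit 5) (nat_lit 545) (nat_lit 5) (nat_lit 568) (nat_lit 545) (nat_lit 447)) (XT.lf (nat_lit 0) (nat_lit 4194565820) (nat_lit 1596) (nat_lit 969978482) (nat_lit 76) (nat_lit 4003627458) (nat_lit 544) (nat_lit 5) (nat_lit 565) (nat_lit 5) (nat_lit 545) (nat_lit 5) (nat_lit 569) (nat_lit 545) (nat_lit 446))) (XT.nd (nat_lit 78) (nat_lit 1672) (nat_lit 0) (XT.lf (nat_lit 0) (nat_lit 4223911873) (nat_lit 1596) (nat_lit 1584892277) (nat_lit 1672) (nat_lit 3441088633) (nat_lit 523) (nat_lit 5) (nat_lit 544) (nat_lit 5) (nat_lit 545) (nat_lit 5) (nat_lit 570) (nat_lit 545) (nat_lit 445)) (XT.nd (nat_lit 78) (nat_lit 0) (nat_lit 0) (XT.lf (nat_lit 0) (nat_lit 170084385) (nat_lit 1672) (nat_lit 7282295839)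 (nat_lit 1748) (nat_lit 1880929276) (nat_lit 501) (nat_lit 5) (nat_lit 523) (nat_lit 5) (nat_lit 524) (nat_lit 5) (nat_lit 571) (nat_lit 545) (nat_lit 444)) (XT.lf (nat_lit 0) (nat_lit 5507300849) (nat_lit 1672) (nat_lit 3642000653) (nat_lit 1748) (nat_lit 268685864) (nat_lit 501) (nat_lit 5) (nat_lit 523) (nat_lit 5) (nat_lit 524) (nat_lit 5) (nat_lit 572) (nat_lit 545) (nat_lit 443)))))) (XT.nd (nat_lit 390) (nat_lit 2736) (nat_lit 0) (XT.nd (nat_lit 156) (nat_lit 2888) (nat_lit 0) (XT.nd (nat_lit 78) (nat_lit 0) (nat_lit 0) (XT.lf (nat_lit 0) (nat_lit 1344317527) (nat_lit 1824) (nat_lit 8068433233) (nat_lit 76) (nat_lit 91700395) (nat_lit 477) (nat_lit 5) (nat_lit 501) (nat_lit 5) (nat_lit 478) (nat_lit 5) (nat_lit 573) (nat_lit 545) (nat_lit 442)) (XT.lf (nat_lit 0) (nat_lit 3013498137) (nat_lit 1824) (nat_lit 2696053301) (nat_lit 76) (nat_lit 3882509120) (nat_lit 477) (nat_lit 5) (nat_lit 501) (nat_lit 5) (nat_lit 478) (nat_lit 5) (nat_lit 574) (nat_lit 545) (nat_lit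 441))) (XT.nd (nat_lit 78) (nat_lit 1064) (nat_lit 0) (XT.lf (nat_lit 0) (nat_lit 2800375786) (nat_lit 1824) (nat_lit 1911295650) (nat_lit 1900) (nat_lit 4969840645) (nat_lit 453) (nat_lit 5) (nat_lit 477) (nat_lit 5) (nat_lit 478) (nat_lit 5) (nat_lit 575) (nat_lit 545) (nat_lit 440)) (XT.nd (nat_lit 78) (nat_lit 1064) (nat_lit 0) (XT.lf (nat_lit 0) (nat_lit 6452519255) (nat_lit 1900) (nat_lit 1362431513) (nat_lit 76) (nat_lit 1957629717) (nat_lit 453) (nat_lit 5) (nat_lit 478) (nat_lit 5) (nat_lit 454) (nat_lit 5) (nat_lit 576) (nat_lit 545) (nat_lit 439)) (XT.lf (nat_lit 0) (nat_lit 4290202181) (nat_lit 1064) (nat_lit 3956685146) (nat_lit 1140) (nat_lit 1618210895) (nat_lit 439) (nat_lit 5) (nat_lit 453) (nat_lit 5) (nat_lit 454) (nat_lit 5) (nat_lit 577) (nat_lit 545) (nat_lit 438))))) (XT.nd (nat_lit 156) (nat_lit 1748) (nat_lit 0) (XT.nd (nat_lit 78) (nat_lit 0) (nat_lit 0) (XT.lf (nat_lit 0) (nat_lit 95286146) (nat_lit 912) (nat_lit 9013523) (nat_lit 988) (nat_lit 9855389986)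 (nat_lit 426) (nat_lit 5) (nat_lit 438) (nat_lit 5) (nat_lit 439) (nat_lit 5) (nat_lit 578) (nat_lit 545) (nat_lit 437)) (XT.lf (nat_lit 0) (nat_lit 1882003393) (nat_lit 988) (nat_lit 4158549580) (nat_lit 76) (nat_lit 4014559714) (nat_lit 426) (nat_lit 5) (nat_lit 439) (nat_lit 5) (nat_lit 427) (nat_lit 5) (nat_lit 579) (nat_lit 545) (nat_lit 436))) (XT.nd (nat_lit 78) (nat_lit 836) (nat_lit 0) (XT.lf (nat_lit 0) (nat_lit 1663058682) (nat_lit 912) (nat_lit 2022125860) (nat_lit 988) (nat_lit 6467463047) (nat_lit 414) (nat_lit 5) (nat_lit 426) (nat_lit 5) (nat_lit 427) (nat_lit 5) (nat_lit 580) (nat_lit 545) (nat_lit 435)) (XT.nd (nat_lit 78) (nat_lit 836) (nat_lit 0) (XT.lf (nat_lit 0) (nat_lit 5545354370) (nat_lit 988) (nat_lit 2628174951) (nat_lit 76) (nat_lit 2078187207) (nat_lit 414) (nat_lit 5) (nat_lit 427) (nat_lit 5) (nat_lit 415) (nat_lit 5) (nat_lit 581) (nat_lit 545) (nat_lit 434)) (XT.lf (nat_lit 0) (nat_lit 3361156621) (nat_lit 836) (nat_lit 4096541346) (nat_lit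 912) (nat_lit 2894771275) (nat_lit 403) (nat_lit 5) (nat_lit 414) (nat_lit 5) (nat_lit 415) (nat_lit 5) (nat_lit 582) (nat_lit 545) (nat_lit 433))))))) (XT.nd (nat_lit 780) (nat_lit 4180) (nat_lit 0) (XT.nd (nat_lit 390) (nat_lit 2280) (nat_lit 0) (XT.nd (nat_lit 156) (nat_lit 1672) (nat_lit 0) (XT.nd (nat_lit 78) (nat_lit 912) (nat_lit 0) (XT.lf (nat_lit 0) (nat_lit 9406468707) (nat_lit 912) (nat_lit 969774776) (nat_lit 76) (nat_lit 79031690) (nat_lit 403) (nat_lit 5) (nat_lit 415) (nat_lit 5) (nat_lit 404) (nat_lit 5) (nat_lit 583) (nat_lit 545) (nat_lit 432)) (XT.lf (nat_lit 0) (nat_lit 864674144) (nat_lit 912) (nat_lit 5371701013) (nat_lit 76) (nat_lit 4322824745) (nat_lit 391) (nat_lit 5) (nat_lit 403) (nat_lit 5) (nat_lit 392) (nat_lit 5) (nat_lit 584) (nat_lit 545) (nat_lit 431))) (XT.nd (nat_lit 78) (nat_lit 836) (nat_lit 0) (XT.lf (nat_lit 0) (nat_lit 799483459) (nat_lit 836) (nat_lit 1995194474) (nat_lit 912) (nat_lit 7870542266) (nat_lit 380) (nat_lit 5) (nat_lit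 391) (nat_lit 5) (nat_lit 392) (nat_lit 5) (nat_lit 585) (nat_lit 545) (nat_lit 430)) (XT.nd (nat_lit 78) (nat_lit 836) (nat_lit 0) (XT.lf (nat_lit 0) (nat_lit 4795491178) (nat_lit 912) (nat_lit 3641358889) (nat_lit 76) (nat_lit 2335868281) (nat_lit 380) (nat_lit 5) (nat_lit 392) (nat_lit 5) (nat_lit 381) (nat_lit 5) (nat_lit 586) (nat_lit 545) (nat_lit 429)) (XT.lf (nat_lit 0) (nat_lit 2709978812) (nat_lit 836) (nat_lit 4138317273) (nat_lit 912) (nat_lit 4033832469) (nat_lit 369) (nat_lit 5) (nat_lit 380) (nat_lit 5) (nat_lit 381) (nat_lit 5) (nat_lit 587) (nat_lit 545) (nat_lit 428))))) (XT.nd (nat_lit 156) (nat_lit 1444) (nat_lit 0) (XT.nd (nat_lit 78) (nat_lit 836) (nat_lit 0) (XT.lf (nat_lit 0) (nat_lit 8949753797) (nat_lit 912) (nat_lit 1777387398) (nat_lit 76) (nat_lit 266435404) (nat_lit 369) (nat_lit 5) (nat_lit 381) (nat_lit 5) (nat_lit 370) (nat_lit 5) (nat_lit 588) (nat_lit 545) (nat_lit 427)) (XT.lf (nat_lit 0) (nat_lit 26515546) (nat_lit 836) (nat_lit 6346025506)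 (nat_lit 76) (nat_lit 4733908989) (nat_lit 358) (nat_lit 5) (nat_lit 369) (nat_lit 5) (nat_lit 359) (nat_lit 5) (nat_lit 589) (nat_lit 545) (nat_lit 426))) (XT.nd (nat_lit 78) (nat_lit 684) (nat_lit 0) (XT.lf (nat_lit 0) (nat_lit 200954005) (nat_lit 760) (nat_lit 1905151866) (nat_lit 836) (nat_lit 9115302127) (nat_lit 348) (nat_lit 5) (nat_lit 358) (nat_lit 5) (nat_lit 359) (nat_lit 5) (nat_lit 590) (nat_lit 545) (nat_lit 425)) (XT.nd (nat_lit 78) (nat_lit 684) (nat_lit 0) (XT.lf (nat_lit 0) (nat_lit 4269462565) (nat_lit 836) (nat_lit 4410444166) (nat_lit 76) (nat_lit 2657916342) (nat_lit 348) (nat_lit 5) (nat_lit 359) (nat_lit 5) (nat_lit 349) (nat_lit 5) (nat_lit 591) (nat_lit 545) (nat_lit 424)) (XT.lf (nat_lit 0) (nat_lit 2330072953) (nat_lit 684) (nat_lit 4156201386) (nat_lit 760) (nat_lit 4970089774) (nat_lit 339) (nat_lit 5) (nat_lit 348) (nat_lit 5) (nat_lit 349) (nat_lit 5) (nat_lit 592) (nat_lit 545) (nat_lit 423)))))) (XT.nd (nat_lit 390) (nat_lit 1976) (nat_lit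 0) (XT.nd (nat_lit 156) (nat_lit 1444) (nat_lit 0) (XT.nd (nat_lit 78) (nat_lit 760) (nat_lit 0) (XT.lf (nat_lit 0) (nat_lit 8762834467) (nat_lit 760) (nat_lit 2334508672) (nat_lit 76) (nat_lit 479625987) (nat_lit 339) (nat_lit 5) (nat_lit 349) (nat_lit 5) (nat_lit 340) (nat_lit 5) (nat_lit 593) (nat_lit 545) (nat_lit 422)) (XT.lf (nat_lit 0) (nat_lit 4606549428) (nat_lit 760) (nat_lit 6518796142) (nat_lit 836) (nat_lit 573833641) (nat_lit 329) (nat_lit 5) (nat_lit 339) (nat_lit 5) (nat_lit 340) (nat_lit 5) (nat_lit 594) (nat_lit 545) (nat_lit 421))) (XT.nd (nat_lit 78) (nat_lit 1368) (nat_lit 0) (XT.lf (nat_lit 0) (nat_lit 1687681276) (nat_lit 836) (nat_lit 136210504) (nat_lit 76) (nat_lit 9999743785) (nat_lit 328) (nat_lit 5) (nat_lit 339) (nat_lit 5) (nat_lit 329) (nat_lit 5) (nat_lit 595) (nat_lit 545) (nat_lit 420)) (XT.nd (nat_lit 78) (nat_lit 684) (nat_lit 0) (XT.lf (nat_lit 0) (nat_lit 4035358591) (nat_lit 760) (nat_lit 4940934621) (nat_lit 76) (nat_lit 2973240948)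 (nat_lit 319) (nat_lit 5) (nat_lit 329) (nat_lit 5) (nat_lit 320) (nat_lit 5) (nat_lit 596) (nat_lit 545) (nat_lit 419)) (XT.lf (nat_lit 0) (nat_lit 2217870951) (nat_lit 684) (nat_lit 4223115336) (nat_lit 760) (nat_lit 5636745767) (nat_lit 310) (nat_lit 5) (nat_lit 319) (nat_lit 5) (nat_lit 320) (nat_lit 5) (nat_lit 597) (nat_lit 545) (nat_lit 418))))) (XT.nd (nat_lit 234) (nat_lit 1292) (nat_lit 0) (XT.nd (nat_lit 78) (nat_lit 684) (nat_lit 0) (XT.lf (nat_lit 0) (nat_lit 8915936399) (nat_lit 760) (nat_lit 2644810935) (nat_lit 76) (nat_lit 647323611) (nat_lit 310) (nat_lit 5) (nat_lit 320) (nat_lit 5) (nat_lit 311) (nat_lit 5) (nat_lit 598) (nat_lit 545) (nat_lit 417)) (XT.nd (nat_lit 78) (nat_lit 76) (nat_lit 0) (XT.lf (nat_lit 0) (nat_lit 4729453006) (nat_lit 608) (nat_lit 6753700315) (nat_lit 684) (nat_lit 857009150) (nat_lit 302) (nat_lit 5) (nat_lit 310) (nat_lit 5) (nat_lit 311) (nat_lit 5) (nat_lit 599) (nat_lit 545) (nat_lit 416)) (XT.lf (nat_lit 0) (nat_lit 1607524880)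 (nat_lit 684) (nat_lit 217400145) (nat_lit 76) (nat_lit 10649719881) (nat_lit 301) (nat_lit 5) (nat_lit 310) (nat_lit 5) (nat_lit 302) (nat_lit 5) (nat_lit 600) (nat_lit 545) (nat_lit 415)))) (XT.nd (nat_lit 78) (nat_lit 608) (nat_lit 0) (XT.lf (nat_lit 0) (nat_lit 4163519292) (nat_lit 760) (nat_lit 5235933296) (nat_lit 76) (nat_lit 3211179346) (nat_lit 292) (nat_lit 5) (nat_lit 302) (nat_lit 5) (nat_lit 293) (nat_lit 5) (nat_lit 601) (nat_lit 545) (nat_lit 414)) (XT.nd (nat_lit 78) (nat_lit 0) (nat_lit 0) (XT.lf (nat_lit 0) (nat_lit 2372277191) (nat_lit 608) (nat_lit 4411960209) (nat_lit 684) (nat_lit 5964830349) (nat_lit 284) (nat_lit 5) (nat_lit 292) (nat_lit 5) (nat_lit 293) (nat_lit 5) (nat_lit 602) (nat_lit 545) (nat_lit 413)) (XT.lf (nat_lit 0) (nat_lit 9481924326) (nat_lit 684) (nat_lit 2709732802) (nat_lit 76) (nat_lit 698125162) (nat_lit 284) (nat_lit 5) (nat_lit 293) (nat_lit 5) (nat_lit 285) (nat_lit 5) (nat_lit 603) (nat_lit 545) (nat_lit 412))))))))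
noncomputable def xc124 : XT := (XT.nd (nat_lit 77142) (nat_lit 0) (nat_lit 21660) (XT.nd (nat_lit 780) (nat_lit 1596) (nat_lit 0) (XT.nd (nat_lit 390) (nat_lit 1672) (nat_lit 0) (XT.nd (nat_lit 156) (nat_lit 1216) (nat_lit 0) (XT.nd (nat_lit 78) (nat_lit 76) (nat_lit 0) (XT.lf (nat_lit 0) (nat_lit 5129931215) (nat_lit 608) (nat_lit 7151258499) (nat_lit 684) (nat_lit 751169991) (nat_lit 276) (nat_lit 5) (nat_lit 284) (nat_lit 5) (nat_lit 285) (nat_lit 5) (nat_lit 604) (nat_lit 545) (nat_lit 411)) (XT.lf (nat_lit 0) (nat_lit 1936439696) (nat_lit 684) (nat_lit 46013643) (nat_lit 76) (nat_lit 11195012507) (nat_lit 275) (nat_lit 5) (nat_lit 284) (nat_lit 5) (nat_lit 276) (nat_lit 5) (nat_lit 605) (nat_lit 545) (nat_lit 410))) (XT.nd (nat_lit 78) (nat_lit 608) (nat_lit 0) (XT.lf (nat_lit 0) (nat_lit 4727191364) (nat_lit 684) (nat_lit 5296707372) (nat_lit 76) (nat_lit 3300288127) (nat_lit 267) (nat_lit 5) (nat_lit 276) (nat_lit 5) (nat_lit 268) (nat_lit 5) (nat_lit 606) (nat_lit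 545) (nat_lit 409)) (XT.nd (nat_lit 78) (nat_lit 0) (nat_lit 0) (XT.lf (nat_lit 0) (nat_lit 2794102688) (nat_lit 608) (nat_lit 4796838509) (nat_lit 684) (nat_lit 5882558436) (nat_lit 259) (nat_lit 5) (nat_lit 267) (nat_lit 5) (nat_lit 268) (nat_lit 5) (nat_lit 607) (nat_lit 545) (nat_lit 408)) (XT.lf (nat_lit 0) (nat_lit 10536953717) (nat_lit 684) (nat_lit 2529044920) (nat_lit 76) (nat_lit 559301242) (nat_lit 259) (nat_lit 5) (nat_lit 268) (nat_lit 5) (nat_lit 260) (nat_lit 5) (nat_lit 608) (nat_lit 545) (nat_lit 407))))) (XT.nd (nat_lit 156) (nat_lit 532) (nat_lit 0) (XT.nd (nat_lit 78) (nat_lit 608) (nat_lit 0) (XT.lf (nat_lit 0) (nat_lit 5810341932) (nat_lit 532) (nat_lit 7787052538) (nat_lit 608) (nat_lit 181632460) (nat_lit 252) (nat_lit 5) (nat_lit 259) (nat_lit 5) (nat_lit 260) (nat_lit 5) (nat_lit 609) (nat_lit 545) (nat_lit 406)) (XT.lf (nat_lit 0) (nat_lit 383684960) (nat_lit 532) (nat_lit 2368682134) (nat_lit 608) (nat_lit 11182987859) (nat_lit 244) (nat_lit 5)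 (nat_lit 251) (nat_lit 5) (nat_lit 252) (nat_lit 5) (nat_lit 610) (nat_lit 545) (nat_lit 405))) (XT.nd (nat_lit 78) (nat_lit 532) (nat_lit 0) (XT.lf (nat_lit 0) (nat_lit 5803152484) (nat_lit 608) (nat_lit 5123279798) (nat_lit 76) (nat_lit 3167143386) (nat_lit 244) (nat_lit 5) (nat_lit 252) (nat_lit 5) (nat_lit 245) (nat_lit 5) (nat_lit 611) (nat_lit 545) (nat_lit 404)) (XT.nd (nat_lit 78) (nat_lit 0) (nat_lit 0) (XT.lf (nat_lit 0) (nat_lit 3485470316) (nat_lit 532) (nat_lit 5454273644) (nat_lit 608) (nat_lit 5314721913) (nat_lit 237) (nat_lit 5) (nat_lit 244) (nat_lit 5) (nat_lit 245) (nat_lit 5) (nat_lit 612) (nat_lit 545) (nat_lit 403)) (XT.lf (nat_lit 0) (nat_lit 12161092177) (nat_lit 608) (nat_lit 2101449382) (nat_lit 76) (nat_lit 155592693) (nat_lit 237) (nat_lit 5) (nat_lit 245) (nat_lit 5) (nat_lit 238) (nat_lit 5) (nat_lit 613) (nat_lit 545) (nat_lit 402)))))) (XT.nd (nat_lit 75972) (nat_lit 0) (nat_lit 28880) (XT.nd (nat_lit 156) (nat_lit 532) (nat_lit 0) (XT.nd (nat_lit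 78) (nat_lit 456) (nat_lit 0) (XT.lf (nat_lit 0) (nat_lit 917888436) (nat_lit 608) (nat_lit 7815596884) (nat_lit 76) (nat_lit 5850131612) (nat_lit 229) (nat_lit 5) (nat_lit 237) (nat_lit 5) (nat_lit 230) (nat_lit 5) (nat_lit 614) (nat_lit 545) (nat_lit 401)) (XT.lf (nat_lit 0) (nat_lit 1072210734) (nat_lit 456) (nat_lit 3061978342) (nat_lit 532) (nat_lit 10617760761) (nat_lit 223) (nat_lit 5) (nat_lit 229) (nat_lit 5) (nat_lit 230) (nat_lit 5) (nat_lit 615) (nat_lit 545) (nat_lit 400))) (XT.nd (nat_lit 78) (nat_lit 532) (nat_lit 0) (XT.lf (nat_lit 0) (nat_lit 7472305387) (nat_lit 532) (nat_lit 4715066991) (nat_lit 76) (nat_lit 2735128027) (nat_lit 223) (nat_lit 5) (nat_lit 230) (nat_lit 5) (nat_lit 224) (nat_lit 5) (nat_lit 616) (nat_lit 545) (nat_lit 399)) (XT.nd (nat_lit 75660) (nat_lit 0) (nat_lit 30248) (XT.lf (nat_lit 0) (nat_lit 4449171340) (nat_lit 532) (nat_lit 6464448547) (nat_lit 608) (nat_lit 4182114168) (nat_lit 216) (nat_lit 5) (nat_lit 223) (nat_lit 5) (nat_lit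 224) (nat_lit 5) (nat_lit 617) (nat_lit 545) (nat_lit 398)) (XT.lf (nat_lit 0) (nat_lit 1311343150) (nat_lit 0) (nat_lit 1311343150) (nat_lit 1292) (nat_lit 1242249680) (nat_lit 614) (nat_lit 5) (nat_lit 614) (nat_lit 3) (nat_lit 631) (nat_lit 3) (nat_lit 546) (nat_lit 546) (nat_lit 468))))) (XT.nd (nat_lit 156) (nat_lit 0) (nat_lit 0) (XT.nd (nat_lit 78) (nat_lit 1368) (nat_lit 0) (XT.lf (nat_lit 0) (nat_lit 6505913841) (nat_lit 0) (nat_lit 121797530) (nat_lit 1292) (nat_lit 1152712754) (nat_lit 614) (nat_lit 5) (nat_lit 614) (nat_lit 3) (nat_lit 631) (nat_lit 3) (nat_lit 547) (nat_lit 546) (nat_lit 467)) (XT.lf (nat_lit 0) (nat_lit 201107038) (nat_lit 1368) (nat_lit 5197998218) (nat_lit 1444) (nat_lit 2432897284) (nat_lit 596) (nat_lit 5) (nat_lit 614) (nat_lit 5) (nat_lit 615) (nat_lit 5) (nat_lit 548) (nat_lit 546) (nat_lit 466))) (XT.nd (nat_lit 78) (nat_lit 0) (nat_lit 0) (XT.lf (nat_lit 0) (nat_lit 1541562297) (nat_lit 1368) (nat_lit 1273570814) (nat_lit 1444) (nat_lit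 5069830897) (nat_lit 596) (nat_lit 5) (nat_lit 614) (nat_lit 5) (nat_lit 615) (nat_lit 5) (nat_lit 549) (nat_lit 546) (nat_lit 465)) (XT.nd (nat_lit 78) (nat_lit 0) (nat_lit 76) (XT.lf (nat_lit 76) (nat_lit 2747141269) (nat_lit 0) (nat_lit 145760464) (nat_lit 1444) (nat_lit 5046405151) (nat_lit 597) (nat_lit 5) (nat_lit 596) (nat_lit 5) (nat_lit 615) (nat_lit 5) (nat_lit 550) (nat_lit 546) (nat_lit 464)) (XT.lf (nat_lit 0) (nat_lit 4263483732) (nat_lit 1368) (nat_lit 1164701870) (nat_lit 1444) (nat_lit 2566710307) (nat_lit 597) (nat_lit 5) (nat_lit 615) (nat_lit 5) (nat_lit 616) (nat_lit 5) (nat_lit 551) (nat_lit 546) (nat_lit 463))))))) (XT.nd (nat_lit 780) (nat_lit 4560) (nat_lit 0) (XT.nd (nat_lit 390) (nat_lit 1368) (nat_lit 0) (XT.nd (nat_lit 156) (nat_lit 1368) (nat_lit 0) (XT.nd (nat_lit 78) (nat_lit 0) (nat_lit 76) (XT.lf (nat_lit 76) (nat_lit 2962693109) (nat_lit 0) (nat_lit 2686515972) (nat_lit 1444) (nat_lit 2402636537) (nat_lit 598) (nat_lit 5) (nat_lit 597) (nat_lit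 5) (nat_lit 616) (nat_lit 5) (nat_lit 552) (nat_lit 546) (nat_lit 462)) (XT.lf (nat_lit 0) (nat_lit 7039366554) (nat_lit 1368) (nat_lit 941237848) (nat_lit 1444) (nat_lit 129799033) (nat_lit 598) (nat_lit 5) (nat_lit 616) (nat_lit 5) (nat_lit 617) (nat_lit 5) (nat_lit 553) (nat_lit 546) (nat_lit 461))) (XT.nd (nat_lit 78) (nat_lit 0) (nat_lit 0) (XT.lf (nat_lit 0) (nat_lit 291431721) (nat_lit 1444) (nat_lit 4875561377) (nat_lit 1520) (nat_lit 3002945278) (nat_lit 579) (nat_lit 5) (nat_lit 598) (nat_lit 5) (nat_lit 599) (nat_lit 5) (nat_lit 554) (nat_lit 546) (nat_lit 460)) (XT.nd (nat_lit 78) (nat_lit 0) (nat_lit 76) (XT.lf (nat_lit 0) (nat_lit 1642225446) (nat_lit 1444) (nat_lit 629243880) (nat_lit 1520) (nat_lit 5959548027) (nat_lit 579) (nat_lit 5) (nat_lit 598) (nat_lit 5) (nat_lit 599) (nat_lit 5) (nat_lit 555) (nat_lit 546) (nat_lit 459)) (XT.lf (nat_lit 0) (nat_lit 3018584112) (nat_lit 1444) (nat_lit 4565818992) (nat_lit 1520) (nat_lit 708947029) (nat_lit 580) (nat_lit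 5) (nat_lit 599) (nat_lit 5) (nat_lit 600) (nat_lit 5) (nat_lit 556) (nat_lit 546) (nat_lit 458))))) (XT.nd (nat_lit 156) (nat_lit 1444) (nat_lit 0) (XT.nd (nat_lit 78) (nat_lit 0) (nat_lit 0) (XT.lf (nat_lit 0) (nat_lit 4411964043) (nat_lit 1444) (nat_lit 211157162) (nat_lit 1520) (nat_lit 3734021621) (nat_lit 580) (nat_lit 5) (nat_lit 599) (nat_lit 5) (nat_lit 600) (nat_lit 5) (nat_lit 557) (nat_lit 546) (nat_lit 457)) (XT.lf (nat_lit 76) (nat_lit 4267734251) (nat_lit 0) (nat_lit 1563971309) (nat_lit 1520) (nat_lit 2590539012) (nat_lit 581) (nat_lit 5) (nat_lit 580) (nat_lit 5) (nat_lit 600) (nat_lit 5) (nat_lit 558) (nat_lit 546) (nat_lit 456))) (XT.nd (nat_lit 78) (nat_lit 1520) (nat_lit 0) (XT.lf (nat_lit 76) (nat_lit 325241668) (nat_lit 0) (nat_lit 6939544858) (nat_lit 1520) (nat_lit 1224165952) (nat_lit 582) (nat_lit 5) (nat_lit 581) (nat_lit 5) (nat_lit 601) (nat_lit 5) (nat_lit 559) (nat_lit 546) (nat_lit 455)) (XT.nd (nat_lit 78) (nat_lit 0) (nat_lit 0) (XT.lf (nat_lit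 0) (nat_lit 177281535) (nat_lit 1520) (nat_lit 3636784616) (nat_lit 1596) (nat_lit 4742709870) (nat_lit 561) (nat_lit 5) (nat_lit 581) (nat_lit 5) (nat_lit 582) (nat_lit 5) (nat_lit 560) (nat_lit 546) (nat_lit 454)) (XT.lf (nat_lit 76) (nat_lit 966017988) (nat_lit 0) (nat_lit 602743046) (nat_lit 1596) (nat_lit 7057468118) (nat_lit 562) (nat_lit 5) (nat_lit 561) (nat_lit 5) (nat_lit 582) (nat_lit 5) (nat_lit 561) (nat_lit 546) (nat_lit 453)))))) (XT.nd (nat_lit 390) (nat_lit 4636) (nat_lit 0) (XT.nd (nat_lit 156) (nat_lit 0) (nat_lit 76) (XT.nd (nat_lit 78) (nat_lit 0) (nat_lit 0) (XT.lf (nat_lit 0) (nat_lit 3002574682) (nat_lit 1520) (nat_lit 3023628901) (nat_lit 1596) (nat_lit 2670580458) (nat_lit 562) (nat_lit 5) (nat_lit 582) (nat_lit 5) (nat_lit 583) (nat_lit 5) (nat_lit 562) (nat_lit 546) (nat_lit 452)) (XT.lf (nat_lit 76) (nat_lit 1704732959) (nat_lit 0) (nat_lit 2748513699) (nat_lit 1596) (nat_lit 4315742465) (nat_lit 563) (nat_lit 5) (nat_lit 562) (nat_lit 5) (nat_lit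 583) (nat_lit 5) (nat_lit 563) (nat_lit 546) (nat_lit 451))) (XT.nd (nat_lit 78) (nat_lit 0) (nat_lit 0) (XT.lf (nat_lit 0) (nat_lit 5930789801) (nat_lit 1520) (nat_lit 2297350753) (nat_lit 1596) (nat_lit 614543275) (nat_lit 563) (nat_lit 5) (nat_lit 583) (nat_lit 5) (nat_lit 584) (nat_lit 5) (nat_lit 564) (nat_lit 546) (nat_lit 450)) (XT.nd (nat_lit 78) (nat_lit 0) (nat_lit 0) (XT.lf (nat_lit 76) (nat_lit 2560894295) (nat_lit 0) (nat_lit 4885908646) (nat_lit 1596) (nat_lit 1470873736) (nat_lit 564) (nat_lit 5) (nat_lit 563) (nat_lit 5) (nat_lit 584) (nat_lit 5) (nat_lit 565) (nat_lit 546) (nat_lit 449)) (XT.lf (nat_lit 76) (nat_lit 7528189978) (nat_lit 0) (nat_lit 1454835850) (nat_lit 1596) (nat_lit 11348339) (nat_lit 564) (nat_lit 5) (nat_lit 563) (nat_lit 5) (nat_lit 584) (nat_lit 5) (nat_lit 566) (nat_lit 546) (nat_lit 448))))) (XT.nd (nat_lit 234) (nat_lit 3192) (nat_lit 0) (XT.nd (nat_lit 78) (nat_lit 0) (nat_lit 0) (XT.lf (nat_lit 0) (nat_lit 1469311120) (nat_lit 1596)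 (nat_lit 5546147195) (nat_lit 1672) (nat_lit 2056731537) (nat_lit 543) (nat_lit 5) (nat_lit 564) (nat_lit 5) (nat_lit 565) (nat_lit 5) (nat_lit 567) (nat_lit 546) (nat_lit 447)) (XT.nd (nat_lit 78) (nat_lit 0) (nat_lit 76) (XT.lf (nat_lit 0) (nat_lit 2974183323) (nat_lit 1596) (nat_lit 542776453) (nat_lit 1672) (nat_lit 5634707973) (nat_lit 543) (nat_lit 5) (nat_lit 564) (nat_lit 5) (nat_lit 565) (nat_lit 5) (nat_lit 568) (nat_lit 546) (nat_lit 446)) (XT.lf (nat_lit 0) (nat_lit 4515294591) (nat_lit 1596) (nat_lit 4631416547) (nat_lit 76) (nat_lit 85903612) (nat_lit 544) (nat_lit 5) (nat_lit 565) (nat_lit 5) (nat_lit 545) (nat_lit 5) (nat_lit 569) (nat_lit 546) (nat_lit 445)))) (XT.nd (nat_lit 78) (nat_lit 1672) (nat_lit 0) (XT.lf (nat_lit 0) (nat_lit 503970127) (nat_lit 1596) (nat_lit 5589570110) (nat_lit 1672) (nat_lit 3221516544) (nat_lit 523) (nat_lit 5) (nat_lit 544) (nat_lit 5) (nat_lit 545) (nat_lit 5) (nat_lit 570) (nat_lit 546) (nat_lit 444)) (XT.nd (nat_lit 78) (nat_lit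 1672) (nat_lit 0) (XT.lf (nat_lit 0) (nat_lit 5785347457) (nat_lit 1596) (nat_lit 1925507450) (nat_lit 1672) (nat_lit 1688144952) (nat_lit 523) (nat_lit 5) (nat_lit 544) (nat_lit 5) (nat_lit 545) (nat_lit 5) (nat_lit 571) (nat_lit 546) (nat_lit 443)) (XT.lf (nat_lit 0) (nat_lit 1678373752) (nat_lit 1672) (nat_lit 7681715961) (nat_lit 1748) (nat_lit 124542852) (nat_lit 501) (nat_lit 5) (nat_lit 523) (nat_lit 5) (nat_lit 524) (nat_lit 5) (nat_lit 572) (nat_lit 546) (nat_lit 442))))))))
noncomputable def xc125 : XT := (XT.nd (nat_lit 1560) (nat_lit 8436) (nat_lit 0) (XT.nd (nat_lit 780) (nat_lit 5016) (nat_lit 0) (XT.nd (nat_lit 390) (nat_lit 1900) (nat_lit 0) (XT.nd (nat_lit 156) (nat_lit 2888) (nat_lit 0) (XT.nd (nat_lit 78) (nat_lit 1748) (nat_lit 0) (XT.lf (nat_lit 0) (nat_lit 1465295848) (nat_lit 1748) (nat_lit 2488510151) (nat_lit 76) (nat_lit 5617698188) (nat_lit 500) (nat_lit 5) (nat_lit 523) (nat_lit 5) (nat_lit 501) (nat_lit 5) (nat_lit 573) (nat_lit 546) (nat_lit 441))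 (XT.lf (nat_lit 0) (nat_lit 2954117385) (nat_lit 1748) (nat_lit 127863654) (nat_lit 1824) (nat_lit 6578183506) (nat_lit 477) (nat_lit 5) (nat_lit 500) (nat_lit 5) (nat_lit 501) (nat_lit 5) (nat_lit 574) (nat_lit 546) (nat_lit 440))) (XT.nd (nat_lit 78) (nat_lit 2888) (nat_lit 0) (XT.lf (nat_lit 0) (nat_lit 4750186714) (nat_lit 1824) (nat_lit 1255283276) (nat_lit 76) (nat_lit 3744746456) (nat_lit 477) (nat_lit 5) (nat_lit 501) (nat_lit 5) (nat_lit 478) (nat_lit 5) (nat_lit 575) (nat_lit 546) (nat_lit 439)) (XT.nd (nat_lit 78) (nat_lit 1064) (nat_lit 0) (XT.lf (nat_lit 0) (nat_lit 4341240899) (nat_lit 1824) (nat_lit 2117852308) (nat_lit 1900) (nat_lit 3382831476) (nat_lit 453) (nat_lit 5) (nat_lit 477) (nat_lit 5) (nat_lit 478) (nat_lit 5) (nat_lit 576) (nat_lit 546) (nat_lit 438)) (XT.lf (nat_lit 0) (nat_lit 101025363) (nat_lit 1064) (nat_lit 8100901599) (nat_lit 1140) (nat_lit 1733547130) (nat_lit 439) (nat_lit 5) (nat_lit 453) (nat_lit 5) (nat_lit 454) (nat_lit 5) (nat_lit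 577) (nat_lit 546) (nat_lit 437))))) (XT.nd (nat_lit 156) (nat_lit 912) (nat_lit 0) (XT.nd (nat_lit 78) (nat_lit 988) (nat_lit 0) (XT.lf (nat_lit 0) (nat_lit 5855588210) (nat_lit 1064) (nat_lit 4153785839) (nat_lit 1140) (nat_lit 20927260) (nat_lit 439) (nat_lit 5) (nat_lit 453) (nat_lit 5) (nat_lit 454) (nat_lit 5) (nat_lit 578) (nat_lit 546) (nat_lit 436)) (XT.lf (nat_lit 0) (nat_lit 1588416318) (nat_lit 912) (nat_lit 104391292) (nat_lit 988) (nat_lit 8434205244) (nat_lit 426) (nat_lit 5) (nat_lit 438) (nat_lit 5) (nat_lit 439) (nat_lit 5) (nat_lit 579) (nat_lit 546) (nat_lit 435))) (XT.nd (nat_lit 78) (nat_lit 912) (nat_lit 0) (XT.lf (nat_lit 0) (nat_lit 3474353130) (nat_lit 988) (nat_lit 2747884171) (nat_lit 76) (nat_lit 4002744079) (nat_lit 426) (nat_lit 5) (nat_lit 439) (nat_lit 5) (nat_lit 427) (nat_lit 5) (nat_lit 580) (nat_lit 546) (nat_lit 434)) (XT.nd (nat_lit 78) (nat_lit 0) (nat_lit 0) (XT.lf (nat_lit 0) (nat_lit 3180328385) (nat_lit 912) (nat_lit 2112420182)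 (nat_lit 988) (nat_lit 5032138132) (nat_lit 414) (nat_lit 5) (nat_lit 426) (nat_lit 5) (nat_lit 427) (nat_lit 5) (nat_lit 581) (nat_lit 546) (nat_lit 433)) (XT.lf (nat_lit 0) (nat_lit 7159728774) (nat_lit 988) (nat_lit 1195301154) (nat_lit 76) (nat_lit 2071517628) (nat_lit 414) (nat_lit 5) (nat_lit 427) (nat_lit 5) (nat_lit 415) (nat_lit 5) (nat_lit 582) (nat_lit 546) (nat_lit 432)))))) (XT.nd (nat_lit 390) (nat_lit 2432) (nat_lit 0) (XT.nd (nat_lit 156) (nat_lit 836) (nat_lit 0) (XT.nd (nat_lit 78) (nat_lit 912) (nat_lit 0) (XT.lf (nat_lit 0) (nat_lit 4904044436) (nat_lit 836) (nat_lit 4186376049) (nat_lit 912) (nat_lit 1439295441) (nat_lit 403) (nat_lit 5) (nat_lit 414) (nat_lit 5) (nat_lit 415) (nat_lit 5) (nat_lit 583) (nat_lit 546) (nat_lit 431)) (XT.lf (nat_lit 0) (nat_lit 411659536) (nat_lit 912) (nat_lit 10144509432) (nat_lit 76) (nat_lit 78876158) (nat_lit 391) (nat_lit 5) (nat_lit 403) (nat_lit 5) (nat_lit 392) (nat_lit 5) (nat_lit 584) (nat_lit 546) (nat_lit 430)))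 (XT.nd (nat_lit 78) (nat_lit 836) (nat_lit 0) (XT.lf (nat_lit 0) (nat_lit 2327028938) (nat_lit 912) (nat_lit 3993518967) (nat_lit 76) (nat_lit 4420811014) (nat_lit 391) (nat_lit 5) (nat_lit 403) (nat_lit 5) (nat_lit 392) (nat_lit 5) (nat_lit 585) (nat_lit 546) (nat_lit 429)) (XT.nd (nat_lit 78) (nat_lit 0) (nat_lit 0) (XT.lf (nat_lit 0) (nat_lit 2291315405) (nat_lit 836) (nat_lit 1985565010) (nat_lit 912) (nat_lit 6572996682) (nat_lit 380) (nat_lit 5) (nat_lit 391) (nat_lit 5) (nat_lit 392) (nat_lit 5) (nat_lit 586) (nat_lit 546) (nat_lit 428)) (XT.lf (nat_lit 0) (nat_lit 6290058381) (nat_lit 912) (nat_lit 2239511381) (nat_lit 76) (nat_lit 2430510856) (nat_lit 380) (nat_lit 5) (nat_lit 392) (nat_lit 5) (nat_lit 381) (nat_lit 5) (nat_lit 587) (nat_lit 546) (nat_lit 427))))) (XT.nd (nat_lit 156) (nat_lit 1596) (nat_lit 0) (XT.nd (nat_lit 78) (nat_lit 0) (nat_lit 0) (XT.lf (nat_lit 0) (nat_lit 4229151267) (nat_lit 836) (nat_lit 4136855040) (nat_lit 912) (nat_lit 2706033316) (nat_lit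 369) (nat_lit 5) (nat_lit 380) (nat_lit 5) (nat_lit 381) (nat_lit 5) (nat_lit 588) (nat_lit 546) (nat_lit 426)) (XT.lf (nat_lit 0) (nat_lit 10482955900) (nat_lit 912) (nat_lit 350035623) (nat_lit 76) (nat_lit 353258137) (nat_lit 369) (nat_lit 5) (nat_lit 381) (nat_lit 5) (nat_lit 370) (nat_lit 5) (nat_lit 589) (nat_lit 546) (nat_lit 425))) (XT.nd (nat_lit 78) (nat_lit 760) (nat_lit 0) (XT.lf (nat_lit 0) (nat_lit 1373100948) (nat_lit 836) (nat_lit 5001672578) (nat_lit 76) (nat_lit 4926774524) (nat_lit 358) (nat_lit 5) (nat_lit 369) (nat_lit 5) (nat_lit 359) (nat_lit 5) (nat_lit 590) (nat_lit 546) (nat_lit 424)) (XT.nd (nat_lit 78) (nat_lit 0) (nat_lit 0) (XT.lf (nat_lit 0) (nat_lit 1666567092) (nat_lit 760) (nat_lit 1810812388) (nat_lit 836) (nat_lit 7941765913) (nat_lit 348) (nat_lit 5) (nat_lit 358) (nat_lit 5) (nat_lit 359) (nat_lit 5) (nat_lit 591) (nat_lit 546) (nat_lit 423)) (XT.lf (nat_lit 0) (nat_lit 5658784558) (nat_lit 836) (nat_lit 3040393374) (nat_lit 76) (nat_lit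 2839217324) (nat_lit 348) (nat_lit 5) (nat_lit 359) (nat_lit 5) (nat_lit 349) (nat_lit 5) (nat_lit 592) (nat_lit 546) (nat_lit 422))))))) (XT.nd (nat_lit 780) (nat_lit 4180) (nat_lit 0) (XT.nd (nat_lit 390) (nat_lit 2052) (nat_lit 0) (XT.nd (nat_lit 156) (nat_lit 1520) (nat_lit 0) (XT.nd (nat_lit 78) (nat_lit 0) (nat_lit 0) (XT.lf (nat_lit 0) (nat_lit 3825340274) (nat_lit 684) (nat_lit 4078430684) (nat_lit 760) (nat_lit 3755861463) (nat_lit 339) (nat_lit 5) (nat_lit 348) (nat_lit 5) (nat_lit 349) (nat_lit 5) (nat_lit 593) (nat_lit 546) (nat_lit 421)) (XT.lf (nat_lit 0) (nat_lit 10201636027) (nat_lit 760) (nat_lit 936610414) (nat_lit 76) (nat_lit 644889649) (nat_lit 339) (nat_lit 5) (nat_lit 349) (nat_lit 5) (nat_lit 340) (nat_lit 5) (nat_lit 594) (nat_lit 546) (nat_lit 420))) (XT.nd (nat_lit 78) (nat_lit 684) (nat_lit 0) (XT.lf (nat_lit 0) (nat_lit 678816840) (nat_lit 836) (nat_lit 5778802447) (nat_lit 76) (nat_lit 5450392919) (nat_lit 328) (nat_lit 5) (nat_lit 339) (nat_lit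 5) (nat_lit 329) (nat_lit 5) (nat_lit 595) (nat_lit 546) (nat_lit 419)) (XT.nd (nat_lit 78) (nat_lit 0) (nat_lit 0) (XT.lf (nat_lit 0) (nat_lit 1301546784) (nat_lit 684) (nat_lit 1660153038) (nat_lit 760) (nat_lit 9073507490) (nat_lit 319) (nat_lit 5) (nat_lit 328) (nat_lit 5) (nat_lit 329) (nat_lit 5) (nat_lit 596) (nat_lit 546) (nat_lit 418)) (XT.lf (nat_lit 0) (nat_lit 5334188270) (nat_lit 760) (nat_lit 3602556135) (nat_lit 76) (nat_lit 3227324198) (nat_lit 319) (nat_lit 5) (nat_lit 329) (nat_lit 5) (nat_lit 320) (nat_lit 5) (nat_lit 597) (nat_lit 546) (nat_lit 417))))) (XT.nd (nat_lit 156) (nat_lit 1368) (nat_lit 0) (XT.nd (nat_lit 78) (nat_lit 0) (nat_lit 0) (XT.lf (nat_lit 0) (nat_lit 3689970304) (nat_lit 684) (nat_lit 4083343308) (nat_lit 760) (nat_lit 4521810979) (nat_lit 310) (nat_lit 5) (nat_lit 319) (nat_lit 5) (nat_lit 320) (nat_lit 5) (nat_lit 598) (nat_lit 546) (nat_lit 416)) (XT.lf (nat_lit 0) (nat_lit 10275591870) (nat_lit 760) (nat_lit 1275699154) (nat_lit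 76) (nat_lit 877224456) (nat_lit 310) (nat_lit 5) (nat_lit 320) (nat_lit 5) (nat_lit 311) (nat_lit 5) (nat_lit 599) (nat_lit 546) (nat_lit 415))) (XT.nd (nat_lit 78) (nat_lit 684) (nat_lit 0) (XT.lf (nat_lit 0) (nat_lit 312478431) (nat_lit 684) (nat_lit 6328891467) (nat_lit 76) (nat_lit 5922119424) (nat_lit 301) (nat_lit 5) (nat_lit 310) (nat_lit 5) (nat_lit 302) (nat_lit 5) (nat_lit 600) (nat_lit 546) (nat_lit 414)) (XT.nd (nat_lit 78) (nat_lit 0) (nat_lit 0) (XT.lf (nat_lit 0) (nat_lit 1194264483) (nat_lit 684) (nat_lit 1605285576) (nat_lit 760) (nat_lit 9901305302) (nat_lit 292) (nat_lit 5) (nat_lit 301) (nat_lit 5) (nat_lit 302) (nat_lit 5) (nat_lit 601) (nat_lit 546) (nat_lit 413)) (XT.lf (nat_lit 0) (nat_lit 5386991865) (nat_lit 760) (nat_lit 3928300502) (nat_lit 76) (nat_lit 3524664879) (nat_lit 292) (nat_lit 5) (nat_lit 302) (nat_lit 5) (nat_lit 293) (nat_lit 5) (nat_lit 602) (nat_lit 546) (nat_lit 412)))))) (XT.nd (nat_lit 390) (nat_lit 2280) (nat_lit 0) (XT.nd (nat_lit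 156) (nat_lit 1292) (nat_lit 0) (XT.nd (nat_lit 78) (nat_lit 0) (nat_lit 0) (XT.lf (nat_lit 0) (nat_lit 3822782409) (nat_lit 608) (nat_lit 4224094614) (nat_lit 684) (nat_lit 4934551333) (nat_lit 284) (nat_lit 5) (nat_lit 292) (nat_lit 5) (nat_lit 293) (nat_lit 5) (nat_lit 603) (nat_lit 546) (nat_lit 411)) (XT.lf (nat_lit 0) (nat_lit 10778178038) (nat_lit 684) (nat_lit 1367959060) (nat_lit 76) (nat_lit 979228483) (nat_lit 284) (nat_lit 5) (nat_lit 293) (nat_lit 5) (nat_lit 285) (nat_lit 5) (nat_lit 604) (nat_lit 546) (nat_lit 410))) (XT.nd (nat_lit 78) (nat_lit 608) (nat_lit 0) (XT.lf (nat_lit 0) (nat_lit 345098144) (nat_lit 684) (nat_lit 6654006151) (nat_lit 76) (nat_lit 6271900300) (nat_lit 275) (nat_lit 5) (nat_lit 284) (nat_lit 5) (nat_lit 276) (nat_lit 5) (nat_lit 605) (nat_lit 546) (nat_lit 409)) (XT.nd (nat_lit 78) (nat_lit 0) (nat_lit 0) (XT.lf (nat_lit 0) (nat_lit 1344718259) (nat_lit 608) (nat_lit 1718830810) (nat_lit 684) (nat_lit 10355623051) (nat_lit 267) (nat_lit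 5) (nat_lit 275) (nat_lit 5) (nat_lit 276) (nat_lit 5) (nat_lit 606) (nat_lit 546) (nat_lit 408)) (XT.lf (nat_lit 0) (nat_lit 5891010133) (nat_lit 684) (nat_lit 4018176777) (nat_lit 76) (nat_lit 3660024238) (nat_lit 267) (nat_lit 5) (nat_lit 276) (nat_lit 5) (nat_lit 268) (nat_lit 5) (nat_lit 607) (nat_lit 546) (nat_lit 407))))) (XT.nd (nat_lit 234) (nat_lit 1064) (nat_lit 0) (XT.nd (nat_lit 78) (nat_lit 608) (nat_lit 0) (XT.lf (nat_lit 0) (nat_lit 4225341163) (nat_lit 608) (nat_lit 4574657350) (nat_lit 684) (nat_lit 4921753839) (nat_lit 259) (nat_lit 5) (nat_lit 267) (nat_lit 5) (nat_lit 268) (nat_lit 5) (nat_lit 608) (nat_lit 546) (nat_lit 406)) (XT.nd (nat_lit 78) (nat_lit 608) (nat_lit 0) (XT.lf (nat_lit 0) (nat_lit 11786226051) (nat_lit 684) (nat_lit 1212460856) (nat_lit 76) (nat_lit 878277224) (nat_lit 259) (nat_lit 5) (nat_lit 268) (nat_lit 5) (nat_lit 260) (nat_lit 5) (nat_lit 609) (nat_lit 546) (nat_lit 405)) (XT.lf (nat_lit 0) (nat_lit 851022699) (nat_lit 608) (nat_lit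 6754877628) (nat_lit 76) (nat_lit 6427985717) (nat_lit 251) (nat_lit 5) (nat_lit 259) (nat_lit 5) (nat_lit 252) (nat_lit 5) (nat_lit 610) (nat_lit 546) (nat_lit 404)))) (XT.nd (nat_lit 78) (nat_lit 532) (nat_lit 0) (XT.lf (nat_lit 0) (nat_lit 1754310693) (nat_lit 532) (nat_lit 2075539230) (nat_lit 608) (nat_lit 10363696437) (nat_lit 244) (nat_lit 5) (nat_lit 251) (nat_lit 5) (nat_lit 252) (nat_lit 5) (nat_lit 611) (nat_lit 546) (nat_lit 403)) (XT.nd (nat_lit 78) (nat_lit 532) (nat_lit 0) (XT.lf (nat_lit 0) (nat_lit 6923770775) (nat_lit 608) (nat_lit 3871571995) (nat_lit 76) (nat_lit 3559947637) (nat_lit 244) (nat_lit 5) (nat_lit 252) (nat_lit 5) (nat_lit 245) (nat_lit 5) (nat_lit 612) (nat_lit 546) (nat_lit 402)) (XT.lf (nat_lit 0) (nat_lit 4900444085) (nat_lit 532) (nat_lit 5211687183) (nat_lit 608) (nat_lit 4407487694) (nat_lit 237) (nat_lit 5) (nat_lit 244) (nat_lit 5) (nat_lit 245) (nat_lit 5) (nat_lit 613) (nat_lit 546) (nat_lit 401))))))))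
noncomputable def xc126 : XT := (XT.nd (nat_lit 77298) (nat_lit 0) (nat_lit 13680) (XT.nd (nat_lit 76518) (nat_lit 0) (nat_lit 25688) (XT.nd (nat_lit 76128) (nat_lit 0) (nat_lit 28348) (XT.nd (nat_lit 156) (nat_lit 456) (nat_lit 0) (XT.nd (nat_lit 78) (nat_lit 608) (nat_lit 0) (XT.lf (nat_lit 0) (nat_lit 13380662762) (nat_lit 608) (nat_lit 807284934) (nat_lit 76) (nat_lit 498959148) (nat_lit 237) (nat_lit 5) (nat_lit 245) (nat_lit 5) (nat_lit 238) (nat_lit 5) (nat_lit 614) (nat_lit 546) (nat_lit 400)) (XT.lf (nat_lit 0) (nat_lit 1908526479) (nat_lit 608) (nat_lit 6631524372) (nat_lit 76) (nat_lit 6315732147) (nat_lit 229) (nat_lit 5) (nat_lit 237) (nat_lit 5) (nat_lit 230) (nat_lit 5) (nat_lit 615) (nat_lit 546) (nat_lit 399))) (XT.nd (nat_lit 75816) (nat_lit 0) (nat_lit 28272) (XT.lf (nat_lit 0) (nat_lit 2425221080) (nat_lit 456) (nat_lit 2753513144) (nat_lit 532) (nat_lit 9848957904) (nat_lit 223) (nat_lit 5) (nat_lit 229) (nat_lit 5) (nat_lit 230) (nat_lit 5) (nat_lit 616)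 (nat_lit 546) (nat_lit 398)) (XT.nd (nat_lit 78) (nat_lit 0) (nat_lit 0) (XT.lf (nat_lit 0) (nat_lit 79670000) (nat_lit 1444) (nat_lit 1917990658) (nat_lit 1444) (nat_lit 1917990658) (nat_lit 595) (nat_lit 3) (nat_lit 614) (nat_lit 3) (nat_lit 614) (nat_lit 5) (nat_lit 547) (nat_lit 547) (nat_lit 466)) (XT.lf (nat_lit 76) (nat_lit 38425979) (nat_lit 0) (nat_lit 1409607285) (nat_lit 1444) (nat_lit 6435700129) (nat_lit 596) (nat_lit 5) (nat_lit 595) (nat_lit 3) (nat_lit 614) (nat_lit 5) (nat_lit 548) (nat_lit 547) (nat_lit 465))))) (XT.nd (nat_lit 156) (nat_lit 0) (nat_lit 0) (XT.nd (nat_lit 78) (nat_lit 0) (nat_lit 0) (XT.lf (nat_lit 0) (nat_lit 2762622957) (nat_lit 1368) (nat_lit 3920754202) (nat_lit 1444) (nat_lit 1253836835) (nat_lit 596) (nat_lit 5) (nat_lit 614) (nat_lit 5) (nat_lit 615) (nat_lit 5) (nat_lit 549) (nat_lit 547) (nat_lit 464)) (XT.lf (nat_lit 76) (nat_lit 55811293) (nat_lit 0) (nat_lit 4024291455) (nat_lit 1444) (nat_lit 3912133101) (nat_lit 597) (nat_lit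 5) (nat_lit 596) (nat_lit 5) (nat_lit 615) (nat_lit 5) (nat_lit 550) (nat_lit 547) (nat_lit 463))) (XT.nd (nat_lit 78) (nat_lit 0) (nat_lit 76) (XT.lf (nat_lit 76) (nat_lit 4147296949) (nat_lit 0) (nat_lit 1270380011) (nat_lit 1444) (nat_lit 2630809821) (nat_lit 597) (nat_lit 5) (nat_lit 596) (nat_lit 5) (nat_lit 615) (nat_lit 5) (nat_lit 551) (nat_lit 547) (nat_lit 462)) (XT.nd (nat_lit 78) (nat_lit 0) (nat_lit 0) (XT.lf (nat_lit 76) (nat_lit 189093840) (nat_lit 0) (nat_lit 6572293508) (nat_lit 1444) (nat_lit 1344891156) (nat_lit 598) (nat_lit 5) (nat_lit 597) (nat_lit 5) (nat_lit 616) (nat_lit 5) (nat_lit 552) (nat_lit 547) (nat_lit 461)) (XT.lf (nat_lit 76) (nat_lit 4387513235) (nat_lit 0) (nat_lit 3747669934) (nat_lit 1444) (nat_lit 29982069) (nat_lit 598) (nat_lit 5) (nat_lit 597) (nat_lit 5) (nat_lit 616) (nat_lit 5) (nat_lit 553) (nat_lit 547) (nat_lit 460)))))) (XT.nd (nat_lit 390) (nat_lit 1292) (nat_lit 0) (XT.nd (nat_lit 156) (nat_lit 0) (nat_lit 76) (XT.nd (nat_lit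 78) (nat_lit 0) (nat_lit 76) (XT.lf (nat_lit 76) (nat_lit 423626530) (nat_lit 0) (nat_lit 842234155) (nat_lit 1520) (nat_lit 6959765372) (nat_lit 579) (nat_lit 5) (nat_lit 578) (nat_lit 5) (nat_lit 598) (nat_lit 5) (nat_lit 554) (nat_lit 547) (nat_lit 459)) (XT.lf (nat_lit 0) (nat_lit 2596162528) (nat_lit 1444) (nat_lit 3559451832) (nat_lit 1520) (nat_lit 2131502098) (nat_lit 579) (nat_lit 5) (nat_lit 598) (nat_lit 5) (nat_lit 599) (nat_lit 5) (nat_lit 555) (nat_lit 547) (nat_lit 458))) (XT.nd (nat_lit 78) (nat_lit 0) (nat_lit 0) (XT.lf (nat_lit 76) (nat_lit 753962310) (nat_lit 0) (nat_lit 3179828527) (nat_lit 1520) (nat_lit 4416434562) (nat_lit 580) (nat_lit 5) (nat_lit 579) (nat_lit 5) (nat_lit 599) (nat_lit 5) (nat_lit 556) (nat_lit 547) (nat_lit 457)) (XT.nd (nat_lit 78) (nat_lit 0) (nat_lit 76) (XT.lf (nat_lit 76) (nat_lit 5183719258) (nat_lit 0) (nat_lit 109051129) (nat_lit 1520) (nat_lit 3121937237) (nat_lit 580) (nat_lit 5) (nat_lit 579) (nat_lit 5) (nat_lit 599) (nat_lit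 5) (nat_lit 557) (nat_lit 547) (nat_lit 456)) (XT.lf (nat_lit 76) (nat_lit 1199225236) (nat_lit 0) (nat_lit 5478476567) (nat_lit 1520) (nat_lit 1802805263) (nat_lit 581) (nat_lit 5) (nat_lit 580) (nat_lit 5) (nat_lit 600) (nat_lit 5) (nat_lit 558) (nat_lit 547) (nat_lit 455))))) (XT.nd (nat_lit 156) (nat_lit 0) (nat_lit 0) (XT.nd (nat_lit 78) (nat_lit 1444) (nat_lit 0) (XT.lf (nat_lit 76) (nat_lit 5742763283) (nat_lit 0) (nat_lit 2341768012) (nat_lit 1520) (nat_lit 463210173) (nat_lit 581) (nat_lit 5) (nat_lit 580) (nat_lit 5) (nat_lit 600) (nat_lit 5) (nat_lit 559) (nat_lit 547) (nat_lit 454)) (XT.lf (nat_lit 0) (nat_lit 880668645) (nat_lit 1520) (nat_lit 6862570432) (nat_lit 1596) (nat_lit 873180299) (nat_lit 561) (nat_lit 5) (nat_lit 581) (nat_lit 5) (nat_lit 582) (nat_lit 5) (nat_lit 560) (nat_lit 547) (nat_lit 453))) (XT.nd (nat_lit 78) (nat_lit 0) (nat_lit 0) (XT.lf (nat_lit 0) (nat_lit 2252338595) (nat_lit 1520) (nat_lit 2281767823) (nat_lit 1596) (nat_lit 4152163661)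 (nat_lit 561) (nat_lit 5) (nat_lit 581) (nat_lit 5) (nat_lit 582) (nat_lit 5) (nat_lit 561) (nat_lit 547) (nat_lit 452)) (XT.nd (nat_lit 78) (nat_lit 0) (nat_lit 76) (XT.lf (nat_lit 76) (nat_lit 2403697725) (nat_lit 0) (nat_lit 1236541017) (nat_lit 1596) (nat_lit 5117505849) (nat_lit 562) (nat_lit 5) (nat_lit 561) (nat_lit 5) (nat_lit 582) (nat_lit 5) (nat_lit 562) (nat_lit 547) (nat_lit 451)) (XT.lf (nat_lit 0) (nat_lit 5058769037) (nat_lit 1520) (nat_lit 1649390412) (nat_lit 1596) (nat_lit 2122434384) (nat_lit 562) (nat_lit 5) (nat_lit 582) (nat_lit 5) (nat_lit 583) (nat_lit 5) (nat_lit 563) (nat_lit 547) (nat_lit 450))))))) (XT.nd (nat_lit 780) (nat_lit 7372) (nat_lit 0) (XT.nd (nat_lit 390) (nat_lit 3192) (nat_lit 0) (XT.nd (nat_lit 156) (nat_lit 1520) (nat_lit 0) (XT.nd (nat_lit 78) (nat_lit 0) (nat_lit 76) (XT.lf (nat_lit 76) (nat_lit 3164099797) (nat_lit 0) (nat_lit 3344468412) (nat_lit 1596) (nat_lit 2396276512) (nat_lit 563) (nat_lit 5) (nat_lit 562) (nat_lit 5) (nat_lit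 583) (nat_lit 5) (nat_lit 564) (nat_lit 547) (nat_lit 449)) (XT.lf (nat_lit 0) (nat_lit 7973664606) (nat_lit 1520) (nat_lit 903779344) (nat_lit 1596) (nat_lit 103413228) (nat_lit 563) (nat_lit 5) (nat_lit 583) (nat_lit 5) (nat_lit 584) (nat_lit 5) (nat_lit 565) (nat_lit 547) (nat_lit 448))) (XT.nd (nat_lit 78) (nat_lit 0) (nat_lit 0) (XT.lf (nat_lit 0) (nat_lit 427942504) (nat_lit 1596) (nat_lit 5018577946) (nat_lit 1672) (nat_lit 3611345865) (nat_lit 542) (nat_lit 5) (nat_lit 563) (nat_lit 5) (nat_lit 564) (nat_lit 5) (nat_lit 566) (nat_lit 547) (nat_lit 447)) (XT.nd (nat_lit 78) (nat_lit 0) (nat_lit 76) (XT.lf (nat_lit 0) (nat_lit 1859710944) (nat_lit 1596) (nat_lit 68374681) (nat_lit 1672) (nat_lit 7208570948) (nat_lit 542) (nat_lit 5) (nat_lit 563) (nat_lit 5) (nat_lit 564) (nat_lit 5) (nat_lit 567) (nat_lit 547) (nat_lit 446)) (XT.lf (nat_lit 0) (nat_lit 3339581573) (nat_lit 1596) (nat_lit 4199581607) (nat_lit 1672) (nat_lit 1677472499) (nat_lit 543) (nat_lit 5) (nat_lit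 564) (nat_lit 5) (nat_lit 565) (nat_lit 5) (nat_lit 568) (nat_lit 547) (nat_lit 445))))) (XT.nd (nat_lit 156) (nat_lit 3268) (nat_lit 0) (XT.nd (nat_lit 78) (nat_lit 0) (nat_lit 0) (XT.lf (nat_lit 76) (nat_lit 886910331) (nat_lit 0) (nat_lit 3957303529) (nat_lit 1672) (nat_lit 4454099554) (nat_lit 544) (nat_lit 5) (nat_lit 543) (nat_lit 5) (nat_lit 565) (nat_lit 5) (nat_lit 569) (nat_lit 547) (nat_lit 444)) (XT.lf (nat_lit 76) (nat_lit 6113319755) (nat_lit 0) (nat_lit 270321118) (nat_lit 1672) (nat_lit 2997892078) (nat_lit 544) (nat_lit 5) (nat_lit 543) (nat_lit 5) (nat_lit 565) (nat_lit 5) (nat_lit 570) (nat_lit 547) (nat_lit 443))) (XT.nd (nat_lit 78) (nat_lit 1748) (nat_lit 0) (XT.lf (nat_lit 0) (nat_lit 1962046929) (nat_lit 1596) (nat_lit 6004221637) (nat_lit 1672) (nat_lit 1499902313) (nat_lit 523) (nat_lit 5) (nat_lit 544) (nat_lit 5) (nat_lit 545) (nat_lit 5) (nat_lit 571) (nat_lit 547) (nat_lit 442)) (XT.nd (nat_lit 78) (nat_lit 1672) (nat_lit 0) (XT.lf (nat_lit 0)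 (nat_lit 28734364) (nat_lit 1672) (nat_lit 2232012103) (nat_lit 76) (nat_lit 7291732512) (nat_lit 522) (nat_lit 5) (nat_lit 544) (nat_lit 5) (nat_lit 523) (nat_lit 5) (nat_lit 572) (nat_lit 547) (nat_lit 441)) (XT.lf (nat_lit 0) (nat_lit 1576358918) (nat_lit 1748) (nat_lit 6492333006) (nat_lit 76) (nat_lit 1571455166) (nat_lit 500) (nat_lit 5) (nat_lit 523) (nat_lit 5) (nat_lit 501) (nat_lit 5) (nat_lit 573) (nat_lit 547) (nat_lit 440)))))) (XT.nd (nat_lit 390) (nat_lit 2736) (nat_lit 0) (XT.nd (nat_lit 156) (nat_lit 2888) (nat_lit 0) (XT.nd (nat_lit 78) (nat_lit 1748) (nat_lit 0) (XT.lf (nat_lit 0) (nat_lit 3162961136) (nat_lit 1748) (nat_lit 1097862515) (nat_lit 76) (nat_lit 5468586483) (nat_lit 500) (nat_lit 5) (nat_lit 523) (nat_lit 5) (nat_lit 501) (nat_lit 5) (nat_lit 574) (nat_lit 547) (nat_lit 439)) (XT.lf (nat_lit 0) (nat_lit 4444141139) (nat_lit 1748) (nat_lit 344416584) (nat_lit 1824) (nat_lit 5031757499) (nat_lit 477) (nat_lit 5) (nat_lit 500) (nat_lit 5) (nat_lit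 501) (nat_lit 5) (nat_lit 575) (nat_lit 547) (nat_lit 438))) (XT.nd (nat_lit 78) (nat_lit 1064) (nat_lit 0) (XT.lf (nat_lit 0) (nat_lit 158338105) (nat_lit 1824) (nat_lit 6299201616) (nat_lit 1900) (nat_lit 3455283213) (nat_lit 453) (nat_lit 5) (nat_lit 477) (nat_lit 5) (nat_lit 478) (nat_lit 5) (nat_lit 576) (nat_lit 547) (nat_lit 437)) (XT.nd (nat_lit 78) (nat_lit 1064) (nat_lit 0) (XT.lf (nat_lit 0) (nat_lit 5855264483) (nat_lit 1824) (nat_lit 2322003611) (nat_lit 1900) (nat_lit 1829567323) (nat_lit 453) (nat_lit 5) (nat_lit 477) (nat_lit 5) (nat_lit 478) (nat_lit 5) (nat_lit 577) (nat_lit 547) (nat_lit 436)) (XT.lf (nat_lit 0) (nat_lit 1553616444) (nat_lit 1064) (nat_lit 8378573544) (nat_lit 1140) (nat_lit 170524099) (nat_lit 439) (nat_lit 5) (nat_lit 453) (nat_lit 5) (nat_lit 454) (nat_lit 5) (nat_lit 578) (nat_lit 547) (nat_lit 435))))) (XT.nd (nat_lit 234) (nat_lit 1748) (nat_lit 0) (XT.nd (nat_lit 78) (nat_lit 912) (nat_lit 0) (XT.lf (nat_lit 0) (nat_lit 1524757608)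 (nat_lit 1140) (nat_lit 2815258210) (nat_lit 76) (nat_lit 5859838452) (nat_lit 438) (nat_lit 5) (nat_lit 453) (nat_lit 5) (nat_lit 439) (nat_lit 5) (nat_lit 579) (nat_lit 547) (nat_lit 434)) (XT.nd (nat_lit 78) (nat_lit 0) (nat_lit 0) (XT.lf (nat_lit 0) (nat_lit 3053503030) (nat_lit 912) (nat_lit 197979982) (nat_lit 988) (nat_lit 7047437079) (nat_lit 426) (nat_lit 5) (nat_lit 438) (nat_lit 5) (nat_lit 439) (nat_lit 5) (nat_lit 580) (nat_lit 547) (nat_lit 433)) (XT.lf (nat_lit 0) (nat_lit 5038178590) (nat_lit 988) (nat_lit 1367012942) (nat_lit 76) (nat_lit 3994268751) (nat_lit 426) (nat_lit 5) (nat_lit 439) (nat_lit 5) (nat_lit 427) (nat_lit 5) (nat_lit 581) (nat_lit 547) (nat_lit 432)))) (XT.nd (nat_lit 78) (nat_lit 836) (nat_lit 0) (XT.lf (nat_lit 0) (nat_lit 4670317622) (nat_lit 912) (nat_lit 2202584584) (nat_lit 988) (nat_lit 3628864925) (nat_lit 414) (nat_lit 5) (nat_lit 426) (nat_lit 5) (nat_lit 427) (nat_lit 5) (nat_lit 582) (nat_lit 547) (nat_lit 431)) (XT.nd (nat_lit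 78) (nat_lit 0) (nat_lit 0) (XT.lf (nat_lit 0) (nat_lit 211320281) (nat_lit 836) (nat_lit 8538060948) (nat_lit 912) (nat_lit 1856639367) (nat_lit 403) (nat_lit 5) (nat_lit 414) (nat_lit 5) (nat_lit 415) (nat_lit 5) (nat_lit 583) (nat_lit 547) (nat_lit 430)) (XT.lf (nat_lit 0) (nat_lit 6420488148) (nat_lit 836) (nat_lit 4277700530) (nat_lit 912) (nat_lit 13476141) (nat_lit 403) (nat_lit 5) (nat_lit 414) (nat_lit 5) (nat_lit 415) (nat_lit 5) (nat_lit 584) (nat_lit 547) (nat_lit 429))))))))
noncomputable def xc127 : XT := (XT.nd (nat_lit 1638) (nat_lit 4180) (nat_lit 0) (XT.nd (nat_lit 780) (nat_lit 4180) (nat_lit 0) (XT.nd (nat_lit 390) (nat_lit 2280) (nat_lit 0) (XT.nd (nat_lit 156) (nat_lit 1672) (nat_lit 0) (XT.nd (nat_lit 78) (nat_lit 0) (nat_lit 0) (XT.lf (nat_lit 0) (nat_lit 1836619503) (nat_lit 912) (nat_lit 8890913281) (nat_lit 76) (nat_lit 91757381) (nat_lit 391) (nat_lit 5) (nat_lit 403) (nat_lit 5) (nat_lit 392) (nat_lit 5) (nat_lit 585) (nat_lit 547) (nat_lit 428))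 (XT.lf (nat_lit 0) (nat_lit 3762517337) (nat_lit 912) (nat_lit 2645461563) (nat_lit 76) (nat_lit 4520309293) (nat_lit 391) (nat_lit 5) (nat_lit 403) (nat_lit 5) (nat_lit 392) (nat_lit 5) (nat_lit 586) (nat_lit 547) (nat_lit 427))) (XT.nd (nat_lit 78) (nat_lit 836) (nat_lit 0) (XT.lf (nat_lit 0) (nat_lit 3755675235) (nat_lit 836) (nat_lit 1977666398) (nat_lit 912) (nat_lit 5305997918) (nat_lit 380) (nat_lit 5) (nat_lit 391) (nat_lit 5) (nat_lit 392) (nat_lit 5) (nat_lit 587) (nat_lit 547) (nat_lit 426)) (XT.nd (nat_lit 78) (nat_lit 836) (nat_lit 0) (XT.lf (nat_lit 0) (nat_lit 7760205357) (nat_lit 912) (nat_lit 866890339) (nat_lit 76) (nat_lit 2525185289) (nat_lit 380) (nat_lit 5) (nat_lit 392) (nat_lit 5) (nat_lit 381) (nat_lit 5) (nat_lit 588) (nat_lit 547) (nat_lit 425)) (XT.lf (nat_lit 0) (nat_lit 5721820488) (nat_lit 836) (nat_lit 4138634261) (nat_lit 912) (nat_lit 1406371011) (nat_lit 369) (nat_lit 5) (nat_lit 380) (nat_lit 5) (nat_lit 381) (nat_lit 5) (nat_lit 589) (nat_lit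 547) (nat_lit 424))))) (XT.nd (nat_lit 156) (nat_lit 1444) (nat_lit 0) (XT.nd (nat_lit 78) (nat_lit 0) (nat_lit 0) (XT.lf (nat_lit 0) (nat_lit 609346038) (nat_lit 836) (nat_lit 10324704726) (nat_lit 76) (nat_lit 449563359) (nat_lit 358) (nat_lit 5) (nat_lit 369) (nat_lit 5) (nat_lit 359) (nat_lit 5) (nat_lit 590) (nat_lit 547) (nat_lit 423)) (XT.lf (nat_lit 0) (nat_lit 2694349098) (nat_lit 836) (nat_lit 3687563933) (nat_lit 76) (nat_lit 5119684635) (nat_lit 358) (nat_lit 5) (nat_lit 369) (nat_lit 5) (nat_lit 359) (nat_lit 5) (nat_lit 591) (nat_lit 547) (nat_lit 422))) (XT.nd (nat_lit 78) (nat_lit 684) (nat_lit 0) (XT.lf (nat_lit 0) (nat_lit 3104736965) (nat_lit 760) (nat_lit 1719729024) (nat_lit 836) (nat_lit 6797407981) (nat_lit 348) (nat_lit 5) (nat_lit 358) (nat_lit 5) (nat_lit 359) (nat_lit 5) (nat_lit 592) (nat_lit 547) (nat_lit 421)) (XT.nd (nat_lit 78) (nat_lit 684) (nat_lit 0) (XT.lf (nat_lit 0) (nat_lit 7025259693) (nat_lit 836) (nat_lit 1699567568) (nat_lit 76) (nat_lit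 3019168391) (nat_lit 348) (nat_lit 5) (nat_lit 359) (nat_lit 5) (nat_lit 349) (nat_lit 5) (nat_lit 593) (nat_lit 547) (nat_lit 420)) (XT.lf (nat_lit 0) (nat_lit 5294259479) (nat_lit 684) (nat_lit 4005352308) (nat_lit 760) (nat_lit 2568358443) (nat_lit 339) (nat_lit 5) (nat_lit 348) (nat_lit 5) (nat_lit 349) (nat_lit 5) (nat_lit 594) (nat_lit 547) (nat_lit 419)))))) (XT.nd (nat_lit 390) (nat_lit 1976) (nat_lit 0) (XT.nd (nat_lit 156) (nat_lit 1368) (nat_lit 0) (XT.nd (nat_lit 78) (nat_lit 76) (nat_lit 0) (XT.lf (nat_lit 0) (nat_lit 438907024) (nat_lit 760) (nat_lit 11184091281) (nat_lit 836) (nat_lit 371356335) (nat_lit 329) (nat_lit 5) (nat_lit 339) (nat_lit 5) (nat_lit 340) (nat_lit 5) (nat_lit 595) (nat_lit 547) (nat_lit 418)) (XT.lf (nat_lit 0) (nat_lit 1900054368) (nat_lit 836) (nat_lit 4498877046) (nat_lit 76) (nat_lit 5722994022) (nat_lit 328) (nat_lit 5) (nat_lit 339) (nat_lit 5) (nat_lit 329) (nat_lit 5) (nat_lit 596) (nat_lit 547) (nat_lit 417))) (XT.nd (nat_lit 78)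 (nat_lit 684) (nat_lit 0) (XT.lf (nat_lit 0) (nat_lit 2713898239) (nat_lit 684) (nat_lit 1500018052) (nat_lit 760) (nat_lit 8038043566) (nat_lit 319) (nat_lit 5) (nat_lit 328) (nat_lit 5) (nat_lit 329) (nat_lit 5) (nat_lit 597) (nat_lit 547) (nat_lit 416)) (XT.nd (nat_lit 78) (nat_lit 684) (nat_lit 0) (XT.lf (nat_lit 0) (nat_lit 6611693361) (nat_lit 760) (nat_lit 2293218197) (nat_lit 76) (nat_lit 3478931842) (nat_lit 319) (nat_lit 5) (nat_lit 329) (nat_lit 5) (nat_lit 320) (nat_lit 5) (nat_lit 598) (nat_lit 547) (nat_lit 415)) (XT.lf (nat_lit 0) (nat_lit 5136070685) (nat_lit 684) (nat_lit 3949483132) (nat_lit 760) (nat_lit 3432249406) (nat_lit 310) (nat_lit 5) (nat_lit 319) (nat_lit 5) (nat_lit 320) (nat_lit 5) (nat_lit 599) (nat_lit 547) (nat_lit 414))))) (XT.nd (nat_lit 234) (nat_lit 608) (nat_lit 0) (XT.nd (nat_lit 78) (nat_lit 760) (nat_lit 0) (XT.lf (nat_lit 0) (nat_lit 66448035) (nat_lit 608) (nat_lit 11550551094) (nat_lit 684) (nat_lit 1037282105) (nat_lit 302) (nat_lit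 5) (nat_lit 310) (nat_lit 5) (nat_lit 311) (nat_lit 5) (nat_lit 600) (nat_lit 547) (nat_lit 413)) (XT.nd (nat_lit 78) (nat_lit 684) (nat_lit 0) (XT.lf (nat_lit 0) (nat_lit 1448258122) (nat_lit 684) (nat_lit 5082577494) (nat_lit 76) (nat_lit 6261249606) (nat_lit 301) (nat_lit 5) (nat_lit 310) (nat_lit 5) (nat_lit 302) (nat_lit 5) (nat_lit 601) (nat_lit 547) (nat_lit 412)) (XT.lf (nat_lit 0) (nat_lit 2582009392) (nat_lit 684) (nat_lit 1389769223) (nat_lit 760) (nat_lit 8960687452) (nat_lit 292) (nat_lit 5) (nat_lit 301) (nat_lit 5) (nat_lit 302) (nat_lit 5) (nat_lit 602) (nat_lit 547) (nat_lit 411)))) (XT.nd (nat_lit 78) (nat_lit 608) (nat_lit 0) (XT.lf (nat_lit 0) (nat_lit 6590658448) (nat_lit 760) (nat_lit 2649358381) (nat_lit 76) (nat_lit 3834740977) (nat_lit 292) (nat_lit 5) (nat_lit 302) (nat_lit 5) (nat_lit 293) (nat_lit 5) (nat_lit 603) (nat_lit 547) (nat_lit 410)) (XT.nd (nat_lit 78) (nat_lit 0) (nat_lit 0) (XT.lf (nat_lit 0) (nat_lit 5247815214) (nat_lit 608) (nat_lit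 4043193194) (nat_lit 684) (nat_lit 3928306159) (nat_lit 284) (nat_lit 5) (nat_lit 292) (nat_lit 5) (nat_lit 293) (nat_lit 5) (nat_lit 604) (nat_lit 547) (nat_lit 409)) (XT.lf (nat_lit 0) (nat_lit 12057385608) (nat_lit 684) (nat_lit 53556997) (nat_lit 76) (nat_lit 1255580468) (nat_lit 284) (nat_lit 5) (nat_lit 293) (nat_lit 5) (nat_lit 285) (nat_lit 5) (nat_lit 605) (nat_lit 547) (nat_lit 408))))))) (XT.nd (nat_lit 780) (nat_lit 76) (nat_lit 0) (XT.nd (nat_lit 390) (nat_lit 1672) (nat_lit 0) (XT.nd (nat_lit 156) (nat_lit 1140) (nat_lit 0) (XT.nd (nat_lit 78) (nat_lit 608) (nat_lit 0) (XT.lf (nat_lit 0) (nat_lit 1410480280) (nat_lit 684) (nat_lit 5440011809) (nat_lit 76) (nat_lit 6664689042) (nat_lit 275) (nat_lit 5) (nat_lit 284) (nat_lit 5) (nat_lit 276) (nat_lit 5) (nat_lit 606) (nat_lit 547) (nat_lit 407)) (XT.lf (nat_lit 0) (nat_lit 2709824757) (nat_lit 608) (nat_lit 1461409513) (nat_lit 684) (nat_lit 9495320504) (nat_lit 267) (nat_lit 5) (nat_lit 275) (nat_lit 5) (nat_lit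 276) (nat_lit 5) (nat_lit 607) (nat_lit 547) (nat_lit 406))) (XT.nd (nat_lit 78) (nat_lit 1140) (nat_lit 0) (XT.lf (nat_lit 0) (nat_lit 7036584028) (nat_lit 684) (nat_lit 2767836023) (nat_lit 76) (nat_lit 4015549165) (nat_lit 267) (nat_lit 5) (nat_lit 276) (nat_lit 5) (nat_lit 268) (nat_lit 5) (nat_lit 608) (nat_lit 547) (nat_lit 405)) (XT.nd (nat_lit 78) (nat_lit 532) (nat_lit 0) (XT.lf (nat_lit 0) (nat_lit 5631797642) (nat_lit 608) (nat_lit 4360385474) (nat_lit 684) (nat_lit 3983610903) (nat_lit 259) (nat_lit 5) (nat_lit 267) (nat_lit 5) (nat_lit 268) (nat_lit 5) (nat_lit 609) (nat_lit 547) (nat_lit 404)) (XT.lf (nat_lit 0) (nat_lit 78394363) (nat_lit 532) (nat_lit 12942270944) (nat_lit 608) (nat_lit 1113795491) (nat_lit 252) (nat_lit 5) (nat_lit 259) (nat_lit 5) (nat_lit 260) (nat_lit 5) (nat_lit 610) (nat_lit 547) (nat_lit 403))))) (XT.nd (nat_lit 156) (nat_lit 1064) (nat_lit 0) (XT.nd (nat_lit 78) (nat_lit 532) (nat_lit 0) (XT.lf (nat_lit 0) (nat_lit 1861755211) (nat_lit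 608) (nat_lit 5571272560) (nat_lit 76) (nat_lit 6861596086) (nat_lit 251) (nat_lit 5) (nat_lit 259) (nat_lit 5) (nat_lit 252) (nat_lit 5) (nat_lit 611) (nat_lit 547) (nat_lit 402)) (XT.lf (nat_lit 0) (nat_lit 3099423853) (nat_lit 532) (nat_lit 1789756140) (nat_lit 608) (nat_lit 9568518253) (nat_lit 244) (nat_lit 5) (nat_lit 251) (nat_lit 5) (nat_lit 252) (nat_lit 5) (nat_lit 612) (nat_lit 547) (nat_lit 401))) (XT.nd (nat_lit 78) (nat_lit 1064) (nat_lit 0) (XT.lf (nat_lit 0) (nat_lit 8027793328) (nat_lit 608) (nat_lit 2647414241) (nat_lit 76) (nat_lit 3947814587) (nat_lit 244) (nat_lit 5) (nat_lit 252) (nat_lit 5) (nat_lit 245) (nat_lit 5) (nat_lit 613) (nat_lit 547) (nat_lit 400)) (XT.nd (nat_lit 78) (nat_lit 532) (nat_lit 0) (XT.lf (nat_lit 0) (nat_lit 6291479074) (nat_lit 532) (nat_lit 4977904842) (nat_lit 608) (nat_lit 3521465343) (nat_lit 237) (nat_lit 5) (nat_lit 244) (nat_lit 5) (nat_lit 245) (nat_lit 5) (nat_lit 614) (nat_lit 547) (nat_lit 399)) (XT.lf (nat_lit 0) (nat_lit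 467001593) (nat_lit 532) (nat_lit 14122742438) (nat_lit 608) (nat_lit 372010923) (nat_lit 230) (nat_lit 5) (nat_lit 237) (nat_lit 5) (nat_lit 238) (nat_lit 5) (nat_lit 615) (nat_lit 547) (nat_lit 398)))))) (XT.nd (nat_lit 76206) (nat_lit 0) (nat_lit 26524) (XT.nd (nat_lit 75972) (nat_lit 0) (nat_lit 27816) (XT.nd (nat_lit 75894) (nat_lit 0) (nat_lit 27816) (XT.lf (nat_lit 0) (nat_lit 2881222456) (nat_lit 608) (nat_lit 5475819171) (nat_lit 76) (nat_lit 6777108210) (nat_lit 229) (nat_lit 5) (nat_lit 237) (nat_lit 5) (nat_lit 230) (nat_lit 5) (nat_lit 616) (nat_lit 547) (nat_lit 397)) (XT.lf (nat_lit 0) (nat_lit 1359758690) (nat_lit 1444) (nat_lit 1304248193) (nat_lit 1444) (nat_lit 1304248193) (nat_lit 595) (nat_lit 3) (nat_lit 614) (nat_lit 3) (nat_lit 614) (nat_lit 5) (nat_lit 548) (nat_lit 548) (nat_lit 464))) (XT.nd (nat_lit 78) (nat_lit 0) (nat_lit 76) (XT.lf (nat_lit 76) (nat_lit 1334818761) (nat_lit 0) (nat_lit 2657440730) (nat_lit 1444) (nat_lit 3998570003) (nat_lit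 596) (nat_lit 5) (nat_lit 595) (nat_lit 3) (nat_lit 614) (nat_lit 5) (nat_lit 549) (nat_lit 548) (nat_lit 463)) (XT.nd (nat_lit 78) (nat_lit 0) (nat_lit 0) (XT.lf (nat_lit 0) (nat_lit 5276058595) (nat_lit 1368) (nat_lit 2671599140) (nat_lit 1444) (nat_lit 98868979) (nat_lit 596) (nat_lit 5) (nat_lit 614) (nat_lit 5) (nat_lit 615) (nat_lit 5) (nat_lit 550) (nat_lit 548) (nat_lit 462)) (XT.lf (nat_lit 76) (nat_lit 1375763651) (nat_lit 0) (nat_lit 5204487419) (nat_lit 1444) (nat_lit 1523195927) (nat_lit 597) (nat_lit 5) (nat_lit 596) (nat_lit 5) (nat_lit 615) (nat_lit 5) (nat_lit 551) (nat_lit 548) (nat_lit 461))))) (XT.nd (nat_lit 234) (nat_lit 0) (nat_lit 0) (XT.nd (nat_lit 78) (nat_lit 1368) (nat_lit 0) (XT.lf (nat_lit 76) (nat_lit 5523219489) (nat_lit 0) (nat_lit 2373934802) (nat_lit 1444) (nat_lit 264622256) (nat_lit 597) (nat_lit 5) (nat_lit 596) (nat_lit 5) (nat_lit 615) (nat_lit 5) (nat_lit 552) (nat_lit 548) (nat_lit 460)) (XT.nd (nat_lit 78) (nat_lit 0) (nat_lit 0)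 (XT.lf (nat_lit 0) (nat_lit 988319130) (nat_lit 1444) (nat_lit 6696458344) (nat_lit 1520) (nat_lit 536714900) (nat_lit 578) (nat_lit 5) (nat_lit 597) (nat_lit 5) (nat_lit 598) (nat_lit 5) (nat_lit 553) (nat_lit 548) (nat_lit 459)) (XT.lf (nat_lit 0) (nat_lit 2266012365) (nat_lit 1444) (nat_lit 2509708986) (nat_lit 1520) (nat_lit 3506584660) (nat_lit 578) (nat_lit 5) (nat_lit 597) (nat_lit 5) (nat_lit 598) (nat_lit 5) (nat_lit 554) (nat_lit 548) (nat_lit 458)))) (XT.nd (nat_lit 78) (nat_lit 0) (nat_lit 76) (XT.lf (nat_lit 76) (nat_lit 1766559078) (nat_lit 0) (nat_lit 1784452620) (nat_lit 1520) (nat_lit 4793692319) (nat_lit 579) (nat_lit 5) (nat_lit 578) (nat_lit 5) (nat_lit 598) (nat_lit 5) (nat_lit 555) (nat_lit 548) (nat_lit 457)) (XT.nd (nat_lit 78) (nat_lit 0) (nat_lit 0) (XT.lf (nat_lit 0) (nat_lit 4857718777) (nat_lit 1444) (nat_lit 2271912714) (nat_lit 1520) (nat_lit 1278801416) (nat_lit 579) (nat_lit 5) (nat_lit 598) (nat_lit 5) (nat_lit 599) (nat_lit 5) (nat_lit 556)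 (nat_lit 548) (nat_lit 456)) (XT.lf (nat_lit 76) (nat_lit 2118830710) (nat_lit 0) (nat_lit 4068706532) (nat_lit 1520) (nat_lit 2285962606) (nat_lit 580) (nat_lit 5) (nat_lit 579) (nat_lit 5) (nat_lit 599) (nat_lit 5) (nat_lit 557) (nat_lit 548) (nat_lit 455))))))))
noncomputable def xc128 : XT := (XT.nd (nat_lit 1560) (nat_lit 10184) (nat_lit 0) (XT.nd (nat_lit 780) (nat_lit 6688) (nat_lit 0) (XT.nd (nat_lit 390) (nat_lit 1444) (nat_lit 0) (XT.nd (nat_lit 156) (nat_lit 0) (nat_lit 0) (XT.nd (nat_lit 78) (nat_lit 1444) (nat_lit 0) (XT.lf (nat_lit 76) (nat_lit 6610716343) (nat_lit 0) (nat_lit 920331597) (nat_lit 1520) (nat_lit 1009081230) (nat_lit 580) (nat_lit 5) (nat_lit 579) (nat_lit 5) (nat_lit 599) (nat_lit 5) (nat_lit 558) (nat_lit 548) (nat_lit 454)) (XT.lf (nat_lit 0) (nat_lit 293647600) (nat_lit 1520) (nat_lit 6024307650) (nat_lit 1596) (nat_lit 2290017440) (nat_lit 560) (nat_lit 5) (nat_lit 580) (nat_lit 5) (nat_lit 581) (nat_lit 5) (nat_lit 559) (nat_lit 548) (nat_lit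 453))) (XT.nd (nat_lit 78) (nat_lit 0) (nat_lit 76) (XT.lf (nat_lit 0) (nat_lit 1600773162) (nat_lit 1520) (nat_lit 1494617280) (nat_lit 1596) (nat_lit 5581814953) (nat_lit 560) (nat_lit 5) (nat_lit 580) (nat_lit 5) (nat_lit 581) (nat_lit 5) (nat_lit 560) (nat_lit 548) (nat_lit 452)) (XT.nd (nat_lit 78) (nat_lit 0) (nat_lit 0) (XT.lf (nat_lit 0) (nat_lit 2929175576) (nat_lit 1520) (nat_lit 5600064502) (nat_lit 1596) (nat_lit 218682722) (nat_lit 561) (nat_lit 5) (nat_lit 581) (nat_lit 5) (nat_lit 582) (nat_lit 5) (nat_lit 561) (nat_lit 548) (nat_lit 451)) (XT.lf (nat_lit 0) (nat_lit 4288457482) (nat_lit 1520) (nat_lit 955092062) (nat_lit 1596) (nat_lit 3576421461) (nat_lit 561) (nat_lit 5) (nat_lit 581) (nat_lit 5) (nat_lit 582) (nat_lit 5) (nat_lit 562) (nat_lit 548) (nat_lit 450))))) (XT.nd (nat_lit 156) (nat_lit 1520) (nat_lit 0) (XT.nd (nat_lit 78) (nat_lit 0) (nat_lit 76) (XT.lf (nat_lit 76) (nat_lit 3815054434) (nat_lit 0) (nat_lit 1858871905) (nat_lit 1596) (nat_lit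 3219556437) (nat_lit 562) (nat_lit 5) (nat_lit 561) (nat_lit 5) (nat_lit 582) (nat_lit 5) (nat_lit 563) (nat_lit 548) (nat_lit 449)) (XT.lf (nat_lit 0) (nat_lit 7078574620) (nat_lit 1520) (nat_lit 303378732) (nat_lit 1596) (nat_lit 1586684605) (nat_lit 562) (nat_lit 5) (nat_lit 582) (nat_lit 5) (nat_lit 583) (nat_lit 5) (nat_lit 564) (nat_lit 548) (nat_lit 448))) (XT.nd (nat_lit 78) (nat_lit 1596) (nat_lit 0) (XT.lf (nat_lit 76) (nat_lit 4597308916) (nat_lit 0) (nat_lit 3931335134) (nat_lit 1596) (nat_lit 516308153) (nat_lit 563) (nat_lit 5) (nat_lit 562) (nat_lit 5) (nat_lit 583) (nat_lit 5) (nat_lit 565) (nat_lit 548) (nat_lit 447)) (XT.nd (nat_lit 78) (nat_lit 0) (nat_lit 76) (XT.lf (nat_lit 76) (nat_lit 459579839) (nat_lit 0) (nat_lit 394145932) (nat_lit 1672) (nat_lit 8269346291) (nat_lit 542) (nat_lit 5) (nat_lit 541) (nat_lit 5) (nat_lit 563) (nat_lit 5) (nat_lit 566) (nat_lit 548) (nat_lit 446)) (XT.lf (nat_lit 0) (nat_lit 2270946881) (nat_lit 1596) (nat_lit 3719872997)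 (nat_lit 1672) (nat_lit 3211334565) (nat_lit 542) (nat_lit 5) (nat_lit 563) (nat_lit 5) (nat_lit 564) (nat_lit 5) (nat_lit 567) (nat_lit 548) (nat_lit 445)))))) (XT.nd (nat_lit 390) (nat_lit 5244) (nat_lit 0) (XT.nd (nat_lit 156) (nat_lit 1520) (nat_lit 0) (XT.nd (nat_lit 78) (nat_lit 0) (nat_lit 76) (XT.lf (nat_lit 76) (nat_lit 1319203044) (nat_lit 0) (nat_lit 2384743266) (nat_lit 1672) (nat_lit 5579125819) (nat_lit 543) (nat_lit 5) (nat_lit 542) (nat_lit 5) (nat_lit 564) (nat_lit 5) (nat_lit 568) (nat_lit 548) (nat_lit 444)) (XT.lf (nat_lit 0) (nat_lit 5175773656) (nat_lit 1596) (nat_lit 2882680763) (nat_lit 1672) (nat_lit 1306952678) (nat_lit 543) (nat_lit 5) (nat_lit 564) (nat_lit 5) (nat_lit 565) (nat_lit 5) (nat_lit 569) (nat_lit 548) (nat_lit 443))) (XT.nd (nat_lit 78) (nat_lit 1596) (nat_lit 0) (XT.lf (nat_lit 76) (nat_lit 2296324616) (nat_lit 0) (nat_lit 4388515530) (nat_lit 1672) (nat_lit 2764394807) (nat_lit 544) (nat_lit 5) (nat_lit 543) (nat_lit 5) (nat_lit 565)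 (nat_lit 5) (nat_lit 570) (nat_lit 548) (nat_lit 442)) (XT.nd (nat_lit 78) (nat_lit 1596) (nat_lit 0) (XT.lf (nat_lit 76) (nat_lit 7599974462) (nat_lit 0) (nat_lit 620890218) (nat_lit 1672) (nat_lit 1313941353) (nat_lit 544) (nat_lit 5) (nat_lit 543) (nat_lit 5) (nat_lit 565) (nat_lit 5) (nat_lit 571) (nat_lit 548) (nat_lit 441)) (XT.lf (nat_lit 0) (nat_lit 184340132) (nat_lit 1672) (nat_lit 6229828615) (nat_lit 76) (nat_lit 3207480611) (nat_lit 522) (nat_lit 5) (nat_lit 544) (nat_lit 5) (nat_lit 523) (nat_lit 5) (nat_lit 572) (nat_lit 548) (nat_lit 440))))) (XT.nd (nat_lit 156) (nat_lit 3572) (nat_lit 0) (XT.nd (nat_lit 78) (nat_lit 1672) (nat_lit 0) (XT.lf (nat_lit 0) (nat_lit 1690265496) (nat_lit 1672) (nat_lit 889941868) (nat_lit 76) (nat_lit 7129945115) (nat_lit 522) (nat_lit 5) (nat_lit 544) (nat_lit 5) (nat_lit 523) (nat_lit 5) (nat_lit 573) (nat_lit 548) (nat_lit 439)) (XT.lf (nat_lit 0) (nat_lit 3243532539) (nat_lit 1748) (nat_lit 5210005314) (nat_lit 76) (nat_lit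 1346545378) (nat_lit 500) (nat_lit 5) (nat_lit 523) (nat_lit 5) (nat_lit 501) (nat_lit 5) (nat_lit 574) (nat_lit 548) (nat_lit 438))) (XT.nd (nat_lit 78) (nat_lit 1824) (nat_lit 0) (XT.lf (nat_lit 0) (nat_lit 268182150) (nat_lit 1748) (nat_lit 4563354368) (nat_lit 1824) (nat_lit 5060204639) (nat_lit 477) (nat_lit 5) (nat_lit 500) (nat_lit 5) (nat_lit 501) (nat_lit 5) (nat_lit 575) (nat_lit 548) (nat_lit 437)) (XT.nd (nat_lit 78) (nat_lit 1824) (nat_lit 0) (XT.lf (nat_lit 0) (nat_lit 5908400169) (nat_lit 1748) (nat_lit 556990860) (nat_lit 1824) (nat_lit 3519561356) (nat_lit 477) (nat_lit 5) (nat_lit 500) (nat_lit 5) (nat_lit 501) (nat_lit 5) (nat_lit 576) (nat_lit 548) (nat_lit 436)) (XT.lf (nat_lit 0) (nat_lit 1560719344) (nat_lit 1824) (nat_lit 6583807468) (nat_lit 1900) (nat_lit 1935250856) (nat_lit 453) (nat_lit 5) (nat_lit 477) (nat_lit 5) (nat_lit 478) (nat_lit 5) (nat_lit 577) (nat_lit 548) (nat_lit 435))))))) (XT.nd (nat_lit 780) (nat_lit 5472) (nat_lit 0) (XT.nd (nat_lit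 390) (nat_lit 2660) (nat_lit 0) (XT.nd (nat_lit 156) (nat_lit 912) (nat_lit 0) (XT.nd (nat_lit 78) (nat_lit 1140) (nat_lit 0) (XT.lf (nat_lit 0) (nat_lit 7344148672) (nat_lit 1824) (nat_lit 2523955272) (nat_lit 1900) (nat_lit 308180217) (nat_lit 453) (nat_lit 5) (nat_lit 477) (nat_lit 5) (nat_lit 478) (nat_lit 5) (nat_lit 578) (nat_lit 548) (nat_lit 434)) (XT.lf (nat_lit 0) (nat_lit 1343859798) (nat_lit 1140) (nat_lit 7304430139) (nat_lit 76) (nat_lit 1626054117) (nat_lit 438) (nat_lit 5) (nat_lit 453) (nat_lit 5) (nat_lit 439) (nat_lit 5) (nat_lit 579) (nat_lit 548) (nat_lit 433))) (XT.nd (nat_lit 78) (nat_lit 912) (nat_lit 0) (XT.lf (nat_lit 0) (nat_lit 3041050012) (nat_lit 1140) (nat_lit 1484778906) (nat_lit 76) (nat_lit 5848172537) (nat_lit 438) (nat_lit 5) (nat_lit 453) (nat_lit 5) (nat_lit 439) (nat_lit 5) (nat_lit 580) (nat_lit 548) (nat_lit 432)) (XT.nd (nat_lit 78) (nat_lit 0) (nat_lit 0) (XT.lf (nat_lit 0) (nat_lit 4492233977) (nat_lit 912) (nat_lit 289887356) (nat_lit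 988) (nat_lit 5693333657) (nat_lit 426) (nat_lit 5) (nat_lit 438) (nat_lit 5) (nat_lit 439) (nat_lit 5) (nat_lit 581) (nat_lit 548) (nat_lit 431)) (XT.lf (nat_lit 0) (nat_lit 6575253579) (nat_lit 988) (nat_lit 14279276) (nat_lit 76) (nat_lit 3989061652) (nat_lit 426) (nat_lit 5) (nat_lit 439) (nat_lit 5) (nat_lit 427) (nat_lit 5) (nat_lit 582) (nat_lit 548) (nat_lit 430))))) (XT.nd (nat_lit 156) (nat_lit 912) (nat_lit 0) (XT.nd (nat_lit 78) (nat_lit 836) (nat_lit 0) (XT.lf (nat_lit 0) (nat_lit 6134718466) (nat_lit 912) (nat_lit 2292691637) (nat_lit 988) (nat_lit 2255925143) (nat_lit 414) (nat_lit 5) (nat_lit 426) (nat_lit 5) (nat_lit 427) (nat_lit 5) (nat_lit 583) (nat_lit 548) (nat_lit 429)) (XT.lf (nat_lit 0) (nat_lit 1606098474) (nat_lit 836) (nat_lit 8716270166) (nat_lit 912) (nat_lit 467688616) (nat_lit 403) (nat_lit 5) (nat_lit 414) (nat_lit 5) (nat_lit 415) (nat_lit 5) (nat_lit 584) (nat_lit 548) (nat_lit 428))) (XT.nd (nat_lit 78) (nat_lit 836) (nat_lit 0) (XT.lf (nat_lit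 0) (nat_lit 1366219118) (nat_lit 912) (nat_lit 2995169333) (nat_lit 76) (nat_lit 6536796810) (nat_lit 402) (nat_lit 5) (nat_lit 414) (nat_lit 5) (nat_lit 403) (nat_lit 5) (nat_lit 585) (nat_lit 548) (nat_lit 427)) (XT.nd (nat_lit 78) (nat_lit 0) (nat_lit 0) (XT.lf (nat_lit 0) (nat_lit 3235065442) (nat_lit 912) (nat_lit 7668802347) (nat_lit 76) (nat_lit 104457292) (nat_lit 391) (nat_lit 5) (nat_lit 403) (nat_lit 5) (nat_lit 392) (nat_lit 5) (nat_lit 586) (nat_lit 548) (nat_lit 426)) (XT.lf (nat_lit 0) (nat_lit 5172780967) (nat_lit 912) (nat_lit 1325891187) (nat_lit 76) (nat_lit 4621367207) (nat_lit 391) (nat_lit 5) (nat_lit 403) (nat_lit 5) (nat_lit 392) (nat_lit 5) (nat_lit 587) (nat_lit 548) (nat_lit 425)))))) (XT.nd (nat_lit 390) (nat_lit 2964) (nat_lit 0) (XT.nd (nat_lit 156) (nat_lit 836) (nat_lit 0) (XT.nd (nat_lit 78) (nat_lit 836) (nat_lit 0) (XT.lf (nat_lit 0) (nat_lit 5194238876) (nat_lit 836) (nat_lit 1971458564) (nat_lit 912) (nat_lit 4067963034) (nat_lit 380) (nat_lit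 5) (nat_lit 391) (nat_lit 5) (nat_lit 392) (nat_lit 5) (nat_lit 588) (nat_lit 548) (nat_lit 424)) (XT.lf (nat_lit 0) (nat_lit 484497589) (nat_lit 836) (nat_lit 8726200776) (nat_lit 912) (nat_lit 2138612571) (nat_lit 369) (nat_lit 5) (nat_lit 380) (nat_lit 5) (nat_lit 381) (nat_lit 5) (nat_lit 589) (nat_lit 548) (nat_lit 423))) (XT.nd (nat_lit 78) (nat_lit 836) (nat_lit 0) (XT.lf (nat_lit 0) (nat_lit 7189665391) (nat_lit 836) (nat_lit 4143592759) (nat_lit 912) (nat_lit 133284503) (nat_lit 369) (nat_lit 5) (nat_lit 380) (nat_lit 5) (nat_lit 381) (nat_lit 5) (nat_lit 590) (nat_lit 548) (nat_lit 422)) (XT.nd (nat_lit 78) (nat_lit 0) (nat_lit 0) (XT.lf (nat_lit 0) (nat_lit 1889950734) (nat_lit 836) (nat_lit 9144785000) (nat_lit 76) (nat_lit 551078764) (nat_lit 358) (nat_lit 5) (nat_lit 369) (nat_lit 5) (nat_lit 359) (nat_lit 5) (nat_lit 591) (nat_lit 548) (nat_lit 421)) (XT.lf (nat_lit 0) (nat_lit 3991782919) (nat_lit 836) (nat_lit 2402085975) (nat_lit 76) (nat_lit 5312788266)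 (nat_lit 358) (nat_lit 5) (nat_lit 369) (nat_lit 5) (nat_lit 359) (nat_lit 5) (nat_lit 592) (nat_lit 548) (nat_lit 420))))) (XT.nd (nat_lit 234) (nat_lit 1520) (nat_lit 0) (XT.nd (nat_lit 78) (nat_lit 684) (nat_lit 0) (XT.lf (nat_lit 0) (nat_lit 4517118642) (nat_lit 760) (nat_lit 1631767192) (nat_lit 836) (nat_lit 5680767473) (nat_lit 348) (nat_lit 5) (nat_lit 358) (nat_lit 5) (nat_lit 359) (nat_lit 5) (nat_lit 593) (nat_lit 548) (nat_lit 419)) (XT.nd (nat_lit 78) (nat_lit 684) (nat_lit 0) (XT.lf (nat_lit 0) (nat_lit 8370397186) (nat_lit 836) (nat_lit 386352388) (nat_lit 76) (nat_lit 3197935765) (nat_lit 348) (nat_lit 5) (nat_lit 359) (nat_lit 5) (nat_lit 349) (nat_lit 5) (nat_lit 594) (nat_lit 548) (nat_lit 418)) (XT.lf (nat_lit 0) (nat_lit 6738487999) (nat_lit 684) (nat_lit 3936817495) (nat_lit 760) (nat_lit 1406134446) (nat_lit 339) (nat_lit 5) (nat_lit 348) (nat_lit 5) (nat_lit 349) (nat_lit 5) (nat_lit 595) (nat_lit 548) (nat_lit 417)))) (XT.nd (nat_lit 78) (nat_lit 684)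 (nat_lit 0) (XT.lf (nat_lit 0) (nat_lit 810165911) (nat_lit 836) (nat_lit 10415958579) (nat_lit 76) (nat_lit 984394847) (nat_lit 328) (nat_lit 5) (nat_lit 339) (nat_lit 5) (nat_lit 329) (nat_lit 5) (nat_lit 596) (nat_lit 548) (nat_lit 416)) (XT.nd (nat_lit 78) (nat_lit 684) (nat_lit 0) (XT.lf (nat_lit 0) (nat_lit 3098821692) (nat_lit 836) (nat_lit 3247542158) (nat_lit 76) (nat_lit 5994694621) (nat_lit 328) (nat_lit 5) (nat_lit 339) (nat_lit 5) (nat_lit 329) (nat_lit 5) (nat_lit 597) (nat_lit 548) (nat_lit 415)) (XT.lf (nat_lit 0) (nat_lit 4100664209) (nat_lit 684) (nat_lit 1344187919) (nat_lit 760) (nat_lit 7029125397) (nat_lit 319) (nat_lit 5) (nat_lit 328) (nat_lit 5) (nat_lit 329) (nat_lit 5) (nat_lit 598) (nat_lit 548) (nat_lit 414))))))))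
noncomputable def xc129 : XT := (XT.nd (nat_lit 2574) (nat_lit 3116) (nat_lit 0) (XT.nd (nat_lit 780) (nat_lit 7144) (nat_lit 0) (XT.nd (nat_lit 390) (nat_lit 1900) (nat_lit 0) (XT.nd (nat_lit 156) (nat_lit 1368) (nat_lit 0) (XT.nd (nat_lit 78) (nat_lit 684) (nat_lit 0) (XT.lf (nat_lit 0) (nat_lit 7869284135) (nat_lit 760) (nat_lit 1011334522) (nat_lit 76) (nat_lit 3728307826) (nat_lit 319) (nat_lit 5) (nat_lit 329) (nat_lit 5) (nat_lit 320) (nat_lit 5) (nat_lit 599) (nat_lit 548) (nat_lit 413)) (XT.lf (nat_lit 0) (nat_lit 6557804954) (nat_lit 684) (nat_lit 3821314931) (nat_lit 760) (nat_lit 2366717355) (nat_lit 310) (nat_lit 5) (nat_lit 319) (nat_lit 5) (nat_lit 320) (nat_lit 5) (nat_lit 600) (nat_lit 548) (nat_lit 412))) (XT.nd (nat_lit 78) (nat_lit 684) (nat_lit 0) (XT.lf (nat_lit 0) (nat_lit 63230950) (nat_lit 684) (nat_lit 11486748090) (nat_lit 76) (nat_lit 1335295908) (nat_lit 301) (nat_lit 5) (nat_lit 310) (nat_lit 5) (nat_lit 302) (nat_lit 5) (nat_lit 601) (nat_lit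 548) (nat_lit 411)) (XT.nd (nat_lit 78) (nat_lit 684) (nat_lit 0) (XT.lf (nat_lit 0) (nat_lit 2562892376) (nat_lit 684) (nat_lit 3864648303) (nat_lit 76) (nat_lit 6598592816) (nat_lit 301) (nat_lit 5) (nat_lit 310) (nat_lit 5) (nat_lit 302) (nat_lit 5) (nat_lit 602) (nat_lit 548) (nat_lit 410)) (XT.lf (nat_lit 0) (nat_lit 3944548868) (nat_lit 684) (nat_lit 1179558009) (nat_lit 760) (nat_lit 8045472178) (nat_lit 292) (nat_lit 5) (nat_lit 301) (nat_lit 5) (nat_lit 302) (nat_lit 5) (nat_lit 603) (nat_lit 548) (nat_lit 409))))) (XT.nd (nat_lit 156) (nat_lit 1292) (nat_lit 0) (XT.nd (nat_lit 78) (nat_lit 608) (nat_lit 0) (XT.lf (nat_lit 0) (nat_lit 7775842193) (nat_lit 760) (nat_lit 1397551112) (nat_lit 76) (nat_lit 4141715306) (nat_lit 292) (nat_lit 5) (nat_lit 302) (nat_lit 5) (nat_lit 293) (nat_lit 5) (nat_lit 604) (nat_lit 548) (nat_lit 408)) (XT.lf (nat_lit 0) (nat_lit 6648981780) (nat_lit 608) (nat_lit 3868978902) (nat_lit 684) (nat_lit 2944842101) (nat_lit 284) (nat_lit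 5) (nat_lit 292) (nat_lit 5) (nat_lit 293) (nat_lit 5) (nat_lit 605) (nat_lit 548) (nat_lit 407))) (XT.nd (nat_lit 78) (nat_lit 684) (nat_lit 0) (XT.lf (nat_lit 0) (nat_lit 1251443792) (nat_lit 608) (nat_lit 12077556145) (nat_lit 684) (nat_lit 284170311) (nat_lit 276) (nat_lit 5) (nat_lit 284) (nat_lit 5) (nat_lit 285) (nat_lit 5) (nat_lit 606) (nat_lit 548) (nat_lit 406)) (XT.nd (nat_lit 78) (nat_lit 608) (nat_lit 0) (XT.lf (nat_lit 0) (nat_lit 2456067983) (nat_lit 684) (nat_lit 4254046123) (nat_lit 76) (nat_lit 7054952003) (nat_lit 275) (nat_lit 5) (nat_lit 284) (nat_lit 5) (nat_lit 276) (nat_lit 5) (nat_lit 607) (nat_lit 548) (nat_lit 405)) (XT.lf (nat_lit 0) (nat_lit 4050268977) (nat_lit 608) (nat_lit 1210170660) (nat_lit 684) (nat_lit 8659260932) (nat_lit 267) (nat_lit 5) (nat_lit 275) (nat_lit 5) (nat_lit 276) (nat_lit 5) (nat_lit 608) (nat_lit 548) (nat_lit 404)))))) (XT.nd (nat_lit 390) (nat_lit 5396) (nat_lit 0) (XT.nd (nat_lit 156) (nat_lit 1140) (nat_lit 0) (XT.nd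 (nat_lit 78) (nat_lit 608) (nat_lit 0) (XT.lf (nat_lit 0) (nat_lit 8165160472) (nat_lit 684) (nat_lit 1544161324) (nat_lit 76) (nat_lit 4367221588) (nat_lit 267) (nat_lit 5) (nat_lit 276) (nat_lit 5) (nat_lit 268) (nat_lit 5) (nat_lit 609) (nat_lit 548) (nat_lit 403)) (XT.lf (nat_lit 0) (nat_lit 7015050334) (nat_lit 608) (nat_lit 4153701390) (nat_lit 684) (nat_lit 3066956695) (nat_lit 259) (nat_lit 5) (nat_lit 267) (nat_lit 5) (nat_lit 268) (nat_lit 5) (nat_lit 610) (nat_lit 548) (nat_lit 402))) (XT.nd (nat_lit 78) (nat_lit 608) (nat_lit 0) (XT.lf (nat_lit 0) (nat_lit 1359796605) (nat_lit 532) (nat_lit 12889035743) (nat_lit 608) (nat_lit 148896922) (nat_lit 252) (nat_lit 5) (nat_lit 259) (nat_lit 5) (nat_lit 260) (nat_lit 5) (nat_lit 611) (nat_lit 548) (nat_lit 401)) (XT.nd (nat_lit 78) (nat_lit 532) (nat_lit 0) (XT.lf (nat_lit 0) (nat_lit 2854115322) (nat_lit 608) (nat_lit 4415202220) (nat_lit 76) (nat_lit 7292033173) (nat_lit 251) (nat_lit 5) (nat_lit 259) (nat_lit 5) (nat_lit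 252) (nat_lit 5) (nat_lit 612) (nat_lit 548) (nat_lit 400)) (XT.lf (nat_lit 0) (nat_lit 4420569332) (nat_lit 532) (nat_lit 1510966608) (nat_lit 608) (nat_lit 8796362942) (nat_lit 244) (nat_lit 5) (nat_lit 251) (nat_lit 5) (nat_lit 252) (nat_lit 5) (nat_lit 613) (nat_lit 548) (nat_lit 399))))) (XT.nd (nat_lit 156) (nat_lit 4864) (nat_lit 0) (XT.nd (nat_lit 78) (nat_lit 532) (nat_lit 0) (XT.lf (nat_lit 0) (nat_lit 9116402959) (nat_lit 608) (nat_lit 1449315625) (nat_lit 76) (nat_lit 4331142271) (nat_lit 244) (nat_lit 5) (nat_lit 252) (nat_lit 5) (nat_lit 245) (nat_lit 5) (nat_lit 614) (nat_lit 548) (nat_lit 398)) (XT.lf (nat_lit 0) (nat_lit 7660124984) (nat_lit 532) (nat_lit 4752572431) (nat_lit 608) (nat_lit 2655550835) (nat_lit 237) (nat_lit 5) (nat_lit 244) (nat_lit 5) (nat_lit 245) (nat_lit 5) (nat_lit 615) (nat_lit 548) (nat_lit 397))) (XT.nd (nat_lit 1092) (nat_lit 4256) (nat_lit 0) (XT.lf (nat_lit 0) (nat_lit 541726846) (nat_lit 608) (nat_lit 13519110575) (nat_lit 76)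 (nat_lit 1181820707) (nat_lit 229) (nat_lit 5) (nat_lit 237) (nat_lit 5) (nat_lit 230) (nat_lit 5) (nat_lit 616) (nat_lit 548) (nat_lit 396)) (XT.nd (nat_lit 78) (nat_lit 380) (nat_lit 0) (XT.lf (nat_lit 0) (nat_lit 2591569818) (nat_lit 532) (nat_lit 6670271677) (nat_lit 76) (nat_lit 8703744487) (nat_lit 178) (nat_lit 5) (nat_lit 185) (nat_lit 5) (nat_lit 179) (nat_lit 5) (nat_lit 630) (nat_lit 548) (nat_lit 382)) (XT.lf (nat_lit 0) (nat_lit 4351666295) (nat_lit 380) (nat_lit 2455761478) (nat_lit 456) (nat_lit 11374823244) (nat_lit 173) (nat_lit 5) (nat_lit 178) (nat_lit 5) (nat_lit 179) (nat_lit 5) (nat_lit 631) (nat_lit 548) (nat_lit 381))))))) (XT.nd (nat_lit 1014) (nat_lit 0) (nat_lit 0) (XT.nd (nat_lit 390) (nat_lit 1900) (nat_lit 0) (XT.nd (nat_lit 156) (nat_lit 836) (nat_lit 0) (XT.nd (nat_lit 78) (nat_lit 380) (nat_lit 0) (XT.lf (nat_lit 0) (nat_lit 11171833040) (nat_lit 456) (nat_lit 2762414483) (nat_lit 76) (nat_lit 4467717746) (nat_lit 173) (nat_lit 5) (nat_lit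 179) (nat_lit 5) (nat_lit 174) (nat_lit 5) (nat_lit 632) (nat_lit 548) (nat_lit 380)) (XT.lf (nat_lit 0) (nat_lit 8608964655) (nat_lit 380) (nat_lit 7076959146) (nat_lit 456) (nat_lit 2938902563) (nat_lit 168) (nat_lit 5) (nat_lit 173) (nat_lit 5) (nat_lit 174) (nat_lit 5) (nat_lit 633) (nat_lit 548) (nat_lit 379))) (XT.nd (nat_lit 78) (nat_lit 380) (nat_lit 0) (XT.lf (nat_lit 0) (nat_lit 1387346058) (nat_lit 380) (nat_lit 49882008) (nat_lit 456) (nat_lit 17414371597) (nat_lit 162) (nat_lit 5) (nat_lit 167) (nat_lit 5) (nat_lit 168) (nat_lit 5) (nat_lit 634) (nat_lit 548) (nat_lit 378)) (XT.nd (nat_lit 78) (nat_lit 380) (nat_lit 0) (XT.lf (nat_lit 0) (nat_lit 5965768474) (nat_lit 456) (nat_lit 6008193888) (nat_lit 76) (nat_lit 7106473238) (nat_lit 162) (nat_lit 5) (nat_lit 168) (nat_lit 5) (nat_lit 163) (nat_lit 5) (nat_lit 635) (nat_lit 548) (nat_lit 377)) (XT.lf (nat_lit 0) (nat_lit 5737300235) (nat_lit 380) (nat_lit 4875682121) (nat_lit 456) (nat_lit 8700304317) (nat_lit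 157) (nat_lit 5) (nat_lit 162) (nat_lit 5) (nat_lit 163) (nat_lit 5) (nat_lit 636) (nat_lit 548) (nat_lit 376))))) (XT.nd (nat_lit 156) (nat_lit 1444) (nat_lit 0) (XT.nd (nat_lit 78) (nat_lit 456) (nat_lit 0) (XT.lf (nat_lit 0) (nat_lit 15399658367) (nat_lit 456) (nat_lit 1781121885) (nat_lit 76) (nat_lit 2369084618) (nat_lit 157) (nat_lit 5) (nat_lit 163) (nat_lit 5) (nat_lit 158) (nat_lit 5) (nat_lit 637) (nat_lit 548) (nat_lit 375)) (XT.lf (nat_lit 0) (nat_lit 575231096) (nat_lit 456) (nat_lit 9454586620) (nat_lit 76) (nat_lit 9759478093) (nat_lit 151) (nat_lit 5) (nat_lit 157) (nat_lit 5) (nat_lit 152) (nat_lit 5) (nat_lit 638) (nat_lit 548) (nat_lit 374))) (XT.nd (nat_lit 78) (nat_lit 1064) (nat_lit 0) (XT.lf (nat_lit 0) (nat_lit 2676865943) (nat_lit 380) (nat_lit 2682996037) (nat_lit 456) (nat_lit 14672700049) (nat_lit 146) (nat_lit 5) (nat_lit 151) (nat_lit 5) (nat_lit 152) (nat_lit 5) (nat_lit 639) (nat_lit 548) (nat_lit 373)) (XT.nd (nat_lit 312) (nat_lit 1064) (nat_lit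 0) (XT.lf (nat_lit 0) (nat_lit 10326131971) (nat_lit 456) (nat_lit 5146428730) (nat_lit 76) (nat_lit 4806414366) (nat_lit 146) (nat_lit 5) (nat_lit 152) (nat_lit 5) (nat_lit 147) (nat_lit 5) (nat_lit 640) (nat_lit 548) (nat_lit 372)) (XT.lf (nat_lit 0) (nat_lit 4188163782) (nat_lit 304) (nat_lit 6151988357) (nat_lit 380) (nat_lit 10961868497) (nat_lit 132) (nat_lit 5) (nat_lit 136) (nat_lit 5) (nat_lit 137) (nat_lit 5) (nat_lit 644) (nat_lit 548) (nat_lit 368)))))) (XT.nd (nat_lit 74022) (nat_lit 0) (nat_lit 33820) (XT.nd (nat_lit 73788) (nat_lit 0) (nat_lit 33820) (XT.nd (nat_lit 73710) (nat_lit 0) (nat_lit 35188) (XT.lf (nat_lit 0) (nat_lit 15783239584) (nat_lit 380) (nat_lit 4098548157) (nat_lit 76) (nat_lit 1685611596) (nat_lit 132) (nat_lit 5) (nat_lit 137) (nat_lit 5) (nat_lit 133) (nat_lit 5) (nat_lit 645) (nat_lit 548) (nat_lit 367)) (XT.lf (nat_lit 0) (nat_lit 2615803624) (nat_lit 1444) (nat_lit 703552805) (nat_lit 1444) (nat_lit 703552805) (nat_lit 595) (nat_lit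 3) (nat_lit 614) (nat_lit 3) (nat_lit 614) (nat_lit 5) (nat_lit 549) (nat_lit 549) (nat_lit 462))) (XT.nd (nat_lit 78) (nat_lit 1368) (nat_lit 0) (XT.lf (nat_lit 76) (nat_lit 2606828730) (nat_lit 0) (nat_lit 3882870686) (nat_lit 1444) (nat_lit 1612332130) (nat_lit 596) (nat_lit 5) (nat_lit 595) (nat_lit 3) (nat_lit 614) (nat_lit 5) (nat_lit 550) (nat_lit 549) (nat_lit 461)) (XT.nd (nat_lit 78) (nat_lit 1368) (nat_lit 0) (XT.lf (nat_lit 76) (nat_lit 6703998538) (nat_lit 0) (nat_lit 1047108681) (nat_lit 1444) (nat_lit 408701985) (nat_lit 596) (nat_lit 5) (nat_lit 595) (nat_lit 3) (nat_lit 614) (nat_lit 5) (nat_lit 551) (nat_lit 549) (nat_lit 460)) (XT.lf (nat_lit 0) (nat_lit 806991893) (nat_lit 1444) (nat_lit 5553176984) (nat_lit 1520) (nat_lit 1858495808) (nat_lit 577) (nat_lit 5) (nat_lit 596) (nat_lit 5) (nat_lit 597) (nat_lit 5) (nat_lit 552) (nat_lit 549) (nat_lit 459))))) (XT.nd (nat_lit 234) (nat_lit 0) (nat_lit 76) (XT.nd (nat_lit 78) (nat_lit 0) (nat_lit 0) (XT.lf (nat_lit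 0) (nat_lit 2028012739) (nat_lit 1444) (nat_lit 1416073148) (nat_lit 1520) (nat_lit 4834830849) (nat_lit 577) (nat_lit 5) (nat_lit 596) (nat_lit 5) (nat_lit 597) (nat_lit 5) (nat_lit 553) (nat_lit 549) (nat_lit 458)) (XT.nd (nat_lit 78) (nat_lit 0) (nat_lit 76) (XT.lf (nat_lit 76) (nat_lit 2824332664) (nat_lit 0) (nat_lit 437764707) (nat_lit 1520) (nat_lit 5078506729) (nat_lit 578) (nat_lit 5) (nat_lit 577) (nat_lit 5) (nat_lit 597) (nat_lit 5) (nat_lit 554) (nat_lit 549) (nat_lit 457)) (XT.lf (nat_lit 0) (nat_lit 4518361632) (nat_lit 1444) (nat_lit 1268767544) (nat_lit 1520) (nat_lit 2616449155) (nat_lit 578) (nat_lit 5) (nat_lit 597) (nat_lit 5) (nat_lit 598) (nat_lit 5) (nat_lit 555) (nat_lit 549) (nat_lit 456)))) (XT.nd (nat_lit 78) (nat_lit 0) (nat_lit 76) (XT.lf (nat_lit 76) (nat_lit 3084531567) (nat_lit 0) (nat_lit 2709582064) (nat_lit 1520) (nat_lit 2673814186) (nat_lit 579) (nat_lit 5) (nat_lit 578) (nat_lit 5) (nat_lit 598) (nat_lit 5) (nat_lit 556) (nat_lit 549)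 (nat_lit 455)) (XT.nd (nat_lit 78) (nat_lit 0) (nat_lit 0) (XT.lf (nat_lit 0) (nat_lit 7078703409) (nat_lit 1444) (nat_lit 1011383883) (nat_lit 1520) (nat_lit 443813503) (nat_lit 579) (nat_lit 5) (nat_lit 598) (nat_lit 5) (nat_lit 599) (nat_lit 5) (nat_lit 557) (nat_lit 549) (nat_lit 454)) (XT.lf (nat_lit 76) (nat_lit 3458582520) (nat_lit 0) (nat_lit 4943315413) (nat_lit 1520) (nat_lit 199039944) (nat_lit 580) (nat_lit 5) (nat_lit 579) (nat_lit 5) (nat_lit 599) (nat_lit 5) (nat_lit 558) (nat_lit 549) (nat_lit 453))))))))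
noncomputable def xc130 : XT := (XT.nd (nat_lit 1560) (nat_lit 10184) (nat_lit 0) (XT.nd (nat_lit 780) (nat_lit 6688) (nat_lit 0) (XT.nd (nat_lit 390) (nat_lit 1368) (nat_lit 0) (XT.nd (nat_lit 156) (nat_lit 0) (nat_lit 76) (XT.nd (nat_lit 78) (nat_lit 0) (nat_lit 76) (XT.lf (nat_lit 0) (nat_lit 1047639967) (nat_lit 1520) (nat_lit 661749174) (nat_lit 1596) (nat_lit 6960196953) (nat_lit 559) (nat_lit 5) (nat_lit 579) (nat_lit 5) (nat_lit 580) (nat_lit 5) (nat_lit 559) (nat_lit 549) (nat_lit 452)) (XT.lf (nat_lit 0) (nat_lit 2326041094) (nat_lit 1520) (nat_lit 4808134145) (nat_lit 1596) (nat_lit 1605219401) (nat_lit 560) (nat_lit 5) (nat_lit 580) (nat_lit 5) (nat_lit 581) (nat_lit 5) (nat_lit 560) (nat_lit 549) (nat_lit 451))) (XT.nd (nat_lit 78) (nat_lit 0) (nat_lit 0) (XT.lf (nat_lit 0) (nat_lit 3619573470) (nat_lit 1520) (nat_lit 214058980) (nat_lit 1596) (nat_lit 4977178324) (nat_lit 560) (nat_lit 5) (nat_lit 580) (nat_lit 5) (nat_lit 581) (nat_lit 5) (nat_lit 561) (nat_lit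 549) (nat_lit 450)) (XT.nd (nat_lit 78) (nat_lit 0) (nat_lit 76) (XT.lf (nat_lit 76) (nat_lit 4514141551) (nat_lit 0) (nat_lit 428430679) (nat_lit 1596) (nat_lit 3941013713) (nat_lit 561) (nat_lit 5) (nat_lit 560) (nat_lit 5) (nat_lit 581) (nat_lit 5) (nat_lit 562) (nat_lit 549) (nat_lit 449)) (XT.lf (nat_lit 76) (nat_lit 349411291) (nat_lit 0) (nat_lit 5940840309) (nat_lit 1596) (nat_lit 2667603177) (nat_lit 562) (nat_lit 5) (nat_lit 561) (nat_lit 5) (nat_lit 582) (nat_lit 5) (nat_lit 563) (nat_lit 549) (nat_lit 448))))) (XT.nd (nat_lit 156) (nat_lit 1520) (nat_lit 0) (XT.nd (nat_lit 78) (nat_lit 0) (nat_lit 76) (XT.lf (nat_lit 76) (nat_lit 5201700346) (nat_lit 0) (nat_lit 2470443872) (nat_lit 1596) (nat_lit 1361322104) (nat_lit 562) (nat_lit 5) (nat_lit 561) (nat_lit 5) (nat_lit 582) (nat_lit 5) (nat_lit 564) (nat_lit 549) (nat_lit 447)) (XT.lf (nat_lit 76) (nat_lit 1029507121) (nat_lit 0) (nat_lit 8041450687) (nat_lit 1596) (nat_lit 39849104) (nat_lit 563) (nat_lit 5) (nat_lit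 562) (nat_lit 5) (nat_lit 583) (nat_lit 5) (nat_lit 565) (nat_lit 549) (nat_lit 446))) (XT.nd (nat_lit 78) (nat_lit 0) (nat_lit 0) (XT.lf (nat_lit 0) (nat_lit 1309001166) (nat_lit 1596) (nat_lit 3191962584) (nat_lit 1672) (nat_lit 4688201025) (nat_lit 541) (nat_lit 5) (nat_lit 562) (nat_lit 5) (nat_lit 563) (nat_lit 5) (nat_lit 566) (nat_lit 549) (nat_lit 445)) (XT.nd (nat_lit 78) (nat_lit 0) (nat_lit 76) (XT.lf (nat_lit 76) (nat_lit 1801161969) (nat_lit 0) (nat_lit 871160237) (nat_lit 1672) (nat_lit 6597004107) (nat_lit 542) (nat_lit 5) (nat_lit 541) (nat_lit 5) (nat_lit 563) (nat_lit 5) (nat_lit 567) (nat_lit 549) (nat_lit 444)) (XT.lf (nat_lit 0) (nat_lit 4079577591) (nat_lit 1596) (nat_lit 2449521796) (nat_lit 1672) (nat_lit 2821660625) (nat_lit 542) (nat_lit 5) (nat_lit 563) (nat_lit 5) (nat_lit 564) (nat_lit 5) (nat_lit 568) (nat_lit 549) (nat_lit 443)))))) (XT.nd (nat_lit 390) (nat_lit 5168) (nat_lit 0) (XT.nd (nat_lit 156) (nat_lit 1596) (nat_lit 0) (XT.nd (nat_lit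 78) (nat_lit 0) (nat_lit 76) (XT.lf (nat_lit 76) (nat_lit 2681488736) (nat_lit 0) (nat_lit 2833849051) (nat_lit 1672) (nat_lit 3918479644) (nat_lit 543) (nat_lit 5) (nat_lit 542) (nat_lit 5) (nat_lit 564) (nat_lit 5) (nat_lit 569) (nat_lit 549) (nat_lit 442)) (XT.lf (nat_lit 0) (nat_lit 6979981605) (nat_lit 1596) (nat_lit 1593840264) (nat_lit 1672) (nat_lit 944712963) (nat_lit 543) (nat_lit 5) (nat_lit 564) (nat_lit 5) (nat_lit 565) (nat_lit 5) (nat_lit 570) (nat_lit 549) (nat_lit 441))) (XT.nd (nat_lit 78) (nat_lit 1672) (nat_lit 0) (XT.lf (nat_lit 76) (nat_lit 3679886709) (nat_lit 0) (nat_lit 4814680623) (nat_lit 1672) (nat_lit 1109968422) (nat_lit 544) (nat_lit 5) (nat_lit 543) (nat_lit 5) (nat_lit 565) (nat_lit 5) (nat_lit 571) (nat_lit 549) (nat_lit 440)) (XT.nd (nat_lit 78) (nat_lit 0) (nat_lit 76) (XT.lf (nat_lit 0) (nat_lit 331563980) (nat_lit 1672) (nat_lit 631278664) (nat_lit 1748) (nat_lit 8729592453) (nat_lit 521) (nat_lit 5) (nat_lit 543) (nat_lit 5) (nat_lit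 544) (nat_lit 5) (nat_lit 572) (nat_lit 549) (nat_lit 439)) (XT.lf (nat_lit 0) (nat_lit 1816415606) (nat_lit 1672) (nat_lit 4994905112) (nat_lit 76) (nat_lit 2970039980) (nat_lit 522) (nat_lit 5) (nat_lit 544) (nat_lit 5) (nat_lit 523) (nat_lit 5) (nat_lit 573) (nat_lit 549) (nat_lit 438))))) (XT.nd (nat_lit 156) (nat_lit 3572) (nat_lit 0) (XT.nd (nat_lit 78) (nat_lit 0) (nat_lit 0) (XT.lf (nat_lit 0) (nat_lit 430771761) (nat_lit 1672) (nat_lit 2892555382) (nat_lit 1748) (nat_lit 6548892403) (nat_lit 500) (nat_lit 5) (nat_lit 522) (nat_lit 5) (nat_lit 523) (nat_lit 5) (nat_lit 574) (nat_lit 549) (nat_lit 437)) (XT.lf (nat_lit 0) (nat_lit 4880535487) (nat_lit 1748) (nat_lit 3956867519) (nat_lit 76) (nat_lit 1127091345) (nat_lit 500) (nat_lit 5) (nat_lit 523) (nat_lit 5) (nat_lit 501) (nat_lit 5) (nat_lit 575) (nat_lit 549) (nat_lit 436))) (XT.nd (nat_lit 78) (nat_lit 1824) (nat_lit 0) (XT.lf (nat_lit 0) (nat_lit 1621953840) (nat_lit 1748) (nat_lit 4856274342) (nat_lit 1824)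 (nat_lit 3580201582) (nat_lit 477) (nat_lit 5) (nat_lit 500) (nat_lit 5) (nat_lit 501) (nat_lit 5) (nat_lit 576) (nat_lit 549) (nat_lit 435)) (XT.nd (nat_lit 78) (nat_lit 1824) (nat_lit 0) (XT.lf (nat_lit 0) (nat_lit 7348536846) (nat_lit 1748) (nat_lit 765829586) (nat_lit 1824) (nat_lit 2039749494) (nat_lit 477) (nat_lit 5) (nat_lit 500) (nat_lit 5) (nat_lit 501) (nat_lit 5) (nat_lit 577) (nat_lit 549) (nat_lit 434)) (XT.lf (nat_lit 0) (nat_lit 2936815005) (nat_lit 1824) (nat_lit 6867945960) (nat_lit 1900) (nat_lit 446526018) (nat_lit 453) (nat_lit 5) (nat_lit 477) (nat_lit 5) (nat_lit 478) (nat_lit 5) (nat_lit 578) (nat_lit 549) (nat_lit 433))))))) (XT.nd (nat_lit 780) (nat_lit 5472) (nat_lit 0) (XT.nd (nat_lit 390) (nat_lit 1748) (nat_lit 0) (XT.nd (nat_lit 156) (nat_lit 1824) (nat_lit 0) (XT.nd (nat_lit 78) (nat_lit 1064) (nat_lit 0) (XT.lf (nat_lit 0) (nat_lit 1167619381) (nat_lit 1900) (nat_lit 1548452539) (nat_lit 76) (nat_lit 7634087977) (nat_lit 452) (nat_lit 5) (nat_lit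 477) (nat_lit 5) (nat_lit 453) (nat_lit 5) (nat_lit 579) (nat_lit 549) (nat_lit 432)) (XT.lf (nat_lit 0) (nat_lit 2827400966) (nat_lit 1140) (nat_lit 6090926126) (nat_lit 76) (nat_lit 1532239235) (nat_lit 438) (nat_lit 5) (nat_lit 453) (nat_lit 5) (nat_lit 439) (nat_lit 5) (nat_lit 580) (nat_lit 549) (nat_lit 431))) (XT.nd (nat_lit 78) (nat_lit 1824) (nat_lit 0) (XT.lf (nat_lit 0) (nat_lit 4529972946) (nat_lit 1140) (nat_lit 181540547) (nat_lit 76) (nat_lit 5841277199) (nat_lit 438) (nat_lit 5) (nat_lit 453) (nat_lit 5) (nat_lit 439) (nat_lit 5) (nat_lit 581) (nat_lit 549) (nat_lit 430)) (XT.nd (nat_lit 78) (nat_lit 912) (nat_lit 0) (XT.lf (nat_lit 0) (nat_lit 5906243292) (nat_lit 912) (nat_lit 380217758) (nat_lit 988) (nat_lit 4370202865) (nat_lit 426) (nat_lit 5) (nat_lit 438) (nat_lit 5) (nat_lit 439) (nat_lit 5) (nat_lit 582) (nat_lit 549) (nat_lit 429)) (XT.lf (nat_lit 0) (nat_lit 1329353826) (nat_lit 912) (nat_lit 6766573565) (nat_lit 988) (nat_lit 2666331876) (nat_lit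 414) (nat_lit 5) (nat_lit 426) (nat_lit 5) (nat_lit 427) (nat_lit 5) (nat_lit 583) (nat_lit 549) (nat_lit 428))))) (XT.nd (nat_lit 156) (nat_lit 836) (nat_lit 0) (XT.nd (nat_lit 78) (nat_lit 912) (nat_lit 0) (XT.lf (nat_lit 0) (nat_lit 7575169940) (nat_lit 912) (nat_lit 2382812445) (nat_lit 988) (nat_lit 911657756) (nat_lit 414) (nat_lit 5) (nat_lit 426) (nat_lit 5) (nat_lit 427) (nat_lit 5) (nat_lit 584) (nat_lit 549) (nat_lit 427)) (XT.lf (nat_lit 0) (nat_lit 881944015) (nat_lit 912) (nat_lit 8009892030) (nat_lit 76) (nat_lit 2086913088) (nat_lit 402) (nat_lit 5) (nat_lit 414) (nat_lit 5) (nat_lit 403) (nat_lit 5) (nat_lit 585) (nat_lit 549) (nat_lit 426))) (XT.nd (nat_lit 78) (nat_lit 836) (nat_lit 0) (XT.lf (nat_lit 0) (nat_lit 2719749293) (nat_lit 912) (nat_lit 1726985805) (nat_lit 76) (nat_lit 6642775423) (nat_lit 402) (nat_lit 5) (nat_lit 414) (nat_lit 5) (nat_lit 403) (nat_lit 5) (nat_lit 586) (nat_lit 549) (nat_lit 425)) (XT.nd (nat_lit 78) (nat_lit 0) (nat_lit 0)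 (XT.lf (nat_lit 0) (nat_lit 4608603303) (nat_lit 912) (nat_lit 6476610152) (nat_lit 76) (nat_lit 116989309) (nat_lit 391) (nat_lit 5) (nat_lit 403) (nat_lit 5) (nat_lit 392) (nat_lit 5) (nat_lit 587) (nat_lit 549) (nat_lit 424)) (XT.lf (nat_lit 0) (nat_lit 6559409676) (nat_lit 912) (nat_lit 33224459) (nat_lit 76) (nat_lit 4724032661) (nat_lit 391) (nat_lit 5) (nat_lit 403) (nat_lit 5) (nat_lit 392) (nat_lit 5) (nat_lit 588) (nat_lit 549) (nat_lit 423)))))) (XT.nd (nat_lit 390) (nat_lit 2964) (nat_lit 0) (XT.nd (nat_lit 156) (nat_lit 836) (nat_lit 0) (XT.nd (nat_lit 78) (nat_lit 836) (nat_lit 0) (XT.lf (nat_lit 0) (nat_lit 6608629359) (nat_lit 836) (nat_lit 1966903535) (nat_lit 912) (nat_lit 2857362622) (nat_lit 380) (nat_lit 5) (nat_lit 391) (nat_lit 5) (nat_lit 392) (nat_lit 5) (nat_lit 589) (nat_lit 549) (nat_lit 422)) (XT.lf (nat_lit 0) (nat_lit 1821058613) (nat_lit 836) (nat_lit 8824436373) (nat_lit 912) (nat_lit 905684893) (nat_lit 369) (nat_lit 5) (nat_lit 380) (nat_lit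 5) (nat_lit 381) (nat_lit 5) (nat_lit 590) (nat_lit 549) (nat_lit 421))) (XT.nd (nat_lit 78) (nat_lit 760) (nat_lit 0) (XT.lf (nat_lit 0) (nat_lit 1100116047) (nat_lit 912) (nat_lit 3044173642) (nat_lit 76) (nat_lit 7526814285) (nat_lit 368) (nat_lit 5) (nat_lit 380) (nat_lit 5) (nat_lit 369) (nat_lit 5) (nat_lit 591) (nat_lit 549) (nat_lit 420)) (XT.nd (nat_lit 78) (nat_lit 0) (nat_lit 0) (XT.lf (nat_lit 0) (nat_lit 3146913316) (nat_lit 836) (nat_lit 7995103017) (nat_lit 76) (nat_lit 651031651) (nat_lit 358) (nat_lit 5) (nat_lit 369) (nat_lit 5) (nat_lit 359) (nat_lit 5) (nat_lit 592) (nat_lit 549) (nat_lit 419)) (XT.lf (nat_lit 0) (nat_lit 5266876977) (nat_lit 836) (nat_lit 1143678986) (nat_lit 76) (nat_lit 5506231592) (nat_lit 358) (nat_lit 5) (nat_lit 369) (nat_lit 5) (nat_lit 359) (nat_lit 5) (nat_lit 593) (nat_lit 549) (nat_lit 418))))) (XT.nd (nat_lit 234) (nat_lit 1520) (nat_lit 0) (XT.nd (nat_lit 78) (nat_lit 684) (nat_lit 0) (XT.lf (nat_lit 0) (nat_lit 5905314666)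 (nat_lit 760) (nat_lit 1546797372) (nat_lit 836) (nat_lit 4590433700) (nat_lit 348) (nat_lit 5) (nat_lit 358) (nat_lit 5) (nat_lit 359) (nat_lit 5) (nat_lit 594) (nat_lit 549) (nat_lit 417)) (XT.nd (nat_lit 78) (nat_lit 0) (nat_lit 0) (XT.lf (nat_lit 0) (nat_lit 912784758) (nat_lit 684) (nat_lit 8788801733) (nat_lit 760) (nat_lit 2468823136) (nat_lit 339) (nat_lit 5) (nat_lit 348) (nat_lit 5) (nat_lit 349) (nat_lit 5) (nat_lit 595) (nat_lit 549) (nat_lit 416)) (XT.lf (nat_lit 0) (nat_lit 8159631586) (nat_lit 684) (nat_lit 3872683930) (nat_lit 760) (nat_lit 267791193) (nat_lit 339) (nat_lit 5) (nat_lit 348) (nat_lit 5) (nat_lit 349) (nat_lit 5) (nat_lit 596) (nat_lit 549) (nat_lit 415)))) (XT.nd (nat_lit 78) (nat_lit 684) (nat_lit 0) (XT.lf (nat_lit 0) (nat_lit 1964375343) (nat_lit 836) (nat_lit 9309265566) (nat_lit 76) (nat_lit 1158240312) (nat_lit 328) (nat_lit 5) (nat_lit 339) (nat_lit 5) (nat_lit 329) (nat_lit 5) (nat_lit 597) (nat_lit 549) (nat_lit 414)) (XT.nd (nat_lit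 78) (nat_lit 684) (nat_lit 0) (XT.lf (nat_lit 0) (nat_lit 4276490394) (nat_lit 836) (nat_lit 2023265370) (nat_lit 76) (nat_lit 6265723384) (nat_lit 328) (nat_lit 5) (nat_lit 339) (nat_lit 5) (nat_lit 329) (nat_lit 5) (nat_lit 598) (nat_lit 549) (nat_lit 413)) (XT.lf (nat_lit 0) (nat_lit 5463423364) (nat_lit 684) (nat_lit 1192457207) (nat_lit 760) (nat_lit 6045448926) (nat_lit 319) (nat_lit 5) (nat_lit 328) (nat_lit 5) (nat_lit 329) (nat_lit 5) (nat_lit 599) (nat_lit 549) (nat_lit 412))))))))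
noncomputable def xc131 : XT := (XT.nd (nat_lit 2262) (nat_lit 4408) (nat_lit 0) (XT.nd (nat_lit 780) (nat_lit 5852) (nat_lit 0) (XT.nd (nat_lit 390) (nat_lit 1900) (nat_lit 0) (XT.nd (nat_lit 156) (nat_lit 1368) (nat_lit 0) (XT.nd (nat_lit 78) (nat_lit 0) (nat_lit 0) (XT.lf (nat_lit 0) (nat_lit 247879740) (nat_lit 684) (nat_lit 8862057403) (nat_lit 760) (nat_lit 3729419240) (nat_lit 310) (nat_lit 5) (nat_lit 319) (nat_lit 5) (nat_lit 320) (nat_lit 5) (nat_lit 600) (nat_lit 549) (nat_lit 411)) (XT.lf (nat_lit 0) (nat_lit 7956755031) (nat_lit 684) (nat_lit 3698627558) (nat_lit 760) (nat_lit 1323916139) (nat_lit 310) (nat_lit 5) (nat_lit 319) (nat_lit 5) (nat_lit 320) (nat_lit 5) (nat_lit 601) (nat_lit 549) (nat_lit 410))) (XT.nd (nat_lit 78) (nat_lit 684) (nat_lit 0) (XT.lf (nat_lit 0) (nat_lit 1128877031) (nat_lit 684) (nat_lit 10422776443) (nat_lit 76) (nat_lit 1569960863) (nat_lit 301) (nat_lit 5) (nat_lit 310) (nat_lit 5) (nat_lit 302) (nat_lit 5) (nat_lit 602) (nat_lit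 549) (nat_lit 409)) (XT.nd (nat_lit 78) (nat_lit 684) (nat_lit 0) (XT.lf (nat_lit 0) (nat_lit 3657661461) (nat_lit 684) (nat_lit 2673601458) (nat_lit 76) (nat_lit 6934446082) (nat_lit 301) (nat_lit 5) (nat_lit 310) (nat_lit 5) (nat_lit 302) (nat_lit 5) (nat_lit 603) (nat_lit 549) (nat_lit 408)) (XT.lf (nat_lit 0) (nat_lit 5283435317) (nat_lit 684) (nat_lit 974384657) (nat_lit 760) (nat_lit 7154450611) (nat_lit 292) (nat_lit 5) (nat_lit 301) (nat_lit 5) (nat_lit 302) (nat_lit 5) (nat_lit 604) (nat_lit 549) (nat_lit 407))))) (XT.nd (nat_lit 156) (nat_lit 1292) (nat_lit 0) (XT.nd (nat_lit 78) (nat_lit 608) (nat_lit 0) (XT.lf (nat_lit 0) (nat_lit 8943825948) (nat_lit 760) (nat_lit 171374457) (nat_lit 76) (nat_lit 4445887087) (nat_lit 292) (nat_lit 5) (nat_lit 302) (nat_lit 5) (nat_lit 293) (nat_lit 5) (nat_lit 605) (nat_lit 549) (nat_lit 406)) (XT.lf (nat_lit 0) (nat_lit 8027838254) (nat_lit 608) (nat_lit 3701185321) (nat_lit 684) (nat_lit 1982948688) (nat_lit 284) (nat_lit 5)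 (nat_lit 292) (nat_lit 5) (nat_lit 293) (nat_lit 5) (nat_lit 606) (nat_lit 549) (nat_lit 405))) (XT.nd (nat_lit 78) (nat_lit 608) (nat_lit 0) (XT.lf (nat_lit 0) (nat_lit 711377273) (nat_lit 684) (nat_lit 11337700708) (nat_lit 76) (nat_lit 1816375032) (nat_lit 275) (nat_lit 5) (nat_lit 284) (nat_lit 5) (nat_lit 276) (nat_lit 5) (nat_lit 607) (nat_lit 549) (nat_lit 404)) (XT.nd (nat_lit 78) (nat_lit 608) (nat_lit 0) (XT.lf (nat_lit 0) (nat_lit 3483061409) (nat_lit 684) (nat_lit 3094638463) (nat_lit 76) (nat_lit 7443041798) (nat_lit 275) (nat_lit 5) (nat_lit 284) (nat_lit 5) (nat_lit 276) (nat_lit 5) (nat_lit 608) (nat_lit 549) (nat_lit 403)) (XT.lf (nat_lit 0) (nat_lit 5367575515) (nat_lit 608) (nat_lit 964797906) (nat_lit 684) (nat_lit 7846319678) (nat_lit 267) (nat_lit 5) (nat_lit 275) (nat_lit 5) (nat_lit 276) (nat_lit 5) (nat_lit 609) (nat_lit 549) (nat_lit 402)))))) (XT.nd (nat_lit 390) (nat_lit 4104) (nat_lit 0) (XT.nd (nat_lit 156) (nat_lit 1140) (nat_lit 0) (XT.nd (nat_lit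 78) (nat_lit 608) (nat_lit 0) (XT.lf (nat_lit 0) (nat_lit 9277949229) (nat_lit 684) (nat_lit 345679480) (nat_lit 76) (nat_lit 4715390163) (nat_lit 267) (nat_lit 5) (nat_lit 276) (nat_lit 5) (nat_lit 268) (nat_lit 5) (nat_lit 610) (nat_lit 549) (nat_lit 401)) (XT.lf (nat_lit 0) (nat_lit 8376628483) (nat_lit 608) (nat_lit 3954295800) (nat_lit 684) (nat_lit 2170657973) (nat_lit 259) (nat_lit 5) (nat_lit 267) (nat_lit 5) (nat_lit 268) (nat_lit 5) (nat_lit 611) (nat_lit 549) (nat_lit 400))) (XT.nd (nat_lit 78) (nat_lit 532) (nat_lit 0) (XT.lf (nat_lit 0) (nat_lit 786514070) (nat_lit 608) (nat_lit 12055062315) (nat_lit 76) (nat_lit 1825337371) (nat_lit 251) (nat_lit 5) (nat_lit 259) (nat_lit 5) (nat_lit 252) (nat_lit 5) (nat_lit 612) (nat_lit 549) (nat_lit 399)) (XT.nd (nat_lit 78) (nat_lit 532) (nat_lit 0) (XT.lf (nat_lit 0) (nat_lit 3829233967) (nat_lit 608) (nat_lit 3285228880) (nat_lit 76) (nat_lit 7719693487) (nat_lit 251) (nat_lit 5) (nat_lit 259) (nat_lit 5) (nat_lit 252)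 (nat_lit 5) (nat_lit 613) (nat_lit 549) (nat_lit 398)) (XT.lf (nat_lit 0) (nat_lit 5719243121) (nat_lit 532) (nat_lit 1238816991) (nat_lit 608) (nat_lit 8046179402) (nat_lit 244) (nat_lit 5) (nat_lit 251) (nat_lit 5) (nat_lit 252) (nat_lit 5) (nat_lit 614) (nat_lit 549) (nat_lit 397))))) (XT.nd (nat_lit 858) (nat_lit 3572) (nat_lit 0) (XT.nd (nat_lit 78) (nat_lit 532) (nat_lit 0) (XT.lf (nat_lit 0) (nat_lit 10190747325) (nat_lit 608) (nat_lit 275834714) (nat_lit 76) (nat_lit 4710317396) (nat_lit 244) (nat_lit 5) (nat_lit 252) (nat_lit 5) (nat_lit 245) (nat_lit 5) (nat_lit 615) (nat_lit 549) (nat_lit 396)) (XT.lf (nat_lit 0) (nat_lit 9007883740) (nat_lit 532) (nat_lit 4535349266) (nat_lit 608) (nat_lit 1808677409) (nat_lit 237) (nat_lit 5) (nat_lit 244) (nat_lit 5) (nat_lit 245) (nat_lit 5) (nat_lit 616) (nat_lit 549) (nat_lit 395))) (XT.nd (nat_lit 78) (nat_lit 456) (nat_lit 0) (XT.lf (nat_lit 0) (nat_lit 890049087) (nat_lit 532) (nat_lit 6119535709) (nat_lit 76) (nat_lit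 10241917612) (nat_lit 196) (nat_lit 5) (nat_lit 203) (nat_lit 5) (nat_lit 197) (nat_lit 5) (nat_lit 626) (nat_lit 549) (nat_lit 385)) (XT.nd (nat_lit 78) (nat_lit 0) (nat_lit 0) (XT.lf (nat_lit 0) (nat_lit 4424972107) (nat_lit 456) (nat_lit 358681546) (nat_lit 532) (nat_lit 12673597075) (nat_lit 190) (nat_lit 5) (nat_lit 196) (nat_lit 5) (nat_lit 197) (nat_lit 5) (nat_lit 627) (nat_lit 549) (nat_lit 384)) (XT.lf (nat_lit 0) (nat_lit 8828055866) (nat_lit 532) (nat_lit 2459880376) (nat_lit 76) (nat_lit 6377719823) (nat_lit 190) (nat_lit 5) (nat_lit 197) (nat_lit 5) (nat_lit 191) (nat_lit 5) (nat_lit 628) (nat_lit 549) (nat_lit 383))))))) (XT.nd (nat_lit 780) (nat_lit 1900) (nat_lit 0) (XT.nd (nat_lit 390) (nat_lit 1216) (nat_lit 0) (XT.nd (nat_lit 156) (nat_lit 456) (nat_lit 0) (XT.nd (nat_lit 78) (nat_lit 456) (nat_lit 0) (XT.lf (nat_lit 0) (nat_lit 8417357390) (nat_lit 380) (nat_lit 4583085150) (nat_lit 456) (nat_lit 4876845590) (nat_lit 185) (nat_lit 5) (nat_lit 190) (nat_lit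 5) (nat_lit 191) (nat_lit 5) (nat_lit 629) (nat_lit 549) (nat_lit 382)) (XT.lf (nat_lit 0) (nat_lit 1442120750) (nat_lit 456) (nat_lit 15844922171) (nat_lit 532) (nat_lit 805495133) (nat_lit 179) (nat_lit 5) (nat_lit 185) (nat_lit 5) (nat_lit 186) (nat_lit 5) (nat_lit 630) (nat_lit 549) (nat_lit 381))) (XT.nd (nat_lit 78) (nat_lit 380) (nat_lit 0) (XT.lf (nat_lit 0) (nat_lit 3387808361) (nat_lit 532) (nat_lit 5687615973) (nat_lit 76) (nat_lit 9234545982) (nat_lit 178) (nat_lit 5) (nat_lit 185) (nat_lit 5) (nat_lit 179) (nat_lit 5) (nat_lit 631) (nat_lit 549) (nat_lit 380)) (XT.nd (nat_lit 78) (nat_lit 0) (nat_lit 0) (XT.lf (nat_lit 0) (nat_lit 5547418251) (nat_lit 380) (nat_lit 2133167543) (nat_lit 456) (nat_lit 10850531581) (nat_lit 173) (nat_lit 5) (nat_lit 178) (nat_lit 5) (nat_lit 179) (nat_lit 5) (nat_lit 632) (nat_lit 549) (nat_lit 379)) (XT.lf (nat_lit 0) (nat_lit 12120194061) (nat_lit 456) (nat_lit 1718560901) (nat_lit 76) (nat_lit 4916713406) (nat_lit 173) (nat_lit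 5) (nat_lit 179) (nat_lit 5) (nat_lit 174) (nat_lit 5) (nat_lit 633) (nat_lit 549) (nat_lit 378))))) (XT.nd (nat_lit 156) (nat_lit 380) (nat_lit 0) (XT.nd (nat_lit 78) (nat_lit 456) (nat_lit 0) (XT.lf (nat_lit 0) (nat_lit 9873014886) (nat_lit 380) (nat_lit 6844426699) (nat_lit 456) (nat_lit 2265488342) (nat_lit 168) (nat_lit 5) (nat_lit 173) (nat_lit 5) (nat_lit 174) (nat_lit 5) (nat_lit 634) (nat_lit 549) (nat_lit 377)) (XT.lf (nat_lit 0) (nat_lit 2183627000) (nat_lit 456) (nat_lit 16707058043) (nat_lit 76) (nat_lit 323557983) (nat_lit 162) (nat_lit 5) (nat_lit 168) (nat_lit 5) (nat_lit 163) (nat_lit 5) (nat_lit 635) (nat_lit 549) (nat_lit 376))) (XT.nd (nat_lit 78) (nat_lit 380) (nat_lit 0) (XT.lf (nat_lit 0) (nat_lit 6788990429) (nat_lit 456) (nat_lit 5043896697) (nat_lit 76) (nat_lit 7615044209) (nat_lit 162) (nat_lit 5) (nat_lit 168) (nat_lit 5) (nat_lit 163) (nat_lit 5) (nat_lit 636) (nat_lit 549) (nat_lit 375)) (XT.nd (nat_lit 78) (nat_lit 0) (nat_lit 0) (XT.lf (nat_lit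 0) (nat_lit 6929372696) (nat_lit 380) (nat_lit 4592968521) (nat_lit 456) (nat_lit 8163235043) (nat_lit 157) (nat_lit 5) (nat_lit 162) (nat_lit 5) (nat_lit 163) (nat_lit 5) (nat_lit 637) (nat_lit 549) (nat_lit 374)) (XT.lf (nat_lit 0) (nat_lit 16393502418) (nat_lit 456) (nat_lit 749260092) (nat_lit 76) (nat_lit 2784349148) (nat_lit 157) (nat_lit 5) (nat_lit 163) (nat_lit 5) (nat_lit 158) (nat_lit 5) (nat_lit 638) (nat_lit 549) (nat_lit 373)))))) (XT.nd (nat_lit 390) (nat_lit 304) (nat_lit 0) (XT.nd (nat_lit 156) (nat_lit 760) (nat_lit 0) (XT.nd (nat_lit 78) (nat_lit 380) (nat_lit 0) (XT.lf (nat_lit 0) (nat_lit 1270554765) (nat_lit 456) (nat_lit 8574097257) (nat_lit 76) (nat_lit 10326721131) (nat_lit 151) (nat_lit 5) (nat_lit 157) (nat_lit 5) (nat_lit 152) (nat_lit 5) (nat_lit 639) (nat_lit 549) (nat_lit 372)) (XT.lf (nat_lit 0) (nat_lit 3792947640) (nat_lit 380) (nat_lit 2351421152) (nat_lit 456) (nat_lit 14275266725) (nat_lit 146) (nat_lit 5) (nat_lit 151) (nat_lit 5) (nat_lit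 152) (nat_lit 5) (nat_lit 640) (nat_lit 549) (nat_lit 371))) (XT.nd (nat_lit 78) (nat_lit 760) (nat_lit 0) (XT.lf (nat_lit 0) (nat_lit 11199135760) (nat_lit 456) (nat_lit 4196787765) (nat_lit 76) (nat_lit 5275270478) (nat_lit 146) (nat_lit 5) (nat_lit 152) (nat_lit 5) (nat_lit 147) (nat_lit 5) (nat_lit 641) (nat_lit 549) (nat_lit 370)) (XT.nd (nat_lit 78) (nat_lit 456) (nat_lit 0) (XT.lf (nat_lit 0) (nat_lit 8564845102) (nat_lit 304) (nat_lit 7852708314) (nat_lit 380) (nat_lit 4508979536) (nat_lit 142) (nat_lit 5) (nat_lit 146) (nat_lit 5) (nat_lit 147) (nat_lit 5) (nat_lit 642) (nat_lit 549) (nat_lit 369)) (XT.lf (nat_lit 0) (nat_lit 440534684) (nat_lit 380) (nat_lit 128176703) (nat_lit 456) (nat_lit 20617743661) (nat_lit 136) (nat_lit 5) (nat_lit 141) (nat_lit 5) (nat_lit 142) (nat_lit 5) (nat_lit 643) (nat_lit 549) (nat_lit 368))))) (XT.nd (nat_lit 73866) (nat_lit 0) (nat_lit 33744) (XT.nd (nat_lit 78) (nat_lit 304) (nat_lit 0) (XT.lf (nat_lit 0) (nat_lit 5812910341) (nat_lit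 456) (nat_lit 7877978477) (nat_lit 76) (nat_lit 7757584470) (nat_lit 136) (nat_lit 5) (nat_lit 142) (nat_lit 5) (nat_lit 137) (nat_lit 5) (nat_lit 644) (nat_lit 549) (nat_lit 367)) (XT.nd (nat_lit 78) (nat_lit 0) (nat_lit 0) (XT.lf (nat_lit 0) (nat_lit 5302590591) (nat_lit 304) (nat_lit 5886293771) (nat_lit 380) (nat_lit 10526310078) (nat_lit 132) (nat_lit 5) (nat_lit 136) (nat_lit 5) (nat_lit 137) (nat_lit 5) (nat_lit 645) (nat_lit 549) (nat_lit 366)) (XT.lf (nat_lit 0) (nat_lit 16730721142) (nat_lit 380) (nat_lit 3159924786) (nat_lit 76) (nat_lit 2095437584) (nat_lit 132) (nat_lit 5) (nat_lit 137) (nat_lit 5) (nat_lit 133) (nat_lit 5) (nat_lit 646) (nat_lit 549) (nat_lit 365)))) (XT.nd (nat_lit 78) (nat_lit 1444) (nat_lit 0) (XT.lf (nat_lit 0) (nat_lit 3849251723) (nat_lit 1444) (nat_lit 115182155) (nat_lit 1444) (nat_lit 115182155) (nat_lit 595) (nat_lit 3) (nat_lit 614) (nat_lit 3) (nat_lit 614) (nat_lit 5) (nat_lit 550) (nat_lit 550) (nat_lit 460)) (XT.nd (nat_lit 78)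 (nat_lit 0) (nat_lit 0) (XT.lf (nat_lit 0) (nat_lit 716344744) (nat_lit 1444) (nat_lit 4366136341) (nat_lit 1520) (nat_lit 3134770059) (nat_lit 576) (nat_lit 5) (nat_lit 595) (nat_lit 3) (nat_lit 596) (nat_lit 5) (nat_lit 551) (nat_lit 550) (nat_lit 459)) (XT.lf (nat_lit 0) (nat_lit 1882076251) (nat_lit 1444) (nat_lit 278011583) (nat_lit 1520) (nat_lit 6116859348) (nat_lit 576) (nat_lit 5) (nat_lit 595) (nat_lit 3) (nat_lit 596) (nat_lit 5) (nat_lit 552) (nat_lit 550) (nat_lit 458))))))))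
noncomputable def xc132 : XT := (XT.nd (nat_lit 1560) (nat_lit 12388) (nat_lit 0) (XT.nd (nat_lit 780) (nat_lit 2812) (nat_lit 0) (XT.nd (nat_lit 390) (nat_lit 1444) (nat_lit 0) (XT.nd (nat_lit 156) (nat_lit 0) (nat_lit 0) (XT.nd (nat_lit 78) (nat_lit 0) (nat_lit 0) (XT.lf (nat_lit 0) (nat_lit 3072531203) (nat_lit 1444) (nat_lit 4415708575) (nat_lit 1520) (nat_lit 849572327) (nat_lit 577) (nat_lit 5) (nat_lit 596) (nat_lit 5) (nat_lit 597) (nat_lit 5) (nat_lit 553) (nat_lit 550) (nat_lit 457)) (XT.lf (nat_lit 0) (nat_lit 4273866594) (nat_lit 1444) (nat_lit 220343681) (nat_lit 1520) (nat_lit 3905945703) (nat_lit 577) (nat_lit 5) (nat_lit 596) (nat_lit 5) (nat_lit 597) (nat_lit 5) (nat_lit 554) (nat_lit 550) (nat_lit 456))) (XT.nd (nat_lit 78) (nat_lit 0) (nat_lit 76) (XT.lf (nat_lit 76) (nat_lit 4096817280) (nat_lit 0) (nat_lit 1400469653) (nat_lit 1520) (nat_lit 2966501649) (nat_lit 578) (nat_lit 5) (nat_lit 577) (nat_lit 5) (nat_lit 597) (nat_lit 5) (nat_lit 555) (nat_lit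 550) (nat_lit 455)) (XT.nd (nat_lit 78) (nat_lit 0) (nat_lit 0) (XT.lf (nat_lit 0) (nat_lit 6730056257) (nat_lit 1444) (nat_lit 53143644) (nat_lit 1520) (nat_lit 1745799285) (nat_lit 578) (nat_lit 5) (nat_lit 597) (nat_lit 5) (nat_lit 598) (nat_lit 5) (nat_lit 556) (nat_lit 550) (nat_lit 454)) (XT.lf (nat_lit 76) (nat_lit 4379056981) (nat_lit 0) (nat_lit 3618676041) (nat_lit 1520) (nat_lit 597578839) (nat_lit 579) (nat_lit 5) (nat_lit 578) (nat_lit 5) (nat_lit 598) (nat_lit 5) (nat_lit 557) (nat_lit 550) (nat_lit 453))))) (XT.nd (nat_lit 156) (nat_lit 0) (nat_lit 76) (XT.nd (nat_lit 78) (nat_lit 0) (nat_lit 76) (XT.lf (nat_lit 76) (nat_lit 220167651) (nat_lit 0) (nat_lit 373998126) (nat_lit 1596) (nat_lit 8069214537) (nat_lit 559) (nat_lit 5) (nat_lit 558) (nat_lit 5) (nat_lit 579) (nat_lit 5) (nat_lit 558) (nat_lit 550) (nat_lit 452)) (XT.lf (nat_lit 0) (nat_lit 1822586866) (nat_lit 1520) (nat_lit 3969796816) (nat_lit 1596) (nat_lit 2939933324) (nat_lit 559) (nat_lit 5) (nat_lit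 579) (nat_lit 5) (nat_lit 580) (nat_lit 5) (nat_lit 559) (nat_lit 550) (nat_lit 451))) (XT.nd (nat_lit 78) (nat_lit 0) (nat_lit 76) (XT.lf (nat_lit 76) (nat_lit 581751006) (nat_lit 0) (nat_lit 2473898241) (nat_lit 1596) (nat_lit 5747384406) (nat_lit 560) (nat_lit 5) (nat_lit 559) (nat_lit 5) (nat_lit 580) (nat_lit 5) (nat_lit 560) (nat_lit 550) (nat_lit 450)) (XT.nd (nat_lit 78) (nat_lit 0) (nat_lit 0) (XT.lf (nat_lit 0) (nat_lit 4320390195) (nat_lit 1520) (nat_lit 3619541293) (nat_lit 1596) (nat_lit 935095428) (nat_lit 560) (nat_lit 5) (nat_lit 580) (nat_lit 5) (nat_lit 581) (nat_lit 5) (nat_lit 561) (nat_lit 550) (nat_lit 449)) (XT.lf (nat_lit 76) (nat_lit 1055061410) (nat_lit 0) (nat_lit 4553389256) (nat_lit 1596) (nat_lit 3340051461) (nat_lit 561) (nat_lit 5) (nat_lit 560) (nat_lit 5) (nat_lit 581) (nat_lit 5) (nat_lit 562) (nat_lit 550) (nat_lit 448)))))) (XT.nd (nat_lit 390) (nat_lit 1444) (nat_lit 0) (XT.nd (nat_lit 156) (nat_lit 1520) (nat_lit 0) (XT.nd (nat_lit 78)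 (nat_lit 0) (nat_lit 76) (XT.lf (nat_lit 76) (nat_lit 5855702025) (nat_lit 0) (nat_lit 1066037507) (nat_lit 1596) (nat_lit 2101720490) (nat_lit 561) (nat_lit 5) (nat_lit 560) (nat_lit 5) (nat_lit 581) (nat_lit 5) (nat_lit 563) (nat_lit 550) (nat_lit 447)) (XT.lf (nat_lit 76) (nat_lit 1641051305) (nat_lit 0) (nat_lit 6622789006) (nat_lit 1596) (nat_lit 836028318) (nat_lit 562) (nat_lit 5) (nat_lit 561) (nat_lit 5) (nat_lit 582) (nat_lit 5) (nat_lit 564) (nat_lit 550) (nat_lit 446))) (XT.nd (nat_lit 78) (nat_lit 0) (nat_lit 76) (XT.lf (nat_lit 0) (nat_lit 453393661) (nat_lit 1596) (nat_lit 2615506667) (nat_lit 1672) (nat_lit 6108760719) (nat_lit 540) (nat_lit 5) (nat_lit 561) (nat_lit 5) (nat_lit 562) (nat_lit 5) (nat_lit 565) (nat_lit 550) (nat_lit 445)) (XT.nd (nat_lit 78) (nat_lit 0) (nat_lit 0) (XT.lf (nat_lit 0) (nat_lit 1752758150) (nat_lit 1596) (nat_lit 6927745895) (nat_lit 1672) (nat_lit 576490109) (nat_lit 541) (nat_lit 5) (nat_lit 562) (nat_lit 5) (nat_lit 563) (nat_lit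 5) (nat_lit 566) (nat_lit 550) (nat_lit 444)) (XT.lf (nat_lit 0) (nat_lit 3092898009) (nat_lit 1596) (nat_lit 1966668511) (nat_lit 1672) (nat_lit 4278053928) (nat_lit 541) (nat_lit 5) (nat_lit 562) (nat_lit 5) (nat_lit 563) (nat_lit 5) (nat_lit 567) (nat_lit 550) (nat_lit 443))))) (XT.nd (nat_lit 156) (nat_lit 1520) (nat_lit 0) (XT.nd (nat_lit 78) (nat_lit 0) (nat_lit 76) (XT.lf (nat_lit 76) (nat_lit 3117837392) (nat_lit 0) (nat_lit 1339497885) (nat_lit 1672) (nat_lit 4962576341) (nat_lit 542) (nat_lit 5) (nat_lit 541) (nat_lit 5) (nat_lit 563) (nat_lit 5) (nat_lit 568) (nat_lit 550) (nat_lit 442)) (XT.lf (nat_lit 0) (nat_lit 5855913252) (nat_lit 1596) (nat_lit 1205981799) (nat_lit 1672) (nat_lit 2441818721) (nat_lit 542) (nat_lit 5) (nat_lit 563) (nat_lit 5) (nat_lit 564) (nat_lit 5) (nat_lit 569) (nat_lit 550) (nat_lit 441))) (XT.nd (nat_lit 78) (nat_lit 1596) (nat_lit 0) (XT.lf (nat_lit 76) (nat_lit 4019145453) (nat_lit 0) (nat_lit 3276349678) (nat_lit 1672) (nat_lit 2293438346)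 (nat_lit 543) (nat_lit 5) (nat_lit 542) (nat_lit 5) (nat_lit 564) (nat_lit 5) (nat_lit 570) (nat_lit 550) (nat_lit 440)) (XT.nd (nat_lit 78) (nat_lit 1672) (nat_lit 0) (XT.lf (nat_lit 0) (nat_lit 8754233751) (nat_lit 1596) (nat_lit 331508963) (nat_lit 1672) (nat_lit 590309674) (nat_lit 543) (nat_lit 5) (nat_lit 564) (nat_lit 5) (nat_lit 565) (nat_lit 5) (nat_lit 571) (nat_lit 550) (nat_lit 439)) (XT.lf (nat_lit 0) (nat_lit 504452295) (nat_lit 1672) (nat_lit 4728391300) (nat_lit 1748) (nat_lit 4531340587) (nat_lit 521) (nat_lit 5) (nat_lit 543) (nat_lit 5) (nat_lit 544) (nat_lit 5) (nat_lit 572) (nat_lit 550) (nat_lit 438))))))) (XT.nd (nat_lit 780) (nat_lit 5168) (nat_lit 0) (XT.nd (nat_lit 390) (nat_lit 3876) (nat_lit 0) (XT.nd (nat_lit 156) (nat_lit 3344) (nat_lit 0) (XT.nd (nat_lit 78) (nat_lit 0) (nat_lit 76) (XT.lf (nat_lit 76) (nat_lit 646337241) (nat_lit 0) (nat_lit 1286026530) (nat_lit 1748) (nat_lit 7921885802) (nat_lit 522) (nat_lit 5) (nat_lit 521) (nat_lit 5) (nat_lit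 544) (nat_lit 5) (nat_lit 573) (nat_lit 550) (nat_lit 437)) (XT.lf (nat_lit 0) (nat_lit 3417900272) (nat_lit 1672) (nat_lit 3788074961) (nat_lit 76) (nat_lit 2739561654) (nat_lit 522) (nat_lit 5) (nat_lit 544) (nat_lit 5) (nat_lit 523) (nat_lit 5) (nat_lit 574) (nat_lit 550) (nat_lit 436))) (XT.nd (nat_lit 78) (nat_lit 1748) (nat_lit 0) (XT.lf (nat_lit 0) (nat_lit 1737518554) (nat_lit 1672) (nat_lit 3195170476) (nat_lit 1748) (nat_lit 5105972002) (nat_lit 500) (nat_lit 5) (nat_lit 522) (nat_lit 5) (nat_lit 523) (nat_lit 5) (nat_lit 575) (nat_lit 550) (nat_lit 435)) (XT.nd (nat_lit 78) (nat_lit 1748) (nat_lit 0) (XT.lf (nat_lit 0) (nat_lit 6489230681) (nat_lit 1748) (nat_lit 2731374053) (nat_lit 76) (nat_lit 912815660) (nat_lit 500) (nat_lit 5) (nat_lit 523) (nat_lit 5) (nat_lit 501) (nat_lit 5) (nat_lit 576) (nat_lit 550) (nat_lit 434)) (XT.lf (nat_lit 0) (nat_lit 2950440635) (nat_lit 1748) (nat_lit 5147222288) (nat_lit 1824) (nat_lit 2131998664) (nat_lit 477) (nat_lit 5)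 (nat_lit 500) (nat_lit 5) (nat_lit 501) (nat_lit 5) (nat_lit 577) (nat_lit 550) (nat_lit 433))))) (XT.nd (nat_lit 156) (nat_lit 1976) (nat_lit 0) (XT.nd (nat_lit 78) (nat_lit 1900) (nat_lit 0) (XT.lf (nat_lit 0) (nat_lit 8766142601) (nat_lit 1748) (nat_lit 971168197) (nat_lit 1824) (nat_lit 590537671) (nat_lit 477) (nat_lit 5) (nat_lit 500) (nat_lit 5) (nat_lit 501) (nat_lit 5) (nat_lit 578) (nat_lit 550) (nat_lit 432)) (XT.lf (nat_lit 0) (nat_lit 999380118) (nat_lit 1900) (nat_lit 6145760437) (nat_lit 76) (nat_lit 3282122715) (nat_lit 452) (nat_lit 5) (nat_lit 477) (nat_lit 5) (nat_lit 453) (nat_lit 5) (nat_lit 579) (nat_lit 550) (nat_lit 431))) (XT.nd (nat_lit 78) (nat_lit 1976) (nat_lit 0) (XT.lf (nat_lit 0) (nat_lit 2611425947) (nat_lit 1900) (nat_lit 293104086) (nat_lit 76) (nat_lit 7624095224) (nat_lit 452) (nat_lit 5) (nat_lit 477) (nat_lit 5) (nat_lit 453) (nat_lit 5) (nat_lit 580) (nat_lit 550) (nat_lit 430)) (XT.nd (nat_lit 78) (nat_lit 912) (nat_lit 0) (XT.lf (nat_lit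 0) (nat_lit 4284048920) (nat_lit 1140) (nat_lit 4905946671) (nat_lit 76) (nat_lit 1441453834) (nat_lit 438) (nat_lit 5) (nat_lit 453) (nat_lit 5) (nat_lit 439) (nat_lit 5) (nat_lit 581) (nat_lit 550) (nat_lit 429)) (XT.lf (nat_lit 0) (nat_lit 1110568434) (nat_lit 912) (nat_lit 4889861512) (nat_lit 988) (nat_lit 4735695654) (nat_lit 426) (nat_lit 5) (nat_lit 438) (nat_lit 5) (nat_lit 439) (nat_lit 5) (nat_lit 582) (nat_lit 550) (nat_lit 428)))))) (XT.nd (nat_lit 390) (nat_lit 3344) (nat_lit 0) (XT.nd (nat_lit 156) (nat_lit 912) (nat_lit 0) (XT.nd (nat_lit 78) (nat_lit 912) (nat_lit 0) (XT.lf (nat_lit 0) (nat_lit 7297113866) (nat_lit 912) (nat_lit 469072262) (nat_lit 988) (nat_lit 3076409820) (nat_lit 426) (nat_lit 5) (nat_lit 438) (nat_lit 5) (nat_lit 439) (nat_lit 5) (nat_lit 583) (nat_lit 550) (nat_lit 427)) (XT.lf (nat_lit 0) (nat_lit 2647859632) (nat_lit 912) (nat_lit 6945304032) (nat_lit 988) (nat_lit 1357515484) (nat_lit 414) (nat_lit 5) (nat_lit 426) (nat_lit 5) (nat_lit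 427) (nat_lit 5) (nat_lit 584) (nat_lit 550) (nat_lit 426))) (XT.nd (nat_lit 78) (nat_lit 836) (nat_lit 0) (XT.lf (nat_lit 0) (nat_lit 400224655) (nat_lit 988) (nat_lit 2070106356) (nat_lit 76) (nat_lit 8590349955) (nat_lit 413) (nat_lit 5) (nat_lit 426) (nat_lit 5) (nat_lit 414) (nat_lit 5) (nat_lit 585) (nat_lit 550) (nat_lit 425)) (XT.nd (nat_lit 78) (nat_lit 0) (nat_lit 0) (XT.lf (nat_lit 0) (nat_lit 2199784652) (nat_lit 912) (nat_lit 6868043877) (nat_lit 76) (nat_lit 2104379464) (nat_lit 402) (nat_lit 5) (nat_lit 414) (nat_lit 5) (nat_lit 403) (nat_lit 5) (nat_lit 586) (nat_lit 550) (nat_lit 424)) (XT.lf (nat_lit 0) (nat_lit 4048851883) (nat_lit 912) (nat_lit 485009841) (nat_lit 76) (nat_lit 6751834965) (nat_lit 402) (nat_lit 5) (nat_lit 414) (nat_lit 5) (nat_lit 403) (nat_lit 5) (nat_lit 587) (nat_lit 550) (nat_lit 423))))) (XT.nd (nat_lit 234) (nat_lit 1672) (nat_lit 0) (XT.nd (nat_lit 78) (nat_lit 836) (nat_lit 0) (XT.lf (nat_lit 0) (nat_lit 5958788202) (nat_lit 912)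 (nat_lit 5312824167) (nat_lit 76) (nat_lit 129366457) (nat_lit 391) (nat_lit 5) (nat_lit 403) (nat_lit 5) (nat_lit 392) (nat_lit 5) (nat_lit 588) (nat_lit 550) (nat_lit 422)) (XT.nd (nat_lit 78) (nat_lit 0) (nat_lit 0) (XT.lf (nat_lit 0) (nat_lit 1250470200) (nat_lit 836) (nat_lit 6681592467) (nat_lit 912) (nat_lit 3586002546) (nat_lit 380) (nat_lit 5) (nat_lit 391) (nat_lit 5) (nat_lit 392) (nat_lit 5) (nat_lit 589) (nat_lit 550) (nat_lit 421)) (XT.lf (nat_lit 0) (nat_lit 8000419119) (nat_lit 836) (nat_lit 1963965366) (nat_lit 912) (nat_lit 1672718572) (nat_lit 380) (nat_lit 5) (nat_lit 391) (nat_lit 5) (nat_lit 392) (nat_lit 5) (nat_lit 590) (nat_lit 550) (nat_lit 420)))) (XT.nd (nat_lit 78) (nat_lit 760) (nat_lit 0) (XT.lf (nat_lit 0) (nat_lit 298398792) (nat_lit 912) (nat_lit 8627197849) (nat_lit 76) (nat_lit 2832425631) (nat_lit 368) (nat_lit 5) (nat_lit 380) (nat_lit 5) (nat_lit 369) (nat_lit 5) (nat_lit 591) (nat_lit 550) (nat_lit 419)) (XT.nd (nat_lit 78) (nat_lit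 760) (nat_lit 0) (XT.lf (nat_lit 0) (nat_lit 2308472877) (nat_lit 912) (nat_lit 1838853262) (nat_lit 76) (nat_lit 7733375245) (nat_lit 368) (nat_lit 5) (nat_lit 380) (nat_lit 5) (nat_lit 369) (nat_lit 5) (nat_lit 592) (nat_lit 550) (nat_lit 418)) (XT.lf (nat_lit 0) (nat_lit 4381673543) (nat_lit 836) (nat_lit 6874173011) (nat_lit 76) (nat_lit 749530286) (nat_lit 358) (nat_lit 5) (nat_lit 369) (nat_lit 5) (nat_lit 359) (nat_lit 5) (nat_lit 593) (nat_lit 550) (nat_lit 417))))))))
noncomputable def xc133 : XT := (XT.nd (nat_lit 1560) (nat_lit 7524) (nat_lit 0) (XT.nd (nat_lit 780) (nat_lit 3800) (nat_lit 0) (XT.nd (nat_lit 390) (nat_lit 2052) (nat_lit 0) (XT.nd (nat_lit 156) (nat_lit 1520) (nat_lit 0) (XT.nd (nat_lit 78) (nat_lit 0) (nat_lit 0) (XT.lf (nat_lit 0) (nat_lit 90350103) (nat_lit 760) (nat_lit 6431296084) (nat_lit 836) (nat_lit 5610394695) (nat_lit 348) (nat_lit 5) (nat_lit 358) (nat_lit 5) (nat_lit 359) (nat_lit 5) (nat_lit 594) (nat_lit 550) (nat_lit 416)) (XT.lf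 (nat_lit 0) (nat_lit 7270877372) (nat_lit 760) (nat_lit 1464694907) (nat_lit 836) (nat_lit 3525044063) (nat_lit 348) (nat_lit 5) (nat_lit 358) (nat_lit 5) (nat_lit 359) (nat_lit 5) (nat_lit 595) (nat_lit 550) (nat_lit 415))) (XT.nd (nat_lit 78) (nat_lit 836) (nat_lit 0) (XT.lf (nat_lit 0) (nat_lit 2192191264) (nat_lit 684) (nat_lit 8824509224) (nat_lit 760) (nat_lit 1374605538) (nat_lit 339) (nat_lit 5) (nat_lit 348) (nat_lit 5) (nat_lit 349) (nat_lit 5) (nat_lit 596) (nat_lit 550) (nat_lit 414)) (XT.nd (nat_lit 78) (nat_lit 760) (nat_lit 0) (XT.lf (nat_lit 0) (nat_lit 836901648) (nat_lit 760) (nat_lit 2970297808) (nat_lit 76) (nat_lit 8716728882) (nat_lit 338) (nat_lit 5) (nat_lit 348) (nat_lit 5) (nat_lit 339) (nat_lit 5) (nat_lit 597) (nat_lit 550) (nat_lit 413)) (XT.lf (nat_lit 0) (nat_lit 3097478799) (nat_lit 836) (nat_lit 8231502218) (nat_lit 76) (nat_lit 1329576560) (nat_lit 328) (nat_lit 5) (nat_lit 339) (nat_lit 5) (nat_lit 329) (nat_lit 5) (nat_lit 598) (nat_lit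 550) (nat_lit 412))))) (XT.nd (nat_lit 156) (nat_lit 1368) (nat_lit 0) (XT.nd (nat_lit 78) (nat_lit 684) (nat_lit 0) (XT.lf (nat_lit 0) (nat_lit 5434388780) (nat_lit 836) (nat_lit 824565325) (nat_lit 76) (nat_lit 6536303971) (nat_lit 328) (nat_lit 5) (nat_lit 339) (nat_lit 5) (nat_lit 329) (nat_lit 5) (nat_lit 599) (nat_lit 550) (nat_lit 411)) (XT.lf (nat_lit 0) (nat_lit 6803704779) (nat_lit 684) (nat_lit 1044627699) (nat_lit 760) (nat_lit 5085755273) (nat_lit 319) (nat_lit 5) (nat_lit 328) (nat_lit 5) (nat_lit 329) (nat_lit 5) (nat_lit 600) (nat_lit 550) (nat_lit 410))) (XT.nd (nat_lit 78) (nat_lit 684) (nat_lit 0) (XT.lf (nat_lit 0) (nat_lit 1495772608) (nat_lit 684) (nat_lit 8844089069) (nat_lit 760) (nat_lit 2735247268) (nat_lit 310) (nat_lit 5) (nat_lit 319) (nat_lit 5) (nat_lit 320) (nat_lit 5) (nat_lit 601) (nat_lit 550) (nat_lit 409)) (XT.nd (nat_lit 78) (nat_lit 684) (nat_lit 0) (XT.lf (nat_lit 0) (nat_lit 9334454125) (nat_lit 684) (nat_lit 3581218263) (nat_lit 760)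 (nat_lit 302590191) (nat_lit 310) (nat_lit 5) (nat_lit 319) (nat_lit 5) (nat_lit 320) (nat_lit 5) (nat_lit 602) (nat_lit 550) (nat_lit 408)) (XT.lf (nat_lit 0) (nat_lit 2174504804) (nat_lit 684) (nat_lit 9387761568) (nat_lit 76) (nat_lit 1801243815) (nat_lit 301) (nat_lit 5) (nat_lit 310) (nat_lit 5) (nat_lit 302) (nat_lit 5) (nat_lit 603) (nat_lit 550) (nat_lit 407)))))) (XT.nd (nat_lit 390) (nat_lit 1824) (nat_lit 0) (XT.nd (nat_lit 156) (nat_lit 1292) (nat_lit 0) (XT.nd (nat_lit 78) (nat_lit 684) (nat_lit 0) (XT.lf (nat_lit 0) (nat_lit 4733805115) (nat_lit 684) (nat_lit 1507984855) (nat_lit 76) (nat_lit 7269099449) (nat_lit 301) (nat_lit 5) (nat_lit 310) (nat_lit 5) (nat_lit 302) (nat_lit 5) (nat_lit 604) (nat_lit 550) (nat_lit 406)) (XT.lf (nat_lit 0) (nat_lit 6600172335) (nat_lit 684) (nat_lit 773991043) (nat_lit 760) (nat_lit 6286456376) (nat_lit 292) (nat_lit 5) (nat_lit 301) (nat_lit 5) (nat_lit 302) (nat_lit 5) (nat_lit 605) (nat_lit 550) (nat_lit 405))) (XT.nd (nat_lit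 78) (nat_lit 684) (nat_lit 0) (XT.lf (nat_lit 0) (nat_lit 1044322908) (nat_lit 608) (nat_lit 9058311584) (nat_lit 684) (nat_lit 3710005028) (nat_lit 284) (nat_lit 5) (nat_lit 292) (nat_lit 5) (nat_lit 293) (nat_lit 5) (nat_lit 606) (nat_lit 550) (nat_lit 404)) (XT.nd (nat_lit 78) (nat_lit 684) (nat_lit 0) (XT.lf (nat_lit 0) (nat_lit 9385892941) (nat_lit 608) (nat_lit 3539556240) (nat_lit 684) (nat_lit 1041455936) (nat_lit 284) (nat_lit 5) (nat_lit 292) (nat_lit 5) (nat_lit 293) (nat_lit 5) (nat_lit 607) (nat_lit 550) (nat_lit 403)) (XT.lf (nat_lit 0) (nat_lit 1684302923) (nat_lit 684) (nat_lit 10344367877) (nat_lit 76) (nat_lit 2094850331) (nat_lit 275) (nat_lit 5) (nat_lit 284) (nat_lit 5) (nat_lit 276) (nat_lit 5) (nat_lit 608) (nat_lit 550) (nat_lit 402))))) (XT.nd (nat_lit 156) (nat_lit 1216) (nat_lit 0) (XT.nd (nat_lit 78) (nat_lit 608) (nat_lit 0) (XT.lf (nat_lit 0) (nat_lit 4492622739) (nat_lit 684) (nat_lit 1960367657) (nat_lit 76) (nat_lit 7829302436) (nat_lit 275)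 (nat_lit 5) (nat_lit 284) (nat_lit 5) (nat_lit 276) (nat_lit 5) (nat_lit 609) (nat_lit 550) (nat_lit 401)) (XT.lf (nat_lit 0) (nat_lit 6663221102) (nat_lit 608) (nat_lit 724985668) (nat_lit 684) (nat_lit 7055412092) (nat_lit 267) (nat_lit 5) (nat_lit 275) (nat_lit 5) (nat_lit 276) (nat_lit 5) (nat_lit 610) (nat_lit 550) (nat_lit 400))) (XT.nd (nat_lit 78) (nat_lit 608) (nat_lit 0) (XT.lf (nat_lit 0) (nat_lit 840051685) (nat_lit 608) (nat_lit 9541526567) (nat_lit 684) (nat_lit 4225796478) (nat_lit 259) (nat_lit 5) (nat_lit 267) (nat_lit 5) (nat_lit 268) (nat_lit 5) (nat_lit 611) (nat_lit 550) (nat_lit 399)) (XT.nd (nat_lit 78) (nat_lit 608) (nat_lit 0) (XT.lf (nat_lit 0) (nat_lit 9718014516) (nat_lit 608) (nat_lit 3761871126) (nat_lit 684) (nat_lit 1293619521) (nat_lit 259) (nat_lit 5) (nat_lit 267) (nat_lit 5) (nat_lit 268) (nat_lit 5) (nat_lit 612) (nat_lit 550) (nat_lit 398)) (XT.lf (nat_lit 0) (nat_lit 1702279978) (nat_lit 608) (nat_lit 11101773969) (nat_lit 76) (nat_lit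 2138137894) (nat_lit 251) (nat_lit 5) (nat_lit 259) (nat_lit 5) (nat_lit 252) (nat_lit 5) (nat_lit 613) (nat_lit 550) (nat_lit 397))))))) (XT.nd (nat_lit 1170) (nat_lit 2888) (nat_lit 0) (XT.nd (nat_lit 780) (nat_lit 1444) (nat_lit 0) (XT.nd (nat_lit 156) (nat_lit 2660) (nat_lit 0) (XT.nd (nat_lit 78) (nat_lit 532) (nat_lit 0) (XT.lf (nat_lit 0) (nat_lit 4788206516) (nat_lit 608) (nat_lit 2179963269) (nat_lit 76) (nat_lit 8144963608) (nat_lit 251) (nat_lit 5) (nat_lit 259) (nat_lit 5) (nat_lit 252) (nat_lit 5) (nat_lit 614) (nat_lit 550) (nat_lit 396)) (XT.lf (nat_lit 0) (nat_lit 6996894421) (nat_lit 532) (nat_lit 972965737) (nat_lit 608) (nat_lit 7316954201) (nat_lit 244) (nat_lit 5) (nat_lit 251) (nat_lit 5) (nat_lit 252) (nat_lit 5) (nat_lit 615) (nat_lit 550) (nat_lit 395))) (XT.nd (nat_lit 468) (nat_lit 2128) (nat_lit 0) (XT.lf (nat_lit 0) (nat_lit 886043163) (nat_lit 532) (nat_lit 10371650114) (nat_lit 608) (nat_lit 4205425479) (nat_lit 237) (nat_lit 5) (nat_lit 244)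 (nat_lit 5) (nat_lit 245) (nat_lit 5) (nat_lit 616) (nat_lit 550) (nat_lit 394)) (XT.nd (nat_lit 78) (nat_lit 532) (nat_lit 0) (XT.lf (nat_lit 0) (nat_lit 11246175186) (nat_lit 532) (nat_lit 5314346790) (nat_lit 608) (nat_lit 15892416) (nat_lit 216) (nat_lit 5) (nat_lit 223) (nat_lit 5) (nat_lit 224) (nat_lit 5) (nat_lit 622) (nat_lit 550) (nat_lit 388)) (XT.lf (nat_lit 0) (nat_lit 3587127254) (nat_lit 532) (nat_lit 12019773134) (nat_lit 76) (nat_lit 1164719709) (nat_lit 209) (nat_lit 5) (nat_lit 216) (nat_lit 5) (nat_lit 210) (nat_lit 5) (nat_lit 623) (nat_lit 550) (nat_lit 387))))) (XT.nd (nat_lit 156) (nat_lit 988) (nat_lit 0) (XT.nd (nat_lit 78) (nat_lit 456) (nat_lit 0) (XT.lf (nat_lit 0) (nat_lit 7322875696) (nat_lit 532) (nat_lit 1912451507) (nat_lit 76) (nat_lit 7734183594) (nat_lit 209) (nat_lit 5) (nat_lit 216) (nat_lit 5) (nat_lit 210) (nat_lit 5) (nat_lit 624) (nat_lit 550) (nat_lit 386)) (XT.lf (nat_lit 0) (nat_lit 8493977236) (nat_lit 456) (nat_lit 2684393776)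 (nat_lit 532) (nat_lit 5992088256) (nat_lit 203) (nat_lit 5) (nat_lit 209) (nat_lit 5) (nat_lit 210) (nat_lit 5) (nat_lit 625) (nat_lit 550) (nat_lit 385))) (XT.nd (nat_lit 78) (nat_lit 532) (nat_lit 0) (XT.lf (nat_lit 0) (nat_lit 1741572506) (nat_lit 456) (nat_lit 13409544991) (nat_lit 532) (nat_lit 2223506970) (nat_lit 197) (nat_lit 5) (nat_lit 203) (nat_lit 5) (nat_lit 204) (nat_lit 5) (nat_lit 626) (nat_lit 550) (nat_lit 384)) (XT.nd (nat_lit 78) (nat_lit 456) (nat_lit 0) (XT.lf (nat_lit 0) (nat_lit 1665577615) (nat_lit 532) (nat_lit 5139347425) (nat_lit 76) (nat_lit 10776410389) (nat_lit 196) (nat_lit 5) (nat_lit 203) (nat_lit 5) (nat_lit 197) (nat_lit 5) (nat_lit 627) (nat_lit 550) (nat_lit 383)) (XT.lf (nat_lit 0) (nat_lit 5608796738) (nat_lit 456) (nat_lit 20511709) (nat_lit 532) (nat_lit 12162046018) (nat_lit 190) (nat_lit 5) (nat_lit 196) (nat_lit 5) (nat_lit 197) (nat_lit 5) (nat_lit 628) (nat_lit 550) (nat_lit 382)))))) (XT.nd (nat_lit 390) (nat_lit 1596) (nat_lit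 0) (XT.nd (nat_lit 156) (nat_lit 912) (nat_lit 0) (XT.nd (nat_lit 78) (nat_lit 380) (nat_lit 0) (XT.lf (nat_lit 0) (nat_lit 9742091415) (nat_lit 532) (nat_lit 1422681642) (nat_lit 76) (nat_lit 6839405814) (nat_lit 190) (nat_lit 5) (nat_lit 197) (nat_lit 5) (nat_lit 191) (nat_lit 5) (nat_lit 629) (nat_lit 550) (nat_lit 381)) (XT.lf (nat_lit 0) (nat_lit 9664953535) (nat_lit 380) (nat_lit 4325519204) (nat_lit 456) (nat_lit 4229720699) (nat_lit 185) (nat_lit 5) (nat_lit 190) (nat_lit 5) (nat_lit 191) (nat_lit 5) (nat_lit 630) (nat_lit 550) (nat_lit 380))) (XT.nd (nat_lit 78) (nat_lit 456) (nat_lit 0) (XT.lf (nat_lit 0) (nat_lit 2555403475) (nat_lit 456) (nat_lit 15802351373) (nat_lit 532) (nat_lit 82095304) (nat_lit 179) (nat_lit 5) (nat_lit 185) (nat_lit 5) (nat_lit 186) (nat_lit 5) (nat_lit 631) (nat_lit 550) (nat_lit 379)) (XT.nd (nat_lit 78) (nat_lit 380) (nat_lit 0) (XT.lf (nat_lit 0) (nat_lit 4171065439) (nat_lit 532) (nat_lit 4728645169) (nat_lit 76) (nat_lit 9762111378)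 (nat_lit 178) (nat_lit 5) (nat_lit 185) (nat_lit 5) (nat_lit 179) (nat_lit 5) (nat_lit 632) (nat_lit 550) (nat_lit 378)) (XT.lf (nat_lit 0) (nat_lit 6724032351) (nat_lit 380) (nat_lit 1818555650) (nat_lit 456) (nat_lit 10344946935) (nat_lit 173) (nat_lit 5) (nat_lit 178) (nat_lit 5) (nat_lit 179) (nat_lit 5) (nat_lit 633) (nat_lit 550) (nat_lit 377))))) (XT.nd (nat_lit 234) (nat_lit 760) (nat_lit 0) (XT.nd (nat_lit 78) (nat_lit 836) (nat_lit 0) (XT.lf (nat_lit 0) (nat_lit 13059372607) (nat_lit 456) (nat_lit 696509712) (nat_lit 76) (nat_lit 5360723670) (nat_lit 173) (nat_lit 5) (nat_lit 179) (nat_lit 5) (nat_lit 174) (nat_lit 5) (nat_lit 634) (nat_lit 550) (nat_lit 376)) (XT.nd (nat_lit 78) (nat_lit 456) (nat_lit 0) (XT.lf (nat_lit 0) (nat_lit 11119947443) (nat_lit 380) (nat_lit 6621769259) (nat_lit 456) (nat_lit 1607037755) (nat_lit 168) (nat_lit 5) (nat_lit 173) (nat_lit 5) (nat_lit 174) (nat_lit 5) (nat_lit 635) (nat_lit 550) (nat_lit 375)) (XT.lf (nat_lit 0) (nat_lit 2917404036)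 (nat_lit 456) (nat_lit 15978002077) (nat_lit 76) (nat_lit 689285521) (nat_lit 162) (nat_lit 5) (nat_lit 168) (nat_lit 5) (nat_lit 163) (nat_lit 5) (nat_lit 636) (nat_lit 550) (nat_lit 374)))) (XT.nd (nat_lit 78) (nat_lit 760) (nat_lit 0) (XT.lf (nat_lit 0) (nat_lit 7601343272) (nat_lit 456) (nat_lit 4102424507) (nat_lit 76) (nat_lit 8119557229) (nat_lit 162) (nat_lit 5) (nat_lit 168) (nat_lit 5) (nat_lit 163) (nat_lit 5) (nat_lit 637) (nat_lit 550) (nat_lit 373)) (XT.nd (nat_lit 78) (nat_lit 380) (nat_lit 0) (XT.lf (nat_lit 0) (nat_lit 8103452707) (nat_lit 380) (nat_lit 4319365335) (nat_lit 456) (nat_lit 7643036307) (nat_lit 157) (nat_lit 5) (nat_lit 162) (nat_lit 5) (nat_lit 163) (nat_lit 5) (nat_lit 638) (nat_lit 550) (nat_lit 372)) (XT.lf (nat_lit 0) (nat_lit 265266237) (nat_lit 380) (nat_lit 17117046970) (nat_lit 456) (nat_lit 2930089676) (nat_lit 152) (nat_lit 5) (nat_lit 157) (nat_lit 5) (nat_lit 158) (nat_lit 5) (nat_lit 639) (nat_lit 550) (nat_lit 371))))))))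
noncomputable def xc134 : XT := (XT.nd (nat_lit 75192) (nat_lit 0) (nat_lit 22344) (XT.nd (nat_lit 74412) (nat_lit 0) (nat_lit 32376) (XT.nd (nat_lit 390) (nat_lit 304) (nat_lit 0) (XT.nd (nat_lit 156) (nat_lit 760) (nat_lit 0) (XT.nd (nat_lit 78) (nat_lit 380) (nat_lit 0) (XT.lf (nat_lit 0) (nat_lit 1953231380) (nat_lit 456) (nat_lit 7717531243) (nat_lit 76) (nat_lit 10890861740) (nat_lit 151) (nat_lit 5) (nat_lit 157) (nat_lit 5) (nat_lit 152) (nat_lit 5) (nat_lit 640) (nat_lit 550) (nat_lit 370)) (XT.lf (nat_lit 0) (nat_lit 4890091078) (nat_lit 380) (nat_lit 2028173907) (nat_lit 456) (nat_lit 13896712731) (nat_lit 146) (nat_lit 5) (nat_lit 151) (nat_lit 5) (nat_lit 152) (nat_lit 5) (nat_lit 641) (nat_lit 550) (nat_lit 369))) (XT.nd (nat_lit 78) (nat_lit 760) (nat_lit 0) (XT.lf (nat_lit 0) (nat_lit 12063719350) (nat_lit 456) (nat_lit 3269026538) (nat_lit 76) (nat_lit 5739030237) (nat_lit 146) (nat_lit 5) (nat_lit 152) (nat_lit 5) (nat_lit 147) (nat_lit 5) (nat_lit 642) (nat_lit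 550) (nat_lit 368)) (XT.nd (nat_lit 78) (nat_lit 456) (nat_lit 0) (XT.lf (nat_lit 0) (nat_lit 9741183085) (nat_lit 304) (nat_lit 7639286866) (nat_lit 380) (nat_lit 3951873193) (nat_lit 142) (nat_lit 5) (nat_lit 146) (nat_lit 5) (nat_lit 147) (nat_lit 5) (nat_lit 643) (nat_lit 550) (nat_lit 367)) (XT.lf (nat_lit 0) (nat_lit 1214474192) (nat_lit 456) (nat_lit 20142843724) (nat_lit 76) (nat_lit 240150436) (nat_lit 136) (nat_lit 5) (nat_lit 142) (nat_lit 5) (nat_lit 137) (nat_lit 5) (nat_lit 644) (nat_lit 550) (nat_lit 366))))) (XT.nd (nat_lit 156) (nat_lit 0) (nat_lit 0) (XT.nd (nat_lit 78) (nat_lit 304) (nat_lit 0) (XT.lf (nat_lit 0) (nat_lit 6551950341) (nat_lit 456) (nat_lit 7038335894) (nat_lit 76) (nat_lit 8274673407) (nat_lit 136) (nat_lit 5) (nat_lit 142) (nat_lit 5) (nat_lit 137) (nat_lit 5) (nat_lit 645) (nat_lit 550) (nat_lit 365)) (XT.lf (nat_lit 0) (nat_lit 6399284015) (nat_lit 304) (nat_lit 5630380323) (nat_lit 380) (nat_lit 10107467008) (nat_lit 132) (nat_lit 5)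 (nat_lit 136) (nat_lit 5) (nat_lit 137) (nat_lit 5) (nat_lit 646) (nat_lit 550) (nat_lit 364))) (XT.nd (nat_lit 73710) (nat_lit 0) (nat_lit 33744) (XT.lf (nat_lit 0) (nat_lit 17672618116) (nat_lit 380) (nat_lit 2242159870) (nat_lit 76) (nat_lit 2498855137) (nat_lit 132) (nat_lit 5) (nat_lit 137) (nat_lit 5) (nat_lit 133) (nat_lit 5) (nat_lit 647) (nat_lit 550) (nat_lit 363)) (XT.nd (nat_lit 78) (nat_lit 0) (nat_lit 0) (XT.lf (nat_lit 0) (nat_lit 458525768) (nat_lit 0) (nat_lit 458525768) (nat_lit 1444) (nat_lit 3221087179) (nat_lit 576) (nat_lit 5) (nat_lit 576) (nat_lit 3) (nat_lit 595) (nat_lit 3) (nat_lit 551) (nat_lit 551) (nat_lit 458)) (XT.lf (nat_lit 0) (nat_lit 2979186220) (nat_lit 1444) (nat_lit 3272862340) (nat_lit 1520) (nat_lit 2084339430) (nat_lit 576) (nat_lit 5) (nat_lit 595) (nat_lit 3) (nat_lit 596) (nat_lit 5) (nat_lit 552) (nat_lit 551) (nat_lit 457)))))) (XT.nd (nat_lit 390) (nat_lit 0) (nat_lit 0) (XT.nd (nat_lit 156) (nat_lit 1368) (nat_lit 0) (XT.nd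 (nat_lit 78) (nat_lit 0) (nat_lit 0) (XT.lf (nat_lit 76) (nat_lit 885489308) (nat_lit 0) (nat_lit 3244403712) (nat_lit 1520) (nat_lit 4268156380) (nat_lit 577) (nat_lit 5) (nat_lit 576) (nat_lit 5) (nat_lit 596) (nat_lit 5) (nat_lit 553) (nat_lit 551) (nat_lit 456)) (XT.lf (nat_lit 76) (nat_lit 5156193684) (nat_lit 0) (nat_lit 140754564) (nat_lit 1520) (nat_lit 3164132124) (nat_lit 577) (nat_lit 5) (nat_lit 576) (nat_lit 5) (nat_lit 596) (nat_lit 5) (nat_lit 554) (nat_lit 551) (nat_lit 455))) (XT.nd (nat_lit 78) (nat_lit 1444) (nat_lit 0) (XT.lf (nat_lit 76) (nat_lit 964417494) (nat_lit 0) (nat_lit 5520847432) (nat_lit 1520) (nat_lit 2040151588) (nat_lit 578) (nat_lit 5) (nat_lit 577) (nat_lit 5) (nat_lit 597) (nat_lit 5) (nat_lit 555) (nat_lit 551) (nat_lit 454)) (XT.nd (nat_lit 78) (nat_lit 1444) (nat_lit 0) (XT.lf (nat_lit 76) (nat_lit 5347532906) (nat_lit 0) (nat_lit 2345385669) (nat_lit 1520) (nat_lit 898212291) (nat_lit 578) (nat_lit 5) (nat_lit 577) (nat_lit 5) (nat_lit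 597) (nat_lit 5) (nat_lit 556) (nat_lit 551) (nat_lit 453)) (XT.lf (nat_lit 0) (nat_lit 249353262) (nat_lit 1520) (nat_lit 7506340645) (nat_lit 1596) (nat_lit 902708104) (nat_lit 558) (nat_lit 5) (nat_lit 578) (nat_lit 5) (nat_lit 579) (nat_lit 5) (nat_lit 557) (nat_lit 551) (nat_lit 452))))) (XT.nd (nat_lit 156) (nat_lit 0) (nat_lit 76) (XT.nd (nat_lit 78) (nat_lit 0) (nat_lit 0) (XT.lf (nat_lit 0) (nat_lit 1418629081) (nat_lit 1520) (nat_lit 3084606169) (nat_lit 1596) (nat_lit 4223451597) (nat_lit 558) (nat_lit 5) (nat_lit 578) (nat_lit 5) (nat_lit 579) (nat_lit 5) (nat_lit 558) (nat_lit 551) (nat_lit 451)) (XT.lf (nat_lit 76) (nat_lit 1428613546) (nat_lit 0) (nat_lit 1165807300) (nat_lit 1596) (nat_lit 6202256607) (nat_lit 559) (nat_lit 5) (nat_lit 558) (nat_lit 5) (nat_lit 579) (nat_lit 5) (nat_lit 559) (nat_lit 551) (nat_lit 450))) (XT.nd (nat_lit 78) (nat_lit 0) (nat_lit 0) (XT.lf (nat_lit 0) (nat_lit 3803430140) (nat_lit 1520) (nat_lit 2824579620) (nat_lit 1596) (nat_lit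 2239866703) (nat_lit 559) (nat_lit 5) (nat_lit 579) (nat_lit 5) (nat_lit 580) (nat_lit 5) (nat_lit 560) (nat_lit 551) (nat_lit 449)) (XT.nd (nat_lit 78) (nat_lit 0) (nat_lit 76) (XT.lf (nat_lit 76) (nat_lit 1809942493) (nat_lit 0) (nat_lit 3220984644) (nat_lit 1596) (nat_lit 3909688743) (nat_lit 560) (nat_lit 5) (nat_lit 559) (nat_lit 5) (nat_lit 580) (nat_lit 5) (nat_lit 561) (nat_lit 551) (nat_lit 448)) (XT.lf (nat_lit 0) (nat_lit 6278989733) (nat_lit 1520) (nat_lit 2457065207) (nat_lit 1596) (nat_lit 278837359) (nat_lit 560) (nat_lit 5) (nat_lit 580) (nat_lit 5) (nat_lit 581) (nat_lit 5) (nat_lit 562) (nat_lit 551) (nat_lit 447))))))) (XT.nd (nat_lit 780) (nat_lit 7220) (nat_lit 0) (XT.nd (nat_lit 390) (nat_lit 1444) (nat_lit 0) (XT.nd (nat_lit 156) (nat_lit 1520) (nat_lit 0) (XT.nd (nat_lit 78) (nat_lit 0) (nat_lit 0) (XT.lf (nat_lit 76) (nat_lit 2302905425) (nat_lit 0) (nat_lit 5261161173) (nat_lit 1596) (nat_lit 1526349062) (nat_lit 561) (nat_lit 5) (nat_lit 560) (nat_lit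 5) (nat_lit 581) (nat_lit 5) (nat_lit 563) (nat_lit 551) (nat_lit 446)) (XT.lf (nat_lit 76) (nat_lit 7175505073) (nat_lit 0) (nat_lit 1691970151) (nat_lit 1596) (nat_lit 300124088) (nat_lit 561) (nat_lit 5) (nat_lit 560) (nat_lit 5) (nat_lit 581) (nat_lit 5) (nat_lit 564) (nat_lit 551) (nat_lit 445))) (XT.nd (nat_lit 78) (nat_lit 0) (nat_lit 0) (XT.lf (nat_lit 0) (nat_lit 946406779) (nat_lit 1596) (nat_lit 6343751912) (nat_lit 1672) (nat_lit 1955881857) (nat_lit 540) (nat_lit 5) (nat_lit 561) (nat_lit 5) (nat_lit 562) (nat_lit 5) (nat_lit 565) (nat_lit 551) (nat_lit 444)) (XT.nd (nat_lit 78) (nat_lit 0) (nat_lit 76) (XT.lf (nat_lit 0) (nat_lit 2215374975) (nat_lit 1596) (nat_lit 1433792146) (nat_lit 1672) (nat_lit 5676815592) (nat_lit 540) (nat_lit 5) (nat_lit 561) (nat_lit 5) (nat_lit 562) (nat_lit 5) (nat_lit 566) (nat_lit 551) (nat_lit 443)) (XT.lf (nat_lit 0) (nat_lit 3511065097) (nat_lit 1596) (nat_lit 5802444612) (nat_lit 1672) (nat_lit 93989403) (nat_lit 541) (nat_lit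 5) (nat_lit 562) (nat_lit 5) (nat_lit 563) (nat_lit 5) (nat_lit 567) (nat_lit 551) (nat_lit 442))))) (XT.nd (nat_lit 156) (nat_lit 1520) (nat_lit 0) (XT.nd (nat_lit 78) (nat_lit 0) (nat_lit 0) (XT.lf (nat_lit 0) (nat_lit 4844218502) (nat_lit 1596) (nat_lit 766927175) (nat_lit 1672) (nat_lit 3879271371) (nat_lit 541) (nat_lit 5) (nat_lit 562) (nat_lit 5) (nat_lit 563) (nat_lit 5) (nat_lit 568) (nat_lit 551) (nat_lit 441)) (XT.lf (nat_lit 76) (nat_lit 4411117039) (nat_lit 0) (nat_lit 1799692729) (nat_lit 1672) (nat_lit 3364050236) (nat_lit 542) (nat_lit 5) (nat_lit 541) (nat_lit 5) (nat_lit 563) (nat_lit 5) (nat_lit 569) (nat_lit 551) (nat_lit 440))) (XT.nd (nat_lit 78) (nat_lit 1596) (nat_lit 0) (XT.lf (nat_lit 76) (nat_lit 12401107) (nat_lit 0) (nat_lit 7589646057) (nat_lit 1672) (nat_lit 2059000482) (nat_lit 543) (nat_lit 5) (nat_lit 542) (nat_lit 5) (nat_lit 564) (nat_lit 5) (nat_lit 570) (nat_lit 551) (nat_lit 439)) (XT.nd (nat_lit 78) (nat_lit 1596) (nat_lit 0) (XT.lf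 (nat_lit 76) (nat_lit 5333694974) (nat_lit 0) (nat_lit 3712718314) (nat_lit 1672) (nat_lit 702041744) (nat_lit 543) (nat_lit 5) (nat_lit 542) (nat_lit 5) (nat_lit 564) (nat_lit 5) (nat_lit 571) (nat_lit 551) (nat_lit 438)) (XT.lf (nat_lit 0) (nat_lit 659809331) (nat_lit 1672) (nat_lit 8924366622) (nat_lit 1748) (nat_lit 253614068) (nat_lit 521) (nat_lit 5) (nat_lit 543) (nat_lit 5) (nat_lit 544) (nat_lit 5) (nat_lit 572) (nat_lit 551) (nat_lit 437)))))) (XT.nd (nat_lit 390) (nat_lit 5624) (nat_lit 0) (XT.nd (nat_lit 156) (nat_lit 1596) (nat_lit 0) (XT.nd (nat_lit 78) (nat_lit 0) (nat_lit 0) (XT.lf (nat_lit 0) (nat_lit 2073337479) (nat_lit 1672) (nat_lit 3566327117) (nat_lit 1748) (nat_lit 4288479449) (nat_lit 521) (nat_lit 5) (nat_lit 543) (nat_lit 5) (nat_lit 544) (nat_lit 5) (nat_lit 573) (nat_lit 551) (nat_lit 436)) (XT.lf (nat_lit 76) (nat_lit 1907628679) (nat_lit 0) (nat_lit 1599719087) (nat_lit 1748) (nat_lit 6513115066) (nat_lit 522) (nat_lit 5) (nat_lit 521) (nat_lit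 5) (nat_lit 544) (nat_lit 5) (nat_lit 574) (nat_lit 551) (nat_lit 435))) (XT.nd (nat_lit 78) (nat_lit 1672) (nat_lit 0) (XT.lf (nat_lit 0) (nat_lit 4990637703) (nat_lit 1672) (nat_lit 2607850057) (nat_lit 76) (nat_lit 2515730121) (nat_lit 522) (nat_lit 5) (nat_lit 544) (nat_lit 5) (nat_lit 523) (nat_lit 5) (nat_lit 575) (nat_lit 551) (nat_lit 434)) (XT.nd (nat_lit 78) (nat_lit 0) (nat_lit 0) (XT.lf (nat_lit 0) (nat_lit 3019992260) (nat_lit 1672) (nat_lit 3494333388) (nat_lit 1748) (nat_lit 3695309580) (nat_lit 500) (nat_lit 5) (nat_lit 522) (nat_lit 5) (nat_lit 523) (nat_lit 5) (nat_lit 576) (nat_lit 551) (nat_lit 433)) (XT.lf (nat_lit 0) (nat_lit 8071422527) (nat_lit 1748) (nat_lit 1532031123) (nat_lit 76) (nat_lit 703450373) (nat_lit 500) (nat_lit 5) (nat_lit 523) (nat_lit 5) (nat_lit 501) (nat_lit 5) (nat_lit 577) (nat_lit 551) (nat_lit 432))))) (XT.nd (nat_lit 234) (nat_lit 1976) (nat_lit 0) (XT.nd (nat_lit 78) (nat_lit 1900) (nat_lit 0) (XT.lf (nat_lit 0) (nat_lit 4255170054)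 (nat_lit 1748) (nat_lit 5436462831) (nat_lit 1824) (nat_lit 713847644) (nat_lit 477) (nat_lit 5) (nat_lit 500) (nat_lit 5) (nat_lit 501) (nat_lit 5) (nat_lit 578) (nat_lit 551) (nat_lit 431)) (XT.nd (nat_lit 78) (nat_lit 1824) (nat_lit 0) (XT.lf (nat_lit 0) (nat_lit 818916636) (nat_lit 1824) (nat_lit 348822795) (nat_lit 76) (nat_lit 9338348167) (nat_lit 476) (nat_lit 5) (nat_lit 500) (nat_lit 5) (nat_lit 477) (nat_lit 5) (nat_lit 579) (nat_lit 551) (nat_lit 430)) (XT.lf (nat_lit 0) (nat_lit 2411969856) (nat_lit 1900) (nat_lit 5007580053) (nat_lit 76) (nat_lit 3188280353) (nat_lit 452) (nat_lit 5) (nat_lit 477) (nat_lit 5) (nat_lit 453) (nat_lit 5) (nat_lit 580) (nat_lit 551) (nat_lit 429)))) (XT.nd (nat_lit 78) (nat_lit 912) (nat_lit 0) (XT.lf (nat_lit 0) (nat_lit 949859639) (nat_lit 1064) (nat_lit 3085258157) (nat_lit 1140) (nat_lit 6676526945) (nat_lit 438) (nat_lit 5) (nat_lit 452) (nat_lit 5) (nat_lit 453) (nat_lit 5) (nat_lit 581) (nat_lit 551) (nat_lit 428)) (XT.nd (nat_lit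 78) (nat_lit 912) (nat_lit 0) (XT.lf (nat_lit 0) (nat_lit 5715462247) (nat_lit 1140) (nat_lit 3748012185) (nat_lit 76) (nat_lit 1353568008) (nat_lit 438) (nat_lit 5) (nat_lit 453) (nat_lit 5) (nat_lit 439) (nat_lit 5) (nat_lit 582) (nat_lit 551) (nat_lit 427)) (XT.lf (nat_lit 0) (nat_lit 2380569713) (nat_lit 912) (nat_lit 5067315751) (nat_lit 988) (nat_lit 3476294761) (nat_lit 426) (nat_lit 5) (nat_lit 438) (nat_lit 5) (nat_lit 439) (nat_lit 5) (nat_lit 583) (nat_lit 551) (nat_lit 426))))))))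
noncomputable def xc135 : XT := (XT.nd (nat_lit 1560) (nat_lit 8056) (nat_lit 0) (XT.nd (nat_lit 780) (nat_lit 4484) (nat_lit 0) (XT.nd (nat_lit 390) (nat_lit 1748) (nat_lit 0) (XT.nd (nat_lit 156) (nat_lit 1748) (nat_lit 0) (XT.nd (nat_lit 78) (nat_lit 912) (nat_lit 0) (XT.lf (nat_lit 0) (nat_lit 8666379585) (nat_lit 912) (nat_lit 556548814) (nat_lit 988) (nat_lit 1810374481) (nat_lit 426) (nat_lit 5) (nat_lit 438) (nat_lit 5) (nat_lit 439) (nat_lit 5) (nat_lit 584) (nat_lit 551) (nat_lit 425)) (XT.lf (nat_lit 0) (nat_lit 3942568776) (nat_lit 912) (nat_lit 7125923873) (nat_lit 988) (nat_lit 75416438) (nat_lit 414) (nat_lit 5) (nat_lit 426) (nat_lit 5) (nat_lit 427) (nat_lit 5) (nat_lit 585) (nat_lit 551) (nat_lit 424))) (XT.nd (nat_lit 78) (nat_lit 1672) (nat_lit 0) (XT.lf (nat_lit 0) (nat_lit 1674972594) (nat_lit 988) (nat_lit 877160365) (nat_lit 76) (nat_lit 8704316867) (nat_lit 413) (nat_lit 5) (nat_lit 426) (nat_lit 5) (nat_lit 414) (nat_lit 5) (nat_lit 586) (nat_lit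 551) (nat_lit 423)) (XT.nd (nat_lit 78) (nat_lit 836) (nat_lit 0) (XT.lf (nat_lit 0) (nat_lit 3493493683) (nat_lit 912) (nat_lit 5753918792) (nat_lit 76) (nat_lit 2123137674) (nat_lit 402) (nat_lit 5) (nat_lit 414) (nat_lit 5) (nat_lit 403) (nat_lit 5) (nat_lit 587) (nat_lit 551) (nat_lit 422)) (XT.lf (nat_lit 0) (nat_lit 741968027) (nat_lit 836) (nat_lit 4617887397) (nat_lit 912) (nat_lit 6126849045) (nat_lit 391) (nat_lit 5) (nat_lit 402) (nat_lit 5) (nat_lit 403) (nat_lit 5) (nat_lit 588) (nat_lit 551) (nat_lit 421))))) (XT.nd (nat_lit 156) (nat_lit 912) (nat_lit 0) (XT.nd (nat_lit 78) (nat_lit 836) (nat_lit 0) (XT.lf (nat_lit 0) (nat_lit 7287126628) (nat_lit 912) (nat_lit 4175983584) (nat_lit 76) (nat_lit 141601385) (nat_lit 391) (nat_lit 5) (nat_lit 403) (nat_lit 5) (nat_lit 392) (nat_lit 5) (nat_lit 589) (nat_lit 551) (nat_lit 420)) (XT.lf (nat_lit 0) (nat_lit 2510398400) (nat_lit 836) (nat_lit 6773777022) (nat_lit 912) (nat_lit 2440280143) (nat_lit 380) (nat_lit 5)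 (nat_lit 391) (nat_lit 5) (nat_lit 392) (nat_lit 5) (nat_lit 590) (nat_lit 551) (nat_lit 419))) (XT.nd (nat_lit 78) (nat_lit 912) (nat_lit 0) (XT.lf (nat_lit 0) (nat_lit 9371132203) (nat_lit 836) (nat_lit 1962610071) (nat_lit 912) (nat_lit 512601910) (nat_lit 380) (nat_lit 5) (nat_lit 391) (nat_lit 5) (nat_lit 392) (nat_lit 5) (nat_lit 591) (nat_lit 551) (nat_lit 418)) (XT.nd (nat_lit 78) (nat_lit 0) (nat_lit 0) (XT.lf (nat_lit 0) (nat_lit 1467459423) (nat_lit 912) (nat_lit 7558365480) (nat_lit 76) (nat_lit 2944000294) (nat_lit 368) (nat_lit 5) (nat_lit 380) (nat_lit 5) (nat_lit 369) (nat_lit 5) (nat_lit 592) (nat_lit 551) (nat_lit 417)) (XT.lf (nat_lit 0) (nat_lit 3494929252) (nat_lit 912) (nat_lit 658594714) (nat_lit 76) (nat_lit 7941891917) (nat_lit 368) (nat_lit 5) (nat_lit 380) (nat_lit 5) (nat_lit 369) (nat_lit 5) (nat_lit 593) (nat_lit 551) (nat_lit 416)))))) (XT.nd (nat_lit 390) (nat_lit 2204) (nat_lit 0) (XT.nd (nat_lit 156) (nat_lit 760) (nat_lit 0) (XT.nd (nat_lit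 78) (nat_lit 760) (nat_lit 0) (XT.lf (nat_lit 0) (nat_lit 5595625699) (nat_lit 836) (nat_lit 5780560674) (nat_lit 76) (nat_lit 846679678) (nat_lit 358) (nat_lit 5) (nat_lit 369) (nat_lit 5) (nat_lit 359) (nat_lit 5) (nat_lit 594) (nat_lit 551) (nat_lit 415)) (XT.lf (nat_lit 0) (nat_lit 1315153588) (nat_lit 760) (nat_lit 6449100033) (nat_lit 836) (nat_lit 4588094441) (nat_lit 348) (nat_lit 5) (nat_lit 358) (nat_lit 5) (nat_lit 359) (nat_lit 5) (nat_lit 595) (nat_lit 551) (nat_lit 414))) (XT.nd (nat_lit 78) (nat_lit 760) (nat_lit 0) (XT.lf (nat_lit 0) (nat_lit 8615311078) (nat_lit 760) (nat_lit 1385339812) (nat_lit 836) (nat_lit 2483282053) (nat_lit 348) (nat_lit 5) (nat_lit 358) (nat_lit 5) (nat_lit 359) (nat_lit 5) (nat_lit 596) (nat_lit 551) (nat_lit 413)) (XT.nd (nat_lit 78) (nat_lit 76) (nat_lit 0) (XT.lf (nat_lit 0) (nat_lit 3448213877) (nat_lit 684) (nat_lit 8866369897) (nat_lit 760) (nat_lit 302910739) (nat_lit 339) (nat_lit 5) (nat_lit 348) (nat_lit 5) (nat_lit 349)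 (nat_lit 5) (nat_lit 597) (nat_lit 551) (nat_lit 412)) (XT.lf (nat_lit 0) (nat_lit 1917140539) (nat_lit 760) (nat_lit 1827076537) (nat_lit 76) (nat_lit 9008836527) (nat_lit 338) (nat_lit 5) (nat_lit 348) (nat_lit 5) (nat_lit 339) (nat_lit 5) (nat_lit 598) (nat_lit 551) (nat_lit 411))))) (XT.nd (nat_lit 156) (nat_lit 760) (nat_lit 0) (XT.nd (nat_lit 78) (nat_lit 684) (nat_lit 0) (XT.lf (nat_lit 0) (nat_lit 4210770118) (nat_lit 836) (nat_lit 7181264271) (nat_lit 76) (nat_lit 1498585855) (nat_lit 328) (nat_lit 5) (nat_lit 339) (nat_lit 5) (nat_lit 329) (nat_lit 5) (nat_lit 599) (nat_lit 551) (nat_lit 410)) (XT.lf (nat_lit 0) (nat_lit 354641607) (nat_lit 684) (nat_lit 6221464716) (nat_lit 760) (nat_lit 6454316270) (nat_lit 319) (nat_lit 5) (nat_lit 328) (nat_lit 5) (nat_lit 329) (nat_lit 5) (nat_lit 600) (nat_lit 551) (nat_lit 409))) (XT.nd (nat_lit 78) (nat_lit 760) (nat_lit 0) (XT.lf (nat_lit 0) (nat_lit 8122990090) (nat_lit 684) (nat_lit 900508091) (nat_lit 760) (nat_lit 4148828864)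 (nat_lit 319) (nat_lit 5) (nat_lit 328) (nat_lit 5) (nat_lit 329) (nat_lit 5) (nat_lit 601) (nat_lit 551) (nat_lit 408)) (XT.nd (nat_lit 78) (nat_lit 76) (nat_lit 0) (XT.lf (nat_lit 0) (nat_lit 2720358641) (nat_lit 684) (nat_lit 8833341590) (nat_lit 760) (nat_lit 1762693125) (nat_lit 310) (nat_lit 5) (nat_lit 319) (nat_lit 5) (nat_lit 320) (nat_lit 5) (nat_lit 602) (nat_lit 551) (nat_lit 407)) (XT.lf (nat_lit 0) (nat_lit 689314136) (nat_lit 760) (nat_lit 2774952577) (nat_lit 76) (nat_lit 9998449079) (nat_lit 309) (nat_lit 5) (nat_lit 319) (nat_lit 5) (nat_lit 310) (nat_lit 5) (nat_lit 603) (nat_lit 551) (nat_lit 406))))))) (XT.nd (nat_lit 780) (nat_lit 4256) (nat_lit 0) (XT.nd (nat_lit 390) (nat_lit 1900) (nat_lit 0) (XT.nd (nat_lit 156) (nat_lit 1292) (nat_lit 0) (XT.nd (nat_lit 78) (nat_lit 0) (nat_lit 0) (XT.lf (nat_lit 0) (nat_lit 3201318846) (nat_lit 684) (nat_lit 8380331867) (nat_lit 76) (nat_lit 2029390696) (nat_lit 301) (nat_lit 5) (nat_lit 310) (nat_lit 5) (nat_lit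 302) (nat_lit 5) (nat_lit 604) (nat_lit 551) (nat_lit 405)) (XT.lf (nat_lit 0) (nat_lit 5792524301) (nat_lit 684) (nat_lit 366394619) (nat_lit 76) (nat_lit 7602836345) (nat_lit 301) (nat_lit 5) (nat_lit 310) (nat_lit 5) (nat_lit 302) (nat_lit 5) (nat_lit 605) (nat_lit 551) (nat_lit 404))) (XT.nd (nat_lit 78) (nat_lit 608) (nat_lit 0) (XT.lf (nat_lit 0) (nat_lit 7896216834) (nat_lit 684) (nat_lit 578127816) (nat_lit 760) (nat_lit 5440363850) (nat_lit 292) (nat_lit 5) (nat_lit 301) (nat_lit 5) (nat_lit 302) (nat_lit 5) (nat_lit 606) (nat_lit 551) (nat_lit 403)) (XT.nd (nat_lit 78) (nat_lit 0) (nat_lit 0) (XT.lf (nat_lit 0) (nat_lit 2239226936) (nat_lit 608) (nat_lit 9008445671) (nat_lit 684) (nat_lit 2822291672) (nat_lit 284) (nat_lit 5) (nat_lit 292) (nat_lit 5) (nat_lit 293) (nat_lit 5) (nat_lit 607) (nat_lit 551) (nat_lit 402)) (XT.lf (nat_lit 0) (nat_lit 10724608418) (nat_lit 608) (nat_lit 3383845263) (nat_lit 684) (nat_lit 119232647) (nat_lit 284) (nat_lit 5) (nat_lit 292)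 (nat_lit 5) (nat_lit 293) (nat_lit 5) (nat_lit 608) (nat_lit 551) (nat_lit 401))))) (XT.nd (nat_lit 156) (nat_lit 1216) (nat_lit 0) (XT.nd (nat_lit 78) (nat_lit 0) (nat_lit 0) (XT.lf (nat_lit 0) (nat_lit 2639459670) (nat_lit 684) (nat_lit 9378545847) (nat_lit 76) (nat_lit 2369492242) (nat_lit 275) (nat_lit 5) (nat_lit 284) (nat_lit 5) (nat_lit 276) (nat_lit 5) (nat_lit 609) (nat_lit 551) (nat_lit 400)) (XT.lf (nat_lit 0) (nat_lit 5485877830) (nat_lit 684) (nat_lit 849859925) (nat_lit 76) (nat_lit 8214069763) (nat_lit 275) (nat_lit 5) (nat_lit 284) (nat_lit 5) (nat_lit 276) (nat_lit 5) (nat_lit 610) (nat_lit 551) (nat_lit 399))) (XT.nd (nat_lit 78) (nat_lit 608) (nat_lit 0) (XT.lf (nat_lit 0) (nat_lit 7938636694) (nat_lit 608) (nat_lit 490438673) (nat_lit 684) (nat_lit 6285491902) (nat_lit 267) (nat_lit 5) (nat_lit 275) (nat_lit 5) (nat_lit 276) (nat_lit 5) (nat_lit 611) (nat_lit 551) (nat_lit 398)) (XT.nd (nat_lit 78) (nat_lit 0) (nat_lit 0) (XT.lf (nat_lit 0) (nat_lit 2007689447)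 (nat_lit 608) (nat_lit 9466170245) (nat_lit 684) (nat_lit 3407908867) (nat_lit 259) (nat_lit 5) (nat_lit 267) (nat_lit 5) (nat_lit 268) (nat_lit 5) (nat_lit 612) (nat_lit 551) (nat_lit 397)) (XT.lf (nat_lit 0) (nat_lit 11040646108) (nat_lit 608) (nat_lit 3576141046) (nat_lit 684) (nat_lit 434782558) (nat_lit 259) (nat_lit 5) (nat_lit 267) (nat_lit 5) (nat_lit 268) (nat_lit 5) (nat_lit 613) (nat_lit 551) (nat_lit 396)))))) (XT.nd (nat_lit 546) (nat_lit 1976) (nat_lit 0) (XT.nd (nat_lit 156) (nat_lit 1672) (nat_lit 0) (XT.nd (nat_lit 78) (nat_lit 0) (nat_lit 0) (XT.lf (nat_lit 0) (nat_lit 2601411724) (nat_lit 608) (nat_lit 10175799459) (nat_lit 76) (nat_lit 2446465604) (nat_lit 251) (nat_lit 5) (nat_lit 259) (nat_lit 5) (nat_lit 252) (nat_lit 5) (nat_lit 614) (nat_lit 551) (nat_lit 395)) (XT.lf (nat_lit 0) (nat_lit 5732094319) (nat_lit 608) (nat_lit 1098062545) (nat_lit 76) (nat_lit 8568220676) (nat_lit 251) (nat_lit 5) (nat_lit 259) (nat_lit 5) (nat_lit 252) (nat_lit 5) (nat_lit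 615) (nat_lit 551) (nat_lit 394))) (XT.nd (nat_lit 234) (nat_lit 1140) (nat_lit 0) (XT.lf (nat_lit 0) (nat_lit 8254927693) (nat_lit 532) (nat_lit 713082881) (nat_lit 608) (nat_lit 6607710059) (nat_lit 244) (nat_lit 5) (nat_lit 251) (nat_lit 5) (nat_lit 252) (nat_lit 5) (nat_lit 616) (nat_lit 551) (nat_lit 393)) (XT.nd (nat_lit 78) (nat_lit 0) (nat_lit 0) (XT.lf (nat_lit 0) (nat_lit 3168003982) (nat_lit 608) (nat_lit 10771717312) (nat_lit 76) (nat_lit 2183885269) (nat_lit 229) (nat_lit 5) (nat_lit 237) (nat_lit 5) (nat_lit 230) (nat_lit 5) (nat_lit 619) (nat_lit 551) (nat_lit 390)) (XT.lf (nat_lit 0) (nat_lit 6614217448) (nat_lit 608) (nat_lit 1108324897) (nat_lit 76) (nat_lit 8589020254) (nat_lit 229) (nat_lit 5) (nat_lit 237) (nat_lit 5) (nat_lit 230) (nat_lit 5) (nat_lit 620) (nat_lit 551) (nat_lit 389))))) (XT.nd (nat_lit 234) (nat_lit 912) (nat_lit 0) (XT.nd (nat_lit 78) (nat_lit 608) (nat_lit 0) (XT.lf (nat_lit 0) (nat_lit 8850176173) (nat_lit 456) (nat_lit 1326317537)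 (nat_lit 532) (nat_lit 6325841920) (nat_lit 223) (nat_lit 5) (nat_lit 229) (nat_lit 5) (nat_lit 230) (nat_lit 5) (nat_lit 621) (nat_lit 551) (nat_lit 388)) (XT.nd (nat_lit 78) (nat_lit 76) (nat_lit 0) (XT.lf (nat_lit 0) (nat_lit 2308255073) (nat_lit 532) (nat_lit 11547744063) (nat_lit 608) (nat_lit 2840005944) (nat_lit 216) (nat_lit 5) (nat_lit 223) (nat_lit 5) (nat_lit 224) (nat_lit 5) (nat_lit 622) (nat_lit 551) (nat_lit 387)) (XT.lf (nat_lit 0) (nat_lit 756439019) (nat_lit 608) (nat_lit 4349043956) (nat_lit 76) (nat_lit 11786967098) (nat_lit 215) (nat_lit 5) (nat_lit 223) (nat_lit 5) (nat_lit 216) (nat_lit 5) (nat_lit 623) (nat_lit 551) (nat_lit 386)))) (XT.nd (nat_lit 78) (nat_lit 456) (nat_lit 0) (XT.lf (nat_lit 0) (nat_lit 4425229432) (nat_lit 532) (nat_lit 11166351681) (nat_lit 76) (nat_lit 1500099116) (nat_lit 209) (nat_lit 5) (nat_lit 216) (nat_lit 5) (nat_lit 210) (nat_lit 5) (nat_lit 624) (nat_lit 551) (nat_lit 385)) (XT.nd (nat_lit 78) (nat_lit 456) (nat_lit 0)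 (XT.lf (nat_lit 0) (nat_lit 8220666184) (nat_lit 532) (nat_lit 878331012) (nat_lit 76) (nat_lit 8194832965) (nat_lit 209) (nat_lit 5) (nat_lit 216) (nat_lit 5) (nat_lit 210) (nat_lit 5) (nat_lit 625) (nat_lit 551) (nat_lit 384)) (XT.lf (nat_lit 0) (nat_lit 9729171243) (nat_lit 456) (nat_lit 2416284872) (nat_lit 532) (nat_lit 5353498659) (nat_lit 203) (nat_lit 5) (nat_lit 209) (nat_lit 5) (nat_lit 210) (nat_lit 5) (nat_lit 626) (nat_lit 551) (nat_lit 383))))))))
noncomputable def xc136 : XT := (XT.nd (nat_lit 1560) (nat_lit 304) (nat_lit 0) (XT.nd (nat_lit 780) (nat_lit 2432) (nat_lit 0) (XT.nd (nat_lit 390) (nat_lit 1292) (nat_lit 0) (XT.nd (nat_lit 156) (nat_lit 836) (nat_lit 0) (XT.nd (nat_lit 78) (nat_lit 76) (nat_lit 0) (XT.lf (nat_lit 0) (nat_lit 2847449761) (nat_lit 456) (nat_lit 13344631282) (nat_lit 532) (nat_lit 1515234613) (nat_lit 197) (nat_lit 5) (nat_lit 203) (nat_lit 5) (nat_lit 204) (nat_lit 5) (nat_lit 627) (nat_lit 551) (nat_lit 382)) (XT.lf (nat_lit 0) (nat_lit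 2427193229) (nat_lit 532) (nat_lit 4182369861) (nat_lit 76) (nat_lit 11308792138) (nat_lit 196) (nat_lit 5) (nat_lit 203) (nat_lit 5) (nat_lit 197) (nat_lit 5) (nat_lit 628) (nat_lit 551) (nat_lit 381))) (XT.nd (nat_lit 78) (nat_lit 380) (nat_lit 0) (XT.lf (nat_lit 0) (nat_lit 6464772925) (nat_lit 532) (nat_lit 11360978589) (nat_lit 76) (nat_lit 306932446) (nat_lit 190) (nat_lit 5) (nat_lit 197) (nat_lit 5) (nat_lit 191) (nat_lit 5) (nat_lit 629) (nat_lit 551) (nat_lit 380)) (XT.nd (nat_lit 78) (nat_lit 380) (nat_lit 0) (XT.lf (nat_lit 0) (nat_lit 10645770643) (nat_lit 532) (nat_lit 406925026) (nat_lit 76) (nat_lit 7297350788) (nat_lit 190) (nat_lit 5) (nat_lit 197) (nat_lit 5) (nat_lit 191) (nat_lit 5) (nat_lit 630) (nat_lit 551) (nat_lit 379)) (XT.lf (nat_lit 0) (nat_lit 10895593050) (nat_lit 380) (nat_lit 4076362874) (nat_lit 456) (nat_lit 3598569436) (nat_lit 185) (nat_lit 5) (nat_lit 190) (nat_lit 5) (nat_lit 191) (nat_lit 5) (nat_lit 631) (nat_lit 551) (nat_lit 378)))))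 (XT.nd (nat_lit 156) (nat_lit 760) (nat_lit 0) (XT.nd (nat_lit 78) (nat_lit 0) (nat_lit 0) (XT.lf (nat_lit 0) (nat_lit 618832498) (nat_lit 532) (nat_lit 15149902597) (nat_lit 76) (nat_lit 3025856525) (nat_lit 178) (nat_lit 5) (nat_lit 185) (nat_lit 5) (nat_lit 179) (nat_lit 5) (nat_lit 632) (nat_lit 551) (nat_lit 377)) (XT.lf (nat_lit 0) (nat_lit 4942203886) (nat_lit 532) (nat_lit 3792150096) (nat_lit 76) (nat_lit 10286913848) (nat_lit 178) (nat_lit 5) (nat_lit 185) (nat_lit 5) (nat_lit 179) (nat_lit 5) (nat_lit 633) (nat_lit 551) (nat_lit 376))) (XT.nd (nat_lit 78) (nat_lit 380) (nat_lit 0) (XT.lf (nat_lit 0) (nat_lit 7882797633) (nat_lit 380) (nat_lit 1511524951) (nat_lit 456) (nat_lit 9857309850) (nat_lit 173) (nat_lit 5) (nat_lit 178) (nat_lit 5) (nat_lit 179) (nat_lit 5) (nat_lit 634) (nat_lit 551) (nat_lit 375)) (XT.nd (nat_lit 78) (nat_lit 0) (nat_lit 0) (XT.lf (nat_lit 0) (nat_lit 309013092) (nat_lit 380) (nat_lit 13683271339) (nat_lit 456) (nat_lit 5493184344) (nat_lit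 168) (nat_lit 5) (nat_lit 173) (nat_lit 5) (nat_lit 174) (nat_lit 5) (nat_lit 635) (nat_lit 551) (nat_lit 374)) (XT.lf (nat_lit 0) (nat_lit 12351066365) (nat_lit 380) (nat_lit 6408620280) (nat_lit 456) (nat_lit 962746028) (nat_lit 168) (nat_lit 5) (nat_lit 173) (nat_lit 5) (nat_lit 174) (nat_lit 5) (nat_lit 636) (nat_lit 551) (nat_lit 373)))))) (XT.nd (nat_lit 390) (nat_lit 1140) (nat_lit 0) (XT.nd (nat_lit 156) (nat_lit 836) (nat_lit 0) (XT.nd (nat_lit 78) (nat_lit 0) (nat_lit 0) (XT.lf (nat_lit 0) (nat_lit 3639059014) (nat_lit 456) (nat_lit 15275650232) (nat_lit 76) (nat_lit 1048377247) (nat_lit 162) (nat_lit 5) (nat_lit 168) (nat_lit 5) (nat_lit 163) (nat_lit 5) (nat_lit 637) (nat_lit 551) (nat_lit 372)) (XT.lf (nat_lit 0) (nat_lit 8403671017) (nat_lit 456) (nat_lit 3182598599) (nat_lit 76) (nat_lit 8620483683) (nat_lit 162) (nat_lit 5) (nat_lit 168) (nat_lit 5) (nat_lit 163) (nat_lit 5) (nat_lit 638) (nat_lit 551) (nat_lit 371))) (XT.nd (nat_lit 78) (nat_lit 456) (nat_lit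 0) (XT.lf (nat_lit 0) (nat_lit 9260804881) (nat_lit 380) (nat_lit 4054481442) (nat_lit 456) (nat_lit 7138973314) (nat_lit 157) (nat_lit 5) (nat_lit 162) (nat_lit 5) (nat_lit 163) (nat_lit 5) (nat_lit 639) (nat_lit 551) (nat_lit 370)) (XT.nd (nat_lit 78) (nat_lit 76) (nat_lit 0) (XT.lf (nat_lit 0) (nat_lit 1269867938) (nat_lit 380) (nat_lit 17100199830) (nat_lit 456) (nat_lit 2335750066) (nat_lit 152) (nat_lit 5) (nat_lit 157) (nat_lit 5) (nat_lit 158) (nat_lit 5) (nat_lit 640) (nat_lit 551) (nat_lit 369)) (XT.lf (nat_lit 0) (nat_lit 2624039106) (nat_lit 456) (nat_lit 6883754265) (nat_lit 76) (nat_lit 11452398878) (nat_lit 151) (nat_lit 5) (nat_lit 157) (nat_lit 5) (nat_lit 152) (nat_lit 5) (nat_lit 641) (nat_lit 551) (nat_lit 368))))) (XT.nd (nat_lit 156) (nat_lit 760) (nat_lit 0) (XT.nd (nat_lit 78) (nat_lit 0) (nat_lit 0) (XT.lf (nat_lit 0) (nat_lit 5969519663) (nat_lit 380) (nat_lit 1712839972) (nat_lit 456) (nat_lit 13536373890) (nat_lit 146) (nat_lit 5) (nat_lit 151)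 (nat_lit 5) (nat_lit 152) (nat_lit 5) (nat_lit 642) (nat_lit 551) (nat_lit 367)) (XT.lf (nat_lit 0) (nat_lit 12920719298) (nat_lit 456) (nat_lit 2361995514) (nat_lit 76) (nat_lit 6198153738) (nat_lit 146) (nat_lit 5) (nat_lit 152) (nat_lit 5) (nat_lit 147) (nat_lit 5) (nat_lit 643) (nat_lit 551) (nat_lit 366))) (XT.nd (nat_lit 78) (nat_lit 456) (nat_lit 0) (XT.lf (nat_lit 0) (nat_lit 10902020858) (nat_lit 304) (nat_lit 7435983008) (nat_lit 380) (nat_lit 3408759626) (nat_lit 142) (nat_lit 5) (nat_lit 146) (nat_lit 5) (nat_lit 147) (nat_lit 5) (nat_lit 644) (nat_lit 551) (nat_lit 365)) (XT.nd (nat_lit 78) (nat_lit 0) (nat_lit 0) (XT.lf (nat_lit 0) (nat_lit 1849334062) (nat_lit 456) (nat_lit 19568051429) (nat_lit 76) (nat_lit 599793884) (nat_lit 136) (nat_lit 5) (nat_lit 142) (nat_lit 5) (nat_lit 137) (nat_lit 5) (nat_lit 645) (nat_lit 551) (nat_lit 364)) (XT.lf (nat_lit 0) (nat_lit 7281587765) (nat_lit 456) (nat_lit 6220623034) (nat_lit 76) (nat_lit 8788049658) (nat_lit 136)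 (nat_lit 5) (nat_lit 142) (nat_lit 5) (nat_lit 137) (nat_lit 5) (nat_lit 646) (nat_lit 551) (nat_lit 363))))))) (XT.nd (nat_lit 74412) (nat_lit 0) (nat_lit 30932) (XT.nd (nat_lit 74022) (nat_lit 0) (nat_lit 32300) (XT.nd (nat_lit 73788) (nat_lit 0) (nat_lit 33744) (XT.nd (nat_lit 78) (nat_lit 0) (nat_lit 0) (XT.lf (nat_lit 0) (nat_lit 7479443486) (nat_lit 304) (nat_lit 5383857476) (nat_lit 380) (nat_lit 9704686254) (nat_lit 132) (nat_lit 5) (nat_lit 136) (nat_lit 5) (nat_lit 137) (nat_lit 5) (nat_lit 647) (nat_lit 551) (nat_lit 362)) (XT.lf (nat_lit 0) (nat_lit 18609771508) (nat_lit 380) (nat_lit 1344131660) (nat_lit 76) (nat_lit 2896303213) (nat_lit 132) (nat_lit 5) (nat_lit 137) (nat_lit 5) (nat_lit 133) (nat_lit 5) (nat_lit 648) (nat_lit 551) (nat_lit 361))) (XT.nd (nat_lit 78) (nat_lit 0) (nat_lit 0) (XT.lf (nat_lit 0) (nat_lit 1020597700) (nat_lit 0) (nat_lit 1020597700) (nat_lit 1444) (nat_lit 2157473423) (nat_lit 576) (nat_lit 5) (nat_lit 576) (nat_lit 3) (nat_lit 595)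 (nat_lit 3) (nat_lit 552) (nat_lit 552) (nat_lit 456)) (XT.nd (nat_lit 78) (nat_lit 0) (nat_lit 0) (XT.lf (nat_lit 0) (nat_lit 5199971965) (nat_lit 1444) (nat_lit 2203566869) (nat_lit 1520) (nat_lit 1056124229) (nat_lit 576) (nat_lit 5) (nat_lit 595) (nat_lit 3) (nat_lit 596) (nat_lit 5) (nat_lit 553) (nat_lit 552) (nat_lit 455)) (XT.lf (nat_lit 76) (nat_lit 2030486334) (nat_lit 0) (nat_lit 4308149153) (nat_lit 1520) (nat_lit 2184627845) (nat_lit 577) (nat_lit 5) (nat_lit 576) (nat_lit 5) (nat_lit 596) (nat_lit 5) (nat_lit 554) (nat_lit 552) (nat_lit 454))))) (XT.nd (nat_lit 156) (nat_lit 0) (nat_lit 0) (XT.nd (nat_lit 78) (nat_lit 1444) (nat_lit 0) (XT.lf (nat_lit 76) (nat_lit 6364501125) (nat_lit 0) (nat_lit 1122841583) (nat_lit 1520) (nat_lit 1101050391) (nat_lit 577) (nat_lit 5) (nat_lit 576) (nat_lit 5) (nat_lit 596) (nat_lit 5) (nat_lit 555) (nat_lit 552) (nat_lit 453)) (XT.lf (nat_lit 0) (nat_lit 4881865) (nat_lit 1520) (nat_lit 6525277817) (nat_lit 1596) (nat_lit 2124653257)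 (nat_lit 557) (nat_lit 5) (nat_lit 577) (nat_lit 5) (nat_lit 578) (nat_lit 5) (nat_lit 556) (nat_lit 552) (nat_lit 452))) (XT.nd (nat_lit 78) (nat_lit 0) (nat_lit 76) (XT.lf (nat_lit 0) (nat_lit 1114020058) (nat_lit 1520) (nat_lit 2152099685) (nat_lit 1596) (nat_lit 5456382000) (nat_lit 557) (nat_lit 5) (nat_lit 577) (nat_lit 5) (nat_lit 578) (nat_lit 5) (nat_lit 557) (nat_lit 552) (nat_lit 451)) (XT.nd (nat_lit 78) (nat_lit 0) (nat_lit 0) (XT.lf (nat_lit 0) (nat_lit 2234894638) (nat_lit 1520) (nat_lit 6468216150) (nat_lit 1596) (nat_lit 88645144) (nat_lit 558) (nat_lit 5) (nat_lit 578) (nat_lit 5) (nat_lit 579) (nat_lit 5) (nat_lit 558) (nat_lit 552) (nat_lit 450)) (XT.lf (nat_lit 0) (nat_lit 3388721575) (nat_lit 1520) (nat_lit 1981346030) (nat_lit 1596) (nat_lit 3492119529) (nat_lit 558) (nat_lit 5) (nat_lit 578) (nat_lit 5) (nat_lit 579) (nat_lit 5) (nat_lit 559) (nat_lit 552) (nat_lit 449)))))) (XT.nd (nat_lit 390) (nat_lit 0) (nat_lit 0) (XT.nd (nat_lit 156) (nat_lit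 1444) (nat_lit 0) (XT.nd (nat_lit 78) (nat_lit 0) (nat_lit 76) (XT.lf (nat_lit 76) (nat_lit 2614473919) (nat_lit 0) (nat_lit 1942996199) (nat_lit 1596) (nat_lit 4376722518) (nat_lit 559) (nat_lit 5) (nat_lit 558) (nat_lit 5) (nat_lit 579) (nat_lit 5) (nat_lit 560) (nat_lit 552) (nat_lit 448)) (XT.lf (nat_lit 0) (nat_lit 5748387187) (nat_lit 1520) (nat_lit 1704011301) (nat_lit 1596) (nat_lit 1555266413) (nat_lit 559) (nat_lit 5) (nat_lit 579) (nat_lit 5) (nat_lit 580) (nat_lit 5) (nat_lit 561) (nat_lit 552) (nat_lit 447))) (XT.nd (nat_lit 78) (nat_lit 1520) (nat_lit 0) (XT.lf (nat_lit 76) (nat_lit 3015457439) (nat_lit 0) (nat_lit 3955923789) (nat_lit 1596) (nat_lit 2111062688) (nat_lit 560) (nat_lit 5) (nat_lit 559) (nat_lit 5) (nat_lit 580) (nat_lit 5) (nat_lit 562) (nat_lit 552) (nat_lit 446)) (XT.nd (nat_lit 78) (nat_lit 1520) (nat_lit 0) (XT.lf (nat_lit 76) (nat_lit 7837280532) (nat_lit 0) (nat_lit 369178191) (nat_lit 1596) (nat_lit 952509744) (nat_lit 560) (nat_lit 5)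 (nat_lit 559) (nat_lit 5) (nat_lit 580) (nat_lit 5) (nat_lit 563) (nat_lit 552) (nat_lit 445)) (XT.lf (nat_lit 0) (nat_lit 247318413) (nat_lit 1596) (nat_lit 5710163105) (nat_lit 1672) (nat_lit 3279092353) (nat_lit 539) (nat_lit 5) (nat_lit 560) (nat_lit 5) (nat_lit 561) (nat_lit 5) (nat_lit 564) (nat_lit 552) (nat_lit 444))))) (XT.nd (nat_lit 234) (nat_lit 0) (nat_lit 76) (XT.nd (nat_lit 78) (nat_lit 0) (nat_lit 76) (XT.lf (nat_lit 0) (nat_lit 1446688087) (nat_lit 1596) (nat_lit 850547506) (nat_lit 1672) (nat_lit 7018606175) (nat_lit 539) (nat_lit 5) (nat_lit 560) (nat_lit 5) (nat_lit 561) (nat_lit 5) (nat_lit 565) (nat_lit 552) (nat_lit 443)) (XT.nd (nat_lit 78) (nat_lit 0) (nat_lit 0) (XT.lf (nat_lit 0) (nat_lit 2683877504) (nat_lit 1596) (nat_lit 5260798857) (nat_lit 1672) (nat_lit 1451744257) (nat_lit 540) (nat_lit 5) (nat_lit 561) (nat_lit 5) (nat_lit 562) (nat_lit 5) (nat_lit 566) (nat_lit 552) (nat_lit 442)) (XT.lf (nat_lit 0) (nat_lit 3944528151) (nat_lit 1596) (nat_lit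 276362015) (nat_lit 1672) (nat_lit 5257748731) (nat_lit 540) (nat_lit 5) (nat_lit 561) (nat_lit 5) (nat_lit 562) (nat_lit 5) (nat_lit 567) (nat_lit 552) (nat_lit 441)))) (XT.nd (nat_lit 78) (nat_lit 0) (nat_lit 76) (XT.lf (nat_lit 76) (nat_lit 4856101568) (nat_lit 0) (nat_lit 384013920) (nat_lit 1672) (nat_lit 4322193733) (nat_lit 541) (nat_lit 5) (nat_lit 540) (nat_lit 5) (nat_lit 562) (nat_lit 5) (nat_lit 568) (nat_lit 552) (nat_lit 440)) (XT.nd (nat_lit 78) (nat_lit 0) (nat_lit 0) (XT.lf (nat_lit 76) (nat_lit 414125537) (nat_lit 0) (nat_lit 6153524757) (nat_lit 1672) (nat_lit 3079884058) (nat_lit 542) (nat_lit 5) (nat_lit 541) (nat_lit 5) (nat_lit 563) (nat_lit 5) (nat_lit 569) (nat_lit 552) (nat_lit 439)) (XT.lf (nat_lit 76) (nat_lit 5682464043) (nat_lit 0) (nat_lit 2252261829) (nat_lit 1672) (nat_lit 1799480383) (nat_lit 542) (nat_lit 5) (nat_lit 541) (nat_lit 5) (nat_lit 563) (nat_lit 5) (nat_lit 570) (nat_lit 552) (nat_lit 438))))))))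
noncomputable def xc137 : XT := (XT.nd (nat_lit 1560) (nat_lit 9424) (nat_lit 0) (XT.nd (nat_lit 780) (nat_lit 4636) (nat_lit 0) (XT.nd (nat_lit 390) (nat_lit 5168) (nat_lit 0) (XT.nd (nat_lit 156) (nat_lit 0) (nat_lit 0) (XT.nd (nat_lit 78) (nat_lit 1672) (nat_lit 0) (XT.lf (nat_lit 76) (nat_lit 1222616395) (nat_lit 0) (nat_lit 8105009216) (nat_lit 1672) (nat_lit 495018364) (nat_lit 543) (nat_lit 5) (nat_lit 542) (nat_lit 5) (nat_lit 564) (nat_lit 5) (nat_lit 571) (nat_lit 552) (nat_lit 437)) (XT.lf (nat_lit 0) (nat_lit 846358126) (nat_lit 1672) (nat_lit 3291376454) (nat_lit 1748) (nat_lit 5774573655) (nat_lit 520) (nat_lit 5) (nat_lit 542) (nat_lit 5) (nat_lit 543) (nat_lit 5) (nat_lit 572) (nat_lit 552) (nat_lit 436))) (XT.nd (nat_lit 78) (nat_lit 0) (nat_lit 76) (XT.lf (nat_lit 76) (nat_lit 2132516327) (nat_lit 0) (nat_lit 69169795) (nat_lit 1748) (nat_lit 7802141089) (nat_lit 521) (nat_lit 5) (nat_lit 520) (nat_lit 5) (nat_lit 543) (nat_lit 5) (nat_lit 573) (nat_lit 552)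 (nat_lit 435)) (XT.nd (nat_lit 78) (nat_lit 0) (nat_lit 0) (XT.lf (nat_lit 0) (nat_lit 3613070413) (nat_lit 1672) (nat_lit 2429818202) (nat_lit 1748) (nat_lit 4053710831) (nat_lit 521) (nat_lit 5) (nat_lit 543) (nat_lit 5) (nat_lit 544) (nat_lit 5) (nat_lit 574) (nat_lit 552) (nat_lit 434)) (XT.lf (nat_lit 76) (nat_lit 3145670423) (nat_lit 0) (nat_lit 1908503190) (nat_lit 1748) (nat_lit 5137025529) (nat_lit 522) (nat_lit 5) (nat_lit 521) (nat_lit 5) (nat_lit 544) (nat_lit 5) (nat_lit 575) (nat_lit 552) (nat_lit 433))))) (XT.nd (nat_lit 156) (nat_lit 3648) (nat_lit 0) (XT.nd (nat_lit 78) (nat_lit 1672) (nat_lit 0) (XT.lf (nat_lit 0) (nat_lit 6536412997) (nat_lit 1672) (nat_lit 1452792137) (nat_lit 76) (nat_lit 2298241219) (nat_lit 522) (nat_lit 5) (nat_lit 544) (nat_lit 5) (nat_lit 523) (nat_lit 5) (nat_lit 576) (nat_lit 552) (nat_lit 432)) (XT.lf (nat_lit 0) (nat_lit 4279664822) (nat_lit 1672) (nat_lit 3790344145) (nat_lit 1748) (nat_lit 2315177074) (nat_lit 500) (nat_lit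 5) (nat_lit 522) (nat_lit 5) (nat_lit 523) (nat_lit 5) (nat_lit 577) (nat_lit 552) (nat_lit 431))) (XT.nd (nat_lit 78) (nat_lit 3648) (nat_lit 0) (XT.lf (nat_lit 0) (nat_lit 9628859466) (nat_lit 1748) (nat_lit 357394533) (nat_lit 76) (nat_lit 498736604) (nat_lit 500) (nat_lit 5) (nat_lit 523) (nat_lit 5) (nat_lit 501) (nat_lit 5) (nat_lit 578) (nat_lit 552) (nat_lit 430)) (XT.nd (nat_lit 78) (nat_lit 1824) (nat_lit 0) (XT.lf (nat_lit 0) (nat_lit 667076998) (nat_lit 1824) (nat_lit 5052700643) (nat_lit 76) (nat_lit 4866067776) (nat_lit 476) (nat_lit 5) (nat_lit 500) (nat_lit 5) (nat_lit 477) (nat_lit 5) (nat_lit 579) (nat_lit 552) (nat_lit 429)) (XT.lf (nat_lit 0) (nat_lit 847361670) (nat_lit 1824) (nat_lit 1351917394) (nat_lit 1900) (nat_lit 8489526850) (nat_lit 452) (nat_lit 5) (nat_lit 476) (nat_lit 5) (nat_lit 477) (nat_lit 5) (nat_lit 580) (nat_lit 552) (nat_lit 428)))))) (XT.nd (nat_lit 390) (nat_lit 2660) (nat_lit 0) (XT.nd (nat_lit 156) (nat_lit 912) (nat_lit 0) (XT.nd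 (nat_lit 78) (nat_lit 1064) (nat_lit 0) (XT.lf (nat_lit 0) (nat_lit 3798734951) (nat_lit 1900) (nat_lit 3895605941) (nat_lit 76) (nat_lit 3098754134) (nat_lit 452) (nat_lit 5) (nat_lit 477) (nat_lit 5) (nat_lit 453) (nat_lit 5) (nat_lit 581) (nat_lit 552) (nat_lit 427)) (XT.lf (nat_lit 0) (nat_lit 2173008034) (nat_lit 1064) (nat_lit 3262910362) (nat_lit 1140) (nat_lit 5463438326) (nat_lit 438) (nat_lit 5) (nat_lit 452) (nat_lit 5) (nat_lit 453) (nat_lit 5) (nat_lit 582) (nat_lit 552) (nat_lit 426))) (XT.nd (nat_lit 78) (nat_lit 912) (nat_lit 0) (XT.lf (nat_lit 0) (nat_lit 7123247412) (nat_lit 1140) (nat_lit 2615693094) (nat_lit 76) (nat_lit 1268456647) (nat_lit 438) (nat_lit 5) (nat_lit 453) (nat_lit 5) (nat_lit 439) (nat_lit 5) (nat_lit 583) (nat_lit 552) (nat_lit 425)) (XT.nd (nat_lit 78) (nat_lit 0) (nat_lit 0) (XT.lf (nat_lit 0) (nat_lit 3627517815) (nat_lit 912) (nat_lit 5245225896) (nat_lit 988) (nat_lit 2244287778) (nat_lit 426) (nat_lit 5) (nat_lit 438) (nat_lit 5)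 (nat_lit 439) (nat_lit 5) (nat_lit 584) (nat_lit 552) (nat_lit 424)) (XT.lf (nat_lit 0) (nat_lit 10015527478) (nat_lit 912) (nat_lit 642742368) (nat_lit 988) (nat_lit 570569345) (nat_lit 426) (nat_lit 5) (nat_lit 438) (nat_lit 5) (nat_lit 439) (nat_lit 5) (nat_lit 585) (nat_lit 552) (nat_lit 423))))) (XT.nd (nat_lit 156) (nat_lit 836) (nat_lit 0) (XT.nd (nat_lit 78) (nat_lit 836) (nat_lit 0) (XT.lf (nat_lit 0) (nat_lit 1165989453) (nat_lit 988) (nat_lit 6134722458) (nat_lit 76) (nat_lit 4041139505) (nat_lit 413) (nat_lit 5) (nat_lit 426) (nat_lit 5) (nat_lit 414) (nat_lit 5) (nat_lit 586) (nat_lit 552) (nat_lit 422)) (XT.lf (nat_lit 0) (nat_lit 295590020) (nat_lit 836) (nat_lit 2632355447) (nat_lit 912) (nat_lit 8529138265) (nat_lit 402) (nat_lit 5) (nat_lit 413) (nat_lit 5) (nat_lit 414) (nat_lit 5) (nat_lit 587) (nat_lit 552) (nat_lit 421))) (XT.nd (nat_lit 78) (nat_lit 836) (nat_lit 0) (XT.lf (nat_lit 0) (nat_lit 4764549003) (nat_lit 912) (nat_lit 4666107932) (nat_lit 76)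 (nat_lit 2143176957) (nat_lit 402) (nat_lit 5) (nat_lit 414) (nat_lit 5) (nat_lit 403) (nat_lit 5) (nat_lit 588) (nat_lit 552) (nat_lit 420)) (XT.nd (nat_lit 78) (nat_lit 0) (nat_lit 0) (XT.lf (nat_lit 0) (nat_lit 1951782879) (nat_lit 836) (nat_lit 4700661017) (nat_lit 912) (nat_lit 5040185313) (nat_lit 391) (nat_lit 5) (nat_lit 402) (nat_lit 5) (nat_lit 403) (nat_lit 5) (nat_lit 589) (nat_lit 552) (nat_lit 419)) (XT.lf (nat_lit 0) (nat_lit 8595078563) (nat_lit 912) (nat_lit 3064677163) (nat_lit 76) (nat_lit 153706384) (nat_lit 391) (nat_lit 5) (nat_lit 403) (nat_lit 5) (nat_lit 392) (nat_lit 5) (nat_lit 590) (nat_lit 552) (nat_lit 418))))))) (XT.nd (nat_lit 780) (nat_lit 4636) (nat_lit 0) (XT.nd (nat_lit 390) (nat_lit 2280) (nat_lit 0) (XT.nd (nat_lit 156) (nat_lit 1596) (nat_lit 0) (XT.nd (nat_lit 78) (nat_lit 76) (nat_lit 0) (XT.lf (nat_lit 0) (nat_lit 3747571762) (nat_lit 836) (nat_lit 6869414717) (nat_lit 912) (nat_lit 1318918066) (nat_lit 380) (nat_lit 5) (nat_lit 391)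 (nat_lit 5) (nat_lit 392) (nat_lit 5) (nat_lit 591) (nat_lit 552) (nat_lit 417)) (XT.lf (nat_lit 0) (nat_lit 616180551) (nat_lit 912) (nat_lit 1342490115) (nat_lit 76) (nat_lit 10101930963) (nat_lit 379) (nat_lit 5) (nat_lit 391) (nat_lit 5) (nat_lit 380) (nat_lit 5) (nat_lit 592) (nat_lit 552) (nat_lit 416))) (XT.nd (nat_lit 78) (nat_lit 760) (nat_lit 0) (XT.lf (nat_lit 0) (nat_lit 2614736962) (nat_lit 912) (nat_lit 6516360620) (nat_lit 76) (nat_lit 3055673602) (nat_lit 368) (nat_lit 5) (nat_lit 380) (nat_lit 5) (nat_lit 369) (nat_lit 5) (nat_lit 593) (nat_lit 552) (nat_lit 415)) (XT.nd (nat_lit 78) (nat_lit 0) (nat_lit 0) (XT.lf (nat_lit 0) (nat_lit 504628319) (nat_lit 760) (nat_lit 4159484085) (nat_lit 836) (nat_lit 7651135956) (nat_lit 358) (nat_lit 5) (nat_lit 368) (nat_lit 5) (nat_lit 369) (nat_lit 5) (nat_lit 594) (nat_lit 552) (nat_lit 414)) (XT.lf (nat_lit 0) (nat_lit 6790120571) (nat_lit 836) (nat_lit 4712881041) (nat_lit 76) (nat_lit 942581731) (nat_lit 358) (nat_lit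 5) (nat_lit 369) (nat_lit 5) (nat_lit 359) (nat_lit 5) (nat_lit 595) (nat_lit 552) (nat_lit 413))))) (XT.nd (nat_lit 156) (nat_lit 1520) (nat_lit 0) (XT.nd (nat_lit 78) (nat_lit 0) (nat_lit 0) (XT.lf (nat_lit 0) (nat_lit 2516962698) (nat_lit 760) (nat_lit 6471563414) (nat_lit 836) (nat_lit 3589402516) (nat_lit 348) (nat_lit 5) (nat_lit 358) (nat_lit 5) (nat_lit 359) (nat_lit 5) (nat_lit 596) (nat_lit 552) (nat_lit 412)) (XT.lf (nat_lit 0) (nat_lit 9940074200) (nat_lit 760) (nat_lit 1308616589) (nat_lit 836) (nat_lit 1463875328) (nat_lit 348) (nat_lit 5) (nat_lit 358) (nat_lit 5) (nat_lit 359) (nat_lit 5) (nat_lit 597) (nat_lit 552) (nat_lit 411))) (XT.nd (nat_lit 78) (nat_lit 760) (nat_lit 0) (XT.lf (nat_lit 0) (nat_lit 737731129) (nat_lit 760) (nat_lit 8171613918) (nat_lit 76) (nat_lit 3939604870) (nat_lit 338) (nat_lit 5) (nat_lit 348) (nat_lit 5) (nat_lit 339) (nat_lit 5) (nat_lit 598) (nat_lit 552) (nat_lit 410)) (XT.nd (nat_lit 78) (nat_lit 760) (nat_lit 0) (XT.lf (nat_lit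 0) (nat_lit 2977687174) (nat_lit 760) (nat_lit 707690323) (nat_lit 76) (nat_lit 9302213053) (nat_lit 338) (nat_lit 5) (nat_lit 348) (nat_lit 5) (nat_lit 339) (nat_lit 5) (nat_lit 599) (nat_lit 552) (nat_lit 409)) (XT.lf (nat_lit 0) (nat_lit 5305502382) (nat_lit 836) (nat_lit 6157196369) (nat_lit 76) (nat_lit 1665445081) (nat_lit 328) (nat_lit 5) (nat_lit 339) (nat_lit 5) (nat_lit 329) (nat_lit 5) (nat_lit 600) (nat_lit 552) (nat_lit 408)))))) (XT.nd (nat_lit 390) (nat_lit 2584) (nat_lit 0) (XT.nd (nat_lit 156) (nat_lit 1368) (nat_lit 0) (XT.nd (nat_lit 78) (nat_lit 0) (nat_lit 0) (XT.lf (nat_lit 0) (nat_lit 1521745434) (nat_lit 684) (nat_lit 6184117381) (nat_lit 760) (nat_lit 5565126601) (nat_lit 319) (nat_lit 5) (nat_lit 328) (nat_lit 5) (nat_lit 329) (nat_lit 5) (nat_lit 601) (nat_lit 552) (nat_lit 407)) (XT.lf (nat_lit 0) (nat_lit 9422715573) (nat_lit 684) (nat_lit 759913715) (nat_lit 760) (nat_lit 3233495643) (nat_lit 319) (nat_lit 5) (nat_lit 328) (nat_lit 5) (nat_lit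 329) (nat_lit 5) (nat_lit 602) (nat_lit 552) (nat_lit 406))) (XT.nd (nat_lit 78) (nat_lit 684) (nat_lit 0) (XT.lf (nat_lit 0) (nat_lit 3923045881) (nat_lit 684) (nat_lit 8829665035) (nat_lit 760) (nat_lit 810577621) (nat_lit 310) (nat_lit 5) (nat_lit 319) (nat_lit 5) (nat_lit 320) (nat_lit 5) (nat_lit 603) (nat_lit 552) (nat_lit 405)) (XT.nd (nat_lit 78) (nat_lit 608) (nat_lit 0) (XT.lf (nat_lit 0) (nat_lit 1658413986) (nat_lit 760) (nat_lit 1691920161) (nat_lit 76) (nat_lit 10362458607) (nat_lit 309) (nat_lit 5) (nat_lit 319) (nat_lit 5) (nat_lit 310) (nat_lit 5) (nat_lit 604) (nat_lit 552) (nat_lit 404)) (XT.lf (nat_lit 0) (nat_lit 4210485501) (nat_lit 684) (nat_lit 7399164059) (nat_lit 76) (nat_lit 2254640184) (nat_lit 301) (nat_lit 5) (nat_lit 310) (nat_lit 5) (nat_lit 302) (nat_lit 5) (nat_lit 605) (nat_lit 552) (nat_lit 403))))) (XT.nd (nat_lit 234) (nat_lit 1292) (nat_lit 0) (XT.nd (nat_lit 78) (nat_lit 608) (nat_lit 0) (XT.lf (nat_lit 0) (nat_lit 762527631) (nat_lit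 684) (nat_lit 6077406107) (nat_lit 760) (nat_lit 7178357132) (nat_lit 292) (nat_lit 5) (nat_lit 301) (nat_lit 5) (nat_lit 302) (nat_lit 5) (nat_lit 606) (nat_lit 552) (nat_lit 402)) (XT.nd (nat_lit 78) (nat_lit 608) (nat_lit 0) (XT.lf (nat_lit 0) (nat_lit 9172981091) (nat_lit 684) (nat_lit 386554033) (nat_lit 760) (nat_lit 4615086494) (nat_lit 292) (nat_lit 5) (nat_lit 301) (nat_lit 5) (nat_lit 302) (nat_lit 5) (nat_lit 607) (nat_lit 552) (nat_lit 401)) (XT.lf (nat_lit 0) (nat_lit 3412440513) (nat_lit 608) (nat_lit 8966553700) (nat_lit 684) (nat_lit 1954176322) (nat_lit 284) (nat_lit 5) (nat_lit 292) (nat_lit 5) (nat_lit 293) (nat_lit 5) (nat_lit 608) (nat_lit 552) (nat_lit 400)))) (XT.nd (nat_lit 78) (nat_lit 1216) (nat_lit 0) (XT.lf (nat_lit 0) (nat_lit 774522240) (nat_lit 684) (nat_lit 2454095726) (nat_lit 76) (nat_lit 11265683872) (nat_lit 283) (nat_lit 5) (nat_lit 292) (nat_lit 5) (nat_lit 284) (nat_lit 5) (nat_lit 609) (nat_lit 552) (nat_lit 399)) (XT.nd (nat_lit 78)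 (nat_lit 608) (nat_lit 0) (XT.lf (nat_lit 0) (nat_lit 3577937721) (nat_lit 684) (nat_lit 8438945112) (nat_lit 76) (nat_lit 2640589223) (nat_lit 275) (nat_lit 5) (nat_lit 284) (nat_lit 5) (nat_lit 276) (nat_lit 5) (nat_lit 610) (nat_lit 552) (nat_lit 398)) (XT.lf (nat_lit 0) (nat_lit 241378849) (nat_lit 608) (nat_lit 6224106138) (nat_lit 684) (nat_lit 8357860222) (nat_lit 267) (nat_lit 5) (nat_lit 275) (nat_lit 5) (nat_lit 276) (nat_lit 5) (nat_lit 611) (nat_lit 552) (nat_lit 397))))))))
noncomputable def xc138 : XT := (XT.nd (nat_lit 1638) (nat_lit 4028) (nat_lit 0) (XT.nd (nat_lit 858) (nat_lit 2888) (nat_lit 0) (XT.nd (nat_lit 390) (nat_lit 2128) (nat_lit 0) (XT.nd (nat_lit 156) (nat_lit 608) (nat_lit 0) (XT.nd (nat_lit 78) (nat_lit 608) (nat_lit 0) (XT.lf (nat_lit 0) (nat_lit 9195209476) (nat_lit 608) (nat_lit 260871525) (nat_lit 684) (nat_lit 5535549653) (nat_lit 267) (nat_lit 5) (nat_lit 275) (nat_lit 5) (nat_lit 276) (nat_lit 5) (nat_lit 612) (nat_lit 552) (nat_lit 396))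 (XT.lf (nat_lit 0) (nat_lit 3153991572) (nat_lit 608) (nat_lit 9399643157) (nat_lit 684) (nat_lit 2608704934) (nat_lit 259) (nat_lit 5) (nat_lit 267) (nat_lit 5) (nat_lit 268) (nat_lit 5) (nat_lit 613) (nat_lit 552) (nat_lit 395))) (XT.nd (nat_lit 78) (nat_lit 532) (nat_lit 0) (XT.lf (nat_lit 0) (nat_lit 401540538) (nat_lit 684) (nat_lit 2992594963) (nat_lit 76) (nat_lit 11941683096) (nat_lit 258) (nat_lit 5) (nat_lit 267) (nat_lit 5) (nat_lit 259) (nat_lit 5) (nat_lit 614) (nat_lit 552) (nat_lit 394)) (XT.nd (nat_lit 78) (nat_lit 0) (nat_lit 0) (XT.lf (nat_lit 0) (nat_lit 3484933755) (nat_lit 608) (nat_lit 9275884086) (nat_lit 76) (nat_lit 2750647657) (nat_lit 251) (nat_lit 5) (nat_lit 259) (nat_lit 5) (nat_lit 252) (nat_lit 5) (nat_lit 615) (nat_lit 552) (nat_lit 393)) (XT.lf (nat_lit 0) (nat_lit 6661926202) (nat_lit 608) (nat_lit 38228343) (nat_lit 76) (nat_lit 8989832875) (nat_lit 251) (nat_lit 5) (nat_lit 259) (nat_lit 5) (nat_lit 252) (nat_lit 5) (nat_lit 616) (nat_lit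 552) (nat_lit 392))))) (XT.nd (nat_lit 234) (nat_lit 988) (nat_lit 0) (XT.nd (nat_lit 156) (nat_lit 608) (nat_lit 0) (XT.lf (nat_lit 0) (nat_lit 9494704625) (nat_lit 532) (nat_lit 458849565) (nat_lit 608) (nat_lit 5917504373) (nat_lit 244) (nat_lit 5) (nat_lit 251) (nat_lit 5) (nat_lit 252) (nat_lit 5) (nat_lit 617) (nat_lit 552) (nat_lit 391)) (XT.lf (nat_lit 0) (nat_lit 619603178) (nat_lit 608) (nat_lit 3305359006) (nat_lit 76) (nat_lit 12316422311) (nat_lit 236) (nat_lit 5) (nat_lit 244) (nat_lit 5) (nat_lit 237) (nat_lit 5) (nat_lit 619) (nat_lit 552) (nat_lit 389))) (XT.nd (nat_lit 78) (nat_lit 456) (nat_lit 0) (XT.lf (nat_lit 0) (nat_lit 4013333150) (nat_lit 608) (nat_lit 9909129987) (nat_lit 76) (nat_lit 2507927382) (nat_lit 229) (nat_lit 5) (nat_lit 237) (nat_lit 5) (nat_lit 230) (nat_lit 5) (nat_lit 620) (nat_lit 552) (nat_lit 388)) (XT.nd (nat_lit 78) (nat_lit 456) (nat_lit 0) (XT.lf (nat_lit 0) (nat_lit 7513138158) (nat_lit 608) (nat_lit 73607404) (nat_lit 76) (nat_lit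 9035667726) (nat_lit 229) (nat_lit 5) (nat_lit 237) (nat_lit 5) (nat_lit 230) (nat_lit 5) (nat_lit 621) (nat_lit 552) (nat_lit 387)) (XT.lf (nat_lit 0) (nat_lit 10077110503) (nat_lit 456) (nat_lit 1061334204) (nat_lit 532) (nat_lit 5678722314) (nat_lit 223) (nat_lit 5) (nat_lit 229) (nat_lit 5) (nat_lit 230) (nat_lit 5) (nat_lit 622) (nat_lit 552) (nat_lit 386)))))) (XT.nd (nat_lit 390) (nat_lit 1368) (nat_lit 0) (XT.nd (nat_lit 156) (nat_lit 912) (nat_lit 0) (XT.nd (nat_lit 78) (nat_lit 76) (nat_lit 0) (XT.lf (nat_lit 0) (nat_lit 3410678540) (nat_lit 532) (nat_lit 11474704193) (nat_lit 608) (nat_lit 2129451198) (nat_lit 216) (nat_lit 5) (nat_lit 223) (nat_lit 5) (nat_lit 224) (nat_lit 5) (nat_lit 623) (nat_lit 552) (nat_lit 385)) (XT.lf (nat_lit 0) (nat_lit 1514009827) (nat_lit 608) (nat_lit 3390566562) (nat_lit 76) (nat_lit 12310829653) (nat_lit 215) (nat_lit 5) (nat_lit 223) (nat_lit 5) (nat_lit 216) (nat_lit 5) (nat_lit 624) (nat_lit 552) (nat_lit 384))) (XT.nd (nat_lit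 78) (nat_lit 456) (nat_lit 0) (XT.lf (nat_lit 0) (nat_lit 5250334976) (nat_lit 532) (nat_lit 10338336043) (nat_lit 76) (nat_lit 1830067469) (nat_lit 209) (nat_lit 5) (nat_lit 216) (nat_lit 5) (nat_lit 210) (nat_lit 5) (nat_lit 625) (nat_lit 552) (nat_lit 383)) (XT.nd (nat_lit 78) (nat_lit 0) (nat_lit 0) (XT.lf (nat_lit 0) (nat_lit 136622302) (nat_lit 456) (nat_lit 8971502046) (nat_lit 532) (nat_lit 8517079042) (nat_lit 203) (nat_lit 5) (nat_lit 209) (nat_lit 5) (nat_lit 210) (nat_lit 5) (nat_lit 626) (nat_lit 552) (nat_lit 382)) (XT.lf (nat_lit 0) (nat_lit 10947701671) (nat_lit 456) (nat_lit 2155309552) (nat_lit 532) (nat_lit 4731588083) (nat_lit 203) (nat_lit 5) (nat_lit 209) (nat_lit 5) (nat_lit 210) (nat_lit 5) (nat_lit 627) (nat_lit 552) (nat_lit 381))))) (XT.nd (nat_lit 156) (nat_lit 836) (nat_lit 0) (XT.nd (nat_lit 78) (nat_lit 76) (nat_lit 0) (XT.lf (nat_lit 0) (nat_lit 3933854548) (nat_lit 456) (nat_lit 13291354155) (nat_lit 532) (nat_lit 822026717) (nat_lit 197) (nat_lit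 5) (nat_lit 203) (nat_lit 5) (nat_lit 204) (nat_lit 5) (nat_lit 628) (nat_lit 552) (nat_lit 380)) (XT.lf (nat_lit 0) (nat_lit 3175760221) (nat_lit 532) (nat_lit 3247404693) (nat_lit 76) (nat_lit 11839517714) (nat_lit 196) (nat_lit 5) (nat_lit 203) (nat_lit 5) (nat_lit 197) (nat_lit 5) (nat_lit 629) (nat_lit 552) (nat_lit 379))) (XT.nd (nat_lit 78) (nat_lit 380) (nat_lit 0) (XT.lf (nat_lit 0) (nat_lit 7289007012) (nat_lit 532) (nat_lit 10564462624) (nat_lit 76) (nat_lit 627930760) (nat_lit 190) (nat_lit 5) (nat_lit 197) (nat_lit 5) (nat_lit 191) (nat_lit 5) (nat_lit 630) (nat_lit 552) (nat_lit 378)) (XT.nd (nat_lit 78) (nat_lit 0) (nat_lit 0) (XT.lf (nat_lit 0) (nat_lit 596420931) (nat_lit 380) (nat_lit 10947449864) (nat_lit 456) (nat_lit 7159435178) (nat_lit 185) (nat_lit 5) (nat_lit 190) (nat_lit 5) (nat_lit 191) (nat_lit 5) (nat_lit 631) (nat_lit 552) (nat_lit 377)) (XT.lf (nat_lit 0) (nat_lit 12110564161) (nat_lit 380) (nat_lit 3835257765) (nat_lit 456) (nat_lit 2982588425)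 (nat_lit 185) (nat_lit 5) (nat_lit 190) (nat_lit 5) (nat_lit 191) (nat_lit 5) (nat_lit 632) (nat_lit 552) (nat_lit 376))))))) (XT.nd (nat_lit 780) (nat_lit 1444) (nat_lit 0) (XT.nd (nat_lit 390) (nat_lit 1292) (nat_lit 0) (XT.nd (nat_lit 156) (nat_lit 760) (nat_lit 0) (XT.nd (nat_lit 78) (nat_lit 0) (nat_lit 0) (XT.lf (nat_lit 0) (nat_lit 1305441637) (nat_lit 532) (nat_lit 14442049691) (nat_lit 76) (nat_lit 3409471933) (nat_lit 178) (nat_lit 5) (nat_lit 185) (nat_lit 5) (nat_lit 179) (nat_lit 5) (nat_lit 633) (nat_lit 552) (nat_lit 375)) (XT.lf (nat_lit 0) (nat_lit 5702060207) (nat_lit 532) (nat_lit 2876962747) (nat_lit 76) (nat_lit 10809415142) (nat_lit 178) (nat_lit 5) (nat_lit 185) (nat_lit 5) (nat_lit 179) (nat_lit 5) (nat_lit 634) (nat_lit 552) (nat_lit 374))) (XT.nd (nat_lit 78) (nat_lit 380) (nat_lit 0) (XT.lf (nat_lit 0) (nat_lit 9024964000) (nat_lit 380) (nat_lit 1211688350) (nat_lit 456) (nat_lit 9386889705) (nat_lit 173) (nat_lit 5) (nat_lit 178) (nat_lit 5) (nat_lit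 179) (nat_lit 5) (nat_lit 635) (nat_lit 552) (nat_lit 373)) (XT.nd (nat_lit 78) (nat_lit 0) (nat_lit 0) (XT.lf (nat_lit 0) (nat_lit 1304134503) (nat_lit 380) (nat_lit 13618128565) (nat_lit 456) (nat_lit 4939878931) (nat_lit 168) (nat_lit 5) (nat_lit 173) (nat_lit 5) (nat_lit 174) (nat_lit 5) (nat_lit 636) (nat_lit 552) (nat_lit 372)) (XT.lf (nat_lit 0) (nat_lit 13567637839) (nat_lit 380) (nat_lit 6204627782) (nat_lit 456) (nat_lit 331835164) (nat_lit 168) (nat_lit 5) (nat_lit 173) (nat_lit 5) (nat_lit 174) (nat_lit 5) (nat_lit 637) (nat_lit 552) (nat_lit 371))))) (XT.nd (nat_lit 156) (nat_lit 836) (nat_lit 0) (XT.nd (nat_lit 78) (nat_lit 0) (nat_lit 0) (XT.lf (nat_lit 0) (nat_lit 4349390076) (nat_lit 456) (nat_lit 14598933435) (nat_lit 76) (nat_lit 1401242154) (nat_lit 162) (nat_lit 5) (nat_lit 168) (nat_lit 5) (nat_lit 163) (nat_lit 5) (nat_lit 638) (nat_lit 552) (nat_lit 370)) (XT.lf (nat_lit 0) (nat_lit 9196793341) (nat_lit 456) (nat_lit 2283280177) (nat_lit 76) (nat_lit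 9118282927) (nat_lit 162) (nat_lit 5) (nat_lit 168) (nat_lit 5) (nat_lit 163) (nat_lit 5) (nat_lit 639) (nat_lit 552) (nat_lit 369))) (XT.nd (nat_lit 78) (nat_lit 456) (nat_lit 0) (XT.lf (nat_lit 0) (nat_lit 10402656041) (nat_lit 380) (nat_lit 3797940161) (nat_lit 456) (nat_lit 6650338210) (nat_lit 157) (nat_lit 5) (nat_lit 162) (nat_lit 5) (nat_lit 163) (nat_lit 5) (nat_lit 640) (nat_lit 552) (nat_lit 368)) (XT.nd (nat_lit 78) (nat_lit 76) (nat_lit 0) (XT.lf (nat_lit 0) (nat_lit 2255757777) (nat_lit 380) (nat_lit 17096963457) (nat_lit 456) (nat_lit 1754878173) (nat_lit 152) (nat_lit 5) (nat_lit 157) (nat_lit 5) (nat_lit 158) (nat_lit 5) (nat_lit 641) (nat_lit 552) (nat_lit 367)) (XT.lf (nat_lit 0) (nat_lit 3283731632) (nat_lit 456) (nat_lit 6071671946) (nat_lit 76) (nat_lit 12011819695) (nat_lit 151) (nat_lit 5) (nat_lit 157) (nat_lit 5) (nat_lit 152) (nat_lit 5) (nat_lit 642) (nat_lit 552) (nat_lit 366)))))) (XT.nd (nat_lit 390) (nat_lit 304) (nat_lit 0) (XT.nd (nat_lit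 156) (nat_lit 760) (nat_lit 0) (XT.nd (nat_lit 78) (nat_lit 0) (nat_lit 0) (XT.lf (nat_lit 0) (nat_lit 7032419057) (nat_lit 380) (nat_lit 1405019289) (nat_lit 456) (nat_lit 13193613195) (nat_lit 146) (nat_lit 5) (nat_lit 151) (nat_lit 5) (nat_lit 152) (nat_lit 5) (nat_lit 643) (nat_lit 552) (nat_lit 365)) (XT.lf (nat_lit 0) (nat_lit 13770949872) (nat_lit 456) (nat_lit 1474583795) (nat_lit 76) (nat_lit 6653088455) (nat_lit 146) (nat_lit 5) (nat_lit 152) (nat_lit 5) (nat_lit 147) (nat_lit 5) (nat_lit 644) (nat_lit 552) (nat_lit 364))) (XT.nd (nat_lit 78) (nat_lit 456) (nat_lit 0) (XT.lf (nat_lit 0) (nat_lit 12048563880) (nat_lit 304) (nat_lit 7242440467) (nat_lit 380) (nat_lit 2878942670) (nat_lit 142) (nat_lit 5) (nat_lit 146) (nat_lit 5) (nat_lit 147) (nat_lit 5) (nat_lit 645) (nat_lit 552) (nat_lit 363)) (XT.nd (nat_lit 78) (nat_lit 0) (nat_lit 0) (XT.lf (nat_lit 0) (nat_lit 2473181936) (nat_lit 456) (nat_lit 19019726598) (nat_lit 76) (nat_lit 952851314) (nat_lit 136) (nat_lit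 5) (nat_lit 142) (nat_lit 5) (nat_lit 137) (nat_lit 5) (nat_lit 646) (nat_lit 552) (nat_lit 362)) (XT.lf (nat_lit 0) (nat_lit 8002573632) (nat_lit 456) (nat_lit 5423774848) (nat_lit 76) (nat_lit 9298184722) (nat_lit 136) (nat_lit 5) (nat_lit 142) (nat_lit 5) (nat_lit 137) (nat_lit 5) (nat_lit 647) (nat_lit 552) (nat_lit 361))))) (XT.nd (nat_lit 73944) (nat_lit 0) (nat_lit 32224) (XT.nd (nat_lit 73788) (nat_lit 0) (nat_lit 33744) (XT.lf (nat_lit 0) (nat_lit 8544232077) (nat_lit 304) (nat_lit 5146349645) (nat_lit 380) (nat_lit 9317340057) (nat_lit 132) (nat_lit 5) (nat_lit 136) (nat_lit 5) (nat_lit 137) (nat_lit 5) (nat_lit 648) (nat_lit 552) (nat_lit 360)) (XT.nd (nat_lit 78) (nat_lit 0) (nat_lit 0) (XT.lf (nat_lit 0) (nat_lit 1572441234) (nat_lit 0) (nat_lit 1572441234) (nat_lit 1444) (nat_lit 1116390385) (nat_lit 576) (nat_lit 5) (nat_lit 576) (nat_lit 3) (nat_lit 595) (nat_lit 3) (nat_lit 553) (nat_lit 553) (nat_lit 454)) (XT.lf (nat_lit 0) (nat_lit 7381251316) (nat_lit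 1444) (nat_lit 1156949320) (nat_lit 1520) (nat_lit 48890321) (nat_lit 576) (nat_lit 5) (nat_lit 595) (nat_lit 3) (nat_lit 596) (nat_lit 5) (nat_lit 554) (nat_lit 553) (nat_lit 453)))) (XT.nd (nat_lit 78) (nat_lit 1520) (nat_lit 0) (XT.lf (nat_lit 76) (nat_lit 3154609362) (nat_lit 0) (nat_lit 5354382655) (nat_lit 1520) (nat_lit 143649446) (nat_lit 577) (nat_lit 5) (nat_lit 576) (nat_lit 5) (nat_lit 596) (nat_lit 5) (nat_lit 555) (nat_lit 553) (nat_lit 452)) (XT.nd (nat_lit 78) (nat_lit 0) (nat_lit 76) (XT.lf (nat_lit 0) (nat_lit 908648199) (nat_lit 1520) (nat_lit 1171798314) (nat_lit 1596) (nat_lit 6639313384) (nat_lit 556) (nat_lit 5) (nat_lit 576) (nat_lit 5) (nat_lit 577) (nat_lit 5) (nat_lit 556) (nat_lit 553) (nat_lit 451)) (XT.lf (nat_lit 0) (nat_lit 1983588107) (nat_lit 1520) (nat_lit 5527918855) (nat_lit 1596) (nat_lit 1276627032) (nat_lit 557) (nat_lit 5) (nat_lit 577) (nat_lit 5) (nat_lit 578) (nat_lit 5) (nat_lit 557) (nat_lit 553) (nat_lit 450))))))))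
noncomputable def xc139 : XT := (XT.nd (nat_lit 1560) (nat_lit 13072) (nat_lit 0) (XT.nd (nat_lit 780) (nat_lit 1368) (nat_lit 0) (XT.nd (nat_lit 390) (nat_lit 1444) (nat_lit 0) (XT.nd (nat_lit 156) (nat_lit 0) (nat_lit 76) (XT.nd (nat_lit 78) (nat_lit 0) (nat_lit 0) (XT.lf (nat_lit 0) (nat_lit 3076112817) (nat_lit 1520) (nat_lit 1089392151) (nat_lit 1596) (nat_lit 4692451513) (nat_lit 557) (nat_lit 5) (nat_lit 577) (nat_lit 5) (nat_lit 578) (nat_lit 5) (nat_lit 558) (nat_lit 553) (nat_lit 449)) (XT.lf (nat_lit 76) (nat_lit 3469092191) (nat_lit 0) (nat_lit 718814332) (nat_lit 1596) (nat_lit 4741323100) (nat_lit 558) (nat_lit 5) (nat_lit 557) (nat_lit 5) (nat_lit 578) (nat_lit 5) (nat_lit 559) (nat_lit 553) (nat_lit 448))) (XT.nd (nat_lit 78) (nat_lit 0) (nat_lit 0) (XT.lf (nat_lit 0) (nat_lit 5322816569) (nat_lit 1520) (nat_lit 901257205) (nat_lit 1596) (nat_lit 2777839371) (nat_lit 558) (nat_lit 5) (nat_lit 578) (nat_lit 5) (nat_lit 579) (nat_lit 5) (nat_lit 560) (nat_lit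 553) (nat_lit 447)) (XT.nd (nat_lit 78) (nat_lit 0) (nat_lit 76) (XT.lf (nat_lit 76) (nat_lit 3779112593) (nat_lit 0) (nat_lit 2706455077) (nat_lit 1596) (nat_lit 2590382285) (nat_lit 559) (nat_lit 5) (nat_lit 558) (nat_lit 5) (nat_lit 579) (nat_lit 5) (nat_lit 561) (nat_lit 553) (nat_lit 446)) (XT.lf (nat_lit 0) (nat_lit 7659672159) (nat_lit 1520) (nat_lit 606738286) (nat_lit 1596) (nat_lit 885297517) (nat_lit 559) (nat_lit 5) (nat_lit 579) (nat_lit 5) (nat_lit 580) (nat_lit 5) (nat_lit 562) (nat_lit 553) (nat_lit 445))))) (XT.nd (nat_lit 156) (nat_lit 0) (nat_lit 76) (XT.nd (nat_lit 78) (nat_lit 1596) (nat_lit 0) (XT.lf (nat_lit 76) (nat_lit 4199676715) (nat_lit 0) (nat_lit 4679524629) (nat_lit 1596) (nat_lit 349343313) (nat_lit 560) (nat_lit 5) (nat_lit 559) (nat_lit 5) (nat_lit 580) (nat_lit 5) (nat_lit 563) (nat_lit 553) (nat_lit 444)) (XT.lf (nat_lit 0) (nat_lit 786556383) (nat_lit 1596) (nat_lit 216572619) (nat_lit 1672) (nat_lit 8304064225) (nat_lit 538) (nat_lit 5)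 (nat_lit 559) (nat_lit 5) (nat_lit 560) (nat_lit 5) (nat_lit 564) (nat_lit 553) (nat_lit 443))) (XT.nd (nat_lit 78) (nat_lit 0) (nat_lit 0) (XT.lf (nat_lit 0) (nat_lit 1966774342) (nat_lit 1596) (nat_lit 4668090836) (nat_lit 1672) (nat_lit 2751980091) (nat_lit 539) (nat_lit 5) (nat_lit 560) (nat_lit 5) (nat_lit 561) (nat_lit 5) (nat_lit 565) (nat_lit 553) (nat_lit 442)) (XT.nd (nat_lit 78) (nat_lit 0) (nat_lit 76) (XT.lf (nat_lit 76) (nat_lit 269580603) (nat_lit 0) (nat_lit 2888683268) (nat_lit 1672) (nat_lit 6310075335) (nat_lit 540) (nat_lit 5) (nat_lit 539) (nat_lit 5) (nat_lit 561) (nat_lit 5) (nat_lit 566) (nat_lit 553) (nat_lit 441)) (XT.lf (nat_lit 0) (nat_lit 4389364540) (nat_lit 1596) (nat_lit 4203165841) (nat_lit 1672) (nat_lit 958619169) (nat_lit 540) (nat_lit 5) (nat_lit 561) (nat_lit 5) (nat_lit 562) (nat_lit 5) (nat_lit 567) (nat_lit 553) (nat_lit 440)))))) (XT.nd (nat_lit 390) (nat_lit 0) (nat_lit 0) (XT.nd (nat_lit 156) (nat_lit 1520) (nat_lit 0) (XT.nd (nat_lit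 78) (nat_lit 0) (nat_lit 0) (XT.lf (nat_lit 76) (nat_lit 869563255) (nat_lit 0) (nat_lit 4778922304) (nat_lit 1672) (nat_lit 3987064688) (nat_lit 541) (nat_lit 5) (nat_lit 540) (nat_lit 5) (nat_lit 562) (nat_lit 5) (nat_lit 568) (nat_lit 553) (nat_lit 439)) (XT.lf (nat_lit 76) (nat_lit 6085771317) (nat_lit 0) (nat_lit 854167443) (nat_lit 1672) (nat_lit 2781559276) (nat_lit 541) (nat_lit 5) (nat_lit 540) (nat_lit 5) (nat_lit 562) (nat_lit 5) (nat_lit 569) (nat_lit 553) (nat_lit 438))) (XT.nd (nat_lit 78) (nat_lit 1596) (nat_lit 0) (XT.lf (nat_lit 76) (nat_lit 1582334187) (nat_lit 0) (nat_lit 6685002356) (nat_lit 1672) (nat_lit 1541627957) (nat_lit 542) (nat_lit 5) (nat_lit 541) (nat_lit 5) (nat_lit 563) (nat_lit 5) (nat_lit 570) (nat_lit 553) (nat_lit 437)) (XT.nd (nat_lit 78) (nat_lit 1596) (nat_lit 0) (XT.lf (nat_lit 76) (nat_lit 6933295813) (nat_lit 0) (nat_lit 2697706187) (nat_lit 1672) (nat_lit 266985891) (nat_lit 542) (nat_lit 5) (nat_lit 541) (nat_lit 5) (nat_lit 563)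 (nat_lit 5) (nat_lit 571) (nat_lit 553) (nat_lit 436)) (XT.lf (nat_lit 0) (nat_lit 1024300577) (nat_lit 1672) (nat_lit 7585387589) (nat_lit 1748) (nat_lit 1378877311) (nat_lit 520) (nat_lit 5) (nat_lit 542) (nat_lit 5) (nat_lit 543) (nat_lit 5) (nat_lit 572) (nat_lit 553) (nat_lit 435))))) (XT.nd (nat_lit 156) (nat_lit 0) (nat_lit 76) (XT.nd (nat_lit 78) (nat_lit 0) (nat_lit 0) (XT.lf (nat_lit 0) (nat_lit 2356027652) (nat_lit 1672) (nat_lit 2197044889) (nat_lit 1748) (nat_lit 5527484858) (nat_lit 520) (nat_lit 5) (nat_lit 542) (nat_lit 5) (nat_lit 543) (nat_lit 5) (nat_lit 573) (nat_lit 553) (nat_lit 434)) (XT.lf (nat_lit 76) (nat_lit 3327693122) (nat_lit 0) (nat_lit 388982593) (nat_lit 1748) (nat_lit 6457669555) (nat_lit 521) (nat_lit 5) (nat_lit 520) (nat_lit 5) (nat_lit 543) (nat_lit 5) (nat_lit 574) (nat_lit 553) (nat_lit 433))) (XT.nd (nat_lit 78) (nat_lit 0) (nat_lit 0) (XT.lf (nat_lit 0) (nat_lit 5125418503) (nat_lit 1672) (nat_lit 1317480833) (nat_lit 1748) (nat_lit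 3826693731) (nat_lit 521) (nat_lit 5) (nat_lit 543) (nat_lit 5) (nat_lit 544) (nat_lit 5) (nat_lit 575) (nat_lit 553) (nat_lit 432)) (XT.nd (nat_lit 78) (nat_lit 0) (nat_lit 76) (XT.lf (nat_lit 76) (nat_lit 4361879844) (nat_lit 0) (nat_lit 2212714893) (nat_lit 1748) (nat_lit 3791907680) (nat_lit 522) (nat_lit 5) (nat_lit 521) (nat_lit 5) (nat_lit 544) (nat_lit 5) (nat_lit 576) (nat_lit 553) (nat_lit 431)) (XT.lf (nat_lit 0) (nat_lit 8056955308) (nat_lit 1672) (nat_lit 321510686) (nat_lit 76) (nat_lit 2086801676) (nat_lit 522) (nat_lit 5) (nat_lit 544) (nat_lit 5) (nat_lit 523) (nat_lit 5) (nat_lit 577) (nat_lit 553) (nat_lit 430))))))) (XT.nd (nat_lit 780) (nat_lit 4940) (nat_lit 0) (XT.nd (nat_lit 390) (nat_lit 2964) (nat_lit 0) (XT.nd (nat_lit 156) (nat_lit 1824) (nat_lit 0) (XT.nd (nat_lit 78) (nat_lit 1824) (nat_lit 0) (XT.lf (nat_lit 0) (nat_lit 5517961614) (nat_lit 1672) (nat_lit 4083494444) (nat_lit 1748) (nat_lit 963904011) (nat_lit 500) (nat_lit 5) (nat_lit 522) (nat_lit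 5) (nat_lit 523) (nat_lit 5) (nat_lit 578) (nat_lit 553) (nat_lit 429)) (XT.lf (nat_lit 0) (nat_lit 494267392) (nat_lit 1824) (nat_lit 9866392137) (nat_lit 76) (nat_lit 306899161) (nat_lit 476) (nat_lit 5) (nat_lit 500) (nat_lit 5) (nat_lit 477) (nat_lit 5) (nat_lit 579) (nat_lit 553) (nat_lit 428))) (XT.nd (nat_lit 78) (nat_lit 1824) (nat_lit 0) (XT.lf (nat_lit 0) (nat_lit 2012264090) (nat_lit 1824) (nat_lit 3985080518) (nat_lit 76) (nat_lit 4773459480) (nat_lit 476) (nat_lit 5) (nat_lit 500) (nat_lit 5) (nat_lit 477) (nat_lit 5) (nat_lit 580) (nat_lit 553) (nat_lit 427)) (XT.nd (nat_lit 78) (nat_lit 0) (nat_lit 0) (XT.lf (nat_lit 0) (nat_lit 2025294397) (nat_lit 1824) (nat_lit 1531239069) (nat_lit 1900) (nat_lit 7319664241) (nat_lit 452) (nat_lit 5) (nat_lit 476) (nat_lit 5) (nat_lit 477) (nat_lit 5) (nat_lit 581) (nat_lit 553) (nat_lit 426)) (XT.lf (nat_lit 0) (nat_lit 5161258764) (nat_lit 1900) (nat_lit 2808460665) (nat_lit 76) (nat_lit 3013389899) (nat_lit 452) (nat_lit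 5) (nat_lit 477) (nat_lit 5) (nat_lit 453) (nat_lit 5) (nat_lit 582) (nat_lit 553) (nat_lit 425))))) (XT.nd (nat_lit 156) (nat_lit 1900) (nat_lit 0) (XT.nd (nat_lit 78) (nat_lit 0) (nat_lit 0) (XT.lf (nat_lit 0) (nat_lit 3373860739) (nat_lit 1064) (nat_lit 3439613246) (nat_lit 1140) (nat_lit 4278378797) (nat_lit 438) (nat_lit 5) (nat_lit 452) (nat_lit 5) (nat_lit 453) (nat_lit 5) (nat_lit 583) (nat_lit 553) (nat_lit 424)) (XT.lf (nat_lit 0) (nat_lit 8508961035) (nat_lit 1140) (nat_lit 1507607749) (nat_lit 76) (nat_lit 1185999250) (nat_lit 438) (nat_lit 5) (nat_lit 453) (nat_lit 5) (nat_lit 439) (nat_lit 5) (nat_lit 584) (nat_lit 553) (nat_lit 423))) (XT.nd (nat_lit 78) (nat_lit 988) (nat_lit 0) (XT.lf (nat_lit 0) (nat_lit 4852833172) (nat_lit 912) (nat_lit 5423721177) (nat_lit 988) (nat_lit 1038180763) (nat_lit 426) (nat_lit 5) (nat_lit 438) (nat_lit 5) (nat_lit 439) (nat_lit 5) (nat_lit 585) (nat_lit 553) (nat_lit 422)) (XT.nd (nat_lit 78) (nat_lit 912) (nat_lit 0) (XT.lf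 (nat_lit 0) (nat_lit 636030260) (nat_lit 988) (nat_lit 87446665) (nat_lit 76) (nat_lit 10705701436) (nat_lit 425) (nat_lit 5) (nat_lit 438) (nat_lit 5) (nat_lit 426) (nat_lit 5) (nat_lit 586) (nat_lit 553) (nat_lit 421)) (XT.lf (nat_lit 0) (nat_lit 2382989883) (nat_lit 988) (nat_lit 5094263107) (nat_lit 76) (nat_lit 4067458289) (nat_lit 413) (nat_lit 5) (nat_lit 426) (nat_lit 5) (nat_lit 414) (nat_lit 5) (nat_lit 587) (nat_lit 553) (nat_lit 420)))))) (XT.nd (nat_lit 390) (nat_lit 2432) (nat_lit 0) (XT.nd (nat_lit 156) (nat_lit 1672) (nat_lit 0) (XT.nd (nat_lit 78) (nat_lit 0) (nat_lit 0) (XT.lf (nat_lit 0) (nat_lit 1457003293) (nat_lit 836) (nat_lit 2707278503) (nat_lit 912) (nat_lit 7498286540) (nat_lit 402) (nat_lit 5) (nat_lit 413) (nat_lit 5) (nat_lit 414) (nat_lit 5) (nat_lit 588) (nat_lit 553) (nat_lit 419)) (XT.lf (nat_lit 0) (nat_lit 6014381934) (nat_lit 912) (nat_lit 3603250509) (nat_lit 76) (nat_lit 2164487756) (nat_lit 402) (nat_lit 5) (nat_lit 414) (nat_lit 5)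 (nat_lit 403) (nat_lit 5) (nat_lit 589) (nat_lit 553) (nat_lit 418))) (XT.nd (nat_lit 78) (nat_lit 836) (nat_lit 0) (XT.lf (nat_lit 0) (nat_lit 3139391674) (nat_lit 836) (nat_lit 4785462273) (nat_lit 912) (nat_lit 3978743044) (nat_lit 391) (nat_lit 5) (nat_lit 402) (nat_lit 5) (nat_lit 403) (nat_lit 5) (nat_lit 590) (nat_lit 553) (nat_lit 417)) (XT.nd (nat_lit 78) (nat_lit 836) (nat_lit 0) (XT.lf (nat_lit 0) (nat_lit 9884059529) (nat_lit 912) (nat_lit 1977541168) (nat_lit 76) (nat_lit 165693402) (nat_lit 391) (nat_lit 5) (nat_lit 403) (nat_lit 5) (nat_lit 392) (nat_lit 5) (nat_lit 591) (nat_lit 553) (nat_lit 416)) (XT.lf (nat_lit 0) (nat_lit 4963397279) (nat_lit 836) (nat_lit 6968512119) (nat_lit 912) (nat_lit 220567785) (nat_lit 380) (nat_lit 5) (nat_lit 391) (nat_lit 5) (nat_lit 392) (nat_lit 5) (nat_lit 592) (nat_lit 553) (nat_lit 415))))) (XT.nd (nat_lit 234) (nat_lit 760) (nat_lit 0) (XT.nd (nat_lit 78) (nat_lit 1596) (nat_lit 0) (XT.lf (nat_lit 0) (nat_lit 1716717519)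 (nat_lit 912) (nat_lit 236283984) (nat_lit 76) (nat_lit 10326957742) (nat_lit 379) (nat_lit 5) (nat_lit 391) (nat_lit 5) (nat_lit 380) (nat_lit 5) (nat_lit 593) (nat_lit 553) (nat_lit 414)) (XT.nd (nat_lit 78) (nat_lit 760) (nat_lit 0) (XT.lf (nat_lit 0) (nat_lit 3741549531) (nat_lit 912) (nat_lit 5499847992) (nat_lit 76) (nat_lit 3167530347) (nat_lit 368) (nat_lit 5) (nat_lit 380) (nat_lit 5) (nat_lit 369) (nat_lit 5) (nat_lit 594) (nat_lit 553) (nat_lit 413)) (XT.lf (nat_lit 0) (nat_lit 1654015727) (nat_lit 760) (nat_lit 4164224836) (nat_lit 836) (nat_lit 6722009199) (nat_lit 358) (nat_lit 5) (nat_lit 368) (nat_lit 5) (nat_lit 369) (nat_lit 5) (nat_lit 595) (nat_lit 553) (nat_lit 412)))) (XT.nd (nat_lit 78) (nat_lit 760) (nat_lit 0) (XT.lf (nat_lit 0) (nat_lit 7966467348) (nat_lit 836) (nat_lit 3669796441) (nat_lit 76) (nat_lit 1037335385) (nat_lit 358) (nat_lit 5) (nat_lit 369) (nat_lit 5) (nat_lit 359) (nat_lit 5) (nat_lit 596) (nat_lit 553) (nat_lit 411)) (XT.nd (nat_lit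 78) (nat_lit 0) (nat_lit 0) (XT.lf (nat_lit 0) (nat_lit 3697161658) (nat_lit 760) (nat_lit 6498612309) (nat_lit 836) (nat_lit 2613080402) (nat_lit 348) (nat_lit 5) (nat_lit 358) (nat_lit 5) (nat_lit 359) (nat_lit 5) (nat_lit 597) (nat_lit 553) (nat_lit 410)) (XT.lf (nat_lit 0) (nat_lit 11246581278) (nat_lit 760) (nat_lit 1234414046) (nat_lit 836) (nat_lit 465593850) (nat_lit 348) (nat_lit 5) (nat_lit 358) (nat_lit 5) (nat_lit 359) (nat_lit 5) (nat_lit 598) (nat_lit 553) (nat_lit 409))))))))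
noncomputable def xc140 : XT := (XT.nd (nat_lit 1560) (nat_lit 6232) (nat_lit 0) (XT.nd (nat_lit 780) (nat_lit 3648) (nat_lit 0) (XT.nd (nat_lit 390) (nat_lit 2052) (nat_lit 0) (XT.nd (nat_lit 156) (nat_lit 684) (nat_lit 0) (XT.nd (nat_lit 78) (nat_lit 760) (nat_lit 0) (XT.lf (nat_lit 0) (nat_lit 1754646363) (nat_lit 760) (nat_lit 7201783701) (nat_lit 76) (nat_lit 4129377159) (nat_lit 338) (nat_lit 5) (nat_lit 348) (nat_lit 5) (nat_lit 339) (nat_lit 5) (nat_lit 599) (nat_lit 553) (nat_lit 408)) (XT.lf (nat_lit 0) (nat_lit 394369762) (nat_lit 760) (nat_lit 3627942069) (nat_lit 836) (nat_lit 9205252171) (nat_lit 328) (nat_lit 5) (nat_lit 338) (nat_lit 5) (nat_lit 339) (nat_lit 5) (nat_lit 600) (nat_lit 553) (nat_lit 407))) (XT.nd (nat_lit 78) (nat_lit 684) (nat_lit 0) (XT.lf (nat_lit 0) (nat_lit 6382889690) (nat_lit 836) (nat_lit 5157990059) (nat_lit 76) (nat_lit 1830325982) (nat_lit 328) (nat_lit 5) (nat_lit 339) (nat_lit 5) (nat_lit 329) (nat_lit 5) (nat_lit 601) (nat_lit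 553) (nat_lit 406)) (XT.nd (nat_lit 78) (nat_lit 0) (nat_lit 0) (XT.lf (nat_lit 0) (nat_lit 2667146697) (nat_lit 684) (nat_lit 6152305084) (nat_lit 760) (nat_lit 4697694037) (nat_lit 319) (nat_lit 5) (nat_lit 328) (nat_lit 5) (nat_lit 329) (nat_lit 5) (nat_lit 602) (nat_lit 553) (nat_lit 405)) (XT.lf (nat_lit 0) (nat_lit 10704274154) (nat_lit 684) (nat_lit 622666259) (nat_lit 760) (nat_lit 2338621343) (nat_lit 319) (nat_lit 5) (nat_lit 328) (nat_lit 5) (nat_lit 329) (nat_lit 5) (nat_lit 603) (nat_lit 553) (nat_lit 404))))) (XT.nd (nat_lit 156) (nat_lit 1292) (nat_lit 0) (XT.nd (nat_lit 78) (nat_lit 0) (nat_lit 0) (XT.lf (nat_lit 0) (nat_lit 120636244) (nat_lit 760) (nat_lit 8711472125) (nat_lit 76) (nat_lit 4983751974) (nat_lit 309) (nat_lit 5) (nat_lit 319) (nat_lit 5) (nat_lit 310) (nat_lit 5) (nat_lit 604) (nat_lit 553) (nat_lit 403)) (XT.lf (nat_lit 0) (nat_lit 2609799844) (nat_lit 760) (nat_lit 631437661) (nat_lit 76) (nat_lit 10727378432) (nat_lit 309) (nat_lit 5) (nat_lit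 319) (nat_lit 5) (nat_lit 310) (nat_lit 5) (nat_lit 605) (nat_lit 553) (nat_lit 402))) (XT.nd (nat_lit 78) (nat_lit 684) (nat_lit 0) (XT.lf (nat_lit 0) (nat_lit 5203134540) (nat_lit 684) (nat_lit 6442981207) (nat_lit 76) (nat_lit 2477224023) (nat_lit 301) (nat_lit 5) (nat_lit 310) (nat_lit 5) (nat_lit 302) (nat_lit 5) (nat_lit 606) (nat_lit 553) (nat_lit 401)) (XT.nd (nat_lit 78) (nat_lit 0) (nat_lit 0) (XT.lf (nat_lit 0) (nat_lit 1874680066) (nat_lit 684) (nat_lit 5999800954) (nat_lit 760) (nat_lit 6406155026) (nat_lit 292) (nat_lit 5) (nat_lit 301) (nat_lit 5) (nat_lit 302) (nat_lit 5) (nat_lit 607) (nat_lit 553) (nat_lit 400)) (XT.lf (nat_lit 0) (nat_lit 10431834715) (nat_lit 684) (nat_lit 199036805) (nat_lit 760) (nat_lit 3809575235) (nat_lit 292) (nat_lit 5) (nat_lit 301) (nat_lit 5) (nat_lit 302) (nat_lit 5) (nat_lit 608) (nat_lit 553) (nat_lit 399)))))) (XT.nd (nat_lit 390) (nat_lit 1748) (nat_lit 0) (XT.nd (nat_lit 156) (nat_lit 1216) (nat_lit 0) (XT.nd (nat_lit 78)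 (nat_lit 76) (nat_lit 0) (XT.lf (nat_lit 0) (nat_lit 4565300086) (nat_lit 608) (nat_lit 8932446784) (nat_lit 684) (nat_lit 1104600501) (nat_lit 284) (nat_lit 5) (nat_lit 292) (nat_lit 5) (nat_lit 293) (nat_lit 5) (nat_lit 609) (nat_lit 553) (nat_lit 398)) (XT.lf (nat_lit 0) (nat_lit 1649820939) (nat_lit 684) (nat_lit 1428346690) (nat_lit 76) (nat_lit 11688763414) (nat_lit 283) (nat_lit 5) (nat_lit 292) (nat_lit 5) (nat_lit 284) (nat_lit 5) (nat_lit 610) (nat_lit 553) (nat_lit 397))) (XT.nd (nat_lit 78) (nat_lit 608) (nat_lit 0) (XT.lf (nat_lit 0) (nat_lit 4500792956) (nat_lit 684) (nat_lit 7524321811) (nat_lit 76) (nat_lit 2908421322) (nat_lit 275) (nat_lit 5) (nat_lit 284) (nat_lit 5) (nat_lit 276) (nat_lit 5) (nat_lit 611) (nat_lit 553) (nat_lit 396)) (XT.nd (nat_lit 78) (nat_lit 0) (nat_lit 0) (XT.lf (nat_lit 0) (nat_lit 1322480983) (nat_lit 608) (nat_lit 6113905985) (nat_lit 684) (nat_lit 7666534988) (nat_lit 267) (nat_lit 5) (nat_lit 275) (nat_lit 5) (nat_lit 276) (nat_lit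 5) (nat_lit 612) (nat_lit 553) (nat_lit 395)) (XT.lf (nat_lit 0) (nat_lit 10434284800) (nat_lit 608) (nat_lit 36008293) (nat_lit 684) (nat_lit 4804611197) (nat_lit 267) (nat_lit 5) (nat_lit 275) (nat_lit 5) (nat_lit 276) (nat_lit 5) (nat_lit 613) (nat_lit 553) (nat_lit 394))))) (XT.nd (nat_lit 156) (nat_lit 1064) (nat_lit 0) (XT.nd (nat_lit 78) (nat_lit 76) (nat_lit 0) (XT.lf (nat_lit 0) (nat_lit 4280266651) (nat_lit 608) (nat_lit 9341720514) (nat_lit 684) (nat_lit 1827197649) (nat_lit 259) (nat_lit 5) (nat_lit 267) (nat_lit 5) (nat_lit 268) (nat_lit 5) (nat_lit 614) (nat_lit 553) (nat_lit 393)) (XT.lf (nat_lit 0) (nat_lit 1216186547) (nat_lit 684) (nat_lit 1999325219) (nat_lit 76) (nat_lit 12410837030) (nat_lit 258) (nat_lit 5) (nat_lit 267) (nat_lit 5) (nat_lit 259) (nat_lit 5) (nat_lit 615) (nat_lit 553) (nat_lit 392))) (XT.nd (nat_lit 78) (nat_lit 532) (nat_lit 0) (XT.lf (nat_lit 0) (nat_lit 4353838309) (nat_lit 608) (nat_lit 8400817990) (nat_lit 76) (nat_lit 3051001576)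 (nat_lit 251) (nat_lit 5) (nat_lit 259) (nat_lit 5) (nat_lit 252) (nat_lit 5) (nat_lit 616) (nat_lit 553) (nat_lit 391)) (XT.nd (nat_lit 78) (nat_lit 0) (nat_lit 0) (XT.lf (nat_lit 0) (nat_lit 1014095147) (nat_lit 532) (nat_lit 6571188933) (nat_lit 608) (nat_lit 8402648922) (nat_lit 244) (nat_lit 5) (nat_lit 251) (nat_lit 5) (nat_lit 252) (nat_lit 5) (nat_lit 617) (nat_lit 553) (nat_lit 390)) (XT.lf (nat_lit 0) (nat_lit 10717546024) (nat_lit 532) (nat_lit 209957570) (nat_lit 608) (nat_lit 5245427811) (nat_lit 244) (nat_lit 5) (nat_lit 251) (nat_lit 5) (nat_lit 252) (nat_lit 5) (nat_lit 618) (nat_lit 553) (nat_lit 389))))))) (XT.nd (nat_lit 780) (nat_lit 3116) (nat_lit 0) (XT.nd (nat_lit 390) (nat_lit 1520) (nat_lit 0) (XT.nd (nat_lit 156) (nat_lit 988) (nat_lit 0) (XT.nd (nat_lit 78) (nat_lit 76) (nat_lit 0) (XT.lf (nat_lit 0) (nat_lit 4254928117) (nat_lit 532) (nat_lit 10139979176) (nat_lit 608) (nat_lit 1965556344) (nat_lit 237) (nat_lit 5) (nat_lit 244) (nat_lit 5) (nat_lit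 245) (nat_lit 5) (nat_lit 619) (nat_lit 553) (nat_lit 388)) (XT.lf (nat_lit 0) (nat_lit 1390049160) (nat_lit 608) (nat_lit 2341801951) (nat_lit 76) (nat_lit 12819152159) (nat_lit 236) (nat_lit 5) (nat_lit 244) (nat_lit 5) (nat_lit 237) (nat_lit 5) (nat_lit 620) (nat_lit 553) (nat_lit 387))) (XT.nd (nat_lit 78) (nat_lit 456) (nat_lit 0) (XT.lf (nat_lit 0) (nat_lit 4845204089) (nat_lit 608) (nat_lit 9071151811) (nat_lit 76) (nat_lit 2827563447) (nat_lit 229) (nat_lit 5) (nat_lit 237) (nat_lit 5) (nat_lit 230) (nat_lit 5) (nat_lit 621) (nat_lit 553) (nat_lit 386)) (XT.nd (nat_lit 78) (nat_lit 0) (nat_lit 0) (XT.lf (nat_lit 0) (nat_lit 953266608) (nat_lit 456) (nat_lit 7453190489) (nat_lit 532) (nat_lit 8533497354) (nat_lit 223) (nat_lit 5) (nat_lit 229) (nat_lit 5) (nat_lit 230) (nat_lit 5) (nat_lit 622) (nat_lit 553) (nat_lit 385)) (XT.lf (nat_lit 0) (nat_lit 11287813428) (nat_lit 456) (nat_lit 802370880) (nat_lit 532) (nat_lit 5048701563) (nat_lit 223) (nat_lit 5) (nat_lit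 229) (nat_lit 5) (nat_lit 230) (nat_lit 5) (nat_lit 623) (nat_lit 553) (nat_lit 384))))) (XT.nd (nat_lit 156) (nat_lit 912) (nat_lit 0) (XT.nd (nat_lit 78) (nat_lit 76) (nat_lit 0) (XT.lf (nat_lit 0) (nat_lit 4494134676) (nat_lit 532) (nat_lit 11412008012) (nat_lit 608) (nat_lit 1434482682) (nat_lit 216) (nat_lit 5) (nat_lit 223) (nat_lit 5) (nat_lit 224) (nat_lit 5) (nat_lit 624) (nat_lit 553) (nat_lit 383)) (XT.lf (nat_lit 0) (nat_lit 2257902121) (nat_lit 608) (nat_lit 2453516039) (nat_lit 76) (nat_lit 12833981283) (nat_lit 215) (nat_lit 5) (nat_lit 223) (nat_lit 5) (nat_lit 216) (nat_lit 5) (nat_lit 625) (nat_lit 553) (nat_lit 382))) (XT.nd (nat_lit 78) (nat_lit 456) (nat_lit 0) (XT.lf (nat_lit 0) (nat_lit 6063339517) (nat_lit 532) (nat_lit 9534585010) (nat_lit 76) (nat_lit 2154987130) (nat_lit 209) (nat_lit 5) (nat_lit 216) (nat_lit 5) (nat_lit 210) (nat_lit 5) (nat_lit 626) (nat_lit 553) (nat_lit 381)) (XT.nd (nat_lit 78) (nat_lit 0) (nat_lit 0) (XT.lf (nat_lit 0) (nat_lit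 1143224359) (nat_lit 456) (nat_lit 8847695795) (nat_lit 532) (nat_lit 7972733810) (nat_lit 203) (nat_lit 5) (nat_lit 209) (nat_lit 5) (nat_lit 210) (nat_lit 5) (nat_lit 627) (nat_lit 553) (nat_lit 380)) (XT.lf (nat_lit 0) (nat_lit 12150841597) (nat_lit 456) (nat_lit 1901125260) (nat_lit 532) (nat_lit 4125546499) (nat_lit 203) (nat_lit 5) (nat_lit 209) (nat_lit 5) (nat_lit 210) (nat_lit 5) (nat_lit 628) (nat_lit 553) (nat_lit 379)))))) (XT.nd (nat_lit 390) (nat_lit 1748) (nat_lit 0) (XT.nd (nat_lit 156) (nat_lit 836) (nat_lit 0) (XT.nd (nat_lit 78) (nat_lit 76) (nat_lit 0) (XT.lf (nat_lit 0) (nat_lit 5002012407) (nat_lit 456) (nat_lit 13249444068) (nat_lit 532) (nat_lit 143049540) (nat_lit 197) (nat_lit 5) (nat_lit 203) (nat_lit 5) (nat_lit 204) (nat_lit 5) (nat_lit 629) (nat_lit 553) (nat_lit 378)) (XT.lf (nat_lit 0) (nat_lit 3912115802) (nat_lit 532) (nat_lit 2333294190) (nat_lit 76) (nat_lit 12369031763) (nat_lit 196) (nat_lit 5) (nat_lit 203) (nat_lit 5) (nat_lit 197) (nat_lit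 5) (nat_lit 630) (nat_lit 553) (nat_lit 377))) (XT.nd (nat_lit 78) (nat_lit 380) (nat_lit 0) (XT.lf (nat_lit 0) (nat_lit 8102740465) (nat_lit 532) (nat_lit 9791769237) (nat_lit 76) (nat_lit 943122655) (nat_lit 190) (nat_lit 5) (nat_lit 197) (nat_lit 5) (nat_lit 191) (nat_lit 5) (nat_lit 631) (nat_lit 553) (nat_lit 376)) (XT.nd (nat_lit 78) (nat_lit 0) (nat_lit 0) (XT.lf (nat_lit 0) (nat_lit 1585858419) (nat_lit 380) (nat_lit 10850092620) (nat_lit 456) (nat_lit 6628160745) (nat_lit 185) (nat_lit 5) (nat_lit 190) (nat_lit 5) (nat_lit 191) (nat_lit 5) (nat_lit 632) (nat_lit 553) (nat_lit 375)) (XT.lf (nat_lit 0) (nat_lit 13311117668) (nat_lit 380) (nat_lit 3601858762) (nat_lit 456) (nat_lit 2381001824) (nat_lit 185) (nat_lit 5) (nat_lit 190) (nat_lit 5) (nat_lit 191) (nat_lit 5) (nat_lit 633) (nat_lit 553) (nat_lit 374))))) (XT.nd (nat_lit 234) (nat_lit 836) (nat_lit 0) (XT.nd (nat_lit 78) (nat_lit 380) (nat_lit 0) (XT.lf (nat_lit 0) (nat_lit 1979601688) (nat_lit 532) (nat_lit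 13759292302) (nat_lit 76) (nat_lit 3788213349) (nat_lit 178) (nat_lit 5) (nat_lit 185) (nat_lit 5) (nat_lit 179) (nat_lit 5) (nat_lit 634) (nat_lit 553) (nat_lit 373)) (XT.nd (nat_lit 78) (nat_lit 380) (nat_lit 0) (XT.lf (nat_lit 0) (nat_lit 6451445744) (nat_lit 532) (nat_lit 1981954567) (nat_lit 76) (nat_lit 11330066167) (nat_lit 178) (nat_lit 5) (nat_lit 185) (nat_lit 5) (nat_lit 179) (nat_lit 5) (nat_lit 635) (nat_lit 553) (nat_lit 372)) (XT.lf (nat_lit 0) (nat_lit 10151743955) (nat_lit 380) (nat_lit 918671924) (nat_lit 456) (nat_lit 8932983571) (nat_lit 173) (nat_lit 5) (nat_lit 178) (nat_lit 5) (nat_lit 179) (nat_lit 5) (nat_lit 636) (nat_lit 553) (nat_lit 371)))) (XT.nd (nat_lit 78) (nat_lit 456) (nat_lit 0) (XT.lf (nat_lit 0) (nat_lit 2280756553) (nat_lit 380) (nat_lit 13564839271) (nat_lit 456) (nat_lit 4401259074) (nat_lit 168) (nat_lit 5) (nat_lit 173) (nat_lit 5) (nat_lit 174) (nat_lit 5) (nat_lit 637) (nat_lit 553) (nat_lit 370)) (XT.nd (nat_lit 78) (nat_lit 380)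 (nat_lit 0) (XT.lf (nat_lit 0) (nat_lit 282690380) (nat_lit 456) (nat_lit 5724866421) (nat_lit 76) (nat_lit 14486304546) (nat_lit 167) (nat_lit 5) (nat_lit 173) (nat_lit 5) (nat_lit 168) (nat_lit 5) (nat_lit 638) (nat_lit 553) (nat_lit 369)) (XT.lf (nat_lit 0) (nat_lit 5049170920) (nat_lit 456) (nat_lit 13946823482) (nat_lit 76) (nat_lit 1748276379) (nat_lit 162) (nat_lit 5) (nat_lit 168) (nat_lit 5) (nat_lit 163) (nat_lit 5) (nat_lit 639) (nat_lit 553) (nat_lit 368))))))))
noncomputable def xc141 : XT := (XT.nd (nat_lit 75270) (nat_lit 0) (nat_lit 23256) (XT.nd (nat_lit 74490) (nat_lit 0) (nat_lit 30856) (XT.nd (nat_lit 390) (nat_lit 1064) (nat_lit 0) (XT.nd (nat_lit 156) (nat_lit 836) (nat_lit 0) (XT.nd (nat_lit 78) (nat_lit 380) (nat_lit 0) (XT.lf (nat_lit 0) (nat_lit 9981506701) (nat_lit 456) (nat_lit 1403368700) (nat_lit 76) (nat_lit 9613402882) (nat_lit 162) (nat_lit 5) (nat_lit 168) (nat_lit 5) (nat_lit 163) (nat_lit 5) (nat_lit 640) (nat_lit 553) (nat_lit 367)) (XT.lf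 (nat_lit 0) (nat_lit 11530196919) (nat_lit 380) (nat_lit 3549378673) (nat_lit 456) (nat_lit 6176449001) (nat_lit 157) (nat_lit 5) (nat_lit 162) (nat_lit 5) (nat_lit 163) (nat_lit 5) (nat_lit 641) (nat_lit 553) (nat_lit 366))) (XT.nd (nat_lit 78) (nat_lit 456) (nat_lit 0) (XT.lf (nat_lit 0) (nat_lit 3224068319) (nat_lit 380) (nat_lit 17107068462) (nat_lit 456) (nat_lit 1186758807) (nat_lit 152) (nat_lit 5) (nat_lit 157) (nat_lit 5) (nat_lit 158) (nat_lit 5) (nat_lit 642) (nat_lit 553) (nat_lit 365)) (XT.nd (nat_lit 78) (nat_lit 380) (nat_lit 0) (XT.lf (nat_lit 0) (nat_lit 3933039237) (nat_lit 456) (nat_lit 5280228218) (nat_lit 76) (nat_lit 12569600149) (nat_lit 151) (nat_lit 5) (nat_lit 157) (nat_lit 5) (nat_lit 152) (nat_lit 5) (nat_lit 643) (nat_lit 553) (nat_lit 364)) (XT.lf (nat_lit 0) (nat_lit 8079938834) (nat_lit 380) (nat_lit 1104325477) (nat_lit 456) (nat_lit 12867819779) (nat_lit 146) (nat_lit 5) (nat_lit 151) (nat_lit 5) (nat_lit 152) (nat_lit 5) (nat_lit 644) (nat_lit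 553) (nat_lit 363))))) (XT.nd (nat_lit 156) (nat_lit 760) (nat_lit 0) (XT.nd (nat_lit 78) (nat_lit 304) (nat_lit 0) (XT.lf (nat_lit 0) (nat_lit 14615204113) (nat_lit 456) (nat_lit 605717503) (nat_lit 76) (nat_lit 7104269834) (nat_lit 146) (nat_lit 5) (nat_lit 152) (nat_lit 5) (nat_lit 147) (nat_lit 5) (nat_lit 645) (nat_lit 553) (nat_lit 362)) (XT.lf (nat_lit 0) (nat_lit 13181982875) (nat_lit 304) (nat_lit 7058317533) (nat_lit 380) (nat_lit 2361750139) (nat_lit 142) (nat_lit 5) (nat_lit 146) (nat_lit 5) (nat_lit 147) (nat_lit 5) (nat_lit 646) (nat_lit 553) (nat_lit 361))) (XT.nd (nat_lit 78) (nat_lit 304) (nat_lit 0) (XT.lf (nat_lit 0) (nat_lit 3086718233) (nat_lit 456) (nat_lit 18496924417) (nat_lit 76) (nat_lit 1299726056) (nat_lit 136) (nat_lit 5) (nat_lit 142) (nat_lit 5) (nat_lit 137) (nat_lit 5) (nat_lit 647) (nat_lit 553) (nat_lit 360)) (XT.nd (nat_lit 78) (nat_lit 304) (nat_lit 0) (XT.lf (nat_lit 0) (nat_lit 8715637514) (nat_lit 456) (nat_lit 4646763371) (nat_lit 76)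 (nat_lit 9805538334) (nat_lit 136) (nat_lit 5) (nat_lit 142) (nat_lit 5) (nat_lit 137) (nat_lit 5) (nat_lit 648) (nat_lit 553) (nat_lit 359)) (XT.lf (nat_lit 0) (nat_lit 9594778120) (nat_lit 304) (nat_lit 4917495611) (nat_lit 380) (nat_lit 8944824957) (nat_lit 132) (nat_lit 5) (nat_lit 136) (nat_lit 5) (nat_lit 137) (nat_lit 5) (nat_lit 649) (nat_lit 553) (nat_lit 358)))))) (XT.nd (nat_lit 390) (nat_lit 1292) (nat_lit 0) (XT.nd (nat_lit 156) (nat_lit 0) (nat_lit 76) (XT.nd (nat_lit 78) (nat_lit 1596) (nat_lit 0) (XT.lf (nat_lit 0) (nat_lit 2114685504) (nat_lit 0) (nat_lit 2114685504) (nat_lit 1444) (nat_lit 96587756) (nat_lit 576) (nat_lit 5) (nat_lit 576) (nat_lit 3) (nat_lit 595) (nat_lit 3) (nat_lit 554) (nat_lit 554) (nat_lit 452)) (XT.lf (nat_lit 0) (nat_lit 802437958) (nat_lit 1596) (nat_lit 143206106) (nat_lit 1596) (nat_lit 7772816067) (nat_lit 555) (nat_lit 3) (nat_lit 576) (nat_lit 3) (nat_lit 576) (nat_lit 5) (nat_lit 555) (nat_lit 554) (nat_lit 451))) (XT.nd (nat_lit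 78) (nat_lit 0) (nat_lit 0) (XT.lf (nat_lit 0) (nat_lit 1832840718) (nat_lit 1520) (nat_lit 4539120073) (nat_lit 1596) (nat_lit 2414000665) (nat_lit 556) (nat_lit 5) (nat_lit 576) (nat_lit 5) (nat_lit 577) (nat_lit 5) (nat_lit 556) (nat_lit 554) (nat_lit 450)) (XT.nd (nat_lit 78) (nat_lit 0) (nat_lit 76) (XT.lf (nat_lit 0) (nat_lit 2865489286) (nat_lit 1520) (nat_lit 148252566) (nat_lit 1596) (nat_lit 5841440829) (nat_lit 556) (nat_lit 5) (nat_lit 576) (nat_lit 5) (nat_lit 577) (nat_lit 5) (nat_lit 557) (nat_lit 554) (nat_lit 449)) (XT.lf (nat_lit 0) (nat_lit 3925036690) (nat_lit 1520) (nat_lit 4554409066) (nat_lit 1596) (nat_lit 446220233) (nat_lit 557) (nat_lit 5) (nat_lit 577) (nat_lit 5) (nat_lit 578) (nat_lit 5) (nat_lit 558) (nat_lit 554) (nat_lit 448))))) (XT.nd (nat_lit 156) (nat_lit 1444) (nat_lit 0) (XT.nd (nat_lit 78) (nat_lit 0) (nat_lit 0) (XT.lf (nat_lit 0) (nat_lit 5002122152) (nat_lit 1520) (nat_lit 48368067) (nat_lit 1596) (nat_lit 3947144328) (nat_lit 557)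 (nat_lit 5) (nat_lit 577) (nat_lit 5) (nat_lit 578) (nat_lit 5) (nat_lit 559) (nat_lit 554) (nat_lit 447)) (XT.lf (nat_lit 76) (nat_lit 4594293778) (nat_lit 0) (nat_lit 1512154467) (nat_lit 1596) (nat_lit 2964482728) (nat_lit 558) (nat_lit 5) (nat_lit 557) (nat_lit 5) (nat_lit 578) (nat_lit 5) (nat_lit 560) (nat_lit 554) (nat_lit 446))) (XT.nd (nat_lit 78) (nat_lit 1520) (nat_lit 0) (XT.lf (nat_lit 76) (nat_lit 159039298) (nat_lit 0) (nat_lit 7065115250) (nat_lit 1596) (nat_lit 1921715333) (nat_lit 559) (nat_lit 5) (nat_lit 558) (nat_lit 5) (nat_lit 579) (nat_lit 5) (nat_lit 561) (nat_lit 554) (nat_lit 445)) (XT.nd (nat_lit 78) (nat_lit 1520) (nat_lit 0) (XT.lf (nat_lit 76) (nat_lit 4923850164) (nat_lit 0) (nat_lit 3457046073) (nat_lit 1596) (nat_lit 841080085) (nat_lit 559) (nat_lit 5) (nat_lit 558) (nat_lit 5) (nat_lit 579) (nat_lit 5) (nat_lit 562) (nat_lit 554) (nat_lit 444)) (XT.lf (nat_lit 0) (nat_lit 239358806) (nat_lit 1596) (nat_lit 8826772044) (nat_lit 1672) (nat_lit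 233810093) (nat_lit 538) (nat_lit 5) (nat_lit 559) (nat_lit 5) (nat_lit 560) (nat_lit 5) (nat_lit 563) (nat_lit 554) (nat_lit 443))))))) (XT.nd (nat_lit 780) (nat_lit 6156) (nat_lit 0) (XT.nd (nat_lit 390) (nat_lit 1444) (nat_lit 0) (XT.nd (nat_lit 156) (nat_lit 0) (nat_lit 76) (XT.nd (nat_lit 78) (nat_lit 0) (nat_lit 0) (XT.lf (nat_lit 0) (nat_lit 1359494271) (nat_lit 1596) (nat_lit 4023954257) (nat_lit 1672) (nat_lit 3995320383) (nat_lit 538) (nat_lit 5) (nat_lit 559) (nat_lit 5) (nat_lit 560) (nat_lit 5) (nat_lit 564) (nat_lit 554) (nat_lit 442)) (XT.lf (nat_lit 76) (nat_lit 872079995) (nat_lit 0) (nat_lit 1613468772) (nat_lit 1672) (nat_lit 6973956543) (nat_lit 539) (nat_lit 5) (nat_lit 538) (nat_lit 5) (nat_lit 560) (nat_lit 5) (nat_lit 565) (nat_lit 554) (nat_lit 441))) (XT.nd (nat_lit 78) (nat_lit 0) (nat_lit 0) (XT.lf (nat_lit 0) (nat_lit 3654042895) (nat_lit 1596) (nat_lit 3650076710) (nat_lit 1672) (nat_lit 2237340617) (nat_lit 539) (nat_lit 5) (nat_lit 560) (nat_lit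 5) (nat_lit 561) (nat_lit 5) (nat_lit 566) (nat_lit 554) (nat_lit 440)) (XT.nd (nat_lit 78) (nat_lit 0) (nat_lit 76) (XT.lf (nat_lit 76) (nat_lit 1379036474) (nat_lit 0) (nat_lit 3465181644) (nat_lit 1672) (nat_lit 4780872003) (nat_lit 540) (nat_lit 5) (nat_lit 539) (nat_lit 5) (nat_lit 561) (nat_lit 5) (nat_lit 567) (nat_lit 554) (nat_lit 439)) (XT.lf (nat_lit 0) (nat_lit 6064819542) (nat_lit 1596) (nat_lit 3169535008) (nat_lit 1672) (nat_lit 475907687) (nat_lit 540) (nat_lit 5) (nat_lit 561) (nat_lit 5) (nat_lit 562) (nat_lit 5) (nat_lit 568) (nat_lit 554) (nat_lit 438))))) (XT.nd (nat_lit 156) (nat_lit 1596) (nat_lit 0) (XT.nd (nat_lit 78) (nat_lit 0) (nat_lit 0) (XT.lf (nat_lit 76) (nat_lit 1997295419) (nat_lit 0) (nat_lit 5327905892) (nat_lit 1672) (nat_lit 2471631147) (nat_lit 541) (nat_lit 5) (nat_lit 540) (nat_lit 5) (nat_lit 562) (nat_lit 5) (nat_lit 569) (nat_lit 554) (nat_lit 437)) (XT.lf (nat_lit 76) (nat_lit 7296056252) (nat_lit 0) (nat_lit 1315765637) (nat_lit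 1672) (nat_lit 1273293565) (nat_lit 541) (nat_lit 5) (nat_lit 540) (nat_lit 5) (nat_lit 562) (nat_lit 5) (nat_lit 570) (nat_lit 554) (nat_lit 436))) (XT.nd (nat_lit 78) (nat_lit 1672) (nat_lit 0) (XT.lf (nat_lit 76) (nat_lit 2728865665) (nat_lit 0) (nat_lit 7211250561) (nat_lit 1672) (nat_lit 34731007) (nat_lit 542) (nat_lit 5) (nat_lit 541) (nat_lit 5) (nat_lit 563) (nat_lit 5) (nat_lit 571) (nat_lit 554) (nat_lit 435)) (XT.nd (nat_lit 78) (nat_lit 0) (nat_lit 76) (XT.lf (nat_lit 0) (nat_lit 1219051784) (nat_lit 1672) (nat_lit 1909279183) (nat_lit 1748) (nat_lit 6937753774) (nat_lit 519) (nat_lit 5) (nat_lit 541) (nat_lit 5) (nat_lit 542) (nat_lit 5) (nat_lit 572) (nat_lit 554) (nat_lit 434)) (XT.lf (nat_lit 0) (nat_lit 2508259494) (nat_lit 1672) (nat_lit 6599684464) (nat_lit 1748) (nat_lit 1050984004) (nat_lit 520) (nat_lit 5) (nat_lit 542) (nat_lit 5) (nat_lit 543) (nat_lit 5) (nat_lit 573) (nat_lit 554) (nat_lit 433)))))) (XT.nd (nat_lit 390) (nat_lit 4712) (nat_lit 0)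 (XT.nd (nat_lit 156) (nat_lit 1520) (nat_lit 0) (XT.nd (nat_lit 78) (nat_lit 0) (nat_lit 0) (XT.lf (nat_lit 0) (nat_lit 3837925562) (nat_lit 1672) (nat_lit 1125877085) (nat_lit 1748) (nat_lit 5289533718) (nat_lit 520) (nat_lit 5) (nat_lit 542) (nat_lit 5) (nat_lit 543) (nat_lit 5) (nat_lit 574) (nat_lit 554) (nat_lit 432)) (XT.lf (nat_lit 76) (nat_lit 4502019446) (nat_lit 0) (nat_lit 702826645) (nat_lit 1748) (nat_lit 5144575391) (nat_lit 521) (nat_lit 5) (nat_lit 520) (nat_lit 5) (nat_lit 543) (nat_lit 5) (nat_lit 575) (nat_lit 554) (nat_lit 431))) (XT.nd (nat_lit 78) (nat_lit 1596) (nat_lit 0) (XT.lf (nat_lit 0) (nat_lit 6612093235) (nat_lit 1672) (nat_lit 227977187) (nat_lit 1748) (nat_lit 3607099850) (nat_lit 521) (nat_lit 5) (nat_lit 543) (nat_lit 5) (nat_lit 544) (nat_lit 5) (nat_lit 576) (nat_lit 554) (nat_lit 430)) (XT.nd (nat_lit 78) (nat_lit 1596) (nat_lit 0) (XT.lf (nat_lit 76) (nat_lit 5557629563) (nat_lit 0) (nat_lit 2512680109) (nat_lit 1748) (nat_lit 2476109578)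 (nat_lit 522) (nat_lit 5) (nat_lit 521) (nat_lit 5) (nat_lit 544) (nat_lit 5) (nat_lit 577) (nat_lit 554) (nat_lit 429)) (XT.lf (nat_lit 0) (nat_lit 797802403) (nat_lit 1672) (nat_lit 8761317751) (nat_lit 1748) (nat_lit 1088506125) (nat_lit 500) (nat_lit 5) (nat_lit 522) (nat_lit 5) (nat_lit 523) (nat_lit 5) (nat_lit 578) (nat_lit 554) (nat_lit 428))))) (XT.nd (nat_lit 234) (nat_lit 2888) (nat_lit 0) (XT.nd (nat_lit 78) (nat_lit 1748) (nat_lit 0) (XT.lf (nat_lit 0) (nat_lit 355401805) (nat_lit 1748) (nat_lit 4016281299) (nat_lit 76) (nat_lit 6378476722) (nat_lit 499) (nat_lit 5) (nat_lit 522) (nat_lit 5) (nat_lit 500) (nat_lit 5) (nat_lit 579) (nat_lit 554) (nat_lit 427)) (XT.nd (nat_lit 78) (nat_lit 0) (nat_lit 0) (XT.lf (nat_lit 0) (nat_lit 1809883673) (nat_lit 1824) (nat_lit 8917961020) (nat_lit 76) (nat_lit 126831604) (nat_lit 476) (nat_lit 5) (nat_lit 500) (nat_lit 5) (nat_lit 477) (nat_lit 5) (nat_lit 580) (nat_lit 554) (nat_lit 426)) (XT.lf (nat_lit 0) (nat_lit 3332637736)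 (nat_lit 1824) (nat_lit 2941489031) (nat_lit 76) (nat_lit 4686374218) (nat_lit 476) (nat_lit 5) (nat_lit 500) (nat_lit 5) (nat_lit 477) (nat_lit 5) (nat_lit 581) (nat_lit 554) (nat_lit 425)))) (XT.nd (nat_lit 78) (nat_lit 1064) (nat_lit 0) (XT.lf (nat_lit 0) (nat_lit 3181703296) (nat_lit 1824) (nat_lit 1708233831) (nat_lit 1900) (nat_lit 6178424744) (nat_lit 452) (nat_lit 5) (nat_lit 476) (nat_lit 5) (nat_lit 477) (nat_lit 5) (nat_lit 582) (nat_lit 554) (nat_lit 424)) (XT.nd (nat_lit 78) (nat_lit 1064) (nat_lit 0) (XT.lf (nat_lit 0) (nat_lit 6501074783) (nat_lit 1900) (nat_lit 1744813082) (nat_lit 76) (nat_lit 2932039744) (nat_lit 452) (nat_lit 5) (nat_lit 477) (nat_lit 5) (nat_lit 453) (nat_lit 5) (nat_lit 583) (nat_lit 554) (nat_lit 423)) (XT.lf (nat_lit 0) (nat_lit 4553787534) (nat_lit 1064) (nat_lit 3615522656) (nat_lit 1140) (nat_lit 3119878423) (nat_lit 438) (nat_lit 5) (nat_lit 452) (nat_lit 5) (nat_lit 453) (nat_lit 5) (nat_lit 584) (nat_lit 554) (nat_lit 422))))))))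
noncomputable def xc142 : XT := (XT.nd (nat_lit 1560) (nat_lit 7828) (nat_lit 0) (XT.nd (nat_lit 780) (nat_lit 3724) (nat_lit 0) (XT.nd (nat_lit 390) (nat_lit 2584) (nat_lit 0) (XT.nd (nat_lit 156) (nat_lit 1748) (nat_lit 0) (XT.nd (nat_lit 78) (nat_lit 988) (nat_lit 0) (XT.lf (nat_lit 0) (nat_lit 9874112069) (nat_lit 1140) (nat_lit 422420413) (nat_lit 76) (nat_lit 1106079741) (nat_lit 438) (nat_lit 5) (nat_lit 453) (nat_lit 5) (nat_lit 439) (nat_lit 5) (nat_lit 585) (nat_lit 554) (nat_lit 421)) (XT.lf (nat_lit 0) (nat_lit 141589171) (nat_lit 988) (nat_lit 5460389435) (nat_lit 76) (nat_lit 5915352258) (nat_lit 425) (nat_lit 5) (nat_lit 438) (nat_lit 5) (nat_lit 426) (nat_lit 5) (nat_lit 586) (nat_lit 554) (nat_lit 420))) (XT.nd (nat_lit 78) (nat_lit 836) (nat_lit 0) (XT.lf (nat_lit 0) (nat_lit 1026100298) (nat_lit 912) (nat_lit 792690440) (nat_lit 988) (nat_lit 9815468870) (nat_lit 413) (nat_lit 5) (nat_lit 425) (nat_lit 5) (nat_lit 426) (nat_lit 5) (nat_lit 587) (nat_lit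 554) (nat_lit 419)) (XT.nd (nat_lit 78) (nat_lit 836) (nat_lit 0) (XT.lf (nat_lit 0) (nat_lit 3577978248) (nat_lit 988) (nat_lit 4078161248) (nat_lit 76) (nat_lit 4096419906) (nat_lit 413) (nat_lit 5) (nat_lit 426) (nat_lit 5) (nat_lit 414) (nat_lit 5) (nat_lit 588) (nat_lit 554) (nat_lit 418)) (XT.lf (nat_lit 0) (nat_lit 2596775301) (nat_lit 836) (nat_lit 2782835019) (nat_lit 912) (nat_lit 6493470945) (nat_lit 402) (nat_lit 5) (nat_lit 413) (nat_lit 5) (nat_lit 414) (nat_lit 5) (nat_lit 589) (nat_lit 554) (nat_lit 417))))) (XT.nd (nat_lit 156) (nat_lit 1748) (nat_lit 0) (XT.nd (nat_lit 78) (nat_lit 836) (nat_lit 0) (XT.lf (nat_lit 0) (nat_lit 7244379253) (nat_lit 912) (nat_lit 2564031800) (nat_lit 76) (nat_lit 2187061690) (nat_lit 402) (nat_lit 5) (nat_lit 414) (nat_lit 5) (nat_lit 403) (nat_lit 5) (nat_lit 590) (nat_lit 554) (nat_lit 416)) (XT.lf (nat_lit 0) (nat_lit 4306152149) (nat_lit 836) (nat_lit 4872317266) (nat_lit 912) (nat_lit 2941203357) (nat_lit 391) (nat_lit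 5) (nat_lit 402) (nat_lit 5) (nat_lit 403) (nat_lit 5) (nat_lit 591) (nat_lit 554) (nat_lit 415))) (XT.nd (nat_lit 78) (nat_lit 1748) (nat_lit 0) (XT.lf (nat_lit 0) (nat_lit 11155442560) (nat_lit 912) (nat_lit 913257371) (nat_lit 76) (nat_lit 177574061) (nat_lit 391) (nat_lit 5) (nat_lit 403) (nat_lit 5) (nat_lit 392) (nat_lit 5) (nat_lit 592) (nat_lit 554) (nat_lit 414)) (XT.nd (nat_lit 78) (nat_lit 836) (nat_lit 0) (XT.lf (nat_lit 0) (nat_lit 844847340) (nat_lit 912) (nat_lit 6220561639) (nat_lit 76) (nat_lit 5308721064) (nat_lit 379) (nat_lit 5) (nat_lit 391) (nat_lit 5) (nat_lit 380) (nat_lit 5) (nat_lit 593) (nat_lit 554) (nat_lit 413)) (XT.lf (nat_lit 0) (nat_lit 859318441) (nat_lit 836) (nat_lit 1943269400) (nat_lit 912) (nat_lit 9701853223) (nat_lit 368) (nat_lit 5) (nat_lit 379) (nat_lit 5) (nat_lit 380) (nat_lit 5) (nat_lit 594) (nat_lit 554) (nat_lit 412)))))) (XT.nd (nat_lit 390) (nat_lit 2128) (nat_lit 0) (XT.nd (nat_lit 156) (nat_lit 836) (nat_lit 0) (XT.nd (nat_lit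 78) (nat_lit 760) (nat_lit 0) (XT.lf (nat_lit 0) (nat_lit 4849173514) (nat_lit 912) (nat_lit 4507538300) (nat_lit 76) (nat_lit 3279653804) (nat_lit 368) (nat_lit 5) (nat_lit 380) (nat_lit 5) (nat_lit 369) (nat_lit 5) (nat_lit 595) (nat_lit 554) (nat_lit 411)) (XT.lf (nat_lit 0) (nat_lit 2782150676) (nat_lit 760) (nat_lit 4172106669) (nat_lit 836) (nat_lit 5816321089) (nat_lit 358) (nat_lit 5) (nat_lit 368) (nat_lit 5) (nat_lit 369) (nat_lit 5) (nat_lit 596) (nat_lit 554) (nat_lit 410))) (XT.nd (nat_lit 78) (nat_lit 836) (nat_lit 0) (XT.lf (nat_lit 0) (nat_lit 9125935455) (nat_lit 836) (nat_lit 2650014534) (nat_lit 76) (nat_lit 1131036744) (nat_lit 358) (nat_lit 5) (nat_lit 369) (nat_lit 5) (nat_lit 359) (nat_lit 5) (nat_lit 597) (nat_lit 554) (nat_lit 409)) (XT.nd (nat_lit 78) (nat_lit 76) (nat_lit 0) (XT.lf (nat_lit 0) (nat_lit 4857090768) (nat_lit 760) (nat_lit 6530177815) (nat_lit 836) (nat_lit 1657931242) (nat_lit 348) (nat_lit 5) (nat_lit 358) (nat_lit 5) (nat_lit 359)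 (nat_lit 5) (nat_lit 598) (nat_lit 554) (nat_lit 408)) (XT.lf (nat_lit 0) (nat_lit 506027055) (nat_lit 836) (nat_lit 653202367) (nat_lit 76) (nat_lit 12026782177) (nat_lit 347) (nat_lit 5) (nat_lit 358) (nat_lit 5) (nat_lit 348) (nat_lit 5) (nat_lit 599) (nat_lit 554) (nat_lit 407))))) (XT.nd (nat_lit 156) (nat_lit 684) (nat_lit 0) (XT.nd (nat_lit 78) (nat_lit 760) (nat_lit 0) (XT.lf (nat_lit 0) (nat_lit 2752984784) (nat_lit 760) (nat_lit 6256562844) (nat_lit 76) (nat_lit 4318635398) (nat_lit 338) (nat_lit 5) (nat_lit 348) (nat_lit 5) (nat_lit 339) (nat_lit 5) (nat_lit 600) (nat_lit 554) (nat_lit 406)) (XT.lf (nat_lit 0) (nat_lit 1484347527) (nat_lit 760) (nat_lit 3569794516) (nat_lit 836) (nat_lit 8418871606) (nat_lit 328) (nat_lit 5) (nat_lit 338) (nat_lit 5) (nat_lit 339) (nat_lit 5) (nat_lit 601) (nat_lit 554) (nat_lit 405))) (XT.nd (nat_lit 78) (nat_lit 684) (nat_lit 0) (XT.lf (nat_lit 0) (nat_lit 7444108865) (nat_lit 836) (nat_lit 4182381850) (nat_lit 76) (nat_lit 1993395400)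 (nat_lit 328) (nat_lit 5) (nat_lit 339) (nat_lit 5) (nat_lit 329) (nat_lit 5) (nat_lit 602) (nat_lit 554) (nat_lit 404)) (XT.nd (nat_lit 78) (nat_lit 0) (nat_lit 0) (XT.lf (nat_lit 0) (nat_lit 3792160483) (nat_lit 684) (nat_lit 6125894587) (nat_lit 760) (nat_lit 3850918297) (nat_lit 319) (nat_lit 5) (nat_lit 328) (nat_lit 5) (nat_lit 329) (nat_lit 5) (nat_lit 603) (nat_lit 554) (nat_lit 403)) (XT.lf (nat_lit 0) (nat_lit 11969017335) (nat_lit 684) (nat_lit 488593507) (nat_lit 760) (nat_lit 1463109829) (nat_lit 319) (nat_lit 5) (nat_lit 328) (nat_lit 5) (nat_lit 329) (nat_lit 5) (nat_lit 604) (nat_lit 554) (nat_lit 402))))))) (XT.nd (nat_lit 780) (nat_lit 3876) (nat_lit 0) (XT.nd (nat_lit 390) (nat_lit 1900) (nat_lit 0) (XT.nd (nat_lit 156) (nat_lit 684) (nat_lit 0) (XT.nd (nat_lit 78) (nat_lit 608) (nat_lit 0) (XT.lf (nat_lit 0) (nat_lit 1023262280) (nat_lit 760) (nat_lit 7812837937) (nat_lit 76) (nat_lit 5238006085) (nat_lit 309) (nat_lit 5) (nat_lit 319) (nat_lit 5) (nat_lit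 310) (nat_lit 5) (nat_lit 605) (nat_lit 554) (nat_lit 401)) (XT.lf (nat_lit 0) (nat_lit 413179598) (nat_lit 608) (nat_lit 3134060949) (nat_lit 684) (nat_lit 10682977147) (nat_lit 301) (nat_lit 5) (nat_lit 309) (nat_lit 5) (nat_lit 310) (nat_lit 5) (nat_lit 606) (nat_lit 554) (nat_lit 400))) (XT.nd (nat_lit 78) (nat_lit 684) (nat_lit 0) (XT.lf (nat_lit 0) (nat_lit 6180360754) (nat_lit 684) (nat_lit 5510550815) (nat_lit 76) (nat_lit 2697367346) (nat_lit 301) (nat_lit 5) (nat_lit 310) (nat_lit 5) (nat_lit 302) (nat_lit 5) (nat_lit 607) (nat_lit 554) (nat_lit 399)) (XT.nd (nat_lit 78) (nat_lit 0) (nat_lit 0) (XT.lf (nat_lit 0) (nat_lit 2966481513) (nat_lit 684) (nat_lit 5928377063) (nat_lit 760) (nat_lit 5654069314) (nat_lit 292) (nat_lit 5) (nat_lit 301) (nat_lit 5) (nat_lit 302) (nat_lit 5) (nat_lit 608) (nat_lit 554) (nat_lit 398)) (XT.lf (nat_lit 0) (nat_lit 11674106552) (nat_lit 684) (nat_lit 15350963) (nat_lit 760) (nat_lit 3022816924) (nat_lit 292) (nat_lit 5) (nat_lit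 301) (nat_lit 5) (nat_lit 302) (nat_lit 5) (nat_lit 609) (nat_lit 554) (nat_lit 397))))) (XT.nd (nat_lit 156) (nat_lit 1216) (nat_lit 0) (XT.nd (nat_lit 78) (nat_lit 76) (nat_lit 0) (XT.lf (nat_lit 0) (nat_lit 5699100092) (nat_lit 608) (nat_lit 8905945788) (nat_lit 684) (nat_lit 272540890) (nat_lit 284) (nat_lit 5) (nat_lit 292) (nat_lit 5) (nat_lit 293) (nat_lit 5) (nat_lit 610) (nat_lit 554) (nat_lit 396)) (XT.lf (nat_lit 0) (nat_lit 2509238210) (nat_lit 684) (nat_lit 423819668) (nat_lit 76) (nat_lit 12112625058) (nat_lit 283) (nat_lit 5) (nat_lit 292) (nat_lit 5) (nat_lit 284) (nat_lit 5) (nat_lit 611) (nat_lit 554) (nat_lit 395))) (XT.nd (nat_lit 78) (nat_lit 608) (nat_lit 0) (XT.lf (nat_lit 0) (nat_lit 5409048416) (nat_lit 684) (nat_lit 6633475873) (nat_lit 76) (nat_lit 3173260563) (nat_lit 275) (nat_lit 5) (nat_lit 284) (nat_lit 5) (nat_lit 276) (nat_lit 5) (nat_lit 612) (nat_lit 554) (nat_lit 394)) (XT.nd (nat_lit 78) (nat_lit 0) (nat_lit 0) (XT.lf (nat_lit 0) (nat_lit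 2383412107) (nat_lit 608) (nat_lit 6010614828) (nat_lit 684) (nat_lit 6994719169) (nat_lit 267) (nat_lit 5) (nat_lit 275) (nat_lit 5) (nat_lit 276) (nat_lit 5) (nat_lit 613) (nat_lit 554) (nat_lit 393)) (XT.lf (nat_lit 0) (nat_lit 11473947522) (nat_lit 684) (nat_lit 3908515718) (nat_lit 76) (nat_lit 181999217) (nat_lit 267) (nat_lit 5) (nat_lit 276) (nat_lit 5) (nat_lit 268) (nat_lit 5) (nat_lit 614) (nat_lit 554) (nat_lit 392)))))) (XT.nd (nat_lit 390) (nat_lit 2128) (nat_lit 0) (XT.nd (nat_lit 156) (nat_lit 1064) (nat_lit 0) (XT.nd (nat_lit 78) (nat_lit 76) (nat_lit 0) (XT.lf (nat_lit 0) (nat_lit 5387782064) (nat_lit 608) (nat_lit 9292188617) (nat_lit 684) (nat_lit 1062433083) (nat_lit 259) (nat_lit 5) (nat_lit 267) (nat_lit 5) (nat_lit 268) (nat_lit 5) (nat_lit 615) (nat_lit 554) (nat_lit 391)) (XT.lf (nat_lit 0) (nat_lit 2015803624) (nat_lit 684) (nat_lit 1027084076) (nat_lit 76) (nat_lit 12880430425) (nat_lit 258) (nat_lit 5) (nat_lit 267) (nat_lit 5) (nat_lit 259) (nat_lit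 5) (nat_lit 616) (nat_lit 554) (nat_lit 390))) (XT.nd (nat_lit 78) (nat_lit 532) (nat_lit 0) (XT.lf (nat_lit 0) (nat_lit 5209086816) (nat_lit 608) (nat_lit 7549434334) (nat_lit 76) (nat_lit 3347835685) (nat_lit 251) (nat_lit 5) (nat_lit 259) (nat_lit 5) (nat_lit 252) (nat_lit 5) (nat_lit 617) (nat_lit 554) (nat_lit 389)) (XT.nd (nat_lit 78) (nat_lit 0) (nat_lit 0) (XT.lf (nat_lit 0) (nat_lit 2047070487) (nat_lit 532) (nat_lit 6449603902) (nat_lit 608) (nat_lit 7795773813) (nat_lit 244) (nat_lit 5) (nat_lit 251) (nat_lit 5) (nat_lit 252) (nat_lit 5) (nat_lit 618) (nat_lit 554) (nat_lit 388)) (XT.lf (nat_lit 0) (nat_lit 11891062560) (nat_lit 608) (nat_lit 4556931860) (nat_lit 76) (nat_lit 33446642) (nat_lit 244) (nat_lit 5) (nat_lit 252) (nat_lit 5) (nat_lit 245) (nat_lit 5) (nat_lit 619) (nat_lit 554) (nat_lit 387))))) (XT.nd (nat_lit 234) (nat_lit 988) (nat_lit 0) (XT.nd (nat_lit 78) (nat_lit 608) (nat_lit 0) (XT.lf (nat_lit 0) (nat_lit 5339577917) (nat_lit 532) (nat_lit 10081481332)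 (nat_lit 608) (nat_lit 1251800749) (nat_lit 237) (nat_lit 5) (nat_lit 244) (nat_lit 5) (nat_lit 245) (nat_lit 5) (nat_lit 620) (nat_lit 554) (nat_lit 386)) (XT.nd (nat_lit 78) (nat_lit 532) (nat_lit 0) (XT.lf (nat_lit 0) (nat_lit 2146467904) (nat_lit 608) (nat_lit 1398956871) (nat_lit 76) (nat_lit 13321980226) (nat_lit 236) (nat_lit 5) (nat_lit 244) (nat_lit 5) (nat_lit 237) (nat_lit 5) (nat_lit 621) (nat_lit 554) (nat_lit 385)) (XT.lf (nat_lit 0) (nat_lit 5664526737) (nat_lit 608) (nat_lit 8256649457) (nat_lit 76) (nat_lit 3143128092) (nat_lit 229) (nat_lit 5) (nat_lit 237) (nat_lit 5) (nat_lit 230) (nat_lit 5) (nat_lit 622) (nat_lit 554) (nat_lit 384)))) (XT.nd (nat_lit 78) (nat_lit 532) (nat_lit 0) (XT.lf (nat_lit 0) (nat_lit 1961705190) (nat_lit 456) (nat_lit 7327558213) (nat_lit 532) (nat_lit 7975152402) (nat_lit 223) (nat_lit 5) (nat_lit 229) (nat_lit 5) (nat_lit 230) (nat_lit 5) (nat_lit 623) (nat_lit 554) (nat_lit 383)) (XT.nd (nat_lit 78) (nat_lit 532) (nat_lit 0)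 (XT.lf (nat_lit 0) (nat_lit 12483543471) (nat_lit 456) (nat_lit 549108410) (nat_lit 532) (nat_lit 4434955105) (nat_lit 223) (nat_lit 5) (nat_lit 229) (nat_lit 5) (nat_lit 230) (nat_lit 5) (nat_lit 624) (nat_lit 554) (nat_lit 382)) (XT.lf (nat_lit 0) (nat_lit 5559836828) (nat_lit 532) (nat_lit 11359404012) (nat_lit 608) (nat_lit 754255055) (nat_lit 216) (nat_lit 5) (nat_lit 223) (nat_lit 5) (nat_lit 224) (nat_lit 5) (nat_lit 625) (nat_lit 554) (nat_lit 381))))))))
noncomputable def xc143 : XT := (XT.nd (nat_lit 1560) (nat_lit 760) (nat_lit 0) (XT.nd (nat_lit 780) (nat_lit 2432) (nat_lit 0) (XT.nd (nat_lit 390) (nat_lit 1368) (nat_lit 0) (XT.nd (nat_lit 156) (nat_lit 988) (nat_lit 0) (XT.nd (nat_lit 78) (nat_lit 456) (nat_lit 0) (XT.lf (nat_lit 0) (nat_lit 2988961834) (nat_lit 608) (nat_lit 1536744516) (nat_lit 76) (nat_lit 13356842222) (nat_lit 215) (nat_lit 5) (nat_lit 223) (nat_lit 5) (nat_lit 216) (nat_lit 5) (nat_lit 626) (nat_lit 554) (nat_lit 380)) (XT.lf (nat_lit 0)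 (nat_lit 6865111730) (nat_lit 532) (nat_lit 8753998592) (nat_lit 76) (nat_lit 2475209433) (nat_lit 209) (nat_lit 5) (nat_lit 216) (nat_lit 5) (nat_lit 210) (nat_lit 5) (nat_lit 627) (nat_lit 554) (nat_lit 379))) (XT.nd (nat_lit 78) (nat_lit 532) (nat_lit 0) (XT.lf (nat_lit 0) (nat_lit 2130976977) (nat_lit 456) (nat_lit 8733188453) (nat_lit 532) (nat_lit 7445253834) (nat_lit 203) (nat_lit 5) (nat_lit 209) (nat_lit 5) (nat_lit 210) (nat_lit 5) (nat_lit 628) (nat_lit 554) (nat_lit 378)) (XT.nd (nat_lit 78) (nat_lit 532) (nat_lit 0) (XT.lf (nat_lit 0) (nat_lit 13339827185) (nat_lit 456) (nat_lit 1653401434) (nat_lit 532) (nat_lit 3534592084) (nat_lit 203) (nat_lit 5) (nat_lit 209) (nat_lit 5) (nat_lit 210) (nat_lit 5) (nat_lit 629) (nat_lit 554) (nat_lit 377)) (XT.lf (nat_lit 0) (nat_lit 515650539) (nat_lit 532) (nat_lit 12699534763) (nat_lit 76) (nat_lit 5533999853) (nat_lit 196) (nat_lit 5) (nat_lit 203) (nat_lit 5) (nat_lit 197) (nat_lit 5) (nat_lit 630) (nat_lit 554) (nat_lit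 376))))) (XT.nd (nat_lit 156) (nat_lit 912) (nat_lit 0) (XT.nd (nat_lit 78) (nat_lit 456) (nat_lit 0) (XT.lf (nat_lit 0) (nat_lit 4637071283) (nat_lit 532) (nat_lit 1438919515) (nat_lit 76) (nat_lit 12897769276) (nat_lit 196) (nat_lit 5) (nat_lit 203) (nat_lit 5) (nat_lit 197) (nat_lit 5) (nat_lit 631) (nat_lit 554) (nat_lit 375)) (XT.lf (nat_lit 0) (nat_lit 8906811147) (nat_lit 532) (nat_lit 9041831229) (nat_lit 76) (nat_lit 1252866769) (nat_lit 190) (nat_lit 5) (nat_lit 197) (nat_lit 5) (nat_lit 191) (nat_lit 5) (nat_lit 632) (nat_lit 554) (nat_lit 374))) (XT.nd (nat_lit 78) (nat_lit 532) (nat_lit 0) (XT.lf (nat_lit 0) (nat_lit 2557126787) (nat_lit 380) (nat_lit 10763070788) (nat_lit 456) (nat_lit 6112451048) (nat_lit 185) (nat_lit 5) (nat_lit 190) (nat_lit 5) (nat_lit 191) (nat_lit 5) (nat_lit 633) (nat_lit 554) (nat_lit 373)) (XT.nd (nat_lit 78) (nat_lit 532) (nat_lit 0) (XT.lf (nat_lit 0) (nat_lit 14498468649) (nat_lit 380) (nat_lit 3375833501) (nat_lit 456) (nat_lit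 1793060182) (nat_lit 185) (nat_lit 5) (nat_lit 190) (nat_lit 5) (nat_lit 191) (nat_lit 5) (nat_lit 634) (nat_lit 554) (nat_lit 372)) (XT.lf (nat_lit 0) (nat_lit 2642080323) (nat_lit 532) (nat_lit 13100608114) (nat_lit 76) (nat_lit 4162470481) (nat_lit 178) (nat_lit 5) (nat_lit 185) (nat_lit 5) (nat_lit 179) (nat_lit 5) (nat_lit 635) (nat_lit 554) (nat_lit 371)))))) (XT.nd (nat_lit 390) (nat_lit 1216) (nat_lit 0) (XT.nd (nat_lit 156) (nat_lit 836) (nat_lit 0) (XT.nd (nat_lit 78) (nat_lit 380) (nat_lit 0) (XT.lf (nat_lit 0) (nat_lit 7191147797) (nat_lit 532) (nat_lit 1106034802) (nat_lit 76) (nat_lit 11849307555) (nat_lit 178) (nat_lit 5) (nat_lit 185) (nat_lit 5) (nat_lit 179) (nat_lit 5) (nat_lit 636) (nat_lit 554) (nat_lit 370)) (XT.lf (nat_lit 0) (nat_lit 11264314277) (nat_lit 380) (nat_lit 632114381) (nat_lit 456) (nat_lit 8494915130) (nat_lit 173) (nat_lit 5) (nat_lit 178) (nat_lit 5) (nat_lit 179) (nat_lit 5) (nat_lit 637) (nat_lit 554) (nat_lit 369))) (XT.nd (nat_lit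 78) (nat_lit 456) (nat_lit 0) (XT.lf (nat_lit 0) (nat_lit 3240000441) (nat_lit 380) (nat_lit 13523129649) (nat_lit 456) (nat_lit 3876618516) (nat_lit 168) (nat_lit 5) (nat_lit 173) (nat_lit 5) (nat_lit 174) (nat_lit 5) (nat_lit 638) (nat_lit 554) (nat_lit 368)) (XT.nd (nat_lit 78) (nat_lit 380) (nat_lit 0) (XT.lf (nat_lit 0) (nat_lit 881119206) (nat_lit 456) (nat_lit 4935741873) (nat_lit 76) (nat_lit 15074992255) (nat_lit 167) (nat_lit 5) (nat_lit 173) (nat_lit 5) (nat_lit 168) (nat_lit 5) (nat_lit 639) (nat_lit 554) (nat_lit 367)) (XT.lf (nat_lit 0) (nat_lit 5739151880) (nat_lit 456) (nat_lit 13318331441) (nat_lit 76) (nat_lit 2089863767) (nat_lit 162) (nat_lit 5) (nat_lit 168) (nat_lit 5) (nat_lit 163) (nat_lit 5) (nat_lit 640) (nat_lit 554) (nat_lit 366))))) (XT.nd (nat_lit 156) (nat_lit 836) (nat_lit 0) (XT.nd (nat_lit 78) (nat_lit 380) (nat_lit 0) (XT.lf (nat_lit 0) (nat_lit 10758585406) (nat_lit 456) (nat_lit 541800280) (nat_lit 76) (nat_lit 10106280606) (nat_lit 162)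 (nat_lit 5) (nat_lit 168) (nat_lit 5) (nat_lit 163) (nat_lit 5) (nat_lit 641) (nat_lit 554) (nat_lit 365)) (XT.lf (nat_lit 0) (nat_lit 12644583785) (nat_lit 380) (nat_lit 3308447474) (nat_lit 456) (nat_lit 5716648518) (nat_lit 157) (nat_lit 5) (nat_lit 162) (nat_lit 5) (nat_lit 163) (nat_lit 5) (nat_lit 642) (nat_lit 554) (nat_lit 364))) (XT.nd (nat_lit 78) (nat_lit 456) (nat_lit 0) (XT.lf (nat_lit 0) (nat_lit 4175896270) (nat_lit 380) (nat_lit 17130261096) (nat_lit 456) (nat_lit 630700702) (nat_lit 152) (nat_lit 5) (nat_lit 157) (nat_lit 5) (nat_lit 158) (nat_lit 5) (nat_lit 643) (nat_lit 554) (nat_lit 363)) (XT.nd (nat_lit 78) (nat_lit 380) (nat_lit 0) (XT.lf (nat_lit 0) (nat_lit 4572669814) (nat_lit 456) (nat_lit 4508403749) (nat_lit 76) (nat_lit 13126205588) (nat_lit 151) (nat_lit 5) (nat_lit 157) (nat_lit 5) (nat_lit 152) (nat_lit 5) (nat_lit 644) (nat_lit 554) (nat_lit 362)) (XT.lf (nat_lit 0) (nat_lit 9113194085) (nat_lit 380) (nat_lit 810385269) (nat_lit 456) (nat_lit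 12558407932) (nat_lit 146) (nat_lit 5) (nat_lit 151) (nat_lit 5) (nat_lit 152) (nat_lit 5) (nat_lit 645) (nat_lit 554) (nat_lit 361))))))) (XT.nd (nat_lit 74568) (nat_lit 0) (nat_lit 29032) (XT.nd (nat_lit 74178) (nat_lit 0) (nat_lit 31844) (XT.nd (nat_lit 156) (nat_lit 456) (nat_lit 0) (XT.nd (nat_lit 78) (nat_lit 0) (nat_lit 0) (XT.lf (nat_lit 0) (nat_lit 248906228) (nat_lit 304) (nat_lit 15206964709) (nat_lit 380) (nat_lit 7304831704) (nat_lit 142) (nat_lit 5) (nat_lit 146) (nat_lit 5) (nat_lit 147) (nat_lit 5) (nat_lit 646) (nat_lit 554) (nat_lit 360)) (XT.lf (nat_lit 0) (nat_lit 14303415418) (nat_lit 304) (nat_lit 6883286514) (nat_lit 380) (nat_lit 1856532830) (nat_lit 142) (nat_lit 5) (nat_lit 146) (nat_lit 5) (nat_lit 147) (nat_lit 5) (nat_lit 647) (nat_lit 554) (nat_lit 359))) (XT.nd (nat_lit 78) (nat_lit 0) (nat_lit 0) (XT.lf (nat_lit 0) (nat_lit 3690621627) (nat_lit 456) (nat_lit 17998738421) (nat_lit 76) (nat_lit 1640808733) (nat_lit 136) (nat_lit 5) (nat_lit 142)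 (nat_lit 5) (nat_lit 137) (nat_lit 5) (nat_lit 648) (nat_lit 554) (nat_lit 358)) (XT.nd (nat_lit 73866) (nat_lit 0) (nat_lit 31844) (XT.lf (nat_lit 0) (nat_lit 9421488528) (nat_lit 456) (nat_lit 3888596203) (nat_lit 76) (nat_lit 10310559057) (nat_lit 136) (nat_lit 5) (nat_lit 142) (nat_lit 5) (nat_lit 137) (nat_lit 5) (nat_lit 649) (nat_lit 554) (nat_lit 357)) (XT.lf (nat_lit 0) (nat_lit 891298838) (nat_lit 1596) (nat_lit 1750659926) (nat_lit 1596) (nat_lit 1750659926) (nat_lit 555) (nat_lit 3) (nat_lit 576) (nat_lit 3) (nat_lit 576) (nat_lit 5) (nat_lit 555) (nat_lit 555) (nat_lit 450))))) (XT.nd (nat_lit 156) (nat_lit 0) (nat_lit 76) (XT.nd (nat_lit 78) (nat_lit 0) (nat_lit 76) (XT.lf (nat_lit 76) (nat_lit 853752665) (nat_lit 0) (nat_lit 1908563942) (nat_lit 1596) (nat_lit 6091437077) (nat_lit 556) (nat_lit 5) (nat_lit 555) (nat_lit 3) (nat_lit 576) (nat_lit 5) (nat_lit 556) (nat_lit 555) (nat_lit 449)) (XT.lf (nat_lit 0) (nat_lit 3770152555) (nat_lit 1520) (nat_lit 3603449814)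 (nat_lit 1596) (nat_lit 1549870069) (nat_lit 556) (nat_lit 5) (nat_lit 576) (nat_lit 5) (nat_lit 577) (nat_lit 5) (nat_lit 557) (nat_lit 555) (nat_lit 448))) (XT.nd (nat_lit 78) (nat_lit 0) (nat_lit 0) (XT.lf (nat_lit 76) (nat_lit 866472463) (nat_lit 0) (nat_lit 3925339599) (nat_lit 1596) (nat_lit 4202902691) (nat_lit 557) (nat_lit 5) (nat_lit 556) (nat_lit 5) (nat_lit 577) (nat_lit 5) (nat_lit 558) (nat_lit 555) (nat_lit 447)) (XT.nd (nat_lit 78) (nat_lit 0) (nat_lit 76) (XT.lf (nat_lit 76) (nat_lit 5461441894) (nat_lit 0) (nat_lit 372442180) (nat_lit 1596) (nat_lit 3233500731) (nat_lit 557) (nat_lit 5) (nat_lit 556) (nat_lit 5) (nat_lit 577) (nat_lit 5) (nat_lit 559) (nat_lit 555) (nat_lit 446)) (XT.lf (nat_lit 76) (nat_lit 985126324) (nat_lit 0) (nat_lit 5915521138) (nat_lit 1596) (nat_lit 2240786226) (nat_lit 558) (nat_lit 5) (nat_lit 557) (nat_lit 5) (nat_lit 578) (nat_lit 5) (nat_lit 560) (nat_lit 555) (nat_lit 445)))))) (XT.nd (nat_lit 390) (nat_lit 1444) (nat_lit 0)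 (XT.nd (nat_lit 156) (nat_lit 1520) (nat_lit 0) (XT.nd (nat_lit 78) (nat_lit 0) (nat_lit 76) (XT.lf (nat_lit 76) (nat_lit 5701000629) (nat_lit 0) (nat_lit 2291113288) (nat_lit 1596) (nat_lit 1224784654) (nat_lit 558) (nat_lit 5) (nat_lit 557) (nat_lit 5) (nat_lit 578) (nat_lit 5) (nat_lit 561) (nat_lit 555) (nat_lit 444)) (XT.lf (nat_lit 76) (nat_lit 1210411574) (nat_lit 0) (nat_lit 7889223334) (nat_lit 1596) (nat_lit 194355674) (nat_lit 559) (nat_lit 5) (nat_lit 558) (nat_lit 5) (nat_lit 579) (nat_lit 5) (nat_lit 562) (nat_lit 555) (nat_lit 443))) (XT.nd (nat_lit 78) (nat_lit 0) (nat_lit 0) (XT.lf (nat_lit 0) (nat_lit 861815789) (nat_lit 1596) (nat_lit 3328005398) (nat_lit 1672) (nat_lit 5182366857) (nat_lit 537) (nat_lit 5) (nat_lit 558) (nat_lit 5) (nat_lit 559) (nat_lit 5) (nat_lit 563) (nat_lit 555) (nat_lit 442)) (XT.nd (nat_lit 78) (nat_lit 0) (nat_lit 76) (XT.lf (nat_lit 76) (nat_lit 1527834593) (nat_lit 0) (nat_lit 396484766) (nat_lit 1672) (nat_lit 7527850378) (nat_lit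 538) (nat_lit 5) (nat_lit 537) (nat_lit 5) (nat_lit 559) (nat_lit 5) (nat_lit 564) (nat_lit 555) (nat_lit 441)) (XT.lf (nat_lit 0) (nat_lit 3031389191) (nat_lit 1596) (nat_lit 3044093556) (nat_lit 1672) (nat_lit 3457804150) (nat_lit 538) (nat_lit 5) (nat_lit 559) (nat_lit 5) (nat_lit 560) (nat_lit 5) (nat_lit 565) (nat_lit 555) (nat_lit 440))))) (XT.nd (nat_lit 234) (nat_lit 1520) (nat_lit 0) (XT.nd (nat_lit 78) (nat_lit 0) (nat_lit 76) (XT.lf (nat_lit 76) (nat_lit 1942885461) (nat_lit 0) (nat_lit 2211669334) (nat_lit 1672) (nat_lit 5461594630) (nat_lit 539) (nat_lit 5) (nat_lit 538) (nat_lit 5) (nat_lit 560) (nat_lit 5) (nat_lit 566) (nat_lit 555) (nat_lit 439)) (XT.nd (nat_lit 78) (nat_lit 0) (nat_lit 0) (XT.lf (nat_lit 0) (nat_lit 5311065568) (nat_lit 1596) (nat_lit 2654858384) (nat_lit 1672) (nat_lit 1734529688) (nat_lit 539) (nat_lit 5) (nat_lit 560) (nat_lit 5) (nat_lit 561) (nat_lit 5) (nat_lit 567) (nat_lit 555) (nat_lit 438)) (XT.lf (nat_lit 76) (nat_lit 2467809302)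 (nat_lit 0) (nat_lit 4033067275) (nat_lit 1672) (nat_lit 3285365992) (nat_lit 540) (nat_lit 5) (nat_lit 539) (nat_lit 5) (nat_lit 561) (nat_lit 5) (nat_lit 568) (nat_lit 555) (nat_lit 437)))) (XT.nd (nat_lit 78) (nat_lit 1672) (nat_lit 0) (XT.lf (nat_lit 0) (nat_lit 7712132571) (nat_lit 1596) (nat_lit 2158632984) (nat_lit 1672) (nat_lit 3030737) (nat_lit 540) (nat_lit 5) (nat_lit 561) (nat_lit 5) (nat_lit 562) (nat_lit 5) (nat_lit 569) (nat_lit 555) (nat_lit 436)) (XT.nd (nat_lit 78) (nat_lit 1672) (nat_lit 0) (XT.lf (nat_lit 76) (nat_lit 3104466336) (nat_lit 0) (nat_lit 5870262877) (nat_lit 1672) (nat_lit 987831518) (nat_lit 541) (nat_lit 5) (nat_lit 540) (nat_lit 5) (nat_lit 562) (nat_lit 5) (nat_lit 570) (nat_lit 555) (nat_lit 435)) (XT.lf (nat_lit 0) (nat_lit 201728571) (nat_lit 1672) (nat_lit 1566252465) (nat_lit 1748) (nat_lit 8285194129) (nat_lit 518) (nat_lit 5) (nat_lit 540) (nat_lit 5) (nat_lit 541) (nat_lit 5) (nat_lit 571) (nat_lit 555) (nat_lit 434))))))))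
noncomputable def xc144 : XT := (XT.nd (nat_lit 1560) (nat_lit 9652) (nat_lit 0) (XT.nd (nat_lit 780) (nat_lit 5624) (nat_lit 0) (XT.nd (nat_lit 390) (nat_lit 3268) (nat_lit 0) (XT.nd (nat_lit 156) (nat_lit 0) (nat_lit 76) (XT.nd (nat_lit 78) (nat_lit 0) (nat_lit 0) (XT.lf (nat_lit 0) (nat_lit 1423672117) (nat_lit 1672) (nat_lit 6299554900) (nat_lit 1748) (nat_lit 2421809730) (nat_lit 519) (nat_lit 5) (nat_lit 541) (nat_lit 5) (nat_lit 542) (nat_lit 5) (nat_lit 572) (nat_lit 555) (nat_lit 433)) (XT.lf (nat_lit 0) (nat_lit 2673465302) (nat_lit 1672) (nat_lit 877742911) (nat_lit 1748) (nat_lit 6687460938) (nat_lit 519) (nat_lit 5) (nat_lit 541) (nat_lit 5) (nat_lit 542) (nat_lit 5) (nat_lit 573) (nat_lit 555) (nat_lit 432))) (XT.nd (nat_lit 78) (nat_lit 0) (nat_lit 0) (XT.lf (nat_lit 0) (nat_lit 3965069152) (nat_lit 1672) (nat_lit 5638434327) (nat_lit 1748) (nat_lit 730336196) (nat_lit 520) (nat_lit 5) (nat_lit 542) (nat_lit 5) (nat_lit 543) (nat_lit 5) (nat_lit 574) (nat_lit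 555) (nat_lit 431)) (XT.nd (nat_lit 78) (nat_lit 0) (nat_lit 0) (XT.lf (nat_lit 0) (nat_lit 5293747278) (nat_lit 1672) (nat_lit 76586954) (nat_lit 1748) (nat_lit 5060356268) (nat_lit 520) (nat_lit 5) (nat_lit 542) (nat_lit 5) (nat_lit 543) (nat_lit 5) (nat_lit 575) (nat_lit 555) (nat_lit 430)) (XT.lf (nat_lit 76) (nat_lit 5656816141) (nat_lit 0) (nat_lit 1011062725) (nat_lit 1748) (nat_lit 3861223575) (nat_lit 521) (nat_lit 5) (nat_lit 520) (nat_lit 5) (nat_lit 543) (nat_lit 5) (nat_lit 576) (nat_lit 555) (nat_lit 429))))) (XT.nd (nat_lit 156) (nat_lit 3420) (nat_lit 0) (XT.nd (nat_lit 78) (nat_lit 0) (nat_lit 0) (XT.lf (nat_lit 76) (nat_lit 851149568) (nat_lit 0) (nat_lit 7229129253) (nat_lit 1748) (nat_lit 2548989752) (nat_lit 522) (nat_lit 5) (nat_lit 521) (nat_lit 5) (nat_lit 544) (nat_lit 5) (nat_lit 577) (nat_lit 555) (nat_lit 428)) (XT.lf (nat_lit 76) (nat_lit 6734249399) (nat_lit 0) (nat_lit 2808715063) (nat_lit 1748) (nat_lit 1188034446) (nat_lit 522) (nat_lit 5)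 (nat_lit 521) (nat_lit 5) (nat_lit 544) (nat_lit 5) (nat_lit 578) (nat_lit 555) (nat_lit 427))) (XT.nd (nat_lit 78) (nat_lit 1748) (nat_lit 0) (XT.lf (nat_lit 0) (nat_lit 203980604) (nat_lit 1748) (nat_lit 8936002238) (nat_lit 76) (nat_lit 1694627278) (nat_lit 499) (nat_lit 5) (nat_lit 522) (nat_lit 5) (nat_lit 500) (nat_lit 5) (nat_lit 579) (nat_lit 555) (nat_lit 426)) (XT.nd (nat_lit 78) (nat_lit 1748) (nat_lit 0) (XT.lf (nat_lit 0) (nat_lit 1636720998) (nat_lit 1748) (nat_lit 3014636861) (nat_lit 76) (nat_lit 6288204324) (nat_lit 499) (nat_lit 5) (nat_lit 522) (nat_lit 5) (nat_lit 500) (nat_lit 5) (nat_lit 580) (nat_lit 555) (nat_lit 425)) (XT.lf (nat_lit 0) (nat_lit 3051169552) (nat_lit 1748) (nat_lit 50265963) (nat_lit 1824) (nat_lit 7945112895) (nat_lit 476) (nat_lit 5) (nat_lit 499) (nat_lit 5) (nat_lit 500) (nat_lit 5) (nat_lit 581) (nat_lit 555) (nat_lit 424)))))) (XT.nd (nat_lit 390) (nat_lit 1824) (nat_lit 0) (XT.nd (nat_lit 156) (nat_lit 1976) (nat_lit 0) (XT.nd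 (nat_lit 78) (nat_lit 1824) (nat_lit 0) (XT.lf (nat_lit 0) (nat_lit 4629709912) (nat_lit 1824) (nat_lit 1920644554) (nat_lit 76) (nat_lit 4604636062) (nat_lit 476) (nat_lit 5) (nat_lit 500) (nat_lit 5) (nat_lit 477) (nat_lit 5) (nat_lit 582) (nat_lit 555) (nat_lit 423)) (XT.lf (nat_lit 0) (nat_lit 4317908499) (nat_lit 1824) (nat_lit 1883084763) (nat_lit 1900) (nat_lit 5064360808) (nat_lit 452) (nat_lit 5) (nat_lit 476) (nat_lit 5) (nat_lit 477) (nat_lit 5) (nat_lit 583) (nat_lit 555) (nat_lit 422))) (XT.nd (nat_lit 78) (nat_lit 1976) (nat_lit 0) (XT.lf (nat_lit 0) (nat_lit 7819668793) (nat_lit 1900) (nat_lit 703376398) (nat_lit 76) (nat_lit 2854561784) (nat_lit 452) (nat_lit 5) (nat_lit 477) (nat_lit 5) (nat_lit 453) (nat_lit 5) (nat_lit 584) (nat_lit 555) (nat_lit 421)) (XT.nd (nat_lit 78) (nat_lit 912) (nat_lit 0) (XT.lf (nat_lit 0) (nat_lit 5714115092) (nat_lit 1064) (nat_lit 3790790764) (nat_lit 1140) (nat_lit 1986516717) (nat_lit 438) (nat_lit 5) (nat_lit 452) (nat_lit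 5) (nat_lit 453) (nat_lit 5) (nat_lit 585) (nat_lit 555) (nat_lit 420)) (XT.lf (nat_lit 0) (nat_lit 649681365) (nat_lit 912) (nat_lit 10574700708) (nat_lit 988) (nat_lit 383123087) (nat_lit 426) (nat_lit 5) (nat_lit 438) (nat_lit 5) (nat_lit 439) (nat_lit 5) (nat_lit 586) (nat_lit 555) (nat_lit 419))))) (XT.nd (nat_lit 156) (nat_lit 836) (nat_lit 0) (XT.nd (nat_lit 78) (nat_lit 912) (nat_lit 0) (XT.lf (nat_lit 0) (nat_lit 1284987376) (nat_lit 988) (nat_lit 4489363491) (nat_lit 76) (nat_lit 5950415755) (nat_lit 425) (nat_lit 5) (nat_lit 438) (nat_lit 5) (nat_lit 426) (nat_lit 5) (nat_lit 587) (nat_lit 555) (nat_lit 418)) (XT.lf (nat_lit 0) (nat_lit 2119749235) (nat_lit 912) (nat_lit 860587143) (nat_lit 988) (nat_lit 8864007446) (nat_lit 413) (nat_lit 5) (nat_lit 425) (nat_lit 5) (nat_lit 426) (nat_lit 5) (nat_lit 588) (nat_lit 555) (nat_lit 417))) (XT.nd (nat_lit 78) (nat_lit 836) (nat_lit 0) (XT.lf (nat_lit 0) (nat_lit 4752314214) (nat_lit 988) (nat_lit 3085150155) (nat_lit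 76) (nat_lit 4127995028) (nat_lit 413) (nat_lit 5) (nat_lit 426) (nat_lit 5) (nat_lit 414) (nat_lit 5) (nat_lit 589) (nat_lit 555) (nat_lit 416)) (XT.nd (nat_lit 78) (nat_lit 0) (nat_lit 0) (XT.lf (nat_lit 0) (nat_lit 3716215557) (nat_lit 836) (nat_lit 2859071252) (nat_lit 912) (nat_lit 5513400605) (nat_lit 402) (nat_lit 5) (nat_lit 413) (nat_lit 5) (nat_lit 414) (nat_lit 5) (nat_lit 590) (nat_lit 555) (nat_lit 415)) (XT.lf (nat_lit 0) (nat_lit 8455885139) (nat_lit 912) (nat_lit 1547181218) (nat_lit 76) (nat_lit 2210891524) (nat_lit 402) (nat_lit 5) (nat_lit 414) (nat_lit 5) (nat_lit 403) (nat_lit 5) (nat_lit 591) (nat_lit 555) (nat_lit 414))))))) (XT.nd (nat_lit 780) (nat_lit 4788) (nat_lit 0) (XT.nd (nat_lit 390) (nat_lit 2280) (nat_lit 0) (XT.nd (nat_lit 156) (nat_lit 912) (nat_lit 0) (XT.nd (nat_lit 78) (nat_lit 836) (nat_lit 0) (XT.lf (nat_lit 0) (nat_lit 5453379231) (nat_lit 836) (nat_lit 4961253180) (nat_lit 912) (nat_lit 1926291796) (nat_lit 391) (nat_lit 5) (nat_lit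 402) (nat_lit 5) (nat_lit 403) (nat_lit 5) (nat_lit 592) (nat_lit 555) (nat_lit 413)) (XT.lf (nat_lit 0) (nat_lit 131169165) (nat_lit 836) (nat_lit 12280242573) (nat_lit 912) (nat_lit 59042147) (nat_lit 380) (nat_lit 5) (nat_lit 391) (nat_lit 5) (nat_lit 392) (nat_lit 5) (nat_lit 593) (nat_lit 555) (nat_lit 412))) (XT.nd (nat_lit 78) (nat_lit 836) (nat_lit 0) (XT.lf (nat_lit 0) (nat_lit 1887192038) (nat_lit 912) (nat_lit 5277268960) (nat_lit 76) (nat_lit 5436557742) (nat_lit 379) (nat_lit 5) (nat_lit 391) (nat_lit 5) (nat_lit 380) (nat_lit 5) (nat_lit 594) (nat_lit 555) (nat_lit 411)) (XT.nd (nat_lit 78) (nat_lit 0) (nat_lit 0) (XT.lf (nat_lit 0) (nat_lit 1937184353) (nat_lit 836) (nat_lit 1933682812) (nat_lit 912) (nat_lit 8863334885) (nat_lit 368) (nat_lit 5) (nat_lit 379) (nat_lit 5) (nat_lit 380) (nat_lit 5) (nat_lit 595) (nat_lit 555) (nat_lit 410)) (XT.lf (nat_lit 0) (nat_lit 5938845367) (nat_lit 912) (nat_lit 3538186325) (nat_lit 76) (nat_lit 3392125821) (nat_lit 368)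 (nat_lit 5) (nat_lit 380) (nat_lit 5) (nat_lit 369) (nat_lit 5) (nat_lit 596) (nat_lit 555) (nat_lit 409))))) (XT.nd (nat_lit 156) (nat_lit 1520) (nat_lit 0) (XT.nd (nat_lit 78) (nat_lit 0) (nat_lit 0) (XT.lf (nat_lit 0) (nat_lit 3890326018) (nat_lit 760) (nat_lit 4183074116) (nat_lit 836) (nat_lit 4932908667) (nat_lit 358) (nat_lit 5) (nat_lit 368) (nat_lit 5) (nat_lit 369) (nat_lit 5) (nat_lit 597) (nat_lit 555) (nat_lit 408)) (XT.lf (nat_lit 0) (nat_lit 10269756317) (nat_lit 836) (nat_lit 1652286416) (nat_lit 76) (nat_lit 1223779211) (nat_lit 358) (nat_lit 5) (nat_lit 369) (nat_lit 5) (nat_lit 359) (nat_lit 5) (nat_lit 598) (nat_lit 555) (nat_lit 407))) (XT.nd (nat_lit 78) (nat_lit 760) (nat_lit 0) (XT.lf (nat_lit 0) (nat_lit 5998048305) (nat_lit 760) (nat_lit 6566195885) (nat_lit 836) (nat_lit 722798086) (nat_lit 348) (nat_lit 5) (nat_lit 358) (nat_lit 5) (nat_lit 359) (nat_lit 5) (nat_lit 599) (nat_lit 555) (nat_lit 406)) (XT.nd (nat_lit 78) (nat_lit 0) (nat_lit 0) (XT.lf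 (nat_lit 0) (nat_lit 374518476) (nat_lit 684) (nat_lit 1080916094) (nat_lit 760) (nat_lit 11975437567) (nat_lit 338) (nat_lit 5) (nat_lit 347) (nat_lit 5) (nat_lit 348) (nat_lit 5) (nat_lit 600) (nat_lit 555) (nat_lit 405)) (XT.lf (nat_lit 0) (nat_lit 3733885977) (nat_lit 760) (nat_lit 5334734728) (nat_lit 76) (nat_lit 4507536648) (nat_lit 338) (nat_lit 5) (nat_lit 348) (nat_lit 5) (nat_lit 339) (nat_lit 5) (nat_lit 601) (nat_lit 555) (nat_lit 404)))))) (XT.nd (nat_lit 390) (nat_lit 2584) (nat_lit 0) (XT.nd (nat_lit 156) (nat_lit 1444) (nat_lit 0) (XT.nd (nat_lit 78) (nat_lit 0) (nat_lit 0) (XT.lf (nat_lit 0) (nat_lit 2554105960) (nat_lit 760) (nat_lit 3515559500) (nat_lit 836) (nat_lit 7654448569) (nat_lit 328) (nat_lit 5) (nat_lit 338) (nat_lit 5) (nat_lit 339) (nat_lit 5) (nat_lit 602) (nat_lit 555) (nat_lit 403)) (XT.lf (nat_lit 0) (nat_lit 8490301096) (nat_lit 836) (nat_lit 3229151354) (nat_lit 76) (nat_lit 2154815498) (nat_lit 328) (nat_lit 5) (nat_lit 339) (nat_lit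 5) (nat_lit 329) (nat_lit 5) (nat_lit 603) (nat_lit 555) (nat_lit 402))) (XT.nd (nat_lit 78) (nat_lit 760) (nat_lit 0) (XT.lf (nat_lit 0) (nat_lit 4898060259) (nat_lit 684) (nat_lit 6104759462) (nat_lit 760) (nat_lit 3023736721) (nat_lit 319) (nat_lit 5) (nat_lit 328) (nat_lit 5) (nat_lit 329) (nat_lit 5) (nat_lit 604) (nat_lit 555) (nat_lit 401)) (XT.nd (nat_lit 78) (nat_lit 760) (nat_lit 0) (XT.lf (nat_lit 0) (nat_lit 13218257061) (nat_lit 684) (nat_lit 357529087) (nat_lit 760) (nat_lit 605901494) (nat_lit 319) (nat_lit 5) (nat_lit 328) (nat_lit 5) (nat_lit 329) (nat_lit 5) (nat_lit 605) (nat_lit 555) (nat_lit 400)) (XT.lf (nat_lit 0) (nat_lit 1908984457) (nat_lit 760) (nat_lit 6937891668) (nat_lit 76) (nat_lit 5491342783) (nat_lit 309) (nat_lit 5) (nat_lit 319) (nat_lit 5) (nat_lit 310) (nat_lit 5) (nat_lit 606) (nat_lit 555) (nat_lit 399))))) (XT.nd (nat_lit 234) (nat_lit 1292) (nat_lit 0) (XT.nd (nat_lit 78) (nat_lit 684) (nat_lit 0) (XT.lf (nat_lit 0) (nat_lit 1445861988)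 (nat_lit 608) (nat_lit 3027265686) (nat_lit 684) (nat_lit 10024532409) (nat_lit 301) (nat_lit 5) (nat_lit 309) (nat_lit 5) (nat_lit 310) (nat_lit 5) (nat_lit 607) (nat_lit 555) (nat_lit 398)) (XT.nd (nat_lit 78) (nat_lit 684) (nat_lit 0) (XT.lf (nat_lit 0) (nat_lit 7143225488) (nat_lit 684) (nat_lit 4600682999) (nat_lit 76) (nat_lit 2915288975) (nat_lit 301) (nat_lit 5) (nat_lit 310) (nat_lit 5) (nat_lit 302) (nat_lit 5) (nat_lit 608) (nat_lit 555) (nat_lit 397)) (XT.lf (nat_lit 0) (nat_lit 4039178930) (nat_lit 684) (nat_lit 5862957763) (nat_lit 760) (nat_lit 4921121469) (nat_lit 292) (nat_lit 5) (nat_lit 301) (nat_lit 5) (nat_lit 302) (nat_lit 5) (nat_lit 609) (nat_lit 555) (nat_lit 396)))) (XT.nd (nat_lit 78) (nat_lit 1292) (nat_lit 0) (XT.lf (nat_lit 0) (nat_lit 12737434719) (nat_lit 760) (nat_lit 2090181045) (nat_lit 76) (nat_lit 162560924) (nat_lit 292) (nat_lit 5) (nat_lit 302) (nat_lit 5) (nat_lit 293) (nat_lit 5) (nat_lit 610) (nat_lit 555) (nat_lit 395)) (XT.nd (nat_lit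 78) (nat_lit 608) (nat_lit 0) (XT.lf (nat_lit 0) (nat_lit 535870724) (nat_lit 684) (nat_lit 8347414294) (nat_lit 76) (nat_lit 6275628087) (nat_lit 283) (nat_lit 5) (nat_lit 292) (nat_lit 5) (nat_lit 284) (nat_lit 5) (nat_lit 611) (nat_lit 555) (nat_lit 394)) (XT.lf (nat_lit 0) (nat_lit 568132759) (nat_lit 608) (nat_lit 2789308832) (nat_lit 684) (nat_lit 11973138583) (nat_lit 275) (nat_lit 5) (nat_lit 283) (nat_lit 5) (nat_lit 284) (nat_lit 5) (nat_lit 612) (nat_lit 555) (nat_lit 393))))))))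
noncomputable def xc145 : XT := (XT.nd (nat_lit 1560) (nat_lit 4560) (nat_lit 0) (XT.nd (nat_lit 780) (nat_lit 3040) (nat_lit 0) (XT.nd (nat_lit 390) (nat_lit 1672) (nat_lit 0) (XT.nd (nat_lit 156) (nat_lit 684) (nat_lit 0) (XT.nd (nat_lit 78) (nat_lit 608) (nat_lit 0) (XT.lf (nat_lit 0) (nat_lit 6303695744) (nat_lit 684) (nat_lit 5765249220) (nat_lit 76) (nat_lit 3435371309) (nat_lit 275) (nat_lit 5) (nat_lit 284) (nat_lit 5) (nat_lit 276) (nat_lit 5) (nat_lit 613) (nat_lit 555) (nat_lit 392)) (XT.lf (nat_lit 0) (nat_lit 3425391676) (nat_lit 608) (nat_lit 5914016977) (nat_lit 684) (nat_lit 6341508479) (nat_lit 267) (nat_lit 5) (nat_lit 275) (nat_lit 5) (nat_lit 276) (nat_lit 5) (nat_lit 614) (nat_lit 555) (nat_lit 391))) (XT.nd (nat_lit 78) (nat_lit 684) (nat_lit 0) (XT.lf (nat_lit 0) (nat_lit 12467062604) (nat_lit 684) (nat_lit 2997953144) (nat_lit 76) (nat_lit 395410420) (nat_lit 267) (nat_lit 5) (nat_lit 276) (nat_lit 5) (nat_lit 268) (nat_lit 5) (nat_lit 615) (nat_lit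 555) (nat_lit 390)) (XT.nd (nat_lit 78) (nat_lit 76) (nat_lit 0) (XT.lf (nat_lit 0) (nat_lit 6477765772) (nat_lit 608) (nat_lit 9250844474) (nat_lit 684) (nat_lit 313489012) (nat_lit 259) (nat_lit 5) (nat_lit 267) (nat_lit 5) (nat_lit 268) (nat_lit 5) (nat_lit 616) (nat_lit 555) (nat_lit 389)) (XT.lf (nat_lit 0) (nat_lit 2801307458) (nat_lit 684) (nat_lit 74704143) (nat_lit 76) (nat_lit 13350819362) (nat_lit 258) (nat_lit 5) (nat_lit 267) (nat_lit 5) (nat_lit 259) (nat_lit 5) (nat_lit 617) (nat_lit 555) (nat_lit 388))))) (XT.nd (nat_lit 156) (nat_lit 608) (nat_lit 0) (XT.nd (nat_lit 78) (nat_lit 532) (nat_lit 0) (XT.lf (nat_lit 0) (nat_lit 6051611249) (nat_lit 608) (nat_lit 6720607549) (nat_lit 76) (nat_lit 3641449528) (nat_lit 251) (nat_lit 5) (nat_lit 259) (nat_lit 5) (nat_lit 252) (nat_lit 5) (nat_lit 618) (nat_lit 555) (nat_lit 387)) (XT.lf (nat_lit 0) (nat_lit 3061381214) (nat_lit 532) (nat_lit 6335411810) (nat_lit 608) (nat_lit 7206852603) (nat_lit 244) (nat_lit 5) (nat_lit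 251) (nat_lit 5) (nat_lit 252) (nat_lit 5) (nat_lit 619) (nat_lit 555) (nat_lit 386))) (XT.nd (nat_lit 78) (nat_lit 608) (nat_lit 0) (XT.lf (nat_lit 0) (nat_lit 12846299557) (nat_lit 608) (nat_lit 3680970553) (nat_lit 76) (nat_lit 269404561) (nat_lit 244) (nat_lit 5) (nat_lit 252) (nat_lit 5) (nat_lit 245) (nat_lit 5) (nat_lit 620) (nat_lit 555) (nat_lit 385)) (XT.nd (nat_lit 78) (nat_lit 76) (nat_lit 0) (XT.lf (nat_lit 0) (nat_lit 6407106920) (nat_lit 532) (nat_lit 10031960029) (nat_lit 608) (nat_lit 553012540) (nat_lit 237) (nat_lit 5) (nat_lit 244) (nat_lit 5) (nat_lit 245) (nat_lit 5) (nat_lit 621) (nat_lit 555) (nat_lit 384)) (XT.lf (nat_lit 0) (nat_lit 2889721908) (nat_lit 608) (nat_lit 475685415) (nat_lit 76) (nat_lit 13825295093) (nat_lit 236) (nat_lit 5) (nat_lit 244) (nat_lit 5) (nat_lit 237) (nat_lit 5) (nat_lit 622) (nat_lit 555) (nat_lit 383)))))) (XT.nd (nat_lit 390) (nat_lit 1444) (nat_lit 0) (XT.nd (nat_lit 156) (nat_lit 608) (nat_lit 0) (XT.nd (nat_lit 78)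 (nat_lit 456) (nat_lit 0) (XT.lf (nat_lit 0) (nat_lit 6472183444) (nat_lit 608) (nat_lit 7464530052) (nat_lit 76) (nat_lit 3454946225) (nat_lit 229) (nat_lit 5) (nat_lit 237) (nat_lit 5) (nat_lit 230) (nat_lit 5) (nat_lit 623) (nat_lit 555) (nat_lit 382)) (XT.lf (nat_lit 0) (nat_lit 2951893974) (nat_lit 456) (nat_lit 7210080075) (nat_lit 532) (nat_lit 7433949087) (nat_lit 223) (nat_lit 5) (nat_lit 229) (nat_lit 5) (nat_lit 230) (nat_lit 5) (nat_lit 624) (nat_lit 555) (nat_lit 381))) (XT.nd (nat_lit 78) (nat_lit 608) (nat_lit 0) (XT.lf (nat_lit 0) (nat_lit 13665522850) (nat_lit 456) (nat_lit 301238321) (nat_lit 532) (nat_lit 3836687185) (nat_lit 223) (nat_lit 5) (nat_lit 229) (nat_lit 5) (nat_lit 230) (nat_lit 5) (nat_lit 625) (nat_lit 555) (nat_lit 380)) (XT.nd (nat_lit 78) (nat_lit 76) (nat_lit 0) (XT.lf (nat_lit 0) (nat_lit 6608960765) (nat_lit 532) (nat_lit 11316653453) (nat_lit 608) (nat_lit 87950996) (nat_lit 216) (nat_lit 5) (nat_lit 223) (nat_lit 5) (nat_lit 224) (nat_lit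 5) (nat_lit 626) (nat_lit 555) (nat_lit 379)) (XT.lf (nat_lit 0) (nat_lit 3708008343) (nat_lit 608) (nat_lit 639142379) (nat_lit 76) (nat_lit 13879824234) (nat_lit 215) (nat_lit 5) (nat_lit 223) (nat_lit 5) (nat_lit 216) (nat_lit 5) (nat_lit 627) (nat_lit 555) (nat_lit 378))))) (XT.nd (nat_lit 156) (nat_lit 532) (nat_lit 0) (XT.nd (nat_lit 78) (nat_lit 456) (nat_lit 0) (XT.lf (nat_lit 0) (nat_lit 7656494533) (nat_lit 532) (nat_lit 7995516359) (nat_lit 76) (nat_lit 2791075174) (nat_lit 209) (nat_lit 5) (nat_lit 216) (nat_lit 5) (nat_lit 210) (nat_lit 5) (nat_lit 628) (nat_lit 555) (nat_lit 377)) (XT.lf (nat_lit 0) (nat_lit 3101016865) (nat_lit 456) (nat_lit 8627708760) (nat_lit 532) (nat_lit 6933898768) (nat_lit 203) (nat_lit 5) (nat_lit 209) (nat_lit 5) (nat_lit 210) (nat_lit 5) (nat_lit 629) (nat_lit 555) (nat_lit 376))) (XT.nd (nat_lit 78) (nat_lit 532) (nat_lit 0) (XT.lf (nat_lit 0) (nat_lit 14515859364) (nat_lit 456) (nat_lit 1411819011) (nat_lit 532) (nat_lit 2957970060)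 (nat_lit 203) (nat_lit 5) (nat_lit 209) (nat_lit 5) (nat_lit 210) (nat_lit 5) (nat_lit 630) (nat_lit 555) (nat_lit 375)) (XT.nd (nat_lit 78) (nat_lit 0) (nat_lit 0) (XT.lf (nat_lit 0) (nat_lit 1159996064) (nat_lit 532) (nat_lit 12030936675) (nat_lit 76) (nat_lit 5920519926) (nat_lit 196) (nat_lit 5) (nat_lit 203) (nat_lit 5) (nat_lit 197) (nat_lit 5) (nat_lit 631) (nat_lit 555) (nat_lit 374)) (XT.lf (nat_lit 0) (nat_lit 5351413213) (nat_lit 532) (nat_lit 563199098) (nat_lit 76) (nat_lit 13426156108) (nat_lit 196) (nat_lit 5) (nat_lit 203) (nat_lit 5) (nat_lit 197) (nat_lit 5) (nat_lit 632) (nat_lit 555) (nat_lit 373))))))) (XT.nd (nat_lit 780) (nat_lit 1596) (nat_lit 0) (XT.nd (nat_lit 390) (nat_lit 1596) (nat_lit 0) (XT.nd (nat_lit 156) (nat_lit 532) (nat_lit 0) (XT.nd (nat_lit 78) (nat_lit 380) (nat_lit 0) (XT.lf (nat_lit 0) (nat_lit 9702032984) (nat_lit 532) (nat_lit 8313619993) (nat_lit 76) (nat_lit 1557510476) (nat_lit 190) (nat_lit 5) (nat_lit 197) (nat_lit 5) (nat_lit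 191) (nat_lit 5) (nat_lit 633) (nat_lit 555) (nat_lit 372)) (XT.lf (nat_lit 0) (nat_lit 3511336605) (nat_lit 380) (nat_lit 10686114129) (nat_lit 456) (nat_lit 5611600385) (nat_lit 185) (nat_lit 5) (nat_lit 190) (nat_lit 5) (nat_lit 191) (nat_lit 5) (nat_lit 634) (nat_lit 555) (nat_lit 371))) (XT.nd (nat_lit 78) (nat_lit 532) (nat_lit 0) (XT.lf (nat_lit 0) (nat_lit 15673798103) (nat_lit 380) (nat_lit 3156861863) (nat_lit 456) (nat_lit 1218039342) (nat_lit 185) (nat_lit 5) (nat_lit 190) (nat_lit 5) (nat_lit 191) (nat_lit 5) (nat_lit 635) (nat_lit 555) (nat_lit 370)) (XT.nd (nat_lit 78) (nat_lit 0) (nat_lit 0) (XT.lf (nat_lit 0) (nat_lit 3293621084) (nat_lit 532) (nat_lit 12465013555) (nat_lit 76) (nat_lit 4532621914) (nat_lit 178) (nat_lit 5) (nat_lit 185) (nat_lit 5) (nat_lit 179) (nat_lit 5) (nat_lit 636) (nat_lit 555) (nat_lit 369)) (XT.lf (nat_lit 0) (nat_lit 7921930708) (nat_lit 532) (nat_lit 248148908) (nat_lit 76) (nat_lit 12367570200) (nat_lit 178) (nat_lit 5) (nat_lit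 185) (nat_lit 5) (nat_lit 179) (nat_lit 5) (nat_lit 637) (nat_lit 555) (nat_lit 368))))) (XT.nd (nat_lit 156) (nat_lit 836) (nat_lit 0) (XT.nd (nat_lit 78) (nat_lit 380) (nat_lit 0) (XT.lf (nat_lit 0) (nat_lit 12363817636) (nat_lit 380) (nat_lit 351666530) (nat_lit 456) (nat_lit 8072033625) (nat_lit 173) (nat_lit 5) (nat_lit 178) (nat_lit 5) (nat_lit 179) (nat_lit 5) (nat_lit 638) (nat_lit 555) (nat_lit 367)) (XT.lf (nat_lit 0) (nat_lit 4182951889) (nat_lit 380) (nat_lit 13492740256) (nat_lit 456) (nat_lit 3365275704) (nat_lit 168) (nat_lit 5) (nat_lit 173) (nat_lit 5) (nat_lit 174) (nat_lit 5) (nat_lit 639) (nat_lit 555) (nat_lit 366))) (XT.nd (nat_lit 78) (nat_lit 760) (nat_lit 0) (XT.lf (nat_lit 0) (nat_lit 1468498432) (nat_lit 456) (nat_lit 4165923573) (nat_lit 76) (nat_lit 15663844673) (nat_lit 167) (nat_lit 5) (nat_lit 173) (nat_lit 5) (nat_lit 168) (nat_lit 5) (nat_lit 640) (nat_lit 555) (nat_lit 365)) (XT.nd (nat_lit 78) (nat_lit 380) (nat_lit 0) (XT.lf (nat_lit 0)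 (nat_lit 6420060968) (nat_lit 456) (nat_lit 12712506115) (nat_lit 76) (nat_lit 2426376401) (nat_lit 162) (nat_lit 5) (nat_lit 168) (nat_lit 5) (nat_lit 163) (nat_lit 5) (nat_lit 641) (nat_lit 555) (nat_lit 364)) (XT.lf (nat_lit 0) (nat_lit 306473318) (nat_lit 380) (nat_lit 11224299162) (nat_lit 456) (nat_lit 10292859355) (nat_lit 157) (nat_lit 5) (nat_lit 162) (nat_lit 5) (nat_lit 163) (nat_lit 5) (nat_lit 642) (nat_lit 555) (nat_lit 363)))))) (XT.nd (nat_lit 390) (nat_lit 456) (nat_lit 0) (XT.nd (nat_lit 156) (nat_lit 760) (nat_lit 0) (XT.nd (nat_lit 78) (nat_lit 380) (nat_lit 0) (XT.lf (nat_lit 0) (nat_lit 13746940019) (nat_lit 380) (nat_lit 3074809837) (nat_lit 456) (nat_lit 5270303419) (nat_lit 157) (nat_lit 5) (nat_lit 162) (nat_lit 5) (nat_lit 163) (nat_lit 5) (nat_lit 643) (nat_lit 555) (nat_lit 362)) (XT.lf (nat_lit 0) (nat_lit 5112304030) (nat_lit 380) (nat_lit 17166302750) (nat_lit 456) (nat_lit 86035514) (nat_lit 152) (nat_lit 5) (nat_lit 157) (nat_lit 5) (nat_lit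 158) (nat_lit 5) (nat_lit 644) (nat_lit 555) (nat_lit 361))) (XT.nd (nat_lit 78) (nat_lit 684) (nat_lit 0) (XT.lf (nat_lit 0) (nat_lit 5203309861) (nat_lit 456) (nat_lit 3755214429) (nat_lit 76) (nat_lit 13682091327) (nat_lit 151) (nat_lit 5) (nat_lit 157) (nat_lit 5) (nat_lit 152) (nat_lit 5) (nat_lit 645) (nat_lit 555) (nat_lit 360)) (XT.nd (nat_lit 78) (nat_lit 304) (nat_lit 0) (XT.lf (nat_lit 0) (nat_lit 10133266957) (nat_lit 380) (nat_lit 522837960) (nat_lit 456) (nat_lit 12264816150) (nat_lit 146) (nat_lit 5) (nat_lit 151) (nat_lit 5) (nat_lit 152) (nat_lit 5) (nat_lit 646) (nat_lit 555) (nat_lit 359)) (XT.lf (nat_lit 0) (nat_lit 1094857770) (nat_lit 304) (nat_lit 15201106582) (nat_lit 380) (nat_lit 6909308425) (nat_lit 142) (nat_lit 5) (nat_lit 146) (nat_lit 5) (nat_lit 147) (nat_lit 5) (nat_lit 647) (nat_lit 555) (nat_lit 358))))) (XT.nd (nat_lit 74022) (nat_lit 0) (nat_lit 31844) (XT.nd (nat_lit 78) (nat_lit 456) (nat_lit 0) (XT.lf (nat_lit 0) (nat_lit 15413967468)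 (nat_lit 304) (nat_lit 6717033203) (nat_lit 380) (nat_lit 1362663572) (nat_lit 142) (nat_lit 5) (nat_lit 146) (nat_lit 5) (nat_lit 147) (nat_lit 5) (nat_lit 648) (nat_lit 555) (nat_lit 357)) (XT.nd (nat_lit 78) (nat_lit 0) (nat_lit 0) (XT.lf (nat_lit 0) (nat_lit 4285550004) (nat_lit 456) (nat_lit 17524299037) (nat_lit 76) (nat_lit 1976477805) (nat_lit 136) (nat_lit 5) (nat_lit 142) (nat_lit 5) (nat_lit 137) (nat_lit 5) (nat_lit 649) (nat_lit 555) (nat_lit 356)) (XT.lf (nat_lit 0) (nat_lit 10120816284) (nat_lit 456) (nat_lit 3148315037) (nat_lit 76) (nat_lit 10813684844) (nat_lit 136) (nat_lit 5) (nat_lit 142) (nat_lit 5) (nat_lit 137) (nat_lit 5) (nat_lit 650) (nat_lit 555) (nat_lit 355)))) (XT.nd (nat_lit 78) (nat_lit 0) (nat_lit 0) (XT.lf (nat_lit 0) (nat_lit 1859265384) (nat_lit 1596) (nat_lit 1301052647) (nat_lit 1596) (nat_lit 1301052647) (nat_lit 555) (nat_lit 3) (nat_lit 576) (nat_lit 3) (nat_lit 576) (nat_lit 5) (nat_lit 556) (nat_lit 556) (nat_lit 448)) (XT.nd (nat_lit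 78) (nat_lit 0) (nat_lit 76) (XT.lf (nat_lit 76) (nat_lit 1833692088) (nat_lit 0) (nat_lit 2853143130) (nat_lit 1596) (nat_lit 4306416773) (nat_lit 556) (nat_lit 5) (nat_lit 555) (nat_lit 3) (nat_lit 576) (nat_lit 5) (nat_lit 557) (nat_lit 556) (nat_lit 447)) (XT.lf (nat_lit 0) (nat_lit 5672405877) (nat_lit 1520) (nat_lit 2688924556) (nat_lit 1596) (nat_lit 703886876) (nat_lit 556) (nat_lit 5) (nat_lit 576) (nat_lit 5) (nat_lit 577) (nat_lit 5) (nat_lit 558) (nat_lit 556) (nat_lit 446))))))))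
noncomputable def xc146 : XT := (XT.nd (nat_lit 1560) (nat_lit 12160) (nat_lit 0) (XT.nd (nat_lit 780) (nat_lit 1368) (nat_lit 0) (XT.nd (nat_lit 390) (nat_lit 0) (nat_lit 76) (XT.nd (nat_lit 156) (nat_lit 1520) (nat_lit 0) (XT.nd (nat_lit 78) (nat_lit 0) (nat_lit 0) (XT.lf (nat_lit 76) (nat_lit 1863905414) (nat_lit 0) (nat_lit 4821136050) (nat_lit 1596) (nat_lit 2453435829) (nat_lit 557) (nat_lit 5) (nat_lit 556) (nat_lit 5) (nat_lit 577) (nat_lit 5) (nat_lit 559) (nat_lit 556) (nat_lit 445)) (XT.lf (nat_lit 76) (nat_lit 6531556518) (nat_lit 0) (nat_lit 1181155395) (nat_lit 1596) (nat_lit 1500597299) (nat_lit 557) (nat_lit 5) (nat_lit 556) (nat_lit 5) (nat_lit 577) (nat_lit 5) (nat_lit 560) (nat_lit 556) (nat_lit 444))) (XT.nd (nat_lit 78) (nat_lit 1596) (nat_lit 0) (XT.lf (nat_lit 76) (nat_lit 1999751375) (nat_lit 0) (nat_lit 6767866592) (nat_lit 1596) (nat_lit 521888490) (nat_lit 558) (nat_lit 5) (nat_lit 557) (nat_lit 5) (nat_lit 578) (nat_lit 5) (nat_lit 561) (nat_lit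 556) (nat_lit 443)) (XT.nd (nat_lit 78) (nat_lit 0) (nat_lit 76) (XT.lf (nat_lit 0) (nat_lit 473557170) (nat_lit 1596) (nat_lit 2579842754) (nat_lit 1672) (nat_lit 6313699894) (nat_lit 536) (nat_lit 5) (nat_lit 557) (nat_lit 5) (nat_lit 558) (nat_lit 5) (nat_lit 562) (nat_lit 556) (nat_lit 442)) (XT.lf (nat_lit 0) (nat_lit 1479323811) (nat_lit 1596) (nat_lit 7214048546) (nat_lit 1672) (nat_lit 752857890) (nat_lit 537) (nat_lit 5) (nat_lit 558) (nat_lit 5) (nat_lit 559) (nat_lit 5) (nat_lit 563) (nat_lit 556) (nat_lit 441))))) (XT.nd (nat_lit 156) (nat_lit 0) (nat_lit 76) (XT.nd (nat_lit 78) (nat_lit 0) (nat_lit 0) (XT.lf (nat_lit 0) (nat_lit 2521176232) (nat_lit 1596) (nat_lit 2384844997) (nat_lit 1672) (nat_lit 4620604802) (nat_lit 537) (nat_lit 5) (nat_lit 558) (nat_lit 5) (nat_lit 559) (nat_lit 5) (nat_lit 564) (nat_lit 556) (nat_lit 440)) (XT.lf (nat_lit 76) (nat_lit 2561468896) (nat_lit 0) (nat_lit 1017775111) (nat_lit 1672) (nat_lit 6029480271) (nat_lit 538) (nat_lit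 5) (nat_lit 537) (nat_lit 5) (nat_lit 559) (nat_lit 5) (nat_lit 565) (nat_lit 556) (nat_lit 439))) (XT.nd (nat_lit 78) (nat_lit 0) (nat_lit 0) (XT.lf (nat_lit 0) (nat_lit 4672856108) (nat_lit 1596) (nat_lit 2085809927) (nat_lit 1672) (nat_lit 2933512867) (nat_lit 538) (nat_lit 5) (nat_lit 559) (nat_lit 5) (nat_lit 560) (nat_lit 5) (nat_lit 566) (nat_lit 556) (nat_lit 438)) (XT.nd (nat_lit 78) (nat_lit 0) (nat_lit 76) (XT.lf (nat_lit 76) (nat_lit 2994203634) (nat_lit 0) (nat_lit 2799858110) (nat_lit 1672) (nat_lit 3983128480) (nat_lit 539) (nat_lit 5) (nat_lit 538) (nat_lit 5) (nat_lit 560) (nat_lit 5) (nat_lit 567) (nat_lit 556) (nat_lit 437)) (XT.lf (nat_lit 0) (nat_lit 6939722304) (nat_lit 1596) (nat_lit 1681215970) (nat_lit 1672) (nat_lit 1242924873) (nat_lit 539) (nat_lit 5) (nat_lit 560) (nat_lit 5) (nat_lit 561) (nat_lit 5) (nat_lit 568) (nat_lit 556) (nat_lit 436)))))) (XT.nd (nat_lit 390) (nat_lit 0) (nat_lit 76) (XT.nd (nat_lit 156) (nat_lit 1596) (nat_lit 0) (XT.nd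 (nat_lit 78) (nat_lit 0) (nat_lit 0) (XT.lf (nat_lit 76) (nat_lit 3537150204) (nat_lit 0) (nat_lit 4592950072) (nat_lit 1672) (nat_lit 1821735123) (nat_lit 540) (nat_lit 5) (nat_lit 539) (nat_lit 5) (nat_lit 561) (nat_lit 5) (nat_lit 569) (nat_lit 556) (nat_lit 435)) (XT.lf (nat_lit 76) (nat_lit 8869472335) (nat_lit 0) (nat_lit 466692517) (nat_lit 1672) (nat_lit 705566575) (nat_lit 540) (nat_lit 5) (nat_lit 539) (nat_lit 5) (nat_lit 561) (nat_lit 5) (nat_lit 570) (nat_lit 556) (nat_lit 434))) (XT.nd (nat_lit 78) (nat_lit 0) (nat_lit 0) (XT.lf (nat_lit 0) (nat_lit 459993750) (nat_lit 1672) (nat_lit 5943463851) (nat_lit 1748) (nat_lit 3729258473) (nat_lit 518) (nat_lit 5) (nat_lit 540) (nat_lit 5) (nat_lit 541) (nat_lit 5) (nat_lit 571) (nat_lit 556) (nat_lit 433)) (XT.nd (nat_lit 78) (nat_lit 0) (nat_lit 76) (XT.lf (nat_lit 0) (nat_lit 1631613339) (nat_lit 1672) (nat_lit 572822119) (nat_lit 1748) (nat_lit 8021149571) (nat_lit 518) (nat_lit 5) (nat_lit 540) (nat_lit 5) (nat_lit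 541) (nat_lit 5) (nat_lit 572) (nat_lit 556) (nat_lit 432)) (XT.lf (nat_lit 0) (nat_lit 2854138189) (nat_lit 1672) (nat_lit 5376799081) (nat_lit 1748) (nat_lit 2088826404) (nat_lit 519) (nat_lit 5) (nat_lit 541) (nat_lit 5) (nat_lit 542) (nat_lit 5) (nat_lit 573) (nat_lit 556) (nat_lit 431))))) (XT.nd (nat_lit 156) (nat_lit 0) (nat_lit 76) (XT.nd (nat_lit 78) (nat_lit 0) (nat_lit 76) (XT.lf (nat_lit 76) (nat_lit 134651461) (nat_lit 0) (nat_lit 3967659972) (nat_lit 1748) (nat_lit 6313492236) (nat_lit 520) (nat_lit 5) (nat_lit 519) (nat_lit 5) (nat_lit 542) (nat_lit 5) (nat_lit 574) (nat_lit 556) (nat_lit 430)) (XT.lf (nat_lit 0) (nat_lit 5396393284) (nat_lit 1672) (nat_lit 4700411177) (nat_lit 1748) (nat_lit 416542798) (nat_lit 520) (nat_lit 5) (nat_lit 542) (nat_lit 5) (nat_lit 543) (nat_lit 5) (nat_lit 575) (nat_lit 556) (nat_lit 429))) (XT.nd (nat_lit 78) (nat_lit 0) (nat_lit 0) (XT.lf (nat_lit 76) (nat_lit 964721882) (nat_lit 0) (nat_lit 5766676454) (nat_lit 1748) (nat_lit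 3881144221) (nat_lit 521) (nat_lit 5) (nat_lit 520) (nat_lit 5) (nat_lit 543) (nat_lit 5) (nat_lit 576) (nat_lit 556) (nat_lit 428)) (XT.nd (nat_lit 78) (nat_lit 0) (nat_lit 76) (XT.lf (nat_lit 76) (nat_lit 6793362985) (nat_lit 0) (nat_lit 1314040176) (nat_lit 1748) (nat_lit 2606034240) (nat_lit 521) (nat_lit 5) (nat_lit 520) (nat_lit 5) (nat_lit 543) (nat_lit 5) (nat_lit 577) (nat_lit 556) (nat_lit 427)) (XT.lf (nat_lit 76) (nat_lit 1912748290) (nat_lit 0) (nat_lit 7614673948) (nat_lit 1748) (nat_lit 1288599622) (nat_lit 522) (nat_lit 5) (nat_lit 521) (nat_lit 5) (nat_lit 544) (nat_lit 5) (nat_lit 578) (nat_lit 556) (nat_lit 426))))))) (XT.nd (nat_lit 780) (nat_lit 5092) (nat_lit 0) (XT.nd (nat_lit 390) (nat_lit 3876) (nat_lit 0) (XT.nd (nat_lit 156) (nat_lit 1672) (nat_lit 0) (XT.nd (nat_lit 78) (nat_lit 0) (nat_lit 76) (XT.lf (nat_lit 0) (nat_lit 72892945) (nat_lit 1748) (nat_lit 3027744631) (nat_lit 1824) (nat_lit 7819646146) (nat_lit 498) (nat_lit 5) (nat_lit 521) (nat_lit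 5) (nat_lit 522) (nat_lit 5) (nat_lit 579) (nat_lit 556) (nat_lit 425)) (XT.lf (nat_lit 0) (nat_lit 1457286841) (nat_lit 1748) (nat_lit 8053967318) (nat_lit 76) (nat_lit 1514949302) (nat_lit 499) (nat_lit 5) (nat_lit 522) (nat_lit 5) (nat_lit 500) (nat_lit 5) (nat_lit 580) (nat_lit 556) (nat_lit 424))) (XT.nd (nat_lit 78) (nat_lit 1748) (nat_lit 0) (XT.lf (nat_lit 0) (nat_lit 2894187403) (nat_lit 1748) (nat_lit 2034973750) (nat_lit 76) (nat_lit 6204585545) (nat_lit 499) (nat_lit 5) (nat_lit 522) (nat_lit 5) (nat_lit 500) (nat_lit 5) (nat_lit 581) (nat_lit 556) (nat_lit 423)) (XT.nd (nat_lit 78) (nat_lit 0) (nat_lit 0) (XT.lf (nat_lit 0) (nat_lit 4145306976) (nat_lit 1748) (nat_lit 225582543) (nat_lit 1824) (nat_lit 6872331462) (nat_lit 476) (nat_lit 5) (nat_lit 499) (nat_lit 5) (nat_lit 500) (nat_lit 5) (nat_lit 582) (nat_lit 556) (nat_lit 422)) (XT.lf (nat_lit 0) (nat_lit 5904944845) (nat_lit 1824) (nat_lit 921308255) (nat_lit 76) (nat_lit 4528076689) (nat_lit 476) (nat_lit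 5) (nat_lit 500) (nat_lit 5) (nat_lit 477) (nat_lit 5) (nat_lit 583) (nat_lit 556) (nat_lit 421))))) (XT.nd (nat_lit 156) (nat_lit 988) (nat_lit 0) (XT.nd (nat_lit 78) (nat_lit 1064) (nat_lit 0) (XT.lf (nat_lit 0) (nat_lit 5435188562) (nat_lit 1824) (nat_lit 2055969695) (nat_lit 1900) (nat_lit 3976074369) (nat_lit 452) (nat_lit 5) (nat_lit 476) (nat_lit 5) (nat_lit 477) (nat_lit 5) (nat_lit 584) (nat_lit 556) (nat_lit 420)) (XT.lf (nat_lit 0) (nat_lit 321307706) (nat_lit 1064) (nat_lit 8799259399) (nat_lit 1140) (nat_lit 2461598358) (nat_lit 438) (nat_lit 5) (nat_lit 452) (nat_lit 5) (nat_lit 453) (nat_lit 5) (nat_lit 585) (nat_lit 556) (nat_lit 419))) (XT.nd (nat_lit 78) (nat_lit 988) (nat_lit 0) (XT.lf (nat_lit 0) (nat_lit 6856128850) (nat_lit 1064) (nat_lit 3965566263) (nat_lit 1140) (nat_lit 876920566) (nat_lit 438) (nat_lit 5) (nat_lit 452) (nat_lit 5) (nat_lit 453) (nat_lit 5) (nat_lit 586) (nat_lit 556) (nat_lit 418)) (XT.nd (nat_lit 78) (nat_lit 0) (nat_lit 0) (XT.lf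 (nat_lit 0) (nat_lit 732542047) (nat_lit 988) (nat_lit 10115390354) (nat_lit 76) (nat_lit 969311980) (nat_lit 425) (nat_lit 5) (nat_lit 438) (nat_lit 5) (nat_lit 426) (nat_lit 5) (nat_lit 587) (nat_lit 556) (nat_lit 417)) (XT.lf (nat_lit 0) (nat_lit 2406963960) (nat_lit 988) (nat_lit 3540863821) (nat_lit 76) (nat_lit 5989412970) (nat_lit 425) (nat_lit 5) (nat_lit 438) (nat_lit 5) (nat_lit 426) (nat_lit 5) (nat_lit 588) (nat_lit 556) (nat_lit 416)))))) (XT.nd (nat_lit 390) (nat_lit 2508) (nat_lit 0) (XT.nd (nat_lit 156) (nat_lit 1672) (nat_lit 0) (XT.nd (nat_lit 78) (nat_lit 0) (nat_lit 0) (XT.lf (nat_lit 0) (nat_lit 3193600325) (nat_lit 912) (nat_lit 927820891) (nat_lit 988) (nat_lit 7938086132) (nat_lit 413) (nat_lit 5) (nat_lit 425) (nat_lit 5) (nat_lit 426) (nat_lit 5) (nat_lit 589) (nat_lit 556) (nat_lit 415)) (XT.lf (nat_lit 0) (nat_lit 5907314747) (nat_lit 988) (nat_lit 2114005871) (nat_lit 76) (nat_lit 4162156931) (nat_lit 413) (nat_lit 5) (nat_lit 426) (nat_lit 5)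 (nat_lit 414) (nat_lit 5) (nat_lit 590) (nat_lit 556) (nat_lit 414))) (XT.nd (nat_lit 78) (nat_lit 836) (nat_lit 0) (XT.lf (nat_lit 0) (nat_lit 4816592108) (nat_lit 836) (nat_lit 2936033081) (nat_lit 912) (nat_lit 4556829172) (nat_lit 402) (nat_lit 5) (nat_lit 413) (nat_lit 5) (nat_lit 414) (nat_lit 5) (nat_lit 591) (nat_lit 556) (nat_lit 413)) (XT.nd (nat_lit 78) (nat_lit 836) (nat_lit 0) (XT.lf (nat_lit 0) (nat_lit 9650203054) (nat_lit 912) (nat_lit 551470461) (nat_lit 76) (nat_lit 2235971138) (nat_lit 402) (nat_lit 5) (nat_lit 414) (nat_lit 5) (nat_lit 403) (nat_lit 5) (nat_lit 592) (nat_lit 556) (nat_lit 412)) (XT.lf (nat_lit 0) (nat_lit 6582346891) (nat_lit 836) (nat_lit 5052298283) (nat_lit 912) (nat_lit 932776467) (nat_lit 391) (nat_lit 5) (nat_lit 402) (nat_lit 5) (nat_lit 403) (nat_lit 5) (nat_lit 593) (nat_lit 556) (nat_lit 411))))) (XT.nd (nat_lit 234) (nat_lit 760) (nat_lit 0) (XT.nd (nat_lit 78) (nat_lit 836) (nat_lit 0) (XT.lf (nat_lit 0) (nat_lit 945907776)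 (nat_lit 912) (nat_lit 11538910867) (nat_lit 76) (nat_lit 214862038) (nat_lit 379) (nat_lit 5) (nat_lit 391) (nat_lit 5) (nat_lit 380) (nat_lit 5) (nat_lit 594) (nat_lit 556) (nat_lit 410)) (XT.nd (nat_lit 78) (nat_lit 836) (nat_lit 0) (XT.lf (nat_lit 0) (nat_lit 2910564244) (nat_lit 912) (nat_lit 4356570672) (nat_lit 76) (nat_lit 5566109981) (nat_lit 379) (nat_lit 5) (nat_lit 391) (nat_lit 5) (nat_lit 380) (nat_lit 5) (nat_lit 595) (nat_lit 556) (nat_lit 409)) (XT.lf (nat_lit 0) (nat_lit 2995420105) (nat_lit 836) (nat_lit 1925785941) (nat_lit 912) (nat_lit 8048141566) (nat_lit 368) (nat_lit 5) (nat_lit 379) (nat_lit 5) (nat_lit 380) (nat_lit 5) (nat_lit 596) (nat_lit 556) (nat_lit 408)))) (XT.nd (nat_lit 78) (nat_lit 760) (nat_lit 0) (XT.lf (nat_lit 0) (nat_lit 7011763357) (nat_lit 912) (nat_lit 2590589093) (nat_lit 76) (nat_lit 3505026912) (nat_lit 368) (nat_lit 5) (nat_lit 380) (nat_lit 5) (nat_lit 369) (nat_lit 5) (nat_lit 597) (nat_lit 556) (nat_lit 407)) (XT.nd (nat_lit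 78) (nat_lit 0) (nat_lit 0) (XT.lf (nat_lit 0) (nat_lit 4979793754) (nat_lit 760) (nat_lit 4197075193) (nat_lit 836) (nat_lit 4070649073) (nat_lit 358) (nat_lit 5) (nat_lit 368) (nat_lit 5) (nat_lit 369) (nat_lit 5) (nat_lit 598) (nat_lit 556) (nat_lit 406)) (XT.lf (nat_lit 0) (nat_lit 11399125062) (nat_lit 836) (nat_lit 675404801) (nat_lit 76) (nat_lit 1315653616) (nat_lit 358) (nat_lit 5) (nat_lit 369) (nat_lit 5) (nat_lit 359) (nat_lit 5) (nat_lit 599) (nat_lit 556) (nat_lit 405))))))))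
noncomputable def xc147 : XT := (XT.nd (nat_lit 1560) (nat_lit 6308) (nat_lit 0) (XT.nd (nat_lit 780) (nat_lit 3800) (nat_lit 0) (XT.nd (nat_lit 390) (nat_lit 2052) (nat_lit 0) (XT.nd (nat_lit 156) (nat_lit 760) (nat_lit 0) (XT.nd (nat_lit 78) (nat_lit 684) (nat_lit 0) (XT.lf (nat_lit 0) (nat_lit 190900811) (nat_lit 836) (nat_lit 6414425330) (nat_lit 76) (nat_lit 6929110500) (nat_lit 347) (nat_lit 5) (nat_lit 358) (nat_lit 5) (nat_lit 348) (nat_lit 5) (nat_lit 600) (nat_lit 556) (nat_lit 404)) (XT.lf (nat_lit 0) (nat_lit 1390889297) (nat_lit 684) (nat_lit 1000680404) (nat_lit 760) (nat_lit 11289708270) (nat_lit 338) (nat_lit 5) (nat_lit 347) (nat_lit 5) (nat_lit 348) (nat_lit 5) (nat_lit 601) (nat_lit 556) (nat_lit 403))) (XT.nd (nat_lit 78) (nat_lit 760) (nat_lit 0) (XT.lf (nat_lit 0) (nat_lit 4698453640) (nat_lit 760) (nat_lit 4435124758) (nat_lit 76) (nat_lit 4696234615) (nat_lit 338) (nat_lit 5) (nat_lit 348) (nat_lit 5) (nat_lit 339) (nat_lit 5) (nat_lit 602) (nat_lit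 556) (nat_lit 402)) (XT.nd (nat_lit 78) (nat_lit 0) (nat_lit 0) (XT.lf (nat_lit 0) (nat_lit 3604872318) (nat_lit 760) (nat_lit 3465118186) (nat_lit 836) (nat_lit 6910958850) (nat_lit 328) (nat_lit 5) (nat_lit 338) (nat_lit 5) (nat_lit 339) (nat_lit 5) (nat_lit 603) (nat_lit 556) (nat_lit 401)) (XT.lf (nat_lit 0) (nat_lit 9522573530) (nat_lit 836) (nat_lit 2297119489) (nat_lit 76) (nat_lit 2314743979) (nat_lit 328) (nat_lit 5) (nat_lit 339) (nat_lit 5) (nat_lit 329) (nat_lit 5) (nat_lit 604) (nat_lit 556) (nat_lit 400))))) (XT.nd (nat_lit 156) (nat_lit 608) (nat_lit 0) (XT.nd (nat_lit 78) (nat_lit 760) (nat_lit 0) (XT.lf (nat_lit 0) (nat_lit 5986079679) (nat_lit 684) (nat_lit 6088779857) (nat_lit 760) (nat_lit 2215122699) (nat_lit 319) (nat_lit 5) (nat_lit 328) (nat_lit 5) (nat_lit 329) (nat_lit 5) (nat_lit 605) (nat_lit 556) (nat_lit 399)) (XT.lf (nat_lit 0) (nat_lit 3239067) (nat_lit 684) (nat_lit 227740916) (nat_lit 760) (nat_lit 14217540664) (nat_lit 309) (nat_lit 5) (nat_lit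 318) (nat_lit 5) (nat_lit 319) (nat_lit 5) (nat_lit 606) (nat_lit 556) (nat_lit 398))) (XT.nd (nat_lit 78) (nat_lit 608) (nat_lit 0) (XT.lf (nat_lit 0) (nat_lit 2778822097) (nat_lit 760) (nat_lit 6085489343) (nat_lit 76) (nat_lit 5743976807) (nat_lit 309) (nat_lit 5) (nat_lit 319) (nat_lit 5) (nat_lit 310) (nat_lit 5) (nat_lit 607) (nat_lit 556) (nat_lit 397)) (XT.nd (nat_lit 78) (nat_lit 0) (nat_lit 0) (XT.lf (nat_lit 0) (nat_lit 2459418594) (nat_lit 608) (nat_lit 2924915496) (nat_lit 684) (nat_lit 9386783649) (nat_lit 301) (nat_lit 5) (nat_lit 309) (nat_lit 5) (nat_lit 310) (nat_lit 5) (nat_lit 608) (nat_lit 556) (nat_lit 396)) (XT.lf (nat_lit 0) (nat_lit 8092758125) (nat_lit 684) (nat_lit 3712228732) (nat_lit 76) (nat_lit 3131201715) (nat_lit 301) (nat_lit 5) (nat_lit 310) (nat_lit 5) (nat_lit 302) (nat_lit 5) (nat_lit 609) (nat_lit 556) (nat_lit 395)))))) (XT.nd (nat_lit 390) (nat_lit 1824) (nat_lit 0) (XT.nd (nat_lit 156) (nat_lit 1292) (nat_lit 0) (XT.nd (nat_lit 78)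 (nat_lit 0) (nat_lit 0) (XT.lf (nat_lit 0) (nat_lit 5093979989) (nat_lit 684) (nat_lit 5803374510) (nat_lit 760) (nat_lit 4206367013) (nat_lit 292) (nat_lit 5) (nat_lit 301) (nat_lit 5) (nat_lit 302) (nat_lit 5) (nat_lit 610) (nat_lit 556) (nat_lit 394)) (XT.lf (nat_lit 0) (nat_lit 13774853267) (nat_lit 760) (nat_lit 1162503180) (nat_lit 76) (nat_lit 336913210) (nat_lit 292) (nat_lit 5) (nat_lit 302) (nat_lit 5) (nat_lit 293) (nat_lit 5) (nat_lit 611) (nat_lit 556) (nat_lit 393))) (XT.nd (nat_lit 78) (nat_lit 608) (nat_lit 0) (XT.lf (nat_lit 0) (nat_lit 1325342965) (nat_lit 684) (nat_lit 7540855072) (nat_lit 76) (nat_lit 6580263286) (nat_lit 283) (nat_lit 5) (nat_lit 292) (nat_lit 5) (nat_lit 284) (nat_lit 5) (nat_lit 612) (nat_lit 556) (nat_lit 392)) (XT.nd (nat_lit 78) (nat_lit 0) (nat_lit 0) (XT.lf (nat_lit 0) (nat_lit 1546598268) (nat_lit 608) (nat_lit 2647756352) (nat_lit 684) (nat_lit 11427388003) (nat_lit 275) (nat_lit 5) (nat_lit 283) (nat_lit 5) (nat_lit 284) (nat_lit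 5) (nat_lit 613) (nat_lit 556) (nat_lit 391)) (XT.lf (nat_lit 0) (nat_lit 7185696572) (nat_lit 684) (nat_lit 4918524053) (nat_lit 76) (nat_lit 3695010621) (nat_lit 275) (nat_lit 5) (nat_lit 284) (nat_lit 5) (nat_lit 276) (nat_lit 5) (nat_lit 614) (nat_lit 556) (nat_lit 390))))) (XT.nd (nat_lit 156) (nat_lit 1216) (nat_lit 0) (XT.nd (nat_lit 78) (nat_lit 0) (nat_lit 0) (XT.lf (nat_lit 0) (nat_lit 4449600515) (nat_lit 608) (nat_lit 5823906171) (nat_lit 684) (nat_lit 5706030811) (nat_lit 267) (nat_lit 5) (nat_lit 275) (nat_lit 5) (nat_lit 276) (nat_lit 5) (nat_lit 615) (nat_lit 556) (nat_lit 389)) (XT.lf (nat_lit 0) (nat_lit 13450387066) (nat_lit 684) (nat_lit 2107573022) (nat_lit 76) (nat_lit 604944175) (nat_lit 267) (nat_lit 5) (nat_lit 276) (nat_lit 5) (nat_lit 268) (nat_lit 5) (nat_lit 616) (nat_lit 556) (nat_lit 388))) (XT.nd (nat_lit 78) (nat_lit 532) (nat_lit 0) (XT.lf (nat_lit 0) (nat_lit 415011137) (nat_lit 684) (nat_lit 8799699350) (nat_lit 76) (nat_lit 7133611960)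 (nat_lit 258) (nat_lit 5) (nat_lit 267) (nat_lit 5) (nat_lit 259) (nat_lit 5) (nat_lit 617) (nat_lit 556) (nat_lit 387)) (XT.nd (nat_lit 78) (nat_lit 0) (nat_lit 0) (XT.lf (nat_lit 0) (nat_lit 870358564) (nat_lit 532) (nat_lit 2708877200) (nat_lit 608) (nat_lit 12957645940) (nat_lit 251) (nat_lit 5) (nat_lit 258) (nat_lit 5) (nat_lit 259) (nat_lit 5) (nat_lit 618) (nat_lit 556) (nat_lit 386)) (XT.lf (nat_lit 0) (nat_lit 6882315423) (nat_lit 608) (nat_lit 5913251657) (nat_lit 76) (nat_lit 3932134275) (nat_lit 251) (nat_lit 5) (nat_lit 259) (nat_lit 5) (nat_lit 252) (nat_lit 5) (nat_lit 619) (nat_lit 556) (nat_lit 385))))))) (XT.nd (nat_lit 780) (nat_lit 3116) (nat_lit 0) (XT.nd (nat_lit 390) (nat_lit 1520) (nat_lit 0) (XT.nd (nat_lit 156) (nat_lit 1140) (nat_lit 0) (XT.nd (nat_lit 78) (nat_lit 0) (nat_lit 0) (XT.lf (nat_lit 0) (nat_lit 4058181039) (nat_lit 532) (nat_lit 6228379014) (nat_lit 608) (nat_lit 6635075885) (nat_lit 244) (nat_lit 5) (nat_lit 251) (nat_lit 5) (nat_lit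 252) (nat_lit 5) (nat_lit 620) (nat_lit 556) (nat_lit 384)) (XT.lf (nat_lit 0) (nat_lit 13792783166) (nat_lit 608) (nat_lit 2825043689) (nat_lit 76) (nat_lit 500945080) (nat_lit 244) (nat_lit 5) (nat_lit 252) (nat_lit 5) (nat_lit 245) (nat_lit 5) (nat_lit 621) (nat_lit 556) (nat_lit 383))) (XT.nd (nat_lit 78) (nat_lit 532) (nat_lit 0) (XT.lf (nat_lit 0) (nat_lit 129917914) (nat_lit 608) (nat_lit 9860411065) (nat_lit 76) (nat_lit 7327890165) (nat_lit 236) (nat_lit 5) (nat_lit 244) (nat_lit 5) (nat_lit 237) (nat_lit 5) (nat_lit 622) (nat_lit 556) (nat_lit 382)) (XT.nd (nat_lit 78) (nat_lit 0) (nat_lit 0) (XT.lf (nat_lit 0) (nat_lit 434815940) (nat_lit 532) (nat_lit 3188653706) (nat_lit 608) (nat_lit 13897485276) (nat_lit 229) (nat_lit 5) (nat_lit 236) (nat_lit 5) (nat_lit 237) (nat_lit 5) (nat_lit 623) (nat_lit 556) (nat_lit 381)) (XT.lf (nat_lit 0) (nat_lit 7269030201) (nat_lit 608) (nat_lit 6693739537) (nat_lit 76) (nat_lit 3763333472) (nat_lit 229) (nat_lit 5) (nat_lit 237)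 (nat_lit 5) (nat_lit 230) (nat_lit 5) (nat_lit 624) (nat_lit 556) (nat_lit 380))))) (XT.nd (nat_lit 156) (nat_lit 1064) (nat_lit 0) (XT.nd (nat_lit 78) (nat_lit 0) (nat_lit 0) (XT.lf (nat_lit 0) (nat_lit 3924959805) (nat_lit 456) (nat_lit 7100504954) (nat_lit 532) (nat_lit 6909130988) (nat_lit 223) (nat_lit 5) (nat_lit 229) (nat_lit 5) (nat_lit 230) (nat_lit 5) (nat_lit 625) (nat_lit 556) (nat_lit 379)) (XT.lf (nat_lit 0) (nat_lit 14834939142) (nat_lit 456) (nat_lit 58462379) (nat_lit 532) (nat_lit 3253129673) (nat_lit 223) (nat_lit 5) (nat_lit 229) (nat_lit 5) (nat_lit 230) (nat_lit 5) (nat_lit 626) (nat_lit 556) (nat_lit 378))) (XT.nd (nat_lit 78) (nat_lit 456) (nat_lit 0) (XT.lf (nat_lit 0) (nat_lit 557807009) (nat_lit 608) (nat_lit 10721979741) (nat_lit 76) (nat_lit 7081096136) (nat_lit 215) (nat_lit 5) (nat_lit 223) (nat_lit 5) (nat_lit 216) (nat_lit 5) (nat_lit 627) (nat_lit 556) (nat_lit 377)) (XT.nd (nat_lit 78) (nat_lit 0) (nat_lit 0) (XT.lf (nat_lit 0) (nat_lit 243557645)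 (nat_lit 456) (nat_lit 4173859324) (nat_lit 532) (nat_lit 14161354799) (nat_lit 209) (nat_lit 5) (nat_lit 215) (nat_lit 5) (nat_lit 216) (nat_lit 5) (nat_lit 628) (nat_lit 556) (nat_lit 376)) (XT.lf (nat_lit 0) (nat_lit 8438306246) (nat_lit 532) (nat_lit 7258115839) (nat_lit 76) (nat_lit 3102915087) (nat_lit 209) (nat_lit 5) (nat_lit 216) (nat_lit 5) (nat_lit 210) (nat_lit 5) (nat_lit 629) (nat_lit 556) (nat_lit 375)))))) (XT.nd (nat_lit 390) (nat_lit 1672) (nat_lit 0) (XT.nd (nat_lit 156) (nat_lit 988) (nat_lit 0) (XT.nd (nat_lit 78) (nat_lit 0) (nat_lit 0) (XT.lf (nat_lit 0) (nat_lit 4054444688) (nat_lit 456) (nat_lit 8530997786) (nat_lit 532) (nat_lit 6437955307) (nat_lit 203) (nat_lit 5) (nat_lit 209) (nat_lit 5) (nat_lit 210) (nat_lit 5) (nat_lit 630) (nat_lit 556) (nat_lit 374)) (XT.lf (nat_lit 0) (nat_lit 15680105459) (nat_lit 456) (nat_lit 1176069950) (nat_lit 532) (nat_lit 2394951582) (nat_lit 203) (nat_lit 5) (nat_lit 209) (nat_lit 5) (nat_lit 210) (nat_lit 5) (nat_lit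 631) (nat_lit 556) (nat_lit 373))) (XT.nd (nat_lit 78) (nat_lit 456) (nat_lit 0) (XT.lf (nat_lit 0) (nat_lit 1792608245) (nat_lit 532) (nat_lit 11384791872) (nat_lit 76) (nat_lit 6304059195) (nat_lit 196) (nat_lit 5) (nat_lit 203) (nat_lit 5) (nat_lit 197) (nat_lit 5) (nat_lit 632) (nat_lit 556) (nat_lit 372)) (XT.nd (nat_lit 78) (nat_lit 0) (nat_lit 0) (XT.lf (nat_lit 0) (nat_lit 298832172) (nat_lit 456) (nat_lit 5759012520) (nat_lit 532) (nat_lit 13657717539) (nat_lit 190) (nat_lit 5) (nat_lit 196) (nat_lit 5) (nat_lit 197) (nat_lit 5) (nat_lit 633) (nat_lit 556) (nat_lit 371)) (XT.lf (nat_lit 0) (nat_lit 10489197071) (nat_lit 532) (nat_lit 7606143969) (nat_lit 76) (nat_lit 1857390378) (nat_lit 190) (nat_lit 5) (nat_lit 197) (nat_lit 5) (nat_lit 191) (nat_lit 5) (nat_lit 634) (nat_lit 556) (nat_lit 370))))) (XT.nd (nat_lit 234) (nat_lit 760) (nat_lit 0) (XT.nd (nat_lit 78) (nat_lit 532) (nat_lit 0) (XT.lf (nat_lit 0) (nat_lit 4449563416) (nat_lit 380) (nat_lit 10618965521)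 (nat_lit 456) (nat_lit 5124928428) (nat_lit 185) (nat_lit 5) (nat_lit 190) (nat_lit 5) (nat_lit 191) (nat_lit 5) (nat_lit 635) (nat_lit 556) (nat_lit 369)) (XT.nd (nat_lit 78) (nat_lit 532) (nat_lit 0) (XT.lf (nat_lit 0) (nat_lit 16838254534) (nat_lit 380) (nat_lit 2944635482) (nat_lit 456) (nat_lit 655239380) (nat_lit 185) (nat_lit 5) (nat_lit 190) (nat_lit 5) (nat_lit 191) (nat_lit 5) (nat_lit 636) (nat_lit 556) (nat_lit 368)) (XT.lf (nat_lit 0) (nat_lit 3934944442) (nat_lit 532) (nat_lit 11851562266) (nat_lit 76) (nat_lit 4899035621) (nat_lit 178) (nat_lit 5) (nat_lit 185) (nat_lit 5) (nat_lit 179) (nat_lit 5) (nat_lit 637) (nat_lit 556) (nat_lit 367)))) (XT.nd (nat_lit 78) (nat_lit 380) (nat_lit 0) (XT.lf (nat_lit 0) (nat_lit 600599952) (nat_lit 380) (nat_lit 8047836448) (nat_lit 456) (nat_lit 12288575329) (nat_lit 173) (nat_lit 5) (nat_lit 178) (nat_lit 5) (nat_lit 179) (nat_lit 5) (nat_lit 638) (nat_lit 556) (nat_lit 366)) (XT.nd (nat_lit 78) (nat_lit 380) (nat_lit 0)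 (XT.lf (nat_lit 0) (nat_lit 13451364147) (nat_lit 380) (nat_lit 76990768) (nat_lit 456) (nat_lit 7663712852) (nat_lit 173) (nat_lit 5) (nat_lit 178) (nat_lit 5) (nat_lit 179) (nat_lit 5) (nat_lit 639) (nat_lit 556) (nat_lit 365)) (XT.lf (nat_lit 0) (nat_lit 5110662676) (nat_lit 380) (nat_lit 13473425524) (nat_lit 456) (nat_lit 2866572776) (nat_lit 168) (nat_lit 5) (nat_lit 173) (nat_lit 5) (nat_lit 174) (nat_lit 5) (nat_lit 640) (nat_lit 556) (nat_lit 364))))))))
noncomputable def xc148 : XT := (XT.nd (nat_lit 75426) (nat_lit 0) (nat_lit 22876) (XT.nd (nat_lit 74646) (nat_lit 0) (nat_lit 30324) (XT.nd (nat_lit 390) (nat_lit 1140) (nat_lit 0) (XT.nd (nat_lit 156) (nat_lit 836) (nat_lit 0) (XT.nd (nat_lit 78) (nat_lit 380) (nat_lit 0) (XT.lf (nat_lit 0) (nat_lit 2045500890) (nat_lit 456) (nat_lit 3414435106) (nat_lit 76) (nat_lit 16253315890) (nat_lit 167) (nat_lit 5) (nat_lit 173) (nat_lit 5) (nat_lit 168) (nat_lit 5) (nat_lit 641) (nat_lit 556) (nat_lit 363)) (XT.lf (nat_lit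 0) (nat_lit 7092604872) (nat_lit 456) (nat_lit 12128432559) (nat_lit 76) (nat_lit 2758175132) (nat_lit 162) (nat_lit 5) (nat_lit 168) (nat_lit 5) (nat_lit 163) (nat_lit 5) (nat_lit 642) (nat_lit 556) (nat_lit 362))) (XT.nd (nat_lit 78) (nat_lit 456) (nat_lit 0) (XT.lf (nat_lit 0) (nat_lit 1145411175) (nat_lit 380) (nat_lit 11154857120) (nat_lit 456) (nat_lit 9949032161) (nat_lit 157) (nat_lit 5) (nat_lit 162) (nat_lit 5) (nat_lit 163) (nat_lit 5) (nat_lit 643) (nat_lit 556) (nat_lit 361)) (XT.nd (nat_lit 78) (nat_lit 456) (nat_lit 0) (XT.lf (nat_lit 0) (nat_lit 14838357634) (nat_lit 380) (nat_lit 2848141303) (nat_lit 456) (nat_lit 4836803232) (nat_lit 157) (nat_lit 5) (nat_lit 162) (nat_lit 5) (nat_lit 163) (nat_lit 5) (nat_lit 644) (nat_lit 556) (nat_lit 360)) (XT.lf (nat_lit 0) (nat_lit 442009078) (nat_lit 456) (nat_lit 16769994283) (nat_lit 76) (nat_lit 5589346002) (nat_lit 151) (nat_lit 5) (nat_lit 157) (nat_lit 5) (nat_lit 152) (nat_lit 5) (nat_lit 645) (nat_lit 556)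 (nat_lit 359))))) (XT.nd (nat_lit 156) (nat_lit 760) (nat_lit 0) (XT.nd (nat_lit 78) (nat_lit 380) (nat_lit 0) (XT.lf (nat_lit 0) (nat_lit 5825625435) (nat_lit 456) (nat_lit 3019709918) (nat_lit 76) (nat_lit 14237703192) (nat_lit 151) (nat_lit 5) (nat_lit 157) (nat_lit 5) (nat_lit 152) (nat_lit 5) (nat_lit 646) (nat_lit 556) (nat_lit 358)) (XT.lf (nat_lit 0) (nat_lit 11141208143) (nat_lit 380) (nat_lit 241334881) (nat_lit 456) (nat_lit 11986506224) (nat_lit 146) (nat_lit 5) (nat_lit 151) (nat_lit 5) (nat_lit 152) (nat_lit 5) (nat_lit 647) (nat_lit 556) (nat_lit 357))) (XT.nd (nat_lit 78) (nat_lit 456) (nat_lit 0) (XT.lf (nat_lit 0) (nat_lit 1925072319) (nat_lit 304) (nat_lit 15207168870) (nat_lit 380) (nat_lit 6526906442) (nat_lit 142) (nat_lit 5) (nat_lit 146) (nat_lit 5) (nat_lit 147) (nat_lit 5) (nat_lit 648) (nat_lit 556) (nat_lit 356)) (XT.nd (nat_lit 78) (nat_lit 456) (nat_lit 0) (XT.lf (nat_lit 0) (nat_lit 16514714851) (nat_lit 304) (nat_lit 6559256374) (nat_lit 380)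 (nat_lit 879536303) (nat_lit 142) (nat_lit 5) (nat_lit 146) (nat_lit 5) (nat_lit 147) (nat_lit 5) (nat_lit 649) (nat_lit 556) (nat_lit 355)) (XT.lf (nat_lit 0) (nat_lit 4872141382) (nat_lit 456) (nat_lit 17072772185) (nat_lit 76) (nat_lit 2307100112) (nat_lit 136) (nat_lit 5) (nat_lit 142) (nat_lit 5) (nat_lit 137) (nat_lit 5) (nat_lit 650) (nat_lit 556) (nat_lit 354)))))) (XT.nd (nat_lit 390) (nat_lit 0) (nat_lit 76) (XT.nd (nat_lit 156) (nat_lit 1520) (nat_lit 0) (XT.nd (nat_lit 78) (nat_lit 0) (nat_lit 0) (XT.lf (nat_lit 0) (nat_lit 2809696144) (nat_lit 1596) (nat_lit 861271627) (nat_lit 1596) (nat_lit 861271627) (nat_lit 555) (nat_lit 3) (nat_lit 576) (nat_lit 3) (nat_lit 576) (nat_lit 5) (nat_lit 557) (nat_lit 557) (nat_lit 446)) (XT.lf (nat_lit 76) (nat_lit 2795841103) (nat_lit 0) (nat_lit 3781416977) (nat_lit 1596) (nat_lit 2559741335) (nat_lit 556) (nat_lit 5) (nat_lit 555) (nat_lit 3) (nat_lit 576) (nat_lit 5) (nat_lit 558) (nat_lit 557) (nat_lit 445))) (XT.nd (nat_lit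 78) (nat_lit 1520) (nat_lit 0) (XT.lf (nat_lit 76) (nat_lit 7415965130) (nat_lit 0) (nat_lit 126622430) (nat_lit 1596) (nat_lit 1668619137) (nat_lit 556) (nat_lit 5) (nat_lit 555) (nat_lit 3) (nat_lit 576) (nat_lit 5) (nat_lit 559) (nat_lit 557) (nat_lit 444)) (XT.nd (nat_lit 78) (nat_lit 1596) (nat_lit 0) (XT.lf (nat_lit 76) (nat_lit 2843228410) (nat_lit 0) (nat_lit 5703112075) (nat_lit 1596) (nat_lit 740177637) (nat_lit 557) (nat_lit 5) (nat_lit 556) (nat_lit 5) (nat_lit 577) (nat_lit 5) (nat_lit 560) (nat_lit 557) (nat_lit 443)) (XT.lf (nat_lit 0) (nat_lit 194576415) (nat_lit 1596) (nat_lit 1779046676) (nat_lit 1672) (nat_lit 7389878942) (nat_lit 535) (nat_lit 5) (nat_lit 556) (nat_lit 5) (nat_lit 557) (nat_lit 5) (nat_lit 561) (nat_lit 557) (nat_lit 442))))) (XT.nd (nat_lit 156) (nat_lit 0) (nat_lit 76) (XT.nd (nat_lit 78) (nat_lit 0) (nat_lit 0) (XT.lf (nat_lit 0) (nat_lit 1147648412) (nat_lit 1596) (nat_lit 6453405744) (nat_lit 1672) (nat_lit 1840685136) (nat_lit 536)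 (nat_lit 5) (nat_lit 557) (nat_lit 5) (nat_lit 558) (nat_lit 5) (nat_lit 562) (nat_lit 557) (nat_lit 441)) (XT.lf (nat_lit 0) (nat_lit 2123217645) (nat_lit 1596) (nat_lit 1671941348) (nat_lit 1672) (nat_lit 5726315743) (nat_lit 536) (nat_lit 5) (nat_lit 557) (nat_lit 5) (nat_lit 558) (nat_lit 5) (nat_lit 563) (nat_lit 557) (nat_lit 440))) (XT.nd (nat_lit 78) (nat_lit 0) (nat_lit 0) (XT.lf (nat_lit 0) (nat_lit 3118835903) (nat_lit 1596) (nat_lit 6368407449) (nat_lit 1672) (nat_lit 115552898) (nat_lit 537) (nat_lit 5) (nat_lit 558) (nat_lit 5) (nat_lit 559) (nat_lit 5) (nat_lit 564) (nat_lit 557) (nat_lit 439)) (XT.nd (nat_lit 78) (nat_lit 0) (nat_lit 0) (XT.lf (nat_lit 0) (nat_lit 4149958203) (nat_lit 1596) (nat_lit 1462030066) (nat_lit 1672) (nat_lit 4073446163) (nat_lit 537) (nat_lit 5) (nat_lit 558) (nat_lit 5) (nat_lit 559) (nat_lit 5) (nat_lit 565) (nat_lit 557) (nat_lit 438)) (XT.lf (nat_lit 76) (nat_lit 3576825159) (nat_lit 0) (nat_lit 1627673721) (nat_lit 1672) (nat_lit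 4565172611) (nat_lit 538) (nat_lit 5) (nat_lit 537) (nat_lit 5) (nat_lit 559) (nat_lit 5) (nat_lit 566) (nat_lit 557) (nat_lit 437))))))) (XT.nd (nat_lit 780) (nat_lit 6080) (nat_lit 0) (XT.nd (nat_lit 390) (nat_lit 0) (nat_lit 76) (XT.nd (nat_lit 156) (nat_lit 1596) (nat_lit 0) (XT.nd (nat_lit 78) (nat_lit 0) (nat_lit 0) (XT.lf (nat_lit 0) (nat_lit 6285766454) (nat_lit 1596) (nat_lit 1147936064) (nat_lit 1672) (nat_lit 2421780042) (nat_lit 538) (nat_lit 5) (nat_lit 559) (nat_lit 5) (nat_lit 560) (nat_lit 5) (nat_lit 567) (nat_lit 557) (nat_lit 436)) (XT.lf (nat_lit 76) (nat_lit 4027233097) (nat_lit 0) (nat_lit 3378688210) (nat_lit 1672) (nat_lit 2536745257) (nat_lit 539) (nat_lit 5) (nat_lit 538) (nat_lit 5) (nat_lit 560) (nat_lit 5) (nat_lit 568) (nat_lit 557) (nat_lit 435))) (XT.nd (nat_lit 78) (nat_lit 1672) (nat_lit 0) (XT.lf (nat_lit 0) (nat_lit 8541834152) (nat_lit 1596) (nat_lit 727970257) (nat_lit 1672) (nat_lit 761924655) (nat_lit 539) (nat_lit 5) (nat_lit 560) (nat_lit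 5) (nat_lit 561) (nat_lit 5) (nat_lit 569) (nat_lit 557) (nat_lit 434)) (XT.nd (nat_lit 78) (nat_lit 1672) (nat_lit 0) (XT.lf (nat_lit 76) (nat_lit 4588270674) (nat_lit 0) (nat_lit 5145421771) (nat_lit 1672) (nat_lit 388217703) (nat_lit 540) (nat_lit 5) (nat_lit 539) (nat_lit 5) (nat_lit 561) (nat_lit 5) (nat_lit 570) (nat_lit 557) (nat_lit 433)) (XT.lf (nat_lit 0) (nat_lit 711989656) (nat_lit 1672) (nat_lit 210839961) (nat_lit 1748) (nat_lit 9291248678) (nat_lit 517) (nat_lit 5) (nat_lit 539) (nat_lit 5) (nat_lit 540) (nat_lit 5) (nat_lit 571) (nat_lit 557) (nat_lit 432))))) (XT.nd (nat_lit 156) (nat_lit 0) (nat_lit 76) (XT.nd (nat_lit 78) (nat_lit 0) (nat_lit 0) (XT.lf (nat_lit 0) (nat_lit 1867085975) (nat_lit 1672) (nat_lit 5057670975) (nat_lit 1748) (nat_lit 3382521643) (nat_lit 518) (nat_lit 5) (nat_lit 540) (nat_lit 5) (nat_lit 541) (nat_lit 5) (nat_lit 572) (nat_lit 557) (nat_lit 431)) (XT.lf (nat_lit 76) (nat_lit 406009216) (nat_lit 0) (nat_lit 2631355166) (nat_lit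 1748) (nat_lit 7365138644) (nat_lit 519) (nat_lit 5) (nat_lit 518) (nat_lit 5) (nat_lit 541) (nat_lit 5) (nat_lit 573) (nat_lit 557) (nat_lit 430))) (XT.nd (nat_lit 78) (nat_lit 0) (nat_lit 0) (XT.lf (nat_lit 0) (nat_lit 4258772501) (nat_lit 1672) (nat_lit 4476312266) (nat_lit 1748) (nat_lit 1763994397) (nat_lit 519) (nat_lit 5) (nat_lit 541) (nat_lit 5) (nat_lit 542) (nat_lit 5) (nat_lit 574) (nat_lit 557) (nat_lit 429)) (XT.nd (nat_lit 78) (nat_lit 0) (nat_lit 76) (XT.lf (nat_lit 76) (nat_lit 1138735558) (nat_lit 0) (nat_lit 4373252766) (nat_lit 1748) (nat_lit 5085452575) (nat_lit 520) (nat_lit 5) (nat_lit 519) (nat_lit 5) (nat_lit 542) (nat_lit 5) (nat_lit 575) (nat_lit 557) (nat_lit 428)) (XT.lf (nat_lit 0) (nat_lit 6803843207) (nat_lit 1672) (nat_lit 3784431093) (nat_lit 1748) (nat_lit 109225709) (nat_lit 520) (nat_lit 5) (nat_lit 542) (nat_lit 5) (nat_lit 543) (nat_lit 5) (nat_lit 576) (nat_lit 557) (nat_lit 427)))))) (XT.nd (nat_lit 390) (nat_lit 4636) (nat_lit 0) (XT.nd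 (nat_lit 156) (nat_lit 1672) (nat_lit 0) (XT.nd (nat_lit 78) (nat_lit 0) (nat_lit 0) (XT.lf (nat_lit 76) (nat_lit 1987359968) (nat_lit 0) (nat_lit 6159221941) (nat_lit 1748) (nat_lit 2652479060) (nat_lit 521) (nat_lit 5) (nat_lit 520) (nat_lit 5) (nat_lit 543) (nat_lit 5) (nat_lit 577) (nat_lit 557) (nat_lit 426)) (XT.lf (nat_lit 76) (nat_lit 7912900488) (nat_lit 0) (nat_lit 1612097408) (nat_lit 1748) (nat_lit 1377480370) (nat_lit 521) (nat_lit 5) (nat_lit 520) (nat_lit 5) (nat_lit 543) (nat_lit 5) (nat_lit 578) (nat_lit 557) (nat_lit 425))) (XT.nd (nat_lit 78) (nat_lit 1748) (nat_lit 0) (XT.lf (nat_lit 76) (nat_lit 2955016838) (nat_lit 0) (nat_lit 7998572684) (nat_lit 1748) (nat_lit 53923782) (nat_lit 522) (nat_lit 5) (nat_lit 521) (nat_lit 5) (nat_lit 544) (nat_lit 5) (nat_lit 579) (nat_lit 557) (nat_lit 424)) (XT.nd (nat_lit 78) (nat_lit 0) (nat_lit 76) (XT.lf (nat_lit 0) (nat_lit 1293877110) (nat_lit 1748) (nat_lit 2087653531) (nat_lit 1824) (nat_lit 7732656140) (nat_lit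 498) (nat_lit 5) (nat_lit 521) (nat_lit 5) (nat_lit 522) (nat_lit 5) (nat_lit 580) (nat_lit 557) (nat_lit 423)) (XT.lf (nat_lit 0) (nat_lit 2687150210) (nat_lit 1748) (nat_lit 7195482107) (nat_lit 76) (nat_lit 1339970969) (nat_lit 499) (nat_lit 5) (nat_lit 522) (nat_lit 5) (nat_lit 500) (nat_lit 5) (nat_lit 581) (nat_lit 557) (nat_lit 422))))) (XT.nd (nat_lit 234) (nat_lit 1140) (nat_lit 0) (XT.nd (nat_lit 78) (nat_lit 3572) (nat_lit 0) (XT.lf (nat_lit 0) (nat_lit 4129245301) (nat_lit 1748) (nat_lit 1076100130) (nat_lit 76) (nat_lit 6127424983) (nat_lit 499) (nat_lit 5) (nat_lit 522) (nat_lit 5) (nat_lit 500) (nat_lit 5) (nat_lit 582) (nat_lit 557) (nat_lit 421)) (XT.nd (nat_lit 78) (nat_lit 1824) (nat_lit 0) (XT.lf (nat_lit 0) (nat_lit 5221210072) (nat_lit 1748) (nat_lit 397636735) (nat_lit 1824) (nat_lit 5825922180) (nat_lit 476) (nat_lit 5) (nat_lit 499) (nat_lit 5) (nat_lit 500) (nat_lit 5) (nat_lit 583) (nat_lit 557) (nat_lit 420)) (XT.lf (nat_lit 0) (nat_lit 58484741)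 (nat_lit 1824) (nat_lit 7101656075) (nat_lit 1900) (nat_lit 4398430073) (nat_lit 452) (nat_lit 5) (nat_lit 476) (nat_lit 5) (nat_lit 477) (nat_lit 5) (nat_lit 584) (nat_lit 557) (nat_lit 419)))) (XT.nd (nat_lit 78) (nat_lit 1140) (nat_lit 0) (XT.lf (nat_lit 0) (nat_lit 6534782272) (nat_lit 1824) (nat_lit 2227061442) (nat_lit 1900) (nat_lit 2912214796) (nat_lit 452) (nat_lit 5) (nat_lit 476) (nat_lit 5) (nat_lit 477) (nat_lit 5) (nat_lit 585) (nat_lit 557) (nat_lit 418)) (XT.nd (nat_lit 78) (nat_lit 76) (nat_lit 0) (XT.lf (nat_lit 0) (nat_lit 1335313720) (nat_lit 1064) (nat_lit 9072263885) (nat_lit 1140) (nat_lit 1384039654) (nat_lit 438) (nat_lit 5) (nat_lit 452) (nat_lit 5) (nat_lit 453) (nat_lit 5) (nat_lit 586) (nat_lit 557) (nat_lit 417)) (XT.lf (nat_lit 0) (nat_lit 207480453) (nat_lit 1140) (nat_lit 3931121791) (nat_lit 76) (nat_lit 7772202063) (nat_lit 437) (nat_lit 5) (nat_lit 452) (nat_lit 5) (nat_lit 438) (nat_lit 5) (nat_lit 587) (nat_lit 557) (nat_lit 416))))))))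
noncomputable def xc149 : XT := (XT.nd (nat_lit 1560) (nat_lit 7144) (nat_lit 0) (XT.nd (nat_lit 780) (nat_lit 4484) (nat_lit 0) (XT.nd (nat_lit 390) (nat_lit 2584) (nat_lit 0) (XT.nd (nat_lit 156) (nat_lit 1748) (nat_lit 0) (XT.nd (nat_lit 78) (nat_lit 0) (nat_lit 0) (XT.lf (nat_lit 0) (nat_lit 1821974100) (nat_lit 988) (nat_lit 9299769789) (nat_lit 76) (nat_lit 910255965) (nat_lit 425) (nat_lit 5) (nat_lit 438) (nat_lit 5) (nat_lit 426) (nat_lit 5) (nat_lit 588) (nat_lit 557) (nat_lit 415)) (XT.lf (nat_lit 0) (nat_lit 3508810310) (nat_lit 988) (nat_lit 2613712105) (nat_lit 76) (nat_lit 6032297058) (nat_lit 425) (nat_lit 5) (nat_lit 438) (nat_lit 5) (nat_lit 426) (nat_lit 5) (nat_lit 589) (nat_lit 557) (nat_lit 414))) (XT.nd (nat_lit 78) (nat_lit 836) (nat_lit 0) (XT.lf (nat_lit 0) (nat_lit 4248875739) (nat_lit 912) (nat_lit 994456898) (nat_lit 988) (nat_lit 7036485050) (nat_lit 413) (nat_lit 5) (nat_lit 425) (nat_lit 5) (nat_lit 426) (nat_lit 5) (nat_lit 590) (nat_lit 557)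 (nat_lit 413)) (XT.nd (nat_lit 78) (nat_lit 836) (nat_lit 0) (XT.lf (nat_lit 0) (nat_lit 7044255975) (nat_lit 988) (nat_lit 1163545419) (nat_lit 76) (nat_lit 4198881425) (nat_lit 413) (nat_lit 5) (nat_lit 426) (nat_lit 5) (nat_lit 414) (nat_lit 5) (nat_lit 591) (nat_lit 557) (nat_lit 412)) (XT.lf (nat_lit 0) (nat_lit 5899133331) (nat_lit 836) (nat_lit 3013766050) (nat_lit 912) (nat_lit 3622552986) (nat_lit 402) (nat_lit 5) (nat_lit 413) (nat_lit 5) (nat_lit 414) (nat_lit 5) (nat_lit 592) (nat_lit 557) (nat_lit 411))))) (XT.nd (nat_lit 156) (nat_lit 1672) (nat_lit 0) (XT.nd (nat_lit 78) (nat_lit 76) (nat_lit 0) (XT.lf (nat_lit 0) (nat_lit 429926836) (nat_lit 836) (nat_lit 10401462087) (nat_lit 912) (nat_lit 1835160038) (nat_lit 391) (nat_lit 5) (nat_lit 402) (nat_lit 5) (nat_lit 403) (nat_lit 5) (nat_lit 593) (nat_lit 557) (nat_lit 410)) (XT.lf (nat_lit 0) (nat_lit 40002144) (nat_lit 912) (nat_lit 5105211345) (nat_lit 76) (nat_lit 7654019362) (nat_lit 390) (nat_lit 5) (nat_lit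 402) (nat_lit 5) (nat_lit 391) (nat_lit 5) (nat_lit 594) (nat_lit 557) (nat_lit 409))) (XT.nd (nat_lit 78) (nat_lit 836) (nat_lit 0) (XT.lf (nat_lit 0) (nat_lit 1931128251) (nat_lit 912) (nat_lit 10763567841) (nat_lit 76) (nat_lit 239572107) (nat_lit 379) (nat_lit 5) (nat_lit 391) (nat_lit 5) (nat_lit 380) (nat_lit 5) (nat_lit 595) (nat_lit 557) (nat_lit 408)) (XT.nd (nat_lit 78) (nat_lit 836) (nat_lit 0) (XT.lf (nat_lit 0) (nat_lit 3916130743) (nat_lit 912) (nat_lit 3457308710) (nat_lit 76) (nat_lit 5697444758) (nat_lit 379) (nat_lit 5) (nat_lit 391) (nat_lit 5) (nat_lit 380) (nat_lit 5) (nat_lit 596) (nat_lit 557) (nat_lit 407)) (XT.lf (nat_lit 0) (nat_lit 4035232452) (nat_lit 836) (nat_lit 1919539523) (nat_lit 912) (nat_lit 7255182811) (nat_lit 368) (nat_lit 5) (nat_lit 379) (nat_lit 5) (nat_lit 380) (nat_lit 5) (nat_lit 597) (nat_lit 557) (nat_lit 406)))))) (XT.nd (nat_lit 390) (nat_lit 2204) (nat_lit 0) (XT.nd (nat_lit 156) (nat_lit 1520) (nat_lit 0) (XT.nd (nat_lit 78)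 (nat_lit 760) (nat_lit 0) (XT.lf (nat_lit 0) (nat_lit 8069089245) (nat_lit 912) (nat_lit 1663584113) (nat_lit 76) (nat_lit 3618436346) (nat_lit 368) (nat_lit 5) (nat_lit 380) (nat_lit 5) (nat_lit 369) (nat_lit 5) (nat_lit 598) (nat_lit 557) (nat_lit 405)) (XT.lf (nat_lit 0) (nat_lit 6051766806) (nat_lit 760) (nat_lit 4214061290) (nat_lit 836) (nat_lit 3228457896) (nat_lit 358) (nat_lit 5) (nat_lit 368) (nat_lit 5) (nat_lit 369) (nat_lit 5) (nat_lit 599) (nat_lit 557) (nat_lit 404))) (XT.nd (nat_lit 78) (nat_lit 760) (nat_lit 0) (XT.lf (nat_lit 0) (nat_lit 285542680) (nat_lit 760) (nat_lit 12231513412) (nat_lit 836) (nat_lit 1123059583) (nat_lit 348) (nat_lit 5) (nat_lit 358) (nat_lit 5) (nat_lit 359) (nat_lit 5) (nat_lit 600) (nat_lit 557) (nat_lit 403)) (XT.nd (nat_lit 78) (nat_lit 684) (nat_lit 0) (XT.lf (nat_lit 0) (nat_lit 1077538550) (nat_lit 836) (nat_lit 5566587560) (nat_lit 76) (nat_lit 7143273182) (nat_lit 347) (nat_lit 5) (nat_lit 358) (nat_lit 5) (nat_lit 348) (nat_lit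 5) (nat_lit 601) (nat_lit 557) (nat_lit 402)) (XT.lf (nat_lit 0) (nat_lit 2388411477) (nat_lit 684) (nat_lit 922795114) (nat_lit 760) (nat_lit 10626192508) (nat_lit 338) (nat_lit 5) (nat_lit 347) (nat_lit 5) (nat_lit 348) (nat_lit 5) (nat_lit 602) (nat_lit 557) (nat_lit 401))))) (XT.nd (nat_lit 156) (nat_lit 1444) (nat_lit 0) (XT.nd (nat_lit 78) (nat_lit 760) (nat_lit 0) (XT.lf (nat_lit 0) (nat_lit 5647757145) (nat_lit 760) (nat_lit 3556598625) (nat_lit 76) (nat_lit 4884879833) (nat_lit 338) (nat_lit 5) (nat_lit 348) (nat_lit 5) (nat_lit 339) (nat_lit 5) (nat_lit 603) (nat_lit 557) (nat_lit 400)) (XT.lf (nat_lit 0) (nat_lit 4637835046) (nat_lit 760) (nat_lit 3418357012) (nat_lit 836) (nat_lit 6187414580) (nat_lit 328) (nat_lit 5) (nat_lit 338) (nat_lit 5) (nat_lit 339) (nat_lit 5) (nat_lit 604) (nat_lit 557) (nat_lit 399))) (XT.nd (nat_lit 78) (nat_lit 1444) (nat_lit 0) (XT.lf (nat_lit 0) (nat_lit 10542000790) (nat_lit 836) (nat_lit 1385146758) (nat_lit 76) (nat_lit 2473334293)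 (nat_lit 328) (nat_lit 5) (nat_lit 339) (nat_lit 5) (nat_lit 329) (nat_lit 5) (nat_lit 605) (nat_lit 557) (nat_lit 398)) (XT.nd (nat_lit 78) (nat_lit 760) (nat_lit 0) (XT.lf (nat_lit 0) (nat_lit 7057414321) (nat_lit 684) (nat_lit 6077842272) (nat_lit 760) (nat_lit 1424084172) (nat_lit 319) (nat_lit 5) (nat_lit 328) (nat_lit 5) (nat_lit 329) (nat_lit 5) (nat_lit 606) (nat_lit 557) (nat_lit 397)) (XT.lf (nat_lit 0) (nat_lit 959601328) (nat_lit 684) (nat_lit 90428087) (nat_lit 760) (nat_lit 13671112380) (nat_lit 309) (nat_lit 5) (nat_lit 318) (nat_lit 5) (nat_lit 319) (nat_lit 5) (nat_lit 607) (nat_lit 557) (nat_lit 396))))))) (XT.nd (nat_lit 780) (nat_lit 3952) (nat_lit 0) (XT.nd (nat_lit 390) (nat_lit 1900) (nat_lit 0) (XT.nd (nat_lit 156) (nat_lit 684) (nat_lit 0) (XT.nd (nat_lit 78) (nat_lit 608) (nat_lit 0) (XT.lf (nat_lit 0) (nat_lit 3633762198) (nat_lit 760) (nat_lit 5254526930) (nat_lit 76) (nat_lit 5996118134) (nat_lit 309) (nat_lit 5) (nat_lit 319) (nat_lit 5) (nat_lit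 310) (nat_lit 5) (nat_lit 608) (nat_lit 557) (nat_lit 395)) (XT.lf (nat_lit 0) (nat_lit 3455011587) (nat_lit 608) (nat_lit 2826843734) (nat_lit 684) (nat_lit 8768829771) (nat_lit 301) (nat_lit 5) (nat_lit 309) (nat_lit 5) (nat_lit 310) (nat_lit 5) (nat_lit 609) (nat_lit 557) (nat_lit 394))) (XT.nd (nat_lit 78) (nat_lit 684) (nat_lit 0) (XT.lf (nat_lit 0) (nat_lit 9029957508) (nat_lit 684) (nat_lit 2844078143) (nat_lit 76) (nat_lit 3345312639) (nat_lit 301) (nat_lit 5) (nat_lit 310) (nat_lit 5) (nat_lit 302) (nat_lit 5) (nat_lit 610) (nat_lit 557) (nat_lit 393)) (XT.nd (nat_lit 78) (nat_lit 0) (nat_lit 0) (XT.lf (nat_lit 0) (nat_lit 6132054784) (nat_lit 684) (nat_lit 5749466598) (nat_lit 760) (nat_lit 3508894118) (nat_lit 292) (nat_lit 5) (nat_lit 301) (nat_lit 5) (nat_lit 302) (nat_lit 5) (nat_lit 611) (nat_lit 557) (nat_lit 392)) (XT.lf (nat_lit 0) (nat_lit 14802628161) (nat_lit 760) (nat_lit 253917906) (nat_lit 76) (nat_lit 508108478) (nat_lit 292) (nat_lit 5) (nat_lit 302)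 (nat_lit 5) (nat_lit 293) (nat_lit 5) (nat_lit 612) (nat_lit 557) (nat_lit 391))))) (XT.nd (nat_lit 156) (nat_lit 608) (nat_lit 0) (XT.nd (nat_lit 78) (nat_lit 608) (nat_lit 0) (XT.lf (nat_lit 0) (nat_lit 2100364652) (nat_lit 684) (nat_lit 6755967148) (nat_lit 76) (nat_lit 6884035638) (nat_lit 283) (nat_lit 5) (nat_lit 292) (nat_lit 5) (nat_lit 284) (nat_lit 5) (nat_lit 613) (nat_lit 557) (nat_lit 390)) (XT.lf (nat_lit 0) (nat_lit 2507079304) (nat_lit 608) (nat_lit 2511035724) (nat_lit 684) (nat_lit 10901213202) (nat_lit 275) (nat_lit 5) (nat_lit 283) (nat_lit 5) (nat_lit 284) (nat_lit 5) (nat_lit 614) (nat_lit 557) (nat_lit 389))) (XT.nd (nat_lit 78) (nat_lit 608) (nat_lit 0) (XT.lf (nat_lit 0) (nat_lit 8055983852) (nat_lit 684) (nat_lit 4092221185) (nat_lit 76) (nat_lit 3952428602) (nat_lit 275) (nat_lit 5) (nat_lit 284) (nat_lit 5) (nat_lit 276) (nat_lit 5) (nat_lit 615) (nat_lit 557) (nat_lit 388)) (XT.nd (nat_lit 78) (nat_lit 0) (nat_lit 0) (XT.lf (nat_lit 0) (nat_lit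 5457182497) (nat_lit 608) (nat_lit 5740085232) (nat_lit 684) (nat_lit 5087444932) (nat_lit 267) (nat_lit 5) (nat_lit 275) (nat_lit 5) (nat_lit 276) (nat_lit 5) (nat_lit 616) (nat_lit 557) (nat_lit 387)) (XT.lf (nat_lit 0) (nat_lit 14424876555) (nat_lit 684) (nat_lit 1236288127) (nat_lit 76) (nat_lit 810839240) (nat_lit 267) (nat_lit 5) (nat_lit 276) (nat_lit 5) (nat_lit 268) (nat_lit 5) (nat_lit 617) (nat_lit 557) (nat_lit 386)))))) (XT.nd (nat_lit 390) (nat_lit 2204) (nat_lit 0) (XT.nd (nat_lit 156) (nat_lit 532) (nat_lit 0) (XT.nd (nat_lit 78) (nat_lit 532) (nat_lit 0) (XT.lf (nat_lit 0) (nat_lit 1125518431) (nat_lit 684) (nat_lit 8058887571) (nat_lit 76) (nat_lit 7476791856) (nat_lit 258) (nat_lit 5) (nat_lit 267) (nat_lit 5) (nat_lit 259) (nat_lit 5) (nat_lit 618) (nat_lit 557) (nat_lit 385)) (XT.lf (nat_lit 0) (nat_lit 1798539885) (nat_lit 532) (nat_lit 2546632249) (nat_lit 608) (nat_lit 12508514193) (nat_lit 251) (nat_lit 5) (nat_lit 258) (nat_lit 5) (nat_lit 259) (nat_lit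 5) (nat_lit 619) (nat_lit 557) (nat_lit 384))) (XT.nd (nat_lit 78) (nat_lit 532) (nat_lit 0) (XT.lf (nat_lit 0) (nat_lit 7702076254) (nat_lit 608) (nat_lit 5126318648) (nat_lit 76) (nat_lit 4220173113) (nat_lit 251) (nat_lit 5) (nat_lit 259) (nat_lit 5) (nat_lit 252) (nat_lit 5) (nat_lit 620) (nat_lit 557) (nat_lit 383)) (XT.nd (nat_lit 78) (nat_lit 0) (nat_lit 0) (XT.lf (nat_lit 0) (nat_lit 5038587451) (nat_lit 532) (nat_lit 6128282011) (nat_lit 608) (nat_lit 6079663437) (nat_lit 244) (nat_lit 5) (nat_lit 251) (nat_lit 5) (nat_lit 252) (nat_lit 5) (nat_lit 621) (nat_lit 557) (nat_lit 382)) (XT.lf (nat_lit 0) (nat_lit 14731420084) (nat_lit 608) (nat_lit 1988093703) (nat_lit 76) (nat_lit 728334635) (nat_lit 244) (nat_lit 5) (nat_lit 252) (nat_lit 5) (nat_lit 245) (nat_lit 5) (nat_lit 622) (nat_lit 557) (nat_lit 381))))) (XT.nd (nat_lit 234) (nat_lit 1064) (nat_lit 0) (XT.nd (nat_lit 78) (nat_lit 532) (nat_lit 0) (XT.lf (nat_lit 0) (nat_lit 792447827) (nat_lit 608) (nat_lit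 9161234605) (nat_lit 76) (nat_lit 7697660819) (nat_lit 236) (nat_lit 5) (nat_lit 244) (nat_lit 5) (nat_lit 237) (nat_lit 5) (nat_lit 623) (nat_lit 557) (nat_lit 380)) (XT.nd (nat_lit 78) (nat_lit 0) (nat_lit 0) (XT.lf (nat_lit 0) (nat_lit 1333999671) (nat_lit 532) (nat_lit 3014712722) (nat_lit 608) (nat_lit 13509565332) (nat_lit 229) (nat_lit 5) (nat_lit 236) (nat_lit 5) (nat_lit 237) (nat_lit 5) (nat_lit 624) (nat_lit 557) (nat_lit 379)) (XT.lf (nat_lit 0) (nat_lit 8055897818) (nat_lit 608) (nat_lit 5943261082) (nat_lit 76) (nat_lit 4068596607) (nat_lit 229) (nat_lit 5) (nat_lit 237) (nat_lit 5) (nat_lit 230) (nat_lit 5) (nat_lit 625) (nat_lit 557) (nat_lit 378)))) (XT.nd (nat_lit 78) (nat_lit 608) (nat_lit 0) (XT.lf (nat_lit 0) (nat_lit 4881994133) (nat_lit 456) (nat_lit 6998592790) (nat_lit 532) (nat_lit 6399969240) (nat_lit 223) (nat_lit 5) (nat_lit 229) (nat_lit 5) (nat_lit 230) (nat_lit 5) (nat_lit 626) (nat_lit 557) (nat_lit 377)) (XT.nd (nat_lit 78) (nat_lit 608) (nat_lit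 0) (XT.lf (nat_lit 0) (nat_lit 15814604514) (nat_lit 532) (nat_lit 2505198562) (nat_lit 76) (nat_lit 177153569) (nat_lit 223) (nat_lit 5) (nat_lit 230) (nat_lit 5) (nat_lit 224) (nat_lit 5) (nat_lit 627) (nat_lit 557) (nat_lit 376)) (XT.lf (nat_lit 0) (nat_lit 1190205425) (nat_lit 608) (nat_lit 10061626620) (nat_lit 76) (nat_lit 7463806674) (nat_lit 215) (nat_lit 5) (nat_lit 223) (nat_lit 5) (nat_lit 216) (nat_lit 5) (nat_lit 628) (nat_lit 557) (nat_lit 375))))))))
noncomputable def xc150 : XT := (XT.nd (nat_lit 1560) (nat_lit 760) (nat_lit 0) (XT.nd (nat_lit 780) (nat_lit 2432) (nat_lit 0) (XT.nd (nat_lit 390) (nat_lit 1368) (nat_lit 0) (XT.nd (nat_lit 156) (nat_lit 988) (nat_lit 0) (XT.nd (nat_lit 78) (nat_lit 0) (nat_lit 0) (XT.lf (nat_lit 0) (nat_lit 1117466298) (nat_lit 456) (nat_lit 4003002432) (nat_lit 532) (nat_lit 13817548151) (nat_lit 209) (nat_lit 5) (nat_lit 215) (nat_lit 5) (nat_lit 216) (nat_lit 5) (nat_lit 629) (nat_lit 557) (nat_lit 374)) (XT.lf (nat_lit 0)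 (nat_lit 9211341712) (nat_lit 532) (nat_lit 6540810983) (nat_lit 76) (nat_lit 3411050292) (nat_lit 209) (nat_lit 5) (nat_lit 216) (nat_lit 5) (nat_lit 210) (nat_lit 5) (nat_lit 630) (nat_lit 557) (nat_lit 373))) (XT.nd (nat_lit 78) (nat_lit 532) (nat_lit 0) (XT.lf (nat_lit 0) (nat_lit 4992326629) (nat_lit 456) (nat_lit 8442808486) (nat_lit 532) (nat_lit 5956736100) (nat_lit 203) (nat_lit 5) (nat_lit 209) (nat_lit 5) (nat_lit 210) (nat_lit 5) (nat_lit 631) (nat_lit 557) (nat_lit 372)) (XT.nd (nat_lit 78) (nat_lit 532) (nat_lit 0) (XT.lf (nat_lit 0) (nat_lit 16833700752) (nat_lit 456) (nat_lit 945856785) (nat_lit 532) (nat_lit 1844832660) (nat_lit 203) (nat_lit 5) (nat_lit 209) (nat_lit 5) (nat_lit 210) (nat_lit 5) (nat_lit 632) (nat_lit 557) (nat_lit 371)) (XT.lf (nat_lit 0) (nat_lit 2414208448) (nat_lit 532) (nat_lit 10760158282) (nat_lit 76) (nat_lit 6684973971) (nat_lit 196) (nat_lit 5) (nat_lit 203) (nat_lit 5) (nat_lit 197) (nat_lit 5) (nat_lit 633) (nat_lit 557) (nat_lit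 370))))) (XT.nd (nat_lit 156) (nat_lit 912) (nat_lit 0) (XT.nd (nat_lit 78) (nat_lit 0) (nat_lit 0) (XT.lf (nat_lit 0) (nat_lit 1151530813) (nat_lit 456) (nat_lit 5607231036) (nat_lit 532) (nat_lit 13339484229) (nat_lit 190) (nat_lit 5) (nat_lit 196) (nat_lit 5) (nat_lit 197) (nat_lit 5) (nat_lit 634) (nat_lit 557) (nat_lit 369)) (XT.lf (nat_lit 0) (nat_lit 11269072734) (nat_lit 532) (nat_lit 6918447141) (nat_lit 76) (nat_lit 2152832776) (nat_lit 190) (nat_lit 5) (nat_lit 197) (nat_lit 5) (nat_lit 191) (nat_lit 5) (nat_lit 635) (nat_lit 557) (nat_lit 368))) (XT.nd (nat_lit 78) (nat_lit 532) (nat_lit 0) (XT.lf (nat_lit 0) (nat_lit 5372849262) (nat_lit 380) (nat_lit 10561380500) (nat_lit 456) (nat_lit 4651779203) (nat_lit 185) (nat_lit 5) (nat_lit 190) (nat_lit 5) (nat_lit 191) (nat_lit 5) (nat_lit 636) (nat_lit 557) (nat_lit 367)) (XT.nd (nat_lit 78) (nat_lit 532) (nat_lit 0) (XT.lf (nat_lit 0) (nat_lit 17992955486) (nat_lit 380) (nat_lit 2738857278) (nat_lit 456) (nat_lit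 103983586) (nat_lit 185) (nat_lit 5) (nat_lit 190) (nat_lit 5) (nat_lit 191) (nat_lit 5) (nat_lit 637) (nat_lit 557) (nat_lit 366)) (XT.lf (nat_lit 0) (nat_lit 4566748807) (nat_lit 532) (nat_lit 11259343647) (nat_lit 76) (nat_lit 5262069456) (nat_lit 178) (nat_lit 5) (nat_lit 185) (nat_lit 5) (nat_lit 179) (nat_lit 5) (nat_lit 638) (nat_lit 557) (nat_lit 365)))))) (XT.nd (nat_lit 390) (nat_lit 1216) (nat_lit 0) (XT.nd (nat_lit 156) (nat_lit 836) (nat_lit 0) (XT.nd (nat_lit 78) (nat_lit 0) (nat_lit 0) (XT.lf (nat_lit 0) (nat_lit 1436406224) (nat_lit 380) (nat_lit 7932607793) (nat_lit 456) (nat_lit 11975757184) (nat_lit 173) (nat_lit 5) (nat_lit 178) (nat_lit 5) (nat_lit 179) (nat_lit 5) (nat_lit 639) (nat_lit 557) (nat_lit 364)) (XT.lf (nat_lit 0) (nat_lit 14337041620) (nat_lit 456) (nat_lit 7078358940) (nat_lit 76) (nat_lit 189718146) (nat_lit 173) (nat_lit 5) (nat_lit 179) (nat_lit 5) (nat_lit 174) (nat_lit 5) (nat_lit 640) (nat_lit 557) (nat_lit 363))) (XT.nd (nat_lit 78)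 (nat_lit 456) (nat_lit 0) (XT.lf (nat_lit 0) (nat_lit 6024152120) (nat_lit 380) (nat_lit 13464953303) (nat_lit 456) (nat_lit 2379874588) (nat_lit 168) (nat_lit 5) (nat_lit 173) (nat_lit 5) (nat_lit 174) (nat_lit 5) (nat_lit 641) (nat_lit 557) (nat_lit 362)) (XT.nd (nat_lit 78) (nat_lit 380) (nat_lit 0) (XT.lf (nat_lit 0) (nat_lit 2612778159) (nat_lit 456) (nat_lit 2680333442) (nat_lit 76) (nat_lit 16843851569) (nat_lit 167) (nat_lit 5) (nat_lit 173) (nat_lit 5) (nat_lit 168) (nat_lit 5) (nat_lit 642) (nat_lit 557) (nat_lit 361)) (XT.lf (nat_lit 0) (nat_lit 7757469931) (nat_lit 456) (nat_lit 11565230662) (nat_lit 76) (nat_lit 3085610071) (nat_lit 162) (nat_lit 5) (nat_lit 168) (nat_lit 5) (nat_lit 163) (nat_lit 5) (nat_lit 643) (nat_lit 557) (nat_lit 360))))) (XT.nd (nat_lit 156) (nat_lit 836) (nat_lit 0) (XT.nd (nat_lit 78) (nat_lit 0) (nat_lit 0) (XT.lf (nat_lit 0) (nat_lit 1968788825) (nat_lit 380) (nat_lit 11095439820) (nat_lit 456) (nat_lit 9619673337) (nat_lit 157) (nat_lit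 5) (nat_lit 162) (nat_lit 5) (nat_lit 163) (nat_lit 5) (nat_lit 644) (nat_lit 557) (nat_lit 359)) (XT.lf (nat_lit 0) (nat_lit 15919898734) (nat_lit 380) (nat_lit 2628129185) (nat_lit 456) (nat_lit 4415559427) (nat_lit 157) (nat_lit 5) (nat_lit 162) (nat_lit 5) (nat_lit 163) (nat_lit 5) (nat_lit 645) (nat_lit 557) (nat_lit 358))) (XT.nd (nat_lit 78) (nat_lit 380) (nat_lit 0) (XT.lf (nat_lit 0) (nat_lit 958936883) (nat_lit 456) (nat_lit 16310679659) (nat_lit 76) (nat_lit 5977574136) (nat_lit 151) (nat_lit 5) (nat_lit 157) (nat_lit 5) (nat_lit 152) (nat_lit 5) (nat_lit 646) (nat_lit 557) (nat_lit 357)) (XT.nd (nat_lit 78) (nat_lit 380) (nat_lit 0) (XT.lf (nat_lit 0) (nat_lit 6440263066) (nat_lit 456) (nat_lit 2300972245) (nat_lit 76) (nat_lit 14793478053) (nat_lit 151) (nat_lit 5) (nat_lit 157) (nat_lit 5) (nat_lit 152) (nat_lit 5) (nat_lit 647) (nat_lit 557) (nat_lit 356)) (XT.lf (nat_lit 0) (nat_lit 12103800953) (nat_lit 456) (nat_lit 11688725011) (nat_lit 76) (nat_lit 34009138)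 (nat_lit 146) (nat_lit 5) (nat_lit 152) (nat_lit 5) (nat_lit 147) (nat_lit 5) (nat_lit 648) (nat_lit 557) (nat_lit 355))))))) (XT.nd (nat_lit 74646) (nat_lit 0) (nat_lit 28956) (XT.nd (nat_lit 74256) (nat_lit 0) (nat_lit 30248) (XT.nd (nat_lit 156) (nat_lit 456) (nat_lit 0) (XT.nd (nat_lit 78) (nat_lit 0) (nat_lit 0) (XT.lf (nat_lit 0) (nat_lit 2740503210) (nat_lit 304) (nat_lit 15224922548) (nat_lit 380) (nat_lit 6157071492) (nat_lit 142) (nat_lit 5) (nat_lit 146) (nat_lit 5) (nat_lit 147) (nat_lit 5) (nat_lit 649) (nat_lit 557) (nat_lit 354)) (XT.lf (nat_lit 0) (nat_lit 17606704682) (nat_lit 304) (nat_lit 6409667286) (nat_lit 380) (nat_lit 406565187) (nat_lit 142) (nat_lit 5) (nat_lit 146) (nat_lit 5) (nat_lit 147) (nat_lit 5) (nat_lit 650) (nat_lit 557) (nat_lit 353))) (XT.nd (nat_lit 73944) (nat_lit 0) (nat_lit 31844) (XT.lf (nat_lit 0) (nat_lit 5451014792) (nat_lit 456) (nat_lit 16643357930) (nat_lit 76) (nat_lit 2633031379) (nat_lit 136) (nat_lit 5) (nat_lit 142) (nat_lit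 5) (nat_lit 137) (nat_lit 5) (nat_lit 651) (nat_lit 557) (nat_lit 352)) (XT.nd (nat_lit 78) (nat_lit 0) (nat_lit 0) (XT.lf (nat_lit 0) (nat_lit 3743673086) (nat_lit 1596) (nat_lit 430782648) (nat_lit 1596) (nat_lit 430782648) (nat_lit 555) (nat_lit 3) (nat_lit 576) (nat_lit 3) (nat_lit 576) (nat_lit 5) (nat_lit 558) (nat_lit 558) (nat_lit 444)) (XT.lf (nat_lit 76) (nat_lit 3741295768) (nat_lit 0) (nat_lit 4694426117) (nat_lit 1596) (nat_lit 849302393) (nat_lit 556) (nat_lit 5) (nat_lit 555) (nat_lit 3) (nat_lit 576) (nat_lit 5) (nat_lit 559) (nat_lit 558) (nat_lit 443))))) (XT.nd (nat_lit 156) (nat_lit 0) (nat_lit 76) (XT.nd (nat_lit 78) (nat_lit 0) (nat_lit 76) (XT.lf (nat_lit 0) (nat_lit 24771213) (nat_lit 1596) (nat_lit 925179007) (nat_lit 1672) (nat_lit 8411442917) (nat_lit 534) (nat_lit 5) (nat_lit 555) (nat_lit 3) (nat_lit 556) (nat_lit 5) (nat_lit 560) (nat_lit 558) (nat_lit 442)) (XT.lf (nat_lit 0) (nat_lit 926598411) (nat_lit 1596) (nat_lit 5639407254) (nat_lit 1672)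 (nat_lit 2872740741) (nat_lit 535) (nat_lit 5) (nat_lit 556) (nat_lit 5) (nat_lit 557) (nat_lit 5) (nat_lit 561) (nat_lit 558) (nat_lit 441))) (XT.nd (nat_lit 78) (nat_lit 0) (nat_lit 76) (XT.lf (nat_lit 0) (nat_lit 1837367833) (nat_lit 1596) (nat_lit 904974263) (nat_lit 1672) (nat_lit 6775488689) (nat_lit 535) (nat_lit 5) (nat_lit 556) (nat_lit 5) (nat_lit 557) (nat_lit 5) (nat_lit 562) (nat_lit 558) (nat_lit 440)) (XT.nd (nat_lit 78) (nat_lit 0) (nat_lit 0) (XT.lf (nat_lit 0) (nat_lit 2778630137) (nat_lit 1596) (nat_lit 5641789289) (nat_lit 1672) (nat_lit 1177833987) (nat_lit 536) (nat_lit 5) (nat_lit 557) (nat_lit 5) (nat_lit 558) (nat_lit 5) (nat_lit 563) (nat_lit 558) (nat_lit 439)) (XT.lf (nat_lit 0) (nat_lit 3742180779) (nat_lit 1596) (nat_lit 783140401) (nat_lit 1672) (nat_lit 5154896124) (nat_lit 536) (nat_lit 5) (nat_lit 557) (nat_lit 5) (nat_lit 558) (nat_lit 5) (nat_lit 564) (nat_lit 558) (nat_lit 438)))))) (XT.nd (nat_lit 390) (nat_lit 1444) (nat_lit 0) (XT.nd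 (nat_lit 156) (nat_lit 0) (nat_lit 76) (XT.nd (nat_lit 78) (nat_lit 0) (nat_lit 76) (XT.lf (nat_lit 76) (nat_lit 4216039914) (nat_lit 0) (nat_lit 515932725) (nat_lit 1672) (nat_lit 5031710462) (nat_lit 537) (nat_lit 5) (nat_lit 536) (nat_lit 5) (nat_lit 558) (nat_lit 5) (nat_lit 565) (nat_lit 558) (nat_lit 437)) (XT.lf (nat_lit 0) (nat_lit 5750026231) (nat_lit 1596) (nat_lit 558444993) (nat_lit 1672) (nat_lit 3540179663) (nat_lit 537) (nat_lit 5) (nat_lit 558) (nat_lit 5) (nat_lit 559) (nat_lit 5) (nat_lit 566) (nat_lit 558) (nat_lit 436))) (XT.nd (nat_lit 78) (nat_lit 0) (nat_lit 76) (XT.lf (nat_lit 76) (nat_lit 4575050324) (nat_lit 0) (nat_lit 2226877625) (nat_lit 1672) (nat_lit 3133122290) (nat_lit 538) (nat_lit 5) (nat_lit 537) (nat_lit 5) (nat_lit 559) (nat_lit 5) (nat_lit 567) (nat_lit 558) (nat_lit 435)) (XT.nd (nat_lit 78) (nat_lit 0) (nat_lit 0) (XT.lf (nat_lit 0) (nat_lit 7871932785) (nat_lit 1596) (nat_lit 229343400) (nat_lit 1672) (nat_lit 1921962007) (nat_lit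 538) (nat_lit 5) (nat_lit 559) (nat_lit 5) (nat_lit 560) (nat_lit 5) (nat_lit 568) (nat_lit 558) (nat_lit 434)) (XT.lf (nat_lit 76) (nat_lit 5043134727) (nat_lit 0) (nat_lit 3948792672) (nat_lit 1672) (nat_lit 1120692588) (nat_lit 539) (nat_lit 5) (nat_lit 538) (nat_lit 5) (nat_lit 560) (nat_lit 5) (nat_lit 569) (nat_lit 558) (nat_lit 433))))) (XT.nd (nat_lit 234) (nat_lit 0) (nat_lit 76) (XT.nd (nat_lit 78) (nat_lit 1672) (nat_lit 0) (XT.lf (nat_lit 76) (nat_lit 208756887) (nat_lit 0) (nat_lit 9911764340) (nat_lit 1672) (nat_lit 83546044) (nat_lit 540) (nat_lit 5) (nat_lit 539) (nat_lit 5) (nat_lit 561) (nat_lit 5) (nat_lit 570) (nat_lit 558) (nat_lit 432)) (XT.nd (nat_lit 78) (nat_lit 0) (nat_lit 0) (XT.lf (nat_lit 0) (nat_lit 1003553337) (nat_lit 1672) (nat_lit 4680769044) (nat_lit 1748) (nat_lit 4612056593) (nat_lit 517) (nat_lit 5) (nat_lit 539) (nat_lit 5) (nat_lit 540) (nat_lit 5) (nat_lit 571) (nat_lit 558) (nat_lit 431)) (XT.lf (nat_lit 76) (nat_lit 736735303) (nat_lit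 0) (nat_lit 1361279499) (nat_lit 1748) (nat_lit 8292778023) (nat_lit 518) (nat_lit 5) (nat_lit 517) (nat_lit 5) (nat_lit 540) (nat_lit 5) (nat_lit 572) (nat_lit 558) (nat_lit 430)))) (XT.nd (nat_lit 78) (nat_lit 0) (nat_lit 0) (XT.lf (nat_lit 0) (nat_lit 3248038180) (nat_lit 1672) (nat_lit 4193174498) (nat_lit 1748) (nat_lit 3045210522) (nat_lit 518) (nat_lit 5) (nat_lit 540) (nat_lit 5) (nat_lit 541) (nat_lit 5) (nat_lit 573) (nat_lit 558) (nat_lit 429)) (XT.nd (nat_lit 78) (nat_lit 0) (nat_lit 76) (XT.lf (nat_lit 76) (nat_lit 1373426337) (nat_lit 0) (nat_lit 3048178907) (nat_lit 1748) (nat_lit 6162351741) (nat_lit 519) (nat_lit 5) (nat_lit 518) (nat_lit 5) (nat_lit 541) (nat_lit 5) (nat_lit 574) (nat_lit 558) (nat_lit 428)) (XT.lf (nat_lit 0) (nat_lit 5639172429) (nat_lit 1672) (nat_lit 3596958468) (nat_lit 1748) (nat_lit 1446901605) (nat_lit 519) (nat_lit 5) (nat_lit 541) (nat_lit 5) (nat_lit 542) (nat_lit 5) (nat_lit 575) (nat_lit 558) (nat_lit 427))))))))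
noncomputable def xc151 : XT := (XT.nd (nat_lit 1560) (nat_lit 8740) (nat_lit 0) (XT.nd (nat_lit 780) (nat_lit 4712) (nat_lit 0) (XT.nd (nat_lit 390) (nat_lit 3496) (nat_lit 0) (XT.nd (nat_lit 156) (nat_lit 1596) (nat_lit 0) (XT.nd (nat_lit 78) (nat_lit 0) (nat_lit 0) (XT.lf (nat_lit 76) (nat_lit 2124016101) (nat_lit 0) (nat_lit 4774289136) (nat_lit 1748) (nat_lit 3885441609) (nat_lit 520) (nat_lit 5) (nat_lit 519) (nat_lit 5) (nat_lit 542) (nat_lit 5) (nat_lit 576) (nat_lit 558) (nat_lit 426)) (XT.lf (nat_lit 76) (nat_lit 7995711085) (nat_lit 0) (nat_lit 194532050) (nat_lit 1748) (nat_lit 2696081464) (nat_lit 520) (nat_lit 5) (nat_lit 519) (nat_lit 5) (nat_lit 542) (nat_lit 5) (nat_lit 577) (nat_lit 558) (nat_lit 425))) (XT.nd (nat_lit 78) (nat_lit 1672) (nat_lit 0) (XT.lf (nat_lit 76) (nat_lit 2991489759) (nat_lit 0) (nat_lit 6548853859) (nat_lit 1748) (nat_lit 1449965352) (nat_lit 521) (nat_lit 5) (nat_lit 520) (nat_lit 5) (nat_lit 543) (nat_lit 5) (nat_lit 578) (nat_lit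 558) (nat_lit 424)) (XT.nd (nat_lit 78) (nat_lit 1672) (nat_lit 0) (XT.lf (nat_lit 76) (nat_lit 9016631627) (nat_lit 0) (nat_lit 1905562375) (nat_lit 1748) (nat_lit 174085576) (nat_lit 521) (nat_lit 5) (nat_lit 520) (nat_lit 5) (nat_lit 543) (nat_lit 5) (nat_lit 579) (nat_lit 558) (nat_lit 423)) (XT.lf (nat_lit 0) (nat_lit 1141333132) (nat_lit 1748) (nat_lit 7232163802) (nat_lit 1824) (nat_lit 2830151607) (nat_lit 498) (nat_lit 5) (nat_lit 521) (nat_lit 5) (nat_lit 522) (nat_lit 5) (nat_lit 580) (nat_lit 558) (nat_lit 422))))) (XT.nd (nat_lit 156) (nat_lit 3496) (nat_lit 0) (XT.nd (nat_lit 78) (nat_lit 0) (nat_lit 76) (XT.lf (nat_lit 0) (nat_lit 2491925266) (nat_lit 1748) (nat_lit 1167616913) (nat_lit 1824) (nat_lit 7653377191) (nat_lit 498) (nat_lit 5) (nat_lit 521) (nat_lit 5) (nat_lit 522) (nat_lit 5) (nat_lit 581) (nat_lit 558) (nat_lit 421)) (XT.lf (nat_lit 0) (nat_lit 3894985518) (nat_lit 1748) (nat_lit 6359418127) (nat_lit 76) (nat_lit 1169464239) (nat_lit 499) (nat_lit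 5) (nat_lit 522) (nat_lit 5) (nat_lit 500) (nat_lit 5) (nat_lit 582) (nat_lit 558) (nat_lit 420))) (XT.nd (nat_lit 78) (nat_lit 3572) (nat_lit 0) (XT.lf (nat_lit 0) (nat_lit 5343293249) (nat_lit 1748) (nat_lit 136863679) (nat_lit 76) (nat_lit 6056536081) (nat_lit 499) (nat_lit 5) (nat_lit 522) (nat_lit 5) (nat_lit 500) (nat_lit 5) (nat_lit 583) (nat_lit 558) (nat_lit 419)) (XT.nd (nat_lit 78) (nat_lit 1824) (nat_lit 0) (XT.lf (nat_lit 0) (nat_lit 6280071948) (nat_lit 1748) (nat_lit 566626131) (nat_lit 1824) (nat_lit 4804555280) (nat_lit 476) (nat_lit 5) (nat_lit 499) (nat_lit 5) (nat_lit 500) (nat_lit 5) (nat_lit 584) (nat_lit 558) (nat_lit 418)) (XT.lf (nat_lit 0) (nat_lit 1031115161) (nat_lit 1824) (nat_lit 7371113073) (nat_lit 1900) (nat_lit 3365436851) (nat_lit 452) (nat_lit 5) (nat_lit 476) (nat_lit 5) (nat_lit 477) (nat_lit 5) (nat_lit 585) (nat_lit 558) (nat_lit 417)))))) (XT.nd (nat_lit 390) (nat_lit 2660) (nat_lit 0) (XT.nd (nat_lit 156) (nat_lit 988) (nat_lit 0)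 (XT.nd (nat_lit 78) (nat_lit 1064) (nat_lit 0) (XT.lf (nat_lit 0) (nat_lit 7617890393) (nat_lit 1824) (nat_lit 2396528040) (nat_lit 1900) (nat_lit 1871476911) (nat_lit 452) (nat_lit 5) (nat_lit 476) (nat_lit 5) (nat_lit 477) (nat_lit 5) (nat_lit 586) (nat_lit 558) (nat_lit 416)) (XT.lf (nat_lit 0) (nat_lit 2330474299) (nat_lit 1064) (nat_lit 9346961083) (nat_lit 1140) (nat_lit 328684430) (nat_lit 438) (nat_lit 5) (nat_lit 452) (nat_lit 5) (nat_lit 453) (nat_lit 5) (nat_lit 587) (nat_lit 558) (nat_lit 415))) (XT.nd (nat_lit 78) (nat_lit 912) (nat_lit 0) (XT.lf (nat_lit 0) (nat_lit 1259504380) (nat_lit 1140) (nat_lit 3046261572) (nat_lit 76) (nat_lit 7822205003) (nat_lit 437) (nat_lit 5) (nat_lit 452) (nat_lit 5) (nat_lit 438) (nat_lit 5) (nat_lit 588) (nat_lit 558) (nat_lit 414)) (XT.nd (nat_lit 78) (nat_lit 0) (nat_lit 0) (XT.lf (nat_lit 0) (nat_lit 2891459731) (nat_lit 988) (nat_lit 8507364211) (nat_lit 76) (nat_lit 853064838) (nat_lit 425) (nat_lit 5) (nat_lit 438) (nat_lit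 5) (nat_lit 426) (nat_lit 5) (nat_lit 589) (nat_lit 558) (nat_lit 413)) (XT.lf (nat_lit 0) (nat_lit 4591776858) (nat_lit 988) (nat_lit 1706769707) (nat_lit 76) (nat_lit 6079025110) (nat_lit 425) (nat_lit 5) (nat_lit 438) (nat_lit 5) (nat_lit 426) (nat_lit 5) (nat_lit 590) (nat_lit 558) (nat_lit 412))))) (XT.nd (nat_lit 156) (nat_lit 1748) (nat_lit 0) (XT.nd (nat_lit 78) (nat_lit 0) (nat_lit 0) (XT.lf (nat_lit 0) (nat_lit 5286759258) (nat_lit 912) (nat_lit 1060558637) (nat_lit 988) (nat_lit 6158027126) (nat_lit 413) (nat_lit 5) (nat_lit 425) (nat_lit 5) (nat_lit 426) (nat_lit 5) (nat_lit 591) (nat_lit 558) (nat_lit 411)) (XT.lf (nat_lit 0) (nat_lit 8164374979) (nat_lit 988) (nat_lit 232625085) (nat_lit 76) (nat_lit 4238146785) (nat_lit 413) (nat_lit 5) (nat_lit 426) (nat_lit 5) (nat_lit 414) (nat_lit 5) (nat_lit 592) (nat_lit 558) (nat_lit 410))) (XT.nd (nat_lit 78) (nat_lit 912) (nat_lit 0) (XT.lf (nat_lit 0) (nat_lit 6965029666) (nat_lit 836) (nat_lit 3092315407) (nat_lit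 912) (nat_lit 2709409304) (nat_lit 402) (nat_lit 5) (nat_lit 413) (nat_lit 5) (nat_lit 414) (nat_lit 5) (nat_lit 593) (nat_lit 558) (nat_lit 409)) (XT.nd (nat_lit 78) (nat_lit 76) (nat_lit 0) (XT.lf (nat_lit 0) (nat_lit 1399599993) (nat_lit 836) (nat_lit 10601783169) (nat_lit 912) (nat_lit 899347799) (nat_lit 391) (nat_lit 5) (nat_lit 402) (nat_lit 5) (nat_lit 403) (nat_lit 5) (nat_lit 594) (nat_lit 558) (nat_lit 408)) (XT.lf (nat_lit 0) (nat_lit 981744075) (nat_lit 912) (nat_lit 4252502450) (nat_lit 76) (nat_lit 7802073667) (nat_lit 390) (nat_lit 5) (nat_lit 402) (nat_lit 5) (nat_lit 391) (nat_lit 5) (nat_lit 595) (nat_lit 558) (nat_lit 407))))))) (XT.nd (nat_lit 780) (nat_lit 4028) (nat_lit 0) (XT.nd (nat_lit 390) (nat_lit 2280) (nat_lit 0) (XT.nd (nat_lit 156) (nat_lit 1596) (nat_lit 0) (XT.nd (nat_lit 78) (nat_lit 0) (nat_lit 0) (XT.lf (nat_lit 0) (nat_lit 2898530438) (nat_lit 912) (nat_lit 10011786870) (nat_lit 76) (nat_lit 263983722) (nat_lit 379) (nat_lit 5) (nat_lit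 391) (nat_lit 5) (nat_lit 380) (nat_lit 5) (nat_lit 596) (nat_lit 558) (nat_lit 406)) (XT.lf (nat_lit 0) (nat_lit 4905021615) (nat_lit 912) (nat_lit 2578364366) (nat_lit 76) (nat_lit 5830629117) (nat_lit 379) (nat_lit 5) (nat_lit 391) (nat_lit 5) (nat_lit 380) (nat_lit 5) (nat_lit 597) (nat_lit 558) (nat_lit 405))) (XT.nd (nat_lit 78) (nat_lit 760) (nat_lit 0) (XT.lf (nat_lit 0) (nat_lit 5057790181) (nat_lit 836) (nat_lit 1914906345) (nat_lit 912) (nat_lit 6483406820) (nat_lit 368) (nat_lit 5) (nat_lit 379) (nat_lit 5) (nat_lit 380) (nat_lit 5) (nat_lit 598) (nat_lit 558) (nat_lit 404)) (XT.nd (nat_lit 78) (nat_lit 760) (nat_lit 0) (XT.lf (nat_lit 0) (nat_lit 9111949905) (nat_lit 912) (nat_lit 756047682) (nat_lit 76) (nat_lit 3732432230) (nat_lit 368) (nat_lit 5) (nat_lit 380) (nat_lit 5) (nat_lit 369) (nat_lit 5) (nat_lit 599) (nat_lit 558) (nat_lit 403)) (XT.lf (nat_lit 0) (nat_lit 7107420729) (nat_lit 760) (nat_lit 4233987068) (nat_lit 836) (nat_lit 2405287571) (nat_lit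 358) (nat_lit 5) (nat_lit 368) (nat_lit 5) (nat_lit 369) (nat_lit 5) (nat_lit 600) (nat_lit 558) (nat_lit 402))))) (XT.nd (nat_lit 156) (nat_lit 1444) (nat_lit 0) (XT.nd (nat_lit 78) (nat_lit 76) (nat_lit 0) (XT.lf (nat_lit 0) (nat_lit 1236669593) (nat_lit 760) (nat_lit 12390474691) (nat_lit 836) (nat_lit 268509076) (nat_lit 348) (nat_lit 5) (nat_lit 358) (nat_lit 5) (nat_lit 359) (nat_lit 5) (nat_lit 601) (nat_lit 558) (nat_lit 401)) (XT.lf (nat_lit 0) (nat_lit 1947628078) (nat_lit 836) (nat_lit 4739697207) (nat_lit 76) (nat_lit 7358784236) (nat_lit 347) (nat_lit 5) (nat_lit 358) (nat_lit 5) (nat_lit 348) (nat_lit 5) (nat_lit 602) (nat_lit 558) (nat_lit 400))) (XT.nd (nat_lit 78) (nat_lit 760) (nat_lit 0) (XT.lf (nat_lit 0) (nat_lit 3368229297) (nat_lit 684) (nat_lit 847153653) (nat_lit 760) (nat_lit 9983939418) (nat_lit 338) (nat_lit 5) (nat_lit 347) (nat_lit 5) (nat_lit 348) (nat_lit 5) (nat_lit 603) (nat_lit 558) (nat_lit 399)) (XT.nd (nat_lit 78) (nat_lit 760) (nat_lit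 0) (XT.lf (nat_lit 0) (nat_lit 6582833042) (nat_lit 760) (nat_lit 2698060636) (nat_lit 76) (nat_lit 5073619841) (nat_lit 338) (nat_lit 5) (nat_lit 348) (nat_lit 5) (nat_lit 339) (nat_lit 5) (nat_lit 604) (nat_lit 558) (nat_lit 398)) (XT.lf (nat_lit 0) (nat_lit 5654145459) (nat_lit 760) (nat_lit 3375167503) (nat_lit 836) (nat_lit 5482862750) (nat_lit 328) (nat_lit 5) (nat_lit 338) (nat_lit 5) (nat_lit 339) (nat_lit 5) (nat_lit 605) (nat_lit 558) (nat_lit 397)))))) (XT.nd (nat_lit 390) (nat_lit 1976) (nat_lit 0) (XT.nd (nat_lit 156) (nat_lit 1368) (nat_lit 0) (XT.nd (nat_lit 78) (nat_lit 684) (nat_lit 0) (XT.lf (nat_lit 0) (nat_lit 11549626455) (nat_lit 836) (nat_lit 492131584) (nat_lit 76) (nat_lit 2630735845) (nat_lit 328) (nat_lit 5) (nat_lit 339) (nat_lit 5) (nat_lit 329) (nat_lit 5) (nat_lit 606) (nat_lit 558) (nat_lit 396)) (XT.lf (nat_lit 0) (nat_lit 8113223360) (nat_lit 684) (nat_lit 6071839349) (nat_lit 760) (nat_lit 649662183) (nat_lit 319) (nat_lit 5) (nat_lit 328)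 (nat_lit 5) (nat_lit 329) (nat_lit 5) (nat_lit 607) (nat_lit 558) (nat_lit 395))) (XT.nd (nat_lit 78) (nat_lit 608) (nat_lit 0) (XT.lf (nat_lit 0) (nat_lit 1854121004) (nat_lit 760) (nat_lit 13102180063) (nat_lit 76) (nat_lit 43543433) (nat_lit 309) (nat_lit 5) (nat_lit 319) (nat_lit 5) (nat_lit 310) (nat_lit 5) (nat_lit 608) (nat_lit 558) (nat_lit 394)) (XT.nd (nat_lit 78) (nat_lit 608) (nat_lit 0) (XT.lf (nat_lit 0) (nat_lit 4474760835) (nat_lit 760) (nat_lit 4443938690) (nat_lit 76) (nat_lit 6247972245) (nat_lit 309) (nat_lit 5) (nat_lit 319) (nat_lit 5) (nat_lit 310) (nat_lit 5) (nat_lit 609) (nat_lit 558) (nat_lit 393)) (XT.lf (nat_lit 0) (nat_lit 4433766394) (nat_lit 608) (nat_lit 2732890343) (nat_lit 684) (nat_lit 8169802724) (nat_lit 301) (nat_lit 5) (nat_lit 309) (nat_lit 5) (nat_lit 310) (nat_lit 5) (nat_lit 610) (nat_lit 558) (nat_lit 392))))) (XT.nd (nat_lit 234) (nat_lit 684) (nat_lit 0) (XT.nd (nat_lit 78) (nat_lit 1292) (nat_lit 0) (XT.lf (nat_lit 0) (nat_lit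 9955793317) (nat_lit 684) (nat_lit 1995158896) (nat_lit 76) (nat_lit 3557823361) (nat_lit 301) (nat_lit 5) (nat_lit 310) (nat_lit 5) (nat_lit 302) (nat_lit 5) (nat_lit 611) (nat_lit 558) (nat_lit 391)) (XT.nd (nat_lit 78) (nat_lit 608) (nat_lit 0) (XT.lf (nat_lit 0) (nat_lit 7154537474) (nat_lit 684) (nat_lit 5701080880) (nat_lit 760) (nat_lit 2827822254) (nat_lit 292) (nat_lit 5) (nat_lit 301) (nat_lit 5) (nat_lit 302) (nat_lit 5) (nat_lit 612) (nat_lit 558) (nat_lit 390)) (XT.lf (nat_lit 0) (nat_lit 645115578) (nat_lit 608) (nat_lit 15180819629) (nat_lit 684) (nat_lit 35414526) (nat_lit 284) (nat_lit 5) (nat_lit 292) (nat_lit 5) (nat_lit 293) (nat_lit 5) (nat_lit 613) (nat_lit 558) (nat_lit 389)))) (XT.nd (nat_lit 78) (nat_lit 608) (nat_lit 0) (XT.lf (nat_lit 0) (nat_lit 2861821029) (nat_lit 684) (nat_lit 5991716033) (nat_lit 76) (nat_lit 7187197979) (nat_lit 283) (nat_lit 5) (nat_lit 292) (nat_lit 5) (nat_lit 284) (nat_lit 5) (nat_lit 614) (nat_lit 558) (nat_lit 388)) (XT.nd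 (nat_lit 78) (nat_lit 0) (nat_lit 0) (XT.lf (nat_lit 0) (nat_lit 3450674438) (nat_lit 608) (nat_lit 2378946023) (nat_lit 684) (nat_lit 10393821703) (nat_lit 275) (nat_lit 5) (nat_lit 283) (nat_lit 5) (nat_lit 284) (nat_lit 5) (nat_lit 615) (nat_lit 558) (nat_lit 387)) (XT.lf (nat_lit 0) (nat_lit 8915463150) (nat_lit 684) (nat_lit 3285298454) (nat_lit 76) (nat_lit 4207868724) (nat_lit 275) (nat_lit 5) (nat_lit 284) (nat_lit 5) (nat_lit 276) (nat_lit 5) (nat_lit 616) (nat_lit 558) (nat_lit 386))))))))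
noncomputable def xc152 : XT := (XT.nd (nat_lit 1560) (nat_lit 3724) (nat_lit 0) (XT.nd (nat_lit 780) (nat_lit 2964) (nat_lit 0) (XT.nd (nat_lit 390) (nat_lit 1672) (nat_lit 0) (XT.nd (nat_lit 156) (nat_lit 1216) (nat_lit 0) (XT.nd (nat_lit 78) (nat_lit 0) (nat_lit 0) (XT.lf (nat_lit 0) (nat_lit 6449246150) (nat_lit 608) (nat_lit 5662365731) (nat_lit 684) (nat_lit 4484939223) (nat_lit 267) (nat_lit 5) (nat_lit 275) (nat_lit 5) (nat_lit 276) (nat_lit 5) (nat_lit 617) (nat_lit 558) (nat_lit 385)) (XT.lf (nat_lit 0) (nat_lit 15391461118) (nat_lit 684) (nat_lit 383047380) (nat_lit 76) (nat_lit 1013326863) (nat_lit 267) (nat_lit 5) (nat_lit 276) (nat_lit 5) (nat_lit 268) (nat_lit 5) (nat_lit 618) (nat_lit 558) (nat_lit 384))) (XT.nd (nat_lit 78) (nat_lit 532) (nat_lit 0) (XT.lf (nat_lit 0) (nat_lit 1822968314) (nat_lit 684) (nat_lit 7338860241) (nat_lit 76) (nat_lit 7819049393) (nat_lit 258) (nat_lit 5) (nat_lit 267) (nat_lit 5) (nat_lit 259) (nat_lit 5) (nat_lit 619) (nat_lit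 558) (nat_lit 383)) (XT.nd (nat_lit 78) (nat_lit 0) (nat_lit 0) (XT.lf (nat_lit 0) (nat_lit 2709918362) (nat_lit 532) (nat_lit 2389546348) (nat_lit 608) (nat_lit 12077903368) (nat_lit 251) (nat_lit 5) (nat_lit 258) (nat_lit 5) (nat_lit 259) (nat_lit 5) (nat_lit 620) (nat_lit 558) (nat_lit 382)) (XT.lf (nat_lit 0) (nat_lit 8511744963) (nat_lit 608) (nat_lit 4358796922) (nat_lit 76) (nat_lit 4505841619) (nat_lit 251) (nat_lit 5) (nat_lit 259) (nat_lit 5) (nat_lit 252) (nat_lit 5) (nat_lit 621) (nat_lit 558) (nat_lit 381))))) (XT.nd (nat_lit 156) (nat_lit 1140) (nat_lit 0) (XT.nd (nat_lit 78) (nat_lit 0) (nat_lit 0) (XT.lf (nat_lit 0) (nat_lit 6003683298) (nat_lit 532) (nat_lit 6034907068) (nat_lit 608) (nat_lit 5539863044) (nat_lit 244) (nat_lit 5) (nat_lit 251) (nat_lit 5) (nat_lit 252) (nat_lit 5) (nat_lit 622) (nat_lit 558) (nat_lit 380)) (XT.lf (nat_lit 0) (nat_lit 15663093137) (nat_lit 608) (nat_lit 1169098503) (nat_lit 76) (nat_lit 951831214) (nat_lit 244) (nat_lit 5)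 (nat_lit 252) (nat_lit 5) (nat_lit 245) (nat_lit 5) (nat_lit 623) (nat_lit 558) (nat_lit 379))) (XT.nd (nat_lit 78) (nat_lit 532) (nat_lit 0) (XT.lf (nat_lit 0) (nat_lit 1442602392) (nat_lit 608) (nat_lit 8482882326) (nat_lit 76) (nat_lit 8066159259) (nat_lit 236) (nat_lit 5) (nat_lit 244) (nat_lit 5) (nat_lit 237) (nat_lit 5) (nat_lit 624) (nat_lit 558) (nat_lit 378)) (XT.nd (nat_lit 78) (nat_lit 0) (nat_lit 0) (XT.lf (nat_lit 0) (nat_lit 2216588366) (nat_lit 532) (nat_lit 2846523646) (nat_lit 608) (nat_lit 13139743519) (nat_lit 229) (nat_lit 5) (nat_lit 236) (nat_lit 5) (nat_lit 237) (nat_lit 5) (nat_lit 625) (nat_lit 558) (nat_lit 377)) (XT.lf (nat_lit 0) (nat_lit 8833593064) (nat_lit 608) (nat_lit 5212113573) (nat_lit 76) (nat_lit 4371033962) (nat_lit 229) (nat_lit 5) (nat_lit 237) (nat_lit 5) (nat_lit 230) (nat_lit 5) (nat_lit 626) (nat_lit 558) (nat_lit 376)))))) (XT.nd (nat_lit 390) (nat_lit 1444) (nat_lit 0) (XT.nd (nat_lit 156) (nat_lit 1064) (nat_lit 0) (XT.nd (nat_lit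 78) (nat_lit 0) (nat_lit 0) (XT.lf (nat_lit 0) (nat_lit 5824054557) (nat_lit 456) (nat_lit 6904114181) (nat_lit 532) (nat_lit 5905761428) (nat_lit 223) (nat_lit 5) (nat_lit 229) (nat_lit 5) (nat_lit 230) (nat_lit 5) (nat_lit 627) (nat_lit 558) (nat_lit 375)) (XT.lf (nat_lit 0) (nat_lit 16730398845) (nat_lit 532) (nat_lit 1716934442) (nat_lit 76) (nat_lit 407535468) (nat_lit 223) (nat_lit 5) (nat_lit 230) (nat_lit 5) (nat_lit 224) (nat_lit 5) (nat_lit 628) (nat_lit 558) (nat_lit 374))) (XT.nd (nat_lit 78) (nat_lit 456) (nat_lit 0) (XT.lf (nat_lit 0) (nat_lit 1811128214) (nat_lit 608) (nat_lit 9422035705) (nat_lit 76) (nat_lit 7844809659) (nat_lit 215) (nat_lit 5) (nat_lit 223) (nat_lit 5) (nat_lit 216) (nat_lit 5) (nat_lit 629) (nat_lit 558) (nat_lit 373)) (XT.nd (nat_lit 78) (nat_lit 0) (nat_lit 0) (XT.lf (nat_lit 0) (nat_lit 1975107338) (nat_lit 456) (nat_lit 3838604505) (nat_lit 532) (nat_lit 13491213854) (nat_lit 209) (nat_lit 5) (nat_lit 215) (nat_lit 5) (nat_lit 216)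 (nat_lit 5) (nat_lit 630) (nat_lit 558) (nat_lit 372)) (XT.lf (nat_lit 0) (nat_lit 9976373372) (nat_lit 532) (nat_lit 5842650681) (nat_lit 76) (nat_lit 3715792734) (nat_lit 209) (nat_lit 5) (nat_lit 216) (nat_lit 5) (nat_lit 210) (nat_lit 5) (nat_lit 631) (nat_lit 558) (nat_lit 371))))) (XT.nd (nat_lit 156) (nat_lit 988) (nat_lit 0) (XT.nd (nat_lit 78) (nat_lit 0) (nat_lit 0) (XT.lf (nat_lit 0) (nat_lit 5915695890) (nat_lit 456) (nat_lit 8362905279) (nat_lit 532) (nat_lit 5489578711) (nat_lit 203) (nat_lit 5) (nat_lit 209) (nat_lit 5) (nat_lit 210) (nat_lit 5) (nat_lit 632) (nat_lit 558) (nat_lit 370)) (XT.lf (nat_lit 0) (nat_lit 17977749991) (nat_lit 456) (nat_lit 720892178) (nat_lit 532) (nat_lit 1306933125) (nat_lit 203) (nat_lit 5) (nat_lit 209) (nat_lit 5) (nat_lit 210) (nat_lit 5) (nat_lit 633) (nat_lit 558) (nat_lit 369))) (XT.nd (nat_lit 78) (nat_lit 456) (nat_lit 0) (XT.lf (nat_lit 0) (nat_lit 3025495345) (nat_lit 532) (nat_lit 10156129011) (nat_lit 76) (nat_lit 7063611544)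 (nat_lit 196) (nat_lit 5) (nat_lit 203) (nat_lit 5) (nat_lit 197) (nat_lit 5) (nat_lit 634) (nat_lit 558) (nat_lit 368)) (XT.nd (nat_lit 78) (nat_lit 0) (nat_lit 0) (XT.lf (nat_lit 0) (nat_lit 1988404179) (nat_lit 456) (nat_lit 5462780373) (nat_lit 532) (nat_lit 13037850556) (nat_lit 190) (nat_lit 5) (nat_lit 196) (nat_lit 5) (nat_lit 197) (nat_lit 5) (nat_lit 635) (nat_lit 558) (nat_lit 367)) (XT.lf (nat_lit 0) (nat_lit 12042408554) (nat_lit 532) (nat_lit 6249607599) (nat_lit 76) (nat_lit 2444154129) (nat_lit 190) (nat_lit 5) (nat_lit 197) (nat_lit 5) (nat_lit 191) (nat_lit 5) (nat_lit 636) (nat_lit 558) (nat_lit 366))))))) (XT.nd (nat_lit 780) (nat_lit 1216) (nat_lit 0) (XT.nd (nat_lit 390) (nat_lit 1216) (nat_lit 0) (XT.nd (nat_lit 156) (nat_lit 836) (nat_lit 0) (XT.nd (nat_lit 78) (nat_lit 76) (nat_lit 0) (XT.lf (nat_lit 0) (nat_lit 6282204150) (nat_lit 380) (nat_lit 10513126822) (nat_lit 456) (nat_lit 4191520100) (nat_lit 185) (nat_lit 5) (nat_lit 190) (nat_lit 5) (nat_lit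 191) (nat_lit 5) (nat_lit 637) (nat_lit 558) (nat_lit 365)) (XT.lf (nat_lit 0) (nat_lit 430659279) (nat_lit 456) (nat_lit 2105691775) (nat_lit 76) (nat_lit 18705439780) (nat_lit 184) (nat_lit 5) (nat_lit 190) (nat_lit 5) (nat_lit 185) (nat_lit 5) (nat_lit 638) (nat_lit 558) (nat_lit 364))) (XT.nd (nat_lit 78) (nat_lit 380) (nat_lit 0) (XT.lf (nat_lit 0) (nat_lit 5189711499) (nat_lit 532) (nat_lit 10687481438) (nat_lit 76) (nat_lit 5622071631) (nat_lit 178) (nat_lit 5) (nat_lit 185) (nat_lit 5) (nat_lit 179) (nat_lit 5) (nat_lit 639) (nat_lit 558) (nat_lit 363)) (XT.nd (nat_lit 78) (nat_lit 0) (nat_lit 0) (XT.lf (nat_lit 0) (nat_lit 2256939686) (nat_lit 380) (nat_lit 7825799179) (nat_lit 456) (nat_lit 11678373392) (nat_lit 173) (nat_lit 5) (nat_lit 178) (nat_lit 5) (nat_lit 179) (nat_lit 5) (nat_lit 640) (nat_lit 558) (nat_lit 362)) (XT.lf (nat_lit 0) (nat_lit 15141496291) (nat_lit 456) (nat_lit 6434988710) (nat_lit 76) (nat_lit 450354866) (nat_lit 173) (nat_lit 5) (nat_lit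 179) (nat_lit 5) (nat_lit 174) (nat_lit 5) (nat_lit 641) (nat_lit 558) (nat_lit 361))))) (XT.nd (nat_lit 156) (nat_lit 760) (nat_lit 0) (XT.nd (nat_lit 78) (nat_lit 76) (nat_lit 0) (XT.lf (nat_lit 0) (nat_lit 6924408510) (nat_lit 380) (nat_lit 13467104415) (nat_lit 456) (nat_lit 1904567770) (nat_lit 168) (nat_lit 5) (nat_lit 173) (nat_lit 5) (nat_lit 174) (nat_lit 5) (nat_lit 642) (nat_lit 558) (nat_lit 360)) (XT.lf (nat_lit 0) (nat_lit 3170961493) (nat_lit 456) (nat_lit 1962707540) (nat_lit 76) (nat_lit 17435889462) (nat_lit 167) (nat_lit 5) (nat_lit 173) (nat_lit 5) (nat_lit 168) (nat_lit 5) (nat_lit 643) (nat_lit 558) (nat_lit 359))) (XT.nd (nat_lit 78) (nat_lit 380) (nat_lit 0) (XT.lf (nat_lit 0) (nat_lit 8415323061) (nat_lit 456) (nat_lit 11022053779) (nat_lit 76) (nat_lit 3409021078) (nat_lit 162) (nat_lit 5) (nat_lit 168) (nat_lit 5) (nat_lit 163) (nat_lit 5) (nat_lit 644) (nat_lit 558) (nat_lit 358)) (XT.nd (nat_lit 78) (nat_lit 0) (nat_lit 0) (XT.lf (nat_lit 0) (nat_lit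 2777550824) (nat_lit 380) (nat_lit 11045804554) (nat_lit 456) (nat_lit 9304243402) (nat_lit 157) (nat_lit 5) (nat_lit 162) (nat_lit 5) (nat_lit 163) (nat_lit 5) (nat_lit 645) (nat_lit 558) (nat_lit 357)) (XT.lf (nat_lit 0) (nat_lit 16992596928) (nat_lit 380) (nat_lit 2414472100) (nat_lit 456) (nat_lit 4006004536) (nat_lit 157) (nat_lit 5) (nat_lit 162) (nat_lit 5) (nat_lit 163) (nat_lit 5) (nat_lit 646) (nat_lit 558) (nat_lit 356)))))) (XT.nd (nat_lit 74334) (nat_lit 0) (nat_lit 29868) (XT.nd (nat_lit 156) (nat_lit 760) (nat_lit 0) (XT.nd (nat_lit 78) (nat_lit 0) (nat_lit 0) (XT.lf (nat_lit 0) (nat_lit 1466473584) (nat_lit 456) (nat_lit 15873038476) (nat_lit 76) (nat_lit 6362832282) (nat_lit 151) (nat_lit 5) (nat_lit 157) (nat_lit 5) (nat_lit 152) (nat_lit 5) (nat_lit 647) (nat_lit 558) (nat_lit 355)) (XT.lf (nat_lit 0) (nat_lit 7047850643) (nat_lit 456) (nat_lit 1598114458) (nat_lit 76) (nat_lit 15349844343) (nat_lit 151) (nat_lit 5) (nat_lit 157) (nat_lit 5) (nat_lit 152)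 (nat_lit 5) (nat_lit 648) (nat_lit 558) (nat_lit 354))) (XT.nd (nat_lit 78) (nat_lit 380) (nat_lit 0) (XT.lf (nat_lit 0) (nat_lit 12821852858) (nat_lit 456) (nat_lit 11170793751) (nat_lit 76) (nat_lit 300877579) (nat_lit 146) (nat_lit 5) (nat_lit 152) (nat_lit 5) (nat_lit 147) (nat_lit 5) (nat_lit 649) (nat_lit 558) (nat_lit 353)) (XT.nd (nat_lit 78) (nat_lit 76) (nat_lit 0) (XT.lf (nat_lit 0) (nat_lit 3542073601) (nat_lit 304) (nat_lit 15254152160) (nat_lit 380) (nat_lit 5799269939) (nat_lit 142) (nat_lit 5) (nat_lit 146) (nat_lit 5) (nat_lit 147) (nat_lit 5) (nat_lit 650) (nat_lit 558) (nat_lit 352)) (XT.lf (nat_lit 0) (nat_lit 56071082) (nat_lit 380) (nat_lit 6211541873) (nat_lit 76) (nat_lit 18634509395) (nat_lit 141) (nat_lit 5) (nat_lit 146) (nat_lit 5) (nat_lit 142) (nat_lit 5) (nat_lit 651) (nat_lit 558) (nat_lit 351))))) (XT.nd (nat_lit 234) (nat_lit 0) (nat_lit 76) (XT.nd (nat_lit 78) (nat_lit 1596) (nat_lit 0) (XT.lf (nat_lit 0) (nat_lit 4662244183) (nat_lit 1596)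 (nat_lit 9069185) (nat_lit 1596) (nat_lit 9069185) (nat_lit 555) (nat_lit 3) (nat_lit 576) (nat_lit 3) (nat_lit 576) (nat_lit 5) (nat_lit 559) (nat_lit 559) (nat_lit 442)) (XT.nd (nat_lit 78) (nat_lit 0) (nat_lit 0) (XT.lf (nat_lit 0) (nat_lit 816093489) (nat_lit 1596) (nat_lit 4771609017) (nat_lit 1672) (nat_lit 3849547783) (nat_lit 534) (nat_lit 5) (nat_lit 555) (nat_lit 3) (nat_lit 556) (nat_lit 5) (nat_lit 560) (nat_lit 559) (nat_lit 441)) (XT.lf (nat_lit 0) (nat_lit 1663521933) (nat_lit 1596) (nat_lit 83516367) (nat_lit 1672) (nat_lit 7768654302) (nat_lit 534) (nat_lit 5) (nat_lit 555) (nat_lit 3) (nat_lit 556) (nat_lit 5) (nat_lit 561) (nat_lit 559) (nat_lit 440)))) (XT.nd (nat_lit 78) (nat_lit 0) (nat_lit 0) (XT.lf (nat_lit 0) (nat_lit 2551894978) (nat_lit 1596) (nat_lit 4860378393) (nat_lit 1672) (nat_lit 2182952583) (nat_lit 535) (nat_lit 5) (nat_lit 556) (nat_lit 5) (nat_lit 557) (nat_lit 5) (nat_lit 562) (nat_lit 559) (nat_lit 439)) (XT.nd (nat_lit 78) (nat_lit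 0) (nat_lit 76) (XT.lf (nat_lit 0) (nat_lit 3449374600) (nat_lit 1596) (nat_lit 48743349) (nat_lit 1672) (nat_lit 6178407312) (nat_lit 535) (nat_lit 5) (nat_lit 556) (nat_lit 5) (nat_lit 557) (nat_lit 5) (nat_lit 563) (nat_lit 559) (nat_lit 438)) (XT.lf (nat_lit 0) (nat_lit 4379789781) (nat_lit 1596) (nat_lit 4850468434) (nat_lit 1672) (nat_lit 528894653) (nat_lit 536) (nat_lit 5) (nat_lit 557) (nat_lit 5) (nat_lit 558) (nat_lit 5) (nat_lit 564) (nat_lit 559) (nat_lit 437))))))))
noncomputable def xc153 : XT := (XT.nd (nat_lit 1560) (nat_lit 10488) (nat_lit 0) (XT.nd (nat_lit 780) (nat_lit 3040) (nat_lit 0) (XT.nd (nat_lit 390) (nat_lit 1520) (nat_lit 0) (XT.nd (nat_lit 156) (nat_lit 0) (nat_lit 76) (XT.nd (nat_lit 78) (nat_lit 0) (nat_lit 0) (XT.lf (nat_lit 76) (nat_lit 88789358) (nat_lit 0) (nat_lit 5244092929) (nat_lit 1672) (nat_lit 4510471351) (nat_lit 537) (nat_lit 5) (nat_lit 536) (nat_lit 5) (nat_lit 558) (nat_lit 5) (nat_lit 565) (nat_lit 559) (nat_lit 436)) (XT.lf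 (nat_lit 76) (nat_lit 5180957028) (nat_lit 0) (nat_lit 1136942491) (nat_lit 1672) (nat_lit 3611083597) (nat_lit 537) (nat_lit 5) (nat_lit 536) (nat_lit 5) (nat_lit 558) (nat_lit 5) (nat_lit 566) (nat_lit 559) (nat_lit 435))) (XT.nd (nat_lit 78) (nat_lit 0) (nat_lit 0) (XT.lf (nat_lit 76) (nat_lit 331334534) (nat_lit 0) (nat_lit 6994002696) (nat_lit 1672) (nat_lit 2690935468) (nat_lit 538) (nat_lit 5) (nat_lit 537) (nat_lit 5) (nat_lit 559) (nat_lit 5) (nat_lit 567) (nat_lit 559) (nat_lit 434)) (XT.nd (nat_lit 78) (nat_lit 0) (nat_lit 76) (XT.lf (nat_lit 76) (nat_lit 5557255544) (nat_lit 0) (nat_lit 2816061881) (nat_lit 1672) (nat_lit 1731584646) (nat_lit 538) (nat_lit 5) (nat_lit 537) (nat_lit 5) (nat_lit 559) (nat_lit 5) (nat_lit 568) (nat_lit 559) (nat_lit 433)) (XT.lf (nat_lit 76) (nat_lit 679977557) (nat_lit 0) (nat_lit 8757548659) (nat_lit 1672) (nat_lit 757874277) (nat_lit 539) (nat_lit 5) (nat_lit 538) (nat_lit 5) (nat_lit 560) (nat_lit 5) (nat_lit 569) (nat_lit 559)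 (nat_lit 432))))) (XT.nd (nat_lit 156) (nat_lit 0) (nat_lit 76) (XT.nd (nat_lit 78) (nat_lit 0) (nat_lit 0) (XT.lf (nat_lit 0) (nat_lit 263225852) (nat_lit 1672) (nat_lit 4245793107) (nat_lit 1748) (nat_lit 5778041103) (nat_lit 516) (nat_lit 5) (nat_lit 538) (nat_lit 5) (nat_lit 539) (nat_lit 5) (nat_lit 570) (nat_lit 559) (nat_lit 431)) (XT.lf (nat_lit 76) (nat_lit 1127116215) (nat_lit 0) (nat_lit 156804513) (nat_lit 1748) (nat_lit 9096747224) (nat_lit 517) (nat_lit 5) (nat_lit 516) (nat_lit 5) (nat_lit 539) (nat_lit 5) (nat_lit 571) (nat_lit 559) (nat_lit 430))) (XT.nd (nat_lit 78) (nat_lit 0) (nat_lit 0) (XT.lf (nat_lit 0) (nat_lit 2363822422) (nat_lit 1672) (nat_lit 3850727907) (nat_lit 1748) (nat_lit 4260823510) (nat_lit 517) (nat_lit 5) (nat_lit 539) (nat_lit 5) (nat_lit 540) (nat_lit 5) (nat_lit 572) (nat_lit 559) (nat_lit 429)) (XT.nd (nat_lit 78) (nat_lit 0) (nat_lit 76) (XT.lf (nat_lit 76) (nat_lit 1669049840) (nat_lit 0) (nat_lit 1790802422) (nat_lit 1748) (nat_lit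 7112232648) (nat_lit 518) (nat_lit 5) (nat_lit 517) (nat_lit 5) (nat_lit 540) (nat_lit 5) (nat_lit 573) (nat_lit 559) (nat_lit 428)) (XT.lf (nat_lit 0) (nat_lit 4604435396) (nat_lit 1672) (nat_lit 3348885454) (nat_lit 1748) (nat_lit 2716878331) (nat_lit 518) (nat_lit 5) (nat_lit 540) (nat_lit 5) (nat_lit 541) (nat_lit 5) (nat_lit 574) (nat_lit 559) (nat_lit 427)))))) (XT.nd (nat_lit 390) (nat_lit 3192) (nat_lit 0) (XT.nd (nat_lit 156) (nat_lit 0) (nat_lit 76) (XT.nd (nat_lit 78) (nat_lit 0) (nat_lit 76) (XT.lf (nat_lit 76) (nat_lit 2322941131) (nat_lit 0) (nat_lit 3459196923) (nat_lit 1748) (nat_lit 4987934729) (nat_lit 519) (nat_lit 5) (nat_lit 518) (nat_lit 5) (nat_lit 541) (nat_lit 5) (nat_lit 575) (nat_lit 559) (nat_lit 426)) (XT.lf (nat_lit 0) (nat_lit 6996885211) (nat_lit 1672) (nat_lit 2737640387) (nat_lit 1748) (nat_lit 1137150019) (nat_lit 519) (nat_lit 5) (nat_lit 541) (nat_lit 5) (nat_lit 542) (nat_lit 5) (nat_lit 576) (nat_lit 559) (nat_lit 425))) (XT.nd (nat_lit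 78) (nat_lit 0) (nat_lit 0) (XT.lf (nat_lit 76) (nat_lit 3091626981) (nat_lit 0) (nat_lit 5171169876) (nat_lit 1748) (nat_lit 2711977799) (nat_lit 520) (nat_lit 5) (nat_lit 519) (nat_lit 5) (nat_lit 542) (nat_lit 5) (nat_lit 577) (nat_lit 559) (nat_lit 424)) (XT.nd (nat_lit 78) (nat_lit 0) (nat_lit 76) (XT.lf (nat_lit 76) (nat_lit 9062616049) (nat_lit 0) (nat_lit 493907943) (nat_lit 1748) (nat_lit 1523363248) (nat_lit 520) (nat_lit 5) (nat_lit 519) (nat_lit 5) (nat_lit 542) (nat_lit 5) (nat_lit 578) (nat_lit 559) (nat_lit 423)) (XT.lf (nat_lit 76) (nat_lit 3978253994) (nat_lit 0) (nat_lit 6935931935) (nat_lit 1748) (nat_lit 272156423) (nat_lit 521) (nat_lit 5) (nat_lit 520) (nat_lit 5) (nat_lit 543) (nat_lit 5) (nat_lit 579) (nat_lit 559) (nat_lit 422))))) (XT.nd (nat_lit 156) (nat_lit 1596) (nat_lit 0) (XT.nd (nat_lit 78) (nat_lit 0) (nat_lit 76) (XT.lf (nat_lit 0) (nat_lit 992389704) (nat_lit 1748) (nat_lit 1195703872) (nat_lit 1824) (nat_lit 9106674353) (nat_lit 497) (nat_lit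 5) (nat_lit 520) (nat_lit 5) (nat_lit 521) (nat_lit 5) (nat_lit 580) (nat_lit 559) (nat_lit 421)) (XT.lf (nat_lit 0) (nat_lit 2313346671) (nat_lit 1748) (nat_lit 6433876010) (nat_lit 1824) (nat_lit 2657409470) (nat_lit 498) (nat_lit 5) (nat_lit 521) (nat_lit 5) (nat_lit 522) (nat_lit 5) (nat_lit 581) (nat_lit 559) (nat_lit 420))) (XT.nd (nat_lit 78) (nat_lit 1672) (nat_lit 0) (XT.lf (nat_lit 0) (nat_lit 3668417571) (nat_lit 1748) (nat_lit 266527028) (nat_lit 1824) (nat_lit 7581596529) (nat_lit 498) (nat_lit 5) (nat_lit 521) (nat_lit 5) (nat_lit 522) (nat_lit 5) (nat_lit 582) (nat_lit 559) (nat_lit 419)) (XT.nd (nat_lit 78) (nat_lit 1748) (nat_lit 0) (XT.lf (nat_lit 0) (nat_lit 5082162721) (nat_lit 1748) (nat_lit 5544686437) (nat_lit 76) (nat_lit 1003209012) (nat_lit 499) (nat_lit 5) (nat_lit 522) (nat_lit 5) (nat_lit 500) (nat_lit 5) (nat_lit 583) (nat_lit 559) (nat_lit 418)) (XT.lf (nat_lit 0) (nat_lit 794267033) (nat_lit 1748) (nat_lit 5748575943) (nat_lit 1824) (nat_lit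 5202630686) (nat_lit 476) (nat_lit 5) (nat_lit 499) (nat_lit 5) (nat_lit 500) (nat_lit 5) (nat_lit 584) (nat_lit 559) (nat_lit 417))))))) (XT.nd (nat_lit 780) (nat_lit 4864) (nat_lit 0) (XT.nd (nat_lit 390) (nat_lit 2660) (nat_lit 0) (XT.nd (nat_lit 156) (nat_lit 1140) (nat_lit 0) (XT.nd (nat_lit 78) (nat_lit 1824) (nat_lit 0) (XT.lf (nat_lit 0) (nat_lit 7323049083) (nat_lit 1748) (nat_lit 732742064) (nat_lit 1824) (nat_lit 3806946517) (nat_lit 476) (nat_lit 5) (nat_lit 499) (nat_lit 5) (nat_lit 500) (nat_lit 5) (nat_lit 585) (nat_lit 559) (nat_lit 416)) (XT.lf (nat_lit 0) (nat_lit 1985475185) (nat_lit 1824) (nat_lit 7641011186) (nat_lit 1900) (nat_lit 2355312078) (nat_lit 452) (nat_lit 5) (nat_lit 476) (nat_lit 5) (nat_lit 477) (nat_lit 5) (nat_lit 586) (nat_lit 559) (nat_lit 415))) (XT.nd (nat_lit 78) (nat_lit 1140) (nat_lit 0) (XT.lf (nat_lit 0) (nat_lit 8685677339) (nat_lit 1824) (nat_lit 2564532965) (nat_lit 1900) (nat_lit 852599086) (nat_lit 452) (nat_lit 5) (nat_lit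 476) (nat_lit 5) (nat_lit 477) (nat_lit 5) (nat_lit 587) (nat_lit 559) (nat_lit 414)) (XT.nd (nat_lit 78) (nat_lit 0) (nat_lit 0) (XT.lf (nat_lit 0) (nat_lit 696466613) (nat_lit 1140) (nat_lit 8922390868) (nat_lit 76) (nat_lit 2606791559) (nat_lit 437) (nat_lit 5) (nat_lit 452) (nat_lit 5) (nat_lit 438) (nat_lit 5) (nat_lit 588) (nat_lit 559) (nat_lit 413)) (XT.lf (nat_lit 0) (nat_lit 2291878549) (nat_lit 1140) (nat_lit 2181117354) (nat_lit 76) (nat_lit 7877302408) (nat_lit 437) (nat_lit 5) (nat_lit 452) (nat_lit 5) (nat_lit 438) (nat_lit 5) (nat_lit 589) (nat_lit 559) (nat_lit 412))))) (XT.nd (nat_lit 156) (nat_lit 1748) (nat_lit 0) (XT.nd (nat_lit 78) (nat_lit 0) (nat_lit 0) (XT.lf (nat_lit 0) (nat_lit 3942220633) (nat_lit 988) (nat_lit 7737103025) (nat_lit 76) (nat_lit 797657616) (nat_lit 425) (nat_lit 5) (nat_lit 438) (nat_lit 5) (nat_lit 426) (nat_lit 5) (nat_lit 590) (nat_lit 559) (nat_lit 411)) (XT.lf (nat_lit 0) (nat_lit 5657074854) (nat_lit 988) (nat_lit 818936012)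 (nat_lit 76) (nat_lit 6129558045) (nat_lit 425) (nat_lit 5) (nat_lit 438) (nat_lit 5) (nat_lit 426) (nat_lit 5) (nat_lit 591) (nat_lit 559) (nat_lit 410))) (XT.nd (nat_lit 78) (nat_lit 836) (nat_lit 0) (XT.lf (nat_lit 0) (nat_lit 6308397946) (nat_lit 912) (nat_lit 1126187918) (nat_lit 988) (nat_lit 5301576341) (nat_lit 413) (nat_lit 5) (nat_lit 425) (nat_lit 5) (nat_lit 426) (nat_lit 5) (nat_lit 592) (nat_lit 559) (nat_lit 409)) (XT.nd (nat_lit 78) (nat_lit 0) (nat_lit 0) (XT.lf (nat_lit 0) (nat_lit 688896244) (nat_lit 836) (nat_lit 8584448045) (nat_lit 912) (nat_lit 3595510210) (nat_lit 402) (nat_lit 5) (nat_lit 413) (nat_lit 5) (nat_lit 414) (nat_lit 5) (nat_lit 593) (nat_lit 559) (nat_lit 408)) (XT.lf (nat_lit 0) (nat_lit 8015435285) (nat_lit 836) (nat_lit 3171726148) (nat_lit 912) (nat_lit 1816274593) (nat_lit 402) (nat_lit 5) (nat_lit 413) (nat_lit 5) (nat_lit 414) (nat_lit 5) (nat_lit 594) (nat_lit 559) (nat_lit 407)))))) (XT.nd (nat_lit 390) (nat_lit 2280) (nat_lit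 0) (XT.nd (nat_lit 156) (nat_lit 1672) (nat_lit 0) (XT.nd (nat_lit 78) (nat_lit 0) (nat_lit 0) (XT.lf (nat_lit 0) (nat_lit 17188301) (nat_lit 912) (nat_lit 10789106346) (nat_lit 76) (nat_lit 2334043271) (nat_lit 390) (nat_lit 5) (nat_lit 402) (nat_lit 5) (nat_lit 391) (nat_lit 5) (nat_lit 595) (nat_lit 559) (nat_lit 406)) (XT.lf (nat_lit 0) (nat_lit 1905782923) (nat_lit 912) (nat_lit 3419815934) (nat_lit 76) (nat_lit 7953284226) (nat_lit 390) (nat_lit 5) (nat_lit 402) (nat_lit 5) (nat_lit 391) (nat_lit 5) (nat_lit 596) (nat_lit 559) (nat_lit 405))) (XT.nd (nat_lit 78) (nat_lit 836) (nat_lit 0) (XT.lf (nat_lit 0) (nat_lit 3849215024) (nat_lit 912) (nat_lit 9282522099) (nat_lit 76) (nat_lit 288121694) (nat_lit 379) (nat_lit 5) (nat_lit 391) (nat_lit 5) (nat_lit 380) (nat_lit 5) (nat_lit 597) (nat_lit 559) (nat_lit 404)) (XT.nd (nat_lit 78) (nat_lit 836) (nat_lit 0) (XT.lf (nat_lit 0) (nat_lit 5878331829) (nat_lit 912) (nat_lit 1718656646) (nat_lit 76) (nat_lit 5965730226) (nat_lit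 379) (nat_lit 5) (nat_lit 391) (nat_lit 5) (nat_lit 380) (nat_lit 5) (nat_lit 598) (nat_lit 559) (nat_lit 403)) (XT.lf (nat_lit 0) (nat_lit 6064225762) (nat_lit 836) (nat_lit 1911851177) (nat_lit 912) (nat_lit 5731798863) (nat_lit 368) (nat_lit 5) (nat_lit 379) (nat_lit 5) (nat_lit 380) (nat_lit 5) (nat_lit 599) (nat_lit 559) (nat_lit 402))))) (XT.nd (nat_lit 234) (nat_lit 684) (nat_lit 0) (XT.nd (nat_lit 78) (nat_lit 836) (nat_lit 0) (XT.lf (nat_lit 0) (nat_lit 134875669) (nat_lit 760) (nat_lit 10007438911) (nat_lit 836) (nat_lit 3713091632) (nat_lit 358) (nat_lit 5) (nat_lit 368) (nat_lit 5) (nat_lit 369) (nat_lit 5) (nat_lit 600) (nat_lit 559) (nat_lit 401)) (XT.nd (nat_lit 78) (nat_lit 836) (nat_lit 0) (XT.lf (nat_lit 0) (nat_lit 8147895351) (nat_lit 760) (nat_lit 4256810363) (nat_lit 836) (nat_lit 1600125845) (nat_lit 358) (nat_lit 5) (nat_lit 368) (nat_lit 5) (nat_lit 369) (nat_lit 5) (nat_lit 601) (nat_lit 559) (nat_lit 400)) (XT.lf (nat_lit 0) (nat_lit 561613460) (nat_lit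 836) (nat_lit 11990559645) (nat_lit 76) (nat_lit 1604725203) (nat_lit 347) (nat_lit 5) (nat_lit 358) (nat_lit 5) (nat_lit 348) (nat_lit 5) (nat_lit 602) (nat_lit 559) (nat_lit 399)))) (XT.nd (nat_lit 78) (nat_lit 684) (nat_lit 0) (XT.lf (nat_lit 0) (nat_lit 2802169603) (nat_lit 836) (nat_lit 3932701354) (nat_lit 76) (nat_lit 7575784594) (nat_lit 347) (nat_lit 5) (nat_lit 358) (nat_lit 5) (nat_lit 348) (nat_lit 5) (nat_lit 603) (nat_lit 559) (nat_lit 398)) (XT.nd (nat_lit 78) (nat_lit 0) (nat_lit 0) (XT.lf (nat_lit 0) (nat_lit 4331450851) (nat_lit 684) (nat_lit 773653278) (nat_lit 760) (nat_lit 9362033298) (nat_lit 338) (nat_lit 5) (nat_lit 347) (nat_lit 5) (nat_lit 348) (nat_lit 5) (nat_lit 604) (nat_lit 559) (nat_lit 397)) (XT.lf (nat_lit 0) (nat_lit 7504686506) (nat_lit 760) (nat_lit 1858452105) (nat_lit 76) (nat_lit 5262599362) (nat_lit 338) (nat_lit 5) (nat_lit 348) (nat_lit 5) (nat_lit 339) (nat_lit 5) (nat_lit 605) (nat_lit 559) (nat_lit 396))))))))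
noncomputable def xc154 : XT := (XT.nd (nat_lit 1560) (nat_lit 6004) (nat_lit 0) (XT.nd (nat_lit 780) (nat_lit 3572) (nat_lit 0) (XT.nd (nat_lit 390) (nat_lit 1976) (nat_lit 0) (XT.nd (nat_lit 156) (nat_lit 760) (nat_lit 0) (XT.nd (nat_lit 78) (nat_lit 684) (nat_lit 0) (XT.lf (nat_lit 0) (nat_lit 6654919364) (nat_lit 760) (nat_lit 3335446084) (nat_lit 836) (nat_lit 4796383786) (nat_lit 328) (nat_lit 5) (nat_lit 338) (nat_lit 5) (nat_lit 339) (nat_lit 5) (nat_lit 606) (nat_lit 559) (nat_lit 395)) (XT.lf (nat_lit 0) (nat_lit 388081039) (nat_lit 684) (nat_lit 12160903116) (nat_lit 760) (nat_lit 2401532827) (nat_lit 319) (nat_lit 5) (nat_lit 328) (nat_lit 5) (nat_lit 329) (nat_lit 5) (nat_lit 607) (nat_lit 559) (nat_lit 394))) (XT.nd (nat_lit 78) (nat_lit 684) (nat_lit 0) (XT.lf (nat_lit 0) (nat_lit 107640038) (nat_lit 760) (nat_lit 5962307310) (nat_lit 76) (nat_lit 9046268829) (nat_lit 318) (nat_lit 5) (nat_lit 328) (nat_lit 5) (nat_lit 319) (nat_lit 5) (nat_lit 608) (nat_lit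 559) (nat_lit 393)) (XT.nd (nat_lit 78) (nat_lit 0) (nat_lit 0) (XT.lf (nat_lit 0) (nat_lit 2644461653) (nat_lit 760) (nat_lit 12466499372) (nat_lit 76) (nat_lit 173759154) (nat_lit 309) (nat_lit 5) (nat_lit 319) (nat_lit 5) (nat_lit 310) (nat_lit 5) (nat_lit 609) (nat_lit 559) (nat_lit 392)) (XT.lf (nat_lit 0) (nat_lit 5302744512) (nat_lit 760) (nat_lit 3652695609) (nat_lit 76) (nat_lit 6499740368) (nat_lit 309) (nat_lit 5) (nat_lit 319) (nat_lit 5) (nat_lit 310) (nat_lit 5) (nat_lit 610) (nat_lit 559) (nat_lit 391))))) (XT.nd (nat_lit 156) (nat_lit 1368) (nat_lit 0) (XT.nd (nat_lit 78) (nat_lit 0) (nat_lit 0) (XT.lf (nat_lit 0) (nat_lit 5396773302) (nat_lit 608) (nat_lit 2642901604) (nat_lit 684) (nat_lit 7588866172) (nat_lit 301) (nat_lit 5) (nat_lit 309) (nat_lit 5) (nat_lit 310) (nat_lit 5) (nat_lit 611) (nat_lit 559) (nat_lit 390)) (XT.lf (nat_lit 0) (nat_lit 10871207395) (nat_lit 684) (nat_lit 1164434613) (nat_lit 76) (nat_lit 3768930299) (nat_lit 301) (nat_lit 5) (nat_lit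 310) (nat_lit 5) (nat_lit 302) (nat_lit 5) (nat_lit 612) (nat_lit 559) (nat_lit 389))) (XT.nd (nat_lit 78) (nat_lit 684) (nat_lit 0) (XT.lf (nat_lit 0) (nat_lit 8162527872) (nat_lit 684) (nat_lit 5658071500) (nat_lit 760) (nat_lit 2162300896) (nat_lit 292) (nat_lit 5) (nat_lit 301) (nat_lit 5) (nat_lit 302) (nat_lit 5) (nat_lit 613) (nat_lit 559) (nat_lit 388)) (XT.nd (nat_lit 78) (nat_lit 0) (nat_lit 0) (XT.lf (nat_lit 0) (nat_lit 669693180) (nat_lit 684) (nat_lit 14638588561) (nat_lit 76) (nat_lit 856143064) (nat_lit 283) (nat_lit 5) (nat_lit 292) (nat_lit 5) (nat_lit 284) (nat_lit 5) (nat_lit 614) (nat_lit 559) (nat_lit 387)) (XT.lf (nat_lit 0) (nat_lit 3610569450) (nat_lit 684) (nat_lit 5247103546) (nat_lit 76) (nat_lit 7489997714) (nat_lit 283) (nat_lit 5) (nat_lit 292) (nat_lit 5) (nat_lit 284) (nat_lit 5) (nat_lit 615) (nat_lit 559) (nat_lit 386)))))) (XT.nd (nat_lit 390) (nat_lit 1672) (nat_lit 0) (XT.nd (nat_lit 156) (nat_lit 1292) (nat_lit 0) (XT.nd (nat_lit 78)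 (nat_lit 0) (nat_lit 0) (XT.lf (nat_lit 0) (nat_lit 4378447584) (nat_lit 608) (nat_lit 2251293865) (nat_lit 684) (nat_lit 9904451151) (nat_lit 275) (nat_lit 5) (nat_lit 283) (nat_lit 5) (nat_lit 284) (nat_lit 5) (nat_lit 616) (nat_lit 559) (nat_lit 385)) (XT.lf (nat_lit 0) (nat_lit 9765013878) (nat_lit 684) (nat_lit 2496749179) (nat_lit 76) (nat_lit 4461568150) (nat_lit 275) (nat_lit 5) (nat_lit 284) (nat_lit 5) (nat_lit 276) (nat_lit 5) (nat_lit 617) (nat_lit 559) (nat_lit 384))) (XT.nd (nat_lit 78) (nat_lit 684) (nat_lit 0) (XT.lf (nat_lit 0) (nat_lit 7426866216) (nat_lit 608) (nat_lit 5590567672) (nat_lit 684) (nat_lit 3897730463) (nat_lit 267) (nat_lit 5) (nat_lit 275) (nat_lit 5) (nat_lit 276) (nat_lit 5) (nat_lit 618) (nat_lit 559) (nat_lit 383)) (XT.nd (nat_lit 78) (nat_lit 76) (nat_lit 0) (XT.lf (nat_lit 0) (nat_lit 459188004) (nat_lit 608) (nat_lit 15894839775) (nat_lit 684) (nat_lit 756424465) (nat_lit 259) (nat_lit 5) (nat_lit 267) (nat_lit 5) (nat_lit 268) (nat_lit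 5) (nat_lit 619) (nat_lit 559) (nat_lit 382)) (XT.lf (nat_lit 0) (nat_lit 2508158471) (nat_lit 684) (nat_lit 6638650631) (nat_lit 76) (nat_lit 8160668462) (nat_lit 258) (nat_lit 5) (nat_lit 267) (nat_lit 5) (nat_lit 259) (nat_lit 5) (nat_lit 620) (nat_lit 559) (nat_lit 381))))) (XT.nd (nat_lit 156) (nat_lit 1140) (nat_lit 0) (XT.nd (nat_lit 78) (nat_lit 0) (nat_lit 0) (XT.lf (nat_lit 0) (nat_lit 3605531262) (nat_lit 532) (nat_lit 2237396343) (nat_lit 608) (nat_lit 11665115886) (nat_lit 251) (nat_lit 5) (nat_lit 258) (nat_lit 5) (nat_lit 259) (nat_lit 5) (nat_lit 621) (nat_lit 559) (nat_lit 380)) (XT.lf (nat_lit 0) (nat_lit 9312148244) (nat_lit 608) (nat_lit 3609709790) (nat_lit 76) (nat_lit 4789408129) (nat_lit 251) (nat_lit 5) (nat_lit 259) (nat_lit 5) (nat_lit 252) (nat_lit 5) (nat_lit 622) (nat_lit 559) (nat_lit 379))) (XT.nd (nat_lit 78) (nat_lit 608) (nat_lit 0) (XT.lf (nat_lit 0) (nat_lit 6954518304) (nat_lit 532) (nat_lit 5948049862) (nat_lit 608) (nat_lit 5014949365)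 (nat_lit 244) (nat_lit 5) (nat_lit 251) (nat_lit 5) (nat_lit 252) (nat_lit 5) (nat_lit 623) (nat_lit 559) (nat_lit 378)) (XT.nd (nat_lit 78) (nat_lit 608) (nat_lit 0) (XT.lf (nat_lit 0) (nat_lit 16588662431) (nat_lit 608) (nat_lit 367069983) (nat_lit 76) (nat_lit 1171684722) (nat_lit 244) (nat_lit 5) (nat_lit 252) (nat_lit 5) (nat_lit 245) (nat_lit 5) (nat_lit 624) (nat_lit 559) (nat_lit 377)) (XT.lf (nat_lit 0) (nat_lit 2081129188) (nat_lit 608) (nat_lit 7824419086) (nat_lit 76) (nat_lit 8433696615) (nat_lit 236) (nat_lit 5) (nat_lit 244) (nat_lit 5) (nat_lit 237) (nat_lit 5) (nat_lit 625) (nat_lit 559) (nat_lit 376))))))) (XT.nd (nat_lit 780) (nat_lit 2964) (nat_lit 0) (XT.nd (nat_lit 390) (nat_lit 1444) (nat_lit 0) (XT.nd (nat_lit 156) (nat_lit 1064) (nat_lit 0) (XT.nd (nat_lit 78) (nat_lit 0) (nat_lit 0) (XT.lf (nat_lit 0) (nat_lit 3083592857) (nat_lit 532) (nat_lit 2683843074) (nat_lit 608) (nat_lit 12787377759) (nat_lit 229) (nat_lit 5) (nat_lit 236) (nat_lit 5) (nat_lit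 237) (nat_lit 5) (nat_lit 626) (nat_lit 559) (nat_lit 375)) (XT.lf (nat_lit 0) (nat_lit 9602899768) (nat_lit 608) (nat_lit 4499350144) (nat_lit 76) (nat_lit 4670935824) (nat_lit 229) (nat_lit 5) (nat_lit 237) (nat_lit 5) (nat_lit 230) (nat_lit 5) (nat_lit 627) (nat_lit 559) (nat_lit 374))) (XT.nd (nat_lit 78) (nat_lit 608) (nat_lit 0) (XT.lf (nat_lit 0) (nat_lit 6752166311) (nat_lit 456) (nat_lit 6816849998) (nat_lit 532) (nat_lit 5425830523) (nat_lit 223) (nat_lit 5) (nat_lit 229) (nat_lit 5) (nat_lit 230) (nat_lit 5) (nat_lit 628) (nat_lit 559) (nat_lit 373)) (XT.nd (nat_lit 78) (nat_lit 608) (nat_lit 0) (XT.lf (nat_lit 0) (nat_lit 17641229660) (nat_lit 532) (nat_lit 945459893) (nat_lit 76) (nat_lit 633716577) (nat_lit 223) (nat_lit 5) (nat_lit 230) (nat_lit 5) (nat_lit 224) (nat_lit 5) (nat_lit 629) (nat_lit 559) (nat_lit 372)) (XT.lf (nat_lit 0) (nat_lit 2421282613) (nat_lit 608) (nat_lit 8802303170) (nat_lit 76) (nat_lit 8224434467) (nat_lit 215) (nat_lit 5) (nat_lit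 223) (nat_lit 5) (nat_lit 216) (nat_lit 5) (nat_lit 630) (nat_lit 559) (nat_lit 371))))) (XT.nd (nat_lit 156) (nat_lit 988) (nat_lit 0) (XT.nd (nat_lit 78) (nat_lit 0) (nat_lit 0) (XT.lf (nat_lit 0) (nat_lit 2817465805) (nat_lit 456) (nat_lit 3680411221) (nat_lit 532) (nat_lit 13181755875) (nat_lit 209) (nat_lit 5) (nat_lit 215) (nat_lit 5) (nat_lit 216) (nat_lit 5) (nat_lit 631) (nat_lit 559) (nat_lit 370)) (XT.lf (nat_lit 0) (nat_lit 10734152306) (nat_lit 532) (nat_lit 5162717342) (nat_lit 76) (nat_lit 4017445610) (nat_lit 209) (nat_lit 5) (nat_lit 216) (nat_lit 5) (nat_lit 210) (nat_lit 5) (nat_lit 632) (nat_lit 559) (nat_lit 369))) (XT.nd (nat_lit 78) (nat_lit 532) (nat_lit 0) (XT.lf (nat_lit 0) (nat_lit 6825554146) (nat_lit 456) (nat_lit 8291063638) (nat_lit 532) (nat_lit 5035844611) (nat_lit 203) (nat_lit 5) (nat_lit 209) (nat_lit 5) (nat_lit 210) (nat_lit 5) (nat_lit 633) (nat_lit 559) (nat_lit 368)) (XT.nd (nat_lit 78) (nat_lit 532) (nat_lit 0) (XT.lf (nat_lit 0) (nat_lit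 19113328851) (nat_lit 456) (nat_lit 500898505) (nat_lit 532) (nat_lit 780595636) (nat_lit 203) (nat_lit 5) (nat_lit 209) (nat_lit 5) (nat_lit 210) (nat_lit 5) (nat_lit 634) (nat_lit 559) (nat_lit 367)) (XT.lf (nat_lit 0) (nat_lit 3627145898) (nat_lit 532) (nat_lit 9571830948) (nat_lit 76) (nat_lit 7440310624) (nat_lit 196) (nat_lit 5) (nat_lit 203) (nat_lit 5) (nat_lit 197) (nat_lit 5) (nat_lit 635) (nat_lit 559) (nat_lit 366)))))) (XT.nd (nat_lit 390) (nat_lit 1596) (nat_lit 0) (XT.nd (nat_lit 156) (nat_lit 912) (nat_lit 0) (XT.nd (nat_lit 78) (nat_lit 0) (nat_lit 0) (XT.lf (nat_lit 0) (nat_lit 2810412507) (nat_lit 456) (nat_lit 5325404604) (nat_lit 532) (nat_lit 12752256782) (nat_lit 190) (nat_lit 5) (nat_lit 196) (nat_lit 5) (nat_lit 197) (nat_lit 5) (nat_lit 636) (nat_lit 559) (nat_lit 365)) (XT.lf (nat_lit 0) (nat_lit 12809933354) (nat_lit 532) (nat_lit 5598736156) (nat_lit 76) (nat_lit 2731661487) (nat_lit 190) (nat_lit 5) (nat_lit 197) (nat_lit 5) (nat_lit 191) (nat_lit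 5) (nat_lit 637) (nat_lit 559) (nat_lit 364))) (XT.nd (nat_lit 78) (nat_lit 532) (nat_lit 0) (XT.lf (nat_lit 0) (nat_lit 7178607463) (nat_lit 380) (nat_lit 10473984046) (nat_lit 456) (nat_lit 3743540921) (nat_lit 185) (nat_lit 5) (nat_lit 190) (nat_lit 5) (nat_lit 191) (nat_lit 5) (nat_lit 638) (nat_lit 559) (nat_lit 363)) (XT.nd (nat_lit 78) (nat_lit 456) (nat_lit 0) (XT.lf (nat_lit 0) (nat_lit 953816388) (nat_lit 456) (nat_lit 1385293814) (nat_lit 76) (nat_lit 19317198095) (nat_lit 184) (nat_lit 5) (nat_lit 190) (nat_lit 5) (nat_lit 185) (nat_lit 5) (nat_lit 639) (nat_lit 559) (nat_lit 362)) (XT.lf (nat_lit 0) (nat_lit 5804489692) (nat_lit 532) (nat_lit 10135132373) (nat_lit 76) (nat_lit 5979381178) (nat_lit 178) (nat_lit 5) (nat_lit 185) (nat_lit 5) (nat_lit 179) (nat_lit 5) (nat_lit 640) (nat_lit 559) (nat_lit 361))))) (XT.nd (nat_lit 234) (nat_lit 836) (nat_lit 0) (XT.nd (nat_lit 78) (nat_lit 380) (nat_lit 0) (XT.lf (nat_lit 0) (nat_lit 3063137052) (nat_lit 380) (nat_lit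 7727162559) (nat_lit 456) (nat_lit 11395890364) (nat_lit 173) (nat_lit 5) (nat_lit 178) (nat_lit 5) (nat_lit 179) (nat_lit 5) (nat_lit 641) (nat_lit 559) (nat_lit 360)) (XT.nd (nat_lit 78) (nat_lit 380) (nat_lit 0) (XT.lf (nat_lit 0) (nat_lit 15941936597) (nat_lit 456) (nat_lit 5809231151) (nat_lit 76) (nat_lit 706230818) (nat_lit 173) (nat_lit 5) (nat_lit 179) (nat_lit 5) (nat_lit 174) (nat_lit 5) (nat_lit 642) (nat_lit 559) (nat_lit 359)) (XT.lf (nat_lit 0) (nat_lit 7812390478) (nat_lit 380) (nat_lit 13479672229) (nat_lit 456) (nat_lit 1440059827) (nat_lit 168) (nat_lit 5) (nat_lit 173) (nat_lit 5) (nat_lit 174) (nat_lit 5) (nat_lit 643) (nat_lit 559) (nat_lit 358)))) (XT.nd (nat_lit 78) (nat_lit 760) (nat_lit 0) (XT.lf (nat_lit 0) (nat_lit 3720662701) (nat_lit 456) (nat_lit 1260677020) (nat_lit 76) (nat_lit 18029859906) (nat_lit 167) (nat_lit 5) (nat_lit 173) (nat_lit 5) (nat_lit 168) (nat_lit 5) (nat_lit 644) (nat_lit 559) (nat_lit 357)) (XT.nd (nat_lit 78) (nat_lit 380)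 (nat_lit 0) (XT.lf (nat_lit 0) (nat_lit 9066812654) (nat_lit 456) (nat_lit 10498087419) (nat_lit 76) (nat_lit 3728738221) (nat_lit 162) (nat_lit 5) (nat_lit 168) (nat_lit 5) (nat_lit 163) (nat_lit 5) (nat_lit 645) (nat_lit 559) (nat_lit 356)) (XT.lf (nat_lit 0) (nat_lit 3572611859) (nat_lit 380) (nat_lit 11005720970) (nat_lit 456) (nat_lit 9002224271) (nat_lit 157) (nat_lit 5) (nat_lit 162) (nat_lit 5) (nat_lit 163) (nat_lit 5) (nat_lit 646) (nat_lit 559) (nat_lit 355))))))))
noncomputable def xc155 : XT := (XT.nd (nat_lit 75504) (nat_lit 0) (nat_lit 19836) (XT.nd (nat_lit 74724) (nat_lit 0) (nat_lit 28500) (XT.nd (nat_lit 390) (nat_lit 76) (nat_lit 0) (XT.nd (nat_lit 156) (nat_lit 684) (nat_lit 0) (XT.nd (nat_lit 78) (nat_lit 456) (nat_lit 0) (XT.lf (nat_lit 0) (nat_lit 18057458688) (nat_lit 380) (nat_lit 2206879507) (nat_lit 456) (nat_lit 3607591293) (nat_lit 157) (nat_lit 5) (nat_lit 162) (nat_lit 5) (nat_lit 163) (nat_lit 5) (nat_lit 647) (nat_lit 559) (nat_lit 354)) (XT.lf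 (nat_lit 0) (nat_lit 1965197483) (nat_lit 456) (nat_lit 15456305881) (nat_lit 76) (nat_lit 6745477879) (nat_lit 151) (nat_lit 5) (nat_lit 157) (nat_lit 5) (nat_lit 152) (nat_lit 5) (nat_lit 648) (nat_lit 559) (nat_lit 353))) (XT.nd (nat_lit 78) (nat_lit 684) (nat_lit 0) (XT.lf (nat_lit 0) (nat_lit 7648998272) (nat_lit 456) (nat_lit 910279331) (nat_lit 76) (nat_lit 15907222554) (nat_lit 151) (nat_lit 5) (nat_lit 157) (nat_lit 5) (nat_lit 152) (nat_lit 5) (nat_lit 649) (nat_lit 559) (nat_lit 352)) (XT.nd (nat_lit 78) (nat_lit 304) (nat_lit 0) (XT.lf (nat_lit 0) (nat_lit 13535783077) (nat_lit 456) (nat_lit 10671693517) (nat_lit 76) (nat_lit 562746975) (nat_lit 146) (nat_lit 5) (nat_lit 152) (nat_lit 5) (nat_lit 147) (nat_lit 5) (nat_lit 650) (nat_lit 559) (nat_lit 351)) (XT.lf (nat_lit 0) (nat_lit 4330677787) (nat_lit 304) (nat_lit 15294655390) (nat_lit 380) (nat_lit 5452987957) (nat_lit 142) (nat_lit 5) (nat_lit 146) (nat_lit 5) (nat_lit 147) (nat_lit 5) (nat_lit 651) (nat_lit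 559) (nat_lit 350))))) (XT.nd (nat_lit 74100) (nat_lit 0) (nat_lit 29868) (XT.nd (nat_lit 74022) (nat_lit 0) (nat_lit 29868) (XT.lf (nat_lit 0) (nat_lit 504451974) (nat_lit 380) (nat_lit 5626119918) (nat_lit 76) (nat_lit 19260627700) (nat_lit 141) (nat_lit 5) (nat_lit 146) (nat_lit 5) (nat_lit 142) (nat_lit 5) (nat_lit 652) (nat_lit 559) (nat_lit 349)) (XT.lf (nat_lit 0) (nat_lit 401708023) (nat_lit 0) (nat_lit 401708023) (nat_lit 1596) (nat_lit 3954061425) (nat_lit 534) (nat_lit 5) (nat_lit 534) (nat_lit 3) (nat_lit 555) (nat_lit 3) (nat_lit 560) (nat_lit 560) (nat_lit 440))) (XT.nd (nat_lit 78) (nat_lit 0) (nat_lit 0) (XT.lf (nat_lit 0) (nat_lit 2438548001) (nat_lit 1596) (nat_lit 4023740982) (nat_lit 1672) (nat_lit 3131423569) (nat_lit 534) (nat_lit 5) (nat_lit 555) (nat_lit 3) (nat_lit 556) (nat_lit 5) (nat_lit 561) (nat_lit 560) (nat_lit 439)) (XT.nd (nat_lit 78) (nat_lit 0) (nat_lit 76) (XT.lf (nat_lit 76) (nat_lit 751433406) (nat_lit 0) (nat_lit 2524877614) (nat_lit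 1672) (nat_lit 6397948110) (nat_lit 535) (nat_lit 5) (nat_lit 534) (nat_lit 5) (nat_lit 556) (nat_lit 5) (nat_lit 562) (nat_lit 560) (nat_lit 438)) (XT.lf (nat_lit 0) (nat_lit 4147304848) (nat_lit 1596) (nat_lit 4100399295) (nat_lit 1672) (nat_lit 1508385017) (nat_lit 535) (nat_lit 5) (nat_lit 556) (nat_lit 5) (nat_lit 557) (nat_lit 5) (nat_lit 563) (nat_lit 560) (nat_lit 437)))))) (XT.nd (nat_lit 390) (nat_lit 1444) (nat_lit 0) (XT.nd (nat_lit 156) (nat_lit 0) (nat_lit 76) (XT.nd (nat_lit 78) (nat_lit 0) (nat_lit 0) (XT.lf (nat_lit 76) (nat_lit 801168333) (nat_lit 0) (nat_lit 4236485641) (nat_lit 1672) (nat_lit 4801865098) (nat_lit 536) (nat_lit 5) (nat_lit 535) (nat_lit 5) (nat_lit 557) (nat_lit 5) (nat_lit 564) (nat_lit 560) (nat_lit 436)) (XT.lf (nat_lit 76) (nat_lit 5845328542) (nat_lit 0) (nat_lit 108330399) (nat_lit 1672) (nat_lit 3970803619) (nat_lit 536) (nat_lit 5) (nat_lit 535) (nat_lit 5) (nat_lit 557) (nat_lit 5) (nat_lit 565) (nat_lit 560) (nat_lit 435))) (XT.nd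 (nat_lit 78) (nat_lit 0) (nat_lit 0) (XT.lf (nat_lit 76) (nat_lit 953894866) (nat_lit 0) (nat_lit 5947691563) (nat_lit 1672) (nat_lit 3109248352) (nat_lit 537) (nat_lit 5) (nat_lit 536) (nat_lit 5) (nat_lit 558) (nat_lit 5) (nat_lit 566) (nat_lit 560) (nat_lit 434)) (XT.nd (nat_lit 78) (nat_lit 0) (nat_lit 76) (XT.lf (nat_lit 76) (nat_lit 6130977856) (nat_lit 0) (nat_lit 1746658573) (nat_lit 1672) (nat_lit 2221116617) (nat_lit 537) (nat_lit 5) (nat_lit 536) (nat_lit 5) (nat_lit 558) (nat_lit 5) (nat_lit 567) (nat_lit 560) (nat_lit 433)) (XT.lf (nat_lit 76) (nat_lit 1211200648) (nat_lit 0) (nat_lit 7667850106) (nat_lit 1672) (nat_lit 1309263893) (nat_lit 538) (nat_lit 5) (nat_lit 537) (nat_lit 5) (nat_lit 559) (nat_lit 5) (nat_lit 568) (nat_lit 560) (nat_lit 432))))) (XT.nd (nat_lit 156) (nat_lit 0) (nat_lit 0) (XT.nd (nat_lit 78) (nat_lit 1596) (nat_lit 0) (XT.lf (nat_lit 76) (nat_lit 6524517737) (nat_lit 0) (nat_lit 3395880527) (nat_lit 1672) (nat_lit 358872924) (nat_lit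 538) (nat_lit 5) (nat_lit 537) (nat_lit 5) (nat_lit 559) (nat_lit 5) (nat_lit 569) (nat_lit 560) (nat_lit 431)) (XT.lf (nat_lit 0) (nat_lit 601165751) (nat_lit 1672) (nat_lit 8801045642) (nat_lit 1748) (nat_lit 969784979) (nat_lit 516) (nat_lit 5) (nat_lit 538) (nat_lit 5) (nat_lit 539) (nat_lit 5) (nat_lit 570) (nat_lit 560) (nat_lit 430))) (XT.nd (nat_lit 78) (nat_lit 0) (nat_lit 0) (XT.lf (nat_lit 0) (nat_lit 1605803177) (nat_lit 1672) (nat_lit 3448682775) (nat_lit 1748) (nat_lit 5411440301) (nat_lit 516) (nat_lit 5) (nat_lit 538) (nat_lit 5) (nat_lit 539) (nat_lit 5) (nat_lit 571) (nat_lit 560) (nat_lit 429)) (XT.nd (nat_lit 78) (nat_lit 0) (nat_lit 76) (XT.lf (nat_lit 76) (nat_lit 2025881930) (nat_lit 0) (nat_lit 600497224) (nat_lit 1748) (nat_lit 7935440326) (nat_lit 517) (nat_lit 5) (nat_lit 516) (nat_lit 5) (nat_lit 539) (nat_lit 5) (nat_lit 572) (nat_lit 560) (nat_lit 428)) (XT.lf (nat_lit 0) (nat_lit 3699255367) (nat_lit 1672) (nat_lit 3039952655) (nat_lit 1748)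 (nat_lit 3919786410) (nat_lit 517) (nat_lit 5) (nat_lit 539) (nat_lit 5) (nat_lit 540) (nat_lit 5) (nat_lit 573) (nat_lit 560) (nat_lit 427))))))) (XT.nd (nat_lit 780) (nat_lit 7220) (nat_lit 0) (XT.nd (nat_lit 390) (nat_lit 1520) (nat_lit 0) (XT.nd (nat_lit 156) (nat_lit 0) (nat_lit 76) (XT.nd (nat_lit 78) (nat_lit 0) (nat_lit 76) (XT.lf (nat_lit 76) (nat_lit 2584379924) (nat_lit 0) (nat_lit 2213294107) (nat_lit 1748) (nat_lit 5960358754) (nat_lit 518) (nat_lit 5) (nat_lit 517) (nat_lit 5) (nat_lit 540) (nat_lit 5) (nat_lit 574) (nat_lit 560) (nat_lit 426)) (XT.lf (nat_lit 0) (nat_lit 5937812506) (nat_lit 1672) (nat_lit 2523751923) (nat_lit 1748) (nat_lit 2397094019) (nat_lit 518) (nat_lit 5) (nat_lit 540) (nat_lit 5) (nat_lit 541) (nat_lit 5) (nat_lit 575) (nat_lit 560) (nat_lit 425))) (XT.nd (nat_lit 78) (nat_lit 0) (nat_lit 76) (XT.lf (nat_lit 76) (nat_lit 3255642040) (nat_lit 0) (nat_lit 3864842259) (nat_lit 1748) (nat_lit 3840419252) (nat_lit 519) (nat_lit 5) (nat_lit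 518) (nat_lit 5) (nat_lit 541) (nat_lit 5) (nat_lit 576) (nat_lit 560) (nat_lit 424)) (XT.nd (nat_lit 78) (nat_lit 0) (nat_lit 0) (XT.lf (nat_lit 0) (nat_lit 8333410125) (nat_lit 1672) (nat_lit 1897297799) (nat_lit 1748) (nat_lit 834355131) (nat_lit 519) (nat_lit 5) (nat_lit 541) (nat_lit 5) (nat_lit 542) (nat_lit 5) (nat_lit 577) (nat_lit 560) (nat_lit 423)) (XT.lf (nat_lit 76) (nat_lit 4042666131) (nat_lit 0) (nat_lit 5564284698) (nat_lit 1748) (nat_lit 1563629272) (nat_lit 520) (nat_lit 5) (nat_lit 519) (nat_lit 5) (nat_lit 542) (nat_lit 5) (nat_lit 578) (nat_lit 560) (nat_lit 422))))) (XT.nd (nat_lit 156) (nat_lit 0) (nat_lit 0) (XT.nd (nat_lit 78) (nat_lit 1672) (nat_lit 0) (XT.lf (nat_lit 76) (nat_lit 10115639557) (nat_lit 0) (nat_lit 787797303) (nat_lit 1748) (nat_lit 374822588) (nat_lit 520) (nat_lit 5) (nat_lit 519) (nat_lit 5) (nat_lit 542) (nat_lit 5) (nat_lit 579) (nat_lit 560) (nat_lit 421)) (XT.lf (nat_lit 0) (nat_lit 870774712) (nat_lit 1748) (nat_lit 6444188790)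 (nat_lit 1824) (nat_lit 4072141452) (nat_lit 497) (nat_lit 5) (nat_lit 520) (nat_lit 5) (nat_lit 521) (nat_lit 5) (nat_lit 580) (nat_lit 560) (nat_lit 420))) (XT.nd (nat_lit 78) (nat_lit 0) (nat_lit 76) (XT.lf (nat_lit 0) (nat_lit 2134525239) (nat_lit 1748) (nat_lit 331128758) (nat_lit 1824) (nat_lit 9032459984) (nat_lit 497) (nat_lit 5) (nat_lit 520) (nat_lit 5) (nat_lit 521) (nat_lit 5) (nat_lit 581) (nat_lit 560) (nat_lit 419)) (XT.nd (nat_lit 78) (nat_lit 0) (nat_lit 0) (XT.lf (nat_lit 0) (nat_lit 3464176153) (nat_lit 1748) (nat_lit 5656237626) (nat_lit 1824) (nat_lit 2490118243) (nat_lit 498) (nat_lit 5) (nat_lit 521) (nat_lit 5) (nat_lit 522) (nat_lit 5) (nat_lit 582) (nat_lit 560) (nat_lit 418)) (XT.lf (nat_lit 76) (nat_lit 624882886) (nat_lit 0) (nat_lit 4203864650) (nat_lit 1824) (nat_lit 6896285651) (nat_lit 499) (nat_lit 5) (nat_lit 498) (nat_lit 5) (nat_lit 522) (nat_lit 5) (nat_lit 583) (nat_lit 560) (nat_lit 417)))))) (XT.nd (nat_lit 390) (nat_lit 3724) (nat_lit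 0) (XT.nd (nat_lit 156) (nat_lit 1900) (nat_lit 0) (XT.nd (nat_lit 78) (nat_lit 1748) (nat_lit 0) (XT.lf (nat_lit 0) (nat_lit 6250008871) (nat_lit 1748) (nat_lit 4750236017) (nat_lit 76) (nat_lit 840992808) (nat_lit 499) (nat_lit 5) (nat_lit 522) (nat_lit 5) (nat_lit 500) (nat_lit 5) (nat_lit 584) (nat_lit 560) (nat_lit 416)) (XT.lf (nat_lit 0) (nat_lit 1709540311) (nat_lit 1748) (nat_lit 6015295904) (nat_lit 1824) (nat_lit 4234428526) (nat_lit 476) (nat_lit 5) (nat_lit 499) (nat_lit 5) (nat_lit 500) (nat_lit 5) (nat_lit 585) (nat_lit 560) (nat_lit 415))) (XT.nd (nat_lit 78) (nat_lit 1900) (nat_lit 0) (XT.lf (nat_lit 0) (nat_lit 8351262944) (nat_lit 1748) (nat_lit 896169888) (nat_lit 1824) (nat_lit 2831855278) (nat_lit 476) (nat_lit 5) (nat_lit 499) (nat_lit 5) (nat_lit 500) (nat_lit 5) (nat_lit 586) (nat_lit 560) (nat_lit 414)) (XT.nd (nat_lit 78) (nat_lit 76) (nat_lit 0) (XT.lf (nat_lit 0) (nat_lit 2922664236) (nat_lit 1824) (nat_lit 7911551375) (nat_lit 1900) (nat_lit 1366822865)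 (nat_lit 452) (nat_lit 5) (nat_lit 476) (nat_lit 5) (nat_lit 477) (nat_lit 5) (nat_lit 587) (nat_lit 560) (nat_lit 413)) (XT.lf (nat_lit 0) (nat_lit 143728515) (nat_lit 1900) (nat_lit 2586542345) (nat_lit 76) (nat_lit 9594579785) (nat_lit 451) (nat_lit 5) (nat_lit 476) (nat_lit 5) (nat_lit 452) (nat_lit 5) (nat_lit 588) (nat_lit 560) (nat_lit 412))))) (XT.nd (nat_lit 234) (nat_lit 1748) (nat_lit 0) (XT.nd (nat_lit 78) (nat_lit 912) (nat_lit 0) (XT.lf (nat_lit 0) (nat_lit 1697831319) (nat_lit 1140) (nat_lit 8192927461) (nat_lit 76) (nat_lit 2559567885) (nat_lit 437) (nat_lit 5) (nat_lit 452) (nat_lit 5) (nat_lit 438) (nat_lit 5) (nat_lit 589) (nat_lit 560) (nat_lit 411)) (XT.nd (nat_lit 78) (nat_lit 912) (nat_lit 0) (XT.lf (nat_lit 0) (nat_lit 3305790016) (nat_lit 1140) (nat_lit 1334630657) (nat_lit 76) (nat_lit 7937437178) (nat_lit 437) (nat_lit 5) (nat_lit 452) (nat_lit 5) (nat_lit 438) (nat_lit 5) (nat_lit 590) (nat_lit 560) (nat_lit 410)) (XT.lf (nat_lit 0) (nat_lit 4975440004)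 (nat_lit 988) (nat_lit 6987953821) (nat_lit 76) (nat_lit 743956291) (nat_lit 425) (nat_lit 5) (nat_lit 438) (nat_lit 5) (nat_lit 426) (nat_lit 5) (nat_lit 591) (nat_lit 560) (nat_lit 409)))) (XT.nd (nat_lit 78) (nat_lit 836) (nat_lit 0) (XT.lf (nat_lit 0) (nat_lit 51528985) (nat_lit 912) (nat_lit 6654683650) (nat_lit 988) (nat_lit 6132666078) (nat_lit 413) (nat_lit 5) (nat_lit 425) (nat_lit 5) (nat_lit 426) (nat_lit 5) (nat_lit 592) (nat_lit 560) (nat_lit 408)) (XT.nd (nat_lit 78) (nat_lit 836) (nat_lit 0) (XT.lf (nat_lit 0) (nat_lit 7314903759) (nat_lit 912) (nat_lit 1191404976) (nat_lit 988) (nat_lit 4466036042) (nat_lit 413) (nat_lit 5) (nat_lit 425) (nat_lit 5) (nat_lit 426) (nat_lit 5) (nat_lit 593) (nat_lit 560) (nat_lit 407)) (XT.lf (nat_lit 0) (nat_lit 1595914390) (nat_lit 836) (nat_lit 8773357038) (nat_lit 912) (nat_lit 2738672477) (nat_lit 402) (nat_lit 5) (nat_lit 413) (nat_lit 5) (nat_lit 414) (nat_lit 5) (nat_lit 594) (nat_lit 560) (nat_lit 406))))))))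
noncomputable def xc156 : XT := (XT.nd (nat_lit 1560) (nat_lit 6764) (nat_lit 0) (XT.nd (nat_lit 780) (nat_lit 4180) (nat_lit 0) (XT.nd (nat_lit 390) (nat_lit 2432) (nat_lit 0) (XT.nd (nat_lit 156) (nat_lit 836) (nat_lit 0) (XT.nd (nat_lit 78) (nat_lit 912) (nat_lit 0) (XT.lf (nat_lit 0) (nat_lit 9051469698) (nat_lit 836) (nat_lit 3252043055) (nat_lit 912) (nat_lit 942062891) (nat_lit 402) (nat_lit 5) (nat_lit 413) (nat_lit 5) (nat_lit 414) (nat_lit 5) (nat_lit 595) (nat_lit 560) (nat_lit 405)) (XT.lf (nat_lit 0) (nat_lit 904202623) (nat_lit 912) (nat_lit 10105146742) (nat_lit 76) (nat_lit 2375987947) (nat_lit 390) (nat_lit 5) (nat_lit 402) (nat_lit 5) (nat_lit 391) (nat_lit 5) (nat_lit 596) (nat_lit 560) (nat_lit 404))) (XT.nd (nat_lit 78) (nat_lit 836) (nat_lit 0) (XT.lf (nat_lit 0) (nat_lit 2813183441) (nat_lit 912) (nat_lit 2606112517) (nat_lit 76) (nat_lit 8107706587) (nat_lit 390) (nat_lit 5) (nat_lit 402) (nat_lit 5) (nat_lit 391) (nat_lit 5) (nat_lit 597) (nat_lit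 560) (nat_lit 403)) (XT.nd (nat_lit 78) (nat_lit 0) (nat_lit 0) (XT.lf (nat_lit 0) (nat_lit 4784248130) (nat_lit 912) (nat_lit 8574765671) (nat_lit 76) (nat_lit 312010135) (nat_lit 379) (nat_lit 5) (nat_lit 391) (nat_lit 5) (nat_lit 380) (nat_lit 5) (nat_lit 598) (nat_lit 560) (nat_lit 402)) (XT.lf (nat_lit 0) (nat_lit 6837122785) (nat_lit 912) (nat_lit 877140690) (nat_lit 76) (nat_lit 6102815426) (nat_lit 379) (nat_lit 5) (nat_lit 391) (nat_lit 5) (nat_lit 380) (nat_lit 5) (nat_lit 599) (nat_lit 560) (nat_lit 401))))) (XT.nd (nat_lit 156) (nat_lit 836) (nat_lit 0) (XT.nd (nat_lit 78) (nat_lit 760) (nat_lit 0) (XT.lf (nat_lit 0) (nat_lit 7055636938) (nat_lit 836) (nat_lit 1910340704) (nat_lit 912) (nat_lit 4999379772) (nat_lit 368) (nat_lit 5) (nat_lit 379) (nat_lit 5) (nat_lit 380) (nat_lit 5) (nat_lit 600) (nat_lit 560) (nat_lit 400)) (XT.lf (nat_lit 0) (nat_lit 1018285151) (nat_lit 760) (nat_lit 10146944114) (nat_lit 836) (nat_lit 2950816722) (nat_lit 358) (nat_lit 5) (nat_lit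 368) (nat_lit 5) (nat_lit 369) (nat_lit 5) (nat_lit 601) (nat_lit 560) (nat_lit 399))) (XT.nd (nat_lit 78) (nat_lit 836) (nat_lit 0) (XT.lf (nat_lit 0) (nat_lit 9174296364) (nat_lit 760) (nat_lit 4282492085) (nat_lit 836) (nat_lit 811994301) (nat_lit 358) (nat_lit 5) (nat_lit 368) (nat_lit 5) (nat_lit 369) (nat_lit 5) (nat_lit 602) (nat_lit 560) (nat_lit 398)) (XT.nd (nat_lit 78) (nat_lit 0) (nat_lit 0) (XT.lf (nat_lit 0) (nat_lit 1372442752) (nat_lit 836) (nat_lit 11346263194) (nat_lit 76) (nat_lit 1705275269) (nat_lit 347) (nat_lit 5) (nat_lit 358) (nat_lit 5) (nat_lit 348) (nat_lit 5) (nat_lit 603) (nat_lit 560) (nat_lit 397)) (XT.lf (nat_lit 0) (nat_lit 3642131645) (nat_lit 836) (nat_lit 3144583182) (nat_lit 76) (nat_lit 7794413582) (nat_lit 347) (nat_lit 5) (nat_lit 358) (nat_lit 5) (nat_lit 348) (nat_lit 5) (nat_lit 604) (nat_lit 560) (nat_lit 396)))))) (XT.nd (nat_lit 390) (nat_lit 1976) (nat_lit 0) (XT.nd (nat_lit 156) (nat_lit 1520) (nat_lit 0) (XT.nd (nat_lit 78)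 (nat_lit 0) (nat_lit 0) (XT.lf (nat_lit 0) (nat_lit 5279149619) (nat_lit 684) (nat_lit 702194924) (nat_lit 760) (nat_lit 8759592198) (nat_lit 338) (nat_lit 5) (nat_lit 347) (nat_lit 5) (nat_lit 348) (nat_lit 5) (nat_lit 605) (nat_lit 560) (nat_lit 395)) (XT.lf (nat_lit 0) (nat_lit 8414292735) (nat_lit 760) (nat_lit 1036749806) (nat_lit 76) (nat_lit 5451960465) (nat_lit 338) (nat_lit 5) (nat_lit 348) (nat_lit 5) (nat_lit 339) (nat_lit 5) (nat_lit 606) (nat_lit 560) (nat_lit 394))) (XT.nd (nat_lit 78) (nat_lit 760) (nat_lit 0) (XT.lf (nat_lit 0) (nat_lit 7641238623) (nat_lit 760) (nat_lit 3299093906) (nat_lit 836) (nat_lit 4127090183) (nat_lit 328) (nat_lit 5) (nat_lit 338) (nat_lit 5) (nat_lit 339) (nat_lit 5) (nat_lit 607) (nat_lit 560) (nat_lit 393)) (XT.nd (nat_lit 78) (nat_lit 76) (nat_lit 0) (XT.lf (nat_lit 0) (nat_lit 1257747916) (nat_lit 684) (nat_lit 12283918760) (nat_lit 760) (nat_lit 1692969420) (nat_lit 319) (nat_lit 5) (nat_lit 328) (nat_lit 5) (nat_lit 329) (nat_lit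 5) (nat_lit 608) (nat_lit 560) (nat_lit 392)) (XT.lf (nat_lit 0) (nat_lit 841823423) (nat_lit 760) (nat_lit 5226765054) (nat_lit 76) (nat_lit 9335256464) (nat_lit 318) (nat_lit 5) (nat_lit 328) (nat_lit 5) (nat_lit 319) (nat_lit 5) (nat_lit 609) (nat_lit 560) (nat_lit 391))))) (XT.nd (nat_lit 156) (nat_lit 1292) (nat_lit 0) (XT.nd (nat_lit 78) (nat_lit 0) (nat_lit 0) (XT.lf (nat_lit 0) (nat_lit 3421359180) (nat_lit 760) (nat_lit 11852964795) (nat_lit 76) (nat_lit 301556570) (nat_lit 309) (nat_lit 5) (nat_lit 319) (nat_lit 5) (nat_lit 310) (nat_lit 5) (nat_lit 610) (nat_lit 560) (nat_lit 390)) (XT.lf (nat_lit 0) (nat_lit 6118611455) (nat_lit 760) (nat_lit 2879803870) (nat_lit 76) (nat_lit 6751619718) (nat_lit 309) (nat_lit 5) (nat_lit 319) (nat_lit 5) (nat_lit 310) (nat_lit 5) (nat_lit 611) (nat_lit 560) (nat_lit 389))) (XT.nd (nat_lit 78) (nat_lit 684) (nat_lit 0) (XT.lf (nat_lit 0) (nat_lit 6345088987) (nat_lit 608) (nat_lit 2556729893) (nat_lit 684) (nat_lit 7025214232)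 (nat_lit 301) (nat_lit 5) (nat_lit 309) (nat_lit 5) (nat_lit 310) (nat_lit 5) (nat_lit 612) (nat_lit 560) (nat_lit 388)) (XT.nd (nat_lit 78) (nat_lit 684) (nat_lit 0) (XT.lf (nat_lit 0) (nat_lit 11777115022) (nat_lit 684) (nat_lit 350903370) (nat_lit 76) (nat_lit 3978824928) (nat_lit 301) (nat_lit 5) (nat_lit 310) (nat_lit 5) (nat_lit 302) (nat_lit 5) (nat_lit 613) (nat_lit 560) (nat_lit 387)) (XT.lf (nat_lit 0) (nat_lit 9157092971) (nat_lit 684) (nat_lit 5620299637) (nat_lit 760) (nat_lit 1511508273) (nat_lit 292) (nat_lit 5) (nat_lit 301) (nat_lit 5) (nat_lit 302) (nat_lit 5) (nat_lit 614) (nat_lit 560) (nat_lit 386))))))) (XT.nd (nat_lit 780) (nat_lit 3116) (nat_lit 0) (XT.nd (nat_lit 390) (nat_lit 1748) (nat_lit 0) (XT.nd (nat_lit 156) (nat_lit 1216) (nat_lit 0) (XT.nd (nat_lit 78) (nat_lit 0) (nat_lit 0) (XT.lf (nat_lit 0) (nat_lit 1361039984) (nat_lit 684) (nat_lit 14083863462) (nat_lit 76) (nat_lit 1029202960) (nat_lit 283) (nat_lit 5) (nat_lit 292) (nat_lit 5) (nat_lit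 284) (nat_lit 5) (nat_lit 615) (nat_lit 560) (nat_lit 385)) (XT.lf (nat_lit 0) (nat_lit 4347440585) (nat_lit 684) (nat_lit 4521166332) (nat_lit 76) (nat_lit 7792677114) (nat_lit 283) (nat_lit 5) (nat_lit 292) (nat_lit 5) (nat_lit 284) (nat_lit 5) (nat_lit 616) (nat_lit 560) (nat_lit 384))) (XT.nd (nat_lit 78) (nat_lit 608) (nat_lit 0) (XT.lf (nat_lit 0) (nat_lit 5291429509) (nat_lit 608) (nat_lit 2127893099) (nat_lit 684) (nat_lit 9432368139) (nat_lit 275) (nat_lit 5) (nat_lit 283) (nat_lit 5) (nat_lit 284) (nat_lit 5) (nat_lit 617) (nat_lit 560) (nat_lit 383)) (XT.nd (nat_lit 78) (nat_lit 608) (nat_lit 0) (XT.lf (nat_lit 0) (nat_lit 10605490497) (nat_lit 684) (nat_lit 1725600692) (nat_lit 76) (nat_lit 4713758040) (nat_lit 275) (nat_lit 5) (nat_lit 284) (nat_lit 5) (nat_lit 276) (nat_lit 5) (nat_lit 618) (nat_lit 560) (nat_lit 382)) (XT.lf (nat_lit 0) (nat_lit 8391085147) (nat_lit 608) (nat_lit 5524519190) (nat_lit 684) (nat_lit 3325062673) (nat_lit 267) (nat_lit 5) (nat_lit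 275) (nat_lit 5) (nat_lit 276) (nat_lit 5) (nat_lit 619) (nat_lit 560) (nat_lit 381))))) (XT.nd (nat_lit 156) (nat_lit 1064) (nat_lit 0) (XT.nd (nat_lit 78) (nat_lit 76) (nat_lit 0) (XT.lf (nat_lit 0) (nat_lit 1290256271) (nat_lit 608) (nat_lit 16022635886) (nat_lit 684) (nat_lit 127090129) (nat_lit 259) (nat_lit 5) (nat_lit 267) (nat_lit 5) (nat_lit 268) (nat_lit 5) (nat_lit 620) (nat_lit 560) (nat_lit 380)) (XT.lf (nat_lit 0) (nat_lit 3181861423) (nat_lit 684) (nat_lit 5957326360) (nat_lit 76) (nat_lit 8501926892) (nat_lit 258) (nat_lit 5) (nat_lit 267) (nat_lit 5) (nat_lit 259) (nat_lit 5) (nat_lit 621) (nat_lit 560) (nat_lit 379))) (XT.nd (nat_lit 78) (nat_lit 532) (nat_lit 0) (XT.lf (nat_lit 0) (nat_lit 4486383268) (nat_lit 532) (nat_lit 2089967288) (nat_lit 608) (nat_lit 11269481690) (nat_lit 251) (nat_lit 5) (nat_lit 258) (nat_lit 5) (nat_lit 259) (nat_lit 5) (nat_lit 622) (nat_lit 560) (nat_lit 378)) (XT.nd (nat_lit 78) (nat_lit 532) (nat_lit 0) (XT.lf (nat_lit 0)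 (nat_lit 10104089385) (nat_lit 608) (nat_lit 2878114030) (nat_lit 76) (nat_lit 5071134082) (nat_lit 251) (nat_lit 5) (nat_lit 259) (nat_lit 5) (nat_lit 252) (nat_lit 5) (nat_lit 623) (nat_lit 560) (nat_lit 377)) (XT.lf (nat_lit 0) (nat_lit 7892110535) (nat_lit 532) (nat_lit 5867515139) (nat_lit 608) (nat_lit 4504222843) (nat_lit 244) (nat_lit 5) (nat_lit 251) (nat_lit 5) (nat_lit 252) (nat_lit 5) (nat_lit 624) (nat_lit 560) (nat_lit 376)))))) (XT.nd (nat_lit 390) (nat_lit 1520) (nat_lit 0) (XT.nd (nat_lit 156) (nat_lit 988) (nat_lit 0) (XT.nd (nat_lit 78) (nat_lit 76) (nat_lit 0) (XT.lf (nat_lit 0) (nat_lit 424515002) (nat_lit 532) (nat_lit 17087207697) (nat_lit 608) (nat_lit 966378567) (nat_lit 237) (nat_lit 5) (nat_lit 244) (nat_lit 5) (nat_lit 245) (nat_lit 5) (nat_lit 625) (nat_lit 560) (nat_lit 375)) (XT.lf (nat_lit 0) (nat_lit 2708752107) (nat_lit 608) (nat_lit 7184943523) (nat_lit 76) (nat_lit 8800577171) (nat_lit 236) (nat_lit 5) (nat_lit 244) (nat_lit 5) (nat_lit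 237) (nat_lit 5) (nat_lit 626) (nat_lit 560) (nat_lit 374))) (XT.nd (nat_lit 78) (nat_lit 456) (nat_lit 0) (XT.lf (nat_lit 0) (nat_lit 3935992053) (nat_lit 532) (nat_lit 2526436655) (nat_lit 608) (nat_lit 12451852120) (nat_lit 229) (nat_lit 5) (nat_lit 236) (nat_lit 5) (nat_lit 237) (nat_lit 5) (nat_lit 627) (nat_lit 560) (nat_lit 373)) (XT.nd (nat_lit 78) (nat_lit 456) (nat_lit 0) (XT.lf (nat_lit 0) (nat_lit 10364579873) (nat_lit 608) (nat_lit 3804056773) (nat_lit 76) (nat_lit 4968584820) (nat_lit 229) (nat_lit 5) (nat_lit 237) (nat_lit 5) (nat_lit 230) (nat_lit 5) (nat_lit 628) (nat_lit 560) (nat_lit 372)) (XT.lf (nat_lit 0) (nat_lit 7667323693) (nat_lit 456) (nat_lit 6736591009) (nat_lit 532) (nat_lit 4959523860) (nat_lit 223) (nat_lit 5) (nat_lit 229) (nat_lit 5) (nat_lit 230) (nat_lit 5) (nat_lit 629) (nat_lit 560) (nat_lit 371))))) (XT.nd (nat_lit 234) (nat_lit 456) (nat_lit 0) (XT.nd (nat_lit 78) (nat_lit 1064) (nat_lit 0) (XT.lf (nat_lit 0) (nat_lit 18547901656) (nat_lit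 532) (nat_lit 189846564) (nat_lit 76) (nat_lit 855954922) (nat_lit 223) (nat_lit 5) (nat_lit 230) (nat_lit 5) (nat_lit 224) (nat_lit 5) (nat_lit 630) (nat_lit 560) (nat_lit 370)) (XT.nd (nat_lit 78) (nat_lit 456) (nat_lit 0) (XT.lf (nat_lit 0) (nat_lit 3021353627) (nat_lit 608) (nat_lit 8201558337) (nat_lit 76) (nat_lit 8603002948) (nat_lit 215) (nat_lit 5) (nat_lit 223) (nat_lit 5) (nat_lit 216) (nat_lit 5) (nat_lit 631) (nat_lit 560) (nat_lit 369)) (XT.lf (nat_lit 0) (nat_lit 3645495551) (nat_lit 456) (nat_lit 3528178063) (nat_lit 532) (nat_lit 12888602972) (nat_lit 209) (nat_lit 5) (nat_lit 215) (nat_lit 5) (nat_lit 216) (nat_lit 5) (nat_lit 632) (nat_lit 560) (nat_lit 368)))) (XT.nd (nat_lit 78) (nat_lit 456) (nat_lit 0) (XT.lf (nat_lit 0) (nat_lit 11485409234) (nat_lit 532) (nat_lit 4500125521) (nat_lit 76) (nat_lit 4316303770) (nat_lit 209) (nat_lit 5) (nat_lit 216) (nat_lit 5) (nat_lit 210) (nat_lit 5) (nat_lit 633) (nat_lit 560) (nat_lit 367)) (XT.nd (nat_lit 78) (nat_lit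 0) (nat_lit 0) (XT.lf (nat_lit 0) (nat_lit 7722872935) (nat_lit 456) (nat_lit 8227069698) (nat_lit 532) (nat_lit 4594918217) (nat_lit 203) (nat_lit 5) (nat_lit 209) (nat_lit 5) (nat_lit 210) (nat_lit 5) (nat_lit 634) (nat_lit 560) (nat_lit 366)) (XT.lf (nat_lit 0) (nat_lit 20241485336) (nat_lit 456) (nat_lit 285607443) (nat_lit 532) (nat_lit 265184720) (nat_lit 203) (nat_lit 5) (nat_lit 209) (nat_lit 5) (nat_lit 210) (nat_lit 5) (nat_lit 635) (nat_lit 560) (nat_lit 365))))))))
noncomputable def xc157 : XT := (XT.nd (nat_lit 75582) (nat_lit 0) (nat_lit 26904) (XT.nd (nat_lit 780) (nat_lit 1900) (nat_lit 0) (XT.nd (nat_lit 390) (nat_lit 1292) (nat_lit 0) (XT.nd (nat_lit 156) (nat_lit 456) (nat_lit 0) (XT.nd (nat_lit 78) (nat_lit 456) (nat_lit 0) (XT.lf (nat_lit 0) (nat_lit 4219816311) (nat_lit 532) (nat_lit 9006423427) (nat_lit 76) (nat_lit 7815401773) (nat_lit 196) (nat_lit 5) (nat_lit 203) (nat_lit 5) (nat_lit 197) (nat_lit 5) (nat_lit 636) (nat_lit 560) (nat_lit 364)) (XT.lf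 (nat_lit 0) (nat_lit 3618485659) (nat_lit 456) (nat_lit 5194858317) (nat_lit 532) (nat_lit 12482166599) (nat_lit 190) (nat_lit 5) (nat_lit 196) (nat_lit 5) (nat_lit 197) (nat_lit 5) (nat_lit 637) (nat_lit 560) (nat_lit 363))) (XT.nd (nat_lit 78) (nat_lit 456) (nat_lit 0) (XT.lf (nat_lit 0) (nat_lit 13572357155) (nat_lit 532) (nat_lit 4964975012) (nat_lit 76) (nat_lit 3015652922) (nat_lit 190) (nat_lit 5) (nat_lit 197) (nat_lit 5) (nat_lit 191) (nat_lit 5) (nat_lit 638) (nat_lit 560) (nat_lit 362)) (XT.nd (nat_lit 78) (nat_lit 76) (nat_lit 0) (XT.lf (nat_lit 0) (nat_lit 8063009321) (nat_lit 380) (nat_lit 10443743126) (nat_lit 456) (nat_lit 3307252972) (nat_lit 185) (nat_lit 5) (nat_lit 190) (nat_lit 5) (nat_lit 191) (nat_lit 5) (nat_lit 639) (nat_lit 560) (nat_lit 361)) (XT.lf (nat_lit 0) (nat_lit 1467456272) (nat_lit 456) (nat_lit 680097155) (nat_lit 76) (nat_lit 19931963355) (nat_lit 184) (nat_lit 5) (nat_lit 190) (nat_lit 5) (nat_lit 185) (nat_lit 5) (nat_lit 640) (nat_lit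 560) (nat_lit 360))))) (XT.nd (nat_lit 156) (nat_lit 456) (nat_lit 0) (XT.nd (nat_lit 78) (nat_lit 380) (nat_lit 0) (XT.lf (nat_lit 0) (nat_lit 6411721320) (nat_lit 532) (nat_lit 9601484871) (nat_lit 76) (nat_lit 6334328389) (nat_lit 178) (nat_lit 5) (nat_lit 185) (nat_lit 5) (nat_lit 179) (nat_lit 5) (nat_lit 641) (nat_lit 560) (nat_lit 359)) (XT.lf (nat_lit 0) (nat_lit 3855905532) (nat_lit 380) (nat_lit 7636461092) (nat_lit 456) (nat_lit 11127796546) (nat_lit 173) (nat_lit 5) (nat_lit 178) (nat_lit 5) (nat_lit 179) (nat_lit 5) (nat_lit 642) (nat_lit 560) (nat_lit 358))) (XT.nd (nat_lit 78) (nat_lit 456) (nat_lit 0) (XT.lf (nat_lit 0) (nat_lit 16739062891) (nat_lit 456) (nat_lit 5200254938) (nat_lit 76) (nat_lit 957638070) (nat_lit 173) (nat_lit 5) (nat_lit 179) (nat_lit 5) (nat_lit 174) (nat_lit 5) (nat_lit 643) (nat_lit 560) (nat_lit 357)) (XT.nd (nat_lit 78) (nat_lit 76) (nat_lit 0) (XT.lf (nat_lit 0) (nat_lit 8689028328) (nat_lit 380) (nat_lit 13502462258) (nat_lit 456)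 (nat_lit 985778269) (nat_lit 168) (nat_lit 5) (nat_lit 173) (nat_lit 5) (nat_lit 174) (nat_lit 5) (nat_lit 644) (nat_lit 560) (nat_lit 356)) (XT.lf (nat_lit 0) (nat_lit 4262475012) (nat_lit 456) (nat_lit 573390878) (nat_lit 76) (nat_lit 18626186299) (nat_lit 167) (nat_lit 5) (nat_lit 173) (nat_lit 5) (nat_lit 168) (nat_lit 5) (nat_lit 645) (nat_lit 560) (nat_lit 355)))))) (XT.nd (nat_lit 390) (nat_lit 684) (nat_lit 0) (XT.nd (nat_lit 156) (nat_lit 456) (nat_lit 0) (XT.nd (nat_lit 78) (nat_lit 380) (nat_lit 0) (XT.lf (nat_lit 0) (nat_lit 9712569450) (nat_lit 456) (nat_lit 9992547980) (nat_lit 76) (nat_lit 4045082229) (nat_lit 162) (nat_lit 5) (nat_lit 168) (nat_lit 5) (nat_lit 163) (nat_lit 5) (nat_lit 646) (nat_lit 560) (nat_lit 354)) (XT.lf (nat_lit 0) (nat_lit 4354858039) (nat_lit 380) (nat_lit 10974970649) (nat_lit 456) (nat_lit 8713118430) (nat_lit 157) (nat_lit 5) (nat_lit 162) (nat_lit 5) (nat_lit 163) (nat_lit 5) (nat_lit 647) (nat_lit 560) (nat_lit 353))) (XT.nd (nat_lit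 78) (nat_lit 456) (nat_lit 0) (XT.lf (nat_lit 0) (nat_lit 19115464668) (nat_lit 380) (nat_lit 2005071274) (nat_lit 456) (nat_lit 3219791818) (nat_lit 157) (nat_lit 5) (nat_lit 162) (nat_lit 5) (nat_lit 163) (nat_lit 5) (nat_lit 648) (nat_lit 560) (nat_lit 352)) (XT.nd (nat_lit 78) (nat_lit 0) (nat_lit 0) (XT.lf (nat_lit 0) (nat_lit 2455668703) (nat_lit 456) (nat_lit 15059748257) (nat_lit 76) (nat_lit 7125859323) (nat_lit 151) (nat_lit 5) (nat_lit 157) (nat_lit 5) (nat_lit 152) (nat_lit 5) (nat_lit 649) (nat_lit 560) (nat_lit 351)) (XT.lf (nat_lit 0) (nat_lit 8244299090) (nat_lit 456) (nat_lit 236638112) (nat_lit 76) (nat_lit 16466025717) (nat_lit 151) (nat_lit 5) (nat_lit 157) (nat_lit 5) (nat_lit 152) (nat_lit 5) (nat_lit 650) (nat_lit 560) (nat_lit 350))))) (XT.nd (nat_lit 74178) (nat_lit 0) (nat_lit 29792) (XT.nd (nat_lit 78) (nat_lit 304) (nat_lit 0) (XT.lf (nat_lit 0) (nat_lit 14246226883) (nat_lit 456) (nat_lit 10190667460) (nat_lit 76) (nat_lit 819918720) (nat_lit 146)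 (nat_lit 5) (nat_lit 152) (nat_lit 5) (nat_lit 147) (nat_lit 5) (nat_lit 651) (nat_lit 560) (nat_lit 349)) (XT.lf (nat_lit 0) (nat_lit 5107182455) (nat_lit 304) (nat_lit 15346242640) (nat_lit 380) (nat_lit 5117730742) (nat_lit 142) (nat_lit 5) (nat_lit 146) (nat_lit 5) (nat_lit 147) (nat_lit 5) (nat_lit 652) (nat_lit 560) (nat_lit 348))) (XT.nd (nat_lit 78) (nat_lit 0) (nat_lit 0) (XT.lf (nat_lit 0) (nat_lit 804684258) (nat_lit 0) (nat_lit 804684258) (nat_lit 1596) (nat_lit 3227382346) (nat_lit 534) (nat_lit 5) (nat_lit 534) (nat_lit 3) (nat_lit 555) (nat_lit 3) (nat_lit 561) (nat_lit 561) (nat_lit 438)) (XT.nd (nat_lit 78) (nat_lit 0) (nat_lit 0) (XT.lf (nat_lit 0) (nat_lit 4031083515) (nat_lit 1596) (nat_lit 3293661962) (nat_lit 1672) (nat_lit 2429812162) (nat_lit 534) (nat_lit 5) (nat_lit 555) (nat_lit 3) (nat_lit 556) (nat_lit 5) (nat_lit 562) (nat_lit 561) (nat_lit 437)) (XT.lf (nat_lit 76) (nat_lit 1571683323) (nat_lit 0) (nat_lit 3288876609) (nat_lit 1672) (nat_lit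 4976659070) (nat_lit 535) (nat_lit 5) (nat_lit 534) (nat_lit 5) (nat_lit 556) (nat_lit 5) (nat_lit 563) (nat_lit 561) (nat_lit 436))))))) (XT.nd (nat_lit 780) (nat_lit 1444) (nat_lit 0) (XT.nd (nat_lit 390) (nat_lit 1520) (nat_lit 0) (XT.nd (nat_lit 156) (nat_lit 0) (nat_lit 0) (XT.nd (nat_lit 78) (nat_lit 0) (nat_lit 0) (XT.lf (nat_lit 0) (nat_lit 5714653069) (nat_lit 1596) (nat_lit 3358506219) (nat_lit 1672) (nat_lit 848215714) (nat_lit 535) (nat_lit 5) (nat_lit 556) (nat_lit 5) (nat_lit 557) (nat_lit 5) (nat_lit 564) (nat_lit 561) (nat_lit 435)) (XT.lf (nat_lit 76) (nat_lit 1635672361) (nat_lit 0) (nat_lit 4963345013) (nat_lit 1672) (nat_lit 3407934876) (nat_lit 536) (nat_lit 5) (nat_lit 535) (nat_lit 5) (nat_lit 557) (nat_lit 5) (nat_lit 565) (nat_lit 561) (nat_lit 434))) (XT.nd (nat_lit 78) (nat_lit 0) (nat_lit 76) (XT.lf (nat_lit 76) (nat_lit 6764667133) (nat_lit 0) (nat_lit 740035888) (nat_lit 1672) (nat_lit 2589467217) (nat_lit 536) (nat_lit 5) (nat_lit 535) (nat_lit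 5) (nat_lit 557) (nat_lit 5) (nat_lit 566) (nat_lit 561) (nat_lit 433)) (XT.nd (nat_lit 78) (nat_lit 0) (nat_lit 0) (XT.lf (nat_lit 76) (nat_lit 1802778340) (nat_lit 0) (nat_lit 6642113268) (nat_lit 1672) (nat_lit 1737915033) (nat_lit 537) (nat_lit 5) (nat_lit 536) (nat_lit 5) (nat_lit 558) (nat_lit 5) (nat_lit 567) (nat_lit 561) (nat_lit 432)) (XT.lf (nat_lit 76) (nat_lit 7067132292) (nat_lit 0) (nat_lit 2345775934) (nat_lit 1672) (nat_lit 860128864) (nat_lit 537) (nat_lit 5) (nat_lit 536) (nat_lit 5) (nat_lit 558) (nat_lit 5) (nat_lit 568) (nat_lit 561) (nat_lit 431))))) (XT.nd (nat_lit 156) (nat_lit 0) (nat_lit 76) (XT.nd (nat_lit 78) (nat_lit 0) (nat_lit 0) (XT.lf (nat_lit 0) (nat_lit 43718281) (nat_lit 1672) (nat_lit 8290428207) (nat_lit 1748) (nat_lit 2030743480) (nat_lit 515) (nat_lit 5) (nat_lit 537) (nat_lit 5) (nat_lit 538) (nat_lit 5) (nat_lit 569) (nat_lit 561) (nat_lit 430)) (XT.lf (nat_lit 0) (nat_lit 973704156) (nat_lit 1672) (nat_lit 2986729280) (nat_lit 1748)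 (nat_lit 6497642880) (nat_lit 515) (nat_lit 5) (nat_lit 537) (nat_lit 5) (nat_lit 538) (nat_lit 5) (nat_lit 570) (nat_lit 561) (nat_lit 429))) (XT.nd (nat_lit 78) (nat_lit 0) (nat_lit 0) (XT.lf (nat_lit 0) (nat_lit 1924280055) (nat_lit 1672) (nat_lit 8112334992) (nat_lit 1748) (nat_lit 516473204) (nat_lit 516) (nat_lit 5) (nat_lit 538) (nat_lit 5) (nat_lit 539) (nat_lit 5) (nat_lit 571) (nat_lit 561) (nat_lit 428)) (XT.nd (nat_lit 78) (nat_lit 0) (nat_lit 0) (XT.lf (nat_lit 0) (nat_lit 2923302563) (nat_lit 1672) (nat_lit 2669880388) (nat_lit 1748) (nat_lit 5056230406) (nat_lit 516) (nat_lit 5) (nat_lit 538) (nat_lit 5) (nat_lit 539) (nat_lit 5) (nat_lit 572) (nat_lit 561) (nat_lit 427)) (XT.lf (nat_lit 76) (nat_lit 2908598137) (nat_lit 0) (nat_lit 1035956440) (nat_lit 1748) (nat_lit 6803067009) (nat_lit 517) (nat_lit 5) (nat_lit 516) (nat_lit 5) (nat_lit 539) (nat_lit 5) (nat_lit 573) (nat_lit 561) (nat_lit 426)))))) (XT.nd (nat_lit 390) (nat_lit 1596) (nat_lit 0) (XT.nd (nat_lit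 156) (nat_lit 0) (nat_lit 76) (XT.nd (nat_lit 78) (nat_lit 0) (nat_lit 0) (XT.lf (nat_lit 0) (nat_lit 5011376284) (nat_lit 1672) (nat_lit 2247435858) (nat_lit 1748) (nat_lit 3588480513) (nat_lit 517) (nat_lit 5) (nat_lit 539) (nat_lit 5) (nat_lit 540) (nat_lit 5) (nat_lit 574) (nat_lit 561) (nat_lit 425)) (XT.lf (nat_lit 76) (nat_lit 3483769452) (nat_lit 0) (nat_lit 2629220539) (nat_lit 1748) (nat_lit 4835699583) (nat_lit 518) (nat_lit 5) (nat_lit 517) (nat_lit 5) (nat_lit 540) (nat_lit 5) (nat_lit 575) (nat_lit 561) (nat_lit 424))) (XT.nd (nat_lit 78) (nat_lit 0) (nat_lit 0) (XT.lf (nat_lit 0) (nat_lit 7249656416) (nat_lit 1672) (nat_lit 1716757489) (nat_lit 1748) (nat_lit 2085441629) (nat_lit 518) (nat_lit 5) (nat_lit 540) (nat_lit 5) (nat_lit 541) (nat_lit 5) (nat_lit 576) (nat_lit 561) (nat_lit 423)) (XT.nd (nat_lit 78) (nat_lit 0) (nat_lit 76) (XT.lf (nat_lit 76) (nat_lit 4172583108) (nat_lit 0) (nat_lit 4265535296) (nat_lit 1748) (nat_lit 2718386642) (nat_lit 519) (nat_lit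 5) (nat_lit 518) (nat_lit 5) (nat_lit 541) (nat_lit 5) (nat_lit 577) (nat_lit 561) (nat_lit 422)) (XT.lf (nat_lit 0) (nat_lit 9650200598) (nat_lit 1672) (nat_lit 1074906004) (nat_lit 1748) (nat_lit 538145378) (nat_lit 519) (nat_lit 5) (nat_lit 541) (nat_lit 5) (nat_lit 542) (nat_lit 5) (nat_lit 578) (nat_lit 561) (nat_lit 421))))) (XT.nd (nat_lit 234) (nat_lit 0) (nat_lit 76) (XT.nd (nat_lit 78) (nat_lit 1748) (nat_lit 0) (XT.lf (nat_lit 76) (nat_lit 4978197088) (nat_lit 0) (nat_lit 5954012745) (nat_lit 1748) (nat_lit 439011734) (nat_lit 520) (nat_lit 5) (nat_lit 519) (nat_lit 5) (nat_lit 542) (nat_lit 5) (nat_lit 579) (nat_lit 561) (nat_lit 420)) (XT.nd (nat_lit 78) (nat_lit 0) (nat_lit 76) (XT.lf (nat_lit 0) (nat_lit 741058295) (nat_lit 1748) (nat_lit 330504761) (nat_lit 1824) (nat_lit 10409840411) (nat_lit 496) (nat_lit 5) (nat_lit 519) (nat_lit 5) (nat_lit 520) (nat_lit 5) (nat_lit 580) (nat_lit 561) (nat_lit 419)) (XT.lf (nat_lit 0) (nat_lit 1988472305) (nat_lit 1748)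 (nat_lit 5702004731) (nat_lit 1824) (nat_lit 3902262852) (nat_lit 497) (nat_lit 5) (nat_lit 520) (nat_lit 5) (nat_lit 521) (nat_lit 5) (nat_lit 581) (nat_lit 561) (nat_lit 418)))) (XT.nd (nat_lit 78) (nat_lit 0) (nat_lit 76) (XT.lf (nat_lit 76) (nat_lit 523097254) (nat_lit 0) (nat_lit 2736222724) (nat_lit 1824) (nat_lit 8447014666) (nat_lit 498) (nat_lit 5) (nat_lit 497) (nat_lit 5) (nat_lit 521) (nat_lit 5) (nat_lit 582) (nat_lit 561) (nat_lit 417)) (XT.nd (nat_lit 78) (nat_lit 0) (nat_lit 0) (XT.lf (nat_lit 0) (nat_lit 4595130716) (nat_lit 1748) (nat_lit 4898239824) (nat_lit 1824) (nat_lit 2328041122) (nat_lit 498) (nat_lit 5) (nat_lit 521) (nat_lit 5) (nat_lit 522) (nat_lit 5) (nat_lit 583) (nat_lit 561) (nat_lit 416)) (XT.lf (nat_lit 76) (nat_lit 1502772029) (nat_lit 0) (nat_lit 4469023114) (nat_lit 1824) (nat_lit 5966713590) (nat_lit 499) (nat_lit 5) (nat_lit 498) (nat_lit 5) (nat_lit 522) (nat_lit 5) (nat_lit 584) (nat_lit 561) (nat_lit 415))))))))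
noncomputable def xc158 : XT := (XT.nd (nat_lit 1560) (nat_lit 7828) (nat_lit 0) (XT.nd (nat_lit 780) (nat_lit 5016) (nat_lit 0) (XT.nd (nat_lit 390) (nat_lit 2888) (nat_lit 0) (XT.nd (nat_lit 156) (nat_lit 1900) (nat_lit 0) (XT.nd (nat_lit 78) (nat_lit 1748) (nat_lit 0) (XT.lf (nat_lit 0) (nat_lit 7399809986) (nat_lit 1748) (nat_lit 3975052205) (nat_lit 76) (nat_lit 682610449) (nat_lit 499) (nat_lit 5) (nat_lit 522) (nat_lit 5) (nat_lit 500) (nat_lit 5) (nat_lit 585) (nat_lit 561) (nat_lit 414)) (XT.lf (nat_lit 0) (nat_lit 2608194725) (nat_lit 1748) (nat_lit 6281457687) (nat_lit 1824) (nat_lit 3288499283) (nat_lit 476) (nat_lit 5) (nat_lit 499) (nat_lit 5) (nat_lit 500) (nat_lit 5) (nat_lit 586) (nat_lit 561) (nat_lit 413))) (XT.nd (nat_lit 78) (nat_lit 1900) (nat_lit 0) (XT.lf (nat_lit 0) (nat_lit 9365801544) (nat_lit 1748) (nat_lit 1057089232) (nat_lit 1824) (nat_lit 1878082762) (nat_lit 476) (nat_lit 5) (nat_lit 499) (nat_lit 5) (nat_lit 500) (nat_lit 5) (nat_lit 587)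 (nat_lit 561) (nat_lit 412)) (XT.nd (nat_lit 78) (nat_lit 76) (nat_lit 0) (XT.lf (nat_lit 0) (nat_lit 3843746843) (nat_lit 1824) (nat_lit 8182931158) (nat_lit 1900) (nat_lit 398777302) (nat_lit 452) (nat_lit 5) (nat_lit 476) (nat_lit 5) (nat_lit 477) (nat_lit 5) (nat_lit 588) (nat_lit 561) (nat_lit 411)) (XT.lf (nat_lit 0) (nat_lit 1109669170) (nat_lit 1900) (nat_lit 1779674580) (nat_lit 76) (nat_lit 9662657639) (nat_lit 451) (nat_lit 5) (nat_lit 476) (nat_lit 5) (nat_lit 452) (nat_lit 5) (nat_lit 589) (nat_lit 561) (nat_lit 410))))) (XT.nd (nat_lit 156) (nat_lit 1824) (nat_lit 0) (XT.nd (nat_lit 78) (nat_lit 0) (nat_lit 0) (XT.lf (nat_lit 0) (nat_lit 2680880000) (nat_lit 1140) (nat_lit 7484130085) (nat_lit 76) (nat_lit 2515257989) (nat_lit 437) (nat_lit 5) (nat_lit 452) (nat_lit 5) (nat_lit 438) (nat_lit 5) (nat_lit 590) (nat_lit 561) (nat_lit 409)) (XT.lf (nat_lit 0) (nat_lit 4302388222) (nat_lit 1140) (nat_lit 505778246) (nat_lit 76) (nat_lit 8002557241) (nat_lit 437) (nat_lit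 5) (nat_lit 452) (nat_lit 5) (nat_lit 438) (nat_lit 5) (nat_lit 591) (nat_lit 561) (nat_lit 408))) (XT.nd (nat_lit 78) (nat_lit 912) (nat_lit 0) (XT.lf (nat_lit 0) (nat_lit 5992264221) (nat_lit 988) (nat_lit 6258920833) (nat_lit 76) (nat_lit 691885708) (nat_lit 425) (nat_lit 5) (nat_lit 438) (nat_lit 5) (nat_lit 426) (nat_lit 5) (nat_lit 592) (nat_lit 561) (nat_lit 407)) (XT.nd (nat_lit 78) (nat_lit 0) (nat_lit 0) (XT.lf (nat_lit 0) (nat_lit 915635892) (nat_lit 912) (nat_lit 6829633499) (nat_lit 988) (nat_lit 5332209766) (nat_lit 413) (nat_lit 5) (nat_lit 425) (nat_lit 5) (nat_lit 426) (nat_lit 5) (nat_lit 593) (nat_lit 561) (nat_lit 406)) (XT.lf (nat_lit 0) (nat_lit 8307355096) (nat_lit 912) (nat_lit 1256268543) (nat_lit 988) (nat_lit 3650347318) (nat_lit 413) (nat_lit 5) (nat_lit 425) (nat_lit 5) (nat_lit 426) (nat_lit 5) (nat_lit 594) (nat_lit 561) (nat_lit 405)))))) (XT.nd (nat_lit 390) (nat_lit 2432) (nat_lit 0) (XT.nd (nat_lit 156) (nat_lit 1748) (nat_lit 0) (XT.nd (nat_lit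 78) (nat_lit 0) (nat_lit 0) (XT.lf (nat_lit 0) (nat_lit 2486387293) (nat_lit 836) (nat_lit 8965375536) (nat_lit 912) (nat_lit 1900762403) (nat_lit 402) (nat_lit 5) (nat_lit 413) (nat_lit 5) (nat_lit 414) (nat_lit 5) (nat_lit 595) (nat_lit 561) (nat_lit 404)) (XT.lf (nat_lit 0) (nat_lit 10074219302) (nat_lit 836) (nat_lit 3333310737) (nat_lit 912) (nat_lit 85724224) (nat_lit 402) (nat_lit 5) (nat_lit 413) (nat_lit 5) (nat_lit 414) (nat_lit 5) (nat_lit 596) (nat_lit 561) (nat_lit 403))) (XT.nd (nat_lit 78) (nat_lit 836) (nat_lit 0) (XT.lf (nat_lit 0) (nat_lit 1774526733) (nat_lit 912) (nat_lit 9442446015) (nat_lit 76) (nat_lit 2418955427) (nat_lit 390) (nat_lit 5) (nat_lit 402) (nat_lit 5) (nat_lit 391) (nat_lit 5) (nat_lit 597) (nat_lit 561) (nat_lit 402)) (XT.nd (nat_lit 78) (nat_lit 836) (nat_lit 0) (XT.lf (nat_lit 0) (nat_lit 3704976578) (nat_lit 912) (nat_lit 1810388040) (nat_lit 76) (nat_lit 8265397701) (nat_lit 390) (nat_lit 5) (nat_lit 402) (nat_lit 5) (nat_lit 391)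 (nat_lit 5) (nat_lit 598) (nat_lit 561) (nat_lit 401)) (XT.lf (nat_lit 0) (nat_lit 5704662817) (nat_lit 912) (nat_lit 7887546192) (nat_lit 76) (nat_lit 335672490) (nat_lit 379) (nat_lit 5) (nat_lit 391) (nat_lit 5) (nat_lit 380) (nat_lit 5) (nat_lit 599) (nat_lit 561) (nat_lit 400))))) (XT.nd (nat_lit 156) (nat_lit 1596) (nat_lit 0) (XT.nd (nat_lit 78) (nat_lit 836) (nat_lit 0) (XT.lf (nat_lit 0) (nat_lit 7782423794) (nat_lit 912) (nat_lit 52806256) (nat_lit 76) (nat_lit 6241952276) (nat_lit 379) (nat_lit 5) (nat_lit 391) (nat_lit 5) (nat_lit 380) (nat_lit 5) (nat_lit 600) (nat_lit 561) (nat_lit 399)) (XT.lf (nat_lit 0) (nat_lit 8033088258) (nat_lit 836) (nat_lit 1910343466) (nat_lit 912) (nat_lit 4285204479) (nat_lit 368) (nat_lit 5) (nat_lit 379) (nat_lit 5) (nat_lit 380) (nat_lit 5) (nat_lit 601) (nat_lit 561) (nat_lit 398))) (XT.nd (nat_lit 78) (nat_lit 836) (nat_lit 0) (XT.lf (nat_lit 0) (nat_lit 1885163703) (nat_lit 760) (nat_lit 10291594285) (nat_lit 836) (nat_lit 2205780056)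 (nat_lit 358) (nat_lit 5) (nat_lit 368) (nat_lit 5) (nat_lit 369) (nat_lit 5) (nat_lit 602) (nat_lit 561) (nat_lit 397)) (XT.nd (nat_lit 78) (nat_lit 836) (nat_lit 0) (XT.lf (nat_lit 0) (nat_lit 10187696849) (nat_lit 760) (nat_lit 4310996131) (nat_lit 836) (nat_lit 39946931) (nat_lit 358) (nat_lit 5) (nat_lit 368) (nat_lit 5) (nat_lit 369) (nat_lit 5) (nat_lit 603) (nat_lit 561) (nat_lit 396)) (XT.lf (nat_lit 0) (nat_lit 2168439303) (nat_lit 836) (nat_lit 10723411792) (nat_lit 76) (nat_lit 1805178124) (nat_lit 347) (nat_lit 5) (nat_lit 358) (nat_lit 5) (nat_lit 348) (nat_lit 5) (nat_lit 604) (nat_lit 561) (nat_lit 395))))))) (XT.nd (nat_lit 780) (nat_lit 3648) (nat_lit 0) (XT.nd (nat_lit 390) (nat_lit 2052) (nat_lit 0) (XT.nd (nat_lit 156) (nat_lit 1444) (nat_lit 0) (XT.nd (nat_lit 78) (nat_lit 684) (nat_lit 0) (XT.lf (nat_lit 0) (nat_lit 4468452411) (nat_lit 836) (nat_lit 2374360467) (nat_lit 76) (nat_lit 8014809058) (nat_lit 347) (nat_lit 5) (nat_lit 358) (nat_lit 5) (nat_lit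 348) (nat_lit 5) (nat_lit 605) (nat_lit 561) (nat_lit 394)) (XT.lf (nat_lit 0) (nat_lit 6212365975) (nat_lit 684) (nat_lit 632683057) (nat_lit 760) (nat_lit 8175766581) (nat_lit 338) (nat_lit 5) (nat_lit 347) (nat_lit 5) (nat_lit 348) (nat_lit 5) (nat_lit 606) (nat_lit 561) (nat_lit 393))) (XT.nd (nat_lit 78) (nat_lit 1444) (nat_lit 0) (XT.lf (nat_lit 0) (nat_lit 9312598292) (nat_lit 760) (nat_lit 231964482) (nat_lit 76) (nat_lit 5641842730) (nat_lit 338) (nat_lit 5) (nat_lit 348) (nat_lit 5) (nat_lit 339) (nat_lit 5) (nat_lit 607) (nat_lit 561) (nat_lit 392)) (XT.nd (nat_lit 78) (nat_lit 684) (nat_lit 0) (XT.lf (nat_lit 0) (nat_lit 8614152661) (nat_lit 760) (nat_lit 3266016672) (nat_lit 836) (nat_lit 3474125182) (nat_lit 328) (nat_lit 5) (nat_lit 338) (nat_lit 5) (nat_lit 339) (nat_lit 5) (nat_lit 608) (nat_lit 561) (nat_lit 391)) (XT.lf (nat_lit 0) (nat_lit 2111339299) (nat_lit 684) (nat_lit 12414062324) (nat_lit 760) (nat_lit 999614215) (nat_lit 319) (nat_lit 5) (nat_lit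 328) (nat_lit 5) (nat_lit 329) (nat_lit 5) (nat_lit 609) (nat_lit 561) (nat_lit 390))))) (XT.nd (nat_lit 156) (nat_lit 1292) (nat_lit 0) (XT.nd (nat_lit 78) (nat_lit 684) (nat_lit 0) (XT.lf (nat_lit 0) (nat_lit 1562264836) (nat_lit 760) (nat_lit 4509704428) (nat_lit 76) (nat_lit 9625827663) (nat_lit 318) (nat_lit 5) (nat_lit 328) (nat_lit 5) (nat_lit 319) (nat_lit 5) (nat_lit 610) (nat_lit 561) (nat_lit 389)) (XT.lf (nat_lit 0) (nat_lit 4185680533) (nat_lit 760) (nat_lit 11260665610) (nat_lit 76) (nat_lit 427082351) (nat_lit 309) (nat_lit 5) (nat_lit 319) (nat_lit 5) (nat_lit 310) (nat_lit 5) (nat_lit 611) (nat_lit 561) (nat_lit 388))) (XT.nd (nat_lit 78) (nat_lit 1292) (nat_lit 0) (XT.lf (nat_lit 0) (nat_lit 6923232870) (nat_lit 760) (nat_lit 2124303397) (nat_lit 76) (nat_lit 7003803729) (nat_lit 309) (nat_lit 5) (nat_lit 319) (nat_lit 5) (nat_lit 310) (nat_lit 5) (nat_lit 612) (nat_lit 561) (nat_lit 387)) (XT.nd (nat_lit 78) (nat_lit 684) (nat_lit 0) (XT.lf (nat_lit 0) (nat_lit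 7279737997) (nat_lit 608) (nat_lit 2474233441) (nat_lit 684) (nat_lit 6478070243) (nat_lit 301) (nat_lit 5) (nat_lit 309) (nat_lit 5) (nat_lit 310) (nat_lit 5) (nat_lit 613) (nat_lit 561) (nat_lit 386)) (XT.lf (nat_lit 0) (nat_lit 452336230) (nat_lit 684) (nat_lit 12225006785) (nat_lit 760) (nat_lit 3738294665) (nat_lit 292) (nat_lit 5) (nat_lit 301) (nat_lit 5) (nat_lit 302) (nat_lit 5) (nat_lit 614) (nat_lit 561) (nat_lit 385)))))) (XT.nd (nat_lit 390) (nat_lit 2356) (nat_lit 0) (XT.nd (nat_lit 156) (nat_lit 608) (nat_lit 0) (XT.nd (nat_lit 78) (nat_lit 684) (nat_lit 0) (XT.lf (nat_lit 0) (nat_lit 10139268414) (nat_lit 684) (nat_lit 5587633261) (nat_lit 760) (nat_lit 874650163) (nat_lit 292) (nat_lit 5) (nat_lit 301) (nat_lit 5) (nat_lit 302) (nat_lit 5) (nat_lit 615) (nat_lit 561) (nat_lit 384)) (XT.lf (nat_lit 0) (nat_lit 2039887986) (nat_lit 684) (nat_lit 13550953198) (nat_lit 76) (nat_lit 1199668828) (nat_lit 283) (nat_lit 5) (nat_lit 292) (nat_lit 5) (nat_lit 284) (nat_lit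 5) (nat_lit 616) (nat_lit 561) (nat_lit 383))) (XT.nd (nat_lit 78) (nat_lit 608) (nat_lit 0) (XT.lf (nat_lit 0) (nat_lit 5073239594) (nat_lit 684) (nat_lit 3812974430) (nat_lit 76) (nat_lit 8095473607) (nat_lit 283) (nat_lit 5) (nat_lit 292) (nat_lit 5) (nat_lit 284) (nat_lit 5) (nat_lit 617) (nat_lit 561) (nat_lit 382)) (XT.nd (nat_lit 78) (nat_lit 0) (nat_lit 0) (XT.lf (nat_lit 0) (nat_lit 6190619281) (nat_lit 608) (nat_lit 2008564530) (nat_lit 684) (nat_lit 8976867063) (nat_lit 275) (nat_lit 5) (nat_lit 283) (nat_lit 5) (nat_lit 284) (nat_lit 5) (nat_lit 618) (nat_lit 561) (nat_lit 381)) (XT.lf (nat_lit 0) (nat_lit 11437723664) (nat_lit 684) (nat_lit 970912906) (nat_lit 76) (nat_lit 4964663849) (nat_lit 275) (nat_lit 5) (nat_lit 284) (nat_lit 5) (nat_lit 276) (nat_lit 5) (nat_lit 619) (nat_lit 561) (nat_lit 380))))) (XT.nd (nat_lit 234) (nat_lit 1064) (nat_lit 0) (XT.nd (nat_lit 78) (nat_lit 684) (nat_lit 0) (XT.lf (nat_lit 0) (nat_lit 9342914545) (nat_lit 608) (nat_lit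 5464056252) (nat_lit 684) (nat_lit 2766205989) (nat_lit 267) (nat_lit 5) (nat_lit 275) (nat_lit 5) (nat_lit 276) (nat_lit 5) (nat_lit 620) (nat_lit 561) (nat_lit 379)) (XT.nd (nat_lit 78) (nat_lit 0) (nat_lit 0) (XT.lf (nat_lit 0) (nat_lit 483381726) (nat_lit 684) (nat_lit 15673744287) (nat_lit 76) (nat_lit 1619405654) (nat_lit 258) (nat_lit 5) (nat_lit 267) (nat_lit 5) (nat_lit 259) (nat_lit 5) (nat_lit 621) (nat_lit 561) (nat_lit 378)) (XT.lf (nat_lit 0) (nat_lit 3844825625) (nat_lit 684) (nat_lit 5293987993) (nat_lit 76) (nat_lit 8843096784) (nat_lit 258) (nat_lit 5) (nat_lit 267) (nat_lit 5) (nat_lit 259) (nat_lit 5) (nat_lit 622) (nat_lit 561) (nat_lit 377)))) (XT.nd (nat_lit 78) (nat_lit 532) (nat_lit 0) (XT.lf (nat_lit 0) (nat_lit 5353447900) (nat_lit 532) (nat_lit 1947052118) (nat_lit 608) (nat_lit 10890357181) (nat_lit 251) (nat_lit 5) (nat_lit 258) (nat_lit 5) (nat_lit 259) (nat_lit 5) (nat_lit 623) (nat_lit 561) (nat_lit 376)) (XT.nd (nat_lit 78) (nat_lit 532) (nat_lit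 0) (XT.lf (nat_lit 0) (nat_lit 10888349349) (nat_lit 608) (nat_lit 2163098497) (nat_lit 76) (nat_lit 5351274364) (nat_lit 251) (nat_lit 5) (nat_lit 259) (nat_lit 5) (nat_lit 252) (nat_lit 5) (nat_lit 624) (nat_lit 561) (nat_lit 375)) (XT.lf (nat_lit 0) (nat_lit 8817447810) (nat_lit 532) (nat_lit 5793116384) (nat_lit 608) (nat_lit 4007008656) (nat_lit 244) (nat_lit 5) (nat_lit 251) (nat_lit 5) (nat_lit 252) (nat_lit 5) (nat_lit 625) (nat_lit 561) (nat_lit 374))))))))
noncomputable def xc159 : XT := (XT.nd (nat_lit 1560) (nat_lit 1672) (nat_lit 0) (XT.nd (nat_lit 780) (nat_lit 2660) (nat_lit 0) (XT.nd (nat_lit 390) (nat_lit 1520) (nat_lit 0) (XT.nd (nat_lit 156) (nat_lit 988) (nat_lit 0) (XT.nd (nat_lit 78) (nat_lit 76) (nat_lit 0) (XT.lf (nat_lit 0) (nat_lit 1205690919) (nat_lit 532) (nat_lit 17226960441) (nat_lit 608) (nat_lit 403561068) (nat_lit 237) (nat_lit 5) (nat_lit 244) (nat_lit 5) (nat_lit 245) (nat_lit 5) (nat_lit 626) (nat_lit 561) (nat_lit 373)) (XT.lf (nat_lit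 0) (nat_lit 3326172377) (nat_lit 608) (nat_lit 6563586700) (nat_lit 76) (nat_lit 9167098733) (nat_lit 236) (nat_lit 5) (nat_lit 244) (nat_lit 5) (nat_lit 237) (nat_lit 5) (nat_lit 627) (nat_lit 561) (nat_lit 372))) (XT.nd (nat_lit 78) (nat_lit 456) (nat_lit 0) (XT.lf (nat_lit 0) (nat_lit 4774734327) (nat_lit 532) (nat_lit 2374078729) (nat_lit 608) (nat_lit 12132575828) (nat_lit 229) (nat_lit 5) (nat_lit 236) (nat_lit 5) (nat_lit 237) (nat_lit 5) (nat_lit 628) (nat_lit 561) (nat_lit 371)) (XT.nd (nat_lit 78) (nat_lit 456) (nat_lit 0) (XT.lf (nat_lit 0) (nat_lit 11119374458) (nat_lit 608) (nat_lit 3125350929) (nat_lit 76) (nat_lit 5264256285) (nat_lit 229) (nat_lit 5) (nat_lit 237) (nat_lit 5) (nat_lit 230) (nat_lit 5) (nat_lit 629) (nat_lit 561) (nat_lit 370)) (XT.lf (nat_lit 0) (nat_lit 8570491443) (nat_lit 456) (nat_lit 6663137526) (nat_lit 532) (nat_lit 4506212152) (nat_lit 223) (nat_lit 5) (nat_lit 229) (nat_lit 5) (nat_lit 230) (nat_lit 5) (nat_lit 630) (nat_lit 561) (nat_lit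 369))))) (XT.nd (nat_lit 156) (nat_lit 912) (nat_lit 0) (XT.nd (nat_lit 78) (nat_lit 76) (nat_lit 0) (XT.lf (nat_lit 0) (nat_lit 558123264) (nat_lit 532) (nat_lit 18896700965) (nat_lit 608) (nat_lit 520000850) (nat_lit 216) (nat_lit 5) (nat_lit 223) (nat_lit 5) (nat_lit 224) (nat_lit 5) (nat_lit 631) (nat_lit 561) (nat_lit 368)) (XT.lf (nat_lit 0) (nat_lit 3612005000) (nat_lit 608) (nat_lit 7618962344) (nat_lit 76) (nat_lit 8980829819) (nat_lit 215) (nat_lit 5) (nat_lit 223) (nat_lit 5) (nat_lit 216) (nat_lit 5) (nat_lit 632) (nat_lit 561) (nat_lit 367))) (XT.nd (nat_lit 78) (nat_lit 456) (nat_lit 0) (XT.lf (nat_lit 0) (nat_lit 4460120601) (nat_lit 456) (nat_lit 3381669937) (nat_lit 532) (nat_lit 12611207768) (nat_lit 209) (nat_lit 5) (nat_lit 215) (nat_lit 5) (nat_lit 216) (nat_lit 5) (nat_lit 633) (nat_lit 561) (nat_lit 366)) (XT.nd (nat_lit 78) (nat_lit 456) (nat_lit 0) (XT.lf (nat_lit 0) (nat_lit 12230855483) (nat_lit 532) (nat_lit 3854020604) (nat_lit 76) (nat_lit 4612654112)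 (nat_lit 209) (nat_lit 5) (nat_lit 216) (nat_lit 5) (nat_lit 210) (nat_lit 5) (nat_lit 634) (nat_lit 561) (nat_lit 365)) (XT.lf (nat_lit 0) (nat_lit 8608595009) (nat_lit 456) (nat_lit 8170719884) (nat_lit 532) (nat_lit 4166205965) (nat_lit 203) (nat_lit 5) (nat_lit 209) (nat_lit 5) (nat_lit 210) (nat_lit 5) (nat_lit 635) (nat_lit 561) (nat_lit 364)))))) (XT.nd (nat_lit 390) (nat_lit 1292) (nat_lit 0) (XT.nd (nat_lit 156) (nat_lit 836) (nat_lit 0) (XT.nd (nat_lit 78) (nat_lit 0) (nat_lit 0) (XT.lf (nat_lit 0) (nat_lit 165770999) (nat_lit 456) (nat_lit 72072928) (nat_lit 532) (nat_lit 20960189964) (nat_lit 196) (nat_lit 5) (nat_lit 202) (nat_lit 5) (nat_lit 203) (nat_lit 5) (nat_lit 636) (nat_lit 561) (nat_lit 363)) (XT.lf (nat_lit 0) (nat_lit 4804142947) (nat_lit 532) (nat_lit 8459096937) (nat_lit 76) (nat_lit 8189207826) (nat_lit 196) (nat_lit 5) (nat_lit 203) (nat_lit 5) (nat_lit 197) (nat_lit 5) (nat_lit 637) (nat_lit 561) (nat_lit 362))) (XT.nd (nat_lit 78) (nat_lit 380)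 (nat_lit 0) (XT.lf (nat_lit 0) (nat_lit 4413524443) (nat_lit 456) (nat_lit 5070906214) (nat_lit 532) (nat_lit 12227066257) (nat_lit 190) (nat_lit 5) (nat_lit 196) (nat_lit 5) (nat_lit 197) (nat_lit 5) (nat_lit 638) (nat_lit 561) (nat_lit 361)) (XT.nd (nat_lit 78) (nat_lit 380) (nat_lit 0) (XT.lf (nat_lit 0) (nat_lit 14330372093) (nat_lit 532) (nat_lit 4347496479) (nat_lit 76) (nat_lit 3296417926) (nat_lit 190) (nat_lit 5) (nat_lit 197) (nat_lit 5) (nat_lit 191) (nat_lit 5) (nat_lit 639) (nat_lit 561) (nat_lit 360)) (XT.lf (nat_lit 0) (nat_lit 8936331897) (nat_lit 380) (nat_lit 10422206031) (nat_lit 456) (nat_lit 2882088183) (nat_lit 185) (nat_lit 5) (nat_lit 190) (nat_lit 5) (nat_lit 191) (nat_lit 5) (nat_lit 640) (nat_lit 561) (nat_lit 359))))) (XT.nd (nat_lit 156) (nat_lit 760) (nat_lit 0) (XT.nd (nat_lit 78) (nat_lit 0) (nat_lit 0) (XT.lf (nat_lit 0) (nat_lit 10886718) (nat_lit 456) (nat_lit 1961348414) (nat_lit 532) (nat_lit 20539338008) (nat_lit 178) (nat_lit 5) (nat_lit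 184) (nat_lit 5) (nat_lit 185) (nat_lit 5) (nat_lit 641) (nat_lit 561) (nat_lit 358)) (XT.lf (nat_lit 0) (nat_lit 7012025944) (nat_lit 532) (nat_lit 9085757794) (nat_lit 76) (nat_lit 6687235245) (nat_lit 178) (nat_lit 5) (nat_lit 185) (nat_lit 5) (nat_lit 179) (nat_lit 5) (nat_lit 642) (nat_lit 561) (nat_lit 357))) (XT.nd (nat_lit 78) (nat_lit 380) (nat_lit 0) (XT.lf (nat_lit 0) (nat_lit 4636124123) (nat_lit 380) (nat_lit 7553468748) (nat_lit 456) (nat_lit 10873601587) (nat_lit 173) (nat_lit 5) (nat_lit 178) (nat_lit 5) (nat_lit 179) (nat_lit 5) (nat_lit 643) (nat_lit 561) (nat_lit 356)) (XT.nd (nat_lit 78) (nat_lit 380) (nat_lit 0) (XT.lf (nat_lit 0) (nat_lit 17533559222) (nat_lit 456) (nat_lit 4607258081) (nat_lit 76) (nat_lit 1204859494) (nat_lit 173) (nat_lit 5) (nat_lit 179) (nat_lit 5) (nat_lit 174) (nat_lit 5) (nat_lit 644) (nat_lit 561) (nat_lit 355)) (XT.lf (nat_lit 0) (nat_lit 9555225311) (nat_lit 380) (nat_lit 13535291765) (nat_lit 456) (nat_lit 541169772) (nat_lit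 168) (nat_lit 5) (nat_lit 173) (nat_lit 5) (nat_lit 174) (nat_lit 5) (nat_lit 645) (nat_lit 561) (nat_lit 354))))))) (XT.nd (nat_lit 74880) (nat_lit 0) (nat_lit 27968) (XT.nd (nat_lit 390) (nat_lit 380) (nat_lit 0) (XT.nd (nat_lit 156) (nat_lit 836) (nat_lit 0) (XT.nd (nat_lit 78) (nat_lit 0) (nat_lit 0) (XT.lf (nat_lit 0) (nat_lit 101302354) (nat_lit 380) (nat_lit 4696329260) (nat_lit 456) (nat_lit 19124640936) (nat_lit 162) (nat_lit 5) (nat_lit 167) (nat_lit 5) (nat_lit 168) (nat_lit 5) (nat_lit 646) (nat_lit 561) (nat_lit 353)) (XT.lf (nat_lit 0) (nat_lit 10353207365) (nat_lit 456) (nat_lit 9504681536) (nat_lit 76) (nat_lit 4358364923) (nat_lit 162) (nat_lit 5) (nat_lit 168) (nat_lit 5) (nat_lit 163) (nat_lit 5) (nat_lit 647) (nat_lit 561) (nat_lit 352))) (XT.nd (nat_lit 78) (nat_lit 456) (nat_lit 0) (XT.lf (nat_lit 0) (nat_lit 5125148148) (nat_lit 380) (nat_lit 10953346706) (nat_lit 456) (nat_lit 8436448151) (nat_lit 157) (nat_lit 5) (nat_lit 162) (nat_lit 5) (nat_lit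 163) (nat_lit 5) (nat_lit 648) (nat_lit 561) (nat_lit 351)) (XT.nd (nat_lit 78) (nat_lit 456) (nat_lit 0) (XT.lf (nat_lit 0) (nat_lit 20167570969) (nat_lit 380) (nat_lit 1808777252) (nat_lit 456) (nat_lit 2842096824) (nat_lit 157) (nat_lit 5) (nat_lit 162) (nat_lit 5) (nat_lit 163) (nat_lit 5) (nat_lit 649) (nat_lit 561) (nat_lit 350)) (XT.lf (nat_lit 0) (nat_lit 2938429972) (nat_lit 456) (nat_lit 14682662041) (nat_lit 76) (nat_lit 7504316423) (nat_lit 151) (nat_lit 5) (nat_lit 157) (nat_lit 5) (nat_lit 152) (nat_lit 5) (nat_lit 650) (nat_lit 561) (nat_lit 349))))) (XT.nd (nat_lit 74256) (nat_lit 0) (nat_lit 29488) (XT.nd (nat_lit 78) (nat_lit 0) (nat_lit 0) (XT.lf (nat_lit 0) (nat_lit 429240238) (nat_lit 380) (nat_lit 8407876741) (nat_lit 456) (nat_lit 16600206547) (nat_lit 146) (nat_lit 5) (nat_lit 151) (nat_lit 5) (nat_lit 152) (nat_lit 5) (nat_lit 651) (nat_lit 561) (nat_lit 348)) (XT.lf (nat_lit 0) (nat_lit 14953804386) (nat_lit 456) (nat_lit 9726987607) (nat_lit 76)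 (nat_lit 1072684651) (nat_lit 146) (nat_lit 5) (nat_lit 152) (nat_lit 5) (nat_lit 147) (nat_lit 5) (nat_lit 652) (nat_lit 561) (nat_lit 347))) (XT.nd (nat_lit 78) (nat_lit 0) (nat_lit 0) (XT.lf (nat_lit 0) (nat_lit 1200383935) (nat_lit 0) (nat_lit 1200383935) (nat_lit 1596) (nat_lit 2517458341) (nat_lit 534) (nat_lit 5) (nat_lit 534) (nat_lit 3) (nat_lit 555) (nat_lit 3) (nat_lit 562) (nat_lit 562) (nat_lit 436)) (XT.nd (nat_lit 78) (nat_lit 0) (nat_lit 0) (XT.lf (nat_lit 0) (nat_lit 5595523481) (nat_lit 1596) (nat_lit 2580456154) (nat_lit 1672) (nat_lit 1743844893) (nat_lit 534) (nat_lit 5) (nat_lit 555) (nat_lit 3) (nat_lit 556) (nat_lit 5) (nat_lit 563) (nat_lit 562) (nat_lit 435)) (XT.lf (nat_lit 76) (nat_lit 2377070517) (nat_lit 0) (nat_lit 4040449453) (nat_lit 1672) (nat_lit 3587103438) (nat_lit 535) (nat_lit 5) (nat_lit 534) (nat_lit 5) (nat_lit 556) (nat_lit 5) (nat_lit 564) (nat_lit 562) (nat_lit 434)))))) (XT.nd (nat_lit 390) (nat_lit 0) (nat_lit 76) (XT.nd (nat_lit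 156) (nat_lit 1596) (nat_lit 0) (XT.nd (nat_lit 78) (nat_lit 0) (nat_lit 0) (XT.lf (nat_lit 0) (nat_lit 7255707112) (nat_lit 1596) (nat_lit 2633768363) (nat_lit 1672) (nat_lit 201649653) (nat_lit 535) (nat_lit 5) (nat_lit 556) (nat_lit 5) (nat_lit 557) (nat_lit 5) (nat_lit 565) (nat_lit 562) (nat_lit 433)) (XT.lf (nat_lit 76) (nat_lit 2455083867) (nat_lit 0) (nat_lit 5679806895) (nat_lit 1672) (nat_lit 2043983304) (nat_lit 536) (nat_lit 5) (nat_lit 535) (nat_lit 5) (nat_lit 557) (nat_lit 5) (nat_lit 566) (nat_lit 562) (nat_lit 432))) (XT.nd (nat_lit 78) (nat_lit 1596) (nat_lit 0) (XT.lf (nat_lit 76) (nat_lit 7671233083) (nat_lit 0) (nat_lit 1359929726) (nat_lit 1672) (nat_lit 1237226885) (nat_lit 536) (nat_lit 5) (nat_lit 535) (nat_lit 5) (nat_lit 557) (nat_lit 5) (nat_lit 567) (nat_lit 562) (nat_lit 431)) (XT.nd (nat_lit 78) (nat_lit 1672) (nat_lit 0) (XT.lf (nat_lit 76) (nat_lit 2636417121) (nat_lit 0) (nat_lit 7328077289) (nat_lit 1672) (nat_lit 394820309) (nat_lit 537)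 (nat_lit 5) (nat_lit 536) (nat_lit 5) (nat_lit 558) (nat_lit 5) (nat_lit 568) (nat_lit 562) (nat_lit 430)) (XT.lf (nat_lit 0) (nat_lit 467294755) (nat_lit 1672) (nat_lit 2464537134) (nat_lit 1748) (nat_lit 7519988717) (nat_lit 514) (nat_lit 5) (nat_lit 536) (nat_lit 5) (nat_lit 537) (nat_lit 5) (nat_lit 569) (nat_lit 562) (nat_lit 429))))) (XT.nd (nat_lit 234) (nat_lit 0) (nat_lit 76) (XT.nd (nat_lit 78) (nat_lit 0) (nat_lit 0) (XT.lf (nat_lit 0) (nat_lit 1353370807) (nat_lit 1672) (nat_lit 7631979321) (nat_lit 1748) (nat_lit 1560535847) (nat_lit 515) (nat_lit 5) (nat_lit 537) (nat_lit 5) (nat_lit 538) (nat_lit 5) (nat_lit 570) (nat_lit 562) (nat_lit 428)) (XT.nd (nat_lit 78) (nat_lit 0) (nat_lit 76) (XT.lf (nat_lit 0) (nat_lit 2276294082) (nat_lit 1672) (nat_lit 2238368326) (nat_lit 1748) (nat_lit 6126789363) (nat_lit 515) (nat_lit 5) (nat_lit 537) (nat_lit 5) (nat_lit 538) (nat_lit 5) (nat_lit 571) (nat_lit 562) (nat_lit 427)) (XT.lf (nat_lit 0) (nat_lit 3222945384) (nat_lit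 1672) (nat_lit 7443428709) (nat_lit 1748) (nat_lit 72451001) (nat_lit 516) (nat_lit 5) (nat_lit 538) (nat_lit 5) (nat_lit 539) (nat_lit 5) (nat_lit 572) (nat_lit 562) (nat_lit 426)))) (XT.nd (nat_lit 78) (nat_lit 0) (nat_lit 0) (XT.lf (nat_lit 0) (nat_lit 4217238936) (nat_lit 1672) (nat_lit 1908422130) (nat_lit 1748) (nat_lit 4711912203) (nat_lit 516) (nat_lit 5) (nat_lit 538) (nat_lit 5) (nat_lit 539) (nat_lit 5) (nat_lit 573) (nat_lit 562) (nat_lit 425)) (XT.nd (nat_lit 78) (nat_lit 0) (nat_lit 76) (XT.lf (nat_lit 76) (nat_lit 3776265071) (nat_lit 0) (nat_lit 1463681788) (nat_lit 1748) (nat_lit 5698180517) (nat_lit 517) (nat_lit 5) (nat_lit 516) (nat_lit 5) (nat_lit 539) (nat_lit 5) (nat_lit 574) (nat_lit 562) (nat_lit 424)) (XT.lf (nat_lit 0) (nat_lit 6301661297) (nat_lit 1672) (nat_lit 1472204020) (nat_lit 1748) (nat_lit 3266457712) (nat_lit 517) (nat_lit 5) (nat_lit 539) (nat_lit 5) (nat_lit 540) (nat_lit 5) (nat_lit 575) (nat_lit 562) (nat_lit 423))))))))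
noncomputable def xc160 : XT := (XT.nd (nat_lit 1560) (nat_lit 9196) (nat_lit 0) (XT.nd (nat_lit 780) (nat_lit 6308) (nat_lit 0) (XT.nd (nat_lit 390) (nat_lit 0) (nat_lit 0) (XT.nd (nat_lit 156) (nat_lit 1596) (nat_lit 0) (XT.nd (nat_lit 78) (nat_lit 0) (nat_lit 76) (XT.lf (nat_lit 76) (nat_lit 4368229472) (nat_lit 0) (nat_lit 3039033469) (nat_lit 1748) (nat_lit 3736848075) (nat_lit 518) (nat_lit 5) (nat_lit 517) (nat_lit 5) (nat_lit 540) (nat_lit 5) (nat_lit 576) (nat_lit 562) (nat_lit 422)) (XT.lf (nat_lit 0) (nat_lit 8541408156) (nat_lit 1672) (nat_lit 926919750) (nat_lit 1748) (nat_lit 1781519675) (nat_lit 518) (nat_lit 5) (nat_lit 540) (nat_lit 5) (nat_lit 541) (nat_lit 5) (nat_lit 577) (nat_lit 562) (nat_lit 421))) (XT.nd (nat_lit 78) (nat_lit 1672) (nat_lit 0) (XT.lf (nat_lit 76) (nat_lit 5074785469) (nat_lit 0) (nat_lit 4661684325) (nat_lit 1748) (nat_lit 1620465837) (nat_lit 519) (nat_lit 5) (nat_lit 518) (nat_lit 5) (nat_lit 541) (nat_lit 5) (nat_lit 578) (nat_lit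 562) (nat_lit 420)) (XT.nd (nat_lit 78) (nat_lit 1748) (nat_lit 0) (XT.lf (nat_lit 0) (nat_lit 10948666230) (nat_lit 1672) (nat_lit 269474337) (nat_lit 1748) (nat_lit 248161597) (nat_lit 519) (nat_lit 5) (nat_lit 541) (nat_lit 5) (nat_lit 542) (nat_lit 5) (nat_lit 579) (nat_lit 562) (nat_lit 419)) (XT.lf (nat_lit 0) (nat_lit 654515366) (nat_lit 1748) (nat_lit 5681815588) (nat_lit 1824) (nat_lit 5240342981) (nat_lit 496) (nat_lit 5) (nat_lit 519) (nat_lit 5) (nat_lit 520) (nat_lit 5) (nat_lit 580) (nat_lit 562) (nat_lit 418))))) (XT.nd (nat_lit 156) (nat_lit 0) (nat_lit 76) (XT.nd (nat_lit 78) (nat_lit 0) (nat_lit 76) (XT.lf (nat_lit 76) (nat_lit 489066017) (nat_lit 0) (nat_lit 1344924534) (nat_lit 1824) (nat_lit 9855379233) (nat_lit 497) (nat_lit 5) (nat_lit 496) (nat_lit 5) (nat_lit 520) (nat_lit 5) (nat_lit 581) (nat_lit 562) (nat_lit 417)) (XT.lf (nat_lit 0) (nat_lit 3085798555) (nat_lit 1748) (nat_lit 4978801616) (nat_lit 1824) (nat_lit 3738745799) (nat_lit 497) (nat_lit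 5) (nat_lit 520) (nat_lit 5) (nat_lit 521) (nat_lit 5) (nat_lit 582) (nat_lit 562) (nat_lit 416))) (XT.nd (nat_lit 78) (nat_lit 0) (nat_lit 76) (XT.lf (nat_lit 76) (nat_lit 1365294229) (nat_lit 0) (nat_lit 3001432721) (nat_lit 1824) (nat_lit 7552794310) (nat_lit 498) (nat_lit 5) (nat_lit 497) (nat_lit 5) (nat_lit 521) (nat_lit 5) (nat_lit 583) (nat_lit 562) (nat_lit 415)) (XT.nd (nat_lit 78) (nat_lit 0) (nat_lit 0) (XT.lf (nat_lit 0) (nat_lit 5707478389) (nat_lit 1748) (nat_lit 4158908817) (nat_lit 1824) (nat_lit 2170949997) (nat_lit 498) (nat_lit 5) (nat_lit 521) (nat_lit 5) (nat_lit 522) (nat_lit 5) (nat_lit 584) (nat_lit 562) (nat_lit 414)) (XT.lf (nat_lit 76) (nat_lit 2364614747) (nat_lit 0) (nat_lit 4732453145) (nat_lit 1824) (nat_lit 5060002326) (nat_lit 499) (nat_lit 5) (nat_lit 498) (nat_lit 5) (nat_lit 522) (nat_lit 5) (nat_lit 585) (nat_lit 562) (nat_lit 413)))))) (XT.nd (nat_lit 390) (nat_lit 2888) (nat_lit 0) (XT.nd (nat_lit 156) (nat_lit 1900) (nat_lit 0) (XT.nd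 (nat_lit 78) (nat_lit 1748) (nat_lit 0) (XT.lf (nat_lit 0) (nat_lit 8532812854) (nat_lit 1748) (nat_lit 3218155198) (nat_lit 76) (nat_lit 527863759) (nat_lit 499) (nat_lit 5) (nat_lit 522) (nat_lit 5) (nat_lit 500) (nat_lit 5) (nat_lit 586) (nat_lit 562) (nat_lit 412)) (XT.lf (nat_lit 0) (nat_lit 3491254052) (nat_lit 1748) (nat_lit 6547278945) (nat_lit 1824) (nat_lit 2363671601) (nat_lit 476) (nat_lit 5) (nat_lit 499) (nat_lit 5) (nat_lit 500) (nat_lit 5) (nat_lit 587) (nat_lit 562) (nat_lit 411))) (XT.nd (nat_lit 78) (nat_lit 1900) (nat_lit 0) (XT.lf (nat_lit 0) (nat_lit 10367720940) (nat_lit 1748) (nat_lit 1215674256) (nat_lit 1824) (nat_lit 944470233) (nat_lit 476) (nat_lit 5) (nat_lit 499) (nat_lit 5) (nat_lit 500) (nat_lit 5) (nat_lit 588) (nat_lit 562) (nat_lit 410)) (XT.nd (nat_lit 78) (nat_lit 0) (nat_lit 0) (XT.lf (nat_lit 0) (nat_lit 542764223) (nat_lit 1900) (nat_lit 7908938375) (nat_lit 76) (nat_lit 4203347698) (nat_lit 451) (nat_lit 5) (nat_lit 476) (nat_lit 5)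 (nat_lit 452) (nat_lit 5) (nat_lit 589) (nat_lit 562) (nat_lit 409)) (XT.lf (nat_lit 0) (nat_lit 2057531608) (nat_lit 1900) (nat_lit 990009890) (nat_lit 76) (nat_lit 9736904887) (nat_lit 451) (nat_lit 5) (nat_lit 476) (nat_lit 5) (nat_lit 452) (nat_lit 5) (nat_lit 590) (nat_lit 562) (nat_lit 408))))) (XT.nd (nat_lit 156) (nat_lit 912) (nat_lit 0) (XT.nd (nat_lit 78) (nat_lit 912) (nat_lit 0) (XT.lf (nat_lit 0) (nat_lit 3646735254) (nat_lit 1140) (nat_lit 6795043055) (nat_lit 76) (nat_lit 2473770326) (nat_lit 437) (nat_lit 5) (nat_lit 452) (nat_lit 5) (nat_lit 438) (nat_lit 5) (nat_lit 591) (nat_lit 562) (nat_lit 407)) (XT.lf (nat_lit 0) (nat_lit 310501642) (nat_lit 912) (nat_lit 4974300968) (nat_lit 988) (nat_lit 7764129762) (nat_lit 425) (nat_lit 5) (nat_lit 437) (nat_lit 5) (nat_lit 438) (nat_lit 5) (nat_lit 592) (nat_lit 562) (nat_lit 406))) (XT.nd (nat_lit 78) (nat_lit 912) (nat_lit 0) (XT.lf (nat_lit 0) (nat_lit 6993804446) (nat_lit 988) (nat_lit 5549043440) (nat_lit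 76) (nat_lit 641373451) (nat_lit 425) (nat_lit 5) (nat_lit 438) (nat_lit 5) (nat_lit 426) (nat_lit 5) (nat_lit 593) (nat_lit 562) (nat_lit 405)) (XT.nd (nat_lit 78) (nat_lit 0) (nat_lit 0) (XT.lf (nat_lit 0) (nat_lit 1763510631) (nat_lit 912) (nat_lit 7006457019) (nat_lit 988) (nat_lit 4551589800) (nat_lit 413) (nat_lit 5) (nat_lit 425) (nat_lit 5) (nat_lit 426) (nat_lit 5) (nat_lit 594) (nat_lit 562) (nat_lit 404)) (XT.lf (nat_lit 0) (nat_lit 9286798297) (nat_lit 912) (nat_lit 1320835923) (nat_lit 988) (nat_lit 2853487440) (nat_lit 413) (nat_lit 5) (nat_lit 425) (nat_lit 5) (nat_lit 426) (nat_lit 5) (nat_lit 595) (nat_lit 562) (nat_lit 403))))))) (XT.nd (nat_lit 780) (nat_lit 4180) (nat_lit 0) (XT.nd (nat_lit 390) (nat_lit 2432) (nat_lit 0) (XT.nd (nat_lit 156) (nat_lit 1672) (nat_lit 0) (XT.nd (nat_lit 78) (nat_lit 76) (nat_lit 0) (XT.lf (nat_lit 0) (nat_lit 3361330931) (nat_lit 836) (nat_lit 9160591695) (nat_lit 912) (nat_lit 1080758116) (nat_lit 402) (nat_lit 5) (nat_lit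 413) (nat_lit 5) (nat_lit 414) (nat_lit 5) (nat_lit 596) (nat_lit 562) (nat_lit 402)) (XT.lf (nat_lit 0) (nat_lit 743871255) (nat_lit 912) (nat_lit 2666710642) (nat_lit 76) (nat_lit 10335875854) (nat_lit 401) (nat_lit 5) (nat_lit 413) (nat_lit 5) (nat_lit 402) (nat_lit 5) (nat_lit 597) (nat_lit 562) (nat_lit 401))) (XT.nd (nat_lit 78) (nat_lit 836) (nat_lit 0) (XT.lf (nat_lit 0) (nat_lit 2629163806) (nat_lit 912) (nat_lit 8800072653) (nat_lit 76) (nat_lit 2462959029) (nat_lit 390) (nat_lit 5) (nat_lit 402) (nat_lit 5) (nat_lit 391) (nat_lit 5) (nat_lit 598) (nat_lit 562) (nat_lit 400)) (XT.nd (nat_lit 78) (nat_lit 836) (nat_lit 0) (XT.lf (nat_lit 0) (nat_lit 4582160950) (nat_lit 912) (nat_lit 1031671995) (nat_lit 76) (nat_lit 8426415942) (nat_lit 390) (nat_lit 5) (nat_lit 402) (nat_lit 5) (nat_lit 391) (nat_lit 5) (nat_lit 599) (nat_lit 562) (nat_lit 399)) (XT.lf (nat_lit 0) (nat_lit 6611460538) (nat_lit 912) (nat_lit 7219927265) (nat_lit 76) (nat_lit 359131569) (nat_lit 379)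 (nat_lit 5) (nat_lit 391) (nat_lit 5) (nat_lit 380) (nat_lit 5) (nat_lit 600) (nat_lit 562) (nat_lit 398))))) (XT.nd (nat_lit 156) (nat_lit 1596) (nat_lit 0) (XT.nd (nat_lit 78) (nat_lit 0) (nat_lit 0) (XT.lf (nat_lit 0) (nat_lit 765361601) (nat_lit 836) (nat_lit 7954841144) (nat_lit 912) (nat_lit 5622816239) (nat_lit 368) (nat_lit 5) (nat_lit 379) (nat_lit 5) (nat_lit 380) (nat_lit 5) (nat_lit 601) (nat_lit 562) (nat_lit 397)) (XT.lf (nat_lit 0) (nat_lit 8997612559) (nat_lit 836) (nat_lit 1911829793) (nat_lit 912) (nat_lit 3588360618) (nat_lit 368) (nat_lit 5) (nat_lit 379) (nat_lit 5) (nat_lit 380) (nat_lit 5) (nat_lit 602) (nat_lit 562) (nat_lit 396))) (XT.nd (nat_lit 78) (nat_lit 836) (nat_lit 0) (XT.lf (nat_lit 0) (nat_lit 2736508701) (nat_lit 760) (nat_lit 10441400881) (nat_lit 836) (nat_lit 1477065013) (nat_lit 358) (nat_lit 5) (nat_lit 368) (nat_lit 5) (nat_lit 369) (nat_lit 5) (nat_lit 603) (nat_lit 562) (nat_lit 395)) (XT.nd (nat_lit 78) (nat_lit 760) (nat_lit 0)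 (XT.lf (nat_lit 0) (nat_lit 707528549) (nat_lit 836) (nat_lit 3630012860) (nat_lit 76) (nat_lit 10476862312) (nat_lit 357) (nat_lit 5) (nat_lit 368) (nat_lit 5) (nat_lit 358) (nat_lit 5) (nat_lit 604) (nat_lit 562) (nat_lit 394)) (XT.lf (nat_lit 0) (nat_lit 2950512141) (nat_lit 836) (nat_lit 10121101225) (nat_lit 76) (nat_lit 1904524044) (nat_lit 347) (nat_lit 5) (nat_lit 358) (nat_lit 5) (nat_lit 348) (nat_lit 5) (nat_lit 605) (nat_lit 562) (nat_lit 393)))))) (XT.nd (nat_lit 390) (nat_lit 2052) (nat_lit 0) (XT.nd (nat_lit 156) (nat_lit 1444) (nat_lit 0) (XT.nd (nat_lit 78) (nat_lit 684) (nat_lit 0) (XT.lf (nat_lit 0) (nat_lit 5282041118) (nat_lit 836) (nat_lit 1621084144) (nat_lit 76) (nat_lit 8237107551) (nat_lit 347) (nat_lit 5) (nat_lit 358) (nat_lit 5) (nat_lit 348) (nat_lit 5) (nat_lit 606) (nat_lit 562) (nat_lit 392)) (XT.lf (nat_lit 0) (nat_lit 7132108645) (nat_lit 684) (nat_lit 565025524) (nat_lit 760) (nat_lit 7609738026) (nat_lit 338) (nat_lit 5) (nat_lit 347) (nat_lit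 5) (nat_lit 348) (nat_lit 5) (nat_lit 607) (nat_lit 562) (nat_lit 391))) (XT.nd (nat_lit 78) (nat_lit 684) (nat_lit 0) (XT.lf (nat_lit 0) (nat_lit 564260972) (nat_lit 760) (nat_lit 9639924989) (nat_lit 836) (nat_lit 5271785990) (nat_lit 328) (nat_lit 5) (nat_lit 338) (nat_lit 5) (nat_lit 339) (nat_lit 5) (nat_lit 608) (nat_lit 562) (nat_lit 390)) (XT.nd (nat_lit 78) (nat_lit 684) (nat_lit 0) (XT.lf (nat_lit 0) (nat_lit 9574679915) (nat_lit 760) (nat_lit 3236124480) (nat_lit 836) (nat_lit 2836661507) (nat_lit 328) (nat_lit 5) (nat_lit 338) (nat_lit 5) (nat_lit 339) (nat_lit 5) (nat_lit 609) (nat_lit 562) (nat_lit 389)) (XT.lf (nat_lit 0) (nat_lit 2949833314) (nat_lit 684) (nat_lit 12551295116) (nat_lit 760) (nat_lit 320630534) (nat_lit 319) (nat_lit 5) (nat_lit 328) (nat_lit 5) (nat_lit 329) (nat_lit 5) (nat_lit 610) (nat_lit 562) (nat_lit 388))))) (XT.nd (nat_lit 234) (nat_lit 1292) (nat_lit 0) (XT.nd (nat_lit 78) (nat_lit 684) (nat_lit 0) (XT.lf (nat_lit 0) (nat_lit 2269793240)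 (nat_lit 760) (nat_lit 3810206160) (nat_lit 76) (nat_lit 9918177039) (nat_lit 318) (nat_lit 5) (nat_lit 328) (nat_lit 5) (nat_lit 319) (nat_lit 5) (nat_lit 611) (nat_lit 562) (nat_lit 387)) (XT.nd (nat_lit 78) (nat_lit 0) (nat_lit 0) (XT.lf (nat_lit 0) (nat_lit 4938265895) (nat_lit 760) (nat_lit 10688725441) (nat_lit 76) (nat_lit 550478524) (nat_lit 309) (nat_lit 5) (nat_lit 319) (nat_lit 5) (nat_lit 310) (nat_lit 5) (nat_lit 612) (nat_lit 562) (nat_lit 386)) (XT.lf (nat_lit 0) (nat_lit 7717454146) (nat_lit 760) (nat_lit 1385266445) (nat_lit 76) (nat_lit 7256482281) (nat_lit 309) (nat_lit 5) (nat_lit 319) (nat_lit 5) (nat_lit 310) (nat_lit 5) (nat_lit 613) (nat_lit 562) (nat_lit 385)))) (XT.nd (nat_lit 78) (nat_lit 684) (nat_lit 0) (XT.lf (nat_lit 0) (nat_lit 8201714179) (nat_lit 608) (nat_lit 2395276118) (nat_lit 684) (nat_lit 5946685595) (nat_lit 301) (nat_lit 5) (nat_lit 309) (nat_lit 5) (nat_lit 310) (nat_lit 5) (nat_lit 614) (nat_lit 562) (nat_lit 384)) (XT.nd (nat_lit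 78) (nat_lit 0) (nat_lit 0) (XT.lf (nat_lit 0) (nat_lit 1244749214) (nat_lit 684) (nat_lit 12327279108) (nat_lit 760) (nat_lit 3159052445) (nat_lit 292) (nat_lit 5) (nat_lit 301) (nat_lit 5) (nat_lit 302) (nat_lit 5) (nat_lit 615) (nat_lit 562) (nat_lit 383)) (XT.lf (nat_lit 0) (nat_lit 11110059919) (nat_lit 684) (nat_lit 5559946894) (nat_lit 760) (nat_lit 250958741) (nat_lit 292) (nat_lit 5) (nat_lit 301) (nat_lit 5) (nat_lit 302) (nat_lit 5) (nat_lit 616) (nat_lit 562) (nat_lit 382))))))))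
noncomputable def xc161 : XT := (XT.nd (nat_lit 1560) (nat_lit 4332) (nat_lit 0) (XT.nd (nat_lit 780) (nat_lit 3116) (nat_lit 0) (XT.nd (nat_lit 390) (nat_lit 1748) (nat_lit 0) (XT.nd (nat_lit 156) (nat_lit 1216) (nat_lit 0) (XT.nd (nat_lit 78) (nat_lit 0) (nat_lit 0) (XT.lf (nat_lit 0) (nat_lit 2707009469) (nat_lit 684) (nat_lit 13039016155) (nat_lit 76) (nat_lit 1367723921) (nat_lit 283) (nat_lit 5) (nat_lit 292) (nat_lit 5) (nat_lit 284) (nat_lit 5) (nat_lit 617) (nat_lit 562) (nat_lit 381)) (XT.lf (nat_lit 0) (nat_lit 5788747252) (nat_lit 684) (nat_lit 3121629892) (nat_lit 76) (nat_lit 8398620056) (nat_lit 283) (nat_lit 5) (nat_lit 292) (nat_lit 5) (nat_lit 284) (nat_lit 5) (nat_lit 618) (nat_lit 562) (nat_lit 380))) (XT.nd (nat_lit 78) (nat_lit 608) (nat_lit 0) (XT.lf (nat_lit 0) (nat_lit 7076985667) (nat_lit 608) (nat_lit 1893135637) (nat_lit 684) (nat_lit 8537269035) (nat_lit 275) (nat_lit 5) (nat_lit 283) (nat_lit 5) (nat_lit 284) (nat_lit 5) (nat_lit 619) (nat_lit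 562) (nat_lit 379)) (XT.nd (nat_lit 78) (nat_lit 608) (nat_lit 0) (XT.lf (nat_lit 0) (nat_lit 12262521349) (nat_lit 684) (nat_lit 231776955) (nat_lit 76) (nat_lit 5214505615) (nat_lit 275) (nat_lit 5) (nat_lit 284) (nat_lit 5) (nat_lit 276) (nat_lit 5) (nat_lit 620) (nat_lit 562) (nat_lit 378)) (XT.lf (nat_lit 0) (nat_lit 10283336557) (nat_lit 608) (nat_lit 5409022382) (nat_lit 684) (nat_lit 2220455581) (nat_lit 267) (nat_lit 5) (nat_lit 275) (nat_lit 5) (nat_lit 276) (nat_lit 5) (nat_lit 621) (nat_lit 562) (nat_lit 377))))) (XT.nd (nat_lit 156) (nat_lit 1064) (nat_lit 0) (XT.nd (nat_lit 78) (nat_lit 0) (nat_lit 0) (XT.lf (nat_lit 0) (nat_lit 1080624825) (nat_lit 684) (nat_lit 15220077120) (nat_lit 76) (nat_lit 1819569604) (nat_lit 258) (nat_lit 5) (nat_lit 267) (nat_lit 5) (nat_lit 259) (nat_lit 5) (nat_lit 622) (nat_lit 562) (nat_lit 376)) (XT.lf (nat_lit 0) (nat_lit 4497776514) (nat_lit 684) (nat_lit 4647767701) (nat_lit 76) (nat_lit 9184444835) (nat_lit 258) (nat_lit 5)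 (nat_lit 267) (nat_lit 5) (nat_lit 259) (nat_lit 5) (nat_lit 623) (nat_lit 562) (nat_lit 375))) (XT.nd (nat_lit 78) (nat_lit 532) (nat_lit 0) (XT.lf (nat_lit 0) (nat_lit 6207668884) (nat_lit 532) (nat_lit 1808451334) (nat_lit 608) (nat_lit 10527124204) (nat_lit 251) (nat_lit 5) (nat_lit 258) (nat_lit 5) (nat_lit 259) (nat_lit 5) (nat_lit 624) (nat_lit 562) (nat_lit 374)) (XT.nd (nat_lit 78) (nat_lit 532) (nat_lit 0) (XT.lf (nat_lit 0) (nat_lit 11665687825) (nat_lit 608) (nat_lit 1463782793) (nat_lit 76) (nat_lit 5630077628) (nat_lit 251) (nat_lit 5) (nat_lit 259) (nat_lit 5) (nat_lit 252) (nat_lit 5) (nat_lit 625) (nat_lit 562) (nat_lit 373)) (XT.lf (nat_lit 0) (nat_lit 9731489061) (nat_lit 532) (nat_lit 5724675503) (nat_lit 608) (nat_lit 3522655707) (nat_lit 244) (nat_lit 5) (nat_lit 251) (nat_lit 5) (nat_lit 252) (nat_lit 5) (nat_lit 626) (nat_lit 562) (nat_lit 372)))))) (XT.nd (nat_lit 390) (nat_lit 1520) (nat_lit 0) (XT.nd (nat_lit 156) (nat_lit 988) (nat_lit 0) (XT.nd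 (nat_lit 78) (nat_lit 0) (nat_lit 0) (XT.lf (nat_lit 0) (nat_lit 145967545) (nat_lit 608) (nat_lit 17230404748) (nat_lit 76) (nat_lit 1825538966) (nat_lit 236) (nat_lit 5) (nat_lit 244) (nat_lit 5) (nat_lit 237) (nat_lit 5) (nat_lit 627) (nat_lit 562) (nat_lit 371)) (XT.lf (nat_lit 0) (nat_lit 3934069554) (nat_lit 608) (nat_lit 5959510785) (nat_lit 76) (nat_lit 9533552990) (nat_lit 236) (nat_lit 5) (nat_lit 244) (nat_lit 5) (nat_lit 237) (nat_lit 5) (nat_lit 628) (nat_lit 562) (nat_lit 370))) (XT.nd (nat_lit 78) (nat_lit 456) (nat_lit 0) (XT.lf (nat_lit 0) (nat_lit 5600738849) (nat_lit 532) (nat_lit 2226551981) (nat_lit 608) (nat_lit 11828982309) (nat_lit 229) (nat_lit 5) (nat_lit 236) (nat_lit 5) (nat_lit 237) (nat_lit 5) (nat_lit 629) (nat_lit 562) (nat_lit 369)) (XT.nd (nat_lit 78) (nat_lit 456) (nat_lit 0) (XT.lf (nat_lit 0) (nat_lit 11868004728) (nat_lit 608) (nat_lit 2462380267) (nat_lit 76) (nat_lit 5558218620) (nat_lit 229) (nat_lit 5) (nat_lit 237) (nat_lit 5) (nat_lit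 230) (nat_lit 5) (nat_lit 630) (nat_lit 562) (nat_lit 368)) (XT.lf (nat_lit 0) (nat_lit 9462606073) (nat_lit 456) (nat_lit 6596299063) (nat_lit 532) (nat_lit 4065288544) (nat_lit 223) (nat_lit 5) (nat_lit 229) (nat_lit 5) (nat_lit 230) (nat_lit 5) (nat_lit 631) (nat_lit 562) (nat_lit 367))))) (XT.nd (nat_lit 156) (nat_lit 912) (nat_lit 0) (XT.nd (nat_lit 78) (nat_lit 76) (nat_lit 0) (XT.lf (nat_lit 0) (nat_lit 1294333961) (nat_lit 532) (nat_lit 19065963636) (nat_lit 608) (nat_lit 3664885) (nat_lit 216) (nat_lit 5) (nat_lit 223) (nat_lit 5) (nat_lit 224) (nat_lit 5) (nat_lit 632) (nat_lit 562) (nat_lit 366)) (XT.lf (nat_lit 0) (nat_lit 4193880144) (nat_lit 608) (nat_lit 7053706874) (nat_lit 76) (nat_lit 9358223051) (nat_lit 215) (nat_lit 5) (nat_lit 223) (nat_lit 5) (nat_lit 216) (nat_lit 5) (nat_lit 633) (nat_lit 562) (nat_lit 365))) (XT.nd (nat_lit 78) (nat_lit 456) (nat_lit 0) (XT.lf (nat_lit 0) (nat_lit 5262236448) (nat_lit 456) (nat_lit 3240660808) (nat_lit 532) (nat_lit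 12349045858) (nat_lit 209) (nat_lit 5) (nat_lit 215) (nat_lit 5) (nat_lit 216) (nat_lit 5) (nat_lit 634) (nat_lit 562) (nat_lit 364)) (XT.nd (nat_lit 78) (nat_lit 456) (nat_lit 0) (XT.lf (nat_lit 0) (nat_lit 12971183919) (nat_lit 532) (nat_lit 3223577537) (nat_lit 76) (nat_lit 4906775963) (nat_lit 209) (nat_lit 5) (nat_lit 216) (nat_lit 5) (nat_lit 210) (nat_lit 5) (nat_lit 635) (nat_lit 562) (nat_lit 363)) (XT.lf (nat_lit 0) (nat_lit 9483635629) (nat_lit 456) (nat_lit 8121820549) (nat_lit 532) (nat_lit 3749135412) (nat_lit 203) (nat_lit 5) (nat_lit 209) (nat_lit 5) (nat_lit 210) (nat_lit 5) (nat_lit 636) (nat_lit 562) (nat_lit 362))))))) (XT.nd (nat_lit 780) (nat_lit 1672) (nat_lit 0) (XT.nd (nat_lit 390) (nat_lit 1292) (nat_lit 0) (XT.nd (nat_lit 156) (nat_lit 836) (nat_lit 0) (XT.nd (nat_lit 78) (nat_lit 0) (nat_lit 0) (XT.lf (nat_lit 0) (nat_lit 732251258) (nat_lit 532) (nat_lit 20739239710) (nat_lit 76) (nat_lit 140683117) (nat_lit 196) (nat_lit 5) (nat_lit 203) (nat_lit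 5) (nat_lit 197) (nat_lit 5) (nat_lit 637) (nat_lit 562) (nat_lit 361)) (XT.lf (nat_lit 0) (nat_lit 5380743214) (nat_lit 532) (nat_lit 7929071879) (nat_lit 76) (nat_lit 8562044287) (nat_lit 196) (nat_lit 5) (nat_lit 203) (nat_lit 5) (nat_lit 197) (nat_lit 5) (nat_lit 638) (nat_lit 562) (nat_lit 360))) (XT.nd (nat_lit 78) (nat_lit 380) (nat_lit 0) (XT.lf (nat_lit 0) (nat_lit 5196401883) (nat_lit 456) (nat_lit 4953322734) (nat_lit 532) (nat_lit 11986463720) (nat_lit 190) (nat_lit 5) (nat_lit 196) (nat_lit 5) (nat_lit 197) (nat_lit 5) (nat_lit 639) (nat_lit 562) (nat_lit 359)) (XT.nd (nat_lit 78) (nat_lit 380) (nat_lit 0) (XT.lf (nat_lit 0) (nat_lit 15084653310) (nat_lit 532) (nat_lit 3745501739) (nat_lit 76) (nat_lit 3574237813) (nat_lit 190) (nat_lit 5) (nat_lit 197) (nat_lit 5) (nat_lit 191) (nat_lit 5) (nat_lit 640) (nat_lit 562) (nat_lit 358)) (XT.lf (nat_lit 0) (nat_lit 9799470673) (nat_lit 380) (nat_lit 10409185372) (nat_lit 456) (nat_lit 2467498258) (nat_lit 185) (nat_lit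 5) (nat_lit 190) (nat_lit 5) (nat_lit 191) (nat_lit 5) (nat_lit 641) (nat_lit 562) (nat_lit 357))))) (XT.nd (nat_lit 156) (nat_lit 760) (nat_lit 0) (XT.nd (nat_lit 78) (nat_lit 0) (nat_lit 0) (XT.lf (nat_lit 0) (nat_lit 697191259) (nat_lit 456) (nat_lit 1775843386) (nat_lit 532) (nat_lit 20479518465) (nat_lit 178) (nat_lit 5) (nat_lit 184) (nat_lit 5) (nat_lit 185) (nat_lit 5) (nat_lit 642) (nat_lit 562) (nat_lit 356)) (XT.lf (nat_lit 0) (nat_lit 7606005599) (nat_lit 532) (nat_lit 8587199233) (nat_lit 76) (nat_lit 7038415828) (nat_lit 178) (nat_lit 5) (nat_lit 185) (nat_lit 5) (nat_lit 179) (nat_lit 5) (nat_lit 643) (nat_lit 562) (nat_lit 355))) (XT.nd (nat_lit 78) (nat_lit 380) (nat_lit 0) (XT.lf (nat_lit 0) (nat_lit 5404644837) (nat_lit 380) (nat_lit 7477969912) (nat_lit 456) (nat_lit 10632835547) (nat_lit 173) (nat_lit 5) (nat_lit 178) (nat_lit 5) (nat_lit 179) (nat_lit 5) (nat_lit 644) (nat_lit 562) (nat_lit 354)) (XT.nd (nat_lit 78) (nat_lit 380) (nat_lit 0) (XT.lf (nat_lit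 0) (nat_lit 18326094183) (nat_lit 456) (nat_lit 4029466722) (nat_lit 76) (nat_lit 1448169162) (nat_lit 173) (nat_lit 5) (nat_lit 179) (nat_lit 5) (nat_lit 174) (nat_lit 5) (nat_lit 645) (nat_lit 562) (nat_lit 353)) (XT.lf (nat_lit 0) (nat_lit 10411858861) (nat_lit 380) (nat_lit 13577989394) (nat_lit 456) (nat_lit 105699374) (nat_lit 168) (nat_lit 5) (nat_lit 173) (nat_lit 5) (nat_lit 174) (nat_lit 5) (nat_lit 646) (nat_lit 562) (nat_lit 352)))))) (XT.nd (nat_lit 390) (nat_lit 380) (nat_lit 0) (XT.nd (nat_lit 156) (nat_lit 836) (nat_lit 0) (XT.nd (nat_lit 78) (nat_lit 0) (nat_lit 0) (XT.lf (nat_lit 0) (nat_lit 770315632) (nat_lit 380) (nat_lit 4559403619) (nat_lit 456) (nat_lit 19062254386) (nat_lit 162) (nat_lit 5) (nat_lit 167) (nat_lit 5) (nat_lit 168) (nat_lit 5) (nat_lit 647) (nat_lit 562) (nat_lit 351)) (XT.lf (nat_lit 0) (nat_lit 10989324306) (nat_lit 456) (nat_lit 9033762667) (nat_lit 76) (nat_lit 4668889632) (nat_lit 162) (nat_lit 5) (nat_lit 168) (nat_lit 5) (nat_lit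 163) (nat_lit 5) (nat_lit 648) (nat_lit 562) (nat_lit 350))) (XT.nd (nat_lit 78) (nat_lit 456) (nat_lit 0) (XT.lf (nat_lit 0) (nat_lit 5884314844) (nat_lit 380) (nat_lit 10940653397) (nat_lit 456) (nat_lit 8171754730) (nat_lit 157) (nat_lit 5) (nat_lit 162) (nat_lit 5) (nat_lit 163) (nat_lit 5) (nat_lit 649) (nat_lit 562) (nat_lit 349)) (XT.nd (nat_lit 78) (nat_lit 456) (nat_lit 0) (XT.lf (nat_lit 0) (nat_lit 21214710362) (nat_lit 380) (nat_lit 1617736873) (nat_lit 456) (nat_lit 2474014855) (nat_lit 157) (nat_lit 5) (nat_lit 162) (nat_lit 5) (nat_lit 163) (nat_lit 5) (nat_lit 650) (nat_lit 562) (nat_lit 348)) (XT.lf (nat_lit 0) (nat_lit 3414007390) (nat_lit 456) (nat_lit 14324372585) (nat_lit 76) (nat_lit 7881180831) (nat_lit 151) (nat_lit 5) (nat_lit 157) (nat_lit 5) (nat_lit 152) (nat_lit 5) (nat_lit 651) (nat_lit 562) (nat_lit 347))))) (XT.nd (nat_lit 74334) (nat_lit 0) (nat_lit 29488) (XT.nd (nat_lit 78) (nat_lit 0) (nat_lit 0) (XT.lf (nat_lit 0) (nat_lit 1085478642) (nat_lit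 380) (nat_lit 8341221770) (nat_lit 456) (nat_lit 16511093525) (nat_lit 146) (nat_lit 5) (nat_lit 151) (nat_lit 5) (nat_lit 152) (nat_lit 5) (nat_lit 652) (nat_lit 562) (nat_lit 346)) (XT.nd (nat_lit 74178) (nat_lit 0) (nat_lit 29488) (XT.lf (nat_lit 0) (nat_lit 15659121309) (nat_lit 456) (nat_lit 9279953731) (nat_lit 76) (nat_lit 1321327459) (nat_lit 146) (nat_lit 5) (nat_lit 152) (nat_lit 5) (nat_lit 147) (nat_lit 5) (nat_lit 653) (nat_lit 562) (nat_lit 345)) (XT.lf (nat_lit 0) (nat_lit 1589257043) (nat_lit 0) (nat_lit 1589257043) (nat_lit 1596) (nat_lit 1823409534) (nat_lit 534) (nat_lit 5) (nat_lit 534) (nat_lit 3) (nat_lit 555) (nat_lit 3) (nat_lit 563) (nat_lit 563) (nat_lit 434)))) (XT.nd (nat_lit 78) (nat_lit 0) (nat_lit 0) (XT.lf (nat_lit 0) (nat_lit 7133633773) (nat_lit 1596) (nat_lit 1883238819) (nat_lit 1672) (nat_lit 1072682275) (nat_lit 534) (nat_lit 5) (nat_lit 555) (nat_lit 3) (nat_lit 556) (nat_lit 5) (nat_lit 564) (nat_lit 563) (nat_lit 433)) (XT.nd (nat_lit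 78) (nat_lit 0) (nat_lit 0) (XT.lf (nat_lit 76) (nat_lit 3168511895) (nat_lit 0) (nat_lit 4780423486) (nat_lit 1672) (nat_lit 2227579827) (nat_lit 535) (nat_lit 5) (nat_lit 534) (nat_lit 5) (nat_lit 556) (nat_lit 5) (nat_lit 565) (nat_lit 563) (nat_lit 432)) (XT.lf (nat_lit 76) (nat_lit 8337197833) (nat_lit 0) (nat_lit 437824178) (nat_lit 1672) (nat_lit 1490304969) (nat_lit 535) (nat_lit 5) (nat_lit 534) (nat_lit 5) (nat_lit 556) (nat_lit 5) (nat_lit 566) (nat_lit 563) (nat_lit 431))))))))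
noncomputable def xc162 : XT := (XT.nd (nat_lit 1560) (nat_lit 11248) (nat_lit 0) (XT.nd (nat_lit 780) (nat_lit 1368) (nat_lit 0) (XT.nd (nat_lit 390) (nat_lit 0) (nat_lit 152) (XT.nd (nat_lit 156) (nat_lit 0) (nat_lit 76) (XT.nd (nat_lit 78) (nat_lit 1672) (nat_lit 0) (XT.lf (nat_lit 76) (nat_lit 3260335159) (nat_lit 0) (nat_lit 6386631582) (nat_lit 1672) (nat_lit 708363287) (nat_lit 536) (nat_lit 5) (nat_lit 535) (nat_lit 5) (nat_lit 557) (nat_lit 5) (nat_lit 567) (nat_lit 563) (nat_lit 430)) (XT.lf (nat_lit 0) (nat_lit 86389991) (nat_lit 1672) (nat_lit 1881755222) (nat_lit 1748) (nat_lit 8479011182) (nat_lit 513) (nat_lit 5) (nat_lit 535) (nat_lit 5) (nat_lit 536) (nat_lit 5) (nat_lit 568) (nat_lit 563) (nat_lit 429))) (XT.nd (nat_lit 78) (nat_lit 0) (nat_lit 0) (XT.lf (nat_lit 0) (nat_lit 909545219) (nat_lit 1672) (nat_lit 7090633451) (nat_lit 1748) (nat_lit 2540108803) (nat_lit 514) (nat_lit 5) (nat_lit 536) (nat_lit 5) (nat_lit 537) (nat_lit 5) (nat_lit 569) (nat_lit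 563) (nat_lit 428)) (XT.nd (nat_lit 78) (nat_lit 0) (nat_lit 76) (XT.lf (nat_lit 0) (nat_lit 1757993819) (nat_lit 1672) (nat_lit 1745095137) (nat_lit 1748) (nat_lit 7132017244) (nat_lit 514) (nat_lit 5) (nat_lit 536) (nat_lit 5) (nat_lit 537) (nat_lit 5) (nat_lit 570) (nat_lit 563) (nat_lit 427)) (XT.lf (nat_lit 0) (nat_lit 2638394932) (nat_lit 1672) (nat_lit 6992368378) (nat_lit 1748) (nat_lit 1100759922) (nat_lit 515) (nat_lit 5) (nat_lit 537) (nat_lit 5) (nat_lit 538) (nat_lit 5) (nat_lit 571) (nat_lit 563) (nat_lit 426))))) (XT.nd (nat_lit 156) (nat_lit 0) (nat_lit 76) (XT.nd (nat_lit 78) (nat_lit 0) (nat_lit 0) (XT.lf (nat_lit 0) (nat_lit 3555110855) (nat_lit 1672) (nat_lit 1506419487) (nat_lit 1748) (nat_lit 5767965697) (nat_lit 515) (nat_lit 5) (nat_lit 537) (nat_lit 5) (nat_lit 538) (nat_lit 5) (nat_lit 572) (nat_lit 563) (nat_lit 425)) (XT.lf (nat_lit 76) (nat_lit 4133406451) (nat_lit 0) (nat_lit 367630152) (nat_lit 1748) (nat_lit 6428175730) (nat_lit 516) (nat_lit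 5) (nat_lit 515) (nat_lit 5) (nat_lit 538) (nat_lit 5) (nat_lit 573) (nat_lit 563) (nat_lit 424))) (XT.nd (nat_lit 78) (nat_lit 0) (nat_lit 0) (XT.lf (nat_lit 0) (nat_lit 5489079217) (nat_lit 1672) (nat_lit 1163376554) (nat_lit 1748) (nat_lit 4378004723) (nat_lit 516) (nat_lit 5) (nat_lit 538) (nat_lit 5) (nat_lit 539) (nat_lit 5) (nat_lit 574) (nat_lit 563) (nat_lit 423)) (XT.nd (nat_lit 78) (nat_lit 0) (nat_lit 76) (XT.lf (nat_lit 76) (nat_lit 4629851668) (nat_lit 0) (nat_lit 1884157096) (nat_lit 1748) (nat_lit 4619383812) (nat_lit 517) (nat_lit 5) (nat_lit 516) (nat_lit 5) (nat_lit 539) (nat_lit 5) (nat_lit 575) (nat_lit 563) (nat_lit 422)) (XT.lf (nat_lit 0) (nat_lit 7571540627) (nat_lit 1672) (nat_lit 713316156) (nat_lit 1748) (nat_lit 2953285894) (nat_lit 517) (nat_lit 5) (nat_lit 539) (nat_lit 5) (nat_lit 540) (nat_lit 5) (nat_lit 576) (nat_lit 563) (nat_lit 421)))))) (XT.nd (nat_lit 390) (nat_lit 0) (nat_lit 76) (XT.nd (nat_lit 156) (nat_lit 1672) (nat_lit 0) (XT.nd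 (nat_lit 78) (nat_lit 0) (nat_lit 76) (XT.lf (nat_lit 76) (nat_lit 5238739612) (nat_lit 0) (nat_lit 3443171037) (nat_lit 1748) (nat_lit 2662444801) (nat_lit 518) (nat_lit 5) (nat_lit 517) (nat_lit 5) (nat_lit 540) (nat_lit 5) (nat_lit 577) (nat_lit 563) (nat_lit 420)) (XT.lf (nat_lit 0) (nat_lit 9814464897) (nat_lit 1672) (nat_lit 153288894) (nat_lit 1748) (nat_lit 1484940547) (nat_lit 518) (nat_lit 5) (nat_lit 540) (nat_lit 5) (nat_lit 541) (nat_lit 5) (nat_lit 578) (nat_lit 563) (nat_lit 419))) (XT.nd (nat_lit 78) (nat_lit 1748) (nat_lit 0) (XT.lf (nat_lit 76) (nat_lit 5963238789) (nat_lit 0) (nat_lit 5053686104) (nat_lit 1748) (nat_lit 545331384) (nat_lit 519) (nat_lit 5) (nat_lit 518) (nat_lit 5) (nat_lit 541) (nat_lit 5) (nat_lit 579) (nat_lit 563) (nat_lit 418)) (XT.nd (nat_lit 78) (nat_lit 0) (nat_lit 76) (XT.lf (nat_lit 76) (nat_lit 522966775) (nat_lit 0) (nat_lit 29274767) (nat_lit 1824) (nat_lit 11121889585) (nat_lit 496) (nat_lit 5) (nat_lit 495) (nat_lit 5) (nat_lit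 519) (nat_lit 5) (nat_lit 580) (nat_lit 563) (nat_lit 417)) (XT.lf (nat_lit 0) (nat_lit 1721464250) (nat_lit 1748) (nat_lit 4991759072) (nat_lit 1824) (nat_lit 5073809340) (nat_lit 496) (nat_lit 5) (nat_lit 519) (nat_lit 5) (nat_lit 520) (nat_lit 5) (nat_lit 581) (nat_lit 563) (nat_lit 416))))) (XT.nd (nat_lit 156) (nat_lit 0) (nat_lit 76) (XT.nd (nat_lit 78) (nat_lit 0) (nat_lit 76) (XT.lf (nat_lit 76) (nat_lit 1297252713) (nat_lit 0) (nat_lit 1611796109) (nat_lit 1824) (nat_lit 8993245121) (nat_lit 497) (nat_lit 5) (nat_lit 496) (nat_lit 5) (nat_lit 520) (nat_lit 5) (nat_lit 582) (nat_lit 563) (nat_lit 415)) (XT.lf (nat_lit 0) (nat_lit 4164005111) (nat_lit 1748) (nat_lit 4273645614) (nat_lit 1824) (nat_lit 3581338563) (nat_lit 497) (nat_lit 5) (nat_lit 520) (nat_lit 5) (nat_lit 521) (nat_lit 5) (nat_lit 583) (nat_lit 563) (nat_lit 414))) (XT.nd (nat_lit 78) (nat_lit 0) (nat_lit 76) (XT.lf (nat_lit 76) (nat_lit 2192037858) (nat_lit 0) (nat_lit 3263773507) (nat_lit 1824) (nat_lit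 6681973371) (nat_lit 498) (nat_lit 5) (nat_lit 497) (nat_lit 5) (nat_lit 521) (nat_lit 5) (nat_lit 584) (nat_lit 563) (nat_lit 413)) (XT.nd (nat_lit 78) (nat_lit 0) (nat_lit 0) (XT.lf (nat_lit 0) (nat_lit 6802447890) (nat_lit 1748) (nat_lit 3437304407) (nat_lit 1824) (nat_lit 2018625103) (nat_lit 498) (nat_lit 5) (nat_lit 521) (nat_lit 5) (nat_lit 522) (nat_lit 5) (nat_lit 585) (nat_lit 563) (nat_lit 412)) (XT.lf (nat_lit 76) (nat_lit 3211395007) (nat_lit 0) (nat_lit 4994393220) (nat_lit 1824) (nat_lit 4174999436) (nat_lit 499) (nat_lit 5) (nat_lit 498) (nat_lit 5) (nat_lit 522) (nat_lit 5) (nat_lit 586) (nat_lit 563) (nat_lit 411))))))) (XT.nd (nat_lit 780) (nat_lit 5016) (nat_lit 0) (XT.nd (nat_lit 390) (nat_lit 2888) (nat_lit 0) (XT.nd (nat_lit 156) (nat_lit 1900) (nat_lit 0) (XT.nd (nat_lit 78) (nat_lit 1748) (nat_lit 0) (XT.lf (nat_lit 0) (nat_lit 9650226770) (nat_lit 1748) (nat_lit 2478598607) (nat_lit 76) (nat_lit 376561270) (nat_lit 499) (nat_lit 5) (nat_lit 522) (nat_lit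 5) (nat_lit 500) (nat_lit 5) (nat_lit 587) (nat_lit 563) (nat_lit 410)) (XT.lf (nat_lit 0) (nat_lit 4359709883) (nat_lit 1748) (nat_lit 6812972798) (nat_lit 1824) (nat_lit 1458813480) (nat_lit 476) (nat_lit 5) (nat_lit 499) (nat_lit 5) (nat_lit 500) (nat_lit 5) (nat_lit 588) (nat_lit 563) (nat_lit 409))) (XT.nd (nat_lit 78) (nat_lit 1900) (nat_lit 0) (XT.lf (nat_lit 0) (nat_lit 11358046682) (nat_lit 1748) (nat_lit 1372093892) (nat_lit 1824) (nat_lit 29897331) (nat_lit 476) (nat_lit 5) (nat_lit 499) (nat_lit 5) (nat_lit 500) (nat_lit 5) (nat_lit 589) (nat_lit 563) (nat_lit 408)) (XT.nd (nat_lit 78) (nat_lit 0) (nat_lit 0) (XT.lf (nat_lit 0) (nat_lit 1461138189) (nat_lit 1900) (nat_lit 7258040493) (nat_lit 76) (nat_lit 4170742197) (nat_lit 451) (nat_lit 5) (nat_lit 476) (nat_lit 5) (nat_lit 452) (nat_lit 5) (nat_lit 590) (nat_lit 563) (nat_lit 407)) (XT.lf (nat_lit 0) (nat_lit 2988406437) (nat_lit 1900) (nat_lit 216597687) (nat_lit 76) (nat_lit 9817258225) (nat_lit 451) (nat_lit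 5) (nat_lit 476) (nat_lit 5) (nat_lit 452) (nat_lit 5) (nat_lit 591) (nat_lit 563) (nat_lit 406))))) (XT.nd (nat_lit 156) (nat_lit 912) (nat_lit 0) (XT.nd (nat_lit 78) (nat_lit 912) (nat_lit 0) (XT.lf (nat_lit 0) (nat_lit 4596484313) (nat_lit 1140) (nat_lit 6124744731) (nat_lit 76) (nat_lit 2435017336) (nat_lit 437) (nat_lit 5) (nat_lit 452) (nat_lit 5) (nat_lit 438) (nat_lit 5) (nat_lit 592) (nat_lit 563) (nat_lit 405)) (XT.lf (nat_lit 0) (nat_lit 1117606918) (nat_lit 912) (nat_lit 5137713602) (nat_lit 988) (nat_lit 7037218629) (nat_lit 425) (nat_lit 5) (nat_lit 437) (nat_lit 5) (nat_lit 438) (nat_lit 5) (nat_lit 593) (nat_lit 563) (nat_lit 404))) (XT.nd (nat_lit 78) (nat_lit 912) (nat_lit 0) (XT.lf (nat_lit 0) (nat_lit 7981138186) (nat_lit 988) (nat_lit 4857394734) (nat_lit 76) (nat_lit 592349738) (nat_lit 425) (nat_lit 5) (nat_lit 438) (nat_lit 5) (nat_lit 426) (nat_lit 5) (nat_lit 594) (nat_lit 563) (nat_lit 403)) (XT.nd (nat_lit 78) (nat_lit 0) (nat_lit 0) (XT.lf (nat_lit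 0) (nat_lit 2596129961) (nat_lit 912) (nat_lit 7185254797) (nat_lit 988) (nat_lit 3789810984) (nat_lit 413) (nat_lit 5) (nat_lit 425) (nat_lit 5) (nat_lit 426) (nat_lit 5) (nat_lit 595) (nat_lit 563) (nat_lit 402)) (XT.lf (nat_lit 0) (nat_lit 10254249084) (nat_lit 912) (nat_lit 1385163070) (nat_lit 988) (nat_lit 2074468354) (nat_lit 413) (nat_lit 5) (nat_lit 425) (nat_lit 5) (nat_lit 426) (nat_lit 5) (nat_lit 596) (nat_lit 563) (nat_lit 401)))))) (XT.nd (nat_lit 390) (nat_lit 2432) (nat_lit 0) (XT.nd (nat_lit 156) (nat_lit 1672) (nat_lit 0) (XT.nd (nat_lit 78) (nat_lit 76) (nat_lit 0) (XT.lf (nat_lit 0) (nat_lit 4221729303) (nat_lit 836) (nat_lit 9359094425) (nat_lit 912) (nat_lit 277671688) (nat_lit 402) (nat_lit 5) (nat_lit 413) (nat_lit 5) (nat_lit 414) (nat_lit 5) (nat_lit 597) (nat_lit 563) (nat_lit 400)) (XT.lf (nat_lit 0) (nat_lit 1556675622) (nat_lit 912) (nat_lit 1931754478) (nat_lit 76) (nat_lit 10516931286) (nat_lit 401) (nat_lit 5) (nat_lit 413) (nat_lit 5) (nat_lit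 402) (nat_lit 5) (nat_lit 598) (nat_lit 563) (nat_lit 399))) (XT.nd (nat_lit 78) (nat_lit 836) (nat_lit 0) (XT.lf (nat_lit 0) (nat_lit 3469085161) (nat_lit 912) (nat_lit 8177129198) (nat_lit 76) (nat_lit 2508012608) (nat_lit 390) (nat_lit 5) (nat_lit 402) (nat_lit 5) (nat_lit 391) (nat_lit 5) (nat_lit 599) (nat_lit 563) (nat_lit 398)) (XT.nd (nat_lit 78) (nat_lit 836) (nat_lit 0) (XT.lf (nat_lit 0) (nat_lit 5445704247) (nat_lit 912) (nat_lit 269026113) (nat_lit 76) (nat_lit 8590821122) (nat_lit 390) (nat_lit 5) (nat_lit 402) (nat_lit 5) (nat_lit 391) (nat_lit 5) (nat_lit 600) (nat_lit 563) (nat_lit 397)) (XT.lf (nat_lit 0) (nat_lit 7505612532) (nat_lit 912) (nat_lit 6571006076) (nat_lit 76) (nat_lit 382409576) (nat_lit 379) (nat_lit 5) (nat_lit 391) (nat_lit 5) (nat_lit 380) (nat_lit 5) (nat_lit 601) (nat_lit 563) (nat_lit 396))))) (XT.nd (nat_lit 234) (nat_lit 836) (nat_lit 0) (XT.nd (nat_lit 78) (nat_lit 760) (nat_lit 0) (XT.lf (nat_lit 0) (nat_lit 1568769358) (nat_lit 836)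 (nat_lit 8077937435) (nat_lit 912) (nat_lit 4968068690) (nat_lit 368) (nat_lit 5) (nat_lit 379) (nat_lit 5) (nat_lit 380) (nat_lit 5) (nat_lit 602) (nat_lit 563) (nat_lit 395)) (XT.nd (nat_lit 78) (nat_lit 760) (nat_lit 0) (XT.lf (nat_lit 0) (nat_lit 9950212383) (nat_lit 836) (nat_lit 1914771749) (nat_lit 912) (nat_lit 2907967170) (nat_lit 368) (nat_lit 5) (nat_lit 379) (nat_lit 5) (nat_lit 380) (nat_lit 5) (nat_lit 603) (nat_lit 563) (nat_lit 394)) (XT.lf (nat_lit 0) (nat_lit 3573285899) (nat_lit 760) (nat_lit 10596379140) (nat_lit 836) (nat_lit 763785626) (nat_lit 358) (nat_lit 5) (nat_lit 368) (nat_lit 5) (nat_lit 369) (nat_lit 5) (nat_lit 604) (nat_lit 563) (nat_lit 393)))) (XT.nd (nat_lit 78) (nat_lit 760) (nat_lit 0) (XT.lf (nat_lit 0) (nat_lit 1440383493) (nat_lit 836) (nat_lit 2926291978) (nat_lit 76) (nat_lit 10729585069) (nat_lit 357) (nat_lit 5) (nat_lit 368) (nat_lit 5) (nat_lit 358) (nat_lit 5) (nat_lit 605) (nat_lit 563) (nat_lit 392)) (XT.nd (nat_lit 78) (nat_lit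 0) (nat_lit 0) (XT.lf (nat_lit 0) (nat_lit 3719541657) (nat_lit 836) (nat_lit 9538460963) (nat_lit 76) (nat_lit 2003401105) (nat_lit 347) (nat_lit 5) (nat_lit 358) (nat_lit 5) (nat_lit 348) (nat_lit 5) (nat_lit 606) (nat_lit 563) (nat_lit 391)) (XT.lf (nat_lit 0) (nat_lit 6083779267) (nat_lit 836) (nat_lit 883836919) (nat_lit 76) (nat_lit 8461444388) (nat_lit 347) (nat_lit 5) (nat_lit 358) (nat_lit 5) (nat_lit 348) (nat_lit 5) (nat_lit 607) (nat_lit 563) (nat_lit 390))))))))
noncomputable def xc163 : XT := (XT.nd (nat_lit 1560) (nat_lit 6232) (nat_lit 0) (XT.nd (nat_lit 780) (nat_lit 3572) (nat_lit 0) (XT.nd (nat_lit 390) (nat_lit 2052) (nat_lit 0) (XT.nd (nat_lit 156) (nat_lit 760) (nat_lit 0) (XT.nd (nat_lit 78) (nat_lit 760) (nat_lit 0) (XT.lf (nat_lit 0) (nat_lit 8039356115) (nat_lit 684) (nat_lit 499133422) (nat_lit 760) (nat_lit 7060717977) (nat_lit 338) (nat_lit 5) (nat_lit 347) (nat_lit 5) (nat_lit 348) (nat_lit 5) (nat_lit 608) (nat_lit 563) (nat_lit 389)) (XT.lf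 (nat_lit 0) (nat_lit 1348334623) (nat_lit 760) (nat_lit 9739377875) (nat_lit 836) (nat_lit 4684137221) (nat_lit 328) (nat_lit 5) (nat_lit 338) (nat_lit 5) (nat_lit 339) (nat_lit 5) (nat_lit 609) (nat_lit 563) (nat_lit 388))) (XT.nd (nat_lit 78) (nat_lit 760) (nat_lit 0) (XT.lf (nat_lit 0) (nat_lit 10523809230) (nat_lit 760) (nat_lit 3209331662) (nat_lit 836) (nat_lit 2213900140) (nat_lit 328) (nat_lit 5) (nat_lit 338) (nat_lit 5) (nat_lit 339) (nat_lit 5) (nat_lit 610) (nat_lit 563) (nat_lit 387)) (XT.nd (nat_lit 78) (nat_lit 0) (nat_lit 0) (XT.lf (nat_lit 0) (nat_lit 340268738) (nat_lit 760) (nat_lit 12353032591) (nat_lit 76) (nat_lit 3431625061) (nat_lit 318) (nat_lit 5) (nat_lit 328) (nat_lit 5) (nat_lit 319) (nat_lit 5) (nat_lit 611) (nat_lit 563) (nat_lit 386)) (XT.lf (nat_lit 0) (nat_lit 2965211314) (nat_lit 760) (nat_lit 3127382644) (nat_lit 76) (nat_lit 10212496773) (nat_lit 318) (nat_lit 5) (nat_lit 328) (nat_lit 5) (nat_lit 319) (nat_lit 5) (nat_lit 612) (nat_lit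 563) (nat_lit 385))))) (XT.nd (nat_lit 156) (nat_lit 1368) (nat_lit 0) (XT.nd (nat_lit 78) (nat_lit 0) (nat_lit 0) (XT.lf (nat_lit 0) (nat_lit 5679929858) (nat_lit 760) (nat_lit 10136300911) (nat_lit 76) (nat_lit 671882680) (nat_lit 309) (nat_lit 5) (nat_lit 319) (nat_lit 5) (nat_lit 310) (nat_lit 5) (nat_lit 613) (nat_lit 563) (nat_lit 384)) (XT.lf (nat_lit 0) (nat_lit 8502096018) (nat_lit 760) (nat_lit 661796245) (nat_lit 76) (nat_lit 7509841912) (nat_lit 309) (nat_lit 5) (nat_lit 319) (nat_lit 5) (nat_lit 310) (nat_lit 5) (nat_lit 614) (nat_lit 563) (nat_lit 383))) (XT.nd (nat_lit 78) (nat_lit 760) (nat_lit 0) (XT.lf (nat_lit 0) (nat_lit 9111982047) (nat_lit 608) (nat_lit 2319727206) (nat_lit 684) (nat_lit 5430338594) (nat_lit 301) (nat_lit 5) (nat_lit 309) (nat_lit 5) (nat_lit 310) (nat_lit 5) (nat_lit 615) (nat_lit 563) (nat_lit 382)) (XT.nd (nat_lit 78) (nat_lit 76) (nat_lit 0) (XT.lf (nat_lit 0) (nat_lit 2022591391) (nat_lit 684) (nat_lit 12437119757) (nat_lit 760)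 (nat_lit 2593621313) (nat_lit 292) (nat_lit 5) (nat_lit 301) (nat_lit 5) (nat_lit 302) (nat_lit 5) (nat_lit 616) (nat_lit 563) (nat_lit 381)) (XT.lf (nat_lit 0) (nat_lit 355583024) (nat_lit 760) (nat_lit 5179152214) (nat_lit 76) (nat_lit 11712475466) (nat_lit 291) (nat_lit 5) (nat_lit 301) (nat_lit 5) (nat_lit 292) (nat_lit 5) (nat_lit 617) (nat_lit 563) (nat_lit 380)))))) (XT.nd (nat_lit 390) (nat_lit 1748) (nat_lit 0) (XT.nd (nat_lit 156) (nat_lit 1216) (nat_lit 0) (XT.nd (nat_lit 78) (nat_lit 0) (nat_lit 0) (XT.lf (nat_lit 0) (nat_lit 3363152469) (nat_lit 684) (nat_lit 12547243511) (nat_lit 76) (nat_lit 1533546024) (nat_lit 283) (nat_lit 5) (nat_lit 292) (nat_lit 5) (nat_lit 284) (nat_lit 5) (nat_lit 618) (nat_lit 563) (nat_lit 379)) (XT.lf (nat_lit 0) (nat_lit 6494721031) (nat_lit 684) (nat_lit 2446265463) (nat_lit 76) (nat_lit 8702345029) (nat_lit 283) (nat_lit 5) (nat_lit 292) (nat_lit 5) (nat_lit 284) (nat_lit 5) (nat_lit 619) (nat_lit 563) (nat_lit 378))) (XT.nd (nat_lit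 78) (nat_lit 608) (nat_lit 0) (XT.lf (nat_lit 0) (nat_lit 7951468479) (nat_lit 608) (nat_lit 1781440311) (nat_lit 684) (nat_lit 8112920827) (nat_lit 275) (nat_lit 5) (nat_lit 283) (nat_lit 5) (nat_lit 284) (nat_lit 5) (nat_lit 620) (nat_lit 563) (nat_lit 377)) (XT.nd (nat_lit 78) (nat_lit 0) (nat_lit 0) (XT.lf (nat_lit 0) (nat_lit 499233669) (nat_lit 608) (nat_lit 12584677590) (nat_lit 684) (nat_lit 4967505922) (nat_lit 267) (nat_lit 5) (nat_lit 275) (nat_lit 5) (nat_lit 276) (nat_lit 5) (nat_lit 621) (nat_lit 563) (nat_lit 376)) (XT.lf (nat_lit 0) (nat_lit 11213305212) (nat_lit 608) (nat_lit 5359268385) (nat_lit 684) (nat_lit 1687130622) (nat_lit 267) (nat_lit 5) (nat_lit 275) (nat_lit 5) (nat_lit 276) (nat_lit 5) (nat_lit 622) (nat_lit 563) (nat_lit 375))))) (XT.nd (nat_lit 156) (nat_lit 1064) (nat_lit 0) (XT.nd (nat_lit 78) (nat_lit 0) (nat_lit 0) (XT.lf (nat_lit 0) (nat_lit 1666996514) (nat_lit 684) (nat_lit 14787125670) (nat_lit 76) (nat_lit 2017221894) (nat_lit 258)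 (nat_lit 5) (nat_lit 267) (nat_lit 5) (nat_lit 259) (nat_lit 5) (nat_lit 623) (nat_lit 563) (nat_lit 374)) (XT.lf (nat_lit 0) (nat_lit 5141417528) (nat_lit 684) (nat_lit 4017827965) (nat_lit 76) (nat_lit 9526232651) (nat_lit 258) (nat_lit 5) (nat_lit 267) (nat_lit 5) (nat_lit 259) (nat_lit 5) (nat_lit 624) (nat_lit 563) (nat_lit 373))) (XT.nd (nat_lit 78) (nat_lit 532) (nat_lit 0) (XT.lf (nat_lit 0) (nat_lit 7049961463) (nat_lit 532) (nat_lit 1673972700) (nat_lit 608) (nat_lit 10179189062) (nat_lit 251) (nat_lit 5) (nat_lit 258) (nat_lit 5) (nat_lit 259) (nat_lit 5) (nat_lit 625) (nat_lit 563) (nat_lit 372)) (XT.nd (nat_lit 78) (nat_lit 532) (nat_lit 0) (XT.lf (nat_lit 0) (nat_lit 12436844228) (nat_lit 608) (nat_lit 779315970) (nat_lit 76) (nat_lit 5907786618) (nat_lit 251) (nat_lit 5) (nat_lit 259) (nat_lit 5) (nat_lit 252) (nat_lit 5) (nat_lit 626) (nat_lit 563) (nat_lit 371)) (XT.lf (nat_lit 0) (nat_lit 10635165647) (nat_lit 532) (nat_lit 5662022522) (nat_lit 608) (nat_lit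 3050535655) (nat_lit 244) (nat_lit 5) (nat_lit 251) (nat_lit 5) (nat_lit 252) (nat_lit 5) (nat_lit 627) (nat_lit 563) (nat_lit 370))))))) (XT.nd (nat_lit 780) (nat_lit 3116) (nat_lit 0) (XT.nd (nat_lit 390) (nat_lit 1520) (nat_lit 0) (XT.nd (nat_lit 156) (nat_lit 988) (nat_lit 0) (XT.nd (nat_lit 78) (nat_lit 0) (nat_lit 0) (XT.lf (nat_lit 0) (nat_lit 679645453) (nat_lit 608) (nat_lit 16854083776) (nat_lit 76) (nat_lit 2041571591) (nat_lit 236) (nat_lit 5) (nat_lit 244) (nat_lit 5) (nat_lit 237) (nat_lit 5) (nat_lit 628) (nat_lit 563) (nat_lit 369)) (XT.lf (nat_lit 0) (nat_lit 4533102472) (nat_lit 608) (nat_lit 5371907798) (nat_lit 76) (nat_lit 9900225860) (nat_lit 236) (nat_lit 5) (nat_lit 244) (nat_lit 5) (nat_lit 237) (nat_lit 5) (nat_lit 629) (nat_lit 563) (nat_lit 368))) (XT.nd (nat_lit 78) (nat_lit 456) (nat_lit 0) (XT.lf (nat_lit 0) (nat_lit 6414896874) (nat_lit 532) (nat_lit 2083647108) (nat_lit 608) (nat_lit 11540528281) (nat_lit 229) (nat_lit 5) (nat_lit 236) (nat_lit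 5) (nat_lit 237) (nat_lit 5) (nat_lit 630) (nat_lit 563) (nat_lit 367)) (XT.nd (nat_lit 78) (nat_lit 456) (nat_lit 0) (XT.lf (nat_lit 0) (nat_lit 12611172954) (nat_lit 608) (nat_lit 1814321373) (nat_lit 76) (nat_lit 5850733636) (nat_lit 229) (nat_lit 5) (nat_lit 237) (nat_lit 5) (nat_lit 230) (nat_lit 5) (nat_lit 631) (nat_lit 563) (nat_lit 366)) (XT.lf (nat_lit 0) (nat_lit 10344577151) (nat_lit 456) (nat_lit 6535894004) (nat_lit 532) (nat_lit 3636167698) (nat_lit 223) (nat_lit 5) (nat_lit 229) (nat_lit 5) (nat_lit 230) (nat_lit 5) (nat_lit 632) (nat_lit 563) (nat_lit 365))))) (XT.nd (nat_lit 156) (nat_lit 912) (nat_lit 0) (XT.nd (nat_lit 78) (nat_lit 0) (nat_lit 0) (XT.lf (nat_lit 0) (nat_lit 495953044) (nat_lit 608) (nat_lit 18747433373) (nat_lit 76) (nat_lit 1517833215) (nat_lit 215) (nat_lit 5) (nat_lit 223) (nat_lit 5) (nat_lit 216) (nat_lit 5) (nat_lit 633) (nat_lit 563) (nat_lit 364)) (XT.lf (nat_lit 0) (nat_lit 4767603042) (nat_lit 608) (nat_lit 6505012926) (nat_lit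 76) (nat_lit 9735484241) (nat_lit 215) (nat_lit 5) (nat_lit 223) (nat_lit 5) (nat_lit 216) (nat_lit 5) (nat_lit 634) (nat_lit 563) (nat_lit 363))) (XT.nd (nat_lit 78) (nat_lit 456) (nat_lit 0) (XT.lf (nat_lit 0) (nat_lit 6052711315) (nat_lit 456) (nat_lit 3104933339) (nat_lit 532) (nat_lit 12101614947) (nat_lit 209) (nat_lit 5) (nat_lit 215) (nat_lit 5) (nat_lit 216) (nat_lit 5) (nat_lit 635) (nat_lit 563) (nat_lit 362)) (XT.nd (nat_lit 78) (nat_lit 456) (nat_lit 0) (XT.lf (nat_lit 0) (nat_lit 13707069849) (nat_lit 532) (nat_lit 2607999607) (nat_lit 76) (nat_lit 5198941441) (nat_lit 209) (nat_lit 5) (nat_lit 216) (nat_lit 5) (nat_lit 210) (nat_lit 5) (nat_lit 636) (nat_lit 563) (nat_lit 361)) (XT.lf (nat_lit 0) (nat_lit 10348883811) (nat_lit 456) (nat_lit 8080187628) (nat_lit 532) (nat_lit 3343154384) (nat_lit 203) (nat_lit 5) (nat_lit 209) (nat_lit 5) (nat_lit 210) (nat_lit 5) (nat_lit 637) (nat_lit 563) (nat_lit 360)))))) (XT.nd (nat_lit 390) (nat_lit 1748) (nat_lit 0) (XT.nd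 (nat_lit 156) (nat_lit 836) (nat_lit 0) (XT.nd (nat_lit 78) (nat_lit 0) (nat_lit 0) (XT.lf (nat_lit 0) (nat_lit 1217991780) (nat_lit 532) (nat_lit 20468527448) (nat_lit 76) (nat_lit 348450019) (nat_lit 196) (nat_lit 5) (nat_lit 203) (nat_lit 5) (nat_lit 197) (nat_lit 5) (nat_lit 638) (nat_lit 563) (nat_lit 359)) (XT.lf (nat_lit 0) (nat_lit 5950216409) (nat_lit 532) (nat_lit 7415597379) (nat_lit 76) (nat_lit 8934219721) (nat_lit 196) (nat_lit 5) (nat_lit 203) (nat_lit 5) (nat_lit 197) (nat_lit 5) (nat_lit 639) (nat_lit 563) (nat_lit 358))) (XT.nd (nat_lit 78) (nat_lit 380) (nat_lit 0) (XT.lf (nat_lit 0) (nat_lit 5967964437) (nat_lit 456) (nat_lit 4841891684) (nat_lit 532) (nat_lit 11759887860) (nat_lit 190) (nat_lit 5) (nat_lit 196) (nat_lit 5) (nat_lit 197) (nat_lit 5) (nat_lit 640) (nat_lit 563) (nat_lit 357)) (XT.nd (nat_lit 78) (nat_lit 380) (nat_lit 0) (XT.lf (nat_lit 0) (nat_lit 15835859808) (nat_lit 532) (nat_lit 3158219666) (nat_lit 76) (nat_lit 3849386091) (nat_lit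 190) (nat_lit 5) (nat_lit 197) (nat_lit 5) (nat_lit 191) (nat_lit 5) (nat_lit 641) (nat_lit 563) (nat_lit 356)) (XT.lf (nat_lit 0) (nat_lit 10653295668) (nat_lit 380) (nat_lit 10404504046) (nat_lit 456) (nat_lit 2062953867) (nat_lit 185) (nat_lit 5) (nat_lit 190) (nat_lit 5) (nat_lit 191) (nat_lit 5) (nat_lit 642) (nat_lit 563) (nat_lit 355))))) (XT.nd (nat_lit 234) (nat_lit 836) (nat_lit 0) (XT.nd (nat_lit 78) (nat_lit 380) (nat_lit 0) (XT.lf (nat_lit 0) (nat_lit 1370580304) (nat_lit 456) (nat_lit 1595354874) (nat_lit 532) (nat_lit 20436776747) (nat_lit 178) (nat_lit 5) (nat_lit 184) (nat_lit 5) (nat_lit 185) (nat_lit 5) (nat_lit 643) (nat_lit 563) (nat_lit 354)) (XT.nd (nat_lit 78) (nat_lit 380) (nat_lit 0) (XT.lf (nat_lit 0) (nat_lit 8194245604) (nat_lit 532) (nat_lit 8105085359) (nat_lit 76) (nat_lit 7388176722) (nat_lit 178) (nat_lit 5) (nat_lit 185) (nat_lit 5) (nat_lit 179) (nat_lit 5) (nat_lit 644) (nat_lit 563) (nat_lit 353)) (XT.lf (nat_lit 0) (nat_lit 6162293897)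 (nat_lit 380) (nat_lit 7409759020) (nat_lit 456) (nat_lit 10405048129) (nat_lit 173) (nat_lit 5) (nat_lit 178) (nat_lit 5) (nat_lit 179) (nat_lit 5) (nat_lit 645) (nat_lit 563) (nat_lit 352)))) (XT.nd (nat_lit 78) (nat_lit 836) (nat_lit 0) (XT.lf (nat_lit 0) (nat_lit 19117321734) (nat_lit 456) (nat_lit 3466133987) (nat_lit 76) (nat_lit 1687832736) (nat_lit 173) (nat_lit 5) (nat_lit 179) (nat_lit 5) (nat_lit 174) (nat_lit 5) (nat_lit 646) (nat_lit 563) (nat_lit 351)) (XT.nd (nat_lit 78) (nat_lit 380) (nat_lit 0) (XT.lf (nat_lit 0) (nat_lit 316938355) (nat_lit 456) (nat_lit 13311329633) (nat_lit 76) (nat_lit 10940716600) (nat_lit 167) (nat_lit 5) (nat_lit 173) (nat_lit 5) (nat_lit 168) (nat_lit 5) (nat_lit 647) (nat_lit 563) (nat_lit 350)) (XT.lf (nat_lit 0) (nat_lit 1426809249) (nat_lit 380) (nat_lit 4428703738) (nat_lit 456) (nat_lit 19015895314) (nat_lit 162) (nat_lit 5) (nat_lit 167) (nat_lit 5) (nat_lit 168) (nat_lit 5) (nat_lit 648) (nat_lit 563) (nat_lit 349))))))))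
noncomputable def xc164 : XT := (XT.nd (nat_lit 75738) (nat_lit 0) (nat_lit 19380) (XT.nd (nat_lit 74958) (nat_lit 0) (nat_lit 27892) (XT.nd (nat_lit 74568) (nat_lit 0) (nat_lit 27892) (XT.nd (nat_lit 156) (nat_lit 836) (nat_lit 0) (XT.nd (nat_lit 78) (nat_lit 380) (nat_lit 0) (XT.lf (nat_lit 0) (nat_lit 11621502943) (nat_lit 456) (nat_lit 8579093342) (nat_lit 76) (nat_lit 4976951594) (nat_lit 162) (nat_lit 5) (nat_lit 168) (nat_lit 5) (nat_lit 163) (nat_lit 5) (nat_lit 649) (nat_lit 563) (nat_lit 348)) (XT.lf (nat_lit 0) (nat_lit 6633165820) (nat_lit 380) (nat_lit 10936705756) (nat_lit 456) (nat_lit 7918597761) (nat_lit 157) (nat_lit 5) (nat_lit 162) (nat_lit 5) (nat_lit 163) (nat_lit 5) (nat_lit 650) (nat_lit 563) (nat_lit 347))) (XT.nd (nat_lit 78) (nat_lit 836) (nat_lit 0) (XT.lf (nat_lit 0) (nat_lit 22257793471) (nat_lit 380) (nat_lit 1431698758) (nat_lit 456) (nat_lit 2115071560) (nat_lit 157) (nat_lit 5) (nat_lit 162) (nat_lit 5) (nat_lit 163) (nat_lit 5) (nat_lit 651)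 (nat_lit 563) (nat_lit 346)) (XT.nd (nat_lit 78) (nat_lit 380) (nat_lit 0) (XT.lf (nat_lit 0) (nat_lit 3882911162) (nat_lit 456) (nat_lit 13984233070) (nat_lit 76) (nat_lit 8256776457) (nat_lit 151) (nat_lit 5) (nat_lit 157) (nat_lit 5) (nat_lit 152) (nat_lit 5) (nat_lit 652) (nat_lit 563) (nat_lit 345)) (XT.lf (nat_lit 0) (nat_lit 1729692637) (nat_lit 380) (nat_lit 8282351754) (nat_lit 456) (nat_lit 16436550735) (nat_lit 146) (nat_lit 5) (nat_lit 151) (nat_lit 5) (nat_lit 152) (nat_lit 5) (nat_lit 653) (nat_lit 563) (nat_lit 344))))) (XT.nd (nat_lit 156) (nat_lit 1596) (nat_lit 0) (XT.nd (nat_lit 78) (nat_lit 0) (nat_lit 0) (XT.lf (nat_lit 0) (nat_lit 1971739443) (nat_lit 0) (nat_lit 1971739443) (nat_lit 1596) (nat_lit 1144385631) (nat_lit 534) (nat_lit 5) (nat_lit 534) (nat_lit 3) (nat_lit 555) (nat_lit 3) (nat_lit 564) (nat_lit 564) (nat_lit 432)) (XT.lf (nat_lit 0) (nat_lit 8647125194) (nat_lit 1596) (nat_lit 1201154982) (nat_lit 1672) (nat_lit 415512779) (nat_lit 534)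 (nat_lit 5) (nat_lit 555) (nat_lit 3) (nat_lit 556) (nat_lit 5) (nat_lit 565) (nat_lit 564) (nat_lit 431))) (XT.nd (nat_lit 78) (nat_lit 1596) (nat_lit 0) (XT.lf (nat_lit 76) (nat_lit 3946895559) (nat_lit 0) (nat_lit 5509600818) (nat_lit 1672) (nat_lit 896443534) (nat_lit 535) (nat_lit 5) (nat_lit 534) (nat_lit 5) (nat_lit 556) (nat_lit 5) (nat_lit 566) (nat_lit 564) (nat_lit 430)) (XT.nd (nat_lit 78) (nat_lit 1596) (nat_lit 0) (XT.lf (nat_lit 76) (nat_lit 9204935345) (nat_lit 0) (nat_lit 1067726605) (nat_lit 1672) (nat_lit 171397451) (nat_lit 535) (nat_lit 5) (nat_lit 534) (nat_lit 5) (nat_lit 556) (nat_lit 5) (nat_lit 567) (nat_lit 564) (nat_lit 429)) (XT.lf (nat_lit 0) (nat_lit 592642067) (nat_lit 1672) (nat_lit 6487937967) (nat_lit 1748) (nat_lit 3455710259) (nat_lit 513) (nat_lit 5) (nat_lit 535) (nat_lit 5) (nat_lit 536) (nat_lit 5) (nat_lit 568) (nat_lit 564) (nat_lit 428)))))) (XT.nd (nat_lit 390) (nat_lit 0) (nat_lit 152) (XT.nd (nat_lit 156) (nat_lit 0) (nat_lit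 76) (XT.nd (nat_lit 78) (nat_lit 0) (nat_lit 76) (XT.lf (nat_lit 0) (nat_lit 1368212402) (nat_lit 1672) (nat_lit 1189718118) (nat_lit 1748) (nat_lit 8072443356) (nat_lit 513) (nat_lit 5) (nat_lit 535) (nat_lit 5) (nat_lit 536) (nat_lit 5) (nat_lit 569) (nat_lit 564) (nat_lit 427)) (XT.lf (nat_lit 0) (nat_lit 2183964721) (nat_lit 1672) (nat_lit 6478786570) (nat_lit 1748) (nat_lit 2063096031) (nat_lit 514) (nat_lit 5) (nat_lit 536) (nat_lit 5) (nat_lit 537) (nat_lit 5) (nat_lit 570) (nat_lit 564) (nat_lit 426))) (XT.nd (nat_lit 78) (nat_lit 0) (nat_lit 76) (XT.lf (nat_lit 0) (nat_lit 3024750360) (nat_lit 1672) (nat_lit 1041115128) (nat_lit 1748) (nat_lit 6757191953) (nat_lit 514) (nat_lit 5) (nat_lit 536) (nat_lit 5) (nat_lit 537) (nat_lit 5) (nat_lit 571) (nat_lit 564) (nat_lit 425)) (XT.nd (nat_lit 78) (nat_lit 0) (nat_lit 0) (XT.lf (nat_lit 0) (nat_lit 3900271547) (nat_lit 1672) (nat_lit 6370729270) (nat_lit 1748) (nat_lit 650854088) (nat_lit 515) (nat_lit 5) (nat_lit 537)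 (nat_lit 5) (nat_lit 538) (nat_lit 5) (nat_lit 572) (nat_lit 564) (nat_lit 424)) (XT.lf (nat_lit 0) (nat_lit 4811613775) (nat_lit 1672) (nat_lit 789992509) (nat_lit 1748) (nat_lit 5420657333) (nat_lit 515) (nat_lit 5) (nat_lit 537) (nat_lit 5) (nat_lit 538) (nat_lit 5) (nat_lit 573) (nat_lit 564) (nat_lit 423))))) (XT.nd (nat_lit 156) (nat_lit 0) (nat_lit 76) (XT.nd (nat_lit 78) (nat_lit 0) (nat_lit 76) (XT.lf (nat_lit 76) (nat_lit 4957718399) (nat_lit 0) (nat_lit 800311731) (nat_lit 1748) (nat_lit 5366314905) (nat_lit 516) (nat_lit 5) (nat_lit 515) (nat_lit 5) (nat_lit 538) (nat_lit 5) (nat_lit 574) (nat_lit 564) (nat_lit 422)) (XT.lf (nat_lit 0) (nat_lit 6740244407) (nat_lit 1672) (nat_lit 433843220) (nat_lit 1748) (nat_lit 4054044514) (nat_lit 516) (nat_lit 5) (nat_lit 538) (nat_lit 5) (nat_lit 539) (nat_lit 5) (nat_lit 575) (nat_lit 564) (nat_lit 421))) (XT.nd (nat_lit 78) (nat_lit 0) (nat_lit 76) (XT.lf (nat_lit 76) (nat_lit 5470296928) (nat_lit 0) (nat_lit 2297851072)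 (nat_lit 1748) (nat_lit 3565327510) (nat_lit 517) (nat_lit 5) (nat_lit 516) (nat_lit 5) (nat_lit 539) (nat_lit 5) (nat_lit 576) (nat_lit 564) (nat_lit 420)) (XT.nd (nat_lit 78) (nat_lit 0) (nat_lit 0) (XT.lf (nat_lit 76) (nat_lit 30538087) (nat_lit 0) (nat_lit 8792060792) (nat_lit 1748) (nat_lit 2618208479) (nat_lit 518) (nat_lit 5) (nat_lit 517) (nat_lit 5) (nat_lit 540) (nat_lit 5) (nat_lit 577) (nat_lit 564) (nat_lit 419)) (XT.lf (nat_lit 76) (nat_lit 6096249458) (nat_lit 0) (nat_lit 3842058391) (nat_lit 1748) (nat_lit 1611175979) (nat_lit 518) (nat_lit 5) (nat_lit 517) (nat_lit 5) (nat_lit 540) (nat_lit 5) (nat_lit 578) (nat_lit 564) (nat_lit 418))))))) (XT.nd (nat_lit 780) (nat_lit 7144) (nat_lit 0) (XT.nd (nat_lit 390) (nat_lit 0) (nat_lit 152) (XT.nd (nat_lit 156) (nat_lit 0) (nat_lit 0) (XT.nd (nat_lit 78) (nat_lit 1748) (nat_lit 0) (XT.lf (nat_lit 76) (nat_lit 613094525) (nat_lit 0) (nat_lit 10461067984) (nat_lit 1748) (nat_lit 586216027) (nat_lit 519) (nat_lit 5)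 (nat_lit 518) (nat_lit 5) (nat_lit 541) (nat_lit 5) (nat_lit 579) (nat_lit 564) (nat_lit 417)) (XT.lf (nat_lit 0) (nat_lit 501632056) (nat_lit 1748) (nat_lit 4936928117) (nat_lit 1824) (nat_lit 6333904381) (nat_lit 495) (nat_lit 5) (nat_lit 518) (nat_lit 5) (nat_lit 519) (nat_lit 5) (nat_lit 580) (nat_lit 564) (nat_lit 416))) (XT.nd (nat_lit 78) (nat_lit 0) (nat_lit 76) (XT.lf (nat_lit 76) (nat_lit 1298815561) (nat_lit 0) (nat_lit 299415627) (nat_lit 1824) (nat_lit 10288587999) (nat_lit 496) (nat_lit 5) (nat_lit 495) (nat_lit 5) (nat_lit 519) (nat_lit 5) (nat_lit 581) (nat_lit 564) (nat_lit 415)) (XT.nd (nat_lit 78) (nat_lit 0) (nat_lit 0) (XT.lf (nat_lit 0) (nat_lit 2768829500) (nat_lit 1748) (nat_lit 4319109797) (nat_lit 1824) (nat_lit 4914481510) (nat_lit 496) (nat_lit 5) (nat_lit 519) (nat_lit 5) (nat_lit 520) (nat_lit 5) (nat_lit 582) (nat_lit 564) (nat_lit 414)) (XT.lf (nat_lit 76) (nat_lit 2090600089) (nat_lit 0) (nat_lit 1874686669) (nat_lit 1824) (nat_lit 8154999974)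 (nat_lit 497) (nat_lit 5) (nat_lit 496) (nat_lit 5) (nat_lit 520) (nat_lit 5) (nat_lit 583) (nat_lit 564) (nat_lit 413))))) (XT.nd (nat_lit 156) (nat_lit 0) (nat_lit 76) (XT.nd (nat_lit 78) (nat_lit 0) (nat_lit 0) (XT.lf (nat_lit 0) (nat_lit 5224304229) (nat_lit 1748) (nat_lit 3585635217) (nat_lit 1824) (nat_lit 3429799098) (nat_lit 497) (nat_lit 5) (nat_lit 520) (nat_lit 5) (nat_lit 521) (nat_lit 5) (nat_lit 584) (nat_lit 564) (nat_lit 412)) (XT.lf (nat_lit 76) (nat_lit 3004273219) (nat_lit 0) (nat_lit 3523505082) (nat_lit 1824) (nat_lit 5833416735) (nat_lit 498) (nat_lit 5) (nat_lit 497) (nat_lit 5) (nat_lit 521) (nat_lit 5) (nat_lit 585) (nat_lit 564) (nat_lit 411))) (XT.nd (nat_lit 78) (nat_lit 0) (nat_lit 0) (XT.lf (nat_lit 0) (nat_lit 7881230348) (nat_lit 1748) (nat_lit 2732518597) (nat_lit 1824) (nat_lit 1870854686) (nat_lit 498) (nat_lit 5) (nat_lit 521) (nat_lit 5) (nat_lit 522) (nat_lit 5) (nat_lit 586) (nat_lit 564) (nat_lit 410)) (XT.nd (nat_lit 78) (nat_lit 0)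 (nat_lit 76) (XT.lf (nat_lit 76) (nat_lit 4044065780) (nat_lit 0) (nat_lit 5255075982) (nat_lit 1824) (nat_lit 3310591950) (nat_lit 499) (nat_lit 5) (nat_lit 498) (nat_lit 5) (nat_lit 522) (nat_lit 5) (nat_lit 587) (nat_lit 564) (nat_lit 409)) (XT.lf (nat_lit 0) (nat_lit 10753225210) (nat_lit 1748) (nat_lit 1755468066) (nat_lit 76) (nat_lit 228517942) (nat_lit 499) (nat_lit 5) (nat_lit 522) (nat_lit 5) (nat_lit 500) (nat_lit 5) (nat_lit 588) (nat_lit 564) (nat_lit 408)))))) (XT.nd (nat_lit 390) (nat_lit 2736) (nat_lit 0) (XT.nd (nat_lit 156) (nat_lit 2888) (nat_lit 0) (XT.nd (nat_lit 78) (nat_lit 76) (nat_lit 0) (XT.lf (nat_lit 0) (nat_lit 5214523025) (nat_lit 1748) (nat_lit 7078748088) (nat_lit 1824) (nat_lit 572830625) (nat_lit 476) (nat_lit 5) (nat_lit 499) (nat_lit 5) (nat_lit 500) (nat_lit 5) (nat_lit 589) (nat_lit 564) (nat_lit 407)) (XT.lf (nat_lit 0) (nat_lit 855352367) (nat_lit 1824) (nat_lit 665419846) (nat_lit 76) (nat_lit 11476682976) (nat_lit 475) (nat_lit 5)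 (nat_lit 499) (nat_lit 5) (nat_lit 476) (nat_lit 5) (nat_lit 590) (nat_lit 564) (nat_lit 406))) (XT.nd (nat_lit 78) (nat_lit 1064) (nat_lit 0) (XT.lf (nat_lit 0) (nat_lit 2362639577) (nat_lit 1900) (nat_lit 6625542087) (nat_lit 76) (nat_lit 4142015119) (nat_lit 451) (nat_lit 5) (nat_lit 476) (nat_lit 5) (nat_lit 452) (nat_lit 5) (nat_lit 591) (nat_lit 564) (nat_lit 405)) (XT.nd (nat_lit 78) (nat_lit 0) (nat_lit 0) (XT.lf (nat_lit 0) (nat_lit 548677358) (nat_lit 1064) (nat_lit 3358234707) (nat_lit 1140) (nat_lit 9358545349) (nat_lit 437) (nat_lit 5) (nat_lit 451) (nat_lit 5) (nat_lit 452) (nat_lit 5) (nat_lit 592) (nat_lit 564) (nat_lit 404)) (XT.lf (nat_lit 0) (nat_lit 5531180583) (nat_lit 1140) (nat_lit 5472346137) (nat_lit 76) (nat_lit 2398915302) (nat_lit 437) (nat_lit 5) (nat_lit 452) (nat_lit 5) (nat_lit 438) (nat_lit 5) (nat_lit 593) (nat_lit 564) (nat_lit 403))))) (XT.nd (nat_lit 234) (nat_lit 912) (nat_lit 0) (XT.nd (nat_lit 78) (nat_lit 912) (nat_lit 0) (XT.lf (nat_lit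 0) (nat_lit 1909754561) (nat_lit 912) (nat_lit 5301912142) (nat_lit 988) (nat_lit 6330025932) (nat_lit 425) (nat_lit 5) (nat_lit 437) (nat_lit 5) (nat_lit 438) (nat_lit 5) (nat_lit 594) (nat_lit 564) (nat_lit 402)) (XT.nd (nat_lit 78) (nat_lit 912) (nat_lit 0) (XT.lf (nat_lit 0) (nat_lit 8955310788) (nat_lit 988) (nat_lit 4183080138) (nat_lit 76) (nat_lit 544747307) (nat_lit 425) (nat_lit 5) (nat_lit 438) (nat_lit 5) (nat_lit 426) (nat_lit 5) (nat_lit 595) (nat_lit 564) (nat_lit 401)) (XT.lf (nat_lit 0) (nat_lit 3414439639) (nat_lit 912) (nat_lit 7366126979) (nat_lit 988) (nat_lit 3045912267) (nat_lit 413) (nat_lit 5) (nat_lit 425) (nat_lit 5) (nat_lit 426) (nat_lit 5) (nat_lit 596) (nat_lit 564) (nat_lit 400)))) (XT.nd (nat_lit 78) (nat_lit 912) (nat_lit 0) (XT.lf (nat_lit 0) (nat_lit 11210693947) (nat_lit 912) (nat_lit 1449304652) (nat_lit 988) (nat_lit 1312335234) (nat_lit 413) (nat_lit 5) (nat_lit 425) (nat_lit 5) (nat_lit 426) (nat_lit 5) (nat_lit 597) (nat_lit 564) (nat_lit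 399)) (XT.nd (nat_lit 78) (nat_lit 0) (nat_lit 0) (XT.lf (nat_lit 0) (nat_lit 502770741) (nat_lit 912) (nat_lit 9054828847) (nat_lit 76) (nat_lit 4562391220) (nat_lit 401) (nat_lit 5) (nat_lit 413) (nat_lit 5) (nat_lit 402) (nat_lit 5) (nat_lit 598) (nat_lit 564) (nat_lit 398)) (XT.lf (nat_lit 0) (nat_lit 2354751601) (nat_lit 912) (nat_lit 1212709467) (nat_lit 76) (nat_lit 10702604316) (nat_lit 401) (nat_lit 5) (nat_lit 413) (nat_lit 5) (nat_lit 402) (nat_lit 5) (nat_lit 599) (nat_lit 564) (nat_lit 397))))))))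
noncomputable def xc165 : XT := (XT.nd (nat_lit 1560) (nat_lit 6612) (nat_lit 0) (XT.nd (nat_lit 780) (nat_lit 4180) (nat_lit 0) (XT.nd (nat_lit 390) (nat_lit 2280) (nat_lit 0) (XT.nd (nat_lit 156) (nat_lit 836) (nat_lit 0) (XT.nd (nat_lit 78) (nat_lit 836) (nat_lit 0) (XT.lf (nat_lit 0) (nat_lit 4295231646) (nat_lit 912) (nat_lit 7572750879) (nat_lit 76) (nat_lit 2554130568) (nat_lit 390) (nat_lit 5) (nat_lit 402) (nat_lit 5) (nat_lit 391) (nat_lit 5) (nat_lit 600) (nat_lit 564) (nat_lit 396)) (XT.lf (nat_lit 0) (nat_lit 484815436) (nat_lit 836) (nat_lit 5814876896) (nat_lit 912) (nat_lit 8277006820) (nat_lit 379) (nat_lit 5) (nat_lit 390) (nat_lit 5) (nat_lit 391) (nat_lit 5) (nat_lit 601) (nat_lit 564) (nat_lit 395))) (XT.nd (nat_lit 78) (nat_lit 836) (nat_lit 0) (XT.lf (nat_lit 0) (nat_lit 8388061177) (nat_lit 912) (nat_lit 5939912037) (nat_lit 76) (nat_lit 405528140) (nat_lit 379) (nat_lit 5) (nat_lit 391) (nat_lit 5) (nat_lit 380) (nat_lit 5) (nat_lit 602) (nat_lit 564)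 (nat_lit 394)) (XT.nd (nat_lit 78) (nat_lit 0) (nat_lit 0) (XT.lf (nat_lit 0) (nat_lit 2357642366) (nat_lit 836) (nat_lit 8204893596) (nat_lit 912) (nat_lit 4330017652) (nat_lit 368) (nat_lit 5) (nat_lit 379) (nat_lit 5) (nat_lit 380) (nat_lit 5) (nat_lit 603) (nat_lit 564) (nat_lit 393)) (XT.lf (nat_lit 0) (nat_lit 10891861357) (nat_lit 836) (nat_lit 1919143079) (nat_lit 912) (nat_lit 2243173169) (nat_lit 368) (nat_lit 5) (nat_lit 379) (nat_lit 5) (nat_lit 380) (nat_lit 5) (nat_lit 604) (nat_lit 564) (nat_lit 392))))) (XT.nd (nat_lit 156) (nat_lit 1444) (nat_lit 0) (XT.nd (nat_lit 78) (nat_lit 76) (nat_lit 0) (XT.lf (nat_lit 0) (nat_lit 4396430801) (nat_lit 760) (nat_lit 10756548015) (nat_lit 836) (nat_lit 65085284) (nat_lit 358) (nat_lit 5) (nat_lit 368) (nat_lit 5) (nat_lit 369) (nat_lit 5) (nat_lit 605) (nat_lit 564) (nat_lit 391)) (XT.lf (nat_lit 0) (nat_lit 2159987369) (nat_lit 836) (nat_lit 2238642174) (nat_lit 76) (nat_lit 10985685335) (nat_lit 357) (nat_lit 5) (nat_lit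 368) (nat_lit 5) (nat_lit 358) (nat_lit 5) (nat_lit 606) (nat_lit 564) (nat_lit 390))) (XT.nd (nat_lit 78) (nat_lit 684) (nat_lit 0) (XT.lf (nat_lit 0) (nat_lit 4476380850) (nat_lit 836) (nat_lit 8974652822) (nat_lit 76) (nat_lit 2101895290) (nat_lit 347) (nat_lit 5) (nat_lit 358) (nat_lit 5) (nat_lit 348) (nat_lit 5) (nat_lit 607) (nat_lit 564) (nat_lit 389)) (XT.nd (nat_lit 78) (nat_lit 684) (nat_lit 0) (XT.lf (nat_lit 0) (nat_lit 6874521872) (nat_lit 836) (nat_lit 161731931) (nat_lit 76) (nat_lit 8687953828) (nat_lit 347) (nat_lit 5) (nat_lit 358) (nat_lit 5) (nat_lit 348) (nat_lit 5) (nat_lit 608) (nat_lit 564) (nat_lit 388)) (XT.lf (nat_lit 0) (nat_lit 8935057978) (nat_lit 684) (nat_lit 434920961) (nat_lit 760) (nat_lit 6527946554) (nat_lit 338) (nat_lit 5) (nat_lit 347) (nat_lit 5) (nat_lit 348) (nat_lit 5) (nat_lit 609) (nat_lit 564) (nat_lit 387)))))) (XT.nd (nat_lit 390) (nat_lit 1976) (nat_lit 0) (XT.nd (nat_lit 156) (nat_lit 1444) (nat_lit 0) (XT.nd (nat_lit 78)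 (nat_lit 0) (nat_lit 0) (XT.lf (nat_lit 0) (nat_lit 2118081431) (nat_lit 760) (nat_lit 9844444543) (nat_lit 836) (nat_lit 4111648792) (nat_lit 328) (nat_lit 5) (nat_lit 338) (nat_lit 5) (nat_lit 339) (nat_lit 5) (nat_lit 610) (nat_lit 564) (nat_lit 386)) (XT.lf (nat_lit 0) (nat_lit 11462501214) (nat_lit 760) (nat_lit 3185556639) (nat_lit 836) (nat_lit 1605069150) (nat_lit 328) (nat_lit 5) (nat_lit 338) (nat_lit 5) (nat_lit 339) (nat_lit 5) (nat_lit 611) (nat_lit 564) (nat_lit 385))) (XT.nd (nat_lit 78) (nat_lit 684) (nat_lit 0) (XT.lf (nat_lit 0) (nat_lit 984350789) (nat_lit 760) (nat_lit 11855948498) (nat_lit 76) (nat_lit 3594332261) (nat_lit 318) (nat_lit 5) (nat_lit 328) (nat_lit 5) (nat_lit 319) (nat_lit 5) (nat_lit 612) (nat_lit 564) (nat_lit 384)) (XT.nd (nat_lit 78) (nat_lit 684) (nat_lit 0) (XT.lf (nat_lit 0) (nat_lit 3649296596) (nat_lit 760) (nat_lit 2460376626) (nat_lit 76) (nat_lit 10508976806) (nat_lit 318) (nat_lit 5) (nat_lit 328) (nat_lit 5) (nat_lit 319) (nat_lit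 5) (nat_lit 613) (nat_lit 564) (nat_lit 383)) (XT.lf (nat_lit 0) (nat_lit 6411462563) (nat_lit 760) (nat_lit 9602580332) (nat_lit 76) (nat_lit 791428163) (nat_lit 309) (nat_lit 5) (nat_lit 319) (nat_lit 5) (nat_lit 310) (nat_lit 5) (nat_lit 614) (nat_lit 564) (nat_lit 382))))) (XT.nd (nat_lit 156) (nat_lit 1368) (nat_lit 0) (XT.nd (nat_lit 78) (nat_lit 0) (nat_lit 0) (XT.lf (nat_lit 0) (nat_lit 47598560) (nat_lit 608) (nat_lit 9230666172) (nat_lit 684) (nat_lit 7716776514) (nat_lit 301) (nat_lit 5) (nat_lit 309) (nat_lit 5) (nat_lit 310) (nat_lit 5) (nat_lit 615) (nat_lit 564) (nat_lit 381)) (XT.lf (nat_lit 0) (nat_lit 10011478113) (nat_lit 608) (nat_lit 2247461203) (nat_lit 684) (nat_lit 4928333378) (nat_lit 301) (nat_lit 5) (nat_lit 309) (nat_lit 5) (nat_lit 310) (nat_lit 5) (nat_lit 616) (nat_lit 564) (nat_lit 380))) (XT.nd (nat_lit 78) (nat_lit 684) (nat_lit 0) (XT.lf (nat_lit 0) (nat_lit 2786752554) (nat_lit 684) (nat_lit 12554465638) (nat_lit 760) (nat_lit 2041291336)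 (nat_lit 292) (nat_lit 5) (nat_lit 301) (nat_lit 5) (nat_lit 302) (nat_lit 5) (nat_lit 617) (nat_lit 564) (nat_lit 379)) (XT.nd (nat_lit 78) (nat_lit 608) (nat_lit 0) (XT.lf (nat_lit 0) (nat_lit 947281136) (nat_lit 760) (nat_lit 4565405812) (nat_lit 76) (nat_lit 12067734597) (nat_lit 291) (nat_lit 5) (nat_lit 301) (nat_lit 5) (nat_lit 292) (nat_lit 5) (nat_lit 618) (nat_lit 564) (nat_lit 378)) (XT.lf (nat_lit 0) (nat_lit 4009041825) (nat_lit 684) (nat_lit 12074857963) (nat_lit 76) (nat_lit 1697307702) (nat_lit 283) (nat_lit 5) (nat_lit 292) (nat_lit 5) (nat_lit 284) (nat_lit 5) (nat_lit 619) (nat_lit 564) (nat_lit 377))))))) (XT.nd (nat_lit 780) (nat_lit 3040) (nat_lit 0) (XT.nd (nat_lit 390) (nat_lit 1672) (nat_lit 0) (XT.nd (nat_lit 156) (nat_lit 1292) (nat_lit 0) (XT.nd (nat_lit 78) (nat_lit 608) (nat_lit 0) (XT.lf (nat_lit 0) (nat_lit 7191896145) (nat_lit 684) (nat_lit 1786043304) (nat_lit 76) (nat_lit 9006873065) (nat_lit 283) (nat_lit 5) (nat_lit 292) (nat_lit 5) (nat_lit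 284) (nat_lit 5) (nat_lit 620) (nat_lit 564) (nat_lit 376)) (XT.lf (nat_lit 0) (nat_lit 8814979873) (nat_lit 608) (nat_lit 1673318599) (nat_lit 684) (nat_lit 7703193865) (nat_lit 275) (nat_lit 5) (nat_lit 283) (nat_lit 5) (nat_lit 284) (nat_lit 5) (nat_lit 621) (nat_lit 564) (nat_lit 375))) (XT.nd (nat_lit 78) (nat_lit 684) (nat_lit 0) (XT.lf (nat_lit 0) (nat_lit 1219318267) (nat_lit 608) (nat_lit 12681533451) (nat_lit 684) (nat_lit 4500450089) (nat_lit 267) (nat_lit 5) (nat_lit 275) (nat_lit 5) (nat_lit 276) (nat_lit 5) (nat_lit 622) (nat_lit 564) (nat_lit 374)) (XT.nd (nat_lit 78) (nat_lit 684) (nat_lit 0) (XT.lf (nat_lit 0) (nat_lit 12133747713) (nat_lit 608) (nat_lit 5314652096) (nat_lit 684) (nat_lit 1165573282) (nat_lit 267) (nat_lit 5) (nat_lit 275) (nat_lit 5) (nat_lit 276) (nat_lit 5) (nat_lit 623) (nat_lit 564) (nat_lit 373)) (XT.lf (nat_lit 0) (nat_lit 2243165350) (nat_lit 684) (nat_lit 14374147507) (nat_lit 76) (nat_lit 2212565271) (nat_lit 258) (nat_lit 5) (nat_lit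 267) (nat_lit 5) (nat_lit 259) (nat_lit 5) (nat_lit 624) (nat_lit 564) (nat_lit 372))))) (XT.nd (nat_lit 156) (nat_lit 1140) (nat_lit 0) (XT.nd (nat_lit 78) (nat_lit 532) (nat_lit 0) (XT.lf (nat_lit 0) (nat_lit 5776431080) (nat_lit 684) (nat_lit 3403360331) (nat_lit 76) (nat_lit 9868717049) (nat_lit 258) (nat_lit 5) (nat_lit 267) (nat_lit 5) (nat_lit 259) (nat_lit 5) (nat_lit 625) (nat_lit 564) (nat_lit 371)) (XT.lf (nat_lit 0) (nat_lit 7881213673) (nat_lit 532) (nat_lit 1543430950) (nat_lit 608) (nat_lit 9845981585) (nat_lit 251) (nat_lit 5) (nat_lit 258) (nat_lit 5) (nat_lit 259) (nat_lit 5) (nat_lit 626) (nat_lit 564) (nat_lit 370))) (XT.nd (nat_lit 78) (nat_lit 1140) (nat_lit 0) (XT.lf (nat_lit 0) (nat_lit 13202538673) (nat_lit 608) (nat_lit 108875301) (nat_lit 76) (nat_lit 6184638464) (nat_lit 251) (nat_lit 5) (nat_lit 259) (nat_lit 5) (nat_lit 252) (nat_lit 5) (nat_lit 627) (nat_lit 564) (nat_lit 369)) (XT.nd (nat_lit 78) (nat_lit 608) (nat_lit 0) (XT.lf (nat_lit 0)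 (nat_lit 11529382612) (nat_lit 532) (nat_lit 5604995296) (nat_lit 608) (nat_lit 2590041980) (nat_lit 244) (nat_lit 5) (nat_lit 251) (nat_lit 5) (nat_lit 252) (nat_lit 5) (nat_lit 628) (nat_lit 564) (nat_lit 368)) (XT.lf (nat_lit 0) (nat_lit 1203386919) (nat_lit 608) (nat_lit 16498230938) (nat_lit 76) (nat_lit 2254953816) (nat_lit 236) (nat_lit 5) (nat_lit 244) (nat_lit 5) (nat_lit 237) (nat_lit 5) (nat_lit 629) (nat_lit 564) (nat_lit 367)))))) (XT.nd (nat_lit 390) (nat_lit 1444) (nat_lit 0) (XT.nd (nat_lit 156) (nat_lit 1064) (nat_lit 0) (XT.nd (nat_lit 78) (nat_lit 532) (nat_lit 0) (XT.lf (nat_lit 0) (nat_lit 5123910165) (nat_lit 608) (nat_lit 4799998392) (nat_lit 76) (nat_lit 10267397822) (nat_lit 236) (nat_lit 5) (nat_lit 244) (nat_lit 5) (nat_lit 237) (nat_lit 5) (nat_lit 630) (nat_lit 564) (nat_lit 366)) (XT.lf (nat_lit 0) (nat_lit 7218072982) (nat_lit 532) (nat_lit 1945162503) (nat_lit 608) (nat_lit 11266692869) (nat_lit 229) (nat_lit 5) (nat_lit 236) (nat_lit 5) (nat_lit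 237) (nat_lit 5) (nat_lit 631) (nat_lit 564) (nat_lit 365))) (XT.nd (nat_lit 78) (nat_lit 1064) (nat_lit 0) (XT.lf (nat_lit 0) (nat_lit 13349563399) (nat_lit 608) (nat_lit 1180378563) (nat_lit 76) (nat_lit 6142056886) (nat_lit 229) (nat_lit 5) (nat_lit 237) (nat_lit 5) (nat_lit 230) (nat_lit 5) (nat_lit 632) (nat_lit 564) (nat_lit 364)) (XT.nd (nat_lit 78) (nat_lit 608) (nat_lit 0) (XT.lf (nat_lit 0) (nat_lit 11217288528) (nat_lit 456) (nat_lit 6481749293) (nat_lit 532) (nat_lit 3218284923) (nat_lit 223) (nat_lit 5) (nat_lit 229) (nat_lit 5) (nat_lit 230) (nat_lit 5) (nat_lit 633) (nat_lit 564) (nat_lit 363)) (XT.lf (nat_lit 0) (nat_lit 986112590) (nat_lit 608) (nat_lit 18446138819) (nat_lit 76) (nat_lit 1734559221) (nat_lit 215) (nat_lit 5) (nat_lit 223) (nat_lit 5) (nat_lit 216) (nat_lit 5) (nat_lit 634) (nat_lit 564) (nat_lit 362))))) (XT.nd (nat_lit 234) (nat_lit 988) (nat_lit 0) (XT.nd (nat_lit 78) (nat_lit 456) (nat_lit 0) (XT.lf (nat_lit 0) (nat_lit 5333779108) (nat_lit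 608) (nat_lit 5972129634) (nat_lit 76) (nat_lit 10112908966) (nat_lit 215) (nat_lit 5) (nat_lit 223) (nat_lit 5) (nat_lit 216) (nat_lit 5) (nat_lit 635) (nat_lit 564) (nat_lit 361)) (XT.nd (nat_lit 78) (nat_lit 0) (nat_lit 0) (XT.lf (nat_lit 0) (nat_lit 6832387358) (nat_lit 456) (nat_lit 2974278560) (nat_lit 532) (nat_lit 11868434031) (nat_lit 209) (nat_lit 5) (nat_lit 215) (nat_lit 5) (nat_lit 216) (nat_lit 5) (nat_lit 636) (nat_lit 564) (nat_lit 360)) (XT.lf (nat_lit 0) (nat_lit 14439171888) (nat_lit 532) (nat_lit 2006517269) (nat_lit 76) (nat_lit 5489415808) (nat_lit 209) (nat_lit 5) (nat_lit 216) (nat_lit 5) (nat_lit 210) (nat_lit 5) (nat_lit 637) (nat_lit 564) (nat_lit 359)))) (XT.nd (nat_lit 78) (nat_lit 532) (nat_lit 0) (XT.lf (nat_lit 0) (nat_lit 11205203539) (nat_lit 456) (nat_lit 8045646309) (nat_lit 532) (nat_lit 2947730142) (nat_lit 203) (nat_lit 5) (nat_lit 209) (nat_lit 5) (nat_lit 210) (nat_lit 5) (nat_lit 638) (nat_lit 564) (nat_lit 358)) (XT.nd (nat_lit 78)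 (nat_lit 0) (nat_lit 0) (XT.lf (nat_lit 0) (nat_lit 1695153901) (nat_lit 532) (nat_lit 20219019628) (nat_lit 76) (nat_lit 552413675) (nat_lit 196) (nat_lit 5) (nat_lit 203) (nat_lit 5) (nat_lit 197) (nat_lit 5) (nat_lit 639) (nat_lit 564) (nat_lit 357)) (XT.lf (nat_lit 0) (nat_lit 6513144546) (nat_lit 532) (nat_lit 6917950141) (nat_lit 76) (nat_lit 9306036131) (nat_lit 196) (nat_lit 5) (nat_lit 203) (nat_lit 5) (nat_lit 197) (nat_lit 5) (nat_lit 640) (nat_lit 564) (nat_lit 356))))))))
noncomputable def xc166 : XT := (XT.nd (nat_lit 75816) (nat_lit 0) (nat_lit 22800) (XT.nd (nat_lit 780) (nat_lit 836) (nat_lit 0) (XT.nd (nat_lit 390) (nat_lit 1216) (nat_lit 0) (XT.nd (nat_lit 156) (nat_lit 912) (nat_lit 0) (XT.nd (nat_lit 78) (nat_lit 0) (nat_lit 0) (XT.lf (nat_lit 0) (nat_lit 6729033180) (nat_lit 456) (nat_lit 4736405887) (nat_lit 532) (nat_lit 11546887679) (nat_lit 190) (nat_lit 5) (nat_lit 196) (nat_lit 5) (nat_lit 197) (nat_lit 5) (nat_lit 641) (nat_lit 564) (nat_lit 355))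 (XT.lf (nat_lit 0) (nat_lit 16584635282) (nat_lit 532) (nat_lit 2584905678) (nat_lit 76) (nat_lit 4122128832) (nat_lit 190) (nat_lit 5) (nat_lit 197) (nat_lit 5) (nat_lit 191) (nat_lit 5) (nat_lit 642) (nat_lit 564) (nat_lit 354))) (XT.nd (nat_lit 78) (nat_lit 532) (nat_lit 0) (XT.lf (nat_lit 0) (nat_lit 11498652605) (nat_lit 380) (nat_lit 10407994903) (nat_lit 456) (nat_lit 1667943859) (nat_lit 185) (nat_lit 5) (nat_lit 190) (nat_lit 5) (nat_lit 191) (nat_lit 5) (nat_lit 643) (nat_lit 564) (nat_lit 353)) (XT.nd (nat_lit 78) (nat_lit 0) (nat_lit 0) (XT.lf (nat_lit 0) (nat_lit 2031830068) (nat_lit 456) (nat_lit 1419644345) (nat_lit 532) (nat_lit 20410744800) (nat_lit 178) (nat_lit 5) (nat_lit 184) (nat_lit 5) (nat_lit 185) (nat_lit 5) (nat_lit 644) (nat_lit 564) (nat_lit 352)) (XT.lf (nat_lit 0) (nat_lit 8777315342) (nat_lit 532) (nat_lit 7638719304) (nat_lit 76) (nat_lit 7736817398) (nat_lit 178) (nat_lit 5) (nat_lit 185) (nat_lit 5) (nat_lit 179) (nat_lit 5) (nat_lit 645)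 (nat_lit 564) (nat_lit 351))))) (XT.nd (nat_lit 156) (nat_lit 836) (nat_lit 0) (XT.nd (nat_lit 78) (nat_lit 0) (nat_lit 0) (XT.lf (nat_lit 0) (nat_lit 6909872880) (nat_lit 380) (nat_lit 7348640195) (nat_lit 456) (nat_lit 10189807945) (nat_lit 173) (nat_lit 5) (nat_lit 178) (nat_lit 5) (nat_lit 179) (nat_lit 5) (nat_lit 646) (nat_lit 564) (nat_lit 350)) (XT.lf (nat_lit 0) (nat_lit 19907881998) (nat_lit 456) (nat_lit 2916538876) (nat_lit 76) (nat_lit 1924107836) (nat_lit 173) (nat_lit 5) (nat_lit 179) (nat_lit 5) (nat_lit 174) (nat_lit 5) (nat_lit 647) (nat_lit 564) (nat_lit 349))) (XT.nd (nat_lit 78) (nat_lit 380) (nat_lit 0) (XT.lf (nat_lit 0) (nat_lit 730176128) (nat_lit 456) (nat_lit 12957282374) (nat_lit 76) (nat_lit 11364747382) (nat_lit 167) (nat_lit 5) (nat_lit 173) (nat_lit 5) (nat_lit 168) (nat_lit 5) (nat_lit 648) (nat_lit 564) (nat_lit 348)) (XT.nd (nat_lit 78) (nat_lit 0) (nat_lit 0) (XT.lf (nat_lit 0) (nat_lit 2071538536) (nat_lit 380) (nat_lit 4304006039) (nat_lit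 456) (nat_lit 18985213450) (nat_lit 162) (nat_lit 5) (nat_lit 167) (nat_lit 5) (nat_lit 168) (nat_lit 5) (nat_lit 649) (nat_lit 564) (nat_lit 347)) (XT.lf (nat_lit 0) (nat_lit 12250311463) (nat_lit 456) (nat_lit 8140001835) (nat_lit 76) (nat_lit 5282838348) (nat_lit 162) (nat_lit 5) (nat_lit 168) (nat_lit 5) (nat_lit 163) (nat_lit 5) (nat_lit 650) (nat_lit 564) (nat_lit 346)))))) (XT.nd (nat_lit 74646) (nat_lit 0) (nat_lit 27436) (XT.nd (nat_lit 156) (nat_lit 456) (nat_lit 0) (XT.nd (nat_lit 78) (nat_lit 0) (nat_lit 0) (XT.lf (nat_lit 0) (nat_lit 7372484923) (nat_lit 380) (nat_lit 10941329231) (nat_lit 456) (nat_lit 7676554430) (nat_lit 157) (nat_lit 5) (nat_lit 162) (nat_lit 5) (nat_lit 163) (nat_lit 5) (nat_lit 651) (nat_lit 564) (nat_lit 345)) (XT.lf (nat_lit 0) (nat_lit 23297709915) (nat_lit 380) (nat_lit 1250420341) (nat_lit 456) (nat_lit 1764808985) (nat_lit 157) (nat_lit 5) (nat_lit 162) (nat_lit 5) (nat_lit 163) (nat_lit 5) (nat_lit 652) (nat_lit 564) (nat_lit 344)))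 (XT.nd (nat_lit 74334) (nat_lit 0) (nat_lit 29108) (XT.lf (nat_lit 0) (nat_lit 4345636306) (nat_lit 456) (nat_lit 13661623453) (nat_lit 76) (nat_lit 8631419878) (nat_lit 151) (nat_lit 5) (nat_lit 157) (nat_lit 5) (nat_lit 152) (nat_lit 5) (nat_lit 653) (nat_lit 564) (nat_lit 343)) (XT.nd (nat_lit 78) (nat_lit 0) (nat_lit 0) (XT.lf (nat_lit 0) (nat_lit 2348253490) (nat_lit 0) (nat_lit 2348253490) (nat_lit 1596) (nat_lit 479564680) (nat_lit 534) (nat_lit 5) (nat_lit 534) (nat_lit 3) (nat_lit 555) (nat_lit 3) (nat_lit 565) (nat_lit 565) (nat_lit 430)) (XT.lf (nat_lit 0) (nat_lit 9907674529) (nat_lit 0) (nat_lit 231484300) (nat_lit 1596) (nat_lit 303396832) (nat_lit 534) (nat_lit 5) (nat_lit 534) (nat_lit 3) (nat_lit 555) (nat_lit 3) (nat_lit 566) (nat_lit 565) (nat_lit 429))))) (XT.nd (nat_lit 156) (nat_lit 0) (nat_lit 76) (XT.nd (nat_lit 78) (nat_lit 0) (nat_lit 0) (XT.lf (nat_lit 0) (nat_lit 402546219) (nat_lit 1672) (nat_lit 5823511929) (nat_lit 1748) (nat_lit 4307834536)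 (nat_lit 512) (nat_lit 5) (nat_lit 534) (nat_lit 5) (nat_lit 535) (nat_lit 5) (nat_lit 567) (nat_lit 565) (nat_lit 428)) (XT.lf (nat_lit 0) (nat_lit 1106807138) (nat_lit 1672) (nat_lit 571872829) (nat_lit 1748) (nat_lit 8948572775) (nat_lit 512) (nat_lit 5) (nat_lit 534) (nat_lit 5) (nat_lit 535) (nat_lit 5) (nat_lit 568) (nat_lit 565) (nat_lit 427))) (XT.nd (nat_lit 78) (nat_lit 0) (nat_lit 0) (XT.lf (nat_lit 0) (nat_lit 1859489624) (nat_lit 1672) (nat_lit 5902331816) (nat_lit 1748) (nat_lit 2959973436) (nat_lit 513) (nat_lit 5) (nat_lit 535) (nat_lit 5) (nat_lit 536) (nat_lit 5) (nat_lit 569) (nat_lit 565) (nat_lit 426)) (XT.nd (nat_lit 78) (nat_lit 0) (nat_lit 76) (XT.lf (nat_lit 0) (nat_lit 2625963627) (nat_lit 1672) (nat_lit 512174333) (nat_lit 1748) (nat_lit 7680116706) (nat_lit 513) (nat_lit 5) (nat_lit 535) (nat_lit 5) (nat_lit 536) (nat_lit 5) (nat_lit 570) (nat_lit 565) (nat_lit 425)) (XT.lf (nat_lit 0) (nat_lit 3435091726) (nat_lit 1672) (nat_lit 5883968271) (nat_lit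 1748) (nat_lit 1597038701) (nat_lit 514) (nat_lit 5) (nat_lit 536) (nat_lit 5) (nat_lit 537) (nat_lit 5) (nat_lit 571) (nat_lit 565) (nat_lit 424))))))) (XT.nd (nat_lit 780) (nat_lit 3344) (nat_lit 0) (XT.nd (nat_lit 390) (nat_lit 1444) (nat_lit 0) (XT.nd (nat_lit 156) (nat_lit 0) (nat_lit 76) (XT.nd (nat_lit 78) (nat_lit 0) (nat_lit 76) (XT.lf (nat_lit 0) (nat_lit 4269017632) (nat_lit 1672) (nat_lit 351747205) (nat_lit 1748) (nat_lit 6394963978) (nat_lit 514) (nat_lit 5) (nat_lit 536) (nat_lit 5) (nat_lit 537) (nat_lit 5) (nat_lit 572) (nat_lit 565) (nat_lit 423)) (XT.lf (nat_lit 0) (nat_lit 5140434529) (nat_lit 1672) (nat_lit 5766226828) (nat_lit 1748) (nat_lit 210275407) (nat_lit 515) (nat_lit 5) (nat_lit 537) (nat_lit 5) (nat_lit 538) (nat_lit 5) (nat_lit 573) (nat_lit 565) (nat_lit 422))) (XT.nd (nat_lit 78) (nat_lit 0) (nat_lit 0) (XT.lf (nat_lit 0) (nat_lit 6047216199) (nat_lit 1672) (nat_lit 88226646) (nat_lit 1748) (nat_lit 5084368751) (nat_lit 515) (nat_lit 5) (nat_lit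 537) (nat_lit 5) (nat_lit 538) (nat_lit 5) (nat_lit 574) (nat_lit 565) (nat_lit 421)) (XT.nd (nat_lit 78) (nat_lit 0) (nat_lit 76) (XT.lf (nat_lit 76) (nat_lit 5769717654) (nat_lit 0) (nat_lit 1225130898) (nat_lit 1748) (nat_lit 4329442492) (nat_lit 516) (nat_lit 5) (nat_lit 515) (nat_lit 5) (nat_lit 538) (nat_lit 5) (nat_lit 575) (nat_lit 565) (nat_lit 420)) (XT.lf (nat_lit 76) (nat_lit 284783591) (nat_lit 0) (nat_lit 7689176996) (nat_lit 1748) (nat_lit 3456650348) (nat_lit 517) (nat_lit 5) (nat_lit 516) (nat_lit 5) (nat_lit 539) (nat_lit 5) (nat_lit 576) (nat_lit 565) (nat_lit 419))))) (XT.nd (nat_lit 156) (nat_lit 1596) (nat_lit 0) (XT.nd (nat_lit 78) (nat_lit 0) (nat_lit 76) (XT.lf (nat_lit 76) (nat_lit 6298511236) (nat_lit 0) (nat_lit 2705217969) (nat_lit 1748) (nat_lit 2534707899) (nat_lit 517) (nat_lit 5) (nat_lit 516) (nat_lit 5) (nat_lit 539) (nat_lit 5) (nat_lit 577) (nat_lit 565) (nat_lit 418)) (XT.lf (nat_lit 76) (nat_lit 769124392) (nat_lit 0) (nat_lit 9291454883)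 (nat_lit 1748) (nat_lit 1587712140) (nat_lit 518) (nat_lit 5) (nat_lit 517) (nat_lit 5) (nat_lit 540) (nat_lit 5) (nat_lit 578) (nat_lit 565) (nat_lit 417))) (XT.nd (nat_lit 78) (nat_lit 1672) (nat_lit 0) (XT.lf (nat_lit 76) (nat_lit 6941679882) (nat_lit 0) (nat_lit 4236108260) (nat_lit 1748) (nat_lit 581771549) (nat_lit 518) (nat_lit 5) (nat_lit 517) (nat_lit 5) (nat_lit 540) (nat_lit 5) (nat_lit 579) (nat_lit 565) (nat_lit 416)) (XT.nd (nat_lit 78) (nat_lit 0) (nat_lit 0) (XT.lf (nat_lit 0) (nat_lit 439877146) (nat_lit 1748) (nat_lit 10508996237) (nat_lit 1824) (nat_lit 924095196) (nat_lit 495) (nat_lit 5) (nat_lit 518) (nat_lit 5) (nat_lit 519) (nat_lit 5) (nat_lit 580) (nat_lit 565) (nat_lit 415)) (XT.lf (nat_lit 0) (nat_lit 1521444501) (nat_lit 1748) (nat_lit 4295126258) (nat_lit 1824) (nat_lit 6171053700) (nat_lit 495) (nat_lit 5) (nat_lit 518) (nat_lit 5) (nat_lit 519) (nat_lit 5) (nat_lit 581) (nat_lit 565) (nat_lit 414)))))) (XT.nd (nat_lit 390) (nat_lit 3344) (nat_lit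 0) (XT.nd (nat_lit 156) (nat_lit 0) (nat_lit 76) (XT.nd (nat_lit 78) (nat_lit 0) (nat_lit 76) (XT.lf (nat_lit 76) (nat_lit 2060460318) (nat_lit 0) (nat_lit 564492141) (nat_lit 1824) (nat_lit 9479616027) (nat_lit 496) (nat_lit 5) (nat_lit 495) (nat_lit 5) (nat_lit 519) (nat_lit 5) (nat_lit 582) (nat_lit 565) (nat_lit 413)) (XT.lf (nat_lit 0) (nat_lit 3797808516) (nat_lit 1748) (nat_lit 3663004049) (nat_lit 1824) (nat_lit 4762094460) (nat_lit 496) (nat_lit 5) (nat_lit 519) (nat_lit 5) (nat_lit 520) (nat_lit 5) (nat_lit 583) (nat_lit 565) (nat_lit 412))) (XT.nd (nat_lit 78) (nat_lit 0) (nat_lit 76) (XT.lf (nat_lit 76) (nat_lit 2870015245) (nat_lit 0) (nat_lit 2133878440) (nat_lit 1824) (nat_lit 7339524377) (nat_lit 497) (nat_lit 5) (nat_lit 496) (nat_lit 5) (nat_lit 520) (nat_lit 5) (nat_lit 584) (nat_lit 565) (nat_lit 411)) (XT.nd (nat_lit 78) (nat_lit 0) (nat_lit 0) (XT.lf (nat_lit 0) (nat_lit 6267870491) (nat_lit 1748) (nat_lit 2913899912) (nat_lit 1824) (nat_lit 3283894661)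 (nat_lit 497) (nat_lit 5) (nat_lit 520) (nat_lit 5) (nat_lit 521) (nat_lit 5) (nat_lit 585) (nat_lit 565) (nat_lit 410)) (XT.lf (nat_lit 76) (nat_lit 3802915587) (nat_lit 0) (nat_lit 3780880321) (nat_lit 1824) (nat_lit 5006028838) (nat_lit 498) (nat_lit 5) (nat_lit 497) (nat_lit 5) (nat_lit 521) (nat_lit 5) (nat_lit 586) (nat_lit 565) (nat_lit 409))))) (XT.nd (nat_lit 234) (nat_lit 3572) (nat_lit 0) (XT.nd (nat_lit 78) (nat_lit 0) (nat_lit 0) (XT.lf (nat_lit 0) (nat_lit 8944980964) (nat_lit 1748) (nat_lit 2043674257) (nat_lit 1824) (nat_lit 1727434678) (nat_lit 498) (nat_lit 5) (nat_lit 521) (nat_lit 5) (nat_lit 522) (nat_lit 5) (nat_lit 587) (nat_lit 565) (nat_lit 408)) (XT.nd (nat_lit 78) (nat_lit 0) (nat_lit 76) (XT.lf (nat_lit 76) (nat_lit 4863550394) (nat_lit 0) (nat_lit 5514728538) (nat_lit 1824) (nat_lit 2465704717) (nat_lit 499) (nat_lit 5) (nat_lit 498) (nat_lit 5) (nat_lit 522) (nat_lit 5) (nat_lit 588) (nat_lit 565) (nat_lit 407)) (XT.lf (nat_lit 0) (nat_lit 11842947447)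 (nat_lit 1748) (nat_lit 1047879894) (nat_lit 76) (nat_lit 83554898) (nat_lit 499) (nat_lit 5) (nat_lit 522) (nat_lit 5) (nat_lit 500) (nat_lit 5) (nat_lit 589) (nat_lit 565) (nat_lit 406)))) (XT.nd (nat_lit 78) (nat_lit 1824) (nat_lit 0) (XT.lf (nat_lit 0) (nat_lit 291461769) (nat_lit 1824) (nat_lit 7051391995) (nat_lit 76) (nat_lit 5763207219) (nat_lit 475) (nat_lit 5) (nat_lit 499) (nat_lit 5) (nat_lit 476) (nat_lit 5) (nat_lit 590) (nat_lit 565) (nat_lit 405)) (XT.nd (nat_lit 78) (nat_lit 0) (nat_lit 0) (XT.lf (nat_lit 0) (nat_lit 56746101) (nat_lit 1824) (nat_lit 1667146427) (nat_lit 1900) (nat_lit 11516407671) (nat_lit 451) (nat_lit 5) (nat_lit 475) (nat_lit 5) (nat_lit 476) (nat_lit 5) (nat_lit 591) (nat_lit 565) (nat_lit 404)) (XT.lf (nat_lit 0) (nat_lit 3248299351) (nat_lit 1900) (nat_lit 6010591167) (nat_lit 76) (nat_lit 4117068108) (nat_lit 451) (nat_lit 5) (nat_lit 476) (nat_lit 5) (nat_lit 452) (nat_lit 5) (nat_lit 592) (nat_lit 565) (nat_lit 403))))))))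
noncomputable def xc167 : XT := (XT.nd (nat_lit 1560) (nat_lit 7524) (nat_lit 0) (XT.nd (nat_lit 780) (nat_lit 3876) (nat_lit 0) (XT.nd (nat_lit 390) (nat_lit 2584) (nat_lit 0) (XT.nd (nat_lit 156) (nat_lit 1824) (nat_lit 0) (XT.nd (nat_lit 78) (nat_lit 0) (nat_lit 0) (XT.lf (nat_lit 0) (nat_lit 1302195154) (nat_lit 1064) (nat_lit 3509643871) (nat_lit 1140) (nat_lit 8702319259) (nat_lit 437) (nat_lit 5) (nat_lit 451) (nat_lit 5) (nat_lit 452) (nat_lit 5) (nat_lit 593) (nat_lit 565) (nat_lit 402)) (XT.lf (nat_lit 0) (nat_lit 6451845124) (nat_lit 1140) (nat_lit 4836989630) (nat_lit 76) (nat_lit 2365384208) (nat_lit 437) (nat_lit 5) (nat_lit 452) (nat_lit 5) (nat_lit 438) (nat_lit 5) (nat_lit 594) (nat_lit 565) (nat_lit 401))) (XT.nd (nat_lit 78) (nat_lit 912) (nat_lit 0) (XT.lf (nat_lit 0) (nat_lit 2687853059) (nat_lit 912) (nat_lit 5467008696) (nat_lit 988) (nat_lit 5641615810) (nat_lit 425) (nat_lit 5) (nat_lit 437) (nat_lit 5) (nat_lit 438) (nat_lit 5) (nat_lit 595) (nat_lit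 565) (nat_lit 400)) (XT.nd (nat_lit 78) (nat_lit 912) (nat_lit 0) (XT.lf (nat_lit 0) (nat_lit 9917336878) (nat_lit 988) (nat_lit 3525236080) (nat_lit 76) (nat_lit 498501320) (nat_lit 425) (nat_lit 5) (nat_lit 438) (nat_lit 5) (nat_lit 426) (nat_lit 5) (nat_lit 596) (nat_lit 565) (nat_lit 399)) (XT.lf (nat_lit 0) (nat_lit 4219355767) (nat_lit 912) (nat_lit 7549173362) (nat_lit 988) (nat_lit 2318965329) (nat_lit 413) (nat_lit 5) (nat_lit 425) (nat_lit 5) (nat_lit 426) (nat_lit 5) (nat_lit 597) (nat_lit 565) (nat_lit 398))))) (XT.nd (nat_lit 156) (nat_lit 1672) (nat_lit 0) (XT.nd (nat_lit 78) (nat_lit 912) (nat_lit 0) (XT.lf (nat_lit 0) (nat_lit 12157091488) (nat_lit 912) (nat_lit 1513314121) (nat_lit 988) (nat_lit 566165092) (nat_lit 413) (nat_lit 5) (nat_lit 425) (nat_lit 5) (nat_lit 426) (nat_lit 5) (nat_lit 598) (nat_lit 565) (nat_lit 397)) (XT.lf (nat_lit 0) (nat_lit 1264730534) (nat_lit 912) (nat_lit 8493101796) (nat_lit 76) (nat_lit 4629457088) (nat_lit 401) (nat_lit 5)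 (nat_lit 413) (nat_lit 5) (nat_lit 402) (nat_lit 5) (nat_lit 599) (nat_lit 565) (nat_lit 396))) (XT.nd (nat_lit 78) (nat_lit 1672) (nat_lit 0) (XT.lf (nat_lit 0) (nat_lit 3139007788) (nat_lit 912) (nat_lit 508705197) (nat_lit 76) (nat_lit 10892948603) (nat_lit 401) (nat_lit 5) (nat_lit 413) (nat_lit 5) (nat_lit 402) (nat_lit 5) (nat_lit 600) (nat_lit 565) (nat_lit 395)) (XT.nd (nat_lit 78) (nat_lit 836) (nat_lit 0) (XT.lf (nat_lit 0) (nat_lit 5108514962) (nat_lit 912) (nat_lit 6986104297) (nat_lit 76) (nat_lit 2601327854) (nat_lit 390) (nat_lit 5) (nat_lit 402) (nat_lit 5) (nat_lit 391) (nat_lit 5) (nat_lit 601) (nat_lit 565) (nat_lit 394)) (XT.lf (nat_lit 0) (nat_lit 1227757412) (nat_lit 836) (nat_lit 5915805840) (nat_lit 912) (nat_lit 7710252864) (nat_lit 379) (nat_lit 5) (nat_lit 390) (nat_lit 5) (nat_lit 391) (nat_lit 5) (nat_lit 602) (nat_lit 565) (nat_lit 393)))))) (XT.nd (nat_lit 390) (nat_lit 2204) (nat_lit 0) (XT.nd (nat_lit 156) (nat_lit 836) (nat_lit 0) (XT.nd (nat_lit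 78) (nat_lit 836) (nat_lit 0) (XT.lf (nat_lit 0) (nat_lit 9259721279) (nat_lit 912) (nat_lit 5325805470) (nat_lit 76) (nat_lit 428508342) (nat_lit 379) (nat_lit 5) (nat_lit 391) (nat_lit 5) (nat_lit 380) (nat_lit 5) (nat_lit 603) (nat_lit 565) (nat_lit 392)) (XT.lf (nat_lit 0) (nat_lit 3132878278) (nat_lit 836) (nat_lit 8335732541) (nat_lit 912) (nat_lit 3707840216) (nat_lit 368) (nat_lit 5) (nat_lit 379) (nat_lit 5) (nat_lit 380) (nat_lit 5) (nat_lit 604) (nat_lit 565) (nat_lit 391))) (XT.nd (nat_lit 78) (nat_lit 836) (nat_lit 0) (XT.lf (nat_lit 0) (nat_lit 11823505511) (nat_lit 836) (nat_lit 1924919150) (nat_lit 912) (nat_lit 1593156446) (nat_lit 368) (nat_lit 5) (nat_lit 379) (nat_lit 5) (nat_lit 380) (nat_lit 5) (nat_lit 605) (nat_lit 565) (nat_lit 390)) (XT.nd (nat_lit 78) (nat_lit 0) (nat_lit 0) (XT.lf (nat_lit 0) (nat_lit 611734869) (nat_lit 836) (nat_lit 10306090189) (nat_lit 76) (nat_lit 4591010050) (nat_lit 357) (nat_lit 5) (nat_lit 368) (nat_lit 5) (nat_lit 358)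 (nat_lit 5) (nat_lit 606) (nat_lit 565) (nat_lit 389)) (XT.lf (nat_lit 0) (nat_lit 2867158864) (nat_lit 836) (nat_lit 1566214284) (nat_lit 76) (nat_lit 11245295778) (nat_lit 357) (nat_lit 5) (nat_lit 368) (nat_lit 5) (nat_lit 358) (nat_lit 5) (nat_lit 607) (nat_lit 565) (nat_lit 388))))) (XT.nd (nat_lit 156) (nat_lit 760) (nat_lit 0) (XT.nd (nat_lit 78) (nat_lit 684) (nat_lit 0) (XT.lf (nat_lit 0) (nat_lit 5221856525) (nat_lit 836) (nat_lit 8428869676) (nat_lit 76) (nat_lit 2200090600) (nat_lit 347) (nat_lit 5) (nat_lit 358) (nat_lit 5) (nat_lit 348) (nat_lit 5) (nat_lit 608) (nat_lit 565) (nat_lit 387)) (XT.lf (nat_lit 0) (nat_lit 553345759) (nat_lit 684) (nat_lit 7105345570) (nat_lit 760) (nat_lit 8367016112) (nat_lit 338) (nat_lit 5) (nat_lit 347) (nat_lit 5) (nat_lit 348) (nat_lit 5) (nat_lit 609) (nat_lit 565) (nat_lit 386))) (XT.nd (nat_lit 78) (nat_lit 760) (nat_lit 0) (XT.lf (nat_lit 0) (nat_lit 9820136244) (nat_lit 684) (nat_lit 372305339) (nat_lit 760) (nat_lit 6010691391)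 (nat_lit 338) (nat_lit 5) (nat_lit 347) (nat_lit 5) (nat_lit 348) (nat_lit 5) (nat_lit 610) (nat_lit 565) (nat_lit 385)) (XT.nd (nat_lit 78) (nat_lit 0) (nat_lit 0) (XT.lf (nat_lit 0) (nat_lit 2874380117) (nat_lit 760) (nat_lit 9955096516) (nat_lit 836) (nat_lit 3553578833) (nat_lit 328) (nat_lit 5) (nat_lit 338) (nat_lit 5) (nat_lit 339) (nat_lit 5) (nat_lit 611) (nat_lit 565) (nat_lit 384)) (XT.lf (nat_lit 0) (nat_lit 12391689530) (nat_lit 760) (nat_lit 3164721773) (nat_lit 836) (nat_lit 1009422557) (nat_lit 328) (nat_lit 5) (nat_lit 338) (nat_lit 5) (nat_lit 339) (nat_lit 5) (nat_lit 612) (nat_lit 565) (nat_lit 383))))))) (XT.nd (nat_lit 780) (nat_lit 3496) (nat_lit 0) (XT.nd (nat_lit 390) (nat_lit 1976) (nat_lit 0) (XT.nd (nat_lit 156) (nat_lit 1292) (nat_lit 0) (XT.nd (nat_lit 78) (nat_lit 0) (nat_lit 0) (XT.lf (nat_lit 0) (nat_lit 1616568250) (nat_lit 760) (nat_lit 11377818771) (nat_lit 76) (nat_lit 3756640571) (nat_lit 318) (nat_lit 5) (nat_lit 328) (nat_lit 5) (nat_lit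 319) (nat_lit 5) (nat_lit 613) (nat_lit 565) (nat_lit 382)) (XT.lf (nat_lit 0) (nat_lit 4322802573) (nat_lit 760) (nat_lit 1808359945) (nat_lit 76) (nat_lit 10807805032) (nat_lit 318) (nat_lit 5) (nat_lit 328) (nat_lit 5) (nat_lit 319) (nat_lit 5) (nat_lit 614) (nat_lit 565) (nat_lit 381))) (XT.nd (nat_lit 78) (nat_lit 608) (nat_lit 0) (XT.lf (nat_lit 0) (nat_lit 7133630787) (nat_lit 760) (nat_lit 9086782461) (nat_lit 76) (nat_lit 909244259) (nat_lit 309) (nat_lit 5) (nat_lit 319) (nat_lit 5) (nat_lit 310) (nat_lit 5) (nat_lit 615) (nat_lit 565) (nat_lit 380)) (XT.nd (nat_lit 78) (nat_lit 0) (nat_lit 0) (XT.lf (nat_lit 0) (nat_lit 751743105) (nat_lit 608) (nat_lit 9298945625) (nat_lit 684) (nat_lit 7272472840) (nat_lit 301) (nat_lit 5) (nat_lit 309) (nat_lit 5) (nat_lit 310) (nat_lit 5) (nat_lit 616) (nat_lit 565) (nat_lit 379)) (XT.lf (nat_lit 0) (nat_lit 10901112159) (nat_lit 608) (nat_lit 2178357613) (nat_lit 684) (nat_lit 4439998866) (nat_lit 301) (nat_lit 5) (nat_lit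 309) (nat_lit 5) (nat_lit 310) (nat_lit 5) (nat_lit 617) (nat_lit 565) (nat_lit 378))))) (XT.nd (nat_lit 156) (nat_lit 1216) (nat_lit 0) (XT.nd (nat_lit 78) (nat_lit 76) (nat_lit 0) (XT.lf (nat_lit 0) (nat_lit 3538094425) (nat_lit 684) (nat_lit 12679260723) (nat_lit 760) (nat_lit 1501376674) (nat_lit 292) (nat_lit 5) (nat_lit 301) (nat_lit 5) (nat_lit 302) (nat_lit 5) (nat_lit 618) (nat_lit 565) (nat_lit 377)) (XT.lf (nat_lit 0) (nat_lit 1528113006) (nat_lit 760) (nat_lit 3967239258) (nat_lit 76) (nat_lit 12425399960) (nat_lit 291) (nat_lit 5) (nat_lit 301) (nat_lit 5) (nat_lit 292) (nat_lit 5) (nat_lit 619) (nat_lit 565) (nat_lit 376))) (XT.nd (nat_lit 78) (nat_lit 608) (nat_lit 0) (XT.lf (nat_lit 0) (nat_lit 4645380204) (nat_lit 684) (nat_lit 11621112506) (nat_lit 76) (nat_lit 1859176537) (nat_lit 283) (nat_lit 5) (nat_lit 292) (nat_lit 5) (nat_lit 284) (nat_lit 5) (nat_lit 620) (nat_lit 565) (nat_lit 375)) (XT.nd (nat_lit 78) (nat_lit 608) (nat_lit 0) (XT.lf (nat_lit 0)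 (nat_lit 7880986560) (nat_lit 684) (nat_lit 1140153761) (nat_lit 76) (nat_lit 9312424920) (nat_lit 283) (nat_lit 5) (nat_lit 292) (nat_lit 5) (nat_lit 284) (nat_lit 5) (nat_lit 621) (nat_lit 565) (nat_lit 374)) (XT.lf (nat_lit 0) (nat_lit 9668405600) (nat_lit 608) (nat_lit 1568616461) (nat_lit 684) (nat_lit 7307483252) (nat_lit 275) (nat_lit 5) (nat_lit 283) (nat_lit 5) (nat_lit 284) (nat_lit 5) (nat_lit 622) (nat_lit 565) (nat_lit 373)))))) (XT.nd (nat_lit 390) (nat_lit 1672) (nat_lit 0) (XT.nd (nat_lit 156) (nat_lit 1216) (nat_lit 0) (XT.nd (nat_lit 78) (nat_lit 0) (nat_lit 0) (XT.lf (nat_lit 0) (nat_lit 1926230512) (nat_lit 608) (nat_lit 12786338966) (nat_lit 684) (nat_lit 4046047372) (nat_lit 267) (nat_lit 5) (nat_lit 275) (nat_lit 5) (nat_lit 276) (nat_lit 5) (nat_lit 623) (nat_lit 565) (nat_lit 372)) (XT.lf (nat_lit 0) (nat_lit 13045565686) (nat_lit 608) (nat_lit 5275038124) (nat_lit 684) (nat_lit 655147769) (nat_lit 267) (nat_lit 5) (nat_lit 275) (nat_lit 5) (nat_lit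 276) (nat_lit 5) (nat_lit 624) (nat_lit 565) (nat_lit 371))) (XT.nd (nat_lit 78) (nat_lit 532) (nat_lit 0) (XT.lf (nat_lit 0) (nat_lit 2809778854) (nat_lit 684) (nat_lit 13980430268) (nat_lit 76) (nat_lit 2405796719) (nat_lit 258) (nat_lit 5) (nat_lit 267) (nat_lit 5) (nat_lit 259) (nat_lit 5) (nat_lit 625) (nat_lit 565) (nat_lit 370)) (XT.nd (nat_lit 78) (nat_lit 532) (nat_lit 0) (XT.lf (nat_lit 0) (nat_lit 6403479502) (nat_lit 684) (nat_lit 2803584215) (nat_lit 76) (nat_lit 10212150353) (nat_lit 258) (nat_lit 5) (nat_lit 267) (nat_lit 5) (nat_lit 259) (nat_lit 5) (nat_lit 626) (nat_lit 565) (nat_lit 369)) (XT.lf (nat_lit 0) (nat_lit 8702287563) (nat_lit 532) (nat_lit 1416647509) (nat_lit 608) (nat_lit 9526954217) (nat_lit 251) (nat_lit 5) (nat_lit 258) (nat_lit 5) (nat_lit 259) (nat_lit 5) (nat_lit 627) (nat_lit 565) (nat_lit 368))))) (XT.nd (nat_lit 234) (nat_lit 532) (nat_lit 0) (XT.nd (nat_lit 78) (nat_lit 608) (nat_lit 0) (XT.lf (nat_lit 0) (nat_lit 555621998) (nat_lit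 532) (nat_lit 13411458382) (nat_lit 608) (nat_lit 5908850452) (nat_lit 244) (nat_lit 5) (nat_lit 251) (nat_lit 5) (nat_lit 252) (nat_lit 5) (nat_lit 628) (nat_lit 565) (nat_lit 367)) (XT.nd (nat_lit 78) (nat_lit 608) (nat_lit 0) (XT.lf (nat_lit 0) (nat_lit 12415019912) (nat_lit 532) (nat_lit 5553439227) (nat_lit 608) (nat_lit 2140589082) (nat_lit 244) (nat_lit 5) (nat_lit 251) (nat_lit 5) (nat_lit 252) (nat_lit 5) (nat_lit 629) (nat_lit 565) (nat_lit 366)) (XT.lf (nat_lit 0) (nat_lit 1717793523) (nat_lit 608) (nat_lit 16162168536) (nat_lit 76) (nat_lit 2465903329) (nat_lit 236) (nat_lit 5) (nat_lit 244) (nat_lit 5) (nat_lit 237) (nat_lit 5) (nat_lit 630) (nat_lit 565) (nat_lit 365)))) (XT.nd (nat_lit 78) (nat_lit 532) (nat_lit 0) (XT.lf (nat_lit 0) (nat_lit 5707112747) (nat_lit 608) (nat_lit 4243030691) (nat_lit 76) (nat_lit 10635344245) (nat_lit 236) (nat_lit 5) (nat_lit 244) (nat_lit 5) (nat_lit 237) (nat_lit 5) (nat_lit 631) (nat_lit 565) (nat_lit 364)) (XT.nd (nat_lit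 78) (nat_lit 0) (nat_lit 0) (XT.lf (nat_lit 0) (nat_lit 8011106270) (nat_lit 532) (nat_lit 1810903943) (nat_lit 608) (nat_lit 11006976767) (nat_lit 229) (nat_lit 5) (nat_lit 236) (nat_lit 5) (nat_lit 237) (nat_lit 5) (nat_lit 632) (nat_lit 565) (nat_lit 363)) (XT.lf (nat_lit 0) (nat_lit 14083843195) (nat_lit 608) (nat_lit 559782715) (nat_lit 76) (nat_lit 6432437986) (nat_lit 229) (nat_lit 5) (nat_lit 237) (nat_lit 5) (nat_lit 230) (nat_lit 5) (nat_lit 633) (nat_lit 565) (nat_lit 362))))))))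
noncomputable def xc168 : XT := (XT.nd (nat_lit 75894) (nat_lit 0) (nat_lit 25612) (XT.nd (nat_lit 780) (nat_lit 2508) (nat_lit 0) (XT.nd (nat_lit 390) (nat_lit 1444) (nat_lit 0) (XT.nd (nat_lit 156) (nat_lit 456) (nat_lit 0) (XT.nd (nat_lit 78) (nat_lit 608) (nat_lit 0) (XT.lf (nat_lit 0) (nat_lit 12081599538) (nat_lit 456) (nat_lit 6433700127) (nat_lit 532) (nat_lit 2811095327) (nat_lit 223) (nat_lit 5) (nat_lit 229) (nat_lit 5) (nat_lit 230) (nat_lit 5) (nat_lit 634) (nat_lit 565) (nat_lit 361)) (XT.lf (nat_lit 0) (nat_lit 1467427003) (nat_lit 608) (nat_lit 18165077722) (nat_lit 76) (nat_lit 1948382798) (nat_lit 215) (nat_lit 5) (nat_lit 223) (nat_lit 5) (nat_lit 216) (nat_lit 5) (nat_lit 635) (nat_lit 565) (nat_lit 360))) (XT.nd (nat_lit 78) (nat_lit 456) (nat_lit 0) (XT.lf (nat_lit 0) (nat_lit 5892996025) (nat_lit 608) (nat_lit 5454333135) (nat_lit 76) (nat_lit 10490787138) (nat_lit 215) (nat_lit 5) (nat_lit 223) (nat_lit 5) (nat_lit 216) (nat_lit 5) (nat_lit 636) (nat_lit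 565) (nat_lit 359)) (XT.nd (nat_lit 78) (nat_lit 0) (nat_lit 0) (XT.lf (nat_lit 0) (nat_lit 7602081835) (nat_lit 456) (nat_lit 2848495537) (nat_lit 532) (nat_lit 11649042606) (nat_lit 209) (nat_lit 5) (nat_lit 215) (nat_lit 5) (nat_lit 216) (nat_lit 5) (nat_lit 637) (nat_lit 565) (nat_lit 358)) (XT.lf (nat_lit 0) (nat_lit 15168132797) (nat_lit 532) (nat_lit 1418387013) (nat_lit 76) (nat_lit 5778457814) (nat_lit 209) (nat_lit 5) (nat_lit 216) (nat_lit 5) (nat_lit 210) (nat_lit 5) (nat_lit 638) (nat_lit 565) (nat_lit 357))))) (XT.nd (nat_lit 156) (nat_lit 456) (nat_lit 0) (XT.nd (nat_lit 78) (nat_lit 532) (nat_lit 0) (XT.lf (nat_lit 0) (nat_lit 12053434918) (nat_lit 456) (nat_lit 8018030717) (nat_lit 532) (nat_lit 2562348597) (nat_lit 203) (nat_lit 5) (nat_lit 209) (nat_lit 5) (nat_lit 210) (nat_lit 5) (nat_lit 639) (nat_lit 565) (nat_lit 356)) (XT.lf (nat_lit 0) (nat_lit 2164276399) (nat_lit 532) (nat_lit 19990106701) (nat_lit 76) (nat_lit 752807061) (nat_lit 196) (nat_lit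 5) (nat_lit 203) (nat_lit 5) (nat_lit 197) (nat_lit 5) (nat_lit 640) (nat_lit 565) (nat_lit 355))) (XT.nd (nat_lit 78) (nat_lit 456) (nat_lit 0) (XT.lf (nat_lit 0) (nat_lit 7070093143) (nat_lit 532) (nat_lit 6435433341) (nat_lit 76) (nat_lit 9677789317) (nat_lit 196) (nat_lit 5) (nat_lit 203) (nat_lit 5) (nat_lit 197) (nat_lit 5) (nat_lit 641) (nat_lit 565) (nat_lit 354)) (XT.nd (nat_lit 78) (nat_lit 0) (nat_lit 0) (XT.lf (nat_lit 0) (nat_lit 7480404937) (nat_lit 456) (nat_lit 4636666847) (nat_lit 532) (nat_lit 11347031567) (nat_lit 190) (nat_lit 5) (nat_lit 196) (nat_lit 5) (nat_lit 197) (nat_lit 5) (nat_lit 642) (nat_lit 565) (nat_lit 353)) (XT.lf (nat_lit 0) (nat_lit 17331608916) (nat_lit 532) (nat_lit 2024840641) (nat_lit 76) (nat_lit 4392725022) (nat_lit 190) (nat_lit 5) (nat_lit 197) (nat_lit 5) (nat_lit 191) (nat_lit 5) (nat_lit 643) (nat_lit 565) (nat_lit 352)))))) (XT.nd (nat_lit 390) (nat_lit 1216) (nat_lit 0) (XT.nd (nat_lit 156) (nat_lit 380) (nat_lit 0) (XT.nd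 (nat_lit 78) (nat_lit 532) (nat_lit 0) (XT.lf (nat_lit 0) (nat_lit 12336364050) (nat_lit 380) (nat_lit 10419500413) (nat_lit 456) (nat_lit 1281974511) (nat_lit 185) (nat_lit 5) (nat_lit 190) (nat_lit 5) (nat_lit 191) (nat_lit 5) (nat_lit 644) (nat_lit 565) (nat_lit 351)) (XT.lf (nat_lit 0) (nat_lit 2681692119) (nat_lit 456) (nat_lit 1248481650) (nat_lit 532) (nat_lit 20401074766) (nat_lit 178) (nat_lit 5) (nat_lit 184) (nat_lit 5) (nat_lit 185) (nat_lit 5) (nat_lit 645) (nat_lit 565) (nat_lit 350))) (XT.nd (nat_lit 78) (nat_lit 380) (nat_lit 0) (XT.lf (nat_lit 0) (nat_lit 9355769017) (nat_lit 532) (nat_lit 7187430098) (nat_lit 76) (nat_lit 8084630584) (nat_lit 178) (nat_lit 5) (nat_lit 185) (nat_lit 5) (nat_lit 179) (nat_lit 5) (nat_lit 646) (nat_lit 565) (nat_lit 349)) (XT.nd (nat_lit 78) (nat_lit 0) (nat_lit 0) (XT.lf (nat_lit 0) (nat_lit 7648159828) (nat_lit 380) (nat_lit 7294426912) (nat_lit 456) (nat_lit 9986701810) (nat_lit 173) (nat_lit 5) (nat_lit 178) (nat_lit 5)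 (nat_lit 179) (nat_lit 5) (nat_lit 647) (nat_lit 565) (nat_lit 348)) (XT.lf (nat_lit 0) (nat_lit 20698402027) (nat_lit 456) (nat_lit 2379985196) (nat_lit 76) (nat_lit 2157244400) (nat_lit 173) (nat_lit 5) (nat_lit 179) (nat_lit 5) (nat_lit 174) (nat_lit 5) (nat_lit 648) (nat_lit 565) (nat_lit 347))))) (XT.nd (nat_lit 156) (nat_lit 380) (nat_lit 0) (XT.nd (nat_lit 78) (nat_lit 380) (nat_lit 0) (XT.lf (nat_lit 0) (nat_lit 1135878272) (nat_lit 456) (nat_lit 12620240160) (nat_lit 76) (nat_lit 11789289975) (nat_lit 167) (nat_lit 5) (nat_lit 173) (nat_lit 5) (nat_lit 168) (nat_lit 5) (nat_lit 649) (nat_lit 565) (nat_lit 346)) (XT.lf (nat_lit 0) (nat_lit 2705234880) (nat_lit 380) (nat_lit 4185095988) (nat_lit 456) (nat_lit 18969877572) (nat_lit 162) (nat_lit 5) (nat_lit 167) (nat_lit 5) (nat_lit 168) (nat_lit 5) (nat_lit 650) (nat_lit 565) (nat_lit 345))) (XT.nd (nat_lit 78) (nat_lit 380) (nat_lit 0) (XT.lf (nat_lit 0) (nat_lit 12876304295) (nat_lit 456) (nat_lit 7715841689) (nat_lit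 76) (nat_lit 5586830103) (nat_lit 162) (nat_lit 5) (nat_lit 168) (nat_lit 5) (nat_lit 163) (nat_lit 5) (nat_lit 651) (nat_lit 565) (nat_lit 344)) (XT.nd (nat_lit 78) (nat_lit 0) (nat_lit 0) (XT.lf (nat_lit 0) (nat_lit 8103033224) (nat_lit 380) (nat_lit 10954359352) (nat_lit 456) (nat_lit 7445218845) (nat_lit 157) (nat_lit 5) (nat_lit 162) (nat_lit 5) (nat_lit 163) (nat_lit 5) (nat_lit 652) (nat_lit 565) (nat_lit 343)) (XT.lf (nat_lit 0) (nat_lit 24335329410) (nat_lit 380) (nat_lit 1073667510) (nat_lit 456) (nat_lit 1422784897) (nat_lit 157) (nat_lit 5) (nat_lit 162) (nat_lit 5) (nat_lit 163) (nat_lit 5) (nat_lit 653) (nat_lit 565) (nat_lit 342))))))) (XT.nd (nat_lit 780) (nat_lit 1292) (nat_lit 0) (XT.nd (nat_lit 390) (nat_lit 0) (nat_lit 152) (XT.nd (nat_lit 156) (nat_lit 0) (nat_lit 76) (XT.nd (nat_lit 78) (nat_lit 0) (nat_lit 0) (XT.lf (nat_lit 0) (nat_lit 169594304) (nat_lit 1748) (nat_lit 2548476247) (nat_lit 1748) (nat_lit 2548476247) (nat_lit 511) (nat_lit 3) (nat_lit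 534) (nat_lit 3) (nat_lit 534) (nat_lit 5) (nat_lit 566) (nat_lit 566) (nat_lit 428)) (XT.lf (nat_lit 76) (nat_lit 110273539) (nat_lit 0) (nat_lit 864124405) (nat_lit 1748) (nat_lit 9651329181) (nat_lit 512) (nat_lit 5) (nat_lit 511) (nat_lit 3) (nat_lit 534) (nat_lit 5) (nat_lit 567) (nat_lit 566) (nat_lit 427))) (XT.nd (nat_lit 78) (nat_lit 0) (nat_lit 0) (XT.lf (nat_lit 0) (nat_lit 1664851724) (nat_lit 1672) (nat_lit 5262630574) (nat_lit 1748) (nat_lit 3791881821) (nat_lit 512) (nat_lit 5) (nat_lit 534) (nat_lit 5) (nat_lit 535) (nat_lit 5) (nat_lit 568) (nat_lit 566) (nat_lit 426)) (XT.nd (nat_lit 78) (nat_lit 0) (nat_lit 76) (XT.lf (nat_lit 76) (nat_lit 81833160) (nat_lit 0) (nat_lit 2277302789) (nat_lit 1748) (nat_lit 8455939046) (nat_lit 513) (nat_lit 5) (nat_lit 512) (nat_lit 5) (nat_lit 535) (nat_lit 5) (nat_lit 569) (nat_lit 566) (nat_lit 425)) (XT.lf (nat_lit 0) (nat_lit 3102941159) (nat_lit 1672) (nat_lit 5332792034) (nat_lit 1748) (nat_lit 2476255730) (nat_lit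 513) (nat_lit 5) (nat_lit 535) (nat_lit 5) (nat_lit 536) (nat_lit 5) (nat_lit 570) (nat_lit 566) (nat_lit 424))))) (XT.nd (nat_lit 156) (nat_lit 0) (nat_lit 76) (XT.nd (nat_lit 78) (nat_lit 0) (nat_lit 76) (XT.lf (nat_lit 76) (nat_lit 153702345) (nat_lit 0) (nat_lit 3708388042) (nat_lit 1748) (nat_lit 7148742892) (nat_lit 514) (nat_lit 5) (nat_lit 513) (nat_lit 5) (nat_lit 536) (nat_lit 5) (nat_lit 571) (nat_lit 566) (nat_lit 423)) (XT.lf (nat_lit 0) (nat_lit 4664354604) (nat_lit 1672) (nat_lit 5305382709) (nat_lit 1748) (nat_lit 1141360049) (nat_lit 514) (nat_lit 5) (nat_lit 536) (nat_lit 5) (nat_lit 537) (nat_lit 5) (nat_lit 572) (nat_lit 566) (nat_lit 422))) (XT.nd (nat_lit 78) (nat_lit 0) (nat_lit 0) (XT.lf (nat_lit 76) (nat_lit 328134061) (nat_lit 0) (nat_lit 5166199332) (nat_lit 1748) (nat_lit 5718801400) (nat_lit 515) (nat_lit 5) (nat_lit 514) (nat_lit 5) (nat_lit 537) (nat_lit 5) (nat_lit 573) (nat_lit 566) (nat_lit 421)) (XT.nd (nat_lit 78) (nat_lit 0) (nat_lit 76)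 (XT.lf (nat_lit 76) (nat_lit 6137285216) (nat_lit 0) (nat_lit 224444805) (nat_lit 1748) (nat_lit 4955068007) (nat_lit 515) (nat_lit 5) (nat_lit 514) (nat_lit 5) (nat_lit 537) (nat_lit 5) (nat_lit 574) (nat_lit 566) (nat_lit 420)) (XT.lf (nat_lit 76) (nat_lit 607680420) (nat_lit 0) (nat_lit 6659552584) (nat_lit 1748) (nat_lit 4154887751) (nat_lit 516) (nat_lit 5) (nat_lit 515) (nat_lit 5) (nat_lit 538) (nat_lit 5) (nat_lit 575) (nat_lit 566) (nat_lit 419)))))) (XT.nd (nat_lit 390) (nat_lit 0) (nat_lit 76) (XT.nd (nat_lit 156) (nat_lit 1596) (nat_lit 0) (XT.nd (nat_lit 78) (nat_lit 0) (nat_lit 76) (XT.lf (nat_lit 76) (nat_lit 6570276257) (nat_lit 0) (nat_lit 1642571745) (nat_lit 1748) (nat_lit 3316263261) (nat_lit 516) (nat_lit 5) (nat_lit 515) (nat_lit 5) (nat_lit 538) (nat_lit 5) (nat_lit 576) (nat_lit 566) (nat_lit 418)) (XT.lf (nat_lit 76) (nat_lit 995193350) (nat_lit 0) (nat_lit 8197283943) (nat_lit 1748) (nat_lit 2445463589) (nat_lit 517) (nat_lit 5) (nat_lit 516) (nat_lit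 5) (nat_lit 539) (nat_lit 5) (nat_lit 577) (nat_lit 566) (nat_lit 417))) (XT.nd (nat_lit 78) (nat_lit 1672) (nat_lit 0) (XT.lf (nat_lit 76) (nat_lit 7115377624) (nat_lit 0) (nat_lit 3106698218) (nat_lit 1748) (nat_lit 1526265032) (nat_lit 517) (nat_lit 5) (nat_lit 516) (nat_lit 5) (nat_lit 539) (nat_lit 5) (nat_lit 578) (nat_lit 566) (nat_lit 416)) (XT.nd (nat_lit 78) (nat_lit 1748) (nat_lit 0) (XT.lf (nat_lit 76) (nat_lit 1493825933) (nat_lit 0) (nat_lit 9788272903) (nat_lit 1748) (nat_lit 578654668) (nat_lit 518) (nat_lit 5) (nat_lit 517) (nat_lit 5) (nat_lit 540) (nat_lit 5) (nat_lit 579) (nat_lit 566) (nat_lit 415)) (XT.lf (nat_lit 0) (nat_lit 421396524) (nat_lit 1748) (nat_lit 4201497209) (nat_lit 1824) (nat_lit 7351700000) (nat_lit 494) (nat_lit 5) (nat_lit 517) (nat_lit 5) (nat_lit 518) (nat_lit 5) (nat_lit 580) (nat_lit 566) (nat_lit 414))))) (XT.nd (nat_lit 234) (nat_lit 0) (nat_lit 76) (XT.nd (nat_lit 78) (nat_lit 0) (nat_lit 0) (XT.lf (nat_lit 0) (nat_lit 1438654888)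 (nat_lit 1748) (nat_lit 9993156140) (nat_lit 1824) (nat_lit 658725366) (nat_lit 495) (nat_lit 5) (nat_lit 518) (nat_lit 5) (nat_lit 519) (nat_lit 5) (nat_lit 581) (nat_lit 566) (nat_lit 413)) (XT.nd (nat_lit 78) (nat_lit 0) (nat_lit 0) (XT.lf (nat_lit 0) (nat_lit 2522442214) (nat_lit 1748) (nat_lit 3669244448) (nat_lit 1824) (nat_lit 6016188761) (nat_lit 495) (nat_lit 5) (nat_lit 518) (nat_lit 5) (nat_lit 519) (nat_lit 5) (nat_lit 582) (nat_lit 566) (nat_lit 412)) (XT.lf (nat_lit 76) (nat_lit 2808771067) (nat_lit 0) (nat_lit 824809475) (nat_lit 1824) (nat_lit 8693868352) (nat_lit 496) (nat_lit 5) (nat_lit 495) (nat_lit 5) (nat_lit 519) (nat_lit 5) (nat_lit 583) (nat_lit 566) (nat_lit 411)))) (XT.nd (nat_lit 78) (nat_lit 0) (nat_lit 0) (XT.lf (nat_lit 0) (nat_lit 4809560943) (nat_lit 1748) (nat_lit 3022607898) (nat_lit 1824) (nat_lit 4616393751) (nat_lit 496) (nat_lit 5) (nat_lit 519) (nat_lit 5) (nat_lit 520) (nat_lit 5) (nat_lit 584) (nat_lit 566) (nat_lit 410)) (XT.nd (nat_lit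 78) (nat_lit 0) (nat_lit 76) (XT.lf (nat_lit 76) (nat_lit 3636376675) (nat_lit 0) (nat_lit 2389645241) (nat_lit 1824) (nat_lit 6545738552) (nat_lit 497) (nat_lit 5) (nat_lit 496) (nat_lit 5) (nat_lit 520) (nat_lit 5) (nat_lit 585) (nat_lit 566) (nat_lit 409)) (XT.lf (nat_lit 0) (nat_lit 7295842450) (nat_lit 1748) (nat_lit 2257598893) (nat_lit 1824) (nat_lit 3143401448) (nat_lit 497) (nat_lit 5) (nat_lit 520) (nat_lit 5) (nat_lit 521) (nat_lit 5) (nat_lit 586) (nat_lit 566) (nat_lit 408))))))))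
noncomputable def xc169 : XT := (XT.nd (nat_lit 1560) (nat_lit 8360) (nat_lit 0) (XT.nd (nat_lit 780) (nat_lit 4332) (nat_lit 0) (XT.nd (nat_lit 390) (nat_lit 3800) (nat_lit 0) (XT.nd (nat_lit 156) (nat_lit 1672) (nat_lit 0) (XT.nd (nat_lit 78) (nat_lit 0) (nat_lit 76) (XT.lf (nat_lit 76) (nat_lit 4588851739) (nat_lit 0) (nat_lit 4036145310) (nat_lit 1824) (nat_lit 4198752038) (nat_lit 498) (nat_lit 5) (nat_lit 497) (nat_lit 5) (nat_lit 521) (nat_lit 5) (nat_lit 587) (nat_lit 566) (nat_lit 407)) (XT.lf (nat_lit 0) (nat_lit 9994820616) (nat_lit 1748) (nat_lit 1369923836) (nat_lit 1824) (nat_lit 1588168396) (nat_lit 498) (nat_lit 5) (nat_lit 521) (nat_lit 5) (nat_lit 522) (nat_lit 5) (nat_lit 588) (nat_lit 566) (nat_lit 406))) (XT.nd (nat_lit 78) (nat_lit 1748) (nat_lit 0) (XT.lf (nat_lit 76) (nat_lit 5670743835) (nat_lit 0) (nat_lit 5773572739) (nat_lit 1824) (nat_lit 1639298827) (nat_lit 499) (nat_lit 5) (nat_lit 498) (nat_lit 5) (nat_lit 522) (nat_lit 5) (nat_lit 589) (nat_lit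 566) (nat_lit 405)) (XT.nd (nat_lit 78) (nat_lit 1748) (nat_lit 0) (XT.lf (nat_lit 76) (nat_lit 12861606689) (nat_lit 0) (nat_lit 59278287) (nat_lit 1824) (nat_lit 296086394) (nat_lit 499) (nat_lit 5) (nat_lit 498) (nat_lit 5) (nat_lit 522) (nat_lit 5) (nat_lit 590) (nat_lit 566) (nat_lit 404)) (XT.lf (nat_lit 0) (nat_lit 1131668142) (nat_lit 1824) (nat_lit 6472096198) (nat_lit 76) (nat_lit 5747656367) (nat_lit 475) (nat_lit 5) (nat_lit 499) (nat_lit 5) (nat_lit 476) (nat_lit 5) (nat_lit 591) (nat_lit 566) (nat_lit 403))))) (XT.nd (nat_lit 156) (nat_lit 1976) (nat_lit 0) (XT.nd (nat_lit 78) (nat_lit 0) (nat_lit 0) (XT.lf (nat_lit 0) (nat_lit 773465689) (nat_lit 1824) (nat_lit 1807567542) (nat_lit 1900) (nat_lit 10907547211) (nat_lit 451) (nat_lit 5) (nat_lit 475) (nat_lit 5) (nat_lit 476) (nat_lit 5) (nat_lit 592) (nat_lit 566) (nat_lit 402)) (XT.lf (nat_lit 0) (nat_lit 4119115956) (nat_lit 1900) (nat_lit 5412366080) (nat_lit 76) (nat_lit 4095807669) (nat_lit 451) (nat_lit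 5) (nat_lit 476) (nat_lit 5) (nat_lit 452) (nat_lit 5) (nat_lit 593) (nat_lit 566) (nat_lit 401))) (XT.nd (nat_lit 78) (nat_lit 912) (nat_lit 0) (XT.lf (nat_lit 0) (nat_lit 2041949409) (nat_lit 1064) (nat_lit 3660809903) (nat_lit 1140) (nat_lit 8065718780) (nat_lit 437) (nat_lit 5) (nat_lit 451) (nat_lit 5) (nat_lit 452) (nat_lit 5) (nat_lit 594) (nat_lit 566) (nat_lit 400)) (XT.nd (nat_lit 78) (nat_lit 912) (nat_lit 0) (XT.lf (nat_lit 0) (nat_lit 7359468080) (nat_lit 1140) (nat_lit 4217847618) (nat_lit 76) (nat_lit 2334347601) (nat_lit 437) (nat_lit 5) (nat_lit 452) (nat_lit 5) (nat_lit 438) (nat_lit 5) (nat_lit 595) (nat_lit 566) (nat_lit 399)) (XT.lf (nat_lit 0) (nat_lit 3452782176) (nat_lit 912) (nat_lit 5633113875) (nat_lit 988) (nat_lit 4971085342) (nat_lit 425) (nat_lit 5) (nat_lit 437) (nat_lit 5) (nat_lit 438) (nat_lit 5) (nat_lit 596) (nat_lit 566) (nat_lit 398)))))) (XT.nd (nat_lit 390) (nat_lit 1672) (nat_lit 0) (XT.nd (nat_lit 156) (nat_lit 1748) (nat_lit 0) (XT.nd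 (nat_lit 78) (nat_lit 912) (nat_lit 0) (XT.lf (nat_lit 0) (nat_lit 10868201758) (nat_lit 988) (nat_lit 2883028708) (nat_lit 76) (nat_lit 453549267) (nat_lit 425) (nat_lit 5) (nat_lit 438) (nat_lit 5) (nat_lit 426) (nat_lit 5) (nat_lit 597) (nat_lit 566) (nat_lit 397)) (XT.lf (nat_lit 0) (nat_lit 5011766080) (nat_lit 912) (nat_lit 7734493472) (nat_lit 988) (nat_lit 1608073218) (nat_lit 413) (nat_lit 5) (nat_lit 425) (nat_lit 5) (nat_lit 426) (nat_lit 5) (nat_lit 598) (nat_lit 566) (nat_lit 396))) (XT.nd (nat_lit 78) (nat_lit 1672) (nat_lit 0) (XT.lf (nat_lit 0) (nat_lit 162771418) (nat_lit 988) (nat_lit 1413380078) (nat_lit 76) (nat_lit 12930510007) (nat_lit 412) (nat_lit 5) (nat_lit 425) (nat_lit 5) (nat_lit 413) (nat_lit 5) (nat_lit 599) (nat_lit 566) (nat_lit 395)) (XT.nd (nat_lit 78) (nat_lit 836) (nat_lit 0) (XT.lf (nat_lit 0) (nat_lit 2012732160) (nat_lit 912) (nat_lit 7948984950) (nat_lit 76) (nat_lit 4698803289) (nat_lit 401) (nat_lit 5) (nat_lit 413) (nat_lit 5) (nat_lit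 402) (nat_lit 5) (nat_lit 600) (nat_lit 566) (nat_lit 394)) (XT.lf (nat_lit 0) (nat_lit 183506718) (nat_lit 836) (nat_lit 3728008962) (nat_lit 912) (nat_lit 10905705107) (nat_lit 390) (nat_lit 5) (nat_lit 401) (nat_lit 5) (nat_lit 402) (nat_lit 5) (nat_lit 601) (nat_lit 566) (nat_lit 393))))) (XT.nd (nat_lit 156) (nat_lit 836) (nat_lit 0) (XT.nd (nat_lit 78) (nat_lit 836) (nat_lit 0) (XT.lf (nat_lit 0) (nat_lit 5909818944) (nat_lit 912) (nat_lit 6416386169) (nat_lit 76) (nat_lit 2649619957) (nat_lit 390) (nat_lit 5) (nat_lit 402) (nat_lit 5) (nat_lit 391) (nat_lit 5) (nat_lit 602) (nat_lit 566) (nat_lit 392)) (XT.lf (nat_lit 0) (nat_lit 1957085405) (nat_lit 836) (nat_lit 6019350144) (nat_lit 912) (nat_lit 7160599700) (nat_lit 379) (nat_lit 5) (nat_lit 390) (nat_lit 5) (nat_lit 391) (nat_lit 5) (nat_lit 603) (nat_lit 566) (nat_lit 391))) (XT.nd (nat_lit 78) (nat_lit 836) (nat_lit 0) (XT.lf (nat_lit 0) (nat_lit 10121481332) (nat_lit 912) (nat_lit 4727876359) (nat_lit 76) (nat_lit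 451370742) (nat_lit 379) (nat_lit 5) (nat_lit 391) (nat_lit 5) (nat_lit 380) (nat_lit 5) (nat_lit 604) (nat_lit 566) (nat_lit 390)) (XT.nd (nat_lit 78) (nat_lit 0) (nat_lit 0) (XT.lf (nat_lit 0) (nat_lit 3895346556) (nat_lit 836) (nat_lit 8470479750) (nat_lit 912) (nat_lit 3100741937) (nat_lit 368) (nat_lit 5) (nat_lit 379) (nat_lit 5) (nat_lit 380) (nat_lit 5) (nat_lit 605) (nat_lit 566) (nat_lit 389)) (XT.lf (nat_lit 0) (nat_lit 12746064555) (nat_lit 836) (nat_lit 1932076903) (nat_lit 912) (nat_lit 957122434) (nat_lit 368) (nat_lit 5) (nat_lit 379) (nat_lit 5) (nat_lit 380) (nat_lit 5) (nat_lit 606) (nat_lit 566) (nat_lit 388))))))) (XT.nd (nat_lit 780) (nat_lit 3876) (nat_lit 0) (XT.nd (nat_lit 390) (nat_lit 2204) (nat_lit 0) (XT.nd (nat_lit 156) (nat_lit 1444) (nat_lit 0) (XT.nd (nat_lit 78) (nat_lit 0) (nat_lit 0) (XT.lf (nat_lit 0) (nat_lit 1274922261) (nat_lit 836) (nat_lit 9809074018) (nat_lit 76) (nat_lit 4721944699) (nat_lit 357) (nat_lit 5) (nat_lit 368) (nat_lit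 5) (nat_lit 358) (nat_lit 5) (nat_lit 607) (nat_lit 566) (nat_lit 387)) (XT.lf (nat_lit 0) (nat_lit 3562690957) (nat_lit 836) (nat_lit 908187615) (nat_lit 76) (nat_lit 11508549191) (nat_lit 357) (nat_lit 5) (nat_lit 368) (nat_lit 5) (nat_lit 358) (nat_lit 5) (nat_lit 608) (nat_lit 566) (nat_lit 386))) (XT.nd (nat_lit 78) (nat_lit 684) (nat_lit 0) (XT.lf (nat_lit 0) (nat_lit 5956770451) (nat_lit 836) (nat_lit 7900334226) (nat_lit 76) (nat_lit 2298069156) (nat_lit 347) (nat_lit 5) (nat_lit 358) (nat_lit 5) (nat_lit 348) (nat_lit 5) (nat_lit 609) (nat_lit 566) (nat_lit 385)) (XT.nd (nat_lit 78) (nat_lit 0) (nat_lit 0) (XT.lf (nat_lit 0) (nat_lit 1256939248) (nat_lit 684) (nat_lit 7177536754) (nat_lit 760) (nat_lit 7899244577) (nat_lit 338) (nat_lit 5) (nat_lit 347) (nat_lit 5) (nat_lit 348) (nat_lit 5) (nat_lit 610) (nat_lit 566) (nat_lit 384)) (XT.lf (nat_lit 0) (nat_lit 10695486591) (nat_lit 684) (nat_lit 311206615) (nat_lit 760) (nat_lit 5508246535) (nat_lit 338) (nat_lit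 5) (nat_lit 347) (nat_lit 5) (nat_lit 348) (nat_lit 5) (nat_lit 611) (nat_lit 566) (nat_lit 383))))) (XT.nd (nat_lit 156) (nat_lit 1444) (nat_lit 0) (XT.nd (nat_lit 78) (nat_lit 0) (nat_lit 0) (XT.lf (nat_lit 0) (nat_lit 3618081731) (nat_lit 760) (nat_lit 10071310212) (nat_lit 836) (nat_lit 3009211218) (nat_lit 328) (nat_lit 5) (nat_lit 338) (nat_lit 5) (nat_lit 339) (nat_lit 5) (nat_lit 612) (nat_lit 566) (nat_lit 382)) (XT.lf (nat_lit 0) (nat_lit 13312282156) (nat_lit 760) (nat_lit 3146753235) (nat_lit 836) (nat_lit 426239252) (nat_lit 328) (nat_lit 5) (nat_lit 338) (nat_lit 5) (nat_lit 339) (nat_lit 5) (nat_lit 613) (nat_lit 566) (nat_lit 381))) (XT.nd (nat_lit 78) (nat_lit 684) (nat_lit 0) (XT.lf (nat_lit 0) (nat_lit 2237644758) (nat_lit 760) (nat_lit 10917900428) (nat_lit 76) (nat_lit 3918683862) (nat_lit 318) (nat_lit 5) (nat_lit 328) (nat_lit 5) (nat_lit 319) (nat_lit 5) (nat_lit 614) (nat_lit 566) (nat_lit 380)) (XT.nd (nat_lit 78) (nat_lit 684) (nat_lit 0) (XT.lf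 (nat_lit 0) (nat_lit 4986459744) (nat_lit 760) (nat_lit 1170532322) (nat_lit 76) (nat_lit 11109167486) (nat_lit 318) (nat_lit 5) (nat_lit 328) (nat_lit 5) (nat_lit 319) (nat_lit 5) (nat_lit 615) (nat_lit 566) (nat_lit 379)) (XT.lf (nat_lit 0) (nat_lit 7847179002) (nat_lit 760) (nat_lit 8588155290) (nat_lit 76) (nat_lit 1025456376) (nat_lit 309) (nat_lit 5) (nat_lit 319) (nat_lit 5) (nat_lit 310) (nat_lit 5) (nat_lit 616) (nat_lit 566) (nat_lit 378)))))) (XT.nd (nat_lit 390) (nat_lit 1900) (nat_lit 0) (XT.nd (nat_lit 156) (nat_lit 1368) (nat_lit 0) (XT.nd (nat_lit 78) (nat_lit 0) (nat_lit 0) (XT.lf (nat_lit 0) (nat_lit 1442664716) (nat_lit 608) (nat_lit 9373108053) (nat_lit 684) (nat_lit 6842528983) (nat_lit 301) (nat_lit 5) (nat_lit 309) (nat_lit 5) (nat_lit 310) (nat_lit 5) (nat_lit 617) (nat_lit 566) (nat_lit 377)) (XT.lf (nat_lit 0) (nat_lit 11781768470) (nat_lit 608) (nat_lit 2112300761) (nat_lit 684) (nat_lit 3964687751) (nat_lit 301) (nat_lit 5) (nat_lit 309) (nat_lit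 5) (nat_lit 310) (nat_lit 5) (nat_lit 618) (nat_lit 566) (nat_lit 376))) (XT.nd (nat_lit 78) (nat_lit 684) (nat_lit 0) (XT.lf (nat_lit 0) (nat_lit 4277451872) (nat_lit 684) (nat_lit 12811455869) (nat_lit 760) (nat_lit 973214581) (nat_lit 292) (nat_lit 5) (nat_lit 301) (nat_lit 5) (nat_lit 302) (nat_lit 5) (nat_lit 619) (nat_lit 566) (nat_lit 375)) (XT.nd (nat_lit 78) (nat_lit 608) (nat_lit 0) (XT.lf (nat_lit 0) (nat_lit 2098742785) (nat_lit 760) (nat_lit 3383882515) (nat_lit 76) (nat_lit 12785702145) (nat_lit 291) (nat_lit 5) (nat_lit 301) (nat_lit 5) (nat_lit 292) (nat_lit 5) (nat_lit 620) (nat_lit 566) (nat_lit 374)) (XT.lf (nat_lit 0) (nat_lit 5272849075) (nat_lit 684) (nat_lit 11185289257) (nat_lit 76) (nat_lit 2019315355) (nat_lit 283) (nat_lit 5) (nat_lit 292) (nat_lit 5) (nat_lit 284) (nat_lit 5) (nat_lit 621) (nat_lit 566) (nat_lit 373))))) (XT.nd (nat_lit 234) (nat_lit 684) (nat_lit 0) (XT.nd (nat_lit 78) (nat_lit 1216) (nat_lit 0) (XT.lf (nat_lit 0) (nat_lit 8562685965)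 (nat_lit 684) (nat_lit 507814191) (nat_lit 76) (nat_lit 9619217818) (nat_lit 283) (nat_lit 5) (nat_lit 292) (nat_lit 5) (nat_lit 284) (nat_lit 5) (nat_lit 622) (nat_lit 566) (nat_lit 372)) (XT.nd (nat_lit 78) (nat_lit 608) (nat_lit 0) (XT.lf (nat_lit 0) (nat_lit 10512606209) (nat_lit 608) (nat_lit 1467185532) (nat_lit 684) (nat_lit 6925206841) (nat_lit 275) (nat_lit 5) (nat_lit 283) (nat_lit 5) (nat_lit 284) (nat_lit 5) (nat_lit 623) (nat_lit 566) (nat_lit 371)) (XT.lf (nat_lit 0) (nat_lit 2620777690) (nat_lit 608) (nat_lit 12899019654) (nat_lit 684) (nat_lit 3603696772) (nat_lit 267) (nat_lit 5) (nat_lit 275) (nat_lit 5) (nat_lit 276) (nat_lit 5) (nat_lit 624) (nat_lit 566) (nat_lit 370)))) (XT.nd (nat_lit 78) (nat_lit 684) (nat_lit 0) (XT.lf (nat_lit 0) (nat_lit 13949636380) (nat_lit 608) (nat_lit 5240297620) (nat_lit 684) (nat_lit 155239402) (nat_lit 267) (nat_lit 5) (nat_lit 275) (nat_lit 5) (nat_lit 276) (nat_lit 5) (nat_lit 625) (nat_lit 566) (nat_lit 369)) (XT.nd (nat_lit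 78) (nat_lit 0) (nat_lit 0) (XT.lf (nat_lit 0) (nat_lit 3367464432) (nat_lit 684) (nat_lit 13605290517) (nat_lit 76) (nat_lit 2597107715) (nat_lit 258) (nat_lit 5) (nat_lit 267) (nat_lit 5) (nat_lit 259) (nat_lit 5) (nat_lit 626) (nat_lit 566) (nat_lit 368)) (XT.lf (nat_lit 0) (nat_lit 7023205956) (nat_lit 684) (nat_lit 2217745747) (nat_lit 76) (nat_lit 10556780676) (nat_lit 258) (nat_lit 5) (nat_lit 267) (nat_lit 5) (nat_lit 259) (nat_lit 5) (nat_lit 627) (nat_lit 566) (nat_lit 367))))))))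
noncomputable def xc170 : XT := (XT.nd (nat_lit 1560) (nat_lit 1596) (nat_lit 0) (XT.nd (nat_lit 780) (nat_lit 2812) (nat_lit 0) (XT.nd (nat_lit 390) (nat_lit 1596) (nat_lit 0) (XT.nd (nat_lit 156) (nat_lit 608) (nat_lit 0) (XT.nd (nat_lit 78) (nat_lit 532) (nat_lit 0) (XT.lf (nat_lit 0) (nat_lit 9514020374) (nat_lit 532) (nat_lit 1293450220) (nat_lit 608) (nat_lit 9221581152) (nat_lit 251) (nat_lit 5) (nat_lit 258) (nat_lit 5) (nat_lit 259) (nat_lit 5) (nat_lit 628) (nat_lit 566) (nat_lit 366)) (XT.lf (nat_lit 0) (nat_lit 1208939975) (nat_lit 532) (nat_lit 13519240516) (nat_lit 608) (nat_lit 5535602228) (nat_lit 244) (nat_lit 5) (nat_lit 251) (nat_lit 5) (nat_lit 252) (nat_lit 5) (nat_lit 629) (nat_lit 566) (nat_lit 365))) (XT.nd (nat_lit 78) (nat_lit 608) (nat_lit 0) (XT.lf (nat_lit 0) (nat_lit 13292933581) (nat_lit 532) (nat_lit 5507206998) (nat_lit 608) (nat_lit 1701611419) (nat_lit 244) (nat_lit 5) (nat_lit 251) (nat_lit 5) (nat_lit 252) (nat_lit 5) (nat_lit 630) (nat_lit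 566) (nat_lit 364)) (XT.nd (nat_lit 78) (nat_lit 0) (nat_lit 0) (XT.lf (nat_lit 0) (nat_lit 2223447804) (nat_lit 608) (nat_lit 15845247526) (nat_lit 76) (nat_lit 2674631657) (nat_lit 236) (nat_lit 5) (nat_lit 244) (nat_lit 5) (nat_lit 237) (nat_lit 5) (nat_lit 631) (nat_lit 566) (nat_lit 363)) (XT.lf (nat_lit 0) (nat_lit 6283312267) (nat_lit 608) (nat_lit 3700279167) (nat_lit 76) (nat_lit 11004335700) (nat_lit 236) (nat_lit 5) (nat_lit 244) (nat_lit 5) (nat_lit 237) (nat_lit 5) (nat_lit 632) (nat_lit 566) (nat_lit 362))))) (XT.nd (nat_lit 156) (nat_lit 608) (nat_lit 0) (XT.nd (nat_lit 78) (nat_lit 456) (nat_lit 0) (XT.lf (nat_lit 0) (nat_lit 8794811506) (nat_lit 532) (nat_lit 1680684296) (nat_lit 608) (nat_lit 10760901425) (nat_lit 229) (nat_lit 5) (nat_lit 236) (nat_lit 5) (nat_lit 237) (nat_lit 5) (nat_lit 633) (nat_lit 566) (nat_lit 361)) (XT.lf (nat_lit 0) (nat_lit 48850529) (nat_lit 456) (nat_lit 14766129846) (nat_lit 532) (nat_lit 6673587568) (nat_lit 223) (nat_lit 5)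 (nat_lit 229) (nat_lit 5) (nat_lit 230) (nat_lit 5) (nat_lit 634) (nat_lit 566) (nat_lit 360))) (XT.nd (nat_lit 78) (nat_lit 608) (nat_lit 0) (XT.lf (nat_lit 0) (nat_lit 12938346138) (nat_lit 456) (nat_lit 6391589671) (nat_lit 532) (nat_lit 2414073005) (nat_lit 223) (nat_lit 5) (nat_lit 229) (nat_lit 5) (nat_lit 230) (nat_lit 5) (nat_lit 635) (nat_lit 566) (nat_lit 359)) (XT.nd (nat_lit 78) (nat_lit 0) (nat_lit 0) (XT.lf (nat_lit 0) (nat_lit 1940443519) (nat_lit 608) (nat_lit 17903635070) (nat_lit 76) (nat_lit 2159526918) (nat_lit 215) (nat_lit 5) (nat_lit 223) (nat_lit 5) (nat_lit 216) (nat_lit 5) (nat_lit 636) (nat_lit 566) (nat_lit 358)) (XT.lf (nat_lit 0) (nat_lit 6445824548) (nat_lit 608) (nat_lit 4950925477) (nat_lit 76) (nat_lit 10869403336) (nat_lit 215) (nat_lit 5) (nat_lit 223) (nat_lit 5) (nat_lit 216) (nat_lit 5) (nat_lit 637) (nat_lit 566) (nat_lit 357)))))) (XT.nd (nat_lit 390) (nat_lit 1368) (nat_lit 0) (XT.nd (nat_lit 156) (nat_lit 988) (nat_lit 0) (XT.nd (nat_lit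 78) (nat_lit 0) (nat_lit 0) (XT.lf (nat_lit 0) (nat_lit 8362588224) (nat_lit 456) (nat_lit 2727391059) (nat_lit 532) (nat_lit 11442999904) (nat_lit 209) (nat_lit 5) (nat_lit 215) (nat_lit 5) (nat_lit 216) (nat_lit 5) (nat_lit 638) (nat_lit 566) (nat_lit 356)) (XT.lf (nat_lit 0) (nat_lit 15894580297) (nat_lit 532) (nat_lit 842890277) (nat_lit 76) (nat_lit 6066320020) (nat_lit 209) (nat_lit 5) (nat_lit 216) (nat_lit 5) (nat_lit 210) (nat_lit 5) (nat_lit 639) (nat_lit 566) (nat_lit 355))) (XT.nd (nat_lit 78) (nat_lit 532) (nat_lit 0) (XT.lf (nat_lit 0) (nat_lit 12894395301) (nat_lit 456) (nat_lit 7997183604) (nat_lit 532) (nat_lit 2186513535) (nat_lit 203) (nat_lit 5) (nat_lit 209) (nat_lit 5) (nat_lit 210) (nat_lit 5) (nat_lit 640) (nat_lit 566) (nat_lit 354)) (XT.nd (nat_lit 78) (nat_lit 0) (nat_lit 0) (XT.lf (nat_lit 0) (nat_lit 2625881247) (nat_lit 532) (nat_lit 19781207067) (nat_lit 76) (nat_lit 949855814) (nat_lit 196) (nat_lit 5) (nat_lit 203) (nat_lit 5) (nat_lit 197)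 (nat_lit 5) (nat_lit 641) (nat_lit 566) (nat_lit 353)) (XT.lf (nat_lit 0) (nat_lit 7621611986) (nat_lit 532) (nat_lit 5967375568) (nat_lit 76) (nat_lit 10049769232) (nat_lit 196) (nat_lit 5) (nat_lit 203) (nat_lit 5) (nat_lit 197) (nat_lit 5) (nat_lit 642) (nat_lit 566) (nat_lit 352))))) (XT.nd (nat_lit 156) (nat_lit 912) (nat_lit 0) (XT.nd (nat_lit 78) (nat_lit 0) (nat_lit 0) (XT.lf (nat_lit 0) (nat_lit 8222853380) (nat_lit 456) (nat_lit 4542484424) (nat_lit 532) (nat_lit 11159906583) (nat_lit 190) (nat_lit 5) (nat_lit 196) (nat_lit 5) (nat_lit 197) (nat_lit 5) (nat_lit 643) (nat_lit 566) (nat_lit 351)) (XT.lf (nat_lit 0) (nat_lit 18077396157) (nat_lit 532) (nat_lit 1477329812) (nat_lit 76) (nat_lit 4661426902) (nat_lit 190) (nat_lit 5) (nat_lit 197) (nat_lit 5) (nat_lit 191) (nat_lit 5) (nat_lit 644) (nat_lit 566) (nat_lit 350))) (XT.nd (nat_lit 78) (nat_lit 532) (nat_lit 0) (XT.lf (nat_lit 0) (nat_lit 13167230501) (nat_lit 380) (nat_lit 10438872364) (nat_lit 456) (nat_lit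 904568802) (nat_lit 185) (nat_lit 5) (nat_lit 190) (nat_lit 5) (nat_lit 191) (nat_lit 5) (nat_lit 645) (nat_lit 566) (nat_lit 349)) (XT.nd (nat_lit 78) (nat_lit 0) (nat_lit 0) (XT.lf (nat_lit 0) (nat_lit 3320894444) (nat_lit 456) (nat_lit 1081644689) (nat_lit 532) (nat_lit 20407438312) (nat_lit 178) (nat_lit 5) (nat_lit 184) (nat_lit 5) (nat_lit 185) (nat_lit 5) (nat_lit 646) (nat_lit 566) (nat_lit 348)) (XT.lf (nat_lit 0) (nat_lit 9930146382) (nat_lit 532) (nat_lit 6750571633) (nat_lit 76) (nat_lit 8431902624) (nat_lit 178) (nat_lit 5) (nat_lit 185) (nat_lit 5) (nat_lit 179) (nat_lit 5) (nat_lit 647) (nat_lit 566) (nat_lit 347))))))) (XT.nd (nat_lit 75192) (nat_lit 0) (nat_lit 25612) (XT.nd (nat_lit 390) (nat_lit 380) (nat_lit 0) (XT.nd (nat_lit 156) (nat_lit 836) (nat_lit 0) (XT.nd (nat_lit 78) (nat_lit 0) (nat_lit 0) (XT.lf (nat_lit 0) (nat_lit 8377910308) (nat_lit 380) (nat_lit 7246941664) (nat_lit 456) (nat_lit 9795334064) (nat_lit 173) (nat_lit 5) (nat_lit 178) (nat_lit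 5) (nat_lit 179) (nat_lit 5) (nat_lit 648) (nat_lit 566) (nat_lit 346)) (XT.lf (nat_lit 0) (nat_lit 21489496546) (nat_lit 456) (nat_lit 1855800530) (nat_lit 76) (nat_lit 2387485027) (nat_lit 173) (nat_lit 5) (nat_lit 179) (nat_lit 5) (nat_lit 174) (nat_lit 5) (nat_lit 649) (nat_lit 566) (nat_lit 345))) (XT.nd (nat_lit 78) (nat_lit 380) (nat_lit 0) (XT.lf (nat_lit 0) (nat_lit 1534507623) (nat_lit 456) (nat_lit 12299607803) (nat_lit 76) (nat_lit 12214664054) (nat_lit 167) (nat_lit 5) (nat_lit 173) (nat_lit 5) (nat_lit 168) (nat_lit 5) (nat_lit 650) (nat_lit 566) (nat_lit 344)) (XT.nd (nat_lit 78) (nat_lit 0) (nat_lit 0) (XT.lf (nat_lit 0) (nat_lit 3328606756) (nat_lit 380) (nat_lit 4071767755) (nat_lit 456) (nat_lit 18969574866) (nat_lit 162) (nat_lit 5) (nat_lit 167) (nat_lit 5) (nat_lit 168) (nat_lit 5) (nat_lit 651) (nat_lit 566) (nat_lit 343)) (XT.lf (nat_lit 0) (nat_lit 13500022809) (nat_lit 456) (nat_lit 7305990719) (nat_lit 76) (nat_lit 5889200104) (nat_lit 162) (nat_lit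 5) (nat_lit 168) (nat_lit 5) (nat_lit 163) (nat_lit 5) (nat_lit 652) (nat_lit 566) (nat_lit 342))))) (XT.nd (nat_lit 74568) (nat_lit 0) (nat_lit 26904) (XT.nd (nat_lit 74490) (nat_lit 0) (nat_lit 26904) (XT.lf (nat_lit 0) (nat_lit 8825550062) (nat_lit 380) (nat_lit 10975641404) (nat_lit 456) (nat_lit 7224201391) (nat_lit 157) (nat_lit 5) (nat_lit 162) (nat_lit 5) (nat_lit 163) (nat_lit 5) (nat_lit 653) (nat_lit 566) (nat_lit 341)) (XT.lf (nat_lit 0) (nat_lit 799990141) (nat_lit 1748) (nat_lit 2279643425) (nat_lit 1748) (nat_lit 2279643425) (nat_lit 511) (nat_lit 3) (nat_lit 534) (nat_lit 3) (nat_lit 534) (nat_lit 5) (nat_lit 567) (nat_lit 567) (nat_lit 426))) (XT.nd (nat_lit 78) (nat_lit 0) (nat_lit 76) (XT.lf (nat_lit 76) (nat_lit 747875778) (nat_lit 0) (nat_lit 1479555054) (nat_lit 1748) (nat_lit 8586020989) (nat_lit 512) (nat_lit 5) (nat_lit 511) (nat_lit 3) (nat_lit 534) (nat_lit 5) (nat_lit 568) (nat_lit 567) (nat_lit 425)) (XT.nd (nat_lit 78) (nat_lit 0) (nat_lit 0)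 (XT.lf (nat_lit 0) (nat_lit 2903699105) (nat_lit 1672) (nat_lit 4716833979) (nat_lit 1748) (nat_lit 3288990693) (nat_lit 512) (nat_lit 5) (nat_lit 534) (nat_lit 5) (nat_lit 535) (nat_lit 5) (nat_lit 569) (nat_lit 567) (nat_lit 424)) (XT.lf (nat_lit 76) (nat_lit 730235811) (nat_lit 0) (nat_lit 2862194196) (nat_lit 1748) (nat_lit 7415109931) (nat_lit 513) (nat_lit 5) (nat_lit 512) (nat_lit 5) (nat_lit 535) (nat_lit 5) (nat_lit 570) (nat_lit 567) (nat_lit 423)))))) (XT.nd (nat_lit 390) (nat_lit 1444) (nat_lit 0) (XT.nd (nat_lit 156) (nat_lit 0) (nat_lit 76) (XT.nd (nat_lit 78) (nat_lit 0) (nat_lit 0) (XT.lf (nat_lit 0) (nat_lit 4324421110) (nat_lit 1672) (nat_lit 4778561274) (nat_lit 1748) (nat_lit 2003945805) (nat_lit 513) (nat_lit 5) (nat_lit 535) (nat_lit 5) (nat_lit 536) (nat_lit 5) (nat_lit 571) (nat_lit 567) (nat_lit 422)) (XT.lf (nat_lit 76) (nat_lit 813315054) (nat_lit 0) (nat_lit 4266967206) (nat_lit 1748) (nat_lit 6127838793) (nat_lit 514) (nat_lit 5) (nat_lit 513)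 (nat_lit 5) (nat_lit 536) (nat_lit 5) (nat_lit 572) (nat_lit 567) (nat_lit 421))) (XT.nd (nat_lit 78) (nat_lit 0) (nat_lit 0) (XT.lf (nat_lit 0) (nat_lit 5873136740) (nat_lit 1672) (nat_lit 4742262252) (nat_lit 1748) (nat_lit 695502681) (nat_lit 514) (nat_lit 5) (nat_lit 536) (nat_lit 5) (nat_lit 537) (nat_lit 5) (nat_lit 573) (nat_lit 567) (nat_lit 420)) (XT.nd (nat_lit 78) (nat_lit 0) (nat_lit 0) (XT.lf (nat_lit 76) (nat_lit 999522037) (nat_lit 0) (nat_lit 5702637103) (nat_lit 1748) (nat_lit 4713173944) (nat_lit 515) (nat_lit 5) (nat_lit 514) (nat_lit 5) (nat_lit 537) (nat_lit 5) (nat_lit 574) (nat_lit 567) (nat_lit 419)) (XT.lf (nat_lit 76) (nat_lit 6911820426) (nat_lit 0) (nat_lit 653555058) (nat_lit 1748) (nat_lit 3956126736) (nat_lit 515) (nat_lit 5) (nat_lit 514) (nat_lit 5) (nat_lit 537) (nat_lit 5) (nat_lit 575) (nat_lit 567) (nat_lit 418))))) (XT.nd (nat_lit 234) (nat_lit 1596) (nat_lit 0) (XT.nd (nat_lit 78) (nat_lit 0) (nat_lit 0) (XT.lf (nat_lit 76) (nat_lit 1291563685)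 (nat_lit 0) (nat_lit 7177977193) (nat_lit 1748) (nat_lit 3159781505) (nat_lit 516) (nat_lit 5) (nat_lit 515) (nat_lit 5) (nat_lit 538) (nat_lit 5) (nat_lit 576) (nat_lit 567) (nat_lit 417)) (XT.nd (nat_lit 78) (nat_lit 0) (nat_lit 76) (XT.lf (nat_lit 76) (nat_lit 7360240270) (nat_lit 0) (nat_lit 2053103138) (nat_lit 1748) (nat_lit 2325525780) (nat_lit 516) (nat_lit 5) (nat_lit 515) (nat_lit 5) (nat_lit 538) (nat_lit 5) (nat_lit 577) (nat_lit 567) (nat_lit 416)) (XT.lf (nat_lit 76) (nat_lit 1692446397) (nat_lit 0) (nat_lit 8701794219) (nat_lit 1748) (nat_lit 1456003228) (nat_lit 517) (nat_lit 5) (nat_lit 516) (nat_lit 5) (nat_lit 539) (nat_lit 5) (nat_lit 578) (nat_lit 567) (nat_lit 415)))) (XT.nd (nat_lit 78) (nat_lit 1672) (nat_lit 0) (XT.lf (nat_lit 76) (nat_lit 7921753001) (nat_lit 0) (nat_lit 3502719043) (nat_lit 1748) (nat_lit 538780889) (nat_lit 517) (nat_lit 5) (nat_lit 516) (nat_lit 5) (nat_lit 539) (nat_lit 5) (nat_lit 579) (nat_lit 567) (nat_lit 414)) (XT.nd (nat_lit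 78) (nat_lit 0) (nat_lit 0) (XT.lf (nat_lit 0) (nat_lit 404788539) (nat_lit 1748) (nat_lit 9875446322) (nat_lit 1824) (nat_lit 1797972899) (nat_lit 494) (nat_lit 5) (nat_lit 517) (nat_lit 5) (nat_lit 518) (nat_lit 5) (nat_lit 580) (nat_lit 567) (nat_lit 413)) (XT.lf (nat_lit 0) (nat_lit 1397741472) (nat_lit 1748) (nat_lit 3604166710) (nat_lit 1824) (nat_lit 7192728936) (nat_lit 494) (nat_lit 5) (nat_lit 517) (nat_lit 5) (nat_lit 518) (nat_lit 5) (nat_lit 581) (nat_lit 567) (nat_lit 412))))))))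
noncomputable def xc171 : XT := (XT.nd (nat_lit 1560) (nat_lit 8968) (nat_lit 0) (XT.nd (nat_lit 780) (nat_lit 5548) (nat_lit 0) (XT.nd (nat_lit 390) (nat_lit 1596) (nat_lit 0) (XT.nd (nat_lit 156) (nat_lit 0) (nat_lit 0) (XT.nd (nat_lit 78) (nat_lit 0) (nat_lit 0) (XT.lf (nat_lit 0) (nat_lit 2418966048) (nat_lit 1748) (nat_lit 9495191483) (nat_lit 1824) (nat_lit 399070449) (nat_lit 495) (nat_lit 5) (nat_lit 518) (nat_lit 5) (nat_lit 519) (nat_lit 5) (nat_lit 582) (nat_lit 567) (nat_lit 411)) (XT.lf (nat_lit 0) (nat_lit 3505771511) (nat_lit 1748) (nat_lit 3058484455) (nat_lit 1824) (nat_lit 5869032708) (nat_lit 495) (nat_lit 5) (nat_lit 518) (nat_lit 5) (nat_lit 519) (nat_lit 5) (nat_lit 583) (nat_lit 567) (nat_lit 410))) (XT.nd (nat_lit 78) (nat_lit 0) (nat_lit 76) (XT.lf (nat_lit 76) (nat_lit 3544590417) (nat_lit 0) (nat_lit 1080663114) (nat_lit 1824) (nat_lit 7930279364) (nat_lit 496) (nat_lit 5) (nat_lit 495) (nat_lit 5) (nat_lit 519) (nat_lit 5) (nat_lit 584) (nat_lit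 567) (nat_lit 409)) (XT.nd (nat_lit 78) (nat_lit 0) (nat_lit 0) (XT.lf (nat_lit 0) (nat_lit 5805210310) (nat_lit 1748) (nat_lit 2397115966) (nat_lit 1824) (nat_lit 4477135122) (nat_lit 496) (nat_lit 5) (nat_lit 519) (nat_lit 5) (nat_lit 520) (nat_lit 5) (nat_lit 585) (nat_lit 567) (nat_lit 408)) (XT.lf (nat_lit 76) (nat_lit 4390535509) (nat_lit 0) (nat_lit 2642252863) (nat_lit 1824) (nat_lit 5772600734) (nat_lit 497) (nat_lit 5) (nat_lit 496) (nat_lit 5) (nat_lit 520) (nat_lit 5) (nat_lit 586) (nat_lit 567) (nat_lit 407))))) (XT.nd (nat_lit 156) (nat_lit 1748) (nat_lit 0) (XT.nd (nat_lit 78) (nat_lit 0) (nat_lit 0) (XT.lf (nat_lit 0) (nat_lit 8309324226) (nat_lit 1748) (nat_lit 1615919828) (nat_lit 1824) (nat_lit 3008104246) (nat_lit 497) (nat_lit 5) (nat_lit 520) (nat_lit 5) (nat_lit 521) (nat_lit 5) (nat_lit 587) (nat_lit 567) (nat_lit 406)) (XT.lf (nat_lit 76) (nat_lit 5362941191) (nat_lit 0) (nat_lit 4289539673) (nat_lit 1824) (nat_lit 3410565047) (nat_lit 498) (nat_lit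 5) (nat_lit 497) (nat_lit 5) (nat_lit 521) (nat_lit 5) (nat_lit 588) (nat_lit 567) (nat_lit 405))) (XT.nd (nat_lit 78) (nat_lit 1824) (nat_lit 0) (XT.lf (nat_lit 0) (nat_lit 11031837397) (nat_lit 1748) (nat_lit 710448124) (nat_lit 1824) (nat_lit 1452866235) (nat_lit 498) (nat_lit 5) (nat_lit 521) (nat_lit 5) (nat_lit 522) (nat_lit 5) (nat_lit 589) (nat_lit 567) (nat_lit 404)) (XT.nd (nat_lit 78) (nat_lit 1824) (nat_lit 0) (XT.lf (nat_lit 76) (nat_lit 6466513992) (nat_lit 0) (nat_lit 6031825462) (nat_lit 1824) (nat_lit 830370093) (nat_lit 499) (nat_lit 5) (nat_lit 498) (nat_lit 5) (nat_lit 522) (nat_lit 5) (nat_lit 590) (nat_lit 567) (nat_lit 403)) (XT.lf (nat_lit 76) (nat_lit 323604037) (nat_lit 0) (nat_lit 194837499) (nat_lit 1900) (nat_lit 12946506202) (nat_lit 475) (nat_lit 5) (nat_lit 474) (nat_lit 5) (nat_lit 499) (nat_lit 5) (nat_lit 591) (nat_lit 567) (nat_lit 402)))))) (XT.nd (nat_lit 390) (nat_lit 2736) (nat_lit 0) (XT.nd (nat_lit 156) (nat_lit 1064) (nat_lit 0) (XT.nd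 (nat_lit 78) (nat_lit 1824) (nat_lit 0) (XT.lf (nat_lit 0) (nat_lit 1956278762) (nat_lit 1824) (nat_lit 5909185530) (nat_lit 76) (nat_lit 5736874203) (nat_lit 475) (nat_lit 5) (nat_lit 499) (nat_lit 5) (nat_lit 476) (nat_lit 5) (nat_lit 592) (nat_lit 567) (nat_lit 401)) (XT.lf (nat_lit 0) (nat_lit 1476732643) (nat_lit 1824) (nat_lit 1946639104) (nat_lit 1900) (nat_lit 10319096260) (nat_lit 451) (nat_lit 5) (nat_lit 475) (nat_lit 5) (nat_lit 476) (nat_lit 5) (nat_lit 593) (nat_lit 567) (nat_lit 400))) (XT.nd (nat_lit 78) (nat_lit 1064) (nat_lit 0) (XT.lf (nat_lit 0) (nat_lit 4976056731) (nat_lit 1900) (nat_lit 4830074273) (nat_lit 76) (nat_lit 4078145005) (nat_lit 451) (nat_lit 5) (nat_lit 476) (nat_lit 5) (nat_lit 452) (nat_lit 5) (nat_lit 594) (nat_lit 567) (nat_lit 399)) (XT.nd (nat_lit 78) (nat_lit 0) (nat_lit 0) (XT.lf (nat_lit 0) (nat_lit 2768784506) (nat_lit 1064) (nat_lit 3811854970) (nat_lit 1140) (nat_lit 7447864698) (nat_lit 437) (nat_lit 5) (nat_lit 451) (nat_lit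 5) (nat_lit 452) (nat_lit 5) (nat_lit 595) (nat_lit 567) (nat_lit 398)) (XT.lf (nat_lit 0) (nat_lit 8255010050) (nat_lit 1140) (nat_lit 3614121329) (nat_lit 76) (nat_lit 2305732466) (nat_lit 437) (nat_lit 5) (nat_lit 452) (nat_lit 5) (nat_lit 438) (nat_lit 5) (nat_lit 596) (nat_lit 567) (nat_lit 397))))) (XT.nd (nat_lit 156) (nat_lit 1824) (nat_lit 0) (XT.nd (nat_lit 78) (nat_lit 0) (nat_lit 0) (XT.lf (nat_lit 0) (nat_lit 4205394198) (nat_lit 912) (nat_lit 5800336903) (nat_lit 988) (nat_lit 4317563197) (nat_lit 425) (nat_lit 5) (nat_lit 437) (nat_lit 5) (nat_lit 438) (nat_lit 5) (nat_lit 597) (nat_lit 567) (nat_lit 396)) (XT.lf (nat_lit 0) (nat_lit 11808862739) (nat_lit 988) (nat_lit 2255652668) (nat_lit 76) (nat_lit 409830863) (nat_lit 425) (nat_lit 5) (nat_lit 438) (nat_lit 5) (nat_lit 426) (nat_lit 5) (nat_lit 598) (nat_lit 567) (nat_lit 395))) (XT.nd (nat_lit 78) (nat_lit 912) (nat_lit 0) (XT.lf (nat_lit 0) (nat_lit 5792531196) (nat_lit 912) (nat_lit 7922186651) (nat_lit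 988) (nat_lit 912369036) (nat_lit 413) (nat_lit 5) (nat_lit 425) (nat_lit 5) (nat_lit 426) (nat_lit 5) (nat_lit 599) (nat_lit 567) (nat_lit 394)) (XT.nd (nat_lit 78) (nat_lit 836) (nat_lit 0) (XT.lf (nat_lit 0) (nat_lit 870261706) (nat_lit 988) (nat_lit 765043219) (nat_lit 76) (nat_lit 13147345634) (nat_lit 412) (nat_lit 5) (nat_lit 425) (nat_lit 5) (nat_lit 413) (nat_lit 5) (nat_lit 600) (nat_lit 567) (nat_lit 393)) (XT.lf (nat_lit 0) (nat_lit 2747630224) (nat_lit 912) (nat_lit 7421710438) (nat_lit 76) (nat_lit 4770438966) (nat_lit 401) (nat_lit 5) (nat_lit 413) (nat_lit 5) (nat_lit 402) (nat_lit 5) (nat_lit 601) (nat_lit 567) (nat_lit 392))))))) (XT.nd (nat_lit 780) (nat_lit 4180) (nat_lit 0) (XT.nd (nat_lit 390) (nat_lit 2280) (nat_lit 0) (XT.nd (nat_lit 156) (nat_lit 1672) (nat_lit 0) (XT.nd (nat_lit 78) (nat_lit 0) (nat_lit 0) (XT.lf (nat_lit 0) (nat_lit 868916233) (nat_lit 836) (nat_lit 3806279026) (nat_lit 912) (nat_lit 10424603790) (nat_lit 390) (nat_lit 5) (nat_lit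 401) (nat_lit 5) (nat_lit 402) (nat_lit 5) (nat_lit 602) (nat_lit 567) (nat_lit 391)) (XT.lf (nat_lit 0) (nat_lit 6700000792) (nat_lit 912) (nat_lit 5862822107) (nat_lit 76) (nat_lit 2699022916) (nat_lit 390) (nat_lit 5) (nat_lit 402) (nat_lit 5) (nat_lit 391) (nat_lit 5) (nat_lit 603) (nat_lit 567) (nat_lit 390))) (XT.nd (nat_lit 78) (nat_lit 836) (nat_lit 0) (XT.lf (nat_lit 0) (nat_lit 2673632769) (nat_lit 836) (nat_lit 6125538941) (nat_lit 912) (nat_lit 6627285146) (nat_lit 379) (nat_lit 5) (nat_lit 390) (nat_lit 5) (nat_lit 391) (nat_lit 5) (nat_lit 604) (nat_lit 567) (nat_lit 389)) (XT.nd (nat_lit 78) (nat_lit 836) (nat_lit 0) (XT.lf (nat_lit 0) (nat_lit 10974204719) (nat_lit 912) (nat_lit 4145343132) (nat_lit 76) (nat_lit 474135405) (nat_lit 379) (nat_lit 5) (nat_lit 391) (nat_lit 5) (nat_lit 380) (nat_lit 5) (nat_lit 605) (nat_lit 567) (nat_lit 388)) (XT.lf (nat_lit 0) (nat_lit 4645889697) (nat_lit 836) (nat_lit 8609163237) (nat_lit 912) (nat_lit 2507955657) (nat_lit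 368) (nat_lit 5) (nat_lit 379) (nat_lit 5) (nat_lit 380) (nat_lit 5) (nat_lit 606) (nat_lit 567) (nat_lit 387))))) (XT.nd (nat_lit 156) (nat_lit 1444) (nat_lit 0) (XT.nd (nat_lit 78) (nat_lit 836) (nat_lit 0) (XT.lf (nat_lit 0) (nat_lit 13660433110) (nat_lit 836) (nat_lit 1940594807) (nat_lit 912) (nat_lit 334303002) (nat_lit 368) (nat_lit 5) (nat_lit 379) (nat_lit 5) (nat_lit 380) (nat_lit 5) (nat_lit 607) (nat_lit 567) (nat_lit 386)) (XT.lf (nat_lit 0) (nat_lit 1926096113) (nat_lit 836) (nat_lit 9329421229) (nat_lit 76) (nat_lit 4853979179) (nat_lit 357) (nat_lit 5) (nat_lit 368) (nat_lit 5) (nat_lit 358) (nat_lit 5) (nat_lit 608) (nat_lit 567) (nat_lit 385))) (XT.nd (nat_lit 78) (nat_lit 1444) (nat_lit 0) (XT.lf (nat_lit 0) (nat_lit 4247352039) (nat_lit 836) (nat_lit 263768750) (nat_lit 76) (nat_lit 11775578593) (nat_lit 357) (nat_lit 5) (nat_lit 368) (nat_lit 5) (nat_lit 358) (nat_lit 5) (nat_lit 609) (nat_lit 567) (nat_lit 384)) (XT.nd (nat_lit 78) (nat_lit 684) (nat_lit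 0) (XT.lf (nat_lit 0) (nat_lit 6681900474) (nat_lit 836) (nat_lit 7388297809) (nat_lit 76) (nat_lit 2395911300) (nat_lit 347) (nat_lit 5) (nat_lit 358) (nat_lit 5) (nat_lit 348) (nat_lit 5) (nat_lit 610) (nat_lit 567) (nat_lit 383)) (XT.lf (nat_lit 0) (nat_lit 1947712957) (nat_lit 684) (nat_lit 7253886674) (nat_lit 760) (nat_lit 7446779779) (nat_lit 338) (nat_lit 5) (nat_lit 347) (nat_lit 5) (nat_lit 348) (nat_lit 5) (nat_lit 611) (nat_lit 567) (nat_lit 382)))))) (XT.nd (nat_lit 390) (nat_lit 2660) (nat_lit 0) (XT.nd (nat_lit 156) (nat_lit 760) (nat_lit 0) (XT.nd (nat_lit 78) (nat_lit 760) (nat_lit 0) (XT.lf (nat_lit 0) (nat_lit 11561979582) (nat_lit 684) (nat_lit 251547596) (nat_lit 760) (nat_lit 5019931378) (nat_lit 338) (nat_lit 5) (nat_lit 347) (nat_lit 5) (nat_lit 348) (nat_lit 5) (nat_lit 612) (nat_lit 567) (nat_lit 381)) (XT.lf (nat_lit 0) (nat_lit 4350010851) (nat_lit 760) (nat_lit 10193066834) (nat_lit 836) (nat_lit 2477854505) (nat_lit 328) (nat_lit 5) (nat_lit 338)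 (nat_lit 5) (nat_lit 339) (nat_lit 5) (nat_lit 613) (nat_lit 567) (nat_lit 380))) (XT.nd (nat_lit 78) (nat_lit 684) (nat_lit 0) (XT.lf (nat_lit 0) (nat_lit 143274021) (nat_lit 836) (nat_lit 2987345400) (nat_lit 76) (nat_lit 14080927122) (nat_lit 327) (nat_lit 5) (nat_lit 338) (nat_lit 5) (nat_lit 328) (nat_lit 5) (nat_lit 614) (nat_lit 567) (nat_lit 379)) (XT.nd (nat_lit 78) (nat_lit 0) (nat_lit 0) (XT.lf (nat_lit 0) (nat_lit 2848281104) (nat_lit 760) (nat_lit 10475479199) (nat_lit 76) (nat_lit 4080593180) (nat_lit 318) (nat_lit 5) (nat_lit 328) (nat_lit 5) (nat_lit 319) (nat_lit 5) (nat_lit 615) (nat_lit 567) (nat_lit 378)) (XT.lf (nat_lit 0) (nat_lit 5640976636) (nat_lit 760) (nat_lit 546120187) (nat_lit 76) (nat_lit 11413248522) (nat_lit 318) (nat_lit 5) (nat_lit 328) (nat_lit 5) (nat_lit 319) (nat_lit 5) (nat_lit 616) (nat_lit 567) (nat_lit 377))))) (XT.nd (nat_lit 234) (nat_lit 1368) (nat_lit 0) (XT.nd (nat_lit 78) (nat_lit 608) (nat_lit 0) (XT.lf (nat_lit 0) (nat_lit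 8552830385) (nat_lit 760) (nat_lit 8105974893) (nat_lit 76) (nat_lit 1140186219) (nat_lit 309) (nat_lit 5) (nat_lit 319) (nat_lit 5) (nat_lit 310) (nat_lit 5) (nat_lit 617) (nat_lit 567) (nat_lit 376)) (XT.nd (nat_lit 78) (nat_lit 0) (nat_lit 0) (XT.lf (nat_lit 0) (nat_lit 2121159253) (nat_lit 608) (nat_lit 9453095701) (nat_lit 684) (nat_lit 6426329473) (nat_lit 301) (nat_lit 5) (nat_lit 309) (nat_lit 5) (nat_lit 310) (nat_lit 5) (nat_lit 618) (nat_lit 567) (nat_lit 375)) (XT.lf (nat_lit 0) (nat_lit 12654307018) (nat_lit 608) (nat_lit 2049179606) (nat_lit 684) (nat_lit 3501775535) (nat_lit 301) (nat_lit 5) (nat_lit 309) (nat_lit 5) (nat_lit 310) (nat_lit 5) (nat_lit 619) (nat_lit 567) (nat_lit 374)))) (XT.nd (nat_lit 78) (nat_lit 684) (nat_lit 0) (XT.lf (nat_lit 0) (nat_lit 5005634089) (nat_lit 684) (nat_lit 12951008642) (nat_lit 760) (nat_lit 456164429) (nat_lit 292) (nat_lit 5) (nat_lit 301) (nat_lit 5) (nat_lit 302) (nat_lit 5) (nat_lit 620) (nat_lit 567) (nat_lit 373))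 (XT.nd (nat_lit 78) (nat_lit 608) (nat_lit 0) (XT.lf (nat_lit 0) (nat_lit 2659813680) (nat_lit 760) (nat_lit 2814592146) (nat_lit 76) (nat_lit 13148869269) (nat_lit 291) (nat_lit 5) (nat_lit 301) (nat_lit 5) (nat_lit 292) (nat_lit 5) (nat_lit 621) (nat_lit 567) (nat_lit 372)) (XT.lf (nat_lit 0) (nat_lit 5892109659) (nat_lit 684) (nat_lit 10766698331) (nat_lit 76) (nat_lit 2177882446) (nat_lit 283) (nat_lit 5) (nat_lit 292) (nat_lit 5) (nat_lit 284) (nat_lit 5) (nat_lit 622) (nat_lit 567) (nat_lit 371))))))))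
noncomputable def xc172 : XT := (XT.nd (nat_lit 1560) (nat_lit 2964) (nat_lit 0) (XT.nd (nat_lit 780) (nat_lit 3040) (nat_lit 0) (XT.nd (nat_lit 390) (nat_lit 1672) (nat_lit 0) (XT.nd (nat_lit 156) (nat_lit 1292) (nat_lit 0) (XT.nd (nat_lit 78) (nat_lit 0) (nat_lit 0) (XT.lf (nat_lit 0) (nat_lit 113217044) (nat_lit 608) (nat_lit 9125186742) (nat_lit 684) (nat_lit 9814983723) (nat_lit 275) (nat_lit 5) (nat_lit 283) (nat_lit 5) (nat_lit 284) (nat_lit 5) (nat_lit 623) (nat_lit 567) (nat_lit 370)) (XT.lf (nat_lit 0) (nat_lit 11348418211) (nat_lit 608) (nat_lit 1368882896) (nat_lit 684) (nat_lit 6555804330) (nat_lit 275) (nat_lit 5) (nat_lit 283) (nat_lit 5) (nat_lit 284) (nat_lit 5) (nat_lit 624) (nat_lit 567) (nat_lit 369))) (XT.nd (nat_lit 78) (nat_lit 684) (nat_lit 0) (XT.lf (nat_lit 0) (nat_lit 3303741656) (nat_lit 608) (nat_lit 13019508609) (nat_lit 684) (nat_lit 3172818431) (nat_lit 267) (nat_lit 5) (nat_lit 275) (nat_lit 5) (nat_lit 276) (nat_lit 5) (nat_lit 625) (nat_lit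 567) (nat_lit 368)) (XT.nd (nat_lit 78) (nat_lit 608) (nat_lit 0) (XT.lf (nat_lit 0) (nat_lit 330356017) (nat_lit 684) (nat_lit 4877735164) (nat_lit 76) (nat_lit 14514240944) (nat_lit 266) (nat_lit 5) (nat_lit 275) (nat_lit 5) (nat_lit 267) (nat_lit 5) (nat_lit 626) (nat_lit 567) (nat_lit 367)) (XT.lf (nat_lit 0) (nat_lit 3916830254) (nat_lit 684) (nat_lit 13248072649) (nat_lit 76) (nat_lit 2786684493) (nat_lit 258) (nat_lit 5) (nat_lit 267) (nat_lit 5) (nat_lit 259) (nat_lit 5) (nat_lit 627) (nat_lit 567) (nat_lit 366))))) (XT.nd (nat_lit 156) (nat_lit 1140) (nat_lit 0) (XT.nd (nat_lit 78) (nat_lit 532) (nat_lit 0) (XT.lf (nat_lit 0) (nat_lit 7636235304) (nat_lit 684) (nat_lit 1645116663) (nat_lit 76) (nat_lit 10902852194) (nat_lit 258) (nat_lit 5) (nat_lit 267) (nat_lit 5) (nat_lit 259) (nat_lit 5) (nat_lit 628) (nat_lit 567) (nat_lit 365)) (XT.lf (nat_lit 0) (nat_lit 10317225675) (nat_lit 532) (nat_lit 1173673089) (nat_lit 608) (nat_lit 8929357499) (nat_lit 251) (nat_lit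 5) (nat_lit 258) (nat_lit 5) (nat_lit 259) (nat_lit 5) (nat_lit 629) (nat_lit 567) (nat_lit 364))) (XT.nd (nat_lit 78) (nat_lit 608) (nat_lit 0) (XT.lf (nat_lit 0) (nat_lit 1850386687) (nat_lit 532) (nat_lit 13635408646) (nat_lit 608) (nat_lit 5173971680) (nat_lit 244) (nat_lit 5) (nat_lit 251) (nat_lit 5) (nat_lit 252) (nat_lit 5) (nat_lit 630) (nat_lit 567) (nat_lit 363)) (XT.nd (nat_lit 78) (nat_lit 608) (nat_lit 0) (XT.lf (nat_lit 0) (nat_lit 14163956873) (nat_lit 532) (nat_lit 5466158314) (nat_lit 608) (nat_lit 1272562675) (nat_lit 244) (nat_lit 5) (nat_lit 251) (nat_lit 5) (nat_lit 252) (nat_lit 5) (nat_lit 631) (nat_lit 567) (nat_lit 362)) (XT.lf (nat_lit 0) (nat_lit 2720914079) (nat_lit 608) (nat_lit 15546846459) (nat_lit 76) (nat_lit 2881344457) (nat_lit 236) (nat_lit 5) (nat_lit 244) (nat_lit 5) (nat_lit 237) (nat_lit 5) (nat_lit 632) (nat_lit 567) (nat_lit 361)))))) (XT.nd (nat_lit 390) (nat_lit 1444) (nat_lit 0) (XT.nd (nat_lit 156) (nat_lit 1064) (nat_lit 0) (XT.nd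 (nat_lit 78) (nat_lit 532) (nat_lit 0) (XT.lf (nat_lit 0) (nat_lit 6853093531) (nat_lit 608) (nat_lit 3171043557) (nat_lit 76) (nat_lit 11374638263) (nat_lit 236) (nat_lit 5) (nat_lit 244) (nat_lit 5) (nat_lit 237) (nat_lit 5) (nat_lit 633) (nat_lit 567) (nat_lit 360)) (XT.lf (nat_lit 0) (nat_lit 9569980237) (nat_lit 532) (nat_lit 1554323236) (nat_lit 608) (nat_lit 10528008267) (nat_lit 229) (nat_lit 5) (nat_lit 236) (nat_lit 5) (nat_lit 237) (nat_lit 5) (nat_lit 634) (nat_lit 567) (nat_lit 359))) (XT.nd (nat_lit 78) (nat_lit 608) (nat_lit 0) (XT.lf (nat_lit 0) (nat_lit 652881077) (nat_lit 456) (nat_lit 14894016699) (nat_lit 532) (nat_lit 6362702233) (nat_lit 223) (nat_lit 5) (nat_lit 229) (nat_lit 5) (nat_lit 230) (nat_lit 5) (nat_lit 635) (nat_lit 567) (nat_lit 358)) (XT.nd (nat_lit 78) (nat_lit 608) (nat_lit 0) (XT.lf (nat_lit 0) (nat_lit 13788342019) (nat_lit 456) (nat_lit 6355268773) (nat_lit 532) (nat_lit 2026710263) (nat_lit 223) (nat_lit 5) (nat_lit 229) (nat_lit 5)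 (nat_lit 230) (nat_lit 5) (nat_lit 636) (nat_lit 567) (nat_lit 357)) (XT.lf (nat_lit 0) (nat_lit 2405692196) (nat_lit 608) (nat_lit 17661223143) (nat_lit 76) (nat_lit 2368208098) (nat_lit 215) (nat_lit 5) (nat_lit 223) (nat_lit 5) (nat_lit 216) (nat_lit 5) (nat_lit 637) (nat_lit 567) (nat_lit 356))))) (XT.nd (nat_lit 156) (nat_lit 988) (nat_lit 0) (XT.nd (nat_lit 78) (nat_lit 456) (nat_lit 0) (XT.lf (nat_lit 0) (nat_lit 6992819282) (nat_lit 608) (nat_lit 4461233567) (nat_lit 76) (nat_lit 11249037130) (nat_lit 215) (nat_lit 5) (nat_lit 223) (nat_lit 5) (nat_lit 216) (nat_lit 5) (nat_lit 638) (nat_lit 567) (nat_lit 355)) (XT.lf (nat_lit 0) (nat_lit 9114677314) (nat_lit 456) (nat_lit 2610779337) (nat_lit 532) (nat_lit 11249884167) (nat_lit 209) (nat_lit 5) (nat_lit 215) (nat_lit 5) (nat_lit 216) (nat_lit 5) (nat_lit 639) (nat_lit 567) (nat_lit 354))) (XT.nd (nat_lit 78) (nat_lit 988) (nat_lit 0) (XT.lf (nat_lit 0) (nat_lit 16619127847) (nat_lit 532) (nat_lit 279332399) (nat_lit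 76) (nat_lit 6353249122) (nat_lit 209) (nat_lit 5) (nat_lit 216) (nat_lit 5) (nat_lit 210) (nat_lit 5) (nat_lit 640) (nat_lit 567) (nat_lit 353)) (XT.nd (nat_lit 78) (nat_lit 532) (nat_lit 0) (XT.lf (nat_lit 0) (nat_lit 13728880366) (nat_lit 456) (nat_lit 7982956067) (nat_lit 532) (nat_lit 1819745887) (nat_lit 203) (nat_lit 5) (nat_lit 209) (nat_lit 5) (nat_lit 210) (nat_lit 5) (nat_lit 641) (nat_lit 567) (nat_lit 352)) (XT.lf (nat_lit 0) (nat_lit 3080474343) (nat_lit 532) (nat_lit 19591766072) (nat_lit 76) (nat_lit 1143778547) (nat_lit 196) (nat_lit 5) (nat_lit 203) (nat_lit 5) (nat_lit 197) (nat_lit 5) (nat_lit 642) (nat_lit 567) (nat_lit 351))))))) (XT.nd (nat_lit 780) (nat_lit 380) (nat_lit 0) (XT.nd (nat_lit 390) (nat_lit 1216) (nat_lit 0) (XT.nd (nat_lit 156) (nat_lit 912) (nat_lit 0) (XT.nd (nat_lit 78) (nat_lit 456) (nat_lit 0) (XT.lf (nat_lit 0) (nat_lit 8168235864) (nat_lit 532) (nat_lit 5513129809) (nat_lit 76) (nat_lit 10422260320) (nat_lit 196) (nat_lit 5) (nat_lit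 203) (nat_lit 5) (nat_lit 197) (nat_lit 5) (nat_lit 643) (nat_lit 567) (nat_lit 350)) (XT.lf (nat_lit 0) (nat_lit 8957130079) (nat_lit 456) (nat_lit 4453676519) (nat_lit 532) (nat_lit 10985117772) (nat_lit 190) (nat_lit 5) (nat_lit 196) (nat_lit 5) (nat_lit 197) (nat_lit 5) (nat_lit 644) (nat_lit 567) (nat_lit 349))) (XT.nd (nat_lit 78) (nat_lit 912) (nat_lit 0) (XT.lf (nat_lit 0) (nat_lit 18822599466) (nat_lit 532) (nat_lit 941701820) (nat_lit 76) (nat_lit 4928480295) (nat_lit 190) (nat_lit 5) (nat_lit 197) (nat_lit 5) (nat_lit 191) (nat_lit 5) (nat_lit 645) (nat_lit 567) (nat_lit 348)) (XT.nd (nat_lit 78) (nat_lit 532) (nat_lit 0) (XT.lf (nat_lit 0) (nat_lit 13992031445) (nat_lit 380) (nat_lit 10465971555) (nat_lit 456) (nat_lit 535265715) (nat_lit 185) (nat_lit 5) (nat_lit 190) (nat_lit 5) (nat_lit 191) (nat_lit 5) (nat_lit 646) (nat_lit 567) (nat_lit 347)) (XT.lf (nat_lit 0) (nat_lit 3950142479) (nat_lit 456) (nat_lit 918919071) (nat_lit 532) (nat_lit 20429525997) (nat_lit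 178) (nat_lit 5) (nat_lit 184) (nat_lit 5) (nat_lit 185) (nat_lit 5) (nat_lit 647) (nat_lit 567) (nat_lit 346))))) (XT.nd (nat_lit 156) (nat_lit 836) (nat_lit 0) (XT.nd (nat_lit 78) (nat_lit 380) (nat_lit 0) (XT.lf (nat_lit 0) (nat_lit 10500973439) (nat_lit 532) (nat_lit 6327521679) (nat_lit 76) (nat_lit 8778913829) (nat_lit 178) (nat_lit 5) (nat_lit 185) (nat_lit 5) (nat_lit 179) (nat_lit 5) (nat_lit 648) (nat_lit 567) (nat_lit 345)) (XT.lf (nat_lit 0) (nat_lit 9099858444) (nat_lit 380) (nat_lit 7206015651) (nat_lit 456) (nat_lit 9615325922) (nat_lit 173) (nat_lit 5) (nat_lit 178) (nat_lit 5) (nat_lit 179) (nat_lit 5) (nat_lit 649) (nat_lit 567) (nat_lit 344))) (XT.nd (nat_lit 78) (nat_lit 836) (nat_lit 0) (XT.lf (nat_lit 0) (nat_lit 22281768675) (nat_lit 456) (nat_lit 1343335254) (nat_lit 76) (nat_lit 2615065312) (nat_lit 173) (nat_lit 5) (nat_lit 179) (nat_lit 5) (nat_lit 174) (nat_lit 5) (nat_lit 650) (nat_lit 567) (nat_lit 343)) (XT.nd (nat_lit 78) (nat_lit 380) (nat_lit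 0) (XT.lf (nat_lit 0) (nat_lit 1926512449) (nat_lit 456) (nat_lit 11994814530) (nat_lit 76) (nat_lit 12641183670) (nat_lit 167) (nat_lit 5) (nat_lit 173) (nat_lit 5) (nat_lit 168) (nat_lit 5) (nat_lit 651) (nat_lit 567) (nat_lit 342)) (XT.lf (nat_lit 0) (nat_lit 3942340732) (nat_lit 380) (nat_lit 3963823879) (nat_lit 456) (nat_lit 18984010330) (nat_lit 162) (nat_lit 5) (nat_lit 167) (nat_lit 5) (nat_lit 168) (nat_lit 5) (nat_lit 652) (nat_lit 567) (nat_lit 341)))))) (XT.nd (nat_lit 74802) (nat_lit 0) (nat_lit 26980) (XT.nd (nat_lit 74568) (nat_lit 0) (nat_lit 26904) (XT.nd (nat_lit 78) (nat_lit 380) (nat_lit 0) (XT.lf (nat_lit 0) (nat_lit 14121995995) (nat_lit 456) (nat_lit 6909850053) (nat_lit 76) (nat_lit 6190214977) (nat_lit 162) (nat_lit 5) (nat_lit 168) (nat_lit 5) (nat_lit 163) (nat_lit 5) (nat_lit 653) (nat_lit 567) (nat_lit 340)) (XT.lf (nat_lit 0) (nat_lit 9540754040) (nat_lit 380) (nat_lit 11005030111) (nat_lit 456) (nat_lit 7013128104) (nat_lit 157) (nat_lit 5)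 (nat_lit 162) (nat_lit 5) (nat_lit 163) (nat_lit 5) (nat_lit 654) (nat_lit 567) (nat_lit 339))) (XT.nd (nat_lit 78) (nat_lit 0) (nat_lit 0) (XT.lf (nat_lit 0) (nat_lit 1418646567) (nat_lit 1748) (nat_lit 2017852262) (nat_lit 1748) (nat_lit 2017852262) (nat_lit 511) (nat_lit 3) (nat_lit 534) (nat_lit 3) (nat_lit 534) (nat_lit 5) (nat_lit 568) (nat_lit 568) (nat_lit 424)) (XT.nd (nat_lit 78) (nat_lit 0) (nat_lit 76) (XT.lf (nat_lit 76) (nat_lit 1373556830) (nat_lit 0) (nat_lit 2084067493) (nat_lit 1748) (nat_lit 7548269305) (nat_lit 512) (nat_lit 5) (nat_lit 511) (nat_lit 3) (nat_lit 534) (nat_lit 5) (nat_lit 569) (nat_lit 568) (nat_lit 423)) (XT.lf (nat_lit 0) (nat_lit 4120510445) (nat_lit 1672) (nat_lit 4185402487) (nat_lit 1748) (nat_lit 2798514485) (nat_lit 512) (nat_lit 5) (nat_lit 534) (nat_lit 5) (nat_lit 535) (nat_lit 5) (nat_lit 570) (nat_lit 568) (nat_lit 422))))) (XT.nd (nat_lit 234) (nat_lit 0) (nat_lit 152) (XT.nd (nat_lit 78) (nat_lit 0) (nat_lit 76) (XT.lf (nat_lit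 76) (nat_lit 1366491803) (nat_lit 0) (nat_lit 3437839994) (nat_lit 1748) (nat_lit 6400447986) (nat_lit 513) (nat_lit 5) (nat_lit 512) (nat_lit 5) (nat_lit 535) (nat_lit 5) (nat_lit 571) (nat_lit 568) (nat_lit 421)) (XT.nd (nat_lit 78) (nat_lit 0) (nat_lit 0) (XT.lf (nat_lit 0) (nat_lit 5525308925) (nat_lit 1672) (nat_lit 4238908932) (nat_lit 1748) (nat_lit 1542453173) (nat_lit 513) (nat_lit 5) (nat_lit 535) (nat_lit 5) (nat_lit 536) (nat_lit 5) (nat_lit 572) (nat_lit 568) (nat_lit 420)) (XT.lf (nat_lit 76) (nat_lit 1460625821) (nat_lit 0) (nat_lit 4817907668) (nat_lit 1748) (nat_lit 5131711450) (nat_lit 514) (nat_lit 5) (nat_lit 513) (nat_lit 5) (nat_lit 536) (nat_lit 5) (nat_lit 573) (nat_lit 568) (nat_lit 419)))) (XT.nd (nat_lit 78) (nat_lit 0) (nat_lit 0) (XT.lf (nat_lit 0) (nat_lit 7062778487) (nat_lit 1672) (nat_lit 4193866329) (nat_lit 1748) (nat_lit 258927759) (nat_lit 514) (nat_lit 5) (nat_lit 536) (nat_lit 5) (nat_lit 537) (nat_lit 5) (nat_lit 574) (nat_lit 568) (nat_lit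 418)) (XT.nd (nat_lit 78) (nat_lit 0) (nat_lit 0) (XT.lf (nat_lit 76) (nat_lit 1658521797) (nat_lit 0) (nat_lit 6232985292) (nat_lit 1748) (nat_lit 3730925039) (nat_lit 515) (nat_lit 5) (nat_lit 514) (nat_lit 5) (nat_lit 537) (nat_lit 5) (nat_lit 575) (nat_lit 568) (nat_lit 417)) (XT.lf (nat_lit 76) (nat_lit 7676536558) (nat_lit 0) (nat_lit 1074758951) (nat_lit 1748) (nat_lit 2979844973) (nat_lit 515) (nat_lit 5) (nat_lit 514) (nat_lit 5) (nat_lit 537) (nat_lit 5) (nat_lit 576) (nat_lit 568) (nat_lit 416))))))))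
noncomputable def xc173 : XT := (XT.nd (nat_lit 1560) (nat_lit 9728) (nat_lit 0) (XT.nd (nat_lit 780) (nat_lit 4256) (nat_lit 0) (XT.nd (nat_lit 390) (nat_lit 0) (nat_lit 76) (XT.nd (nat_lit 156) (nat_lit 1672) (nat_lit 0) (XT.nd (nat_lit 78) (nat_lit 0) (nat_lit 0) (XT.lf (nat_lit 76) (nat_lit 1963040535) (nat_lit 0) (nat_lit 7691811206) (nat_lit 1748) (nat_lit 2186641110) (nat_lit 516) (nat_lit 5) (nat_lit 515) (nat_lit 5) (nat_lit 538) (nat_lit 5) (nat_lit 577) (nat_lit 568) (nat_lit 415)) (XT.lf (nat_lit 76) (nat_lit 8140430934) (nat_lit 0) (nat_lit 2457179387) (nat_lit 1748) (nat_lit 1356020585) (nat_lit 516) (nat_lit 5) (nat_lit 515) (nat_lit 5) (nat_lit 538) (nat_lit 5) (nat_lit 578) (nat_lit 568) (nat_lit 414))) (XT.nd (nat_lit 78) (nat_lit 1748) (nat_lit 0) (XT.lf (nat_lit 76) (nat_lit 2377342211) (nat_lit 0) (nat_lit 9203170163) (nat_lit 1748) (nat_lit 487074818) (nat_lit 517) (nat_lit 5) (nat_lit 516) (nat_lit 5) (nat_lit 539) (nat_lit 5) (nat_lit 579) (nat_lit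 568) (nat_lit 413)) (XT.nd (nat_lit 78) (nat_lit 0) (nat_lit 76) (XT.lf (nat_lit 0) (nat_lit 423296995) (nat_lit 1748) (nat_lit 3467557509) (nat_lit 1824) (nat_lit 8292331780) (nat_lit 493) (nat_lit 5) (nat_lit 516) (nat_lit 5) (nat_lit 517) (nat_lit 5) (nat_lit 580) (nat_lit 568) (nat_lit 412)) (XT.lf (nat_lit 0) (nat_lit 1361822562) (nat_lit 1748) (nat_lit 9404954814) (nat_lit 1824) (nat_lit 1533927392) (nat_lit 494) (nat_lit 5) (nat_lit 517) (nat_lit 5) (nat_lit 518) (nat_lit 5) (nat_lit 581) (nat_lit 568) (nat_lit 411))))) (XT.nd (nat_lit 156) (nat_lit 0) (nat_lit 76) (XT.nd (nat_lit 78) (nat_lit 0) (nat_lit 76) (XT.lf (nat_lit 0) (nat_lit 2356027922) (nat_lit 1748) (nat_lit 3021347658) (nat_lit 1824) (nat_lit 7042461001) (nat_lit 494) (nat_lit 5) (nat_lit 517) (nat_lit 5) (nat_lit 518) (nat_lit 5) (nat_lit 582) (nat_lit 568) (nat_lit 410)) (XT.lf (nat_lit 0) (nat_lit 3381934048) (nat_lit 1748) (nat_lit 9014365037) (nat_lit 1824) (nat_lit 144816732) (nat_lit 495) (nat_lit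 5) (nat_lit 518) (nat_lit 5) (nat_lit 519) (nat_lit 5) (nat_lit 583) (nat_lit 568) (nat_lit 409))) (XT.nd (nat_lit 78) (nat_lit 0) (nat_lit 0) (XT.lf (nat_lit 0) (nat_lit 4472542509) (nat_lit 1748) (nat_lit 2462075442) (nat_lit 1824) (nat_lit 5729320102) (nat_lit 495) (nat_lit 5) (nat_lit 518) (nat_lit 5) (nat_lit 519) (nat_lit 5) (nat_lit 584) (nat_lit 568) (nat_lit 408)) (XT.nd (nat_lit 78) (nat_lit 0) (nat_lit 76) (XT.lf (nat_lit 76) (nat_lit 4268734752) (nat_lit 0) (nat_lit 1332339285) (nat_lit 1824) (nat_lit 7187821558) (nat_lit 496) (nat_lit 5) (nat_lit 495) (nat_lit 5) (nat_lit 519) (nat_lit 5) (nat_lit 585) (nat_lit 568) (nat_lit 407)) (XT.lf (nat_lit 0) (nat_lit 6785845609) (nat_lit 1748) (nat_lit 1785750240) (nat_lit 1824) (nat_lit 4344084107) (nat_lit 496) (nat_lit 5) (nat_lit 519) (nat_lit 5) (nat_lit 520) (nat_lit 5) (nat_lit 586) (nat_lit 568) (nat_lit 406)))))) (XT.nd (nat_lit 390) (nat_lit 4484) (nat_lit 0) (XT.nd (nat_lit 156) (nat_lit 0) (nat_lit 76) (XT.nd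 (nat_lit 78) (nat_lit 0) (nat_lit 76) (XT.lf (nat_lit 76) (nat_lit 5133316711) (nat_lit 0) (nat_lit 2891959433) (nat_lit 1824) (nat_lit 5019105624) (nat_lit 497) (nat_lit 5) (nat_lit 496) (nat_lit 5) (nat_lit 520) (nat_lit 5) (nat_lit 587) (nat_lit 568) (nat_lit 405)) (XT.lf (nat_lit 0) (nat_lit 9309387033) (nat_lit 1748) (nat_lit 988077668) (nat_lit 1824) (nat_lit 2877796097) (nat_lit 497) (nat_lit 5) (nat_lit 520) (nat_lit 5) (nat_lit 521) (nat_lit 5) (nat_lit 588) (nat_lit 568) (nat_lit 404))) (XT.nd (nat_lit 78) (nat_lit 0) (nat_lit 76) (XT.lf (nat_lit 76) (nat_lit 6126017410) (nat_lit 0) (nat_lit 4541296880) (nat_lit 1824) (nat_lit 2640481432) (nat_lit 498) (nat_lit 5) (nat_lit 497) (nat_lit 5) (nat_lit 521) (nat_lit 5) (nat_lit 589) (nat_lit 568) (nat_lit 403)) (XT.nd (nat_lit 78) (nat_lit 0) (nat_lit 0) (XT.lf (nat_lit 0) (nat_lit 12057088110) (nat_lit 1748) (nat_lit 64455060) (nat_lit 1824) (nat_lit 1321345390) (nat_lit 498) (nat_lit 5) (nat_lit 521) (nat_lit 5) (nat_lit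 522) (nat_lit 5) (nat_lit 590) (nat_lit 568) (nat_lit 402)) (XT.lf (nat_lit 76) (nat_lit 7251702864) (nat_lit 0) (nat_lit 6289698868) (nat_lit 1824) (nat_lit 37947592) (nat_lit 499) (nat_lit 5) (nat_lit 498) (nat_lit 5) (nat_lit 522) (nat_lit 5) (nat_lit 591) (nat_lit 568) (nat_lit 401))))) (XT.nd (nat_lit 156) (nat_lit 2812) (nat_lit 0) (XT.nd (nat_lit 78) (nat_lit 0) (nat_lit 76) (XT.lf (nat_lit 76) (nat_lit 992231231) (nat_lit 0) (nat_lit 323642334) (nat_lit 1900) (nat_lit 12402562175) (nat_lit 475) (nat_lit 5) (nat_lit 474) (nat_lit 5) (nat_lit 499) (nat_lit 5) (nat_lit 592) (nat_lit 568) (nat_lit 400)) (XT.lf (nat_lit 0) (nat_lit 2766239840) (nat_lit 1824) (nat_lit 5361901543) (nat_lit 76) (nat_lit 5730758850) (nat_lit 475) (nat_lit 5) (nat_lit 499) (nat_lit 5) (nat_lit 476) (nat_lit 5) (nat_lit 593) (nat_lit 568) (nat_lit 399))) (XT.nd (nat_lit 78) (nat_lit 1064) (nat_lit 0) (XT.lf (nat_lit 0) (nat_lit 2167356917) (nat_lit 1824) (nat_lit 2084495579) (nat_lit 1900) (nat_lit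 9750197624) (nat_lit 451) (nat_lit 5) (nat_lit 475) (nat_lit 5) (nat_lit 476) (nat_lit 5) (nat_lit 594) (nat_lit 568) (nat_lit 398)) (XT.nd (nat_lit 78) (nat_lit 1064) (nat_lit 0) (XT.lf (nat_lit 0) (nat_lit 5820059272) (nat_lit 1900) (nat_lit 4262951105) (nat_lit 76) (nat_lit 4063995855) (nat_lit 451) (nat_lit 5) (nat_lit 476) (nat_lit 5) (nat_lit 452) (nat_lit 5) (nat_lit 595) (nat_lit 568) (nat_lit 397)) (XT.lf (nat_lit 0) (nat_lit 3483518240) (nat_lit 1064) (nat_lit 3962898747) (nat_lit 1140) (nat_lit 6847909594) (nat_lit 437) (nat_lit 5) (nat_lit 451) (nat_lit 5) (nat_lit 452) (nat_lit 5) (nat_lit 596) (nat_lit 568) (nat_lit 396))))))) (XT.nd (nat_lit 780) (nat_lit 5320) (nat_lit 0) (XT.nd (nat_lit 390) (nat_lit 2508) (nat_lit 0) (XT.nd (nat_lit 156) (nat_lit 988) (nat_lit 0) (XT.nd (nat_lit 78) (nat_lit 912) (nat_lit 0) (XT.lf (nat_lit 0) (nat_lit 9139403415) (nat_lit 1140) (nat_lit 3025039624) (nat_lit 76) (nat_lit 2279469100) (nat_lit 437) (nat_lit 5) (nat_lit 452)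 (nat_lit 5) (nat_lit 438) (nat_lit 5) (nat_lit 597) (nat_lit 568) (nat_lit 395)) (XT.lf (nat_lit 0) (nat_lit 4946515133) (nat_lit 912) (nat_lit 5968785731) (nat_lit 988) (nat_lit 3680208336) (nat_lit 425) (nat_lit 5) (nat_lit 437) (nat_lit 5) (nat_lit 438) (nat_lit 5) (nat_lit 598) (nat_lit 568) (nat_lit 394))) (XT.nd (nat_lit 78) (nat_lit 988) (nat_lit 0) (XT.lf (nat_lit 0) (nat_lit 12740250437) (nat_lit 988) (nat_lit 1642329915) (nat_lit 76) (nat_lit 367287968) (nat_lit 425) (nat_lit 5) (nat_lit 438) (nat_lit 5) (nat_lit 426) (nat_lit 5) (nat_lit 599) (nat_lit 568) (nat_lit 393)) (XT.nd (nat_lit 78) (nat_lit 76) (nat_lit 0) (XT.lf (nat_lit 0) (nat_lit 6562485812) (nat_lit 912) (nat_lit 8112352135) (nat_lit 988) (nat_lit 231014681) (nat_lit 413) (nat_lit 5) (nat_lit 425) (nat_lit 5) (nat_lit 426) (nat_lit 5) (nat_lit 600) (nat_lit 568) (nat_lit 392)) (XT.lf (nat_lit 0) (nat_lit 1564555502) (nat_lit 988) (nat_lit 130012998) (nat_lit 76) (nat_lit 13370140130) (nat_lit 412)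 (nat_lit 5) (nat_lit 425) (nat_lit 5) (nat_lit 413) (nat_lit 5) (nat_lit 601) (nat_lit 568) (nat_lit 391))))) (XT.nd (nat_lit 156) (nat_lit 836) (nat_lit 0) (XT.nd (nat_lit 78) (nat_lit 836) (nat_lit 0) (XT.lf (nat_lit 0) (nat_lit 3470252399) (nat_lit 912) (nat_lit 6910538522) (nat_lit 76) (nat_lit 4844374860) (nat_lit 401) (nat_lit 5) (nat_lit 413) (nat_lit 5) (nat_lit 402) (nat_lit 5) (nat_lit 602) (nat_lit 568) (nat_lit 390)) (XT.lf (nat_lit 0) (nat_lit 1541561168) (nat_lit 836) (nat_lit 3885970432) (nat_lit 912) (nat_lit 9961031833) (nat_lit 390) (nat_lit 5) (nat_lit 401) (nat_lit 5) (nat_lit 402) (nat_lit 5) (nat_lit 603) (nat_lit 568) (nat_lit 389))) (XT.nd (nat_lit 78) (nat_lit 836) (nat_lit 0) (XT.lf (nat_lit 0) (nat_lit 7479892263) (nat_lit 912) (nat_lit 5324665452) (nat_lit 76) (nat_lit 2749553317) (nat_lit 390) (nat_lit 5) (nat_lit 402) (nat_lit 5) (nat_lit 391) (nat_lit 5) (nat_lit 604) (nat_lit 568) (nat_lit 388)) (XT.nd (nat_lit 78) (nat_lit 0) (nat_lit 0) (XT.lf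 (nat_lit 0) (nat_lit 3378206593) (nat_lit 836) (nat_lit 6234402849) (nat_lit 912) (nat_lit 6109574652) (nat_lit 379) (nat_lit 5) (nat_lit 390) (nat_lit 5) (nat_lit 391) (nat_lit 5) (nat_lit 605) (nat_lit 568) (nat_lit 387)) (XT.lf (nat_lit 0) (nat_lit 11818730873) (nat_lit 912) (nat_lit 3577451500) (nat_lit 76) (nat_lit 496821928) (nat_lit 379) (nat_lit 5) (nat_lit 391) (nat_lit 5) (nat_lit 380) (nat_lit 5) (nat_lit 606) (nat_lit 568) (nat_lit 386)))))) (XT.nd (nat_lit 390) (nat_lit 2888) (nat_lit 0) (XT.nd (nat_lit 156) (nat_lit 1520) (nat_lit 0) (XT.nd (nat_lit 78) (nat_lit 76) (nat_lit 0) (XT.lf (nat_lit 0) (nat_lit 5385324416) (nat_lit 836) (nat_lit 8751813527) (nat_lit 912) (nat_lit 1928740377) (nat_lit 368) (nat_lit 5) (nat_lit 379) (nat_lit 5) (nat_lit 380) (nat_lit 5) (nat_lit 607) (nat_lit 568) (nat_lit 385)) (XT.lf (nat_lit 0) (nat_lit 272424280) (nat_lit 912) (nat_lit 1676200414) (nat_lit 76) (nat_lit 14293229505) (nat_lit 367) (nat_lit 5) (nat_lit 379) (nat_lit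 5) (nat_lit 368) (nat_lit 5) (nat_lit 608) (nat_lit 568) (nat_lit 384))) (XT.nd (nat_lit 78) (nat_lit 760) (nat_lit 0) (XT.lf (nat_lit 0) (nat_lit 2565997704) (nat_lit 836) (nat_lit 8866418852) (nat_lit 76) (nat_lit 4987194466) (nat_lit 357) (nat_lit 5) (nat_lit 368) (nat_lit 5) (nat_lit 358) (nat_lit 5) (nat_lit 609) (nat_lit 568) (nat_lit 383)) (XT.nd (nat_lit 78) (nat_lit 0) (nat_lit 0) (XT.lf (nat_lit 0) (nat_lit 372697597) (nat_lit 760) (nat_lit 4551609192) (nat_lit 836) (nat_lit 11676239527) (nat_lit 347) (nat_lit 5) (nat_lit 357) (nat_lit 5) (nat_lit 358) (nat_lit 5) (nat_lit 610) (nat_lit 568) (nat_lit 382)) (XT.lf (nat_lit 0) (nat_lit 7398001587) (nat_lit 836) (nat_lit 6892039253) (nat_lit 76) (nat_lit 2493695693) (nat_lit 347) (nat_lit 5) (nat_lit 358) (nat_lit 5) (nat_lit 348) (nat_lit 5) (nat_lit 611) (nat_lit 568) (nat_lit 381))))) (XT.nd (nat_lit 234) (nat_lit 1444) (nat_lit 0) (XT.nd (nat_lit 78) (nat_lit 760) (nat_lit 0) (XT.lf (nat_lit 0) (nat_lit 2626454725)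 (nat_lit 684) (nat_lit 7334373083) (nat_lit 760) (nat_lit 7008970191) (nat_lit 338) (nat_lit 5) (nat_lit 347) (nat_lit 5) (nat_lit 348) (nat_lit 5) (nat_lit 612) (nat_lit 568) (nat_lit 380)) (XT.nd (nat_lit 78) (nat_lit 760) (nat_lit 0) (XT.lf (nat_lit 0) (nat_lit 12420461829) (nat_lit 684) (nat_lit 193253719) (nat_lit 760) (nat_lit 4545089630) (nat_lit 338) (nat_lit 5) (nat_lit 347) (nat_lit 5) (nat_lit 348) (nat_lit 5) (nat_lit 613) (nat_lit 568) (nat_lit 379)) (XT.lf (nat_lit 0) (nat_lit 5070966744) (nat_lit 760) (nat_lit 10320352256) (nat_lit 836) (nat_lit 1958840913) (nat_lit 328) (nat_lit 5) (nat_lit 338) (nat_lit 5) (nat_lit 339) (nat_lit 5) (nat_lit 614) (nat_lit 568) (nat_lit 378)))) (XT.nd (nat_lit 78) (nat_lit 1368) (nat_lit 0) (XT.lf (nat_lit 0) (nat_lit 696251046) (nat_lit 836) (nat_lit 2418214798) (nat_lit 76) (nat_lit 14430267755) (nat_lit 327) (nat_lit 5) (nat_lit 338) (nat_lit 5) (nat_lit 328) (nat_lit 5) (nat_lit 615) (nat_lit 568) (nat_lit 377)) (XT.nd (nat_lit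 78) (nat_lit 684) (nat_lit 0) (XT.lf (nat_lit 0) (nat_lit 3449156233) (nat_lit 760) (nat_lit 10049868409) (nat_lit 76) (nat_lit 4242496894) (nat_lit 318) (nat_lit 5) (nat_lit 328) (nat_lit 5) (nat_lit 319) (nat_lit 5) (nat_lit 616) (nat_lit 568) (nat_lit 376)) (XT.lf (nat_lit 0) (nat_lit 66496556) (nat_lit 684) (nat_lit 6220975967) (nat_lit 760) (nat_lit 11654166176) (nat_lit 309) (nat_lit 5) (nat_lit 318) (nat_lit 5) (nat_lit 319) (nat_lit 5) (nat_lit 617) (nat_lit 568) (nat_lit 375))))))))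
noncomputable def xc174 : XT := (XT.nd (nat_lit 1560) (nat_lit 4636) (nat_lit 0) (XT.nd (nat_lit 780) (nat_lit 3268) (nat_lit 0) (XT.nd (nat_lit 390) (nat_lit 1900) (nat_lit 0) (XT.nd (nat_lit 156) (nat_lit 760) (nat_lit 0) (XT.nd (nat_lit 78) (nat_lit 608) (nat_lit 0) (XT.lf (nat_lit 0) (nat_lit 9251287804) (nat_lit 760) (nat_lit 7639544312) (nat_lit 76) (nat_lit 1253551954) (nat_lit 309) (nat_lit 5) (nat_lit 319) (nat_lit 5) (nat_lit 310) (nat_lit 5) (nat_lit 618) (nat_lit 568) (nat_lit 374)) (XT.lf (nat_lit 0) (nat_lit 2787997320) (nat_lit 608) (nat_lit 9538856467) (nat_lit 684) (nat_lit 6023281581) (nat_lit 301) (nat_lit 5) (nat_lit 309) (nat_lit 5) (nat_lit 310) (nat_lit 5) (nat_lit 619) (nat_lit 568) (nat_lit 373))) (XT.nd (nat_lit 78) (nat_lit 760) (nat_lit 0) (XT.lf (nat_lit 0) (nat_lit 13519564611) (nat_lit 608) (nat_lit 1988887563) (nat_lit 684) (nat_lit 3050659594) (nat_lit 301) (nat_lit 5) (nat_lit 309) (nat_lit 5) (nat_lit 310) (nat_lit 5) (nat_lit 620) (nat_lit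 568) (nat_lit 372)) (XT.nd (nat_lit 78) (nat_lit 0) (nat_lit 0) (XT.lf (nat_lit 0) (nat_lit 49732300) (nat_lit 760) (nat_lit 13047817125) (nat_lit 76) (nat_lit 5673359690) (nat_lit 291) (nat_lit 5) (nat_lit 301) (nat_lit 5) (nat_lit 292) (nat_lit 5) (nat_lit 621) (nat_lit 568) (nat_lit 371)) (XT.lf (nat_lit 0) (nat_lit 3211948862) (nat_lit 760) (nat_lit 2258650213) (nat_lit 76) (nat_lit 13515127202) (nat_lit 291) (nat_lit 5) (nat_lit 301) (nat_lit 5) (nat_lit 292) (nat_lit 5) (nat_lit 622) (nat_lit 568) (nat_lit 370))))) (XT.nd (nat_lit 156) (nat_lit 684) (nat_lit 0) (XT.nd (nat_lit 78) (nat_lit 608) (nat_lit 0) (XT.lf (nat_lit 0) (nat_lit 6503803834) (nat_lit 684) (nat_lit 10364676751) (nat_lit 76) (nat_lit 2335031775) (nat_lit 283) (nat_lit 5) (nat_lit 292) (nat_lit 5) (nat_lit 284) (nat_lit 5) (nat_lit 623) (nat_lit 568) (nat_lit 369)) (XT.lf (nat_lit 0) (nat_lit 728775382) (nat_lit 608) (nat_lit 9182547000) (nat_lit 684) (nat_lit 9513335704) (nat_lit 275) (nat_lit 5) (nat_lit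 283) (nat_lit 5) (nat_lit 284) (nat_lit 5) (nat_lit 624) (nat_lit 568) (nat_lit 368))) (XT.nd (nat_lit 78) (nat_lit 684) (nat_lit 0) (XT.lf (nat_lit 0) (nat_lit 12176655200) (nat_lit 608) (nat_lit 1273570871) (nat_lit 684) (nat_lit 6198736403) (nat_lit 275) (nat_lit 5) (nat_lit 283) (nat_lit 5) (nat_lit 284) (nat_lit 5) (nat_lit 625) (nat_lit 568) (nat_lit 367)) (XT.nd (nat_lit 78) (nat_lit 76) (nat_lit 0) (XT.lf (nat_lit 0) (nat_lit 3975879937) (nat_lit 608) (nat_lit 13147746303) (nat_lit 684) (nat_lit 2752852774) (nat_lit 267) (nat_lit 5) (nat_lit 275) (nat_lit 5) (nat_lit 276) (nat_lit 5) (nat_lit 626) (nat_lit 568) (nat_lit 366)) (XT.lf (nat_lit 0) (nat_lit 804690451) (nat_lit 684) (nat_lit 4374862605) (nat_lit 76) (nat_lit 14927839605) (nat_lit 266) (nat_lit 5) (nat_lit 275) (nat_lit 5) (nat_lit 267) (nat_lit 5) (nat_lit 627) (nat_lit 568) (nat_lit 365)))))) (XT.nd (nat_lit 390) (nat_lit 1596) (nat_lit 0) (XT.nd (nat_lit 156) (nat_lit 1064) (nat_lit 0) (XT.nd (nat_lit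 78) (nat_lit 0) (nat_lit 0) (XT.lf (nat_lit 0) (nat_lit 4458466103) (nat_lit 684) (nat_lit 12908147828) (nat_lit 76) (nat_lit 2974708286) (nat_lit 258) (nat_lit 5) (nat_lit 267) (nat_lit 5) (nat_lit 259) (nat_lit 5) (nat_lit 628) (nat_lit 568) (nat_lit 364)) (XT.lf (nat_lit 0) (nat_lit 8243174955) (nat_lit 684) (nat_lit 1084993238) (nat_lit 76) (nat_lit 11250605417) (nat_lit 258) (nat_lit 5) (nat_lit 267) (nat_lit 5) (nat_lit 259) (nat_lit 5) (nat_lit 629) (nat_lit 568) (nat_lit 363))) (XT.nd (nat_lit 78) (nat_lit 532) (nat_lit 0) (XT.lf (nat_lit 0) (nat_lit 11112694462) (nat_lit 532) (nat_lit 1057156033) (nat_lit 608) (nat_lit 8649798479) (nat_lit 251) (nat_lit 5) (nat_lit 258) (nat_lit 5) (nat_lit 259) (nat_lit 5) (nat_lit 630) (nat_lit 568) (nat_lit 362)) (XT.nd (nat_lit 78) (nat_lit 0) (nat_lit 0) (XT.lf (nat_lit 0) (nat_lit 2480693068) (nat_lit 532) (nat_lit 13759888560) (nat_lit 608) (nat_lit 4823450160) (nat_lit 244) (nat_lit 5) (nat_lit 251) (nat_lit 5) (nat_lit 252)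 (nat_lit 5) (nat_lit 631) (nat_lit 568) (nat_lit 361)) (XT.lf (nat_lit 0) (nat_lit 15028901351) (nat_lit 532) (nat_lit 5430159658) (nat_lit 608) (nat_lit 852914954) (nat_lit 244) (nat_lit 5) (nat_lit 251) (nat_lit 5) (nat_lit 252) (nat_lit 5) (nat_lit 632) (nat_lit 568) (nat_lit 360))))) (XT.nd (nat_lit 156) (nat_lit 988) (nat_lit 0) (XT.nd (nat_lit 78) (nat_lit 0) (nat_lit 0) (XT.lf (nat_lit 0) (nat_lit 3210739241) (nat_lit 608) (nat_lit 15266370453) (nat_lit 76) (nat_lit 3086241787) (nat_lit 236) (nat_lit 5) (nat_lit 244) (nat_lit 5) (nat_lit 237) (nat_lit 5) (nat_lit 633) (nat_lit 568) (nat_lit 359)) (XT.lf (nat_lit 0) (nat_lit 7417024892) (nat_lit 608) (nat_lit 2654647826) (nat_lit 76) (nat_lit 11746513814) (nat_lit 236) (nat_lit 5) (nat_lit 244) (nat_lit 5) (nat_lit 237) (nat_lit 5) (nat_lit 634) (nat_lit 568) (nat_lit 358))) (XT.nd (nat_lit 78) (nat_lit 456) (nat_lit 0) (XT.lf (nat_lit 0) (nat_lit 10337381862) (nat_lit 532) (nat_lit 1431646969) (nat_lit 608) (nat_lit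 10307857950) (nat_lit 229) (nat_lit 5) (nat_lit 236) (nat_lit 5) (nat_lit 237) (nat_lit 5) (nat_lit 635) (nat_lit 568) (nat_lit 357)) (XT.nd (nat_lit 78) (nat_lit 0) (nat_lit 0) (XT.lf (nat_lit 0) (nat_lit 1245574933) (nat_lit 456) (nat_lit 15030963022) (nat_lit 532) (nat_lit 6062854119) (nat_lit 223) (nat_lit 5) (nat_lit 229) (nat_lit 5) (nat_lit 230) (nat_lit 5) (nat_lit 636) (nat_lit 568) (nat_lit 356)) (XT.lf (nat_lit 0) (nat_lit 14632379677) (nat_lit 456) (nat_lit 6324595707) (nat_lit 532) (nat_lit 1648516861) (nat_lit 223) (nat_lit 5) (nat_lit 229) (nat_lit 5) (nat_lit 230) (nat_lit 5) (nat_lit 637) (nat_lit 568) (nat_lit 355))))))) (XT.nd (nat_lit 780) (nat_lit 1748) (nat_lit 0) (XT.nd (nat_lit 390) (nat_lit 1368) (nat_lit 0) (XT.nd (nat_lit 156) (nat_lit 912) (nat_lit 0) (XT.nd (nat_lit 78) (nat_lit 0) (nat_lit 0) (XT.lf (nat_lit 0) (nat_lit 2863686670) (nat_lit 608) (nat_lit 17437280527) (nat_lit 76) (nat_lit 2574636698) (nat_lit 215) (nat_lit 5) (nat_lit 223) (nat_lit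 5) (nat_lit 216) (nat_lit 5) (nat_lit 638) (nat_lit 568) (nat_lit 354)) (XT.lf (nat_lit 0) (nat_lit 7534519422) (nat_lit 608) (nat_lit 3984608161) (nat_lit 76) (nat_lit 11629963400) (nat_lit 215) (nat_lit 5) (nat_lit 223) (nat_lit 5) (nat_lit 216) (nat_lit 5) (nat_lit 639) (nat_lit 568) (nat_lit 353))) (XT.nd (nat_lit 78) (nat_lit 456) (nat_lit 0) (XT.lf (nat_lit 0) (nat_lit 9859098239) (nat_lit 456) (nat_lit 2498481714) (nat_lit 532) (nat_lit 11069291948) (nat_lit 209) (nat_lit 5) (nat_lit 215) (nat_lit 5) (nat_lit 216) (nat_lit 5) (nat_lit 640) (nat_lit 568) (nat_lit 352)) (XT.nd (nat_lit 78) (nat_lit 0) (nat_lit 0) (XT.lf (nat_lit 0) (nat_lit 276585860) (nat_lit 456) (nat_lit 17067585320) (nat_lit 532) (nat_lit 6364696169) (nat_lit 203) (nat_lit 5) (nat_lit 209) (nat_lit 5) (nat_lit 210) (nat_lit 5) (nat_lit 641) (nat_lit 568) (nat_lit 351)) (XT.lf (nat_lit 0) (nat_lit 14557665162) (nat_lit 456) (nat_lit 7975207259) (nat_lit 532) (nat_lit 1461583021) (nat_lit 203) (nat_lit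 5) (nat_lit 209) (nat_lit 5) (nat_lit 210) (nat_lit 5) (nat_lit 642) (nat_lit 568) (nat_lit 350))))) (XT.nd (nat_lit 156) (nat_lit 836) (nat_lit 0) (XT.nd (nat_lit 78) (nat_lit 0) (nat_lit 0) (XT.lf (nat_lit 0) (nat_lit 3528546220) (nat_lit 532) (nat_lit 19421255049) (nat_lit 76) (nat_lit 1334787159) (nat_lit 196) (nat_lit 5) (nat_lit 203) (nat_lit 5) (nat_lit 197) (nat_lit 5) (nat_lit 643) (nat_lit 568) (nat_lit 349)) (XT.lf (nat_lit 0) (nat_lit 8710485278) (nat_lit 532) (nat_lit 5072072460) (nat_lit 76) (nat_lit 10795541841) (nat_lit 196) (nat_lit 5) (nat_lit 203) (nat_lit 5) (nat_lit 197) (nat_lit 5) (nat_lit 644) (nat_lit 568) (nat_lit 348))) (XT.nd (nat_lit 78) (nat_lit 380) (nat_lit 0) (XT.lf (nat_lit 0) (nat_lit 9683965521) (nat_lit 456) (nat_lit 4370068779) (nat_lit 532) (nat_lit 10822287503) (nat_lit 190) (nat_lit 5) (nat_lit 196) (nat_lit 5) (nat_lit 197) (nat_lit 5) (nat_lit 645) (nat_lit 568) (nat_lit 347)) (XT.nd (nat_lit 78) (nat_lit 380) (nat_lit 0) (XT.lf (nat_lit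 0) (nat_lit 19567809035) (nat_lit 532) (nat_lit 417307687) (nat_lit 76) (nat_lit 5194124924) (nat_lit 190) (nat_lit 5) (nat_lit 197) (nat_lit 5) (nat_lit 191) (nat_lit 5) (nat_lit 646) (nat_lit 568) (nat_lit 346)) (XT.lf (nat_lit 0) (nat_lit 14811526375) (nat_lit 380) (nat_lit 10500667518) (nat_lit 456) (nat_lit 173619565) (nat_lit 185) (nat_lit 5) (nat_lit 190) (nat_lit 5) (nat_lit 191) (nat_lit 5) (nat_lit 647) (nat_lit 568) (nat_lit 345)))))) (XT.nd (nat_lit 390) (nat_lit 380) (nat_lit 0) (XT.nd (nat_lit 156) (nat_lit 836) (nat_lit 0) (XT.nd (nat_lit 78) (nat_lit 0) (nat_lit 0) (XT.lf (nat_lit 0) (nat_lit 4570120093) (nat_lit 456) (nat_lit 760097807) (nat_lit 532) (nat_lit 20467046658) (nat_lit 178) (nat_lit 5) (nat_lit 184) (nat_lit 5) (nat_lit 185) (nat_lit 5) (nat_lit 648) (nat_lit 568) (nat_lit 344)) (XT.lf (nat_lit 0) (nat_lit 11068763120) (nat_lit 532) (nat_lit 5917680929) (nat_lit 76) (nat_lit 9125938812) (nat_lit 178) (nat_lit 5) (nat_lit 185) (nat_lit 5) (nat_lit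 179) (nat_lit 5) (nat_lit 649) (nat_lit 568) (nat_lit 343))) (XT.nd (nat_lit 78) (nat_lit 456) (nat_lit 0) (XT.lf (nat_lit 0) (nat_lit 9814717907) (nat_lit 380) (nat_lit 7171488476) (nat_lit 456) (nat_lit 9446314849) (nat_lit 173) (nat_lit 5) (nat_lit 178) (nat_lit 5) (nat_lit 179) (nat_lit 5) (nat_lit 650) (nat_lit 568) (nat_lit 342)) (XT.nd (nat_lit 78) (nat_lit 456) (nat_lit 0) (XT.lf (nat_lit 0) (nat_lit 23075810621) (nat_lit 456) (nat_lit 841961585) (nat_lit 76) (nat_lit 2840214161) (nat_lit 173) (nat_lit 5) (nat_lit 179) (nat_lit 5) (nat_lit 174) (nat_lit 5) (nat_lit 651) (nat_lit 568) (nat_lit 341)) (XT.lf (nat_lit 0) (nat_lit 2312327081) (nat_lit 456) (nat_lit 11705313061) (nat_lit 76) (nat_lit 13069157608) (nat_lit 167) (nat_lit 5) (nat_lit 173) (nat_lit 5) (nat_lit 168) (nat_lit 5) (nat_lit 652) (nat_lit 568) (nat_lit 340))))) (XT.nd (nat_lit 74724) (nat_lit 0) (nat_lit 26524) (XT.nd (nat_lit 78) (nat_lit 0) (nat_lit 0) (XT.lf (nat_lit 0) (nat_lit 4547102427) (nat_lit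 380) (nat_lit 3861074951) (nat_lit 456) (nat_lit 19012906191) (nat_lit 162) (nat_lit 5) (nat_lit 167) (nat_lit 5) (nat_lit 168) (nat_lit 5) (nat_lit 653) (nat_lit 568) (nat_lit 339)) (XT.nd (nat_lit 74568) (nat_lit 0) (nat_lit 26524) (XT.lf (nat_lit 0) (nat_lit 14742741115) (nat_lit 456) (nat_lit 6526843210) (nat_lit 76) (nat_lit 6490135071) (nat_lit 162) (nat_lit 5) (nat_lit 168) (nat_lit 5) (nat_lit 163) (nat_lit 5) (nat_lit 654) (nat_lit 568) (nat_lit 338)) (XT.lf (nat_lit 0) (nat_lit 2026274231) (nat_lit 1748) (nat_lit 1762761372) (nat_lit 1748) (nat_lit 1762761372) (nat_lit 511) (nat_lit 3) (nat_lit 534) (nat_lit 3) (nat_lit 534) (nat_lit 5) (nat_lit 569) (nat_lit 569) (nat_lit 422)))) (XT.nd (nat_lit 78) (nat_lit 0) (nat_lit 76) (XT.lf (nat_lit 76) (nat_lit 1988036365) (nat_lit 0) (nat_lit 2678345285) (nat_lit 1748) (nat_lit 6536727864) (nat_lit 512) (nat_lit 5) (nat_lit 511) (nat_lit 3) (nat_lit 534) (nat_lit 5) (nat_lit 570) (nat_lit 569) (nat_lit 421)) (XT.nd (nat_lit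 78) (nat_lit 0) (nat_lit 0) (XT.lf (nat_lit 0) (nat_lit 5316662828) (nat_lit 1672) (nat_lit 3667641706) (nat_lit 1748) (nat_lit 2319828853) (nat_lit 512) (nat_lit 5) (nat_lit 534) (nat_lit 5) (nat_lit 535) (nat_lit 5) (nat_lit 571) (nat_lit 569) (nat_lit 420)) (XT.lf (nat_lit 76) (nat_lit 1991333438) (nat_lit 0) (nat_lit 4004868529) (nat_lit 1748) (nat_lit 5410652117) (nat_lit 513) (nat_lit 5) (nat_lit 512) (nat_lit 5) (nat_lit 535) (nat_lit 5) (nat_lit 572) (nat_lit 569) (nat_lit 419))))))))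
noncomputable def xc175 : XT := (XT.nd (nat_lit 1560) (nat_lit 10336) (nat_lit 0) (XT.nd (nat_lit 780) (nat_lit 1444) (nat_lit 0) (XT.nd (nat_lit 390) (nat_lit 1520) (nat_lit 0) (XT.nd (nat_lit 156) (nat_lit 0) (nat_lit 0) (XT.nd (nat_lit 78) (nat_lit 0) (nat_lit 0) (XT.lf (nat_lit 0) (nat_lit 6706941010) (nat_lit 1672) (nat_lit 3713130048) (nat_lit 1748) (nat_lit 1091207323) (nat_lit 513) (nat_lit 5) (nat_lit 535) (nat_lit 5) (nat_lit 536) (nat_lit 5) (nat_lit 573) (nat_lit 569) (nat_lit 418)) (XT.lf (nat_lit 76) (nat_lit 2096378577) (nat_lit 0) (nat_lit 5361787080) (nat_lit 1748) (nat_lit 4159101429) (nat_lit 514) (nat_lit 5) (nat_lit 513) (nat_lit 5) (nat_lit 536) (nat_lit 5) (nat_lit 574) (nat_lit 569) (nat_lit 417))) (XT.nd (nat_lit 78) (nat_lit 0) (nat_lit 76) (XT.lf (nat_lit 76) (nat_lit 8064559958) (nat_lit 0) (nat_lit 171130184) (nat_lit 1748) (nat_lit 3489461232) (nat_lit 514) (nat_lit 5) (nat_lit 513) (nat_lit 5) (nat_lit 536) (nat_lit 5) (nat_lit 575) (nat_lit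 569) (nat_lit 416)) (XT.nd (nat_lit 78) (nat_lit 0) (nat_lit 0) (XT.lf (nat_lit 76) (nat_lit 2305888041) (nat_lit 0) (nat_lit 6757775187) (nat_lit 1748) (nat_lit 2770833444) (nat_lit 515) (nat_lit 5) (nat_lit 514) (nat_lit 5) (nat_lit 537) (nat_lit 5) (nat_lit 576) (nat_lit 569) (nat_lit 415)) (XT.lf (nat_lit 76) (nat_lit 8432220043) (nat_lit 0) (nat_lit 1488538629) (nat_lit 1748) (nat_lit 2025020210) (nat_lit 515) (nat_lit 5) (nat_lit 514) (nat_lit 5) (nat_lit 537) (nat_lit 5) (nat_lit 577) (nat_lit 569) (nat_lit 414))))) (XT.nd (nat_lit 156) (nat_lit 1672) (nat_lit 0) (XT.nd (nat_lit 78) (nat_lit 0) (nat_lit 0) (XT.lf (nat_lit 76) (nat_lit 2622875717) (nat_lit 0) (nat_lit 8201543690) (nat_lit 1748) (nat_lit 1234280097) (nat_lit 516) (nat_lit 5) (nat_lit 515) (nat_lit 5) (nat_lit 538) (nat_lit 5) (nat_lit 578) (nat_lit 569) (nat_lit 413)) (XT.lf (nat_lit 76) (nat_lit 8911645799) (nat_lit 0) (nat_lit 2855240876) (nat_lit 1748) (nat_lit 406578414) (nat_lit 516) (nat_lit 5)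 (nat_lit 515) (nat_lit 5) (nat_lit 538) (nat_lit 5) (nat_lit 579) (nat_lit 569) (nat_lit 412))) (XT.nd (nat_lit 78) (nat_lit 0) (nat_lit 0) (XT.lf (nat_lit 0) (nat_lit 456411255) (nat_lit 1748) (nat_lit 9242388597) (nat_lit 1824) (nat_lit 2591180982) (nat_lit 493) (nat_lit 5) (nat_lit 516) (nat_lit 5) (nat_lit 517) (nat_lit 5) (nat_lit 580) (nat_lit 569) (nat_lit 411)) (XT.nd (nat_lit 78) (nat_lit 0) (nat_lit 76) (XT.lf (nat_lit 0) (nat_lit 1359911695) (nat_lit 1748) (nat_lit 2910991381) (nat_lit 1824) (nat_lit 8137297311) (nat_lit 493) (nat_lit 5) (nat_lit 516) (nat_lit 5) (nat_lit 517) (nat_lit 5) (nat_lit 581) (nat_lit 569) (nat_lit 410)) (XT.lf (nat_lit 0) (nat_lit 2301148837) (nat_lit 1748) (nat_lit 8950992747) (nat_lit 1824) (nat_lit 1276250534) (nat_lit 494) (nat_lit 5) (nat_lit 517) (nat_lit 5) (nat_lit 518) (nat_lit 5) (nat_lit 582) (nat_lit 569) (nat_lit 409)))))) (XT.nd (nat_lit 390) (nat_lit 1520) (nat_lit 0) (XT.nd (nat_lit 156) (nat_lit 0) (nat_lit 76) (XT.nd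 (nat_lit 78) (nat_lit 0) (nat_lit 0) (XT.lf (nat_lit 0) (nat_lit 3297354190) (nat_lit 1748) (nat_lit 2452302883) (nat_lit 1824) (nat_lit 6900608842) (nat_lit 494) (nat_lit 5) (nat_lit 517) (nat_lit 5) (nat_lit 518) (nat_lit 5) (nat_lit 583) (nat_lit 569) (nat_lit 408)) (XT.lf (nat_lit 76) (nat_lit 4223607496) (nat_lit 0) (nat_lit 105725761) (nat_lit 1824) (nat_lit 8444928016) (nat_lit 495) (nat_lit 5) (nat_lit 494) (nat_lit 5) (nat_lit 518) (nat_lit 5) (nat_lit 584) (nat_lit 569) (nat_lit 407))) (XT.nd (nat_lit 78) (nat_lit 0) (nat_lit 0) (XT.lf (nat_lit 0) (nat_lit 5423830699) (nat_lit 1748) (nat_lit 1879272832) (nat_lit 1824) (nat_lit 5596796488) (nat_lit 495) (nat_lit 5) (nat_lit 518) (nat_lit 5) (nat_lit 519) (nat_lit 5) (nat_lit 585) (nat_lit 569) (nat_lit 406)) (XT.nd (nat_lit 78) (nat_lit 0) (nat_lit 76) (XT.lf (nat_lit 76) (nat_lit 4981995382) (nat_lit 0) (nat_lit 1580115356) (nat_lit 1824) (nat_lit 6465503985) (nat_lit 496) (nat_lit 5) (nat_lit 495) (nat_lit 5) (nat_lit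 519) (nat_lit 5) (nat_lit 586) (nat_lit 569) (nat_lit 405)) (XT.lf (nat_lit 0) (nat_lit 7752522817) (nat_lit 1748) (nat_lit 1187758934) (nat_lit 1824) (nat_lit 4217015657) (nat_lit 496) (nat_lit 5) (nat_lit 519) (nat_lit 5) (nat_lit 520) (nat_lit 5) (nat_lit 587) (nat_lit 569) (nat_lit 404))))) (XT.nd (nat_lit 156) (nat_lit 1672) (nat_lit 0) (XT.nd (nat_lit 78) (nat_lit 0) (nat_lit 76) (XT.lf (nat_lit 76) (nat_lit 5865520235) (nat_lit 0) (nat_lit 3139015761) (nat_lit 1824) (nat_lit 4284282888) (nat_lit 497) (nat_lit 5) (nat_lit 496) (nat_lit 5) (nat_lit 520) (nat_lit 5) (nat_lit 588) (nat_lit 569) (nat_lit 403)) (XT.lf (nat_lit 0) (nat_lit 10297070663) (nat_lit 1748) (nat_lit 373313504) (nat_lit 1824) (nat_lit 2752277977) (nat_lit 497) (nat_lit 5) (nat_lit 520) (nat_lit 5) (nat_lit 521) (nat_lit 5) (nat_lit 589) (nat_lit 569) (nat_lit 402))) (XT.nd (nat_lit 78) (nat_lit 1748) (nat_lit 0) (XT.lf (nat_lit 76) (nat_lit 6878888965) (nat_lit 0) (nat_lit 4791644552) (nat_lit 1824)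 (nat_lit 1887548157) (nat_lit 498) (nat_lit 5) (nat_lit 497) (nat_lit 5) (nat_lit 521) (nat_lit 5) (nat_lit 590) (nat_lit 569) (nat_lit 401)) (XT.nd (nat_lit 78) (nat_lit 1824) (nat_lit 0) (XT.lf (nat_lit 76) (nat_lit 576380753) (nat_lit 0) (nat_lit 12498961189) (nat_lit 1824) (nat_lit 620791066) (nat_lit 499) (nat_lit 5) (nat_lit 498) (nat_lit 5) (nat_lit 522) (nat_lit 5) (nat_lit 591) (nat_lit 569) (nat_lit 400)) (XT.lf (nat_lit 0) (nat_lit 729216832) (nat_lit 1824) (nat_lit 5813290405) (nat_lit 1900) (nat_lit 7293017464) (nat_lit 474) (nat_lit 5) (nat_lit 498) (nat_lit 5) (nat_lit 499) (nat_lit 5) (nat_lit 592) (nat_lit 569) (nat_lit 399))))))) (XT.nd (nat_lit 780) (nat_lit 4788) (nat_lit 0) (XT.nd (nat_lit 390) (nat_lit 2736) (nat_lit 0) (XT.nd (nat_lit 156) (nat_lit 2812) (nat_lit 0) (XT.nd (nat_lit 78) (nat_lit 0) (nat_lit 76) (XT.lf (nat_lit 76) (nat_lit 1648518679) (nat_lit 0) (nat_lit 450172933) (nat_lit 1900) (nat_lit 11878915850) (nat_lit 475) (nat_lit 5) (nat_lit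 474) (nat_lit 5) (nat_lit 499) (nat_lit 5) (nat_lit 593) (nat_lit 569) (nat_lit 398)) (XT.lf (nat_lit 0) (nat_lit 3562467658) (nat_lit 1824) (nat_lit 4829512798) (nat_lit 76) (nat_lit 5729214053) (nat_lit 475) (nat_lit 5) (nat_lit 499) (nat_lit 5) (nat_lit 476) (nat_lit 5) (nat_lit 594) (nat_lit 569) (nat_lit 397))) (XT.nd (nat_lit 78) (nat_lit 1064) (nat_lit 0) (XT.lf (nat_lit 0) (nat_lit 2846122760) (nat_lit 1824) (nat_lit 2221267856) (nat_lit 1900) (nat_lit 9200026104) (nat_lit 451) (nat_lit 5) (nat_lit 475) (nat_lit 5) (nat_lit 476) (nat_lit 5) (nat_lit 595) (nat_lit 569) (nat_lit 396)) (XT.nd (nat_lit 78) (nat_lit 1064) (nat_lit 0) (XT.lf (nat_lit 0) (nat_lit 6652032744) (nat_lit 1900) (nat_lit 3710258711) (nat_lit 76) (nat_lit 4053280338) (nat_lit 451) (nat_lit 5) (nat_lit 476) (nat_lit 5) (nat_lit 452) (nat_lit 5) (nat_lit 596) (nat_lit 569) (nat_lit 395)) (XT.lf (nat_lit 0) (nat_lit 4186942972) (nat_lit 1064) (nat_lit 4114058566) (nat_lit 1140) (nat_lit 6265036570)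 (nat_lit 437) (nat_lit 5) (nat_lit 451) (nat_lit 5) (nat_lit 452) (nat_lit 5) (nat_lit 597) (nat_lit 569) (nat_lit 394))))) (XT.nd (nat_lit 156) (nat_lit 1824) (nat_lit 0) (XT.nd (nat_lit 78) (nat_lit 912) (nat_lit 0) (XT.lf (nat_lit 0) (nat_lit 10013553618) (nat_lit 1140) (nat_lit 2449857861) (nat_lit 76) (nat_lit 2255490994) (nat_lit 437) (nat_lit 5) (nat_lit 452) (nat_lit 5) (nat_lit 438) (nat_lit 5) (nat_lit 598) (nat_lit 569) (nat_lit 393)) (XT.lf (nat_lit 0) (nat_lit 5676945870) (nat_lit 912) (nat_lit 6138567146) (nat_lit 988) (nat_lit 3058208769) (nat_lit 425) (nat_lit 5) (nat_lit 437) (nat_lit 5) (nat_lit 438) (nat_lit 5) (nat_lit 599) (nat_lit 569) (nat_lit 392))) (XT.nd (nat_lit 78) (nat_lit 1824) (nat_lit 0) (XT.lf (nat_lit 0) (nat_lit 13663270021) (nat_lit 988) (nat_lit 1042308571) (nat_lit 76) (nat_lit 325864492) (nat_lit 425) (nat_lit 5) (nat_lit 438) (nat_lit 5) (nat_lit 426) (nat_lit 5) (nat_lit 600) (nat_lit 569) (nat_lit 391)) (XT.nd (nat_lit 78) (nat_lit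 836) (nat_lit 0) (XT.lf (nat_lit 0) (nat_lit 431071657) (nat_lit 988) (nat_lit 7871124758) (nat_lit 76) (nat_lit 6888475491) (nat_lit 412) (nat_lit 5) (nat_lit 425) (nat_lit 5) (nat_lit 413) (nat_lit 5) (nat_lit 601) (nat_lit 569) (nat_lit 390)) (XT.lf (nat_lit 0) (nat_lit 499009274) (nat_lit 836) (nat_lit 1750681392) (nat_lit 912) (nat_lit 13103180308) (nat_lit 401) (nat_lit 5) (nat_lit 412) (nat_lit 5) (nat_lit 413) (nat_lit 5) (nat_lit 602) (nat_lit 569) (nat_lit 389)))))) (XT.nd (nat_lit 390) (nat_lit 3116) (nat_lit 0) (XT.nd (nat_lit 156) (nat_lit 836) (nat_lit 0) (XT.nd (nat_lit 78) (nat_lit 836) (nat_lit 0) (XT.lf (nat_lit 0) (nat_lit 4181400594) (nat_lit 912) (nat_lit 6414756478) (nat_lit 76) (nat_lit 4920623291) (nat_lit 401) (nat_lit 5) (nat_lit 413) (nat_lit 5) (nat_lit 402) (nat_lit 5) (nat_lit 603) (nat_lit 569) (nat_lit 388)) (XT.lf (nat_lit 0) (nat_lit 2202214201) (nat_lit 836) (nat_lit 3967117201) (nat_lit 912) (nat_lit 9514285502) (nat_lit 390) (nat_lit 5)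 (nat_lit 401) (nat_lit 5) (nat_lit 402) (nat_lit 5) (nat_lit 604) (nat_lit 569) (nat_lit 387))) (XT.nd (nat_lit 78) (nat_lit 836) (nat_lit 0) (XT.lf (nat_lit 0) (nat_lit 8250300811) (nat_lit 912) (nat_lit 4801196153) (nat_lit 76) (nat_lit 2801228295) (nat_lit 390) (nat_lit 5) (nat_lit 402) (nat_lit 5) (nat_lit 391) (nat_lit 5) (nat_lit 605) (nat_lit 569) (nat_lit 386)) (XT.nd (nat_lit 78) (nat_lit 0) (nat_lit 0) (XT.lf (nat_lit 0) (nat_lit 4071588841) (nat_lit 836) (nat_lit 6345973959) (nat_lit 912) (nat_lit 5606760188) (nat_lit 379) (nat_lit 5) (nat_lit 390) (nat_lit 5) (nat_lit 391) (nat_lit 5) (nat_lit 606) (nat_lit 569) (nat_lit 385)) (XT.lf (nat_lit 0) (nat_lit 12655876406) (nat_lit 912) (nat_lit 3023473335) (nat_lit 76) (nat_lit 519449460) (nat_lit 379) (nat_lit 5) (nat_lit 391) (nat_lit 5) (nat_lit 380) (nat_lit 5) (nat_lit 607) (nat_lit 569) (nat_lit 384))))) (XT.nd (nat_lit 234) (nat_lit 1444) (nat_lit 0) (XT.nd (nat_lit 78) (nat_lit 836) (nat_lit 0) (XT.lf (nat_lit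 0) (nat_lit 6114442790) (nat_lit 836) (nat_lit 8898463624) (nat_lit 912) (nat_lit 1362380166) (nat_lit 368) (nat_lit 5) (nat_lit 379) (nat_lit 5) (nat_lit 380) (nat_lit 5) (nat_lit 608) (nat_lit 569) (nat_lit 383)) (XT.nd (nat_lit 78) (nat_lit 760) (nat_lit 0) (XT.lf (nat_lit 0) (nat_lit 863168047) (nat_lit 912) (nat_lit 1092671920) (nat_lit 76) (nat_lit 14599098513) (nat_lit 367) (nat_lit 5) (nat_lit 379) (nat_lit 5) (nat_lit 368) (nat_lit 5) (nat_lit 609) (nat_lit 569) (nat_lit 382)) (XT.lf (nat_lit 0) (nat_lit 3195345022) (nat_lit 836) (nat_lit 8419380830) (nat_lit 76) (nat_lit 5121670865) (nat_lit 357) (nat_lit 5) (nat_lit 368) (nat_lit 5) (nat_lit 358) (nat_lit 5) (nat_lit 610) (nat_lit 569) (nat_lit 381)))) (XT.nd (nat_lit 78) (nat_lit 684) (nat_lit 0) (XT.lf (nat_lit 0) (nat_lit 1000410274) (nat_lit 760) (nat_lit 4593103275) (nat_lit 836) (nat_lit 11327584204) (nat_lit 347) (nat_lit 5) (nat_lit 357) (nat_lit 5) (nat_lit 358) (nat_lit 5) (nat_lit 611) (nat_lit 569) (nat_lit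 380)) (XT.nd (nat_lit 78) (nat_lit 684) (nat_lit 0) (XT.lf (nat_lit 0) (nat_lit 8105806971) (nat_lit 836) (nat_lit 6410863783) (nat_lit 76) (nat_lit 2591499411) (nat_lit 347) (nat_lit 5) (nat_lit 358) (nat_lit 5) (nat_lit 348) (nat_lit 5) (nat_lit 612) (nat_lit 569) (nat_lit 379)) (XT.lf (nat_lit 0) (nat_lit 3293927599) (nat_lit 684) (nat_lit 7418977380) (nat_lit 760) (nat_lit 6585188442) (nat_lit 338) (nat_lit 5) (nat_lit 347) (nat_lit 5) (nat_lit 348) (nat_lit 5) (nat_lit 613) (nat_lit 569) (nat_lit 378))))))))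
noncomputable def xc176 : XT := (XT.nd (nat_lit 1560) (nat_lit 6232) (nat_lit 0) (XT.nd (nat_lit 780) (nat_lit 3572) (nat_lit 0) (XT.nd (nat_lit 390) (nat_lit 1368) (nat_lit 0) (XT.nd (nat_lit 156) (nat_lit 1444) (nat_lit 0) (XT.nd (nat_lit 78) (nat_lit 760) (nat_lit 0) (XT.lf (nat_lit 0) (nat_lit 13271757124) (nat_lit 684) (nat_lit 136252946) (nat_lit 760) (nat_lit 4083088331) (nat_lit 338) (nat_lit 5) (nat_lit 347) (nat_lit 5) (nat_lit 348) (nat_lit 5) (nat_lit 614) (nat_lit 569) (nat_lit 377)) (XT.lf (nat_lit 0) (nat_lit 5781724483) (nat_lit 760) (nat_lit 10453156921) (nat_lit 836) (nat_lit 1451525341) (nat_lit 328) (nat_lit 5) (nat_lit 338) (nat_lit 5) (nat_lit 339) (nat_lit 5) (nat_lit 615) (nat_lit 569) (nat_lit 376))) (XT.nd (nat_lit 78) (nat_lit 1368) (nat_lit 0) (XT.lf (nat_lit 0) (nat_lit 1238926110) (nat_lit 836) (nat_lit 1862121665) (nat_lit 76) (nat_lit 14783965469) (nat_lit 327) (nat_lit 5) (nat_lit 338) (nat_lit 5) (nat_lit 328) (nat_lit 5) (nat_lit 616) (nat_lit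 569) (nat_lit 375)) (XT.nd (nat_lit 78) (nat_lit 684) (nat_lit 0) (XT.lf (nat_lit 0) (nat_lit 4040928196) (nat_lit 760) (nat_lit 9640407901) (nat_lit 76) (nat_lit 4404520851) (nat_lit 318) (nat_lit 5) (nat_lit 328) (nat_lit 5) (nat_lit 319) (nat_lit 5) (nat_lit 617) (nat_lit 569) (nat_lit 374)) (XT.lf (nat_lit 0) (nat_lit 674268193) (nat_lit 684) (nat_lit 6255429278) (nat_lit 760) (nat_lit 11360406018) (nat_lit 309) (nat_lit 5) (nat_lit 318) (nat_lit 5) (nat_lit 319) (nat_lit 5) (nat_lit 618) (nat_lit 569) (nat_lit 373))))) (XT.nd (nat_lit 156) (nat_lit 760) (nat_lit 0) (XT.nd (nat_lit 78) (nat_lit 608) (nat_lit 0) (XT.lf (nat_lit 0) (nat_lit 9943234754) (nat_lit 760) (nat_lit 7188192484) (nat_lit 76) (nat_lit 1365668370) (nat_lit 309) (nat_lit 5) (nat_lit 319) (nat_lit 5) (nat_lit 310) (nat_lit 5) (nat_lit 619) (nat_lit 569) (nat_lit 372)) (XT.lf (nat_lit 0) (nat_lit 3443925357) (nat_lit 608) (nat_lit 9630343758) (nat_lit 684) (nat_lit 5632814416) (nat_lit 301) (nat_lit 5)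 (nat_lit 309) (nat_lit 5) (nat_lit 310) (nat_lit 5) (nat_lit 620) (nat_lit 569) (nat_lit 371))) (XT.nd (nat_lit 78) (nat_lit 760) (nat_lit 0) (XT.lf (nat_lit 0) (nat_lit 14378355992) (nat_lit 608) (nat_lit 1931322336) (nat_lit 684) (nat_lit 2610758279) (nat_lit 301) (nat_lit 5) (nat_lit 309) (nat_lit 5) (nat_lit 310) (nat_lit 5) (nat_lit 621) (nat_lit 569) (nat_lit 370)) (XT.nd (nat_lit 78) (nat_lit 0) (nat_lit 0) (XT.lf (nat_lit 0) (nat_lit 539882737) (nat_lit 760) (nat_lit 12708544276) (nat_lit 76) (nat_lit 5888082322) (nat_lit 291) (nat_lit 5) (nat_lit 301) (nat_lit 5) (nat_lit 292) (nat_lit 5) (nat_lit 622) (nat_lit 569) (nat_lit 369)) (XT.lf (nat_lit 0) (nat_lit 3755752341) (nat_lit 760) (nat_lit 1715363225) (nat_lit 76) (nat_lit 13884699783) (nat_lit 291) (nat_lit 5) (nat_lit 301) (nat_lit 5) (nat_lit 292) (nat_lit 5) (nat_lit 623) (nat_lit 569) (nat_lit 368)))))) (XT.nd (nat_lit 390) (nat_lit 1672) (nat_lit 0) (XT.nd (nat_lit 156) (nat_lit 684) (nat_lit 0) (XT.nd (nat_lit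 78) (nat_lit 608) (nat_lit 0) (XT.lf (nat_lit 0) (nat_lit 7108555018) (nat_lit 684) (nat_lit 9978587407) (nat_lit 76) (nat_lit 2490913187) (nat_lit 283) (nat_lit 5) (nat_lit 292) (nat_lit 5) (nat_lit 284) (nat_lit 5) (nat_lit 624) (nat_lit 569) (nat_lit 367)) (XT.lf (nat_lit 0) (nat_lit 1332829934) (nat_lit 608) (nat_lit 9245913937) (nat_lit 684) (nat_lit 9224990640) (nat_lit 275) (nat_lit 5) (nat_lit 283) (nat_lit 5) (nat_lit 284) (nat_lit 5) (nat_lit 625) (nat_lit 569) (nat_lit 366))) (XT.nd (nat_lit 78) (nat_lit 684) (nat_lit 0) (XT.lf (nat_lit 0) (nat_lit 12998108935) (nat_lit 608) (nat_lit 1181116796) (nat_lit 684) (nat_lit 5853483898) (nat_lit 275) (nat_lit 5) (nat_lit 283) (nat_lit 5) (nat_lit 284) (nat_lit 5) (nat_lit 626) (nat_lit 569) (nat_lit 365)) (XT.nd (nat_lit 78) (nat_lit 76) (nat_lit 0) (XT.lf (nat_lit 0) (nat_lit 4637926802) (nat_lit 608) (nat_lit 13283680393) (nat_lit 684) (nat_lit 2343259670) (nat_lit 267) (nat_lit 5) (nat_lit 275) (nat_lit 5) (nat_lit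 276) (nat_lit 5) (nat_lit 627) (nat_lit 569) (nat_lit 364)) (XT.lf (nat_lit 0) (nat_lit 1270349151) (nat_lit 684) (nat_lit 3885247917) (nat_lit 76) (nat_lit 15344921813) (nat_lit 266) (nat_lit 5) (nat_lit 275) (nat_lit 5) (nat_lit 267) (nat_lit 5) (nat_lit 628) (nat_lit 569) (nat_lit 363))))) (XT.nd (nat_lit 156) (nat_lit 1064) (nat_lit 0) (XT.nd (nat_lit 78) (nat_lit 0) (nat_lit 0) (XT.lf (nat_lit 0) (nat_lit 4992944194) (nat_lit 684) (nat_lit 12584912983) (nat_lit 76) (nat_lit 3161355568) (nat_lit 258) (nat_lit 5) (nat_lit 267) (nat_lit 5) (nat_lit 259) (nat_lit 5) (nat_lit 629) (nat_lit 569) (nat_lit 362)) (XT.lf (nat_lit 0) (nat_lit 8844615679) (nat_lit 684) (nat_lit 536695257) (nat_lit 76) (nat_lit 11600277444) (nat_lit 258) (nat_lit 5) (nat_lit 267) (nat_lit 5) (nat_lit 259) (nat_lit 5) (nat_lit 630) (nat_lit 569) (nat_lit 361))) (XT.nd (nat_lit 78) (nat_lit 532) (nat_lit 0) (XT.lf (nat_lit 0) (nat_lit 11901196211) (nat_lit 532) (nat_lit 943744638) (nat_lit 608) (nat_lit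 8382438652) (nat_lit 251) (nat_lit 5) (nat_lit 258) (nat_lit 5) (nat_lit 259) (nat_lit 5) (nat_lit 631) (nat_lit 569) (nat_lit 360)) (XT.nd (nat_lit 78) (nat_lit 0) (nat_lit 0) (XT.lf (nat_lit 0) (nat_lit 3100567067) (nat_lit 532) (nat_lit 13892613956) (nat_lit 608) (nat_lit 4483547620) (nat_lit 244) (nat_lit 5) (nat_lit 251) (nat_lit 5) (nat_lit 252) (nat_lit 5) (nat_lit 632) (nat_lit 569) (nat_lit 359)) (XT.lf (nat_lit 0) (nat_lit 15888557944) (nat_lit 532) (nat_lit 5399084053) (nat_lit 608) (nat_lit 442158015) (nat_lit 244) (nat_lit 5) (nat_lit 251) (nat_lit 5) (nat_lit 252) (nat_lit 5) (nat_lit 633) (nat_lit 569) (nat_lit 358))))))) (XT.nd (nat_lit 780) (nat_lit 3116) (nat_lit 0) (XT.nd (nat_lit 390) (nat_lit 1520) (nat_lit 0) (XT.nd (nat_lit 156) (nat_lit 988) (nat_lit 0) (XT.nd (nat_lit 78) (nat_lit 0) (nat_lit 0) (XT.lf (nat_lit 0) (nat_lit 3693453527) (nat_lit 608) (nat_lit 15003250212) (nat_lit 76) (nat_lit 3289518373) (nat_lit 236) (nat_lit 5) (nat_lit 244) (nat_lit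 5) (nat_lit 237) (nat_lit 5) (nat_lit 634) (nat_lit 569) (nat_lit 357)) (XT.lf (nat_lit 0) (nat_lit 7975659019) (nat_lit 608) (nat_lit 2150439165) (nat_lit 76) (nat_lit 12120220316) (nat_lit 236) (nat_lit 5) (nat_lit 244) (nat_lit 5) (nat_lit 237) (nat_lit 5) (nat_lit 635) (nat_lit 569) (nat_lit 356))) (XT.nd (nat_lit 78) (nat_lit 456) (nat_lit 0) (XT.lf (nat_lit 0) (nat_lit 11097764658) (nat_lit 532) (nat_lit 1312487971) (nat_lit 608) (nat_lit 10100029639) (nat_lit 229) (nat_lit 5) (nat_lit 236) (nat_lit 5) (nat_lit 237) (nat_lit 5) (nat_lit 636) (nat_lit 569) (nat_lit 355)) (XT.nd (nat_lit 78) (nat_lit 0) (nat_lit 0) (XT.lf (nat_lit 0) (nat_lit 1827614684) (nat_lit 456) (nat_lit 15176897536) (nat_lit 532) (nat_lit 5773593940) (nat_lit 223) (nat_lit 5) (nat_lit 229) (nat_lit 5) (nat_lit 230) (nat_lit 5) (nat_lit 637) (nat_lit 569) (nat_lit 354)) (XT.lf (nat_lit 0) (nat_lit 15471231440) (nat_lit 456) (nat_lit 6299435909) (nat_lit 532) (nat_lit 1279019295) (nat_lit 223) (nat_lit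 5) (nat_lit 229) (nat_lit 5) (nat_lit 230) (nat_lit 5) (nat_lit 638) (nat_lit 569) (nat_lit 353))))) (XT.nd (nat_lit 156) (nat_lit 912) (nat_lit 0) (XT.nd (nat_lit 78) (nat_lit 0) (nat_lit 0) (XT.lf (nat_lit 0) (nat_lit 3314924868) (nat_lit 608) (nat_lit 17231271161) (nat_lit 76) (nat_lit 2779017204) (nat_lit 215) (nat_lit 5) (nat_lit 223) (nat_lit 5) (nat_lit 216) (nat_lit 5) (nat_lit 639) (nat_lit 569) (nat_lit 352)) (XT.lf (nat_lit 0) (nat_lit 8071449482) (nat_lit 608) (nat_lit 3520422896) (nat_lit 76) (nat_lit 12012452641) (nat_lit 215) (nat_lit 5) (nat_lit 223) (nat_lit 5) (nat_lit 216) (nat_lit 5) (nat_lit 640) (nat_lit 569) (nat_lit 351))) (XT.nd (nat_lit 78) (nat_lit 456) (nat_lit 0) (XT.lf (nat_lit 0) (nat_lit 10596579491) (nat_lit 456) (nat_lit 2390326387) (nat_lit 532) (nat_lit 10900837434) (nat_lit 209) (nat_lit 5) (nat_lit 215) (nat_lit 5) (nat_lit 216) (nat_lit 5) (nat_lit 641) (nat_lit 569) (nat_lit 350)) (XT.nd (nat_lit 78) (nat_lit 0) (nat_lit 0) (XT.lf (nat_lit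 0) (nat_lit 825457958) (nat_lit 456) (nat_lit 17244811605) (nat_lit 532) (nat_lit 6105168736) (nat_lit 203) (nat_lit 5) (nat_lit 209) (nat_lit 5) (nat_lit 210) (nat_lit 5) (nat_lit 642) (nat_lit 569) (nat_lit 349)) (XT.lf (nat_lit 0) (nat_lit 15381505113) (nat_lit 456) (nat_lit 7973804128) (nat_lit 532) (nat_lit 1111578057) (nat_lit 203) (nat_lit 5) (nat_lit 209) (nat_lit 5) (nat_lit 210) (nat_lit 5) (nat_lit 643) (nat_lit 569) (nat_lit 348)))))) (XT.nd (nat_lit 390) (nat_lit 1672) (nat_lit 0) (XT.nd (nat_lit 156) (nat_lit 912) (nat_lit 0) (XT.nd (nat_lit 78) (nat_lit 0) (nat_lit 0) (XT.lf (nat_lit 0) (nat_lit 3970572729) (nat_lit 532) (nat_lit 19269170400) (nat_lit 76) (nat_lit 1523087133) (nat_lit 196) (nat_lit 5) (nat_lit 203) (nat_lit 5) (nat_lit 197) (nat_lit 5) (nat_lit 644) (nat_lit 569) (nat_lit 347)) (XT.lf (nat_lit 0) (nat_lit 9248867125) (nat_lit 532) (nat_lit 4643602389) (nat_lit 76) (nat_lit 11169888198) (nat_lit 196) (nat_lit 5) (nat_lit 203) (nat_lit 5) (nat_lit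 197) (nat_lit 5) (nat_lit 645) (nat_lit 569) (nat_lit 346))) (XT.nd (nat_lit 78) (nat_lit 456) (nat_lit 0) (XT.lf (nat_lit 0) (nat_lit 10404070091) (nat_lit 456) (nat_lit 4291494308) (nat_lit 532) (nat_lit 10671054837) (nat_lit 190) (nat_lit 5) (nat_lit 196) (nat_lit 5) (nat_lit 197) (nat_lit 5) (nat_lit 646) (nat_lit 569) (nat_lit 345)) (XT.nd (nat_lit 78) (nat_lit 76) (nat_lit 0) (XT.lf (nat_lit 0) (nat_lit 97762287) (nat_lit 380) (nat_lit 20216475940) (nat_lit 456) (nat_lit 5361467170) (nat_lit 185) (nat_lit 5) (nat_lit 190) (nat_lit 5) (nat_lit 191) (nat_lit 5) (nat_lit 647) (nat_lit 569) (nat_lit 344)) (XT.lf (nat_lit 0) (nat_lit 178429412) (nat_lit 456) (nat_lit 10363211475) (nat_lit 76) (nat_lit 15446829001) (nat_lit 184) (nat_lit 5) (nat_lit 190) (nat_lit 5) (nat_lit 185) (nat_lit 5) (nat_lit 648) (nat_lit 569) (nat_lit 343))))) (XT.nd (nat_lit 234) (nat_lit 836) (nat_lit 0) (XT.nd (nat_lit 78) (nat_lit 380) (nat_lit 0) (XT.lf (nat_lit 0) (nat_lit 5181490550) (nat_lit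 456) (nat_lit 604980996) (nat_lit 532) (nat_lit 20519726827) (nat_lit 178) (nat_lit 5) (nat_lit 184) (nat_lit 5) (nat_lit 185) (nat_lit 5) (nat_lit 649) (nat_lit 569) (nat_lit 342)) (XT.nd (nat_lit 78) (nat_lit 380) (nat_lit 0) (XT.lf (nat_lit 0) (nat_lit 11634015942) (nat_lit 532) (nat_lit 5520472088) (nat_lit 76) (nat_lit 9473246810) (nat_lit 178) (nat_lit 5) (nat_lit 185) (nat_lit 5) (nat_lit 179) (nat_lit 5) (nat_lit 650) (nat_lit 569) (nat_lit 341)) (XT.lf (nat_lit 0) (nat_lit 10523182867) (nat_lit 380) (nat_lit 7143207858) (nat_lit 456) (nat_lit 9287953956) (nat_lit 173) (nat_lit 5) (nat_lit 178) (nat_lit 5) (nat_lit 179) (nat_lit 5) (nat_lit 651) (nat_lit 569) (nat_lit 340)))) (XT.nd (nat_lit 78) (nat_lit 836) (nat_lit 0) (XT.lf (nat_lit 0) (nat_lit 23872204354) (nat_lit 456) (nat_lit 351072659) (nat_lit 76) (nat_lit 3063154106) (nat_lit 173) (nat_lit 5) (nat_lit 179) (nat_lit 5) (nat_lit 174) (nat_lit 5) (nat_lit 652) (nat_lit 569) (nat_lit 339)) (XT.nd (nat_lit 78)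 (nat_lit 380) (nat_lit 0) (XT.lf (nat_lit 0) (nat_lit 2692372531) (nat_lit 456) (nat_lit 11430578723) (nat_lit 76) (nat_lit 13498889726) (nat_lit 167) (nat_lit 5) (nat_lit 173) (nat_lit 5) (nat_lit 168) (nat_lit 5) (nat_lit 653) (nat_lit 569) (nat_lit 338)) (XT.lf (nat_lit 0) (nat_lit 5143537439) (nat_lit 380) (nat_lit 3763339313) (nat_lit 456) (nat_lit 19056001352) (nat_lit 162) (nat_lit 5) (nat_lit 167) (nat_lit 5) (nat_lit 168) (nat_lit 5) (nat_lit 654) (nat_lit 569) (nat_lit 337))))))))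
noncomputable def xc177 : XT := (XT.nd (nat_lit 1560) (nat_lit 9500) (nat_lit 0) (XT.nd (nat_lit 780) (nat_lit 1444) (nat_lit 0) (XT.nd (nat_lit 390) (nat_lit 0) (nat_lit 152) (XT.nd (nat_lit 156) (nat_lit 0) (nat_lit 76) (XT.nd (nat_lit 78) (nat_lit 0) (nat_lit 0) (XT.lf (nat_lit 0) (nat_lit 2623561280) (nat_lit 1748) (nat_lit 1514041267) (nat_lit 1748) (nat_lit 1514041267) (nat_lit 511) (nat_lit 3) (nat_lit 534) (nat_lit 3) (nat_lit 534) (nat_lit 5) (nat_lit 570) (nat_lit 570) (nat_lit 420)) (XT.lf (nat_lit 76) (nat_lit 2592011239) (nat_lit 0) (nat_lit 3263050640) (nat_lit 1748) (nat_lit 5550097151) (nat_lit 512) (nat_lit 5) (nat_lit 511) (nat_lit 3) (nat_lit 534) (nat_lit 5) (nat_lit 571) (nat_lit 570) (nat_lit 419))) (XT.nd (nat_lit 78) (nat_lit 0) (nat_lit 0) (XT.lf (nat_lit 0) (nat_lit 6493490292) (nat_lit 1672) (nat_lit 3162881476) (nat_lit 1748) (nat_lit 1852330849) (nat_lit 512) (nat_lit 5) (nat_lit 534) (nat_lit 5) (nat_lit 535) (nat_lit 5) (nat_lit 572) (nat_lit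 570) (nat_lit 418)) (XT.nd (nat_lit 78) (nat_lit 0) (nat_lit 76) (XT.lf (nat_lit 76) (nat_lit 2605469795) (nat_lit 0) (nat_lit 4563889137) (nat_lit 1748) (nat_lit 4444466054) (nat_lit 513) (nat_lit 5) (nat_lit 512) (nat_lit 5) (nat_lit 535) (nat_lit 5) (nat_lit 573) (nat_lit 570) (nat_lit 417)) (XT.lf (nat_lit 0) (nat_lit 7870612612) (nat_lit 1672) (nat_lit 3200544261) (nat_lit 1748) (nat_lit 649656889) (nat_lit 513) (nat_lit 5) (nat_lit 535) (nat_lit 5) (nat_lit 536) (nat_lit 5) (nat_lit 574) (nat_lit 570) (nat_lit 416))))) (XT.nd (nat_lit 156) (nat_lit 0) (nat_lit 76) (XT.nd (nat_lit 78) (nat_lit 0) (nat_lit 0) (XT.lf (nat_lit 76) (nat_lit 2721293692) (nat_lit 0) (nat_lit 5899166285) (nat_lit 1748) (nat_lit 3208792251) (nat_lit 514) (nat_lit 5) (nat_lit 513) (nat_lit 5) (nat_lit 536) (nat_lit 5) (nat_lit 575) (nat_lit 570) (nat_lit 415)) (XT.lf (nat_lit 76) (nat_lit 8797407572) (nat_lit 0) (nat_lit 596262065) (nat_lit 1748) (nat_lit 2546023784) (nat_lit 514) (nat_lit 5)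 (nat_lit 513) (nat_lit 5) (nat_lit 536) (nat_lit 5) (nat_lit 576) (nat_lit 570) (nat_lit 414))) (XT.nd (nat_lit 78) (nat_lit 0) (nat_lit 0) (XT.lf (nat_lit 76) (nat_lit 2942351638) (nat_lit 0) (nat_lit 7277523336) (nat_lit 1748) (nat_lit 1831719071) (nat_lit 515) (nat_lit 5) (nat_lit 514) (nat_lit 5) (nat_lit 537) (nat_lit 5) (nat_lit 577) (nat_lit 570) (nat_lit 413)) (XT.nd (nat_lit 78) (nat_lit 0) (nat_lit 76) (XT.lf (nat_lit 76) (nat_lit 9179634871) (nat_lit 0) (nat_lit 1895361014) (nat_lit 1748) (nat_lit 1090490181) (nat_lit 515) (nat_lit 5) (nat_lit 514) (nat_lit 5) (nat_lit 537) (nat_lit 5) (nat_lit 578) (nat_lit 570) (nat_lit 412)) (XT.lf (nat_lit 76) (nat_lit 3271809944) (nat_lit 0) (nat_lit 8707650939) (nat_lit 1748) (nat_lit 301551402) (nat_lit 516) (nat_lit 5) (nat_lit 515) (nat_lit 5) (nat_lit 538) (nat_lit 5) (nat_lit 579) (nat_lit 570) (nat_lit 411)))))) (XT.nd (nat_lit 390) (nat_lit 0) (nat_lit 152) (XT.nd (nat_lit 156) (nat_lit 0) (nat_lit 76) (XT.nd (nat_lit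 78) (nat_lit 0) (nat_lit 76) (XT.lf (nat_lit 0) (nat_lit 517060029) (nat_lit 1748) (nat_lit 2727184914) (nat_lit 1824) (nat_lit 9154130031) (nat_lit 492) (nat_lit 5) (nat_lit 515) (nat_lit 5) (nat_lit 516) (nat_lit 5) (nat_lit 580) (nat_lit 570) (nat_lit 410)) (XT.lf (nat_lit 0) (nat_lit 1375489245) (nat_lit 1748) (nat_lit 8813591978) (nat_lit 1824) (nat_lit 2328415283) (nat_lit 493) (nat_lit 5) (nat_lit 516) (nat_lit 5) (nat_lit 517) (nat_lit 5) (nat_lit 581) (nat_lit 570) (nat_lit 409))) (XT.nd (nat_lit 78) (nat_lit 0) (nat_lit 76) (XT.lf (nat_lit 0) (nat_lit 2279217541) (nat_lit 1748) (nat_lit 2367599062) (nat_lit 1824) (nat_lit 7991622356) (nat_lit 493) (nat_lit 5) (nat_lit 516) (nat_lit 5) (nat_lit 517) (nat_lit 5) (nat_lit 582) (nat_lit 570) (nat_lit 408)) (XT.nd (nat_lit 78) (nat_lit 0) (nat_lit 0) (XT.lf (nat_lit 0) (nat_lit 3223844078) (nat_lit 1748) (nat_lit 8512883457) (nat_lit 1824) (nat_lit 1024617330) (nat_lit 494) (nat_lit 5) (nat_lit 517) (nat_lit 5) (nat_lit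 518) (nat_lit 5) (nat_lit 583) (nat_lit 570) (nat_lit 407)) (XT.lf (nat_lit 0) (nat_lit 4222783885) (nat_lit 1748) (nat_lit 1896320367) (nat_lit 1824) (nat_lit 6766897279) (nat_lit 494) (nat_lit 5) (nat_lit 517) (nat_lit 5) (nat_lit 518) (nat_lit 5) (nat_lit 584) (nat_lit 570) (nat_lit 406))))) (XT.nd (nat_lit 156) (nat_lit 0) (nat_lit 76) (XT.nd (nat_lit 78) (nat_lit 0) (nat_lit 76) (XT.lf (nat_lit 76) (nat_lit 4909127769) (nat_lit 0) (nat_lit 353324568) (nat_lit 1824) (nat_lit 7750285034) (nat_lit 495) (nat_lit 5) (nat_lit 494) (nat_lit 5) (nat_lit 518) (nat_lit 5) (nat_lit 585) (nat_lit 570) (nat_lit 405)) (XT.lf (nat_lit 0) (nat_lit 6360678458) (nat_lit 1748) (nat_lit 1309357212) (nat_lit 1824) (nat_lit 5471217986) (nat_lit 495) (nat_lit 5) (nat_lit 518) (nat_lit 5) (nat_lit 519) (nat_lit 5) (nat_lit 586) (nat_lit 570) (nat_lit 404))) (XT.nd (nat_lit 78) (nat_lit 0) (nat_lit 76) (XT.lf (nat_lit 76) (nat_lit 5685139648) (nat_lit 0) (nat_lit 1824260229) (nat_lit 1824) (nat_lit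 5762370770) (nat_lit 496) (nat_lit 5) (nat_lit 495) (nat_lit 5) (nat_lit 519) (nat_lit 5) (nat_lit 587) (nat_lit 570) (nat_lit 403)) (XT.nd (nat_lit 78) (nat_lit 0) (nat_lit 0) (XT.lf (nat_lit 0) (nat_lit 8706266368) (nat_lit 1748) (nat_lit 602415391) (nat_lit 1824) (nat_lit 4095713782) (nat_lit 496) (nat_lit 5) (nat_lit 519) (nat_lit 5) (nat_lit 520) (nat_lit 5) (nat_lit 588) (nat_lit 570) (nat_lit 402)) (XT.lf (nat_lit 76) (nat_lit 6587922134) (nat_lit 0) (nat_lit 3383665684) (nat_lit 1824) (nat_lit 3567195719) (nat_lit 497) (nat_lit 5) (nat_lit 496) (nat_lit 5) (nat_lit 520) (nat_lit 5) (nat_lit 589) (nat_lit 570) (nat_lit 401))))))) (XT.nd (nat_lit 780) (nat_lit 5320) (nat_lit 0) (XT.nd (nat_lit 390) (nat_lit 2812) (nat_lit 0) (XT.nd (nat_lit 156) (nat_lit 1748) (nat_lit 0) (XT.nd (nat_lit 78) (nat_lit 0) (nat_lit 0) (XT.lf (nat_lit 76) (nat_lit 232151241) (nat_lit 0) (nat_lit 11042740941) (nat_lit 1824) (nat_lit 2400714520) (nat_lit 498) (nat_lit 5) (nat_lit 497) (nat_lit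 5) (nat_lit 521) (nat_lit 5) (nat_lit 590) (nat_lit 570) (nat_lit 400)) (XT.lf (nat_lit 76) (nat_lit 7622340645) (nat_lit 0) (nat_lit 5040804755) (nat_lit 1824) (nat_lit 1150844196) (nat_lit 498) (nat_lit 5) (nat_lit 497) (nat_lit 5) (nat_lit 521) (nat_lit 5) (nat_lit 591) (nat_lit 570) (nat_lit 399))) (XT.nd (nat_lit 78) (nat_lit 0) (nat_lit 0) (XT.lf (nat_lit 0) (nat_lit 127466101) (nat_lit 1824) (nat_lit 12749940340) (nat_lit 1900) (nat_lit 1077617102) (nat_lit 474) (nat_lit 5) (nat_lit 498) (nat_lit 5) (nat_lit 499) (nat_lit 5) (nat_lit 592) (nat_lit 570) (nat_lit 398)) (XT.nd (nat_lit 78) (nat_lit 0) (nat_lit 0) (XT.lf (nat_lit 0) (nat_lit 1481417215) (nat_lit 1824) (nat_lit 5313776055) (nat_lit 1900) (nat_lit 7302223936) (nat_lit 474) (nat_lit 5) (nat_lit 498) (nat_lit 5) (nat_lit 499) (nat_lit 5) (nat_lit 593) (nat_lit 570) (nat_lit 397)) (XT.lf (nat_lit 76) (nat_lit 2293218025) (nat_lit 0) (nat_lit 574572155) (nat_lit 1900) (nat_lit 11374762555) (nat_lit 475) (nat_lit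 5) (nat_lit 474) (nat_lit 5) (nat_lit 499) (nat_lit 5) (nat_lit 594) (nat_lit 570) (nat_lit 396))))) (XT.nd (nat_lit 156) (nat_lit 1064) (nat_lit 0) (XT.nd (nat_lit 78) (nat_lit 1824) (nat_lit 0) (XT.lf (nat_lit 0) (nat_lit 4345849864) (nat_lit 1824) (nat_lit 4311313766) (nat_lit 76) (nat_lit 5732148994) (nat_lit 475) (nat_lit 5) (nat_lit 499) (nat_lit 5) (nat_lit 476) (nat_lit 5) (nat_lit 595) (nat_lit 570) (nat_lit 395)) (XT.lf (nat_lit 0) (nat_lit 3513789837) (nat_lit 1824) (nat_lit 2357083415) (nat_lit 1900) (nat_lit 8667787225) (nat_lit 451) (nat_lit 5) (nat_lit 475) (nat_lit 5) (nat_lit 476) (nat_lit 5) (nat_lit 596) (nat_lit 570) (nat_lit 394))) (XT.nd (nat_lit 78) (nat_lit 1064) (nat_lit 0) (XT.lf (nat_lit 0) (nat_lit 7472859142) (nat_lit 1900) (nat_lit 3171284900) (nat_lit 76) (nat_lit 4045922805) (nat_lit 451) (nat_lit 5) (nat_lit 476) (nat_lit 5) (nat_lit 452) (nat_lit 5) (nat_lit 597) (nat_lit 570) (nat_lit 393)) (XT.nd (nat_lit 78) (nat_lit 0) (nat_lit 0) (XT.lf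 (nat_lit 0) (nat_lit 4879826745) (nat_lit 1064) (nat_lit 4265449545) (nat_lit 1140) (nat_lit 5698458009) (nat_lit 437) (nat_lit 5) (nat_lit 451) (nat_lit 5) (nat_lit 452) (nat_lit 5) (nat_lit 598) (nat_lit 570) (nat_lit 392)) (XT.lf (nat_lit 0) (nat_lit 10878340390) (nat_lit 1140) (nat_lit 1887856791) (nat_lit 76) (nat_lit 2233734715) (nat_lit 437) (nat_lit 5) (nat_lit 452) (nat_lit 5) (nat_lit 438) (nat_lit 5) (nat_lit 599) (nat_lit 570) (nat_lit 391)))))) (XT.nd (nat_lit 390) (nat_lit 2584) (nat_lit 0) (XT.nd (nat_lit 156) (nat_lit 1824) (nat_lit 0) (XT.nd (nat_lit 78) (nat_lit 0) (nat_lit 0) (XT.lf (nat_lit 0) (nat_lit 6397463289) (nat_lit 912) (nat_lit 6309786874) (nat_lit 988) (nat_lit 2450780351) (nat_lit 425) (nat_lit 5) (nat_lit 437) (nat_lit 5) (nat_lit 438) (nat_lit 5) (nat_lit 600) (nat_lit 570) (nat_lit 390)) (XT.lf (nat_lit 0) (nat_lit 14578802410) (nat_lit 988) (nat_lit 454861833) (nat_lit 76) (nat_lit 285506315) (nat_lit 425) (nat_lit 5) (nat_lit 438) (nat_lit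 5) (nat_lit 426) (nat_lit 5) (nat_lit 601) (nat_lit 570) (nat_lit 389))) (XT.nd (nat_lit 78) (nat_lit 836) (nat_lit 0) (XT.lf (nat_lit 0) (nat_lit 1077540300) (nat_lit 988) (nat_lit 7415725747) (nat_lit 76) (nat_lit 6988408482) (nat_lit 412) (nat_lit 5) (nat_lit 425) (nat_lit 5) (nat_lit 413) (nat_lit 5) (nat_lit 602) (nat_lit 570) (nat_lit 388)) (XT.nd (nat_lit 78) (nat_lit 0) (nat_lit 0) (XT.lf (nat_lit 0) (nat_lit 1117779245) (nat_lit 836) (nat_lit 1806198303) (nat_lit 912) (nat_lit 12723312170) (nat_lit 401) (nat_lit 5) (nat_lit 412) (nat_lit 5) (nat_lit 413) (nat_lit 5) (nat_lit 603) (nat_lit 570) (nat_lit 387)) (XT.lf (nat_lit 0) (nat_lit 4881852084) (nat_lit 912) (nat_lit 5933677507) (nat_lit 76) (nat_lit 4999198130) (nat_lit 401) (nat_lit 5) (nat_lit 413) (nat_lit 5) (nat_lit 402) (nat_lit 5) (nat_lit 604) (nat_lit 570) (nat_lit 386))))) (XT.nd (nat_lit 234) (nat_lit 912) (nat_lit 0) (XT.nd (nat_lit 78) (nat_lit 836) (nat_lit 0) (XT.lf (nat_lit 0) (nat_lit 2851623545)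 (nat_lit 836) (nat_lit 4049753816) (nat_lit 912) (nat_lit 9083687930) (nat_lit 390) (nat_lit 5) (nat_lit 401) (nat_lit 5) (nat_lit 402) (nat_lit 5) (nat_lit 605) (nat_lit 570) (nat_lit 385)) (XT.nd (nat_lit 78) (nat_lit 836) (nat_lit 0) (XT.lf (nat_lit 0) (nat_lit 9012010693) (nat_lit 912) (nat_lit 4291719685) (nat_lit 76) (nat_lit 2854065541) (nat_lit 390) (nat_lit 5) (nat_lit 402) (nat_lit 5) (nat_lit 391) (nat_lit 5) (nat_lit 606) (nat_lit 570) (nat_lit 384)) (XT.lf (nat_lit 0) (nat_lit 4754537455) (nat_lit 836) (nat_lit 6460285838) (nat_lit 912) (nat_lit 5118159178) (nat_lit 379) (nat_lit 5) (nat_lit 390) (nat_lit 5) (nat_lit 391) (nat_lit 5) (nat_lit 607) (nat_lit 570) (nat_lit 383)))) (XT.nd (nat_lit 78) (nat_lit 912) (nat_lit 0) (XT.lf (nat_lit 0) (nat_lit 13486436183) (nat_lit 912) (nat_lit 2482705589) (nat_lit 76) (nat_lit 542036733) (nat_lit 379) (nat_lit 5) (nat_lit 391) (nat_lit 5) (nat_lit 380) (nat_lit 5) (nat_lit 608) (nat_lit 570) (nat_lit 382)) (XT.nd (nat_lit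 78) (nat_lit 76) (nat_lit 0) (XT.lf (nat_lit 0) (nat_lit 6834013350) (nat_lit 836) (nat_lit 9049148992) (nat_lit 912) (nat_lit 808183115) (nat_lit 368) (nat_lit 5) (nat_lit 379) (nat_lit 5) (nat_lit 380) (nat_lit 5) (nat_lit 609) (nat_lit 570) (nat_lit 381)) (XT.lf (nat_lit 0) (nat_lit 1442998960) (nat_lit 912) (nat_lit 521433756) (nat_lit 76) (nat_lit 14910308105) (nat_lit 367) (nat_lit 5) (nat_lit 379) (nat_lit 5) (nat_lit 368) (nat_lit 5) (nat_lit 610) (nat_lit 570) (nat_lit 380))))))))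
noncomputable def xc178 : XT := (XT.nd (nat_lit 1560) (nat_lit 6080) (nat_lit 0) (XT.nd (nat_lit 780) (nat_lit 3876) (nat_lit 0) (XT.nd (nat_lit 390) (nat_lit 2204) (nat_lit 0) (XT.nd (nat_lit 156) (nat_lit 684) (nat_lit 0) (XT.nd (nat_lit 78) (nat_lit 760) (nat_lit 0) (XT.lf (nat_lit 0) (nat_lit 3814833778) (nat_lit 836) (nat_lit 7987646956) (nat_lit 76) (nat_lit 5257488087) (nat_lit 357) (nat_lit 5) (nat_lit 368) (nat_lit 5) (nat_lit 358) (nat_lit 5) (nat_lit 611) (nat_lit 570) (nat_lit 379)) (XT.lf (nat_lit 0) (nat_lit 1616591803) (nat_lit 760) (nat_lit 4637350865) (nat_lit 836) (nat_lit 10994562538) (nat_lit 347) (nat_lit 5) (nat_lit 357) (nat_lit 5) (nat_lit 358) (nat_lit 5) (nat_lit 612) (nat_lit 570) (nat_lit 378))) (XT.nd (nat_lit 78) (nat_lit 684) (nat_lit 0) (XT.lf (nat_lit 0) (nat_lit 8806028984) (nat_lit 836) (nat_lit 5944101959) (nat_lit 76) (nat_lit 2689398030) (nat_lit 347) (nat_lit 5) (nat_lit 358) (nat_lit 5) (nat_lit 348) (nat_lit 5) (nat_lit 613) (nat_lit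 570) (nat_lit 377)) (XT.nd (nat_lit 78) (nat_lit 0) (nat_lit 0) (XT.lf (nat_lit 0) (nat_lit 3950870914) (nat_lit 684) (nat_lit 7507684527) (nat_lit 760) (nat_lit 6174830356) (nat_lit 338) (nat_lit 5) (nat_lit 347) (nat_lit 5) (nat_lit 348) (nat_lit 5) (nat_lit 614) (nat_lit 570) (nat_lit 376)) (XT.lf (nat_lit 0) (nat_lit 14116667524) (nat_lit 684) (nat_lit 80475652) (nat_lit 760) (nat_lit 3633316907) (nat_lit 338) (nat_lit 5) (nat_lit 347) (nat_lit 5) (nat_lit 348) (nat_lit 5) (nat_lit 615) (nat_lit 570) (nat_lit 375))))) (XT.nd (nat_lit 156) (nat_lit 1368) (nat_lit 0) (XT.nd (nat_lit 78) (nat_lit 76) (nat_lit 0) (XT.lf (nat_lit 0) (nat_lit 6483036025) (nat_lit 760) (nat_lit 10591475751) (nat_lit 836) (nat_lit 955284424) (nat_lit 328) (nat_lit 5) (nat_lit 338) (nat_lit 5) (nat_lit 339) (nat_lit 5) (nat_lit 616) (nat_lit 570) (nat_lit 374)) (XT.lf (nat_lit 0) (nat_lit 1771922666) (nat_lit 836) (nat_lit 1318378488) (nat_lit 76) (nat_lit 15142209521) (nat_lit 327) (nat_lit 5)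 (nat_lit 338) (nat_lit 5) (nat_lit 328) (nat_lit 5) (nat_lit 617) (nat_lit 570) (nat_lit 373))) (XT.nd (nat_lit 78) (nat_lit 684) (nat_lit 0) (XT.lf (nat_lit 0) (nat_lit 4624235070) (nat_lit 760) (nat_lit 9246463006) (nat_lit 76) (nat_lit 4566788526) (nat_lit 318) (nat_lit 5) (nat_lit 328) (nat_lit 5) (nat_lit 319) (nat_lit 5) (nat_lit 618) (nat_lit 570) (nat_lit 372)) (XT.nd (nat_lit 78) (nat_lit 0) (nat_lit 0) (XT.lf (nat_lit 0) (nat_lit 1270646392) (nat_lit 684) (nat_lit 6294065154) (nat_lit 760) (nat_lit 11081228633) (nat_lit 309) (nat_lit 5) (nat_lit 318) (nat_lit 5) (nat_lit 319) (nat_lit 5) (nat_lit 619) (nat_lit 570) (nat_lit 371)) (XT.lf (nat_lit 0) (nat_lit 10629336276) (nat_lit 760) (nat_lit 6751273218) (nat_lit 76) (nat_lit 1476647037) (nat_lit 309) (nat_lit 5) (nat_lit 319) (nat_lit 5) (nat_lit 310) (nat_lit 5) (nat_lit 620) (nat_lit 570) (nat_lit 370)))))) (XT.nd (nat_lit 390) (nat_lit 1900) (nat_lit 0) (XT.nd (nat_lit 156) (nat_lit 1368) (nat_lit 0) (XT.nd (nat_lit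 78) (nat_lit 0) (nat_lit 0) (XT.lf (nat_lit 0) (nat_lit 4089666696) (nat_lit 608) (nat_lit 9727516341) (nat_lit 684) (nat_lit 5254378051) (nat_lit 301) (nat_lit 5) (nat_lit 309) (nat_lit 5) (nat_lit 310) (nat_lit 5) (nat_lit 621) (nat_lit 570) (nat_lit 369)) (XT.lf (nat_lit 0) (nat_lit 15231474908) (nat_lit 608) (nat_lit 1876385751) (nat_lit 684) (nat_lit 2181510060) (nat_lit 301) (nat_lit 5) (nat_lit 309) (nat_lit 5) (nat_lit 310) (nat_lit 5) (nat_lit 622) (nat_lit 570) (nat_lit 368))) (XT.nd (nat_lit 78) (nat_lit 608) (nat_lit 0) (XT.lf (nat_lit 0) (nat_lit 1020841668) (nat_lit 760) (nat_lit 12385793601) (nat_lit 76) (nat_lit 6103167535) (nat_lit 291) (nat_lit 5) (nat_lit 301) (nat_lit 5) (nat_lit 292) (nat_lit 5) (nat_lit 623) (nat_lit 570) (nat_lit 367)) (XT.nd (nat_lit 78) (nat_lit 608) (nat_lit 0) (XT.lf (nat_lit 0) (nat_lit 4291809815) (nat_lit 760) (nat_lit 1184061117) (nat_lit 76) (nat_lit 14257809040) (nat_lit 291) (nat_lit 5) (nat_lit 301) (nat_lit 5) (nat_lit 292)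 (nat_lit 5) (nat_lit 624) (nat_lit 570) (nat_lit 366)) (XT.lf (nat_lit 0) (nat_lit 7706969012) (nat_lit 684) (nat_lit 9607818056) (nat_lit 76) (nat_lit 2645672605) (nat_lit 283) (nat_lit 5) (nat_lit 292) (nat_lit 5) (nat_lit 284) (nat_lit 5) (nat_lit 625) (nat_lit 570) (nat_lit 365))))) (XT.nd (nat_lit 156) (nat_lit 1292) (nat_lit 0) (XT.nd (nat_lit 78) (nat_lit 0) (nat_lit 0) (XT.lf (nat_lit 0) (nat_lit 1926075387) (nat_lit 608) (nat_lit 9315218987) (nat_lit 684) (nat_lit 8949463753) (nat_lit 275) (nat_lit 5) (nat_lit 283) (nat_lit 5) (nat_lit 284) (nat_lit 5) (nat_lit 626) (nat_lit 570) (nat_lit 364)) (XT.lf (nat_lit 0) (nat_lit 13813550383) (nat_lit 608) (nat_lit 1091392829) (nat_lit 684) (nat_lit 5519547007) (nat_lit 275) (nat_lit 5) (nat_lit 283) (nat_lit 5) (nat_lit 284) (nat_lit 5) (nat_lit 627) (nat_lit 570) (nat_lit 363))) (XT.nd (nat_lit 78) (nat_lit 684) (nat_lit 0) (XT.lf (nat_lit 0) (nat_lit 5290594283) (nat_lit 608) (nat_lit 13427265539) (nat_lit 684) (nat_lit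 1943517636) (nat_lit 267) (nat_lit 5) (nat_lit 275) (nat_lit 5) (nat_lit 276) (nat_lit 5) (nat_lit 628) (nat_lit 570) (nat_lit 362)) (XT.nd (nat_lit 78) (nat_lit 608) (nat_lit 0) (XT.lf (nat_lit 0) (nat_lit 1727863873) (nat_lit 684) (nat_lit 3408250896) (nat_lit 76) (nat_lit 15765743178) (nat_lit 266) (nat_lit 5) (nat_lit 275) (nat_lit 5) (nat_lit 267) (nat_lit 5) (nat_lit 629) (nat_lit 570) (nat_lit 361)) (XT.lf (nat_lit 0) (nat_lit 5520819965) (nat_lit 684) (nat_lit 12277789825) (nat_lit 76) (nat_lit 3346798286) (nat_lit 258) (nat_lit 5) (nat_lit 267) (nat_lit 5) (nat_lit 259) (nat_lit 5) (nat_lit 630) (nat_lit 570) (nat_lit 360))))))) (XT.nd (nat_lit 780) (nat_lit 2812) (nat_lit 0) (XT.nd (nat_lit 390) (nat_lit 1596) (nat_lit 0) (XT.nd (nat_lit 156) (nat_lit 1140) (nat_lit 0) (XT.nd (nat_lit 78) (nat_lit 0) (nat_lit 0) (XT.lf (nat_lit 0) (nat_lit 440751) (nat_lit 532) (nat_lit 9440694501) (nat_lit 608) (nat_lit 11951664325) (nat_lit 251) (nat_lit 5) (nat_lit 258) (nat_lit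 5) (nat_lit 259) (nat_lit 5) (nat_lit 631) (nat_lit 570) (nat_lit 359)) (XT.lf (nat_lit 0) (nat_lit 12683479900) (nat_lit 532) (nat_lit 833289931) (nat_lit 608) (nat_lit 8126831181) (nat_lit 251) (nat_lit 5) (nat_lit 258) (nat_lit 5) (nat_lit 259) (nat_lit 5) (nat_lit 632) (nat_lit 570) (nat_lit 358))) (XT.nd (nat_lit 78) (nat_lit 608) (nat_lit 0) (XT.lf (nat_lit 0) (nat_lit 3710694650) (nat_lit 532) (nat_lit 14033526237) (nat_lit 608) (nat_lit 4153791868) (nat_lit 244) (nat_lit 5) (nat_lit 251) (nat_lit 5) (nat_lit 252) (nat_lit 5) (nat_lit 633) (nat_lit 570) (nat_lit 357)) (XT.nd (nat_lit 78) (nat_lit 608) (nat_lit 0) (XT.lf (nat_lit 0) (nat_lit 16743697967) (nat_lit 532) (nat_lit 5372810833) (nat_lit 608) (nat_lit 39798523) (nat_lit 244) (nat_lit 5) (nat_lit 251) (nat_lit 5) (nat_lit 252) (nat_lit 5) (nat_lit 634) (nat_lit 570) (nat_lit 356)) (XT.lf (nat_lit 0) (nat_lit 4169571253) (nat_lit 608) (nat_lit 14756941082) (nat_lit 76) (nat_lit 3491363863) (nat_lit 236) (nat_lit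 5) (nat_lit 244) (nat_lit 5) (nat_lit 237) (nat_lit 5) (nat_lit 635) (nat_lit 570) (nat_lit 355))))) (XT.nd (nat_lit 156) (nat_lit 1064) (nat_lit 0) (XT.nd (nat_lit 78) (nat_lit 532) (nat_lit 0) (XT.lf (nat_lit 0) (nat_lit 8529533626) (nat_lit 608) (nat_lit 1657787031) (nat_lit 76) (nat_lit 12496012098) (nat_lit 236) (nat_lit 5) (nat_lit 244) (nat_lit 5) (nat_lit 237) (nat_lit 5) (nat_lit 636) (nat_lit 570) (nat_lit 354)) (XT.lf (nat_lit 0) (nat_lit 11851856783) (nat_lit 532) (nat_lit 1196684734) (nat_lit 608) (nat_lit 9904120323) (nat_lit 229) (nat_lit 5) (nat_lit 236) (nat_lit 5) (nat_lit 237) (nat_lit 5) (nat_lit 637) (nat_lit 570) (nat_lit 353))) (XT.nd (nat_lit 78) (nat_lit 608) (nat_lit 0) (XT.lf (nat_lit 0) (nat_lit 2399661262) (nat_lit 456) (nat_lit 15331757337) (nat_lit 532) (nat_lit 5494489442) (nat_lit 223) (nat_lit 5) (nat_lit 229) (nat_lit 5) (nat_lit 230) (nat_lit 5) (nat_lit 638) (nat_lit 570) (nat_lit 352)) (XT.nd (nat_lit 78) (nat_lit 608) (nat_lit 0) (XT.lf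 (nat_lit 0) (nat_lit 16305650465) (nat_lit 456) (nat_lit 6279661736) (nat_lit 532) (nat_lit 917760096) (nat_lit 223) (nat_lit 5) (nat_lit 229) (nat_lit 5) (nat_lit 230) (nat_lit 5) (nat_lit 639) (nat_lit 570) (nat_lit 351)) (XT.lf (nat_lit 0) (nat_lit 3759889711) (nat_lit 608) (nat_lit 17042683419) (nat_lit 76) (nat_lit 2981548502) (nat_lit 215) (nat_lit 5) (nat_lit 223) (nat_lit 5) (nat_lit 216) (nat_lit 5) (nat_lit 640) (nat_lit 570) (nat_lit 350)))))) (XT.nd (nat_lit 390) (nat_lit 1368) (nat_lit 0) (XT.nd (nat_lit 156) (nat_lit 988) (nat_lit 0) (XT.nd (nat_lit 78) (nat_lit 456) (nat_lit 0) (XT.lf (nat_lit 0) (nat_lit 8604119986) (nat_lit 608) (nat_lit 3068073349) (nat_lit 76) (nat_lit 12396771256) (nat_lit 215) (nat_lit 5) (nat_lit 223) (nat_lit 5) (nat_lit 216) (nat_lit 5) (nat_lit 641) (nat_lit 570) (nat_lit 349)) (XT.lf (nat_lit 0) (nat_lit 11327829889) (nat_lit 456) (nat_lit 2286148138) (nat_lit 532) (nat_lit 10744151806) (nat_lit 209) (nat_lit 5) (nat_lit 215) (nat_lit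 5) (nat_lit 216) (nat_lit 5) (nat_lit 642) (nat_lit 570) (nat_lit 348))) (XT.nd (nat_lit 78) (nat_lit 532) (nat_lit 0) (XT.lf (nat_lit 0) (nat_lit 1364208929) (nat_lit 456) (nat_lit 17431955607) (nat_lit 532) (nat_lit 5855471498) (nat_lit 203) (nat_lit 5) (nat_lit 209) (nat_lit 5) (nat_lit 210) (nat_lit 5) (nat_lit 643) (nat_lit 570) (nat_lit 347)) (XT.nd (nat_lit 78) (nat_lit 532) (nat_lit 0) (XT.lf (nat_lit 0) (nat_lit 16201136992) (nat_lit 456) (nat_lit 7978621161) (nat_lit 532) (nat_lit 769299214) (nat_lit 203) (nat_lit 5) (nat_lit 209) (nat_lit 5) (nat_lit 210) (nat_lit 5) (nat_lit 644) (nat_lit 570) (nat_lit 346)) (XT.lf (nat_lit 0) (nat_lit 4407015696) (nat_lit 532) (nat_lit 19135032710) (nat_lit 76) (nat_lit 1708877817) (nat_lit 196) (nat_lit 5) (nat_lit 203) (nat_lit 5) (nat_lit 197) (nat_lit 5) (nat_lit 645) (nat_lit 570) (nat_lit 345))))) (XT.nd (nat_lit 234) (nat_lit 532) (nat_lit 0) (XT.nd (nat_lit 78) (nat_lit 836) (nat_lit 0) (XT.lf (nat_lit 0) (nat_lit 9783875362)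 (nat_lit 532) (nat_lit 4227140027) (nat_lit 76) (nat_lit 11545569238) (nat_lit 196) (nat_lit 5) (nat_lit 203) (nat_lit 5) (nat_lit 197) (nat_lit 5) (nat_lit 646) (nat_lit 570) (nat_lit 344)) (XT.nd (nat_lit 78) (nat_lit 380) (nat_lit 0) (XT.lf (nat_lit 0) (nat_lit 11118135018) (nat_lit 456) (nat_lit 4217793392) (nat_lit 532) (nat_lit 10531074918) (nat_lit 190) (nat_lit 5) (nat_lit 196) (nat_lit 5) (nat_lit 197) (nat_lit 5) (nat_lit 647) (nat_lit 570) (nat_lit 343)) (XT.lf (nat_lit 0) (nat_lit 608245833) (nat_lit 380) (nat_lit 20456253865) (nat_lit 456) (nat_lit 5117821413) (nat_lit 185) (nat_lit 5) (nat_lit 190) (nat_lit 5) (nat_lit 191) (nat_lit 5) (nat_lit 648) (nat_lit 570) (nat_lit 342)))) (XT.nd (nat_lit 78) (nat_lit 456) (nat_lit 0) (XT.lf (nat_lit 0) (nat_lit 521481638) (nat_lit 456) (nat_lit 10067388861) (nat_lit 76) (nat_lit 15912560986) (nat_lit 184) (nat_lit 5) (nat_lit 190) (nat_lit 5) (nat_lit 185) (nat_lit 5) (nat_lit 649) (nat_lit 570) (nat_lit 341)) (XT.nd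 (nat_lit 78) (nat_lit 0) (nat_lit 0) (XT.lf (nat_lit 0) (nat_lit 5784897423) (nat_lit 456) (nat_lit 453375534) (nat_lit 532) (nat_lit 20587310172) (nat_lit 178) (nat_lit 5) (nat_lit 184) (nat_lit 5) (nat_lit 185) (nat_lit 5) (nat_lit 650) (nat_lit 570) (nat_lit 340)) (XT.lf (nat_lit 0) (nat_lit 12197220635) (nat_lit 532) (nat_lit 5135338989) (nat_lit 76) (nat_lit 9821102001) (nat_lit 178) (nat_lit 5) (nat_lit 185) (nat_lit 5) (nat_lit 179) (nat_lit 5) (nat_lit 651) (nat_lit 570) (nat_lit 339))))))))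
noncomputable def xc179 : XT := (XT.nd (nat_lit 76206) (nat_lit 0) (nat_lit 16112) (XT.nd (nat_lit 75426) (nat_lit 0) (nat_lit 24700) (XT.nd (nat_lit 75036) (nat_lit 0) (nat_lit 26220) (XT.nd (nat_lit 156) (nat_lit 76) (nat_lit 0) (XT.nd (nat_lit 78) (nat_lit 380) (nat_lit 0) (XT.lf (nat_lit 0) (nat_lit 11225928917) (nat_lit 380) (nat_lit 7121029350) (nat_lit 456) (nat_lit 9139911430) (nat_lit 173) (nat_lit 5) (nat_lit 178) (nat_lit 5) (nat_lit 179) (nat_lit 5) (nat_lit 652) (nat_lit 570) (nat_lit 338)) (XT.lf (nat_lit 0) (nat_lit 131644887) (nat_lit 380) (nat_lit 24540732098) (nat_lit 456) (nat_lit 3153311439) (nat_lit 168) (nat_lit 5) (nat_lit 173) (nat_lit 5) (nat_lit 174) (nat_lit 5) (nat_lit 653) (nat_lit 570) (nat_lit 337))) (XT.nd (nat_lit 74724) (nat_lit 0) (nat_lit 26144) (XT.lf (nat_lit 0) (nat_lit 3067057071) (nat_lit 456) (nat_lit 11170108599) (nat_lit 76) (nat_lit 13930679291) (nat_lit 167) (nat_lit 5) (nat_lit 173) (nat_lit 5) (nat_lit 168) (nat_lit 5) (nat_lit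 654) (nat_lit 570) (nat_lit 336)) (XT.nd (nat_lit 78) (nat_lit 0) (nat_lit 0) (XT.lf (nat_lit 0) (nat_lit 3211174340) (nat_lit 1748) (nat_lit 1271373869) (nat_lit 1748) (nat_lit 1271373869) (nat_lit 511) (nat_lit 3) (nat_lit 534) (nat_lit 3) (nat_lit 534) (nat_lit 5) (nat_lit 571) (nat_lit 571) (nat_lit 418)) (XT.lf (nat_lit 76) (nat_lit 3186156487) (nat_lit 0) (nat_lit 3838825348) (nat_lit 1748) (nat_lit 4587122479) (nat_lit 512) (nat_lit 5) (nat_lit 511) (nat_lit 3) (nat_lit 534) (nat_lit 5) (nat_lit 572) (nat_lit 571) (nat_lit 417))))) (XT.nd (nat_lit 156) (nat_lit 0) (nat_lit 76) (XT.nd (nat_lit 78) (nat_lit 0) (nat_lit 0) (XT.lf (nat_lit 0) (nat_lit 7652285711) (nat_lit 1672) (nat_lit 2670474877) (nat_lit 1748) (nat_lit 1395438038) (nat_lit 512) (nat_lit 5) (nat_lit 534) (nat_lit 5) (nat_lit 535) (nat_lit 5) (nat_lit 573) (nat_lit 571) (nat_lit 416)) (XT.lf (nat_lit 76) (nat_lit 3209587734) (nat_lit 0) (nat_lit 5115492983) (nat_lit 1748) (nat_lit 3500676497) (nat_lit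 513) (nat_lit 5) (nat_lit 512) (nat_lit 5) (nat_lit 535) (nat_lit 5) (nat_lit 574) (nat_lit 571) (nat_lit 415))) (XT.nd (nat_lit 78) (nat_lit 0) (nat_lit 0) (XT.lf (nat_lit 0) (nat_lit 9017579633) (nat_lit 1672) (nat_lit 2700494796) (nat_lit 1748) (nat_lit 217268845) (nat_lit 513) (nat_lit 5) (nat_lit 535) (nat_lit 5) (nat_lit 536) (nat_lit 5) (nat_lit 575) (nat_lit 571) (nat_lit 414)) (XT.nd (nat_lit 78) (nat_lit 0) (nat_lit 0) (XT.lf (nat_lit 76) (nat_lit 3336068992) (nat_lit 0) (nat_lit 6430590079) (nat_lit 1748) (nat_lit 2279608613) (nat_lit 514) (nat_lit 5) (nat_lit 513) (nat_lit 5) (nat_lit 536) (nat_lit 5) (nat_lit 576) (nat_lit 571) (nat_lit 413)) (XT.lf (nat_lit 76) (nat_lit 9522717906) (nat_lit 0) (nat_lit 1013521099) (nat_lit 1748) (nat_lit 1623062413) (nat_lit 514) (nat_lit 5) (nat_lit 513) (nat_lit 5) (nat_lit 536) (nat_lit 5) (nat_lit 577) (nat_lit 571) (nat_lit 412)))))) (XT.nd (nat_lit 390) (nat_lit 0) (nat_lit 76) (XT.nd (nat_lit 156) (nat_lit 1672) (nat_lit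 0) (XT.nd (nat_lit 78) (nat_lit 0) (nat_lit 0) (XT.lf (nat_lit 76) (nat_lit 3568620659) (nat_lit 0) (nat_lit 7792732247) (nat_lit 1748) (nat_lit 912441263) (nat_lit 515) (nat_lit 5) (nat_lit 514) (nat_lit 5) (nat_lit 537) (nat_lit 5) (nat_lit 578) (nat_lit 571) (nat_lit 411)) (XT.lf (nat_lit 76) (nat_lit 9919523635) (nat_lit 0) (nat_lit 2295678474) (nat_lit 1748) (nat_lit 175131171) (nat_lit 515) (nat_lit 5) (nat_lit 514) (nat_lit 5) (nat_lit 537) (nat_lit 5) (nat_lit 579) (nat_lit 571) (nat_lit 410))) (XT.nd (nat_lit 78) (nat_lit 0) (nat_lit 0) (XT.lf (nat_lit 0) (nat_lit 604619230) (nat_lit 1748) (nat_lit 8601920546) (nat_lit 1824) (nat_lit 3301884393) (nat_lit 492) (nat_lit 5) (nat_lit 515) (nat_lit 5) (nat_lit 516) (nat_lit 5) (nat_lit 580) (nat_lit 571) (nat_lit 409)) (XT.nd (nat_lit 78) (nat_lit 0) (nat_lit 76) (XT.lf (nat_lit 0) (nat_lit 1417761683) (nat_lit 1748) (nat_lit 2207739579) (nat_lit 1824) (nat_lit 9002950718) (nat_lit 492) (nat_lit 5) (nat_lit 515) (nat_lit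 5) (nat_lit 516) (nat_lit 5) (nat_lit 581) (nat_lit 571) (nat_lit 408)) (XT.lf (nat_lit 0) (nat_lit 2277614336) (nat_lit 1748) (nat_lit 8400047988) (nat_lit 1824) (nat_lit 2072610157) (nat_lit 493) (nat_lit 5) (nat_lit 516) (nat_lit 5) (nat_lit 517) (nat_lit 5) (nat_lit 582) (nat_lit 571) (nat_lit 407))))) (XT.nd (nat_lit 156) (nat_lit 0) (nat_lit 76) (XT.nd (nat_lit 78) (nat_lit 0) (nat_lit 76) (XT.lf (nat_lit 0) (nat_lit 3182267878) (nat_lit 1748) (nat_lit 1836700229) (nat_lit 1824) (nat_lit 7855010262) (nat_lit 493) (nat_lit 5) (nat_lit 516) (nat_lit 5) (nat_lit 517) (nat_lit 5) (nat_lit 583) (nat_lit 571) (nat_lit 406)) (XT.lf (nat_lit 0) (nat_lit 4130950972) (nat_lit 1748) (nat_lit 8089975857) (nat_lit 1824) (nat_lit 778713854) (nat_lit 494) (nat_lit 5) (nat_lit 517) (nat_lit 5) (nat_lit 518) (nat_lit 5) (nat_lit 584) (nat_lit 571) (nat_lit 405))) (XT.nd (nat_lit 78) (nat_lit 0) (nat_lit 0) (XT.lf (nat_lit 0) (nat_lit 5133347418) (nat_lit 1748) (nat_lit 1352712197) (nat_lit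 1824) (nat_lit 6641062850) (nat_lit 494) (nat_lit 5) (nat_lit 517) (nat_lit 5) (nat_lit 518) (nat_lit 5) (nat_lit 585) (nat_lit 571) (nat_lit 404)) (XT.nd (nat_lit 78) (nat_lit 0) (nat_lit 76) (XT.lf (nat_lit 76) (nat_lit 5585019016) (nat_lit 0) (nat_lit 596342897) (nat_lit 1824) (nat_lit 7075281562) (nat_lit 495) (nat_lit 5) (nat_lit 494) (nat_lit 5) (nat_lit 518) (nat_lit 5) (nat_lit 586) (nat_lit 571) (nat_lit 403)) (XT.lf (nat_lit 0) (nat_lit 7284096511) (nat_lit 1748) (nat_lit 751633287) (nat_lit 1824) (nat_lit 5352350888) (nat_lit 495) (nat_lit 5) (nat_lit 518) (nat_lit 5) (nat_lit 519) (nat_lit 5) (nat_lit 587) (nat_lit 571) (nat_lit 402))))))) (XT.nd (nat_lit 780) (nat_lit 5472) (nat_lit 0) (XT.nd (nat_lit 390) (nat_lit 3344) (nat_lit 0) (XT.nd (nat_lit 156) (nat_lit 0) (nat_lit 76) (XT.nd (nat_lit 78) (nat_lit 0) (nat_lit 76) (XT.lf (nat_lit 76) (nat_lit 6378911990) (nat_lit 0) (nat_lit 2065034712) (nat_lit 1824) (nat_lit 5077499678) (nat_lit 496) (nat_lit 5) (nat_lit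 495) (nat_lit 5) (nat_lit 519) (nat_lit 5) (nat_lit 588) (nat_lit 571) (nat_lit 401)) (XT.lf (nat_lit 0) (nat_lit 9648070564) (nat_lit 1748) (nat_lit 29017022) (nat_lit 1824) (nat_lit 3979971206) (nat_lit 496) (nat_lit 5) (nat_lit 519) (nat_lit 5) (nat_lit 520) (nat_lit 5) (nat_lit 589) (nat_lit 571) (nat_lit 400))) (XT.nd (nat_lit 78) (nat_lit 0) (nat_lit 76) (XT.lf (nat_lit 76) (nat_lit 7301275630) (nat_lit 0) (nat_lit 3626146387) (nat_lit 1824) (nat_lit 2866939455) (nat_lit 497) (nat_lit 5) (nat_lit 496) (nat_lit 5) (nat_lit 520) (nat_lit 5) (nat_lit 590) (nat_lit 571) (nat_lit 399)) (XT.nd (nat_lit 78) (nat_lit 0) (nat_lit 0) (XT.lf (nat_lit 76) (nat_lit 830788287) (nat_lit 0) (nat_lit 11413916653) (nat_lit 1824) (nat_lit 1689459277) (nat_lit 498) (nat_lit 5) (nat_lit 497) (nat_lit 5) (nat_lit 521) (nat_lit 5) (nat_lit 591) (nat_lit 571) (nat_lit 398)) (XT.lf (nat_lit 76) (nat_lit 8357134536) (nat_lit 0) (nat_lit 5288994276) (nat_lit 1824) (nat_lit 429479184) (nat_lit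 498) (nat_lit 5) (nat_lit 497) (nat_lit 5) (nat_lit 521) (nat_lit 5) (nat_lit 592) (nat_lit 571) (nat_lit 397))))) (XT.nd (nat_lit 156) (nat_lit 1748) (nat_lit 0) (XT.nd (nat_lit 78) (nat_lit 0) (nat_lit 0) (XT.lf (nat_lit 0) (nat_lit 853168409) (nat_lit 1824) (nat_lit 12401233109) (nat_lit 1900) (nat_lit 965195055) (nat_lit 474) (nat_lit 5) (nat_lit 498) (nat_lit 5) (nat_lit 499) (nat_lit 5) (nat_lit 593) (nat_lit 571) (nat_lit 396)) (XT.lf (nat_lit 0) (nat_lit 2220019075) (nat_lit 1824) (nat_lit 4828182912) (nat_lit 1900) (nat_lit 7316920975) (nat_lit 474) (nat_lit 5) (nat_lit 498) (nat_lit 5) (nat_lit 499) (nat_lit 5) (nat_lit 594) (nat_lit 571) (nat_lit 395))) (XT.nd (nat_lit 78) (nat_lit 1748) (nat_lit 0) (XT.lf (nat_lit 76) (nat_lit 2927057177) (nat_lit 0) (nat_lit 696978404) (nat_lit 1900) (nat_lit 10889328537) (nat_lit 475) (nat_lit 5) (nat_lit 474) (nat_lit 5) (nat_lit 499) (nat_lit 5) (nat_lit 595) (nat_lit 571) (nat_lit 394)) (XT.nd (nat_lit 78) (nat_lit 1824) (nat_lit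 0) (XT.lf (nat_lit 0) (nat_lit 5117246728) (nat_lit 1824) (nat_lit 3806623770) (nat_lit 76) (nat_lit 5739478113) (nat_lit 475) (nat_lit 5) (nat_lit 499) (nat_lit 5) (nat_lit 476) (nat_lit 5) (nat_lit 596) (nat_lit 571) (nat_lit 393)) (XT.lf (nat_lit 0) (nat_lit 4171094297) (nat_lit 1824) (nat_lit 2492066491) (nat_lit 1900) (nat_lit 8152716018) (nat_lit 451) (nat_lit 5) (nat_lit 475) (nat_lit 5) (nat_lit 476) (nat_lit 5) (nat_lit 597) (nat_lit 571) (nat_lit 392)))))) (XT.nd (nat_lit 390) (nat_lit 2584) (nat_lit 0) (XT.nd (nat_lit 156) (nat_lit 1824) (nat_lit 0) (XT.nd (nat_lit 78) (nat_lit 1064) (nat_lit 0) (XT.lf (nat_lit 0) (nat_lit 8283394509) (nat_lit 1900) (nat_lit 2645342100) (nat_lit 76) (nat_lit 4041851700) (nat_lit 451) (nat_lit 5) (nat_lit 476) (nat_lit 5) (nat_lit 452) (nat_lit 5) (nat_lit 598) (nat_lit 571) (nat_lit 391)) (XT.lf (nat_lit 0) (nat_lit 5562914353) (nat_lit 1064) (nat_lit 4417184726) (nat_lit 1140) (nat_lit 5147414392) (nat_lit 437) (nat_lit 5) (nat_lit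 451) (nat_lit 5) (nat_lit 452) (nat_lit 5) (nat_lit 599) (nat_lit 571) (nat_lit 390))) (XT.nd (nat_lit 78) (nat_lit 1824) (nat_lit 0) (XT.lf (nat_lit 0) (nat_lit 11734618943) (nat_lit 1140) (nat_lit 1338341506) (nat_lit 76) (nat_lit 2214139804) (nat_lit 437) (nat_lit 5) (nat_lit 452) (nat_lit 5) (nat_lit 438) (nat_lit 5) (nat_lit 600) (nat_lit 571) (nat_lit 389)) (XT.nd (nat_lit 78) (nat_lit 912) (nat_lit 0) (XT.lf (nat_lit 0) (nat_lit 7108821342) (nat_lit 912) (nat_lit 6482549687) (nat_lit 988) (nat_lit 1857165630) (nat_lit 425) (nat_lit 5) (nat_lit 437) (nat_lit 5) (nat_lit 438) (nat_lit 5) (nat_lit 601) (nat_lit 571) (nat_lit 388)) (XT.lf (nat_lit 0) (nat_lit 122317296) (nat_lit 912) (nat_lit 15366182304) (nat_lit 988) (nat_lit 124638074) (nat_lit 413) (nat_lit 5) (nat_lit 425) (nat_lit 5) (nat_lit 426) (nat_lit 5) (nat_lit 602) (nat_lit 571) (nat_lit 387))))) (XT.nd (nat_lit 234) (nat_lit 1672) (nat_lit 0) (XT.nd (nat_lit 78) (nat_lit 836) (nat_lit 0) (XT.lf (nat_lit 0)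 (nat_lit 1712169932) (nat_lit 988) (nat_lit 6975015362) (nat_lit 76) (nat_lit 7091809371) (nat_lit 412) (nat_lit 5) (nat_lit 425) (nat_lit 5) (nat_lit 413) (nat_lit 5) (nat_lit 603) (nat_lit 571) (nat_lit 386)) (XT.nd (nat_lit 78) (nat_lit 0) (nat_lit 0) (XT.lf (nat_lit 0) (nat_lit 1725284567) (nat_lit 836) (nat_lit 1862029384) (nat_lit 912) (nat_lit 12360773660) (nat_lit 401) (nat_lit 5) (nat_lit 412) (nat_lit 5) (nat_lit 413) (nat_lit 5) (nat_lit 604) (nat_lit 571) (nat_lit 385)) (XT.lf (nat_lit 0) (nat_lit 5572360597) (nat_lit 912) (nat_lit 5466639696) (nat_lit 76) (nat_lit 5080114786) (nat_lit 401) (nat_lit 5) (nat_lit 413) (nat_lit 5) (nat_lit 402) (nat_lit 5) (nat_lit 605) (nat_lit 571) (nat_lit 384)))) (XT.nd (nat_lit 78) (nat_lit 836) (nat_lit 0) (XT.lf (nat_lit 0) (nat_lit 3490514014) (nat_lit 836) (nat_lit 4133915243) (nat_lit 912) (nat_lit 8668588061) (nat_lit 390) (nat_lit 5) (nat_lit 401) (nat_lit 5) (nat_lit 402) (nat_lit 5) (nat_lit 606) (nat_lit 571) (nat_lit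 383)) (XT.nd (nat_lit 78) (nat_lit 836) (nat_lit 0) (XT.lf (nat_lit 0) (nat_lit 9765784035) (nat_lit 912) (nat_lit 3795566005) (nat_lit 76) (nat_lit 2908083299) (nat_lit 390) (nat_lit 5) (nat_lit 402) (nat_lit 5) (nat_lit 391) (nat_lit 5) (nat_lit 607) (nat_lit 571) (nat_lit 382)) (XT.lf (nat_lit 0) (nat_lit 5427787408) (nat_lit 836) (nat_lit 6577373524) (nat_lit 912) (nat_lit 4643113467) (nat_lit 379) (nat_lit 5) (nat_lit 390) (nat_lit 5) (nat_lit 391) (nat_lit 5) (nat_lit 608) (nat_lit 571) (nat_lit 381))))))))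
noncomputable def xc180 : XT := (XT.nd (nat_lit 1560) (nat_lit 6840) (nat_lit 0) (XT.nd (nat_lit 780) (nat_lit 3952) (nat_lit 0) (XT.nd (nat_lit 390) (nat_lit 1520) (nat_lit 0) (XT.nd (nat_lit 156) (nat_lit 1596) (nat_lit 0) (XT.nd (nat_lit 78) (nat_lit 836) (nat_lit 0) (XT.lf (nat_lit 0) (nat_lit 14311184369) (nat_lit 912) (nat_lit 1954469262) (nat_lit 76) (nat_lit 564602076) (nat_lit 379) (nat_lit 5) (nat_lit 391) (nat_lit 5) (nat_lit 380) (nat_lit 5) (nat_lit 609) (nat_lit 571) (nat_lit 380)) (XT.lf (nat_lit 0) (nat_lit 7544782145) (nat_lit 836) (nat_lit 9203907535) (nat_lit 912) (nat_lit 265480328) (nat_lit 368) (nat_lit 5) (nat_lit 379) (nat_lit 5) (nat_lit 380) (nat_lit 5) (nat_lit 610) (nat_lit 571) (nat_lit 379))) (XT.nd (nat_lit 78) (nat_lit 760) (nat_lit 0) (XT.lf (nat_lit 0) (nat_lit 38706340) (nat_lit 760) (nat_lit 1974126274) (nat_lit 836) (nat_lit 15188540224) (nat_lit 357) (nat_lit 5) (nat_lit 367) (nat_lit 5) (nat_lit 368) (nat_lit 5) (nat_lit 611) (nat_lit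 571) (nat_lit 378)) (XT.nd (nat_lit 78) (nat_lit 760) (nat_lit 0) (XT.lf (nat_lit 0) (nat_lit 4425138390) (nat_lit 836) (nat_lit 7570581853) (nat_lit 76) (nat_lit 5394725319) (nat_lit 357) (nat_lit 5) (nat_lit 368) (nat_lit 5) (nat_lit 358) (nat_lit 5) (nat_lit 612) (nat_lit 571) (nat_lit 377)) (XT.lf (nat_lit 0) (nat_lit 2221946825) (nat_lit 760) (nat_lit 4684332334) (nat_lit 836) (nat_lit 10676609353) (nat_lit 347) (nat_lit 5) (nat_lit 357) (nat_lit 5) (nat_lit 358) (nat_lit 5) (nat_lit 613) (nat_lit 571) (nat_lit 376))))) (XT.nd (nat_lit 156) (nat_lit 836) (nat_lit 0) (XT.nd (nat_lit 78) (nat_lit 684) (nat_lit 0) (XT.lf (nat_lit 0) (nat_lit 9499360131) (nat_lit 836) (nat_lit 5491108663) (nat_lit 76) (nat_lit 2787465720) (nat_lit 347) (nat_lit 5) (nat_lit 358) (nat_lit 5) (nat_lit 348) (nat_lit 5) (nat_lit 614) (nat_lit 571) (nat_lit 375)) (XT.lf (nat_lit 0) (nat_lit 4598001331) (nat_lit 684) (nat_lit 7600482970) (nat_lit 760) (nat_lit 5777314031) (nat_lit 338) (nat_lit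 5) (nat_lit 347) (nat_lit 5) (nat_lit 348) (nat_lit 5) (nat_lit 615) (nat_lit 571) (nat_lit 374))) (XT.nd (nat_lit 78) (nat_lit 836) (nat_lit 0) (XT.lf (nat_lit 0) (nat_lit 14955974402) (nat_lit 684) (nat_lit 25854529) (nat_lit 760) (nat_lit 3195186253) (nat_lit 338) (nat_lit 5) (nat_lit 347) (nat_lit 5) (nat_lit 348) (nat_lit 5) (nat_lit 616) (nat_lit 571) (nat_lit 373)) (XT.nd (nat_lit 78) (nat_lit 76) (nat_lit 0) (XT.lf (nat_lit 0) (nat_lit 7175631243) (nat_lit 760) (nat_lit 10735308044) (nat_lit 836) (nat_lit 469515618) (nat_lit 328) (nat_lit 5) (nat_lit 338) (nat_lit 5) (nat_lit 339) (nat_lit 5) (nat_lit 617) (nat_lit 571) (nat_lit 372)) (XT.lf (nat_lit 0) (nat_lit 2295844428) (nat_lit 836) (nat_lit 786320827) (nat_lit 76) (nat_lit 15505188990) (nat_lit 327) (nat_lit 5) (nat_lit 338) (nat_lit 5) (nat_lit 328) (nat_lit 5) (nat_lit 618) (nat_lit 571) (nat_lit 371)))))) (XT.nd (nat_lit 390) (nat_lit 1976) (nat_lit 0) (XT.nd (nat_lit 156) (nat_lit 608) (nat_lit 0) (XT.nd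 (nat_lit 78) (nat_lit 684) (nat_lit 0) (XT.lf (nat_lit 0) (nat_lit 5199695848) (nat_lit 760) (nat_lit 8867423550) (nat_lit 76) (nat_lit 4729421161) (nat_lit 318) (nat_lit 5) (nat_lit 328) (nat_lit 5) (nat_lit 319) (nat_lit 5) (nat_lit 619) (nat_lit 571) (nat_lit 370)) (XT.lf (nat_lit 0) (nat_lit 1856317716) (nat_lit 684) (nat_lit 6336831587) (nat_lit 760) (nat_lit 10816131265) (nat_lit 309) (nat_lit 5) (nat_lit 318) (nat_lit 5) (nat_lit 319) (nat_lit 5) (nat_lit 620) (nat_lit 571) (nat_lit 369))) (XT.nd (nat_lit 78) (nat_lit 608) (nat_lit 0) (XT.lf (nat_lit 0) (nat_lit 11310239829) (nat_lit 760) (nat_lit 6328164200) (nat_lit 76) (nat_lit 1586596451) (nat_lit 309) (nat_lit 5) (nat_lit 319) (nat_lit 5) (nat_lit 310) (nat_lit 5) (nat_lit 621) (nat_lit 571) (nat_lit 368)) (XT.nd (nat_lit 78) (nat_lit 0) (nat_lit 0) (XT.lf (nat_lit 0) (nat_lit 4725922576) (nat_lit 608) (nat_lit 9830338205) (nat_lit 684) (nat_lit 4887442686) (nat_lit 301) (nat_lit 5) (nat_lit 309) (nat_lit 5) (nat_lit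 310) (nat_lit 5) (nat_lit 622) (nat_lit 571) (nat_lit 367)) (XT.lf (nat_lit 0) (nat_lit 16079695137) (nat_lit 608) (nat_lit 1823983601) (nat_lit 684) (nat_lit 1762372685) (nat_lit 301) (nat_lit 5) (nat_lit 309) (nat_lit 5) (nat_lit 310) (nat_lit 5) (nat_lit 623) (nat_lit 571) (nat_lit 366))))) (XT.nd (nat_lit 156) (nat_lit 1216) (nat_lit 0) (XT.nd (nat_lit 78) (nat_lit 0) (nat_lit 0) (XT.lf (nat_lit 0) (nat_lit 1493162843) (nat_lit 760) (nat_lit 12078990479) (nat_lit 76) (nat_lit 6318775259) (nat_lit 291) (nat_lit 5) (nat_lit 301) (nat_lit 5) (nat_lit 292) (nat_lit 5) (nat_lit 624) (nat_lit 571) (nat_lit 365)) (XT.lf (nat_lit 0) (nat_lit 4820689483) (nat_lit 760) (nat_lit 664096267) (nat_lit 76) (nat_lit 14634675391) (nat_lit 291) (nat_lit 5) (nat_lit 301) (nat_lit 5) (nat_lit 292) (nat_lit 5) (nat_lit 625) (nat_lit 571) (nat_lit 364))) (XT.nd (nat_lit 78) (nat_lit 608) (nat_lit 0) (XT.lf (nat_lit 0) (nat_lit 8299634820) (nat_lit 684) (nat_lit 9251780359) (nat_lit 76) (nat_lit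 2799452219) (nat_lit 283) (nat_lit 5) (nat_lit 292) (nat_lit 5) (nat_lit 284) (nat_lit 5) (nat_lit 626) (nat_lit 571) (nat_lit 363)) (XT.nd (nat_lit 78) (nat_lit 0) (nat_lit 0) (XT.lf (nat_lit 0) (nat_lit 2509184414) (nat_lit 608) (nat_lit 9390399541) (nat_lit 684) (nat_lit 8686289726) (nat_lit 275) (nat_lit 5) (nat_lit 283) (nat_lit 5) (nat_lit 284) (nat_lit 5) (nat_lit 627) (nat_lit 571) (nat_lit 362)) (XT.lf (nat_lit 0) (nat_lit 14623730723) (nat_lit 608) (nat_lit 1004275758) (nat_lit 684) (nat_lit 5196444514) (nat_lit 275) (nat_lit 5) (nat_lit 283) (nat_lit 5) (nat_lit 284) (nat_lit 5) (nat_lit 628) (nat_lit 571) (nat_lit 361))))))) (XT.nd (nat_lit 780) (nat_lit 3344) (nat_lit 0) (XT.nd (nat_lit 390) (nat_lit 1672) (nat_lit 0) (XT.nd (nat_lit 156) (nat_lit 1140) (nat_lit 0) (XT.nd (nat_lit 78) (nat_lit 76) (nat_lit 0) (XT.lf (nat_lit 0) (nat_lit 5934573167) (nat_lit 608) (nat_lit 13578463232) (nat_lit 684) (nat_lit 1553123064) (nat_lit 267) (nat_lit 5) (nat_lit 275) (nat_lit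 5) (nat_lit 276) (nat_lit 5) (nat_lit 629) (nat_lit 571) (nat_lit 360)) (XT.lf (nat_lit 0) (nat_lit 2177749619) (nat_lit 684) (nat_lit 2943253688) (nat_lit 76) (nat_lit 16190557204) (nat_lit 266) (nat_lit 5) (nat_lit 275) (nat_lit 5) (nat_lit 267) (nat_lit 5) (nat_lit 630) (nat_lit 571) (nat_lit 359))) (XT.nd (nat_lit 78) (nat_lit 532) (nat_lit 0) (XT.lf (nat_lit 0) (nat_lit 6042632834) (nat_lit 684) (nat_lit 11986223921) (nat_lit 76) (nat_lit 3531204077) (nat_lit 258) (nat_lit 5) (nat_lit 267) (nat_lit 5) (nat_lit 259) (nat_lit 5) (nat_lit 631) (nat_lit 571) (nat_lit 358)) (XT.nd (nat_lit 78) (nat_lit 0) (nat_lit 0) (XT.lf (nat_lit 0) (nat_lit 534037571) (nat_lit 532) (nat_lit 9502714666) (nat_lit 608) (nat_lit 11775740509) (nat_lit 251) (nat_lit 5) (nat_lit 258) (nat_lit 5) (nat_lit 259) (nat_lit 5) (nat_lit 632) (nat_lit 571) (nat_lit 357)) (XT.lf (nat_lit 0) (nat_lit 13460274993) (nat_lit 532) (nat_lit 725648156) (nat_lit 608) (nat_lit 7882547116) (nat_lit 251) (nat_lit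 5) (nat_lit 258) (nat_lit 5) (nat_lit 259) (nat_lit 5) (nat_lit 633) (nat_lit 571) (nat_lit 356))))) (XT.nd (nat_lit 156) (nat_lit 1064) (nat_lit 0) (XT.nd (nat_lit 78) (nat_lit 76) (nat_lit 0) (XT.lf (nat_lit 0) (nat_lit 4311740763) (nat_lit 532) (nat_lit 14182574310) (nat_lit 608) (nat_lit 3833727851) (nat_lit 244) (nat_lit 5) (nat_lit 251) (nat_lit 5) (nat_lit 252) (nat_lit 5) (nat_lit 634) (nat_lit 571) (nat_lit 355)) (XT.lf (nat_lit 0) (nat_lit 349989480) (nat_lit 608) (nat_lit 4998887336) (nat_lit 76) (nat_lit 17242736008) (nat_lit 243) (nat_lit 5) (nat_lit 251) (nat_lit 5) (nat_lit 244) (nat_lit 5) (nat_lit 635) (nat_lit 571) (nat_lit 354))) (XT.nd (nat_lit 78) (nat_lit 532) (nat_lit 0) (XT.lf (nat_lit 0) (nat_lit 4639591527) (nat_lit 608) (nat_lit 14526922142) (nat_lit 76) (nat_lit 3691963077) (nat_lit 236) (nat_lit 5) (nat_lit 244) (nat_lit 5) (nat_lit 237) (nat_lit 5) (nat_lit 636) (nat_lit 571) (nat_lit 353)) (XT.nd (nat_lit 78) (nat_lit 532) (nat_lit 0) (XT.lf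 (nat_lit 0) (nat_lit 9079172190) (nat_lit 608) (nat_lit 1176082222) (nat_lit 76) (nat_lit 12874140121) (nat_lit 236) (nat_lit 5) (nat_lit 244) (nat_lit 5) (nat_lit 237) (nat_lit 5) (nat_lit 637) (nat_lit 571) (nat_lit 352)) (XT.lf (nat_lit 0) (nat_lit 12600367228) (nat_lit 532) (nat_lit 1084081523) (nat_lit 608) (nat_lit 9719744147) (nat_lit 229) (nat_lit 5) (nat_lit 236) (nat_lit 5) (nat_lit 237) (nat_lit 5) (nat_lit 638) (nat_lit 571) (nat_lit 351)))))) (XT.nd (nat_lit 390) (nat_lit 1824) (nat_lit 0) (XT.nd (nat_lit 156) (nat_lit 1064) (nat_lit 0) (XT.nd (nat_lit 78) (nat_lit 0) (nat_lit 0) (XT.lf (nat_lit 0) (nat_lit 2962354875) (nat_lit 456) (nat_lit 15495487688) (nat_lit 532) (nat_lit 5225124736) (nat_lit 223) (nat_lit 5) (nat_lit 229) (nat_lit 5) (nat_lit 230) (nat_lit 5) (nat_lit 639) (nat_lit 571) (nat_lit 350)) (XT.lf (nat_lit 0) (nat_lit 17136371698) (nat_lit 456) (nat_lit 6265152230) (nat_lit 532) (nat_lit 564297166) (nat_lit 223) (nat_lit 5) (nat_lit 229) (nat_lit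 5) (nat_lit 230) (nat_lit 5) (nat_lit 640) (nat_lit 571) (nat_lit 349))) (XT.nd (nat_lit 78) (nat_lit 456) (nat_lit 0) (XT.lf (nat_lit 0) (nat_lit 4199049774) (nat_lit 608) (nat_lit 16871029239) (nat_lit 76) (nat_lit 3182424141) (nat_lit 215) (nat_lit 5) (nat_lit 223) (nat_lit 5) (nat_lit 216) (nat_lit 5) (nat_lit 641) (nat_lit 571) (nat_lit 348)) (XT.nd (nat_lit 78) (nat_lit 456) (nat_lit 0) (XT.lf (nat_lit 0) (nat_lit 9133028140) (nat_lit 608) (nat_lit 2626976141) (nat_lit 76) (nat_lit 12783181847) (nat_lit 215) (nat_lit 5) (nat_lit 223) (nat_lit 5) (nat_lit 216) (nat_lit 5) (nat_lit 642) (nat_lit 571) (nat_lit 347)) (XT.lf (nat_lit 0) (nat_lit 12053539512) (nat_lit 456) (nat_lit 2185788079) (nat_lit 532) (nat_lit 10598882616) (nat_lit 209) (nat_lit 5) (nat_lit 215) (nat_lit 5) (nat_lit 216) (nat_lit 5) (nat_lit 643) (nat_lit 571) (nat_lit 346))))) (XT.nd (nat_lit 234) (nat_lit 836) (nat_lit 0) (XT.nd (nat_lit 78) (nat_lit 532) (nat_lit 0) (XT.lf (nat_lit 0) (nat_lit 1893455634)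 (nat_lit 456) (nat_lit 17628968199) (nat_lit 532) (nat_lit 5615217787) (nat_lit 203) (nat_lit 5) (nat_lit 209) (nat_lit 5) (nat_lit 210) (nat_lit 5) (nat_lit 644) (nat_lit 571) (nat_lit 345)) (XT.nd (nat_lit 78) (nat_lit 532) (nat_lit 0) (XT.lf (nat_lit 0) (nat_lit 17017279855) (nat_lit 456) (nat_lit 7989540134) (nat_lit 532) (nat_lit 434329178) (nat_lit 203) (nat_lit 5) (nat_lit 209) (nat_lit 5) (nat_lit 210) (nat_lit 5) (nat_lit 645) (nat_lit 571) (nat_lit 344)) (XT.lf (nat_lit 0) (nat_lit 4838323553) (nat_lit 532) (nat_lit 19018385904) (nat_lit 76) (nat_lit 1892352703) (nat_lit 196) (nat_lit 5) (nat_lit 203) (nat_lit 5) (nat_lit 197) (nat_lit 5) (nat_lit 646) (nat_lit 571) (nat_lit 343)))) (XT.nd (nat_lit 78) (nat_lit 836) (nat_lit 0) (XT.lf (nat_lit 0) (nat_lit 10315991636) (nat_lit 532) (nat_lit 3822126494) (nat_lit 76) (nat_lit 11922850554) (nat_lit 196) (nat_lit 5) (nat_lit 203) (nat_lit 5) (nat_lit 197) (nat_lit 5) (nat_lit 647) (nat_lit 571) (nat_lit 342)) (XT.nd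 (nat_lit 78) (nat_lit 380) (nat_lit 0) (XT.lf (nat_lit 0) (nat_lit 11826833287) (nat_lit 456) (nat_lit 4148813234) (nat_lit 532) (nat_lit 10402018394) (nat_lit 190) (nat_lit 5) (nat_lit 196) (nat_lit 5) (nat_lit 197) (nat_lit 5) (nat_lit 648) (nat_lit 571) (nat_lit 341)) (XT.lf (nat_lit 0) (nat_lit 1109192276) (nat_lit 380) (nat_lit 20707217087) (nat_lit 456) (nat_lit 4882927649) (nat_lit 185) (nat_lit 5) (nat_lit 190) (nat_lit 5) (nat_lit 191) (nat_lit 5) (nat_lit 649) (nat_lit 571) (nat_lit 340))))))))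
noncomputable def xc181 : XT := (XT.nd (nat_lit 76284) (nat_lit 0) (nat_lit 16872) (XT.nd (nat_lit 75504) (nat_lit 0) (nat_lit 24548) (XT.nd (nat_lit 75114) (nat_lit 0) (nat_lit 26068) (XT.nd (nat_lit 156) (nat_lit 760) (nat_lit 0) (XT.nd (nat_lit 78) (nat_lit 456) (nat_lit 0) (XT.lf (nat_lit 0) (nat_lit 858212345) (nat_lit 456) (nat_lit 9785185270) (nat_lit 76) (nat_lit 16381519055) (nat_lit 184) (nat_lit 5) (nat_lit 190) (nat_lit 5) (nat_lit 185) (nat_lit 5) (nat_lit 650) (nat_lit 571) (nat_lit 339)) (XT.lf (nat_lit 0) (nat_lit 6380965481) (nat_lit 456) (nat_lit 305094831) (nat_lit 532) (nat_lit 20669556960) (nat_lit 178) (nat_lit 5) (nat_lit 184) (nat_lit 5) (nat_lit 185) (nat_lit 5) (nat_lit 651) (nat_lit 571) (nat_lit 338))) (XT.nd (nat_lit 78) (nat_lit 760) (nat_lit 0) (XT.lf (nat_lit 0) (nat_lit 12758854758) (nat_lit 532) (nat_lit 4761745748) (nat_lit 76) (nat_lit 10169763810) (nat_lit 178) (nat_lit 5) (nat_lit 185) (nat_lit 5) (nat_lit 179) (nat_lit 5) (nat_lit 652)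 (nat_lit 571) (nat_lit 337)) (XT.nd (nat_lit 78) (nat_lit 380) (nat_lit 0) (XT.lf (nat_lit 0) (nat_lit 11923613963) (nat_lit 380) (nat_lit 7104816080) (nat_lit 456) (nat_lit 9001869976) (nat_lit 173) (nat_lit 5) (nat_lit 178) (nat_lit 5) (nat_lit 179) (nat_lit 5) (nat_lit 653) (nat_lit 571) (nat_lit 336)) (XT.lf (nat_lit 0) (nat_lit 609573712) (nat_lit 380) (nat_lit 24868711815) (nat_lit 456) (nat_lit 2897651349) (nat_lit 168) (nat_lit 5) (nat_lit 173) (nat_lit 5) (nat_lit 174) (nat_lit 5) (nat_lit 654) (nat_lit 571) (nat_lit 335))))) (XT.nd (nat_lit 156) (nat_lit 0) (nat_lit 76) (XT.nd (nat_lit 78) (nat_lit 0) (nat_lit 0) (XT.lf (nat_lit 0) (nat_lit 3789759452) (nat_lit 1748) (nat_lit 1034452035) (nat_lit 1748) (nat_lit 1034452035) (nat_lit 511) (nat_lit 3) (nat_lit 534) (nat_lit 3) (nat_lit 534) (nat_lit 5) (nat_lit 572) (nat_lit 572) (nat_lit 416)) (XT.lf (nat_lit 76) (nat_lit 3771126275) (nat_lit 0) (nat_lit 4406291681) (nat_lit 1748) (nat_lit 3646592135) (nat_lit 512)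 (nat_lit 5) (nat_lit 511) (nat_lit 3) (nat_lit 534) (nat_lit 5) (nat_lit 573) (nat_lit 572) (nat_lit 415))) (XT.nd (nat_lit 78) (nat_lit 0) (nat_lit 0) (XT.lf (nat_lit 0) (nat_lit 8794302603) (nat_lit 1672) (nat_lit 2189797265) (nat_lit 1748) (nat_lit 948587641) (nat_lit 512) (nat_lit 5) (nat_lit 534) (nat_lit 5) (nat_lit 535) (nat_lit 5) (nat_lit 574) (nat_lit 572) (nat_lit 414)) (XT.nd (nat_lit 78) (nat_lit 0) (nat_lit 0) (XT.lf (nat_lit 76) (nat_lit 3804352867) (nat_lit 0) (nat_lit 5660253884) (nat_lit 1748) (nat_lit 2578111328) (nat_lit 513) (nat_lit 5) (nat_lit 512) (nat_lit 5) (nat_lit 535) (nat_lit 5) (nat_lit 575) (nat_lit 572) (nat_lit 413)) (XT.lf (nat_lit 76) (nat_lit 9941202575) (nat_lit 0) (nat_lit 209216172) (nat_lit 1748) (nat_lit 2004489692) (nat_lit 513) (nat_lit 5) (nat_lit 512) (nat_lit 5) (nat_lit 535) (nat_lit 5) (nat_lit 576) (nat_lit 572) (nat_lit 412)))))) (XT.nd (nat_lit 390) (nat_lit 0) (nat_lit 76) (XT.nd (nat_lit 156) (nat_lit 1672) (nat_lit 0)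 (XT.nd (nat_lit 78) (nat_lit 0) (nat_lit 0) (XT.lf (nat_lit 76) (nat_lit 3941380747) (nat_lit 0) (nat_lit 6956587952) (nat_lit 1748) (nat_lit 1370414662) (nat_lit 514) (nat_lit 5) (nat_lit 513) (nat_lit 5) (nat_lit 536) (nat_lit 5) (nat_lit 577) (nat_lit 572) (nat_lit 411)) (XT.lf (nat_lit 76) (nat_lit 10241202043) (nat_lit 0) (nat_lit 1423385708) (nat_lit 1748) (nat_lit 719458835) (nat_lit 514) (nat_lit 5) (nat_lit 513) (nat_lit 5) (nat_lit 536) (nat_lit 5) (nat_lit 578) (nat_lit 572) (nat_lit 410))) (XT.nd (nat_lit 78) (nat_lit 1748) (nat_lit 0) (XT.lf (nat_lit 76) (nat_lit 4185381372) (nat_lit 0) (nat_lit 8303891048) (nat_lit 1748) (nat_lit 11897135) (nat_lit 515) (nat_lit 5) (nat_lit 514) (nat_lit 5) (nat_lit 537) (nat_lit 5) (nat_lit 579) (nat_lit 572) (nat_lit 409)) (XT.nd (nat_lit 78) (nat_lit 0) (nat_lit 76) (XT.lf (nat_lit 0) (nat_lit 712672567) (nat_lit 1748) (nat_lit 1972474476) (nat_lit 1824) (nat_lit 9935153545) (nat_lit 491) (nat_lit 5) (nat_lit 514) (nat_lit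 5) (nat_lit 515) (nat_lit 5) (nat_lit 580) (nat_lit 572) (nat_lit 408)) (XT.lf (nat_lit 0) (nat_lit 1489614020) (nat_lit 1748) (nat_lit 8211224610) (nat_lit 1824) (nat_lit 3040214323) (nat_lit 492) (nat_lit 5) (nat_lit 515) (nat_lit 5) (nat_lit 516) (nat_lit 5) (nat_lit 581) (nat_lit 572) (nat_lit 407))))) (XT.nd (nat_lit 156) (nat_lit 0) (nat_lit 76) (XT.nd (nat_lit 78) (nat_lit 0) (nat_lit 76) (XT.lf (nat_lit 0) (nat_lit 2301903589) (nat_lit 1748) (nat_lit 1700194032) (nat_lit 1824) (nat_lit 8861727617) (nat_lit 492) (nat_lit 5) (nat_lit 515) (nat_lit 5) (nat_lit 516) (nat_lit 5) (nat_lit 582) (nat_lit 572) (nat_lit 406)) (XT.lf (nat_lit 0) (nat_lit 3163819551) (nat_lit 1748) (nat_lit 8001136384) (nat_lit 1824) (nat_lit 1823430457) (nat_lit 493) (nat_lit 5) (nat_lit 516) (nat_lit 5) (nat_lit 517) (nat_lit 5) (nat_lit 583) (nat_lit 572) (nat_lit 405))) (XT.nd (nat_lit 78) (nat_lit 0) (nat_lit 76) (XT.lf (nat_lit 0) (nat_lit 4070082773) (nat_lit 1748) (nat_lit 1317637603)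 (nat_lit 1824) (nat_lit 7727177229) (nat_lit 493) (nat_lit 5) (nat_lit 516) (nat_lit 5) (nat_lit 517) (nat_lit 5) (nat_lit 584) (nat_lit 572) (nat_lit 404)) (XT.nd (nat_lit 78) (nat_lit 0) (nat_lit 0) (XT.lf (nat_lit 0) (nat_lit 5023479653) (nat_lit 1748) (nat_lit 7681643436) (nat_lit 1824) (nat_lit 538236782) (nat_lit 494) (nat_lit 5) (nat_lit 517) (nat_lit 5) (nat_lit 518) (nat_lit 5) (nat_lit 585) (nat_lit 572) (nat_lit 403)) (XT.lf (nat_lit 0) (nat_lit 6030043446) (nat_lit 1748) (nat_lit 820813560) (nat_lit 1824) (nat_lit 6522853373) (nat_lit 494) (nat_lit 5) (nat_lit 517) (nat_lit 5) (nat_lit 518) (nat_lit 5) (nat_lit 586) (nat_lit 572) (nat_lit 402))))))) (XT.nd (nat_lit 780) (nat_lit 6308) (nat_lit 0) (XT.nd (nat_lit 390) (nat_lit 1596) (nat_lit 0) (XT.nd (nat_lit 156) (nat_lit 0) (nat_lit 76) (XT.nd (nat_lit 78) (nat_lit 0) (nat_lit 76) (XT.lf (nat_lit 76) (nat_lit 6251994955) (nat_lit 0) (nat_lit 835059295) (nat_lit 1824) (nat_lit 6419008289) (nat_lit 495) (nat_lit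 5) (nat_lit 494) (nat_lit 5) (nat_lit 518) (nat_lit 5) (nat_lit 587) (nat_lit 572) (nat_lit 401)) (XT.lf (nat_lit 0) (nat_lit 8195065335) (nat_lit 1748) (nat_lit 205428863) (nat_lit 1824) (nat_lit 5239971283) (nat_lit 495) (nat_lit 5) (nat_lit 518) (nat_lit 5) (nat_lit 519) (nat_lit 5) (nat_lit 588) (nat_lit 572) (nat_lit 400))) (XT.nd (nat_lit 78) (nat_lit 0) (nat_lit 76) (XT.lf (nat_lit 76) (nat_lit 7064034971) (nat_lit 0) (nat_lit 2302691884) (nat_lit 1824) (nat_lit 4410000741) (nat_lit 496) (nat_lit 5) (nat_lit 495) (nat_lit 5) (nat_lit 519) (nat_lit 5) (nat_lit 589) (nat_lit 572) (nat_lit 399)) (XT.nd (nat_lit 78) (nat_lit 0) (nat_lit 0) (XT.lf (nat_lit 76) (nat_lit 540200532) (nat_lit 0) (nat_lit 10042207746) (nat_lit 1824) (nat_lit 3332895843) (nat_lit 497) (nat_lit 5) (nat_lit 496) (nat_lit 5) (nat_lit 520) (nat_lit 5) (nat_lit 590) (nat_lit 572) (nat_lit 398)) (XT.lf (nat_lit 76) (nat_lit 8006312151) (nat_lit 0) (nat_lit 3866688720) (nat_lit 1824) (nat_lit 2182640240)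 (nat_lit 497) (nat_lit 5) (nat_lit 496) (nat_lit 5) (nat_lit 520) (nat_lit 5) (nat_lit 591) (nat_lit 572) (nat_lit 397))))) (XT.nd (nat_lit 156) (nat_lit 0) (nat_lit 76) (XT.nd (nat_lit 78) (nat_lit 1824) (nat_lit 0) (XT.lf (nat_lit 76) (nat_lit 1418332561) (nat_lit 0) (nat_lit 11786678737) (nat_lit 1824) (nat_lit 993462290) (nat_lit 498) (nat_lit 5) (nat_lit 497) (nat_lit 5) (nat_lit 521) (nat_lit 5) (nat_lit 592) (nat_lit 572) (nat_lit 396)) (XT.lf (nat_lit 0) (nat_lit 273769617) (nat_lit 1824) (nat_lit 5260818141) (nat_lit 1900) (nat_lit 8808404303) (nat_lit 473) (nat_lit 5) (nat_lit 497) (nat_lit 5) (nat_lit 498) (nat_lit 5) (nat_lit 593) (nat_lit 572) (nat_lit 395))) (XT.nd (nat_lit 78) (nat_lit 0) (nat_lit 0) (XT.lf (nat_lit 0) (nat_lit 1565303851) (nat_lit 1824) (nat_lit 12068994375) (nat_lit 1900) (nat_lit 855726956) (nat_lit 474) (nat_lit 5) (nat_lit 498) (nat_lit 5) (nat_lit 499) (nat_lit 5) (nat_lit 594) (nat_lit 572) (nat_lit 394)) (XT.nd (nat_lit 78) (nat_lit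 0) (nat_lit 0) (XT.lf (nat_lit 0) (nat_lit 2945862666) (nat_lit 1824) (nat_lit 4355860888) (nat_lit 1900) (nat_lit 7337012335) (nat_lit 474) (nat_lit 5) (nat_lit 498) (nat_lit 5) (nat_lit 499) (nat_lit 5) (nat_lit 595) (nat_lit 572) (nat_lit 393)) (XT.lf (nat_lit 76) (nat_lit 3550741334) (nat_lit 0) (nat_lit 817525820) (nat_lit 1900) (nat_lit 10421869751) (nat_lit 475) (nat_lit 5) (nat_lit 474) (nat_lit 5) (nat_lit 499) (nat_lit 5) (nat_lit 596) (nat_lit 572) (nat_lit 392)))))) (XT.nd (nat_lit 390) (nat_lit 3572) (nat_lit 0) (XT.nd (nat_lit 156) (nat_lit 1064) (nat_lit 0) (XT.nd (nat_lit 78) (nat_lit 1824) (nat_lit 0) (XT.lf (nat_lit 0) (nat_lit 5877492342) (nat_lit 1824) (nat_lit 3314785974) (nat_lit 76) (nat_lit 5751120943) (nat_lit 475) (nat_lit 5) (nat_lit 499) (nat_lit 5) (nat_lit 476) (nat_lit 5) (nat_lit 597) (nat_lit 572) (nat_lit 391)) (XT.lf (nat_lit 0) (nat_lit 4818749809) (nat_lit 1824) (nat_lit 2626338241) (nat_lit 1900) (nat_lit 7654075845) (nat_lit 451) (nat_lit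 5) (nat_lit 475) (nat_lit 5) (nat_lit 476) (nat_lit 5) (nat_lit 598) (nat_lit 572) (nat_lit 390))) (XT.nd (nat_lit 78) (nat_lit 1064) (nat_lit 0) (XT.lf (nat_lit 0) (nat_lit 9084470112) (nat_lit 1900) (nat_lit 2131766341) (nat_lit 76) (nat_lit 4040999420) (nat_lit 451) (nat_lit 5) (nat_lit 476) (nat_lit 5) (nat_lit 452) (nat_lit 5) (nat_lit 599) (nat_lit 572) (nat_lit 389)) (XT.nd (nat_lit 78) (nat_lit 0) (nat_lit 0) (XT.lf (nat_lit 0) (nat_lit 6236928382) (nat_lit 1064) (nat_lit 4569375200) (nat_lit 1140) (nat_lit 4611173160) (nat_lit 437) (nat_lit 5) (nat_lit 451) (nat_lit 5) (nat_lit 452) (nat_lit 5) (nat_lit 600) (nat_lit 572) (nat_lit 388)) (XT.lf (nat_lit 0) (nat_lit 12583221112) (nat_lit 1140) (nat_lit 800640418) (nat_lit 76) (nat_lit 2196648661) (nat_lit 437) (nat_lit 5) (nat_lit 452) (nat_lit 5) (nat_lit 438) (nat_lit 5) (nat_lit 601) (nat_lit 572) (nat_lit 387))))) (XT.nd (nat_lit 234) (nat_lit 1672) (nat_lit 0) (XT.nd (nat_lit 78) (nat_lit 988) (nat_lit 0) (XT.lf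 (nat_lit 0) (nat_lit 7811752081) (nat_lit 912) (nat_lit 6656959499) (nat_lit 988) (nat_lit 1276632734) (nat_lit 425) (nat_lit 5) (nat_lit 437) (nat_lit 5) (nat_lit 438) (nat_lit 5) (nat_lit 602) (nat_lit 572) (nat_lit 386)) (XT.nd (nat_lit 78) (nat_lit 0) (nat_lit 0) (XT.lf (nat_lit 0) (nat_lit 475594179) (nat_lit 988) (nat_lit 15222335977) (nat_lit 76) (nat_lit 215414864) (nat_lit 412) (nat_lit 5) (nat_lit 425) (nat_lit 5) (nat_lit 413) (nat_lit 5) (nat_lit 603) (nat_lit 572) (nat_lit 385)) (XT.lf (nat_lit 0) (nat_lit 2335685558) (nat_lit 988) (nat_lit 6548363323) (nat_lit 76) (nat_lit 7198690464) (nat_lit 412) (nat_lit 5) (nat_lit 425) (nat_lit 5) (nat_lit 413) (nat_lit 5) (nat_lit 604) (nat_lit 572) (nat_lit 384)))) (XT.nd (nat_lit 78) (nat_lit 836) (nat_lit 0) (XT.lf (nat_lit 0) (nat_lit 2322217917) (nat_lit 836) (nat_lit 1918211836) (nat_lit 912) (nat_lit 12014943427) (nat_lit 401) (nat_lit 5) (nat_lit 412) (nat_lit 5) (nat_lit 413) (nat_lit 5) (nat_lit 605) (nat_lit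 572) (nat_lit 383)) (XT.nd (nat_lit 78) (nat_lit 836) (nat_lit 0) (XT.lf (nat_lit 0) (nat_lit 6253657359) (nat_lit 912) (nat_lit 5013005014) (nat_lit 76) (nat_lit 5163390181) (nat_lit 401) (nat_lit 5) (nat_lit 413) (nat_lit 5) (nat_lit 402) (nat_lit 5) (nat_lit 606) (nat_lit 572) (nat_lit 382)) (XT.lf (nat_lit 0) (nat_lit 4119588036) (nat_lit 836) (nat_lit 4219636946) (nat_lit 912) (nat_lit 8268359642) (nat_lit 390) (nat_lit 5) (nat_lit 401) (nat_lit 5) (nat_lit 402) (nat_lit 5) (nat_lit 607) (nat_lit 572) (nat_lit 381))))))))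
noncomputable def xc182 : XT := (XT.nd (nat_lit 1560) (nat_lit 6612) (nat_lit 0) (XT.nd (nat_lit 780) (nat_lit 4180) (nat_lit 0) (XT.nd (nat_lit 390) (nat_lit 1444) (nat_lit 0) (XT.nd (nat_lit 156) (nat_lit 1672) (nat_lit 0) (XT.nd (nat_lit 78) (nat_lit 836) (nat_lit 0) (XT.lf (nat_lit 0) (nat_lit 10512361853) (nat_lit 912) (nat_lit 3312088558) (nat_lit 76) (nat_lit 2963300374) (nat_lit 390) (nat_lit 5) (nat_lit 402) (nat_lit 5) (nat_lit 391) (nat_lit 5) (nat_lit 608) (nat_lit 572) (nat_lit 380)) (XT.lf (nat_lit 0) (nat_lit 6092051735) (nat_lit 836) (nat_lit 6697273521) (nat_lit 912) (nat_lit 4180988333) (nat_lit 379) (nat_lit 5) (nat_lit 390) (nat_lit 5) (nat_lit 391) (nat_lit 5) (nat_lit 609) (nat_lit 572) (nat_lit 379))) (XT.nd (nat_lit 78) (nat_lit 1672) (nat_lit 0) (XT.lf (nat_lit 0) (nat_lit 15130875436) (nat_lit 912) (nat_lit 1438108398) (nat_lit 76) (nat_lit 587163446) (nat_lit 379) (nat_lit 5) (nat_lit 391) (nat_lit 5) (nat_lit 380) (nat_lit 5) (nat_lit 610) (nat_lit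 572) (nat_lit 378)) (XT.nd (nat_lit 78) (nat_lit 760) (nat_lit 0) (XT.lf (nat_lit 0) (nat_lit 262881493) (nat_lit 912) (nat_lit 9098134009) (nat_lit 76) (nat_lit 7982828193) (nat_lit 367) (nat_lit 5) (nat_lit 379) (nat_lit 5) (nat_lit 368) (nat_lit 5) (nat_lit 611) (nat_lit 572) (nat_lit 377)) (XT.lf (nat_lit 0) (nat_lit 594687065) (nat_lit 760) (nat_lit 1981732431) (nat_lit 836) (nat_lit 14958472550) (nat_lit 357) (nat_lit 5) (nat_lit 367) (nat_lit 5) (nat_lit 368) (nat_lit 5) (nat_lit 612) (nat_lit 572) (nat_lit 376))))) (XT.nd (nat_lit 156) (nat_lit 684) (nat_lit 0) (XT.nd (nat_lit 78) (nat_lit 760) (nat_lit 0) (XT.lf (nat_lit 0) (nat_lit 5026912914) (nat_lit 836) (nat_lit 7167573996) (nat_lit 76) (nat_lit 5533461301) (nat_lit 357) (nat_lit 5) (nat_lit 368) (nat_lit 5) (nat_lit 358) (nat_lit 5) (nat_lit 613) (nat_lit 572) (nat_lit 375)) (XT.lf (nat_lit 0) (nat_lit 2817157759) (nat_lit 760) (nat_lit 4734030565) (nat_lit 836) (nat_lit 10373182260) (nat_lit 347) (nat_lit 5)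 (nat_lit 357) (nat_lit 5) (nat_lit 358) (nat_lit 5) (nat_lit 614) (nat_lit 572) (nat_lit 374))) (XT.nd (nat_lit 78) (nat_lit 684) (nat_lit 0) (XT.lf (nat_lit 0) (nat_lit 10186473985) (nat_lit 836) (nat_lit 5051262116) (nat_lit 76) (nat_lit 2885775328) (nat_lit 347) (nat_lit 5) (nat_lit 358) (nat_lit 5) (nat_lit 348) (nat_lit 5) (nat_lit 615) (nat_lit 572) (nat_lit 373)) (XT.nd (nat_lit 78) (nat_lit 0) (nat_lit 0) (XT.lf (nat_lit 0) (nat_lit 5236013836) (nat_lit 684) (nat_lit 7697364555) (nat_lit 760) (nat_lit 5392078947) (nat_lit 338) (nat_lit 5) (nat_lit 347) (nat_lit 5) (nat_lit 348) (nat_lit 5) (nat_lit 616) (nat_lit 572) (nat_lit 372)) (XT.lf (nat_lit 0) (nat_lit 15762943634) (nat_lit 760) (nat_lit 2740632032) (nat_lit 76) (nat_lit 27312541) (nat_lit 338) (nat_lit 5) (nat_lit 348) (nat_lit 5) (nat_lit 339) (nat_lit 5) (nat_lit 617) (nat_lit 572) (nat_lit 371)))))) (XT.nd (nat_lit 390) (nat_lit 1976) (nat_lit 0) (XT.nd (nat_lit 156) (nat_lit 1368) (nat_lit 0) (XT.nd (nat_lit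 78) (nat_lit 0) (nat_lit 0) (XT.lf (nat_lit 0) (nat_lit 6280210) (nat_lit 836) (nat_lit 10878335044) (nat_lit 76) (nat_lit 7853896579) (nat_lit 327) (nat_lit 5) (nat_lit 338) (nat_lit 5) (nat_lit 328) (nat_lit 5) (nat_lit 618) (nat_lit 572) (nat_lit 370)) (XT.lf (nat_lit 0) (nat_lit 2811276223) (nat_lit 836) (nat_lit 265306344) (nat_lit 76) (nat_lit 15873092921) (nat_lit 327) (nat_lit 5) (nat_lit 338) (nat_lit 5) (nat_lit 328) (nat_lit 5) (nat_lit 619) (nat_lit 572) (nat_lit 369))) (XT.nd (nat_lit 78) (nat_lit 684) (nat_lit 0) (XT.lf (nat_lit 0) (nat_lit 5767911292) (nat_lit 760) (nat_lit 8502702897) (nat_lit 76) (nat_lit 4892537905) (nat_lit 318) (nat_lit 5) (nat_lit 328) (nat_lit 5) (nat_lit 319) (nat_lit 5) (nat_lit 620) (nat_lit 572) (nat_lit 368)) (XT.nd (nat_lit 78) (nat_lit 0) (nat_lit 0) (XT.lf (nat_lit 0) (nat_lit 2431946950) (nat_lit 684) (nat_lit 6383680801) (nat_lit 760) (nat_lit 10564631957) (nat_lit 309) (nat_lit 5) (nat_lit 318) (nat_lit 5) (nat_lit 319) (nat_lit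 5) (nat_lit 621) (nat_lit 572) (nat_lit 367)) (XT.lf (nat_lit 0) (nat_lit 11986576139) (nat_lit 760) (nat_lit 5918266043) (nat_lit 76) (nat_lit 1695622184) (nat_lit 309) (nat_lit 5) (nat_lit 319) (nat_lit 5) (nat_lit 310) (nat_lit 5) (nat_lit 622) (nat_lit 572) (nat_lit 366))))) (XT.nd (nat_lit 156) (nat_lit 1368) (nat_lit 0) (XT.nd (nat_lit 78) (nat_lit 0) (nat_lit 0) (XT.lf (nat_lit 0) (nat_lit 5353373116) (nat_lit 608) (nat_lit 9938778435) (nat_lit 684) (nat_lit 4531497838) (nat_lit 301) (nat_lit 5) (nat_lit 309) (nat_lit 5) (nat_lit 310) (nat_lit 5) (nat_lit 623) (nat_lit 572) (nat_lit 365)) (XT.lf (nat_lit 0) (nat_lit 16923771480) (nat_lit 608) (nat_lit 1774025494) (nat_lit 684) (nat_lit 1352822393) (nat_lit 301) (nat_lit 5) (nat_lit 309) (nat_lit 5) (nat_lit 310) (nat_lit 5) (nat_lit 624) (nat_lit 572) (nat_lit 364))) (XT.nd (nat_lit 78) (nat_lit 608) (nat_lit 0) (XT.lf (nat_lit 0) (nat_lit 1957382444) (nat_lit 760) (nat_lit 11787583944) (nat_lit 76) (nat_lit 6535062696)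 (nat_lit 291) (nat_lit 5) (nat_lit 301) (nat_lit 5) (nat_lit 292) (nat_lit 5) (nat_lit 625) (nat_lit 572) (nat_lit 363)) (XT.nd (nat_lit 78) (nat_lit 608) (nat_lit 0) (XT.lf (nat_lit 0) (nat_lit 5342942826) (nat_lit 760) (nat_lit 154842560) (nat_lit 76) (nat_lit 15015517851) (nat_lit 291) (nat_lit 5) (nat_lit 301) (nat_lit 5) (nat_lit 292) (nat_lit 5) (nat_lit 626) (nat_lit 572) (nat_lit 362)) (XT.lf (nat_lit 0) (nat_lit 8887125427) (nat_lit 684) (nat_lit 8909908951) (nat_lit 76) (nat_lit 2952390668) (nat_lit 283) (nat_lit 5) (nat_lit 292) (nat_lit 5) (nat_lit 284) (nat_lit 5) (nat_lit 627) (nat_lit 572) (nat_lit 361))))))) (XT.nd (nat_lit 780) (nat_lit 3040) (nat_lit 0) (XT.nd (nat_lit 390) (nat_lit 1672) (nat_lit 0) (XT.nd (nat_lit 156) (nat_lit 1292) (nat_lit 0) (XT.nd (nat_lit 78) (nat_lit 0) (nat_lit 0) (XT.lf (nat_lit 0) (nat_lit 3082808624) (nat_lit 608) (nat_lit 9471398780) (nat_lit 684) (nat_lit 8435021959) (nat_lit 275) (nat_lit 5) (nat_lit 283) (nat_lit 5) (nat_lit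 284) (nat_lit 5) (nat_lit 628) (nat_lit 572) (nat_lit 360)) (XT.lf (nat_lit 0) (nat_lit 15429382319) (nat_lit 608) (nat_lit 919646811) (nat_lit 684) (nat_lit 4883713050) (nat_lit 275) (nat_lit 5) (nat_lit 283) (nat_lit 5) (nat_lit 284) (nat_lit 5) (nat_lit 629) (nat_lit 572) (nat_lit 359))) (XT.nd (nat_lit 78) (nat_lit 684) (nat_lit 0) (XT.lf (nat_lit 0) (nat_lit 6570533948) (nat_lit 608) (nat_lit 13737241629) (nat_lit 684) (nat_lit 1171589480) (nat_lit 267) (nat_lit 5) (nat_lit 275) (nat_lit 5) (nat_lit 276) (nat_lit 5) (nat_lit 630) (nat_lit 572) (nat_lit 358)) (XT.nd (nat_lit 78) (nat_lit 608) (nat_lit 0) (XT.lf (nat_lit 0) (nat_lit 2620505369) (nat_lit 684) (nat_lit 2489659875) (nat_lit 76) (nat_lit 16619615525) (nat_lit 266) (nat_lit 5) (nat_lit 275) (nat_lit 5) (nat_lit 267) (nat_lit 5) (nat_lit 631) (nat_lit 572) (nat_lit 357)) (XT.lf (nat_lit 0) (nat_lit 6558906934) (nat_lit 684) (nat_lit 11709683790) (nat_lit 76) (nat_lit 3714736488) (nat_lit 258) (nat_lit 5) (nat_lit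 267) (nat_lit 5) (nat_lit 259) (nat_lit 5) (nat_lit 632) (nat_lit 572) (nat_lit 356))))) (XT.nd (nat_lit 156) (nat_lit 1140) (nat_lit 0) (XT.nd (nat_lit 78) (nat_lit 0) (nat_lit 0) (XT.lf (nat_lit 0) (nat_lit 1057586455) (nat_lit 532) (nat_lit 9570898789) (nat_lit 608) (nat_lit 11612411508) (nat_lit 251) (nat_lit 5) (nat_lit 258) (nat_lit 5) (nat_lit 259) (nat_lit 5) (nat_lit 633) (nat_lit 572) (nat_lit 355)) (XT.lf (nat_lit 0) (nat_lit 14232292387) (nat_lit 532) (nat_lit 620680560) (nat_lit 608) (nat_lit 7649174713) (nat_lit 251) (nat_lit 5) (nat_lit 258) (nat_lit 5) (nat_lit 259) (nat_lit 5) (nat_lit 634) (nat_lit 572) (nat_lit 354))) (XT.nd (nat_lit 78) (nat_lit 608) (nat_lit 0) (XT.lf (nat_lit 0) (nat_lit 4904350261) (nat_lit 532) (nat_lit 14339714404) (nat_lit 608) (nat_lit 3522916965) (nat_lit 244) (nat_lit 5) (nat_lit 251) (nat_lit 5) (nat_lit 252) (nat_lit 5) (nat_lit 635) (nat_lit 572) (nat_lit 353)) (XT.nd (nat_lit 78) (nat_lit 532) (nat_lit 0) (XT.lf (nat_lit 0)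 (nat_lit 731894663) (nat_lit 608) (nat_lit 4597413100) (nat_lit 76) (nat_lit 17706615290) (nat_lit 243) (nat_lit 5) (nat_lit 251) (nat_lit 5) (nat_lit 244) (nat_lit 5) (nat_lit 636) (nat_lit 572) (nat_lit 352)) (XT.lf (nat_lit 0) (nat_lit 5103998938) (nat_lit 608) (nat_lit 14312695340) (nat_lit 76) (nat_lit 3891496242) (nat_lit 236) (nat_lit 5) (nat_lit 244) (nat_lit 5) (nat_lit 237) (nat_lit 5) (nat_lit 637) (nat_lit 572) (nat_lit 351)))))) (XT.nd (nat_lit 390) (nat_lit 1444) (nat_lit 0) (XT.nd (nat_lit 156) (nat_lit 1064) (nat_lit 0) (XT.nd (nat_lit 78) (nat_lit 532) (nat_lit 0) (XT.lf (nat_lit 0) (nat_lit 9625084634) (nat_lit 608) (nat_lit 704735979) (nat_lit 76) (nat_lit 13254852240) (nat_lit 236) (nat_lit 5) (nat_lit 244) (nat_lit 5) (nat_lit 237) (nat_lit 5) (nat_lit 638) (nat_lit 572) (nat_lit 350)) (XT.lf (nat_lit 0) (nat_lit 13343986751) (nat_lit 532) (nat_lit 974528142) (nat_lit 608) (nat_lit 9546531780) (nat_lit 229) (nat_lit 5) (nat_lit 236) (nat_lit 5) (nat_lit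 237) (nat_lit 5) (nat_lit 639) (nat_lit 572) (nat_lit 349))) (XT.nd (nat_lit 78) (nat_lit 608) (nat_lit 0) (XT.lf (nat_lit 0) (nat_lit 3516315917) (nat_lit 456) (nat_lit 15668041814) (nat_lit 532) (nat_lit 4965099651) (nat_lit 223) (nat_lit 5) (nat_lit 229) (nat_lit 5) (nat_lit 230) (nat_lit 5) (nat_lit 640) (nat_lit 572) (nat_lit 348)) (XT.nd (nat_lit 78) (nat_lit 608) (nat_lit 0) (XT.lf (nat_lit 0) (nat_lit 17964112803) (nat_lit 456) (nat_lit 6255792894) (nat_lit 532) (nat_lit 218203129) (nat_lit 223) (nat_lit 5) (nat_lit 229) (nat_lit 5) (nat_lit 230) (nat_lit 5) (nat_lit 641) (nat_lit 572) (nat_lit 347)) (XT.lf (nat_lit 0) (nat_lit 4632859941) (nat_lit 608) (nat_lit 16715843280) (nat_lit 76) (nat_lit 3381832591) (nat_lit 215) (nat_lit 5) (nat_lit 223) (nat_lit 5) (nat_lit 216) (nat_lit 5) (nat_lit 642) (nat_lit 572) (nat_lit 346))))) (XT.nd (nat_lit 234) (nat_lit 532) (nat_lit 0) (XT.nd (nat_lit 78) (nat_lit 912) (nat_lit 0) (XT.lf (nat_lit 0) (nat_lit 9658658478) (nat_lit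 608) (nat_lit 2196568072) (nat_lit 76) (nat_lit 13171943491) (nat_lit 215) (nat_lit 5) (nat_lit 223) (nat_lit 5) (nat_lit 216) (nat_lit 5) (nat_lit 643) (nat_lit 572) (nat_lit 345)) (XT.nd (nat_lit 78) (nat_lit 456) (nat_lit 0) (XT.lf (nat_lit 0) (nat_lit 12774380608) (nat_lit 456) (nat_lit 2089093400) (nat_lit 532) (nat_lit 10464693192) (nat_lit 209) (nat_lit 5) (nat_lit 215) (nat_lit 5) (nat_lit 216) (nat_lit 5) (nat_lit 644) (nat_lit 572) (nat_lit 344)) (XT.lf (nat_lit 0) (nat_lit 2413795455) (nat_lit 456) (nat_lit 17835808886) (nat_lit 532) (nat_lit 5384035848) (nat_lit 203) (nat_lit 5) (nat_lit 209) (nat_lit 5) (nat_lit 210) (nat_lit 5) (nat_lit 645) (nat_lit 572) (nat_lit 343)))) (XT.nd (nat_lit 78) (nat_lit 532) (nat_lit 0) (XT.lf (nat_lit 0) (nat_lit 17830635951) (nat_lit 456) (nat_lit 8006449880) (nat_lit 532) (nat_lit 106264492) (nat_lit 203) (nat_lit 5) (nat_lit 209) (nat_lit 5) (nat_lit 210) (nat_lit 5) (nat_lit 646) (nat_lit 572) (nat_lit 342)) (XT.nd (nat_lit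 78) (nat_lit 0) (nat_lit 0) (XT.lf (nat_lit 0) (nat_lit 5264931953) (nat_lit 532) (nat_lit 18918796432) (nat_lit 76) (nat_lit 2073699689) (nat_lit 196) (nat_lit 5) (nat_lit 203) (nat_lit 5) (nat_lit 197) (nat_lit 5) (nat_lit 647) (nat_lit 572) (nat_lit 341)) (XT.lf (nat_lit 0) (nat_lit 10845685909) (nat_lit 532) (nat_lit 3428022759) (nat_lit 76) (nat_lit 12301993773) (nat_lit 196) (nat_lit 5) (nat_lit 203) (nat_lit 5) (nat_lit 197) (nat_lit 5) (nat_lit 648) (nat_lit 572) (nat_lit 340))))))))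
noncomputable def xc183 : XT := (XT.nd (nat_lit 76362) (nat_lit 0) (nat_lit 17328) (XT.nd (nat_lit 75582) (nat_lit 0) (nat_lit 24092) (XT.nd (nat_lit 390) (nat_lit 380) (nat_lit 0) (XT.nd (nat_lit 156) (nat_lit 532) (nat_lit 0) (XT.nd (nat_lit 78) (nat_lit 380) (nat_lit 0) (XT.lf (nat_lit 0) (nat_lit 12530820519) (nat_lit 456) (nat_lit 4084407697) (nat_lit 532) (nat_lit 10283570850) (nat_lit 190) (nat_lit 5) (nat_lit 196) (nat_lit 5) (nat_lit 197) (nat_lit 5) (nat_lit 649) (nat_lit 572) (nat_lit 339)) (XT.lf (nat_lit 0) (nat_lit 1601177666) (nat_lit 380) (nat_lit 20969341191) (nat_lit 456) (nat_lit 4656431845) (nat_lit 185) (nat_lit 5) (nat_lit 190) (nat_lit 5) (nat_lit 191) (nat_lit 5) (nat_lit 650) (nat_lit 572) (nat_lit 338))) (XT.nd (nat_lit 78) (nat_lit 456) (nat_lit 0) (XT.lf (nat_lit 0) (nat_lit 1189006998) (nat_lit 456) (nat_lit 9516114496) (nat_lit 76) (nat_lit 16854004154) (nat_lit 184) (nat_lit 5) (nat_lit 190) (nat_lit 5) (nat_lit 185) (nat_lit 5) (nat_lit 651)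 (nat_lit 572) (nat_lit 337)) (XT.nd (nat_lit 78) (nat_lit 0) (nat_lit 0) (XT.lf (nat_lit 0) (nat_lit 6970301543) (nat_lit 456) (nat_lit 159958536) (nat_lit 532) (nat_lit 20766243547) (nat_lit 178) (nat_lit 5) (nat_lit 184) (nat_lit 5) (nat_lit 185) (nat_lit 5) (nat_lit 652) (nat_lit 572) (nat_lit 336)) (XT.lf (nat_lit 0) (nat_lit 13319385285) (nat_lit 532) (nat_lit 4399175953) (nat_lit 76) (nat_lit 10519487199) (nat_lit 178) (nat_lit 5) (nat_lit 185) (nat_lit 5) (nat_lit 179) (nat_lit 5) (nat_lit 653) (nat_lit 572) (nat_lit 335))))) (XT.nd (nat_lit 74958) (nat_lit 0) (nat_lit 25688) (XT.nd (nat_lit 74880) (nat_lit 0) (nat_lit 25688) (XT.lf (nat_lit 0) (nat_lit 12616879079) (nat_lit 380) (nat_lit 7094438491) (nat_lit 456) (nat_lit 8873526290) (nat_lit 173) (nat_lit 5) (nat_lit 178) (nat_lit 5) (nat_lit 179) (nat_lit 5) (nat_lit 654) (nat_lit 572) (nat_lit 334)) (XT.lf (nat_lit 0) (nat_lit 4359942977) (nat_lit 1748) (nat_lit 802979107) (nat_lit 1748) (nat_lit 802979107) (nat_lit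 511) (nat_lit 3) (nat_lit 534) (nat_lit 3) (nat_lit 534) (nat_lit 5) (nat_lit 573) (nat_lit 573) (nat_lit 414))) (XT.nd (nat_lit 78) (nat_lit 0) (nat_lit 76) (XT.lf (nat_lit 76) (nat_lit 4347554816) (nat_lit 0) (nat_lit 4966053257) (nat_lit 1748) (nat_lit 2727335594) (nat_lit 512) (nat_lit 5) (nat_lit 511) (nat_lit 3) (nat_lit 534) (nat_lit 5) (nat_lit 574) (nat_lit 573) (nat_lit 413)) (XT.nd (nat_lit 78) (nat_lit 0) (nat_lit 0) (XT.lf (nat_lit 0) (nat_lit 9920756877) (nat_lit 1672) (nat_lit 1720245355) (nat_lit 1748) (nat_lit 511235713) (nat_lit 512) (nat_lit 5) (nat_lit 534) (nat_lit 5) (nat_lit 535) (nat_lit 5) (nat_lit 575) (nat_lit 573) (nat_lit 412)) (XT.lf (nat_lit 76) (nat_lit 4390410492) (nat_lit 0) (nat_lit 6198729091) (nat_lit 1748) (nat_lit 1675637896) (nat_lit 513) (nat_lit 5) (nat_lit 512) (nat_lit 5) (nat_lit 535) (nat_lit 5) (nat_lit 576) (nat_lit 573) (nat_lit 411)))))) (XT.nd (nat_lit 390) (nat_lit 0) (nat_lit 152) (XT.nd (nat_lit 156) (nat_lit 1672) (nat_lit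 0) (XT.nd (nat_lit 78) (nat_lit 0) (nat_lit 76) (XT.lf (nat_lit 76) (nat_lit 10639997771) (nat_lit 0) (nat_lit 630331994) (nat_lit 1748) (nat_lit 1109250409) (nat_lit 513) (nat_lit 5) (nat_lit 512) (nat_lit 5) (nat_lit 535) (nat_lit 5) (nat_lit 577) (nat_lit 573) (nat_lit 410)) (XT.lf (nat_lit 76) (nat_lit 4537884616) (nat_lit 0) (nat_lit 7477674796) (nat_lit 1748) (nat_lit 480112340) (nat_lit 514) (nat_lit 5) (nat_lit 513) (nat_lit 5) (nat_lit 536) (nat_lit 5) (nat_lit 578) (nat_lit 573) (nat_lit 409))) (XT.nd (nat_lit 78) (nat_lit 0) (nat_lit 76) (XT.lf (nat_lit 0) (nat_lit 163692884) (nat_lit 1748) (nat_lit 1661527842) (nat_lit 1824) (nat_lit 10788760474) (nat_lit 490) (nat_lit 5) (nat_lit 513) (nat_lit 5) (nat_lit 514) (nat_lit 5) (nat_lit 579) (nat_lit 573) (nat_lit 408)) (XT.nd (nat_lit 78) (nat_lit 0) (nat_lit 0) (XT.lf (nat_lit 0) (nat_lit 859556966) (nat_lit 1748) (nat_lit 7946151086) (nat_lit 1824) (nat_lit 3927974162) (nat_lit 491) (nat_lit 5) (nat_lit 514) (nat_lit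 5) (nat_lit 515) (nat_lit 5) (nat_lit 580) (nat_lit 573) (nat_lit 407)) (XT.lf (nat_lit 0) (nat_lit 1581370028) (nat_lit 1748) (nat_lit 1486557229) (nat_lit 1824) (nat_lit 9787610414) (nat_lit 491) (nat_lit 5) (nat_lit 514) (nat_lit 5) (nat_lit 515) (nat_lit 5) (nat_lit 581) (nat_lit 573) (nat_lit 406))))) (XT.nd (nat_lit 156) (nat_lit 0) (nat_lit 76) (XT.nd (nat_lit 78) (nat_lit 0) (nat_lit 0) (XT.lf (nat_lit 0) (nat_lit 2358412842) (nat_lit 1748) (nat_lit 7834566417) (nat_lit 1824) (nat_lit 2786036143) (nat_lit 492) (nat_lit 5) (nat_lit 515) (nat_lit 5) (nat_lit 516) (nat_lit 5) (nat_lit 582) (nat_lit 573) (nat_lit 405)) (XT.lf (nat_lit 0) (nat_lit 3170497093) (nat_lit 1748) (nat_lit 1203920770) (nat_lit 1824) (nat_lit 8730155830) (nat_lit 492) (nat_lit 5) (nat_lit 515) (nat_lit 5) (nat_lit 516) (nat_lit 5) (nat_lit 583) (nat_lit 573) (nat_lit 404))) (XT.nd (nat_lit 78) (nat_lit 0) (nat_lit 0) (XT.lf (nat_lit 0) (nat_lit 4035105292) (nat_lit 1748) (nat_lit 7616260455) (nat_lit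 1824) (nat_lit 1580552754) (nat_lit 493) (nat_lit 5) (nat_lit 516) (nat_lit 5) (nat_lit 517) (nat_lit 5) (nat_lit 584) (nat_lit 573) (nat_lit 403)) (XT.nd (nat_lit 78) (nat_lit 0) (nat_lit 76) (XT.lf (nat_lit 0) (nat_lit 4943650458) (nat_lit 1748) (nat_lit 809775985) (nat_lit 1824) (nat_lit 7607851840) (nat_lit 493) (nat_lit 5) (nat_lit 516) (nat_lit 5) (nat_lit 517) (nat_lit 5) (nat_lit 585) (nat_lit 573) (nat_lit 402)) (XT.lf (nat_lit 0) (nat_lit 5902409128) (nat_lit 1748) (nat_lit 7287283284) (nat_lit 1824) (nat_lit 302892955) (nat_lit 494) (nat_lit 5) (nat_lit 517) (nat_lit 5) (nat_lit 518) (nat_lit 5) (nat_lit 586) (nat_lit 573) (nat_lit 401))))))) (XT.nd (nat_lit 780) (nat_lit 5472) (nat_lit 0) (XT.nd (nat_lit 390) (nat_lit 1596) (nat_lit 0) (XT.nd (nat_lit 156) (nat_lit 0) (nat_lit 76) (XT.nd (nat_lit 78) (nat_lit 0) (nat_lit 0) (XT.lf (nat_lit 0) (nat_lit 6913840278) (nat_lit 1748) (nat_lit 299981772) (nat_lit 1824) (nat_lit 6412027536) (nat_lit 494) (nat_lit 5) (nat_lit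 517) (nat_lit 5) (nat_lit 518) (nat_lit 5) (nat_lit 587) (nat_lit 573) (nat_lit 400)) (XT.lf (nat_lit 76) (nat_lit 6910748387) (nat_lit 0) (nat_lit 1069743507) (nat_lit 1824) (nat_lit 5780588277) (nat_lit 495) (nat_lit 5) (nat_lit 494) (nat_lit 5) (nat_lit 518) (nat_lit 5) (nat_lit 588) (nat_lit 573) (nat_lit 399))) (XT.nd (nat_lit 78) (nat_lit 0) (nat_lit 0) (XT.lf (nat_lit 76) (nat_lit 334290408) (nat_lit 0) (nat_lit 8762416538) (nat_lit 1824) (nat_lit 4801744716) (nat_lit 496) (nat_lit 5) (nat_lit 495) (nat_lit 5) (nat_lit 519) (nat_lit 5) (nat_lit 589) (nat_lit 573) (nat_lit 398)) (XT.nd (nat_lit 78) (nat_lit 0) (nat_lit 76) (XT.lf (nat_lit 76) (nat_lit 7741210270) (nat_lit 0) (nat_lit 2537477437) (nat_lit 1824) (nat_lit 3759014933) (nat_lit 496) (nat_lit 5) (nat_lit 495) (nat_lit 5) (nat_lit 519) (nat_lit 5) (nat_lit 590) (nat_lit 573) (nat_lit 397)) (XT.lf (nat_lit 76) (nat_lit 1099054551) (nat_lit 0) (nat_lit 10407776808) (nat_lit 1824) (nat_lit 2672457678) (nat_lit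 497) (nat_lit 5) (nat_lit 496) (nat_lit 5) (nat_lit 520) (nat_lit 5) (nat_lit 591) (nat_lit 573) (nat_lit 396))))) (XT.nd (nat_lit 156) (nat_lit 1748) (nat_lit 0) (XT.nd (nat_lit 78) (nat_lit 0) (nat_lit 76) (XT.lf (nat_lit 76) (nat_lit 8703742324) (nat_lit 0) (nat_lit 4105517501) (nat_lit 1824) (nat_lit 1513453748) (nat_lit 497) (nat_lit 5) (nat_lit 496) (nat_lit 5) (nat_lit 520) (nat_lit 5) (nat_lit 592) (nat_lit 573) (nat_lit 395)) (XT.lf (nat_lit 76) (nat_lit 1995457871) (nat_lit 0) (nat_lit 12161285582) (nat_lit 1824) (nat_lit 311883850) (nat_lit 498) (nat_lit 5) (nat_lit 497) (nat_lit 5) (nat_lit 521) (nat_lit 5) (nat_lit 593) (nat_lit 573) (nat_lit 394))) (XT.nd (nat_lit 78) (nat_lit 0) (nat_lit 76) (XT.lf (nat_lit 0) (nat_lit 957919591) (nat_lit 1824) (nat_lit 4818955924) (nat_lit 1900) (nat_lit 8839342229) (nat_lit 473) (nat_lit 5) (nat_lit 497) (nat_lit 5) (nat_lit 498) (nat_lit 5) (nat_lit 594) (nat_lit 573) (nat_lit 393)) (XT.nd (nat_lit 78) (nat_lit 0) (nat_lit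 0) (XT.lf (nat_lit 0) (nat_lit 2264691507) (nat_lit 1824) (nat_lit 11752643202) (nat_lit 1900) (nat_lit 749069868) (nat_lit 474) (nat_lit 5) (nat_lit 498) (nat_lit 5) (nat_lit 499) (nat_lit 5) (nat_lit 595) (nat_lit 573) (nat_lit 392)) (XT.lf (nat_lit 0) (nat_lit 3659761859) (nat_lit 1824) (nat_lit 3896182947) (nat_lit 1900) (nat_lit 7362407850) (nat_lit 474) (nat_lit 5) (nat_lit 498) (nat_lit 5) (nat_lit 499) (nat_lit 5) (nat_lit 596) (nat_lit 573) (nat_lit 391)))))) (XT.nd (nat_lit 390) (nat_lit 2736) (nat_lit 0) (XT.nd (nat_lit 156) (nat_lit 2812) (nat_lit 0) (XT.nd (nat_lit 78) (nat_lit 0) (nat_lit 76) (XT.lf (nat_lit 76) (nat_lit 4164953982) (nat_lit 0) (nat_lit 936344472) (nat_lit 1900) (nat_lit 9971670701) (nat_lit 475) (nat_lit 5) (nat_lit 474) (nat_lit 5) (nat_lit 499) (nat_lit 5) (nat_lit 597) (nat_lit 573) (nat_lit 390)) (XT.lf (nat_lit 0) (nat_lit 6627395783) (nat_lit 1824) (nat_lit 2835166399) (nat_lit 76) (nat_lit 5767001943) (nat_lit 475) (nat_lit 5) (nat_lit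 499) (nat_lit 5) (nat_lit 476) (nat_lit 5) (nat_lit 598) (nat_lit 573) (nat_lit 389))) (XT.nd (nat_lit 78) (nat_lit 1064) (nat_lit 0) (XT.lf (nat_lit 0) (nat_lit 5457448551) (nat_lit 1824) (nat_lit 2760016889) (nat_lit 1900) (nat_lit 7171157271) (nat_lit 451) (nat_lit 5) (nat_lit 475) (nat_lit 5) (nat_lit 476) (nat_lit 5) (nat_lit 599) (nat_lit 573) (nat_lit 388)) (XT.nd (nat_lit 78) (nat_lit 1064) (nat_lit 0) (XT.lf (nat_lit 0) (nat_lit 9876893570) (nat_lit 1900) (nat_lit 1629916277) (nat_lit 76) (nat_lit 4043302191) (nat_lit 451) (nat_lit 5) (nat_lit 476) (nat_lit 5) (nat_lit 452) (nat_lit 5) (nat_lit 600) (nat_lit 573) (nat_lit 387)) (XT.lf (nat_lit 0) (nat_lit 6902570199) (nat_lit 1064) (nat_lit 4722130235) (nat_lit 1140) (nat_lit 4089027612) (nat_lit 437) (nat_lit 5) (nat_lit 451) (nat_lit 5) (nat_lit 452) (nat_lit 5) (nat_lit 601) (nat_lit 573) (nat_lit 386))))) (XT.nd (nat_lit 234) (nat_lit 836) (nat_lit 0) (XT.nd (nat_lit 78) (nat_lit 1900) (nat_lit 0) (XT.lf (nat_lit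 0) (nat_lit 13424956459) (nat_lit 1140) (nat_lit 274104286) (nat_lit 76) (nat_lit 2181206452) (nat_lit 437) (nat_lit 5) (nat_lit 452) (nat_lit 5) (nat_lit 438) (nat_lit 5) (nat_lit 602) (nat_lit 573) (nat_lit 385)) (XT.nd (nat_lit 78) (nat_lit 988) (nat_lit 0) (XT.lf (nat_lit 0) (nat_lit 8506966663) (nat_lit 912) (nat_lit 6833119469) (nat_lit 988) (nat_lit 708474299) (nat_lit 425) (nat_lit 5) (nat_lit 437) (nat_lit 5) (nat_lit 438) (nat_lit 5) (nat_lit 603) (nat_lit 573) (nat_lit 384)) (XT.lf (nat_lit 0) (nat_lit 1062823933) (nat_lit 988) (nat_lit 14971731377) (nat_lit 76) (nat_lit 185453461) (nat_lit 412) (nat_lit 5) (nat_lit 425) (nat_lit 5) (nat_lit 413) (nat_lit 5) (nat_lit 604) (nat_lit 573) (nat_lit 383)))) (XT.nd (nat_lit 78) (nat_lit 836) (nat_lit 0) (XT.lf (nat_lit 0) (nat_lit 2948789338) (nat_lit 988) (nat_lit 6135162630) (nat_lit 76) (nat_lit 7309066527) (nat_lit 412) (nat_lit 5) (nat_lit 425) (nat_lit 5) (nat_lit 413) (nat_lit 5) (nat_lit 605) (nat_lit 573) (nat_lit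 382)) (XT.nd (nat_lit 78) (nat_lit 0) (nat_lit 0) (XT.lf (nat_lit 0) (nat_lit 2909250183) (nat_lit 836) (nat_lit 1974782402) (nat_lit 912) (nat_lit 11685225276) (nat_lit 401) (nat_lit 5) (nat_lit 412) (nat_lit 5) (nat_lit 413) (nat_lit 5) (nat_lit 606) (nat_lit 573) (nat_lit 381)) (XT.lf (nat_lit 0) (nat_lit 6926452103) (nat_lit 912) (nat_lit 4572158352) (nat_lit 76) (nat_lit 5249042740) (nat_lit 401) (nat_lit 5) (nat_lit 413) (nat_lit 5) (nat_lit 402) (nat_lit 5) (nat_lit 607) (nat_lit 573) (nat_lit 380))))))))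
noncomputable def xc184 : XT := (XT.nd (nat_lit 1560) (nat_lit 6612) (nat_lit 0) (XT.nd (nat_lit 780) (nat_lit 4180) (nat_lit 0) (XT.nd (nat_lit 390) (nat_lit 2204) (nat_lit 0) (XT.nd (nat_lit 156) (nat_lit 1748) (nat_lit 0) (XT.nd (nat_lit 78) (nat_lit 0) (nat_lit 0) (XT.lf (nat_lit 0) (nat_lit 4739526647) (nat_lit 836) (nat_lit 4306954904) (nat_lit 912) (nat_lit 7882400248) (nat_lit 390) (nat_lit 5) (nat_lit 401) (nat_lit 5) (nat_lit 402) (nat_lit 5) (nat_lit 608) (nat_lit 573) (nat_lit 379)) (XT.lf (nat_lit 0) (nat_lit 11252465047) (nat_lit 912) (nat_lit 2840663309) (nat_lit 76) (nat_lit 3019736133) (nat_lit 390) (nat_lit 5) (nat_lit 402) (nat_lit 5) (nat_lit 391) (nat_lit 5) (nat_lit 609) (nat_lit 573) (nat_lit 378))) (XT.nd (nat_lit 78) (nat_lit 912) (nat_lit 0) (XT.lf (nat_lit 0) (nat_lit 6748022506) (nat_lit 836) (nat_lit 6820023803) (nat_lit 912) (nat_lit 3731171533) (nat_lit 379) (nat_lit 5) (nat_lit 390) (nat_lit 5) (nat_lit 391) (nat_lit 5) (nat_lit 610) (nat_lit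 573) (nat_lit 377)) (XT.nd (nat_lit 78) (nat_lit 912) (nat_lit 0) (XT.lf (nat_lit 0) (nat_lit 15946245137) (nat_lit 912) (nat_lit 932989127) (nat_lit 76) (nat_lit 609738441) (nat_lit 379) (nat_lit 5) (nat_lit 391) (nat_lit 5) (nat_lit 380) (nat_lit 5) (nat_lit 611) (nat_lit 573) (nat_lit 376)) (XT.lf (nat_lit 0) (nat_lit 777673887) (nat_lit 912) (nat_lit 8742915353) (nat_lit 76) (nat_lit 8159899806) (nat_lit 367) (nat_lit 5) (nat_lit 379) (nat_lit 5) (nat_lit 368) (nat_lit 5) (nat_lit 612) (nat_lit 573) (nat_lit 375))))) (XT.nd (nat_lit 156) (nat_lit 1444) (nat_lit 0) (XT.nd (nat_lit 78) (nat_lit 0) (nat_lit 0) (XT.lf (nat_lit 0) (nat_lit 1140228056) (nat_lit 760) (nat_lit 1990728509) (nat_lit 836) (nat_lit 14744533122) (nat_lit 357) (nat_lit 5) (nat_lit 367) (nat_lit 5) (nat_lit 368) (nat_lit 5) (nat_lit 613) (nat_lit 573) (nat_lit 374)) (XT.lf (nat_lit 0) (nat_lit 5620791961) (nat_lit 836) (nat_lit 6778034767) (nat_lit 76) (nat_lit 5673774390) (nat_lit 357) (nat_lit 5) (nat_lit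 368) (nat_lit 5) (nat_lit 358) (nat_lit 5) (nat_lit 614) (nat_lit 573) (nat_lit 373))) (XT.nd (nat_lit 78) (nat_lit 684) (nat_lit 0) (XT.lf (nat_lit 0) (nat_lit 3402885764) (nat_lit 760) (nat_lit 4786430885) (nat_lit 836) (nat_lit 10083760784) (nat_lit 347) (nat_lit 5) (nat_lit 357) (nat_lit 5) (nat_lit 358) (nat_lit 5) (nat_lit 615) (nat_lit 573) (nat_lit 372)) (XT.nd (nat_lit 78) (nat_lit 684) (nat_lit 0) (XT.lf (nat_lit 0) (nat_lit 10868026081) (nat_lit 836) (nat_lit 4623962945) (nat_lit 76) (nat_lit 2984398461) (nat_lit 347) (nat_lit 5) (nat_lit 358) (nat_lit 5) (nat_lit 348) (nat_lit 5) (nat_lit 616) (nat_lit 573) (nat_lit 371)) (XT.lf (nat_lit 0) (nat_lit 5865582707) (nat_lit 684) (nat_lit 7798324463) (nat_lit 760) (nat_lit 5018585112) (nat_lit 338) (nat_lit 5) (nat_lit 347) (nat_lit 5) (nat_lit 348) (nat_lit 5) (nat_lit 617) (nat_lit 573) (nat_lit 370)))))) (XT.nd (nat_lit 390) (nat_lit 1976) (nat_lit 0) (XT.nd (nat_lit 156) (nat_lit 1368) (nat_lit 0) (XT.nd (nat_lit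 78) (nat_lit 836) (nat_lit 0) (XT.lf (nat_lit 0) (nat_lit 16541148821) (nat_lit 760) (nat_lit 2271936076) (nat_lit 76) (nat_lit 79125894) (nat_lit 338) (nat_lit 5) (nat_lit 348) (nat_lit 5) (nat_lit 339) (nat_lit 5) (nat_lit 618) (nat_lit 573) (nat_lit 369)) (XT.lf (nat_lit 0) (nat_lit 466714546) (nat_lit 836) (nat_lit 10569685178) (nat_lit 76) (nat_lit 8067641326) (nat_lit 327) (nat_lit 5) (nat_lit 338) (nat_lit 5) (nat_lit 328) (nat_lit 5) (nat_lit 619) (nat_lit 573) (nat_lit 368))) (XT.nd (nat_lit 78) (nat_lit 684) (nat_lit 0) (XT.lf (nat_lit 0) (nat_lit 248545847) (nat_lit 684) (nat_lit 3071852695) (nat_lit 760) (nat_lit 15999178358) (nat_lit 318) (nat_lit 5) (nat_lit 327) (nat_lit 5) (nat_lit 328) (nat_lit 5) (nat_lit 620) (nat_lit 573) (nat_lit 367)) (XT.nd (nat_lit 78) (nat_lit 684) (nat_lit 0) (XT.lf (nat_lit 0) (nat_lit 6329464757) (nat_lit 760) (nat_lit 8151737036) (nat_lit 76) (nat_lit 5056255946) (nat_lit 318) (nat_lit 5) (nat_lit 328) (nat_lit 5) (nat_lit 319)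 (nat_lit 5) (nat_lit 621) (nat_lit 573) (nat_lit 366)) (XT.lf (nat_lit 0) (nat_lit 2998178046) (nat_lit 684) (nat_lit 6434569125) (nat_lit 760) (nat_lit 10326268758) (nat_lit 309) (nat_lit 5) (nat_lit 318) (nat_lit 5) (nat_lit 319) (nat_lit 5) (nat_lit 622) (nat_lit 573) (nat_lit 365))))) (XT.nd (nat_lit 156) (nat_lit 1368) (nat_lit 0) (XT.nd (nat_lit 78) (nat_lit 608) (nat_lit 0) (XT.lf (nat_lit 0) (nat_lit 12658960020) (nat_lit 760) (nat_lit 5521001375) (nat_lit 76) (nat_lit 1803827019) (nat_lit 309) (nat_lit 5) (nat_lit 319) (nat_lit 5) (nat_lit 310) (nat_lit 5) (nat_lit 623) (nat_lit 573) (nat_lit 364)) (XT.lf (nat_lit 0) (nat_lit 5972678265) (nat_lit 608) (nat_lit 10052811083) (nat_lit 684) (nat_lit 4186051573) (nat_lit 301) (nat_lit 5) (nat_lit 309) (nat_lit 5) (nat_lit 310) (nat_lit 5) (nat_lit 624) (nat_lit 573) (nat_lit 363))) (XT.nd (nat_lit 78) (nat_lit 1368) (nat_lit 0) (XT.lf (nat_lit 0) (nat_lit 17764440720) (nat_lit 608) (nat_lit 1726424709) (nat_lit 684) (nat_lit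 952353133) (nat_lit 301) (nat_lit 5) (nat_lit 309) (nat_lit 5) (nat_lit 310) (nat_lit 5) (nat_lit 625) (nat_lit 573) (nat_lit 362)) (XT.nd (nat_lit 78) (nat_lit 608) (nat_lit 0) (XT.lf (nat_lit 0) (nat_lit 2414019851) (nat_lit 760) (nat_lit 11511045787) (nat_lit 76) (nat_lit 6752184491) (nat_lit 291) (nat_lit 5) (nat_lit 301) (nat_lit 5) (nat_lit 292) (nat_lit 5) (nat_lit 626) (nat_lit 573) (nat_lit 361)) (XT.lf (nat_lit 0) (nat_lit 348881164) (nat_lit 608) (nat_lit 5512489371) (nat_lit 684) (nat_lit 15053938233) (nat_lit 283) (nat_lit 5) (nat_lit 291) (nat_lit 5) (nat_lit 292) (nat_lit 5) (nat_lit 627) (nat_lit 573) (nat_lit 360))))))) (XT.nd (nat_lit 780) (nat_lit 3572) (nat_lit 0) (XT.nd (nat_lit 390) (nat_lit 1748) (nat_lit 0) (XT.nd (nat_lit 156) (nat_lit 684) (nat_lit 0) (XT.nd (nat_lit 78) (nat_lit 608) (nat_lit 0) (XT.lf (nat_lit 0) (nat_lit 9469998569) (nat_lit 684) (nat_lit 8581660557) (nat_lit 76) (nat_lit 3104623223) (nat_lit 283) (nat_lit 5) (nat_lit 292) (nat_lit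 5) (nat_lit 284) (nat_lit 5) (nat_lit 628) (nat_lit 573) (nat_lit 359)) (XT.lf (nat_lit 0) (nat_lit 3647579484) (nat_lit 608) (nat_lit 9558165517) (nat_lit 684) (nat_lit 8195231854) (nat_lit 275) (nat_lit 5) (nat_lit 283) (nat_lit 5) (nat_lit 284) (nat_lit 5) (nat_lit 629) (nat_lit 573) (nat_lit 358))) (XT.nd (nat_lit 78) (nat_lit 684) (nat_lit 0) (XT.lf (nat_lit 0) (nat_lit 16231219660) (nat_lit 608) (nat_lit 837391474) (nat_lit 684) (nat_lit 4580906385) (nat_lit 275) (nat_lit 5) (nat_lit 283) (nat_lit 5) (nat_lit 284) (nat_lit 5) (nat_lit 630) (nat_lit 573) (nat_lit 357)) (XT.nd (nat_lit 78) (nat_lit 76) (nat_lit 0) (XT.lf (nat_lit 0) (nat_lit 7199127746) (nat_lit 608) (nat_lit 13903575401) (nat_lit 684) (nat_lit 798446833) (nat_lit 267) (nat_lit 5) (nat_lit 275) (nat_lit 5) (nat_lit 276) (nat_lit 5) (nat_lit 631) (nat_lit 573) (nat_lit 356)) (XT.lf (nat_lit 0) (nat_lit 3056614783) (nat_lit 684) (nat_lit 2046893589) (nat_lit 76) (nat_lit 17053168136) (nat_lit 266) (nat_lit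 5) (nat_lit 275) (nat_lit 5) (nat_lit 267) (nat_lit 5) (nat_lit 632) (nat_lit 573) (nat_lit 355))))) (XT.nd (nat_lit 156) (nat_lit 608) (nat_lit 0) (XT.nd (nat_lit 78) (nat_lit 532) (nat_lit 0) (XT.lf (nat_lit 0) (nat_lit 7070151820) (nat_lit 684) (nat_lit 11447660039) (nat_lit 76) (nat_lit 3897555179) (nat_lit 258) (nat_lit 5) (nat_lit 267) (nat_lit 5) (nat_lit 259) (nat_lit 5) (nat_lit 633) (nat_lit 573) (nat_lit 354)) (XT.lf (nat_lit 0) (nat_lit 1571691022) (nat_lit 532) (nat_lit 9645178961) (nat_lit 608) (nat_lit 11461303517) (nat_lit 251) (nat_lit 5) (nat_lit 258) (nat_lit 5) (nat_lit 259) (nat_lit 5) (nat_lit 634) (nat_lit 573) (nat_lit 353))) (XT.nd (nat_lit 78) (nat_lit 608) (nat_lit 0) (XT.lf (nat_lit 0) (nat_lit 15000225331) (nat_lit 532) (nat_lit 518253187) (nat_lit 608) (nat_lit 7426318775) (nat_lit 251) (nat_lit 5) (nat_lit 258) (nat_lit 5) (nat_lit 259) (nat_lit 5) (nat_lit 635) (nat_lit 573) (nat_lit 352)) (XT.nd (nat_lit 78) (nat_lit 76) (nat_lit 0) (XT.lf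 (nat_lit 0) (nat_lit 5489148803) (nat_lit 532) (nat_lit 14504909892) (nat_lit 608) (nat_lit 3220936394) (nat_lit 244) (nat_lit 5) (nat_lit 251) (nat_lit 5) (nat_lit 252) (nat_lit 5) (nat_lit 636) (nat_lit 573) (nat_lit 351)) (XT.lf (nat_lit 0) (nat_lit 1106879917) (nat_lit 608) (nat_lit 4207381372) (nat_lit 76) (nat_lit 18175150289) (nat_lit 243) (nat_lit 5) (nat_lit 251) (nat_lit 5) (nat_lit 244) (nat_lit 5) (nat_lit 637) (nat_lit 573) (nat_lit 350)))))) (XT.nd (nat_lit 390) (nat_lit 1976) (nat_lit 0) (XT.nd (nat_lit 156) (nat_lit 1064) (nat_lit 0) (XT.nd (nat_lit 78) (nat_lit 0) (nat_lit 0) (XT.lf (nat_lit 0) (nat_lit 5563264211) (nat_lit 608) (nat_lit 14113784651) (nat_lit 76) (nat_lit 4090139223) (nat_lit 236) (nat_lit 5) (nat_lit 244) (nat_lit 5) (nat_lit 237) (nat_lit 5) (nat_lit 638) (nat_lit 573) (nat_lit 349)) (XT.lf (nat_lit 0) (nat_lit 10167767988) (nat_lit 608) (nat_lit 243179134) (nat_lit 76) (nat_lit 13638393458) (nat_lit 236) (nat_lit 5) (nat_lit 244) (nat_lit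 5) (nat_lit 237) (nat_lit 5) (nat_lit 639) (nat_lit 573) (nat_lit 348))) (XT.nd (nat_lit 78) (nat_lit 532) (nat_lit 0) (XT.lf (nat_lit 0) (nat_lit 14083388764) (nat_lit 532) (nat_lit 867879709) (nat_lit 608) (nat_lit 9384129804) (nat_lit 229) (nat_lit 5) (nat_lit 236) (nat_lit 5) (nat_lit 237) (nat_lit 5) (nat_lit 640) (nat_lit 573) (nat_lit 347)) (XT.nd (nat_lit 78) (nat_lit 76) (nat_lit 0) (XT.lf (nat_lit 0) (nat_lit 4062145835) (nat_lit 456) (nat_lit 15849380708) (nat_lit 532) (nat_lit 4714029114) (nat_lit 223) (nat_lit 5) (nat_lit 229) (nat_lit 5) (nat_lit 230) (nat_lit 5) (nat_lit 641) (nat_lit 573) (nat_lit 346)) (XT.lf (nat_lit 0) (nat_lit 119349200) (nat_lit 532) (nat_lit 6131325379) (nat_lit 76) (nat_lit 18669424962) (nat_lit 222) (nat_lit 5) (nat_lit 229) (nat_lit 5) (nat_lit 223) (nat_lit 5) (nat_lit 642) (nat_lit 573) (nat_lit 345))))) (XT.nd (nat_lit 234) (nat_lit 988) (nat_lit 0) (XT.nd (nat_lit 78) (nat_lit 456) (nat_lit 0) (XT.lf (nat_lit 0) (nat_lit 5061762017)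 (nat_lit 608) (nat_lit 16576682114) (nat_lit 76) (nat_lit 3579957484) (nat_lit 215) (nat_lit 5) (nat_lit 223) (nat_lit 5) (nat_lit 216) (nat_lit 5) (nat_lit 643) (nat_lit 573) (nat_lit 344)) (XT.nd (nat_lit 78) (nat_lit 456) (nat_lit 0) (XT.lf (nat_lit 0) (nat_lit 10181483489) (nat_lit 608) (nat_lit 1776305285) (nat_lit 76) (nat_lit 13563312009) (nat_lit 215) (nat_lit 5) (nat_lit 223) (nat_lit 5) (nat_lit 216) (nat_lit 5) (nat_lit 644) (nat_lit 573) (nat_lit 343)) (XT.lf (nat_lit 0) (nat_lit 13491008459) (nat_lit 456) (nat_lit 1995917136) (nat_lit 532) (nat_lit 10341262069) (nat_lit 209) (nat_lit 5) (nat_lit 215) (nat_lit 5) (nat_lit 216) (nat_lit 5) (nat_lit 645) (nat_lit 573) (nat_lit 342)))) (XT.nd (nat_lit 78) (nat_lit 532) (nat_lit 0) (XT.lf (nat_lit 0) (nat_lit 2925807148) (nat_lit 456) (nat_lit 18052445597) (nat_lit 532) (nat_lit 5161568262) (nat_lit 203) (nat_lit 5) (nat_lit 209) (nat_lit 5) (nat_lit 210) (nat_lit 5) (nat_lit 646) (nat_lit 573) (nat_lit 341)) (XT.nd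 (nat_lit 78) (nat_lit 456) (nat_lit 0) (XT.lf (nat_lit 0) (nat_lit 212461523) (nat_lit 532) (nat_lit 7815358816) (nat_lit 76) (nat_lit 18428004343) (nat_lit 202) (nat_lit 5) (nat_lit 209) (nat_lit 5) (nat_lit 203) (nat_lit 5) (nat_lit 647) (nat_lit 573) (nat_lit 340)) (XT.lf (nat_lit 0) (nat_lit 5687264357) (nat_lit 532) (nat_lit 18835852493) (nat_lit 76) (nat_lit 2253101338) (nat_lit 196) (nat_lit 5) (nat_lit 203) (nat_lit 5) (nat_lit 197) (nat_lit 5) (nat_lit 648) (nat_lit 573) (nat_lit 339))))))))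
noncomputable def xc185 : XT := (XT.nd (nat_lit 76440) (nat_lit 0) (nat_lit 16948) (XT.nd (nat_lit 75660) (nat_lit 0) (nat_lit 23712) (XT.nd (nat_lit 390) (nat_lit 0) (nat_lit 0) (XT.nd (nat_lit 156) (nat_lit 912) (nat_lit 0) (XT.nd (nat_lit 78) (nat_lit 456) (nat_lit 0) (XT.lf (nat_lit 0) (nat_lit 11373417044) (nat_lit 532) (nat_lit 3044308835) (nat_lit 76) (nat_lit 12683256839) (nat_lit 196) (nat_lit 5) (nat_lit 203) (nat_lit 5) (nat_lit 197) (nat_lit 5) (nat_lit 649) (nat_lit 573) (nat_lit 338)) (XT.lf (nat_lit 0) (nat_lit 13230735819) (nat_lit 456) (nat_lit 4024437064) (nat_lit 532) (nat_lit 10175432279) (nat_lit 190) (nat_lit 5) (nat_lit 196) (nat_lit 5) (nat_lit 197) (nat_lit 5) (nat_lit 650) (nat_lit 573) (nat_lit 337))) (XT.nd (nat_lit 78) (nat_lit 532) (nat_lit 0) (XT.lf (nat_lit 0) (nat_lit 2084759797) (nat_lit 380) (nat_lit 21242610909) (nat_lit 456) (nat_lit 4437993434) (nat_lit 185) (nat_lit 5) (nat_lit 190) (nat_lit 5) (nat_lit 191) (nat_lit 5) (nat_lit 651)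 (nat_lit 573) (nat_lit 336)) (XT.nd (nat_lit 78) (nat_lit 456) (nat_lit 0) (XT.lf (nat_lit 0) (nat_lit 1514238893) (nat_lit 456) (nat_lit 9259710065) (nat_lit 76) (nat_lit 17330314070) (nat_lit 184) (nat_lit 5) (nat_lit 190) (nat_lit 5) (nat_lit 185) (nat_lit 5) (nat_lit 652) (nat_lit 573) (nat_lit 335)) (XT.lf (nat_lit 0) (nat_lit 7553495303) (nat_lit 456) (nat_lit 17792279) (nat_lit 532) (nat_lit 20877161890) (nat_lit 178) (nat_lit 5) (nat_lit 184) (nat_lit 5) (nat_lit 185) (nat_lit 5) (nat_lit 653) (nat_lit 573) (nat_lit 334))))) (XT.nd (nat_lit 75036) (nat_lit 0) (nat_lit 25308) (XT.nd (nat_lit 74958) (nat_lit 0) (nat_lit 25308) (XT.lf (nat_lit 0) (nat_lit 13879269176) (nat_lit 532) (nat_lit 4047131877) (nat_lit 76) (nat_lit 10870522957) (nat_lit 178) (nat_lit 5) (nat_lit 185) (nat_lit 5) (nat_lit 179) (nat_lit 5) (nat_lit 654) (nat_lit 573) (nat_lit 333)) (XT.lf (nat_lit 0) (nat_lit 4922332471) (nat_lit 1748) (nat_lit 576668478) (nat_lit 1748) (nat_lit 576668478) (nat_lit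 511) (nat_lit 3) (nat_lit 534) (nat_lit 3) (nat_lit 534) (nat_lit 5) (nat_lit 574) (nat_lit 574) (nat_lit 412))) (XT.nd (nat_lit 78) (nat_lit 0) (nat_lit 76) (XT.lf (nat_lit 76) (nat_lit 4916057253) (nat_lit 0) (nat_lit 5518695874) (nat_lit 1748) (nat_lit 1828221806) (nat_lit 512) (nat_lit 5) (nat_lit 511) (nat_lit 3) (nat_lit 534) (nat_lit 5) (nat_lit 575) (nat_lit 574) (nat_lit 411)) (XT.nd (nat_lit 78) (nat_lit 0) (nat_lit 0) (XT.lf (nat_lit 0) (nat_lit 11032828513) (nat_lit 1672) (nat_lit 1261236329) (nat_lit 1748) (nat_lit 82856351) (nat_lit 512) (nat_lit 5) (nat_lit 534) (nat_lit 5) (nat_lit 535) (nat_lit 5) (nat_lit 576) (nat_lit 574) (nat_lit 410)) (XT.lf (nat_lit 76) (nat_lit 4968386490) (nat_lit 0) (nat_lit 6731460044) (nat_lit 1748) (nat_lit 792161363) (nat_lit 513) (nat_lit 5) (nat_lit 512) (nat_lit 5) (nat_lit 535) (nat_lit 5) (nat_lit 577) (nat_lit 574) (nat_lit 409)))))) (XT.nd (nat_lit 390) (nat_lit 0) (nat_lit 152) (XT.nd (nat_lit 156) (nat_lit 0) (nat_lit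 0) (XT.nd (nat_lit 78) (nat_lit 1672) (nat_lit 0) (XT.lf (nat_lit 76) (nat_lit 11333354383) (nat_lit 0) (nat_lit 1043680174) (nat_lit 1748) (nat_lit 232426308) (nat_lit 513) (nat_lit 5) (nat_lit 512) (nat_lit 5) (nat_lit 535) (nat_lit 5) (nat_lit 578) (nat_lit 574) (nat_lit 408)) (XT.lf (nat_lit 0) (nat_lit 387214330) (nat_lit 1748) (nat_lit 7604538854) (nat_lit 1824) (nat_lit 4736403821) (nat_lit 490) (nat_lit 5) (nat_lit 513) (nat_lit 5) (nat_lit 514) (nat_lit 5) (nat_lit 579) (nat_lit 574) (nat_lit 407))) (XT.nd (nat_lit 78) (nat_lit 0) (nat_lit 76) (XT.lf (nat_lit 0) (nat_lit 1020404216) (nat_lit 1748) (nat_lit 1195518718) (nat_lit 1824) (nat_lit 10633189091) (nat_lit 490) (nat_lit 5) (nat_lit 513) (nat_lit 5) (nat_lit 514) (nat_lit 5) (nat_lit 580) (nat_lit 574) (nat_lit 406)) (XT.nd (nat_lit 78) (nat_lit 0) (nat_lit 0) (XT.lf (nat_lit 0) (nat_lit 1714438311) (nat_lit 1748) (nat_lit 7590008679) (nat_lit 1824) (nat_lit 3667076584) (nat_lit 491) (nat_lit 5) (nat_lit 514)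 (nat_lit 5) (nat_lit 515) (nat_lit 5) (nat_lit 581) (nat_lit 574) (nat_lit 405)) (XT.lf (nat_lit 0) (nat_lit 2434262336) (nat_lit 1748) (nat_lit 1011322267) (nat_lit 1824) (nat_lit 9650561582) (nat_lit 491) (nat_lit 5) (nat_lit 514) (nat_lit 5) (nat_lit 515) (nat_lit 5) (nat_lit 582) (nat_lit 574) (nat_lit 404))))) (XT.nd (nat_lit 156) (nat_lit 0) (nat_lit 76) (XT.nd (nat_lit 78) (nat_lit 0) (nat_lit 0) (XT.lf (nat_lit 0) (nat_lit 3212007994) (nat_lit 1748) (nat_lit 7471378194) (nat_lit 1824) (nat_lit 2539005553) (nat_lit 492) (nat_lit 5) (nat_lit 515) (nat_lit 5) (nat_lit 516) (nat_lit 5) (nat_lit 583) (nat_lit 574) (nat_lit 403)) (XT.lf (nat_lit 0) (nat_lit 4024521638) (nat_lit 1748) (nat_lit 718313350) (nat_lit 1824) (nat_lit 8607943934) (nat_lit 492) (nat_lit 5) (nat_lit 515) (nat_lit 5) (nat_lit 516) (nat_lit 5) (nat_lit 584) (nat_lit 574) (nat_lit 402))) (XT.nd (nat_lit 78) (nat_lit 0) (nat_lit 0) (XT.lf (nat_lit 0) (nat_lit 4892440760) (nat_lit 1748) (nat_lit 7244846086)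 (nat_lit 1824) (nat_lit 1343664855) (nat_lit 493) (nat_lit 5) (nat_lit 516) (nat_lit 5) (nat_lit 517) (nat_lit 5) (nat_lit 585) (nat_lit 574) (nat_lit 401)) (XT.nd (nat_lit 78) (nat_lit 0) (nat_lit 76) (XT.lf (nat_lit 0) (nat_lit 5803928725) (nat_lit 1748) (nat_lit 312501330) (nat_lit 1824) (nat_lit 7496774608) (nat_lit 493) (nat_lit 5) (nat_lit 516) (nat_lit 5) (nat_lit 517) (nat_lit 5) (nat_lit 586) (nat_lit 574) (nat_lit 400)) (XT.lf (nat_lit 0) (nat_lit 6768688647) (nat_lit 1748) (nat_lit 6906315167) (nat_lit 1824) (nat_lit 72398947) (nat_lit 494) (nat_lit 5) (nat_lit 517) (nat_lit 5) (nat_lit 518) (nat_lit 5) (nat_lit 587) (nat_lit 574) (nat_lit 399))))))) (XT.nd (nat_lit 780) (nat_lit 5472) (nat_lit 0) (XT.nd (nat_lit 390) (nat_lit 1596) (nat_lit 0) (XT.nd (nat_lit 156) (nat_lit 0) (nat_lit 76) (XT.nd (nat_lit 78) (nat_lit 0) (nat_lit 0) (XT.lf (nat_lit 76) (nat_lit 213200821) (nat_lit 0) (nat_lit 7573860637) (nat_lit 1824) (nat_lit 6096537911) (nat_lit 495) (nat_lit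 5) (nat_lit 494) (nat_lit 5) (nat_lit 518) (nat_lit 5) (nat_lit 588) (nat_lit 574) (nat_lit 398)) (XT.lf (nat_lit 76) (nat_lit 7561952140) (nat_lit 0) (nat_lit 1300656857) (nat_lit 1824) (nat_lit 5159175651) (nat_lit 495) (nat_lit 5) (nat_lit 494) (nat_lit 5) (nat_lit 518) (nat_lit 5) (nat_lit 589) (nat_lit 574) (nat_lit 397))) (XT.nd (nat_lit 78) (nat_lit 0) (nat_lit 0) (XT.lf (nat_lit 76) (nat_lit 866363079) (nat_lit 0) (nat_lit 9122695963) (nat_lit 1824) (nat_lit 4173087627) (nat_lit 496) (nat_lit 5) (nat_lit 495) (nat_lit 5) (nat_lit 519) (nat_lit 5) (nat_lit 590) (nat_lit 574) (nat_lit 396)) (XT.nd (nat_lit 78) (nat_lit 0) (nat_lit 76) (XT.lf (nat_lit 76) (nat_lit 8411119634) (nat_lit 0) (nat_lit 2769630019) (nat_lit 1824) (nat_lit 3123712895) (nat_lit 496) (nat_lit 5) (nat_lit 495) (nat_lit 5) (nat_lit 519) (nat_lit 5) (nat_lit 591) (nat_lit 574) (nat_lit 395)) (XT.lf (nat_lit 76) (nat_lit 1647804201) (nat_lit 0) (nat_lit 10774260782) (nat_lit 1824) (nat_lit 2027044776)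 (nat_lit 497) (nat_lit 5) (nat_lit 496) (nat_lit 5) (nat_lit 520) (nat_lit 5) (nat_lit 592) (nat_lit 574) (nat_lit 394))))) (XT.nd (nat_lit 156) (nat_lit 0) (nat_lit 0) (XT.nd (nat_lit 78) (nat_lit 1748) (nat_lit 0) (XT.lf (nat_lit 76) (nat_lit 9394256934) (nat_lit 0) (nat_lit 4342851811) (nat_lit 1824) (nat_lit 858563945) (nat_lit 497) (nat_lit 5) (nat_lit 496) (nat_lit 5) (nat_lit 520) (nat_lit 5) (nat_lit 593) (nat_lit 574) (nat_lit 393)) (XT.lf (nat_lit 0) (nat_lit 351417930) (nat_lit 1824) (nat_lit 12184215816) (nat_lit 1900) (nat_lit 2209040590) (nat_lit 473) (nat_lit 5) (nat_lit 497) (nat_lit 5) (nat_lit 498) (nat_lit 5) (nat_lit 594) (nat_lit 574) (nat_lit 392))) (XT.nd (nat_lit 78) (nat_lit 0) (nat_lit 76) (XT.lf (nat_lit 0) (nat_lit 1629398803) (nat_lit 1824) (nat_lit 4389500190) (nat_lit 1900) (nat_lit 8876538378) (nat_lit 473) (nat_lit 5) (nat_lit 497) (nat_lit 5) (nat_lit 498) (nat_lit 5) (nat_lit 595) (nat_lit 574) (nat_lit 391)) (XT.nd (nat_lit 78) (nat_lit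 0) (nat_lit 0) (XT.lf (nat_lit 0) (nat_lit 2952124494) (nat_lit 1824) (nat_lit 11451622381) (nat_lit 1900) (nat_lit 645085842) (nat_lit 474) (nat_lit 5) (nat_lit 498) (nat_lit 5) (nat_lit 499) (nat_lit 5) (nat_lit 596) (nat_lit 574) (nat_lit 390)) (XT.lf (nat_lit 0) (nat_lit 4362505289) (nat_lit 1824) (nat_lit 3448544171) (nat_lit 1900) (nat_lit 7393023239) (nat_lit 474) (nat_lit 5) (nat_lit 498) (nat_lit 5) (nat_lit 499) (nat_lit 5) (nat_lit 597) (nat_lit 574) (nat_lit 389)))))) (XT.nd (nat_lit 390) (nat_lit 2736) (nat_lit 0) (XT.nd (nat_lit 156) (nat_lit 2812) (nat_lit 0) (XT.nd (nat_lit 78) (nat_lit 0) (nat_lit 76) (XT.lf (nat_lit 76) (nat_lit 4770357850) (nat_lit 0) (nat_lit 1053560535) (nat_lit 1900) (nat_lit 9538043327) (nat_lit 475) (nat_lit 5) (nat_lit 474) (nat_lit 5) (nat_lit 499) (nat_lit 5) (nat_lit 598) (nat_lit 574) (nat_lit 388)) (XT.lf (nat_lit 0) (nat_lit 7367742232) (nat_lit 1824) (nat_lit 2367152989) (nat_lit 76) (nat_lit 5787050344) (nat_lit 475) (nat_lit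 5) (nat_lit 499) (nat_lit 5) (nat_lit 476) (nat_lit 5) (nat_lit 599) (nat_lit 574) (nat_lit 387))) (XT.nd (nat_lit 78) (nat_lit 1064) (nat_lit 0) (XT.lf (nat_lit 0) (nat_lit 6087862176) (nat_lit 1824) (nat_lit 2893217884) (nat_lit 1900) (nat_lit 6703276985) (nat_lit 451) (nat_lit 5) (nat_lit 475) (nat_lit 5) (nat_lit 476) (nat_lit 5) (nat_lit 600) (nat_lit 574) (nat_lit 386)) (XT.nd (nat_lit 78) (nat_lit 1064) (nat_lit 0) (XT.lf (nat_lit 0) (nat_lit 10661449951) (nat_lit 1900) (nat_lit 1139172243) (nat_lit 76) (nat_lit 4048699937) (nat_lit 451) (nat_lit 5) (nat_lit 476) (nat_lit 5) (nat_lit 452) (nat_lit 5) (nat_lit 601) (nat_lit 574) (nat_lit 385)) (XT.lf (nat_lit 0) (nat_lit 7560520921) (nat_lit 1064) (nat_lit 4875557395) (nat_lit 1140) (nat_lit 3580295850) (nat_lit 437) (nat_lit 5) (nat_lit 451) (nat_lit 5) (nat_lit 452) (nat_lit 5) (nat_lit 602) (nat_lit 574) (nat_lit 384))))) (XT.nd (nat_lit 234) (nat_lit 836) (nat_lit 0) (XT.nd (nat_lit 78) (nat_lit 988) (nat_lit 0)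 (XT.lf (nat_lit 0) (nat_lit 245109384) (nat_lit 912) (nat_lit 14017095367) (nat_lit 988) (nat_lit 1924243039) (nat_lit 425) (nat_lit 5) (nat_lit 437) (nat_lit 5) (nat_lit 438) (nat_lit 5) (nat_lit 603) (nat_lit 574) (nat_lit 383)) (XT.nd (nat_lit 78) (nat_lit 988) (nat_lit 0) (XT.lf (nat_lit 0) (nat_lit 9195156303) (nat_lit 912) (nat_lit 7011132089) (nat_lit 988) (nat_lit 152006445) (nat_lit 425) (nat_lit 5) (nat_lit 437) (nat_lit 5) (nat_lit 438) (nat_lit 5) (nat_lit 604) (nat_lit 574) (nat_lit 382)) (XT.lf (nat_lit 0) (nat_lit 1639364792) (nat_lit 988) (nat_lit 14737668005) (nat_lit 76) (nat_lit 156223564) (nat_lit 412) (nat_lit 5) (nat_lit 425) (nat_lit 5) (nat_lit 413) (nat_lit 5) (nat_lit 605) (nat_lit 574) (nat_lit 381)))) (XT.nd (nat_lit 78) (nat_lit 836) (nat_lit 0) (XT.lf (nat_lit 0) (nat_lit 3552161576) (nat_lit 988) (nat_lit 5734828627) (nat_lit 76) (nat_lit 7422954753) (nat_lit 412) (nat_lit 5) (nat_lit 425) (nat_lit 5) (nat_lit 413) (nat_lit 5) (nat_lit 606) (nat_lit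 574) (nat_lit 380)) (XT.nd (nat_lit 78) (nat_lit 0) (nat_lit 0) (XT.lf (nat_lit 0) (nat_lit 3487031407) (nat_lit 836) (nat_lit 2031777405) (nat_lit 912) (nat_lit 11371047219) (nat_lit 401) (nat_lit 5) (nat_lit 412) (nat_lit 5) (nat_lit 413) (nat_lit 5) (nat_lit 607) (nat_lit 574) (nat_lit 379)) (XT.lf (nat_lit 0) (nat_lit 7591434044) (nat_lit 912) (nat_lit 4143506591) (nat_lit 76) (nat_lit 5337092372) (nat_lit 401) (nat_lit 5) (nat_lit 413) (nat_lit 5) (nat_lit 402) (nat_lit 5) (nat_lit 608) (nat_lit 574) (nat_lit 378))))))))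
noncomputable def xc186 : XT := (XT.nd (nat_lit 1560) (nat_lit 6612) (nat_lit 0) (XT.nd (nat_lit 780) (nat_lit 4180) (nat_lit 0) (XT.nd (nat_lit 390) (nat_lit 2204) (nat_lit 0) (XT.nd (nat_lit 156) (nat_lit 1748) (nat_lit 0) (XT.nd (nat_lit 78) (nat_lit 0) (nat_lit 0) (XT.lf (nat_lit 0) (nat_lit 5350990430) (nat_lit 836) (nat_lit 4395905631) (nat_lit 912) (nat_lit 7510130350) (nat_lit 390) (nat_lit 5) (nat_lit 401) (nat_lit 5) (nat_lit 402) (nat_lit 5) (nat_lit 609) (nat_lit 574) (nat_lit 377)) (XT.lf (nat_lit 0) (nat_lit 11986795352) (nat_lit 912) (nat_lit 2380687821) (nat_lit 76) (nat_lit 3077410508) (nat_lit 390) (nat_lit 5) (nat_lit 402) (nat_lit 5) (nat_lit 391) (nat_lit 5) (nat_lit 610) (nat_lit 574) (nat_lit 376))) (XT.nd (nat_lit 78) (nat_lit 912) (nat_lit 0) (XT.lf (nat_lit 0) (nat_lit 7396371784) (nat_lit 836) (nat_lit 6945663814) (nat_lit 912) (nat_lit 3293072390) (nat_lit 379) (nat_lit 5) (nat_lit 390) (nat_lit 5) (nat_lit 391) (nat_lit 5) (nat_lit 611) (nat_lit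 574) (nat_lit 375)) (XT.nd (nat_lit 78) (nat_lit 912) (nat_lit 0) (XT.lf (nat_lit 0) (nat_lit 16758011439) (nat_lit 912) (nat_lit 438498738) (nat_lit 76) (nat_lit 632344328) (nat_lit 379) (nat_lit 5) (nat_lit 391) (nat_lit 5) (nat_lit 380) (nat_lit 5) (nat_lit 612) (nat_lit 574) (nat_lit 374)) (XT.lf (nat_lit 0) (nat_lit 1282976273) (nat_lit 912) (nat_lit 8401451729) (nat_lit 76) (nat_lit 8339836605) (nat_lit 367) (nat_lit 5) (nat_lit 379) (nat_lit 5) (nat_lit 368) (nat_lit 5) (nat_lit 613) (nat_lit 574) (nat_lit 373))))) (XT.nd (nat_lit 156) (nat_lit 1444) (nat_lit 0) (XT.nd (nat_lit 78) (nat_lit 0) (nat_lit 0) (XT.lf (nat_lit 0) (nat_lit 1675957693) (nat_lit 760) (nat_lit 2001094242) (nat_lit 836) (nat_lit 14546239549) (nat_lit 357) (nat_lit 5) (nat_lit 367) (nat_lit 5) (nat_lit 368) (nat_lit 5) (nat_lit 614) (nat_lit 574) (nat_lit 372)) (XT.lf (nat_lit 0) (nat_lit 6207391565) (nat_lit 836) (nat_lit 6401397548) (nat_lit 76) (nat_lit 5815742633) (nat_lit 357) (nat_lit 5)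 (nat_lit 368) (nat_lit 5) (nat_lit 358) (nat_lit 5) (nat_lit 615) (nat_lit 574) (nat_lit 371))) (XT.nd (nat_lit 78) (nat_lit 684) (nat_lit 0) (XT.lf (nat_lit 0) (nat_lit 3979771670) (nat_lit 760) (nat_lit 4841521006) (nat_lit 836) (nat_lit 9807845533) (nat_lit 347) (nat_lit 5) (nat_lit 357) (nat_lit 5) (nat_lit 358) (nat_lit 5) (nat_lit 616) (nat_lit 574) (nat_lit 370)) (XT.nd (nat_lit 78) (nat_lit 684) (nat_lit 0) (XT.lf (nat_lit 0) (nat_lit 11544654786) (nat_lit 836) (nat_lit 4208633272) (nat_lit 76) (nat_lit 3083405563) (nat_lit 347) (nat_lit 5) (nat_lit 358) (nat_lit 5) (nat_lit 348) (nat_lit 5) (nat_lit 617) (nat_lit 574) (nat_lit 369)) (XT.lf (nat_lit 0) (nat_lit 6487362445) (nat_lit 684) (nat_lit 7903361133) (nat_lit 760) (nat_lit 4656312241) (nat_lit 338) (nat_lit 5) (nat_lit 347) (nat_lit 5) (nat_lit 348) (nat_lit 5) (nat_lit 618) (nat_lit 574) (nat_lit 368)))))) (XT.nd (nat_lit 390) (nat_lit 1976) (nat_lit 0) (XT.nd (nat_lit 156) (nat_lit 1368) (nat_lit 0) (XT.nd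 (nat_lit 78) (nat_lit 836) (nat_lit 0) (XT.lf (nat_lit 0) (nat_lit 17316941342) (nat_lit 760) (nat_lit 1814194678) (nat_lit 76) (nat_lit 129984751) (nat_lit 338) (nat_lit 5) (nat_lit 348) (nat_lit 5) (nat_lit 339) (nat_lit 5) (nat_lit 619) (nat_lit 574) (nat_lit 367)) (XT.lf (nat_lit 0) (nat_lit 918483220) (nat_lit 836) (nat_lit 10275295944) (nat_lit 76) (nat_lit 8283460526) (nat_lit 327) (nat_lit 5) (nat_lit 338) (nat_lit 5) (nat_lit 328) (nat_lit 5) (nat_lit 620) (nat_lit 574) (nat_lit 366))) (XT.nd (nat_lit 78) (nat_lit 684) (nat_lit 0) (XT.lf (nat_lit 0) (nat_lit 755972181) (nat_lit 684) (nat_lit 3067855803) (nat_lit 760) (nat_lit 15873367188) (nat_lit 318) (nat_lit 5) (nat_lit 327) (nat_lit 5) (nat_lit 328) (nat_lit 5) (nat_lit 621) (nat_lit 574) (nat_lit 365)) (XT.nd (nat_lit 78) (nat_lit 684) (nat_lit 0) (XT.lf (nat_lit 0) (nat_lit 6884922986) (nat_lit 760) (nat_lit 7813983696) (nat_lit 76) (nat_lit 5220690641) (nat_lit 318) (nat_lit 5) (nat_lit 328) (nat_lit 5) (nat_lit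 319) (nat_lit 5) (nat_lit 622) (nat_lit 574) (nat_lit 364)) (XT.lf (nat_lit 0) (nat_lit 3555635029) (nat_lit 684) (nat_lit 6489456882) (nat_lit 760) (nat_lit 10100598980) (nat_lit 309) (nat_lit 5) (nat_lit 318) (nat_lit 5) (nat_lit 319) (nat_lit 5) (nat_lit 623) (nat_lit 574) (nat_lit 363))))) (XT.nd (nat_lit 156) (nat_lit 1368) (nat_lit 0) (XT.nd (nat_lit 78) (nat_lit 608) (nat_lit 0) (XT.lf (nat_lit 0) (nat_lit 13327991161) (nat_lit 760) (nat_lit 5135813954) (nat_lit 76) (nat_lit 1911311086) (nat_lit 309) (nat_lit 5) (nat_lit 319) (nat_lit 5) (nat_lit 310) (nat_lit 5) (nat_lit 624) (nat_lit 574) (nat_lit 362)) (XT.lf (nat_lit 0) (nat_lit 6584478703) (nat_lit 608) (nat_lit 10172415055) (nat_lit 684) (nat_lit 3850629753) (nat_lit 301) (nat_lit 5) (nat_lit 309) (nat_lit 5) (nat_lit 310) (nat_lit 5) (nat_lit 625) (nat_lit 574) (nat_lit 361))) (XT.nd (nat_lit 78) (nat_lit 1368) (nat_lit 0) (XT.lf (nat_lit 0) (nat_lit 18602422547) (nat_lit 608) (nat_lit 1681098056) (nat_lit 684)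 (nat_lit 560475832) (nat_lit 301) (nat_lit 5) (nat_lit 309) (nat_lit 5) (nat_lit 310) (nat_lit 5) (nat_lit 626) (nat_lit 574) (nat_lit 360)) (XT.nd (nat_lit 78) (nat_lit 608) (nat_lit 0) (XT.lf (nat_lit 0) (nat_lit 2863578370) (nat_lit 760) (nat_lit 11248869706) (nat_lit 76) (nat_lit 6970292908) (nat_lit 291) (nat_lit 5) (nat_lit 301) (nat_lit 5) (nat_lit 292) (nat_lit 5) (nat_lit 627) (nat_lit 574) (nat_lit 359)) (XT.lf (nat_lit 0) (nat_lit 845016330) (nat_lit 608) (nat_lit 5530167474) (nat_lit 684) (nat_lit 14950471397) (nat_lit 283) (nat_lit 5) (nat_lit 291) (nat_lit 5) (nat_lit 292) (nat_lit 5) (nat_lit 628) (nat_lit 574) (nat_lit 358))))))) (XT.nd (nat_lit 780) (nat_lit 3572) (nat_lit 0) (XT.nd (nat_lit 390) (nat_lit 1748) (nat_lit 0) (XT.nd (nat_lit 156) (nat_lit 684) (nat_lit 0) (XT.nd (nat_lit 78) (nat_lit 608) (nat_lit 0) (XT.lf (nat_lit 0) (nat_lit 10048797458) (nat_lit 684) (nat_lit 8266513132) (nat_lit 76) (nat_lit 3256281952) (nat_lit 283) (nat_lit 5) (nat_lit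 292) (nat_lit 5) (nat_lit 284) (nat_lit 5) (nat_lit 629) (nat_lit 574) (nat_lit 357)) (XT.lf (nat_lit 0) (nat_lit 4204109206) (nat_lit 608) (nat_lit 9650654050) (nat_lit 684) (nat_lit 7966508133) (nat_lit 275) (nat_lit 5) (nat_lit 283) (nat_lit 5) (nat_lit 284) (nat_lit 5) (nat_lit 630) (nat_lit 574) (nat_lit 356))) (XT.nd (nat_lit 78) (nat_lit 684) (nat_lit 0) (XT.lf (nat_lit 0) (nat_lit 17029940260) (nat_lit 608) (nat_lit 757399326) (nat_lit 684) (nat_lit 4287594750) (nat_lit 275) (nat_lit 5) (nat_lit 283) (nat_lit 5) (nat_lit 284) (nat_lit 5) (nat_lit 631) (nat_lit 574) (nat_lit 355)) (XT.nd (nat_lit 78) (nat_lit 76) (nat_lit 0) (XT.lf (nat_lit 0) (nat_lit 7820987194) (nat_lit 608) (nat_lit 14077445582) (nat_lit 684) (nat_lit 433240801) (nat_lit 267) (nat_lit 5) (nat_lit 275) (nat_lit 5) (nat_lit 276) (nat_lit 5) (nat_lit 632) (nat_lit 574) (nat_lit 354)) (XT.lf (nat_lit 0) (nat_lit 3486546873) (nat_lit 684) (nat_lit 1614398662) (nat_lit 76) (nat_lit 17491463622) (nat_lit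 266) (nat_lit 5) (nat_lit 275) (nat_lit 5) (nat_lit 267) (nat_lit 5) (nat_lit 633) (nat_lit 574) (nat_lit 353))))) (XT.nd (nat_lit 156) (nat_lit 608) (nat_lit 0) (XT.nd (nat_lit 78) (nat_lit 532) (nat_lit 0) (XT.lf (nat_lit 0) (nat_lit 7576863148) (nat_lit 684) (nat_lit 11199664542) (nat_lit 76) (nat_lit 4079816126) (nat_lit 258) (nat_lit 5) (nat_lit 267) (nat_lit 5) (nat_lit 259) (nat_lit 5) (nat_lit 634) (nat_lit 574) (nat_lit 352)) (XT.lf (nat_lit 0) (nat_lit 2076935721) (nat_lit 532) (nat_lit 9725493341) (nat_lit 608) (nat_lit 11322059556) (nat_lit 251) (nat_lit 5) (nat_lit 258) (nat_lit 5) (nat_lit 259) (nat_lit 5) (nat_lit 635) (nat_lit 574) (nat_lit 351))) (XT.nd (nat_lit 78) (nat_lit 608) (nat_lit 0) (XT.lf (nat_lit 0) (nat_lit 15764750306) (nat_lit 532) (nat_lit 418236683) (nat_lit 608) (nat_lit 7213600022) (nat_lit 251) (nat_lit 5) (nat_lit 258) (nat_lit 5) (nat_lit 259) (nat_lit 5) (nat_lit 636) (nat_lit 574) (nat_lit 350)) (XT.nd (nat_lit 78) (nat_lit 76) (nat_lit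 0) (XT.lf (nat_lit 0) (nat_lit 6066743713) (nat_lit 532) (nat_lit 14678131120) (nat_lit 608) (nat_lit 2927378468) (nat_lit 244) (nat_lit 5) (nat_lit 251) (nat_lit 5) (nat_lit 252) (nat_lit 5) (nat_lit 637) (nat_lit 574) (nat_lit 349)) (XT.lf (nat_lit 0) (nat_lit 1475372148) (nat_lit 608) (nat_lit 3828264880) (nat_lit 76) (nat_lit 18648613591) (nat_lit 243) (nat_lit 5) (nat_lit 251) (nat_lit 5) (nat_lit 244) (nat_lit 5) (nat_lit 638) (nat_lit 574) (nat_lit 348)))))) (XT.nd (nat_lit 390) (nat_lit 1976) (nat_lit 0) (XT.nd (nat_lit 156) (nat_lit 532) (nat_lit 0) (XT.nd (nat_lit 78) (nat_lit 532) (nat_lit 0) (XT.lf (nat_lit 0) (nat_lit 6017844850) (nat_lit 608) (nat_lit 13929735281) (nat_lit 76) (nat_lit 4288063745) (nat_lit 236) (nat_lit 5) (nat_lit 244) (nat_lit 5) (nat_lit 237) (nat_lit 5) (nat_lit 639) (nat_lit 574) (nat_lit 347)) (XT.lf (nat_lit 0) (nat_lit 211918060) (nat_lit 532) (nat_lit 10497164880) (nat_lit 608) (nat_lit 13814464020) (nat_lit 229) (nat_lit 5) (nat_lit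 236) (nat_lit 5) (nat_lit 237) (nat_lit 5) (nat_lit 640) (nat_lit 574) (nat_lit 346))) (XT.nd (nat_lit 78) (nat_lit 532) (nat_lit 0) (XT.lf (nat_lit 0) (nat_lit 14819230201) (nat_lit 532) (nat_lit 763996439) (nat_lit 608) (nat_lit 9232200124) (nat_lit 229) (nat_lit 5) (nat_lit 236) (nat_lit 5) (nat_lit 237) (nat_lit 5) (nat_lit 641) (nat_lit 574) (nat_lit 345)) (XT.nd (nat_lit 78) (nat_lit 76) (nat_lit 0) (XT.lf (nat_lit 0) (nat_lit 4600427966) (nat_lit 456) (nat_lit 16039472954) (nat_lit 532) (nat_lit 4471542558) (nat_lit 223) (nat_lit 5) (nat_lit 229) (nat_lit 5) (nat_lit 230) (nat_lit 5) (nat_lit 642) (nat_lit 574) (nat_lit 344)) (XT.lf (nat_lit 0) (nat_lit 447569886) (nat_lit 532) (nat_lit 5801524444) (nat_lit 76) (nat_lit 19162870905) (nat_lit 222) (nat_lit 5) (nat_lit 229) (nat_lit 5) (nat_lit 223) (nat_lit 5) (nat_lit 643) (nat_lit 574) (nat_lit 343))))) (XT.nd (nat_lit 234) (nat_lit 988) (nat_lit 0) (XT.nd (nat_lit 78) (nat_lit 456) (nat_lit 0) (XT.lf (nat_lit 0) (nat_lit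 5486185337) (nat_lit 608) (nat_lit 16453123454) (nat_lit 76) (nat_lit 3776977858) (nat_lit 215) (nat_lit 5) (nat_lit 223) (nat_lit 5) (nat_lit 216) (nat_lit 5) (nat_lit 644) (nat_lit 574) (nat_lit 342)) (XT.nd (nat_lit 78) (nat_lit 456) (nat_lit 0) (XT.lf (nat_lit 0) (nat_lit 10701964217) (nat_lit 608) (nat_lit 1365662467) (nat_lit 76) (nat_lit 13957540234) (nat_lit 215) (nat_lit 5) (nat_lit 223) (nat_lit 5) (nat_lit 216) (nat_lit 5) (nat_lit 645) (nat_lit 574) (nat_lit 341)) (XT.lf (nat_lit 0) (nat_lit 14204062231) (nat_lit 456) (nat_lit 1906117936) (nat_lit 532) (nat_lit 10228282440) (nat_lit 209) (nat_lit 5) (nat_lit 215) (nat_lit 5) (nat_lit 216) (nat_lit 5) (nat_lit 646) (nat_lit 574) (nat_lit 340)))) (XT.nd (nat_lit 78) (nat_lit 532) (nat_lit 0) (XT.lf (nat_lit 0) (nat_lit 3430051649) (nat_lit 456) (nat_lit 18278854499) (nat_lit 532) (nat_lit 4947471385) (nat_lit 203) (nat_lit 5) (nat_lit 209) (nat_lit 5) (nat_lit 210) (nat_lit 5) (nat_lit 647) (nat_lit 574) (nat_lit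 339)) (XT.nd (nat_lit 78) (nat_lit 456) (nat_lit 0) (XT.lf (nat_lit 0) (nat_lit 523736660) (nat_lit 532) (nat_lit 7530579770) (nat_lit 76) (nat_lit 18924466803) (nat_lit 202) (nat_lit 5) (nat_lit 209) (nat_lit 5) (nat_lit 203) (nat_lit 5) (nat_lit 648) (nat_lit 574) (nat_lit 338)) (XT.lf (nat_lit 0) (nat_lit 6105732601) (nat_lit 532) (nat_lit 18769163289) (nat_lit 76) (nat_lit 2430735120) (nat_lit 196) (nat_lit 5) (nat_lit 203) (nat_lit 5) (nat_lit 197) (nat_lit 5) (nat_lit 649) (nat_lit 574) (nat_lit 337))))))))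
noncomputable def xc187 : XT := (XT.nd (nat_lit 76440) (nat_lit 0) (nat_lit 16948) (XT.nd (nat_lit 75660) (nat_lit 0) (nat_lit 23636) (XT.nd (nat_lit 390) (nat_lit 0) (nat_lit 0) (XT.nd (nat_lit 156) (nat_lit 912) (nat_lit 0) (XT.nd (nat_lit 78) (nat_lit 456) (nat_lit 0) (XT.lf (nat_lit 0) (nat_lit 11899633382) (nat_lit 532) (nat_lit 2670482997) (nat_lit 76) (nat_lit 13066894286) (nat_lit 196) (nat_lit 5) (nat_lit 203) (nat_lit 5) (nat_lit 197) (nat_lit 5) (nat_lit 650) (nat_lit 574) (nat_lit 336)) (XT.lf (nat_lit 0) (nat_lit 13927202603) (nat_lit 456) (nat_lit 3968767802) (nat_lit 532) (nat_lit 10077316561) (nat_lit 190) (nat_lit 5) (nat_lit 196) (nat_lit 5) (nat_lit 197) (nat_lit 5) (nat_lit 651) (nat_lit 574) (nat_lit 335))) (XT.nd (nat_lit 78) (nat_lit 532) (nat_lit 0) (XT.lf (nat_lit 0) (nat_lit 2560479001) (nat_lit 380) (nat_lit 21527019926) (nat_lit 456) (nat_lit 4227284783) (nat_lit 185) (nat_lit 5) (nat_lit 190) (nat_lit 5) (nat_lit 191) (nat_lit 5) (nat_lit 652)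 (nat_lit 574) (nat_lit 334)) (XT.nd (nat_lit 78) (nat_lit 456) (nat_lit 0) (XT.lf (nat_lit 0) (nat_lit 1834269687) (nat_lit 456) (nat_lit 9015524490) (nat_lit 76) (nat_lit 17810743721) (nat_lit 184) (nat_lit 5) (nat_lit 190) (nat_lit 5) (nat_lit 185) (nat_lit 5) (nat_lit 653) (nat_lit 574) (nat_lit 333)) (XT.lf (nat_lit 0) (nat_lit 8010336863) (nat_lit 532) (nat_lit 20881335821) (nat_lit 76) (nat_lit 119978139) (nat_lit 178) (nat_lit 5) (nat_lit 185) (nat_lit 5) (nat_lit 179) (nat_lit 5) (nat_lit 654) (nat_lit 574) (nat_lit 332))))) (XT.nd (nat_lit 75036) (nat_lit 0) (nat_lit 23636) (XT.nd (nat_lit 74958) (nat_lit 0) (nat_lit 25308) (XT.lf (nat_lit 0) (nat_lit 14438953931) (nat_lit 532) (nat_lit 3705133728) (nat_lit 76) (nat_lit 11223117974) (nat_lit 178) (nat_lit 5) (nat_lit 185) (nat_lit 5) (nat_lit 179) (nat_lit 5) (nat_lit 655) (nat_lit 574) (nat_lit 331)) (XT.lf (nat_lit 0) (nat_lit 5477517524) (nat_lit 1748) (nat_lit 355243167) (nat_lit 1748) (nat_lit 355243167) (nat_lit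 511) (nat_lit 3) (nat_lit 534) (nat_lit 3) (nat_lit 534) (nat_lit 5) (nat_lit 575) (nat_lit 575) (nat_lit 410))) (XT.nd (nat_lit 78) (nat_lit 1672) (nat_lit 0) (XT.lf (nat_lit 76) (nat_lit 5477230514) (nat_lit 0) (nat_lit 6064788315) (nat_lit 1748) (nat_lit 948157543) (nat_lit 512) (nat_lit 5) (nat_lit 511) (nat_lit 3) (nat_lit 534) (nat_lit 5) (nat_lit 576) (nat_lit 575) (nat_lit 409)) (XT.nd (nat_lit 78) (nat_lit 1672) (nat_lit 0) (XT.lf (nat_lit 76) (nat_lit 11792342275) (nat_lit 0) (nat_lit 341538405) (nat_lit 1748) (nat_lit 472886075) (nat_lit 512) (nat_lit 5) (nat_lit 511) (nat_lit 3) (nat_lit 534) (nat_lit 5) (nat_lit 577) (nat_lit 575) (nat_lit 408)) (XT.lf (nat_lit 0) (nat_lit 72414537) (nat_lit 1748) (nat_lit 7186072631) (nat_lit 1824) (nat_lit 5465987719) (nat_lit 489) (nat_lit 5) (nat_lit 512) (nat_lit 5) (nat_lit 513) (nat_lit 5) (nat_lit 578) (nat_lit 575) (nat_lit 407)))))) (XT.nd (nat_lit 390) (nat_lit 0) (nat_lit 228) (XT.nd (nat_lit 156) (nat_lit 0) (nat_lit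 76) (XT.nd (nat_lit 78) (nat_lit 0) (nat_lit 76) (XT.lf (nat_lit 0) (nat_lit 618801113) (nat_lit 1748) (nat_lit 826780440) (nat_lit 1824) (nat_lit 11398963930) (nat_lit 489) (nat_lit 5) (nat_lit 512) (nat_lit 5) (nat_lit 513) (nat_lit 5) (nat_lit 579) (nat_lit 575) (nat_lit 406)) (XT.lf (nat_lit 0) (nat_lit 1231662023) (nat_lit 1748) (nat_lit 7267178963) (nat_lit 1824) (nat_lit 4467066611) (nat_lit 490) (nat_lit 5) (nat_lit 513) (nat_lit 5) (nat_lit 514) (nat_lit 5) (nat_lit 580) (nat_lit 575) (nat_lit 405))) (XT.nd (nat_lit 78) (nat_lit 0) (nat_lit 76) (XT.lf (nat_lit 0) (nat_lit 1861109757) (nat_lit 1748) (nat_lit 739575497) (nat_lit 1824) (nat_lit 10488926122) (nat_lit 490) (nat_lit 5) (nat_lit 513) (nat_lit 5) (nat_lit 514) (nat_lit 5) (nat_lit 581) (nat_lit 575) (nat_lit 404)) (XT.nd (nat_lit 78) (nat_lit 0) (nat_lit 0) (XT.lf (nat_lit 0) (nat_lit 2553888751) (nat_lit 1748) (nat_lit 7246744043) (nat_lit 1824) (nat_lit 3414142586) (nat_lit 491) (nat_lit 5) (nat_lit 514)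 (nat_lit 5) (nat_lit 515) (nat_lit 5) (nat_lit 582) (nat_lit 575) (nat_lit 403)) (XT.lf (nat_lit 0) (nat_lit 3272321774) (nat_lit 1748) (nat_lit 546191055) (nat_lit 1824) (nat_lit 9523694843) (nat_lit 491) (nat_lit 5) (nat_lit 514) (nat_lit 5) (nat_lit 515) (nat_lit 5) (nat_lit 583) (nat_lit 575) (nat_lit 402))))) (XT.nd (nat_lit 156) (nat_lit 0) (nat_lit 76) (XT.nd (nat_lit 78) (nat_lit 0) (nat_lit 0) (XT.lf (nat_lit 0) (nat_lit 4051360509) (nat_lit 1748) (nat_lit 7121113763) (nat_lit 1824) (nat_lit 2298790554) (nat_lit 492) (nat_lit 5) (nat_lit 515) (nat_lit 5) (nat_lit 516) (nat_lit 5) (nat_lit 584) (nat_lit 575) (nat_lit 401)) (XT.lf (nat_lit 0) (nat_lit 4864926145) (nat_lit 1748) (nat_lit 242785504) (nat_lit 1824) (nat_lit 8494813489) (nat_lit 492) (nat_lit 5) (nat_lit 515) (nat_lit 5) (nat_lit 516) (nat_lit 5) (nat_lit 585) (nat_lit 575) (nat_lit 400))) (XT.nd (nat_lit 78) (nat_lit 0) (nat_lit 0) (XT.lf (nat_lit 0) (nat_lit 5736765318) (nat_lit 1748) (nat_lit 6886340875)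 (nat_lit 1824) (nat_lit 1112465339) (nat_lit 493) (nat_lit 5) (nat_lit 516) (nat_lit 5) (nat_lit 517) (nat_lit 5) (nat_lit 586) (nat_lit 575) (nat_lit 399)) (XT.nd (nat_lit 78) (nat_lit 0) (nat_lit 0) (XT.lf (nat_lit 76) (nat_lit 177102881) (nat_lit 0) (nat_lit 6475893251) (nat_lit 1824) (nat_lit 7217744527) (nat_lit 494) (nat_lit 5) (nat_lit 493) (nat_lit 5) (nat_lit 517) (nat_lit 5) (nat_lit 587) (nat_lit 575) (nat_lit 398)) (XT.lf (nat_lit 76) (nat_lit 7468689483) (nat_lit 0) (nat_lit 155559534) (nat_lit 1824) (nat_lit 6383631086) (nat_lit 494) (nat_lit 5) (nat_lit 493) (nat_lit 5) (nat_lit 517) (nat_lit 5) (nat_lit 588) (nat_lit 575) (nat_lit 397))))))) (XT.nd (nat_lit 780) (nat_lit 5472) (nat_lit 0) (XT.nd (nat_lit 390) (nat_lit 1596) (nat_lit 0) (XT.nd (nat_lit 156) (nat_lit 0) (nat_lit 76) (XT.nd (nat_lit 78) (nat_lit 0) (nat_lit 0) (XT.lf (nat_lit 76) (nat_lit 720395019) (nat_lit 0) (nat_lit 7930748124) (nat_lit 1824) (nat_lit 5495895736) (nat_lit 495) (nat_lit 5)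 (nat_lit 494) (nat_lit 5) (nat_lit 518) (nat_lit 5) (nat_lit 589) (nat_lit 575) (nat_lit 396)) (XT.lf (nat_lit 76) (nat_lit 8206259989) (nat_lit 0) (nat_lit 1528052616) (nat_lit 1824) (nat_lit 4553954327) (nat_lit 495) (nat_lit 5) (nat_lit 494) (nat_lit 5) (nat_lit 518) (nat_lit 5) (nat_lit 590) (nat_lit 575) (nat_lit 395))) (XT.nd (nat_lit 78) (nat_lit 0) (nat_lit 0) (XT.lf (nat_lit 76) (nat_lit 1388675790) (nat_lit 0) (nat_lit 9482995993) (nat_lit 1824) (nat_lit 3559998069) (nat_lit 496) (nat_lit 5) (nat_lit 495) (nat_lit 5) (nat_lit 519) (nat_lit 5) (nat_lit 591) (nat_lit 575) (nat_lit 394)) (XT.nd (nat_lit 78) (nat_lit 0) (nat_lit 76) (XT.lf (nat_lit 76) (nat_lit 9074425801) (nat_lit 0) (nat_lit 2999381552) (nat_lit 1824) (nat_lit 2503293711) (nat_lit 496) (nat_lit 5) (nat_lit 495) (nat_lit 5) (nat_lit 519) (nat_lit 5) (nat_lit 592) (nat_lit 575) (nat_lit 393)) (XT.lf (nat_lit 76) (nat_lit 2187073779) (nat_lit 0) (nat_lit 11141926350) (nat_lit 1824) (nat_lit 1395861282)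 (nat_lit 497) (nat_lit 5) (nat_lit 496) (nat_lit 5) (nat_lit 520) (nat_lit 5) (nat_lit 593) (nat_lit 575) (nat_lit 392))))) (XT.nd (nat_lit 156) (nat_lit 0) (nat_lit 0) (XT.nd (nat_lit 78) (nat_lit 1748) (nat_lit 0) (XT.lf (nat_lit 76) (nat_lit 10078527851) (nat_lit 0) (nat_lit 4578905270) (nat_lit 1824) (nat_lit 217181901) (nat_lit 497) (nat_lit 5) (nat_lit 496) (nat_lit 5) (nat_lit 520) (nat_lit 5) (nat_lit 594) (nat_lit 575) (nat_lit 391)) (XT.lf (nat_lit 0) (nat_lit 997976505) (nat_lit 1824) (nat_lit 11912375767) (nat_lit 1900) (nat_lit 2116367778) (nat_lit 473) (nat_lit 5) (nat_lit 497) (nat_lit 5) (nat_lit 498) (nat_lit 5) (nat_lit 595) (nat_lit 575) (nat_lit 390))) (XT.nd (nat_lit 78) (nat_lit 0) (nat_lit 76) (XT.lf (nat_lit 0) (nat_lit 2288977187) (nat_lit 1824) (nat_lit 3971874150) (nat_lit 1900) (nat_lit 8919898926) (nat_lit 473) (nat_lit 5) (nat_lit 497) (nat_lit 5) (nat_lit 498) (nat_lit 5) (nat_lit 596) (nat_lit 575) (nat_lit 389)) (XT.nd (nat_lit 78) (nat_lit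 0) (nat_lit 0) (XT.lf (nat_lit 0) (nat_lit 3628371094) (nat_lit 1824) (nat_lit 11165397539) (nat_lit 1900) (nat_lit 543641708) (nat_lit 474) (nat_lit 5) (nat_lit 498) (nat_lit 5) (nat_lit 499) (nat_lit 5) (nat_lit 597) (nat_lit 575) (nat_lit 388)) (XT.lf (nat_lit 0) (nat_lit 5054857464) (nat_lit 1824) (nat_lit 3012360848) (nat_lit 1900) (nat_lit 7428779928) (nat_lit 474) (nat_lit 5) (nat_lit 498) (nat_lit 5) (nat_lit 499) (nat_lit 5) (nat_lit 598) (nat_lit 575) (nat_lit 387)))))) (XT.nd (nat_lit 390) (nat_lit 2736) (nat_lit 0) (XT.nd (nat_lit 156) (nat_lit 2812) (nat_lit 0) (XT.nd (nat_lit 78) (nat_lit 0) (nat_lit 76) (XT.lf (nat_lit 76) (nat_lit 5367595830) (nat_lit 0) (nat_lit 1169296464) (nat_lit 1900) (nat_lit 9120325927) (nat_lit 475) (nat_lit 5) (nat_lit 474) (nat_lit 5) (nat_lit 499) (nat_lit 5) (nat_lit 599) (nat_lit 575) (nat_lit 386)) (XT.lf (nat_lit 0) (nat_lit 8099294053) (nat_lit 1824) (nat_lit 1910154702) (nat_lit 76) (nat_lit 5811200005) (nat_lit 475) (nat_lit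 5) (nat_lit 499) (nat_lit 5) (nat_lit 476) (nat_lit 5) (nat_lit 600) (nat_lit 575) (nat_lit 385))) (XT.nd (nat_lit 78) (nat_lit 1064) (nat_lit 0) (XT.lf (nat_lit 0) (nat_lit 6710642732) (nat_lit 1824) (nat_lit 3026054038) (nat_lit 1900) (nat_lit 6249776750) (nat_lit 451) (nat_lit 5) (nat_lit 475) (nat_lit 5) (nat_lit 476) (nat_lit 5) (nat_lit 601) (nat_lit 575) (nat_lit 384)) (XT.nd (nat_lit 78) (nat_lit 1064) (nat_lit 0) (XT.lf (nat_lit 0) (nat_lit 11438902814) (nat_lit 1900) (nat_lit 658935350) (nat_lit 76) (nat_lit 4057136163) (nat_lit 451) (nat_lit 5) (nat_lit 476) (nat_lit 5) (nat_lit 452) (nat_lit 5) (nat_lit 602) (nat_lit 575) (nat_lit 383)) (XT.lf (nat_lit 0) (nat_lit 8211442333) (nat_lit 1064) (nat_lit 5029762656) (nat_lit 1140) (nat_lit 3084319765) (nat_lit 437) (nat_lit 5) (nat_lit 451) (nat_lit 5) (nat_lit 452) (nat_lit 5) (nat_lit 603) (nat_lit 575) (nat_lit 382))))) (XT.nd (nat_lit 234) (nat_lit 836) (nat_lit 0) (XT.nd (nat_lit 78) (nat_lit 988) (nat_lit 0) (XT.lf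 (nat_lit 0) (nat_lit 757904030) (nat_lit 912) (nat_lit 14337976716) (nat_lit 988) (nat_lit 1403279526) (nat_lit 425) (nat_lit 5) (nat_lit 437) (nat_lit 5) (nat_lit 438) (nat_lit 5) (nat_lit 604) (nat_lit 575) (nat_lit 381)) (XT.nd (nat_lit 78) (nat_lit 912) (nat_lit 0) (XT.lf (nat_lit 0) (nat_lit 388272288) (nat_lit 988) (nat_lit 6800221481) (nat_lit 76) (nat_lit 9486115411) (nat_lit 424) (nat_lit 5) (nat_lit 437) (nat_lit 5) (nat_lit 425) (nat_lit 5) (nat_lit 605) (nat_lit 575) (nat_lit 380)) (XT.lf (nat_lit 0) (nat_lit 2205874100) (nat_lit 988) (nat_lit 14519639742) (nat_lit 76) (nat_lit 127688129) (nat_lit 412) (nat_lit 5) (nat_lit 425) (nat_lit 5) (nat_lit 413) (nat_lit 5) (nat_lit 606) (nat_lit 575) (nat_lit 379)))) (XT.nd (nat_lit 78) (nat_lit 836) (nat_lit 0) (XT.lf (nat_lit 0) (nat_lit 4146461682) (nat_lit 988) (nat_lit 5346798119) (nat_lit 76) (nat_lit 7540374725) (nat_lit 412) (nat_lit 5) (nat_lit 425) (nat_lit 5) (nat_lit 413) (nat_lit 5) (nat_lit 607) (nat_lit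 575) (nat_lit 378)) (XT.nd (nat_lit 78) (nat_lit 0) (nat_lit 0) (XT.lf (nat_lit 0) (nat_lit 4056191701) (nat_lit 836) (nat_lit 2089232786) (nat_lit 912) (nat_lit 11071860547) (nat_lit 401) (nat_lit 5) (nat_lit 412) (nat_lit 5) (nat_lit 413) (nat_lit 5) (nat_lit 608) (nat_lit 575) (nat_lit 377)) (XT.lf (nat_lit 0) (nat_lit 8249272817) (nat_lit 912) (nat_lit 3726477715) (nat_lit 76) (nat_lit 5427560456) (nat_lit 401) (nat_lit 5) (nat_lit 413) (nat_lit 5) (nat_lit 402) (nat_lit 5) (nat_lit 609) (nat_lit 575) (nat_lit 376))))))))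
noncomputable def xc188 : XT := (XT.nd (nat_lit 1560) (nat_lit 6612) (nat_lit 0) (XT.nd (nat_lit 780) (nat_lit 4180) (nat_lit 0) (XT.nd (nat_lit 390) (nat_lit 2204) (nat_lit 0) (XT.nd (nat_lit 156) (nat_lit 1748) (nat_lit 0) (XT.nd (nat_lit 78) (nat_lit 0) (nat_lit 0) (XT.lf (nat_lit 0) (nat_lit 5954620437) (nat_lit 836) (nat_lit 4486526193) (nat_lit 912) (nat_lit 7150992412) (nat_lit 390) (nat_lit 5) (nat_lit 401) (nat_lit 5) (nat_lit 402) (nat_lit 5) (nat_lit 610) (nat_lit 575) (nat_lit 375)) (XT.lf (nat_lit 0) (nat_lit 12716036261) (nat_lit 912) (nat_lit 1931580361) (nat_lit 76) (nat_lit 3136344006) (nat_lit 390) (nat_lit 5) (nat_lit 402) (nat_lit 5) (nat_lit 391) (nat_lit 5) (nat_lit 611) (nat_lit 575) (nat_lit 374))) (XT.nd (nat_lit 78) (nat_lit 912) (nat_lit 0) (XT.lf (nat_lit 0) (nat_lit 8037752534) (nat_lit 836) (nat_lit 7074234467) (nat_lit 912) (nat_lit 2866120906) (nat_lit 379) (nat_lit 5) (nat_lit 390) (nat_lit 5) (nat_lit 391) (nat_lit 5) (nat_lit 612) (nat_lit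 575) (nat_lit 373)) (XT.nd (nat_lit 78) (nat_lit 76) (nat_lit 0) (XT.lf (nat_lit 0) (nat_lit 46565932) (nat_lit 836) (nat_lit 17520611839) (nat_lit 912) (nat_lit 608734460) (nat_lit 368) (nat_lit 5) (nat_lit 379) (nat_lit 5) (nat_lit 380) (nat_lit 5) (nat_lit 613) (nat_lit 575) (nat_lit 372)) (XT.lf (nat_lit 0) (nat_lit 1779367161) (nat_lit 912) (nat_lit 8073208242) (nat_lit 76) (nat_lit 8522722151) (nat_lit 367) (nat_lit 5) (nat_lit 379) (nat_lit 5) (nat_lit 368) (nat_lit 5) (nat_lit 614) (nat_lit 575) (nat_lit 371))))) (XT.nd (nat_lit 156) (nat_lit 1444) (nat_lit 0) (XT.nd (nat_lit 78) (nat_lit 0) (nat_lit 0) (XT.lf (nat_lit 0) (nat_lit 2202484417) (nat_lit 760) (nat_lit 2012810823) (nat_lit 836) (nat_lit 14363131049) (nat_lit 357) (nat_lit 5) (nat_lit 367) (nat_lit 5) (nat_lit 368) (nat_lit 5) (nat_lit 615) (nat_lit 575) (nat_lit 370)) (XT.lf (nat_lit 0) (nat_lit 6787310028) (nat_lit 836) (nat_lit 6037116854) (nat_lit 76) (nat_lit 5959443833) (nat_lit 357) (nat_lit 5) (nat_lit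 368) (nat_lit 5) (nat_lit 358) (nat_lit 5) (nat_lit 616) (nat_lit 575) (nat_lit 369))) (XT.nd (nat_lit 78) (nat_lit 684) (nat_lit 0) (XT.lf (nat_lit 0) (nat_lit 4548436875) (nat_lit 760) (nat_lit 4899290972) (nat_lit 836) (nat_lit 9544957397) (nat_lit 347) (nat_lit 5) (nat_lit 357) (nat_lit 5) (nat_lit 358) (nat_lit 5) (nat_lit 617) (nat_lit 575) (nat_lit 368)) (XT.nd (nat_lit 78) (nat_lit 684) (nat_lit 0) (XT.lf (nat_lit 0) (nat_lit 12216982120) (nat_lit 836) (nat_lit 3804715844) (nat_lit 76) (nat_lit 3182865997) (nat_lit 347) (nat_lit 5) (nat_lit 358) (nat_lit 5) (nat_lit 348) (nat_lit 5) (nat_lit 618) (nat_lit 575) (nat_lit 367)) (XT.lf (nat_lit 0) (nat_lit 7101988668) (nat_lit 684) (nat_lit 8012476204) (nat_lit 760) (nat_lit 4304758965) (nat_lit 338) (nat_lit 5) (nat_lit 347) (nat_lit 5) (nat_lit 348) (nat_lit 5) (nat_lit 619) (nat_lit 575) (nat_lit 366)))))) (XT.nd (nat_lit 390) (nat_lit 1976) (nat_lit 0) (XT.nd (nat_lit 156) (nat_lit 1368) (nat_lit 0) (XT.nd (nat_lit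 78) (nat_lit 836) (nat_lit 0) (XT.lf (nat_lit 0) (nat_lit 18090971004) (nat_lit 760) (nat_lit 1366837550) (nat_lit 76) (nat_lit 179947324) (nat_lit 338) (nat_lit 5) (nat_lit 348) (nat_lit 5) (nat_lit 339) (nat_lit 5) (nat_lit 620) (nat_lit 575) (nat_lit 365)) (XT.lf (nat_lit 0) (nat_lit 1362107000) (nat_lit 836) (nat_lit 9994659094) (nat_lit 76) (nat_lit 8501481115) (nat_lit 327) (nat_lit 5) (nat_lit 338) (nat_lit 5) (nat_lit 328) (nat_lit 5) (nat_lit 621) (nat_lit 575) (nat_lit 364))) (XT.nd (nat_lit 78) (nat_lit 684) (nat_lit 0) (XT.lf (nat_lit 0) (nat_lit 1254036086) (nat_lit 684) (nat_lit 3066319854) (nat_lit 760) (nat_lit 15762350547) (nat_lit 318) (nat_lit 5) (nat_lit 327) (nat_lit 5) (nat_lit 328) (nat_lit 5) (nat_lit 622) (nat_lit 575) (nat_lit 363)) (XT.nd (nat_lit 78) (nat_lit 684) (nat_lit 0) (XT.lf (nat_lit 0) (nat_lit 7434836877) (nat_lit 760) (nat_lit 7488921500) (nat_lit 76) (nat_lit 5385955641) (nat_lit 318) (nat_lit 5) (nat_lit 328) (nat_lit 5) (nat_lit 319)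 (nat_lit 5) (nat_lit 623) (nat_lit 575) (nat_lit 362)) (XT.lf (nat_lit 0) (nat_lit 4104922876) (nat_lit 684) (nat_lit 6548308279) (nat_lit 760) (nat_lit 9887198470) (nat_lit 309) (nat_lit 5) (nat_lit 318) (nat_lit 5) (nat_lit 319) (nat_lit 5) (nat_lit 624) (nat_lit 575) (nat_lit 361))))) (XT.nd (nat_lit 156) (nat_lit 1368) (nat_lit 0) (XT.nd (nat_lit 78) (nat_lit 608) (nat_lit 0) (XT.lf (nat_lit 0) (nat_lit 13994254887) (nat_lit 760) (nat_lit 4762167827) (nat_lit 76) (nat_lit 2018171994) (nat_lit 309) (nat_lit 5) (nat_lit 319) (nat_lit 5) (nat_lit 310) (nat_lit 5) (nat_lit 625) (nat_lit 575) (nat_lit 360)) (XT.lf (nat_lit 0) (nat_lit 7189396721) (nat_lit 608) (nat_lit 10297573996) (nat_lit 684) (nat_lit 3524775326) (nat_lit 301) (nat_lit 5) (nat_lit 309) (nat_lit 5) (nat_lit 310) (nat_lit 5) (nat_lit 626) (nat_lit 575) (nat_lit 359))) (XT.nd (nat_lit 78) (nat_lit 1368) (nat_lit 0) (XT.lf (nat_lit 0) (nat_lit 19438420453) (nat_lit 608) (nat_lit 1637965743) (nat_lit 684) (nat_lit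 176717679) (nat_lit 301) (nat_lit 5) (nat_lit 309) (nat_lit 5) (nat_lit 310) (nat_lit 5) (nat_lit 627) (nat_lit 575) (nat_lit 358)) (XT.nd (nat_lit 78) (nat_lit 608) (nat_lit 0) (XT.lf (nat_lit 0) (nat_lit 3306545941) (nat_lit 760) (nat_lit 11000570479) (nat_lit 76) (nat_lit 7189537988) (nat_lit 291) (nat_lit 5) (nat_lit 301) (nat_lit 5) (nat_lit 292) (nat_lit 5) (nat_lit 628) (nat_lit 575) (nat_lit 357)) (XT.lf (nat_lit 0) (nat_lit 1332079616) (nat_lit 608) (nat_lit 5551793811) (nat_lit 684) (nat_lit 14860644222) (nat_lit 283) (nat_lit 5) (nat_lit 291) (nat_lit 5) (nat_lit 292) (nat_lit 5) (nat_lit 629) (nat_lit 575) (nat_lit 356))))))) (XT.nd (nat_lit 780) (nat_lit 3572) (nat_lit 0) (XT.nd (nat_lit 390) (nat_lit 1748) (nat_lit 0) (XT.nd (nat_lit 156) (nat_lit 684) (nat_lit 0) (XT.nd (nat_lit 78) (nat_lit 608) (nat_lit 0) (XT.lf (nat_lit 0) (nat_lit 10624051490) (nat_lit 684) (nat_lit 7963965044) (nat_lit 76) (nat_lit 3407495888) (nat_lit 283) (nat_lit 5) (nat_lit 292) (nat_lit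 5) (nat_lit 284) (nat_lit 5) (nat_lit 630) (nat_lit 575) (nat_lit 355)) (XT.lf (nat_lit 0) (nat_lit 4752991593) (nat_lit 608) (nat_lit 9748824016) (nat_lit 684) (nat_lit 7748456175) (nat_lit 275) (nat_lit 5) (nat_lit 283) (nat_lit 5) (nat_lit 284) (nat_lit 5) (nat_lit 631) (nat_lit 575) (nat_lit 354))) (XT.nd (nat_lit 78) (nat_lit 684) (nat_lit 0) (XT.lf (nat_lit 0) (nat_lit 17826225540) (nat_lit 608) (nat_lit 679563866) (nat_lit 684) (nat_lit 4003364173) (nat_lit 275) (nat_lit 5) (nat_lit 283) (nat_lit 5) (nat_lit 284) (nat_lit 5) (nat_lit 632) (nat_lit 575) (nat_lit 353)) (XT.nd (nat_lit 78) (nat_lit 76) (nat_lit 0) (XT.lf (nat_lit 0) (nat_lit 8436727289) (nat_lit 608) (nat_lit 14258839432) (nat_lit 684) (nat_lit 75532137) (nat_lit 267) (nat_lit 5) (nat_lit 275) (nat_lit 5) (nat_lit 276) (nat_lit 5) (nat_lit 633) (nat_lit 575) (nat_lit 352)) (XT.lf (nat_lit 0) (nat_lit 3910756659) (nat_lit 684) (nat_lit 1191637809) (nat_lit 76) (nat_lit 17934749375) (nat_lit 266) (nat_lit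 5) (nat_lit 275) (nat_lit 5) (nat_lit 267) (nat_lit 5) (nat_lit 634) (nat_lit 575) (nat_lit 351))))) (XT.nd (nat_lit 156) (nat_lit 608) (nat_lit 0) (XT.nd (nat_lit 78) (nat_lit 532) (nat_lit 0) (XT.lf (nat_lit 0) (nat_lit 8079523337) (nat_lit 684) (nat_lit 10965229633) (nat_lit 76) (nat_lit 4261671813) (nat_lit 258) (nat_lit 5) (nat_lit 267) (nat_lit 5) (nat_lit 259) (nat_lit 5) (nat_lit 635) (nat_lit 575) (nat_lit 350)) (XT.lf (nat_lit 0) (nat_lit 2573886660) (nat_lit 532) (nat_lit 9811785984) (nat_lit 608) (nat_lit 11194338856) (nat_lit 251) (nat_lit 5) (nat_lit 258) (nat_lit 5) (nat_lit 259) (nat_lit 5) (nat_lit 636) (nat_lit 575) (nat_lit 349))) (XT.nd (nat_lit 78) (nat_lit 608) (nat_lit 0) (XT.lf (nat_lit 0) (nat_lit 16526527886) (nat_lit 532) (nat_lit 320506099) (nat_lit 608) (nat_lit 7010654482) (nat_lit 251) (nat_lit 5) (nat_lit 258) (nat_lit 5) (nat_lit 259) (nat_lit 5) (nat_lit 637) (nat_lit 575) (nat_lit 348)) (XT.nd (nat_lit 78) (nat_lit 76) (nat_lit 0) (XT.lf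 (nat_lit 0) (nat_lit 6637724814) (nat_lit 532) (nat_lit 14859355247) (nat_lit 608) (nat_lit 2641850053) (nat_lit 244) (nat_lit 5) (nat_lit 251) (nat_lit 5) (nat_lit 252) (nat_lit 5) (nat_lit 638) (nat_lit 575) (nat_lit 347)) (XT.lf (nat_lit 0) (nat_lit 1837784851) (nat_lit 608) (nat_lit 3459555168) (nat_lit 76) (nat_lit 19127276267) (nat_lit 243) (nat_lit 5) (nat_lit 251) (nat_lit 5) (nat_lit 244) (nat_lit 5) (nat_lit 639) (nat_lit 575) (nat_lit 346)))))) (XT.nd (nat_lit 390) (nat_lit 1976) (nat_lit 0) (XT.nd (nat_lit 156) (nat_lit 532) (nat_lit 0) (XT.nd (nat_lit 78) (nat_lit 532) (nat_lit 0) (XT.lf (nat_lit 0) (nat_lit 6468185747) (nat_lit 608) (nat_lit 13760112894) (nat_lit 76) (nat_lit 4485437609) (nat_lit 236) (nat_lit 5) (nat_lit 244) (nat_lit 5) (nat_lit 237) (nat_lit 5) (nat_lit 640) (nat_lit 575) (nat_lit 345)) (XT.lf (nat_lit 0) (nat_lit 661424717) (nat_lit 532) (nat_lit 10588244585) (nat_lit 608) (nat_lit 13757800088) (nat_lit 229) (nat_lit 5) (nat_lit 236) (nat_lit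 5) (nat_lit 237) (nat_lit 5) (nat_lit 641) (nat_lit 575) (nat_lit 344))) (XT.nd (nat_lit 78) (nat_lit 532) (nat_lit 0) (XT.lf (nat_lit 0) (nat_lit 15552152350) (nat_lit 532) (nat_lit 662743433) (nat_lit 608) (nat_lit 9090419409) (nat_lit 229) (nat_lit 5) (nat_lit 236) (nat_lit 5) (nat_lit 237) (nat_lit 5) (nat_lit 642) (nat_lit 575) (nat_lit 343)) (XT.nd (nat_lit 78) (nat_lit 76) (nat_lit 0) (XT.lf (nat_lit 0) (nat_lit 5131728351) (nat_lit 456) (nat_lit 16238294546) (nat_lit 532) (nat_lit 4237283350) (nat_lit 223) (nat_lit 5) (nat_lit 229) (nat_lit 5) (nat_lit 230) (nat_lit 5) (nat_lit 643) (nat_lit 575) (nat_lit 342)) (XT.lf (nat_lit 0) (nat_lit 769702466) (nat_lit 532) (nat_lit 5482695800) (nat_lit 76) (nat_lit 19661523790) (nat_lit 222) (nat_lit 5) (nat_lit 229) (nat_lit 5) (nat_lit 223) (nat_lit 5) (nat_lit 644) (nat_lit 575) (nat_lit 341))))) (XT.nd (nat_lit 234) (nat_lit 988) (nat_lit 0) (XT.nd (nat_lit 78) (nat_lit 456) (nat_lit 0) (XT.lf (nat_lit 0) (nat_lit 5906547336)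 (nat_lit 608) (nat_lit 16344765409) (nat_lit 76) (nat_lit 3973068380) (nat_lit 215) (nat_lit 5) (nat_lit 223) (nat_lit 5) (nat_lit 216) (nat_lit 5) (nat_lit 645) (nat_lit 575) (nat_lit 340)) (XT.nd (nat_lit 78) (nat_lit 456) (nat_lit 0) (XT.lf (nat_lit 0) (nat_lit 11220550847) (nat_lit 608) (nat_lit 964132075) (nat_lit 76) (nat_lit 14354878259) (nat_lit 215) (nat_lit 5) (nat_lit 223) (nat_lit 5) (nat_lit 216) (nat_lit 5) (nat_lit 646) (nat_lit 575) (nat_lit 339)) (XT.lf (nat_lit 0) (nat_lit 14914165776) (nat_lit 456) (nat_lit 1819559841) (nat_lit 532) (nat_lit 10125461631) (nat_lit 209) (nat_lit 5) (nat_lit 215) (nat_lit 5) (nat_lit 216) (nat_lit 5) (nat_lit 647) (nat_lit 575) (nat_lit 338)))) (XT.nd (nat_lit 78) (nat_lit 532) (nat_lit 0) (XT.lf (nat_lit 0) (nat_lit 3927072864) (nat_lit 456) (nat_lit 18515019815) (nat_lit 532) (nat_lit 4741414812) (nat_lit 203) (nat_lit 5) (nat_lit 209) (nat_lit 5) (nat_lit 210) (nat_lit 5) (nat_lit 648) (nat_lit 575) (nat_lit 337)) (XT.nd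 (nat_lit 78) (nat_lit 456) (nat_lit 0) (XT.lf (nat_lit 0) (nat_lit 829315111) (nat_lit 532) (nat_lit 7257233058) (nat_lit 76) (nat_lit 19425891908) (nat_lit 202) (nat_lit 5) (nat_lit 209) (nat_lit 5) (nat_lit 203) (nat_lit 5) (nat_lit 649) (nat_lit 575) (nat_lit 336)) (XT.lf (nat_lit 0) (nat_lit 6520737447) (nat_lit 532) (nat_lit 18718358305) (nat_lit 76) (nat_lit 2606773656) (nat_lit 196) (nat_lit 5) (nat_lit 203) (nat_lit 5) (nat_lit 197) (nat_lit 5) (nat_lit 650) (nat_lit 575) (nat_lit 335))))))))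
noncomputable def xc189 : XT := (XT.nd (nat_lit 76518) (nat_lit 0) (nat_lit 16112) (XT.nd (nat_lit 75738) (nat_lit 0) (nat_lit 23712) (XT.nd (nat_lit 75348) (nat_lit 0) (nat_lit 23560) (XT.nd (nat_lit 156) (nat_lit 912) (nat_lit 0) (XT.nd (nat_lit 78) (nat_lit 456) (nat_lit 0) (XT.lf (nat_lit 0) (nat_lit 12424773299) (nat_lit 532) (nat_lit 2306061040) (nat_lit 76) (nat_lit 13453157498) (nat_lit 196) (nat_lit 5) (nat_lit 203) (nat_lit 5) (nat_lit 197) (nat_lit 5) (nat_lit 651) (nat_lit 575) (nat_lit 334)) (XT.lf (nat_lit 0) (nat_lit 14620829380) (nat_lit 456) (nat_lit 3917272336) (nat_lit 532) (nat_lit 9988950970) (nat_lit 190) (nat_lit 5) (nat_lit 196) (nat_lit 5) (nat_lit 197) (nat_lit 5) (nat_lit 652) (nat_lit 575) (nat_lit 333))) (XT.nd (nat_lit 78) (nat_lit 532) (nat_lit 0) (XT.lf (nat_lit 0) (nat_lit 3028858907) (nat_lit 380) (nat_lit 21822570704) (nat_lit 456) (nat_lit 4023990686) (nat_lit 185) (nat_lit 5) (nat_lit 190) (nat_lit 5) (nat_lit 191) (nat_lit 5) (nat_lit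 653) (nat_lit 575) (nat_lit 332)) (XT.nd (nat_lit 78) (nat_lit 456) (nat_lit 0) (XT.lf (nat_lit 0) (nat_lit 2149449906) (nat_lit 456) (nat_lit 8783128542) (nat_lit 76) (nat_lit 18295585439) (nat_lit 184) (nat_lit 5) (nat_lit 190) (nat_lit 5) (nat_lit 185) (nat_lit 5) (nat_lit 654) (nat_lit 575) (nat_lit 331)) (XT.lf (nat_lit 0) (nat_lit 8447111611) (nat_lit 532) (nat_lit 20884314706) (nat_lit 76) (nat_lit 254911582) (nat_lit 178) (nat_lit 5) (nat_lit 185) (nat_lit 5) (nat_lit 179) (nat_lit 5) (nat_lit 655) (nat_lit 575) (nat_lit 330))))) (XT.nd (nat_lit 156) (nat_lit 1748) (nat_lit 0) (XT.nd (nat_lit 78) (nat_lit 0) (nat_lit 0) (XT.lf (nat_lit 0) (nat_lit 6026070569) (nat_lit 1748) (nat_lit 138435419) (nat_lit 1748) (nat_lit 138435419) (nat_lit 511) (nat_lit 3) (nat_lit 534) (nat_lit 3) (nat_lit 534) (nat_lit 5) (nat_lit 576) (nat_lit 576) (nat_lit 408)) (XT.lf (nat_lit 76) (nat_lit 6031654129) (nat_lit 0) (nat_lit 6604883124) (nat_lit 1748) (nat_lit 86085803) (nat_lit 512)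 (nat_lit 5) (nat_lit 511) (nat_lit 3) (nat_lit 534) (nat_lit 5) (nat_lit 577) (nat_lit 576) (nat_lit 407))) (XT.nd (nat_lit 78) (nat_lit 0) (nat_lit 76) (XT.lf (nat_lit 0) (nat_lit 376413560) (nat_lit 1748) (nat_lit 380016975) (nat_lit 1824) (nat_lit 12085405513) (nat_lit 488) (nat_lit 5) (nat_lit 511) (nat_lit 3) (nat_lit 512) (nat_lit 5) (nat_lit 578) (nat_lit 576) (nat_lit 406)) (XT.nd (nat_lit 78) (nat_lit 0) (nat_lit 0) (XT.lf (nat_lit 0) (nat_lit 909908582) (nat_lit 1748) (nat_lit 6865765726) (nat_lit 1824) (nat_lit 5186490682) (nat_lit 489) (nat_lit 5) (nat_lit 512) (nat_lit 5) (nat_lit 513) (nat_lit 5) (nat_lit 579) (nat_lit 576) (nat_lit 405)) (XT.lf (nat_lit 0) (nat_lit 1450829836) (nat_lit 1748) (nat_lit 388386287) (nat_lit 1824) (nat_lit 11245750276) (nat_lit 489) (nat_lit 5) (nat_lit 512) (nat_lit 5) (nat_lit 513) (nat_lit 5) (nat_lit 580) (nat_lit 576) (nat_lit 404)))))) (XT.nd (nat_lit 390) (nat_lit 0) (nat_lit 152) (XT.nd (nat_lit 156) (nat_lit 0) (nat_lit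 76) (XT.nd (nat_lit 78) (nat_lit 0) (nat_lit 0) (XT.lf (nat_lit 0) (nat_lit 2060508456) (nat_lit 1748) (nat_lit 6942077841) (nat_lit 1824) (nat_lit 4206479756) (nat_lit 490) (nat_lit 5) (nat_lit 513) (nat_lit 5) (nat_lit 514) (nat_lit 5) (nat_lit 581) (nat_lit 576) (nat_lit 403)) (XT.lf (nat_lit 0) (nat_lit 2686776259) (nat_lit 1748) (nat_lit 293146711) (nat_lit 1824) (nat_lit 10355637794) (nat_lit 490) (nat_lit 5) (nat_lit 513) (nat_lit 5) (nat_lit 514) (nat_lit 5) (nat_lit 582) (nat_lit 576) (nat_lit 402))) (XT.nd (nat_lit 78) (nat_lit 0) (nat_lit 0) (XT.lf (nat_lit 0) (nat_lit 3378862792) (nat_lit 1748) (nat_lit 6915838083) (nat_lit 1824) (nat_lit 3168819585) (nat_lit 491) (nat_lit 5) (nat_lit 514) (nat_lit 5) (nat_lit 515) (nat_lit 5) (nat_lit 583) (nat_lit 576) (nat_lit 401)) (XT.nd (nat_lit 78) (nat_lit 0) (nat_lit 76) (XT.lf (nat_lit 0) (nat_lit 4096490038) (nat_lit 1748) (nat_lit 90604249) (nat_lit 1824) (nat_lit 9406712021) (nat_lit 491) (nat_lit 5) (nat_lit 514)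 (nat_lit 5) (nat_lit 515) (nat_lit 5) (nat_lit 584) (nat_lit 576) (nat_lit 400)) (XT.lf (nat_lit 0) (nat_lit 4877401517) (nat_lit 1748) (nat_lit 6783247692) (nat_lit 1824) (nat_lit 2065070949) (nat_lit 492) (nat_lit 5) (nat_lit 515) (nat_lit 5) (nat_lit 516) (nat_lit 5) (nat_lit 585) (nat_lit 576) (nat_lit 399))))) (XT.nd (nat_lit 156) (nat_lit 0) (nat_lit 76) (XT.nd (nat_lit 78) (nat_lit 0) (nat_lit 76) (XT.lf (nat_lit 76) (nat_lit 226196317) (nat_lit 0) (nat_lit 5467902651) (nat_lit 1824) (nat_lit 8165770865) (nat_lit 493) (nat_lit 5) (nat_lit 492) (nat_lit 5) (nat_lit 516) (nat_lit 5) (nat_lit 586) (nat_lit 576) (nat_lit 398)) (XT.lf (nat_lit 0) (nat_lit 6568989804) (nat_lit 1748) (nat_lit 6540213279) (nat_lit 1824) (nat_lit 886663115) (nat_lit 493) (nat_lit 5) (nat_lit 516) (nat_lit 5) (nat_lit 517) (nat_lit 5) (nat_lit 587) (nat_lit 576) (nat_lit 397))) (XT.nd (nat_lit 78) (nat_lit 0) (nat_lit 0) (XT.lf (nat_lit 76) (nat_lit 661316099) (nat_lit 0) (nat_lit 6831281555)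 (nat_lit 1824) (nat_lit 6641361317) (nat_lit 494) (nat_lit 5) (nat_lit 493) (nat_lit 5) (nat_lit 517) (nat_lit 5) (nat_lit 588) (nat_lit 576) (nat_lit 396)) (XT.nd (nat_lit 78) (nat_lit 0) (nat_lit 76) (XT.lf (nat_lit 76) (nat_lit 8089309509) (nat_lit 0) (nat_lit 380112331) (nat_lit 1824) (nat_lit 5804697727) (nat_lit 494) (nat_lit 5) (nat_lit 493) (nat_lit 5) (nat_lit 517) (nat_lit 5) (nat_lit 589) (nat_lit 576) (nat_lit 395)) (XT.lf (nat_lit 76) (nat_lit 1218203709) (nat_lit 0) (nat_lit 8286797029) (nat_lit 1824) (nat_lit 4911299105) (nat_lit 495) (nat_lit 5) (nat_lit 494) (nat_lit 5) (nat_lit 518) (nat_lit 5) (nat_lit 590) (nat_lit 576) (nat_lit 394))))))) (XT.nd (nat_lit 780) (nat_lit 6232) (nat_lit 0) (XT.nd (nat_lit 390) (nat_lit 0) (nat_lit 76) (XT.nd (nat_lit 156) (nat_lit 1672) (nat_lit 0) (XT.nd (nat_lit 78) (nat_lit 0) (nat_lit 76) (XT.lf (nat_lit 76) (nat_lit 8844307532) (nat_lit 0) (nat_lit 1752176357) (nat_lit 1824) (nat_lit 3964136801) (nat_lit 495) (nat_lit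 5) (nat_lit 494) (nat_lit 5) (nat_lit 518) (nat_lit 5) (nat_lit 591) (nat_lit 576) (nat_lit 393)) (XT.lf (nat_lit 76) (nat_lit 1901825556) (nat_lit 0) (nat_lit 9843596043) (nat_lit 1824) (nat_lit 2961694656) (nat_lit 496) (nat_lit 5) (nat_lit 495) (nat_lit 5) (nat_lit 519) (nat_lit 5) (nat_lit 592) (nat_lit 576) (nat_lit 392))) (XT.nd (nat_lit 78) (nat_lit 1748) (nat_lit 0) (XT.lf (nat_lit 76) (nat_lit 9731773385) (nat_lit 0) (nat_lit 3226957546) (nat_lit 1824) (nat_lit 1896983728) (nat_lit 496) (nat_lit 5) (nat_lit 495) (nat_lit 5) (nat_lit 519) (nat_lit 5) (nat_lit 593) (nat_lit 576) (nat_lit 391)) (XT.nd (nat_lit 78) (nat_lit 1824) (nat_lit 0) (XT.lf (nat_lit 76) (nat_lit 2717467978) (nat_lit 0) (nat_lit 11511035881) (nat_lit 1824) (nat_lit 778137995) (nat_lit 497) (nat_lit 5) (nat_lit 496) (nat_lit 5) (nat_lit 520) (nat_lit 5) (nat_lit 594) (nat_lit 576) (nat_lit 390)) (XT.lf (nat_lit 0) (nat_lit 406059044) (nat_lit 1824) (nat_lit 4405102406) (nat_lit 1900) (nat_lit 10348425007)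 (nat_lit 472) (nat_lit 5) (nat_lit 496) (nat_lit 5) (nat_lit 497) (nat_lit 5) (nat_lit 595) (nat_lit 576) (nat_lit 389))))) (XT.nd (nat_lit 156) (nat_lit 0) (nat_lit 76) (XT.nd (nat_lit 78) (nat_lit 0) (nat_lit 0) (XT.lf (nat_lit 0) (nat_lit 1632632513) (nat_lit 1824) (nat_lit 11655117357) (nat_lit 1900) (nat_lit 2027155703) (nat_lit 473) (nat_lit 5) (nat_lit 497) (nat_lit 5) (nat_lit 498) (nat_lit 5) (nat_lit 596) (nat_lit 576) (nat_lit 388)) (XT.lf (nat_lit 0) (nat_lit 2937400337) (nat_lit 1824) (nat_lit 3565521509) (nat_lit 1900) (nat_lit 8969336678) (nat_lit 473) (nat_lit 5) (nat_lit 497) (nat_lit 5) (nat_lit 498) (nat_lit 5) (nat_lit 597) (nat_lit 576) (nat_lit 387))) (XT.nd (nat_lit 78) (nat_lit 0) (nat_lit 0) (XT.lf (nat_lit 0) (nat_lit 4294175839) (nat_lit 1824) (nat_lit 10893456268) (nat_lit 1900) (nat_lit 444608880) (nat_lit 474) (nat_lit 5) (nat_lit 498) (nat_lit 5) (nat_lit 499) (nat_lit 5) (nat_lit 598) (nat_lit 576) (nat_lit 386)) (XT.nd (nat_lit 78) (nat_lit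 0) (nat_lit 0) (XT.lf (nat_lit 0) (nat_lit 5737559832) (nat_lit 1824) (nat_lit 2587069613) (nat_lit 1900) (nat_lit 7469604877) (nat_lit 474) (nat_lit 5) (nat_lit 498) (nat_lit 5) (nat_lit 499) (nat_lit 5) (nat_lit 599) (nat_lit 576) (nat_lit 385)) (XT.lf (nat_lit 76) (nat_lit 5957291867) (nat_lit 0) (nat_lit 1283671165) (nat_lit 1900) (nat_lit 8717882131) (nat_lit 475) (nat_lit 5) (nat_lit 474) (nat_lit 5) (nat_lit 499) (nat_lit 5) (nat_lit 600) (nat_lit 576) (nat_lit 384)))))) (XT.nd (nat_lit 390) (nat_lit 2660) (nat_lit 0) (XT.nd (nat_lit 156) (nat_lit 1976) (nat_lit 0) (XT.nd (nat_lit 78) (nat_lit 1824) (nat_lit 0) (XT.lf (nat_lit 0) (nat_lit 8822791829) (nat_lit 1824) (nat_lit 1463600637) (nat_lit 76) (nat_lit 5839389262) (nat_lit 475) (nat_lit 5) (nat_lit 499) (nat_lit 5) (nat_lit 476) (nat_lit 5) (nat_lit 601) (nat_lit 576) (nat_lit 383)) (XT.lf (nat_lit 0) (nat_lit 7326423553) (nat_lit 1824) (nat_lit 3158635669) (nat_lit 1900) (nat_lit 5810022406) (nat_lit 451) (nat_lit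 5) (nat_lit 475) (nat_lit 5) (nat_lit 476) (nat_lit 5) (nat_lit 602) (nat_lit 576) (nat_lit 382))) (XT.nd (nat_lit 78) (nat_lit 1976) (nat_lit 0) (XT.lf (nat_lit 0) (nat_lit 12209995235) (nat_lit 1900) (nat_lit 188626612) (nat_lit 76) (nat_lit 4068557844) (nat_lit 451) (nat_lit 5) (nat_lit 476) (nat_lit 5) (nat_lit 452) (nat_lit 5) (nat_lit 603) (nat_lit 576) (nat_lit 381)) (XT.nd (nat_lit 78) (nat_lit 912) (nat_lit 0) (XT.lf (nat_lit 0) (nat_lit 8855977787) (nat_lit 1064) (nat_lit 5184850521) (nat_lit 1140) (nat_lit 2600464060) (nat_lit 437) (nat_lit 5) (nat_lit 451) (nat_lit 5) (nat_lit 452) (nat_lit 5) (nat_lit 604) (nat_lit 576) (nat_lit 380)) (XT.lf (nat_lit 0) (nat_lit 1261232485) (nat_lit 912) (nat_lit 14663701496) (nat_lit 988) (nat_lit 893620806) (nat_lit 425) (nat_lit 5) (nat_lit 437) (nat_lit 5) (nat_lit 438) (nat_lit 5) (nat_lit 605) (nat_lit 576) (nat_lit 379))))) (XT.nd (nat_lit 234) (nat_lit 1672) (nat_lit 0) (XT.nd (nat_lit 78) (nat_lit 912) (nat_lit 0) (XT.lf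 (nat_lit 0) (nat_lit 916304361) (nat_lit 988) (nat_lit 6450669242) (nat_lit 76) (nat_lit 9630678236) (nat_lit 424) (nat_lit 5) (nat_lit 437) (nat_lit 5) (nat_lit 425) (nat_lit 5) (nat_lit 606) (nat_lit 576) (nat_lit 378)) (XT.nd (nat_lit 78) (nat_lit 0) (nat_lit 0) (XT.lf (nat_lit 0) (nat_lit 2762988518) (nat_lit 988) (nat_lit 14317162850) (nat_lit 76) (nat_lit 99811378) (nat_lit 412) (nat_lit 5) (nat_lit 425) (nat_lit 5) (nat_lit 413) (nat_lit 5) (nat_lit 607) (nat_lit 576) (nat_lit 377)) (XT.lf (nat_lit 0) (nat_lit 4732329088) (nat_lit 988) (nat_lit 4970528506) (nat_lit 76) (nat_lit 7661348382) (nat_lit 412) (nat_lit 5) (nat_lit 425) (nat_lit 5) (nat_lit 413) (nat_lit 5) (nat_lit 608) (nat_lit 576) (nat_lit 376)))) (XT.nd (nat_lit 78) (nat_lit 836) (nat_lit 0) (XT.lf (nat_lit 0) (nat_lit 4617342127) (nat_lit 836) (nat_lit 2147184141) (nat_lit 912) (nat_lit 10787138958) (nat_lit 401) (nat_lit 5) (nat_lit 412) (nat_lit 5) (nat_lit 413) (nat_lit 5) (nat_lit 609) (nat_lit 576)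 (nat_lit 375)) (XT.nd (nat_lit 78) (nat_lit 836) (nat_lit 0) (XT.lf (nat_lit 0) (nat_lit 8900619377) (nat_lit 912) (nat_lit 3320519950) (nat_lit 76) (nat_lit 5520469832) (nat_lit 401) (nat_lit 5) (nat_lit 413) (nat_lit 5) (nat_lit 402) (nat_lit 5) (nat_lit 610) (nat_lit 576) (nat_lit 374)) (XT.lf (nat_lit 0) (nat_lit 6551039065) (nat_lit 836) (nat_lit 4578854228) (nat_lit 912) (nat_lit 6804450029) (nat_lit 390) (nat_lit 5) (nat_lit 401) (nat_lit 5) (nat_lit 402) (nat_lit 5) (nat_lit 611) (nat_lit 576) (nat_lit 373))))))))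
noncomputable def xc190 : XT := (XT.nd (nat_lit 1560) (nat_lit 6612) (nat_lit 0) (XT.nd (nat_lit 780) (nat_lit 4180) (nat_lit 0) (XT.nd (nat_lit 390) (nat_lit 1444) (nat_lit 0) (XT.nd (nat_lit 156) (nat_lit 1672) (nat_lit 0) (XT.nd (nat_lit 78) (nat_lit 836) (nat_lit 0) (XT.lf (nat_lit 0) (nat_lit 13440853913) (nat_lit 912) (nat_lit 1492779041) (nat_lit 76) (nat_lit 3196557706) (nat_lit 390) (nat_lit 5) (nat_lit 402) (nat_lit 5) (nat_lit 391) (nat_lit 5) (nat_lit 612) (nat_lit 576) (nat_lit 372)) (XT.lf (nat_lit 0) (nat_lit 8672799505) (nat_lit 836) (nat_lit 7205778150) (nat_lit 912) (nat_lit 2449766919) (nat_lit 379) (nat_lit 5) (nat_lit 390) (nat_lit 5) (nat_lit 391) (nat_lit 5) (nat_lit 613) (nat_lit 576) (nat_lit 371))) (XT.nd (nat_lit 78) (nat_lit 836) (nat_lit 0) (XT.lf (nat_lit 0) (nat_lit 527868849) (nat_lit 836) (nat_lit 17849080640) (nat_lit 912) (nat_lit 153274704) (nat_lit 368) (nat_lit 5) (nat_lit 379) (nat_lit 5) (nat_lit 380) (nat_lit 5) (nat_lit 614) (nat_lit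 576) (nat_lit 370)) (XT.nd (nat_lit 78) (nat_lit 760) (nat_lit 0) (XT.lf (nat_lit 0) (nat_lit 2267406793) (nat_lit 912) (nat_lit 7757670753) (nat_lit 76) (nat_lit 8708640660) (nat_lit 367) (nat_lit 5) (nat_lit 379) (nat_lit 5) (nat_lit 368) (nat_lit 5) (nat_lit 615) (nat_lit 576) (nat_lit 369)) (XT.lf (nat_lit 0) (nat_lit 2720397591) (nat_lit 760) (nat_lit 2025860866) (nat_lit 836) (nat_lit 14194767669) (nat_lit 357) (nat_lit 5) (nat_lit 367) (nat_lit 5) (nat_lit 368) (nat_lit 5) (nat_lit 616) (nat_lit 576) (nat_lit 368))))) (XT.nd (nat_lit 156) (nat_lit 684) (nat_lit 0) (XT.nd (nat_lit 78) (nat_lit 760) (nat_lit 0) (XT.lf (nat_lit 0) (nat_lit 7361128731) (nat_lit 836) (nat_lit 5684667492) (nat_lit 76) (nat_lit 6104955611) (nat_lit 357) (nat_lit 5) (nat_lit 368) (nat_lit 5) (nat_lit 358) (nat_lit 5) (nat_lit 617) (nat_lit 576) (nat_lit 367)) (XT.lf (nat_lit 0) (nat_lit 5109484209) (nat_lit 760) (nat_lit 4959733102) (nat_lit 836) (nat_lit 9294636777) (nat_lit 347) (nat_lit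 5) (nat_lit 357) (nat_lit 5) (nat_lit 358) (nat_lit 5) (nat_lit 618) (nat_lit 576) (nat_lit 366))) (XT.nd (nat_lit 78) (nat_lit 684) (nat_lit 0) (XT.lf (nat_lit 0) (nat_lit 12885614573) (nat_lit 836) (nat_lit 3411673202) (nat_lit 76) (nat_lit 3282848118) (nat_lit 347) (nat_lit 5) (nat_lit 358) (nat_lit 5) (nat_lit 348) (nat_lit 5) (nat_lit 619) (nat_lit 576) (nat_lit 365)) (XT.nd (nat_lit 78) (nat_lit 0) (nat_lit 0) (XT.lf (nat_lit 0) (nat_lit 7710078974) (nat_lit 684) (nat_lit 8125674448) (nat_lit 760) (nat_lit 3963442071) (nat_lit 338) (nat_lit 5) (nat_lit 347) (nat_lit 5) (nat_lit 348) (nat_lit 5) (nat_lit 620) (nat_lit 576) (nat_lit 364)) (XT.lf (nat_lit 0) (nat_lit 18863873503) (nat_lit 760) (nat_lit 929313649) (nat_lit 76) (nat_lit 229069990) (nat_lit 338) (nat_lit 5) (nat_lit 348) (nat_lit 5) (nat_lit 339) (nat_lit 5) (nat_lit 621) (nat_lit 576) (nat_lit 363)))))) (XT.nd (nat_lit 390) (nat_lit 1976) (nat_lit 0) (XT.nd (nat_lit 156) (nat_lit 684) (nat_lit 0) (XT.nd (nat_lit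 78) (nat_lit 684) (nat_lit 0) (XT.lf (nat_lit 0) (nat_lit 1798090121) (nat_lit 836) (nat_lit 9727287023) (nat_lit 76) (nat_lit 8721829248) (nat_lit 327) (nat_lit 5) (nat_lit 338) (nat_lit 5) (nat_lit 328) (nat_lit 5) (nat_lit 622) (nat_lit 576) (nat_lit 362)) (XT.lf (nat_lit 0) (nat_lit 1743307947) (nat_lit 684) (nat_lit 3067195400) (nat_lit 760) (nat_lit 15665752128) (nat_lit 318) (nat_lit 5) (nat_lit 327) (nat_lit 5) (nat_lit 328) (nat_lit 5) (nat_lit 623) (nat_lit 576) (nat_lit 361))) (XT.nd (nat_lit 78) (nat_lit 684) (nat_lit 0) (XT.lf (nat_lit 0) (nat_lit 7979742218) (nat_lit 760) (nat_lit 7176049152) (nat_lit 76) (nat_lit 5552163016) (nat_lit 318) (nat_lit 5) (nat_lit 328) (nat_lit 5) (nat_lit 319) (nat_lit 5) (nat_lit 624) (nat_lit 576) (nat_lit 360)) (XT.nd (nat_lit 78) (nat_lit 0) (nat_lit 0) (XT.lf (nat_lit 0) (nat_lit 4646628356) (nat_lit 684) (nat_lit 6611091303) (nat_lit 760) (nat_lit 9685660924) (nat_lit 309) (nat_lit 5) (nat_lit 318) (nat_lit 5) (nat_lit 319)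 (nat_lit 5) (nat_lit 625) (nat_lit 576) (nat_lit 359)) (XT.lf (nat_lit 0) (nat_lit 14658322897) (nat_lit 760) (nat_lit 4399546509) (nat_lit 76) (nat_lit 2124504951) (nat_lit 309) (nat_lit 5) (nat_lit 319) (nat_lit 5) (nat_lit 310) (nat_lit 5) (nat_lit 626) (nat_lit 576) (nat_lit 358))))) (XT.nd (nat_lit 156) (nat_lit 1292) (nat_lit 0) (XT.nd (nat_lit 78) (nat_lit 76) (nat_lit 0) (XT.lf (nat_lit 0) (nat_lit 7788037061) (nat_lit 608) (nat_lit 10428276187) (nat_lit 684) (nat_lit 3208047627) (nat_lit 301) (nat_lit 5) (nat_lit 309) (nat_lit 5) (nat_lit 310) (nat_lit 5) (nat_lit 627) (nat_lit 576) (nat_lit 357)) (XT.lf (nat_lit 0) (nat_lit 196763674) (nat_lit 684) (nat_lit 1398867183) (nat_lit 76) (nat_lit 20075038531) (nat_lit 300) (nat_lit 5) (nat_lit 309) (nat_lit 5) (nat_lit 301) (nat_lit 5) (nat_lit 628) (nat_lit 576) (nat_lit 356))) (XT.nd (nat_lit 78) (nat_lit 608) (nat_lit 0) (XT.lf (nat_lit 0) (nat_lit 3743395818) (nat_lit 760) (nat_lit 10765683175) (nat_lit 76) (nat_lit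 7410067716) (nat_lit 291) (nat_lit 5) (nat_lit 301) (nat_lit 5) (nat_lit 292) (nat_lit 5) (nat_lit 629) (nat_lit 576) (nat_lit 355)) (XT.nd (nat_lit 78) (nat_lit 0) (nat_lit 0) (XT.lf (nat_lit 0) (nat_lit 1810627167) (nat_lit 608) (nat_lit 5577307760) (nat_lit 684) (nat_lit 14784119503) (nat_lit 283) (nat_lit 5) (nat_lit 291) (nat_lit 5) (nat_lit 292) (nat_lit 5) (nat_lit 630) (nat_lit 576) (nat_lit 354)) (XT.lf (nat_lit 0) (nat_lit 11196276928) (nat_lit 684) (nat_lit 7673534281) (nat_lit 76) (nat_lit 3558391190) (nat_lit 283) (nat_lit 5) (nat_lit 292) (nat_lit 5) (nat_lit 284) (nat_lit 5) (nat_lit 631) (nat_lit 576) (nat_lit 353))))))) (XT.nd (nat_lit 780) (nat_lit 3040) (nat_lit 0) (XT.nd (nat_lit 390) (nat_lit 1672) (nat_lit 0) (XT.nd (nat_lit 156) (nat_lit 1292) (nat_lit 0) (XT.nd (nat_lit 78) (nat_lit 0) (nat_lit 0) (XT.lf (nat_lit 0) (nat_lit 5294802870) (nat_lit 608) (nat_lit 9852640254) (nat_lit 684) (nat_lit 7540697385) (nat_lit 275) (nat_lit 5) (nat_lit 283) (nat_lit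 5) (nat_lit 284) (nat_lit 5) (nat_lit 632) (nat_lit 576) (nat_lit 352)) (XT.lf (nat_lit 0) (nat_lit 18620741663) (nat_lit 608) (nat_lit 603782357) (nat_lit 684) (nat_lit 3727815856) (nat_lit 275) (nat_lit 5) (nat_lit 283) (nat_lit 5) (nat_lit 284) (nat_lit 5) (nat_lit 633) (nat_lit 576) (nat_lit 351))) (XT.nd (nat_lit 78) (nat_lit 608) (nat_lit 0) (XT.lf (nat_lit 0) (nat_lit 271495932) (nat_lit 684) (nat_lit 14174432488) (nat_lit 76) (nat_lit 8773628404) (nat_lit 266) (nat_lit 5) (nat_lit 275) (nat_lit 5) (nat_lit 267) (nat_lit 5) (nat_lit 634) (nat_lit 576) (nat_lit 350)) (XT.nd (nat_lit 78) (nat_lit 608) (nat_lit 0) (XT.lf (nat_lit 0) (nat_lit 4329685795) (nat_lit 684) (nat_lit 778091840) (nat_lit 76) (nat_lit 18383271815) (nat_lit 266) (nat_lit 5) (nat_lit 275) (nat_lit 5) (nat_lit 267) (nat_lit 5) (nat_lit 635) (nat_lit 576) (nat_lit 349)) (XT.lf (nat_lit 0) (nat_lit 8578602198) (nat_lit 684) (nat_lit 10743907352) (nat_lit 76) (nat_lit 4443271421) (nat_lit 258) (nat_lit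 5) (nat_lit 267) (nat_lit 5) (nat_lit 259) (nat_lit 5) (nat_lit 636) (nat_lit 576) (nat_lit 348))))) (XT.nd (nat_lit 156) (nat_lit 1140) (nat_lit 0) (XT.nd (nat_lit 78) (nat_lit 0) (nat_lit 0) (XT.lf (nat_lit 0) (nat_lit 3063092405) (nat_lit 532) (nat_lit 9904006687) (nat_lit 608) (nat_lit 11077816280) (nat_lit 251) (nat_lit 5) (nat_lit 258) (nat_lit 5) (nat_lit 259) (nat_lit 5) (nat_lit 637) (nat_lit 576) (nat_lit 347)) (XT.lf (nat_lit 0) (nat_lit 17286203554) (nat_lit 532) (nat_lit 224940714) (nat_lit 608) (nat_lit 6817132912) (nat_lit 251) (nat_lit 5) (nat_lit 258) (nat_lit 5) (nat_lit 259) (nat_lit 5) (nat_lit 638) (nat_lit 576) (nat_lit 346))) (XT.nd (nat_lit 78) (nat_lit 608) (nat_lit 0) (XT.lf (nat_lit 0) (nat_lit 7202665226) (nat_lit 532) (nat_lit 15048566098) (nat_lit 608) (nat_lit 2363971960) (nat_lit 244) (nat_lit 5) (nat_lit 251) (nat_lit 5) (nat_lit 252) (nat_lit 5) (nat_lit 639) (nat_lit 576) (nat_lit 345)) (XT.nd (nat_lit 78) (nat_lit 532) (nat_lit 0) (XT.lf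 (nat_lit 0) (nat_lit 2194518692) (nat_lit 608) (nat_lit 3100761833) (nat_lit 76) (nat_lit 19611408110) (nat_lit 243) (nat_lit 5) (nat_lit 251) (nat_lit 5) (nat_lit 244) (nat_lit 5) (nat_lit 640) (nat_lit 576) (nat_lit 344)) (XT.lf (nat_lit 0) (nat_lit 6914719781) (nat_lit 608) (nat_lit 13604502876) (nat_lit 76) (nat_lit 4682424897) (nat_lit 236) (nat_lit 5) (nat_lit 244) (nat_lit 5) (nat_lit 237) (nat_lit 5) (nat_lit 641) (nat_lit 576) (nat_lit 343)))))) (XT.nd (nat_lit 390) (nat_lit 1444) (nat_lit 0) (XT.nd (nat_lit 156) (nat_lit 1064) (nat_lit 0) (XT.nd (nat_lit 78) (nat_lit 0) (nat_lit 0) (XT.lf (nat_lit 0) (nat_lit 1102631197) (nat_lit 532) (nat_lit 10685761502) (nat_lit 608) (nat_lit 13712931857) (nat_lit 229) (nat_lit 5) (nat_lit 236) (nat_lit 5) (nat_lit 237) (nat_lit 5) (nat_lit 642) (nat_lit 576) (nat_lit 342)) (XT.lf (nat_lit 0) (nat_lit 16282781657) (nat_lit 532) (nat_lit 563990484) (nat_lit 608) (nat_lit 8958478549) (nat_lit 229) (nat_lit 5) (nat_lit 236) (nat_lit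 5) (nat_lit 237) (nat_lit 5) (nat_lit 643) (nat_lit 576) (nat_lit 341))) (XT.nd (nat_lit 78) (nat_lit 608) (nat_lit 0) (XT.lf (nat_lit 0) (nat_lit 5656596506) (nat_lit 456) (nat_lit 16445828730) (nat_lit 532) (nat_lit 4010908237) (nat_lit 223) (nat_lit 5) (nat_lit 229) (nat_lit 5) (nat_lit 230) (nat_lit 5) (nat_lit 644) (nat_lit 576) (nat_lit 340)) (XT.nd (nat_lit 78) (nat_lit 532) (nat_lit 0) (XT.lf (nat_lit 0) (nat_lit 1086116491) (nat_lit 532) (nat_lit 5174376692) (nat_lit 76) (nat_lit 20165668786) (nat_lit 222) (nat_lit 5) (nat_lit 229) (nat_lit 5) (nat_lit 223) (nat_lit 5) (nat_lit 645) (nat_lit 576) (nat_lit 339)) (XT.lf (nat_lit 0) (nat_lit 6323254111) (nat_lit 608) (nat_lit 16251225776) (nat_lit 76) (nat_lit 4168399572) (nat_lit 215) (nat_lit 5) (nat_lit 223) (nat_lit 5) (nat_lit 216) (nat_lit 5) (nat_lit 646) (nat_lit 576) (nat_lit 338))))) (XT.nd (nat_lit 234) (nat_lit 532) (nat_lit 0) (XT.nd (nat_lit 78) (nat_lit 912) (nat_lit 0) (XT.lf (nat_lit 0) (nat_lit 11737683264)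 (nat_lit 608) (nat_lit 571223597) (nat_lit 76) (nat_lit 14755573691) (nat_lit 215) (nat_lit 5) (nat_lit 223) (nat_lit 5) (nat_lit 216) (nat_lit 5) (nat_lit 647) (nat_lit 576) (nat_lit 337)) (XT.nd (nat_lit 78) (nat_lit 456) (nat_lit 0) (XT.lf (nat_lit 0) (nat_lit 15621928428) (nat_lit 456) (nat_lit 1736112079) (nat_lit 532) (nat_lit 10032520597) (nat_lit 209) (nat_lit 5) (nat_lit 215) (nat_lit 5) (nat_lit 216) (nat_lit 5) (nat_lit 648) (nat_lit 576) (nat_lit 336)) (XT.lf (nat_lit 0) (nat_lit 4417398426) (nat_lit 456) (nat_lit 18760933654) (nat_lit 532) (nat_lit 4543080863) (nat_lit 203) (nat_lit 5) (nat_lit 209) (nat_lit 5) (nat_lit 210) (nat_lit 5) (nat_lit 649) (nat_lit 576) (nat_lit 335)))) (XT.nd (nat_lit 78) (nat_lit 456) (nat_lit 0) (XT.lf (nat_lit 0) (nat_lit 1129545893) (nat_lit 532) (nat_lit 6994882230) (nat_lit 76) (nat_lit 19932571768) (nat_lit 202) (nat_lit 5) (nat_lit 209) (nat_lit 5) (nat_lit 203) (nat_lit 5) (nat_lit 650) (nat_lit 576) (nat_lit 334)) (XT.nd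 (nat_lit 78) (nat_lit 0) (nat_lit 0) (XT.lf (nat_lit 0) (nat_lit 6932669106) (nat_lit 532) (nat_lit 18683086631) (nat_lit 76) (nat_lit 2781384939) (nat_lit 196) (nat_lit 5) (nat_lit 203) (nat_lit 5) (nat_lit 197) (nat_lit 5) (nat_lit 651) (nat_lit 576) (nat_lit 333)) (XT.lf (nat_lit 0) (nat_lit 12949265736) (nat_lit 532) (nat_lit 1950575555) (nat_lit 76) (nat_lit 13842294972) (nat_lit 196) (nat_lit 5) (nat_lit 203) (nat_lit 5) (nat_lit 197) (nat_lit 5) (nat_lit 652) (nat_lit 576) (nat_lit 332))))))))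
noncomputable def xc191 : XT := (XT.nd (nat_lit 76596) (nat_lit 0) (nat_lit 14820) (XT.nd (nat_lit 75816) (nat_lit 0) (nat_lit 23332) (XT.nd (nat_lit 75426) (nat_lit 0) (nat_lit 23104) (XT.nd (nat_lit 156) (nat_lit 76) (nat_lit 0) (XT.nd (nat_lit 78) (nat_lit 380) (nat_lit 0) (XT.lf (nat_lit 0) (nat_lit 15312210524) (nat_lit 456) (nat_lit 3869828835) (nat_lit 532) (nat_lit 9910075700) (nat_lit 190) (nat_lit 5) (nat_lit 196) (nat_lit 5) (nat_lit 197) (nat_lit 5) (nat_lit 653) (nat_lit 576) (nat_lit 331)) (XT.lf (nat_lit 0) (nat_lit 3490407180) (nat_lit 380) (nat_lit 22129274309) (nat_lit 456) (nat_lit 3827807878) (nat_lit 185) (nat_lit 5) (nat_lit 190) (nat_lit 5) (nat_lit 191) (nat_lit 5) (nat_lit 654) (nat_lit 576) (nat_lit 330))) (XT.nd (nat_lit 75114) (nat_lit 0) (nat_lit 23104) (XT.lf (nat_lit 0) (nat_lit 2460119435) (nat_lit 456) (nat_lit 8562110570) (nat_lit 76) (nat_lit 18785129255) (nat_lit 184) (nat_lit 5) (nat_lit 190) (nat_lit 5) (nat_lit 185) (nat_lit 5) (nat_lit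 655) (nat_lit 576) (nat_lit 329)) (XT.nd (nat_lit 78) (nat_lit 0) (nat_lit 0) (XT.lf (nat_lit 0) (nat_lit 73526751) (nat_lit 0) (nat_lit 73526751) (nat_lit 1748) (nat_lit 6273428220) (nat_lit 488) (nat_lit 5) (nat_lit 488) (nat_lit 3) (nat_lit 511) (nat_lit 3) (nat_lit 577) (nat_lit 577) (nat_lit 406)) (XT.lf (nat_lit 0) (nat_lit 749061084) (nat_lit 1748) (nat_lit 6385429673) (nat_lit 1824) (nat_lit 5825803343) (nat_lit 488) (nat_lit 5) (nat_lit 511) (nat_lit 3) (nat_lit 512) (nat_lit 5) (nat_lit 578) (nat_lit 577) (nat_lit 405))))) (XT.nd (nat_lit 156) (nat_lit 0) (nat_lit 76) (XT.nd (nat_lit 78) (nat_lit 0) (nat_lit 76) (XT.lf (nat_lit 76) (nat_lit 43133216) (nat_lit 0) (nat_lit 1160419049) (nat_lit 1824) (nat_lit 11878651355) (nat_lit 489) (nat_lit 5) (nat_lit 488) (nat_lit 5) (nat_lit 512) (nat_lit 5) (nat_lit 579) (nat_lit 577) (nat_lit 404)) (XT.lf (nat_lit 0) (nat_lit 1731687832) (nat_lit 1748) (nat_lit 6557071470) (nat_lit 1824) (nat_lit 4916501934) (nat_lit 489) (nat_lit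 5) (nat_lit 512) (nat_lit 5) (nat_lit 513) (nat_lit 5) (nat_lit 580) (nat_lit 577) (nat_lit 403))) (XT.nd (nat_lit 78) (nat_lit 0) (nat_lit 76) (XT.lf (nat_lit 76) (nat_lit 41656605) (nat_lit 0) (nat_lit 2226284876) (nat_lit 1824) (nat_lit 11062888392) (nat_lit 490) (nat_lit 5) (nat_lit 489) (nat_lit 5) (nat_lit 513) (nat_lit 5) (nat_lit 581) (nat_lit 577) (nat_lit 402)) (XT.nd (nat_lit 78) (nat_lit 0) (nat_lit 0) (XT.lf (nat_lit 0) (nat_lit 2874703240) (nat_lit 1748) (nat_lit 6628742638) (nat_lit 1824) (nat_lit 3954269301) (nat_lit 490) (nat_lit 5) (nat_lit 513) (nat_lit 5) (nat_lit 514) (nat_lit 5) (nat_lit 582) (nat_lit 577) (nat_lit 401)) (XT.lf (nat_lit 76) (nat_lit 146218586) (nat_lit 0) (nat_lit 3353070600) (nat_lit 1824) (nat_lit 10087736165) (nat_lit 491) (nat_lit 5) (nat_lit 490) (nat_lit 5) (nat_lit 514) (nat_lit 5) (nat_lit 583) (nat_lit 577) (nat_lit 400)))))) (XT.nd (nat_lit 390) (nat_lit 0) (nat_lit 152) (XT.nd (nat_lit 156) (nat_lit 0) (nat_lit 76) (XT.nd (nat_lit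 78) (nat_lit 0) (nat_lit 0) (XT.lf (nat_lit 0) (nat_lit 4190284977) (nat_lit 1748) (nat_lit 6596791484) (nat_lit 1824) (nat_lit 2930767821) (nat_lit 491) (nat_lit 5) (nat_lit 514) (nat_lit 5) (nat_lit 515) (nat_lit 5) (nat_lit 584) (nat_lit 577) (nat_lit 399)) (XT.lf (nat_lit 76) (nat_lit 360709892) (nat_lit 0) (nat_lit 4549311650) (nat_lit 1824) (nat_lit 8940960537) (nat_lit 492) (nat_lit 5) (nat_lit 491) (nat_lit 5) (nat_lit 515) (nat_lit 5) (nat_lit 585) (nat_lit 577) (nat_lit 398))) (XT.nd (nat_lit 78) (nat_lit 0) (nat_lit 0) (XT.lf (nat_lit 0) (nat_lit 5691033552) (nat_lit 1748) (nat_lit 6457274482) (nat_lit 1824) (nat_lit 1837537866) (nat_lit 492) (nat_lit 5) (nat_lit 515) (nat_lit 5) (nat_lit 516) (nat_lit 5) (nat_lit 586) (nat_lit 577) (nat_lit 397)) (XT.nd (nat_lit 78) (nat_lit 0) (nat_lit 76) (XT.lf (nat_lit 76) (nat_lit 689321315) (nat_lit 0) (nat_lit 5823680317) (nat_lit 1824) (nat_lit 7609899517) (nat_lit 493) (nat_lit 5) (nat_lit 492) (nat_lit 5) (nat_lit 516)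 (nat_lit 5) (nat_lit 587) (nat_lit 577) (nat_lit 396)) (XT.lf (nat_lit 0) (nat_lit 7389997800) (nat_lit 1748) (nat_lit 6205951787) (nat_lit 1824) (nat_lit 665976989) (nat_lit 493) (nat_lit 5) (nat_lit 516) (nat_lit 5) (nat_lit 517) (nat_lit 5) (nat_lit 588) (nat_lit 577) (nat_lit 395))))) (XT.nd (nat_lit 156) (nat_lit 0) (nat_lit 76) (XT.nd (nat_lit 78) (nat_lit 0) (nat_lit 0) (XT.lf (nat_lit 76) (nat_lit 1136548535) (nat_lit 0) (nat_lit 7185006801) (nat_lit 1824) (nat_lit 6081437582) (nat_lit 494) (nat_lit 5) (nat_lit 493) (nat_lit 5) (nat_lit 517) (nat_lit 5) (nat_lit 589) (nat_lit 577) (nat_lit 394)) (XT.lf (nat_lit 76) (nat_lit 8704042870) (nat_lit 0) (nat_lit 600557338) (nat_lit 1824) (nat_lit 5241624072) (nat_lit 494) (nat_lit 5) (nat_lit 493) (nat_lit 5) (nat_lit 517) (nat_lit 5) (nat_lit 590) (nat_lit 577) (nat_lit 393))) (XT.nd (nat_lit 78) (nat_lit 0) (nat_lit 0) (XT.lf (nat_lit 76) (nat_lit 1707197531) (nat_lit 0) (nat_lit 8642300312) (nat_lit 1824) (nat_lit 4341979388)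 (nat_lit 495) (nat_lit 5) (nat_lit 494) (nat_lit 5) (nat_lit 518) (nat_lit 5) (nat_lit 591) (nat_lit 577) (nat_lit 392)) (XT.nd (nat_lit 78) (nat_lit 0) (nat_lit 76) (XT.lf (nat_lit 76) (nat_lit 9476713043) (nat_lit 0) (nat_lit 1973266298) (nat_lit 1824) (nat_lit 3388962969) (nat_lit 495) (nat_lit 5) (nat_lit 494) (nat_lit 5) (nat_lit 518) (nat_lit 5) (nat_lit 592) (nat_lit 577) (nat_lit 391)) (XT.lf (nat_lit 76) (nat_lit 2406390565) (nat_lit 0) (nat_lit 10204770280) (nat_lit 1824) (nat_lit 2377422807) (nat_lit 496) (nat_lit 5) (nat_lit 495) (nat_lit 5) (nat_lit 519) (nat_lit 5) (nat_lit 593) (nat_lit 577) (nat_lit 390))))))) (XT.nd (nat_lit 780) (nat_lit 5472) (nat_lit 0) (XT.nd (nat_lit 390) (nat_lit 1596) (nat_lit 0) (XT.nd (nat_lit 156) (nat_lit 1748) (nat_lit 0) (XT.nd (nat_lit 78) (nat_lit 0) (nat_lit 76) (XT.lf (nat_lit 76) (nat_lit 10383789734) (nat_lit 0) (nat_lit 3452577399) (nat_lit 1824) (nat_lit 1304035420) (nat_lit 496) (nat_lit 5) (nat_lit 495) (nat_lit 5) (nat_lit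 519) (nat_lit 5) (nat_lit 594) (nat_lit 577) (nat_lit 389)) (XT.lf (nat_lit 76) (nat_lit 3239572743) (nat_lit 0) (nat_lit 11881847720) (nat_lit 1824) (nat_lit 173131249) (nat_lit 497) (nat_lit 5) (nat_lit 496) (nat_lit 5) (nat_lit 520) (nat_lit 5) (nat_lit 595) (nat_lit 577) (nat_lit 388))) (XT.nd (nat_lit 78) (nat_lit 0) (nat_lit 76) (XT.lf (nat_lit 0) (nat_lit 1014602406) (nat_lit 1824) (nat_lit 4026587557) (nat_lit 1900) (nat_lit 10409525908) (nat_lit 472) (nat_lit 5) (nat_lit 496) (nat_lit 5) (nat_lit 497) (nat_lit 5) (nat_lit 596) (nat_lit 577) (nat_lit 387)) (XT.nd (nat_lit 78) (nat_lit 0) (nat_lit 0) (XT.lf (nat_lit 0) (nat_lit 2256112228) (nat_lit 1824) (nat_lit 11411954877) (nat_lit 1900) (nat_lit 1941267223) (nat_lit 473) (nat_lit 5) (nat_lit 497) (nat_lit 5) (nat_lit 498) (nat_lit 5) (nat_lit 597) (nat_lit 577) (nat_lit 386)) (XT.lf (nat_lit 0) (nat_lit 3575390565) (nat_lit 1824) (nat_lit 3169905639) (nat_lit 1900) (nat_lit 9024770869) (nat_lit 473) (nat_lit 5)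 (nat_lit 497) (nat_lit 5) (nat_lit 498) (nat_lit 5) (nat_lit 598) (nat_lit 577) (nat_lit 385))))) (XT.nd (nat_lit 156) (nat_lit 1748) (nat_lit 0) (XT.nd (nat_lit 78) (nat_lit 0) (nat_lit 0) (XT.lf (nat_lit 0) (nat_lit 4950260550) (nat_lit 1824) (nat_lit 10635307303) (nat_lit 1900) (nat_lit 347863166) (nat_lit 474) (nat_lit 5) (nat_lit 498) (nat_lit 5) (nat_lit 499) (nat_lit 5) (nat_lit 599) (nat_lit 577) (nat_lit 384)) (XT.lf (nat_lit 0) (nat_lit 6411331807) (nat_lit 1824) (nat_lit 2172126603) (nat_lit 1900) (nat_lit 7515430415) (nat_lit 474) (nat_lit 5) (nat_lit 498) (nat_lit 5) (nat_lit 499) (nat_lit 5) (nat_lit 600) (nat_lit 577) (nat_lit 383))) (XT.nd (nat_lit 78) (nat_lit 1748) (nat_lit 0) (XT.lf (nat_lit 76) (nat_lit 6540051815) (nat_lit 0) (nat_lit 1396800155) (nat_lit 1900) (nat_lit 8330099911) (nat_lit 475) (nat_lit 5) (nat_lit 474) (nat_lit 5) (nat_lit 499) (nat_lit 5) (nat_lit 601) (nat_lit 577) (nat_lit 382)) (XT.nd (nat_lit 78) (nat_lit 1824) (nat_lit 0) (XT.lf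 (nat_lit 0) (nat_lit 9538955369) (nat_lit 1824) (nat_lit 1026939203) (nat_lit 76) (nat_lit 5871560800) (nat_lit 475) (nat_lit 5) (nat_lit 499) (nat_lit 5) (nat_lit 476) (nat_lit 5) (nat_lit 602) (nat_lit 577) (nat_lit 381)) (XT.lf (nat_lit 0) (nat_lit 7935820119) (nat_lit 1824) (nat_lit 3291070733) (nat_lit 1900) (nat_lit 5383402901) (nat_lit 451) (nat_lit 5) (nat_lit 475) (nat_lit 5) (nat_lit 476) (nat_lit 5) (nat_lit 603) (nat_lit 577) (nat_lit 380)))))) (XT.nd (nat_lit 390) (nat_lit 2508) (nat_lit 0) (XT.nd (nat_lit 156) (nat_lit 1900) (nat_lit 0) (XT.nd (nat_lit 78) (nat_lit 0) (nat_lit 0) (XT.lf (nat_lit 0) (nat_lit 275932802) (nat_lit 1064) (nat_lit 12701309513) (nat_lit 1140) (nat_lit 3808774048) (nat_lit 437) (nat_lit 5) (nat_lit 451) (nat_lit 5) (nat_lit 452) (nat_lit 5) (nat_lit 604) (nat_lit 577) (nat_lit 379)) (XT.lf (nat_lit 0) (nat_lit 9494753058) (nat_lit 1064) (nat_lit 5340924129) (nat_lit 1140) (nat_lit 2128115305) (nat_lit 437) (nat_lit 5) (nat_lit 451) (nat_lit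 5) (nat_lit 452) (nat_lit 5) (nat_lit 605) (nat_lit 577) (nat_lit 378))) (XT.nd (nat_lit 78) (nat_lit 988) (nat_lit 0) (XT.lf (nat_lit 0) (nat_lit 1755671259) (nat_lit 912) (nat_lit 14994427703) (nat_lit 988) (nat_lit 394649402) (nat_lit 425) (nat_lit 5) (nat_lit 437) (nat_lit 5) (nat_lit 438) (nat_lit 5) (nat_lit 606) (nat_lit 577) (nat_lit 377)) (XT.nd (nat_lit 78) (nat_lit 912) (nat_lit 0) (XT.lf (nat_lit 0) (nat_lit 1434694488) (nat_lit 988) (nat_lit 6112980715) (nat_lit 76) (nat_lit 9779885915) (nat_lit 424) (nat_lit 5) (nat_lit 437) (nat_lit 5) (nat_lit 425) (nat_lit 5) (nat_lit 607) (nat_lit 577) (nat_lit 376)) (XT.lf (nat_lit 0) (nat_lit 3311324927) (nat_lit 988) (nat_lit 14129775150) (nat_lit 76) (nat_lit 72558746) (nat_lit 412) (nat_lit 5) (nat_lit 425) (nat_lit 5) (nat_lit 413) (nat_lit 5) (nat_lit 608) (nat_lit 577) (nat_lit 375))))) (XT.nd (nat_lit 234) (nat_lit 1672) (nat_lit 0) (XT.nd (nat_lit 78) (nat_lit 836) (nat_lit 0) (XT.lf (nat_lit 0) (nat_lit 5310384140)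 (nat_lit 988) (nat_lit 4605496962) (nat_lit 76) (nat_lit 7785899997) (nat_lit 412) (nat_lit 5) (nat_lit 425) (nat_lit 5) (nat_lit 413) (nat_lit 5) (nat_lit 609) (nat_lit 577) (nat_lit 374)) (XT.nd (nat_lit 78) (nat_lit 0) (nat_lit 0) (XT.lf (nat_lit 0) (nat_lit 5171075543) (nat_lit 836) (nat_lit 2205666750) (nat_lit 912) (nat_lit 10516377700) (nat_lit 401) (nat_lit 5) (nat_lit 412) (nat_lit 5) (nat_lit 413) (nat_lit 5) (nat_lit 610) (nat_lit 577) (nat_lit 373)) (XT.lf (nat_lit 0) (nat_lit 9546106873) (nat_lit 912) (nat_lit 2925100937) (nat_lit 76) (nat_lit 5615844788) (nat_lit 401) (nat_lit 5) (nat_lit 413) (nat_lit 5) (nat_lit 402) (nat_lit 5) (nat_lit 611) (nat_lit 577) (nat_lit 372)))) (XT.nd (nat_lit 78) (nat_lit 836) (nat_lit 0) (XT.lf (nat_lit 0) (nat_lit 7140850906) (nat_lit 836) (nat_lit 4672927958) (nat_lit 912) (nat_lit 6469987096) (nat_lit 390) (nat_lit 5) (nat_lit 401) (nat_lit 5) (nat_lit 402) (nat_lit 5) (nat_lit 612) (nat_lit 577) (nat_lit 371)) (XT.nd (nat_lit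 78) (nat_lit 836) (nat_lit 0) (XT.lf (nat_lit 0) (nat_lit 14161897948) (nat_lit 912) (nat_lit 1063740998) (nat_lit 76) (nat_lit 3258073270) (nat_lit 390) (nat_lit 5) (nat_lit 402) (nat_lit 5) (nat_lit 391) (nat_lit 5) (nat_lit 613) (nat_lit 577) (nat_lit 370)) (XT.lf (nat_lit 0) (nat_lit 9302130083) (nat_lit 836) (nat_lit 7340338728) (nat_lit 912) (nat_lit 2043479285) (nat_lit 379) (nat_lit 5) (nat_lit 390) (nat_lit 5) (nat_lit 391) (nat_lit 5) (nat_lit 614) (nat_lit 577) (nat_lit 369))))))))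
noncomputable def xc192 : XT := (XT.nd (nat_lit 1560) (nat_lit 6840) (nat_lit 0) (XT.nd (nat_lit 780) (nat_lit 3268) (nat_lit 0) (XT.nd (nat_lit 390) (nat_lit 2204) (nat_lit 0) (XT.nd (nat_lit 156) (nat_lit 1520) (nat_lit 0) (XT.nd (nat_lit 78) (nat_lit 0) (nat_lit 0) (XT.lf (nat_lit 0) (nat_lit 289290906) (nat_lit 912) (nat_lit 17893738707) (nat_lit 76) (nat_lit 708912210) (nat_lit 367) (nat_lit 5) (nat_lit 379) (nat_lit 5) (nat_lit 368) (nat_lit 5) (nat_lit 615) (nat_lit 577) (nat_lit 368)) (XT.lf (nat_lit 0) (nat_lit 2747637944) (nat_lit 912) (nat_lit 7454345069) (nat_lit 76) (nat_lit 8897677050) (nat_lit 367) (nat_lit 5) (nat_lit 379) (nat_lit 5) (nat_lit 368) (nat_lit 5) (nat_lit 616) (nat_lit 577) (nat_lit 367))) (XT.nd (nat_lit 78) (nat_lit 760) (nat_lit 0) (XT.lf (nat_lit 0) (nat_lit 3230268332) (nat_lit 760) (nat_lit 2040228358) (nat_lit 836) (nat_lit 14040729535) (nat_lit 357) (nat_lit 5) (nat_lit 367) (nat_lit 5) (nat_lit 368) (nat_lit 5) (nat_lit 617) (nat_lit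 577) (nat_lit 366)) (XT.nd (nat_lit 78) (nat_lit 760) (nat_lit 0) (XT.lf (nat_lit 0) (nat_lit 7929412918) (nat_lit 836) (nat_lit 5343543752) (nat_lit 76) (nat_lit 6252355475) (nat_lit 357) (nat_lit 5) (nat_lit 368) (nat_lit 5) (nat_lit 358) (nat_lit 5) (nat_lit 618) (nat_lit 577) (nat_lit 365)) (XT.lf (nat_lit 0) (nat_lit 5663498765) (nat_lit 760) (nat_lit 5022841942) (nat_lit 836) (nat_lit 9056442846) (nat_lit 347) (nat_lit 5) (nat_lit 357) (nat_lit 5) (nat_lit 358) (nat_lit 5) (nat_lit 619) (nat_lit 577) (nat_lit 364))))) (XT.nd (nat_lit 156) (nat_lit 1520) (nat_lit 0) (XT.nd (nat_lit 78) (nat_lit 684) (nat_lit 0) (XT.lf (nat_lit 0) (nat_lit 13551143867) (nat_lit 836) (nat_lit 3028986866) (nat_lit 76) (nat_lit 3383419345) (nat_lit 347) (nat_lit 5) (nat_lit 358) (nat_lit 5) (nat_lit 348) (nat_lit 5) (nat_lit 620) (nat_lit 577) (nat_lit 363)) (XT.lf (nat_lit 0) (nat_lit 8312233775) (nat_lit 684) (nat_lit 8242963715) (nat_lit 760) (nat_lit 3631895771) (nat_lit 338) (nat_lit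 5) (nat_lit 347) (nat_lit 5) (nat_lit 348) (nat_lit 5) (nat_lit 621) (nat_lit 577) (nat_lit 362))) (XT.nd (nat_lit 78) (nat_lit 1520) (nat_lit 0) (XT.lf (nat_lit 0) (nat_lit 19636271194) (nat_lit 760) (nat_lit 501090375) (nat_lit 76) (nat_lit 277407368) (nat_lit 338) (nat_lit 5) (nat_lit 348) (nat_lit 5) (nat_lit 339) (nat_lit 5) (nat_lit 622) (nat_lit 577) (nat_lit 361)) (XT.nd (nat_lit 78) (nat_lit 684) (nat_lit 0) (XT.lf (nat_lit 0) (nat_lit 2226920994) (nat_lit 836) (nat_lit 9472711990) (nat_lit 76) (nat_lit 8944630414) (nat_lit 327) (nat_lit 5) (nat_lit 338) (nat_lit 5) (nat_lit 328) (nat_lit 5) (nat_lit 623) (nat_lit 577) (nat_lit 360)) (XT.lf (nat_lit 0) (nat_lit 2224340138) (nat_lit 684) (nat_lit 3070435838) (nat_lit 760) (nat_lit 15583214201) (nat_lit 318) (nat_lit 5) (nat_lit 327) (nat_lit 5) (nat_lit 328) (nat_lit 5) (nat_lit 624) (nat_lit 577) (nat_lit 359)))))) (XT.nd (nat_lit 390) (nat_lit 1900) (nat_lit 0) (XT.nd (nat_lit 156) (nat_lit 684) (nat_lit 0) (XT.nd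 (nat_lit 78) (nat_lit 684) (nat_lit 0) (XT.lf (nat_lit 0) (nat_lit 8520160403) (nat_lit 760) (nat_lit 6874884651) (nat_lit 76) (nat_lit 5719423367) (nat_lit 318) (nat_lit 5) (nat_lit 328) (nat_lit 5) (nat_lit 319) (nat_lit 5) (nat_lit 625) (nat_lit 577) (nat_lit 358)) (XT.lf (nat_lit 0) (nat_lit 5181320845) (nat_lit 684) (nat_lit 6677777622) (nat_lit 760) (nat_lit 9495597214) (nat_lit 309) (nat_lit 5) (nat_lit 318) (nat_lit 5) (nat_lit 319) (nat_lit 5) (nat_lit 626) (nat_lit 577) (nat_lit 357))) (XT.nd (nat_lit 78) (nat_lit 684) (nat_lit 0) (XT.lf (nat_lit 0) (nat_lit 15320753977) (nat_lit 760) (nat_lit 4047452209) (nat_lit 76) (nat_lit 2230402891) (nat_lit 309) (nat_lit 5) (nat_lit 319) (nat_lit 5) (nat_lit 310) (nat_lit 5) (nat_lit 627) (nat_lit 577) (nat_lit 356)) (XT.nd (nat_lit 78) (nat_lit 76) (nat_lit 0) (XT.lf (nat_lit 0) (nat_lit 8380987736) (nat_lit 608) (nat_lit 10564514444) (nat_lit 684) (nat_lit 2900021723) (nat_lit 301) (nat_lit 5) (nat_lit 309) (nat_lit 5) (nat_lit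 310) (nat_lit 5) (nat_lit 628) (nat_lit 577) (nat_lit 355)) (XT.lf (nat_lit 0) (nat_lit 560802437) (nat_lit 684) (nat_lit 993415468) (nat_lit 76) (nat_lit 20542636910) (nat_lit 300) (nat_lit 5) (nat_lit 309) (nat_lit 5) (nat_lit 301) (nat_lit 5) (nat_lit 629) (nat_lit 577) (nat_lit 354))))) (XT.nd (nat_lit 156) (nat_lit 608) (nat_lit 0) (XT.nd (nat_lit 78) (nat_lit 608) (nat_lit 0) (XT.lf (nat_lit 0) (nat_lit 4174587223) (nat_lit 760) (nat_lit 10543762397) (nat_lit 76) (nat_lit 7632028170) (nat_lit 291) (nat_lit 5) (nat_lit 301) (nat_lit 5) (nat_lit 292) (nat_lit 5) (nat_lit 630) (nat_lit 577) (nat_lit 353)) (XT.lf (nat_lit 0) (nat_lit 2281197610) (nat_lit 608) (nat_lit 5606652909) (nat_lit 684) (nat_lit 14720576977) (nat_lit 283) (nat_lit 5) (nat_lit 291) (nat_lit 5) (nat_lit 292) (nat_lit 5) (nat_lit 631) (nat_lit 577) (nat_lit 352))) (XT.nd (nat_lit 78) (nat_lit 608) (nat_lit 0) (XT.lf (nat_lit 0) (nat_lit 11765977562) (nat_lit 684) (nat_lit 7394757693) (nat_lit 76) (nat_lit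 3709091294) (nat_lit 283) (nat_lit 5) (nat_lit 292) (nat_lit 5) (nat_lit 284) (nat_lit 5) (nat_lit 632) (nat_lit 577) (nat_lit 351)) (XT.nd (nat_lit 78) (nat_lit 0) (nat_lit 0) (XT.lf (nat_lit 0) (nat_lit 5830102469) (nat_lit 608) (nat_lit 9962072681) (nat_lit 684) (nat_lit 7342868587) (nat_lit 275) (nat_lit 5) (nat_lit 283) (nat_lit 5) (nat_lit 284) (nat_lit 5) (nat_lit 633) (nat_lit 577) (nat_lit 350)) (XT.lf (nat_lit 0) (nat_lit 19414140361) (nat_lit 608) (nat_lit 529955673) (nat_lit 684) (nat_lit 3460565559) (nat_lit 275) (nat_lit 5) (nat_lit 283) (nat_lit 5) (nat_lit 284) (nat_lit 5) (nat_lit 634) (nat_lit 577) (nat_lit 349))))))) (XT.nd (nat_lit 780) (nat_lit 3344) (nat_lit 0) (XT.nd (nat_lit 390) (nat_lit 1672) (nat_lit 0) (XT.nd (nat_lit 156) (nat_lit 1140) (nat_lit 0) (XT.nd (nat_lit 78) (nat_lit 0) (nat_lit 0) (XT.lf (nat_lit 0) (nat_lit 610959187) (nat_lit 684) (nat_lit 14029118465) (nat_lit 76) (nat_lit 9037167101) (nat_lit 266) (nat_lit 5) (nat_lit 275) (nat_lit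 5) (nat_lit 267) (nat_lit 5) (nat_lit 635) (nat_lit 577) (nat_lit 348)) (XT.lf (nat_lit 0) (nat_lit 4743763174) (nat_lit 684) (nat_lit 373258900) (nat_lit 76) (nat_lit 18837276594) (nat_lit 266) (nat_lit 5) (nat_lit 275) (nat_lit 5) (nat_lit 267) (nat_lit 5) (nat_lit 636) (nat_lit 577) (nat_lit 347))) (XT.nd (nat_lit 78) (nat_lit 532) (nat_lit 0) (XT.lf (nat_lit 0) (nat_lit 9074557551) (nat_lit 684) (nat_lit 10535268704) (nat_lit 76) (nat_lit 4624761005) (nat_lit 258) (nat_lit 5) (nat_lit 267) (nat_lit 5) (nat_lit 259) (nat_lit 5) (nat_lit 637) (nat_lit 577) (nat_lit 346)) (XT.nd (nat_lit 78) (nat_lit 0) (nat_lit 0) (XT.lf (nat_lit 0) (nat_lit 3545084754) (nat_lit 532) (nat_lit 10002110833) (nat_lit 608) (nat_lit 10972181762) (nat_lit 251) (nat_lit 5) (nat_lit 258) (nat_lit 5) (nat_lit 259) (nat_lit 5) (nat_lit 638) (nat_lit 577) (nat_lit 345)) (XT.lf (nat_lit 0) (nat_lit 18044408508) (nat_lit 532) (nat_lit 131423855) (nat_lit 608) (nat_lit 6632700234) (nat_lit 251) (nat_lit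 5) (nat_lit 258) (nat_lit 5) (nat_lit 259) (nat_lit 5) (nat_lit 639) (nat_lit 577) (nat_lit 344))))) (XT.nd (nat_lit 156) (nat_lit 1064) (nat_lit 0) (XT.nd (nat_lit 78) (nat_lit 76) (nat_lit 0) (XT.lf (nat_lit 0) (nat_lit 7762122141) (nat_lit 532) (nat_lit 15245754015) (nat_lit 608) (nat_lit 2093378376) (nat_lit 244) (nat_lit 5) (nat_lit 251) (nat_lit 5) (nat_lit 252) (nat_lit 5) (nat_lit 640) (nat_lit 577) (nat_lit 343)) (XT.lf (nat_lit 0) (nat_lit 2545962068) (nat_lit 608) (nat_lit 2751411789) (nat_lit 76) (nat_lit 20101277869) (nat_lit 243) (nat_lit 5) (nat_lit 251) (nat_lit 5) (nat_lit 244) (nat_lit 5) (nat_lit 641) (nat_lit 577) (nat_lit 342))) (XT.nd (nat_lit 78) (nat_lit 532) (nat_lit 0) (XT.lf (nat_lit 0) (nat_lit 7357868387) (nat_lit 608) (nat_lit 13462509622) (nat_lit 76) (nat_lit 4879186175) (nat_lit 236) (nat_lit 5) (nat_lit 244) (nat_lit 5) (nat_lit 237) (nat_lit 5) (nat_lit 642) (nat_lit 577) (nat_lit 341)) (XT.nd (nat_lit 78) (nat_lit 0) (nat_lit 0) (XT.lf (nat_lit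 0) (nat_lit 1536042899) (nat_lit 532) (nat_lit 10789665145) (nat_lit 608) (nat_lit 13679593192) (nat_lit 229) (nat_lit 5) (nat_lit 236) (nat_lit 5) (nat_lit 237) (nat_lit 5) (nat_lit 643) (nat_lit 577) (nat_lit 340)) (XT.lf (nat_lit 0) (nat_lit 17011730504) (nat_lit 532) (nat_lit 467611875) (nat_lit 608) (nat_lit 8836082138) (nat_lit 229) (nat_lit 5) (nat_lit 236) (nat_lit 5) (nat_lit 237) (nat_lit 5) (nat_lit 644) (nat_lit 577) (nat_lit 339)))))) (XT.nd (nat_lit 390) (nat_lit 1824) (nat_lit 0) (XT.nd (nat_lit 156) (nat_lit 988) (nat_lit 0) (XT.nd (nat_lit 78) (nat_lit 76) (nat_lit 0) (XT.lf (nat_lit 0) (nat_lit 6175566180) (nat_lit 456) (nat_lit 16662065849) (nat_lit 532) (nat_lit 3792086821) (nat_lit 223) (nat_lit 5) (nat_lit 229) (nat_lit 5) (nat_lit 230) (nat_lit 5) (nat_lit 645) (nat_lit 577) (nat_lit 338)) (XT.lf (nat_lit 0) (nat_lit 1397169824) (nat_lit 532) (nat_lit 4876121605) (nat_lit 76) (nat_lit 20675589737) (nat_lit 222) (nat_lit 5) (nat_lit 229) (nat_lit 5) (nat_lit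 223) (nat_lit 5) (nat_lit 646) (nat_lit 577) (nat_lit 337))) (XT.nd (nat_lit 78) (nat_lit 456) (nat_lit 0) (XT.lf (nat_lit 0) (nat_lit 6736700959) (nat_lit 608) (nat_lit 16172141350) (nat_lit 76) (nat_lit 4363138022) (nat_lit 215) (nat_lit 5) (nat_lit 223) (nat_lit 5) (nat_lit 216) (nat_lit 5) (nat_lit 647) (nat_lit 577) (nat_lit 336)) (XT.nd (nat_lit 78) (nat_lit 456) (nat_lit 0) (XT.lf (nat_lit 0) (nat_lit 12253791602) (nat_lit 608) (nat_lit 186462833) (nat_lit 76) (nat_lit 15159871889) (nat_lit 215) (nat_lit 5) (nat_lit 223) (nat_lit 5) (nat_lit 216) (nat_lit 5) (nat_lit 648) (nat_lit 577) (nat_lit 335)) (XT.lf (nat_lit 0) (nat_lit 16327945750) (nat_lit 456) (nat_lit 1655648855) (nat_lit 532) (nat_lit 9949193436) (nat_lit 209) (nat_lit 5) (nat_lit 215) (nat_lit 5) (nat_lit 216) (nat_lit 5) (nat_lit 649) (nat_lit 577) (nat_lit 334))))) (XT.nd (nat_lit 234) (nat_lit 836) (nat_lit 0) (XT.nd (nat_lit 78) (nat_lit 532) (nat_lit 0) (XT.lf (nat_lit 0) (nat_lit 4901540420) (nat_lit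 456) (nat_lit 19016595851) (nat_lit 532) (nat_lit 4352164083) (nat_lit 203) (nat_lit 5) (nat_lit 209) (nat_lit 5) (nat_lit 210) (nat_lit 5) (nat_lit 650) (nat_lit 577) (nat_lit 333)) (XT.nd (nat_lit 78) (nat_lit 456) (nat_lit 0) (XT.lf (nat_lit 0) (nat_lit 1424767030) (nat_lit 532) (nat_lit 6743107932) (nat_lit 76) (nat_lit 20444796851) (nat_lit 202) (nat_lit 5) (nat_lit 209) (nat_lit 5) (nat_lit 203) (nat_lit 5) (nat_lit 651) (nat_lit 577) (nat_lit 332)) (XT.lf (nat_lit 0) (nat_lit 7341907754) (nat_lit 532) (nat_lit 18663016299) (nat_lit 76) (nat_lit 2954732563) (nat_lit 196) (nat_lit 5) (nat_lit 203) (nat_lit 5) (nat_lit 197) (nat_lit 5) (nat_lit 652) (nat_lit 577) (nat_lit 331)))) (XT.nd (nat_lit 78) (nat_lit 836) (nat_lit 0) (XT.lf (nat_lit 0) (nat_lit 13473530723) (nat_lit 532) (nat_lit 1603575237) (nat_lit 76) (nat_lit 14234552563) (nat_lit 196) (nat_lit 5) (nat_lit 203) (nat_lit 5) (nat_lit 197) (nat_lit 5) (nat_lit 653) (nat_lit 577) (nat_lit 330)) (XT.nd (nat_lit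 78) (nat_lit 380) (nat_lit 0) (XT.lf (nat_lit 0) (nat_lit 16001927011) (nat_lit 456) (nat_lit 3826321001) (nat_lit 532) (nat_lit 9840443411) (nat_lit 190) (nat_lit 5) (nat_lit 196) (nat_lit 5) (nat_lit 197) (nat_lit 5) (nat_lit 654) (nat_lit 577) (nat_lit 329)) (XT.lf (nat_lit 0) (nat_lit 3945616222) (nat_lit 380) (nat_lit 22447150252) (nat_lit 456) (nat_lit 3638444560) (nat_lit 185) (nat_lit 5) (nat_lit 190) (nat_lit 5) (nat_lit 191) (nat_lit 5) (nat_lit 655) (nat_lit 577) (nat_lit 328))))))))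
noncomputable def xc193 : XT := (XT.nd (nat_lit 1560) (nat_lit 8740) (nat_lit 0) (XT.nd (nat_lit 780) (nat_lit 1216) (nat_lit 0) (XT.nd (nat_lit 390) (nat_lit 0) (nat_lit 152) (XT.nd (nat_lit 156) (nat_lit 0) (nat_lit 0) (XT.nd (nat_lit 78) (nat_lit 0) (nat_lit 0) (XT.lf (nat_lit 0) (nat_lit 280497003) (nat_lit 0) (nat_lit 280497003) (nat_lit 1748) (nat_lit 5979638892) (nat_lit 488) (nat_lit 5) (nat_lit 488) (nat_lit 3) (nat_lit 511) (nat_lit 3) (nat_lit 578) (nat_lit 578) (nat_lit 404)) (XT.lf (nat_lit 0) (nat_lit 1567307389) (nat_lit 1748) (nat_lit 6091388431) (nat_lit 1824) (nat_lit 5544663428) (nat_lit 488) (nat_lit 5) (nat_lit 511) (nat_lit 3) (nat_lit 512) (nat_lit 5) (nat_lit 579) (nat_lit 578) (nat_lit 403))) (XT.nd (nat_lit 78) (nat_lit 0) (nat_lit 76) (XT.lf (nat_lit 76) (nat_lit 462971046) (nat_lit 0) (nat_lit 1554887317) (nat_lit 1824) (nat_lit 11310110675) (nat_lit 489) (nat_lit 5) (nat_lit 488) (nat_lit 5) (nat_lit 512) (nat_lit 5) (nat_lit 580) (nat_lit 578)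 (nat_lit 402)) (XT.nd (nat_lit 78) (nat_lit 0) (nat_lit 0) (XT.lf (nat_lit 0) (nat_lit 2538698635) (nat_lit 1748) (nat_lit 6259522424) (nat_lit 1824) (nat_lit 4655625358) (nat_lit 489) (nat_lit 5) (nat_lit 512) (nat_lit 5) (nat_lit 513) (nat_lit 5) (nat_lit 581) (nat_lit 578) (nat_lit 401)) (XT.lf (nat_lit 76) (nat_lit 468359881) (nat_lit 0) (nat_lit 2604937859) (nat_lit 1824) (nat_lit 10508877700) (nat_lit 490) (nat_lit 5) (nat_lit 489) (nat_lit 5) (nat_lit 513) (nat_lit 5) (nat_lit 582) (nat_lit 578) (nat_lit 400))))) (XT.nd (nat_lit 156) (nat_lit 0) (nat_lit 76) (XT.nd (nat_lit 78) (nat_lit 0) (nat_lit 0) (XT.lf (nat_lit 0) (nat_lit 3675165984) (nat_lit 1748) (nat_lit 6326699305) (nat_lit 1824) (nat_lit 3710075132) (nat_lit 490) (nat_lit 5) (nat_lit 513) (nat_lit 5) (nat_lit 514) (nat_lit 5) (nat_lit 583) (nat_lit 578) (nat_lit 399)) (XT.lf (nat_lit 76) (nat_lit 580901813) (nat_lit 0) (nat_lit 3719577087) (nat_lit 1824) (nat_lit 9543594557) (nat_lit 491) (nat_lit 5) (nat_lit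 490) (nat_lit 5) (nat_lit 514) (nat_lit 5) (nat_lit 584) (nat_lit 578) (nat_lit 398))) (XT.nd (nat_lit 78) (nat_lit 0) (nat_lit 0) (XT.lf (nat_lit 0) (nat_lit 4989051202) (nat_lit 1748) (nat_lit 6289123930) (nat_lit 1824) (nat_lit 2699659844) (nat_lit 491) (nat_lit 5) (nat_lit 514) (nat_lit 5) (nat_lit 515) (nat_lit 5) (nat_lit 585) (nat_lit 578) (nat_lit 397)) (XT.nd (nat_lit 78) (nat_lit 0) (nat_lit 76) (XT.lf (nat_lit 76) (nat_lit 804635346) (nat_lit 0) (nat_lit 4907363736) (nat_lit 1824) (nat_lit 8401861427) (nat_lit 492) (nat_lit 5) (nat_lit 491) (nat_lit 5) (nat_lit 515) (nat_lit 5) (nat_lit 586) (nat_lit 578) (nat_lit 396)) (XT.lf (nat_lit 0) (nat_lit 6493131813) (nat_lit 1748) (nat_lit 6142707780) (nat_lit 1824) (nat_lit 1615893293) (nat_lit 492) (nat_lit 5) (nat_lit 515) (nat_lit 5) (nat_lit 516) (nat_lit 5) (nat_lit 587) (nat_lit 578) (nat_lit 395)))))) (XT.nd (nat_lit 390) (nat_lit 1520) (nat_lit 0) (XT.nd (nat_lit 156) (nat_lit 0) (nat_lit 76) (XT.nd (nat_lit 78)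 (nat_lit 0) (nat_lit 76) (XT.lf (nat_lit 76) (nat_lit 1143900773) (nat_lit 0) (nat_lit 6177004762) (nat_lit 1824) (nat_lit 7070837640) (nat_lit 493) (nat_lit 5) (nat_lit 492) (nat_lit 5) (nat_lit 516) (nat_lit 5) (nat_lit 588) (nat_lit 578) (nat_lit 394)) (XT.lf (nat_lit 0) (nat_lit 8200646853) (nat_lit 1748) (nat_lit 5883064136) (nat_lit 1824) (nat_lit 450135257) (nat_lit 493) (nat_lit 5) (nat_lit 516) (nat_lit 5) (nat_lit 517) (nat_lit 5) (nat_lit 589) (nat_lit 578) (nat_lit 393))) (XT.nd (nat_lit 78) (nat_lit 0) (nat_lit 0) (XT.lf (nat_lit 76) (nat_lit 1603345360) (nat_lit 0) (nat_lit 7537376309) (nat_lit 1824) (nat_lit 5537215736) (nat_lit 494) (nat_lit 5) (nat_lit 493) (nat_lit 5) (nat_lit 517) (nat_lit 5) (nat_lit 590) (nat_lit 578) (nat_lit 392)) (XT.nd (nat_lit 78) (nat_lit 0) (nat_lit 76) (XT.lf (nat_lit 76) (nat_lit 9313482407) (nat_lit 0) (nat_lit 817146300) (nat_lit 1824) (nat_lit 4693661850) (nat_lit 494) (nat_lit 5) (nat_lit 493) (nat_lit 5) (nat_lit 517) (nat_lit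 5) (nat_lit 591) (nat_lit 578) (nat_lit 391)) (XT.lf (nat_lit 76) (nat_lit 2187929091) (nat_lit 0) (nat_lit 8997544763) (nat_lit 1824) (nat_lit 3787194890) (nat_lit 495) (nat_lit 5) (nat_lit 494) (nat_lit 5) (nat_lit 518) (nat_lit 5) (nat_lit 592) (nat_lit 578) (nat_lit 390))))) (XT.nd (nat_lit 156) (nat_lit 1672) (nat_lit 0) (XT.nd (nat_lit 78) (nat_lit 0) (nat_lit 76) (XT.lf (nat_lit 76) (nat_lit 10104078293) (nat_lit 0) (nat_lit 2191553629) (nat_lit 1824) (nat_lit 2827699006) (nat_lit 495) (nat_lit 5) (nat_lit 494) (nat_lit 5) (nat_lit 518) (nat_lit 5) (nat_lit 593) (nat_lit 578) (nat_lit 389)) (XT.lf (nat_lit 76) (nat_lit 2902931004) (nat_lit 0) (nat_lit 10566787943) (nat_lit 1824) (nat_lit 1806453633) (nat_lit 496) (nat_lit 5) (nat_lit 495) (nat_lit 5) (nat_lit 519) (nat_lit 5) (nat_lit 594) (nat_lit 578) (nat_lit 388))) (XT.nd (nat_lit 78) (nat_lit 1748) (nat_lit 0) (XT.lf (nat_lit 76) (nat_lit 11031085752) (nat_lit 0) (nat_lit 3676454689) (nat_lit 1824) (nat_lit 723726295)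 (nat_lit 496) (nat_lit 5) (nat_lit 495) (nat_lit 5) (nat_lit 519) (nat_lit 5) (nat_lit 595) (nat_lit 578) (nat_lit 387)) (XT.nd (nat_lit 78) (nat_lit 0) (nat_lit 0) (XT.lf (nat_lit 0) (nat_lit 414371382) (nat_lit 1824) (nat_lit 11837464440) (nat_lit 1900) (nat_lit 3336804058) (nat_lit 472) (nat_lit 5) (nat_lit 496) (nat_lit 5) (nat_lit 497) (nat_lit 5) (nat_lit 596) (nat_lit 578) (nat_lit 386)) (XT.lf (nat_lit 0) (nat_lit 1612001510) (nat_lit 1824) (nat_lit 3658621715) (nat_lit 1900) (nat_lit 10477513044) (nat_lit 472) (nat_lit 5) (nat_lit 496) (nat_lit 5) (nat_lit 497) (nat_lit 5) (nat_lit 597) (nat_lit 578) (nat_lit 385))))))) (XT.nd (nat_lit 780) (nat_lit 5092) (nat_lit 0) (XT.nd (nat_lit 390) (nat_lit 3724) (nat_lit 0) (XT.nd (nat_lit 156) (nat_lit 0) (nat_lit 76) (XT.nd (nat_lit 78) (nat_lit 0) (nat_lit 0) (XT.lf (nat_lit 0) (nat_lit 2869119003) (nat_lit 1824) (nat_lit 11182423092) (nat_lit 1900) (nat_lit 1858570466) (nat_lit 473) (nat_lit 5) (nat_lit 497) (nat_lit 5)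 (nat_lit 498) (nat_lit 5) (nat_lit 598) (nat_lit 578) (nat_lit 384)) (XT.lf (nat_lit 0) (nat_lit 4203647915) (nat_lit 1824) (nat_lit 2784508768) (nat_lit 1900) (nat_lit 9086126971) (nat_lit 473) (nat_lit 5) (nat_lit 497) (nat_lit 5) (nat_lit 498) (nat_lit 5) (nat_lit 599) (nat_lit 578) (nat_lit 383))) (XT.nd (nat_lit 78) (nat_lit 0) (nat_lit 0) (XT.lf (nat_lit 0) (nat_lit 5597325348) (nat_lit 1824) (nat_lit 10390479721) (nat_lit 1900) (nat_lit 253284586) (nat_lit 474) (nat_lit 5) (nat_lit 498) (nat_lit 5) (nat_lit 499) (nat_lit 5) (nat_lit 600) (nat_lit 578) (nat_lit 382)) (XT.nd (nat_lit 78) (nat_lit 0) (nat_lit 0) (XT.lf (nat_lit 0) (nat_lit 7076871764) (nat_lit 1824) (nat_lit 1767006656) (nat_lit 1900) (nat_lit 7566194078) (nat_lit 474) (nat_lit 5) (nat_lit 498) (nat_lit 5) (nat_lit 499) (nat_lit 5) (nat_lit 601) (nat_lit 578) (nat_lit 381)) (XT.lf (nat_lit 76) (nat_lit 7116464260) (nat_lit 0) (nat_lit 1508795719) (nat_lit 1900) (nat_lit 7956390621) (nat_lit 475) (nat_lit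 5) (nat_lit 474) (nat_lit 5) (nat_lit 499) (nat_lit 5) (nat_lit 602) (nat_lit 578) (nat_lit 380))))) (XT.nd (nat_lit 156) (nat_lit 2052) (nat_lit 0) (XT.nd (nat_lit 78) (nat_lit 1824) (nat_lit 0) (XT.lf (nat_lit 0) (nat_lit 10248484673) (nat_lit 1824) (nat_lit 599637304) (nat_lit 76) (nat_lit 5907661522) (nat_lit 475) (nat_lit 5) (nat_lit 499) (nat_lit 5) (nat_lit 476) (nat_lit 5) (nat_lit 603) (nat_lit 578) (nat_lit 379)) (XT.lf (nat_lit 0) (nat_lit 8539430885) (nat_lit 1824) (nat_lit 3423464957) (nat_lit 1900) (nat_lit 4969329366) (nat_lit 451) (nat_lit 5) (nat_lit 475) (nat_lit 5) (nat_lit 476) (nat_lit 5) (nat_lit 604) (nat_lit 578) (nat_lit 378))) (XT.nd (nat_lit 78) (nat_lit 988) (nat_lit 0) (XT.lf (nat_lit 0) (nat_lit 734055101) (nat_lit 1064) (nat_lit 13006685308) (nat_lit 1140) (nat_lit 3370873024) (nat_lit 437) (nat_lit 5) (nat_lit 451) (nat_lit 5) (nat_lit 452) (nat_lit 5) (nat_lit 605) (nat_lit 578) (nat_lit 377)) (XT.nd (nat_lit 78) (nat_lit 988) (nat_lit 0) (XT.lf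 (nat_lit 0) (nat_lit 10128377181) (nat_lit 1064) (nat_lit 5498085362) (nat_lit 1140) (nat_lit 1666681037) (nat_lit 437) (nat_lit 5) (nat_lit 451) (nat_lit 5) (nat_lit 452) (nat_lit 5) (nat_lit 606) (nat_lit 578) (nat_lit 376)) (XT.lf (nat_lit 0) (nat_lit 92995888) (nat_lit 988) (nat_lit 15236694181) (nat_lit 76) (nat_lit 2148158712) (nat_lit 424) (nat_lit 5) (nat_lit 437) (nat_lit 5) (nat_lit 425) (nat_lit 5) (nat_lit 607) (nat_lit 578) (nat_lit 375)))))) (XT.nd (nat_lit 390) (nat_lit 3344) (nat_lit 0) (XT.nd (nat_lit 156) (nat_lit 836) (nat_lit 0) (XT.nd (nat_lit 78) (nat_lit 912) (nat_lit 0) (XT.lf (nat_lit 0) (nat_lit 1944034322) (nat_lit 988) (nat_lit 5786661021) (nat_lit 76) (nat_lit 9933763251) (nat_lit 424) (nat_lit 5) (nat_lit 437) (nat_lit 5) (nat_lit 425) (nat_lit 5) (nat_lit 608) (nat_lit 578) (nat_lit 374)) (XT.lf (nat_lit 0) (nat_lit 3851481298) (nat_lit 988) (nat_lit 13957035247) (nat_lit 76) (nat_lit 45896830) (nat_lit 412) (nat_lit 5) (nat_lit 425) (nat_lit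 5) (nat_lit 413) (nat_lit 5) (nat_lit 609) (nat_lit 578) (nat_lit 373))) (XT.nd (nat_lit 78) (nat_lit 836) (nat_lit 0) (XT.lf (nat_lit 0) (nat_lit 5881228953) (nat_lit 988) (nat_lit 4251199640) (nat_lit 76) (nat_lit 7914056144) (nat_lit 412) (nat_lit 5) (nat_lit 425) (nat_lit 5) (nat_lit 413) (nat_lit 5) (nat_lit 610) (nat_lit 578) (nat_lit 372)) (XT.nd (nat_lit 78) (nat_lit 0) (nat_lit 0) (XT.lf (nat_lit 0) (nat_lit 5717967425) (nat_lit 836) (nat_lit 2264715616) (nat_lit 912) (nat_lit 10259092762) (nat_lit 401) (nat_lit 5) (nat_lit 412) (nat_lit 5) (nat_lit 413) (nat_lit 5) (nat_lit 611) (nat_lit 578) (nat_lit 371)) (XT.lf (nat_lit 0) (nat_lit 10186351492) (nat_lit 912) (nat_lit 2539706943) (nat_lit 76) (nat_lit 5713711047) (nat_lit 401) (nat_lit 5) (nat_lit 413) (nat_lit 5) (nat_lit 402) (nat_lit 5) (nat_lit 612) (nat_lit 578) (nat_lit 370))))) (XT.nd (nat_lit 234) (nat_lit 1672) (nat_lit 0) (XT.nd (nat_lit 78) (nat_lit 836) (nat_lit 0) (XT.lf (nat_lit 0) (nat_lit 7724643568)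 (nat_lit 836) (nat_lit 4768786216) (nat_lit 912) (nat_lit 6147107011) (nat_lit 390) (nat_lit 5) (nat_lit 401) (nat_lit 5) (nat_lit 402) (nat_lit 5) (nat_lit 613) (nat_lit 578) (nat_lit 369)) (XT.nd (nat_lit 78) (nat_lit 836) (nat_lit 0) (XT.lf (nat_lit 0) (nat_lit 14879802340) (nat_lit 912) (nat_lit 643941592) (nat_lit 76) (nat_lit 3320912945) (nat_lit 390) (nat_lit 5) (nat_lit 402) (nat_lit 5) (nat_lit 391) (nat_lit 5) (nat_lit 614) (nat_lit 578) (nat_lit 368)) (XT.lf (nat_lit 0) (nat_lit 9926345106) (nat_lit 836) (nat_lit 7477961549) (nat_lit 912) (nat_lit 1646745090) (nat_lit 379) (nat_lit 5) (nat_lit 390) (nat_lit 5) (nat_lit 391) (nat_lit 5) (nat_lit 615) (nat_lit 578) (nat_lit 367)))) (XT.nd (nat_lit 78) (nat_lit 760) (nat_lit 0) (XT.lf (nat_lit 0) (nat_lit 721432622) (nat_lit 912) (nat_lit 17802124168) (nat_lit 76) (nat_lit 737662589) (nat_lit 367) (nat_lit 5) (nat_lit 379) (nat_lit 5) (nat_lit 368) (nat_lit 5) (nat_lit 616) (nat_lit 578) (nat_lit 366)) (XT.nd (nat_lit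 78) (nat_lit 760) (nat_lit 0) (XT.lf (nat_lit 0) (nat_lit 3220586681) (nat_lit 912) (nat_lit 7162756174) (nat_lit 76) (nat_lit 9089916998) (nat_lit 367) (nat_lit 5) (nat_lit 379) (nat_lit 5) (nat_lit 368) (nat_lit 5) (nat_lit 617) (nat_lit 578) (nat_lit 365)) (XT.lf (nat_lit 0) (nat_lit 3732650312) (nat_lit 760) (nat_lit 2055898626) (nat_lit 836) (nat_lit 13900616129) (nat_lit 357) (nat_lit 5) (nat_lit 367) (nat_lit 5) (nat_lit 368) (nat_lit 5) (nat_lit 618) (nat_lit 578) (nat_lit 364))))))))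
noncomputable def xc194 : XT := (XT.nd (nat_lit 1560) (nat_lit 5168) (nat_lit 0) (XT.nd (nat_lit 780) (nat_lit 3876) (nat_lit 0) (XT.nd (nat_lit 390) (nat_lit 2204) (nat_lit 0) (XT.nd (nat_lit 156) (nat_lit 684) (nat_lit 0) (XT.nd (nat_lit 78) (nat_lit 760) (nat_lit 0) (XT.lf (nat_lit 0) (nat_lit 8492712454) (nat_lit 836) (nat_lit 5013258639) (nat_lit 76) (nat_lit 6401720877) (nat_lit 357) (nat_lit 5) (nat_lit 368) (nat_lit 5) (nat_lit 358) (nat_lit 5) (nat_lit 619) (nat_lit 578) (nat_lit 363)) (XT.lf (nat_lit 0) (nat_lit 6211048702) (nat_lit 760) (nat_lit 5088614215) (nat_lit 836) (nat_lit 8829952839) (nat_lit 347) (nat_lit 5) (nat_lit 357) (nat_lit 5) (nat_lit 358) (nat_lit 5) (nat_lit 620) (nat_lit 578) (nat_lit 362))) (XT.nd (nat_lit 78) (nat_lit 684) (nat_lit 0) (XT.lf (nat_lit 0) (nat_lit 14214147716) (nat_lit 836) (nat_lit 2656156569) (nat_lit 76) (nat_lit 3484646233) (nat_lit 347) (nat_lit 5) (nat_lit 358) (nat_lit 5) (nat_lit 348) (nat_lit 5) (nat_lit 621) (nat_lit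 578) (nat_lit 361)) (XT.nd (nat_lit 78) (nat_lit 0) (nat_lit 0) (XT.lf (nat_lit 0) (nat_lit 8909037103) (nat_lit 684) (nat_lit 8364354880) (nat_lit 760) (nat_lit 3309670998) (nat_lit 338) (nat_lit 5) (nat_lit 347) (nat_lit 5) (nat_lit 348) (nat_lit 5) (nat_lit 622) (nat_lit 578) (nat_lit 360)) (XT.lf (nat_lit 0) (nat_lit 20408773840) (nat_lit 760) (nat_lit 81652796) (nat_lit 76) (nat_lit 325012396) (nat_lit 338) (nat_lit 5) (nat_lit 348) (nat_lit 5) (nat_lit 339) (nat_lit 5) (nat_lit 623) (nat_lit 578) (nat_lit 359))))) (XT.nd (nat_lit 156) (nat_lit 684) (nat_lit 0) (XT.nd (nat_lit 78) (nat_lit 684) (nat_lit 0) (XT.lf (nat_lit 0) (nat_lit 2649072899) (nat_lit 836) (nat_lit 9230485364) (nat_lit 76) (nat_lit 9170009548) (nat_lit 327) (nat_lit 5) (nat_lit 338) (nat_lit 5) (nat_lit 328) (nat_lit 5) (nat_lit 624) (nat_lit 578) (nat_lit 358)) (XT.lf (nat_lit 0) (nat_lit 2697667802) (nat_lit 684) (nat_lit 3075997312) (nat_lit 760) (nat_lit 15514396969) (nat_lit 318) (nat_lit 5) (nat_lit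 327) (nat_lit 5) (nat_lit 328) (nat_lit 5) (nat_lit 625) (nat_lit 578) (nat_lit 357))) (XT.nd (nat_lit 78) (nat_lit 684) (nat_lit 0) (XT.lf (nat_lit 0) (nat_lit 9056599117) (nat_lit 760) (nat_lit 6584964539) (nat_lit 76) (nat_lit 5887845948) (nat_lit 318) (nat_lit 5) (nat_lit 328) (nat_lit 5) (nat_lit 319) (nat_lit 5) (nat_lit 626) (nat_lit 578) (nat_lit 356)) (XT.nd (nat_lit 78) (nat_lit 0) (nat_lit 0) (XT.lf (nat_lit 0) (nat_lit 5709553108) (nat_lit 684) (nat_lit 6748342490) (nat_lit 760) (nat_lit 9316634757) (nat_lit 309) (nat_lit 5) (nat_lit 318) (nat_lit 5) (nat_lit 319) (nat_lit 5) (nat_lit 627) (nat_lit 578) (nat_lit 355)) (XT.lf (nat_lit 0) (nat_lit 15982094683) (nat_lit 760) (nat_lit 3705405068) (nat_lit 76) (nat_lit 2335956585) (nat_lit 309) (nat_lit 5) (nat_lit 319) (nat_lit 5) (nat_lit 310) (nat_lit 5) (nat_lit 628) (nat_lit 578) (nat_lit 354)))))) (XT.nd (nat_lit 390) (nat_lit 1900) (nat_lit 0) (XT.nd (nat_lit 156) (nat_lit 1292) (nat_lit 0) (XT.nd (nat_lit 78)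 (nat_lit 76) (nat_lit 0) (XT.lf (nat_lit 0) (nat_lit 8968820806) (nat_lit 608) (nat_lit 10706286022) (nat_lit 684) (nat_lit 2600287770) (nat_lit 301) (nat_lit 5) (nat_lit 309) (nat_lit 5) (nat_lit 310) (nat_lit 5) (nat_lit 629) (nat_lit 578) (nat_lit 353)) (XT.lf (nat_lit 0) (nat_lit 918138718) (nat_lit 684) (nat_lit 596685298) (nat_lit 76) (nat_lit 21017020606) (nat_lit 300) (nat_lit 5) (nat_lit 309) (nat_lit 5) (nat_lit 301) (nat_lit 5) (nat_lit 630) (nat_lit 578) (nat_lit 352))) (XT.nd (nat_lit 78) (nat_lit 608) (nat_lit 0) (XT.lf (nat_lit 0) (nat_lit 4600565981) (nat_lit 760) (nat_lit 10334381549) (nat_lit 76) (nat_lit 7855563678) (nat_lit 291) (nat_lit 5) (nat_lit 301) (nat_lit 5) (nat_lit 292) (nat_lit 5) (nat_lit 631) (nat_lit 578) (nat_lit 351)) (XT.nd (nat_lit 78) (nat_lit 0) (nat_lit 0) (XT.lf (nat_lit 0) (nat_lit 2744312815) (nat_lit 608) (nat_lit 5639776926) (nat_lit 684) (nat_lit 14669712741) (nat_lit 283) (nat_lit 5) (nat_lit 291) (nat_lit 5) (nat_lit 292) (nat_lit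 5) (nat_lit 632) (nat_lit 578) (nat_lit 350)) (XT.lf (nat_lit 0) (nat_lit 12333645340) (nat_lit 684) (nat_lit 7127190261) (nat_lit 76) (nat_lit 3859717064) (nat_lit 283) (nat_lit 5) (nat_lit 292) (nat_lit 5) (nat_lit 284) (nat_lit 5) (nat_lit 633) (nat_lit 578) (nat_lit 349))))) (XT.nd (nat_lit 156) (nat_lit 1292) (nat_lit 0) (XT.nd (nat_lit 78) (nat_lit 0) (nat_lit 0) (XT.lf (nat_lit 0) (nat_lit 6359433798) (nat_lit 608) (nat_lit 10077096163) (nat_lit 684) (nat_lit 7154621435) (nat_lit 275) (nat_lit 5) (nat_lit 283) (nat_lit 5) (nat_lit 284) (nat_lit 5) (nat_lit 634) (nat_lit 578) (nat_lit 348)) (XT.lf (nat_lit 0) (nat_lit 20207059717) (nat_lit 608) (nat_lit 457988147) (nat_lit 684) (nat_lit 3201243024) (nat_lit 275) (nat_lit 5) (nat_lit 283) (nat_lit 5) (nat_lit 284) (nat_lit 5) (nat_lit 635) (nat_lit 578) (nat_lit 347))) (XT.nd (nat_lit 78) (nat_lit 608) (nat_lit 0) (XT.lf (nat_lit 0) (nat_lit 944240786) (nat_lit 684) (nat_lit 13897549093) (nat_lit 76) (nat_lit 9302556857)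 (nat_lit 266) (nat_lit 5) (nat_lit 275) (nat_lit 5) (nat_lit 267) (nat_lit 5) (nat_lit 636) (nat_lit 578) (nat_lit 346)) (XT.nd (nat_lit 78) (nat_lit 0) (nat_lit 0) (XT.lf (nat_lit 0) (nat_lit 23656516) (nat_lit 608) (nat_lit 5129902589) (nat_lit 684) (nat_lit 19273505884) (nat_lit 258) (nat_lit 5) (nat_lit 266) (nat_lit 5) (nat_lit 267) (nat_lit 5) (nat_lit 637) (nat_lit 578) (nat_lit 345)) (XT.lf (nat_lit 0) (nat_lit 9567835812) (nat_lit 684) (nat_lit 10338902956) (nat_lit 76) (nat_lit 4806283672) (nat_lit 258) (nat_lit 5) (nat_lit 267) (nat_lit 5) (nat_lit 259) (nat_lit 5) (nat_lit 638) (nat_lit 578) (nat_lit 344))))))) (XT.nd (nat_lit 780) (nat_lit 1900) (nat_lit 0) (XT.nd (nat_lit 390) (nat_lit 1596) (nat_lit 0) (XT.nd (nat_lit 156) (nat_lit 1140) (nat_lit 0) (XT.nd (nat_lit 78) (nat_lit 0) (nat_lit 0) (XT.lf (nat_lit 0) (nat_lit 4020379472) (nat_lit 532) (nat_lit 10106059252) (nat_lit 608) (nat_lit 10877139774) (nat_lit 251) (nat_lit 5) (nat_lit 258) (nat_lit 5) (nat_lit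 259) (nat_lit 5) (nat_lit 639) (nat_lit 578) (nat_lit 343)) (XT.lf (nat_lit 0) (nat_lit 18801760425) (nat_lit 532) (nat_lit 39842726) (nat_lit 608) (nat_lit 6457034999) (nat_lit 251) (nat_lit 5) (nat_lit 258) (nat_lit 5) (nat_lit 259) (nat_lit 5) (nat_lit 640) (nat_lit 578) (nat_lit 342))) (XT.nd (nat_lit 78) (nat_lit 608) (nat_lit 0) (XT.lf (nat_lit 0) (nat_lit 8316637566) (nat_lit 532) (nat_lit 15450915726) (nat_lit 608) (nat_lit 1829716316) (nat_lit 244) (nat_lit 5) (nat_lit 251) (nat_lit 5) (nat_lit 252) (nat_lit 5) (nat_lit 641) (nat_lit 578) (nat_lit 341)) (XT.nd (nat_lit 78) (nat_lit 532) (nat_lit 0) (XT.lf (nat_lit 0) (nat_lit 2892491653) (nat_lit 608) (nat_lit 2411048559) (nat_lit 76) (nat_lit 20597153480) (nat_lit 243) (nat_lit 5) (nat_lit 251) (nat_lit 5) (nat_lit 244) (nat_lit 5) (nat_lit 642) (nat_lit 578) (nat_lit 340)) (XT.lf (nat_lit 0) (nat_lit 7798042103) (nat_lit 608) (nat_lit 13333755864) (nat_lit 76) (nat_lit 5075878684) (nat_lit 236) (nat_lit 5) (nat_lit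 244) (nat_lit 5) (nat_lit 237) (nat_lit 5) (nat_lit 643) (nat_lit 578) (nat_lit 339))))) (XT.nd (nat_lit 156) (nat_lit 1064) (nat_lit 0) (XT.nd (nat_lit 78) (nat_lit 0) (nat_lit 0) (XT.lf (nat_lit 0) (nat_lit 1962149261) (nat_lit 532) (nat_lit 10899910979) (nat_lit 608) (nat_lit 13657532132) (nat_lit 229) (nat_lit 5) (nat_lit 236) (nat_lit 5) (nat_lit 237) (nat_lit 5) (nat_lit 644) (nat_lit 578) (nat_lit 338)) (XT.lf (nat_lit 0) (nat_lit 17739597961) (nat_lit 532) (nat_lit 373486202) (nat_lit 608) (nat_lit 8722947973) (nat_lit 229) (nat_lit 5) (nat_lit 236) (nat_lit 5) (nat_lit 237) (nat_lit 5) (nat_lit 645) (nat_lit 578) (nat_lit 337))) (XT.nd (nat_lit 78) (nat_lit 608) (nat_lit 0) (XT.lf (nat_lit 0) (nat_lit 6689156073) (nat_lit 456) (nat_lit 16887003190) (nat_lit 532) (nat_lit 3580501048) (nat_lit 223) (nat_lit 5) (nat_lit 229) (nat_lit 5) (nat_lit 230) (nat_lit 5) (nat_lit 646) (nat_lit 578) (nat_lit 336)) (XT.nd (nat_lit 78) (nat_lit 532) (nat_lit 0) (XT.lf (nat_lit 0)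 (nat_lit 1703209148) (nat_lit 532) (nat_lit 4587501572) (nat_lit 76) (nat_lit 21191569404) (nat_lit 222) (nat_lit 5) (nat_lit 229) (nat_lit 5) (nat_lit 223) (nat_lit 5) (nat_lit 647) (nat_lit 578) (nat_lit 335)) (XT.lf (nat_lit 0) (nat_lit 7147272892) (nat_lit 608) (nat_lit 16107167279) (nat_lit 76) (nat_lit 4557446589) (nat_lit 215) (nat_lit 5) (nat_lit 223) (nat_lit 5) (nat_lit 216) (nat_lit 5) (nat_lit 648) (nat_lit 578) (nat_lit 334)))))) (XT.nd (nat_lit 390) (nat_lit 456) (nat_lit 0) (XT.nd (nat_lit 156) (nat_lit 988) (nat_lit 0) (XT.nd (nat_lit 78) (nat_lit 0) (nat_lit 0) (XT.lf (nat_lit 0) (nat_lit 193141880) (nat_lit 456) (nat_lit 12577408885) (nat_lit 532) (nat_lit 15376128320) (nat_lit 209) (nat_lit 5) (nat_lit 215) (nat_lit 5) (nat_lit 216) (nat_lit 5) (nat_lit 649) (nat_lit 578) (nat_lit 333)) (XT.lf (nat_lit 0) (nat_lit 17032800277) (nat_lit 456) (nat_lit 1578049158) (nat_lit 532) (nat_lit 9875226927) (nat_lit 209) (nat_lit 5) (nat_lit 215) (nat_lit 5) (nat_lit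 216) (nat_lit 5) (nat_lit 650) (nat_lit 578) (nat_lit 332))) (XT.nd (nat_lit 78) (nat_lit 532) (nat_lit 0) (XT.lf (nat_lit 0) (nat_lit 5379996090) (nat_lit 456) (nat_lit 19282013816) (nat_lit 532) (nat_lit 4168370765) (nat_lit 203) (nat_lit 5) (nat_lit 209) (nat_lit 5) (nat_lit 210) (nat_lit 5) (nat_lit 651) (nat_lit 578) (nat_lit 331)) (XT.nd (nat_lit 78) (nat_lit 456) (nat_lit 0) (XT.lf (nat_lit 0) (nat_lit 1715306026) (nat_lit 532) (nat_lit 6501507247) (nat_lit 76) (nat_lit 20962856232) (nat_lit 202) (nat_lit 5) (nat_lit 209) (nat_lit 5) (nat_lit 203) (nat_lit 5) (nat_lit 652) (nat_lit 578) (nat_lit 330)) (XT.lf (nat_lit 0) (nat_lit 7748824019) (nat_lit 532) (nat_lit 18657833656) (nat_lit 76) (nat_lit 3126975932) (nat_lit 196) (nat_lit 5) (nat_lit 203) (nat_lit 5) (nat_lit 197) (nat_lit 5) (nat_lit 653) (nat_lit 578) (nat_lit 329))))) (XT.nd (nat_lit 75426) (nat_lit 0) (nat_lit 22648) (XT.nd (nat_lit 78) (nat_lit 456) (nat_lit 0) (XT.lf (nat_lit 0) (nat_lit 13997979876)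 (nat_lit 532) (nat_lit 1264624224) (nat_lit 76) (nat_lit 14630173729) (nat_lit 196) (nat_lit 5) (nat_lit 203) (nat_lit 5) (nat_lit 197) (nat_lit 5) (nat_lit 654) (nat_lit 578) (nat_lit 328)) (XT.nd (nat_lit 75270) (nat_lit 0) (nat_lit 22648) (XT.lf (nat_lit 0) (nat_lit 16690547132) (nat_lit 456) (nat_lit 3786637876) (nat_lit 532) (nat_lit 9779818789) (nat_lit 190) (nat_lit 5) (nat_lit 196) (nat_lit 5) (nat_lit 197) (nat_lit 5) (nat_lit 655) (nat_lit 578) (nat_lit 327)) (XT.lf (nat_lit 0) (nat_lit 483626855) (nat_lit 0) (nat_lit 483626855) (nat_lit 1748) (nat_lit 5696254073) (nat_lit 488) (nat_lit 5) (nat_lit 488) (nat_lit 3) (nat_lit 511) (nat_lit 3) (nat_lit 579) (nat_lit 579) (nat_lit 402)))) (XT.nd (nat_lit 78) (nat_lit 0) (nat_lit 0) (XT.lf (nat_lit 0) (nat_lit 2370726858) (nat_lit 1748) (nat_lit 5807843424) (nat_lit 1824) (nat_lit 5273342181) (nat_lit 488) (nat_lit 5) (nat_lit 511) (nat_lit 3) (nat_lit 512) (nat_lit 5) (nat_lit 580) (nat_lit 579) (nat_lit 401)) (XT.nd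 (nat_lit 78) (nat_lit 0) (nat_lit 76) (XT.lf (nat_lit 76) (nat_lit 874936316) (nat_lit 0) (nat_lit 1942828476) (nat_lit 1824) (nat_lit 10761501560) (nat_lit 489) (nat_lit 5) (nat_lit 488) (nat_lit 5) (nat_lit 512) (nat_lit 5) (nat_lit 581) (nat_lit 579) (nat_lit 400)) (XT.lf (nat_lit 0) (nat_lit 3331857311) (nat_lit 1748) (nat_lit 5972668970) (nat_lit 1824) (nat_lit 4403479682) (nat_lit 489) (nat_lit 5) (nat_lit 512) (nat_lit 5) (nat_lit 513) (nat_lit 5) (nat_lit 582) (nat_lit 579) (nat_lit 399))))))))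
noncomputable def xc195 : XT := (XT.nd (nat_lit 1560) (nat_lit 10184) (nat_lit 0) (XT.nd (nat_lit 780) (nat_lit 1292) (nat_lit 0) (XT.nd (nat_lit 390) (nat_lit 0) (nat_lit 228) (XT.nd (nat_lit 156) (nat_lit 0) (nat_lit 76) (XT.nd (nat_lit 78) (nat_lit 0) (nat_lit 76) (XT.lf (nat_lit 76) (nat_lit 887060165) (nat_lit 0) (nat_lit 2978189333) (nat_lit 1824) (nat_lit 9973891414) (nat_lit 490) (nat_lit 5) (nat_lit 489) (nat_lit 5) (nat_lit 513) (nat_lit 5) (nat_lit 583) (nat_lit 579) (nat_lit 398)) (XT.lf (nat_lit 0) (nat_lit 4462787605) (nat_lit 1748) (nat_lit 6035491859) (nat_lit 1824) (nat_lit 3473550418) (nat_lit 490) (nat_lit 5) (nat_lit 513) (nat_lit 5) (nat_lit 514) (nat_lit 5) (nat_lit 584) (nat_lit 579) (nat_lit 397))) (XT.nd (nat_lit 78) (nat_lit 0) (nat_lit 76) (XT.lf (nat_lit 76) (nat_lit 1007512982) (nat_lit 0) (nat_lit 4081785888) (nat_lit 1824) (nat_lit 9017534180) (nat_lit 491) (nat_lit 5) (nat_lit 490) (nat_lit 5) (nat_lit 514) (nat_lit 5) (nat_lit 585) (nat_lit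 579) (nat_lit 396)) (XT.nd (nat_lit 78) (nat_lit 0) (nat_lit 0) (XT.lf (nat_lit 0) (nat_lit 5776029962) (nat_lit 1748) (nat_lit 5992373360) (nat_lit 1824) (nat_lit 2475180018) (nat_lit 491) (nat_lit 5) (nat_lit 514) (nat_lit 5) (nat_lit 515) (nat_lit 5) (nat_lit 586) (nat_lit 579) (nat_lit 395)) (XT.lf (nat_lit 76) (nat_lit 1240481279) (nat_lit 0) (nat_lit 5262206373) (nat_lit 1824) (nat_lit 7879857978) (nat_lit 492) (nat_lit 5) (nat_lit 491) (nat_lit 5) (nat_lit 515) (nat_lit 5) (nat_lit 587) (nat_lit 579) (nat_lit 394))))) (XT.nd (nat_lit 156) (nat_lit 0) (nat_lit 76) (XT.nd (nat_lit 78) (nat_lit 0) (nat_lit 0) (XT.lf (nat_lit 0) (nat_lit 7284545381) (nat_lit 1748) (nat_lit 5839079629) (nat_lit 1824) (nat_lit 1399849634) (nat_lit 492) (nat_lit 5) (nat_lit 515) (nat_lit 5) (nat_lit 516) (nat_lit 5) (nat_lit 588) (nat_lit 579) (nat_lit 393)) (XT.lf (nat_lit 76) (nat_lit 1590455290) (nat_lit 0) (nat_lit 6528198490) (nat_lit 1824) (nat_lit 6547836989) (nat_lit 493) (nat_lit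 5) (nat_lit 492) (nat_lit 5) (nat_lit 516) (nat_lit 5) (nat_lit 589) (nat_lit 579) (nat_lit 392))) (XT.nd (nat_lit 78) (nat_lit 0) (nat_lit 0) (XT.lf (nat_lit 0) (nat_lit 9001769648) (nat_lit 1748) (nat_lit 5571076546) (nat_lit 1824) (nat_lit 238875301) (nat_lit 493) (nat_lit 5) (nat_lit 516) (nat_lit 5) (nat_lit 517) (nat_lit 5) (nat_lit 590) (nat_lit 579) (nat_lit 391)) (XT.nd (nat_lit 78) (nat_lit 0) (nat_lit 0) (XT.lf (nat_lit 76) (nat_lit 2062234502) (nat_lit 0) (nat_lit 7888690321) (nat_lit 1824) (nat_lit 5007965243) (nat_lit 494) (nat_lit 5) (nat_lit 493) (nat_lit 5) (nat_lit 517) (nat_lit 5) (nat_lit 591) (nat_lit 579) (nat_lit 390)) (XT.lf (nat_lit 76) (nat_lit 9918205227) (nat_lit 0) (nat_lit 1030123036) (nat_lit 1824) (nat_lit 4160089198) (nat_lit 494) (nat_lit 5) (nat_lit 493) (nat_lit 5) (nat_lit 517) (nat_lit 5) (nat_lit 592) (nat_lit 579) (nat_lit 389)))))) (XT.nd (nat_lit 390) (nat_lit 0) (nat_lit 0) (XT.nd (nat_lit 156) (nat_lit 1672) (nat_lit 0) (XT.nd (nat_lit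 78) (nat_lit 0) (nat_lit 0) (XT.lf (nat_lit 76) (nat_lit 2660933740) (nat_lit 0) (nat_lit 9352811349) (nat_lit 1824) (nat_lit 3246229746) (nat_lit 495) (nat_lit 5) (nat_lit 494) (nat_lit 5) (nat_lit 518) (nat_lit 5) (nat_lit 593) (nat_lit 579) (nat_lit 388)) (XT.lf (nat_lit 76) (nat_lit 10726989337) (nat_lit 0) (nat_lit 2407262830) (nat_lit 1824) (nat_lit 2279636280) (nat_lit 495) (nat_lit 5) (nat_lit 494) (nat_lit 5) (nat_lit 518) (nat_lit 5) (nat_lit 594) (nat_lit 579) (nat_lit 387))) (XT.nd (nat_lit 78) (nat_lit 1748) (nat_lit 0) (XT.lf (nat_lit 76) (nat_lit 3391989843) (nat_lit 0) (nat_lit 10929913645) (nat_lit 1824) (nat_lit 1248082869) (nat_lit 496) (nat_lit 5) (nat_lit 495) (nat_lit 5) (nat_lit 519) (nat_lit 5) (nat_lit 595) (nat_lit 579) (nat_lit 386)) (XT.nd (nat_lit 78) (nat_lit 1748) (nat_lit 0) (XT.lf (nat_lit 76) (nat_lit 11674256701) (nat_lit 0) (nat_lit 3898797453) (nat_lit 1824) (nat_lit 155357844) (nat_lit 496) (nat_lit 5) (nat_lit 495) (nat_lit 5) (nat_lit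 519) (nat_lit 5) (nat_lit 596) (nat_lit 579) (nat_lit 385)) (XT.lf (nat_lit 0) (nat_lit 988450041) (nat_lit 1824) (nat_lit 11634510205) (nat_lit 1900) (nat_lit 3266085842) (nat_lit 472) (nat_lit 5) (nat_lit 496) (nat_lit 5) (nat_lit 497) (nat_lit 5) (nat_lit 597) (nat_lit 579) (nat_lit 384))))) (XT.nd (nat_lit 156) (nat_lit 0) (nat_lit 76) (XT.nd (nat_lit 78) (nat_lit 0) (nat_lit 76) (XT.lf (nat_lit 0) (nat_lit 2198938826) (nat_lit 1824) (nat_lit 3300712264) (nat_lit 1900) (nat_lit 10552304190) (nat_lit 472) (nat_lit 5) (nat_lit 496) (nat_lit 5) (nat_lit 497) (nat_lit 5) (nat_lit 598) (nat_lit 579) (nat_lit 383)) (XT.lf (nat_lit 0) (nat_lit 3472334265) (nat_lit 1824) (nat_lit 10966076472) (nat_lit 1900) (nat_lit 1778938625) (nat_lit 473) (nat_lit 5) (nat_lit 497) (nat_lit 5) (nat_lit 498) (nat_lit 5) (nat_lit 599) (nat_lit 579) (nat_lit 382))) (XT.nd (nat_lit 78) (nat_lit 0) (nat_lit 76) (XT.lf (nat_lit 0) (nat_lit 4822851150) (nat_lit 1824) (nat_lit 2408831217) (nat_lit 1900)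 (nat_lit 9153336520) (nat_lit 473) (nat_lit 5) (nat_lit 497) (nat_lit 5) (nat_lit 498) (nat_lit 5) (nat_lit 600) (nat_lit 579) (nat_lit 381)) (XT.nd (nat_lit 78) (nat_lit 0) (nat_lit 0) (XT.lf (nat_lit 0) (nat_lit 6236049620) (nat_lit 1824) (nat_lit 10158522180) (nat_lit 1900) (nat_lit 160757195) (nat_lit 474) (nat_lit 5) (nat_lit 498) (nat_lit 5) (nat_lit 499) (nat_lit 5) (nat_lit 601) (nat_lit 579) (nat_lit 380)) (XT.lf (nat_lit 0) (nat_lit 7734857989) (nat_lit 1824) (nat_lit 1371202539) (nat_lit 1900) (nat_lit 7621838467) (nat_lit 474) (nat_lit 5) (nat_lit 498) (nat_lit 5) (nat_lit 499) (nat_lit 5) (nat_lit 602) (nat_lit 579) (nat_lit 379))))))) (XT.nd (nat_lit 780) (nat_lit 4788) (nat_lit 0) (XT.nd (nat_lit 390) (nat_lit 2736) (nat_lit 0) (XT.nd (nat_lit 156) (nat_lit 2812) (nat_lit 0) (XT.nd (nat_lit 78) (nat_lit 0) (nat_lit 76) (XT.lf (nat_lit 76) (nat_lit 7687101321) (nat_lit 0) (nat_lit 1619767059) (nat_lit 1900) (nat_lit 7596188092) (nat_lit 475) (nat_lit 5) (nat_lit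 474) (nat_lit 5) (nat_lit 499) (nat_lit 5) (nat_lit 603) (nat_lit 579) (nat_lit 378)) (XT.lf (nat_lit 0) (nat_lit 10952060860) (nat_lit 1824) (nat_lit 181179566) (nat_lit 76) (nat_lit 5947642420) (nat_lit 475) (nat_lit 5) (nat_lit 499) (nat_lit 5) (nat_lit 476) (nat_lit 5) (nat_lit 604) (nat_lit 579) (nat_lit 377))) (XT.nd (nat_lit 78) (nat_lit 1064) (nat_lit 0) (XT.lf (nat_lit 0) (nat_lit 9137838075) (nat_lit 1824) (nat_lit 3555921963) (nat_lit 1900) (nat_lit 4567234222) (nat_lit 451) (nat_lit 5) (nat_lit 475) (nat_lit 5) (nat_lit 476) (nat_lit 5) (nat_lit 605) (nat_lit 579) (nat_lit 376)) (XT.nd (nat_lit 78) (nat_lit 0) (nat_lit 0) (XT.lf (nat_lit 0) (nat_lit 1183764695) (nat_lit 1064) (nat_lit 13316174651) (nat_lit 1140) (nat_lit 2944176195) (nat_lit 437) (nat_lit 5) (nat_lit 451) (nat_lit 5) (nat_lit 452) (nat_lit 5) (nat_lit 606) (nat_lit 579) (nat_lit 375)) (XT.lf (nat_lit 0) (nat_lit 10757443246) (nat_lit 1064) (nat_lit 5656434949) (nat_lit 1140) (nat_lit 1215588884)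 (nat_lit 437) (nat_lit 5) (nat_lit 451) (nat_lit 5) (nat_lit 452) (nat_lit 5) (nat_lit 607) (nat_lit 579) (nat_lit 374))))) (XT.nd (nat_lit 156) (nat_lit 1748) (nat_lit 0) (XT.nd (nat_lit 78) (nat_lit 0) (nat_lit 0) (XT.lf (nat_lit 0) (nat_lit 566077320) (nat_lit 988) (nat_lit 15101644430) (nat_lit 76) (nat_lit 2150219551) (nat_lit 424) (nat_lit 5) (nat_lit 437) (nat_lit 5) (nat_lit 425) (nat_lit 5) (nat_lit 608) (nat_lit 579) (nat_lit 373)) (XT.lf (nat_lit 0) (nat_lit 2444896885) (nat_lit 988) (nat_lit 5471233815) (nat_lit 76) (nat_lit 10092338187) (nat_lit 424) (nat_lit 5) (nat_lit 437) (nat_lit 5) (nat_lit 425) (nat_lit 5) (nat_lit 609) (nat_lit 579) (nat_lit 372))) (XT.nd (nat_lit 78) (nat_lit 836) (nat_lit 0) (XT.lf (nat_lit 0) (nat_lit 4384037522) (nat_lit 988) (nat_lit 13798521775) (nat_lit 76) (nat_lit 19793341) (nat_lit 412) (nat_lit 5) (nat_lit 425) (nat_lit 5) (nat_lit 413) (nat_lit 5) (nat_lit 610) (nat_lit 579) (nat_lit 371)) (XT.nd (nat_lit 78) (nat_lit 836)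 (nat_lit 0) (XT.lf (nat_lit 0) (nat_lit 6445448236) (nat_lit 988) (nat_lit 3907150910) (nat_lit 76) (nat_lit 8045845673) (nat_lit 412) (nat_lit 5) (nat_lit 425) (nat_lit 5) (nat_lit 413) (nat_lit 5) (nat_lit 611) (nat_lit 579) (nat_lit 370)) (XT.lf (nat_lit 0) (nat_lit 6258576650) (nat_lit 836) (nat_lit 2324365494) (nat_lit 912) (nat_lit 10014820088) (nat_lit 401) (nat_lit 5) (nat_lit 412) (nat_lit 5) (nat_lit 413) (nat_lit 5) (nat_lit 612) (nat_lit 579) (nat_lit 369)))))) (XT.nd (nat_lit 390) (nat_lit 2204) (nat_lit 0) (XT.nd (nat_lit 156) (nat_lit 1748) (nat_lit 0) (XT.nd (nat_lit 78) (nat_lit 836) (nat_lit 0) (XT.lf (nat_lit 0) (nat_lit 10821953263) (nat_lit 912) (nat_lit 2163842093) (nat_lit 76) (nat_lit 5814095768) (nat_lit 401) (nat_lit 5) (nat_lit 413) (nat_lit 5) (nat_lit 402) (nat_lit 5) (nat_lit 613) (nat_lit 579) (nat_lit 368)) (XT.lf (nat_lit 0) (nat_lit 8302988462) (nat_lit 836) (nat_lit 4866468455) (nat_lit 912) (nat_lit 5835331900) (nat_lit 390) (nat_lit 5)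 (nat_lit 401) (nat_lit 5) (nat_lit 402) (nat_lit 5) (nat_lit 614) (nat_lit 579) (nat_lit 367))) (XT.nd (nat_lit 78) (nat_lit 1748) (nat_lit 0) (XT.lf (nat_lit 0) (nat_lit 15595186193) (nat_lit 912) (nat_lit 232873648) (nat_lit 76) (nat_lit 3385099572) (nat_lit 390) (nat_lit 5) (nat_lit 402) (nat_lit 5) (nat_lit 391) (nat_lit 5) (nat_lit 615) (nat_lit 579) (nat_lit 366)) (XT.nd (nat_lit 78) (nat_lit 912) (nat_lit 0) (XT.lf (nat_lit 0) (nat_lit 10546029660) (nat_lit 836) (nat_lit 7618693451) (nat_lit 912) (nat_lit 1259068900) (nat_lit 379) (nat_lit 5) (nat_lit 390) (nat_lit 5) (nat_lit 391) (nat_lit 5) (nat_lit 616) (nat_lit 579) (nat_lit 365)) (XT.lf (nat_lit 0) (nat_lit 1145661252) (nat_lit 912) (nat_lit 17726131557) (nat_lit 76) (nat_lit 766422121) (nat_lit 367) (nat_lit 5) (nat_lit 379) (nat_lit 5) (nat_lit 368) (nat_lit 5) (nat_lit 617) (nat_lit 579) (nat_lit 364))))) (XT.nd (nat_lit 234) (nat_lit 1444) (nat_lit 0) (XT.nd (nat_lit 78) (nat_lit 760) (nat_lit 0) (XT.lf (nat_lit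 0) (nat_lit 3686763099) (nat_lit 912) (nat_lit 6882447479) (nat_lit 76) (nat_lit 9285446986) (nat_lit 367) (nat_lit 5) (nat_lit 379) (nat_lit 5) (nat_lit 368) (nat_lit 5) (nat_lit 618) (nat_lit 579) (nat_lit 363)) (XT.nd (nat_lit 78) (nat_lit 0) (nat_lit 0) (XT.lf (nat_lit 0) (nat_lit 4228080533) (nat_lit 760) (nat_lit 2072858295) (nat_lit 836) (nat_lit 13774045602) (nat_lit 357) (nat_lit 5) (nat_lit 367) (nat_lit 5) (nat_lit 368) (nat_lit 5) (nat_lit 619) (nat_lit 579) (nat_lit 362)) (XT.lf (nat_lit 0) (nat_lit 9051562548) (nat_lit 836) (nat_lit 4693343124) (nat_lit 76) (nat_lit 6553129278) (nat_lit 357) (nat_lit 5) (nat_lit 368) (nat_lit 5) (nat_lit 358) (nat_lit 5) (nat_lit 620) (nat_lit 579) (nat_lit 361)))) (XT.nd (nat_lit 78) (nat_lit 684) (nat_lit 0) (XT.lf (nat_lit 0) (nat_lit 6752686017) (nat_lit 760) (nat_lit 5157048777) (nat_lit 836) (nat_lit 8614761368) (nat_lit 347) (nat_lit 5) (nat_lit 357) (nat_lit 5) (nat_lit 358) (nat_lit 5) (nat_lit 621) (nat_lit 579) (nat_lit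 360)) (XT.nd (nat_lit 78) (nat_lit 684) (nat_lit 0) (XT.lf (nat_lit 0) (nat_lit 14875190543) (nat_lit 836) (nat_lit 2292699506) (nat_lit 76) (nat_lit 3586594542) (nat_lit 347) (nat_lit 5) (nat_lit 358) (nat_lit 5) (nat_lit 348) (nat_lit 5) (nat_lit 622) (nat_lit 579) (nat_lit 359)) (XT.lf (nat_lit 0) (nat_lit 9501057380) (nat_lit 684) (nat_lit 8489861787) (nat_lit 760) (nat_lit 2996334729) (nat_lit 338) (nat_lit 5) (nat_lit 347) (nat_lit 5) (nat_lit 348) (nat_lit 5) (nat_lit 623) (nat_lit 579) (nat_lit 358))))))))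
noncomputable def xc196 : XT := (XT.nd (nat_lit 1560) (nat_lit 3572) (nat_lit 0) (XT.nd (nat_lit 780) (nat_lit 3040) (nat_lit 0) (XT.nd (nat_lit 390) (nat_lit 1976) (nat_lit 0) (XT.nd (nat_lit 156) (nat_lit 1368) (nat_lit 0) (XT.nd (nat_lit 78) (nat_lit 76) (nat_lit 0) (XT.lf (nat_lit 0) (nat_lit 333875946) (nat_lit 760) (nat_lit 20850271124) (nat_lit 836) (nat_lit 40228201) (nat_lit 328) (nat_lit 5) (nat_lit 338) (nat_lit 5) (nat_lit 339) (nat_lit 5) (nat_lit 624) (nat_lit 579) (nat_lit 357)) (XT.lf (nat_lit 0) (nat_lit 3065004651) (nat_lit 836) (nat_lit 9000176899) (nat_lit 76) (nat_lit 9398091137) (nat_lit 327) (nat_lit 5) (nat_lit 338) (nat_lit 5) (nat_lit 328) (nat_lit 5) (nat_lit 625) (nat_lit 579) (nat_lit 356))) (XT.nd (nat_lit 78) (nat_lit 684) (nat_lit 0) (XT.lf (nat_lit 0) (nat_lit 3163809605) (nat_lit 684) (nat_lit 3083838633) (nat_lit 760) (nat_lit 15458977953) (nat_lit 318) (nat_lit 5) (nat_lit 327) (nat_lit 5) (nat_lit 328) (nat_lit 5) (nat_lit 626) (nat_lit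 579) (nat_lit 355)) (XT.nd (nat_lit 78) (nat_lit 684) (nat_lit 0) (XT.lf (nat_lit 0) (nat_lit 9589553000) (nat_lit 760) (nat_lit 6305843179) (nat_lit 76) (nat_lit 6057538770) (nat_lit 318) (nat_lit 5) (nat_lit 328) (nat_lit 5) (nat_lit 319) (nat_lit 5) (nat_lit 627) (nat_lit 579) (nat_lit 354)) (XT.lf (nat_lit 0) (nat_lit 6231862053) (nat_lit 684) (nat_lit 6822764662) (nat_lit 760) (nat_lit 9148416892) (nat_lit 309) (nat_lit 5) (nat_lit 318) (nat_lit 5) (nat_lit 319) (nat_lit 5) (nat_lit 628) (nat_lit 579) (nat_lit 353))))) (XT.nd (nat_lit 156) (nat_lit 1368) (nat_lit 0) (XT.nd (nat_lit 78) (nat_lit 608) (nat_lit 0) (XT.lf (nat_lit 0) (nat_lit 16642880009) (nat_lit 760) (nat_lit 3372942442) (nat_lit 76) (nat_lit 2441254760) (nat_lit 309) (nat_lit 5) (nat_lit 319) (nat_lit 5) (nat_lit 310) (nat_lit 5) (nat_lit 629) (nat_lit 579) (nat_lit 352)) (XT.lf (nat_lit 0) (nat_lit 9552093142) (nat_lit 608) (nat_lit 10853592528) (nat_lit 684) (nat_lit 2308450400) (nat_lit 301) (nat_lit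 5) (nat_lit 309) (nat_lit 5) (nat_lit 310) (nat_lit 5) (nat_lit 630) (nat_lit 579) (nat_lit 351))) (XT.nd (nat_lit 78) (nat_lit 1292) (nat_lit 0) (XT.lf (nat_lit 0) (nat_lit 1269181453) (nat_lit 684) (nat_lit 208197551) (nat_lit 76) (nat_lit 21498424991) (nat_lit 300) (nat_lit 5) (nat_lit 309) (nat_lit 5) (nat_lit 301) (nat_lit 5) (nat_lit 631) (nat_lit 579) (nat_lit 350)) (XT.nd (nat_lit 78) (nat_lit 608) (nat_lit 0) (XT.lf (nat_lit 0) (nat_lit 5021765126) (nat_lit 760) (nat_lit 10137132140) (nat_lit 76) (nat_lit 8080816959) (nat_lit 291) (nat_lit 5) (nat_lit 301) (nat_lit 5) (nat_lit 292) (nat_lit 5) (nat_lit 632) (nat_lit 579) (nat_lit 349)) (XT.lf (nat_lit 0) (nat_lit 3200478630) (nat_lit 608) (nat_lit 5676631441) (nat_lit 684) (nat_lit 14631238699) (nat_lit 283) (nat_lit 5) (nat_lit 291) (nat_lit 5) (nat_lit 292) (nat_lit 5) (nat_lit 633) (nat_lit 579) (nat_lit 348)))))) (XT.nd (nat_lit 390) (nat_lit 1140) (nat_lit 0) (XT.nd (nat_lit 156) (nat_lit 1292) (nat_lit 0) (XT.nd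 (nat_lit 78) (nat_lit 608) (nat_lit 0) (XT.lf (nat_lit 0) (nat_lit 12899760986) (nat_lit 684) (nat_lit 6870404399) (nat_lit 76) (nat_lit 4010386938) (nat_lit 283) (nat_lit 5) (nat_lit 292) (nat_lit 5) (nat_lit 284) (nat_lit 5) (nat_lit 634) (nat_lit 579) (nat_lit 347)) (XT.lf (nat_lit 0) (nat_lit 6883324972) (nat_lit 608) (nat_lit 10197690400) (nat_lit 684) (nat_lit 6975621857) (nat_lit 275) (nat_lit 5) (nat_lit 283) (nat_lit 5) (nat_lit 284) (nat_lit 5) (nat_lit 635) (nat_lit 579) (nat_lit 346))) (XT.nd (nat_lit 78) (nat_lit 1292) (nat_lit 0) (XT.lf (nat_lit 0) (nat_lit 21000124929) (nat_lit 608) (nat_lit 387787434) (nat_lit 684) (nat_lit 2949491408) (nat_lit 275) (nat_lit 5) (nat_lit 283) (nat_lit 5) (nat_lit 284) (nat_lit 5) (nat_lit 636) (nat_lit 579) (nat_lit 345)) (XT.nd (nat_lit 78) (nat_lit 608) (nat_lit 0) (XT.lf (nat_lit 0) (nat_lit 1271720771) (nat_lit 684) (nat_lit 13779352687) (nat_lit 76) (nat_lit 9569967485) (nat_lit 266) (nat_lit 5) (nat_lit 275) (nat_lit 5)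 (nat_lit 267) (nat_lit 5) (nat_lit 637) (nat_lit 579) (nat_lit 344)) (XT.lf (nat_lit 0) (nat_lit 417670801) (nat_lit 608) (nat_lit 5144058901) (nat_lit 684) (nat_lit 19347754184) (nat_lit 258) (nat_lit 5) (nat_lit 266) (nat_lit 5) (nat_lit 267) (nat_lit 5) (nat_lit 638) (nat_lit 579) (nat_lit 343))))) (XT.nd (nat_lit 156) (nat_lit 608) (nat_lit 0) (XT.nd (nat_lit 78) (nat_lit 532) (nat_lit 0) (XT.lf (nat_lit 0) (nat_lit 10058872564) (nat_lit 684) (nat_lit 10154416961) (nat_lit 76) (nat_lit 4987979748) (nat_lit 258) (nat_lit 5) (nat_lit 267) (nat_lit 5) (nat_lit 259) (nat_lit 5) (nat_lit 639) (nat_lit 579) (nat_lit 342)) (XT.lf (nat_lit 0) (nat_lit 4489477009) (nat_lit 532) (nat_lit 10215818079) (nat_lit 608) (nat_lit 10792408805) (nat_lit 251) (nat_lit 5) (nat_lit 258) (nat_lit 5) (nat_lit 259) (nat_lit 5) (nat_lit 640) (nat_lit 579) (nat_lit 341))) (XT.nd (nat_lit 78) (nat_lit 608) (nat_lit 0) (XT.lf (nat_lit 0) (nat_lit 19509276520) (nat_lit 608) (nat_lit 6240241181) (nat_lit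 76) (nat_lit 49257148) (nat_lit 251) (nat_lit 5) (nat_lit 259) (nat_lit 5) (nat_lit 252) (nat_lit 5) (nat_lit 641) (nat_lit 579) (nat_lit 340)) (XT.nd (nat_lit 78) (nat_lit 76) (nat_lit 0) (XT.lf (nat_lit 0) (nat_lit 8866739042) (nat_lit 532) (nat_lit 15664054217) (nat_lit 608) (nat_lit 1572645103) (nat_lit 244) (nat_lit 5) (nat_lit 251) (nat_lit 5) (nat_lit 252) (nat_lit 5) (nat_lit 642) (nat_lit 579) (nat_lit 339)) (XT.lf (nat_lit 0) (nat_lit 3234472920) (nat_lit 608) (nat_lit 2079231597) (nat_lit 76) (nat_lit 21099302292) (nat_lit 243) (nat_lit 5) (nat_lit 251) (nat_lit 5) (nat_lit 244) (nat_lit 5) (nat_lit 643) (nat_lit 579) (nat_lit 338))))))) (XT.nd (nat_lit 780) (nat_lit 456) (nat_lit 0) (XT.nd (nat_lit 390) (nat_lit 1520) (nat_lit 0) (XT.nd (nat_lit 156) (nat_lit 532) (nat_lit 0) (XT.nd (nat_lit 78) (nat_lit 532) (nat_lit 0) (XT.lf (nat_lit 0) (nat_lit 8235641112) (nat_lit 608) (nat_lit 13217882008) (nat_lit 76) (nat_lit 5272656527) (nat_lit 236) (nat_lit 5) (nat_lit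 244) (nat_lit 5) (nat_lit 237) (nat_lit 5) (nat_lit 644) (nat_lit 579) (nat_lit 337)) (XT.lf (nat_lit 0) (nat_lit 2381424450) (nat_lit 532) (nat_lit 11016460267) (nat_lit 608) (nat_lit 13646510415) (nat_lit 229) (nat_lit 5) (nat_lit 236) (nat_lit 5) (nat_lit 237) (nat_lit 5) (nat_lit 645) (nat_lit 579) (nat_lit 336))) (XT.nd (nat_lit 78) (nat_lit 532) (nat_lit 0) (XT.lf (nat_lit 0) (nat_lit 18466970512) (nat_lit 532) (nat_lit 281496189) (nat_lit 608) (nat_lit 8618806579) (nat_lit 229) (nat_lit 5) (nat_lit 236) (nat_lit 5) (nat_lit 237) (nat_lit 5) (nat_lit 646) (nat_lit 579) (nat_lit 335)) (XT.nd (nat_lit 78) (nat_lit 76) (nat_lit 0) (XT.lf (nat_lit 0) (nat_lit 7197870537) (nat_lit 456) (nat_lit 17120644854) (nat_lit 532) (nat_lit 3375844720) (nat_lit 223) (nat_lit 5) (nat_lit 229) (nat_lit 5) (nat_lit 230) (nat_lit 5) (nat_lit 647) (nat_lit 579) (nat_lit 334)) (XT.lf (nat_lit 0) (nat_lit 2004570454) (nat_lit 532) (nat_lit 4308103520) (nat_lit 76) (nat_lit 21713889712) (nat_lit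 222) (nat_lit 5) (nat_lit 229) (nat_lit 5) (nat_lit 223) (nat_lit 5) (nat_lit 648) (nat_lit 579) (nat_lit 333))))) (XT.nd (nat_lit 156) (nat_lit 532) (nat_lit 0) (XT.nd (nat_lit 78) (nat_lit 456) (nat_lit 0) (XT.lf (nat_lit 0) (nat_lit 7555345141) (nat_lit 608) (nat_lit 16055976428) (nat_lit 76) (nat_lit 4751484609) (nat_lit 215) (nat_lit 5) (nat_lit 223) (nat_lit 5) (nat_lit 216) (nat_lit 5) (nat_lit 649) (nat_lit 579) (nat_lit 332)) (XT.lf (nat_lit 0) (nat_lit 567882768) (nat_lit 456) (nat_lit 12720415226) (nat_lit 532) (nat_lit 15416052478) (nat_lit 209) (nat_lit 5) (nat_lit 215) (nat_lit 5) (nat_lit 216) (nat_lit 5) (nat_lit 650) (nat_lit 579) (nat_lit 331))) (XT.nd (nat_lit 78) (nat_lit 532) (nat_lit 0) (XT.lf (nat_lit 0) (nat_lit 17737062214) (nat_lit 456) (nat_lit 1503196575) (nat_lit 532) (nat_lit 9810380084) (nat_lit 209) (nat_lit 5) (nat_lit 215) (nat_lit 5) (nat_lit 216) (nat_lit 5) (nat_lit 651) (nat_lit 579) (nat_lit 330)) (XT.nd (nat_lit 78) (nat_lit 76) (nat_lit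 0) (XT.lf (nat_lit 0) (nat_lit 5853248513) (nat_lit 456) (nat_lit 19557202389) (nat_lit 532) (nat_lit 3991418496) (nat_lit 203) (nat_lit 5) (nat_lit 209) (nat_lit 5) (nat_lit 210) (nat_lit 5) (nat_lit 652) (nat_lit 579) (nat_lit 329)) (XT.lf (nat_lit 0) (nat_lit 2001480328) (nat_lit 532) (nat_lit 6269693059) (nat_lit 76) (nat_lit 21487037851) (nat_lit 202) (nat_lit 5) (nat_lit 209) (nat_lit 5) (nat_lit 203) (nat_lit 5) (nat_lit 653) (nat_lit 579) (nat_lit 328)))))) (XT.nd (nat_lit 75660) (nat_lit 0) (nat_lit 22268) (XT.nd (nat_lit 75426) (nat_lit 0) (nat_lit 22192) (XT.nd (nat_lit 78) (nat_lit 0) (nat_lit 0) (XT.lf (nat_lit 0) (nat_lit 8153779459) (nat_lit 532) (nat_lit 18667242762) (nat_lit 76) (nat_lit 3298270465) (nat_lit 196) (nat_lit 5) (nat_lit 203) (nat_lit 5) (nat_lit 197) (nat_lit 5) (nat_lit 654) (nat_lit 579) (nat_lit 327)) (XT.lf (nat_lit 0) (nat_lit 14523016886) (nat_lit 532) (nat_lit 933301446) (nat_lit 76) (nat_lit 15029399767) (nat_lit 196) (nat_lit 5) (nat_lit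 203) (nat_lit 5) (nat_lit 197) (nat_lit 5) (nat_lit 655) (nat_lit 579) (nat_lit 326))) (XT.nd (nat_lit 78) (nat_lit 0) (nat_lit 0) (XT.lf (nat_lit 0) (nat_lit 683149365) (nat_lit 0) (nat_lit 683149365) (nat_lit 1748) (nat_lit 5422849668) (nat_lit 488) (nat_lit 5) (nat_lit 488) (nat_lit 3) (nat_lit 511) (nat_lit 3) (nat_lit 580) (nat_lit 580) (nat_lit 400)) (XT.nd (nat_lit 78) (nat_lit 0) (nat_lit 0) (XT.lf (nat_lit 0) (nat_lit 3160234168) (nat_lit 1748) (nat_lit 5534368636) (nat_lit 1824) (nat_lit 5011436365) (nat_lit 488) (nat_lit 5) (nat_lit 511) (nat_lit 3) (nat_lit 512) (nat_lit 5) (nat_lit 581) (nat_lit 580) (nat_lit 399)) (XT.lf (nat_lit 76) (nat_lit 1279503333) (nat_lit 0) (nat_lit 2324671794) (nat_lit 1824) (nat_lit 10232007131) (nat_lit 489) (nat_lit 5) (nat_lit 488) (nat_lit 5) (nat_lit 512) (nat_lit 5) (nat_lit 582) (nat_lit 580) (nat_lit 398))))) (XT.nd (nat_lit 234) (nat_lit 0) (nat_lit 76) (XT.nd (nat_lit 78) (nat_lit 0) (nat_lit 0) (XT.lf (nat_lit 0) (nat_lit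 4112051458) (nat_lit 1748) (nat_lit 5696078615) (nat_lit 1824) (nat_lit 4159697888) (nat_lit 489) (nat_lit 5) (nat_lit 512) (nat_lit 5) (nat_lit 513) (nat_lit 5) (nat_lit 583) (nat_lit 580) (nat_lit 397)) (XT.nd (nat_lit 78) (nat_lit 0) (nat_lit 76) (XT.lf (nat_lit 76) (nat_lit 1298239552) (nat_lit 0) (nat_lit 3346435085) (nat_lit 1824) (nat_lit 9457141022) (nat_lit 490) (nat_lit 5) (nat_lit 489) (nat_lit 5) (nat_lit 513) (nat_lit 5) (nat_lit 584) (nat_lit 580) (nat_lit 396)) (XT.lf (nat_lit 0) (nat_lit 5238431573) (nat_lit 1748) (nat_lit 5754681673) (nat_lit 1824) (nat_lit 3244361088) (nat_lit 490) (nat_lit 5) (nat_lit 513) (nat_lit 5) (nat_lit 514) (nat_lit 5) (nat_lit 585) (nat_lit 580) (nat_lit 395)))) (XT.nd (nat_lit 78) (nat_lit 0) (nat_lit 76) (XT.lf (nat_lit 76) (nat_lit 1426541686) (nat_lit 0) (nat_lit 4440062569) (nat_lit 1824) (nat_lit 8508791950) (nat_lit 491) (nat_lit 5) (nat_lit 490) (nat_lit 5) (nat_lit 514) (nat_lit 5) (nat_lit 586) (nat_lit 580) (nat_lit 394))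 (XT.nd (nat_lit 78) (nat_lit 0) (nat_lit 0) (XT.lf (nat_lit 0) (nat_lit 6552063572) (nat_lit 1748) (nat_lit 5706095252) (nat_lit 1824) (nat_lit 2257024042) (nat_lit 491) (nat_lit 5) (nat_lit 514) (nat_lit 5) (nat_lit 515) (nat_lit 5) (nat_lit 587) (nat_lit 580) (nat_lit 393)) (XT.lf (nat_lit 76) (nat_lit 1668744601) (nat_lit 0) (nat_lit 5614178068) (nat_lit 1824) (nat_lit 7374209581) (nat_lit 492) (nat_lit 5) (nat_lit 491) (nat_lit 5) (nat_lit 515) (nat_lit 5) (nat_lit 588) (nat_lit 580) (nat_lit 392))))))))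
noncomputable def xc197 : XT := (XT.nd (nat_lit 1560) (nat_lit 9728) (nat_lit 0) (XT.nd (nat_lit 780) (nat_lit 2584) (nat_lit 0) (XT.nd (nat_lit 390) (nat_lit 1596) (nat_lit 0) (XT.nd (nat_lit 156) (nat_lit 0) (nat_lit 76) (XT.nd (nat_lit 78) (nat_lit 0) (nat_lit 0) (XT.lf (nat_lit 0) (nat_lit 8066098392) (nat_lit 1748) (nat_lit 5545939743) (nat_lit 1824) (nat_lit 1189129282) (nat_lit 492) (nat_lit 5) (nat_lit 515) (nat_lit 5) (nat_lit 516) (nat_lit 5) (nat_lit 589) (nat_lit 580) (nat_lit 391)) (XT.lf (nat_lit 76) (nat_lit 2029489023) (nat_lit 0) (nat_lit 6877576024) (nat_lit 1824) (nat_lit 6040176462) (nat_lit 493) (nat_lit 5) (nat_lit 492) (nat_lit 5) (nat_lit 516) (nat_lit 5) (nat_lit 590) (nat_lit 580) (nat_lit 390))) (XT.nd (nat_lit 78) (nat_lit 0) (nat_lit 0) (XT.lf (nat_lit 0) (nat_lit 9794175147) (nat_lit 1748) (nat_lit 5269532994) (nat_lit 1824) (nat_lit 31943214) (nat_lit 493) (nat_lit 5) (nat_lit 516) (nat_lit 5) (nat_lit 517) (nat_lit 5) (nat_lit 591) (nat_lit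 580) (nat_lit 389)) (XT.nd (nat_lit 78) (nat_lit 0) (nat_lit 0) (XT.lf (nat_lit 76) (nat_lit 2513727400) (nat_lit 0) (nat_lit 8239242372) (nat_lit 1824) (nat_lit 4492981519) (nat_lit 494) (nat_lit 5) (nat_lit 493) (nat_lit 5) (nat_lit 517) (nat_lit 5) (nat_lit 592) (nat_lit 580) (nat_lit 388)) (XT.lf (nat_lit 76) (nat_lit 10518773457) (nat_lit 0) (nat_lit 1239723776) (nat_lit 1824) (nat_lit 3640209581) (nat_lit 494) (nat_lit 5) (nat_lit 493) (nat_lit 5) (nat_lit 517) (nat_lit 5) (nat_lit 593) (nat_lit 580) (nat_lit 387))))) (XT.nd (nat_lit 156) (nat_lit 1748) (nat_lit 0) (XT.nd (nat_lit 78) (nat_lit 0) (nat_lit 0) (XT.lf (nat_lit 76) (nat_lit 3126730335) (nat_lit 0) (nat_lit 9708375545) (nat_lit 1824) (nat_lit 2718392864) (nat_lit 495) (nat_lit 5) (nat_lit 494) (nat_lit 5) (nat_lit 518) (nat_lit 5) (nat_lit 594) (nat_lit 580) (nat_lit 386)) (XT.lf (nat_lit 76) (nat_lit 11346017280) (nat_lit 0) (nat_lit 2620611977) (nat_lit 1824) (nat_lit 1744090302) (nat_lit 495) (nat_lit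 5) (nat_lit 494) (nat_lit 5) (nat_lit 518) (nat_lit 5) (nat_lit 595) (nat_lit 580) (nat_lit 385))) (XT.nd (nat_lit 78) (nat_lit 1824) (nat_lit 0) (XT.lf (nat_lit 76) (nat_lit 3874093596) (nat_lit 0) (nat_lit 11294407673) (nat_lit 1824) (nat_lit 701629843) (nat_lit 496) (nat_lit 5) (nat_lit 495) (nat_lit 5) (nat_lit 519) (nat_lit 5) (nat_lit 596) (nat_lit 580) (nat_lit 384)) (XT.nd (nat_lit 78) (nat_lit 0) (nat_lit 76) (XT.lf (nat_lit 0) (nat_lit 396476508) (nat_lit 1824) (nat_lit 3720671381) (nat_lit 1900) (nat_lit 11914745894) (nat_lit 471) (nat_lit 5) (nat_lit 495) (nat_lit 5) (nat_lit 496) (nat_lit 5) (nat_lit 597) (nat_lit 580) (nat_lit 383)) (XT.lf (nat_lit 0) (nat_lit 1552039910) (nat_lit 1824) (nat_lit 11444571110) (nat_lit 1900) (nat_lit 3199290780) (nat_lit 472) (nat_lit 5) (nat_lit 496) (nat_lit 5) (nat_lit 497) (nat_lit 5) (nat_lit 598) (nat_lit 580) (nat_lit 382)))))) (XT.nd (nat_lit 390) (nat_lit 2660) (nat_lit 0) (XT.nd (nat_lit 156) (nat_lit 0) (nat_lit 76)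 (XT.nd (nat_lit 78) (nat_lit 0) (nat_lit 76) (XT.lf (nat_lit 0) (nat_lit 2776075316) (nat_lit 1824) (nat_lit 2952384059) (nat_lit 1900) (nat_lit 10633824021) (nat_lit 472) (nat_lit 5) (nat_lit 496) (nat_lit 5) (nat_lit 497) (nat_lit 5) (nat_lit 599) (nat_lit 580) (nat_lit 381)) (XT.lf (nat_lit 0) (nat_lit 4066418475) (nat_lit 1824) (nat_lit 10762488465) (nat_lit 1900) (nat_lit 1702249760) (nat_lit 473) (nat_lit 5) (nat_lit 497) (nat_lit 5) (nat_lit 498) (nat_lit 5) (nat_lit 600) (nat_lit 580) (nat_lit 380))) (XT.nd (nat_lit 78) (nat_lit 0) (nat_lit 76) (XT.lf (nat_lit 0) (nat_lit 5433658688) (nat_lit 1824) (nat_lit 2042390649) (nat_lit 1900) (nat_lit 9226336939) (nat_lit 473) (nat_lit 5) (nat_lit 497) (nat_lit 5) (nat_lit 498) (nat_lit 5) (nat_lit 601) (nat_lit 580) (nat_lit 379)) (XT.nd (nat_lit 78) (nat_lit 0) (nat_lit 0) (XT.lf (nat_lit 0) (nat_lit 6867092956) (nat_lit 1824) (nat_lit 9939002182) (nat_lit 1900) (nat_lit 70168914) (nat_lit 474) (nat_lit 5) (nat_lit 498) (nat_lit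 5) (nat_lit 499) (nat_lit 5) (nat_lit 602) (nat_lit 580) (nat_lit 378)) (XT.lf (nat_lit 0) (nat_lit 8385949603) (nat_lit 1824) (nat_lit 984224196) (nat_lit 1900) (nat_lit 7682311094) (nat_lit 474) (nat_lit 5) (nat_lit 498) (nat_lit 5) (nat_lit 499) (nat_lit 5) (nat_lit 603) (nat_lit 580) (nat_lit 377))))) (XT.nd (nat_lit 156) (nat_lit 1064) (nat_lit 0) (XT.nd (nat_lit 78) (nat_lit 1748) (nat_lit 0) (XT.lf (nat_lit 76) (nat_lit 8252519410) (nat_lit 0) (nat_lit 1729820441) (nat_lit 1900) (nat_lit 7248947742) (nat_lit 475) (nat_lit 5) (nat_lit 474) (nat_lit 5) (nat_lit 499) (nat_lit 5) (nat_lit 604) (nat_lit 580) (nat_lit 376)) (XT.lf (nat_lit 0) (nat_lit 231974800) (nat_lit 1824) (nat_lit 11419878407) (nat_lit 1900) (nat_lit 5760989797) (nat_lit 451) (nat_lit 5) (nat_lit 475) (nat_lit 5) (nat_lit 476) (nat_lit 5) (nat_lit 605) (nat_lit 580) (nat_lit 375))) (XT.nd (nat_lit 78) (nat_lit 1064) (nat_lit 0) (XT.lf (nat_lit 0) (nat_lit 9731608459) (nat_lit 1824) (nat_lit 3688543388)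 (nat_lit 1900) (nat_lit 4176570323) (nat_lit 451) (nat_lit 5) (nat_lit 475) (nat_lit 5) (nat_lit 476) (nat_lit 5) (nat_lit 606) (nat_lit 580) (nat_lit 374)) (XT.nd (nat_lit 78) (nat_lit 0) (nat_lit 0) (XT.lf (nat_lit 0) (nat_lit 1625575794) (nat_lit 1064) (nat_lit 13629937242) (nat_lit 1140) (nat_lit 2528132491) (nat_lit 437) (nat_lit 5) (nat_lit 451) (nat_lit 5) (nat_lit 452) (nat_lit 5) (nat_lit 607) (nat_lit 580) (nat_lit 373)) (XT.lf (nat_lit 0) (nat_lit 11382529175) (nat_lit 1064) (nat_lit 5816072567) (nat_lit 1140) (nat_lit 774285732) (nat_lit 437) (nat_lit 5) (nat_lit 451) (nat_lit 5) (nat_lit 452) (nat_lit 5) (nat_lit 608) (nat_lit 580) (nat_lit 372))))))) (XT.nd (nat_lit 780) (nat_lit 4408) (nat_lit 0) (XT.nd (nat_lit 390) (nat_lit 2584) (nat_lit 0) (XT.nd (nat_lit 156) (nat_lit 1748) (nat_lit 0) (XT.nd (nat_lit 78) (nat_lit 0) (nat_lit 0) (XT.lf (nat_lit 0) (nat_lit 1030322274) (nat_lit 988) (nat_lit 14980971018) (nat_lit 76) (nat_lit 2153909893) (nat_lit 424) (nat_lit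 5) (nat_lit 437) (nat_lit 5) (nat_lit 425) (nat_lit 5) (nat_lit 609) (nat_lit 580) (nat_lit 371)) (XT.lf (nat_lit 0) (nat_lit 2937837379) (nat_lit 988) (nat_lit 5166240550) (nat_lit 76) (nat_lit 10255641766) (nat_lit 424) (nat_lit 5) (nat_lit 437) (nat_lit 5) (nat_lit 425) (nat_lit 5) (nat_lit 610) (nat_lit 580) (nat_lit 370))) (XT.nd (nat_lit 78) (nat_lit 836) (nat_lit 0) (XT.lf (nat_lit 0) (nat_lit 4903734470) (nat_lit 912) (nat_lit 5859793) (nat_lit 988) (nat_lit 13648010930) (nat_lit 412) (nat_lit 5) (nat_lit 424) (nat_lit 5) (nat_lit 425) (nat_lit 5) (nat_lit 611) (nat_lit 580) (nat_lit 369)) (XT.nd (nat_lit 78) (nat_lit 836) (nat_lit 0) (XT.lf (nat_lit 0) (nat_lit 7003610088) (nat_lit 988) (nat_lit 3572882622) (nat_lit 76) (nat_lit 8181299694) (nat_lit 412) (nat_lit 5) (nat_lit 425) (nat_lit 5) (nat_lit 413) (nat_lit 5) (nat_lit 612) (nat_lit 580) (nat_lit 368)) (XT.lf (nat_lit 0) (nat_lit 6793446256) (nat_lit 836) (nat_lit 2384650925) (nat_lit 912) (nat_lit 9783114827)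 (nat_lit 401) (nat_lit 5) (nat_lit 412) (nat_lit 5) (nat_lit 413) (nat_lit 5) (nat_lit 613) (nat_lit 580) (nat_lit 367))))) (XT.nd (nat_lit 156) (nat_lit 1748) (nat_lit 0) (XT.nd (nat_lit 78) (nat_lit 836) (nat_lit 0) (XT.lf (nat_lit 0) (nat_lit 11453496847) (nat_lit 912) (nat_lit 1797027634) (nat_lit 76) (nat_lit 5917027530) (nat_lit 401) (nat_lit 5) (nat_lit 413) (nat_lit 5) (nat_lit 402) (nat_lit 5) (nat_lit 614) (nat_lit 580) (nat_lit 366)) (XT.lf (nat_lit 0) (nat_lit 8876441563) (nat_lit 836) (nat_lit 4966014775) (nat_lit 912) (nat_lit 5534201888) (nat_lit 390) (nat_lit 5) (nat_lit 401) (nat_lit 5) (nat_lit 402) (nat_lit 5) (nat_lit 615) (nat_lit 580) (nat_lit 365))) (XT.nd (nat_lit 78) (nat_lit 912) (nat_lit 0) (XT.lf (nat_lit 0) (nat_lit 172211873) (nat_lit 836) (nat_lit 16137560753) (nat_lit 912) (nat_lit 3279562828) (nat_lit 379) (nat_lit 5) (nat_lit 390) (nat_lit 5) (nat_lit 391) (nat_lit 5) (nat_lit 616) (nat_lit 580) (nat_lit 364)) (XT.nd (nat_lit 78) (nat_lit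 912) (nat_lit 0) (XT.lf (nat_lit 0) (nat_lit 11161753841) (nat_lit 836) (nat_lit 7762582767) (nat_lit 912) (nat_lit 879972028) (nat_lit 379) (nat_lit 5) (nat_lit 390) (nat_lit 5) (nat_lit 391) (nat_lit 5) (nat_lit 617) (nat_lit 580) (nat_lit 363)) (XT.lf (nat_lit 0) (nat_lit 1562461423) (nat_lit 912) (nat_lit 17665395543) (nat_lit 76) (nat_lit 795212964) (nat_lit 367) (nat_lit 5) (nat_lit 379) (nat_lit 5) (nat_lit 368) (nat_lit 5) (nat_lit 618) (nat_lit 580) (nat_lit 362)))))) (XT.nd (nat_lit 390) (nat_lit 2888) (nat_lit 0) (XT.nd (nat_lit 156) (nat_lit 760) (nat_lit 0) (XT.nd (nat_lit 78) (nat_lit 760) (nat_lit 0) (XT.lf (nat_lit 0) (nat_lit 4146662033) (nat_lit 912) (nat_lit 6612980110) (nat_lit 76) (nat_lit 9484354357) (nat_lit 367) (nat_lit 5) (nat_lit 379) (nat_lit 5) (nat_lit 368) (nat_lit 5) (nat_lit 619) (nat_lit 580) (nat_lit 361)) (XT.lf (nat_lit 0) (nat_lit 4717080066) (nat_lit 760) (nat_lit 2091095253) (nat_lit 836) (nat_lit 13660654110) (nat_lit 357) (nat_lit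 5) (nat_lit 367) (nat_lit 5) (nat_lit 368) (nat_lit 5) (nat_lit 620) (nat_lit 580) (nat_lit 360))) (XT.nd (nat_lit 78) (nat_lit 760) (nat_lit 0) (XT.lf (nat_lit 0) (nat_lit 9606484462) (nat_lit 836) (nat_lit 4383345427) (nat_lit 76) (nat_lit 6706658207) (nat_lit 357) (nat_lit 5) (nat_lit 368) (nat_lit 5) (nat_lit 358) (nat_lit 5) (nat_lit 621) (nat_lit 580) (nat_lit 359)) (XT.nd (nat_lit 78) (nat_lit 0) (nat_lit 0) (XT.lf (nat_lit 0) (nat_lit 7288947294) (nat_lit 760) (nat_lit 5228146576) (nat_lit 836) (nat_lit 8410479772) (nat_lit 347) (nat_lit 5) (nat_lit 357) (nat_lit 5) (nat_lit 358) (nat_lit 5) (nat_lit 622) (nat_lit 580) (nat_lit 358)) (XT.lf (nat_lit 0) (nat_lit 15534824181) (nat_lit 836) (nat_lit 1938149619) (nat_lit 76) (nat_lit 3689329301) (nat_lit 347) (nat_lit 5) (nat_lit 358) (nat_lit 5) (nat_lit 348) (nat_lit 5) (nat_lit 623) (nat_lit 580) (nat_lit 357))))) (XT.nd (nat_lit 234) (nat_lit 1368) (nat_lit 0) (XT.nd (nat_lit 78) (nat_lit 836) (nat_lit 0) (XT.lf (nat_lit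 0) (nat_lit 10088848170) (nat_lit 684) (nat_lit 8619501208) (nat_lit 760) (nat_lit 2691469335) (nat_lit 338) (nat_lit 5) (nat_lit 347) (nat_lit 5) (nat_lit 348) (nat_lit 5) (nat_lit 624) (nat_lit 580) (nat_lit 356)) (XT.nd (nat_lit 78) (nat_lit 0) (nat_lit 0) (XT.lf (nat_lit 0) (nat_lit 315339007) (nat_lit 836) (nat_lit 20901260378) (nat_lit 76) (nat_lit 425125111) (nat_lit 327) (nat_lit 5) (nat_lit 338) (nat_lit 5) (nat_lit 328) (nat_lit 5) (nat_lit 625) (nat_lit 580) (nat_lit 355)) (XT.lf (nat_lit 0) (nat_lit 3475161235) (nat_lit 836) (nat_lit 8781374042) (nat_lit 76) (nat_lit 9628999324) (nat_lit 327) (nat_lit 5) (nat_lit 338) (nat_lit 5) (nat_lit 328) (nat_lit 5) (nat_lit 626) (nat_lit 580) (nat_lit 354)))) (XT.nd (nat_lit 78) (nat_lit 684) (nat_lit 0) (XT.lf (nat_lit 0) (nat_lit 3623268465) (nat_lit 684) (nat_lit 3093921187) (nat_lit 760) (nat_lit 15416651403) (nat_lit 318) (nat_lit 5) (nat_lit 327) (nat_lit 5) (nat_lit 328) (nat_lit 5) (nat_lit 627) (nat_lit 580) (nat_lit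 353)) (XT.nd (nat_lit 78) (nat_lit 684) (nat_lit 0) (XT.lf (nat_lit 0) (nat_lit 10119504288) (nat_lit 760) (nat_lit 6037092059) (nat_lit 76) (nat_lit 6228608713) (nat_lit 318) (nat_lit 5) (nat_lit 328) (nat_lit 5) (nat_lit 319) (nat_lit 5) (nat_lit 628) (nat_lit 580) (nat_lit 352)) (XT.lf (nat_lit 0) (nat_lit 6748769463) (nat_lit 684) (nat_lit 6901026300) (nat_lit 760) (nat_lit 8990602301) (nat_lit 309) (nat_lit 5) (nat_lit 318) (nat_lit 5) (nat_lit 319) (nat_lit 5) (nat_lit 629) (nat_lit 580) (nat_lit 351))))))))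
noncomputable def xc198 : XT := (XT.nd (nat_lit 1560) (nat_lit 1976) (nat_lit 0) (XT.nd (nat_lit 780) (nat_lit 2736) (nat_lit 0) (XT.nd (nat_lit 390) (nat_lit 1900) (nat_lit 0) (XT.nd (nat_lit 156) (nat_lit 1368) (nat_lit 0) (XT.nd (nat_lit 78) (nat_lit 608) (nat_lit 0) (XT.lf (nat_lit 0) (nat_lit 17303634026) (nat_lit 760) (nat_lit 3049618200) (nat_lit 76) (nat_lit 2546384204) (nat_lit 309) (nat_lit 5) (nat_lit 319) (nat_lit 5) (nat_lit 310) (nat_lit 5) (nat_lit 630) (nat_lit 580) (nat_lit 350)) (XT.lf (nat_lit 0) (nat_lit 10131347154) (nat_lit 608) (nat_lit 11006439836) (nat_lit 684) (nat_lit 2024128131) (nat_lit 301) (nat_lit 5) (nat_lit 309) (nat_lit 5) (nat_lit 310) (nat_lit 5) (nat_lit 631) (nat_lit 580) (nat_lit 349))) (XT.nd (nat_lit 78) (nat_lit 608) (nat_lit 0) (XT.lf (nat_lit 0) (nat_lit 174803679) (nat_lit 684) (nat_lit 1440657938) (nat_lit 760) (nat_lit 21813417538) (nat_lit 291) (nat_lit 5) (nat_lit 300) (nat_lit 5) (nat_lit 301) (nat_lit 5) (nat_lit 632) (nat_lit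 580) (nat_lit 348)) (XT.nd (nat_lit 78) (nat_lit 608) (nat_lit 0) (XT.lf (nat_lit 0) (nat_lit 5438605489) (nat_lit 760) (nat_lit 9951623112) (nat_lit 76) (nat_lit 8307929268) (nat_lit 291) (nat_lit 5) (nat_lit 301) (nat_lit 5) (nat_lit 292) (nat_lit 5) (nat_lit 633) (nat_lit 580) (nat_lit 347)) (XT.lf (nat_lit 0) (nat_lit 3650185587) (nat_lit 608) (nat_lit 5717171929) (nat_lit 684) (nat_lit 14604882028) (nat_lit 283) (nat_lit 5) (nat_lit 291) (nat_lit 5) (nat_lit 292) (nat_lit 5) (nat_lit 634) (nat_lit 580) (nat_lit 346))))) (XT.nd (nat_lit 156) (nat_lit 1292) (nat_lit 0) (XT.nd (nat_lit 78) (nat_lit 608) (nat_lit 0) (XT.lf (nat_lit 0) (nat_lit 13464794595) (nat_lit 684) (nat_lit 6623989278) (nat_lit 76) (nat_lit 4161217065) (nat_lit 283) (nat_lit 5) (nat_lit 292) (nat_lit 5) (nat_lit 284) (nat_lit 5) (nat_lit 635) (nat_lit 580) (nat_lit 345)) (XT.lf (nat_lit 0) (nat_lit 7402289528) (nat_lit 608) (nat_lit 10323839820) (nat_lit 684) (nat_lit 6805549513) (nat_lit 275) (nat_lit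 5) (nat_lit 283) (nat_lit 5) (nat_lit 284) (nat_lit 5) (nat_lit 636) (nat_lit 580) (nat_lit 344))) (XT.nd (nat_lit 78) (nat_lit 1292) (nat_lit 0) (XT.lf (nat_lit 0) (nat_lit 21793949052) (nat_lit 608) (nat_lit 319264370) (nat_lit 684) (nat_lit 2704966744) (nat_lit 275) (nat_lit 5) (nat_lit 283) (nat_lit 5) (nat_lit 284) (nat_lit 5) (nat_lit 637) (nat_lit 580) (nat_lit 343)) (XT.nd (nat_lit 78) (nat_lit 608) (nat_lit 0) (XT.lf (nat_lit 0) (nat_lit 1593767230) (nat_lit 684) (nat_lit 13674175240) (nat_lit 76) (nat_lit 9839567038) (nat_lit 266) (nat_lit 5) (nat_lit 275) (nat_lit 5) (nat_lit 267) (nat_lit 5) (nat_lit 638) (nat_lit 580) (nat_lit 342)) (XT.lf (nat_lit 0) (nat_lit 804283688) (nat_lit 608) (nat_lit 5161932639) (nat_lit 684) (nat_lit 19435572573) (nat_lit 258) (nat_lit 5) (nat_lit 266) (nat_lit 5) (nat_lit 267) (nat_lit 5) (nat_lit 639) (nat_lit 580) (nat_lit 341)))))) (XT.nd (nat_lit 390) (nat_lit 1596) (nat_lit 0) (XT.nd (nat_lit 156) (nat_lit 608) (nat_lit 0) (XT.nd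 (nat_lit 78) (nat_lit 532) (nat_lit 0) (XT.lf (nat_lit 0) (nat_lit 10548093111) (nat_lit 684) (nat_lit 9981434506) (nat_lit 76) (nat_lit 5169986943) (nat_lit 258) (nat_lit 5) (nat_lit 267) (nat_lit 5) (nat_lit 259) (nat_lit 5) (nat_lit 640) (nat_lit 580) (nat_lit 340)) (XT.lf (nat_lit 0) (nat_lit 4952863194) (nat_lit 532) (nat_lit 10331358625) (nat_lit 608) (nat_lit 10717720876) (nat_lit 251) (nat_lit 5) (nat_lit 258) (nat_lit 5) (nat_lit 259) (nat_lit 5) (nat_lit 641) (nat_lit 580) (nat_lit 339))) (XT.nd (nat_lit 78) (nat_lit 608) (nat_lit 0) (XT.lf (nat_lit 0) (nat_lit 20179263247) (nat_lit 608) (nat_lit 5993736663) (nat_lit 76) (nat_lit 136135923) (nat_lit 251) (nat_lit 5) (nat_lit 259) (nat_lit 5) (nat_lit 252) (nat_lit 5) (nat_lit 642) (nat_lit 580) (nat_lit 338)) (XT.nd (nat_lit 78) (nat_lit 76) (nat_lit 0) (XT.lf (nat_lit 0) (nat_lit 9412940341) (nat_lit 532) (nat_lit 15885178607) (nat_lit 608) (nat_lit 1321835857) (nat_lit 244) (nat_lit 5) (nat_lit 251) (nat_lit 5)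 (nat_lit 252) (nat_lit 5) (nat_lit 643) (nat_lit 580) (nat_lit 337)) (XT.lf (nat_lit 0) (nat_lit 3572260643) (nat_lit 608) (nat_lit 1755535632) (nat_lit 76) (nat_lit 21607991282) (nat_lit 243) (nat_lit 5) (nat_lit 251) (nat_lit 5) (nat_lit 244) (nat_lit 5) (nat_lit 644) (nat_lit 580) (nat_lit 336))))) (XT.nd (nat_lit 156) (nat_lit 532) (nat_lit 0) (XT.nd (nat_lit 78) (nat_lit 532) (nat_lit 0) (XT.lf (nat_lit 0) (nat_lit 8671055748) (nat_lit 608) (nat_lit 13114545519) (nat_lit 76) (nat_lit 5469670855) (nat_lit 236) (nat_lit 5) (nat_lit 244) (nat_lit 5) (nat_lit 237) (nat_lit 5) (nat_lit 645) (nat_lit 580) (nat_lit 335)) (XT.lf (nat_lit 0) (nat_lit 2794328028) (nat_lit 532) (nat_lit 11139279926) (nat_lit 608) (nat_lit 13646303022) (nat_lit 229) (nat_lit 5) (nat_lit 236) (nat_lit 5) (nat_lit 237) (nat_lit 5) (nat_lit 646) (nat_lit 580) (nat_lit 334))) (XT.nd (nat_lit 78) (nat_lit 532) (nat_lit 0) (XT.lf (nat_lit 0) (nat_lit 19194422755) (nat_lit 532) (nat_lit 191528518) (nat_lit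 608) (nat_lit 8523400749) (nat_lit 229) (nat_lit 5) (nat_lit 236) (nat_lit 5) (nat_lit 237) (nat_lit 5) (nat_lit 647) (nat_lit 580) (nat_lit 333)) (XT.nd (nat_lit 78) (nat_lit 76) (nat_lit 0) (XT.lf (nat_lit 0) (nat_lit 7702200250) (nat_lit 456) (nat_lit 17363001619) (nat_lit 532) (nat_lit 3177823025) (nat_lit 223) (nat_lit 5) (nat_lit 229) (nat_lit 5) (nat_lit 230) (nat_lit 5) (nat_lit 648) (nat_lit 580) (nat_lit 332)) (XT.lf (nat_lit 0) (nat_lit 2301579514) (nat_lit 532) (nat_lit 4037529640) (nat_lit 76) (nat_lit 22242831981) (nat_lit 222) (nat_lit 5) (nat_lit 229) (nat_lit 5) (nat_lit 223) (nat_lit 5) (nat_lit 649) (nat_lit 580) (nat_lit 331))))))) (XT.nd (nat_lit 76128) (nat_lit 0) (nat_lit 22268) (XT.nd (nat_lit 390) (nat_lit 456) (nat_lit 0) (XT.nd (nat_lit 156) (nat_lit 532) (nat_lit 0) (XT.nd (nat_lit 78) (nat_lit 456) (nat_lit 0) (XT.lf (nat_lit 0) (nat_lit 7961283639) (nat_lit 608) (nat_lit 16018258782) (nat_lit 76) (nat_lit 4945408080) (nat_lit 215) (nat_lit 5)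 (nat_lit 223) (nat_lit 5) (nat_lit 216) (nat_lit 5) (nat_lit 650) (nat_lit 580) (nat_lit 330)) (XT.lf (nat_lit 0) (nat_lit 935716828) (nat_lit 456) (nat_lit 12870496505) (nat_lit 532) (nat_lit 15467166290) (nat_lit 209) (nat_lit 5) (nat_lit 215) (nat_lit 5) (nat_lit 216) (nat_lit 5) (nat_lit 651) (nat_lit 580) (nat_lit 329))) (XT.nd (nat_lit 78) (nat_lit 532) (nat_lit 0) (XT.lf (nat_lit 0) (nat_lit 18441290129) (nat_lit 456) (nat_lit 1430979109) (nat_lit 532) (nat_lit 9754423728) (nat_lit 209) (nat_lit 5) (nat_lit 215) (nat_lit 5) (nat_lit 216) (nat_lit 5) (nat_lit 652) (nat_lit 580) (nat_lit 328)) (XT.nd (nat_lit 78) (nat_lit 76) (nat_lit 0) (XT.lf (nat_lit 0) (nat_lit 6321767251) (nat_lit 456) (nat_lit 19842183707) (nat_lit 532) (nat_lit 3821035713) (nat_lit 203) (nat_lit 5) (nat_lit 209) (nat_lit 5) (nat_lit 210) (nat_lit 5) (nat_lit 653) (nat_lit 580) (nat_lit 327)) (XT.lf (nat_lit 0) (nat_lit 2283597767) (nat_lit 532) (nat_lit 6047293444) (nat_lit 76) (nat_lit 22017628757)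 (nat_lit 202) (nat_lit 5) (nat_lit 209) (nat_lit 5) (nat_lit 203) (nat_lit 5) (nat_lit 654) (nat_lit 580) (nat_lit 326))))) (XT.nd (nat_lit 75504) (nat_lit 0) (nat_lit 22192) (XT.nd (nat_lit 75426) (nat_lit 0) (nat_lit 22192) (XT.lf (nat_lit 0) (nat_lit 8557127021) (nat_lit 532) (nat_lit 18690964811) (nat_lit 76) (nat_lit 3468767799) (nat_lit 196) (nat_lit 5) (nat_lit 203) (nat_lit 5) (nat_lit 197) (nat_lit 5) (nat_lit 655) (nat_lit 580) (nat_lit 325)) (XT.lf (nat_lit 0) (nat_lit 879290220) (nat_lit 0) (nat_lit 879290220) (nat_lit 1748) (nat_lit 5159017652) (nat_lit 488) (nat_lit 5) (nat_lit 488) (nat_lit 3) (nat_lit 511) (nat_lit 3) (nat_lit 581) (nat_lit 581) (nat_lit 398))) (XT.nd (nat_lit 78) (nat_lit 0) (nat_lit 0) (XT.lf (nat_lit 0) (nat_lit 3936715258) (nat_lit 1748) (nat_lit 5270554225) (nat_lit 1824) (nat_lit 4758557960) (nat_lit 488) (nat_lit 5) (nat_lit 511) (nat_lit 3) (nat_lit 512) (nat_lit 5) (nat_lit 582) (nat_lit 581) (nat_lit 397)) (XT.nd (nat_lit 78) (nat_lit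 0) (nat_lit 76) (XT.lf (nat_lit 76) (nat_lit 1677131356) (nat_lit 0) (nat_lit 2700833385) (nat_lit 1824) (nat_lit 9720841371) (nat_lit 489) (nat_lit 5) (nat_lit 488) (nat_lit 5) (nat_lit 512) (nat_lit 5) (nat_lit 583) (nat_lit 581) (nat_lit 396)) (XT.lf (nat_lit 0) (nat_lit 4880141201) (nat_lit 1748) (nat_lit 5429335313) (nat_lit 1824) (nat_lit 3923926652) (nat_lit 489) (nat_lit 5) (nat_lit 512) (nat_lit 5) (nat_lit 513) (nat_lit 5) (nat_lit 584) (nat_lit 581) (nat_lit 395)))))) (XT.nd (nat_lit 390) (nat_lit 0) (nat_lit 228) (XT.nd (nat_lit 156) (nat_lit 0) (nat_lit 76) (XT.nd (nat_lit 78) (nat_lit 0) (nat_lit 76) (XT.lf (nat_lit 76) (nat_lit 1702364843) (nat_lit 0) (nat_lit 3710059254) (nat_lit 1824) (nat_lit 8957867637) (nat_lit 490) (nat_lit 5) (nat_lit 489) (nat_lit 5) (nat_lit 513) (nat_lit 5) (nat_lit 585) (nat_lit 581) (nat_lit 394)) (XT.lf (nat_lit 0) (nat_lit 6002935130) (nat_lit 1748) (nat_lit 5483846796) (nat_lit 1824) (nat_lit 3022185316) (nat_lit 490) (nat_lit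 5) (nat_lit 513) (nat_lit 5) (nat_lit 514) (nat_lit 5) (nat_lit 586) (nat_lit 581) (nat_lit 393))) (XT.nd (nat_lit 78) (nat_lit 0) (nat_lit 76) (XT.lf (nat_lit 76) (nat_lit 1838462027) (nat_lit 0) (nat_lit 4794762479) (nat_lit 1824) (nat_lit 8016633193) (nat_lit 491) (nat_lit 5) (nat_lit 490) (nat_lit 5) (nat_lit 514) (nat_lit 5) (nat_lit 587) (nat_lit 581) (nat_lit 392)) (XT.nd (nat_lit 78) (nat_lit 0) (nat_lit 0) (XT.lf (nat_lit 0) (nat_lit 7317969329) (nat_lit 1748) (nat_lit 5429861933) (nat_lit 1824) (nat_lit 2044898494) (nat_lit 491) (nat_lit 5) (nat_lit 514) (nat_lit 5) (nat_lit 515) (nat_lit 5) (nat_lit 588) (nat_lit 581) (nat_lit 391)) (XT.lf (nat_lit 76) (nat_lit 2089906590) (nat_lit 0) (nat_lit 5963608464) (nat_lit 1824) (nat_lit 6884202849) (nat_lit 492) (nat_lit 5) (nat_lit 491) (nat_lit 5) (nat_lit 515) (nat_lit 5) (nat_lit 589) (nat_lit 581) (nat_lit 390))))) (XT.nd (nat_lit 234) (nat_lit 0) (nat_lit 76) (XT.nd (nat_lit 78) (nat_lit 0) (nat_lit 0) (XT.lf (nat_lit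 0) (nat_lit 8838591162) (nat_lit 1748) (nat_lit 5262854810) (nat_lit 1824) (nat_lit 983464209) (nat_lit 492) (nat_lit 5) (nat_lit 515) (nat_lit 5) (nat_lit 516) (nat_lit 5) (nat_lit 590) (nat_lit 581) (nat_lit 389)) (XT.nd (nat_lit 78) (nat_lit 0) (nat_lit 0) (XT.lf (nat_lit 76) (nat_lit 2461490402) (nat_lit 0) (nat_lit 7225444311) (nat_lit 1824) (nat_lit 5547161011) (nat_lit 493) (nat_lit 5) (nat_lit 492) (nat_lit 5) (nat_lit 516) (nat_lit 5) (nat_lit 591) (nat_lit 581) (nat_lit 388)) (XT.lf (nat_lit 76) (nat_lit 10406596233) (nat_lit 0) (nat_lit 173177831) (nat_lit 1824) (nat_lit 4805941062) (nat_lit 493) (nat_lit 5) (nat_lit 492) (nat_lit 5) (nat_lit 516) (nat_lit 5) (nat_lit 592) (nat_lit 581) (nat_lit 387)))) (XT.nd (nat_lit 78) (nat_lit 0) (nat_lit 0) (XT.lf (nat_lit 76) (nat_lit 2958319718) (nat_lit 0) (nat_lit 8589319650) (nat_lit 1824) (nat_lit 3991584874) (nat_lit 494) (nat_lit 5) (nat_lit 493) (nat_lit 5) (nat_lit 517) (nat_lit 5) (nat_lit 593) (nat_lit 581) (nat_lit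 386)) (XT.nd (nat_lit 78) (nat_lit 0) (nat_lit 76) (XT.lf (nat_lit 76) (nat_lit 11115734975) (nat_lit 0) (nat_lit 1446177497) (nat_lit 1824) (nat_lit 3133350757) (nat_lit 494) (nat_lit 5) (nat_lit 493) (nat_lit 5) (nat_lit 517) (nat_lit 5) (nat_lit 594) (nat_lit 581) (nat_lit 385)) (XT.lf (nat_lit 76) (nat_lit 3585821958) (nat_lit 0) (nat_lit 10064507655) (nat_lit 1824) (nat_lit 2203016895) (nat_lit 495) (nat_lit 5) (nat_lit 494) (nat_lit 5) (nat_lit 518) (nat_lit 5) (nat_lit 595) (nat_lit 581) (nat_lit 384))))))))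
noncomputable def xc199 : XT := (XT.nd (nat_lit 1560) (nat_lit 8968) (nat_lit 0) (XT.nd (nat_lit 780) (nat_lit 5320) (nat_lit 0) (XT.nd (nat_lit 390) (nat_lit 0) (nat_lit 152) (XT.nd (nat_lit 156) (nat_lit 1748) (nat_lit 0) (XT.nd (nat_lit 78) (nat_lit 0) (nat_lit 76) (XT.lf (nat_lit 76) (nat_lit 11961719014) (nat_lit 0) (nat_lit 2831813040) (nat_lit 1824) (nat_lit 1220399729) (nat_lit 495) (nat_lit 5) (nat_lit 494) (nat_lit 5) (nat_lit 518) (nat_lit 5) (nat_lit 596) (nat_lit 581) (nat_lit 383)) (XT.lf (nat_lit 76) (nat_lit 4349753049) (nat_lit 0) (nat_lit 11660526271) (nat_lit 1824) (nat_lit 166436485) (nat_lit 496) (nat_lit 5) (nat_lit 495) (nat_lit 5) (nat_lit 519) (nat_lit 5) (nat_lit 597) (nat_lit 581) (nat_lit 382))) (XT.nd (nat_lit 78) (nat_lit 0) (nat_lit 76) (XT.lf (nat_lit 0) (nat_lit 935800899) (nat_lit 1824) (nat_lit 3397604837) (nat_lit 1900) (nat_lit 12008450189) (nat_lit 471) (nat_lit 5) (nat_lit 495) (nat_lit 5) (nat_lit 496) (nat_lit 5) (nat_lit 598) (nat_lit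 581) (nat_lit 381)) (XT.nd (nat_lit 78) (nat_lit 0) (nat_lit 0) (XT.lf (nat_lit 0) (nat_lit 2105784349) (nat_lit 1824) (nat_lit 11267244444) (nat_lit 1900) (nat_lit 3136290073) (nat_lit 472) (nat_lit 5) (nat_lit 496) (nat_lit 5) (nat_lit 497) (nat_lit 5) (nat_lit 599) (nat_lit 581) (nat_lit 380)) (XT.lf (nat_lit 0) (nat_lit 3344051372) (nat_lit 1824) (nat_lit 2613178712) (nat_lit 1900) (nat_lit 10722003910) (nat_lit 472) (nat_lit 5) (nat_lit 496) (nat_lit 5) (nat_lit 497) (nat_lit 5) (nat_lit 600) (nat_lit 581) (nat_lit 379))))) (XT.nd (nat_lit 156) (nat_lit 0) (nat_lit 0) (XT.nd (nat_lit 78) (nat_lit 0) (nat_lit 0) (XT.lf (nat_lit 0) (nat_lit 4652012056) (nat_lit 1824) (nat_lit 10571250791) (nat_lit 1900) (nat_lit 1628386607) (nat_lit 473) (nat_lit 5) (nat_lit 497) (nat_lit 5) (nat_lit 498) (nat_lit 5) (nat_lit 601) (nat_lit 581) (nat_lit 378)) (XT.lf (nat_lit 0) (nat_lit 6036709519) (nat_lit 1824) (nat_lit 1684721360) (nat_lit 1900) (nat_lit 9305071376) (nat_lit 473) (nat_lit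 5) (nat_lit 497) (nat_lit 5) (nat_lit 498) (nat_lit 5) (nat_lit 602) (nat_lit 581) (nat_lit 377))) (XT.nd (nat_lit 78) (nat_lit 0) (nat_lit 76) (XT.lf (nat_lit 76) (nat_lit 7472382674) (nat_lit 0) (nat_lit 18835663) (nat_lit 1900) (nat_lit 9712791999) (nat_lit 474) (nat_lit 5) (nat_lit 473) (nat_lit 5) (nat_lit 498) (nat_lit 5) (nat_lit 603) (nat_lit 581) (nat_lit 376)) (XT.nd (nat_lit 78) (nat_lit 0) (nat_lit 0) (XT.lf (nat_lit 0) (nat_lit 9030787447) (nat_lit 1824) (nat_lit 605598036) (nat_lit 1900) (nat_lit 7747564254) (nat_lit 474) (nat_lit 5) (nat_lit 498) (nat_lit 5) (nat_lit 499) (nat_lit 5) (nat_lit 604) (nat_lit 581) (nat_lit 375)) (XT.lf (nat_lit 76) (nat_lit 8813259977) (nat_lit 0) (nat_lit 1839059335) (nat_lit 1900) (nat_lit 6914145737) (nat_lit 475) (nat_lit 5) (nat_lit 474) (nat_lit 5) (nat_lit 499) (nat_lit 5) (nat_lit 605) (nat_lit 581) (nat_lit 374)))))) (XT.nd (nat_lit 390) (nat_lit 1748) (nat_lit 0) (XT.nd (nat_lit 156) (nat_lit 2052) (nat_lit 0) (XT.nd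 (nat_lit 78) (nat_lit 0) (nat_lit 0) (XT.lf (nat_lit 0) (nat_lit 639568827) (nat_lit 1824) (nat_lit 11708573019) (nat_lit 1900) (nat_lit 5403652157) (nat_lit 451) (nat_lit 5) (nat_lit 475) (nat_lit 5) (nat_lit 476) (nat_lit 5) (nat_lit 606) (nat_lit 581) (nat_lit 373)) (XT.lf (nat_lit 0) (nat_lit 10321294091) (nat_lit 1824) (nat_lit 3821429005) (nat_lit 1900) (nat_lit 3796810126) (nat_lit 451) (nat_lit 5) (nat_lit 475) (nat_lit 5) (nat_lit 476) (nat_lit 5) (nat_lit 607) (nat_lit 581) (nat_lit 372))) (XT.nd (nat_lit 78) (nat_lit 988) (nat_lit 0) (XT.lf (nat_lit 0) (nat_lit 2059986392) (nat_lit 1064) (nat_lit 13948132967) (nat_lit 1140) (nat_lit 2122209915) (nat_lit 437) (nat_lit 5) (nat_lit 451) (nat_lit 5) (nat_lit 452) (nat_lit 5) (nat_lit 608) (nat_lit 581) (nat_lit 371)) (XT.nd (nat_lit 78) (nat_lit 988) (nat_lit 0) (XT.lf (nat_lit 0) (nat_lit 12004198467) (nat_lit 1064) (nat_lit 5977096940) (nat_lit 1140) (nat_lit 342236912) (nat_lit 437) (nat_lit 5) (nat_lit 451) (nat_lit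 5) (nat_lit 452) (nat_lit 5) (nat_lit 609) (nat_lit 581) (nat_lit 370)) (XT.lf (nat_lit 0) (nat_lit 1486264560) (nat_lit 988) (nat_lit 14874298338) (nat_lit 76) (nat_lit 2159200656) (nat_lit 424) (nat_lit 5) (nat_lit 437) (nat_lit 5) (nat_lit 425) (nat_lit 5) (nat_lit 610) (nat_lit 581) (nat_lit 369))))) (XT.nd (nat_lit 156) (nat_lit 836) (nat_lit 0) (XT.nd (nat_lit 78) (nat_lit 912) (nat_lit 0) (XT.lf (nat_lit 0) (nat_lit 3423393970) (nat_lit 988) (nat_lit 4871239773) (nat_lit 76) (nat_lit 10423708096) (nat_lit 424) (nat_lit 5) (nat_lit 437) (nat_lit 5) (nat_lit 425) (nat_lit 5) (nat_lit 611) (nat_lit 581) (nat_lit 368)) (XT.lf (nat_lit 0) (nat_lit 5397514184) (nat_lit 912) (nat_lit 31272363) (nat_lit 988) (nat_lit 13491515200) (nat_lit 412) (nat_lit 5) (nat_lit 424) (nat_lit 5) (nat_lit 425) (nat_lit 5) (nat_lit 612) (nat_lit 581) (nat_lit 367))) (XT.nd (nat_lit 78) (nat_lit 836) (nat_lit 0) (XT.lf (nat_lit 0) (nat_lit 7556266764) (nat_lit 988) (nat_lit 3247943402) (nat_lit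 76) (nat_lit 8320451551) (nat_lit 412) (nat_lit 5) (nat_lit 425) (nat_lit 5) (nat_lit 413) (nat_lit 5) (nat_lit 613) (nat_lit 581) (nat_lit 366)) (XT.nd (nat_lit 78) (nat_lit 0) (nat_lit 0) (XT.lf (nat_lit 0) (nat_lit 7323104180) (nat_lit 836) (nat_lit 2445606268) (nat_lit 912) (nat_lit 9563550613) (nat_lit 401) (nat_lit 5) (nat_lit 412) (nat_lit 5) (nat_lit 413) (nat_lit 5) (nat_lit 614) (nat_lit 581) (nat_lit 365)) (XT.lf (nat_lit 0) (nat_lit 12081552288) (nat_lit 912) (nat_lit 1438801230) (nat_lit 76) (nat_lit 6022536329) (nat_lit 401) (nat_lit 5) (nat_lit 413) (nat_lit 5) (nat_lit 402) (nat_lit 5) (nat_lit 615) (nat_lit 581) (nat_lit 364))))))) (XT.nd (nat_lit 780) (nat_lit 4180) (nat_lit 0) (XT.nd (nat_lit 390) (nat_lit 2204) (nat_lit 0) (XT.nd (nat_lit 156) (nat_lit 912) (nat_lit 0) (XT.nd (nat_lit 78) (nat_lit 836) (nat_lit 0) (XT.lf (nat_lit 0) (nat_lit 9445544147) (nat_lit 836) (nat_lit 5067465933) (nat_lit 912) (nat_lit 5243274381) (nat_lit 390) (nat_lit 5) (nat_lit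 401) (nat_lit 5) (nat_lit 402) (nat_lit 5) (nat_lit 616) (nat_lit 581) (nat_lit 363)) (XT.lf (nat_lit 0) (nat_lit 572522373) (nat_lit 836) (nat_lit 16451993779) (nat_lit 912) (nat_lit 2948802859) (nat_lit 379) (nat_lit 5) (nat_lit 390) (nat_lit 5) (nat_lit 391) (nat_lit 5) (nat_lit 617) (nat_lit 581) (nat_lit 362))) (XT.nd (nat_lit 78) (nat_lit 912) (nat_lit 0) (XT.lf (nat_lit 0) (nat_lit 11774073488) (nat_lit 836) (nat_lit 7909679334) (nat_lit 912) (nat_lit 508991835) (nat_lit 379) (nat_lit 5) (nat_lit 390) (nat_lit 5) (nat_lit 391) (nat_lit 5) (nat_lit 618) (nat_lit 581) (nat_lit 361)) (XT.nd (nat_lit 78) (nat_lit 0) (nat_lit 0) (XT.lf (nat_lit 0) (nat_lit 1972302487) (nat_lit 912) (nat_lit 17619569808) (nat_lit 76) (nat_lit 824056861) (nat_lit 367) (nat_lit 5) (nat_lit 379) (nat_lit 5) (nat_lit 368) (nat_lit 5) (nat_lit 619) (nat_lit 581) (nat_lit 360)) (XT.lf (nat_lit 0) (nat_lit 4600763740) (nat_lit 912) (nat_lit 6353932216) (nat_lit 76) (nat_lit 9686727364) (nat_lit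 367) (nat_lit 5) (nat_lit 379) (nat_lit 5) (nat_lit 368) (nat_lit 5) (nat_lit 620) (nat_lit 581) (nat_lit 359))))) (XT.nd (nat_lit 156) (nat_lit 1444) (nat_lit 0) (XT.nd (nat_lit 78) (nat_lit 0) (nat_lit 0) (XT.lf (nat_lit 0) (nat_lit 5200154772) (nat_lit 760) (nat_lit 2110598620) (nat_lit 836) (nat_lit 13560095177) (nat_lit 357) (nat_lit 5) (nat_lit 367) (nat_lit 5) (nat_lit 368) (nat_lit 5) (nat_lit 621) (nat_lit 581) (nat_lit 358)) (XT.lf (nat_lit 0) (nat_lit 10157986184) (nat_lit 836) (nat_lit 4082830329) (nat_lit 76) (nat_lit 6862385319) (nat_lit 357) (nat_lit 5) (nat_lit 368) (nat_lit 5) (nat_lit 358) (nat_lit 5) (nat_lit 622) (nat_lit 581) (nat_lit 357))) (XT.nd (nat_lit 78) (nat_lit 684) (nat_lit 0) (XT.lf (nat_lit 0) (nat_lit 7820354417) (nat_lit 760) (nat_lit 5301910606) (nat_lit 836) (nat_lit 8216735481) (nat_lit 347) (nat_lit 5) (nat_lit 357) (nat_lit 5) (nat_lit 358) (nat_lit 5) (nat_lit 623) (nat_lit 581) (nat_lit 356)) (XT.nd (nat_lit 78) (nat_lit 684) (nat_lit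 0) (XT.lf (nat_lit 0) (nat_lit 16193588550) (nat_lit 836) (nat_lit 1592056904) (nat_lit 76) (nat_lit 3792914875) (nat_lit 347) (nat_lit 5) (nat_lit 358) (nat_lit 5) (nat_lit 348) (nat_lit 5) (nat_lit 624) (nat_lit 581) (nat_lit 355)) (XT.lf (nat_lit 0) (nat_lit 10672948895) (nat_lit 684) (nat_lit 8753292795) (nat_lit 760) (nat_lit 2394671954) (nat_lit 338) (nat_lit 5) (nat_lit 347) (nat_lit 5) (nat_lit 348) (nat_lit 5) (nat_lit 625) (nat_lit 581) (nat_lit 354)))))) (XT.nd (nat_lit 390) (nat_lit 1976) (nat_lit 0) (XT.nd (nat_lit 156) (nat_lit 1368) (nat_lit 0) (XT.nd (nat_lit 78) (nat_lit 0) (nat_lit 0) (XT.lf (nat_lit 0) (nat_lit 663661955) (nat_lit 836) (nat_lit 20928298925) (nat_lit 76) (nat_lit 475731891) (nat_lit 327) (nat_lit 5) (nat_lit 338) (nat_lit 5) (nat_lit 328) (nat_lit 5) (nat_lit 626) (nat_lit 581) (nat_lit 353)) (XT.lf (nat_lit 0) (nat_lit 3879974428) (nat_lit 836) (nat_lit 8573681268) (nat_lit 76) (nat_lit 9862858015) (nat_lit 327) (nat_lit 5) (nat_lit 338)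 (nat_lit 5) (nat_lit 328) (nat_lit 5) (nat_lit 627) (nat_lit 581) (nat_lit 352))) (XT.nd (nat_lit 78) (nat_lit 684) (nat_lit 0) (XT.lf (nat_lit 0) (nat_lit 4076532246) (nat_lit 684) (nat_lit 3106208858) (nat_lit 760) (nat_lit 15387127734) (nat_lit 318) (nat_lit 5) (nat_lit 327) (nat_lit 5) (nat_lit 328) (nat_lit 5) (nat_lit 628) (nat_lit 581) (nat_lit 351)) (XT.nd (nat_lit 78) (nat_lit 684) (nat_lit 0) (XT.lf (nat_lit 0) (nat_lit 10646923428) (nat_lit 760) (nat_lit 5778299121) (nat_lit 76) (nat_lit 6401161634) (nat_lit 318) (nat_lit 5) (nat_lit 328) (nat_lit 5) (nat_lit 319) (nat_lit 5) (nat_lit 629) (nat_lit 581) (nat_lit 350)) (XT.lf (nat_lit 0) (nat_lit 7260782692) (nat_lit 684) (nat_lit 6983112901) (nat_lit 760) (nat_lit 8842864434) (nat_lit 309) (nat_lit 5) (nat_lit 318) (nat_lit 5) (nat_lit 319) (nat_lit 5) (nat_lit 630) (nat_lit 581) (nat_lit 349))))) (XT.nd (nat_lit 234) (nat_lit 608) (nat_lit 0) (XT.nd (nat_lit 78) (nat_lit 1368) (nat_lit 0) (XT.lf (nat_lit 0) (nat_lit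 17964870506) (nat_lit 760) (nat_lit 2735002057) (nat_lit 76) (nat_lit 2651429869) (nat_lit 309) (nat_lit 5) (nat_lit 319) (nat_lit 5) (nat_lit 310) (nat_lit 5) (nat_lit 631) (nat_lit 581) (nat_lit 348)) (XT.nd (nat_lit 78) (nat_lit 760) (nat_lit 0) (XT.lf (nat_lit 0) (nat_lit 10707111495) (nat_lit 608) (nat_lit 11164838007) (nat_lit 684) (nat_lit 1746952795) (nat_lit 301) (nat_lit 5) (nat_lit 309) (nat_lit 5) (nat_lit 310) (nat_lit 5) (nat_lit 632) (nat_lit 581) (nat_lit 347)) (XT.lf (nat_lit 0) (nat_lit 553143422) (nat_lit 684) (nat_lit 1404406021) (nat_lit 760) (nat_lit 21933689625) (nat_lit 291) (nat_lit 5) (nat_lit 300) (nat_lit 5) (nat_lit 301) (nat_lit 5) (nat_lit 633) (nat_lit 581) (nat_lit 346)))) (XT.nd (nat_lit 78) (nat_lit 608) (nat_lit 0) (XT.lf (nat_lit 0) (nat_lit 5851496266) (nat_lit 760) (nat_lit 9777480188) (nat_lit 76) (nat_lit 8537040535) (nat_lit 291) (nat_lit 5) (nat_lit 301) (nat_lit 5) (nat_lit 292) (nat_lit 5) (nat_lit 634) (nat_lit 581) (nat_lit 345))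 (XT.nd (nat_lit 78) (nat_lit 0) (nat_lit 0) (XT.lf (nat_lit 0) (nat_lit 4093909584) (nat_lit 608) (nat_lit 5761357600) (nat_lit 684) (nat_lit 14590384661) (nat_lit 283) (nat_lit 5) (nat_lit 291) (nat_lit 5) (nat_lit 292) (nat_lit 5) (nat_lit 635) (nat_lit 581) (nat_lit 344)) (XT.lf (nat_lit 0) (nat_lit 14029206201) (nat_lit 684) (nat_lit 6387550177) (nat_lit 76) (nat_lit 4312321441) (nat_lit 283) (nat_lit 5) (nat_lit 292) (nat_lit 5) (nat_lit 284) (nat_lit 5) (nat_lit 636) (nat_lit 581) (nat_lit 343))))))))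
noncomputable def xc200 : XT := (XT.nd (nat_lit 76986) (nat_lit 0) (nat_lit 20444) (XT.nd (nat_lit 780) (nat_lit 2584) (nat_lit 0) (XT.nd (nat_lit 390) (nat_lit 1672) (nat_lit 0) (XT.nd (nat_lit 156) (nat_lit 1292) (nat_lit 0) (XT.nd (nat_lit 78) (nat_lit 0) (nat_lit 0) (XT.lf (nat_lit 0) (nat_lit 7916827107) (nat_lit 608) (nat_lit 10455533467) (nat_lit 684) (nat_lit 6644097277) (nat_lit 275) (nat_lit 5) (nat_lit 283) (nat_lit 5) (nat_lit 284) (nat_lit 5) (nat_lit 637) (nat_lit 581) (nat_lit 342)) (XT.lf (nat_lit 0) (nat_lit 22589133707) (nat_lit 608) (nat_lit 252332844) (nat_lit 684) (nat_lit 2467337426) (nat_lit 275) (nat_lit 5) (nat_lit 283) (nat_lit 5) (nat_lit 284) (nat_lit 5) (nat_lit 638) (nat_lit 581) (nat_lit 341))) (XT.nd (nat_lit 78) (nat_lit 608) (nat_lit 0) (XT.lf (nat_lit 0) (nat_lit 1910736811) (nat_lit 684) (nat_lit 13581679793) (nat_lit 76) (nat_lit 10111521972) (nat_lit 266) (nat_lit 5) (nat_lit 275) (nat_lit 5) (nat_lit 267) (nat_lit 5) (nat_lit 639) (nat_lit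 581) (nat_lit 340)) (XT.nd (nat_lit 78) (nat_lit 0) (nat_lit 0) (XT.lf (nat_lit 0) (nat_lit 1183940558) (nat_lit 608) (nat_lit 5183464795) (nat_lit 684) (nat_lit 19536763171) (nat_lit 258) (nat_lit 5) (nat_lit 266) (nat_lit 5) (nat_lit 267) (nat_lit 5) (nat_lit 640) (nat_lit 581) (nat_lit 339)) (XT.lf (nat_lit 0) (nat_lit 11035913004) (nat_lit 684) (nat_lit 9819595690) (nat_lit 76) (nat_lit 5352440507) (nat_lit 258) (nat_lit 5) (nat_lit 267) (nat_lit 5) (nat_lit 259) (nat_lit 5) (nat_lit 641) (nat_lit 581) (nat_lit 338))))) (XT.nd (nat_lit 156) (nat_lit 1140) (nat_lit 0) (XT.nd (nat_lit 78) (nat_lit 0) (nat_lit 0) (XT.lf (nat_lit 0) (nat_lit 5411009889) (nat_lit 532) (nat_lit 10452657255) (nat_lit 608) (nat_lit 10652821059) (nat_lit 251) (nat_lit 5) (nat_lit 258) (nat_lit 5) (nat_lit 259) (nat_lit 5) (nat_lit 642) (nat_lit 581) (nat_lit 337)) (XT.lf (nat_lit 0) (nat_lit 20851784686) (nat_lit 608) (nat_lit 5756720448) (nat_lit 76) (nat_lit 221416920) (nat_lit 251) (nat_lit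 5) (nat_lit 259) (nat_lit 5) (nat_lit 252) (nat_lit 5) (nat_lit 643) (nat_lit 581) (nat_lit 336))) (XT.nd (nat_lit 78) (nat_lit 608) (nat_lit 0) (XT.lf (nat_lit 0) (nat_lit 9955742129) (nat_lit 532) (nat_lit 16114304043) (nat_lit 608) (nat_lit 1076971008) (nat_lit 244) (nat_lit 5) (nat_lit 251) (nat_lit 5) (nat_lit 252) (nat_lit 5) (nat_lit 644) (nat_lit 581) (nat_lit 335)) (XT.nd (nat_lit 78) (nat_lit 532) (nat_lit 0) (XT.lf (nat_lit 0) (nat_lit 3906199382) (nat_lit 608) (nat_lit 1439550038) (nat_lit 76) (nat_lit 22123487270) (nat_lit 243) (nat_lit 5) (nat_lit 251) (nat_lit 5) (nat_lit 244) (nat_lit 5) (nat_lit 645) (nat_lit 581) (nat_lit 334)) (XT.lf (nat_lit 0) (nat_lit 9104666996) (nat_lit 608) (nat_lit 13023420310) (nat_lit 76) (nat_lit 5667070037) (nat_lit 236) (nat_lit 5) (nat_lit 244) (nat_lit 5) (nat_lit 237) (nat_lit 5) (nat_lit 646) (nat_lit 581) (nat_lit 333)))))) (XT.nd (nat_lit 390) (nat_lit 988) (nat_lit 0) (XT.nd (nat_lit 156) (nat_lit 1064) (nat_lit 0) (XT.nd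 (nat_lit 78) (nat_lit 0) (nat_lit 0) (XT.lf (nat_lit 0) (nat_lit 3201305601) (nat_lit 532) (nat_lit 11268342393) (nat_lit 608) (nat_lit 13656697747) (nat_lit 229) (nat_lit 5) (nat_lit 236) (nat_lit 5) (nat_lit 237) (nat_lit 5) (nat_lit 647) (nat_lit 581) (nat_lit 332)) (XT.lf (nat_lit 0) (nat_lit 19922518085) (nat_lit 532) (nat_lit 103473665) (nat_lit 608) (nat_lit 8436485102) (nat_lit 229) (nat_lit 5) (nat_lit 236) (nat_lit 5) (nat_lit 237) (nat_lit 5) (nat_lit 648) (nat_lit 581) (nat_lit 331))) (XT.nd (nat_lit 78) (nat_lit 608) (nat_lit 0) (XT.lf (nat_lit 0) (nat_lit 8202622861) (nat_lit 456) (nat_lit 17614090820) (nat_lit 532) (nat_lit 2986152082) (nat_lit 223) (nat_lit 5) (nat_lit 229) (nat_lit 5) (nat_lit 230) (nat_lit 5) (nat_lit 649) (nat_lit 581) (nat_lit 330)) (XT.nd (nat_lit 78) (nat_lit 532) (nat_lit 0) (XT.lf (nat_lit 0) (nat_lit 2594552329) (nat_lit 532) (nat_lit 3775396774) (nat_lit 76) (nat_lit 22778677159) (nat_lit 222) (nat_lit 5) (nat_lit 229) (nat_lit 5)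 (nat_lit 223) (nat_lit 5) (nat_lit 650) (nat_lit 581) (nat_lit 329)) (XT.lf (nat_lit 0) (nat_lit 8365445485) (nat_lit 608) (nat_lit 15993720868) (nat_lit 76) (nat_lit 5139369855) (nat_lit 215) (nat_lit 5) (nat_lit 223) (nat_lit 5) (nat_lit 216) (nat_lit 5) (nat_lit 651) (nat_lit 581) (nat_lit 328))))) (XT.nd (nat_lit 156) (nat_lit 532) (nat_lit 0) (XT.nd (nat_lit 78) (nat_lit 0) (nat_lit 0) (XT.lf (nat_lit 0) (nat_lit 1297065155) (nat_lit 456) (nat_lit 13027630555) (nat_lit 532) (nat_lit 15529290050) (nat_lit 209) (nat_lit 5) (nat_lit 215) (nat_lit 5) (nat_lit 216) (nat_lit 5) (nat_lit 652) (nat_lit 581) (nat_lit 327)) (XT.lf (nat_lit 0) (nat_lit 19146031609) (nat_lit 456) (nat_lit 1361289005) (nat_lit 532) (nat_lit 9707140079) (nat_lit 209) (nat_lit 5) (nat_lit 215) (nat_lit 5) (nat_lit 216) (nat_lit 5) (nat_lit 653) (nat_lit 581) (nat_lit 326))) (XT.nd (nat_lit 78) (nat_lit 76) (nat_lit 0) (XT.lf (nat_lit 0) (nat_lit 6786008986) (nat_lit 456) (nat_lit 20136987080) (nat_lit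 532) (nat_lit 3656961277) (nat_lit 203) (nat_lit 5) (nat_lit 209) (nat_lit 5) (nat_lit 210) (nat_lit 5) (nat_lit 654) (nat_lit 581) (nat_lit 325)) (XT.nd (nat_lit 75504) (nat_lit 0) (nat_lit 21736) (XT.lf (nat_lit 0) (nat_lit 2561956989) (nat_lit 532) (nat_lit 5833951081) (nat_lit 76) (nat_lit 22554915346) (nat_lit 202) (nat_lit 5) (nat_lit 209) (nat_lit 5) (nat_lit 203) (nat_lit 5) (nat_lit 655) (nat_lit 581) (nat_lit 324)) (XT.lf (nat_lit 0) (nat_lit 1072268054) (nat_lit 0) (nat_lit 1072268054) (nat_lit 1748) (nat_lit 4904365431) (nat_lit 488) (nat_lit 5) (nat_lit 488) (nat_lit 3) (nat_lit 511) (nat_lit 3) (nat_lit 582) (nat_lit 582) (nat_lit 396))))))) (XT.nd (nat_lit 780) (nat_lit 1292) (nat_lit 0) (XT.nd (nat_lit 390) (nat_lit 0) (nat_lit 152) (XT.nd (nat_lit 156) (nat_lit 0) (nat_lit 76) (XT.nd (nat_lit 78) (nat_lit 0) (nat_lit 0) (XT.lf (nat_lit 0) (nat_lit 4701028577) (nat_lit 1748) (nat_lit 5016005886) (nat_lit 1824) (nat_lit 4514333568) (nat_lit 488) (nat_lit 5)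 (nat_lit 511) (nat_lit 3) (nat_lit 512) (nat_lit 5) (nat_lit 583) (nat_lit 582) (nat_lit 395)) (XT.lf (nat_lit 76) (nat_lit 2068265252) (nat_lit 0) (nat_lit 3071716791) (nat_lit 1824) (nat_lit 9227247912) (nat_lit 489) (nat_lit 5) (nat_lit 488) (nat_lit 5) (nat_lit 512) (nat_lit 5) (nat_lit 584) (nat_lit 582) (nat_lit 394))) (XT.nd (nat_lit 78) (nat_lit 0) (nat_lit 0) (XT.lf (nat_lit 0) (nat_lit 5636960396) (nat_lit 1748) (nat_lit 5172038826) (nat_lit 1824) (nat_lit 3695825798) (nat_lit 489) (nat_lit 5) (nat_lit 512) (nat_lit 5) (nat_lit 513) (nat_lit 5) (nat_lit 585) (nat_lit 582) (nat_lit 393)) (XT.nd (nat_lit 78) (nat_lit 0) (nat_lit 76) (XT.lf (nat_lit 76) (nat_lit 2099888207) (nat_lit 0) (nat_lit 4069434861) (nat_lit 1824) (nat_lit 8475340825) (nat_lit 490) (nat_lit 5) (nat_lit 489) (nat_lit 5) (nat_lit 513) (nat_lit 5) (nat_lit 586) (nat_lit 582) (nat_lit 392)) (XT.lf (nat_lit 0) (nat_lit 6757110447) (nat_lit 1748) (nat_lit 5222581295) (nat_lit 1824) (nat_lit 2806713035)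 (nat_lit 490) (nat_lit 5) (nat_lit 513) (nat_lit 5) (nat_lit 514) (nat_lit 5) (nat_lit 587) (nat_lit 582) (nat_lit 391))))) (XT.nd (nat_lit 156) (nat_lit 0) (nat_lit 76) (XT.nd (nat_lit 78) (nat_lit 0) (nat_lit 76) (XT.lf (nat_lit 76) (nat_lit 2243733294) (nat_lit 0) (nat_lit 5146231217) (nat_lit 1824) (nat_lit 7540350520) (nat_lit 491) (nat_lit 5) (nat_lit 490) (nat_lit 5) (nat_lit 514) (nat_lit 5) (nat_lit 588) (nat_lit 582) (nat_lit 390)) (XT.lf (nat_lit 0) (nat_lit 8074540639) (nat_lit 1748) (nat_lit 5163261917) (nat_lit 1824) (nat_lit 1838520389) (nat_lit 491) (nat_lit 5) (nat_lit 514) (nat_lit 5) (nat_lit 515) (nat_lit 5) (nat_lit 589) (nat_lit 582) (nat_lit 389))) (XT.nd (nat_lit 78) (nat_lit 0) (nat_lit 76) (XT.lf (nat_lit 76) (nat_lit 2504433575) (nat_lit 0) (nat_lit 6310818768) (nat_lit 1824) (nat_lit 6409150532) (nat_lit 492) (nat_lit 5) (nat_lit 491) (nat_lit 5) (nat_lit 515) (nat_lit 5) (nat_lit 590) (nat_lit 582) (nat_lit 388)) (XT.nd (nat_lit 78) (nat_lit 0)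 (nat_lit 0) (XT.lf (nat_lit 0) (nat_lit 9602801281) (nat_lit 1748) (nat_lit 4989407823) (nat_lit 1824) (nat_lit 782595566) (nat_lit 492) (nat_lit 5) (nat_lit 515) (nat_lit 5) (nat_lit 516) (nat_lit 5) (nat_lit 591) (nat_lit 582) (nat_lit 387)) (XT.lf (nat_lit 76) (nat_lit 2886932819) (nat_lit 0) (nat_lit 7572103108) (nat_lit 1824) (nat_lit 5068120591) (nat_lit 493) (nat_lit 5) (nat_lit 492) (nat_lit 5) (nat_lit 516) (nat_lit 5) (nat_lit 592) (nat_lit 582) (nat_lit 386)))))) (XT.nd (nat_lit 390) (nat_lit 1596) (nat_lit 0) (XT.nd (nat_lit 156) (nat_lit 0) (nat_lit 76) (XT.nd (nat_lit 78) (nat_lit 0) (nat_lit 76) (XT.lf (nat_lit 76) (nat_lit 10983564049) (nat_lit 0) (nat_lit 374827574) (nat_lit 1824) (nat_lit 4323644549) (nat_lit 493) (nat_lit 5) (nat_lit 492) (nat_lit 5) (nat_lit 516) (nat_lit 5) (nat_lit 593) (nat_lit 582) (nat_lit 385)) (XT.lf (nat_lit 76) (nat_lit 3396492042) (nat_lit 0) (nat_lit 8939203343) (nat_lit 1824) (nat_lit 3503119498) (nat_lit 494) (nat_lit 5) (nat_lit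 493) (nat_lit 5) (nat_lit 517) (nat_lit 5) (nat_lit 594) (nat_lit 582) (nat_lit 384))) (XT.nd (nat_lit 78) (nat_lit 0) (nat_lit 76) (XT.lf (nat_lit 76) (nat_lit 11709624116) (nat_lit 0) (nat_lit 1649706243) (nat_lit 1824) (nat_lit 2638863779) (nat_lit 494) (nat_lit 5) (nat_lit 493) (nat_lit 5) (nat_lit 517) (nat_lit 5) (nat_lit 595) (nat_lit 582) (nat_lit 383)) (XT.nd (nat_lit 78) (nat_lit 0) (nat_lit 0) (XT.lf (nat_lit 76) (nat_lit 4038696621) (nat_lit 0) (nat_lit 10421473125) (nat_lit 1824) (nat_lit 1699457253) (nat_lit 495) (nat_lit 5) (nat_lit 494) (nat_lit 5) (nat_lit 518) (nat_lit 5) (nat_lit 596) (nat_lit 582) (nat_lit 382)) (XT.lf (nat_lit 76) (nat_lit 12574637928) (nat_lit 0) (nat_lit 3041072160) (nat_lit 1824) (nat_lit 707925391) (nat_lit 495) (nat_lit 5) (nat_lit 494) (nat_lit 5) (nat_lit 518) (nat_lit 5) (nat_lit 597) (nat_lit 582) (nat_lit 381))))) (XT.nd (nat_lit 234) (nat_lit 0) (nat_lit 76) (XT.nd (nat_lit 78) (nat_lit 0) (nat_lit 0) (XT.lf (nat_lit 0) (nat_lit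 353436639) (nat_lit 1824) (nat_lit 11672713537) (nat_lit 1900) (nat_lit 4463655585) (nat_lit 471) (nat_lit 5) (nat_lit 495) (nat_lit 5) (nat_lit 496) (nat_lit 5) (nat_lit 598) (nat_lit 582) (nat_lit 380)) (XT.nd (nat_lit 78) (nat_lit 0) (nat_lit 76) (XT.lf (nat_lit 0) (nat_lit 1465277067) (nat_lit 1824) (nat_lit 3083511594) (nat_lit 1900) (nat_lit 12109643201) (nat_lit 471) (nat_lit 5) (nat_lit 495) (nat_lit 5) (nat_lit 496) (nat_lit 5) (nat_lit 599) (nat_lit 582) (nat_lit 379)) (XT.lf (nat_lit 0) (nat_lit 2650306458) (nat_lit 1824) (nat_lit 11102145188) (nat_lit 1900) (nat_lit 3076960393) (nat_lit 472) (nat_lit 5) (nat_lit 496) (nat_lit 5) (nat_lit 497) (nat_lit 5) (nat_lit 600) (nat_lit 582) (nat_lit 378)))) (XT.nd (nat_lit 78) (nat_lit 0) (nat_lit 76) (XT.lf (nat_lit 0) (nat_lit 3903487715) (nat_lit 1824) (nat_lit 2282653909) (nat_lit 1900) (nat_lit 10816781751) (nat_lit 472) (nat_lit 5) (nat_lit 496) (nat_lit 5) (nat_lit 497) (nat_lit 5) (nat_lit 601) (nat_lit 582) (nat_lit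 377)) (XT.nd (nat_lit 78) (nat_lit 0) (nat_lit 0) (XT.lf (nat_lit 0) (nat_lit 5229736275) (nat_lit 1824) (nat_lit 10391972766) (nat_lit 1900) (nat_lit 1557236396) (nat_lit 473) (nat_lit 5) (nat_lit 497) (nat_lit 5) (nat_lit 498) (nat_lit 5) (nat_lit 602) (nat_lit 582) (nat_lit 376)) (XT.lf (nat_lit 0) (nat_lit 6632624081) (nat_lit 1824) (nat_lit 1335373590) (nat_lit 1900) (nat_lit 9389488545) (nat_lit 473) (nat_lit 5) (nat_lit 497) (nat_lit 5) (nat_lit 498) (nat_lit 5) (nat_lit 603) (nat_lit 582) (nat_lit 375))))))))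
noncomputable def xc201 : XT := (XT.nd (nat_lit 1560) (nat_lit 8056) (nat_lit 0) (XT.nd (nat_lit 780) (nat_lit 4180) (nat_lit 0) (XT.nd (nat_lit 390) (nat_lit 2964) (nat_lit 0) (XT.nd (nat_lit 156) (nat_lit 1672) (nat_lit 0) (XT.nd (nat_lit 78) (nat_lit 0) (nat_lit 76) (XT.lf (nat_lit 76) (nat_lit 8002352510) (nat_lit 0) (nat_lit 107023905) (nat_lit 1900) (nat_lit 9429305810) (nat_lit 474) (nat_lit 5) (nat_lit 473) (nat_lit 5) (nat_lit 498) (nat_lit 5) (nat_lit 604) (nat_lit 582) (nat_lit 374)) (XT.lf (nat_lit 0) (nat_lit 9669994941) (nat_lit 1824) (nat_lit 234866241) (nat_lit 1900) (nat_lit 7817554888) (nat_lit 474) (nat_lit 5) (nat_lit 498) (nat_lit 5) (nat_lit 499) (nat_lit 5) (nat_lit 605) (nat_lit 582) (nat_lit 373))) (XT.nd (nat_lit 78) (nat_lit 1748) (nat_lit 0) (XT.lf (nat_lit 76) (nat_lit 9369850224) (nat_lit 0) (nat_lit 1947584547) (nat_lit 1900) (nat_lit 6591278170) (nat_lit 475) (nat_lit 5) (nat_lit 474) (nat_lit 5) (nat_lit 499) (nat_lit 5) (nat_lit 606) (nat_lit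 582) (nat_lit 372)) (XT.nd (nat_lit 78) (nat_lit 0) (nat_lit 0) (XT.lf (nat_lit 0) (nat_lit 1039667520) (nat_lit 1824) (nat_lit 12000700117) (nat_lit 1900) (nat_lit 5057517746) (nat_lit 451) (nat_lit 5) (nat_lit 475) (nat_lit 5) (nat_lit 476) (nat_lit 5) (nat_lit 607) (nat_lit 582) (nat_lit 371)) (XT.lf (nat_lit 0) (nat_lit 10907433028) (nat_lit 1824) (nat_lit 3954676838) (nat_lit 1900) (nat_lit 3427444902) (nat_lit 451) (nat_lit 5) (nat_lit 475) (nat_lit 5) (nat_lit 476) (nat_lit 5) (nat_lit 608) (nat_lit 582) (nat_lit 370))))) (XT.nd (nat_lit 156) (nat_lit 1824) (nat_lit 0) (XT.nd (nat_lit 78) (nat_lit 76) (nat_lit 0) (XT.lf (nat_lit 0) (nat_lit 2487478972) (nat_lit 1064) (nat_lit 14270922020) (nat_lit 1140) (nat_lit 1725894766) (nat_lit 437) (nat_lit 5) (nat_lit 451) (nat_lit 5) (nat_lit 452) (nat_lit 5) (nat_lit 609) (nat_lit 582) (nat_lit 369)) (XT.lf (nat_lit 0) (nat_lit 80011264) (nat_lit 1140) (nat_lit 6059057748) (nat_lit 76) (nat_lit 12542452736) (nat_lit 436) (nat_lit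 5) (nat_lit 451) (nat_lit 5) (nat_lit 437) (nat_lit 5) (nat_lit 610) (nat_lit 582) (nat_lit 368))) (XT.nd (nat_lit 78) (nat_lit 912) (nat_lit 0) (XT.lf (nat_lit 0) (nat_lit 1934421070) (nat_lit 988) (nat_lit 14781269023) (nat_lit 76) (nat_lit 2166064565) (nat_lit 424) (nat_lit 5) (nat_lit 437) (nat_lit 5) (nat_lit 425) (nat_lit 5) (nat_lit 611) (nat_lit 582) (nat_lit 367)) (XT.nd (nat_lit 78) (nat_lit 912) (nat_lit 0) (XT.lf (nat_lit 0) (nat_lit 3902088535) (nat_lit 988) (nat_lit 4585806448) (nat_lit 76) (nat_lit 10596574313) (nat_lit 424) (nat_lit 5) (nat_lit 437) (nat_lit 5) (nat_lit 425) (nat_lit 5) (nat_lit 612) (nat_lit 582) (nat_lit 366)) (XT.lf (nat_lit 0) (nat_lit 5885803784) (nat_lit 912) (nat_lit 56210933) (nat_lit 988) (nat_lit 13348565853) (nat_lit 412) (nat_lit 5) (nat_lit 424) (nat_lit 5) (nat_lit 425) (nat_lit 5) (nat_lit 613) (nat_lit 582) (nat_lit 365)))))) (XT.nd (nat_lit 390) (nat_lit 1672) (nat_lit 0) (XT.nd (nat_lit 156) (nat_lit 1672) (nat_lit 0) (XT.nd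 (nat_lit 78) (nat_lit 836) (nat_lit 0) (XT.lf (nat_lit 0) (nat_lit 8103955416) (nat_lit 988) (nat_lit 2931897972) (nat_lit 76) (nat_lit 8463336805) (nat_lit 412) (nat_lit 5) (nat_lit 425) (nat_lit 5) (nat_lit 413) (nat_lit 5) (nat_lit 614) (nat_lit 582) (nat_lit 364)) (XT.lf (nat_lit 0) (nat_lit 7848063955) (nat_lit 836) (nat_lit 2507265725) (nat_lit 912) (nat_lit 9355718866) (nat_lit 401) (nat_lit 5) (nat_lit 412) (nat_lit 5) (nat_lit 413) (nat_lit 5) (nat_lit 615) (nat_lit 582) (nat_lit 363))) (XT.nd (nat_lit 78) (nat_lit 1672) (nat_lit 0) (XT.lf (nat_lit 0) (nat_lit 12706675745) (nat_lit 912) (nat_lit 1088716282) (nat_lit 76) (nat_lit 6130653577) (nat_lit 401) (nat_lit 5) (nat_lit 413) (nat_lit 5) (nat_lit 402) (nat_lit 5) (nat_lit 616) (nat_lit 582) (nat_lit 362)) (XT.nd (nat_lit 78) (nat_lit 836) (nat_lit 0) (XT.lf (nat_lit 0) (nat_lit 10010823496) (nat_lit 836) (nat_lit 5170863371) (nat_lit 912) (nat_lit 4962123391) (nat_lit 390) (nat_lit 5) (nat_lit 401) (nat_lit 5)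 (nat_lit 402) (nat_lit 5) (nat_lit 617) (nat_lit 582) (nat_lit 361)) (XT.lf (nat_lit 0) (nat_lit 965428282) (nat_lit 836) (nat_lit 16773038470) (nat_lit 912) (nat_lit 2626818491) (nat_lit 379) (nat_lit 5) (nat_lit 390) (nat_lit 5) (nat_lit 391) (nat_lit 5) (nat_lit 618) (nat_lit 582) (nat_lit 360))))) (XT.nd (nat_lit 156) (nat_lit 760) (nat_lit 0) (XT.nd (nat_lit 78) (nat_lit 912) (nat_lit 0) (XT.lf (nat_lit 0) (nat_lit 12383530901) (nat_lit 836) (nat_lit 8060034505) (nat_lit 912) (nat_lit 145681059) (nat_lit 379) (nat_lit 5) (nat_lit 390) (nat_lit 5) (nat_lit 391) (nat_lit 5) (nat_lit 619) (nat_lit 582) (nat_lit 359)) (XT.lf (nat_lit 0) (nat_lit 2375639190) (nat_lit 912) (nat_lit 17588326404) (nat_lit 76) (nat_lit 852975175) (nat_lit 367) (nat_lit 5) (nat_lit 379) (nat_lit 5) (nat_lit 368) (nat_lit 5) (nat_lit 620) (nat_lit 582) (nat_lit 358))) (XT.nd (nat_lit 78) (nat_lit 760) (nat_lit 0) (XT.lf (nat_lit 0) (nat_lit 5049534557) (nat_lit 912) (nat_lit 6104898311) (nat_lit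 76) (nat_lit 9892655222) (nat_lit 367) (nat_lit 5) (nat_lit 379) (nat_lit 5) (nat_lit 368) (nat_lit 5) (nat_lit 621) (nat_lit 582) (nat_lit 357)) (XT.nd (nat_lit 78) (nat_lit 0) (nat_lit 0) (XT.lf (nat_lit 0) (nat_lit 5677795992) (nat_lit 760) (nat_lit 2131358710) (nat_lit 836) (nat_lit 13472039088) (nat_lit 357) (nat_lit 5) (nat_lit 367) (nat_lit 5) (nat_lit 368) (nat_lit 5) (nat_lit 622) (nat_lit 582) (nat_lit 356)) (XT.lf (nat_lit 0) (nat_lit 10706563086) (nat_lit 836) (nat_lit 3791378510) (nat_lit 76) (nat_lit 7020388454) (nat_lit 357) (nat_lit 5) (nat_lit 368) (nat_lit 5) (nat_lit 358) (nat_lit 5) (nat_lit 623) (nat_lit 582) (nat_lit 355))))))) (XT.nd (nat_lit 780) (nat_lit 3800) (nat_lit 0) (XT.nd (nat_lit 390) (nat_lit 1976) (nat_lit 0) (XT.nd (nat_lit 156) (nat_lit 1520) (nat_lit 0) (XT.nd (nat_lit 78) (nat_lit 0) (nat_lit 0) (XT.lf (nat_lit 0) (nat_lit 8347415271) (nat_lit 760) (nat_lit 5378345875) (nat_lit 836) (nat_lit 8033171415) (nat_lit 347) (nat_lit 5) (nat_lit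 357) (nat_lit 5) (nat_lit 358) (nat_lit 5) (nat_lit 624) (nat_lit 582) (nat_lit 354)) (XT.lf (nat_lit 0) (nat_lit 16852012306) (nat_lit 836) (nat_lit 1253986751) (nat_lit 76) (nat_lit 3897415031) (nat_lit 347) (nat_lit 5) (nat_lit 358) (nat_lit 5) (nat_lit 348) (nat_lit 5) (nat_lit 625) (nat_lit 582) (nat_lit 353))) (XT.nd (nat_lit 78) (nat_lit 836) (nat_lit 0) (XT.lf (nat_lit 0) (nat_lit 11253885537) (nat_lit 684) (nat_lit 8891259037) (nat_lit 760) (nat_lit 2105553890) (nat_lit 338) (nat_lit 5) (nat_lit 347) (nat_lit 5) (nat_lit 348) (nat_lit 5) (nat_lit 626) (nat_lit 582) (nat_lit 352)) (XT.nd (nat_lit 78) (nat_lit 0) (nat_lit 0) (XT.lf (nat_lit 0) (nat_lit 1005670457) (nat_lit 836) (nat_lit 20971060731) (nat_lit 76) (nat_lit 525715847) (nat_lit 327) (nat_lit 5) (nat_lit 338) (nat_lit 5) (nat_lit 328) (nat_lit 5) (nat_lit 627) (nat_lit 582) (nat_lit 351)) (XT.lf (nat_lit 0) (nat_lit 4279863391) (nat_lit 836) (nat_lit 8376719430) (nat_lit 76) (nat_lit 10099790977) (nat_lit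 327) (nat_lit 5) (nat_lit 338) (nat_lit 5) (nat_lit 328) (nat_lit 5) (nat_lit 628) (nat_lit 582) (nat_lit 350))))) (XT.nd (nat_lit 156) (nat_lit 1292) (nat_lit 0) (XT.nd (nat_lit 78) (nat_lit 0) (nat_lit 0) (XT.lf (nat_lit 0) (nat_lit 4524074437) (nat_lit 684) (nat_lit 3120667951) (nat_lit 760) (nat_lit 15370132978) (nat_lit 318) (nat_lit 5) (nat_lit 327) (nat_lit 5) (nat_lit 328) (nat_lit 5) (nat_lit 629) (nat_lit 582) (nat_lit 349)) (XT.lf (nat_lit 0) (nat_lit 11172269677) (nat_lit 760) (nat_lit 5529068123) (nat_lit 76) (nat_lit 6575302462) (nat_lit 318) (nat_lit 5) (nat_lit 328) (nat_lit 5) (nat_lit 319) (nat_lit 5) (nat_lit 630) (nat_lit 582) (nat_lit 348))) (XT.nd (nat_lit 78) (nat_lit 608) (nat_lit 0) (XT.lf (nat_lit 0) (nat_lit 7768395347) (nat_lit 684) (nat_lit 7069013217) (nat_lit 760) (nat_lit 8704890973) (nat_lit 309) (nat_lit 5) (nat_lit 318) (nat_lit 5) (nat_lit 319) (nat_lit 5) (nat_lit 631) (nat_lit 582) (nat_lit 347)) (XT.nd (nat_lit 78) (nat_lit 608) (nat_lit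 0) (XT.lf (nat_lit 0) (nat_lit 18627093521) (nat_lit 760) (nat_lit 2428678927) (nat_lit 76) (nat_lit 2756474981) (nat_lit 309) (nat_lit 5) (nat_lit 319) (nat_lit 5) (nat_lit 310) (nat_lit 5) (nat_lit 632) (nat_lit 582) (nat_lit 346)) (XT.lf (nat_lit 0) (nat_lit 11279901744) (nat_lit 608) (nat_lit 11328801216) (nat_lit 684) (nat_lit 1476568996) (nat_lit 301) (nat_lit 5) (nat_lit 309) (nat_lit 5) (nat_lit 310) (nat_lit 5) (nat_lit 633) (nat_lit 582) (nat_lit 345)))))) (XT.nd (nat_lit 390) (nat_lit 1824) (nat_lit 0) (XT.nd (nat_lit 156) (nat_lit 1216) (nat_lit 0) (XT.nd (nat_lit 78) (nat_lit 0) (nat_lit 0) (XT.lf (nat_lit 0) (nat_lit 924494324) (nat_lit 684) (nat_lit 1369955622) (nat_lit 760) (nat_lit 22068637673) (nat_lit 291) (nat_lit 5) (nat_lit 300) (nat_lit 5) (nat_lit 301) (nat_lit 5) (nat_lit 634) (nat_lit 582) (nat_lit 344)) (XT.lf (nat_lit 0) (nat_lit 6260835559) (nat_lit 760) (nat_lit 9614345260) (nat_lit 76) (nat_lit 8768289498) (nat_lit 291) (nat_lit 5) (nat_lit 301)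 (nat_lit 5) (nat_lit 292) (nat_lit 5) (nat_lit 635) (nat_lit 582) (nat_lit 343))) (XT.nd (nat_lit 78) (nat_lit 608) (nat_lit 0) (XT.lf (nat_lit 0) (nat_lit 4532112540) (nat_lit 608) (nat_lit 5809151296) (nat_lit 684) (nat_lit 14587502804) (nat_lit 283) (nat_lit 5) (nat_lit 291) (nat_lit 5) (nat_lit 292) (nat_lit 5) (nat_lit 636) (nat_lit 582) (nat_lit 342)) (XT.nd (nat_lit 78) (nat_lit 608) (nat_lit 0) (XT.lf (nat_lit 0) (nat_lit 14593446336) (nat_lit 684) (nat_lit 6160707864) (nat_lit 76) (nat_lit 4463812041) (nat_lit 283) (nat_lit 5) (nat_lit 292) (nat_lit 5) (nat_lit 284) (nat_lit 5) (nat_lit 637) (nat_lit 582) (nat_lit 341)) (XT.lf (nat_lit 0) (nat_lit 8427424115) (nat_lit 608) (nat_lit 10592764908) (nat_lit 684) (nat_lit 6490970738) (nat_lit 275) (nat_lit 5) (nat_lit 283) (nat_lit 5) (nat_lit 284) (nat_lit 5) (nat_lit 638) (nat_lit 582) (nat_lit 340))))) (XT.nd (nat_lit 234) (nat_lit 532) (nat_lit 0) (XT.nd (nat_lit 78) (nat_lit 1292) (nat_lit 0) (XT.lf (nat_lit 0) (nat_lit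 23386269779) (nat_lit 608) (nat_lit 186909670) (nat_lit 684) (nat_lit 2236283700) (nat_lit 275) (nat_lit 5) (nat_lit 283) (nat_lit 5) (nat_lit 284) (nat_lit 5) (nat_lit 639) (nat_lit 582) (nat_lit 339)) (XT.nd (nat_lit 78) (nat_lit 608) (nat_lit 0) (XT.lf (nat_lit 0) (nat_lit 2222975227) (nat_lit 684) (nat_lit 13501545846) (nat_lit 76) (nat_lit 10385997311) (nat_lit 266) (nat_lit 5) (nat_lit 275) (nat_lit 5) (nat_lit 267) (nat_lit 5) (nat_lit 640) (nat_lit 582) (nat_lit 338)) (XT.lf (nat_lit 0) (nat_lit 1557072652) (nat_lit 608) (nat_lit 5208600357) (nat_lit 684) (nat_lit 19651142367) (nat_lit 258) (nat_lit 5) (nat_lit 266) (nat_lit 5) (nat_lit 267) (nat_lit 5) (nat_lit 641) (nat_lit 582) (nat_lit 337)))) (XT.nd (nat_lit 78) (nat_lit 532) (nat_lit 0) (XT.lf (nat_lit 0) (nat_lit 11522738560) (nat_lit 684) (nat_lit 9668556321) (nat_lit 76) (nat_lit 5535473386) (nat_lit 258) (nat_lit 5) (nat_lit 267) (nat_lit 5) (nat_lit 259) (nat_lit 5) (nat_lit 642) (nat_lit 582) (nat_lit 336))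 (XT.nd (nat_lit 78) (nat_lit 0) (nat_lit 0) (XT.lf (nat_lit 0) (nat_lit 5864375637) (nat_lit 532) (nat_lit 10579695269) (nat_lit 608) (nat_lit 10597467029) (nat_lit 251) (nat_lit 5) (nat_lit 258) (nat_lit 5) (nat_lit 259) (nat_lit 5) (nat_lit 643) (nat_lit 582) (nat_lit 335)) (XT.lf (nat_lit 0) (nat_lit 21527313435) (nat_lit 608) (nat_lit 5528822419) (nat_lit 76) (nat_lit 305197697) (nat_lit 251) (nat_lit 5) (nat_lit 259) (nat_lit 5) (nat_lit 252) (nat_lit 5) (nat_lit 644) (nat_lit 582) (nat_lit 334))))))))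
noncomputable def xc202 : XT := (XT.nd (nat_lit 77064) (nat_lit 0) (nat_lit 16796) (XT.nd (nat_lit 780) (nat_lit 456) (nat_lit 0) (XT.nd (nat_lit 390) (nat_lit 1520) (nat_lit 0) (XT.nd (nat_lit 156) (nat_lit 1064) (nat_lit 0) (XT.nd (nat_lit 78) (nat_lit 76) (nat_lit 0) (XT.lf (nat_lit 0) (nat_lit 10495632617) (nat_lit 532) (nat_lit 16351451584) (nat_lit 608) (nat_lit 837743834) (nat_lit 244) (nat_lit 5) (nat_lit 251) (nat_lit 5) (nat_lit 252) (nat_lit 5) (nat_lit 645) (nat_lit 582) (nat_lit 333)) (XT.lf (nat_lit 0) (nat_lit 4236623952) (nat_lit 608) (nat_lit 1130878230) (nat_lit 76) (nat_lit 22646057133) (nat_lit 243) (nat_lit 5) (nat_lit 251) (nat_lit 5) (nat_lit 244) (nat_lit 5) (nat_lit 646) (nat_lit 582) (nat_lit 332))) (XT.nd (nat_lit 78) (nat_lit 532) (nat_lit 0) (XT.lf (nat_lit 0) (nat_lit 9536846968) (nat_lit 608) (nat_lit 12944196176) (nat_lit 76) (nat_lit 5864999832) (nat_lit 236) (nat_lit 5) (nat_lit 244) (nat_lit 5) (nat_lit 237) (nat_lit 5) (nat_lit 647) (nat_lit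 582) (nat_lit 331)) (XT.nd (nat_lit 78) (nat_lit 0) (nat_lit 0) (XT.lf (nat_lit 0) (nat_lit 3602789434) (nat_lit 532) (nat_lit 11403625492) (nat_lit 608) (nat_lit 13677494778) (nat_lit 229) (nat_lit 5) (nat_lit 236) (nat_lit 5) (nat_lit 237) (nat_lit 5) (nat_lit 648) (nat_lit 582) (nat_lit 330)) (XT.lf (nat_lit 0) (nat_lit 20651809349) (nat_lit 532) (nat_lit 17225738) (nat_lit 608) (nat_lit 8357825663) (nat_lit 229) (nat_lit 5) (nat_lit 236) (nat_lit 5) (nat_lit 237) (nat_lit 5) (nat_lit 649) (nat_lit 582) (nat_lit 329))))) (XT.nd (nat_lit 156) (nat_lit 988) (nat_lit 0) (XT.nd (nat_lit 78) (nat_lit 76) (nat_lit 0) (XT.lf (nat_lit 0) (nat_lit 8699603621) (nat_lit 456) (nat_lit 17873936236) (nat_lit 532) (nat_lit 2800558512) (nat_lit 223) (nat_lit 5) (nat_lit 229) (nat_lit 5) (nat_lit 230) (nat_lit 5) (nat_lit 650) (nat_lit 582) (nat_lit 328)) (XT.lf (nat_lit 0) (nat_lit 2883795572) (nat_lit 532) (nat_lit 3521335833) (nat_lit 76) (nat_lit 23321706045) (nat_lit 222) (nat_lit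 5) (nat_lit 229) (nat_lit 5) (nat_lit 223) (nat_lit 5) (nat_lit 651) (nat_lit 582) (nat_lit 327))) (XT.nd (nat_lit 78) (nat_lit 456) (nat_lit 0) (XT.lf (nat_lit 0) (nat_lit 8768179399) (nat_lit 608) (nat_lit 15982085203) (nat_lit 76) (nat_lit 5333519818) (nat_lit 215) (nat_lit 5) (nat_lit 223) (nat_lit 5) (nat_lit 216) (nat_lit 5) (nat_lit 652) (nat_lit 582) (nat_lit 326)) (XT.nd (nat_lit 78) (nat_lit 0) (nat_lit 0) (XT.lf (nat_lit 0) (nat_lit 1652335553) (nat_lit 456) (nat_lit 13191801121) (nat_lit 532) (nat_lit 15602256121) (nat_lit 209) (nat_lit 5) (nat_lit 215) (nat_lit 5) (nat_lit 216) (nat_lit 5) (nat_lit 653) (nat_lit 582) (nat_lit 325)) (XT.lf (nat_lit 0) (nat_lit 19851823903) (nat_lit 456) (nat_lit 1294022584) (nat_lit 532) (nat_lit 9668322361) (nat_lit 209) (nat_lit 5) (nat_lit 215) (nat_lit 5) (nat_lit 216) (nat_lit 5) (nat_lit 654) (nat_lit 582) (nat_lit 324)))))) (XT.nd (nat_lit 75894) (nat_lit 0) (nat_lit 21736) (XT.nd (nat_lit 75660) (nat_lit 0) (nat_lit 21660)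 (XT.nd (nat_lit 75582) (nat_lit 0) (nat_lit 21660) (XT.lf (nat_lit 0) (nat_lit 7246418122) (nat_lit 456) (nat_lit 20441648870) (nat_lit 532) (nat_lit 3498944073) (nat_lit 203) (nat_lit 5) (nat_lit 209) (nat_lit 5) (nat_lit 210) (nat_lit 5) (nat_lit 655) (nat_lit 582) (nat_lit 323)) (XT.lf (nat_lit 0) (nat_lit 1262294758) (nat_lit 0) (nat_lit 1262294758) (nat_lit 1748) (nat_lit 4658515241) (nat_lit 488) (nat_lit 5) (nat_lit 488) (nat_lit 3) (nat_lit 511) (nat_lit 3) (nat_lit 583) (nat_lit 583) (nat_lit 394))) (XT.nd (nat_lit 78) (nat_lit 0) (nat_lit 0) (XT.lf (nat_lit 0) (nat_lit 5454006294) (nat_lit 1748) (nat_lit 4770344243) (nat_lit 1824) (nat_lit 4278403831) (nat_lit 488) (nat_lit 5) (nat_lit 511) (nat_lit 3) (nat_lit 512) (nat_lit 5) (nat_lit 584) (nat_lit 583) (nat_lit 393)) (XT.nd (nat_lit 78) (nat_lit 0) (nat_lit 76) (XT.lf (nat_lit 76) (nat_lit 2453336122) (nat_lit 0) (nat_lit 3437713544) (nat_lit 1824) (nat_lit 8750498862) (nat_lit 489) (nat_lit 5) (nat_lit 488) (nat_lit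 5) (nat_lit 512) (nat_lit 5) (nat_lit 585) (nat_lit 583) (nat_lit 392)) (XT.lf (nat_lit 0) (nat_lit 6383317801) (nat_lit 1748) (nat_lit 4923804100) (nat_lit 1824) (nat_lit 3475067779) (nat_lit 489) (nat_lit 5) (nat_lit 512) (nat_lit 5) (nat_lit 513) (nat_lit 5) (nat_lit 586) (nat_lit 583) (nat_lit 391))))) (XT.nd (nat_lit 156) (nat_lit 0) (nat_lit 76) (XT.nd (nat_lit 78) (nat_lit 0) (nat_lit 76) (XT.lf (nat_lit 76) (nat_lit 2491247819) (nat_lit 0) (nat_lit 4424924309) (nat_lit 1824) (nat_lit 8008857478) (nat_lit 490) (nat_lit 5) (nat_lit 489) (nat_lit 5) (nat_lit 513) (nat_lit 5) (nat_lit 587) (nat_lit 583) (nat_lit 390)) (XT.lf (nat_lit 0) (nat_lit 7501745750) (nat_lit 1748) (nat_lit 4970494631) (nat_lit 1824) (nat_lit 2597645462) (nat_lit 490) (nat_lit 5) (nat_lit 513) (nat_lit 5) (nat_lit 514) (nat_lit 5) (nat_lit 588) (nat_lit 583) (nat_lit 389))) (XT.nd (nat_lit 78) (nat_lit 0) (nat_lit 76) (XT.lf (nat_lit 76) (nat_lit 2642800602) (nat_lit 0) (nat_lit 5494805100) (nat_lit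 1824) (nat_lit 7079262743) (nat_lit 491) (nat_lit 5) (nat_lit 490) (nat_lit 5) (nat_lit 514) (nat_lit 5) (nat_lit 589) (nat_lit 583) (nat_lit 388)) (XT.nd (nat_lit 78) (nat_lit 0) (nat_lit 0) (XT.lf (nat_lit 0) (nat_lit 8822548103) (nat_lit 1748) (nat_lit 4905899266) (nat_lit 1824) (nat_lit 1637616753) (nat_lit 491) (nat_lit 5) (nat_lit 514) (nat_lit 5) (nat_lit 515) (nat_lit 5) (nat_lit 590) (nat_lit 583) (nat_lit 387)) (XT.lf (nat_lit 76) (nat_lit 2912777583) (nat_lit 0) (nat_lit 6656122163) (nat_lit 1824) (nat_lit 5948390469) (nat_lit 492) (nat_lit 5) (nat_lit 491) (nat_lit 5) (nat_lit 515) (nat_lit 5) (nat_lit 591) (nat_lit 583) (nat_lit 386))))))) (XT.nd (nat_lit 780) (nat_lit 3572) (nat_lit 0) (XT.nd (nat_lit 390) (nat_lit 1596) (nat_lit 0) (XT.nd (nat_lit 156) (nat_lit 0) (nat_lit 0) (XT.nd (nat_lit 78) (nat_lit 0) (nat_lit 0) (XT.lf (nat_lit 0) (nat_lit 10359484657) (nat_lit 1748) (nat_lit 4725197438) (nat_lit 1824) (nat_lit 586273307) (nat_lit 492) (nat_lit 5) (nat_lit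 515) (nat_lit 5) (nat_lit 516) (nat_lit 5) (nat_lit 592) (nat_lit 583) (nat_lit 385)) (XT.lf (nat_lit 76) (nat_lit 3306275290) (nat_lit 0) (nat_lit 7917845353) (nat_lit 1824) (nat_lit 4602409146) (nat_lit 493) (nat_lit 5) (nat_lit 492) (nat_lit 5) (nat_lit 516) (nat_lit 5) (nat_lit 593) (nat_lit 583) (nat_lit 384))) (XT.nd (nat_lit 78) (nat_lit 0) (nat_lit 76) (XT.lf (nat_lit 76) (nat_lit 11557748874) (nat_lit 0) (nat_lit 572814501) (nat_lit 1824) (nat_lit 3854162679) (nat_lit 493) (nat_lit 5) (nat_lit 492) (nat_lit 5) (nat_lit 516) (nat_lit 5) (nat_lit 594) (nat_lit 583) (nat_lit 383)) (XT.nd (nat_lit 78) (nat_lit 0) (nat_lit 0) (XT.lf (nat_lit 76) (nat_lit 3828710551) (nat_lit 0) (nat_lit 9289168975) (nat_lit 1824) (nat_lit 3026952483) (nat_lit 494) (nat_lit 5) (nat_lit 493) (nat_lit 5) (nat_lit 517) (nat_lit 5) (nat_lit 595) (nat_lit 583) (nat_lit 382)) (XT.lf (nat_lit 76) (nat_lit 12300962351) (nat_lit 0) (nat_lit 1850525431) (nat_lit 1824) (nat_lit 2156122029) (nat_lit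 494) (nat_lit 5) (nat_lit 493) (nat_lit 5) (nat_lit 517) (nat_lit 5) (nat_lit 596) (nat_lit 583) (nat_lit 381))))) (XT.nd (nat_lit 156) (nat_lit 1748) (nat_lit 0) (XT.nd (nat_lit 78) (nat_lit 0) (nat_lit 0) (XT.lf (nat_lit 76) (nat_lit 4485827939) (nat_lit 0) (nat_lit 10779532842) (nat_lit 1824) (nat_lit 1207091170) (nat_lit 495) (nat_lit 5) (nat_lit 494) (nat_lit 5) (nat_lit 518) (nat_lit 5) (nat_lit 597) (nat_lit 583) (nat_lit 380)) (XT.lf (nat_lit 76) (nat_lit 13185304594) (nat_lit 0) (nat_lit 3248589931) (nat_lit 1824) (nat_lit 206049361) (nat_lit 495) (nat_lit 5) (nat_lit 494) (nat_lit 5) (nat_lit 518) (nat_lit 5) (nat_lit 598) (nat_lit 583) (nat_lit 379))) (XT.nd (nat_lit 78) (nat_lit 0) (nat_lit 0) (XT.lf (nat_lit 0) (nat_lit 861250617) (nat_lit 1824) (nat_lit 11531613553) (nat_lit 1900) (nat_lit 4416677724) (nat_lit 471) (nat_lit 5) (nat_lit 495) (nat_lit 5) (nat_lit 496) (nat_lit 5) (nat_lit 599) (nat_lit 583) (nat_lit 378)) (XT.nd (nat_lit 78) (nat_lit 0) (nat_lit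 76) (XT.lf (nat_lit 0) (nat_lit 1985509320) (nat_lit 1824) (nat_lit 2777971773) (nat_lit 1900) (nat_lit 12218256680) (nat_lit 471) (nat_lit 5) (nat_lit 495) (nat_lit 5) (nat_lit 496) (nat_lit 5) (nat_lit 600) (nat_lit 583) (nat_lit 377)) (XT.lf (nat_lit 0) (nat_lit 3186209955) (nat_lit 1824) (nat_lit 10948905368) (nat_lit 1900) (nat_lit 3021183682) (nat_lit 472) (nat_lit 5) (nat_lit 496) (nat_lit 5) (nat_lit 497) (nat_lit 5) (nat_lit 601) (nat_lit 583) (nat_lit 376)))))) (XT.nd (nat_lit 390) (nat_lit 3648) (nat_lit 0) (XT.nd (nat_lit 156) (nat_lit 0) (nat_lit 76) (XT.nd (nat_lit 78) (nat_lit 0) (nat_lit 76) (XT.lf (nat_lit 0) (nat_lit 4454986262) (nat_lit 1824) (nat_lit 1960382749) (nat_lit 1900) (nat_lit 10918101780) (nat_lit 472) (nat_lit 5) (nat_lit 496) (nat_lit 5) (nat_lit 497) (nat_lit 5) (nat_lit 602) (nat_lit 583) (nat_lit 375)) (XT.lf (nat_lit 0) (nat_lit 5800194110) (nat_lit 1824) (nat_lit 10224280656) (nat_lit 1900) (nat_lit 1488690675) (nat_lit 473) (nat_lit 5)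 (nat_lit 497) (nat_lit 5) (nat_lit 498) (nat_lit 5) (nat_lit 603) (nat_lit 583) (nat_lit 374))) (XT.nd (nat_lit 78) (nat_lit 0) (nat_lit 0) (XT.lf (nat_lit 0) (nat_lit 7222005100) (nat_lit 1824) (nat_lit 993912860) (nat_lit 1900) (nat_lit 9479542582) (nat_lit 473) (nat_lit 5) (nat_lit 497) (nat_lit 5) (nat_lit 498) (nat_lit 5) (nat_lit 604) (nat_lit 583) (nat_lit 373)) (XT.nd (nat_lit 78) (nat_lit 0) (nat_lit 76) (XT.lf (nat_lit 76) (nat_lit 8528145602) (nat_lit 0) (nat_lit 193566083) (nat_lit 1900) (nat_lit 9158701202) (nat_lit 474) (nat_lit 5) (nat_lit 473) (nat_lit 5) (nat_lit 498) (nat_lit 5) (nat_lit 605) (nat_lit 583) (nat_lit 372)) (XT.lf (nat_lit 76) (nat_lit 130120453) (nat_lit 0) (nat_lit 10174903284) (nat_lit 1900) (nat_lit 7762968834) (nat_lit 475) (nat_lit 5) (nat_lit 474) (nat_lit 5) (nat_lit 499) (nat_lit 5) (nat_lit 606) (nat_lit 583) (nat_lit 371))))) (XT.nd (nat_lit 234) (nat_lit 2052) (nat_lit 0) (XT.nd (nat_lit 78) (nat_lit 1748) (nat_lit 0) (XT.lf (nat_lit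 76) (nat_lit 9922803790) (nat_lit 0) (nat_lit 2055494356) (nat_lit 1900) (nat_lit 6279860287) (nat_lit 475) (nat_lit 5) (nat_lit 474) (nat_lit 5) (nat_lit 499) (nat_lit 5) (nat_lit 607) (nat_lit 583) (nat_lit 370)) (XT.nd (nat_lit 78) (nat_lit 0) (nat_lit 0) (XT.lf (nat_lit 0) (nat_lit 1432728572) (nat_lit 1824) (nat_lit 12296419268) (nat_lit 1900) (nat_lit 4722098076) (nat_lit 451) (nat_lit 5) (nat_lit 475) (nat_lit 5) (nat_lit 476) (nat_lit 5) (nat_lit 608) (nat_lit 583) (nat_lit 369)) (XT.lf (nat_lit 0) (nat_lit 11490550023) (nat_lit 1824) (nat_lit 4088383266) (nat_lit 1900) (nat_lit 3067983972) (nat_lit 451) (nat_lit 5) (nat_lit 475) (nat_lit 5) (nat_lit 476) (nat_lit 5) (nat_lit 609) (nat_lit 583) (nat_lit 368)))) (XT.nd (nat_lit 78) (nat_lit 988) (nat_lit 0) (XT.lf (nat_lit 0) (nat_lit 2908521180) (nat_lit 1064) (nat_lit 14598465021) (nat_lit 1140) (nat_lit 1338690873) (nat_lit 437) (nat_lit 5) (nat_lit 451) (nat_lit 5) (nat_lit 452) (nat_lit 5) (nat_lit 610) (nat_lit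 583) (nat_lit 367)) (XT.nd (nat_lit 78) (nat_lit 912) (nat_lit 0) (XT.lf (nat_lit 0) (nat_lit 489641716) (nat_lit 1140) (nat_lit 5810769169) (nat_lit 76) (nat_lit 12746545848) (nat_lit 436) (nat_lit 5) (nat_lit 451) (nat_lit 5) (nat_lit 437) (nat_lit 5) (nat_lit 611) (nat_lit 583) (nat_lit 366)) (XT.lf (nat_lit 0) (nat_lit 2375292516) (nat_lit 988) (nat_lit 14701543305) (nat_lit 76) (nat_lit 2174476107) (nat_lit 424) (nat_lit 5) (nat_lit 437) (nat_lit 5) (nat_lit 425) (nat_lit 5) (nat_lit 612) (nat_lit 583) (nat_lit 365))))))))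
noncomputable def xc203 : XT := (XT.nd (nat_lit 1560) (nat_lit 7144) (nat_lit 0) (XT.nd (nat_lit 780) (nat_lit 4408) (nat_lit 0) (XT.nd (nat_lit 390) (nat_lit 2584) (nat_lit 0) (XT.nd (nat_lit 156) (nat_lit 836) (nat_lit 0) (XT.nd (nat_lit 78) (nat_lit 912) (nat_lit 0) (XT.lf (nat_lit 0) (nat_lit 4374427388) (nat_lit 988) (nat_lit 4309531305) (nat_lit 76) (nat_lit 10774280554) (nat_lit 424) (nat_lit 5) (nat_lit 437) (nat_lit 5) (nat_lit 425) (nat_lit 5) (nat_lit 613) (nat_lit 583) (nat_lit 364)) (XT.lf (nat_lit 0) (nat_lit 6369090137) (nat_lit 912) (nat_lit 80704167) (nat_lit 988) (nat_lit 13218786256) (nat_lit 412) (nat_lit 5) (nat_lit 424) (nat_lit 5) (nat_lit 425) (nat_lit 5) (nat_lit 614) (nat_lit 583) (nat_lit 363))) (XT.nd (nat_lit 78) (nat_lit 836) (nat_lit 0) (XT.lf (nat_lit 0) (nat_lit 8647198803) (nat_lit 988) (nat_lit 2624326494) (nat_lit 76) (nat_lit 8609993222) (nat_lit 412) (nat_lit 5) (nat_lit 425) (nat_lit 5) (nat_lit 413) (nat_lit 5) (nat_lit 615) (nat_lit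 583) (nat_lit 362)) (XT.nd (nat_lit 78) (nat_lit 0) (nat_lit 0) (XT.lf (nat_lit 0) (nat_lit 8368825399) (nat_lit 836) (nat_lit 2569663377) (nat_lit 912) (nat_lit 9159228130) (nat_lit 401) (nat_lit 5) (nat_lit 412) (nat_lit 5) (nat_lit 413) (nat_lit 5) (nat_lit 616) (nat_lit 583) (nat_lit 361)) (XT.lf (nat_lit 0) (nat_lit 13329410193) (nat_lit 912) (nat_lit 746341269) (nat_lit 76) (nat_lit 6241412094) (nat_lit 401) (nat_lit 5) (nat_lit 413) (nat_lit 5) (nat_lit 402) (nat_lit 5) (nat_lit 617) (nat_lit 583) (nat_lit 360))))) (XT.nd (nat_lit 156) (nat_lit 912) (nat_lit 0) (XT.nd (nat_lit 78) (nat_lit 836) (nat_lit 0) (XT.lf (nat_lit 0) (nat_lit 10572793586) (nat_lit 836) (nat_lit 5276249227) (nat_lit 912) (nat_lit 4690338871) (nat_lit 390) (nat_lit 5) (nat_lit 401) (nat_lit 5) (nat_lit 402) (nat_lit 5) (nat_lit 618) (nat_lit 583) (nat_lit 359)) (XT.lf (nat_lit 0) (nat_lit 1351379928) (nat_lit 836) (nat_lit 17100814519) (nat_lit 912) (nat_lit 2313187593) (nat_lit 379) (nat_lit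 5) (nat_lit 390) (nat_lit 5) (nat_lit 391) (nat_lit 5) (nat_lit 619) (nat_lit 583) (nat_lit 358))) (XT.nd (nat_lit 78) (nat_lit 836) (nat_lit 0) (XT.lf (nat_lit 0) (nat_lit 207633496) (nat_lit 912) (nat_lit 8004674328) (nat_lit 76) (nat_lit 12781628693) (nat_lit 378) (nat_lit 5) (nat_lit 390) (nat_lit 5) (nat_lit 379) (nat_lit 5) (nat_lit 620) (nat_lit 583) (nat_lit 357)) (XT.nd (nat_lit 78) (nat_lit 0) (nat_lit 0) (XT.lf (nat_lit 0) (nat_lit 2772912309) (nat_lit 912) (nat_lit 17571355138) (nat_lit 76) (nat_lit 881988904) (nat_lit 367) (nat_lit 5) (nat_lit 379) (nat_lit 5) (nat_lit 368) (nat_lit 5) (nat_lit 621) (nat_lit 583) (nat_lit 356)) (XT.lf (nat_lit 0) (nat_lit 5493427538) (nat_lit 912) (nat_lit 5865488637) (nat_lit 76) (nat_lit 10102228155) (nat_lit 367) (nat_lit 5) (nat_lit 379) (nat_lit 5) (nat_lit 368) (nat_lit 5) (nat_lit 622) (nat_lit 583) (nat_lit 355)))))) (XT.nd (nat_lit 390) (nat_lit 2204) (nat_lit 0) (XT.nd (nat_lit 156) (nat_lit 1444) (nat_lit 0) (XT.nd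 (nat_lit 78) (nat_lit 0) (nat_lit 0) (XT.lf (nat_lit 0) (nat_lit 6150481212) (nat_lit 760) (nat_lit 2153367005) (nat_lit 836) (nat_lit 13396172304) (nat_lit 357) (nat_lit 5) (nat_lit 367) (nat_lit 5) (nat_lit 368) (nat_lit 5) (nat_lit 623) (nat_lit 583) (nat_lit 354)) (XT.lf (nat_lit 0) (nat_lit 11252698556) (nat_lit 836) (nat_lit 3508585909) (nat_lit 76) (nat_lit 7180745693) (nat_lit 357) (nat_lit 5) (nat_lit 368) (nat_lit 5) (nat_lit 358) (nat_lit 5) (nat_lit 624) (nat_lit 583) (nat_lit 353))) (XT.nd (nat_lit 78) (nat_lit 684) (nat_lit 0) (XT.lf (nat_lit 0) (nat_lit 8870624404) (nat_lit 760) (nat_lit 5457459368) (nat_lit 836) (nat_lit 7859445400) (nat_lit 347) (nat_lit 5) (nat_lit 357) (nat_lit 5) (nat_lit 358) (nat_lit 5) (nat_lit 625) (nat_lit 583) (nat_lit 352)) (XT.nd (nat_lit 78) (nat_lit 684) (nat_lit 0) (XT.lf (nat_lit 0) (nat_lit 17510613475) (nat_lit 836) (nat_lit 923519301) (nat_lit 76) (nat_lit 4002892991) (nat_lit 347) (nat_lit 5) (nat_lit 358) (nat_lit 5) (nat_lit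 348) (nat_lit 5) (nat_lit 626) (nat_lit 583) (nat_lit 351)) (XT.lf (nat_lit 0) (nat_lit 11832171306) (nat_lit 684) (nat_lit 9033425228) (nat_lit 760) (nat_lit 1823740033) (nat_lit 338) (nat_lit 5) (nat_lit 347) (nat_lit 5) (nat_lit 348) (nat_lit 5) (nat_lit 627) (nat_lit 583) (nat_lit 350))))) (XT.nd (nat_lit 156) (nat_lit 1368) (nat_lit 0) (XT.nd (nat_lit 78) (nat_lit 0) (nat_lit 0) (XT.lf (nat_lit 0) (nat_lit 1341753939) (nat_lit 836) (nat_lit 21029270707) (nat_lit 76) (nat_lit 575128010) (nat_lit 327) (nat_lit 5) (nat_lit 338) (nat_lit 5) (nat_lit 328) (nat_lit 5) (nat_lit 628) (nat_lit 583) (nat_lit 349)) (XT.lf (nat_lit 0) (nat_lit 4675235239) (nat_lit 836) (nat_lit 8190125154) (nat_lit 76) (nat_lit 10339921939) (nat_lit 327) (nat_lit 5) (nat_lit 338) (nat_lit 5) (nat_lit 328) (nat_lit 5) (nat_lit 629) (nat_lit 583) (nat_lit 348))) (XT.nd (nat_lit 78) (nat_lit 684) (nat_lit 0) (XT.lf (nat_lit 0) (nat_lit 4966354797) (nat_lit 684) (nat_lit 3137267120) (nat_lit 760) (nat_lit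 15365408272) (nat_lit 318) (nat_lit 5) (nat_lit 327) (nat_lit 5) (nat_lit 328) (nat_lit 5) (nat_lit 630) (nat_lit 583) (nat_lit 347)) (XT.nd (nat_lit 78) (nat_lit 684) (nat_lit 0) (XT.lf (nat_lit 0) (nat_lit 11695991675) (nat_lit 760) (nat_lit 5289018015) (nat_lit 76) (nat_lit 6751135304) (nat_lit 318) (nat_lit 5) (nat_lit 328) (nat_lit 5) (nat_lit 319) (nat_lit 5) (nat_lit 631) (nat_lit 583) (nat_lit 346)) (XT.lf (nat_lit 0) (nat_lit 8272087937) (nat_lit 684) (nat_lit 7158719181) (nat_lit 760) (nat_lit 8576383303) (nat_lit 309) (nat_lit 5) (nat_lit 318) (nat_lit 5) (nat_lit 319) (nat_lit 5) (nat_lit 632) (nat_lit 583) (nat_lit 345))))))) (XT.nd (nat_lit 780) (nat_lit 3268) (nat_lit 0) (XT.nd (nat_lit 390) (nat_lit 1900) (nat_lit 0) (XT.nd (nat_lit 156) (nat_lit 1368) (nat_lit 0) (XT.nd (nat_lit 78) (nat_lit 608) (nat_lit 0) (XT.lf (nat_lit 0) (nat_lit 19290798026) (nat_lit 760) (nat_lit 2130248305) (nat_lit 76) (nat_lit 2861601130) (nat_lit 309) (nat_lit 5) (nat_lit 319)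 (nat_lit 5) (nat_lit 310) (nat_lit 5) (nat_lit 633) (nat_lit 583) (nat_lit 344)) (XT.lf (nat_lit 0) (nat_lit 11850221057) (nat_lit 608) (nat_lit 11498347684) (nat_lit 684) (nat_lit 1212633579) (nat_lit 301) (nat_lit 5) (nat_lit 309) (nat_lit 5) (nat_lit 310) (nat_lit 5) (nat_lit 634) (nat_lit 583) (nat_lit 343))) (XT.nd (nat_lit 78) (nat_lit 608) (nat_lit 0) (XT.lf (nat_lit 0) (nat_lit 1289281820) (nat_lit 684) (nat_lit 1337244662) (nat_lit 760) (nat_lit 22218078724) (nat_lit 291) (nat_lit 5) (nat_lit 300) (nat_lit 5) (nat_lit 301) (nat_lit 5) (nat_lit 635) (nat_lit 583) (nat_lit 342)) (XT.nd (nat_lit 78) (nat_lit 608) (nat_lit 0) (XT.lf (nat_lit 0) (nat_lit 6667010910) (nat_lit 760) (nat_lit 9461875792) (nat_lit 76) (nat_lit 9001813835) (nat_lit 291) (nat_lit 5) (nat_lit 301) (nat_lit 5) (nat_lit 292) (nat_lit 5) (nat_lit 636) (nat_lit 583) (nat_lit 341)) (XT.lf (nat_lit 0) (nat_lit 4965243030) (nat_lit 608) (nat_lit 5860519390) (nat_lit 684) (nat_lit 14596006465) (nat_lit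 283) (nat_lit 5) (nat_lit 291) (nat_lit 5) (nat_lit 292) (nat_lit 5) (nat_lit 637) (nat_lit 583) (nat_lit 340))))) (XT.nd (nat_lit 156) (nat_lit 1292) (nat_lit 0) (XT.nd (nat_lit 78) (nat_lit 608) (nat_lit 0) (XT.lf (nat_lit 0) (nat_lit 15157956565) (nat_lit 684) (nat_lit 5943097996) (nat_lit 76) (nat_lit 4615798941) (nat_lit 283) (nat_lit 5) (nat_lit 292) (nat_lit 5) (nat_lit 284) (nat_lit 5) (nat_lit 638) (nat_lit 583) (nat_lit 339)) (XT.lf (nat_lit 0) (nat_lit 8934554360) (nat_lit 608) (nat_lit 10735532136) (nat_lit 684) (nat_lit 6345887727) (nat_lit 275) (nat_lit 5) (nat_lit 283) (nat_lit 5) (nat_lit 284) (nat_lit 5) (nat_lit 639) (nat_lit 583) (nat_lit 338))) (XT.nd (nat_lit 78) (nat_lit 1292) (nat_lit 0) (XT.lf (nat_lit 0) (nat_lit 24185938079) (nat_lit 608) (nat_lit 122914461) (nat_lit 684) (nat_lit 2011497191) (nat_lit 275) (nat_lit 5) (nat_lit 283) (nat_lit 5) (nat_lit 284) (nat_lit 5) (nat_lit 640) (nat_lit 583) (nat_lit 337)) (XT.nd (nat_lit 78) (nat_lit 608) (nat_lit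 0) (XT.lf (nat_lit 0) (nat_lit 2530817738) (nat_lit 684) (nat_lit 13433468782) (nat_lit 76) (nat_lit 10663156799) (nat_lit 266) (nat_lit 5) (nat_lit 275) (nat_lit 5) (nat_lit 267) (nat_lit 5) (nat_lit 641) (nat_lit 583) (nat_lit 336)) (XT.lf (nat_lit 0) (nat_lit 1924097691) (nat_lit 608) (nat_lit 5237288190) (nat_lit 684) (nat_lit 19778540390) (nat_lit 258) (nat_lit 5) (nat_lit 266) (nat_lit 5) (nat_lit 267) (nat_lit 5) (nat_lit 642) (nat_lit 583) (nat_lit 335)))))) (XT.nd (nat_lit 390) (nat_lit 2128) (nat_lit 0) (XT.nd (nat_lit 156) (nat_lit 608) (nat_lit 0) (XT.nd (nat_lit 78) (nat_lit 532) (nat_lit 0) (XT.lf (nat_lit 0) (nat_lit 12008967356) (nat_lit 684) (nat_lit 9527987344) (nat_lit 76) (nat_lit 5719216368) (nat_lit 258) (nat_lit 5) (nat_lit 267) (nat_lit 5) (nat_lit 259) (nat_lit 5) (nat_lit 643) (nat_lit 583) (nat_lit 334)) (XT.lf (nat_lit 0) (nat_lit 6313406278) (nat_lit 532) (nat_lit 10712458791) (nat_lit 608) (nat_lit 10551428622) (nat_lit 251) (nat_lit 5) (nat_lit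 258) (nat_lit 5) (nat_lit 259) (nat_lit 5) (nat_lit 644) (nat_lit 583) (nat_lit 333))) (XT.nd (nat_lit 78) (nat_lit 608) (nat_lit 0) (XT.lf (nat_lit 0) (nat_lit 22206315159) (nat_lit 608) (nat_lit 5309686798) (nat_lit 76) (nat_lit 387572738) (nat_lit 251) (nat_lit 5) (nat_lit 259) (nat_lit 5) (nat_lit 252) (nat_lit 5) (nat_lit 645) (nat_lit 583) (nat_lit 332)) (XT.nd (nat_lit 78) (nat_lit 76) (nat_lit 0) (XT.lf (nat_lit 0) (nat_lit 11033088181) (nat_lit 532) (nat_lit 16596648109) (nat_lit 608) (nat_lit 603858000) (nat_lit 244) (nat_lit 5) (nat_lit 251) (nat_lit 5) (nat_lit 252) (nat_lit 5) (nat_lit 646) (nat_lit 583) (nat_lit 331)) (XT.lf (nat_lit 0) (nat_lit 4563859874) (nat_lit 608) (nat_lit 829137078) (nat_lit 76) (nat_lit 23175968009) (nat_lit 243) (nat_lit 5) (nat_lit 251) (nat_lit 5) (nat_lit 244) (nat_lit 5) (nat_lit 647) (nat_lit 583) (nat_lit 330))))) (XT.nd (nat_lit 234) (nat_lit 1064) (nat_lit 0) (XT.nd (nat_lit 78) (nat_lit 532) (nat_lit 0) (XT.lf (nat_lit 0) (nat_lit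 9967959371) (nat_lit 608) (nat_lit 12876578235) (nat_lit 76) (nat_lit 6063603552) (nat_lit 236) (nat_lit 5) (nat_lit 244) (nat_lit 5) (nat_lit 237) (nat_lit 5) (nat_lit 648) (nat_lit 583) (nat_lit 329)) (XT.nd (nat_lit 78) (nat_lit 0) (nat_lit 0) (XT.lf (nat_lit 0) (nat_lit 3999199049) (nat_lit 532) (nat_lit 11545112315) (nat_lit 608) (nat_lit 13708506300) (nat_lit 229) (nat_lit 5) (nat_lit 236) (nat_lit 5) (nat_lit 237) (nat_lit 5) (nat_lit 649) (nat_lit 583) (nat_lit 328)) (XT.lf (nat_lit 0) (nat_lit 21315958880) (nat_lit 608) (nat_lit 8220318854) (nat_lit 76) (nat_lit 66434791) (nat_lit 229) (nat_lit 5) (nat_lit 237) (nat_lit 5) (nat_lit 230) (nat_lit 5) (nat_lit 650) (nat_lit 583) (nat_lit 327)))) (XT.nd (nat_lit 78) (nat_lit 608) (nat_lit 0) (XT.lf (nat_lit 0) (nat_lit 9193595985) (nat_lit 456) (nat_lit 18142567979) (nat_lit 532) (nat_lit 2620779014) (nat_lit 223) (nat_lit 5) (nat_lit 229) (nat_lit 5) (nat_lit 230) (nat_lit 5) (nat_lit 651) (nat_lit 583) (nat_lit 326))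 (XT.nd (nat_lit 78) (nat_lit 532) (nat_lit 0) (XT.lf (nat_lit 0) (nat_lit 3169607005) (nat_lit 532) (nat_lit 3274991234) (nat_lit 76) (nat_lit 23872199511) (nat_lit 222) (nat_lit 5) (nat_lit 229) (nat_lit 5) (nat_lit 223) (nat_lit 5) (nat_lit 652) (nat_lit 583) (nat_lit 325)) (XT.lf (nat_lit 0) (nat_lit 9169826150) (nat_lit 608) (nat_lit 15983089765) (nat_lit 76) (nat_lit 5528005060) (nat_lit 215) (nat_lit 5) (nat_lit 223) (nat_lit 5) (nat_lit 216) (nat_lit 5) (nat_lit 653) (nat_lit 583) (nat_lit 324))))))))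
noncomputable def xc204 : XT := (XT.nd (nat_lit 77142) (nat_lit 0) (nat_lit 12008) (XT.nd (nat_lit 76362) (nat_lit 0) (nat_lit 19836) (XT.nd (nat_lit 75972) (nat_lit 0) (nat_lit 21280) (XT.nd (nat_lit 75738) (nat_lit 0) (nat_lit 21204) (XT.nd (nat_lit 78) (nat_lit 0) (nat_lit 0) (XT.lf (nat_lit 0) (nat_lit 2001923109) (nat_lit 456) (nat_lit 13362997730) (nat_lit 532) (nat_lit 15685908578) (nat_lit 209) (nat_lit 5) (nat_lit 215) (nat_lit 5) (nat_lit 216) (nat_lit 5) (nat_lit 654) (nat_lit 583) (nat_lit 323)) (XT.lf (nat_lit 0) (nat_lit 20559194543) (nat_lit 456) (nat_lit 1229080081) (nat_lit 532) (nat_lit 9637774430) (nat_lit 209) (nat_lit 5) (nat_lit 215) (nat_lit 5) (nat_lit 216) (nat_lit 5) (nat_lit 655) (nat_lit 583) (nat_lit 322))) (XT.nd (nat_lit 78) (nat_lit 0) (nat_lit 0) (XT.lf (nat_lit 0) (nat_lit 1449575777) (nat_lit 0) (nat_lit 1449575777) (nat_lit 1748) (nat_lit 4421103559) (nat_lit 488) (nat_lit 5) (nat_lit 488) (nat_lit 3) (nat_lit 511) (nat_lit 3) (nat_lit 584)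 (nat_lit 584) (nat_lit 392)) (XT.nd (nat_lit 78) (nat_lit 0) (nat_lit 0) (XT.lf (nat_lit 0) (nat_lit 6196455456) (nat_lit 1748) (nat_lit 4533204261) (nat_lit 1824) (nat_lit 4050422879) (nat_lit 488) (nat_lit 5) (nat_lit 511) (nat_lit 3) (nat_lit 512) (nat_lit 5) (nat_lit 585) (nat_lit 584) (nat_lit 391)) (XT.lf (nat_lit 76) (nat_lit 2832761903) (nat_lit 0) (nat_lit 3799203702) (nat_lit 1824) (nat_lit 8289893683) (nat_lit 489) (nat_lit 5) (nat_lit 488) (nat_lit 5) (nat_lit 512) (nat_lit 5) (nat_lit 586) (nat_lit 584) (nat_lit 390))))) (XT.nd (nat_lit 156) (nat_lit 0) (nat_lit 76) (XT.nd (nat_lit 78) (nat_lit 0) (nat_lit 0) (XT.lf (nat_lit 0) (nat_lit 7119998186) (nat_lit 1748) (nat_lit 4684260668) (nat_lit 1824) (nat_lit 3261337170) (nat_lit 489) (nat_lit 5) (nat_lit 512) (nat_lit 5) (nat_lit 513) (nat_lit 5) (nat_lit 587) (nat_lit 584) (nat_lit 389)) (XT.lf (nat_lit 76) (nat_lit 2876868477) (nat_lit 0) (nat_lit 4776879880) (nat_lit 1824) (nat_lit 7557740739) (nat_lit 490)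 (nat_lit 5) (nat_lit 489) (nat_lit 5) (nat_lit 513) (nat_lit 5) (nat_lit 588) (nat_lit 584) (nat_lit 388))) (XT.nd (nat_lit 78) (nat_lit 0) (nat_lit 0) (XT.lf (nat_lit 0) (nat_lit 8237606398) (nat_lit 1748) (nat_lit 4727211051) (nat_lit 1824) (nat_lit 2394694648) (nat_lit 490) (nat_lit 5) (nat_lit 513) (nat_lit 5) (nat_lit 514) (nat_lit 5) (nat_lit 589) (nat_lit 584) (nat_lit 387)) (XT.nd (nat_lit 78) (nat_lit 0) (nat_lit 76) (XT.lf (nat_lit 76) (nat_lit 3036095526) (nat_lit 0) (nat_lit 5840811601) (nat_lit 1824) (nat_lit 6632713831) (nat_lit 491) (nat_lit 5) (nat_lit 490) (nat_lit 5) (nat_lit 514) (nat_lit 5) (nat_lit 590) (nat_lit 584) (nat_lit 386)) (XT.lf (nat_lit 0) (nat_lit 9562740560) (nat_lit 1748) (nat_lit 4657392984) (nat_lit 1824) (nat_lit 1441924217) (nat_lit 491) (nat_lit 5) (nat_lit 514) (nat_lit 5) (nat_lit 515) (nat_lit 5) (nat_lit 591) (nat_lit 584) (nat_lit 385)))))) (XT.nd (nat_lit 390) (nat_lit 1596) (nat_lit 0) (XT.nd (nat_lit 156) (nat_lit 0) (nat_lit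 76) (XT.nd (nat_lit 78) (nat_lit 0) (nat_lit 76) (XT.lf (nat_lit 76) (nat_lit 3315376979) (nat_lit 0) (nat_lit 6999824210) (nat_lit 1824) (nat_lit 5501284582) (nat_lit 492) (nat_lit 5) (nat_lit 491) (nat_lit 5) (nat_lit 515) (nat_lit 5) (nat_lit 592) (nat_lit 584) (nat_lit 384)) (XT.lf (nat_lit 0) (nat_lit 11109376533) (nat_lit 1748) (nat_lit 4469837352) (nat_lit 1824) (nat_lit 394255819) (nat_lit 492) (nat_lit 5) (nat_lit 515) (nat_lit 5) (nat_lit 516) (nat_lit 5) (nat_lit 593) (nat_lit 584) (nat_lit 383))) (XT.nd (nat_lit 78) (nat_lit 0) (nat_lit 0) (XT.lf (nat_lit 76) (nat_lit 3719963093) (nat_lit 0) (nat_lit 8262957531) (nat_lit 1824) (nat_lit 4149403641) (nat_lit 493) (nat_lit 5) (nat_lit 492) (nat_lit 5) (nat_lit 516) (nat_lit 5) (nat_lit 594) (nat_lit 584) (nat_lit 382)) (XT.nd (nat_lit 78) (nat_lit 0) (nat_lit 76) (XT.lf (nat_lit 76) (nat_lit 12129651202) (nat_lit 0) (nat_lit 767364193) (nat_lit 1824) (nat_lit 3396879572) (nat_lit 493) (nat_lit 5) (nat_lit 492) (nat_lit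 5) (nat_lit 516) (nat_lit 5) (nat_lit 595) (nat_lit 584) (nat_lit 381)) (XT.lf (nat_lit 76) (nat_lit 4255427657) (nat_lit 0) (nat_lit 9639486730) (nat_lit 1824) (nat_lit 2562472880) (nat_lit 494) (nat_lit 5) (nat_lit 493) (nat_lit 5) (nat_lit 517) (nat_lit 5) (nat_lit 596) (nat_lit 584) (nat_lit 380))))) (XT.nd (nat_lit 156) (nat_lit 1748) (nat_lit 0) (XT.nd (nat_lit 78) (nat_lit 0) (nat_lit 76) (XT.lf (nat_lit 76) (nat_lit 12890258946) (nat_lit 0) (nat_lit 2048844152) (nat_lit 1824) (nat_lit 1684520301) (nat_lit 494) (nat_lit 5) (nat_lit 493) (nat_lit 5) (nat_lit 517) (nat_lit 5) (nat_lit 597) (nat_lit 584) (nat_lit 379)) (XT.lf (nat_lit 76) (nat_lit 4927675779) (nat_lit 0) (nat_lit 11138943428) (nat_lit 1824) (nat_lit 725316780) (nat_lit 495) (nat_lit 5) (nat_lit 494) (nat_lit 5) (nat_lit 518) (nat_lit 5) (nat_lit 598) (nat_lit 584) (nat_lit 378))) (XT.nd (nat_lit 78) (nat_lit 0) (nat_lit 76) (XT.lf (nat_lit 0) (nat_lit 282077280) (nat_lit 1824) (nat_lit 3170591492) (nat_lit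 1900) (nat_lit 13510267265) (nat_lit 470) (nat_lit 5) (nat_lit 494) (nat_lit 5) (nat_lit 495) (nat_lit 5) (nat_lit 599) (nat_lit 584) (nat_lit 377)) (XT.nd (nat_lit 78) (nat_lit 0) (nat_lit 0) (XT.lf (nat_lit 0) (nat_lit 1359776327) (nat_lit 1824) (nat_lit 11402235968) (nat_lit 1900) (nat_lit 4374051097) (nat_lit 471) (nat_lit 5) (nat_lit 495) (nat_lit 5) (nat_lit 496) (nat_lit 5) (nat_lit 600) (nat_lit 584) (nat_lit 376)) (XT.lf (nat_lit 0) (nat_lit 2497082935) (nat_lit 1824) (nat_lit 2480580369) (nat_lit 1900) (nat_lit 12334229479) (nat_lit 471) (nat_lit 5) (nat_lit 495) (nat_lit 5) (nat_lit 496) (nat_lit 5) (nat_lit 601) (nat_lit 584) (nat_lit 375))))))) (XT.nd (nat_lit 780) (nat_lit 5320) (nat_lit 0) (XT.nd (nat_lit 390) (nat_lit 2660) (nat_lit 0) (XT.nd (nat_lit 156) (nat_lit 0) (nat_lit 76) (XT.nd (nat_lit 78) (nat_lit 0) (nat_lit 0) (XT.lf (nat_lit 0) (nat_lit 3714080028) (nat_lit 1824) (nat_lit 10807173438) (nat_lit 1900) (nat_lit 2968846957) (nat_lit 472) (nat_lit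 5) (nat_lit 496) (nat_lit 5) (nat_lit 497) (nat_lit 5) (nat_lit 602) (nat_lit 584) (nat_lit 374)) (XT.lf (nat_lit 0) (nat_lit 4999130962) (nat_lit 1824) (nat_lit 1645953112) (nat_lit 1900) (nat_lit 11025914405) (nat_lit 472) (nat_lit 5) (nat_lit 496) (nat_lit 5) (nat_lit 497) (nat_lit 5) (nat_lit 603) (nat_lit 584) (nat_lit 373))) (XT.nd (nat_lit 78) (nat_lit 0) (nat_lit 0) (XT.lf (nat_lit 0) (nat_lit 6363971068) (nat_lit 1824) (nat_lit 10067817052) (nat_lit 1900) (nat_lit 1422645141) (nat_lit 473) (nat_lit 5) (nat_lit 497) (nat_lit 5) (nat_lit 498) (nat_lit 5) (nat_lit 604) (nat_lit 584) (nat_lit 372)) (XT.nd (nat_lit 78) (nat_lit 0) (nat_lit 0) (XT.lf (nat_lit 0) (nat_lit 7805438414) (nat_lit 1824) (nat_lit 659919336) (nat_lit 1900) (nat_lit 9575192896) (nat_lit 473) (nat_lit 5) (nat_lit 497) (nat_lit 5) (nat_lit 498) (nat_lit 5) (nat_lit 605) (nat_lit 584) (nat_lit 371)) (XT.lf (nat_lit 76) (nat_lit 9050252192) (nat_lit 0) (nat_lit 278561684) (nat_lit 1900) (nat_lit 8900515438)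 (nat_lit 474) (nat_lit 5) (nat_lit 473) (nat_lit 5) (nat_lit 498) (nat_lit 5) (nat_lit 606) (nat_lit 584) (nat_lit 370))))) (XT.nd (nat_lit 156) (nat_lit 2812) (nat_lit 0) (XT.nd (nat_lit 78) (nat_lit 0) (nat_lit 0) (XT.lf (nat_lit 76) (nat_lit 491111649) (nat_lit 0) (nat_lit 10446007347) (nat_lit 1900) (nat_lit 7483675813) (nat_lit 475) (nat_lit 5) (nat_lit 474) (nat_lit 5) (nat_lit 499) (nat_lit 5) (nat_lit 607) (nat_lit 584) (nat_lit 369)) (XT.lf (nat_lit 76) (nat_lit 10472621421) (nat_lit 0) (nat_lit 2162884633) (nat_lit 1900) (nat_lit 5979425730) (nat_lit 475) (nat_lit 5) (nat_lit 474) (nat_lit 5) (nat_lit 499) (nat_lit 5) (nat_lit 608) (nat_lit 584) (nat_lit 368))) (XT.nd (nat_lit 78) (nat_lit 1064) (nat_lit 0) (XT.lf (nat_lit 0) (nat_lit 1819195236) (nat_lit 1824) (nat_lit 12595889704) (nat_lit 1900) (nat_lit 4396922558) (nat_lit 451) (nat_lit 5) (nat_lit 475) (nat_lit 5) (nat_lit 476) (nat_lit 5) (nat_lit 609) (nat_lit 584) (nat_lit 367)) (XT.nd (nat_lit 78) (nat_lit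 1064) (nat_lit 0) (XT.lf (nat_lit 0) (nat_lit 12071157192) (nat_lit 1824) (nat_lit 4222643137) (nat_lit 1900) (nat_lit 2717953966) (nat_lit 451) (nat_lit 5) (nat_lit 475) (nat_lit 5) (nat_lit 476) (nat_lit 5) (nat_lit 610) (nat_lit 584) (nat_lit 366)) (XT.lf (nat_lit 0) (nat_lit 3323566487) (nat_lit 1064) (nat_lit 14930923135) (nat_lit 1140) (nat_lit 960118874) (nat_lit 437) (nat_lit 5) (nat_lit 451) (nat_lit 5) (nat_lit 452) (nat_lit 5) (nat_lit 611) (nat_lit 584) (nat_lit 365)))))) (XT.nd (nat_lit 390) (nat_lit 3420) (nat_lit 0) (XT.nd (nat_lit 156) (nat_lit 912) (nat_lit 0) (XT.nd (nat_lit 78) (nat_lit 912) (nat_lit 0) (XT.lf (nat_lit 0) (nat_lit 891620465) (nat_lit 1140) (nat_lit 5571861778) (nat_lit 76) (nat_lit 12956536413) (nat_lit 436) (nat_lit 5) (nat_lit 451) (nat_lit 5) (nat_lit 437) (nat_lit 5) (nat_lit 612) (nat_lit 584) (nat_lit 364)) (XT.lf (nat_lit 0) (nat_lit 2809364133) (nat_lit 988) (nat_lit 14634798414) (nat_lit 76) (nat_lit 2184411467) (nat_lit 424) (nat_lit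 5) (nat_lit 437) (nat_lit 5) (nat_lit 425) (nat_lit 5) (nat_lit 613) (nat_lit 584) (nat_lit 363))) (XT.nd (nat_lit 78) (nat_lit 912) (nat_lit 0) (XT.lf (nat_lit 0) (nat_lit 4840901983) (nat_lit 988) (nat_lit 4042020208) (nat_lit 76) (nat_lit 10956869929) (nat_lit 424) (nat_lit 5) (nat_lit 437) (nat_lit 5) (nat_lit 425) (nat_lit 5) (nat_lit 614) (nat_lit 584) (nat_lit 362)) (XT.nd (nat_lit 78) (nat_lit 0) (nat_lit 0) (XT.lf (nat_lit 0) (nat_lit 6847846678) (nat_lit 912) (nat_lit 104779818) (nat_lit 988) (nat_lit 13101817388) (nat_lit 412) (nat_lit 5) (nat_lit 424) (nat_lit 5) (nat_lit 425) (nat_lit 5) (nat_lit 615) (nat_lit 584) (nat_lit 361)) (XT.lf (nat_lit 0) (nat_lit 9186505986) (nat_lit 988) (nat_lit 2324823945) (nat_lit 76) (nat_lit 8760460752) (nat_lit 412) (nat_lit 5) (nat_lit 425) (nat_lit 5) (nat_lit 413) (nat_lit 5) (nat_lit 616) (nat_lit 584) (nat_lit 360))))) (XT.nd (nat_lit 234) (nat_lit 1748) (nat_lit 0) (XT.nd (nat_lit 78) (nat_lit 836) (nat_lit 0) (XT.lf (nat_lit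 0) (nat_lit 8885875268) (nat_lit 836) (nat_lit 2632833208) (nat_lit 912) (nat_lit 8973703433) (nat_lit 401) (nat_lit 5) (nat_lit 412) (nat_lit 5) (nat_lit 413) (nat_lit 5) (nat_lit 617) (nat_lit 584) (nat_lit 359)) (XT.nd (nat_lit 78) (nat_lit 836) (nat_lit 0) (XT.lf (nat_lit 0) (nat_lit 13950286106) (nat_lit 912) (nat_lit 411259118) (nat_lit 76) (nat_lit 6354846108) (nat_lit 401) (nat_lit 5) (nat_lit 413) (nat_lit 5) (nat_lit 402) (nat_lit 5) (nat_lit 618) (nat_lit 584) (nat_lit 358)) (XT.lf (nat_lit 0) (nat_lit 11131955744) (nat_lit 836) (nat_lit 5383666357) (nat_lit 912) (nat_lit 4427526090) (nat_lit 390) (nat_lit 5) (nat_lit 401) (nat_lit 5) (nat_lit 402) (nat_lit 5) (nat_lit 619) (nat_lit 584) (nat_lit 357)))) (XT.nd (nat_lit 78) (nat_lit 912) (nat_lit 0) (XT.lf (nat_lit 0) (nat_lit 1730813410) (nat_lit 836) (nat_lit 17435444495) (nat_lit 912) (nat_lit 2007502799) (nat_lit 379) (nat_lit 5) (nat_lit 390) (nat_lit 5) (nat_lit 391) (nat_lit 5) (nat_lit 620) (nat_lit 584)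 (nat_lit 356)) (XT.nd (nat_lit 78) (nat_lit 836) (nat_lit 0) (XT.lf (nat_lit 0) (nat_lit 552308399) (nat_lit 912) (nat_lit 7814719014) (nat_lit 76) (nat_lit 13039949914) (nat_lit 378) (nat_lit 5) (nat_lit 390) (nat_lit 5) (nat_lit 379) (nat_lit 5) (nat_lit 621) (nat_lit 584) (nat_lit 355)) (XT.lf (nat_lit 0) (nat_lit 3164549271) (nat_lit 912) (nat_lit 17568362986) (nat_lit 76) (nat_lit 911118711) (nat_lit 367) (nat_lit 5) (nat_lit 379) (nat_lit 5) (nat_lit 368) (nat_lit 5) (nat_lit 622) (nat_lit 584) (nat_lit 354))))))))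
noncomputable def xc205 : XT := (XT.nd (nat_lit 1560) (nat_lit 4332) (nat_lit 0) (XT.nd (nat_lit 780) (nat_lit 3952) (nat_lit 0) (XT.nd (nat_lit 390) (nat_lit 2204) (nat_lit 0) (XT.nd (nat_lit 156) (nat_lit 760) (nat_lit 0) (XT.nd (nat_lit 78) (nat_lit 760) (nat_lit 0) (XT.lf (nat_lit 0) (nat_lit 5932883065) (nat_lit 912) (nat_lit 5635328551) (nat_lit 76) (nat_lit 10315537452) (nat_lit 367) (nat_lit 5) (nat_lit 379) (nat_lit 5) (nat_lit 368) (nat_lit 5) (nat_lit 623) (nat_lit 584) (nat_lit 353)) (XT.lf (nat_lit 0) (nat_lit 6618674709) (nat_lit 760) (nat_lit 2176616121) (nat_lit 836) (nat_lit 13332196897) (nat_lit 357) (nat_lit 5) (nat_lit 367) (nat_lit 5) (nat_lit 368) (nat_lit 5) (nat_lit 624) (nat_lit 584) (nat_lit 352))) (XT.nd (nat_lit 78) (nat_lit 760) (nat_lit 0) (XT.lf (nat_lit 0) (nat_lit 11796864607) (nat_lit 836) (nat_lit 3234063114) (nat_lit 76) (nat_lit 7343535415) (nat_lit 357) (nat_lit 5) (nat_lit 368) (nat_lit 5) (nat_lit 358) (nat_lit 5) (nat_lit 625) (nat_lit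 584) (nat_lit 351)) (XT.nd (nat_lit 78) (nat_lit 0) (nat_lit 0) (XT.lf (nat_lit 0) (nat_lit 9390463678) (nat_lit 760) (nat_lit 5539260012) (nat_lit 836) (nat_lit 7695229616) (nat_lit 347) (nat_lit 5) (nat_lit 357) (nat_lit 5) (nat_lit 358) (nat_lit 5) (nat_lit 626) (nat_lit 584) (nat_lit 350)) (XT.lf (nat_lit 0) (nat_lit 18169900066) (nat_lit 836) (nat_lit 600248833) (nat_lit 76) (nat_lit 4109411500) (nat_lit 347) (nat_lit 5) (nat_lit 358) (nat_lit 5) (nat_lit 348) (nat_lit 5) (nat_lit 627) (nat_lit 584) (nat_lit 349))))) (XT.nd (nat_lit 156) (nat_lit 684) (nat_lit 0) (XT.nd (nat_lit 78) (nat_lit 836) (nat_lit 0) (XT.lf (nat_lit 0) (nat_lit 12408307291) (nat_lit 684) (nat_lit 9179819424) (nat_lit 760) (nat_lit 1548868298) (nat_lit 338) (nat_lit 5) (nat_lit 347) (nat_lit 5) (nat_lit 348) (nat_lit 5) (nat_lit 628) (nat_lit 584) (nat_lit 348)) (XT.lf (nat_lit 0) (nat_lit 1672289587) (nat_lit 836) (nat_lit 21102671156) (nat_lit 76) (nat_lit 624017964) (nat_lit 327) (nat_lit 5)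 (nat_lit 338) (nat_lit 5) (nat_lit 328) (nat_lit 5) (nat_lit 629) (nat_lit 584) (nat_lit 347))) (XT.nd (nat_lit 78) (nat_lit 684) (nat_lit 0) (XT.lf (nat_lit 0) (nat_lit 5066485600) (nat_lit 836) (nat_lit 8013550239) (nat_lit 76) (nat_lit 10583374686) (nat_lit 327) (nat_lit 5) (nat_lit 338) (nat_lit 5) (nat_lit 328) (nat_lit 5) (nat_lit 630) (nat_lit 584) (nat_lit 346)) (XT.nd (nat_lit 78) (nat_lit 0) (nat_lit 0) (XT.lf (nat_lit 0) (nat_lit 5403819985) (nat_lit 684) (nat_lit 3155977294) (nat_lit 760) (nat_lit 15372709359) (nat_lit 318) (nat_lit 5) (nat_lit 327) (nat_lit 5) (nat_lit 328) (nat_lit 5) (nat_lit 631) (nat_lit 584) (nat_lit 345)) (XT.lf (nat_lit 0) (nat_lit 12218528007) (nat_lit 760) (nat_lit 5057782353) (nat_lit 76) (nat_lit 6928763540) (nat_lit 318) (nat_lit 5) (nat_lit 328) (nat_lit 5) (nat_lit 319) (nat_lit 5) (nat_lit 632) (nat_lit 584) (nat_lit 344)))))) (XT.nd (nat_lit 390) (nat_lit 1900) (nat_lit 0) (XT.nd (nat_lit 156) (nat_lit 1368) (nat_lit 0) (XT.nd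 (nat_lit 78) (nat_lit 0) (nat_lit 0) (XT.lf (nat_lit 0) (nat_lit 8772328507) (nat_lit 684) (nat_lit 7252225841) (nat_lit 760) (nat_lit 8457056021) (nat_lit 309) (nat_lit 5) (nat_lit 318) (nat_lit 5) (nat_lit 319) (nat_lit 5) (nat_lit 633) (nat_lit 584) (nat_lit 343)) (XT.lf (nat_lit 0) (nat_lit 19956470421) (nat_lit 760) (nat_lit 1839323666) (nat_lit 76) (nat_lit 2966888371) (nat_lit 309) (nat_lit 5) (nat_lit 319) (nat_lit 5) (nat_lit 310) (nat_lit 5) (nat_lit 634) (nat_lit 584) (nat_lit 342))) (XT.nd (nat_lit 78) (nat_lit 760) (nat_lit 0) (XT.lf (nat_lit 0) (nat_lit 12418560810) (nat_lit 608) (nat_lit 11673499609) (nat_lit 684) (nat_lit 954815128) (nat_lit 301) (nat_lit 5) (nat_lit 309) (nat_lit 5) (nat_lit 310) (nat_lit 5) (nat_lit 635) (nat_lit 584) (nat_lit 341)) (XT.nd (nat_lit 78) (nat_lit 0) (nat_lit 0) (XT.lf (nat_lit 0) (nat_lit 1647917909) (nat_lit 684) (nat_lit 1306213630) (nat_lit 760) (nat_lit 22381844659) (nat_lit 291) (nat_lit 5) (nat_lit 300) (nat_lit 5) (nat_lit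 301) (nat_lit 5) (nat_lit 636) (nat_lit 584) (nat_lit 340)) (XT.lf (nat_lit 0) (nat_lit 7070399801) (nat_lit 760) (nat_lit 9319744244) (nat_lit 76) (nat_lit 9237750292) (nat_lit 291) (nat_lit 5) (nat_lit 301) (nat_lit 5) (nat_lit 292) (nat_lit 5) (nat_lit 637) (nat_lit 584) (nat_lit 339))))) (XT.nd (nat_lit 156) (nat_lit 1292) (nat_lit 0) (XT.nd (nat_lit 78) (nat_lit 0) (nat_lit 0) (XT.lf (nat_lit 0) (nat_lit 5393736895) (nat_lit 608) (nat_lit 5915431688) (nat_lit 684) (nat_lit 14615679002) (nat_lit 283) (nat_lit 5) (nat_lit 291) (nat_lit 5) (nat_lit 292) (nat_lit 5) (nat_lit 638) (nat_lit 584) (nat_lit 338)) (XT.lf (nat_lit 0) (nat_lit 15723170005) (nat_lit 684) (nat_lit 5734370542) (nat_lit 76) (nat_lit 4768390449) (nat_lit 283) (nat_lit 5) (nat_lit 292) (nat_lit 5) (nat_lit 284) (nat_lit 5) (nat_lit 639) (nat_lit 584) (nat_lit 337))) (XT.nd (nat_lit 78) (nat_lit 684) (nat_lit 0) (XT.lf (nat_lit 0) (nat_lit 9438679667) (nat_lit 608) (nat_lit 10883837482) (nat_lit 684) (nat_lit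 6208577852) (nat_lit 275) (nat_lit 5) (nat_lit 283) (nat_lit 5) (nat_lit 284) (nat_lit 5) (nat_lit 640) (nat_lit 584) (nat_lit 336)) (XT.nd (nat_lit 78) (nat_lit 684) (nat_lit 0) (XT.lf (nat_lit 0) (nat_lit 24988709998) (nat_lit 608) (nat_lit 60269518) (nat_lit 684) (nat_lit 1792680439) (nat_lit 275) (nat_lit 5) (nat_lit 283) (nat_lit 5) (nat_lit 284) (nat_lit 5) (nat_lit 641) (nat_lit 584) (nat_lit 335)) (XT.lf (nat_lit 0) (nat_lit 2834589615) (nat_lit 684) (nat_lit 13377159322) (nat_lit 76) (nat_lit 10943163055) (nat_lit 266) (nat_lit 5) (nat_lit 275) (nat_lit 5) (nat_lit 267) (nat_lit 5) (nat_lit 642) (nat_lit 584) (nat_lit 334))))))) (XT.nd (nat_lit 780) (nat_lit 1064) (nat_lit 0) (XT.nd (nat_lit 390) (nat_lit 1596) (nat_lit 0) (XT.nd (nat_lit 156) (nat_lit 1064) (nat_lit 0) (XT.nd (nat_lit 78) (nat_lit 0) (nat_lit 0) (XT.lf (nat_lit 0) (nat_lit 2285420462) (nat_lit 608) (nat_lit 5269480923) (nat_lit 684) (nat_lit 19918800909) (nat_lit 258) (nat_lit 5) (nat_lit 266) (nat_lit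 5) (nat_lit 267) (nat_lit 5) (nat_lit 643) (nat_lit 584) (nat_lit 333)) (XT.lf (nat_lit 0) (nat_lit 12494988712) (nat_lit 684) (nat_lit 9397574290) (nat_lit 76) (nat_lit 5903798230) (nat_lit 258) (nat_lit 5) (nat_lit 267) (nat_lit 5) (nat_lit 259) (nat_lit 5) (nat_lit 644) (nat_lit 584) (nat_lit 332))) (XT.nd (nat_lit 78) (nat_lit 532) (nat_lit 0) (XT.lf (nat_lit 0) (nat_lit 6758535542) (nat_lit 532) (nat_lit 10850938663) (nat_lit 608) (nat_lit 10514487426) (nat_lit 251) (nat_lit 5) (nat_lit 258) (nat_lit 5) (nat_lit 259) (nat_lit 5) (nat_lit 645) (nat_lit 584) (nat_lit 331)) (XT.nd (nat_lit 78) (nat_lit 532) (nat_lit 0) (XT.lf (nat_lit 0) (nat_lit 22889249089) (nat_lit 608) (nat_lit 5098971585) (nat_lit 76) (nat_lit 468633581) (nat_lit 251) (nat_lit 5) (nat_lit 259) (nat_lit 5) (nat_lit 252) (nat_lit 5) (nat_lit 646) (nat_lit 584) (nat_lit 330)) (XT.lf (nat_lit 0) (nat_lit 11568573965) (nat_lit 532) (nat_lit 16849926220) (nat_lit 608) (nat_lit 375027135) (nat_lit 244) (nat_lit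 5) (nat_lit 251) (nat_lit 5) (nat_lit 252) (nat_lit 5) (nat_lit 647) (nat_lit 584) (nat_lit 329))))) (XT.nd (nat_lit 156) (nat_lit 988) (nat_lit 0) (XT.nd (nat_lit 78) (nat_lit 532) (nat_lit 0) (XT.lf (nat_lit 0) (nat_lit 4888223811) (nat_lit 608) (nat_lit 533956348) (nat_lit 76) (nat_lit 23713487496) (nat_lit 243) (nat_lit 5) (nat_lit 251) (nat_lit 5) (nat_lit 244) (nat_lit 5) (nat_lit 648) (nat_lit 584) (nat_lit 328)) (XT.lf (nat_lit 0) (nat_lit 10398359950) (nat_lit 608) (nat_lit 12820286401) (nat_lit 76) (nat_lit 6263022223) (nat_lit 236) (nat_lit 5) (nat_lit 244) (nat_lit 5) (nat_lit 237) (nat_lit 5) (nat_lit 649) (nat_lit 584) (nat_lit 327))) (XT.nd (nat_lit 78) (nat_lit 456) (nat_lit 0) (XT.lf (nat_lit 0) (nat_lit 4390941802) (nat_lit 532) (nat_lit 11692791103) (nat_lit 608) (nat_lit 13749556113) (nat_lit 229) (nat_lit 5) (nat_lit 236) (nat_lit 5) (nat_lit 237) (nat_lit 5) (nat_lit 650) (nat_lit 584) (nat_lit 326)) (XT.nd (nat_lit 78) (nat_lit 456) (nat_lit 0) (XT.lf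 (nat_lit 0) (nat_lit 21966862033) (nat_lit 608) (nat_lit 8075114025) (nat_lit 76) (nat_lit 148285024) (nat_lit 229) (nat_lit 5) (nat_lit 237) (nat_lit 5) (nat_lit 230) (nat_lit 5) (nat_lit 651) (nat_lit 584) (nat_lit 325)) (XT.lf (nat_lit 0) (nat_lit 9685042194) (nat_lit 456) (nat_lit 18420022393) (nat_lit 532) (nat_lit 2446559965) (nat_lit 223) (nat_lit 5) (nat_lit 229) (nat_lit 5) (nat_lit 230) (nat_lit 5) (nat_lit 652) (nat_lit 584) (nat_lit 324)))))) (XT.nd (nat_lit 76050) (nat_lit 0) (nat_lit 21204) (XT.nd (nat_lit 156) (nat_lit 456) (nat_lit 0) (XT.nd (nat_lit 78) (nat_lit 532) (nat_lit 0) (XT.lf (nat_lit 0) (nat_lit 3452275886) (nat_lit 532) (nat_lit 3036020360) (nat_lit 76) (nat_lit 24430438719) (nat_lit 222) (nat_lit 5) (nat_lit 229) (nat_lit 5) (nat_lit 223) (nat_lit 5) (nat_lit 653) (nat_lit 584) (nat_lit 323)) (XT.lf (nat_lit 0) (nat_lit 9570718986) (nat_lit 608) (nat_lit 15996487487) (nat_lit 76) (nat_lit 5722970050) (nat_lit 215) (nat_lit 5) (nat_lit 223) (nat_lit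 5) (nat_lit 216) (nat_lit 5) (nat_lit 654) (nat_lit 584) (nat_lit 322))) (XT.nd (nat_lit 75738) (nat_lit 0) (nat_lit 21204) (XT.lf (nat_lit 0) (nat_lit 2346210749) (nat_lit 456) (nat_lit 13541215573) (nat_lit 532) (nat_lit 15780102849) (nat_lit 209) (nat_lit 5) (nat_lit 215) (nat_lit 5) (nat_lit 216) (nat_lit 5) (nat_lit 655) (nat_lit 584) (nat_lit 321)) (XT.nd (nat_lit 78) (nat_lit 0) (nat_lit 0) (XT.lf (nat_lit 0) (nat_lit 1634310395) (nat_lit 0) (nat_lit 1634310395) (nat_lit 1748) (nat_lit 4191780545) (nat_lit 488) (nat_lit 5) (nat_lit 488) (nat_lit 3) (nat_lit 511) (nat_lit 3) (nat_lit 585) (nat_lit 585) (nat_lit 390)) (XT.lf (nat_lit 0) (nat_lit 6929159110) (nat_lit 1748) (nat_lit 4304234680) (nat_lit 1824) (nat_lit 3830057800) (nat_lit 488) (nat_lit 5) (nat_lit 511) (nat_lit 3) (nat_lit 512) (nat_lit 5) (nat_lit 586) (nat_lit 585) (nat_lit 389))))) (XT.nd (nat_lit 234) (nat_lit 0) (nat_lit 152) (XT.nd (nat_lit 78) (nat_lit 0) (nat_lit 76) (XT.lf (nat_lit 76) (nat_lit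 3206947955) (nat_lit 0) (nat_lit 4156556372) (nat_lit 1824) (nat_lit 7844758111) (nat_lit 489) (nat_lit 5) (nat_lit 488) (nat_lit 5) (nat_lit 512) (nat_lit 5) (nat_lit 587) (nat_lit 585) (nat_lit 388)) (XT.nd (nat_lit 78) (nat_lit 0) (nat_lit 0) (XT.lf (nat_lit 0) (nat_lit 7847763423) (nat_lit 1748) (nat_lit 4453052076) (nat_lit 1824) (nat_lit 3054330192) (nat_lit 489) (nat_lit 5) (nat_lit 512) (nat_lit 5) (nat_lit 513) (nat_lit 5) (nat_lit 588) (nat_lit 585) (nat_lit 387)) (XT.lf (nat_lit 76) (nat_lit 3257162192) (nat_lit 0) (nat_lit 5125644203) (nat_lit 1824) (nat_lit 7121338951) (nat_lit 490) (nat_lit 5) (nat_lit 489) (nat_lit 5) (nat_lit 513) (nat_lit 5) (nat_lit 589) (nat_lit 585) (nat_lit 386)))) (XT.nd (nat_lit 78) (nat_lit 0) (nat_lit 0) (XT.lf (nat_lit 0) (nat_lit 8965435933) (nat_lit 1748) (nat_lit 4492369003) (nat_lit 1824) (nat_lit 2197583040) (nat_lit 490) (nat_lit 5) (nat_lit 513) (nat_lit 5) (nat_lit 514) (nat_lit 5) (nat_lit 590) (nat_lit 585) (nat_lit 385))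 (XT.nd (nat_lit 78) (nat_lit 0) (nat_lit 76) (XT.lf (nat_lit 76) (nat_lit 3424036689) (nat_lit 0) (nat_lit 6184569777) (nat_lit 1824) (nat_lit 6200071907) (nat_lit 491) (nat_lit 5) (nat_lit 490) (nat_lit 5) (nat_lit 514) (nat_lit 5) (nat_lit 591) (nat_lit 585) (nat_lit 384)) (XT.lf (nat_lit 0) (nat_lit 10295846096) (nat_lit 1748) (nat_lit 4417376418) (nat_lit 1824) (nat_lit 1251188623) (nat_lit 491) (nat_lit 5) (nat_lit 514) (nat_lit 5) (nat_lit 515) (nat_lit 5) (nat_lit 592) (nat_lit 585) (nat_lit 383))))))))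
noncomputable def xc206 : XT := (XT.nd (nat_lit 1560) (nat_lit 9044) (nat_lit 0) (XT.nd (nat_lit 780) (nat_lit 2508) (nat_lit 0) (XT.nd (nat_lit 390) (nat_lit 1596) (nat_lit 0) (XT.nd (nat_lit 156) (nat_lit 0) (nat_lit 76) (XT.nd (nat_lit 78) (nat_lit 0) (nat_lit 76) (XT.lf (nat_lit 76) (nat_lit 3712657073) (nat_lit 0) (nat_lit 7342223234) (nat_lit 1824) (nat_lit 5067217909) (nat_lit 492) (nat_lit 5) (nat_lit 491) (nat_lit 5) (nat_lit 515) (nat_lit 5) (nat_lit 593) (nat_lit 585) (nat_lit 382)) (XT.lf (nat_lit 0) (nat_lit 11853192458) (nat_lit 1748) (nat_lit 4222955711) (nat_lit 1824) (nat_lit 206309568) (nat_lit 492) (nat_lit 5) (nat_lit 515) (nat_lit 5) (nat_lit 516) (nat_lit 5) (nat_lit 594) (nat_lit 585) (nat_lit 381))) (XT.nd (nat_lit 78) (nat_lit 0) (nat_lit 0) (XT.lf (nat_lit 76) (nat_lit 4128428386) (nat_lit 0) (nat_lit 8607720017) (nat_lit 1824) (nat_lit 3708503125) (nat_lit 493) (nat_lit 5) (nat_lit 492) (nat_lit 5) (nat_lit 516) (nat_lit 5) (nat_lit 595) (nat_lit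 585) (nat_lit 380)) (XT.nd (nat_lit 78) (nat_lit 0) (nat_lit 76) (XT.lf (nat_lit 76) (nat_lit 12699759942) (nat_lit 0) (nat_lit 958695139) (nat_lit 1824) (nat_lit 2951200900) (nat_lit 493) (nat_lit 5) (nat_lit 492) (nat_lit 5) (nat_lit 516) (nat_lit 5) (nat_lit 596) (nat_lit 585) (nat_lit 379)) (XT.lf (nat_lit 76) (nat_lit 4677082630) (nat_lit 0) (nat_lit 9990421770) (nat_lit 1824) (nat_lit 2109090800) (nat_lit 494) (nat_lit 5) (nat_lit 493) (nat_lit 5) (nat_lit 517) (nat_lit 5) (nat_lit 597) (nat_lit 585) (nat_lit 378))))) (XT.nd (nat_lit 156) (nat_lit 1748) (nat_lit 0) (XT.nd (nat_lit 78) (nat_lit 0) (nat_lit 76) (XT.lf (nat_lit 76) (nat_lit 13478011595) (nat_lit 0) (nat_lit 2244865452) (nat_lit 1824) (nat_lit 1223473905) (nat_lit 494) (nat_lit 5) (nat_lit 493) (nat_lit 5) (nat_lit 517) (nat_lit 5) (nat_lit 598) (nat_lit 585) (nat_lit 377)) (XT.lf (nat_lit 76) (nat_lit 5364686890) (nat_lit 0) (nat_lit 11499957522) (nat_lit 1824) (nat_lit 253552245) (nat_lit 495) (nat_lit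 5) (nat_lit 494) (nat_lit 5) (nat_lit 518) (nat_lit 5) (nat_lit 599) (nat_lit 585) (nat_lit 376))) (XT.nd (nat_lit 78) (nat_lit 0) (nat_lit 76) (XT.lf (nat_lit 0) (nat_lit 758202492) (nat_lit 1824) (nat_lit 2895887194) (nat_lit 1900) (nat_lit 13638652922) (nat_lit 470) (nat_lit 5) (nat_lit 494) (nat_lit 5) (nat_lit 495) (nat_lit 5) (nat_lit 600) (nat_lit 585) (nat_lit 375)) (XT.nd (nat_lit 78) (nat_lit 0) (nat_lit 0) (XT.lf (nat_lit 0) (nat_lit 1849583058) (nat_lit 1824) (nat_lit 11284250453) (nat_lit 1900) (nat_lit 4335657281) (nat_lit 471) (nat_lit 5) (nat_lit 495) (nat_lit 5) (nat_lit 496) (nat_lit 5) (nat_lit 601) (nat_lit 585) (nat_lit 374)) (XT.lf (nat_lit 0) (nat_lit 3000564990) (nat_lit 1824) (nat_lit 2190946648) (nat_lit 1900) (nat_lit 12457507365) (nat_lit 471) (nat_lit 5) (nat_lit 495) (nat_lit 5) (nat_lit 496) (nat_lit 5) (nat_lit 602) (nat_lit 585) (nat_lit 373)))))) (XT.nd (nat_lit 390) (nat_lit 2660) (nat_lit 0) (XT.nd (nat_lit 156) (nat_lit 0) (nat_lit 76)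 (XT.nd (nat_lit 78) (nat_lit 0) (nat_lit 0) (XT.lf (nat_lit 0) (nat_lit 4234484154) (nat_lit 1824) (nat_lit 10676613680) (nat_lit 1900) (nat_lit 2919842122) (nat_lit 472) (nat_lit 5) (nat_lit 496) (nat_lit 5) (nat_lit 497) (nat_lit 5) (nat_lit 603) (nat_lit 585) (nat_lit 372)) (XT.lf (nat_lit 0) (nat_lit 5536488605) (nat_lit 1824) (nat_lit 1338967050) (nat_lit 1900) (nat_lit 11140176051) (nat_lit 472) (nat_lit 5) (nat_lit 496) (nat_lit 5) (nat_lit 497) (nat_lit 5) (nat_lit 604) (nat_lit 585) (nat_lit 371))) (XT.nd (nat_lit 78) (nat_lit 0) (nat_lit 0) (XT.lf (nat_lit 0) (nat_lit 6921635992) (nat_lit 1824) (nat_lit 9922240273) (nat_lit 1900) (nat_lit 1358999478) (nat_lit 473) (nat_lit 5) (nat_lit 497) (nat_lit 5) (nat_lit 498) (nat_lit 5) (nat_lit 605) (nat_lit 585) (nat_lit 370)) (XT.nd (nat_lit 78) (nat_lit 0) (nat_lit 0) (XT.lf (nat_lit 0) (nat_lit 8383493754) (nat_lit 1824) (nat_lit 332987214) (nat_lit 1900) (nat_lit 9676404043) (nat_lit 473) (nat_lit 5) (nat_lit 497) (nat_lit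 5) (nat_lit 498) (nat_lit 5) (nat_lit 606) (nat_lit 585) (nat_lit 369)) (XT.lf (nat_lit 76) (nat_lit 9569150044) (nat_lit 0) (nat_lit 362107042) (nat_lit 1900) (nat_lit 8654304496) (nat_lit 474) (nat_lit 5) (nat_lit 473) (nat_lit 5) (nat_lit 498) (nat_lit 5) (nat_lit 607) (nat_lit 585) (nat_lit 368))))) (XT.nd (nat_lit 156) (nat_lit 2812) (nat_lit 0) (XT.nd (nat_lit 78) (nat_lit 0) (nat_lit 0) (XT.lf (nat_lit 76) (nat_lit 845405995) (nat_lit 0) (nat_lit 10719908269) (nat_lit 1900) (nat_lit 7215671130) (nat_lit 475) (nat_lit 5) (nat_lit 474) (nat_lit 5) (nat_lit 499) (nat_lit 5) (nat_lit 608) (nat_lit 585) (nat_lit 367)) (XT.lf (nat_lit 76) (nat_lit 11019791608) (nat_lit 0) (nat_lit 2269848967) (nat_lit 1900) (nat_lit 5689525815) (nat_lit 475) (nat_lit 5) (nat_lit 474) (nat_lit 5) (nat_lit 499) (nat_lit 5) (nat_lit 609) (nat_lit 585) (nat_lit 366))) (XT.nd (nat_lit 78) (nat_lit 1064) (nat_lit 0) (XT.lf (nat_lit 0) (nat_lit 2199496953) (nat_lit 1824) (nat_lit 12899270445) (nat_lit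 1900) (nat_lit 4081537788) (nat_lit 451) (nat_lit 5) (nat_lit 475) (nat_lit 5) (nat_lit 476) (nat_lit 5) (nat_lit 610) (nat_lit 585) (nat_lit 365)) (XT.nd (nat_lit 78) (nat_lit 1064) (nat_lit 0) (XT.lf (nat_lit 0) (nat_lit 12649754663) (nat_lit 1824) (nat_lit 4357549869) (nat_lit 1900) (nat_lit 2376898123) (nat_lit 451) (nat_lit 5) (nat_lit 475) (nat_lit 5) (nat_lit 476) (nat_lit 5) (nat_lit 611) (nat_lit 585) (nat_lit 364)) (XT.lf (nat_lit 0) (nat_lit 3733054814) (nat_lit 1064) (nat_lit 15268458181) (nat_lit 1140) (nat_lit 589715507) (nat_lit 437) (nat_lit 5) (nat_lit 451) (nat_lit 5) (nat_lit 452) (nat_lit 5) (nat_lit 612) (nat_lit 585) (nat_lit 363))))))) (XT.nd (nat_lit 780) (nat_lit 4560) (nat_lit 0) (XT.nd (nat_lit 390) (nat_lit 2584) (nat_lit 0) (XT.nd (nat_lit 156) (nat_lit 912) (nat_lit 0) (XT.nd (nat_lit 78) (nat_lit 912) (nat_lit 0) (XT.lf (nat_lit 0) (nat_lit 1286409732) (nat_lit 1140) (nat_lit 5341966090) (nat_lit 76) (nat_lit 13172471878) (nat_lit 436) (nat_lit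 5) (nat_lit 451) (nat_lit 5) (nat_lit 437) (nat_lit 5) (nat_lit 613) (nat_lit 585) (nat_lit 362)) (XT.lf (nat_lit 0) (nat_lit 3237106364) (nat_lit 988) (nat_lit 14580727987) (nat_lit 76) (nat_lit 2195848484) (nat_lit 424) (nat_lit 5) (nat_lit 437) (nat_lit 5) (nat_lit 425) (nat_lit 5) (nat_lit 614) (nat_lit 585) (nat_lit 361))) (XT.nd (nat_lit 78) (nat_lit 912) (nat_lit 0) (XT.lf (nat_lit 0) (nat_lit 5301989579) (nat_lit 988) (nat_lit 3782893558) (nat_lit 76) (nat_lit 11144388491) (nat_lit 424) (nat_lit 5) (nat_lit 437) (nat_lit 5) (nat_lit 425) (nat_lit 5) (nat_lit 615) (nat_lit 585) (nat_lit 360)) (XT.nd (nat_lit 78) (nat_lit 0) (nat_lit 0) (XT.lf (nat_lit 0) (nat_lit 7322534040) (nat_lit 912) (nat_lit 128464772) (nat_lit 988) (nat_lit 12997317219) (nat_lit 412) (nat_lit 5) (nat_lit 424) (nat_lit 5) (nat_lit 425) (nat_lit 5) (nat_lit 616) (nat_lit 585) (nat_lit 359)) (XT.lf (nat_lit 0) (nat_lit 9722372982) (nat_lit 988) (nat_lit 2032999510) (nat_lit 76) (nat_lit 8914781527)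 (nat_lit 412) (nat_lit 5) (nat_lit 425) (nat_lit 5) (nat_lit 413) (nat_lit 5) (nat_lit 617) (nat_lit 585) (nat_lit 358))))) (XT.nd (nat_lit 156) (nat_lit 1748) (nat_lit 0) (XT.nd (nat_lit 78) (nat_lit 0) (nat_lit 0) (XT.lf (nat_lit 0) (nat_lit 9399687892) (nat_lit 836) (nat_lit 2696809138) (nat_lit 912) (nat_lit 8798785673) (nat_lit 401) (nat_lit 5) (nat_lit 412) (nat_lit 5) (nat_lit 413) (nat_lit 5) (nat_lit 618) (nat_lit 585) (nat_lit 357)) (XT.lf (nat_lit 0) (nat_lit 14569822115) (nat_lit 912) (nat_lit 83066598) (nat_lit 76) (nat_lit 6470991254) (nat_lit 401) (nat_lit 5) (nat_lit 413) (nat_lit 5) (nat_lit 402) (nat_lit 5) (nat_lit 619) (nat_lit 585) (nat_lit 356))) (XT.nd (nat_lit 78) (nat_lit 912) (nat_lit 0) (XT.lf (nat_lit 0) (nat_lit 11688799286) (nat_lit 836) (nat_lit 5493158356) (nat_lit 912) (nat_lit 4173305027) (nat_lit 390) (nat_lit 5) (nat_lit 401) (nat_lit 5) (nat_lit 402) (nat_lit 5) (nat_lit 620) (nat_lit 585) (nat_lit 355)) (XT.nd (nat_lit 78) (nat_lit 76)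 (nat_lit 0) (XT.lf (nat_lit 0) (nat_lit 2104151212) (nat_lit 836) (nat_lit 17777053890) (nat_lit 912) (nat_lit 1709370900) (nat_lit 379) (nat_lit 5) (nat_lit 390) (nat_lit 5) (nat_lit 391) (nat_lit 5) (nat_lit 621) (nat_lit 585) (nat_lit 354)) (XT.lf (nat_lit 0) (nat_lit 890653907) (nat_lit 912) (nat_lit 7634557414) (nat_lit 76) (nat_lit 13303333157) (nat_lit 378) (nat_lit 5) (nat_lit 390) (nat_lit 5) (nat_lit 379) (nat_lit 5) (nat_lit 622) (nat_lit 585) (nat_lit 353)))))) (XT.nd (nat_lit 390) (nat_lit 2204) (nat_lit 0) (XT.nd (nat_lit 156) (nat_lit 1520) (nat_lit 0) (XT.nd (nat_lit 78) (nat_lit 0) (nat_lit 0) (XT.lf (nat_lit 0) (nat_lit 3550964743) (nat_lit 912) (nat_lit 17579073522) (nat_lit 76) (nat_lit 940384942) (nat_lit 367) (nat_lit 5) (nat_lit 379) (nat_lit 5) (nat_lit 368) (nat_lit 5) (nat_lit 623) (nat_lit 585) (nat_lit 352)) (XT.lf (nat_lit 0) (nat_lit 6368329438) (nat_lit 912) (nat_lit 5414057942) (nat_lit 76) (nat_lit 10532675512) (nat_lit 367) (nat_lit 5) (nat_lit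 379) (nat_lit 5) (nat_lit 368) (nat_lit 5) (nat_lit 624) (nat_lit 585) (nat_lit 351))) (XT.nd (nat_lit 78) (nat_lit 760) (nat_lit 0) (XT.lf (nat_lit 0) (nat_lit 7082828165) (nat_lit 760) (nat_lit 2201099786) (nat_lit 836) (nat_lit 13279830019) (nat_lit 357) (nat_lit 5) (nat_lit 367) (nat_lit 5) (nat_lit 368) (nat_lit 5) (nat_lit 625) (nat_lit 585) (nat_lit 350)) (XT.nd (nat_lit 78) (nat_lit 760) (nat_lit 0) (XT.lf (nat_lit 0) (nat_lit 12339522469) (nat_lit 836) (nat_lit 2967434772) (nat_lit 76) (nat_lit 7508836350) (nat_lit 357) (nat_lit 5) (nat_lit 368) (nat_lit 5) (nat_lit 358) (nat_lit 5) (nat_lit 626) (nat_lit 585) (nat_lit 349)) (XT.lf (nat_lit 0) (nat_lit 9907402888) (nat_lit 760) (nat_lit 5623758646) (nat_lit 836) (nat_lit 7540210051) (nat_lit 347) (nat_lit 5) (nat_lit 357) (nat_lit 5) (nat_lit 358) (nat_lit 5) (nat_lit 627) (nat_lit 585) (nat_lit 348))))) (XT.nd (nat_lit 234) (nat_lit 684) (nat_lit 0) (XT.nd (nat_lit 78) (nat_lit 1520) (nat_lit 0) (XT.lf (nat_lit 0)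 (nat_lit 18830370655) (nat_lit 836) (nat_lit 283783169) (nat_lit 76) (nat_lit 4217032880) (nat_lit 347) (nat_lit 5) (nat_lit 358) (nat_lit 5) (nat_lit 348) (nat_lit 5) (nat_lit 628) (nat_lit 585) (nat_lit 347)) (XT.nd (nat_lit 78) (nat_lit 836) (nat_lit 0) (XT.lf (nat_lit 0) (nat_lit 12982783087) (nat_lit 684) (nat_lit 9330472418) (nat_lit 760) (nat_lit 1280589094) (nat_lit 338) (nat_lit 5) (nat_lit 347) (nat_lit 5) (nat_lit 348) (nat_lit 5) (nat_lit 629) (nat_lit 585) (nat_lit 346)) (XT.lf (nat_lit 0) (nat_lit 1997642885) (nat_lit 836) (nat_lit 21191021229) (nat_lit 76) (nat_lit 672433920) (nat_lit 327) (nat_lit 5) (nat_lit 338) (nat_lit 5) (nat_lit 328) (nat_lit 5) (nat_lit 630) (nat_lit 585) (nat_lit 345)))) (XT.nd (nat_lit 78) (nat_lit 684) (nat_lit 0) (XT.lf (nat_lit 0) (nat_lit 5453999142) (nat_lit 836) (nat_lit 7846661097) (nat_lit 76) (nat_lit 10830273156) (nat_lit 327) (nat_lit 5) (nat_lit 338) (nat_lit 5) (nat_lit 328) (nat_lit 5) (nat_lit 631) (nat_lit 585) (nat_lit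 344)) (XT.nd (nat_lit 78) (nat_lit 0) (nat_lit 0) (XT.lf (nat_lit 0) (nat_lit 5836904162) (nat_lit 684) (nat_lit 3176771609) (nat_lit 760) (nat_lit 15391806107) (nat_lit 318) (nat_lit 5) (nat_lit 327) (nat_lit 5) (nat_lit 328) (nat_lit 5) (nat_lit 632) (nat_lit 585) (nat_lit 343)) (XT.lf (nat_lit 0) (nat_lit 12740307735) (nat_lit 760) (nat_lit 4835008721) (nat_lit 76) (nat_lit 7108289915) (nat_lit 318) (nat_lit 5) (nat_lit 328) (nat_lit 5) (nat_lit 319) (nat_lit 5) (nat_lit 633) (nat_lit 585) (nat_lit 342))))))))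
noncomputable def xc207 : XT := (XT.nd (nat_lit 1560) (nat_lit 608) (nat_lit 0) (XT.nd (nat_lit 780) (nat_lit 3268) (nat_lit 0) (XT.nd (nat_lit 390) (nat_lit 1900) (nat_lit 0) (XT.nd (nat_lit 156) (nat_lit 1368) (nat_lit 0) (XT.nd (nat_lit 78) (nat_lit 0) (nat_lit 0) (XT.lf (nat_lit 0) (nat_lit 9269573243) (nat_lit 684) (nat_lit 7349531292) (nat_lit 760) (nat_lit 8346636445) (nat_lit 309) (nat_lit 5) (nat_lit 318) (nat_lit 5) (nat_lit 319) (nat_lit 5) (nat_lit 634) (nat_lit 585) (nat_lit 341)) (XT.lf (nat_lit 0) (nat_lit 20624589098) (nat_lit 760) (nat_lit 1555531895) (nat_lit 76) (nat_lit 3072415315) (nat_lit 309) (nat_lit 5) (nat_lit 319) (nat_lit 5) (nat_lit 310) (nat_lit 5) (nat_lit 635) (nat_lit 585) (nat_lit 340))) (XT.nd (nat_lit 78) (nat_lit 760) (nat_lit 0) (XT.lf (nat_lit 0) (nat_lit 12985401202) (nat_lit 608) (nat_lit 11854283106) (nat_lit 684) (nat_lit 702793473) (nat_lit 301) (nat_lit 5) (nat_lit 309) (nat_lit 5) (nat_lit 310) (nat_lit 5) (nat_lit 636) (nat_lit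 585) (nat_lit 339)) (XT.nd (nat_lit 78) (nat_lit 0) (nat_lit 0) (XT.lf (nat_lit 0) (nat_lit 2000801730) (nat_lit 684) (nat_lit 1276805487) (nat_lit 760) (nat_lit 22559781784) (nat_lit 291) (nat_lit 5) (nat_lit 300) (nat_lit 5) (nat_lit 301) (nat_lit 5) (nat_lit 637) (nat_lit 585) (nat_lit 338)) (XT.lf (nat_lit 0) (nat_lit 7471370150) (nat_lit 760) (nat_lit 9187637530) (nat_lit 76) (nat_lit 9476234805) (nat_lit 291) (nat_lit 5) (nat_lit 301) (nat_lit 5) (nat_lit 292) (nat_lit 5) (nat_lit 638) (nat_lit 585) (nat_lit 337))))) (XT.nd (nat_lit 156) (nat_lit 1292) (nat_lit 0) (XT.nd (nat_lit 78) (nat_lit 0) (nat_lit 0) (XT.lf (nat_lit 0) (nat_lit 5818017826) (nat_lit 608) (nat_lit 5973861343) (nat_lit 684) (nat_lit 14646316695) (nat_lit 283) (nat_lit 5) (nat_lit 291) (nat_lit 5) (nat_lit 292) (nat_lit 5) (nat_lit 639) (nat_lit 585) (nat_lit 336)) (XT.lf (nat_lit 0) (nat_lit 16289511825) (nat_lit 684) (nat_lit 5534189236) (nat_lit 76) (nat_lit 4921693214) (nat_lit 283) (nat_lit 5)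 (nat_lit 292) (nat_lit 5) (nat_lit 284) (nat_lit 5) (nat_lit 640) (nat_lit 585) (nat_lit 335))) (XT.nd (nat_lit 78) (nat_lit 684) (nat_lit 0) (XT.lf (nat_lit 0) (nat_lit 9940250473) (nat_lit 608) (nat_lit 11037687534) (nat_lit 684) (nat_lit 6078782060) (nat_lit 275) (nat_lit 5) (nat_lit 283) (nat_lit 5) (nat_lit 284) (nat_lit 5) (nat_lit 641) (nat_lit 585) (nat_lit 334)) (XT.nd (nat_lit 78) (nat_lit 684) (nat_lit 0) (XT.lf (nat_lit 0) (nat_lit 25794054990) (nat_lit 684) (nat_lit 1578453310) (nat_lit 76) (nat_lit 1085854) (nat_lit 275) (nat_lit 5) (nat_lit 284) (nat_lit 5) (nat_lit 276) (nat_lit 5) (nat_lit 642) (nat_lit 585) (nat_lit 333)) (XT.lf (nat_lit 0) (nat_lit 3134606593) (nat_lit 684) (nat_lit 13332342997) (nat_lit 76) (nat_lit 11226177720) (nat_lit 266) (nat_lit 5) (nat_lit 275) (nat_lit 5) (nat_lit 267) (nat_lit 5) (nat_lit 643) (nat_lit 585) (nat_lit 332)))))) (XT.nd (nat_lit 390) (nat_lit 1596) (nat_lit 0) (XT.nd (nat_lit 156) (nat_lit 1064) (nat_lit 0) (XT.nd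 (nat_lit 78) (nat_lit 0) (nat_lit 0) (XT.lf (nat_lit 0) (nat_lit 2641433386) (nat_lit 608) (nat_lit 5305134833) (nat_lit 684) (nat_lit 20071780648) (nat_lit 258) (nat_lit 5) (nat_lit 266) (nat_lit 5) (nat_lit 267) (nat_lit 5) (nat_lit 644) (nat_lit 585) (nat_lit 331)) (XT.lf (nat_lit 0) (nat_lit 12981184149) (nat_lit 684) (nat_lit 9277016739) (nat_lit 76) (nat_lit 6089345873) (nat_lit 258) (nat_lit 5) (nat_lit 267) (nat_lit 5) (nat_lit 259) (nat_lit 5) (nat_lit 645) (nat_lit 585) (nat_lit 330))) (XT.nd (nat_lit 78) (nat_lit 532) (nat_lit 0) (XT.lf (nat_lit 0) (nat_lit 7200185625) (nat_lit 532) (nat_lit 10995130347) (nat_lit 608) (nat_lit 10486436375) (nat_lit 251) (nat_lit 5) (nat_lit 258) (nat_lit 5) (nat_lit 259) (nat_lit 5) (nat_lit 646) (nat_lit 585) (nat_lit 329)) (XT.nd (nat_lit 78) (nat_lit 532) (nat_lit 0) (XT.lf (nat_lit 0) (nat_lit 23576568506) (nat_lit 608) (nat_lit 4896348029) (nat_lit 76) (nat_lit 548468948) (nat_lit 251) (nat_lit 5) (nat_lit 259) (nat_lit 5)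 (nat_lit 252) (nat_lit 5) (nat_lit 647) (nat_lit 585) (nat_lit 328)) (XT.lf (nat_lit 0) (nat_lit 12102544465) (nat_lit 532) (nat_lit 17111324158) (nat_lit 608) (nat_lit 150974404) (nat_lit 244) (nat_lit 5) (nat_lit 251) (nat_lit 5) (nat_lit 252) (nat_lit 5) (nat_lit 648) (nat_lit 585) (nat_lit 327))))) (XT.nd (nat_lit 156) (nat_lit 988) (nat_lit 0) (XT.nd (nat_lit 78) (nat_lit 532) (nat_lit 0) (XT.lf (nat_lit 0) (nat_lit 5210023984) (nat_lit 608) (nat_lit 244978158) (nat_lit 76) (nat_lit 24258883858) (nat_lit 243) (nat_lit 5) (nat_lit 251) (nat_lit 5) (nat_lit 244) (nat_lit 5) (nat_lit 649) (nat_lit 585) (nat_lit 326)) (XT.lf (nat_lit 0) (nat_lit 10828396922) (nat_lit 608) (nat_lit 12775054874) (nat_lit 76) (nat_lit 6463394740) (nat_lit 236) (nat_lit 5) (nat_lit 244) (nat_lit 5) (nat_lit 237) (nat_lit 5) (nat_lit 650) (nat_lit 585) (nat_lit 325))) (XT.nd (nat_lit 78) (nat_lit 456) (nat_lit 0) (XT.lf (nat_lit 0) (nat_lit 4778413436) (nat_lit 532) (nat_lit 11846655134) (nat_lit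 608) (nat_lit 13800479269) (nat_lit 229) (nat_lit 5) (nat_lit 236) (nat_lit 5) (nat_lit 237) (nat_lit 5) (nat_lit 651) (nat_lit 585) (nat_lit 324)) (XT.nd (nat_lit 78) (nat_lit 456) (nat_lit 0) (XT.lf (nat_lit 0) (nat_lit 22622062379) (nat_lit 608) (nat_lit 7939027680) (nat_lit 76) (nat_lit 228645512) (nat_lit 229) (nat_lit 5) (nat_lit 237) (nat_lit 5) (nat_lit 230) (nat_lit 5) (nat_lit 652) (nat_lit 585) (nat_lit 323)) (XT.lf (nat_lit 0) (nat_lit 10174373843) (nat_lit 456) (nat_lit 18706341963) (nat_lit 532) (nat_lit 2277657033) (nat_lit 223) (nat_lit 5) (nat_lit 229) (nat_lit 5) (nat_lit 230) (nat_lit 5) (nat_lit 653) (nat_lit 585) (nat_lit 322))))))) (XT.nd (nat_lit 76518) (nat_lit 0) (nat_lit 19380) (XT.nd (nat_lit 76128) (nat_lit 0) (nat_lit 20824) (XT.nd (nat_lit 75894) (nat_lit 0) (nat_lit 20748) (XT.nd (nat_lit 78) (nat_lit 532) (nat_lit 0) (XT.lf (nat_lit 0) (nat_lit 3732083361) (nat_lit 532) (nat_lit 2804093037) (nat_lit 76) (nat_lit 24996705335) (nat_lit 222) (nat_lit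 5) (nat_lit 229) (nat_lit 5) (nat_lit 223) (nat_lit 5) (nat_lit 654) (nat_lit 585) (nat_lit 321)) (XT.lf (nat_lit 0) (nat_lit 9971184031) (nat_lit 608) (nat_lit 16022045770) (nat_lit 76) (nat_lit 5918556795) (nat_lit 215) (nat_lit 5) (nat_lit 223) (nat_lit 5) (nat_lit 216) (nat_lit 5) (nat_lit 655) (nat_lit 585) (nat_lit 320))) (XT.nd (nat_lit 78) (nat_lit 0) (nat_lit 0) (XT.lf (nat_lit 0) (nat_lit 1816692011) (nat_lit 0) (nat_lit 1816692011) (nat_lit 1748) (nat_lit 3970209499) (nat_lit 488) (nat_lit 5) (nat_lit 488) (nat_lit 3) (nat_lit 511) (nat_lit 3) (nat_lit 586) (nat_lit 586) (nat_lit 388)) (XT.nd (nat_lit 78) (nat_lit 0) (nat_lit 0) (XT.lf (nat_lit 0) (nat_lit 7652877380) (nat_lit 1748) (nat_lit 4083097471) (nat_lit 1824) (nat_lit 3616988121) (nat_lit 488) (nat_lit 5) (nat_lit 511) (nat_lit 3) (nat_lit 512) (nat_lit 5) (nat_lit 587) (nat_lit 586) (nat_lit 387)) (XT.lf (nat_lit 76) (nat_lit 3576287619) (nat_lit 0) (nat_lit 4510130210) (nat_lit 1824) (nat_lit 7414443119)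 (nat_lit 489) (nat_lit 5) (nat_lit 488) (nat_lit 5) (nat_lit 512) (nat_lit 5) (nat_lit 588) (nat_lit 586) (nat_lit 386))))) (XT.nd (nat_lit 156) (nat_lit 0) (nat_lit 76) (XT.nd (nat_lit 78) (nat_lit 0) (nat_lit 0) (XT.lf (nat_lit 0) (nat_lit 8567353517) (nat_lit 1748) (nat_lit 4229835336) (nat_lit 1824) (nat_lit 2853754241) (nat_lit 489) (nat_lit 5) (nat_lit 512) (nat_lit 5) (nat_lit 513) (nat_lit 5) (nat_lit 589) (nat_lit 586) (nat_lit 385)) (XT.lf (nat_lit 76) (nat_lit 3632528759) (nat_lit 0) (nat_lit 5471550709) (nat_lit 1824) (nat_lit 6699024666) (nat_lit 490) (nat_lit 5) (nat_lit 489) (nat_lit 5) (nat_lit 513) (nat_lit 5) (nat_lit 590) (nat_lit 586) (nat_lit 384))) (XT.nd (nat_lit 78) (nat_lit 0) (nat_lit 0) (XT.lf (nat_lit 0) (nat_lit 9685957076) (nat_lit 1748) (nat_lit 4265620586) (nat_lit 1824) (nat_lit 2006043062) (nat_lit 490) (nat_lit 5) (nat_lit 513) (nat_lit 5) (nat_lit 514) (nat_lit 5) (nat_lit 591) (nat_lit 586) (nat_lit 383)) (XT.nd (nat_lit 78) (nat_lit 0)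 (nat_lit 76) (XT.lf (nat_lit 76) (nat_lit 3807030354) (nat_lit 0) (nat_lit 6526390685) (nat_lit 1824) (nat_lit 5780728286) (nat_lit 491) (nat_lit 5) (nat_lit 490) (nat_lit 5) (nat_lit 514) (nat_lit 5) (nat_lit 592) (nat_lit 586) (nat_lit 382)) (XT.lf (nat_lit 0) (nat_lit 11022573020) (nat_lit 1748) (nat_lit 4185496702) (nat_lit 1824) (nat_lit 1065164646) (nat_lit 491) (nat_lit 5) (nat_lit 514) (nat_lit 5) (nat_lit 515) (nat_lit 5) (nat_lit 593) (nat_lit 586) (nat_lit 381)))))) (XT.nd (nat_lit 390) (nat_lit 1596) (nat_lit 0) (XT.nd (nat_lit 156) (nat_lit 0) (nat_lit 76) (XT.nd (nat_lit 78) (nat_lit 0) (nat_lit 76) (XT.lf (nat_lit 76) (nat_lit 4105030701) (nat_lit 0) (nat_lit 7683610702) (nat_lit 1824) (nat_lit 4645597672) (nat_lit 492) (nat_lit 5) (nat_lit 491) (nat_lit 5) (nat_lit 515) (nat_lit 5) (nat_lit 594) (nat_lit 586) (nat_lit 380)) (XT.lf (nat_lit 0) (nat_lit 12591629237) (nat_lit 1748) (nat_lit 3984194536) (nat_lit 1824) (nat_lit 22208762) (nat_lit 492) (nat_lit 5)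 (nat_lit 515) (nat_lit 5) (nat_lit 516) (nat_lit 5) (nat_lit 595) (nat_lit 586) (nat_lit 379))) (XT.nd (nat_lit 78) (nat_lit 0) (nat_lit 0) (XT.lf (nat_lit 76) (nat_lit 4532090792) (nat_lit 0) (nat_lit 8952407419) (nat_lit 1824) (nat_lit 3279127831) (nat_lit 493) (nat_lit 5) (nat_lit 492) (nat_lit 5) (nat_lit 516) (nat_lit 5) (nat_lit 596) (nat_lit 586) (nat_lit 378)) (XT.nd (nat_lit 78) (nat_lit 0) (nat_lit 76) (XT.lf (nat_lit 76) (nat_lit 13268553022) (nat_lit 0) (nat_lit 1147019044) (nat_lit 1824) (nat_lit 2516553000) (nat_lit 493) (nat_lit 5) (nat_lit 492) (nat_lit 5) (nat_lit 516) (nat_lit 5) (nat_lit 597) (nat_lit 586) (nat_lit 377)) (XT.lf (nat_lit 76) (nat_lit 5094102195) (nat_lit 0) (nat_lit 10342234536) (nat_lit 1824) (nat_lit 1666236535) (nat_lit 494) (nat_lit 5) (nat_lit 493) (nat_lit 5) (nat_lit 517) (nat_lit 5) (nat_lit 598) (nat_lit 586) (nat_lit 376))))) (XT.nd (nat_lit 234) (nat_lit 0) (nat_lit 76) (XT.nd (nat_lit 78) (nat_lit 1748) (nat_lit 0) (XT.lf (nat_lit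 76) (nat_lit 14064707035) (nat_lit 0) (nat_lit 2438786614) (nat_lit 1824) (nat_lit 772417814) (nat_lit 494) (nat_lit 5) (nat_lit 493) (nat_lit 5) (nat_lit 517) (nat_lit 5) (nat_lit 599) (nat_lit 586) (nat_lit 375)) (XT.nd (nat_lit 78) (nat_lit 0) (nat_lit 0) (XT.lf (nat_lit 0) (nat_lit 206027097) (nat_lit 1824) (nat_lit 11655414409) (nat_lit 1900) (nat_lit 5589885854) (nat_lit 470) (nat_lit 5) (nat_lit 494) (nat_lit 5) (nat_lit 495) (nat_lit 5) (nat_lit 600) (nat_lit 586) (nat_lit 374)) (XT.lf (nat_lit 0) (nat_lit 1225580755) (nat_lit 1824) (nat_lit 2628818270) (nat_lit 1900) (nat_lit 13775113323) (nat_lit 470) (nat_lit 5) (nat_lit 494) (nat_lit 5) (nat_lit 495) (nat_lit 5) (nat_lit 601) (nat_lit 586) (nat_lit 373)))) (XT.nd (nat_lit 78) (nat_lit 0) (nat_lit 0) (XT.lf (nat_lit 0) (nat_lit 2331222167) (nat_lit 1824) (nat_lit 11177342003) (nat_lit 1900) (nat_lit 4301383462) (nat_lit 471) (nat_lit 5) (nat_lit 495) (nat_lit 5) (nat_lit 496) (nat_lit 5) (nat_lit 602) (nat_lit 586)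 (nat_lit 372)) (XT.nd (nat_lit 78) (nat_lit 0) (nat_lit 76) (XT.lf (nat_lit 0) (nat_lit 3496505160) (nat_lit 1824) (nat_lit 1908693562) (nat_lit 1900) (nat_lit 12588042842) (nat_lit 471) (nat_lit 5) (nat_lit 495) (nat_lit 5) (nat_lit 496) (nat_lit 5) (nat_lit 603) (nat_lit 586) (nat_lit 371)) (XT.lf (nat_lit 0) (nat_lit 4747972880) (nat_lit 1824) (nat_lit 10556905635) (nat_lit 1900) (nat_lit 2874065786) (nat_lit 472) (nat_lit 5) (nat_lit 496) (nat_lit 5) (nat_lit 497) (nat_lit 5) (nat_lit 604) (nat_lit 586) (nat_lit 370))))))))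
noncomputable def xc208 : XT := (XT.nd (nat_lit 1560) (nat_lit 8284) (nat_lit 0) (XT.nd (nat_lit 780) (nat_lit 5244) (nat_lit 0) (XT.nd (nat_lit 390) (nat_lit 2736) (nat_lit 0) (XT.nd (nat_lit 156) (nat_lit 0) (nat_lit 76) (XT.nd (nat_lit 78) (nat_lit 0) (nat_lit 76) (XT.lf (nat_lit 0) (nat_lit 6067609596) (nat_lit 1824) (nat_lit 1039040196) (nat_lit 1900) (nat_lit 11260849005) (nat_lit 472) (nat_lit 5) (nat_lit 496) (nat_lit 5) (nat_lit 497) (nat_lit 5) (nat_lit 605) (nat_lit 586) (nat_lit 369)) (XT.lf (nat_lit 0) (nat_lit 7473741820) (nat_lit 1824) (nat_lit 9787223796) (nat_lit 1900) (nat_lit 1297657202) (nat_lit 473) (nat_lit 5) (nat_lit 497) (nat_lit 5) (nat_lit 498) (nat_lit 5) (nat_lit 606) (nat_lit 586) (nat_lit 368))) (XT.nd (nat_lit 78) (nat_lit 0) (nat_lit 0) (XT.lf (nat_lit 0) (nat_lit 8956725500) (nat_lit 1824) (nat_lit 12724131) (nat_lit 1900) (nat_lit 9783145589) (nat_lit 473) (nat_lit 5) (nat_lit 497) (nat_lit 5) (nat_lit 498) (nat_lit 5) (nat_lit 607) (nat_lit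 586) (nat_lit 367)) (XT.nd (nat_lit 78) (nat_lit 0) (nat_lit 76) (XT.lf (nat_lit 76) (nat_lit 10085305064) (nat_lit 0) (nat_lit 444295477) (nat_lit 1900) (nat_lit 8419642364) (nat_lit 474) (nat_lit 5) (nat_lit 473) (nat_lit 5) (nat_lit 498) (nat_lit 5) (nat_lit 608) (nat_lit 586) (nat_lit 366)) (XT.lf (nat_lit 76) (nat_lit 1193409956) (nat_lit 0) (nat_lit 10996763926) (nat_lit 1900) (nat_lit 6958525307) (nat_lit 475) (nat_lit 5) (nat_lit 474) (nat_lit 5) (nat_lit 499) (nat_lit 5) (nat_lit 609) (nat_lit 586) (nat_lit 365))))) (XT.nd (nat_lit 156) (nat_lit 1140) (nat_lit 0) (XT.nd (nat_lit 78) (nat_lit 1748) (nat_lit 0) (XT.lf (nat_lit 76) (nat_lit 11564791206) (nat_lit 0) (nat_lit 2376478782) (nat_lit 1900) (nat_lit 5409728836) (nat_lit 475) (nat_lit 5) (nat_lit 474) (nat_lit 5) (nat_lit 499) (nat_lit 5) (nat_lit 610) (nat_lit 586) (nat_lit 364)) (XT.lf (nat_lit 0) (nat_lit 2574049957) (nat_lit 1824) (nat_lit 13206720432) (nat_lit 1900) (nat_lit 3775506855) (nat_lit 451) (nat_lit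 5) (nat_lit 475) (nat_lit 5) (nat_lit 476) (nat_lit 5) (nat_lit 611) (nat_lit 586) (nat_lit 363))) (XT.nd (nat_lit 78) (nat_lit 1140) (nat_lit 0) (XT.lf (nat_lit 0) (nat_lit 13226831192) (nat_lit 1824) (nat_lit 4493195551) (nat_lit 1900) (nat_lit 2044375606) (nat_lit 451) (nat_lit 5) (nat_lit 475) (nat_lit 5) (nat_lit 476) (nat_lit 5) (nat_lit 612) (nat_lit 586) (nat_lit 362)) (XT.nd (nat_lit 78) (nat_lit 76) (nat_lit 0) (XT.lf (nat_lit 0) (nat_lit 4137413139) (nat_lit 1064) (nat_lit 15611232749) (nat_lit 1140) (nat_lit 227032939) (nat_lit 437) (nat_lit 5) (nat_lit 451) (nat_lit 5) (nat_lit 452) (nat_lit 5) (nat_lit 613) (nat_lit 586) (nat_lit 361)) (XT.lf (nat_lit 0) (nat_lit 1674457091) (nat_lit 1140) (nat_lit 5120726861) (nat_lit 76) (nat_lit 13394403377) (nat_lit 436) (nat_lit 5) (nat_lit 451) (nat_lit 5) (nat_lit 437) (nat_lit 5) (nat_lit 614) (nat_lit 586) (nat_lit 360)))))) (XT.nd (nat_lit 390) (nat_lit 2584) (nat_lit 0) (XT.nd (nat_lit 156) (nat_lit 1748) (nat_lit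 0) (XT.nd (nat_lit 78) (nat_lit 0) (nat_lit 0) (XT.lf (nat_lit 0) (nat_lit 3658975507) (nat_lit 988) (nat_lit 14539041514) (nat_lit 76) (nat_lit 2208766595) (nat_lit 424) (nat_lit 5) (nat_lit 437) (nat_lit 5) (nat_lit 425) (nat_lit 5) (nat_lit 615) (nat_lit 586) (nat_lit 359)) (XT.lf (nat_lit 0) (nat_lit 5758153896) (nat_lit 988) (nat_lit 3531785710) (nat_lit 76) (nat_lit 11336885223) (nat_lit 424) (nat_lit 5) (nat_lit 437) (nat_lit 5) (nat_lit 425) (nat_lit 5) (nat_lit 616) (nat_lit 586) (nat_lit 358))) (XT.nd (nat_lit 78) (nat_lit 836) (nat_lit 0) (XT.lf (nat_lit 0) (nat_lit 7793600665) (nat_lit 912) (nat_lit 151785084) (nat_lit 988) (nat_lit 12904960106) (nat_lit 412) (nat_lit 5) (nat_lit 424) (nat_lit 5) (nat_lit 425) (nat_lit 5) (nat_lit 617) (nat_lit 586) (nat_lit 357)) (XT.nd (nat_lit 78) (nat_lit 836) (nat_lit 0) (XT.lf (nat_lit 0) (nat_lit 10255283413) (nat_lit 988) (nat_lit 1748476000) (nat_lit 76) (nat_lit 9072999841) (nat_lit 412) (nat_lit 5) (nat_lit 425) (nat_lit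 5) (nat_lit 413) (nat_lit 5) (nat_lit 618) (nat_lit 586) (nat_lit 356)) (XT.lf (nat_lit 0) (nat_lit 9910725785) (nat_lit 836) (nat_lit 2761625046) (nat_lit 912) (nat_lit 8634131024) (nat_lit 401) (nat_lit 5) (nat_lit 412) (nat_lit 5) (nat_lit 413) (nat_lit 5) (nat_lit 619) (nat_lit 586) (nat_lit 355))))) (XT.nd (nat_lit 156) (nat_lit 1748) (nat_lit 0) (XT.nd (nat_lit 78) (nat_lit 0) (nat_lit 0) (XT.lf (nat_lit 0) (nat_lit 241797478) (nat_lit 836) (nat_lit 14948298068) (nat_lit 912) (nat_lit 6349657005) (nat_lit 390) (nat_lit 5) (nat_lit 401) (nat_lit 5) (nat_lit 402) (nat_lit 5) (nat_lit 620) (nat_lit 586) (nat_lit 354)) (XT.lf (nat_lit 0) (nat_lit 12243802134) (nat_lit 836) (nat_lit 5604769573) (nat_lit 912) (nat_lit 3927309780) (nat_lit 390) (nat_lit 5) (nat_lit 401) (nat_lit 5) (nat_lit 402) (nat_lit 5) (nat_lit 621) (nat_lit 586) (nat_lit 353))) (XT.nd (nat_lit 78) (nat_lit 912) (nat_lit 0) (XT.lf (nat_lit 0) (nat_lit 2471802799) (nat_lit 836) (nat_lit 18125771155) (nat_lit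 912) (nat_lit 1418412263) (nat_lit 379) (nat_lit 5) (nat_lit 390) (nat_lit 5) (nat_lit 391) (nat_lit 5) (nat_lit 622) (nat_lit 586) (nat_lit 352)) (XT.nd (nat_lit 78) (nat_lit 836) (nat_lit 0) (XT.lf (nat_lit 0) (nat_lit 1223056893) (nat_lit 912) (nat_lit 7463857579) (nat_lit 76) (nat_lit 13571883715) (nat_lit 378) (nat_lit 5) (nat_lit 390) (nat_lit 5) (nat_lit 379) (nat_lit 5) (nat_lit 623) (nat_lit 586) (nat_lit 351)) (XT.lf (nat_lit 0) (nat_lit 3932561206) (nat_lit 912) (nat_lit 17603226384) (nat_lit 76) (nat_lit 969807652) (nat_lit 367) (nat_lit 5) (nat_lit 379) (nat_lit 5) (nat_lit 368) (nat_lit 5) (nat_lit 624) (nat_lit 586) (nat_lit 350))))))) (XT.nd (nat_lit 780) (nat_lit 4560) (nat_lit 0) (XT.nd (nat_lit 390) (nat_lit 1520) (nat_lit 0) (XT.nd (nat_lit 156) (nat_lit 1444) (nat_lit 0) (XT.nd (nat_lit 78) (nat_lit 760) (nat_lit 0) (XT.lf (nat_lit 0) (nat_lit 6800183447) (nat_lit 912) (nat_lit 5201330662) (nat_lit 76) (nat_lit 10753735895) (nat_lit 367) (nat_lit 5) (nat_lit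 379) (nat_lit 5) (nat_lit 368) (nat_lit 5) (nat_lit 625) (nat_lit 586) (nat_lit 349)) (XT.lf (nat_lit 0) (nat_lit 7543381270) (nat_lit 760) (nat_lit 2226812807) (nat_lit 836) (nat_lit 13238803382) (nat_lit 357) (nat_lit 5) (nat_lit 367) (nat_lit 5) (nat_lit 368) (nat_lit 5) (nat_lit 626) (nat_lit 586) (nat_lit 348))) (XT.nd (nat_lit 78) (nat_lit 1444) (nat_lit 0) (XT.lf (nat_lit 0) (nat_lit 12881123154) (nat_lit 836) (nat_lit 2708339018) (nat_lit 76) (nat_lit 7676727635) (nat_lit 357) (nat_lit 5) (nat_lit 368) (nat_lit 5) (nat_lit 358) (nat_lit 5) (nat_lit 627) (nat_lit 586) (nat_lit 347)) (XT.nd (nat_lit 78) (nat_lit 684) (nat_lit 0) (XT.lf (nat_lit 0) (nat_lit 10421900366) (nat_lit 760) (nat_lit 5710967992) (nat_lit 836) (nat_lit 7394085997) (nat_lit 347) (nat_lit 5) (nat_lit 357) (nat_lit 5) (nat_lit 358) (nat_lit 5) (nat_lit 628) (nat_lit 586) (nat_lit 346)) (XT.lf (nat_lit 0) (nat_lit 26605832) (nat_lit 684) (nat_lit 19466081877) (nat_lit 760) (nat_lit 4299385998) (nat_lit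 338) (nat_lit 5) (nat_lit 347) (nat_lit 5) (nat_lit 348) (nat_lit 5) (nat_lit 629) (nat_lit 586) (nat_lit 345))))) (XT.nd (nat_lit 156) (nat_lit 684) (nat_lit 0) (XT.nd (nat_lit 78) (nat_lit 836) (nat_lit 0) (XT.lf (nat_lit 0) (nat_lit 13556077396) (nat_lit 684) (nat_lit 9485417703) (nat_lit 760) (nat_lit 1018564804) (nat_lit 338) (nat_lit 5) (nat_lit 347) (nat_lit 5) (nat_lit 348) (nat_lit 5) (nat_lit 630) (nat_lit 586) (nat_lit 344)) (XT.lf (nat_lit 0) (nat_lit 2318168125) (nat_lit 836) (nat_lit 21294096411) (nat_lit 76) (nat_lit 720422772) (nat_lit 327) (nat_lit 5) (nat_lit 338) (nat_lit 5) (nat_lit 328) (nat_lit 5) (nat_lit 631) (nat_lit 586) (nat_lit 343))) (XT.nd (nat_lit 78) (nat_lit 684) (nat_lit 0) (XT.lf (nat_lit 0) (nat_lit 5838150087) (nat_lit 836) (nat_lit 7689138199) (nat_lit 76) (nat_lit 11080741535) (nat_lit 327) (nat_lit 5) (nat_lit 338) (nat_lit 5) (nat_lit 328) (nat_lit 5) (nat_lit 632) (nat_lit 586) (nat_lit 342)) (XT.nd (nat_lit 78) (nat_lit 0) (nat_lit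 0) (XT.lf (nat_lit 0) (nat_lit 6266029575) (nat_lit 684) (nat_lit 3199625352) (nat_lit 760) (nat_lit 15422482062) (nat_lit 318) (nat_lit 5) (nat_lit 327) (nat_lit 5) (nat_lit 328) (nat_lit 5) (nat_lit 633) (nat_lit 586) (nat_lit 341)) (XT.lf (nat_lit 0) (nat_lit 13261750922) (nat_lit 760) (nat_lit 4620358185) (nat_lit 76) (nat_lit 7289816637) (nat_lit 318) (nat_lit 5) (nat_lit 328) (nat_lit 5) (nat_lit 319) (nat_lit 5) (nat_lit 634) (nat_lit 586) (nat_lit 340)))))) (XT.nd (nat_lit 390) (nat_lit 2508) (nat_lit 0) (XT.nd (nat_lit 156) (nat_lit 1368) (nat_lit 0) (XT.nd (nat_lit 78) (nat_lit 0) (nat_lit 0) (XT.lf (nat_lit 0) (nat_lit 9764267059) (nat_lit 684) (nat_lit 7450636618) (nat_lit 760) (nat_lit 8244864160) (nat_lit 309) (nat_lit 5) (nat_lit 318) (nat_lit 5) (nat_lit 319) (nat_lit 5) (nat_lit 635) (nat_lit 586) (nat_lit 339)) (XT.lf (nat_lit 0) (nat_lit 21295624967) (nat_lit 760) (nat_lit 1278512733) (nat_lit 76) (nat_lit 3178259215) (nat_lit 309) (nat_lit 5) (nat_lit 319)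 (nat_lit 5) (nat_lit 310) (nat_lit 5) (nat_lit 636) (nat_lit 586) (nat_lit 338))) (XT.nd (nat_lit 78) (nat_lit 760) (nat_lit 0) (XT.lf (nat_lit 0) (nat_lit 13551211857) (nat_lit 608) (nat_lit 12040728155) (nat_lit 684) (nat_lit 456259226) (nat_lit 301) (nat_lit 5) (nat_lit 309) (nat_lit 5) (nat_lit 310) (nat_lit 5) (nat_lit 637) (nat_lit 586) (nat_lit 337)) (XT.nd (nat_lit 78) (nat_lit 0) (nat_lit 0) (XT.lf (nat_lit 0) (nat_lit 2348320132) (nat_lit 684) (nat_lit 1248965573) (nat_lit 760) (nat_lit 22751750421) (nat_lit 291) (nat_lit 5) (nat_lit 300) (nat_lit 5) (nat_lit 301) (nat_lit 5) (nat_lit 638) (nat_lit 586) (nat_lit 336)) (XT.lf (nat_lit 0) (nat_lit 7870280784) (nat_lit 760) (nat_lit 9065256487) (nat_lit 76) (nat_lit 9717402627) (nat_lit 291) (nat_lit 5) (nat_lit 301) (nat_lit 5) (nat_lit 292) (nat_lit 5) (nat_lit 639) (nat_lit 586) (nat_lit 335))))) (XT.nd (nat_lit 234) (nat_lit 1292) (nat_lit 0) (XT.nd (nat_lit 78) (nat_lit 608) (nat_lit 0) (XT.lf (nat_lit 0) (nat_lit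 6238497938) (nat_lit 608) (nat_lit 6035784764) (nat_lit 684) (nat_lit 14687728336) (nat_lit 283) (nat_lit 5) (nat_lit 291) (nat_lit 5) (nat_lit 292) (nat_lit 5) (nat_lit 640) (nat_lit 586) (nat_lit 334)) (XT.nd (nat_lit 78) (nat_lit 608) (nat_lit 0) (XT.lf (nat_lit 0) (nat_lit 16857399736) (nat_lit 684) (nat_lit 5342231039) (nat_lit 76) (nat_lit 5075812349) (nat_lit 283) (nat_lit 5) (nat_lit 292) (nat_lit 5) (nat_lit 284) (nat_lit 5) (nat_lit 641) (nat_lit 586) (nat_lit 333)) (XT.lf (nat_lit 0) (nat_lit 10439706398) (nat_lit 608) (nat_lit 11197093055) (nat_lit 684) (nat_lit 5956252214) (nat_lit 275) (nat_lit 5) (nat_lit 283) (nat_lit 5) (nat_lit 284) (nat_lit 5) (nat_lit 642) (nat_lit 586) (nat_lit 332)))) (XT.nd (nat_lit 78) (nat_lit 1292) (nat_lit 0) (XT.lf (nat_lit 0) (nat_lit 26544937070) (nat_lit 684) (nat_lit 1310948451) (nat_lit 76) (nat_lit 60464077) (nat_lit 275) (nat_lit 5) (nat_lit 284) (nat_lit 5) (nat_lit 276) (nat_lit 5) (nat_lit 643) (nat_lit 586) (nat_lit 331))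 (XT.nd (nat_lit 78) (nat_lit 608) (nat_lit 0) (XT.lf (nat_lit 0) (nat_lit 3431175297) (nat_lit 684) (nat_lit 13298759646) (nat_lit 76) (nat_lit 11512361600) (nat_lit 266) (nat_lit 5) (nat_lit 275) (nat_lit 5) (nat_lit 267) (nat_lit 5) (nat_lit 644) (nat_lit 586) (nat_lit 330)) (XT.lf (nat_lit 0) (nat_lit 2992517065) (nat_lit 608) (nat_lit 5344209744) (nat_lit 684) (nat_lit 20237349018) (nat_lit 258) (nat_lit 5) (nat_lit 266) (nat_lit 5) (nat_lit 267) (nat_lit 5) (nat_lit 645) (nat_lit 586) (nat_lit 329))))))))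
noncomputable def xc209 : XT := (XT.nd (nat_lit 77376) (nat_lit 0) (nat_lit 15352) (XT.nd (nat_lit 76596) (nat_lit 0) (nat_lit 20216) (XT.nd (nat_lit 390) (nat_lit 1064) (nat_lit 0) (XT.nd (nat_lit 156) (nat_lit 1140) (nat_lit 0) (XT.nd (nat_lit 78) (nat_lit 532) (nat_lit 0) (XT.lf (nat_lit 0) (nat_lit 13467927847) (nat_lit 684) (nat_lit 9166027819) (nat_lit 76) (nat_lit 6275984462) (nat_lit 258) (nat_lit 5) (nat_lit 267) (nat_lit 5) (nat_lit 259) (nat_lit 5) (nat_lit 646) (nat_lit 586) (nat_lit 328)) (XT.lf (nat_lit 0) (nat_lit 7638767742) (nat_lit 532) (nat_lit 11145033829) (nat_lit 608) (nat_lit 10467079366) (nat_lit 251) (nat_lit 5) (nat_lit 258) (nat_lit 5) (nat_lit 259) (nat_lit 5) (nat_lit 647) (nat_lit 586) (nat_lit 327))) (XT.nd (nat_lit 78) (nat_lit 1140) (nat_lit 0) (XT.lf (nat_lit 0) (nat_lit 24268721210) (nat_lit 608) (nat_lit 4701500107) (nat_lit 76) (nat_lit 627164869) (nat_lit 251) (nat_lit 5) (nat_lit 259) (nat_lit 5) (nat_lit 252) (nat_lit 5) (nat_lit 648)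 (nat_lit 586) (nat_lit 326)) (XT.nd (nat_lit 78) (nat_lit 532) (nat_lit 0) (XT.lf (nat_lit 0) (nat_lit 67668605) (nat_lit 608) (nat_lit 17312763020) (nat_lit 76) (nat_lit 12567321389) (nat_lit 243) (nat_lit 5) (nat_lit 251) (nat_lit 5) (nat_lit 244) (nat_lit 5) (nat_lit 649) (nat_lit 586) (nat_lit 325)) (XT.lf (nat_lit 0) (nat_lit 38650443) (nat_lit 532) (nat_lit 5491161082) (nat_lit 608) (nat_lit 24774026715) (nat_lit 236) (nat_lit 5) (nat_lit 243) (nat_lit 5) (nat_lit 244) (nat_lit 5) (nat_lit 650) (nat_lit 586) (nat_lit 324))))) (XT.nd (nat_lit 156) (nat_lit 532) (nat_lit 0) (XT.nd (nat_lit 78) (nat_lit 532) (nat_lit 0) (XT.lf (nat_lit 0) (nat_lit 11258411393) (nat_lit 608) (nat_lit 12740631660) (nat_lit 76) (nat_lit 6664858015) (nat_lit 236) (nat_lit 5) (nat_lit 244) (nat_lit 5) (nat_lit 237) (nat_lit 5) (nat_lit 651) (nat_lit 586) (nat_lit 323)) (XT.lf (nat_lit 0) (nat_lit 5161998620) (nat_lit 532) (nat_lit 12006702625) (nat_lit 608) (nat_lit 13861121720) (nat_lit 229)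 (nat_lit 5) (nat_lit 236) (nat_lit 5) (nat_lit 237) (nat_lit 5) (nat_lit 652) (nat_lit 586) (nat_lit 322))) (XT.nd (nat_lit 78) (nat_lit 532) (nat_lit 0) (XT.lf (nat_lit 0) (nat_lit 23281984505) (nat_lit 608) (nat_lit 7811775338) (nat_lit 76) (nat_lit 307607877) (nat_lit 229) (nat_lit 5) (nat_lit 237) (nat_lit 5) (nat_lit 230) (nat_lit 5) (nat_lit 653) (nat_lit 586) (nat_lit 321)) (XT.nd (nat_lit 78) (nat_lit 76) (nat_lit 0) (XT.lf (nat_lit 0) (nat_lit 10662012421) (nat_lit 456) (nat_lit 19001575224) (nat_lit 532) (nat_lit 2113834808) (nat_lit 223) (nat_lit 5) (nat_lit 229) (nat_lit 5) (nat_lit 230) (nat_lit 5) (nat_lit 654) (nat_lit 586) (nat_lit 320)) (XT.lf (nat_lit 0) (nat_lit 4009302843) (nat_lit 532) (nat_lit 2578891035) (nat_lit 76) (nat_lit 25571281734) (nat_lit 222) (nat_lit 5) (nat_lit 229) (nat_lit 5) (nat_lit 223) (nat_lit 5) (nat_lit 655) (nat_lit 586) (nat_lit 319)))))) (XT.nd (nat_lit 390) (nat_lit 0) (nat_lit 152) (XT.nd (nat_lit 156) (nat_lit 0) (nat_lit 0)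 (XT.nd (nat_lit 78) (nat_lit 0) (nat_lit 0) (XT.lf (nat_lit 0) (nat_lit 1996908405) (nat_lit 0) (nat_lit 1996908405) (nat_lit 1748) (nat_lit 3756066346) (nat_lit 488) (nat_lit 5) (nat_lit 488) (nat_lit 3) (nat_lit 511) (nat_lit 3) (nat_lit 587) (nat_lit 587) (nat_lit 386)) (XT.lf (nat_lit 0) (nat_lit 8368348506) (nat_lit 1748) (nat_lit 3869467320) (nat_lit 1824) (nat_lit 3410905319) (nat_lit 488) (nat_lit 5) (nat_lit 511) (nat_lit 3) (nat_lit 512) (nat_lit 5) (nat_lit 588) (nat_lit 587) (nat_lit 385))) (XT.nd (nat_lit 78) (nat_lit 0) (nat_lit 76) (XT.lf (nat_lit 76) (nat_lit 3941162762) (nat_lit 0) (nat_lit 4860273905) (nat_lit 1824) (nat_lit 6998323912) (nat_lit 489) (nat_lit 5) (nat_lit 488) (nat_lit 5) (nat_lit 512) (nat_lit 5) (nat_lit 589) (nat_lit 587) (nat_lit 384)) (XT.nd (nat_lit 78) (nat_lit 0) (nat_lit 0) (XT.lf (nat_lit 0) (nat_lit 9279487617) (nat_lit 1748) (nat_lit 4014280387) (nat_lit 1824) (nat_lit 2659327447) (nat_lit 489) (nat_lit 5) (nat_lit 512) (nat_lit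 5) (nat_lit 513) (nat_lit 5) (nat_lit 590) (nat_lit 587) (nat_lit 383)) (XT.lf (nat_lit 76) (nat_lit 4003356308) (nat_lit 0) (nat_lit 5814924075) (nat_lit 1824) (nat_lit 6290193679) (nat_lit 490) (nat_lit 5) (nat_lit 489) (nat_lit 5) (nat_lit 513) (nat_lit 5) (nat_lit 591) (nat_lit 587) (nat_lit 382))))) (XT.nd (nat_lit 156) (nat_lit 0) (nat_lit 76) (XT.nd (nat_lit 78) (nat_lit 0) (nat_lit 0) (XT.lf (nat_lit 0) (nat_lit 10399872704) (nat_lit 1748) (nat_lit 4046631000) (nat_lit 1824) (nat_lit 1819816711) (nat_lit 490) (nat_lit 5) (nat_lit 513) (nat_lit 5) (nat_lit 514) (nat_lit 5) (nat_lit 592) (nat_lit 587) (nat_lit 381)) (XT.lf (nat_lit 76) (nat_lit 4185470971) (nat_lit 0) (nat_lit 6866577776) (nat_lit 1824) (nat_lit 5374096542) (nat_lit 491) (nat_lit 5) (nat_lit 490) (nat_lit 5) (nat_lit 514) (nat_lit 5) (nat_lit 593) (nat_lit 587) (nat_lit 380))) (XT.nd (nat_lit 78) (nat_lit 0) (nat_lit 0) (XT.lf (nat_lit 0) (nat_lit 11743610794) (nat_lit 1748) (nat_lit 3961414206) (nat_lit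 1824) (nat_lit 883615431) (nat_lit 491) (nat_lit 5) (nat_lit 514) (nat_lit 5) (nat_lit 515) (nat_lit 5) (nat_lit 594) (nat_lit 587) (nat_lit 379)) (XT.nd (nat_lit 78) (nat_lit 0) (nat_lit 0) (XT.lf (nat_lit 76) (nat_lit 4492898795) (nat_lit 0) (nat_lit 8024271578) (nat_lit 1824) (nat_lit 4235852383) (nat_lit 492) (nat_lit 5) (nat_lit 491) (nat_lit 5) (nat_lit 515) (nat_lit 5) (nat_lit 595) (nat_lit 587) (nat_lit 378)) (XT.lf (nat_lit 76) (nat_lit 13166038812) (nat_lit 0) (nat_lit 160368233) (nat_lit 1824) (nat_lit 3593882160) (nat_lit 492) (nat_lit 5) (nat_lit 491) (nat_lit 5) (nat_lit 515) (nat_lit 5) (nat_lit 596) (nat_lit 587) (nat_lit 377))))))) (XT.nd (nat_lit 780) (nat_lit 3496) (nat_lit 0) (XT.nd (nat_lit 390) (nat_lit 0) (nat_lit 0) (XT.nd (nat_lit 156) (nat_lit 1672) (nat_lit 0) (XT.nd (nat_lit 78) (nat_lit 0) (nat_lit 0) (XT.lf (nat_lit 76) (nat_lit 4931357982) (nat_lit 0) (nat_lit 9297288903) (nat_lit 1824) (nat_lit 2860718312) (nat_lit 493) (nat_lit 5) (nat_lit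 492) (nat_lit 5) (nat_lit 516) (nat_lit 5) (nat_lit 597) (nat_lit 587) (nat_lit 376)) (XT.lf (nat_lit 76) (nat_lit 13836497979) (nat_lit 0) (nat_lit 1332541127) (nat_lit 1824) (nat_lit 2092382024) (nat_lit 493) (nat_lit 5) (nat_lit 492) (nat_lit 5) (nat_lit 516) (nat_lit 5) (nat_lit 598) (nat_lit 587) (nat_lit 375))) (XT.nd (nat_lit 78) (nat_lit 1748) (nat_lit 0) (XT.lf (nat_lit 76) (nat_lit 5506901109) (nat_lit 0) (nat_lit 10695181044) (nat_lit 1824) (nat_lit 1233359728) (nat_lit 494) (nat_lit 5) (nat_lit 493) (nat_lit 5) (nat_lit 517) (nat_lit 5) (nat_lit 599) (nat_lit 587) (nat_lit 374)) (XT.nd (nat_lit 78) (nat_lit 1748) (nat_lit 0) (XT.lf (nat_lit 76) (nat_lit 14650821637) (nat_lit 0) (nat_lit 2630799422) (nat_lit 1824) (nat_lit 330805839) (nat_lit 494) (nat_lit 5) (nat_lit 493) (nat_lit 5) (nat_lit 517) (nat_lit 5) (nat_lit 600) (nat_lit 587) (nat_lit 373)) (XT.lf (nat_lit 0) (nat_lit 653494906) (nat_lit 1824) (nat_lit 11569908317) (nat_lit 1900) (nat_lit 5568043711)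 (nat_lit 470) (nat_lit 5) (nat_lit 494) (nat_lit 5) (nat_lit 495) (nat_lit 5) (nat_lit 601) (nat_lit 587) (nat_lit 372))))) (XT.nd (nat_lit 156) (nat_lit 0) (nat_lit 76) (XT.nd (nat_lit 78) (nat_lit 0) (nat_lit 76) (XT.lf (nat_lit 0) (nat_lit 1684746554) (nat_lit 1824) (nat_lit 2369027597) (nat_lit 1900) (nat_lit 13919596119) (nat_lit 470) (nat_lit 5) (nat_lit 494) (nat_lit 5) (nat_lit 495) (nat_lit 5) (nat_lit 602) (nat_lit 587) (nat_lit 371)) (XT.lf (nat_lit 0) (nat_lit 2805227856) (nat_lit 1824) (nat_lit 11081210393) (nat_lit 1900) (nat_lit 4271122239) (nat_lit 471) (nat_lit 5) (nat_lit 495) (nat_lit 5) (nat_lit 496) (nat_lit 5) (nat_lit 603) (nat_lit 587) (nat_lit 370))) (XT.nd (nat_lit 78) (nat_lit 0) (nat_lit 76) (XT.lf (nat_lit 0) (nat_lit 3985436484) (nat_lit 1824) (nat_lit 1633457188) (nat_lit 1900) (nat_lit 12725794980) (nat_lit 471) (nat_lit 5) (nat_lit 495) (nat_lit 5) (nat_lit 496) (nat_lit 5) (nat_lit 604) (nat_lit 587) (nat_lit 369)) (XT.nd (nat_lit 78) (nat_lit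 0) (nat_lit 0) (XT.lf (nat_lit 0) (nat_lit 5255080591) (nat_lit 1824) (nat_lit 10447743557) (nat_lit 1900) (nat_lit 2831419095) (nat_lit 472) (nat_lit 5) (nat_lit 496) (nat_lit 5) (nat_lit 497) (nat_lit 5) (nat_lit 605) (nat_lit 587) (nat_lit 368)) (XT.lf (nat_lit 0) (nat_lit 6593028704) (nat_lit 1824) (nat_lit 745801206) (nat_lit 1900) (nat_lit 11387901273) (nat_lit 472) (nat_lit 5) (nat_lit 496) (nat_lit 5) (nat_lit 497) (nat_lit 5) (nat_lit 606) (nat_lit 587) (nat_lit 367)))))) (XT.nd (nat_lit 390) (nat_lit 3724) (nat_lit 0) (XT.nd (nat_lit 156) (nat_lit 0) (nat_lit 0) (XT.nd (nat_lit 78) (nat_lit 0) (nat_lit 0) (XT.lf (nat_lit 0) (nat_lit 8020826334) (nat_lit 1824) (nat_lit 9662455696) (nat_lit 1900) (nat_lit 1238525507) (nat_lit 473) (nat_lit 5) (nat_lit 497) (nat_lit 5) (nat_lit 498) (nat_lit 5) (nat_lit 607) (nat_lit 587) (nat_lit 366)) (XT.lf (nat_lit 76) (nat_lit 305252846) (nat_lit 0) (nat_lit 9222402477) (nat_lit 1900) (nat_lit 9592121049) (nat_lit 474) (nat_lit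 5) (nat_lit 473) (nat_lit 5) (nat_lit 498) (nat_lit 5) (nat_lit 608) (nat_lit 587) (nat_lit 365))) (XT.nd (nat_lit 78) (nat_lit 0) (nat_lit 76) (XT.lf (nat_lit 76) (nat_lit 10599171891) (nat_lit 0) (nat_lit 525217425) (nat_lit 1900) (nat_lit 8196120350) (nat_lit 474) (nat_lit 5) (nat_lit 473) (nat_lit 5) (nat_lit 498) (nat_lit 5) (nat_lit 609) (nat_lit 587) (nat_lit 364)) (XT.nd (nat_lit 78) (nat_lit 0) (nat_lit 0) (XT.lf (nat_lit 76) (nat_lit 1535517141) (nat_lit 0) (nat_lit 11276731396) (nat_lit 1900) (nat_lit 6711825720) (nat_lit 475) (nat_lit 5) (nat_lit 474) (nat_lit 5) (nat_lit 499) (nat_lit 5) (nat_lit 610) (nat_lit 587) (nat_lit 363)) (XT.lf (nat_lit 76) (nat_lit 12108086036) (nat_lit 0) (nat_lit 2482863447) (nat_lit 1900) (nat_lit 5139619399) (nat_lit 475) (nat_lit 5) (nat_lit 474) (nat_lit 5) (nat_lit 499) (nat_lit 5) (nat_lit 611) (nat_lit 587) (nat_lit 362))))) (XT.nd (nat_lit 234) (nat_lit 912) (nat_lit 0) (XT.nd (nat_lit 78) (nat_lit 1140) (nat_lit 0) (XT.lf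 (nat_lit 0) (nat_lit 2943257855) (nat_lit 1824) (nat_lit 13518398649) (nat_lit 1900) (nat_lit 3478408679) (nat_lit 451) (nat_lit 5) (nat_lit 475) (nat_lit 5) (nat_lit 476) (nat_lit 5) (nat_lit 612) (nat_lit 587) (nat_lit 361)) (XT.nd (nat_lit 78) (nat_lit 1140) (nat_lit 0) (XT.lf (nat_lit 0) (nat_lit 13802864775) (nat_lit 1824) (nat_lit 4629671039) (nat_lit 1900) (nat_lit 1719960850) (nat_lit 451) (nat_lit 5) (nat_lit 475) (nat_lit 5) (nat_lit 476) (nat_lit 5) (nat_lit 613) (nat_lit 587) (nat_lit 360)) (XT.lf (nat_lit 0) (nat_lit 126678397) (nat_lit 1140) (nat_lit 15831881835) (nat_lit 76) (nat_lit 4409527610) (nat_lit 436) (nat_lit 5) (nat_lit 451) (nat_lit 5) (nat_lit 437) (nat_lit 5) (nat_lit 614) (nat_lit 587) (nat_lit 359)))) (XT.nd (nat_lit 78) (nat_lit 912) (nat_lit 0) (XT.lf (nat_lit 0) (nat_lit 2056196101) (nat_lit 1140) (nat_lit 4907802538) (nat_lit 76) (nat_lit 13622385698) (nat_lit 436) (nat_lit 5) (nat_lit 451) (nat_lit 5) (nat_lit 437) (nat_lit 5) (nat_lit 615)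 (nat_lit 587) (nat_lit 358)) (XT.nd (nat_lit 78) (nat_lit 0) (nat_lit 0) (XT.lf (nat_lit 0) (nat_lit 4075414357) (nat_lit 988) (nat_lit 14509463796) (nat_lit 76) (nat_lit 2223146792) (nat_lit 424) (nat_lit 5) (nat_lit 437) (nat_lit 5) (nat_lit 425) (nat_lit 5) (nat_lit 616) (nat_lit 587) (nat_lit 357)) (XT.lf (nat_lit 0) (nat_lit 6209845738) (nat_lit 988) (nat_lit 3288344417) (nat_lit 76) (nat_lit 11534412011) (nat_lit 424) (nat_lit 5) (nat_lit 437) (nat_lit 5) (nat_lit 425) (nat_lit 5) (nat_lit 617) (nat_lit 587) (nat_lit 356))))))))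
noncomputable def xc210 : XT := (XT.nd (nat_lit 1560) (nat_lit 6536) (nat_lit 0) (XT.nd (nat_lit 780) (nat_lit 3648) (nat_lit 0) (XT.nd (nat_lit 390) (nat_lit 2508) (nat_lit 0) (XT.nd (nat_lit 156) (nat_lit 1672) (nat_lit 0) (XT.nd (nat_lit 78) (nat_lit 0) (nat_lit 0) (XT.lf (nat_lit 0) (nat_lit 8261483390) (nat_lit 912) (nat_lit 174766015) (nat_lit 988) (nat_lit 12824436223) (nat_lit 412) (nat_lit 5) (nat_lit 424) (nat_lit 5) (nat_lit 425) (nat_lit 5) (nat_lit 618) (nat_lit 587) (nat_lit 355)) (XT.lf (nat_lit 0) (nat_lit 10785709124) (nat_lit 988) (nat_lit 1470889291) (nat_lit 76) (nat_lit 9235162147) (nat_lit 412) (nat_lit 5) (nat_lit 425) (nat_lit 5) (nat_lit 413) (nat_lit 5) (nat_lit 619) (nat_lit 587) (nat_lit 354))) (XT.nd (nat_lit 78) (nat_lit 836) (nat_lit 0) (XT.lf (nat_lit 0) (nat_lit 10419440238) (nat_lit 836) (nat_lit 2827314799) (nat_lit 912) (nat_lit 8479410374) (nat_lit 401) (nat_lit 5) (nat_lit 412) (nat_lit 5) (nat_lit 413) (nat_lit 5) (nat_lit 620) (nat_lit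 587) (nat_lit 353)) (XT.nd (nat_lit 78) (nat_lit 0) (nat_lit 0) (XT.lf (nat_lit 0) (nat_lit 561561724) (nat_lit 836) (nat_lit 15248977804) (nat_lit 912) (nat_lit 6153648825) (nat_lit 390) (nat_lit 5) (nat_lit 401) (nat_lit 5) (nat_lit 402) (nat_lit 5) (nat_lit 621) (nat_lit 587) (nat_lit 352)) (XT.lf (nat_lit 0) (nat_lit 12797431408) (nat_lit 836) (nat_lit 5718545136) (nat_lit 912) (nat_lit 3689188014) (nat_lit 390) (nat_lit 5) (nat_lit 401) (nat_lit 5) (nat_lit 402) (nat_lit 5) (nat_lit 622) (nat_lit 587) (nat_lit 351))))) (XT.nd (nat_lit 156) (nat_lit 1596) (nat_lit 0) (XT.nd (nat_lit 78) (nat_lit 76) (nat_lit 0) (XT.lf (nat_lit 0) (nat_lit 2834165195) (nat_lit 836) (nat_lit 18481727743) (nat_lit 912) (nat_lit 1134260272) (nat_lit 379) (nat_lit 5) (nat_lit 390) (nat_lit 5) (nat_lit 391) (nat_lit 5) (nat_lit 623) (nat_lit 587) (nat_lit 350)) (XT.lf (nat_lit 0) (nat_lit 1549892028) (nat_lit 912) (nat_lit 7302301413) (nat_lit 76) (nat_lit 13845708831) (nat_lit 378) (nat_lit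 5) (nat_lit 390) (nat_lit 5) (nat_lit 379) (nat_lit 5) (nat_lit 624) (nat_lit 587) (nat_lit 349))) (XT.nd (nat_lit 78) (nat_lit 760) (nat_lit 0) (XT.lf (nat_lit 0) (nat_lit 4309729509) (nat_lit 912) (nat_lit 17640576756) (nat_lit 76) (nat_lit 999406621) (nat_lit 367) (nat_lit 5) (nat_lit 379) (nat_lit 5) (nat_lit 368) (nat_lit 5) (nat_lit 625) (nat_lit 587) (nat_lit 348)) (XT.nd (nat_lit 78) (nat_lit 760) (nat_lit 0) (XT.lf (nat_lit 0) (nat_lit 7228850919) (nat_lit 912) (nat_lit 4996813985) (nat_lit 76) (nat_lit 10978813375) (nat_lit 367) (nat_lit 5) (nat_lit 379) (nat_lit 5) (nat_lit 368) (nat_lit 5) (nat_lit 626) (nat_lit 587) (nat_lit 347)) (XT.lf (nat_lit 0) (nat_lit 8000762295) (nat_lit 760) (nat_lit 2253751048) (nat_lit 836) (nat_lit 13208862767) (nat_lit 357) (nat_lit 5) (nat_lit 367) (nat_lit 5) (nat_lit 368) (nat_lit 5) (nat_lit 627) (nat_lit 587) (nat_lit 346)))))) (XT.nd (nat_lit 390) (nat_lit 1368) (nat_lit 0) (XT.nd (nat_lit 156) (nat_lit 1520) (nat_lit 0) (XT.nd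 (nat_lit 78) (nat_lit 760) (nat_lit 0) (XT.lf (nat_lit 0) (nat_lit 13422108012) (nat_lit 836) (nat_lit 2456426935) (nat_lit 76) (nat_lit 7847288868) (nat_lit 357) (nat_lit 5) (nat_lit 368) (nat_lit 5) (nat_lit 358) (nat_lit 5) (nat_lit 628) (nat_lit 587) (nat_lit 345)) (XT.lf (nat_lit 0) (nat_lit 10934403559) (nat_lit 760) (nat_lit 5800902629) (nat_lit 836) (nat_lit 7256569547) (nat_lit 347) (nat_lit 5) (nat_lit 357) (nat_lit 5) (nat_lit 358) (nat_lit 5) (nat_lit 629) (nat_lit 587) (nat_lit 344))) (XT.nd (nat_lit 78) (nat_lit 836) (nat_lit 0) (XT.lf (nat_lit 0) (nat_lit 334626819) (nat_lit 684) (nat_lit 19824360217) (nat_lit 760) (nat_lit 4103377568) (nat_lit 338) (nat_lit 5) (nat_lit 347) (nat_lit 5) (nat_lit 348) (nat_lit 5) (nat_lit 630) (nat_lit 587) (nat_lit 343)) (XT.nd (nat_lit 78) (nat_lit 836) (nat_lit 0) (XT.lf (nat_lit 0) (nat_lit 14128658621) (nat_lit 684) (nat_lit 9644691453) (nat_lit 760) (nat_lit 762469287) (nat_lit 338) (nat_lit 5) (nat_lit 347) (nat_lit 5)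 (nat_lit 348) (nat_lit 5) (nat_lit 631) (nat_lit 587) (nat_lit 342)) (XT.lf (nat_lit 0) (nat_lit 2634208901) (nat_lit 836) (nat_lit 21411688025) (nat_lit 76) (nat_lit 768030163) (nat_lit 327) (nat_lit 5) (nat_lit 338) (nat_lit 5) (nat_lit 328) (nat_lit 5) (nat_lit 632) (nat_lit 587) (nat_lit 341))))) (XT.nd (nat_lit 156) (nat_lit 684) (nat_lit 0) (XT.nd (nat_lit 78) (nat_lit 684) (nat_lit 0) (XT.lf (nat_lit 0) (nat_lit 6219302711) (nat_lit 836) (nat_lit 7540675557) (nat_lit 76) (nat_lit 11334904342) (nat_lit 327) (nat_lit 5) (nat_lit 338) (nat_lit 5) (nat_lit 328) (nat_lit 5) (nat_lit 633) (nat_lit 587) (nat_lit 340)) (XT.lf (nat_lit 0) (nat_lit 6691607116) (nat_lit 684) (nat_lit 3224515889) (nat_lit 760) (nat_lit 15464534002) (nat_lit 318) (nat_lit 5) (nat_lit 327) (nat_lit 5) (nat_lit 328) (nat_lit 5) (nat_lit 634) (nat_lit 587) (nat_lit 339))) (XT.nd (nat_lit 78) (nat_lit 684) (nat_lit 0) (XT.lf (nat_lit 0) (nat_lit 13783269132) (nat_lit 760) (nat_lit 4413504765) (nat_lit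 76) (nat_lit 7473445461) (nat_lit 318) (nat_lit 5) (nat_lit 328) (nat_lit 5) (nat_lit 319) (nat_lit 5) (nat_lit 635) (nat_lit 587) (nat_lit 338)) (XT.nd (nat_lit 78) (nat_lit 0) (nat_lit 0) (XT.lf (nat_lit 0) (nat_lit 10256844164) (nat_lit 684) (nat_lit 7555545832) (nat_lit 760) (nat_lit 8151490572) (nat_lit 309) (nat_lit 5) (nat_lit 318) (nat_lit 5) (nat_lit 319) (nat_lit 5) (nat_lit 636) (nat_lit 587) (nat_lit 337)) (XT.lf (nat_lit 0) (nat_lit 21970041971) (nat_lit 760) (nat_lit 1007918243) (nat_lit 76) (nat_lit 3284496058) (nat_lit 309) (nat_lit 5) (nat_lit 319) (nat_lit 5) (nat_lit 310) (nat_lit 5) (nat_lit 637) (nat_lit 587) (nat_lit 336))))))) (XT.nd (nat_lit 780) (nat_lit 2660) (nat_lit 0) (XT.nd (nat_lit 390) (nat_lit 1900) (nat_lit 0) (XT.nd (nat_lit 156) (nat_lit 608) (nat_lit 0) (XT.nd (nat_lit 78) (nat_lit 760) (nat_lit 0) (XT.lf (nat_lit 0) (nat_lit 14116452386) (nat_lit 608) (nat_lit 12232868540) (nat_lit 684) (nat_lit 214913325) (nat_lit 301) (nat_lit 5) (nat_lit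 309) (nat_lit 5) (nat_lit 310) (nat_lit 5) (nat_lit 638) (nat_lit 587) (nat_lit 335)) (XT.lf (nat_lit 0) (nat_lit 2690848210) (nat_lit 684) (nat_lit 1222641516) (nat_lit 760) (nat_lit 22957624532) (nat_lit 291) (nat_lit 5) (nat_lit 300) (nat_lit 5) (nat_lit 301) (nat_lit 5) (nat_lit 639) (nat_lit 587) (nat_lit 334))) (XT.nd (nat_lit 78) (nat_lit 608) (nat_lit 0) (XT.lf (nat_lit 0) (nat_lit 8267481893) (nat_lit 760) (nat_lit 8952315372) (nat_lit 76) (nat_lit 9961388440) (nat_lit 291) (nat_lit 5) (nat_lit 301) (nat_lit 5) (nat_lit 292) (nat_lit 5) (nat_lit 640) (nat_lit 587) (nat_lit 333)) (XT.nd (nat_lit 78) (nat_lit 0) (nat_lit 0) (XT.lf (nat_lit 0) (nat_lit 6655578312) (nat_lit 608) (nat_lit 6101181539) (nat_lit 684) (nat_lit 14739734832) (nat_lit 283) (nat_lit 5) (nat_lit 291) (nat_lit 5) (nat_lit 292) (nat_lit 5) (nat_lit 641) (nat_lit 587) (nat_lit 332)) (XT.lf (nat_lit 0) (nat_lit 17427244457) (nat_lit 684) (nat_lit 5158185636) (nat_lit 76) (nat_lit 5230851541) (nat_lit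 283) (nat_lit 5) (nat_lit 292) (nat_lit 5) (nat_lit 284) (nat_lit 5) (nat_lit 642) (nat_lit 587) (nat_lit 331))))) (XT.nd (nat_lit 156) (nat_lit 1292) (nat_lit 0) (XT.nd (nat_lit 78) (nat_lit 0) (nat_lit 0) (XT.lf (nat_lit 0) (nat_lit 10937476800) (nat_lit 608) (nat_lit 11362068913) (nat_lit 684) (nat_lit 5840750685) (nat_lit 275) (nat_lit 5) (nat_lit 283) (nat_lit 5) (nat_lit 284) (nat_lit 5) (nat_lit 643) (nat_lit 587) (nat_lit 330)) (XT.lf (nat_lit 0) (nat_lit 27301711417) (nat_lit 684) (nat_lit 1049706901) (nat_lit 76) (nat_lit 118724979) (nat_lit 275) (nat_lit 5) (nat_lit 284) (nat_lit 5) (nat_lit 276) (nat_lit 5) (nat_lit 644) (nat_lit 587) (nat_lit 329))) (XT.nd (nat_lit 78) (nat_lit 608) (nat_lit 0) (XT.lf (nat_lit 0) (nat_lit 3724593663) (nat_lit 684) (nat_lit 13276162933) (nat_lit 76) (nat_lit 11801874813) (nat_lit 266) (nat_lit 5) (nat_lit 275) (nat_lit 5) (nat_lit 267) (nat_lit 5) (nat_lit 645) (nat_lit 587) (nat_lit 328)) (XT.nd (nat_lit 78) (nat_lit 0) (nat_lit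 0) (XT.lf (nat_lit 0) (nat_lit 3339040813) (nat_lit 608) (nat_lit 5386668924) (nat_lit 684) (nat_lit 20415387768) (nat_lit 258) (nat_lit 5) (nat_lit 266) (nat_lit 5) (nat_lit 267) (nat_lit 5) (nat_lit 646) (nat_lit 587) (nat_lit 327)) (XT.lf (nat_lit 0) (nat_lit 13955587072) (nat_lit 684) (nat_lit 9064333713) (nat_lit 76) (nat_lit 6463837552) (nat_lit 258) (nat_lit 5) (nat_lit 267) (nat_lit 5) (nat_lit 259) (nat_lit 5) (nat_lit 647) (nat_lit 587) (nat_lit 326)))))) (XT.nd (nat_lit 390) (nat_lit 988) (nat_lit 0) (XT.nd (nat_lit 156) (nat_lit 1140) (nat_lit 0) (XT.nd (nat_lit 78) (nat_lit 0) (nat_lit 0) (XT.lf (nat_lit 0) (nat_lit 8074682662) (nat_lit 532) (nat_lit 11300653532) (nat_lit 608) (nat_lit 10456230896) (nat_lit 251) (nat_lit 5) (nat_lit 258) (nat_lit 5) (nat_lit 259) (nat_lit 5) (nat_lit 648) (nat_lit 587) (nat_lit 325)) (XT.lf (nat_lit 0) (nat_lit 24966149972) (nat_lit 608) (nat_lit 4514124032) (nat_lit 76) (nat_lit 704804805) (nat_lit 251) (nat_lit 5) (nat_lit 259)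 (nat_lit 5) (nat_lit 252) (nat_lit 5) (nat_lit 649) (nat_lit 587) (nat_lit 324))) (XT.nd (nat_lit 78) (nat_lit 532) (nat_lit 0) (XT.lf (nat_lit 0) (nat_lit 280135818) (nat_lit 608) (nat_lit 17376644498) (nat_lit 76) (nat_lit 12885692013) (nat_lit 243) (nat_lit 5) (nat_lit 251) (nat_lit 5) (nat_lit 244) (nat_lit 5) (nat_lit 650) (nat_lit 587) (nat_lit 323)) (XT.nd (nat_lit 78) (nat_lit 0) (nat_lit 0) (XT.lf (nat_lit 0) (nat_lit 319939512) (nat_lit 532) (nat_lit 5529263893) (nat_lit 608) (nat_lit 25056522481) (nat_lit 236) (nat_lit 5) (nat_lit 243) (nat_lit 5) (nat_lit 244) (nat_lit 5) (nat_lit 651) (nat_lit 587) (nat_lit 322)) (XT.lf (nat_lit 0) (nat_lit 11688737764) (nat_lit 608) (nat_lit 12716778095) (nat_lit 76) (nat_lit 6867547120) (nat_lit 236) (nat_lit 5) (nat_lit 244) (nat_lit 5) (nat_lit 237) (nat_lit 5) (nat_lit 652) (nat_lit 587) (nat_lit 321))))) (XT.nd (nat_lit 76128) (nat_lit 0) (nat_lit 20140) (XT.nd (nat_lit 78) (nat_lit 456) (nat_lit 0) (XT.lf (nat_lit 0) (nat_lit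 5542071460) (nat_lit 532) (nat_lit 12172936628) (nat_lit 608) (nat_lit 13931339988) (nat_lit 229) (nat_lit 5) (nat_lit 236) (nat_lit 5) (nat_lit 237) (nat_lit 5) (nat_lit 653) (nat_lit 587) (nat_lit 320)) (XT.nd (nat_lit 78) (nat_lit 456) (nat_lit 0) (XT.lf (nat_lit 0) (nat_lit 23947048338) (nat_lit 608) (nat_lit 7693084954) (nat_lit 76) (nat_lit 385260855) (nat_lit 229) (nat_lit 5) (nat_lit 237) (nat_lit 5) (nat_lit 230) (nat_lit 5) (nat_lit 654) (nat_lit 587) (nat_lit 319)) (XT.lf (nat_lit 0) (nat_lit 11148369837) (nat_lit 456) (nat_lit 19305776685) (nat_lit 532) (nat_lit 1954866439) (nat_lit 223) (nat_lit 5) (nat_lit 229) (nat_lit 5) (nat_lit 230) (nat_lit 5) (nat_lit 655) (nat_lit 587) (nat_lit 318)))) (XT.nd (nat_lit 78) (nat_lit 0) (nat_lit 0) (XT.lf (nat_lit 0) (nat_lit 2175141991) (nat_lit 0) (nat_lit 2175141991) (nat_lit 1748) (nat_lit 3549039130) (nat_lit 488) (nat_lit 5) (nat_lit 488) (nat_lit 3) (nat_lit 511) (nat_lit 3) (nat_lit 588) (nat_lit 588) (nat_lit 384))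 (XT.nd (nat_lit 78) (nat_lit 0) (nat_lit 0) (XT.lf (nat_lit 0) (nat_lit 9076289850) (nat_lit 1748) (nat_lit 3663031117) (nat_lit 1824) (nat_lit 3211512349) (nat_lit 488) (nat_lit 5) (nat_lit 511) (nat_lit 3) (nat_lit 512) (nat_lit 5) (nat_lit 589) (nat_lit 588) (nat_lit 383)) (XT.lf (nat_lit 76) (nat_lit 4301944293) (nat_lit 0) (nat_lit 5207326644) (nat_lit 1824) (nat_lit 6595798975) (nat_lit 489) (nat_lit 5) (nat_lit 488) (nat_lit 5) (nat_lit 512) (nat_lit 5) (nat_lit 590) (nat_lit 588) (nat_lit 382))))))))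
noncomputable def xc211 : XT := (XT.nd (nat_lit 1560) (nat_lit 9956) (nat_lit 0) (XT.nd (nat_lit 780) (nat_lit 1520) (nat_lit 0) (XT.nd (nat_lit 390) (nat_lit 0) (nat_lit 152) (XT.nd (nat_lit 156) (nat_lit 0) (nat_lit 76) (XT.nd (nat_lit 78) (nat_lit 0) (nat_lit 0) (XT.lf (nat_lit 0) (nat_lit 9984864980) (nat_lit 1748) (nat_lit 3806069594) (nat_lit 1824) (nat_lit 2470778242) (nat_lit 489) (nat_lit 5) (nat_lit 512) (nat_lit 5) (nat_lit 513) (nat_lit 5) (nat_lit 591) (nat_lit 588) (nat_lit 381)) (XT.lf (nat_lit 76) (nat_lit 4370021832) (nat_lit 0) (nat_lit 6156080642) (nat_lit 1824) (nat_lit 5894264104) (nat_lit 490) (nat_lit 5) (nat_lit 489) (nat_lit 5) (nat_lit 513) (nat_lit 5) (nat_lit 592) (nat_lit 588) (nat_lit 380))) (XT.nd (nat_lit 78) (nat_lit 0) (nat_lit 0) (XT.lf (nat_lit 0) (nat_lit 11107866781) (nat_lit 1748) (nat_lit 3835078040) (nat_lit 1824) (nat_lit 1638655172) (nat_lit 490) (nat_lit 5) (nat_lit 513) (nat_lit 5) (nat_lit 514) (nat_lit 5) (nat_lit 593) (nat_lit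 588) (nat_lit 379)) (XT.nd (nat_lit 78) (nat_lit 0) (nat_lit 76) (XT.lf (nat_lit 76) (nat_lit 4559741723) (nat_lit 0) (nat_lit 7205427283) (nat_lit 1824) (nat_lit 4979611625) (nat_lit 491) (nat_lit 5) (nat_lit 490) (nat_lit 5) (nat_lit 514) (nat_lit 5) (nat_lit 594) (nat_lit 588) (nat_lit 378)) (XT.lf (nat_lit 0) (nat_lit 12459630948) (nat_lit 1748) (nat_lit 3744802014) (nat_lit 1824) (nat_lit 706312242) (nat_lit 491) (nat_lit 5) (nat_lit 514) (nat_lit 5) (nat_lit 515) (nat_lit 5) (nat_lit 595) (nat_lit 588) (nat_lit 377))))) (XT.nd (nat_lit 156) (nat_lit 0) (nat_lit 76) (XT.nd (nat_lit 78) (nat_lit 0) (nat_lit 0) (XT.lf (nat_lit 76) (nat_lit 4876650927) (nat_lit 0) (nat_lit 8364484673) (nat_lit 1824) (nat_lit 3837430981) (nat_lit 492) (nat_lit 5) (nat_lit 491) (nat_lit 5) (nat_lit 515) (nat_lit 5) (nat_lit 596) (nat_lit 588) (nat_lit 376)) (XT.lf (nat_lit 76) (nat_lit 13717491114) (nat_lit 0) (nat_lit 339779190) (nat_lit 1824) (nat_lit 3192094657) (nat_lit 492) (nat_lit 5)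 (nat_lit 491) (nat_lit 5) (nat_lit 515) (nat_lit 5) (nat_lit 597) (nat_lit 588) (nat_lit 375))) (XT.nd (nat_lit 78) (nat_lit 0) (nat_lit 0) (XT.lf (nat_lit 76) (nat_lit 5326626217) (nat_lit 0) (nat_lit 9642628506) (nat_lit 1824) (nat_lit 2452734604) (nat_lit 493) (nat_lit 5) (nat_lit 492) (nat_lit 5) (nat_lit 516) (nat_lit 5) (nat_lit 598) (nat_lit 588) (nat_lit 374)) (XT.nd (nat_lit 78) (nat_lit 0) (nat_lit 76) (XT.lf (nat_lit 76) (nat_lit 14404052521) (nat_lit 0) (nat_lit 1515460405) (nat_lit 1824) (nat_lit 1678153121) (nat_lit 493) (nat_lit 5) (nat_lit 492) (nat_lit 5) (nat_lit 516) (nat_lit 5) (nat_lit 599) (nat_lit 588) (nat_lit 373)) (XT.lf (nat_lit 76) (nat_lit 5915882721) (nat_lit 0) (nat_lit 11049513170) (nat_lit 1824) (nat_lit 809928558) (nat_lit 494) (nat_lit 5) (nat_lit 493) (nat_lit 5) (nat_lit 517) (nat_lit 5) (nat_lit 600) (nat_lit 588) (nat_lit 372)))))) (XT.nd (nat_lit 390) (nat_lit 0) (nat_lit 228) (XT.nd (nat_lit 156) (nat_lit 0) (nat_lit 76) (XT.nd (nat_lit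 78) (nat_lit 0) (nat_lit 76) (XT.lf (nat_lit 0) (nat_lit 100553857) (nat_lit 1824) (nat_lit 2719861789) (nat_lit 1900) (nat_lit 15135593354) (nat_lit 469) (nat_lit 5) (nat_lit 493) (nat_lit 5) (nat_lit 494) (nat_lit 5) (nat_lit 601) (nat_lit 588) (nat_lit 371)) (XT.lf (nat_lit 0) (nat_lit 1092696357) (nat_lit 1824) (nat_lit 11495064289) (nat_lit 1900) (nat_lit 5550954125) (nat_lit 470) (nat_lit 5) (nat_lit 494) (nat_lit 5) (nat_lit 495) (nat_lit 5) (nat_lit 602) (nat_lit 588) (nat_lit 370))) (XT.nd (nat_lit 78) (nat_lit 0) (nat_lit 76) (XT.lf (nat_lit 0) (nat_lit 2136217517) (nat_lit 1824) (nat_lit 2116170703) (nat_lit 1900) (nat_lit 14072056217) (nat_lit 470) (nat_lit 5) (nat_lit 494) (nat_lit 5) (nat_lit 495) (nat_lit 5) (nat_lit 603) (nat_lit 588) (nat_lit 369)) (XT.nd (nat_lit 78) (nat_lit 0) (nat_lit 0) (XT.lf (nat_lit 0) (nat_lit 3272117924) (nat_lit 1824) (nat_lit 10995569655) (nat_lit 1900) (nat_lit 4244771430) (nat_lit 471) (nat_lit 5) (nat_lit 495) (nat_lit 5) (nat_lit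 496) (nat_lit 5) (nat_lit 604) (nat_lit 588) (nat_lit 368)) (XT.lf (nat_lit 0) (nat_lit 4467876107) (nat_lit 1824) (nat_lit 1364886189) (nat_lit 1900) (nat_lit 12870729258) (nat_lit 471) (nat_lit 5) (nat_lit 495) (nat_lit 5) (nat_lit 496) (nat_lit 5) (nat_lit 605) (nat_lit 588) (nat_lit 367))))) (XT.nd (nat_lit 156) (nat_lit 0) (nat_lit 76) (XT.nd (nat_lit 78) (nat_lit 0) (nat_lit 0) (XT.lf (nat_lit 0) (nat_lit 5756326238) (nat_lit 1824) (nat_lit 10348835885) (nat_lit 1900) (nat_lit 2791807562) (nat_lit 472) (nat_lit 5) (nat_lit 496) (nat_lit 5) (nat_lit 497) (nat_lit 5) (nat_lit 606) (nat_lit 588) (nat_lit 366)) (XT.lf (nat_lit 0) (nat_lit 7113265782) (nat_lit 1824) (nat_lit 458891206) (nat_lit 1900) (nat_lit 11521306441) (nat_lit 472) (nat_lit 5) (nat_lit 496) (nat_lit 5) (nat_lit 497) (nat_lit 5) (nat_lit 607) (nat_lit 588) (nat_lit 365))) (XT.nd (nat_lit 78) (nat_lit 0) (nat_lit 0) (XT.lf (nat_lit 0) (nat_lit 8563412870) (nat_lit 1824) (nat_lit 9547638129) (nat_lit 1900)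 (nat_lit 1181515127) (nat_lit 473) (nat_lit 5) (nat_lit 497) (nat_lit 5) (nat_lit 498) (nat_lit 5) (nat_lit 608) (nat_lit 588) (nat_lit 364)) (XT.nd (nat_lit 78) (nat_lit 0) (nat_lit 0) (XT.lf (nat_lit 76) (nat_lit 617397830) (nat_lit 0) (nat_lit 9477474093) (nat_lit 1900) (nat_lit 9399733214) (nat_lit 474) (nat_lit 5) (nat_lit 473) (nat_lit 5) (nat_lit 498) (nat_lit 5) (nat_lit 609) (nat_lit 588) (nat_lit 363)) (XT.lf (nat_lit 76) (nat_lit 11111194473) (nat_lit 0) (nat_lit 604960565) (nat_lit 1900) (nat_lit 7983346427) (nat_lit 474) (nat_lit 5) (nat_lit 473) (nat_lit 5) (nat_lit 498) (nat_lit 5) (nat_lit 610) (nat_lit 588) (nat_lit 362))))))) (XT.nd (nat_lit 780) (nat_lit 5624) (nat_lit 0) (XT.nd (nat_lit 390) (nat_lit 1824) (nat_lit 0) (XT.nd (nat_lit 156) (nat_lit 2888) (nat_lit 0) (XT.nd (nat_lit 78) (nat_lit 0) (nat_lit 0) (XT.lf (nat_lit 76) (nat_lit 1872108862) (nat_lit 0) (nat_lit 11559967092) (nat_lit 1900) (nat_lit 6475175947) (nat_lit 475) (nat_lit 5) (nat_lit 474)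 (nat_lit 5) (nat_lit 499) (nat_lit 5) (nat_lit 611) (nat_lit 588) (nat_lit 361)) (XT.lf (nat_lit 76) (nat_lit 12650131461) (nat_lit 0) (nat_lit 2589090391) (nat_lit 1900) (nat_lit 4878797780) (nat_lit 475) (nat_lit 5) (nat_lit 474) (nat_lit 5) (nat_lit 499) (nat_lit 5) (nat_lit 612) (nat_lit 588) (nat_lit 360))) (XT.nd (nat_lit 78) (nat_lit 1140) (nat_lit 0) (XT.lf (nat_lit 0) (nat_lit 3307512188) (nat_lit 1824) (nat_lit 13834464246) (nat_lit 1900) (nat_lit 3189837375) (nat_lit 451) (nat_lit 5) (nat_lit 475) (nat_lit 5) (nat_lit 476) (nat_lit 5) (nat_lit 613) (nat_lit 588) (nat_lit 359)) (XT.nd (nat_lit 78) (nat_lit 1140) (nat_lit 0) (XT.lf (nat_lit 0) (nat_lit 14378323223) (nat_lit 1824) (nat_lit 4767066052) (nat_lit 1900) (nat_lit 1403242932) (nat_lit 451) (nat_lit 5) (nat_lit 475) (nat_lit 5) (nat_lit 476) (nat_lit 5) (nat_lit 614) (nat_lit 588) (nat_lit 358)) (XT.lf (nat_lit 0) (nat_lit 470633405) (nat_lit 1140) (nat_lit 15839363726) (nat_lit 76) (nat_lit 4458594881) (nat_lit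 436) (nat_lit 5) (nat_lit 451) (nat_lit 5) (nat_lit 437) (nat_lit 5) (nat_lit 615) (nat_lit 588) (nat_lit 357))))) (XT.nd (nat_lit 156) (nat_lit 912) (nat_lit 0) (XT.nd (nat_lit 78) (nat_lit 912) (nat_lit 0) (XT.lf (nat_lit 0) (nat_lit 2432046926) (nat_lit 1140) (nat_lit 4702864721) (nat_lit 76) (nat_lit 13856477255) (nat_lit 436) (nat_lit 5) (nat_lit 451) (nat_lit 5) (nat_lit 437) (nat_lit 5) (nat_lit 616) (nat_lit 588) (nat_lit 356)) (XT.lf (nat_lit 0) (nat_lit 4486852804) (nat_lit 988) (nat_lit 14491734437) (nat_lit 76) (nat_lit 2238971574) (nat_lit 424) (nat_lit 5) (nat_lit 437) (nat_lit 5) (nat_lit 425) (nat_lit 5) (nat_lit 617) (nat_lit 588) (nat_lit 355))) (XT.nd (nat_lit 78) (nat_lit 912) (nat_lit 0) (XT.lf (nat_lit 0) (nat_lit 6657503594) (nat_lit 988) (nat_lit 3052230290) (nat_lit 76) (nat_lit 11737023630) (nat_lit 424) (nat_lit 5) (nat_lit 437) (nat_lit 5) (nat_lit 425) (nat_lit 5) (nat_lit 618) (nat_lit 588) (nat_lit 354)) (XT.nd (nat_lit 78) (nat_lit 0) (nat_lit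 0) (XT.lf (nat_lit 0) (nat_lit 8726608014) (nat_lit 912) (nat_lit 197432067) (nat_lit 988) (nat_lit 12755451009) (nat_lit 412) (nat_lit 5) (nat_lit 424) (nat_lit 5) (nat_lit 425) (nat_lit 5) (nat_lit 619) (nat_lit 588) (nat_lit 353)) (XT.lf (nat_lit 0) (nat_lit 11314110775) (nat_lit 988) (nat_lit 1199887787) (nat_lit 76) (nat_lit 9401317053) (nat_lit 412) (nat_lit 5) (nat_lit 425) (nat_lit 5) (nat_lit 413) (nat_lit 5) (nat_lit 620) (nat_lit 588) (nat_lit 352)))))) (XT.nd (nat_lit 390) (nat_lit 3040) (nat_lit 0) (XT.nd (nat_lit 156) (nat_lit 912) (nat_lit 0) (XT.nd (nat_lit 78) (nat_lit 836) (nat_lit 0) (XT.lf (nat_lit 0) (nat_lit 10926271890) (nat_lit 836) (nat_lit 2893912279) (nat_lit 912) (nat_lit 8334308779) (nat_lit 401) (nat_lit 5) (nat_lit 412) (nat_lit 5) (nat_lit 413) (nat_lit 5) (nat_lit 621) (nat_lit 588) (nat_lit 351)) (XT.lf (nat_lit 0) (nat_lit 875492205) (nat_lit 836) (nat_lit 15555604587) (nat_lit 912) (nat_lit 5966263015) (nat_lit 390) (nat_lit 5) (nat_lit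 401) (nat_lit 5) (nat_lit 402) (nat_lit 5) (nat_lit 622) (nat_lit 588) (nat_lit 350))) (XT.nd (nat_lit 78) (nat_lit 912) (nat_lit 0) (XT.lf (nat_lit 0) (nat_lit 13350144003) (nat_lit 836) (nat_lit 5834530967) (nat_lit 912) (nat_lit 3458600415) (nat_lit 390) (nat_lit 5) (nat_lit 401) (nat_lit 5) (nat_lit 402) (nat_lit 5) (nat_lit 623) (nat_lit 588) (nat_lit 349)) (XT.nd (nat_lit 78) (nat_lit 76) (nat_lit 0) (XT.lf (nat_lit 0) (nat_lit 3191623527) (nat_lit 836) (nat_lit 18845058149) (nat_lit 912) (nat_lit 856560782) (nat_lit 379) (nat_lit 5) (nat_lit 390) (nat_lit 5) (nat_lit 391) (nat_lit 5) (nat_lit 624) (nat_lit 588) (nat_lit 348)) (XT.lf (nat_lit 0) (nat_lit 1871522316) (nat_lit 912) (nat_lit 7149584160) (nat_lit 76) (nat_lit 14124917743) (nat_lit 378) (nat_lit 5) (nat_lit 390) (nat_lit 5) (nat_lit 379) (nat_lit 5) (nat_lit 625) (nat_lit 588) (nat_lit 347))))) (XT.nd (nat_lit 234) (nat_lit 1444) (nat_lit 0) (XT.nd (nat_lit 78) (nat_lit 760) (nat_lit 0) (XT.lf (nat_lit 0)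 (nat_lit 4682849396) (nat_lit 912) (nat_lit 17690894869) (nat_lit 76) (nat_lit 1029201383) (nat_lit 367) (nat_lit 5) (nat_lit 379) (nat_lit 5) (nat_lit 368) (nat_lit 5) (nat_lit 626) (nat_lit 588) (nat_lit 346)) (XT.nd (nat_lit 78) (nat_lit 760) (nat_lit 0) (XT.lf (nat_lit 0) (nat_lit 7654727247) (nat_lit 912) (nat_lit 4800188086) (nat_lit 76) (nat_lit 11208003984) (nat_lit 367) (nat_lit 5) (nat_lit 379) (nat_lit 5) (nat_lit 368) (nat_lit 5) (nat_lit 627) (nat_lit 588) (nat_lit 345)) (XT.lf (nat_lit 0) (nat_lit 8455388652) (nat_lit 760) (nat_lit 2281911406) (nat_lit 836) (nat_lit 13189767547) (nat_lit 357) (nat_lit 5) (nat_lit 367) (nat_lit 5) (nat_lit 368) (nat_lit 5) (nat_lit 628) (nat_lit 588) (nat_lit 344)))) (XT.nd (nat_lit 78) (nat_lit 1444) (nat_lit 0) (XT.lf (nat_lit 0) (nat_lit 13962909260) (nat_lit 836) (nat_lit 2211362026) (nat_lit 76) (nat_lit 8020600160) (nat_lit 357) (nat_lit 5) (nat_lit 368) (nat_lit 5) (nat_lit 358) (nat_lit 5) (nat_lit 629) (nat_lit 588) (nat_lit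 343)) (XT.nd (nat_lit 78) (nat_lit 684) (nat_lit 0) (XT.lf (nat_lit 0) (nat_lit 11445349595) (nat_lit 760) (nat_lit 5893578963) (nat_lit 836) (nat_lit 7127385127) (nat_lit 347) (nat_lit 5) (nat_lit 357) (nat_lit 5) (nat_lit 358) (nat_lit 5) (nat_lit 630) (nat_lit 588) (nat_lit 342)) (XT.lf (nat_lit 0) (nat_lit 636868058) (nat_lit 684) (nat_lit 20191009574) (nat_lit 760) (nat_lit 3914399224) (nat_lit 338) (nat_lit 5) (nat_lit 347) (nat_lit 5) (nat_lit 348) (nat_lit 5) (nat_lit 631) (nat_lit 588) (nat_lit 341))))))))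
noncomputable def xc212 : XT := (XT.nd (nat_lit 1560) (nat_lit 1064) (nat_lit 0) (XT.nd (nat_lit 780) (nat_lit 3648) (nat_lit 0) (XT.nd (nat_lit 390) (nat_lit 2052) (nat_lit 0) (XT.nd (nat_lit 156) (nat_lit 684) (nat_lit 0) (XT.nd (nat_lit 78) (nat_lit 836) (nat_lit 0) (XT.lf (nat_lit 0) (nat_lit 14700985424) (nat_lit 684) (nat_lit 9808332490) (nat_lit 760) (nat_lit 511987402) (nat_lit 338) (nat_lit 5) (nat_lit 347) (nat_lit 5) (nat_lit 348) (nat_lit 5) (nat_lit 632) (nat_lit 588) (nat_lit 340)) (XT.lf (nat_lit 0) (nat_lit 2946098591) (nat_lit 836) (nat_lit 21543602761) (nat_lit 76) (nat_lit 815300548) (nat_lit 327) (nat_lit 5) (nat_lit 338) (nat_lit 5) (nat_lit 328) (nat_lit 5) (nat_lit 633) (nat_lit 588) (nat_lit 339))) (XT.nd (nat_lit 78) (nat_lit 684) (nat_lit 0) (XT.lf (nat_lit 0) (nat_lit 6597811816) (nat_lit 836) (nat_lit 7400980220) (nat_lit 76) (nat_lit 11592886528) (nat_lit 327) (nat_lit 5) (nat_lit 338) (nat_lit 5) (nat_lit 328) (nat_lit 5) (nat_lit 634) (nat_lit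 588) (nat_lit 338)) (XT.nd (nat_lit 78) (nat_lit 0) (nat_lit 0) (XT.lf (nat_lit 0) (nat_lit 7114036864) (nat_lit 684) (nat_lit 3251422614) (nat_lit 760) (nat_lit 15517771529) (nat_lit 318) (nat_lit 5) (nat_lit 327) (nat_lit 5) (nat_lit 328) (nat_lit 5) (nat_lit 635) (nat_lit 588) (nat_lit 337)) (XT.lf (nat_lit 0) (nat_lit 14305265917) (nat_lit 760) (nat_lit 4214134931) (nat_lit 76) (nat_lit 7659277779) (nat_lit 318) (nat_lit 5) (nat_lit 328) (nat_lit 5) (nat_lit 319) (nat_lit 5) (nat_lit 636) (nat_lit 588) (nat_lit 336))))) (XT.nd (nat_lit 156) (nat_lit 1368) (nat_lit 0) (XT.nd (nat_lit 78) (nat_lit 0) (nat_lit 0) (XT.lf (nat_lit 0) (nat_lit 10747728609) (nat_lit 684) (nat_lit 7664265825) (nat_lit 760) (nat_lit 8066278485) (nat_lit 309) (nat_lit 5) (nat_lit 318) (nat_lit 5) (nat_lit 319) (nat_lit 5) (nat_lit 637) (nat_lit 588) (nat_lit 335)) (XT.lf (nat_lit 0) (nat_lit 22648297582) (nat_lit 760) (nat_lit 743412302) (nat_lit 76) (nat_lit 3391200646) (nat_lit 309) (nat_lit 5)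 (nat_lit 319) (nat_lit 5) (nat_lit 310) (nat_lit 5) (nat_lit 638) (nat_lit 588) (nat_lit 334))) (XT.nd (nat_lit 78) (nat_lit 684) (nat_lit 0) (XT.lf (nat_lit 0) (nat_lit 21250981) (nat_lit 684) (nat_lit 12409348225) (nat_lit 76) (nat_lit 14660179362) (nat_lit 300) (nat_lit 5) (nat_lit 309) (nat_lit 5) (nat_lit 301) (nat_lit 5) (nat_lit 639) (nat_lit 588) (nat_lit 333)) (XT.nd (nat_lit 78) (nat_lit 0) (nat_lit 0) (XT.lf (nat_lit 0) (nat_lit 3028749830) (nat_lit 684) (nat_lit 1197783151) (nat_lit 760) (nat_lit 23177291346) (nat_lit 291) (nat_lit 5) (nat_lit 300) (nat_lit 5) (nat_lit 301) (nat_lit 5) (nat_lit 640) (nat_lit 588) (nat_lit 332)) (XT.lf (nat_lit 0) (nat_lit 8663315473) (nat_lit 760) (nat_lit 8848541374) (nat_lit 76) (nat_lit 10208326474) (nat_lit 291) (nat_lit 5) (nat_lit 301) (nat_lit 5) (nat_lit 292) (nat_lit 5) (nat_lit 641) (nat_lit 588) (nat_lit 331)))))) (XT.nd (nat_lit 390) (nat_lit 1748) (nat_lit 0) (XT.nd (nat_lit 156) (nat_lit 1292) (nat_lit 0) (XT.nd (nat_lit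 78) (nat_lit 0) (nat_lit 0) (XT.lf (nat_lit 0) (nat_lit 7069649523) (nat_lit 608) (nat_lit 6170034350) (nat_lit 684) (nat_lit 14802168829) (nat_lit 283) (nat_lit 5) (nat_lit 291) (nat_lit 5) (nat_lit 292) (nat_lit 5) (nat_lit 642) (nat_lit 588) (nat_lit 330)) (XT.lf (nat_lit 0) (nat_lit 17999450176) (nat_lit 684) (nat_lit 4981754939) (nat_lit 76) (nat_lit 5386913154) (nat_lit 283) (nat_lit 5) (nat_lit 292) (nat_lit 5) (nat_lit 284) (nat_lit 5) (nat_lit 643) (nat_lit 588) (nat_lit 329))) (XT.nd (nat_lit 78) (nat_lit 684) (nat_lit 0) (XT.lf (nat_lit 0) (nat_lit 11433981309) (nat_lit 608) (nat_lit 11532634011) (nat_lit 684) (nat_lit 5732049961) (nat_lit 275) (nat_lit 5) (nat_lit 283) (nat_lit 5) (nat_lit 284) (nat_lit 5) (nat_lit 644) (nat_lit 588) (nat_lit 328)) (XT.nd (nat_lit 78) (nat_lit 684) (nat_lit 0) (XT.lf (nat_lit 0) (nat_lit 28064850226) (nat_lit 684) (nat_lit 794402961) (nat_lit 76) (nat_lit 175935716) (nat_lit 275) (nat_lit 5) (nat_lit 284) (nat_lit 5) (nat_lit 276)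 (nat_lit 5) (nat_lit 645) (nat_lit 588) (nat_lit 327)) (XT.lf (nat_lit 0) (nat_lit 4015151337) (nat_lit 684) (nat_lit 13264319885) (nat_lit 76) (nat_lit 12094876919) (nat_lit 266) (nat_lit 5) (nat_lit 275) (nat_lit 5) (nat_lit 267) (nat_lit 5) (nat_lit 646) (nat_lit 588) (nat_lit 326))))) (XT.nd (nat_lit 156) (nat_lit 1140) (nat_lit 0) (XT.nd (nat_lit 78) (nat_lit 0) (nat_lit 0) (XT.lf (nat_lit 0) (nat_lit 3681363158) (nat_lit 608) (nat_lit 5432478989) (nat_lit 684) (nat_lit 20605790651) (nat_lit 258) (nat_lit 5) (nat_lit 266) (nat_lit 5) (nat_lit 267) (nat_lit 5) (nat_lit 647) (nat_lit 588) (nat_lit 325)) (XT.lf (nat_lit 0) (nat_lit 14444522600) (nat_lit 684) (nat_lit 8971673192) (nat_lit 76) (nat_lit 6653027223) (nat_lit 258) (nat_lit 5) (nat_lit 267) (nat_lit 5) (nat_lit 259) (nat_lit 5) (nat_lit 648) (nat_lit 588) (nat_lit 324))) (XT.nd (nat_lit 78) (nat_lit 608) (nat_lit 0) (XT.lf (nat_lit 0) (nat_lit 8508321227) (nat_lit 532) (nat_lit 11461998232) (nat_lit 608) (nat_lit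 10453715704) (nat_lit 251) (nat_lit 5) (nat_lit 258) (nat_lit 5) (nat_lit 259) (nat_lit 5) (nat_lit 649) (nat_lit 588) (nat_lit 323)) (XT.nd (nat_lit 78) (nat_lit 608) (nat_lit 0) (XT.lf (nat_lit 0) (nat_lit 25669292982) (nat_lit 608) (nat_lit 4333927777) (nat_lit 76) (nat_lit 781469758) (nat_lit 251) (nat_lit 5) (nat_lit 259) (nat_lit 5) (nat_lit 252) (nat_lit 5) (nat_lit 650) (nat_lit 588) (nat_lit 322)) (XT.lf (nat_lit 0) (nat_lit 488654567) (nat_lit 608) (nat_lit 17452768524) (nat_lit 76) (nat_lit 13207827417) (nat_lit 243) (nat_lit 5) (nat_lit 251) (nat_lit 5) (nat_lit 244) (nat_lit 5) (nat_lit 651) (nat_lit 588) (nat_lit 321))))))) (XT.nd (nat_lit 76752) (nat_lit 0) (nat_lit 18240) (XT.nd (nat_lit 76362) (nat_lit 0) (nat_lit 19684) (XT.nd (nat_lit 156) (nat_lit 532) (nat_lit 0) (XT.nd (nat_lit 78) (nat_lit 0) (nat_lit 0) (XT.lf (nat_lit 0) (nat_lit 595961582) (nat_lit 532) (nat_lit 5570913752) (nat_lit 608) (nat_lit 25352938621) (nat_lit 236) (nat_lit 5) (nat_lit 243)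 (nat_lit 5) (nat_lit 244) (nat_lit 5) (nat_lit 652) (nat_lit 588) (nat_lit 320)) (XT.lf (nat_lit 0) (nat_lit 12119704123) (nat_lit 608) (nat_lit 12703268408) (nat_lit 76) (nat_lit 7071595433) (nat_lit 236) (nat_lit 5) (nat_lit 244) (nat_lit 5) (nat_lit 237) (nat_lit 5) (nat_lit 653) (nat_lit 588) (nat_lit 319))) (XT.nd (nat_lit 78) (nat_lit 0) (nat_lit 0) (XT.lf (nat_lit 0) (nat_lit 5918995999) (nat_lit 532) (nat_lit 12345364940) (nat_lit 608) (nat_lit 14011000845) (nat_lit 229) (nat_lit 5) (nat_lit 236) (nat_lit 5) (nat_lit 237) (nat_lit 5) (nat_lit 654) (nat_lit 588) (nat_lit 318)) (XT.nd (nat_lit 76050) (nat_lit 0) (nat_lit 19684) (XT.lf (nat_lit 0) (nat_lit 24617669565) (nat_lit 608) (nat_lit 7582696471) (nat_lit 76) (nat_lit 461690429) (nat_lit 229) (nat_lit 5) (nat_lit 237) (nat_lit 5) (nat_lit 230) (nat_lit 5) (nat_lit 655) (nat_lit 588) (nat_lit 317)) (XT.lf (nat_lit 0) (nat_lit 2351570069) (nat_lit 0) (nat_lit 2351570069) (nat_lit 1748) (nat_lit 3348827542) (nat_lit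 488) (nat_lit 5) (nat_lit 488) (nat_lit 3) (nat_lit 511) (nat_lit 3) (nat_lit 589) (nat_lit 589) (nat_lit 382))))) (XT.nd (nat_lit 156) (nat_lit 0) (nat_lit 76) (XT.nd (nat_lit 78) (nat_lit 0) (nat_lit 0) (XT.lf (nat_lit 0) (nat_lit 9777398859) (nat_lit 1748) (nat_lit 3463487482) (nat_lit 1824) (nat_lit 3018523184) (nat_lit 488) (nat_lit 5) (nat_lit 511) (nat_lit 3) (nat_lit 512) (nat_lit 5) (nat_lit 590) (nat_lit 589) (nat_lit 381)) (XT.lf (nat_lit 76) (nat_lit 4658992670) (nat_lit 0) (nat_lit 5551618564) (nat_lit 1824) (nat_lit 6206289142) (nat_lit 489) (nat_lit 5) (nat_lit 488) (nat_lit 5) (nat_lit 512) (nat_lit 5) (nat_lit 591) (nat_lit 589) (nat_lit 380))) (XT.nd (nat_lit 78) (nat_lit 0) (nat_lit 0) (XT.lf (nat_lit 0) (nat_lit 10684165903) (nat_lit 1748) (nat_lit 3604897252) (nat_lit 1824) (nat_lit 2287844947) (nat_lit 489) (nat_lit 5) (nat_lit 512) (nat_lit 5) (nat_lit 513) (nat_lit 5) (nat_lit 592) (nat_lit 589) (nat_lit 379)) (XT.nd (nat_lit 78) (nat_lit 0) (nat_lit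 76) (XT.lf (nat_lit 76) (nat_lit 4732891702) (nat_lit 0) (nat_lit 6495328826) (nat_lit 1824) (nat_lit 5510675483) (nat_lit 490) (nat_lit 5) (nat_lit 489) (nat_lit 5) (nat_lit 513) (nat_lit 5) (nat_lit 593) (nat_lit 589) (nat_lit 378)) (XT.lf (nat_lit 0) (nat_lit 11810605261) (nat_lit 1748) (nat_lit 3630651593) (nat_lit 1824) (nat_lit 1462318440) (nat_lit 490) (nat_lit 5) (nat_lit 513) (nat_lit 5) (nat_lit 514) (nat_lit 5) (nat_lit 594) (nat_lit 589) (nat_lit 377)))))) (XT.nd (nat_lit 390) (nat_lit 1596) (nat_lit 0) (XT.nd (nat_lit 156) (nat_lit 0) (nat_lit 76) (XT.nd (nat_lit 78) (nat_lit 0) (nat_lit 76) (XT.lf (nat_lit 76) (nat_lit 4930215040) (nat_lit 0) (nat_lit 7543228593) (nat_lit 1824) (nat_lit 4596728993) (nat_lit 491) (nat_lit 5) (nat_lit 490) (nat_lit 5) (nat_lit 514) (nat_lit 5) (nat_lit 595) (nat_lit 589) (nat_lit 376)) (XT.lf (nat_lit 0) (nat_lit 13171287943) (nat_lit 1748) (nat_lit 3535345426) (nat_lit 1824) (nat_lit 533034125) (nat_lit 491) (nat_lit 5) (nat_lit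 514) (nat_lit 5) (nat_lit 515) (nat_lit 5) (nat_lit 596) (nat_lit 589) (nat_lit 375))) (XT.nd (nat_lit 78) (nat_lit 0) (nat_lit 0) (XT.lf (nat_lit 76) (nat_lit 5256665834) (nat_lit 0) (nat_lit 8704522986) (nat_lit 1824) (nat_lit 3449802006) (nat_lit 492) (nat_lit 5) (nat_lit 491) (nat_lit 5) (nat_lit 515) (nat_lit 5) (nat_lit 597) (nat_lit 589) (nat_lit 374)) (XT.nd (nat_lit 78) (nat_lit 0) (nat_lit 76) (XT.lf (nat_lit 76) (nat_lit 14268783964) (nat_lit 0) (nat_lit 515936165) (nat_lit 1824) (nat_lit 2800664398) (nat_lit 492) (nat_lit 5) (nat_lit 491) (nat_lit 5) (nat_lit 515) (nat_lit 5) (nat_lit 598) (nat_lit 589) (nat_lit 373)) (XT.lf (nat_lit 76) (nat_lit 5718280881) (nat_lit 0) (nat_lit 9988685444) (nat_lit 1824) (nat_lit 2054655430) (nat_lit 493) (nat_lit 5) (nat_lit 492) (nat_lit 5) (nat_lit 516) (nat_lit 5) (nat_lit 599) (nat_lit 589) (nat_lit 372))))) (XT.nd (nat_lit 234) (nat_lit 0) (nat_lit 76) (XT.nd (nat_lit 78) (nat_lit 1748) (nat_lit 0) (XT.lf (nat_lit 76) (nat_lit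 14971665082) (nat_lit 0) (nat_lit 1695969974) (nat_lit 1824) (nat_lit 1273349648) (nat_lit 493) (nat_lit 5) (nat_lit 492) (nat_lit 5) (nat_lit 516) (nat_lit 5) (nat_lit 600) (nat_lit 589) (nat_lit 371)) (XT.nd (nat_lit 78) (nat_lit 1824) (nat_lit 0) (XT.lf (nat_lit 76) (nat_lit 6321439504) (nat_lit 0) (nat_lit 11405478929) (nat_lit 1824) (nat_lit 395428971) (nat_lit 494) (nat_lit 5) (nat_lit 493) (nat_lit 5) (nat_lit 517) (nat_lit 5) (nat_lit 601) (nat_lit 589) (nat_lit 370)) (XT.lf (nat_lit 0) (nat_lit 519280106) (nat_lit 1824) (nat_lit 2487076392) (nat_lit 1900) (nat_lit 15300400661) (nat_lit 469) (nat_lit 5) (nat_lit 493) (nat_lit 5) (nat_lit 494) (nat_lit 5) (nat_lit 602) (nat_lit 589) (nat_lit 369)))) (XT.nd (nat_lit 78) (nat_lit 0) (nat_lit 0) (XT.lf (nat_lit 0) (nat_lit 1524134629) (nat_lit 1824) (nat_lit 11430615137) (nat_lit 1900) (nat_lit 5538510634) (nat_lit 470) (nat_lit 5) (nat_lit 494) (nat_lit 5) (nat_lit 495) (nat_lit 5) (nat_lit 603) (nat_lit 589) (nat_lit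 368)) (XT.nd (nat_lit 78) (nat_lit 0) (nat_lit 76) (XT.lf (nat_lit 0) (nat_lit 2580495147) (nat_lit 1824) (nat_lit 1869915256) (nat_lit 1900) (nat_lit 14232455603) (nat_lit 470) (nat_lit 5) (nat_lit 494) (nat_lit 5) (nat_lit 495) (nat_lit 5) (nat_lit 604) (nat_lit 589) (nat_lit 367)) (XT.lf (nat_lit 0) (nat_lit 3732394491) (nat_lit 1824) (nat_lit 10920147574) (nat_lit 1900) (nat_lit 4222233896) (nat_lit 471) (nat_lit 5) (nat_lit 495) (nat_lit 5) (nat_lit 496) (nat_lit 5) (nat_lit 605) (nat_lit 589) (nat_lit 366))))))))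
noncomputable def xc213 : XT := (XT.nd (nat_lit 1560) (nat_lit 7904) (nat_lit 0) (XT.nd (nat_lit 780) (nat_lit 5472) (nat_lit 0) (XT.nd (nat_lit 390) (nat_lit 1520) (nat_lit 0) (XT.nd (nat_lit 156) (nat_lit 0) (nat_lit 76) (XT.nd (nat_lit 78) (nat_lit 0) (nat_lit 76) (XT.lf (nat_lit 0) (nat_lit 4944325991) (nat_lit 1824) (nat_lit 1102641292) (nat_lit 1900) (nat_lit 13022817410) (nat_lit 471) (nat_lit 5) (nat_lit 495) (nat_lit 5) (nat_lit 496) (nat_lit 5) (nat_lit 606) (nat_lit 589) (nat_lit 365)) (XT.lf (nat_lit 0) (nat_lit 6252214042) (nat_lit 1824) (nat_lit 10259904736) (nat_lit 1900) (nat_lit 2755140912) (nat_lit 472) (nat_lit 5) (nat_lit 496) (nat_lit 5) (nat_lit 497) (nat_lit 5) (nat_lit 607) (nat_lit 589) (nat_lit 364))) (XT.nd (nat_lit 78) (nat_lit 0) (nat_lit 76) (XT.lf (nat_lit 0) (nat_lit 7628826470) (nat_lit 1824) (nat_lit 177963279) (nat_lit 1900) (nat_lit 11661043549) (nat_lit 472) (nat_lit 5) (nat_lit 496) (nat_lit 5) (nat_lit 497) (nat_lit 5) (nat_lit 608) (nat_lit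 589) (nat_lit 363)) (XT.nd (nat_lit 78) (nat_lit 0) (nat_lit 0) (XT.lf (nat_lit 0) (nat_lit 9102011010) (nat_lit 1824) (nat_lit 9442486815) (nat_lit 1900) (nat_lit 1126540190) (nat_lit 473) (nat_lit 5) (nat_lit 497) (nat_lit 5) (nat_lit 498) (nat_lit 5) (nat_lit 609) (nat_lit 589) (nat_lit 362)) (XT.lf (nat_lit 76) (nat_lit 923901810) (nat_lit 0) (nat_lit 9734904743) (nat_lit 1900) (nat_lit 9218417751) (nat_lit 474) (nat_lit 5) (nat_lit 473) (nat_lit 5) (nat_lit 498) (nat_lit 5) (nat_lit 610) (nat_lit 589) (nat_lit 361))))) (XT.nd (nat_lit 156) (nat_lit 1672) (nat_lit 0) (XT.nd (nat_lit 78) (nat_lit 0) (nat_lit 76) (XT.lf (nat_lit 76) (nat_lit 11621806620) (nat_lit 0) (nat_lit 683609940) (nat_lit 1900) (nat_lit 7780944604) (nat_lit 474) (nat_lit 5) (nat_lit 473) (nat_lit 5) (nat_lit 498) (nat_lit 5) (nat_lit 611) (nat_lit 589) (nat_lit 360)) (XT.lf (nat_lit 76) (nat_lit 2203554671) (nat_lit 0) (nat_lit 11846626899) (nat_lit 1900) (nat_lit 6248195145) (nat_lit 475) (nat_lit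 5) (nat_lit 474) (nat_lit 5) (nat_lit 499) (nat_lit 5) (nat_lit 612) (nat_lit 589) (nat_lit 359))) (XT.nd (nat_lit 78) (nat_lit 1748) (nat_lit 0) (XT.lf (nat_lit 76) (nat_lit 13191372944) (nat_lit 0) (nat_lit 2695245204) (nat_lit 1900) (nat_lit 4626879303) (nat_lit 475) (nat_lit 5) (nat_lit 474) (nat_lit 5) (nat_lit 499) (nat_lit 5) (nat_lit 613) (nat_lit 589) (nat_lit 358)) (XT.nd (nat_lit 78) (nat_lit 0) (nat_lit 0) (XT.lf (nat_lit 0) (nat_lit 3667192973) (nat_lit 1824) (nat_lit 14155076661) (nat_lit 1900) (nat_lit 2909401637) (nat_lit 451) (nat_lit 5) (nat_lit 475) (nat_lit 5) (nat_lit 476) (nat_lit 5) (nat_lit 614) (nat_lit 589) (nat_lit 357)) (XT.lf (nat_lit 0) (nat_lit 14953664729) (nat_lit 1824) (nat_lit 4905469265) (nat_lit 1900) (nat_lit 1093824962) (nat_lit 451) (nat_lit 5) (nat_lit 475) (nat_lit 5) (nat_lit 476) (nat_lit 5) (nat_lit 615) (nat_lit 589) (nat_lit 356)))))) (XT.nd (nat_lit 390) (nat_lit 2508) (nat_lit 0) (XT.nd (nat_lit 156) (nat_lit 1824) (nat_lit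 0) (XT.nd (nat_lit 78) (nat_lit 0) (nat_lit 0) (XT.lf (nat_lit 0) (nat_lit 808209703) (nat_lit 1140) (nat_lit 15859000150) (nat_lit 76) (nat_lit 4510162702) (nat_lit 436) (nat_lit 5) (nat_lit 451) (nat_lit 5) (nat_lit 437) (nat_lit 5) (nat_lit 616) (nat_lit 589) (nat_lit 355)) (XT.lf (nat_lit 0) (nat_lit 2802416913) (nat_lit 1140) (nat_lit 4505597651) (nat_lit 76) (nat_lit 14096740058) (nat_lit 436) (nat_lit 5) (nat_lit 451) (nat_lit 5) (nat_lit 437) (nat_lit 5) (nat_lit 617) (nat_lit 589) (nat_lit 354))) (XT.nd (nat_lit 78) (nat_lit 912) (nat_lit 0) (XT.lf (nat_lit 0) (nat_lit 4893708431) (nat_lit 988) (nat_lit 14485607346) (nat_lit 76) (nat_lit 2256224906) (nat_lit 424) (nat_lit 5) (nat_lit 437) (nat_lit 5) (nat_lit 425) (nat_lit 5) (nat_lit 618) (nat_lit 589) (nat_lit 353)) (XT.nd (nat_lit 78) (nat_lit 912) (nat_lit 0) (XT.lf (nat_lit 0) (nat_lit 7101554225) (nat_lit 988) (nat_lit 2823116289) (nat_lit 76) (nat_lit 11944777731) (nat_lit 424) (nat_lit 5) (nat_lit 437) (nat_lit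 5) (nat_lit 425) (nat_lit 5) (nat_lit 619) (nat_lit 589) (nat_lit 352)) (XT.lf (nat_lit 0) (nat_lit 9189389843) (nat_lit 912) (nat_lit 219807017) (nat_lit 988) (nat_lit 12697724641) (nat_lit 412) (nat_lit 5) (nat_lit 424) (nat_lit 5) (nat_lit 425) (nat_lit 5) (nat_lit 620) (nat_lit 589) (nat_lit 351))))) (XT.nd (nat_lit 156) (nat_lit 1672) (nat_lit 0) (XT.nd (nat_lit 78) (nat_lit 836) (nat_lit 0) (XT.lf (nat_lit 0) (nat_lit 11840938424) (nat_lit 988) (nat_lit 935131901) (nat_lit 76) (nat_lit 9571515311) (nat_lit 412) (nat_lit 5) (nat_lit 425) (nat_lit 5) (nat_lit 413) (nat_lit 5) (nat_lit 621) (nat_lit 589) (nat_lit 350)) (XT.lf (nat_lit 0) (nat_lit 11431651275) (nat_lit 836) (nat_lit 2961451409) (nat_lit 912) (nat_lit 8198524941) (nat_lit 401) (nat_lit 5) (nat_lit 412) (nat_lit 5) (nat_lit 413) (nat_lit 5) (nat_lit 622) (nat_lit 589) (nat_lit 349))) (XT.nd (nat_lit 78) (nat_lit 836) (nat_lit 0) (XT.lf (nat_lit 0) (nat_lit 1183947115) (nat_lit 836) (nat_lit 15868299941) (nat_lit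 912) (nat_lit 5787184983) (nat_lit 390) (nat_lit 5) (nat_lit 401) (nat_lit 5) (nat_lit 402) (nat_lit 5) (nat_lit 623) (nat_lit 589) (nat_lit 348)) (XT.nd (nat_lit 78) (nat_lit 836) (nat_lit 0) (XT.lf (nat_lit 0) (nat_lit 13902387144) (nat_lit 836) (nat_lit 5952773805) (nat_lit 912) (nat_lit 3235220176) (nat_lit 390) (nat_lit 5) (nat_lit 401) (nat_lit 5) (nat_lit 402) (nat_lit 5) (nat_lit 624) (nat_lit 589) (nat_lit 347)) (XT.lf (nat_lit 0) (nat_lit 3544551565) (nat_lit 836) (nat_lit 19215899962) (nat_lit 912) (nat_lit 584971606) (nat_lit 379) (nat_lit 5) (nat_lit 390) (nat_lit 5) (nat_lit 391) (nat_lit 5) (nat_lit 625) (nat_lit 589) (nat_lit 346))))))) (XT.nd (nat_lit 780) (nat_lit 3952) (nat_lit 0) (XT.nd (nat_lit 390) (nat_lit 2280) (nat_lit 0) (XT.nd (nat_lit 156) (nat_lit 760) (nat_lit 0) (XT.nd (nat_lit 78) (nat_lit 836) (nat_lit 0) (XT.lf (nat_lit 0) (nat_lit 2188299597) (nat_lit 912) (nat_lit 7005413905) (nat_lit 76) (nat_lit 14409621725) (nat_lit 378) (nat_lit 5) (nat_lit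 390) (nat_lit 5) (nat_lit 379) (nat_lit 5) (nat_lit 626) (nat_lit 589) (nat_lit 345)) (XT.lf (nat_lit 0) (nat_lit 5052290021) (nat_lit 912) (nat_lit 17753965533) (nat_lit 76) (nat_lit 1059211236) (nat_lit 367) (nat_lit 5) (nat_lit 379) (nat_lit 5) (nat_lit 368) (nat_lit 5) (nat_lit 627) (nat_lit 589) (nat_lit 344))) (XT.nd (nat_lit 78) (nat_lit 760) (nat_lit 0) (XT.lf (nat_lit 0) (nat_lit 8078197908) (nat_lit 912) (nat_lit 4611145541) (nat_lit 76) (nat_lit 11441405069) (nat_lit 367) (nat_lit 5) (nat_lit 379) (nat_lit 5) (nat_lit 368) (nat_lit 5) (nat_lit 628) (nat_lit 589) (nat_lit 343)) (XT.nd (nat_lit 78) (nat_lit 0) (nat_lit 0) (XT.lf (nat_lit 0) (nat_lit 8907667428) (nat_lit 760) (nat_lit 2311291788) (nat_lit 836) (nat_lit 13181290239) (nat_lit 357) (nat_lit 5) (nat_lit 367) (nat_lit 5) (nat_lit 368) (nat_lit 5) (nat_lit 629) (nat_lit 589) (nat_lit 342)) (XT.lf (nat_lit 0) (nat_lit 14503950498) (nat_lit 836) (nat_lit 1972819709) (nat_lit 76) (nat_lit 8196742184) (nat_lit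 357) (nat_lit 5) (nat_lit 368) (nat_lit 5) (nat_lit 358) (nat_lit 5) (nat_lit 630) (nat_lit 589) (nat_lit 341))))) (XT.nd (nat_lit 156) (nat_lit 836) (nat_lit 0) (XT.nd (nat_lit 78) (nat_lit 684) (nat_lit 0) (XT.lf (nat_lit 0) (nat_lit 11955165819) (nat_lit 760) (nat_lit 5989015211) (nat_lit 836) (nat_lit 7006269037) (nat_lit 347) (nat_lit 5) (nat_lit 357) (nat_lit 5) (nat_lit 358) (nat_lit 5) (nat_lit 631) (nat_lit 589) (nat_lit 340)) (XT.lf (nat_lit 0) (nat_lit 933677606) (nat_lit 684) (nat_lit 20566150558) (nat_lit 760) (nat_lit 3732166356) (nat_lit 338) (nat_lit 5) (nat_lit 347) (nat_lit 5) (nat_lit 348) (nat_lit 5) (nat_lit 632) (nat_lit 589) (nat_lit 339))) (XT.nd (nat_lit 78) (nat_lit 836) (nat_lit 0) (XT.lf (nat_lit 0) (nat_lit 15273507276) (nat_lit 684) (nat_lit 9976382269) (nat_lit 760) (nat_lit 266814549) (nat_lit 338) (nat_lit 5) (nat_lit 347) (nat_lit 5) (nat_lit 348) (nat_lit 5) (nat_lit 633) (nat_lit 589) (nat_lit 338)) (XT.nd (nat_lit 78) (nat_lit 0) (nat_lit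 0) (XT.lf (nat_lit 0) (nat_lit 3254160809) (nat_lit 836) (nat_lit 21689662220) (nat_lit 76) (nat_lit 862277244) (nat_lit 327) (nat_lit 5) (nat_lit 338) (nat_lit 5) (nat_lit 328) (nat_lit 5) (nat_lit 634) (nat_lit 589) (nat_lit 337)) (XT.lf (nat_lit 0) (nat_lit 6974023195) (nat_lit 836) (nat_lit 7269771789) (nat_lit 76) (nat_lit 11854813558) (nat_lit 327) (nat_lit 5) (nat_lit 338) (nat_lit 5) (nat_lit 328) (nat_lit 5) (nat_lit 635) (nat_lit 589) (nat_lit 336)))))) (XT.nd (nat_lit 390) (nat_lit 1900) (nat_lit 0) (XT.nd (nat_lit 156) (nat_lit 1368) (nat_lit 0) (XT.nd (nat_lit 78) (nat_lit 0) (nat_lit 0) (XT.lf (nat_lit 0) (nat_lit 7533708610) (nat_lit 684) (nat_lit 3280326890) (nat_lit 760) (nat_lit 15582016663) (nat_lit 318) (nat_lit 5) (nat_lit 327) (nat_lit 5) (nat_lit 328) (nat_lit 5) (nat_lit 636) (nat_lit 589) (nat_lit 335)) (XT.lf (nat_lit 0) (nat_lit 14828137289) (nat_lit 760) (nat_lit 4021947108) (nat_lit 76) (nat_lit 7847414708) (nat_lit 318) (nat_lit 5) (nat_lit 328)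 (nat_lit 5) (nat_lit 319) (nat_lit 5) (nat_lit 637) (nat_lit 589) (nat_lit 334))) (XT.nd (nat_lit 78) (nat_lit 684) (nat_lit 0) (XT.lf (nat_lit 0) (nat_lit 11237334817) (nat_lit 684) (nat_lit 7776806308) (nat_lit 760) (nat_lit 7989001692) (nat_lit 309) (nat_lit 5) (nat_lit 318) (nat_lit 5) (nat_lit 319) (nat_lit 5) (nat_lit 638) (nat_lit 589) (nat_lit 333)) (XT.nd (nat_lit 78) (nat_lit 684) (nat_lit 0) (XT.lf (nat_lit 0) (nat_lit 23330843284) (nat_lit 760) (nat_lit 484670104) (nat_lit 76) (nat_lit 3498446676) (nat_lit 309) (nat_lit 5) (nat_lit 319) (nat_lit 5) (nat_lit 310) (nat_lit 5) (nat_lit 639) (nat_lit 589) (nat_lit 332)) (XT.lf (nat_lit 0) (nat_lit 250037759) (nat_lit 684) (nat_lit 12382673588) (nat_lit 76) (nat_lit 14995299139) (nat_lit 300) (nat_lit 5) (nat_lit 309) (nat_lit 5) (nat_lit 301) (nat_lit 5) (nat_lit 640) (nat_lit 589) (nat_lit 331))))) (XT.nd (nat_lit 234) (nat_lit 608) (nat_lit 0) (XT.nd (nat_lit 78) (nat_lit 608) (nat_lit 0) (XT.lf (nat_lit 0) (nat_lit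 3362378129) (nat_lit 684) (nat_lit 1174342432) (nat_lit 760) (nat_lit 23410651018) (nat_lit 291) (nat_lit 5) (nat_lit 300) (nat_lit 5) (nat_lit 301) (nat_lit 5) (nat_lit 641) (nat_lit 589) (nat_lit 330)) (XT.nd (nat_lit 78) (nat_lit 608) (nat_lit 0) (XT.lf (nat_lit 0) (nat_lit 9058115752) (nat_lit 760) (nat_lit 8753674154) (nat_lit 76) (nat_lit 10458350621) (nat_lit 291) (nat_lit 5) (nat_lit 301) (nat_lit 5) (nat_lit 292) (nat_lit 5) (nat_lit 642) (nat_lit 589) (nat_lit 329)) (XT.lf (nat_lit 0) (nat_lit 7481092153) (nat_lit 608) (nat_lit 6242328905) (nat_lit 684) (nat_lit 14874874356) (nat_lit 283) (nat_lit 5) (nat_lit 291) (nat_lit 5) (nat_lit 292) (nat_lit 5) (nat_lit 643) (nat_lit 589) (nat_lit 328)))) (XT.nd (nat_lit 78) (nat_lit 608) (nat_lit 0) (XT.lf (nat_lit 0) (nat_lit 18574414986) (nat_lit 684) (nat_lit 4812652619) (nat_lit 76) (nat_lit 5544098345) (nat_lit 283) (nat_lit 5) (nat_lit 292) (nat_lit 5) (nat_lit 284) (nat_lit 5) (nat_lit 644) (nat_lit 589) (nat_lit 327))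 (XT.nd (nat_lit 78) (nat_lit 0) (nat_lit 0) (XT.lf (nat_lit 0) (nat_lit 11929630344) (nat_lit 608) (nat_lit 11708811219) (nat_lit 684) (nat_lit 5629932273) (nat_lit 275) (nat_lit 5) (nat_lit 283) (nat_lit 5) (nat_lit 284) (nat_lit 5) (nat_lit 645) (nat_lit 589) (nat_lit 326)) (XT.lf (nat_lit 0) (nat_lit 28834821375) (nat_lit 684) (nat_lit 544721934) (nat_lit 76) (nat_lit 232161309) (nat_lit 275) (nat_lit 5) (nat_lit 284) (nat_lit 5) (nat_lit 276) (nat_lit 5) (nat_lit 646) (nat_lit 589) (nat_lit 325))))))))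
noncomputable def xc214 : XT := (XT.nd (nat_lit 77610) (nat_lit 0) (nat_lit 13908) (XT.nd (nat_lit 76830) (nat_lit 0) (nat_lit 19684) (XT.nd (nat_lit 390) (nat_lit 1672) (nat_lit 0) (XT.nd (nat_lit 156) (nat_lit 532) (nat_lit 0) (XT.nd (nat_lit 78) (nat_lit 608) (nat_lit 0) (XT.lf (nat_lit 0) (nat_lit 4303130067) (nat_lit 684) (nat_lit 13263010447) (nat_lit 76) (nat_lit 12391527063) (nat_lit 266) (nat_lit 5) (nat_lit 275) (nat_lit 5) (nat_lit 267) (nat_lit 5) (nat_lit 647) (nat_lit 589) (nat_lit 324)) (XT.lf (nat_lit 0) (nat_lit 4019832337) (nat_lit 608) (nat_lit 5481609813) (nat_lit 684) (nat_lit 20808463102) (nat_lit 258) (nat_lit 5) (nat_lit 266) (nat_lit 5) (nat_lit 267) (nat_lit 5) (nat_lit 648) (nat_lit 589) (nat_lit 323))) (XT.nd (nat_lit 78) (nat_lit 532) (nat_lit 0) (XT.lf (nat_lit 0) (nat_lit 14935089126) (nat_lit 684) (nat_lit 8887797164) (nat_lit 76) (nat_lit 6843674196) (nat_lit 258) (nat_lit 5) (nat_lit 267) (nat_lit 5) (nat_lit 259) (nat_lit 5) (nat_lit 649)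 (nat_lit 589) (nat_lit 322)) (XT.nd (nat_lit 78) (nat_lit 0) (nat_lit 0) (XT.lf (nat_lit 0) (nat_lit 8940064844) (nat_lit 532) (nat_lit 11629080977) (nat_lit 608) (nat_lit 10459368440) (nat_lit 251) (nat_lit 5) (nat_lit 258) (nat_lit 5) (nat_lit 259) (nat_lit 5) (nat_lit 650) (nat_lit 589) (nat_lit 321)) (XT.lf (nat_lit 0) (nat_lit 26378584272) (nat_lit 608) (nat_lit 4160630615) (nat_lit 76) (nat_lit 857238385) (nat_lit 251) (nat_lit 5) (nat_lit 259) (nat_lit 5) (nat_lit 252) (nat_lit 5) (nat_lit 651) (nat_lit 589) (nat_lit 320))))) (XT.nd (nat_lit 156) (nat_lit 532) (nat_lit 0) (XT.nd (nat_lit 78) (nat_lit 532) (nat_lit 0) (XT.lf (nat_lit 0) (nat_lit 693464215) (nat_lit 608) (nat_lit 17540954167) (nat_lit 76) (nat_lit 13533903962) (nat_lit 243) (nat_lit 5) (nat_lit 251) (nat_lit 5) (nat_lit 244) (nat_lit 5) (nat_lit 652) (nat_lit 589) (nat_lit 319)) (XT.lf (nat_lit 0) (nat_lit 867034293) (nat_lit 532) (nat_lit 5616073455) (nat_lit 608) (nat_lit 25663232389) (nat_lit 236)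 (nat_lit 5) (nat_lit 243) (nat_lit 5) (nat_lit 244) (nat_lit 5) (nat_lit 653) (nat_lit 589) (nat_lit 318))) (XT.nd (nat_lit 78) (nat_lit 532) (nat_lit 0) (XT.lf (nat_lit 0) (nat_lit 12551632618) (nat_lit 608) (nat_lit 12699889284) (nat_lit 76) (nat_lit 7277134773) (nat_lit 236) (nat_lit 5) (nat_lit 244) (nat_lit 5) (nat_lit 237) (nat_lit 5) (nat_lit 654) (nat_lit 589) (nat_lit 317)) (XT.nd (nat_lit 76128) (nat_lit 0) (nat_lit 19684) (XT.lf (nat_lit 0) (nat_lit 6293126698) (nat_lit 532) (nat_lit 12524000016) (nat_lit 608) (nat_lit 14099981010) (nat_lit 229) (nat_lit 5) (nat_lit 236) (nat_lit 5) (nat_lit 237) (nat_lit 5) (nat_lit 655) (nat_lit 589) (nat_lit 316)) (XT.lf (nat_lit 0) (nat_lit 2526365060) (nat_lit 0) (nat_lit 2526365060) (nat_lit 1748) (nat_lit 3155142452) (nat_lit 488) (nat_lit 5) (nat_lit 488) (nat_lit 3) (nat_lit 511) (nat_lit 3) (nat_lit 590) (nat_lit 590) (nat_lit 380)))))) (XT.nd (nat_lit 390) (nat_lit 0) (nat_lit 152) (XT.nd (nat_lit 156) (nat_lit 0) (nat_lit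 76) (XT.nd (nat_lit 78) (nat_lit 0) (nat_lit 0) (XT.lf (nat_lit 0) (nat_lit 10472353999) (nat_lit 1748) (nat_lit 3270546297) (nat_lit 1824) (nat_lit 2831662379) (nat_lit 488) (nat_lit 5) (nat_lit 511) (nat_lit 3) (nat_lit 512) (nat_lit 5) (nat_lit 591) (nat_lit 590) (nat_lit 379)) (XT.lf (nat_lit 76) (nat_lit 5012658387) (nat_lit 0) (nat_lit 5893471185) (nat_lit 1824) (nat_lit 5829236711) (nat_lit 489) (nat_lit 5) (nat_lit 488) (nat_lit 5) (nat_lit 512) (nat_lit 5) (nat_lit 592) (nat_lit 590) (nat_lit 378))) (XT.nd (nat_lit 78) (nat_lit 0) (nat_lit 0) (XT.lf (nat_lit 0) (nat_lit 11378052627) (nat_lit 1748) (nat_lit 3410469117) (nat_lit 1824) (nat_lit 2110275375) (nat_lit 489) (nat_lit 5) (nat_lit 512) (nat_lit 5) (nat_lit 513) (nat_lit 5) (nat_lit 593) (nat_lit 590) (nat_lit 377)) (XT.nd (nat_lit 78) (nat_lit 0) (nat_lit 76) (XT.lf (nat_lit 76) (nat_lit 5092322155) (nat_lit 0) (nat_lit 6832969516) (nat_lit 1824) (nat_lit 5138887933) (nat_lit 490) (nat_lit 5) (nat_lit 489)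 (nat_lit 5) (nat_lit 513) (nat_lit 5) (nat_lit 594) (nat_lit 590) (nat_lit 376)) (XT.lf (nat_lit 0) (nat_lit 12508736960) (nat_lit 1748) (nat_lit 3433053160) (nat_lit 1824) (nat_lit 1290574962) (nat_lit 490) (nat_lit 5) (nat_lit 513) (nat_lit 5) (nat_lit 514) (nat_lit 5) (nat_lit 595) (nat_lit 590) (nat_lit 375))))) (XT.nd (nat_lit 156) (nat_lit 0) (nat_lit 76) (XT.nd (nat_lit 78) (nat_lit 0) (nat_lit 76) (XT.lf (nat_lit 76) (nat_lit 5297253099) (nat_lit 0) (nat_lit 7880264603) (nat_lit 1824) (nat_lit 4224923796) (nat_lit 491) (nat_lit 5) (nat_lit 490) (nat_lit 5) (nat_lit 514) (nat_lit 5) (nat_lit 596) (nat_lit 590) (nat_lit 374)) (XT.lf (nat_lit 0) (nat_lit 13879220023) (nat_lit 1748) (nat_lit 3332741464) (nat_lit 1824) (nat_lit 363567586) (nat_lit 491) (nat_lit 5) (nat_lit 514) (nat_lit 5) (nat_lit 515) (nat_lit 5) (nat_lit 597) (nat_lit 590) (nat_lit 373))) (XT.nd (nat_lit 78) (nat_lit 0) (nat_lit 0) (XT.lf (nat_lit 76) (nat_lit 5633311923) (nat_lit 0) (nat_lit 9044654026)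 (nat_lit 1824) (nat_lit 3072452800) (nat_lit 492) (nat_lit 5) (nat_lit 491) (nat_lit 5) (nat_lit 515) (nat_lit 5) (nat_lit 598) (nat_lit 590) (nat_lit 372)) (XT.nd (nat_lit 78) (nat_lit 0) (nat_lit 76) (XT.lf (nat_lit 76) (nat_lit 14820348635) (nat_lit 0) (nat_lit 689039771) (nat_lit 1824) (nat_lit 2419084307) (nat_lit 492) (nat_lit 5) (nat_lit 491) (nat_lit 5) (nat_lit 515) (nat_lit 5) (nat_lit 599) (nat_lit 590) (nat_lit 371)) (XT.lf (nat_lit 76) (nat_lit 6106696999) (nat_lit 0) (nat_lit 10335714409) (nat_lit 1824) (nat_lit 1665977425) (nat_lit 493) (nat_lit 5) (nat_lit 492) (nat_lit 5) (nat_lit 516) (nat_lit 5) (nat_lit 600) (nat_lit 590) (nat_lit 370))))))) (XT.nd (nat_lit 780) (nat_lit 4332) (nat_lit 0) (XT.nd (nat_lit 390) (nat_lit 0) (nat_lit 152) (XT.nd (nat_lit 156) (nat_lit 0) (nat_lit 0) (XT.nd (nat_lit 78) (nat_lit 1748) (nat_lit 0) (XT.lf (nat_lit 76) (nat_lit 15539775344) (nat_lit 0) (nat_lit 1874257272) (nat_lit 1824) (nat_lit 877472412) (nat_lit 493) (nat_lit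 5) (nat_lit 492) (nat_lit 5) (nat_lit 516) (nat_lit 5) (nat_lit 601) (nat_lit 590) (nat_lit 369)) (XT.lf (nat_lit 0) (nat_lit 10496579) (nat_lit 1824) (nat_lit 11752755723) (nat_lit 1900) (nat_lit 6713386561) (nat_lit 469) (nat_lit 5) (nat_lit 493) (nat_lit 5) (nat_lit 494) (nat_lit 5) (nat_lit 602) (nat_lit 590) (nat_lit 368))) (XT.nd (nat_lit 78) (nat_lit 0) (nat_lit 76) (XT.lf (nat_lit 0) (nat_lit 930199322) (nat_lit 1824) (nat_lit 2260786939) (nat_lit 1900) (nat_lit 15473859115) (nat_lit 469) (nat_lit 5) (nat_lit 493) (nat_lit 5) (nat_lit 494) (nat_lit 5) (nat_lit 603) (nat_lit 590) (nat_lit 367)) (XT.nd (nat_lit 78) (nat_lit 0) (nat_lit 0) (XT.lf (nat_lit 0) (nat_lit 1948297007) (nat_lit 1824) (nat_lit 11376306989) (nat_lit 1900) (nat_lit 5530612475) (nat_lit 470) (nat_lit 5) (nat_lit 494) (nat_lit 5) (nat_lit 495) (nat_lit 5) (nat_lit 604) (nat_lit 590) (nat_lit 366)) (XT.lf (nat_lit 0) (nat_lit 3018065526) (nat_lit 1824) (nat_lit 1629940570) (nat_lit 1900) (nat_lit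 14400763175) (nat_lit 470) (nat_lit 5) (nat_lit 494) (nat_lit 5) (nat_lit 495) (nat_lit 5) (nat_lit 605) (nat_lit 590) (nat_lit 365))))) (XT.nd (nat_lit 156) (nat_lit 0) (nat_lit 76) (XT.nd (nat_lit 78) (nat_lit 0) (nat_lit 0) (XT.lf (nat_lit 0) (nat_lit 4186544696) (nat_lit 1824) (nat_lit 10854685211) (nat_lit 1900) (nat_lit 4203417365) (nat_lit 471) (nat_lit 5) (nat_lit 495) (nat_lit 5) (nat_lit 496) (nat_lit 5) (nat_lit 606) (nat_lit 590) (nat_lit 364)) (XT.lf (nat_lit 0) (nat_lit 5415273604) (nat_lit 1824) (nat_lit 846394789) (nat_lit 1900) (nat_lit 13182037278) (nat_lit 471) (nat_lit 5) (nat_lit 495) (nat_lit 5) (nat_lit 496) (nat_lit 5) (nat_lit 607) (nat_lit 590) (nat_lit 363))) (XT.nd (nat_lit 78) (nat_lit 0) (nat_lit 0) (XT.lf (nat_lit 0) (nat_lit 6743234177) (nat_lit 1824) (nat_lit 10180685428) (nat_lit 1900) (nat_lit 2721332926) (nat_lit 472) (nat_lit 5) (nat_lit 496) (nat_lit 5) (nat_lit 497) (nat_lit 5) (nat_lit 608) (nat_lit 590) (nat_lit 362)) (XT.nd (nat_lit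 78) (nat_lit 0) (nat_lit 76) (XT.lf (nat_lit 76) (nat_lit 98611351) (nat_lit 0) (nat_lit 8042231756) (nat_lit 1900) (nat_lit 11709125864) (nat_lit 473) (nat_lit 5) (nat_lit 472) (nat_lit 5) (nat_lit 497) (nat_lit 5) (nat_lit 609) (nat_lit 590) (nat_lit 361)) (XT.lf (nat_lit 0) (nat_lit 9637117245) (nat_lit 1824) (nat_lit 9346730557) (nat_lit 1900) (nat_lit 1073518092) (nat_lit 473) (nat_lit 5) (nat_lit 497) (nat_lit 5) (nat_lit 498) (nat_lit 5) (nat_lit 610) (nat_lit 590) (nat_lit 360)))))) (XT.nd (nat_lit 390) (nat_lit 2964) (nat_lit 0) (XT.nd (nat_lit 156) (nat_lit 1672) (nat_lit 0) (XT.nd (nat_lit 78) (nat_lit 0) (nat_lit 0) (XT.lf (nat_lit 76) (nat_lit 1225113433) (nat_lit 0) (nat_lit 9994848097) (nat_lit 1900) (nat_lit 9047816741) (nat_lit 474) (nat_lit 5) (nat_lit 473) (nat_lit 5) (nat_lit 498) (nat_lit 5) (nat_lit 611) (nat_lit 590) (nat_lit 359)) (XT.lf (nat_lit 76) (nat_lit 12131432544) (nat_lit 0) (nat_lit 761248080) (nat_lit 1900) (nat_lit 7588554315) (nat_lit 474)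 (nat_lit 5) (nat_lit 473) (nat_lit 5) (nat_lit 498) (nat_lit 5) (nat_lit 612) (nat_lit 590) (nat_lit 358))) (XT.nd (nat_lit 78) (nat_lit 1748) (nat_lit 0) (XT.lf (nat_lit 76) (nat_lit 2530212876) (nat_lit 0) (nat_lit 12136866305) (nat_lit 1900) (nat_lit 6030517447) (nat_lit 475) (nat_lit 5) (nat_lit 474) (nat_lit 5) (nat_lit 499) (nat_lit 5) (nat_lit 613) (nat_lit 590) (nat_lit 357)) (XT.nd (nat_lit 78) (nat_lit 1748) (nat_lit 0) (XT.lf (nat_lit 76) (nat_lit 13732246592) (nat_lit 0) (nat_lit 2801411743) (nat_lit 1900) (nat_lit 4383493751) (nat_lit 475) (nat_lit 5) (nat_lit 474) (nat_lit 5) (nat_lit 499) (nat_lit 5) (nat_lit 614) (nat_lit 590) (nat_lit 356)) (XT.lf (nat_lit 0) (nat_lit 4022669226) (nat_lit 1824) (nat_lit 14480395736) (nat_lit 1900) (nat_lit 2636724151) (nat_lit 451) (nat_lit 5) (nat_lit 475) (nat_lit 5) (nat_lit 476) (nat_lit 5) (nat_lit 615) (nat_lit 590) (nat_lit 355))))) (XT.nd (nat_lit 234) (nat_lit 1824) (nat_lit 0) (XT.nd (nat_lit 78) (nat_lit 1140) (nat_lit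 0) (XT.lf (nat_lit 0) (nat_lit 15529338409) (nat_lit 1824) (nat_lit 5044968397) (nat_lit 1900) (nat_lit 791323502) (nat_lit 451) (nat_lit 5) (nat_lit 475) (nat_lit 5) (nat_lit 476) (nat_lit 5) (nat_lit 616) (nat_lit 590) (nat_lit 354)) (XT.nd (nat_lit 78) (nat_lit 0) (nat_lit 0) (XT.lf (nat_lit 0) (nat_lit 1139794533) (nat_lit 1140) (nat_lit 15890568031) (nat_lit 76) (nat_lit 4564222093) (nat_lit 436) (nat_lit 5) (nat_lit 451) (nat_lit 5) (nat_lit 437) (nat_lit 5) (nat_lit 617) (nat_lit 590) (nat_lit 353)) (XT.lf (nat_lit 0) (nat_lit 3167701169) (nat_lit 1140) (nat_lit 4315697720) (nat_lit 76) (nat_lit 14343239699) (nat_lit 436) (nat_lit 5) (nat_lit 451) (nat_lit 5) (nat_lit 437) (nat_lit 5) (nat_lit 618) (nat_lit 590) (nat_lit 352)))) (XT.nd (nat_lit 78) (nat_lit 912) (nat_lit 0) (XT.lf (nat_lit 0) (nat_lit 5296387069) (nat_lit 988) (nat_lit 14490850271) (nat_lit 76) (nat_lit 2274892177) (nat_lit 424) (nat_lit 5) (nat_lit 437) (nat_lit 5) (nat_lit 425) (nat_lit 5) (nat_lit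 619) (nat_lit 590) (nat_lit 351)) (XT.nd (nat_lit 78) (nat_lit 912) (nat_lit 0) (XT.lf (nat_lit 0) (nat_lit 7542413221) (nat_lit 988) (nat_lit 2600687220) (nat_lit 76) (nat_lit 12157734827) (nat_lit 424) (nat_lit 5) (nat_lit 437) (nat_lit 5) (nat_lit 425) (nat_lit 5) (nat_lit 620) (nat_lit 590) (nat_lit 350)) (XT.lf (nat_lit 0) (nat_lit 9650234222) (nat_lit 912) (nat_lit 241913950) (nat_lit 988) (nat_lit 12650991525) (nat_lit 412) (nat_lit 5) (nat_lit 424) (nat_lit 5) (nat_lit 425) (nat_lit 5) (nat_lit 621) (nat_lit 590) (nat_lit 349))))))))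
noncomputable def xc215 : XT := (XT.nd (nat_lit 1560) (nat_lit 4864) (nat_lit 0) (XT.nd (nat_lit 780) (nat_lit 4332) (nat_lit 0) (XT.nd (nat_lit 390) (nat_lit 1672) (nat_lit 0) (XT.nd (nat_lit 156) (nat_lit 1672) (nat_lit 0) (XT.nd (nat_lit 78) (nat_lit 836) (nat_lit 0) (XT.lf (nat_lit 0) (nat_lit 12366632080) (nat_lit 988) (nat_lit 676293552) (nat_lit 76) (nat_lit 9745809821) (nat_lit 412) (nat_lit 5) (nat_lit 425) (nat_lit 5) (nat_lit 413) (nat_lit 5) (nat_lit 622) (nat_lit 590) (nat_lit 348)) (XT.lf (nat_lit 0) (nat_lit 11935999359) (nat_lit 836) (nat_lit 3029966177) (nat_lit 912) (nat_lit 8071770705) (nat_lit 401) (nat_lit 5) (nat_lit 412) (nat_lit 5) (nat_lit 413) (nat_lit 5) (nat_lit 623) (nat_lit 590) (nat_lit 347))) (XT.nd (nat_lit 78) (nat_lit 836) (nat_lit 0) (XT.lf (nat_lit 0) (nat_lit 1487273371) (nat_lit 836) (nat_lit 16187187723) (nat_lit 912) (nat_lit 5616112753) (nat_lit 390) (nat_lit 5) (nat_lit 401) (nat_lit 5) (nat_lit 402) (nat_lit 5) (nat_lit 624) (nat_lit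 590) (nat_lit 346)) (XT.nd (nat_lit 78) (nat_lit 836) (nat_lit 0) (XT.lf (nat_lit 0) (nat_lit 14454598920) (nat_lit 836) (nat_lit 6073321225) (nat_lit 912) (nat_lit 3018732492) (nat_lit 390) (nat_lit 5) (nat_lit 401) (nat_lit 5) (nat_lit 402) (nat_lit 5) (nat_lit 625) (nat_lit 590) (nat_lit 345)) (XT.lf (nat_lit 0) (nat_lit 3893312230) (nat_lit 836) (nat_lit 19594393903) (nat_lit 912) (nat_lit 319162012) (nat_lit 379) (nat_lit 5) (nat_lit 390) (nat_lit 5) (nat_lit 391) (nat_lit 5) (nat_lit 626) (nat_lit 590) (nat_lit 344))))) (XT.nd (nat_lit 156) (nat_lit 760) (nat_lit 0) (XT.nd (nat_lit 78) (nat_lit 836) (nat_lit 0) (XT.lf (nat_lit 0) (nat_lit 2500565046) (nat_lit 912) (nat_lit 6869511092) (nat_lit 76) (nat_lit 14699934140) (nat_lit 378) (nat_lit 5) (nat_lit 390) (nat_lit 5) (nat_lit 379) (nat_lit 5) (nat_lit 627) (nat_lit 590) (nat_lit 343)) (XT.lf (nat_lit 0) (nat_lit 5418410445) (nat_lit 912) (nat_lit 17829587680) (nat_lit 76) (nat_lit 1089455270) (nat_lit 367) (nat_lit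 5) (nat_lit 379) (nat_lit 5) (nat_lit 368) (nat_lit 5) (nat_lit 628) (nat_lit 590) (nat_lit 342))) (XT.nd (nat_lit 78) (nat_lit 760) (nat_lit 0) (XT.lf (nat_lit 0) (nat_lit 8499638947) (nat_lit 912) (nat_lit 4429390839) (nat_lit 76) (nat_lit 11679115337) (nat_lit 367) (nat_lit 5) (nat_lit 379) (nat_lit 5) (nat_lit 368) (nat_lit 5) (nat_lit 629) (nat_lit 590) (nat_lit 341)) (XT.nd (nat_lit 78) (nat_lit 0) (nat_lit 0) (XT.lf (nat_lit 0) (nat_lit 9357995904) (nat_lit 760) (nat_lit 2341891090) (nat_lit 836) (nat_lit 13183216063) (nat_lit 357) (nat_lit 5) (nat_lit 367) (nat_lit 5) (nat_lit 368) (nat_lit 5) (nat_lit 630) (nat_lit 590) (nat_lit 340)) (XT.lf (nat_lit 0) (nat_lit 15045647205) (nat_lit 836) (nat_lit 1740486832) (nat_lit 76) (nat_lit 8375796232) (nat_lit 357) (nat_lit 5) (nat_lit 368) (nat_lit 5) (nat_lit 358) (nat_lit 5) (nat_lit 631) (nat_lit 590) (nat_lit 339)))))) (XT.nd (nat_lit 390) (nat_lit 2052) (nat_lit 0) (XT.nd (nat_lit 156) (nat_lit 836) (nat_lit 0) (XT.nd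 (nat_lit 78) (nat_lit 684) (nat_lit 0) (XT.lf (nat_lit 0) (nat_lit 12464270319) (nat_lit 760) (nat_lit 6087231375) (nat_lit 836) (nat_lit 6892969010) (nat_lit 347) (nat_lit 5) (nat_lit 357) (nat_lit 5) (nat_lit 358) (nat_lit 5) (nat_lit 632) (nat_lit 590) (nat_lit 338)) (XT.lf (nat_lit 0) (nat_lit 1225392476) (nat_lit 684) (nat_lit 20949908010) (nat_lit 760) (nat_lit 3556405172) (nat_lit 338) (nat_lit 5) (nat_lit 347) (nat_lit 5) (nat_lit 348) (nat_lit 5) (nat_lit 633) (nat_lit 590) (nat_lit 337))) (XT.nd (nat_lit 78) (nat_lit 836) (nat_lit 0) (XT.lf (nat_lit 0) (nat_lit 15846664988) (nat_lit 684) (nat_lit 10148884857) (nat_lit 760) (nat_lit 26656222) (nat_lit 338) (nat_lit 5) (nat_lit 347) (nat_lit 5) (nat_lit 348) (nat_lit 5) (nat_lit 634) (nat_lit 590) (nat_lit 336)) (XT.nd (nat_lit 78) (nat_lit 0) (nat_lit 0) (XT.lf (nat_lit 0) (nat_lit 3558709851) (nat_lit 836) (nat_lit 21849702488) (nat_lit 76) (nat_lit 909002495) (nat_lit 327) (nat_lit 5) (nat_lit 338) (nat_lit 5) (nat_lit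 328) (nat_lit 5) (nat_lit 635) (nat_lit 590) (nat_lit 335)) (XT.lf (nat_lit 0) (nat_lit 7348274077) (nat_lit 836) (nat_lit 7146781954) (nat_lit 76) (nat_lit 12120811501) (nat_lit 327) (nat_lit 5) (nat_lit 338) (nat_lit 5) (nat_lit 328) (nat_lit 5) (nat_lit 636) (nat_lit 590) (nat_lit 334))))) (XT.nd (nat_lit 156) (nat_lit 1368) (nat_lit 0) (XT.nd (nat_lit 78) (nat_lit 0) (nat_lit 0) (XT.lf (nat_lit 0) (nat_lit 7951002361) (nat_lit 684) (nat_lit 3311211997) (nat_lit 760) (nat_lit 15657103461) (nat_lit 318) (nat_lit 5) (nat_lit 327) (nat_lit 5) (nat_lit 328) (nat_lit 5) (nat_lit 637) (nat_lit 590) (nat_lit 333)) (XT.lf (nat_lit 0) (nat_lit 15352272174) (nat_lit 760) (nat_lit 3836651217) (nat_lit 76) (nat_lit 8037957172) (nat_lit 318) (nat_lit 5) (nat_lit 328) (nat_lit 5) (nat_lit 319) (nat_lit 5) (nat_lit 638) (nat_lit 590) (nat_lit 332))) (XT.nd (nat_lit 78) (nat_lit 684) (nat_lit 0) (XT.lf (nat_lit 0) (nat_lit 11726068092) (nat_lit 684) (nat_lit 7893179772) (nat_lit 760) (nat_lit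 7919444584) (nat_lit 309) (nat_lit 5) (nat_lit 318) (nat_lit 5) (nat_lit 319) (nat_lit 5) (nat_lit 639) (nat_lit 590) (nat_lit 331)) (XT.nd (nat_lit 78) (nat_lit 684) (nat_lit 0) (XT.lf (nat_lit 0) (nat_lit 24018125039) (nat_lit 760) (nat_lit 231377688) (nat_lit 76) (nat_lit 3606306821) (nat_lit 309) (nat_lit 5) (nat_lit 319) (nat_lit 5) (nat_lit 310) (nat_lit 5) (nat_lit 640) (nat_lit 590) (nat_lit 330)) (XT.lf (nat_lit 0) (nat_lit 474532707) (nat_lit 684) (nat_lit 12366138668) (nat_lit 76) (nat_lit 15335493655) (nat_lit 300) (nat_lit 5) (nat_lit 309) (nat_lit 5) (nat_lit 301) (nat_lit 5) (nat_lit 641) (nat_lit 590) (nat_lit 329))))))) (XT.nd (nat_lit 780) (nat_lit 1140) (nat_lit 0) (XT.nd (nat_lit 390) (nat_lit 1824) (nat_lit 0) (XT.nd (nat_lit 156) (nat_lit 1216) (nat_lit 0) (XT.nd (nat_lit 78) (nat_lit 0) (nat_lit 0) (XT.lf (nat_lit 0) (nat_lit 3692076001) (nat_lit 684) (nat_lit 1152273358) (nat_lit 760) (nat_lit 23657616292) (nat_lit 291) (nat_lit 5) (nat_lit 300) (nat_lit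 5) (nat_lit 301) (nat_lit 5) (nat_lit 642) (nat_lit 590) (nat_lit 328)) (XT.lf (nat_lit 0) (nat_lit 9452209603) (nat_lit 760) (nat_lit 8667465392) (nat_lit 76) (nat_lit 10711594543) (nat_lit 291) (nat_lit 5) (nat_lit 301) (nat_lit 5) (nat_lit 292) (nat_lit 5) (nat_lit 643) (nat_lit 590) (nat_lit 327))) (XT.nd (nat_lit 78) (nat_lit 608) (nat_lit 0) (XT.lf (nat_lit 0) (nat_lit 7890277279) (nat_lit 608) (nat_lit 6318053865) (nat_lit 684) (nat_lit 14957706475) (nat_lit 283) (nat_lit 5) (nat_lit 291) (nat_lit 5) (nat_lit 292) (nat_lit 5) (nat_lit 644) (nat_lit 590) (nat_lit 326)) (XT.nd (nat_lit 78) (nat_lit 608) (nat_lit 0) (XT.lf (nat_lit 0) (nat_lit 19152531319) (nat_lit 684) (nat_lit 4650603654) (nat_lit 76) (nat_lit 5702507155) (nat_lit 283) (nat_lit 5) (nat_lit 292) (nat_lit 5) (nat_lit 284) (nat_lit 5) (nat_lit 645) (nat_lit 590) (nat_lit 325)) (XT.lf (nat_lit 0) (nat_lit 12424825613) (nat_lit 608) (nat_lit 11890627320) (nat_lit 684) (nat_lit 5534189236) (nat_lit 275) (nat_lit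 5) (nat_lit 283) (nat_lit 5) (nat_lit 284) (nat_lit 5) (nat_lit 646) (nat_lit 590) (nat_lit 324))))) (XT.nd (nat_lit 156) (nat_lit 1140) (nat_lit 0) (XT.nd (nat_lit 78) (nat_lit 684) (nat_lit 0) (XT.lf (nat_lit 0) (nat_lit 29612088877) (nat_lit 684) (nat_lit 300359658) (nat_lit 76) (nat_lit 287464742) (nat_lit 275) (nat_lit 5) (nat_lit 284) (nat_lit 5) (nat_lit 276) (nat_lit 5) (nat_lit 647) (nat_lit 590) (nat_lit 323)) (XT.lf (nat_lit 0) (nat_lit 4588804071) (nat_lit 684) (nat_lit 13272027062) (nat_lit 76) (nat_lit 12691984099) (nat_lit 266) (nat_lit 5) (nat_lit 275) (nat_lit 5) (nat_lit 267) (nat_lit 5) (nat_lit 648) (nat_lit 590) (nat_lit 322))) (XT.nd (nat_lit 78) (nat_lit 532) (nat_lit 0) (XT.lf (nat_lit 0) (nat_lit 4354786765) (nat_lit 608) (nat_lit 5534034439) (nat_lit 684) (nat_lit 21023321944) (nat_lit 258) (nat_lit 5) (nat_lit 266) (nat_lit 5) (nat_lit 267) (nat_lit 5) (nat_lit 649) (nat_lit 590) (nat_lit 321)) (XT.nd (nat_lit 78) (nat_lit 532) (nat_lit 0) (XT.lf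 (nat_lit 0) (nat_lit 15427635654) (nat_lit 684) (nat_lit 8812468244) (nat_lit 76) (nat_lit 7035897956) (nat_lit 258) (nat_lit 5) (nat_lit 267) (nat_lit 5) (nat_lit 259) (nat_lit 5) (nat_lit 650) (nat_lit 590) (nat_lit 320)) (XT.lf (nat_lit 0) (nat_lit 9370285973) (nat_lit 532) (nat_lit 11801919018) (nat_lit 608) (nat_lit 10473033339) (nat_lit 251) (nat_lit 5) (nat_lit 258) (nat_lit 5) (nat_lit 259) (nat_lit 5) (nat_lit 651) (nat_lit 590) (nat_lit 319)))))) (XT.nd (nat_lit 76596) (nat_lit 0) (nat_lit 19152) (XT.nd (nat_lit 156) (nat_lit 532) (nat_lit 0) (XT.nd (nat_lit 78) (nat_lit 608) (nat_lit 0) (XT.lf (nat_lit 0) (nat_lit 27094454141) (nat_lit 608) (nat_lit 3993962684) (nat_lit 76) (nat_lit 932187105) (nat_lit 251) (nat_lit 5) (nat_lit 259) (nat_lit 5) (nat_lit 252) (nat_lit 5) (nat_lit 652) (nat_lit 590) (nat_lit 318)) (XT.lf (nat_lit 0) (nat_lit 894796548) (nat_lit 608) (nat_lit 17641033413) (nat_lit 76) (nat_lit 13864097608) (nat_lit 243) (nat_lit 5) (nat_lit 251) (nat_lit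 5) (nat_lit 244) (nat_lit 5) (nat_lit 653) (nat_lit 590) (nat_lit 317))) (XT.nd (nat_lit 76284) (nat_lit 0) (nat_lit 19152) (XT.lf (nat_lit 0) (nat_lit 1133465212) (nat_lit 532) (nat_lit 5664709252) (nat_lit 608) (nat_lit 25987372658) (nat_lit 236) (nat_lit 5) (nat_lit 243) (nat_lit 5) (nat_lit 244) (nat_lit 5) (nat_lit 654) (nat_lit 590) (nat_lit 316)) (XT.nd (nat_lit 78) (nat_lit 0) (nat_lit 0) (XT.lf (nat_lit 0) (nat_lit 2699694735) (nat_lit 0) (nat_lit 2699694735) (nat_lit 1748) (nat_lit 2967705470) (nat_lit 488) (nat_lit 5) (nat_lit 488) (nat_lit 3) (nat_lit 511) (nat_lit 3) (nat_lit 591) (nat_lit 591) (nat_lit 378)) (XT.lf (nat_lit 0) (nat_lit 11161815653) (nat_lit 1748) (nat_lit 3083928258) (nat_lit 1824) (nat_lit 2650664650) (nat_lit 488) (nat_lit 5) (nat_lit 511) (nat_lit 3) (nat_lit 512) (nat_lit 5) (nat_lit 592) (nat_lit 591) (nat_lit 377))))) (XT.nd (nat_lit 234) (nat_lit 0) (nat_lit 152) (XT.nd (nat_lit 78) (nat_lit 0) (nat_lit 76) (XT.lf (nat_lit 76) (nat_lit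 5363282435) (nat_lit 0) (nat_lit 6233197826) (nat_lit 1824) (nat_lit 5464104594) (nat_lit 489) (nat_lit 5) (nat_lit 488) (nat_lit 5) (nat_lit 512) (nat_lit 5) (nat_lit 593) (nat_lit 591) (nat_lit 376)) (XT.nd (nat_lit 78) (nat_lit 0) (nat_lit 0) (XT.lf (nat_lit 0) (nat_lit 12067170203) (nat_lit 1748) (nat_lit 3222501951) (nat_lit 1824) (nat_lit 1937826450) (nat_lit 489) (nat_lit 5) (nat_lit 512) (nat_lit 5) (nat_lit 513) (nat_lit 5) (nat_lit 594) (nat_lit 591) (nat_lit 375)) (XT.lf (nat_lit 76) (nat_lit 5448659774) (nat_lit 0) (nat_lit 7169296451) (nat_lit 1824) (nat_lit 4778381320) (nat_lit 490) (nat_lit 5) (nat_lit 489) (nat_lit 5) (nat_lit 513) (nat_lit 5) (nat_lit 595) (nat_lit 591) (nat_lit 374)))) (XT.nd (nat_lit 78) (nat_lit 0) (nat_lit 0) (XT.lf (nat_lit 0) (nat_lit 13202894391) (nat_lit 1748) (nat_lit 3241995398) (nat_lit 1824) (nat_lit 1123201296) (nat_lit 490) (nat_lit 5) (nat_lit 513) (nat_lit 5) (nat_lit 514) (nat_lit 5) (nat_lit 596) (nat_lit 591) (nat_lit 373))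 (XT.nd (nat_lit 78) (nat_lit 0) (nat_lit 76) (XT.lf (nat_lit 76) (nat_lit 5661208309) (nat_lit 0) (nat_lit 8216812070) (nat_lit 1824) (nat_lit 3863690076) (nat_lit 491) (nat_lit 5) (nat_lit 490) (nat_lit 5) (nat_lit 514) (nat_lit 5) (nat_lit 597) (nat_lit 591) (nat_lit 372)) (XT.lf (nat_lit 0) (nat_lit 14584050023) (nat_lit 1748) (nat_lit 3136698418) (nat_lit 1824) (nat_lit 197706275) (nat_lit 491) (nat_lit 5) (nat_lit 514) (nat_lit 5) (nat_lit 515) (nat_lit 5) (nat_lit 598) (nat_lit 591) (nat_lit 371))))))))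
noncomputable def xc216 : XT := (XT.nd (nat_lit 1560) (nat_lit 8968) (nat_lit 0) (XT.nd (nat_lit 780) (nat_lit 2508) (nat_lit 0) (XT.nd (nat_lit 390) (nat_lit 0) (nat_lit 0) (XT.nd (nat_lit 156) (nat_lit 1672) (nat_lit 0) (XT.nd (nat_lit 78) (nat_lit 0) (nat_lit 0) (XT.lf (nat_lit 76) (nat_lit 6006947761) (nat_lit 0) (nat_lit 9385140128) (nat_lit 1824) (nat_lit 2704888739) (nat_lit 492) (nat_lit 5) (nat_lit 491) (nat_lit 5) (nat_lit 515) (nat_lit 5) (nat_lit 599) (nat_lit 591) (nat_lit 370)) (XT.lf (nat_lit 76) (nat_lit 15372608157) (nat_lit 0) (nat_lit 859284313) (nat_lit 1824) (nat_lit 2046864899) (nat_lit 492) (nat_lit 5) (nat_lit 491) (nat_lit 5) (nat_lit 515) (nat_lit 5) (nat_lit 600) (nat_lit 591) (nat_lit 369))) (XT.nd (nat_lit 78) (nat_lit 1748) (nat_lit 0) (XT.lf (nat_lit 76) (nat_lit 6492239724) (nat_lit 0) (nat_lit 10683965853) (nat_lit 1824) (nat_lit 1286214396) (nat_lit 493) (nat_lit 5) (nat_lit 492) (nat_lit 5) (nat_lit 516) (nat_lit 5) (nat_lit 601) (nat_lit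 591) (nat_lit 368)) (XT.nd (nat_lit 78) (nat_lit 1748) (nat_lit 0) (XT.lf (nat_lit 76) (nat_lit 16108814758) (nat_lit 0) (nat_lit 2050504334) (nat_lit 1824) (nat_lit 490038942) (nat_lit 493) (nat_lit 5) (nat_lit 492) (nat_lit 5) (nat_lit 516) (nat_lit 5) (nat_lit 602) (nat_lit 591) (nat_lit 367)) (XT.lf (nat_lit 0) (nat_lit 403386524) (nat_lit 1824) (nat_lit 11717192229) (nat_lit 1900) (nat_lit 6717703744) (nat_lit 469) (nat_lit 5) (nat_lit 493) (nat_lit 5) (nat_lit 494) (nat_lit 5) (nat_lit 603) (nat_lit 591) (nat_lit 366))))) (XT.nd (nat_lit 156) (nat_lit 0) (nat_lit 76) (XT.nd (nat_lit 78) (nat_lit 0) (nat_lit 76) (XT.lf (nat_lit 0) (nat_lit 1333783713) (nat_lit 1824) (nat_lit 2040690317) (nat_lit 1900) (nat_lit 15655933800) (nat_lit 469) (nat_lit 5) (nat_lit 493) (nat_lit 5) (nat_lit 494) (nat_lit 5) (nat_lit 604) (nat_lit 591) (nat_lit 365)) (XT.lf (nat_lit 0) (nat_lit 2365655571) (nat_lit 1824) (nat_lit 11331898823) (nat_lit 1900) (nat_lit 5527164391) (nat_lit 470) (nat_lit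 5) (nat_lit 494) (nat_lit 5) (nat_lit 495) (nat_lit 5) (nat_lit 605) (nat_lit 591) (nat_lit 364))) (XT.nd (nat_lit 78) (nat_lit 0) (nat_lit 76) (XT.lf (nat_lit 0) (nat_lit 3449399997) (nat_lit 1824) (nat_lit 1395937122) (nat_lit 1900) (nat_lit 14576954582) (nat_lit 470) (nat_lit 5) (nat_lit 494) (nat_lit 5) (nat_lit 495) (nat_lit 5) (nat_lit 606) (nat_lit 591) (nat_lit 363)) (XT.nd (nat_lit 78) (nat_lit 0) (nat_lit 0) (XT.lf (nat_lit 0) (nat_lit 4635041368) (nat_lit 1824) (nat_lit 10798936437) (nat_lit 1900) (nat_lit 4188234262) (nat_lit 471) (nat_lit 5) (nat_lit 495) (nat_lit 5) (nat_lit 496) (nat_lit 5) (nat_lit 607) (nat_lit 591) (nat_lit 362)) (XT.lf (nat_lit 0) (nat_lit 5881192584) (nat_lit 1824) (nat_lit 595830059) (nat_lit 1900) (nat_lit 13348372680) (nat_lit 471) (nat_lit 5) (nat_lit 495) (nat_lit 5) (nat_lit 496) (nat_lit 5) (nat_lit 608) (nat_lit 591) (nat_lit 361)))))) (XT.nd (nat_lit 390) (nat_lit 2736) (nat_lit 0) (XT.nd (nat_lit 156) (nat_lit 0) (nat_lit 76)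 (XT.nd (nat_lit 78) (nat_lit 0) (nat_lit 0) (XT.lf (nat_lit 0) (nat_lit 7229863427) (nat_lit 1824) (nat_lit 10110926008) (nat_lit 1900) (nat_lit 2690301295) (nat_lit 472) (nat_lit 5) (nat_lit 496) (nat_lit 5) (nat_lit 497) (nat_lit 5) (nat_lit 609) (nat_lit 591) (nat_lit 360)) (XT.lf (nat_lit 76) (nat_lit 372158199) (nat_lit 0) (nat_lit 8278132234) (nat_lit 1900) (nat_lit 11589714365) (nat_lit 473) (nat_lit 5) (nat_lit 472) (nat_lit 5) (nat_lit 497) (nat_lit 5) (nat_lit 610) (nat_lit 591) (nat_lit 359))) (XT.nd (nat_lit 78) (nat_lit 0) (nat_lit 0) (XT.lf (nat_lit 0) (nat_lit 10169215621) (nat_lit 1824) (nat_lit 9260110771) (nat_lit 1900) (nat_lit 1022369364) (nat_lit 473) (nat_lit 5) (nat_lit 497) (nat_lit 5) (nat_lit 498) (nat_lit 5) (nat_lit 611) (nat_lit 591) (nat_lit 358)) (XT.nd (nat_lit 78) (nat_lit 0) (nat_lit 0) (XT.lf (nat_lit 76) (nat_lit 1521370398) (nat_lit 0) (nat_lit 10257456765) (nat_lit 1900) (nat_lit 8887587604) (nat_lit 474) (nat_lit 5) (nat_lit 473) (nat_lit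 5) (nat_lit 498) (nat_lit 5) (nat_lit 612) (nat_lit 591) (nat_lit 357)) (XT.lf (nat_lit 76) (nat_lit 12640487368) (nat_lit 0) (nat_lit 837955106) (nat_lit 1900) (nat_lit 7405829840) (nat_lit 474) (nat_lit 5) (nat_lit 473) (nat_lit 5) (nat_lit 498) (nat_lit 5) (nat_lit 613) (nat_lit 591) (nat_lit 356))))) (XT.nd (nat_lit 156) (nat_lit 2888) (nat_lit 0) (XT.nd (nat_lit 78) (nat_lit 0) (nat_lit 0) (XT.lf (nat_lit 76) (nat_lit 2852431044) (nat_lit 0) (nat_lit 12430840529) (nat_lit 1900) (nat_lit 5821791387) (nat_lit 475) (nat_lit 5) (nat_lit 474) (nat_lit 5) (nat_lit 499) (nat_lit 5) (nat_lit 614) (nat_lit 591) (nat_lit 355)) (XT.lf (nat_lit 76) (nat_lit 14273179671) (nat_lit 0) (nat_lit 2907672231) (nat_lit 1900) (nat_lit 4148284794) (nat_lit 475) (nat_lit 5) (nat_lit 474) (nat_lit 5) (nat_lit 499) (nat_lit 5) (nat_lit 615) (nat_lit 591) (nat_lit 354))) (XT.nd (nat_lit 78) (nat_lit 1140) (nat_lit 0) (XT.lf (nat_lit 0) (nat_lit 4374299459) (nat_lit 1824) (nat_lit 14810581833)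 (nat_lit 1900) (nat_lit 2371441027) (nat_lit 451) (nat_lit 5) (nat_lit 475) (nat_lit 5) (nat_lit 476) (nat_lit 5) (nat_lit 616) (nat_lit 591) (nat_lit 353)) (XT.nd (nat_lit 78) (nat_lit 1140) (nat_lit 0) (XT.lf (nat_lit 0) (nat_lit 16105784832) (nat_lit 1824) (nat_lit 5185650297) (nat_lit 1900) (nat_lit 495368004) (nat_lit 451) (nat_lit 5) (nat_lit 475) (nat_lit 5) (nat_lit 476) (nat_lit 5) (nat_lit 617) (nat_lit 591) (nat_lit 352)) (XT.lf (nat_lit 0) (nat_lit 1465762892) (nat_lit 1140) (nat_lit 15933857937) (nat_lit 76) (nat_lit 4620766181) (nat_lit 436) (nat_lit 5) (nat_lit 451) (nat_lit 5) (nat_lit 437) (nat_lit 5) (nat_lit 618) (nat_lit 591) (nat_lit 351))))))) (XT.nd (nat_lit 780) (nat_lit 4560) (nat_lit 0) (XT.nd (nat_lit 390) (nat_lit 2584) (nat_lit 0) (XT.nd (nat_lit 156) (nat_lit 912) (nat_lit 0) (XT.nd (nat_lit 78) (nat_lit 912) (nat_lit 0) (XT.lf (nat_lit 0) (nat_lit 3528283102) (nat_lit 1140) (nat_lit 4132872994) (nat_lit 76) (nat_lit 14596045322) (nat_lit 436)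 (nat_lit 5) (nat_lit 451) (nat_lit 5) (nat_lit 437) (nat_lit 5) (nat_lit 619) (nat_lit 591) (nat_lit 350)) (XT.lf (nat_lit 0) (nat_lit 5695283351) (nat_lit 988) (nat_lit 14507244340) (nat_lit 76) (nat_lit 2294960160) (nat_lit 424) (nat_lit 5) (nat_lit 437) (nat_lit 5) (nat_lit 425) (nat_lit 5) (nat_lit 620) (nat_lit 591) (nat_lit 349))) (XT.nd (nat_lit 78) (nat_lit 912) (nat_lit 0) (XT.lf (nat_lit 0) (nat_lit 7980485545) (nat_lit 988) (nat_lit 2384639262) (nat_lit 76) (nat_lit 12375958287) (nat_lit 424) (nat_lit 5) (nat_lit 437) (nat_lit 5) (nat_lit 425) (nat_lit 5) (nat_lit 621) (nat_lit 591) (nat_lit 348)) (XT.nd (nat_lit 78) (nat_lit 0) (nat_lit 0) (XT.lf (nat_lit 0) (nat_lit 10109537045) (nat_lit 912) (nat_lit 263775290) (nat_lit 988) (nat_lit 12614999813) (nat_lit 412) (nat_lit 5) (nat_lit 424) (nat_lit 5) (nat_lit 425) (nat_lit 5) (nat_lit 622) (nat_lit 591) (nat_lit 347)) (XT.lf (nat_lit 0) (nat_lit 12891622246) (nat_lit 988) (nat_lit 423055692) (nat_lit 76) (nat_lit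 9924255624) (nat_lit 412) (nat_lit 5) (nat_lit 425) (nat_lit 5) (nat_lit 413) (nat_lit 5) (nat_lit 623) (nat_lit 591) (nat_lit 346))))) (XT.nd (nat_lit 156) (nat_lit 912) (nat_lit 0) (XT.nd (nat_lit 78) (nat_lit 836) (nat_lit 0) (XT.lf (nat_lit 0) (nat_lit 12439728054) (nat_lit 836) (nat_lit 3099490665) (nat_lit 912) (nat_lit 7953770581) (nat_lit 401) (nat_lit 5) (nat_lit 412) (nat_lit 5) (nat_lit 413) (nat_lit 5) (nat_lit 624) (nat_lit 591) (nat_lit 345)) (XT.lf (nat_lit 0) (nat_lit 1785807107) (nat_lit 836) (nat_lit 16512394168) (nat_lit 912) (nat_lit 5452756491) (nat_lit 390) (nat_lit 5) (nat_lit 401) (nat_lit 5) (nat_lit 402) (nat_lit 5) (nat_lit 625) (nat_lit 591) (nat_lit 344))) (XT.nd (nat_lit 78) (nat_lit 912) (nat_lit 0) (XT.lf (nat_lit 0) (nat_lit 15007208809) (nat_lit 836) (nat_lit 6196221659) (nat_lit 912) (nat_lit 2808834086) (nat_lit 390) (nat_lit 5) (nat_lit 401) (nat_lit 5) (nat_lit 402) (nat_lit 5) (nat_lit 626) (nat_lit 591) (nat_lit 343)) (XT.nd (nat_lit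 78) (nat_lit 76) (nat_lit 0) (XT.lf (nat_lit 0) (nat_lit 4238258092) (nat_lit 836) (nat_lit 19980683878) (nat_lit 912) (nat_lit 58812239) (nat_lit 379) (nat_lit 5) (nat_lit 390) (nat_lit 5) (nat_lit 391) (nat_lit 5) (nat_lit 627) (nat_lit 591) (nat_lit 342)) (XT.lf (nat_lit 0) (nat_lit 2808649643) (nat_lit 912) (nat_lit 6741608071) (nat_lit 76) (nat_lit 14995970482) (nat_lit 378) (nat_lit 5) (nat_lit 390) (nat_lit 5) (nat_lit 379) (nat_lit 5) (nat_lit 628) (nat_lit 591) (nat_lit 341)))))) (XT.nd (nat_lit 390) (nat_lit 2204) (nat_lit 0) (XT.nd (nat_lit 156) (nat_lit 1520) (nat_lit 0) (XT.nd (nat_lit 78) (nat_lit 0) (nat_lit 0) (XT.lf (nat_lit 0) (nat_lit 5781560106) (nat_lit 912) (nat_lit 17917573931) (nat_lit 76) (nat_lit 1119952381) (nat_lit 367) (nat_lit 5) (nat_lit 379) (nat_lit 5) (nat_lit 368) (nat_lit 5) (nat_lit 629) (nat_lit 591) (nat_lit 340)) (XT.lf (nat_lit 0) (nat_lit 8919417464) (nat_lit 912) (nat_lit 4254639929) (nat_lit 76) (nat_lit 11921234904) (nat_lit 367)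 (nat_lit 5) (nat_lit 379) (nat_lit 5) (nat_lit 368) (nat_lit 5) (nat_lit 630) (nat_lit 591) (nat_lit 339))) (XT.nd (nat_lit 78) (nat_lit 760) (nat_lit 0) (XT.lf (nat_lit 0) (nat_lit 9806762058) (nat_lit 760) (nat_lit 2373709175) (nat_lit 836) (nat_lit 13195342533) (nat_lit 357) (nat_lit 5) (nat_lit 367) (nat_lit 5) (nat_lit 368) (nat_lit 5) (nat_lit 631) (nat_lit 591) (nat_lit 338)) (XT.nd (nat_lit 78) (nat_lit 760) (nat_lit 0) (XT.lf (nat_lit 0) (nat_lit 15588407225) (nat_lit 836) (nat_lit 1514061207) (nat_lit 76) (nat_lit 8557844265) (nat_lit 357) (nat_lit 5) (nat_lit 368) (nat_lit 5) (nat_lit 358) (nat_lit 5) (nat_lit 632) (nat_lit 591) (nat_lit 337)) (XT.lf (nat_lit 0) (nat_lit 12973072434) (nat_lit 760) (nat_lit 6188249225) (nat_lit 836) (nat_lit 6787243801) (nat_lit 347) (nat_lit 5) (nat_lit 357) (nat_lit 5) (nat_lit 358) (nat_lit 5) (nat_lit 633) (nat_lit 591) (nat_lit 336))))) (XT.nd (nat_lit 234) (nat_lit 684) (nat_lit 0) (XT.nd (nat_lit 78) (nat_lit 836) (nat_lit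 0) (XT.lf (nat_lit 0) (nat_lit 1512339115) (nat_lit 684) (nat_lit 21342411015) (nat_lit 760) (nat_lit 3386852277) (nat_lit 338) (nat_lit 5) (nat_lit 347) (nat_lit 5) (nat_lit 348) (nat_lit 5) (nat_lit 634) (nat_lit 591) (nat_lit 335)) (XT.nd (nat_lit 78) (nat_lit 760) (nat_lit 0) (XT.lf (nat_lit 0) (nat_lit 206034328) (nat_lit 760) (nat_lit 10118469985) (nat_lit 76) (nat_lit 16213474292) (nat_lit 337) (nat_lit 5) (nat_lit 347) (nat_lit 5) (nat_lit 338) (nat_lit 5) (nat_lit 635) (nat_lit 591) (nat_lit 334)) (XT.lf (nat_lit 0) (nat_lit 3860051125) (nat_lit 836) (nat_lit 22023573723) (nat_lit 76) (nat_lit 955517517) (nat_lit 327) (nat_lit 5) (nat_lit 338) (nat_lit 5) (nat_lit 328) (nat_lit 5) (nat_lit 636) (nat_lit 591) (nat_lit 333)))) (XT.nd (nat_lit 78) (nat_lit 684) (nat_lit 0) (XT.lf (nat_lit 0) (nat_lit 7720893555) (nat_lit 836) (nat_lit 7031754049) (nat_lit 76) (nat_lit 12391007116) (nat_lit 327) (nat_lit 5) (nat_lit 338) (nat_lit 5) (nat_lit 328) (nat_lit 5) (nat_lit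 637) (nat_lit 591) (nat_lit 332)) (XT.nd (nat_lit 78) (nat_lit 0) (nat_lit 0) (XT.lf (nat_lit 0) (nat_lit 8366288823) (nat_lit 684) (nat_lit 3344063082) (nat_lit 760) (nat_lit 15742877658) (nat_lit 318) (nat_lit 5) (nat_lit 327) (nat_lit 5) (nat_lit 328) (nat_lit 5) (nat_lit 638) (nat_lit 591) (nat_lit 331)) (XT.lf (nat_lit 0) (nat_lit 15878052853) (nat_lit 760) (nat_lit 3657968215) (nat_lit 76) (nat_lit 8231005982) (nat_lit 318) (nat_lit 5) (nat_lit 328) (nat_lit 5) (nat_lit 319) (nat_lit 5) (nat_lit 639) (nat_lit 591) (nat_lit 330))))))))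
noncomputable def xc217 : XT := (XT.nd (nat_lit 77844) (nat_lit 0) (nat_lit 15808) (XT.nd (nat_lit 780) (nat_lit 1748) (nat_lit 0) (XT.nd (nat_lit 390) (nat_lit 1900) (nat_lit 0) (XT.nd (nat_lit 156) (nat_lit 760) (nat_lit 0) (XT.nd (nat_lit 78) (nat_lit 608) (nat_lit 0) (XT.lf (nat_lit 0) (nat_lit 12214325111) (nat_lit 684) (nat_lit 8013401440) (nat_lit 760) (nat_lit 7857401774) (nat_lit 309) (nat_lit 5) (nat_lit 318) (nat_lit 5) (nat_lit 319) (nat_lit 5) (nat_lit 640) (nat_lit 591) (nat_lit 329)) (XT.lf (nat_lit 0) (nat_lit 16991359) (nat_lit 608) (nat_lit 24693702701) (nat_lit 684) (nat_lit 3697971767) (nat_lit 301) (nat_lit 5) (nat_lit 309) (nat_lit 5) (nat_lit 310) (nat_lit 5) (nat_lit 641) (nat_lit 591) (nat_lit 328))) (XT.nd (nat_lit 78) (nat_lit 684) (nat_lit 0) (XT.lf (nat_lit 0) (nat_lit 694994328) (nat_lit 684) (nat_lit 12359531808) (nat_lit 76) (nat_lit 15680927608) (nat_lit 300) (nat_lit 5) (nat_lit 309) (nat_lit 5) (nat_lit 301) (nat_lit 5) (nat_lit 642) (nat_lit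 591) (nat_lit 327)) (XT.nd (nat_lit 78) (nat_lit 0) (nat_lit 0) (XT.lf (nat_lit 0) (nat_lit 4018176565) (nat_lit 684) (nat_lit 1131531895) (nat_lit 760) (nat_lit 23918112190) (nat_lit 291) (nat_lit 5) (nat_lit 300) (nat_lit 5) (nat_lit 301) (nat_lit 5) (nat_lit 643) (nat_lit 591) (nat_lit 326)) (XT.lf (nat_lit 0) (nat_lit 9845916940) (nat_lit 760) (nat_lit 8589678363) (nat_lit 76) (nat_lit 10968191784) (nat_lit 291) (nat_lit 5) (nat_lit 301) (nat_lit 5) (nat_lit 292) (nat_lit 5) (nat_lit 644) (nat_lit 591) (nat_lit 325))))) (XT.nd (nat_lit 156) (nat_lit 1292) (nat_lit 0) (XT.nd (nat_lit 78) (nat_lit 0) (nat_lit 0) (XT.lf (nat_lit 0) (nat_lit 8297566949) (nat_lit 608) (nat_lit 6397200776) (nat_lit 684) (nat_lit 15050530953) (nat_lit 283) (nat_lit 5) (nat_lit 291) (nat_lit 5) (nat_lit 292) (nat_lit 5) (nat_lit 645) (nat_lit 591) (nat_lit 324)) (XT.lf (nat_lit 0) (nat_lit 19734186361) (nat_lit 684) (nat_lit 4495343893) (nat_lit 76) (nat_lit 5862238615) (nat_lit 283) (nat_lit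 5) (nat_lit 292) (nat_lit 5) (nat_lit 284) (nat_lit 5) (nat_lit 646) (nat_lit 591) (nat_lit 323))) (XT.nd (nat_lit 78) (nat_lit 684) (nat_lit 0) (XT.lf (nat_lit 0) (nat_lit 12919960592) (nat_lit 608) (nat_lit 12078112951) (nat_lit 684) (nat_lit 5444621499) (nat_lit 275) (nat_lit 5) (nat_lit 283) (nat_lit 5) (nat_lit 284) (nat_lit 5) (nat_lit 647) (nat_lit 591) (nat_lit 322)) (XT.nd (nat_lit 78) (nat_lit 684) (nat_lit 0) (XT.lf (nat_lit 0) (nat_lit 30397113309) (nat_lit 684) (nat_lit 61022066) (nat_lit 76) (nat_lit 341907045) (nat_lit 275) (nat_lit 5) (nat_lit 284) (nat_lit 5) (nat_lit 276) (nat_lit 5) (nat_lit 648) (nat_lit 591) (nat_lit 321)) (XT.lf (nat_lit 0) (nat_lit 4872440400) (nat_lit 684) (nat_lit 13291174260) (nat_lit 76) (nat_lit 12996406724) (nat_lit 266) (nat_lit 5) (nat_lit 275) (nat_lit 5) (nat_lit 267) (nat_lit 5) (nat_lit 649) (nat_lit 591) (nat_lit 320)))))) (XT.nd (nat_lit 76674) (nat_lit 0) (nat_lit 18620) (XT.nd (nat_lit 156) (nat_lit 1140) (nat_lit 0)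 (XT.nd (nat_lit 78) (nat_lit 0) (nat_lit 0) (XT.lf (nat_lit 0) (nat_lit 4686555492) (nat_lit 608) (nat_lit 5589728998) (nat_lit 684) (nat_lit 21250295091) (nat_lit 258) (nat_lit 5) (nat_lit 266) (nat_lit 5) (nat_lit 267) (nat_lit 5) (nat_lit 650) (nat_lit 591) (nat_lit 319)) (XT.lf (nat_lit 0) (nat_lit 15922505885) (nat_lit 684) (nat_lit 8745460339) (nat_lit 76) (nat_lit 7229816873) (nat_lit 258) (nat_lit 5) (nat_lit 267) (nat_lit 5) (nat_lit 259) (nat_lit 5) (nat_lit 651) (nat_lit 591) (nat_lit 318))) (XT.nd (nat_lit 78) (nat_lit 608) (nat_lit 0) (XT.lf (nat_lit 0) (nat_lit 9799348585) (nat_lit 532) (nat_lit 11980533735) (nat_lit 608) (nat_lit 10494563912) (nat_lit 251) (nat_lit 5) (nat_lit 258) (nat_lit 5) (nat_lit 259) (nat_lit 5) (nat_lit 652) (nat_lit 591) (nat_lit 317)) (XT.nd (nat_lit 78) (nat_lit 608) (nat_lit 0) (XT.lf (nat_lit 0) (nat_lit 27817329560) (nat_lit 608) (nat_lit 3833664561) (nat_lit 76) (nat_lit 1006390201) (nat_lit 251) (nat_lit 5) (nat_lit 259) (nat_lit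 5) (nat_lit 252) (nat_lit 5) (nat_lit 653) (nat_lit 591) (nat_lit 316)) (XT.lf (nat_lit 0) (nat_lit 1092876110) (nat_lit 608) (nat_lit 17752850777) (nat_lit 76) (nat_lit 14198584066) (nat_lit 243) (nat_lit 5) (nat_lit 251) (nat_lit 5) (nat_lit 244) (nat_lit 5) (nat_lit 654) (nat_lit 591) (nat_lit 315))))) (XT.nd (nat_lit 156) (nat_lit 0) (nat_lit 0) (XT.nd (nat_lit 78) (nat_lit 0) (nat_lit 0) (XT.lf (nat_lit 0) (nat_lit 2871722437) (nat_lit 0) (nat_lit 2871722437) (nat_lit 1748) (nat_lit 2786248515) (nat_lit 488) (nat_lit 5) (nat_lit 488) (nat_lit 3) (nat_lit 511) (nat_lit 3) (nat_lit 592) (nat_lit 592) (nat_lit 376)) (XT.lf (nat_lit 0) (nat_lit 11846426989) (nat_lit 1748) (nat_lit 2903364450) (nat_lit 1824) (nat_lit 2475274466) (nat_lit 488) (nat_lit 5) (nat_lit 511) (nat_lit 3) (nat_lit 512) (nat_lit 5) (nat_lit 593) (nat_lit 592) (nat_lit 375))) (XT.nd (nat_lit 78) (nat_lit 0) (nat_lit 76) (XT.lf (nat_lit 76) (nat_lit 5711196757) (nat_lit 0) (nat_lit 6571104014) (nat_lit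 1824) (nat_lit 5110375486) (nat_lit 489) (nat_lit 5) (nat_lit 488) (nat_lit 5) (nat_lit 512) (nat_lit 5) (nat_lit 594) (nat_lit 592) (nat_lit 374)) (XT.nd (nat_lit 78) (nat_lit 0) (nat_lit 0) (XT.lf (nat_lit 0) (nat_lit 12752147327) (nat_lit 1748) (nat_lit 3040723090) (nat_lit 1824) (nat_lit 1770263841) (nat_lit 489) (nat_lit 5) (nat_lit 512) (nat_lit 5) (nat_lit 513) (nat_lit 5) (nat_lit 595) (nat_lit 592) (nat_lit 373)) (XT.lf (nat_lit 76) (nat_lit 5802241942) (nat_lit 0) (nat_lit 7504596591) (nat_lit 1824) (nat_lit 4428654472) (nat_lit 490) (nat_lit 5) (nat_lit 489) (nat_lit 5) (nat_lit 513) (nat_lit 5) (nat_lit 596) (nat_lit 592) (nat_lit 372))))))) (XT.nd (nat_lit 780) (nat_lit 1368) (nat_lit 0) (XT.nd (nat_lit 390) (nat_lit 1596) (nat_lit 0) (XT.nd (nat_lit 156) (nat_lit 0) (nat_lit 76) (XT.nd (nat_lit 78) (nat_lit 0) (nat_lit 0) (XT.lf (nat_lit 0) (nat_lit 13893694582) (nat_lit 1748) (nat_lit 3057201680) (nat_lit 1824) (nat_lit 959981772) (nat_lit 490) (nat_lit 5) (nat_lit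 513) (nat_lit 5) (nat_lit 514) (nat_lit 5) (nat_lit 597) (nat_lit 592) (nat_lit 371)) (XT.lf (nat_lit 76) (nat_lit 6022423775) (nat_lit 0) (nat_lit 8553141943) (nat_lit 1824) (nat_lit 3512540006) (nat_lit 491) (nat_lit 5) (nat_lit 490) (nat_lit 5) (nat_lit 514) (nat_lit 5) (nat_lit 598) (nat_lit 592) (nat_lit 370))) (XT.nd (nat_lit 78) (nat_lit 0) (nat_lit 0) (XT.lf (nat_lit 0) (nat_lit 15286386155) (nat_lit 1748) (nat_lit 2946935389) (nat_lit 1824) (nat_lit 35250691) (nat_lit 491) (nat_lit 5) (nat_lit 514) (nat_lit 5) (nat_lit 515) (nat_lit 5) (nat_lit 599) (nat_lit 592) (nat_lit 369)) (XT.nd (nat_lit 78) (nat_lit 0) (nat_lit 0) (XT.lf (nat_lit 76) (nat_lit 6377922549) (nat_lit 0) (nat_lit 9726238761) (nat_lit 1824) (nat_lit 2346632500) (nat_lit 492) (nat_lit 5) (nat_lit 491) (nat_lit 5) (nat_lit 515) (nat_lit 5) (nat_lit 600) (nat_lit 592) (nat_lit 368)) (XT.lf (nat_lit 76) (nat_lit 15925977803) (nat_lit 0) (nat_lit 1026858069) (nat_lit 1824) (nat_lit 1683533555) (nat_lit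 492) (nat_lit 5) (nat_lit 491) (nat_lit 5) (nat_lit 515) (nat_lit 5) (nat_lit 601) (nat_lit 592) (nat_lit 367))))) (XT.nd (nat_lit 156) (nat_lit 1748) (nat_lit 0) (XT.nd (nat_lit 78) (nat_lit 0) (nat_lit 0) (XT.lf (nat_lit 76) (nat_lit 6875264819) (nat_lit 0) (nat_lit 11033686265) (nat_lit 1824) (nat_lit 914896607) (nat_lit 493) (nat_lit 5) (nat_lit 492) (nat_lit 5) (nat_lit 516) (nat_lit 5) (nat_lit 602) (nat_lit 592) (nat_lit 366)) (XT.lf (nat_lit 76) (nat_lit 16679207034) (nat_lit 0) (nat_lit 2224888043) (nat_lit 1824) (nat_lit 110582782) (nat_lit 493) (nat_lit 5) (nat_lit 492) (nat_lit 5) (nat_lit 516) (nat_lit 5) (nat_lit 603) (nat_lit 592) (nat_lit 365))) (XT.nd (nat_lit 78) (nat_lit 0) (nat_lit 0) (XT.lf (nat_lit 0) (nat_lit 788886024) (nat_lit 1824) (nat_lit 11691425916) (nat_lit 1900) (nat_lit 6727153410) (nat_lit 469) (nat_lit 5) (nat_lit 493) (nat_lit 5) (nat_lit 494) (nat_lit 5) (nat_lit 604) (nat_lit 592) (nat_lit 364)) (XT.nd (nat_lit 78) (nat_lit 0) (nat_lit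 76) (XT.lf (nat_lit 0) (nat_lit 1730490534) (nat_lit 1824) (nat_lit 1826494164) (nat_lit 1900) (nat_lit 15846597173) (nat_lit 469) (nat_lit 5) (nat_lit 493) (nat_lit 5) (nat_lit 494) (nat_lit 5) (nat_lit 605) (nat_lit 592) (nat_lit 363)) (XT.lf (nat_lit 0) (nat_lit 2776667860) (nat_lit 1824) (nat_lit 11297162035) (nat_lit 1900) (nat_lit 5528076447) (nat_lit 470) (nat_lit 5) (nat_lit 494) (nat_lit 5) (nat_lit 495) (nat_lit 5) (nat_lit 606) (nat_lit 592) (nat_lit 362)))))) (XT.nd (nat_lit 390) (nat_lit 1444) (nat_lit 0) (XT.nd (nat_lit 156) (nat_lit 0) (nat_lit 76) (XT.nd (nat_lit 78) (nat_lit 0) (nat_lit 76) (XT.lf (nat_lit 0) (nat_lit 3874955818) (nat_lit 1824) (nat_lit 1167606095) (nat_lit 1900) (nat_lit 14761012073) (nat_lit 470) (nat_lit 5) (nat_lit 494) (nat_lit 5) (nat_lit 495) (nat_lit 5) (nat_lit 607) (nat_lit 592) (nat_lit 361)) (XT.lf (nat_lit 0) (nat_lit 5078343673) (nat_lit 1824) (nat_lit 10752667493) (nat_lit 1900) (nat_lit 4176601551) (nat_lit 471) (nat_lit 5)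 (nat_lit 495) (nat_lit 5) (nat_lit 496) (nat_lit 5) (nat_lit 608) (nat_lit 592) (nat_lit 360))) (XT.nd (nat_lit 78) (nat_lit 0) (nat_lit 76) (XT.lf (nat_lit 0) (nat_lit 6342543374) (nat_lit 1824) (nat_lit 350641099) (nat_lit 1900) (nat_lit 13521813275) (nat_lit 471) (nat_lit 5) (nat_lit 495) (nat_lit 5) (nat_lit 496) (nat_lit 5) (nat_lit 609) (nat_lit 592) (nat_lit 359)) (XT.nd (nat_lit 78) (nat_lit 0) (nat_lit 0) (XT.lf (nat_lit 0) (nat_lit 7712565815) (nat_lit 1824) (nat_lit 10050386811) (nat_lit 1900) (nat_lit 2661967481) (nat_lit 472) (nat_lit 5) (nat_lit 496) (nat_lit 5) (nat_lit 497) (nat_lit 5) (nat_lit 610) (nat_lit 592) (nat_lit 358)) (XT.lf (nat_lit 76) (nat_lit 640630410) (nat_lit 0) (nat_lit 8515836212) (nat_lit 1900) (nat_lit 11481645124) (nat_lit 473) (nat_lit 5) (nat_lit 472) (nat_lit 5) (nat_lit 497) (nat_lit 5) (nat_lit 611) (nat_lit 592) (nat_lit 357))))) (XT.nd (nat_lit 234) (nat_lit 1672) (nat_lit 0) (XT.nd (nat_lit 78) (nat_lit 0) (nat_lit 0) (XT.lf (nat_lit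 0) (nat_lit 10698778356) (nat_lit 1824) (nat_lit 9182381040) (nat_lit 1900) (nat_lit 973017549) (nat_lit 473) (nat_lit 5) (nat_lit 497) (nat_lit 5) (nat_lit 498) (nat_lit 5) (nat_lit 612) (nat_lit 592) (nat_lit 356)) (XT.nd (nat_lit 78) (nat_lit 0) (nat_lit 0) (XT.lf (nat_lit 76) (nat_lit 1812999937) (nat_lit 0) (nat_lit 10522882435) (nat_lit 1900) (nat_lit 8737402532) (nat_lit 474) (nat_lit 5) (nat_lit 473) (nat_lit 5) (nat_lit 498) (nat_lit 5) (nat_lit 613) (nat_lit 592) (nat_lit 355)) (XT.lf (nat_lit 76) (nat_lit 13149377636) (nat_lit 0) (nat_lit 913808850) (nat_lit 1900) (nat_lit 7232439747) (nat_lit 474) (nat_lit 5) (nat_lit 473) (nat_lit 5) (nat_lit 498) (nat_lit 5) (nat_lit 614) (nat_lit 592) (nat_lit 354)))) (XT.nd (nat_lit 78) (nat_lit 1748) (nat_lit 0) (XT.lf (nat_lit 76) (nat_lit 3170546476) (nat_lit 0) (nat_lit 12728704645) (nat_lit 1900) (nat_lit 5621679339) (nat_lit 475) (nat_lit 5) (nat_lit 474) (nat_lit 5) (nat_lit 499) (nat_lit 5) (nat_lit 615) (nat_lit 592)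 (nat_lit 353)) (XT.nd (nat_lit 78) (nat_lit 1748) (nat_lit 0) (XT.lf (nat_lit 76) (nat_lit 14814591118) (nat_lit 0) (nat_lit 3014107348) (nat_lit 1900) (nat_lit 3920909435) (nat_lit 475) (nat_lit 5) (nat_lit 474) (nat_lit 5) (nat_lit 499) (nat_lit 5) (nat_lit 616) (nat_lit 592) (nat_lit 352)) (XT.lf (nat_lit 0) (nat_lit 4722432169) (nat_lit 1824) (nat_lit 15145795952) (nat_lit 1900) (nat_lit 2113201251) (nat_lit 451) (nat_lit 5) (nat_lit 475) (nat_lit 5) (nat_lit 476) (nat_lit 5) (nat_lit 617) (nat_lit 592) (nat_lit 351))))))))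
noncomputable def xc218 : XT := (XT.nd (nat_lit 1560) (nat_lit 5776) (nat_lit 0) (XT.nd (nat_lit 780) (nat_lit 4788) (nat_lit 0) (XT.nd (nat_lit 390) (nat_lit 2584) (nat_lit 0) (XT.nd (nat_lit 156) (nat_lit 912) (nat_lit 0) (XT.nd (nat_lit 78) (nat_lit 1140) (nat_lit 0) (XT.lf (nat_lit 0) (nat_lit 16683436530) (nat_lit 1824) (nat_lit 5327601031) (nat_lit 1900) (nat_lit 205600270) (nat_lit 451) (nat_lit 5) (nat_lit 475) (nat_lit 5) (nat_lit 476) (nat_lit 5) (nat_lit 618) (nat_lit 592) (nat_lit 350)) (XT.lf (nat_lit 0) (nat_lit 1786478062) (nat_lit 1140) (nat_lit 15988673644) (nat_lit 76) (nat_lit 4679790161) (nat_lit 436) (nat_lit 5) (nat_lit 451) (nat_lit 5) (nat_lit 437) (nat_lit 5) (nat_lit 619) (nat_lit 592) (nat_lit 349))) (XT.nd (nat_lit 78) (nat_lit 912) (nat_lit 0) (XT.lf (nat_lit 0) (nat_lit 3884534952) (nat_lit 1140) (nat_lit 3956842756) (nat_lit 76) (nat_lit 14855229618) (nat_lit 436) (nat_lit 5) (nat_lit 451) (nat_lit 5) (nat_lit 437) (nat_lit 5) (nat_lit 620) (nat_lit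 592) (nat_lit 348)) (XT.nd (nat_lit 78) (nat_lit 0) (nat_lit 0) (XT.lf (nat_lit 0) (nat_lit 6090781233) (nat_lit 988) (nat_lit 14534583637) (nat_lit 76) (nat_lit 2316416974) (nat_lit 424) (nat_lit 5) (nat_lit 437) (nat_lit 5) (nat_lit 425) (nat_lit 5) (nat_lit 621) (nat_lit 592) (nat_lit 347)) (XT.lf (nat_lit 0) (nat_lit 8416166055) (nat_lit 988) (nat_lit 2174679508) (nat_lit 76) (nat_lit 12599514327) (nat_lit 424) (nat_lit 5) (nat_lit 437) (nat_lit 5) (nat_lit 425) (nat_lit 5) (nat_lit 622) (nat_lit 592) (nat_lit 346))))) (XT.nd (nat_lit 156) (nat_lit 1672) (nat_lit 0) (XT.nd (nat_lit 78) (nat_lit 0) (nat_lit 0) (XT.lf (nat_lit 0) (nat_lit 10567685243) (nat_lit 912) (nat_lit 285412831) (nat_lit 988) (nat_lit 12589510938) (nat_lit 412) (nat_lit 5) (nat_lit 424) (nat_lit 5) (nat_lit 425) (nat_lit 5) (nat_lit 623) (nat_lit 592) (nat_lit 345)) (XT.lf (nat_lit 0) (nat_lit 13416330435) (nat_lit 988) (nat_lit 175111835) (nat_lit 76) (nat_lit 10106909909) (nat_lit 412) (nat_lit 5)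 (nat_lit 425) (nat_lit 5) (nat_lit 413) (nat_lit 5) (nat_lit 624) (nat_lit 592) (nat_lit 344))) (XT.nd (nat_lit 78) (nat_lit 836) (nat_lit 0) (XT.lf (nat_lit 0) (nat_lit 12943240711) (nat_lit 836) (nat_lit 3170059067) (nat_lit 912) (nat_lit 7844261276) (nat_lit 401) (nat_lit 5) (nat_lit 412) (nat_lit 5) (nat_lit 413) (nat_lit 5) (nat_lit 625) (nat_lit 592) (nat_lit 343)) (XT.nd (nat_lit 78) (nat_lit 0) (nat_lit 0) (XT.lf (nat_lit 0) (nat_lit 2079874141) (nat_lit 836) (nat_lit 16844047943) (nat_lit 912) (nat_lit 5296838036) (nat_lit 390) (nat_lit 5) (nat_lit 401) (nat_lit 5) (nat_lit 402) (nat_lit 5) (nat_lit 626) (nat_lit 592) (nat_lit 342)) (XT.lf (nat_lit 0) (nat_lit 15560638173) (nat_lit 836) (nat_lit 6321524418) (nat_lit 912) (nat_lit 2605232743) (nat_lit 390) (nat_lit 5) (nat_lit 401) (nat_lit 5) (nat_lit 402) (nat_lit 5) (nat_lit 627) (nat_lit 592) (nat_lit 341)))))) (XT.nd (nat_lit 390) (nat_lit 2280) (nat_lit 0) (XT.nd (nat_lit 156) (nat_lit 1596) (nat_lit 0) (XT.nd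 (nat_lit 78) (nat_lit 0) (nat_lit 0) (XT.lf (nat_lit 0) (nat_lit 193811310) (nat_lit 912) (nat_lit 20179805139) (nat_lit 76) (nat_lit 4384619958) (nat_lit 378) (nat_lit 5) (nat_lit 390) (nat_lit 5) (nat_lit 379) (nat_lit 5) (nat_lit 628) (nat_lit 592) (nat_lit 340)) (XT.lf (nat_lit 0) (nat_lit 3112874631) (nat_lit 912) (nat_lit 6621448648) (nat_lit 76) (nat_lit 15297848425) (nat_lit 378) (nat_lit 5) (nat_lit 390) (nat_lit 5) (nat_lit 379) (nat_lit 5) (nat_lit 629) (nat_lit 592) (nat_lit 339))) (XT.nd (nat_lit 78) (nat_lit 760) (nat_lit 0) (XT.lf (nat_lit 0) (nat_lit 6142079286) (nat_lit 912) (nat_lit 18017750187) (nat_lit 76) (nat_lit 1150721292) (nat_lit 367) (nat_lit 5) (nat_lit 379) (nat_lit 5) (nat_lit 368) (nat_lit 5) (nat_lit 630) (nat_lit 592) (nat_lit 338)) (XT.nd (nat_lit 78) (nat_lit 760) (nat_lit 0) (XT.lf (nat_lit 0) (nat_lit 9337892066) (nat_lit 912) (nat_lit 4086619764) (nat_lit 76) (nat_lit 12167865350) (nat_lit 367) (nat_lit 5) (nat_lit 379) (nat_lit 5) (nat_lit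 368) (nat_lit 5) (nat_lit 631) (nat_lit 592) (nat_lit 337)) (XT.lf (nat_lit 0) (nat_lit 10254345046) (nat_lit 760) (nat_lit 2406746857) (nat_lit 836) (nat_lit 13217479054) (nat_lit 357) (nat_lit 5) (nat_lit 367) (nat_lit 5) (nat_lit 368) (nat_lit 5) (nat_lit 632) (nat_lit 592) (nat_lit 336))))) (XT.nd (nat_lit 156) (nat_lit 1520) (nat_lit 0) (XT.nd (nat_lit 78) (nat_lit 760) (nat_lit 0) (XT.lf (nat_lit 0) (nat_lit 16132631229) (nat_lit 836) (nat_lit 1293251156) (nat_lit 76) (nat_lit 8742968959) (nat_lit 357) (nat_lit 5) (nat_lit 368) (nat_lit 5) (nat_lit 358) (nat_lit 5) (nat_lit 633) (nat_lit 592) (nat_lit 335)) (XT.lf (nat_lit 0) (nat_lit 13481973241) (nat_lit 760) (nat_lit 6292092278) (nat_lit 836) (nat_lit 6688862774) (nat_lit 347) (nat_lit 5) (nat_lit 357) (nat_lit 5) (nat_lit 358) (nat_lit 5) (nat_lit 634) (nat_lit 592) (nat_lit 334))) (XT.nd (nat_lit 78) (nat_lit 836) (nat_lit 0) (XT.lf (nat_lit 0) (nat_lit 1794833870) (nat_lit 684) (nat_lit 21743792919) (nat_lit 760)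 (nat_lit 3223254261) (nat_lit 338) (nat_lit 5) (nat_lit 347) (nat_lit 5) (nat_lit 348) (nat_lit 5) (nat_lit 635) (nat_lit 592) (nat_lit 333)) (XT.nd (nat_lit 78) (nat_lit 760) (nat_lit 0) (XT.lf (nat_lit 0) (nat_lit 433979584) (nat_lit 760) (nat_lit 10070545858) (nat_lit 76) (nat_lit 16559719161) (nat_lit 337) (nat_lit 5) (nat_lit 347) (nat_lit 5) (nat_lit 338) (nat_lit 5) (nat_lit 636) (nat_lit 592) (nat_lit 332)) (XT.lf (nat_lit 0) (nat_lit 4158481556) (nat_lit 836) (nat_lit 22211139763) (nat_lit 76) (nat_lit 1001862558) (nat_lit 327) (nat_lit 5) (nat_lit 338) (nat_lit 5) (nat_lit 328) (nat_lit 5) (nat_lit 637) (nat_lit 592) (nat_lit 331))))))) (XT.nd (nat_lit 780) (nat_lit 2432) (nat_lit 0) (XT.nd (nat_lit 390) (nat_lit 1368) (nat_lit 0) (XT.nd (nat_lit 156) (nat_lit 1292) (nat_lit 0) (XT.nd (nat_lit 78) (nat_lit 684) (nat_lit 0) (XT.lf (nat_lit 0) (nat_lit 8092203003) (nat_lit 836) (nat_lit 6924442626) (nat_lit 76) (nat_lit 12665527936) (nat_lit 327) (nat_lit 5) (nat_lit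 338) (nat_lit 5) (nat_lit 328) (nat_lit 5) (nat_lit 638) (nat_lit 592) (nat_lit 330)) (XT.lf (nat_lit 0) (nat_lit 8779929877) (nat_lit 684) (nat_lit 3378867109) (nat_lit 760) (nat_lit 15839196311) (nat_lit 318) (nat_lit 5) (nat_lit 327) (nat_lit 5) (nat_lit 328) (nat_lit 5) (nat_lit 639) (nat_lit 592) (nat_lit 329))) (XT.nd (nat_lit 78) (nat_lit 1292) (nat_lit 0) (XT.lf (nat_lit 0) (nat_lit 16405855391) (nat_lit 760) (nat_lit 3485629669) (nat_lit 76) (nat_lit 8426661921) (nat_lit 318) (nat_lit 5) (nat_lit 328) (nat_lit 5) (nat_lit 319) (nat_lit 5) (nat_lit 640) (nat_lit 592) (nat_lit 328)) (XT.nd (nat_lit 78) (nat_lit 608) (nat_lit 0) (XT.lf (nat_lit 0) (nat_lit 12702494406) (nat_lit 684) (nat_lit 8137489223) (nat_lit 760) (nat_lit 7802677740) (nat_lit 309) (nat_lit 5) (nat_lit 318) (nat_lit 5) (nat_lit 319) (nat_lit 5) (nat_lit 641) (nat_lit 592) (nat_lit 327)) (XT.lf (nat_lit 0) (nat_lit 263518218) (nat_lit 608) (nat_lit 25146848381) (nat_lit 684) (nat_lit 3562348203) (nat_lit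 301) (nat_lit 5) (nat_lit 309) (nat_lit 5) (nat_lit 310) (nat_lit 5) (nat_lit 642) (nat_lit 592) (nat_lit 326))))) (XT.nd (nat_lit 156) (nat_lit 608) (nat_lit 0) (XT.nd (nat_lit 78) (nat_lit 684) (nat_lit 0) (XT.lf (nat_lit 0) (nat_lit 911672921) (nat_lit 684) (nat_lit 12362653207) (nat_lit 76) (nat_lit 16031766537) (nat_lit 300) (nat_lit 5) (nat_lit 309) (nat_lit 5) (nat_lit 301) (nat_lit 5) (nat_lit 643) (nat_lit 592) (nat_lit 325)) (XT.lf (nat_lit 0) (nat_lit 4341003615) (nat_lit 684) (nat_lit 1112075902) (nat_lit 760) (nat_lit 24192075715) (nat_lit 291) (nat_lit 5) (nat_lit 300) (nat_lit 5) (nat_lit 301) (nat_lit 5) (nat_lit 644) (nat_lit 592) (nat_lit 324))) (XT.nd (nat_lit 78) (nat_lit 608) (nat_lit 0) (XT.lf (nat_lit 0) (nat_lit 10239551104) (nat_lit 760) (nat_lit 8520087523) (nat_lit 76) (nat_lit 11228275872) (nat_lit 291) (nat_lit 5) (nat_lit 301) (nat_lit 5) (nat_lit 292) (nat_lit 5) (nat_lit 645) (nat_lit 592) (nat_lit 323)) (XT.nd (nat_lit 78) (nat_lit 0) (nat_lit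 0) (XT.lf (nat_lit 0) (nat_lit 8703314640) (nat_lit 608) (nat_lit 6479764009) (nat_lit 684) (nat_lit 15153223953) (nat_lit 283) (nat_lit 5) (nat_lit 291) (nat_lit 5) (nat_lit 292) (nat_lit 5) (nat_lit 646) (nat_lit 592) (nat_lit 322)) (XT.lf (nat_lit 0) (nat_lit 20319762452) (nat_lit 684) (nat_lit 4346619634) (nat_lit 76) (nat_lit 6023390844) (nat_lit 283) (nat_lit 5) (nat_lit 292) (nat_lit 5) (nat_lit 284) (nat_lit 5) (nat_lit 647) (nat_lit 592) (nat_lit 321)))))) (XT.nd (nat_lit 390) (nat_lit 532) (nat_lit 0) (XT.nd (nat_lit 156) (nat_lit 684) (nat_lit 0) (XT.nd (nat_lit 78) (nat_lit 608) (nat_lit 0) (XT.lf (nat_lit 0) (nat_lit 13415420999) (nat_lit 608) (nat_lit 12271302550) (nat_lit 684) (nat_lit 5361038418) (nat_lit 275) (nat_lit 5) (nat_lit 283) (nat_lit 5) (nat_lit 284) (nat_lit 5) (nat_lit 648) (nat_lit 592) (nat_lit 320)) (XT.lf (nat_lit 0) (nat_lit 175881964) (nat_lit 608) (nat_lit 31015612222) (nat_lit 684) (nat_lit 220807364) (nat_lit 267) (nat_lit 5) (nat_lit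 275) (nat_lit 5) (nat_lit 276) (nat_lit 5) (nat_lit 649) (nat_lit 592) (nat_lit 319))) (XT.nd (nat_lit 78) (nat_lit 608) (nat_lit 0) (XT.lf (nat_lit 0) (nat_lit 5154299289) (nat_lit 684) (nat_lit 13320268273) (nat_lit 76) (nat_lit 13304953605) (nat_lit 266) (nat_lit 5) (nat_lit 275) (nat_lit 5) (nat_lit 267) (nat_lit 5) (nat_lit 650) (nat_lit 592) (nat_lit 318)) (XT.nd (nat_lit 78) (nat_lit 0) (nat_lit 0) (XT.lf (nat_lit 0) (nat_lit 5015458644) (nat_lit 608) (nat_lit 5648672626) (nat_lit 684) (nat_lit 21489321282) (nat_lit 258) (nat_lit 5) (nat_lit 266) (nat_lit 5) (nat_lit 267) (nat_lit 5) (nat_lit 651) (nat_lit 592) (nat_lit 317)) (XT.lf (nat_lit 0) (nat_lit 16420038584) (nat_lit 684) (nat_lit 8686558252) (nat_lit 76) (nat_lit 7425548311) (nat_lit 258) (nat_lit 5) (nat_lit 267) (nat_lit 5) (nat_lit 259) (nat_lit 5) (nat_lit 652) (nat_lit 592) (nat_lit 316))))) (XT.nd (nat_lit 76596) (nat_lit 0) (nat_lit 18012) (XT.nd (nat_lit 78) (nat_lit 0) (nat_lit 0) (XT.lf (nat_lit 0)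 (nat_lit 10227608618) (nat_lit 532) (nat_lit 12164950578) (nat_lit 608) (nat_lit 10523822650) (nat_lit 251) (nat_lit 5) (nat_lit 258) (nat_lit 5) (nat_lit 259) (nat_lit 5) (nat_lit 653) (nat_lit 592) (nat_lit 315)) (XT.nd (nat_lit 76440) (nat_lit 0) (nat_lit 18012) (XT.lf (nat_lit 0) (nat_lit 28547634567) (nat_lit 608) (nat_lit 3679486855) (nat_lit 76) (nat_lit 1079919922) (nat_lit 251) (nat_lit 5) (nat_lit 259) (nat_lit 5) (nat_lit 252) (nat_lit 5) (nat_lit 654) (nat_lit 592) (nat_lit 314)) (XT.lf (nat_lit 0) (nat_lit 3042607297) (nat_lit 0) (nat_lit 3042607297) (nat_lit 1748) (nat_lit 2610513408) (nat_lit 488) (nat_lit 5) (nat_lit 488) (nat_lit 3) (nat_lit 511) (nat_lit 3) (nat_lit 593) (nat_lit 593) (nat_lit 374)))) (XT.nd (nat_lit 78) (nat_lit 0) (nat_lit 0) (XT.lf (nat_lit 0) (nat_lit 12526814798) (nat_lit 1748) (nat_lit 2728595932) (nat_lit 1824) (nat_lit 2305245664) (nat_lit 488) (nat_lit 5) (nat_lit 511) (nat_lit 3) (nat_lit 512) (nat_lit 5) (nat_lit 594) (nat_lit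 593) (nat_lit 373)) (XT.nd (nat_lit 78) (nat_lit 0) (nat_lit 76) (XT.lf (nat_lit 76) (nat_lit 6056724684) (nat_lit 0) (nat_lit 6907487870) (nat_lit 1824) (nat_lit 4767551085) (nat_lit 489) (nat_lit 5) (nat_lit 488) (nat_lit 5) (nat_lit 512) (nat_lit 5) (nat_lit 595) (nat_lit 593) (nat_lit 372)) (XT.lf (nat_lit 0) (nat_lit 13433597156) (nat_lit 1748) (nat_lit 2864870020) (nat_lit 1824) (nat_lit 1607361603) (nat_lit 489) (nat_lit 5) (nat_lit 512) (nat_lit 5) (nat_lit 513) (nat_lit 5) (nat_lit 596) (nat_lit 593) (nat_lit 371))))))))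
noncomputable def xc219 : XT := (XT.nd (nat_lit 1560) (nat_lit 9956) (nat_lit 0) (XT.nd (nat_lit 780) (nat_lit 0) (nat_lit 152) (XT.nd (nat_lit 390) (nat_lit 1596) (nat_lit 0) (XT.nd (nat_lit 156) (nat_lit 0) (nat_lit 76) (XT.nd (nat_lit 78) (nat_lit 0) (nat_lit 76) (XT.lf (nat_lit 76) (nat_lit 6153397290) (nat_lit 0) (nat_lit 7839150470) (nat_lit 1824) (nat_lit 4089224413) (nat_lit 490) (nat_lit 5) (nat_lit 489) (nat_lit 5) (nat_lit 513) (nat_lit 5) (nat_lit 597) (nat_lit 593) (nat_lit 370)) (XT.lf (nat_lit 0) (nat_lit 14581739854) (nat_lit 1748) (nat_lit 2878405666) (nat_lit 1824) (nat_lit 800708176) (nat_lit 490) (nat_lit 5) (nat_lit 513) (nat_lit 5) (nat_lit 514) (nat_lit 5) (nat_lit 598) (nat_lit 593) (nat_lit 369))) (XT.nd (nat_lit 78) (nat_lit 0) (nat_lit 0) (XT.lf (nat_lit 76) (nat_lit 6381233745) (nat_lit 0) (nat_lit 8889519691) (nat_lit 1824) (nat_lit 3171003155) (nat_lit 491) (nat_lit 5) (nat_lit 490) (nat_lit 5) (nat_lit 514) (nat_lit 5) (nat_lit 599) (nat_lit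 593) (nat_lit 368)) (XT.nd (nat_lit 78) (nat_lit 0) (nat_lit 76) (XT.lf (nat_lit 76) (nat_lit 15861998606) (nat_lit 0) (nat_lit 125639902) (nat_lit 1824) (nat_lit 2638357701) (nat_lit 491) (nat_lit 5) (nat_lit 490) (nat_lit 5) (nat_lit 514) (nat_lit 5) (nat_lit 600) (nat_lit 593) (nat_lit 367)) (XT.lf (nat_lit 76) (nat_lit 6746576572) (nat_lit 0) (nat_lit 10068202820) (nat_lit 1824) (nat_lit 1997223344) (nat_lit 492) (nat_lit 5) (nat_lit 491) (nat_lit 5) (nat_lit 515) (nat_lit 5) (nat_lit 601) (nat_lit 593) (nat_lit 366))))) (XT.nd (nat_lit 156) (nat_lit 1748) (nat_lit 0) (XT.nd (nat_lit 78) (nat_lit 0) (nat_lit 76) (XT.lf (nat_lit 76) (nat_lit 16480865566) (nat_lit 0) (nat_lit 1191943547) (nat_lit 1824) (nat_lit 1328633829) (nat_lit 492) (nat_lit 5) (nat_lit 491) (nat_lit 5) (nat_lit 515) (nat_lit 5) (nat_lit 602) (nat_lit 593) (nat_lit 365)) (XT.lf (nat_lit 76) (nat_lit 7256119117) (nat_lit 0) (nat_lit 11385118443) (nat_lit 1824) (nat_lit 551570090) (nat_lit 493) (nat_lit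 5) (nat_lit 492) (nat_lit 5) (nat_lit 516) (nat_lit 5) (nat_lit 603) (nat_lit 593) (nat_lit 364))) (XT.nd (nat_lit 78) (nat_lit 0) (nat_lit 76) (XT.lf (nat_lit 0) (nat_lit 257919563) (nat_lit 1824) (nat_lit 2137930027) (nat_lit 1900) (nat_lit 16991718288) (nat_lit 468) (nat_lit 5) (nat_lit 492) (nat_lit 5) (nat_lit 493) (nat_lit 5) (nat_lit 604) (nat_lit 593) (nat_lit 363)) (XT.nd (nat_lit 78) (nat_lit 0) (nat_lit 0) (XT.lf (nat_lit 0) (nat_lit 1167439378) (nat_lit 1824) (nat_lit 11675244670) (nat_lit 1900) (nat_lit 6741642259) (nat_lit 469) (nat_lit 5) (nat_lit 493) (nat_lit 5) (nat_lit 494) (nat_lit 5) (nat_lit 605) (nat_lit 593) (nat_lit 362)) (XT.lf (nat_lit 0) (nat_lit 2120762731) (nat_lit 1824) (nat_lit 1617916436) (nat_lit 1900) (nat_lit 16045828902) (nat_lit 469) (nat_lit 5) (nat_lit 493) (nat_lit 5) (nat_lit 494) (nat_lit 5) (nat_lit 606) (nat_lit 593) (nat_lit 361)))))) (XT.nd (nat_lit 390) (nat_lit 0) (nat_lit 152) (XT.nd (nat_lit 156) (nat_lit 0) (nat_lit 76) (XT.nd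 (nat_lit 78) (nat_lit 0) (nat_lit 0) (XT.lf (nat_lit 0) (nat_lit 3181777512) (nat_lit 1824) (nat_lit 11271880012) (nat_lit 1900) (nat_lit 5533263859) (nat_lit 470) (nat_lit 5) (nat_lit 494) (nat_lit 5) (nat_lit 495) (nat_lit 5) (nat_lit 607) (nat_lit 593) (nat_lit 360)) (XT.lf (nat_lit 0) (nat_lit 4295176792) (nat_lit 1824) (nat_lit 944658938) (nat_lit 1900) (nat_lit 14952924357) (nat_lit 470) (nat_lit 5) (nat_lit 494) (nat_lit 5) (nat_lit 495) (nat_lit 5) (nat_lit 608) (nat_lit 593) (nat_lit 359))) (XT.nd (nat_lit 78) (nat_lit 0) (nat_lit 0) (XT.lf (nat_lit 0) (nat_lit 5516897742) (nat_lit 1824) (nat_lit 10715656566) (nat_lit 1900) (nat_lit 4168440584) (nat_lit 471) (nat_lit 5) (nat_lit 495) (nat_lit 5) (nat_lit 496) (nat_lit 5) (nat_lit 609) (nat_lit 593) (nat_lit 358)) (XT.nd (nat_lit 78) (nat_lit 0) (nat_lit 76) (XT.lf (nat_lit 0) (nat_lit 6799773845) (nat_lit 1824) (nat_lit 110532082) (nat_lit 1900) (nat_lit 13702354444) (nat_lit 471) (nat_lit 5) (nat_lit 495) (nat_lit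 5) (nat_lit 496) (nat_lit 5) (nat_lit 610) (nat_lit 593) (nat_lit 357)) (XT.lf (nat_lit 0) (nat_lit 8191793217) (nat_lit 1824) (nat_lit 9998840033) (nat_lit 1900) (nat_lit 2636256580) (nat_lit 472) (nat_lit 5) (nat_lit 496) (nat_lit 5) (nat_lit 497) (nat_lit 5) (nat_lit 611) (nat_lit 593) (nat_lit 356))))) (XT.nd (nat_lit 156) (nat_lit 0) (nat_lit 76) (XT.nd (nat_lit 78) (nat_lit 0) (nat_lit 76) (XT.lf (nat_lit 76) (nat_lit 904335990) (nat_lit 0) (nat_lit 8755492933) (nat_lit 1900) (nat_lit 11384611812) (nat_lit 473) (nat_lit 5) (nat_lit 472) (nat_lit 5) (nat_lit 497) (nat_lit 5) (nat_lit 612) (nat_lit 593) (nat_lit 355)) (XT.lf (nat_lit 0) (nat_lit 11226266441) (nat_lit 1824) (nat_lit 9113306682) (nat_lit 1900) (nat_lit 925389085) (nat_lit 473) (nat_lit 5) (nat_lit 497) (nat_lit 5) (nat_lit 498) (nat_lit 5) (nat_lit 613) (nat_lit 593) (nat_lit 354))) (XT.nd (nat_lit 78) (nat_lit 0) (nat_lit 0) (XT.lf (nat_lit 76) (nat_lit 2100319270) (nat_lit 0) (nat_lit 10791276007) (nat_lit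 1900) (nat_lit 8596947945) (nat_lit 474) (nat_lit 5) (nat_lit 473) (nat_lit 5) (nat_lit 498) (nat_lit 5) (nat_lit 614) (nat_lit 593) (nat_lit 353)) (XT.nd (nat_lit 78) (nat_lit 0) (nat_lit 76) (XT.lf (nat_lit 76) (nat_lit 13658501790) (nat_lit 0) (nat_lit 988884951) (nat_lit 1900) (nat_lit 7068066348) (nat_lit 474) (nat_lit 5) (nat_lit 473) (nat_lit 5) (nat_lit 498) (nat_lit 5) (nat_lit 615) (nat_lit 593) (nat_lit 352)) (XT.lf (nat_lit 76) (nat_lit 3484886675) (nat_lit 0) (nat_lit 13030613711) (nat_lit 1900) (nat_lit 5429856991) (nat_lit 475) (nat_lit 5) (nat_lit 474) (nat_lit 5) (nat_lit 499) (nat_lit 5) (nat_lit 616) (nat_lit 593) (nat_lit 351))))))) (XT.nd (nat_lit 780) (nat_lit 4864) (nat_lit 0) (XT.nd (nat_lit 390) (nat_lit 2660) (nat_lit 0) (XT.nd (nat_lit 156) (nat_lit 1140) (nat_lit 0) (XT.nd (nat_lit 78) (nat_lit 1748) (nat_lit 0) (XT.lf (nat_lit 76) (nat_lit 15356892028) (nat_lit 0) (nat_lit 3120796331) (nat_lit 1900) (nat_lit 3701037491) (nat_lit 475) (nat_lit 5)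 (nat_lit 474) (nat_lit 5) (nat_lit 499) (nat_lit 5) (nat_lit 617) (nat_lit 593) (nat_lit 350)) (XT.lf (nat_lit 0) (nat_lit 5067406303) (nat_lit 1824) (nat_lit 15486199839) (nat_lit 1900) (nat_lit 1861666164) (nat_lit 451) (nat_lit 5) (nat_lit 475) (nat_lit 5) (nat_lit 476) (nat_lit 5) (nat_lit 618) (nat_lit 593) (nat_lit 349))) (XT.nd (nat_lit 78) (nat_lit 1064) (nat_lit 0) (XT.lf (nat_lit 0) (nat_lit 77298809) (nat_lit 1900) (nat_lit 5393088437) (nat_lit 76) (nat_lit 17184900962) (nat_lit 450) (nat_lit 5) (nat_lit 475) (nat_lit 5) (nat_lit 451) (nat_lit 5) (nat_lit 619) (nat_lit 593) (nat_lit 348)) (XT.nd (nat_lit 78) (nat_lit 0) (nat_lit 0) (XT.lf (nat_lit 0) (nat_lit 2102292121) (nat_lit 1140) (nat_lit 16054831726) (nat_lit 76) (nat_lit 4741291247) (nat_lit 436) (nat_lit 5) (nat_lit 451) (nat_lit 5) (nat_lit 437) (nat_lit 5) (nat_lit 620) (nat_lit 593) (nat_lit 347)) (XT.lf (nat_lit 0) (nat_lit 4236818296) (nat_lit 1140) (nat_lit 3787337071) (nat_lit 76) (nat_lit 15120868801)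 (nat_lit 436) (nat_lit 5) (nat_lit 451) (nat_lit 5) (nat_lit 437) (nat_lit 5) (nat_lit 621) (nat_lit 593) (nat_lit 346))))) (XT.nd (nat_lit 156) (nat_lit 1748) (nat_lit 0) (XT.nd (nat_lit 78) (nat_lit 0) (nat_lit 0) (XT.lf (nat_lit 0) (nat_lit 6483254504) (nat_lit 988) (nat_lit 14572674781) (nat_lit 76) (nat_lit 2339252053) (nat_lit 424) (nat_lit 5) (nat_lit 437) (nat_lit 5) (nat_lit 425) (nat_lit 5) (nat_lit 622) (nat_lit 593) (nat_lit 345)) (XT.lf (nat_lit 0) (nat_lit 8849840010) (nat_lit 988) (nat_lit 1970525521) (nat_lit 76) (nat_lit 12828472005) (nat_lit 424) (nat_lit 5) (nat_lit 437) (nat_lit 5) (nat_lit 425) (nat_lit 5) (nat_lit 623) (nat_lit 593) (nat_lit 344))) (XT.nd (nat_lit 78) (nat_lit 836) (nat_lit 0) (XT.lf (nat_lit 0) (nat_lit 11025057265) (nat_lit 912) (nat_lit 306847765) (nat_lit 988) (nat_lit 12574299165) (nat_lit 412) (nat_lit 5) (nat_lit 424) (nat_lit 5) (nat_lit 425) (nat_lit 5) (nat_lit 624) (nat_lit 593) (nat_lit 343)) (XT.nd (nat_lit 78) (nat_lit 0)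 (nat_lit 0) (XT.lf (nat_lit 0) (nat_lit 68735864) (nat_lit 836) (nat_lit 13872880091) (nat_lit 912) (nat_lit 10225542425) (nat_lit 401) (nat_lit 5) (nat_lit 412) (nat_lit 5) (nat_lit 413) (nat_lit 5) (nat_lit 625) (nat_lit 593) (nat_lit 342)) (XT.lf (nat_lit 0) (nat_lit 13446932607) (nat_lit 836) (nat_lit 3241705720) (nat_lit 912) (nat_lit 7742991257) (nat_lit 401) (nat_lit 5) (nat_lit 412) (nat_lit 5) (nat_lit 413) (nat_lit 5) (nat_lit 626) (nat_lit 593) (nat_lit 341)))))) (XT.nd (nat_lit 390) (nat_lit 2280) (nat_lit 0) (XT.nd (nat_lit 156) (nat_lit 1748) (nat_lit 0) (XT.nd (nat_lit 78) (nat_lit 0) (nat_lit 0) (XT.lf (nat_lit 0) (nat_lit 2369790436) (nat_lit 836) (nat_lit 17182280202) (nat_lit 912) (nat_lit 5148090460) (nat_lit 390) (nat_lit 5) (nat_lit 401) (nat_lit 5) (nat_lit 402) (nat_lit 5) (nat_lit 627) (nat_lit 593) (nat_lit 340)) (XT.lf (nat_lit 0) (nat_lit 16115300753) (nat_lit 836) (nat_lit 6449279710) (nat_lit 912) (nat_lit 2407646872) (nat_lit 390) (nat_lit 5)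 (nat_lit 401) (nat_lit 5) (nat_lit 402) (nat_lit 5) (nat_lit 628) (nat_lit 593) (nat_lit 339))) (XT.nd (nat_lit 78) (nat_lit 836) (nat_lit 0) (XT.lf (nat_lit 0) (nat_lit 440875767) (nat_lit 912) (nat_lit 20333409493) (nat_lit 76) (nat_lit 4474232488) (nat_lit 378) (nat_lit 5) (nat_lit 390) (nat_lit 5) (nat_lit 379) (nat_lit 5) (nat_lit 629) (nat_lit 593) (nat_lit 338)) (XT.nd (nat_lit 78) (nat_lit 836) (nat_lit 0) (XT.lf (nat_lit 0) (nat_lit 3413551957) (nat_lit 912) (nat_lit 6508787672) (nat_lit 76) (nat_lit 15605687876) (nat_lit 378) (nat_lit 5) (nat_lit 390) (nat_lit 5) (nat_lit 379) (nat_lit 5) (nat_lit 630) (nat_lit 593) (nat_lit 337)) (XT.lf (nat_lit 0) (nat_lit 6500299551) (nat_lit 912) (nat_lit 18129955227) (nat_lit 76) (nat_lit 1181780569) (nat_lit 367) (nat_lit 5) (nat_lit 379) (nat_lit 5) (nat_lit 368) (nat_lit 5) (nat_lit 631) (nat_lit 593) (nat_lit 336))))) (XT.nd (nat_lit 234) (nat_lit 1520) (nat_lit 0) (XT.nd (nat_lit 78) (nat_lit 760) (nat_lit 0) (XT.lf (nat_lit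 0) (nat_lit 9755413318) (nat_lit 912) (nat_lit 3925067880) (nat_lit 76) (nat_lit 12419109767) (nat_lit 367) (nat_lit 5) (nat_lit 379) (nat_lit 5) (nat_lit 368) (nat_lit 5) (nat_lit 632) (nat_lit 593) (nat_lit 335)) (XT.nd (nat_lit 78) (nat_lit 0) (nat_lit 0) (XT.lf (nat_lit 0) (nat_lit 10701115671) (nat_lit 760) (nat_lit 2441005879) (nat_lit 836) (nat_lit 13249446542) (nat_lit 357) (nat_lit 5) (nat_lit 367) (nat_lit 5) (nat_lit 368) (nat_lit 5) (nat_lit 633) (nat_lit 593) (nat_lit 334)) (XT.lf (nat_lit 0) (nat_lit 16678713168) (nat_lit 836) (nat_lit 1077775084) (nat_lit 76) (nat_lit 8931253759) (nat_lit 357) (nat_lit 5) (nat_lit 368) (nat_lit 5) (nat_lit 358) (nat_lit 5) (nat_lit 634) (nat_lit 593) (nat_lit 333)))) (XT.nd (nat_lit 78) (nat_lit 760) (nat_lit 0) (XT.lf (nat_lit 0) (nat_lit 13991366030) (nat_lit 760) (nat_lit 6398785784) (nat_lit 836) (nat_lit 6597605521) (nat_lit 347) (nat_lit 5) (nat_lit 357) (nat_lit 5) (nat_lit 358) (nat_lit 5) (nat_lit 635) (nat_lit 593)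 (nat_lit 332)) (XT.nd (nat_lit 78) (nat_lit 76) (nat_lit 0) (XT.lf (nat_lit 0) (nat_lit 2073183423) (nat_lit 684) (nat_lit 22154191350) (nat_lit 760) (nat_lit 3065367307) (nat_lit 338) (nat_lit 5) (nat_lit 347) (nat_lit 5) (nat_lit 348) (nat_lit 5) (nat_lit 636) (nat_lit 593) (nat_lit 331)) (XT.lf (nat_lit 0) (nat_lit 657792364) (nat_lit 760) (nat_lit 10031382451) (nat_lit 76) (nat_lit 16912035597) (nat_lit 337) (nat_lit 5) (nat_lit 347) (nat_lit 5) (nat_lit 338) (nat_lit 5) (nat_lit 637) (nat_lit 593) (nat_lit 330))))))))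
noncomputable def xc220 : XT := (XT.nd (nat_lit 78000) (nat_lit 0) (nat_lit 16492) (XT.nd (nat_lit 780) (nat_lit 2432) (nat_lit 0) (XT.nd (nat_lit 390) (nat_lit 1976) (nat_lit 0) (XT.nd (nat_lit 156) (nat_lit 1368) (nat_lit 0) (XT.nd (nat_lit 78) (nat_lit 0) (nat_lit 0) (XT.lf (nat_lit 0) (nat_lit 4454289988) (nat_lit 836) (nat_lit 22412277750) (nat_lit 76) (nat_lit 1048076944) (nat_lit 327) (nat_lit 5) (nat_lit 338) (nat_lit 5) (nat_lit 328) (nat_lit 5) (nat_lit 638) (nat_lit 593) (nat_lit 329)) (XT.lf (nat_lit 0) (nat_lit 8462516476) (nat_lit 836) (nat_lit 6824613039) (nat_lit 76) (nat_lit 12944502352) (nat_lit 327) (nat_lit 5) (nat_lit 338) (nat_lit 5) (nat_lit 328) (nat_lit 5) (nat_lit 639) (nat_lit 593) (nat_lit 328))) (XT.nd (nat_lit 78) (nat_lit 684) (nat_lit 0) (XT.lf (nat_lit 0) (nat_lit 9192279030) (nat_lit 684) (nat_lit 3415612815) (nat_lit 760) (nat_lit 15945927468) (nat_lit 318) (nat_lit 5) (nat_lit 327) (nat_lit 5) (nat_lit 328) (nat_lit 5) (nat_lit 640) (nat_lit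 593) (nat_lit 327)) (XT.nd (nat_lit 78) (nat_lit 684) (nat_lit 0) (XT.lf (nat_lit 0) (nat_lit 16936050046) (nat_lit 760) (nat_lit 3319377335) (nat_lit 76) (nat_lit 8625025821) (nat_lit 318) (nat_lit 5) (nat_lit 328) (nat_lit 5) (nat_lit 319) (nat_lit 5) (nat_lit 641) (nat_lit 593) (nat_lit 326)) (XT.lf (nat_lit 0) (nat_lit 13190956821) (nat_lit 684) (nat_lit 8265463685) (nat_lit 760) (nat_lit 7755086476) (nat_lit 309) (nat_lit 5) (nat_lit 318) (nat_lit 5) (nat_lit 319) (nat_lit 5) (nat_lit 642) (nat_lit 593) (nat_lit 325))))) (XT.nd (nat_lit 156) (nat_lit 1292) (nat_lit 0) (XT.nd (nat_lit 78) (nat_lit 76) (nat_lit 0) (XT.lf (nat_lit 0) (nat_lit 505415872) (nat_lit 608) (nat_lit 25610638507) (nat_lit 684) (nat_lit 3432150531) (nat_lit 301) (nat_lit 5) (nat_lit 309) (nat_lit 5) (nat_lit 310) (nat_lit 5) (nat_lit 643) (nat_lit 593) (nat_lit 324)) (XT.lf (nat_lit 0) (nat_lit 1124810941) (nat_lit 684) (nat_lit 12375314540) (nat_lit 76) (nat_lit 16388176932) (nat_lit 300) (nat_lit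 5) (nat_lit 309) (nat_lit 5) (nat_lit 301) (nat_lit 5) (nat_lit 644) (nat_lit 593) (nat_lit 323))) (XT.nd (nat_lit 78) (nat_lit 608) (nat_lit 0) (XT.lf (nat_lit 0) (nat_lit 4660872051) (nat_lit 684) (nat_lit 1093865064) (nat_lit 760) (nat_lit 24479455562) (nat_lit 291) (nat_lit 5) (nat_lit 300) (nat_lit 5) (nat_lit 301) (nat_lit 5) (nat_lit 645) (nat_lit 593) (nat_lit 322)) (XT.nd (nat_lit 78) (nat_lit 608) (nat_lit 0) (XT.lf (nat_lit 0) (nat_lit 10633419236) (nat_lit 760) (nat_lit 8458478117) (nat_lit 76) (nat_lit 11491980425) (nat_lit 291) (nat_lit 5) (nat_lit 301) (nat_lit 5) (nat_lit 292) (nat_lit 5) (nat_lit 646) (nat_lit 593) (nat_lit 321)) (XT.lf (nat_lit 0) (nat_lit 9107865700) (nat_lit 608) (nat_lit 6565740697) (nat_lit 684) (nat_lit 15265671728) (nat_lit 283) (nat_lit 5) (nat_lit 291) (nat_lit 5) (nat_lit 292) (nat_lit 5) (nat_lit 647) (nat_lit 593) (nat_lit 320)))))) (XT.nd (nat_lit 390) (nat_lit 532) (nat_lit 0) (XT.nd (nat_lit 156) (nat_lit 1292) (nat_lit 0) (XT.nd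 (nat_lit 78) (nat_lit 608) (nat_lit 0) (XT.lf (nat_lit 0) (nat_lit 20909637482) (nat_lit 684) (nat_lit 4204187228) (nat_lit 76) (nat_lit 6186061137) (nat_lit 283) (nat_lit 5) (nat_lit 292) (nat_lit 5) (nat_lit 284) (nat_lit 5) (nat_lit 648) (nat_lit 593) (nat_lit 319)) (XT.lf (nat_lit 0) (nat_lit 13911585239) (nat_lit 608) (nat_lit 12470234310) (nat_lit 684) (nat_lit 5283257734) (nat_lit 275) (nat_lit 5) (nat_lit 283) (nat_lit 5) (nat_lit 284) (nat_lit 5) (nat_lit 649) (nat_lit 593) (nat_lit 318))) (XT.nd (nat_lit 78) (nat_lit 684) (nat_lit 0) (XT.lf (nat_lit 0) (nat_lit 409072462) (nat_lit 608) (nat_lit 31585844169) (nat_lit 684) (nat_lit 42026655) (nat_lit 267) (nat_lit 5) (nat_lit 275) (nat_lit 5) (nat_lit 276) (nat_lit 5) (nat_lit 650) (nat_lit 593) (nat_lit 317)) (XT.nd (nat_lit 78) (nat_lit 608) (nat_lit 0) (XT.lf (nat_lit 0) (nat_lit 5434634488) (nat_lit 684) (nat_lit 13359136660) (nat_lit 76) (nat_lit 13617783498) (nat_lit 266) (nat_lit 5) (nat_lit 275) (nat_lit 5)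 (nat_lit 267) (nat_lit 5) (nat_lit 651) (nat_lit 593) (nat_lit 316)) (XT.lf (nat_lit 0) (nat_lit 5341807841) (nat_lit 608) (nat_lit 5710847394) (nat_lit 684) (nat_lit 21740349815) (nat_lit 258) (nat_lit 5) (nat_lit 266) (nat_lit 5) (nat_lit 267) (nat_lit 5) (nat_lit 652) (nat_lit 593) (nat_lit 315))))) (XT.nd (nat_lit 76596) (nat_lit 0) (nat_lit 18012) (XT.nd (nat_lit 78) (nat_lit 532) (nat_lit 0) (XT.lf (nat_lit 0) (nat_lit 16920567943) (nat_lit 684) (nat_lit 8635557301) (nat_lit 76) (nat_lit 7623208739) (nat_lit 258) (nat_lit 5) (nat_lit 267) (nat_lit 5) (nat_lit 259) (nat_lit 5) (nat_lit 653) (nat_lit 593) (nat_lit 314)) (XT.lf (nat_lit 0) (nat_lit 10655414406) (nat_lit 532) (nat_lit 12355199001) (nat_lit 608) (nat_lit 10560680745) (nat_lit 251) (nat_lit 5) (nat_lit 258) (nat_lit 5) (nat_lit 259) (nat_lit 5) (nat_lit 654) (nat_lit 593) (nat_lit 313))) (XT.nd (nat_lit 78) (nat_lit 0) (nat_lit 0) (XT.lf (nat_lit 0) (nat_lit 3212504437) (nat_lit 0) (nat_lit 3212504437) (nat_lit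 1748) (nat_lit 2440251476) (nat_lit 488) (nat_lit 5) (nat_lit 488) (nat_lit 3) (nat_lit 511) (nat_lit 3) (nat_lit 594) (nat_lit 594) (nat_lit 372)) (XT.nd (nat_lit 78) (nat_lit 0) (nat_lit 0) (XT.lf (nat_lit 0) (nat_lit 13203590299) (nat_lit 1748) (nat_lit 2559373343) (nat_lit 1824) (nat_lit 2140341070) (nat_lit 488) (nat_lit 5) (nat_lit 511) (nat_lit 3) (nat_lit 512) (nat_lit 5) (nat_lit 595) (nat_lit 594) (nat_lit 371)) (XT.lf (nat_lit 76) (nat_lit 6400181353) (nat_lit 0) (nat_lit 7242640488) (nat_lit 1824) (nat_lit 4435151328) (nat_lit 489) (nat_lit 5) (nat_lit 488) (nat_lit 5) (nat_lit 512) (nat_lit 5) (nat_lit 596) (nat_lit 594) (nat_lit 370))))))) (XT.nd (nat_lit 780) (nat_lit 0) (nat_lit 76) (XT.nd (nat_lit 390) (nat_lit 1596) (nat_lit 0) (XT.nd (nat_lit 156) (nat_lit 0) (nat_lit 76) (XT.nd (nat_lit 78) (nat_lit 0) (nat_lit 0) (XT.lf (nat_lit 0) (nat_lit 14112118083) (nat_lit 1748) (nat_lit 2694689977) (nat_lit 1824) (nat_lit 1448901842) (nat_lit 489) (nat_lit 5) (nat_lit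 512) (nat_lit 5) (nat_lit 513) (nat_lit 5) (nat_lit 597) (nat_lit 594) (nat_lit 369)) (XT.lf (nat_lit 76) (nat_lit 6502446117) (nat_lit 0) (nat_lit 8173232545) (nat_lit 1824) (nat_lit 3759625638) (nat_lit 490) (nat_lit 5) (nat_lit 489) (nat_lit 5) (nat_lit 513) (nat_lit 5) (nat_lit 598) (nat_lit 594) (nat_lit 368))) (XT.nd (nat_lit 78) (nat_lit 0) (nat_lit 0) (XT.lf (nat_lit 0) (nat_lit 15267618576) (nat_lit 1748) (nat_lit 2705350895) (nat_lit 1824) (nat_lit 645179441) (nat_lit 490) (nat_lit 5) (nat_lit 513) (nat_lit 5) (nat_lit 514) (nat_lit 5) (nat_lit 599) (nat_lit 594) (nat_lit 367)) (XT.nd (nat_lit 78) (nat_lit 0) (nat_lit 0) (XT.lf (nat_lit 76) (nat_lit 6737964048) (nat_lit 0) (nat_lit 9226205614) (nat_lit 1824) (nat_lit 2838625784) (nat_lit 491) (nat_lit 5) (nat_lit 490) (nat_lit 5) (nat_lit 514) (nat_lit 5) (nat_lit 600) (nat_lit 594) (nat_lit 366)) (XT.lf (nat_lit 76) (nat_lit 16403851939) (nat_lit 0) (nat_lit 283932631) (nat_lit 1824) (nat_lit 2303088155) (nat_lit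 491) (nat_lit 5) (nat_lit 490) (nat_lit 5) (nat_lit 514) (nat_lit 5) (nat_lit 601) (nat_lit 594) (nat_lit 365))))) (XT.nd (nat_lit 156) (nat_lit 1748) (nat_lit 0) (XT.nd (nat_lit 78) (nat_lit 0) (nat_lit 0) (XT.lf (nat_lit 76) (nat_lit 7113241640) (nat_lit 0) (nat_lit 10411280913) (nat_lit 1824) (nat_lit 1656216441) (nat_lit 492) (nat_lit 5) (nat_lit 491) (nat_lit 5) (nat_lit 515) (nat_lit 5) (nat_lit 602) (nat_lit 594) (nat_lit 364)) (XT.lf (nat_lit 76) (nat_lit 17037672619) (nat_lit 0) (nat_lit 1354717748) (nat_lit 1824) (nat_lit 981724770) (nat_lit 492) (nat_lit 5) (nat_lit 491) (nat_lit 5) (nat_lit 515) (nat_lit 5) (nat_lit 603) (nat_lit 594) (nat_lit 363))) (XT.nd (nat_lit 78) (nat_lit 1824) (nat_lit 0) (XT.lf (nat_lit 76) (nat_lit 7635140962) (nat_lit 0) (nat_lit 11738501755) (nat_lit 1824) (nat_lit 195795985) (nat_lit 493) (nat_lit 5) (nat_lit 492) (nat_lit 5) (nat_lit 516) (nat_lit 5) (nat_lit 604) (nat_lit 594) (nat_lit 362)) (XT.nd (nat_lit 78) (nat_lit 0) (nat_lit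 76) (XT.lf (nat_lit 0) (nat_lit 617974804) (nat_lit 1824) (nat_lit 1946626844) (nat_lit 1900) (nat_lit 17203587458) (nat_lit 468) (nat_lit 5) (nat_lit 492) (nat_lit 5) (nat_lit 493) (nat_lit 5) (nat_lit 605) (nat_lit 594) (nat_lit 361)) (XT.lf (nat_lit 0) (nat_lit 1539476780) (nat_lit 1824) (nat_lit 11668447984) (nat_lit 1900) (nat_lit 6761082737) (nat_lit 469) (nat_lit 5) (nat_lit 493) (nat_lit 5) (nat_lit 494) (nat_lit 5) (nat_lit 606) (nat_lit 594) (nat_lit 360)))))) (XT.nd (nat_lit 390) (nat_lit 0) (nat_lit 228) (XT.nd (nat_lit 156) (nat_lit 0) (nat_lit 76) (XT.nd (nat_lit 78) (nat_lit 0) (nat_lit 76) (XT.lf (nat_lit 0) (nat_lit 2505029568) (nat_lit 1824) (nat_lit 1414684980) (nat_lit 1900) (nat_lit 16253615708) (nat_lit 469) (nat_lit 5) (nat_lit 493) (nat_lit 5) (nat_lit 494) (nat_lit 5) (nat_lit 607) (nat_lit 594) (nat_lit 359)) (XT.lf (nat_lit 0) (nat_lit 3581414883) (nat_lit 1824) (nat_lit 11255847731) (nat_lit 1900) (nat_lit 5542646824) (nat_lit 470) (nat_lit 5) (nat_lit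 494) (nat_lit 5) (nat_lit 495) (nat_lit 5) (nat_lit 608) (nat_lit 594) (nat_lit 358))) (XT.nd (nat_lit 78) (nat_lit 0) (nat_lit 76) (XT.lf (nat_lit 0) (nat_lit 4710493878) (nat_lit 1824) (nat_lit 726816940) (nat_lit 1900) (nat_lit 15152686459) (nat_lit 470) (nat_lit 5) (nat_lit 494) (nat_lit 5) (nat_lit 495) (nat_lit 5) (nat_lit 609) (nat_lit 594) (nat_lit 357)) (XT.nd (nat_lit 78) (nat_lit 0) (nat_lit 0) (XT.lf (nat_lit 0) (nat_lit 5951137268) (nat_lit 1824) (nat_lit 10687693385) (nat_lit 1900) (nat_lit 4163676947) (nat_lit 471) (nat_lit 5) (nat_lit 495) (nat_lit 5) (nat_lit 496) (nat_lit 5) (nat_lit 610) (nat_lit 594) (nat_lit 356)) (XT.lf (nat_lit 76) (nat_lit 126441374) (nat_lit 0) (nat_lit 7127699449) (nat_lit 1900) (nat_lit 13764376739) (nat_lit 472) (nat_lit 5) (nat_lit 471) (nat_lit 5) (nat_lit 496) (nat_lit 5) (nat_lit 611) (nat_lit 594) (nat_lit 355))))) (XT.nd (nat_lit 234) (nat_lit 0) (nat_lit 76) (XT.nd (nat_lit 78) (nat_lit 0) (nat_lit 0) (XT.lf (nat_lit 0) (nat_lit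 8667985949) (nat_lit 1824) (nat_lit 9956069319) (nat_lit 1900) (nat_lit 2613097196) (nat_lit 472) (nat_lit 5) (nat_lit 496) (nat_lit 5) (nat_lit 497) (nat_lit 5) (nat_lit 612) (nat_lit 594) (nat_lit 354)) (XT.nd (nat_lit 78) (nat_lit 0) (nat_lit 76) (XT.lf (nat_lit 76) (nat_lit 1163573202) (nat_lit 0) (nat_lit 8997250233) (nat_lit 1900) (nat_lit 11298322682) (nat_lit 473) (nat_lit 5) (nat_lit 472) (nat_lit 5) (nat_lit 497) (nat_lit 5) (nat_lit 613) (nat_lit 594) (nat_lit 353)) (XT.lf (nat_lit 0) (nat_lit 11752130214) (nat_lit 1824) (nat_lit 9052664340) (nat_lit 1900) (nat_lit 879413193) (nat_lit 473) (nat_lit 5) (nat_lit 497) (nat_lit 5) (nat_lit 498) (nat_lit 5) (nat_lit 614) (nat_lit 594) (nat_lit 352)))) (XT.nd (nat_lit 78) (nat_lit 0) (nat_lit 0) (XT.lf (nat_lit 76) (nat_lit 2383636049) (nat_lit 0) (nat_lit 11062787727) (nat_lit 1900) (nat_lit 8465923969) (nat_lit 474) (nat_lit 5) (nat_lit 473) (nat_lit 5) (nat_lit 498) (nat_lit 5) (nat_lit 615) (nat_lit 594) (nat_lit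 351)) (XT.nd (nat_lit 78) (nat_lit 0) (nat_lit 76) (XT.lf (nat_lit 76) (nat_lit 14168250643) (nat_lit 0) (nat_lit 1063256965) (nat_lit 1900) (nat_lit 6912405190) (nat_lit 474) (nat_lit 5) (nat_lit 473) (nat_lit 5) (nat_lit 498) (nat_lit 5) (nat_lit 616) (nat_lit 594) (nat_lit 350)) (XT.lf (nat_lit 76) (nat_lit 3795769787) (nat_lit 0) (nat_lit 13336722884) (nat_lit 1900) (nat_lit 5246012824) (nat_lit 475) (nat_lit 5) (nat_lit 474) (nat_lit 5) (nat_lit 499) (nat_lit 5) (nat_lit 617) (nat_lit 594) (nat_lit 349))))))))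
noncomputable def xc221 : XT := (XT.nd (nat_lit 1560) (nat_lit 6080) (nat_lit 0) (XT.nd (nat_lit 780) (nat_lit 4788) (nat_lit 0) (XT.nd (nat_lit 390) (nat_lit 2660) (nat_lit 0) (XT.nd (nat_lit 156) (nat_lit 1140) (nat_lit 0) (XT.nd (nat_lit 78) (nat_lit 1748) (nat_lit 0) (XT.lf (nat_lit 76) (nat_lit 15900486122) (nat_lit 0) (nat_lit 3227817060) (nat_lit 1900) (nat_lit 3488351078) (nat_lit 475) (nat_lit 5) (nat_lit 474) (nat_lit 5) (nat_lit 499) (nat_lit 5) (nat_lit 618) (nat_lit 594) (nat_lit 348)) (XT.lf (nat_lit 0) (nat_lit 5409551710) (nat_lit 1824) (nat_lit 15831956101) (nat_lit 1900) (nat_lit 1616508953) (nat_lit 451) (nat_lit 5) (nat_lit 475) (nat_lit 5) (nat_lit 476) (nat_lit 5) (nat_lit 619) (nat_lit 594) (nat_lit 347))) (XT.nd (nat_lit 78) (nat_lit 1064) (nat_lit 0) (XT.lf (nat_lit 0) (nat_lit 352067267) (nat_lit 1900) (nat_lit 5261220007) (nat_lit 76) (nat_lit 17489618798) (nat_lit 450) (nat_lit 5) (nat_lit 475) (nat_lit 5) (nat_lit 451) (nat_lit 5) (nat_lit 620)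 (nat_lit 594) (nat_lit 346)) (XT.nd (nat_lit 78) (nat_lit 0) (nat_lit 0) (XT.lf (nat_lit 0) (nat_lit 2413546439) (nat_lit 1140) (nat_lit 16132161165) (nat_lit 76) (nat_lit 4805268632) (nat_lit 436) (nat_lit 5) (nat_lit 451) (nat_lit 5) (nat_lit 437) (nat_lit 5) (nat_lit 621) (nat_lit 594) (nat_lit 345)) (XT.lf (nat_lit 0) (nat_lit 4585484540) (nat_lit 1140) (nat_lit 3624096366) (nat_lit 76) (nat_lit 15393042609) (nat_lit 436) (nat_lit 5) (nat_lit 451) (nat_lit 5) (nat_lit 437) (nat_lit 5) (nat_lit 622) (nat_lit 594) (nat_lit 344))))) (XT.nd (nat_lit 156) (nat_lit 1748) (nat_lit 0) (XT.nd (nat_lit 78) (nat_lit 0) (nat_lit 0) (XT.lf (nat_lit 0) (nat_lit 6873067274) (nat_lit 988) (nat_lit 14621336534) (nat_lit 76) (nat_lit 2363456105) (nat_lit 424) (nat_lit 5) (nat_lit 437) (nat_lit 5) (nat_lit 425) (nat_lit 5) (nat_lit 623) (nat_lit 594) (nat_lit 343)) (XT.lf (nat_lit 0) (nat_lit 9281883555) (nat_lit 988) (nat_lit 1771904912) (nat_lit 76) (nat_lit 13062903221) (nat_lit 424)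 (nat_lit 5) (nat_lit 437) (nat_lit 5) (nat_lit 425) (nat_lit 5) (nat_lit 624) (nat_lit 594) (nat_lit 342))) (XT.nd (nat_lit 78) (nat_lit 836) (nat_lit 0) (XT.lf (nat_lit 0) (nat_lit 11482023536) (nat_lit 912) (nat_lit 328100711) (nat_lit 988) (nat_lit 12569151169) (nat_lit 412) (nat_lit 5) (nat_lit 424) (nat_lit 5) (nat_lit 425) (nat_lit 5) (nat_lit 625) (nat_lit 594) (nat_lit 341)) (XT.nd (nat_lit 78) (nat_lit 0) (nat_lit 0) (XT.lf (nat_lit 0) (nat_lit 310137132) (nat_lit 836) (nat_lit 14158421488) (nat_lit 912) (nat_lit 10176959896) (nat_lit 401) (nat_lit 5) (nat_lit 412) (nat_lit 5) (nat_lit 413) (nat_lit 5) (nat_lit 626) (nat_lit 594) (nat_lit 340)) (XT.lf (nat_lit 0) (nat_lit 13951191407) (nat_lit 836) (nat_lit 3314465124) (nat_lit 912) (nat_lit 7649720321) (nat_lit 401) (nat_lit 5) (nat_lit 412) (nat_lit 5) (nat_lit 413) (nat_lit 5) (nat_lit 627) (nat_lit 594) (nat_lit 339)))))) (XT.nd (nat_lit 390) (nat_lit 2204) (nat_lit 0) (XT.nd (nat_lit 156) (nat_lit 1748) (nat_lit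 0) (XT.nd (nat_lit 78) (nat_lit 0) (nat_lit 0) (XT.lf (nat_lit 0) (nat_lit 2655862535) (nat_lit 836) (nat_lit 17527224633) (nat_lit 912) (nat_lit 5006257635) (nat_lit 390) (nat_lit 5) (nat_lit 401) (nat_lit 5) (nat_lit 402) (nat_lit 5) (nat_lit 628) (nat_lit 594) (nat_lit 338)) (XT.lf (nat_lit 0) (nat_lit 16671603130) (nat_lit 836) (nat_lit 6579538664) (nat_lit 912) (nat_lit 2215805070) (nat_lit 390) (nat_lit 5) (nat_lit 401) (nat_lit 5) (nat_lit 402) (nat_lit 5) (nat_lit 629) (nat_lit 594) (nat_lit 337))) (XT.nd (nat_lit 78) (nat_lit 836) (nat_lit 0) (XT.lf (nat_lit 0) (nat_lit 683438217) (nat_lit 912) (nat_lit 20499793419) (nat_lit 76) (nat_lit 4565562708) (nat_lit 378) (nat_lit 5) (nat_lit 390) (nat_lit 5) (nat_lit 379) (nat_lit 5) (nat_lit 630) (nat_lit 594) (nat_lit 336)) (XT.nd (nat_lit 78) (nat_lit 836) (nat_lit 0) (XT.lf (nat_lit 0) (nat_lit 3710984697) (nat_lit 912) (nat_lit 6403390617) (nat_lit 76) (nat_lit 15919611016) (nat_lit 378) (nat_lit 5) (nat_lit 390) (nat_lit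 5) (nat_lit 379) (nat_lit 5) (nat_lit 631) (nat_lit 594) (nat_lit 335)) (XT.lf (nat_lit 0) (nat_lit 6856544180) (nat_lit 912) (nat_lit 18254040332) (nat_lit 76) (nat_lit 1213148640) (nat_lit 367) (nat_lit 5) (nat_lit 379) (nat_lit 5) (nat_lit 368) (nat_lit 5) (nat_lit 632) (nat_lit 594) (nat_lit 334))))) (XT.nd (nat_lit 156) (nat_lit 1444) (nat_lit 0) (XT.nd (nat_lit 78) (nat_lit 760) (nat_lit 0) (XT.lf (nat_lit 0) (nat_lit 10172324171) (nat_lit 912) (nat_lit 3769731984) (nat_lit 76) (nat_lit 12675072805) (nat_lit 367) (nat_lit 5) (nat_lit 379) (nat_lit 5) (nat_lit 368) (nat_lit 5) (nat_lit 633) (nat_lit 594) (nat_lit 333)) (XT.lf (nat_lit 0) (nat_lit 11147436835) (nat_lit 760) (nat_lit 2476488900) (nat_lit 836) (nat_lit 13291077059) (nat_lit 357) (nat_lit 5) (nat_lit 367) (nat_lit 5) (nat_lit 368) (nat_lit 5) (nat_lit 634) (nat_lit 594) (nat_lit 332))) (XT.nd (nat_lit 78) (nat_lit 1444) (nat_lit 0) (XT.lf (nat_lit 0) (nat_lit 17227040713) (nat_lit 836) (nat_lit 867361060)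 (nat_lit 76) (nat_lit 9122782930) (nat_lit 357) (nat_lit 5) (nat_lit 368) (nat_lit 5) (nat_lit 358) (nat_lit 5) (nat_lit 635) (nat_lit 594) (nat_lit 331)) (XT.nd (nat_lit 78) (nat_lit 684) (nat_lit 0) (XT.lf (nat_lit 0) (nat_lit 14501636761) (nat_lit 760) (nat_lit 6508356714) (nat_lit 836) (nat_lit 6513261486) (nat_lit 347) (nat_lit 5) (nat_lit 357) (nat_lit 5) (nat_lit 358) (nat_lit 5) (nat_lit 636) (nat_lit 594) (nat_lit 330)) (XT.lf (nat_lit 0) (nat_lit 2347685227) (nat_lit 684) (nat_lit 22573748238) (nat_lit 760) (nat_lit 2912956814) (nat_lit 338) (nat_lit 5) (nat_lit 347) (nat_lit 5) (nat_lit 348) (nat_lit 5) (nat_lit 637) (nat_lit 594) (nat_lit 329))))))) (XT.nd (nat_lit 780) (nat_lit 2508) (nat_lit 0) (XT.nd (nat_lit 390) (nat_lit 2052) (nat_lit 0) (XT.nd (nat_lit 156) (nat_lit 684) (nat_lit 0) (XT.nd (nat_lit 78) (nat_lit 760) (nat_lit 0) (XT.lf (nat_lit 0) (nat_lit 877727516) (nat_lit 760) (nat_lit 10000777571) (nat_lit 76) (nat_lit 17270578166) (nat_lit 337) (nat_lit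 5) (nat_lit 347) (nat_lit 5) (nat_lit 338) (nat_lit 5) (nat_lit 638) (nat_lit 594) (nat_lit 328)) (XT.lf (nat_lit 0) (nat_lit 4747757565) (nat_lit 836) (nat_lit 22626877776) (nat_lit 76) (nat_lit 1094199128) (nat_lit 327) (nat_lit 5) (nat_lit 338) (nat_lit 5) (nat_lit 328) (nat_lit 5) (nat_lit 639) (nat_lit 594) (nat_lit 327))) (XT.nd (nat_lit 78) (nat_lit 684) (nat_lit 0) (XT.lf (nat_lit 0) (nat_lit 8832141097) (nat_lit 836) (nat_lit 6732041055) (nat_lit 76) (nat_lit 13228059698) (nat_lit 327) (nat_lit 5) (nat_lit 338) (nat_lit 5) (nat_lit 328) (nat_lit 5) (nat_lit 640) (nat_lit 594) (nat_lit 326)) (XT.nd (nat_lit 78) (nat_lit 0) (nat_lit 0) (XT.lf (nat_lit 0) (nat_lit 9603681853) (nat_lit 684) (nat_lit 3454290664) (nat_lit 760) (nat_lit 16062949853) (nat_lit 318) (nat_lit 5) (nat_lit 327) (nat_lit 5) (nat_lit 328) (nat_lit 5) (nat_lit 641) (nat_lit 594) (nat_lit 325)) (XT.lf (nat_lit 0) (nat_lit 17469001676) (nat_lit 760) (nat_lit 3158962760) (nat_lit 76) (nat_lit 8826198637)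 (nat_lit 318) (nat_lit 5) (nat_lit 328) (nat_lit 5) (nat_lit 319) (nat_lit 5) (nat_lit 642) (nat_lit 594) (nat_lit 324))))) (XT.nd (nat_lit 156) (nat_lit 760) (nat_lit 0) (XT.nd (nat_lit 78) (nat_lit 608) (nat_lit 0) (XT.lf (nat_lit 0) (nat_lit 13680085960) (nat_lit 684) (nat_lit 8397348004) (nat_lit 760) (nat_lit 7714451163) (nat_lit 309) (nat_lit 5) (nat_lit 318) (nat_lit 5) (nat_lit 319) (nat_lit 5) (nat_lit 643) (nat_lit 594) (nat_lit 323)) (XT.lf (nat_lit 0) (nat_lit 742962953) (nat_lit 608) (nat_lit 26085224555) (nat_lit 684) (nat_lit 3307171246) (nat_lit 301) (nat_lit 5) (nat_lit 309) (nat_lit 5) (nat_lit 310) (nat_lit 5) (nat_lit 644) (nat_lit 594) (nat_lit 322))) (XT.nd (nat_lit 78) (nat_lit 684) (nat_lit 0) (XT.lf (nat_lit 0) (nat_lit 1334643341) (nat_lit 684) (nat_lit 12397338583) (nat_lit 76) (nat_lit 16750326345) (nat_lit 300) (nat_lit 5) (nat_lit 309) (nat_lit 5) (nat_lit 301) (nat_lit 5) (nat_lit 645) (nat_lit 594) (nat_lit 321)) (XT.nd (nat_lit 78) (nat_lit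 0) (nat_lit 0) (XT.lf (nat_lit 0) (nat_lit 4978088304) (nat_lit 684) (nat_lit 1076860824) (nat_lit 760) (nat_lit 24780211852) (nat_lit 291) (nat_lit 5) (nat_lit 300) (nat_lit 5) (nat_lit 301) (nat_lit 5) (nat_lit 646) (nat_lit 594) (nat_lit 320)) (XT.lf (nat_lit 0) (nat_lit 11027822636) (nat_lit 760) (nat_lit 8404645799) (nat_lit 76) (nat_lit 11759439252) (nat_lit 291) (nat_lit 5) (nat_lit 301) (nat_lit 5) (nat_lit 292) (nat_lit 5) (nat_lit 647) (nat_lit 594) (nat_lit 319)))))) (XT.nd (nat_lit 390) (nat_lit 608) (nat_lit 0) (XT.nd (nat_lit 156) (nat_lit 1292) (nat_lit 0) (XT.nd (nat_lit 78) (nat_lit 0) (nat_lit 0) (XT.lf (nat_lit 0) (nat_lit 9511557777) (nat_lit 608) (nat_lit 6655130683) (nat_lit 684) (nat_lit 15387770337) (nat_lit 283) (nat_lit 5) (nat_lit 291) (nat_lit 5) (nat_lit 292) (nat_lit 5) (nat_lit 648) (nat_lit 594) (nat_lit 318)) (XT.lf (nat_lit 0) (nat_lit 21504185269) (nat_lit 684) (nat_lit 4067812688) (nat_lit 76) (nat_lit 6350346063) (nat_lit 283) (nat_lit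 5) (nat_lit 292) (nat_lit 5) (nat_lit 284) (nat_lit 5) (nat_lit 649) (nat_lit 594) (nat_lit 317))) (XT.nd (nat_lit 78) (nat_lit 684) (nat_lit 0) (XT.lf (nat_lit 0) (nat_lit 14408824845) (nat_lit 608) (nat_lit 12674950135) (nat_lit 684) (nat_lit 5211105269) (nat_lit 275) (nat_lit 5) (nat_lit 283) (nat_lit 5) (nat_lit 284) (nat_lit 5) (nat_lit 650) (nat_lit 594) (nat_lit 316)) (XT.nd (nat_lit 78) (nat_lit 0) (nat_lit 0) (XT.lf (nat_lit 0) (nat_lit 131468760) (nat_lit 684) (nat_lit 32037074450) (nat_lit 76) (nat_lit 505657308) (nat_lit 266) (nat_lit 5) (nat_lit 275) (nat_lit 5) (nat_lit 267) (nat_lit 5) (nat_lit 651) (nat_lit 594) (nat_lit 315)) (XT.lf (nat_lit 0) (nat_lit 5713693587) (nat_lit 684) (nat_lit 13407617953) (nat_lit 76) (nat_lit 13935055375) (nat_lit 266) (nat_lit 5) (nat_lit 275) (nat_lit 5) (nat_lit 267) (nat_lit 5) (nat_lit 652) (nat_lit 594) (nat_lit 314))))) (XT.nd (nat_lit 76752) (nat_lit 0) (nat_lit 17480) (XT.nd (nat_lit 78) (nat_lit 0) (nat_lit 0) (XT.lf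 (nat_lit 0) (nat_lit 5665906613) (nat_lit 608) (nat_lit 5776238231) (nat_lit 684) (nat_lit 22003340306) (nat_lit 258) (nat_lit 5) (nat_lit 266) (nat_lit 5) (nat_lit 267) (nat_lit 5) (nat_lit 653) (nat_lit 594) (nat_lit 313)) (XT.nd (nat_lit 76596) (nat_lit 0) (nat_lit 17480) (XT.lf (nat_lit 0) (nat_lit 17424423926) (nat_lit 684) (nat_lit 8592262953) (nat_lit 76) (nat_lit 7822913842) (nat_lit 258) (nat_lit 5) (nat_lit 267) (nat_lit 5) (nat_lit 259) (nat_lit 5) (nat_lit 654) (nat_lit 594) (nat_lit 312)) (XT.lf (nat_lit 0) (nat_lit 3381565169) (nat_lit 0) (nat_lit 3381565169) (nat_lit 1748) (nat_lit 2275223172) (nat_lit 488) (nat_lit 5) (nat_lit 488) (nat_lit 3) (nat_lit 511) (nat_lit 3) (nat_lit 595) (nat_lit 595) (nat_lit 370)))) (XT.nd (nat_lit 78) (nat_lit 0) (nat_lit 0) (XT.lf (nat_lit 0) (nat_lit 13877349922) (nat_lit 1748) (nat_lit 2395456515) (nat_lit 1824) (nat_lit 1980332140) (nat_lit 488) (nat_lit 5) (nat_lit 511) (nat_lit 3) (nat_lit 512) (nat_lit 5) (nat_lit 596)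 (nat_lit 595) (nat_lit 369)) (XT.nd (nat_lit 78) (nat_lit 0) (nat_lit 76) (XT.lf (nat_lit 76) (nat_lit 6741874116) (nat_lit 0) (nat_lit 7576846297) (nat_lit 1824) (nat_lit 4112713659) (nat_lit 489) (nat_lit 5) (nat_lit 488) (nat_lit 5) (nat_lit 512) (nat_lit 5) (nat_lit 597) (nat_lit 595) (nat_lit 368)) (XT.lf (nat_lit 0) (nat_lit 14788294492) (nat_lit 1748) (nat_lit 2529939560) (nat_lit 1824) (nat_lit 1294674389) (nat_lit 489) (nat_lit 5) (nat_lit 512) (nat_lit 5) (nat_lit 513) (nat_lit 5) (nat_lit 598) (nat_lit 595) (nat_lit 367))))))))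
noncomputable def xc222 : XT := (XT.nd (nat_lit 1560) (nat_lit 9956) (nat_lit 0) (XT.nd (nat_lit 780) (nat_lit 0) (nat_lit 152) (XT.nd (nat_lit 390) (nat_lit 1596) (nat_lit 0) (XT.nd (nat_lit 156) (nat_lit 0) (nat_lit 76) (XT.nd (nat_lit 78) (nat_lit 0) (nat_lit 76) (XT.lf (nat_lit 76) (nat_lit 6849700807) (nat_lit 0) (nat_lit 8507111523) (nat_lit 1824) (nat_lit 3439409401) (nat_lit 490) (nat_lit 5) (nat_lit 489) (nat_lit 5) (nat_lit 513) (nat_lit 5) (nat_lit 599) (nat_lit 595) (nat_lit 366)) (XT.lf (nat_lit 0) (nat_lit 15951905900) (nat_lit 1748) (nat_lit 2537790397) (nat_lit 1824) (nat_lit 493201351) (nat_lit 490) (nat_lit 5) (nat_lit 513) (nat_lit 5) (nat_lit 514) (nat_lit 5) (nat_lit 600) (nat_lit 595) (nat_lit 365))) (XT.nd (nat_lit 78) (nat_lit 0) (nat_lit 0) (XT.lf (nat_lit 76) (nat_lit 7092932506) (nat_lit 0) (nat_lit 9563455149) (nat_lit 1824) (nat_lit 2514970162) (nat_lit 491) (nat_lit 5) (nat_lit 490) (nat_lit 5) (nat_lit 514) (nat_lit 5) (nat_lit 601) (nat_lit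 595) (nat_lit 364)) (XT.nd (nat_lit 78) (nat_lit 0) (nat_lit 76) (XT.lf (nat_lit 76) (nat_lit 16947820327) (nat_lit 0) (nat_lit 439342091) (nat_lit 1824) (nat_lit 1976181156) (nat_lit 491) (nat_lit 5) (nat_lit 490) (nat_lit 5) (nat_lit 514) (nat_lit 5) (nat_lit 602) (nat_lit 595) (nat_lit 363)) (XT.lf (nat_lit 76) (nat_lit 7478241513) (nat_lit 0) (nat_lit 10755717639) (nat_lit 1824) (nat_lit 1323182206) (nat_lit 492) (nat_lit 5) (nat_lit 491) (nat_lit 5) (nat_lit 515) (nat_lit 5) (nat_lit 603) (nat_lit 595) (nat_lit 362))))) (XT.nd (nat_lit 156) (nat_lit 0) (nat_lit 0) (XT.nd (nat_lit 78) (nat_lit 1748) (nat_lit 0) (XT.lf (nat_lit 76) (nat_lit 17596793759) (nat_lit 0) (nat_lit 1515352404) (nat_lit 1824) (nat_lit 642380281) (nat_lit 492) (nat_lit 5) (nat_lit 491) (nat_lit 5) (nat_lit 515) (nat_lit 5) (nat_lit 604) (nat_lit 595) (nat_lit 361)) (XT.lf (nat_lit 0) (nat_lit 150845440) (nat_lit 1824) (nat_lit 11942214697) (nat_lit 1900) (nat_lit 7860802950) (nat_lit 468) (nat_lit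 5) (nat_lit 492) (nat_lit 5) (nat_lit 493) (nat_lit 5) (nat_lit 605) (nat_lit 595) (nat_lit 360))) (XT.nd (nat_lit 78) (nat_lit 0) (nat_lit 76) (XT.lf (nat_lit 0) (nat_lit 971450072) (nat_lit 1824) (nat_lit 1760586502) (nat_lit 1900) (nat_lit 17424663057) (nat_lit 468) (nat_lit 5) (nat_lit 492) (nat_lit 5) (nat_lit 493) (nat_lit 5) (nat_lit 606) (nat_lit 595) (nat_lit 359)) (XT.nd (nat_lit 78) (nat_lit 0) (nat_lit 0) (XT.lf (nat_lit 0) (nat_lit 1905414926) (nat_lit 1824) (nat_lit 11670846567) (nat_lit 1900) (nat_lit 6785392851) (nat_lit 469) (nat_lit 5) (nat_lit 493) (nat_lit 5) (nat_lit 494) (nat_lit 5) (nat_lit 607) (nat_lit 595) (nat_lit 358)) (XT.lf (nat_lit 0) (nat_lit 2883707228) (nat_lit 1824) (nat_lit 1216537134) (nat_lit 1900) (nat_lit 16469951217) (nat_lit 469) (nat_lit 5) (nat_lit 493) (nat_lit 5) (nat_lit 494) (nat_lit 5) (nat_lit 608) (nat_lit 595) (nat_lit 357)))))) (XT.nd (nat_lit 390) (nat_lit 0) (nat_lit 152) (XT.nd (nat_lit 156) (nat_lit 0) (nat_lit 76) (XT.nd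 (nat_lit 78) (nat_lit 0) (nat_lit 0) (XT.lf (nat_lit 0) (nat_lit 3975997642) (nat_lit 1824) (nat_lit 11248871375) (nat_lit 1900) (nat_lit 5556150364) (nat_lit 470) (nat_lit 5) (nat_lit 494) (nat_lit 5) (nat_lit 495) (nat_lit 5) (nat_lit 609) (nat_lit 595) (nat_lit 356)) (XT.lf (nat_lit 0) (nat_lit 5121325776) (nat_lit 1824) (nat_lit 513810817) (nat_lit 1900) (nat_lit 15360299604) (nat_lit 470) (nat_lit 5) (nat_lit 494) (nat_lit 5) (nat_lit 495) (nat_lit 5) (nat_lit 610) (nat_lit 595) (nat_lit 355))) (XT.nd (nat_lit 78) (nat_lit 0) (nat_lit 0) (XT.lf (nat_lit 0) (nat_lit 6381484093) (nat_lit 1824) (nat_lit 10668578824) (nat_lit 1900) (nat_lit 4162240329) (nat_lit 471) (nat_lit 5) (nat_lit 495) (nat_lit 5) (nat_lit 496) (nat_lit 5) (nat_lit 611) (nat_lit 595) (nat_lit 354)) (XT.nd (nat_lit 78) (nat_lit 0) (nat_lit 76) (XT.lf (nat_lit 76) (nat_lit 360306601) (nat_lit 0) (nat_lit 7345638714) (nat_lit 1900) (nat_lit 13726780690) (nat_lit 472) (nat_lit 5) (nat_lit 471) (nat_lit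 5) (nat_lit 496) (nat_lit 5) (nat_lit 612) (nat_lit 595) (nat_lit 353)) (XT.lf (nat_lit 0) (nat_lit 9141573338) (nat_lit 1824) (nat_lit 9921869372) (nat_lit 1900) (nat_lit 2592421313) (nat_lit 472) (nat_lit 5) (nat_lit 496) (nat_lit 5) (nat_lit 497) (nat_lit 5) (nat_lit 613) (nat_lit 595) (nat_lit 352))))) (XT.nd (nat_lit 156) (nat_lit 0) (nat_lit 76) (XT.nd (nat_lit 78) (nat_lit 0) (nat_lit 76) (XT.lf (nat_lit 76) (nat_lit 1418630990) (nat_lit 0) (nat_lit 9241254677) (nat_lit 1900) (nat_lit 11222500048) (nat_lit 473) (nat_lit 5) (nat_lit 472) (nat_lit 5) (nat_lit 497) (nat_lit 5) (nat_lit 614) (nat_lit 595) (nat_lit 351)) (XT.lf (nat_lit 0) (nat_lit 12276809923) (nat_lit 1824) (nat_lit 9000241583) (nat_lit 1900) (nat_lit 835021762) (nat_lit 473) (nat_lit 5) (nat_lit 497) (nat_lit 5) (nat_lit 498) (nat_lit 5) (nat_lit 615) (nat_lit 595) (nat_lit 350))) (XT.nd (nat_lit 78) (nat_lit 0) (nat_lit 0) (XT.lf (nat_lit 76) (nat_lit 2663248787) (nat_lit 0) (nat_lit 11337567319) (nat_lit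 1900) (nat_lit 8344043934) (nat_lit 474) (nat_lit 5) (nat_lit 473) (nat_lit 5) (nat_lit 498) (nat_lit 5) (nat_lit 616) (nat_lit 595) (nat_lit 349)) (XT.nd (nat_lit 78) (nat_lit 0) (nat_lit 76) (XT.lf (nat_lit 76) (nat_lit 14679007830) (nat_lit 0) (nat_lit 1136996455) (nat_lit 1900) (nat_lit 6765164553) (nat_lit 474) (nat_lit 5) (nat_lit 473) (nat_lit 5) (nat_lit 498) (nat_lit 5) (nat_lit 617) (nat_lit 595) (nat_lit 348)) (XT.lf (nat_lit 76) (nat_lit 4103505040) (nat_lit 0) (nat_lit 13647187540) (nat_lit 1900) (nat_lit 5069847626) (nat_lit 475) (nat_lit 5) (nat_lit 474) (nat_lit 5) (nat_lit 499) (nat_lit 5) (nat_lit 618) (nat_lit 595) (nat_lit 347))))))) (XT.nd (nat_lit 780) (nat_lit 4864) (nat_lit 0) (XT.nd (nat_lit 390) (nat_lit 2660) (nat_lit 0) (XT.nd (nat_lit 156) (nat_lit 1140) (nat_lit 0) (XT.nd (nat_lit 78) (nat_lit 1748) (nat_lit 0) (XT.lf (nat_lit 76) (nat_lit 16445770215) (nat_lit 0) (nat_lit 3335246145) (nat_lit 1900) (nat_lit 3282544124) (nat_lit 475) (nat_lit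 5) (nat_lit 474) (nat_lit 5) (nat_lit 499) (nat_lit 5) (nat_lit 619) (nat_lit 595) (nat_lit 346)) (XT.lf (nat_lit 0) (nat_lit 5749189573) (nat_lit 1824) (nat_lit 16183228311) (nat_lit 1900) (nat_lit 1377414167) (nat_lit 451) (nat_lit 5) (nat_lit 475) (nat_lit 5) (nat_lit 476) (nat_lit 5) (nat_lit 620) (nat_lit 595) (nat_lit 345))) (XT.nd (nat_lit 78) (nat_lit 1064) (nat_lit 0) (XT.lf (nat_lit 0) (nat_lit 621721532) (nat_lit 1900) (nat_lit 5136023224) (nat_lit 76) (nat_lit 17801944639) (nat_lit 450) (nat_lit 5) (nat_lit 475) (nat_lit 5) (nat_lit 451) (nat_lit 5) (nat_lit 621) (nat_lit 595) (nat_lit 344)) (XT.nd (nat_lit 78) (nat_lit 0) (nat_lit 0) (XT.lf (nat_lit 0) (nat_lit 2720572150) (nat_lit 1140) (nat_lit 16220502970) (nat_lit 76) (nat_lit 4871723447) (nat_lit 436) (nat_lit 5) (nat_lit 451) (nat_lit 5) (nat_lit 437) (nat_lit 5) (nat_lit 622) (nat_lit 595) (nat_lit 343)) (XT.lf (nat_lit 0) (nat_lit 4930875390) (nat_lit 1140) (nat_lit 3466871020) (nat_lit 76) (nat_lit 15671834287)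 (nat_lit 436) (nat_lit 5) (nat_lit 451) (nat_lit 5) (nat_lit 437) (nat_lit 5) (nat_lit 623) (nat_lit 595) (nat_lit 342))))) (XT.nd (nat_lit 156) (nat_lit 1748) (nat_lit 0) (XT.nd (nat_lit 78) (nat_lit 0) (nat_lit 0) (XT.lf (nat_lit 0) (nat_lit 7260574448) (nat_lit 988) (nat_lit 14680399422) (nat_lit 76) (nat_lit 2389021086) (nat_lit 424) (nat_lit 5) (nat_lit 437) (nat_lit 5) (nat_lit 425) (nat_lit 5) (nat_lit 624) (nat_lit 595) (nat_lit 341)) (XT.lf (nat_lit 0) (nat_lit 9712664195) (nat_lit 988) (nat_lit 1578554928) (nat_lit 76) (nat_lit 13302882715) (nat_lit 424) (nat_lit 5) (nat_lit 437) (nat_lit 5) (nat_lit 425) (nat_lit 5) (nat_lit 625) (nat_lit 595) (nat_lit 340))) (XT.nd (nat_lit 78) (nat_lit 836) (nat_lit 0) (XT.lf (nat_lit 0) (nat_lit 11938946903) (nat_lit 912) (nat_lit 349191744) (nat_lit 988) (nat_lit 12573865624) (nat_lit 412) (nat_lit 5) (nat_lit 424) (nat_lit 5) (nat_lit 425) (nat_lit 5) (nat_lit 626) (nat_lit 595) (nat_lit 339)) (XT.nd (nat_lit 78) (nat_lit 0)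 (nat_lit 0) (XT.lf (nat_lit 0) (nat_lit 547045903) (nat_lit 836) (nat_lit 14449359810) (nat_lit 912) (nat_lit 10137233642) (nat_lit 401) (nat_lit 5) (nat_lit 412) (nat_lit 5) (nat_lit 413) (nat_lit 5) (nat_lit 627) (nat_lit 595) (nat_lit 338)) (XT.lf (nat_lit 0) (nat_lit 14456397615) (nat_lit 836) (nat_lit 3388371968) (nat_lit 912) (nat_lit 7564219186) (nat_lit 401) (nat_lit 5) (nat_lit 412) (nat_lit 5) (nat_lit 413) (nat_lit 5) (nat_lit 628) (nat_lit 595) (nat_lit 337)))))) (XT.nd (nat_lit 390) (nat_lit 2280) (nat_lit 0) (XT.nd (nat_lit 156) (nat_lit 1748) (nat_lit 0) (XT.nd (nat_lit 78) (nat_lit 0) (nat_lit 0) (XT.lf (nat_lit 0) (nat_lit 2938387985) (nat_lit 836) (nat_lit 17879017517) (nat_lit 912) (nat_lit 4871093828) (nat_lit 390) (nat_lit 5) (nat_lit 401) (nat_lit 5) (nat_lit 402) (nat_lit 5) (nat_lit 629) (nat_lit 595) (nat_lit 336)) (XT.lf (nat_lit 0) (nat_lit 17229945192) (nat_lit 836) (nat_lit 6712353351) (nat_lit 912) (nat_lit 2029445720) (nat_lit 390) (nat_lit 5)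 (nat_lit 401) (nat_lit 5) (nat_lit 402) (nat_lit 5) (nat_lit 630) (nat_lit 595) (nat_lit 335))) (XT.nd (nat_lit 78) (nat_lit 836) (nat_lit 0) (XT.lf (nat_lit 0) (nat_lit 921775316) (nat_lit 912) (nat_lit 20678835554) (nat_lit 76) (nat_lit 4658647867) (nat_lit 378) (nat_lit 5) (nat_lit 390) (nat_lit 5) (nat_lit 379) (nat_lit 5) (nat_lit 631) (nat_lit 595) (nat_lit 334)) (XT.nd (nat_lit 78) (nat_lit 836) (nat_lit 0) (XT.lf (nat_lit 0) (nat_lit 4005467464) (nat_lit 912) (nat_lit 6305033200) (nat_lit 76) (nat_lit 16239742359) (nat_lit 378) (nat_lit 5) (nat_lit 390) (nat_lit 5) (nat_lit 379) (nat_lit 5) (nat_lit 632) (nat_lit 595) (nat_lit 333)) (XT.lf (nat_lit 0) (nat_lit 7211128580) (nat_lit 912) (nat_lit 18389868930) (nat_lit 76) (nat_lit 1244843812) (nat_lit 367) (nat_lit 5) (nat_lit 379) (nat_lit 5) (nat_lit 368) (nat_lit 5) (nat_lit 633) (nat_lit 595) (nat_lit 332))))) (XT.nd (nat_lit 234) (nat_lit 1520) (nat_lit 0) (XT.nd (nat_lit 78) (nat_lit 760) (nat_lit 0) (XT.lf (nat_lit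 0) (nat_lit 10588960376) (nat_lit 912) (nat_lit 3620369556) (nat_lit 76) (nat_lit 12935860731) (nat_lit 367) (nat_lit 5) (nat_lit 379) (nat_lit 5) (nat_lit 368) (nat_lit 5) (nat_lit 634) (nat_lit 595) (nat_lit 331)) (XT.nd (nat_lit 78) (nat_lit 0) (nat_lit 0) (XT.lf (nat_lit 0) (nat_lit 11593663975) (nat_lit 760) (nat_lit 2513199478) (nat_lit 836) (nat_lit 13342213466) (nat_lit 357) (nat_lit 5) (nat_lit 367) (nat_lit 5) (nat_lit 368) (nat_lit 5) (nat_lit 635) (nat_lit 595) (nat_lit 330)) (XT.lf (nat_lit 0) (nat_lit 17777995678) (nat_lit 836) (nat_lit 661746415) (nat_lit 76) (nat_lit 9317641603) (nat_lit 357) (nat_lit 5) (nat_lit 368) (nat_lit 5) (nat_lit 358) (nat_lit 5) (nat_lit 636) (nat_lit 595) (nat_lit 329)))) (XT.nd (nat_lit 78) (nat_lit 760) (nat_lit 0) (XT.lf (nat_lit 0) (nat_lit 15013164509) (nat_lit 760) (nat_lit 6620833743) (nat_lit 836) (nat_lit 6435629614) (nat_lit 347) (nat_lit 5) (nat_lit 357) (nat_lit 5) (nat_lit 358) (nat_lit 5) (nat_lit 637) (nat_lit 595)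 (nat_lit 328)) (XT.nd (nat_lit 78) (nat_lit 76) (nat_lit 0) (XT.lf (nat_lit 0) (nat_lit 2618627912) (nat_lit 684) (nat_lit 23002609843) (nat_lit 760) (nat_lit 2765797036) (nat_lit 338) (nat_lit 5) (nat_lit 347) (nat_lit 5) (nat_lit 348) (nat_lit 5) (nat_lit 638) (nat_lit 595) (nat_lit 327)) (XT.lf (nat_lit 0) (nat_lit 1094031879) (nat_lit 760) (nat_lit 9978539634) (nat_lit 76) (nat_lit 17635503241) (nat_lit 337) (nat_lit 5) (nat_lit 347) (nat_lit 5) (nat_lit 338) (nat_lit 5) (nat_lit 639) (nat_lit 595) (nat_lit 326))))))))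
noncomputable def xc223 : XT := (XT.nd (nat_lit 78156) (nat_lit 0) (nat_lit 14668) (XT.nd (nat_lit 780) (nat_lit 1900) (nat_lit 0) (XT.nd (nat_lit 390) (nat_lit 1976) (nat_lit 0) (XT.nd (nat_lit 156) (nat_lit 1368) (nat_lit 0) (XT.nd (nat_lit 78) (nat_lit 0) (nat_lit 0) (XT.lf (nat_lit 0) (nat_lit 5039158099) (nat_lit 836) (nat_lit 22854842543) (nat_lit 76) (nat_lit 1140266737) (nat_lit 327) (nat_lit 5) (nat_lit 338) (nat_lit 5) (nat_lit 328) (nat_lit 5) (nat_lit 640) (nat_lit 595) (nat_lit 325)) (XT.lf (nat_lit 0) (nat_lit 9201377432) (nat_lit 836) (nat_lit 6646512476) (nat_lit 76) (nat_lit 13516330330) (nat_lit 327) (nat_lit 5) (nat_lit 338) (nat_lit 5) (nat_lit 328) (nat_lit 5) (nat_lit 641) (nat_lit 595) (nat_lit 324))) (XT.nd (nat_lit 78) (nat_lit 684) (nat_lit 0) (XT.lf (nat_lit 0) (nat_lit 10014476408) (nat_lit 684) (nat_lit 3494892811) (nat_lit 760) (nat_lit 16190152561) (nat_lit 318) (nat_lit 5) (nat_lit 327) (nat_lit 5) (nat_lit 328) (nat_lit 5) (nat_lit 642) (nat_lit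 595) (nat_lit 323)) (XT.nd (nat_lit 78) (nat_lit 684) (nat_lit 0) (XT.lf (nat_lit 0) (nat_lit 18005070127) (nat_lit 760) (nat_lit 3004146896) (nat_lit 76) (nat_lit 9030281529) (nat_lit 318) (nat_lit 5) (nat_lit 328) (nat_lit 5) (nat_lit 319) (nat_lit 5) (nat_lit 643) (nat_lit 595) (nat_lit 322)) (XT.lf (nat_lit 0) (nat_lit 14170248620) (nat_lit 684) (nat_lit 8533167941) (nat_lit 760) (nat_lit 7680603851) (nat_lit 309) (nat_lit 5) (nat_lit 318) (nat_lit 5) (nat_lit 319) (nat_lit 5) (nat_lit 644) (nat_lit 595) (nat_lit 321))))) (XT.nd (nat_lit 156) (nat_lit 1292) (nat_lit 0) (XT.nd (nat_lit 78) (nat_lit 76) (nat_lit 0) (XT.lf (nat_lit 0) (nat_lit 976429251) (nat_lit 608) (nat_lit 26570763416) (nat_lit 684) (nat_lit 3187210966) (nat_lit 301) (nat_lit 5) (nat_lit 309) (nat_lit 5) (nat_lit 310) (nat_lit 5) (nat_lit 645) (nat_lit 595) (nat_lit 320)) (XT.lf (nat_lit 0) (nat_lit 1541397896) (nat_lit 684) (nat_lit 12428558857) (nat_lit 76) (nat_lit 17118383501) (nat_lit 300) (nat_lit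 5) (nat_lit 309) (nat_lit 5) (nat_lit 301) (nat_lit 5) (nat_lit 646) (nat_lit 595) (nat_lit 319))) (XT.nd (nat_lit 78) (nat_lit 608) (nat_lit 0) (XT.lf (nat_lit 0) (nat_lit 5292950736) (nat_lit 684) (nat_lit 1061026317) (nat_lit 760) (nat_lit 25094315876) (nat_lit 291) (nat_lit 5) (nat_lit 300) (nat_lit 5) (nat_lit 301) (nat_lit 5) (nat_lit 647) (nat_lit 595) (nat_lit 318)) (XT.nd (nat_lit 78) (nat_lit 608) (nat_lit 0) (XT.lf (nat_lit 0) (nat_lit 11423057112) (nat_lit 760) (nat_lit 8358396269) (nat_lit 76) (nat_lit 12030786455) (nat_lit 291) (nat_lit 5) (nat_lit 301) (nat_lit 5) (nat_lit 292) (nat_lit 5) (nat_lit 648) (nat_lit 595) (nat_lit 317)) (XT.lf (nat_lit 0) (nat_lit 9914721230) (nat_lit 608) (nat_lit 6747936460) (nat_lit 684) (nat_lit 15519425374) (nat_lit 283) (nat_lit 5) (nat_lit 291) (nat_lit 5) (nat_lit 292) (nat_lit 5) (nat_lit 649) (nat_lit 595) (nat_lit 316)))))) (XT.nd (nat_lit 76986) (nat_lit 0) (nat_lit 17480) (XT.nd (nat_lit 156) (nat_lit 1292) (nat_lit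 0) (XT.nd (nat_lit 78) (nat_lit 608) (nat_lit 0) (XT.lf (nat_lit 0) (nat_lit 22103775931) (nat_lit 684) (nat_lit 3937271321) (nat_lit 76) (nat_lit 6516341549) (nat_lit 283) (nat_lit 5) (nat_lit 292) (nat_lit 5) (nat_lit 284) (nat_lit 5) (nat_lit 650) (nat_lit 595) (nat_lit 315)) (XT.lf (nat_lit 0) (nat_lit 14907504899) (nat_lit 608) (nat_lit 12885495600) (nat_lit 684) (nat_lit 5144414629) (nat_lit 275) (nat_lit 5) (nat_lit 283) (nat_lit 5) (nat_lit 284) (nat_lit 5) (nat_lit 651) (nat_lit 595) (nat_lit 314))) (XT.nd (nat_lit 78) (nat_lit 608) (nat_lit 0) (XT.lf (nat_lit 0) (nat_lit 301124027) (nat_lit 684) (nat_lit 32463402762) (nat_lit 76) (nat_lit 559805951) (nat_lit 266) (nat_lit 5) (nat_lit 275) (nat_lit 5) (nat_lit 267) (nat_lit 5) (nat_lit 652) (nat_lit 595) (nat_lit 313)) (XT.nd (nat_lit 78) (nat_lit 608) (nat_lit 0) (XT.lf (nat_lit 0) (nat_lit 5991718334) (nat_lit 684) (nat_lit 13465561315) (nat_lit 76) (nat_lit 14256928538) (nat_lit 266) (nat_lit 5) (nat_lit 275) (nat_lit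 5) (nat_lit 267) (nat_lit 5) (nat_lit 653) (nat_lit 595) (nat_lit 312)) (XT.lf (nat_lit 0) (nat_lit 5988050788) (nat_lit 608) (nat_lit 5844832863) (nat_lit 684) (nat_lit 22278262451) (nat_lit 258) (nat_lit 5) (nat_lit 266) (nat_lit 5) (nat_lit 267) (nat_lit 5) (nat_lit 654) (nat_lit 595) (nat_lit 311))))) (XT.nd (nat_lit 156) (nat_lit 0) (nat_lit 0) (XT.nd (nat_lit 78) (nat_lit 0) (nat_lit 0) (XT.lf (nat_lit 0) (nat_lit 3549937191) (nat_lit 0) (nat_lit 3549937191) (nat_lit 1748) (nat_lit 2115197711) (nat_lit 488) (nat_lit 5) (nat_lit 488) (nat_lit 3) (nat_lit 511) (nat_lit 3) (nat_lit 596) (nat_lit 596) (nat_lit 368)) (XT.lf (nat_lit 0) (nat_lit 14548676060) (nat_lit 1748) (nat_lit 2236614112) (nat_lit 1824) (nat_lit 1824998615) (nat_lit 488) (nat_lit 5) (nat_lit 511) (nat_lit 3) (nat_lit 512) (nat_lit 5) (nat_lit 597) (nat_lit 596) (nat_lit 367))) (XT.nd (nat_lit 78) (nat_lit 0) (nat_lit 76) (XT.lf (nat_lit 76) (nat_lit 7082102923) (nat_lit 0) (nat_lit 7910383414) (nat_lit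 1824) (nat_lit 3799792332) (nat_lit 489) (nat_lit 5) (nat_lit 488) (nat_lit 5) (nat_lit 512) (nat_lit 5) (nat_lit 598) (nat_lit 596) (nat_lit 366)) (XT.nd (nat_lit 78) (nat_lit 0) (nat_lit 0) (XT.lf (nat_lit 0) (nat_lit 15462697491) (nat_lit 1748) (nat_lit 2370384356) (nat_lit 1824) (nat_lit 1144476478) (nat_lit 489) (nat_lit 5) (nat_lit 512) (nat_lit 5) (nat_lit 513) (nat_lit 5) (nat_lit 599) (nat_lit 596) (nat_lit 365)) (XT.lf (nat_lit 76) (nat_lit 7195466227) (nat_lit 0) (nat_lit 8841050684) (nat_lit 1824) (nat_lit 3128143042) (nat_lit 490) (nat_lit 5) (nat_lit 489) (nat_lit 5) (nat_lit 513) (nat_lit 5) (nat_lit 600) (nat_lit 596) (nat_lit 364))))))) (XT.nd (nat_lit 780) (nat_lit 1292) (nat_lit 0) (XT.nd (nat_lit 390) (nat_lit 1672) (nat_lit 0) (XT.nd (nat_lit 156) (nat_lit 0) (nat_lit 0) (XT.nd (nat_lit 78) (nat_lit 0) (nat_lit 0) (XT.lf (nat_lit 0) (nat_lit 16635164465) (nat_lit 1748) (nat_lit 2375486309) (nat_lit 1824) (nat_lit 344586256) (nat_lit 490) (nat_lit 5) (nat_lit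 513) (nat_lit 5) (nat_lit 514) (nat_lit 5) (nat_lit 601) (nat_lit 596) (nat_lit 363)) (XT.lf (nat_lit 76) (nat_lit 7446449342) (nat_lit 0) (nat_lit 9901519161) (nat_lit 1824) (nat_lit 2199613916) (nat_lit 491) (nat_lit 5) (nat_lit 490) (nat_lit 5) (nat_lit 514) (nat_lit 5) (nat_lit 602) (nat_lit 596) (nat_lit 362))) (XT.nd (nat_lit 78) (nat_lit 0) (nat_lit 76) (XT.lf (nat_lit 76) (nat_lit 17494284760) (nat_lit 0) (nat_lit 592045509) (nat_lit 1824) (nat_lit 1657218848) (nat_lit 491) (nat_lit 5) (nat_lit 490) (nat_lit 5) (nat_lit 514) (nat_lit 5) (nat_lit 603) (nat_lit 596) (nat_lit 361)) (XT.nd (nat_lit 78) (nat_lit 0) (nat_lit 0) (XT.lf (nat_lit 76) (nat_lit 7841892311) (nat_lit 0) (nat_lit 11101753856) (nat_lit 1824) (nat_lit 997705669) (nat_lit 492) (nat_lit 5) (nat_lit 491) (nat_lit 5) (nat_lit 515) (nat_lit 5) (nat_lit 604) (nat_lit 596) (nat_lit 360)) (XT.lf (nat_lit 76) (nat_lit 18158617838) (nat_lit 0) (nat_lit 1674014221) (nat_lit 1824) (nat_lit 310188494) (nat_lit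 492) (nat_lit 5) (nat_lit 491) (nat_lit 5) (nat_lit 515) (nat_lit 5) (nat_lit 605) (nat_lit 596) (nat_lit 359))))) (XT.nd (nat_lit 156) (nat_lit 0) (nat_lit 76) (XT.nd (nat_lit 78) (nat_lit 0) (nat_lit 0) (XT.lf (nat_lit 0) (nat_lit 488289577) (nat_lit 1824) (nat_lit 11960497344) (nat_lit 1900) (nat_lit 7897434548) (nat_lit 468) (nat_lit 5) (nat_lit 492) (nat_lit 5) (nat_lit 493) (nat_lit 5) (nat_lit 606) (nat_lit 596) (nat_lit 358)) (XT.lf (nat_lit 0) (nat_lit 1318748905) (nat_lit 1824) (nat_lit 1579561324) (nat_lit 1900) (nat_lit 17654936257) (nat_lit 468) (nat_lit 5) (nat_lit 492) (nat_lit 5) (nat_lit 493) (nat_lit 5) (nat_lit 607) (nat_lit 596) (nat_lit 357))) (XT.nd (nat_lit 78) (nat_lit 0) (nat_lit 0) (XT.lf (nat_lit 0) (nat_lit 2265657606) (nat_lit 1824) (nat_lit 11682261983) (nat_lit 1900) (nat_lit 6814495997) (nat_lit 469) (nat_lit 5) (nat_lit 493) (nat_lit 5) (nat_lit 494) (nat_lit 5) (nat_lit 608) (nat_lit 596) (nat_lit 356)) (XT.nd (nat_lit 78) (nat_lit 0) (nat_lit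 76) (XT.lf (nat_lit 0) (nat_lit 3257199394) (nat_lit 1824) (nat_lit 1023219332) (nat_lit 1900) (nat_lit 16694835819) (nat_lit 469) (nat_lit 5) (nat_lit 493) (nat_lit 5) (nat_lit 494) (nat_lit 5) (nat_lit 609) (nat_lit 596) (nat_lit 355)) (XT.lf (nat_lit 0) (nat_lit 4365931340) (nat_lit 1824) (nat_lit 11250767957) (nat_lit 1900) (nat_lit 5573704170) (nat_lit 470) (nat_lit 5) (nat_lit 494) (nat_lit 5) (nat_lit 495) (nat_lit 5) (nat_lit 610) (nat_lit 596) (nat_lit 354)))))) (XT.nd (nat_lit 390) (nat_lit 1444) (nat_lit 0) (XT.nd (nat_lit 156) (nat_lit 0) (nat_lit 76) (XT.nd (nat_lit 78) (nat_lit 0) (nat_lit 76) (XT.lf (nat_lit 0) (nat_lit 5528079493) (nat_lit 1824) (nat_lit 305380322) (nat_lit 1900) (nat_lit 15575771085) (nat_lit 470) (nat_lit 5) (nat_lit 494) (nat_lit 5) (nat_lit 495) (nat_lit 5) (nat_lit 611) (nat_lit 596) (nat_lit 353)) (XT.lf (nat_lit 0) (nat_lit 6808348760) (nat_lit 1824) (nat_lit 10658124537) (nat_lit 1900) (nat_lit 4164064377) (nat_lit 471) (nat_lit 5)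 (nat_lit 495) (nat_lit 5) (nat_lit 496) (nat_lit 5) (nat_lit 612) (nat_lit 596) (nat_lit 352))) (XT.nd (nat_lit 78) (nat_lit 0) (nat_lit 76) (XT.lf (nat_lit 76) (nat_lit 589866058) (nat_lit 0) (nat_lit 7565009461) (nat_lit 1900) (nat_lit 13700582371) (nat_lit 472) (nat_lit 5) (nat_lit 471) (nat_lit 5) (nat_lit 496) (nat_lit 5) (nat_lit 613) (nat_lit 596) (nat_lit 351)) (XT.nd (nat_lit 78) (nat_lit 0) (nat_lit 0) (XT.lf (nat_lit 0) (nat_lit 9612974268) (nat_lit 1824) (nat_lit 9896045579) (nat_lit 1900) (nat_lit 2574164176) (nat_lit 472) (nat_lit 5) (nat_lit 496) (nat_lit 5) (nat_lit 497) (nat_lit 5) (nat_lit 614) (nat_lit 596) (nat_lit 350)) (XT.lf (nat_lit 76) (nat_lit 1669789389) (nat_lit 0) (nat_lit 9487651704) (nat_lit 1900) (nat_lit 11156879799) (nat_lit 473) (nat_lit 5) (nat_lit 472) (nat_lit 5) (nat_lit 497) (nat_lit 5) (nat_lit 615) (nat_lit 596) (nat_lit 349))))) (XT.nd (nat_lit 234) (nat_lit 1672) (nat_lit 0) (XT.nd (nat_lit 78) (nat_lit 0) (nat_lit 0) (XT.lf (nat_lit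 0) (nat_lit 12800736265) (nat_lit 1824) (nat_lit 8955836531) (nat_lit 1900) (nat_lit 792149250) (nat_lit 473) (nat_lit 5) (nat_lit 497) (nat_lit 5) (nat_lit 498) (nat_lit 5) (nat_lit 616) (nat_lit 596) (nat_lit 348)) (XT.nd (nat_lit 78) (nat_lit 0) (nat_lit 0) (XT.lf (nat_lit 76) (nat_lit 2939447266) (nat_lit 0) (nat_lit 11615764107) (nat_lit 1900) (nat_lit 8231033891) (nat_lit 474) (nat_lit 5) (nat_lit 473) (nat_lit 5) (nat_lit 498) (nat_lit 5) (nat_lit 617) (nat_lit 596) (nat_lit 347)) (XT.lf (nat_lit 76) (nat_lit 15191150245) (nat_lit 0) (nat_lit 1210173091) (nat_lit 1900) (nat_lit 6626064980) (nat_lit 474) (nat_lit 5) (nat_lit 473) (nat_lit 5) (nat_lit 498) (nat_lit 5) (nat_lit 618) (nat_lit 596) (nat_lit 346)))) (XT.nd (nat_lit 78) (nat_lit 1748) (nat_lit 0) (XT.lf (nat_lit 76) (nat_lit 4408393151) (nat_lit 0) (nat_lit 13962163393) (nat_lit 1900) (nat_lit 4901074015) (nat_lit 475) (nat_lit 5) (nat_lit 474) (nat_lit 5) (nat_lit 499) (nat_lit 5) (nat_lit 619) (nat_lit 596)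 (nat_lit 345)) (XT.nd (nat_lit 78) (nat_lit 1748) (nat_lit 0) (XT.lf (nat_lit 76) (nat_lit 16993134648) (nat_lit 0) (nat_lit 3443159011) (nat_lit 1900) (nat_lit 3083321905) (nat_lit 475) (nat_lit 5) (nat_lit 474) (nat_lit 5) (nat_lit 499) (nat_lit 5) (nat_lit 620) (nat_lit 596) (nat_lit 344)) (XT.lf (nat_lit 0) (nat_lit 6086632832) (nat_lit 1824) (nat_lit 16540181121) (nat_lit 1900) (nat_lit 1144077247) (nat_lit 451) (nat_lit 5) (nat_lit 475) (nat_lit 5) (nat_lit 476) (nat_lit 5) (nat_lit 621) (nat_lit 596) (nat_lit 343))))))))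
noncomputable def xc224 : XT := (XT.nd (nat_lit 1560) (nat_lit 4636) (nat_lit 0) (XT.nd (nat_lit 780) (nat_lit 4788) (nat_lit 0) (XT.nd (nat_lit 390) (nat_lit 2584) (nat_lit 0) (XT.nd (nat_lit 156) (nat_lit 912) (nat_lit 0) (XT.nd (nat_lit 78) (nat_lit 1064) (nat_lit 0) (XT.lf (nat_lit 0) (nat_lit 886571303) (nat_lit 1900) (nat_lit 5017270041) (nat_lit 76) (nat_lit 18121971868) (nat_lit 450) (nat_lit 5) (nat_lit 475) (nat_lit 5) (nat_lit 451) (nat_lit 5) (nat_lit 622) (nat_lit 596) (nat_lit 342)) (XT.lf (nat_lit 0) (nat_lit 3023690612) (nat_lit 1140) (nat_lit 16319709821) (nat_lit 76) (nat_lit 4940658726) (nat_lit 436) (nat_lit 5) (nat_lit 451) (nat_lit 5) (nat_lit 437) (nat_lit 5) (nat_lit 623) (nat_lit 596) (nat_lit 341))) (XT.nd (nat_lit 78) (nat_lit 912) (nat_lit 0) (XT.lf (nat_lit 0) (nat_lit 5273323309) (nat_lit 1140) (nat_lit 3315420981) (nat_lit 76) (nat_lit 15957330590) (nat_lit 436) (nat_lit 5) (nat_lit 451) (nat_lit 5) (nat_lit 437) (nat_lit 5) (nat_lit 624) (nat_lit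 596) (nat_lit 340)) (XT.nd (nat_lit 78) (nat_lit 0) (nat_lit 0) (XT.lf (nat_lit 0) (nat_lit 7646122181) (nat_lit 988) (nat_lit 14749705369) (nat_lit 76) (nat_lit 2415940164) (nat_lit 424) (nat_lit 5) (nat_lit 437) (nat_lit 5) (nat_lit 425) (nat_lit 5) (nat_lit 625) (nat_lit 596) (nat_lit 339)) (XT.lf (nat_lit 0) (nat_lit 10142541248) (nat_lit 988) (nat_lit 1390222066) (nat_lit 76) (nat_lit 13548488072) (nat_lit 424) (nat_lit 5) (nat_lit 437) (nat_lit 5) (nat_lit 425) (nat_lit 5) (nat_lit 626) (nat_lit 596) (nat_lit 338))))) (XT.nd (nat_lit 156) (nat_lit 836) (nat_lit 0) (XT.nd (nat_lit 78) (nat_lit 836) (nat_lit 0) (XT.lf (nat_lit 0) (nat_lit 12396183066) (nat_lit 912) (nat_lit 370140419) (nat_lit 988) (nat_lit 12588252809) (nat_lit 412) (nat_lit 5) (nat_lit 424) (nat_lit 5) (nat_lit 425) (nat_lit 5) (nat_lit 627) (nat_lit 596) (nat_lit 337)) (XT.lf (nat_lit 0) (nat_lit 779734252) (nat_lit 836) (nat_lit 14745815184) (nat_lit 912) (nat_lit 10106159156) (nat_lit 401) (nat_lit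 5) (nat_lit 412) (nat_lit 5) (nat_lit 413) (nat_lit 5) (nat_lit 628) (nat_lit 596) (nat_lit 336))) (XT.nd (nat_lit 78) (nat_lit 836) (nat_lit 0) (XT.lf (nat_lit 0) (nat_lit 14962925010) (nat_lit 836) (nat_lit 3463461151) (nat_lit 912) (nat_lit 7486269100) (nat_lit 401) (nat_lit 5) (nat_lit 412) (nat_lit 5) (nat_lit 413) (nat_lit 5) (nat_lit 629) (nat_lit 596) (nat_lit 335)) (XT.nd (nat_lit 78) (nat_lit 0) (nat_lit 0) (XT.lf (nat_lit 0) (nat_lit 3217655743) (nat_lit 836) (nat_lit 18237797783) (nat_lit 912) (nat_lit 4742363301) (nat_lit 390) (nat_lit 5) (nat_lit 401) (nat_lit 5) (nat_lit 402) (nat_lit 5) (nat_lit 630) (nat_lit 596) (nat_lit 334)) (XT.lf (nat_lit 0) (nat_lit 17790720565) (nat_lit 836) (nat_lit 6847776806) (nat_lit 912) (nat_lit 1848316593) (nat_lit 390) (nat_lit 5) (nat_lit 401) (nat_lit 5) (nat_lit 402) (nat_lit 5) (nat_lit 631) (nat_lit 596) (nat_lit 333)))))) (XT.nd (nat_lit 390) (nat_lit 2280) (nat_lit 0) (XT.nd (nat_lit 156) (nat_lit 1596) (nat_lit 0) (XT.nd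 (nat_lit 78) (nat_lit 0) (nat_lit 0) (XT.lf (nat_lit 0) (nat_lit 1156155012) (nat_lit 912) (nat_lit 20870426746) (nat_lit 76) (nat_lit 4753525847) (nat_lit 378) (nat_lit 5) (nat_lit 390) (nat_lit 5) (nat_lit 379) (nat_lit 5) (nat_lit 632) (nat_lit 596) (nat_lit 332)) (XT.lf (nat_lit 0) (nat_lit 4297286803) (nat_lit 912) (nat_lit 6213501003) (nat_lit 76) (nat_lit 16566208796) (nat_lit 378) (nat_lit 5) (nat_lit 390) (nat_lit 5) (nat_lit 379) (nat_lit 5) (nat_lit 633) (nat_lit 596) (nat_lit 331))) (XT.nd (nat_lit 78) (nat_lit 760) (nat_lit 0) (XT.lf (nat_lit 0) (nat_lit 7564360683) (nat_lit 912) (nat_lit 18537316241) (nat_lit 76) (nat_lit 1276884286) (nat_lit 367) (nat_lit 5) (nat_lit 379) (nat_lit 5) (nat_lit 368) (nat_lit 5) (nat_lit 634) (nat_lit 596) (nat_lit 330)) (XT.nd (nat_lit 78) (nat_lit 760) (nat_lit 0) (XT.lf (nat_lit 0) (nat_lit 11005650889) (nat_lit 912) (nat_lit 3476747470) (nat_lit 76) (nat_lit 13201581473) (nat_lit 367) (nat_lit 5) (nat_lit 379) (nat_lit 5) (nat_lit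 368) (nat_lit 5) (nat_lit 635) (nat_lit 596) (nat_lit 329)) (XT.lf (nat_lit 0) (nat_lit 12040145486) (nat_lit 760) (nat_lit 2551142052) (nat_lit 836) (nat_lit 13402709087) (nat_lit 357) (nat_lit 5) (nat_lit 367) (nat_lit 5) (nat_lit 368) (nat_lit 5) (nat_lit 636) (nat_lit 596) (nat_lit 328))))) (XT.nd (nat_lit 156) (nat_lit 1520) (nat_lit 0) (XT.nd (nat_lit 78) (nat_lit 760) (nat_lit 0) (XT.lf (nat_lit 0) (nat_lit 18331954429) (nat_lit 836) (nat_lit 460677358) (nat_lit 76) (nat_lit 9515915825) (nat_lit 357) (nat_lit 5) (nat_lit 368) (nat_lit 5) (nat_lit 358) (nat_lit 5) (nat_lit 637) (nat_lit 596) (nat_lit 327)) (XT.lf (nat_lit 0) (nat_lit 15526321890) (nat_lit 760) (nat_lit 6736247241) (nat_lit 836) (nat_lit 6364518003) (nat_lit 347) (nat_lit 5) (nat_lit 357) (nat_lit 5) (nat_lit 358) (nat_lit 5) (nat_lit 638) (nat_lit 596) (nat_lit 326))) (XT.nd (nat_lit 78) (nat_lit 836) (nat_lit 0) (XT.lf (nat_lit 0) (nat_lit 2886291686) (nat_lit 684) (nat_lit 23440926785) (nat_lit 760)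 (nat_lit 2623670729) (nat_lit 338) (nat_lit 5) (nat_lit 347) (nat_lit 5) (nat_lit 348) (nat_lit 5) (nat_lit 639) (nat_lit 596) (nat_lit 325)) (XT.nd (nat_lit 78) (nat_lit 760) (nat_lit 0) (XT.lf (nat_lit 0) (nat_lit 1306944631) (nat_lit 760) (nat_lit 9964487312) (nat_lit 76) (nat_lit 18006969084) (nat_lit 337) (nat_lit 5) (nat_lit 347) (nat_lit 5) (nat_lit 338) (nat_lit 5) (nat_lit 640) (nat_lit 596) (nat_lit 324)) (XT.lf (nat_lit 0) (nat_lit 5328758431) (nat_lit 836) (nat_lit 23096087040) (nat_lit 76) (nat_lit 1186316618) (nat_lit 327) (nat_lit 5) (nat_lit 338) (nat_lit 5) (nat_lit 328) (nat_lit 5) (nat_lit 641) (nat_lit 596) (nat_lit 323))))))) (XT.nd (nat_lit 780) (nat_lit 1292) (nat_lit 0) (XT.nd (nat_lit 390) (nat_lit 1368) (nat_lit 0) (XT.nd (nat_lit 156) (nat_lit 1292) (nat_lit 0) (XT.nd (nat_lit 78) (nat_lit 684) (nat_lit 0) (XT.lf (nat_lit 0) (nat_lit 9570519853) (nat_lit 836) (nat_lit 6567822771) (nat_lit 76) (nat_lit 13809445707) (nat_lit 327) (nat_lit 5) (nat_lit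 338) (nat_lit 5) (nat_lit 328) (nat_lit 5) (nat_lit 642) (nat_lit 596) (nat_lit 322)) (XT.lf (nat_lit 0) (nat_lit 10424993654) (nat_lit 684) (nat_lit 3537413057) (nat_lit 760) (nat_lit 16327434764) (nat_lit 318) (nat_lit 5) (nat_lit 327) (nat_lit 5) (nat_lit 328) (nat_lit 5) (nat_lit 643) (nat_lit 596) (nat_lit 321))) (XT.nd (nat_lit 78) (nat_lit 1292) (nat_lit 0) (XT.lf (nat_lit 0) (nat_lit 18544610609) (nat_lit 760) (nat_lit 2854699731) (nat_lit 76) (nat_lit 9237375933) (nat_lit 318) (nat_lit 5) (nat_lit 328) (nat_lit 5) (nat_lit 319) (nat_lit 5) (nat_lit 644) (nat_lit 596) (nat_lit 320)) (XT.nd (nat_lit 78) (nat_lit 608) (nat_lit 0) (XT.lf (nat_lit 0) (nat_lit 14661805207) (nat_lit 684) (nat_lit 8672951809) (nat_lit 760) (nat_lit 7653385157) (nat_lit 309) (nat_lit 5) (nat_lit 318) (nat_lit 5) (nat_lit 319) (nat_lit 5) (nat_lit 645) (nat_lit 596) (nat_lit 319)) (XT.lf (nat_lit 0) (nat_lit 1206076097) (nat_lit 608) (nat_lit 27067417409) (nat_lit 684) (nat_lit 3072078113)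 (nat_lit 301) (nat_lit 5) (nat_lit 309) (nat_lit 5) (nat_lit 310) (nat_lit 5) (nat_lit 646) (nat_lit 596) (nat_lit 318))))) (XT.nd (nat_lit 156) (nat_lit 608) (nat_lit 0) (XT.nd (nat_lit 78) (nat_lit 684) (nat_lit 0) (XT.lf (nat_lit 0) (nat_lit 1745295527) (nat_lit 684) (nat_lit 12468819291) (nat_lit 76) (nat_lit 17492518404) (nat_lit 300) (nat_lit 5) (nat_lit 309) (nat_lit 5) (nat_lit 301) (nat_lit 5) (nat_lit 647) (nat_lit 596) (nat_lit 317)) (XT.lf (nat_lit 0) (nat_lit 5605750029) (nat_lit 684) (nat_lit 1046326309) (nat_lit 760) (nat_lit 25421749856) (nat_lit 291) (nat_lit 5) (nat_lit 300) (nat_lit 5) (nat_lit 301) (nat_lit 5) (nat_lit 648) (nat_lit 596) (nat_lit 316))) (XT.nd (nat_lit 78) (nat_lit 608) (nat_lit 0) (XT.lf (nat_lit 0) (nat_lit 11819413317) (nat_lit 760) (nat_lit 8319544928) (nat_lit 76) (nat_lit 12306156527) (nat_lit 291) (nat_lit 5) (nat_lit 301) (nat_lit 5) (nat_lit 292) (nat_lit 5) (nat_lit 649) (nat_lit 596) (nat_lit 315)) (XT.nd (nat_lit 78) (nat_lit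 0) (nat_lit 0) (XT.lf (nat_lit 0) (nat_lit 10317679532) (nat_lit 608) (nat_lit 6844163128) (nat_lit 684) (nat_lit 15660551703) (nat_lit 283) (nat_lit 5) (nat_lit 291) (nat_lit 5) (nat_lit 292) (nat_lit 5) (nat_lit 650) (nat_lit 596) (nat_lit 314)) (XT.lf (nat_lit 0) (nat_lit 22708776244) (nat_lit 684) (nat_lit 3812347370) (nat_lit 76) (nat_lit 6684142971) (nat_lit 283) (nat_lit 5) (nat_lit 292) (nat_lit 5) (nat_lit 284) (nat_lit 5) (nat_lit 651) (nat_lit 596) (nat_lit 313)))))) (XT.nd (nat_lit 77064) (nat_lit 0) (nat_lit 16872) (XT.nd (nat_lit 156) (nat_lit 0) (nat_lit 0) (XT.nd (nat_lit 78) (nat_lit 684) (nat_lit 0) (XT.lf (nat_lit 0) (nat_lit 15407984444) (nat_lit 608) (nat_lit 13101919913) (nat_lit 684) (nat_lit 5083026926) (nat_lit 275) (nat_lit 5) (nat_lit 283) (nat_lit 5) (nat_lit 284) (nat_lit 5) (nat_lit 652) (nat_lit 596) (nat_lit 312)) (XT.lf (nat_lit 0) (nat_lit 467686581) (nat_lit 684) (nat_lit 32906583565) (nat_lit 76) (nat_lit 613327614) (nat_lit 266) (nat_lit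 5) (nat_lit 275) (nat_lit 5) (nat_lit 267) (nat_lit 5) (nat_lit 653) (nat_lit 596) (nat_lit 311))) (XT.nd (nat_lit 76752) (nat_lit 0) (nat_lit 16872) (XT.lf (nat_lit 0) (nat_lit 6268944929) (nat_lit 684) (nat_lit 13532826216) (nat_lit 76) (nat_lit 14583562740) (nat_lit 266) (nat_lit 5) (nat_lit 275) (nat_lit 5) (nat_lit 267) (nat_lit 5) (nat_lit 654) (nat_lit 596) (nat_lit 310)) (XT.nd (nat_lit 78) (nat_lit 0) (nat_lit 0) (XT.lf (nat_lit 0) (nat_lit 3717764768) (nat_lit 0) (nat_lit 3717764768) (nat_lit 1748) (nat_lit 1959952718) (nat_lit 488) (nat_lit 5) (nat_lit 488) (nat_lit 3) (nat_lit 511) (nat_lit 3) (nat_lit 597) (nat_lit 597) (nat_lit 366)) (XT.lf (nat_lit 0) (nat_lit 15218137797) (nat_lit 1748) (nat_lit 2082623275) (nat_lit 1824) (nat_lit 1674128183) (nat_lit 488) (nat_lit 5) (nat_lit 511) (nat_lit 3) (nat_lit 512) (nat_lit 5) (nat_lit 598) (nat_lit 597) (nat_lit 365))))) (XT.nd (nat_lit 234) (nat_lit 0) (nat_lit 152) (XT.nd (nat_lit 78) (nat_lit 0) (nat_lit 76) (XT.lf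 (nat_lit 76) (nat_lit 7421160712) (nat_lit 0) (nat_lit 8243523985) (nat_lit 1824) (nat_lit 3495957728) (nat_lit 489) (nat_lit 5) (nat_lit 488) (nat_lit 5) (nat_lit 512) (nat_lit 5) (nat_lit 599) (nat_lit 597) (nat_lit 364)) (XT.nd (nat_lit 78) (nat_lit 0) (nat_lit 0) (XT.lf (nat_lit 0) (nat_lit 16135885609) (nat_lit 1748) (nat_lit 2215798583) (nat_lit 1824) (nat_lit 998112453) (nat_lit 489) (nat_lit 5) (nat_lit 512) (nat_lit 5) (nat_lit 513) (nat_lit 5) (nat_lit 600) (nat_lit 597) (nat_lit 363)) (XT.lf (nat_lit 76) (nat_lit 7540040107) (nat_lit 0) (nat_lit 9175308194) (nat_lit 1824) (nat_lit 2825409338) (nat_lit 490) (nat_lit 5) (nat_lit 489) (nat_lit 5) (nat_lit 513) (nat_lit 5) (nat_lit 601) (nat_lit 597) (nat_lit 362)))) (XT.nd (nat_lit 78) (nat_lit 0) (nat_lit 0) (XT.lf (nat_lit 0) (nat_lit 17317945077) (nat_lit 1748) (nat_lit 2218209515) (nat_lit 1824) (nat_lit 199152796) (nat_lit 490) (nat_lit 5) (nat_lit 513) (nat_lit 5) (nat_lit 514) (nat_lit 5) (nat_lit 602) (nat_lit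 597) (nat_lit 361)) (XT.nd (nat_lit 78) (nat_lit 0) (nat_lit 0) (XT.lf (nat_lit 76) (nat_lit 7798817570) (nat_lit 0) (nat_lit 10240644227) (nat_lit 1824) (nat_lit 1892149400) (nat_lit 491) (nat_lit 5) (nat_lit 490) (nat_lit 5) (nat_lit 514) (nat_lit 5) (nat_lit 603) (nat_lit 597) (nat_lit 360)) (XT.lf (nat_lit 76) (nat_lit 18043620691) (nat_lit 0) (nat_lit 742214541) (nat_lit 1824) (nat_lit 1345797740) (nat_lit 491) (nat_lit 5) (nat_lit 490) (nat_lit 5) (nat_lit 514) (nat_lit 5) (nat_lit 604) (nat_lit 597) (nat_lit 359))))))))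
noncomputable def xc225 : XT := (XT.nd (nat_lit 1560) (nat_lit 8968) (nat_lit 0) (XT.nd (nat_lit 780) (nat_lit 2356) (nat_lit 0) (XT.nd (nat_lit 390) (nat_lit 0) (nat_lit 152) (XT.nd (nat_lit 156) (nat_lit 0) (nat_lit 76) (XT.nd (nat_lit 78) (nat_lit 1824) (nat_lit 0) (XT.lf (nat_lit 76) (nat_lit 8204502906) (nat_lit 0) (nat_lit 11449626942) (nat_lit 1824) (nat_lit 679385868) (nat_lit 492) (nat_lit 5) (nat_lit 491) (nat_lit 5) (nat_lit 515) (nat_lit 5) (nat_lit 605) (nat_lit 597) (nat_lit 358)) (XT.lf (nat_lit 0) (nat_lit 15048837) (nat_lit 1824) (nat_lit 1815715279) (nat_lit 1900) (nat_lit 18708378360) (nat_lit 467) (nat_lit 5) (nat_lit 491) (nat_lit 5) (nat_lit 492) (nat_lit 5) (nat_lit 606) (nat_lit 597) (nat_lit 357))) (XT.nd (nat_lit 78) (nat_lit 0) (nat_lit 0) (XT.lf (nat_lit 0) (nat_lit 819496379) (nat_lit 1824) (nat_lit 11987710323) (nat_lit 1900) (nat_lit 7939481219) (nat_lit 468) (nat_lit 5) (nat_lit 492) (nat_lit 5) (nat_lit 493) (nat_lit 5) (nat_lit 607) (nat_lit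 597) (nat_lit 356)) (XT.nd (nat_lit 78) (nat_lit 0) (nat_lit 76) (XT.lf (nat_lit 0) (nat_lit 1660262129) (nat_lit 1824) (nat_lit 1403312385) (nat_lit 1900) (nat_lit 17894405551) (nat_lit 468) (nat_lit 5) (nat_lit 492) (nat_lit 5) (nat_lit 493) (nat_lit 5) (nat_lit 608) (nat_lit 597) (nat_lit 355)) (XT.lf (nat_lit 0) (nat_lit 2620596268) (nat_lit 1824) (nat_lit 11702526296) (nat_lit 1900) (nat_lit 6848320797) (nat_lit 469) (nat_lit 5) (nat_lit 493) (nat_lit 5) (nat_lit 494) (nat_lit 5) (nat_lit 609) (nat_lit 597) (nat_lit 354))))) (XT.nd (nat_lit 156) (nat_lit 0) (nat_lit 76) (XT.nd (nat_lit 78) (nat_lit 0) (nat_lit 76) (XT.lf (nat_lit 0) (nat_lit 3625897804) (nat_lit 1824) (nat_lit 834486733) (nat_lit 1900) (nat_lit 16928276536) (nat_lit 469) (nat_lit 5) (nat_lit 493) (nat_lit 5) (nat_lit 494) (nat_lit 5) (nat_lit 610) (nat_lit 597) (nat_lit 353)) (XT.lf (nat_lit 0) (nat_lit 4751609969) (nat_lit 1824) (nat_lit 11261364973) (nat_lit 1900) (nat_lit 5595242459) (nat_lit 470)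 (nat_lit 5) (nat_lit 494) (nat_lit 5) (nat_lit 495) (nat_lit 5) (nat_lit 611) (nat_lit 597) (nat_lit 352))) (XT.nd (nat_lit 78) (nat_lit 0) (nat_lit 76) (XT.lf (nat_lit 0) (nat_lit 5931150888) (nat_lit 1824) (nat_lit 101273866) (nat_lit 1900) (nat_lit 15799114159) (nat_lit 470) (nat_lit 5) (nat_lit 494) (nat_lit 5) (nat_lit 495) (nat_lit 5) (nat_lit 612) (nat_lit 597) (nat_lit 351)) (XT.nd (nat_lit 78) (nat_lit 0) (nat_lit 0) (XT.lf (nat_lit 0) (nat_lit 7232131062) (nat_lit 1824) (nat_lit 10656152595) (nat_lit 1900) (nat_lit 4169086573) (nat_lit 471) (nat_lit 5) (nat_lit 495) (nat_lit 5) (nat_lit 496) (nat_lit 5) (nat_lit 613) (nat_lit 597) (nat_lit 350)) (XT.lf (nat_lit 76) (nat_lit 815382453) (nat_lit 0) (nat_lit 7785953993) (nat_lit 1900) (nat_lit 13685537950) (nat_lit 472) (nat_lit 5) (nat_lit 471) (nat_lit 5) (nat_lit 496) (nat_lit 5) (nat_lit 614) (nat_lit 597) (nat_lit 349)))))) (XT.nd (nat_lit 390) (nat_lit 2736) (nat_lit 0) (XT.nd (nat_lit 156) (nat_lit 0) (nat_lit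 76) (XT.nd (nat_lit 78) (nat_lit 0) (nat_lit 0) (XT.lf (nat_lit 0) (nat_lit 10082597714) (nat_lit 1824) (nat_lit 9878413644) (nat_lit 1900) (nat_lit 2558264181) (nat_lit 472) (nat_lit 5) (nat_lit 496) (nat_lit 5) (nat_lit 497) (nat_lit 5) (nat_lit 615) (nat_lit 597) (nat_lit 348)) (XT.lf (nat_lit 76) (nat_lit 1917319912) (nat_lit 0) (nat_lit 9736585758) (nat_lit 1900) (nat_lit 11101210927) (nat_lit 473) (nat_lit 5) (nat_lit 472) (nat_lit 5) (nat_lit 497) (nat_lit 5) (nat_lit 616) (nat_lit 597) (nat_lit 347))) (XT.nd (nat_lit 78) (nat_lit 0) (nat_lit 0) (XT.lf (nat_lit 0) (nat_lit 13324330905) (nat_lit 1824) (nat_lit 8919257486) (nat_lit 1900) (nat_lit 750732578) (nat_lit 473) (nat_lit 5) (nat_lit 497) (nat_lit 5) (nat_lit 498) (nat_lit 5) (nat_lit 617) (nat_lit 597) (nat_lit 346)) (XT.nd (nat_lit 78) (nat_lit 0) (nat_lit 0) (XT.lf (nat_lit 76) (nat_lit 3212512935) (nat_lit 0) (nat_lit 11897527142) (nat_lit 1900) (nat_lit 8126632152) (nat_lit 474) (nat_lit 5) (nat_lit 473)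 (nat_lit 5) (nat_lit 498) (nat_lit 5) (nat_lit 618) (nat_lit 597) (nat_lit 345)) (XT.lf (nat_lit 76) (nat_lit 15705048469) (nat_lit 0) (nat_lit 1282854742) (nat_lit 1900) (nat_lit 6494838813) (nat_lit 474) (nat_lit 5) (nat_lit 473) (nat_lit 5) (nat_lit 498) (nat_lit 5) (nat_lit 619) (nat_lit 597) (nat_lit 344))))) (XT.nd (nat_lit 156) (nat_lit 2888) (nat_lit 0) (XT.nd (nat_lit 78) (nat_lit 0) (nat_lit 0) (XT.lf (nat_lit 76) (nat_lit 4710726728) (nat_lit 0) (nat_lit 14281806604) (nat_lit 1900) (nat_lit 4739415984) (nat_lit 475) (nat_lit 5) (nat_lit 474) (nat_lit 5) (nat_lit 499) (nat_lit 5) (nat_lit 620) (nat_lit 597) (nat_lit 343)) (XT.lf (nat_lit 76) (nat_lit 17542963728) (nat_lit 0) (nat_lit 3551629979) (nat_lit 1900) (nat_lit 2890400587) (nat_lit 475) (nat_lit 5) (nat_lit 474) (nat_lit 5) (nat_lit 499) (nat_lit 5) (nat_lit 621) (nat_lit 597) (nat_lit 342))) (XT.nd (nat_lit 78) (nat_lit 1140) (nat_lit 0) (XT.lf (nat_lit 0) (nat_lit 6422186583) (nat_lit 1824) (nat_lit 16902980363)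 (nat_lit 1900) (nat_lit 916204079) (nat_lit 451) (nat_lit 5) (nat_lit 475) (nat_lit 5) (nat_lit 476) (nat_lit 5) (nat_lit 622) (nat_lit 597) (nat_lit 341)) (XT.nd (nat_lit 78) (nat_lit 1064) (nat_lit 0) (XT.lf (nat_lit 0) (nat_lit 1146916474) (nat_lit 1900) (nat_lit 4904741886) (nat_lit 76) (nat_lit 18449798019) (nat_lit 450) (nat_lit 5) (nat_lit 475) (nat_lit 5) (nat_lit 451) (nat_lit 5) (nat_lit 623) (nat_lit 597) (nat_lit 340)) (XT.lf (nat_lit 0) (nat_lit 3323213846) (nat_lit 1140) (nat_lit 16429645724) (nat_lit 76) (nat_lit 5012079369) (nat_lit 436) (nat_lit 5) (nat_lit 451) (nat_lit 5) (nat_lit 437) (nat_lit 5) (nat_lit 624) (nat_lit 597) (nat_lit 339))))))) (XT.nd (nat_lit 780) (nat_lit 4560) (nat_lit 0) (XT.nd (nat_lit 390) (nat_lit 1748) (nat_lit 0) (XT.nd (nat_lit 156) (nat_lit 1748) (nat_lit 0) (XT.nd (nat_lit 78) (nat_lit 912) (nat_lit 0) (XT.lf (nat_lit 0) (nat_lit 5613151953) (nat_lit 1140) (nat_lit 3169515388) (nat_lit 76) (nat_lit 16249621779) (nat_lit 436)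 (nat_lit 5) (nat_lit 451) (nat_lit 5) (nat_lit 437) (nat_lit 5) (nat_lit 625) (nat_lit 597) (nat_lit 338)) (XT.lf (nat_lit 0) (nat_lit 8030048320) (nat_lit 988) (nat_lit 14829107358) (nat_lit 76) (nat_lit 2444207696) (nat_lit 424) (nat_lit 5) (nat_lit 437) (nat_lit 5) (nat_lit 425) (nat_lit 5) (nat_lit 626) (nat_lit 597) (nat_lit 337))) (XT.nd (nat_lit 78) (nat_lit 1748) (nat_lit 0) (XT.lf (nat_lit 0) (nat_lit 10571866284) (nat_lit 988) (nat_lit 1206661684) (nat_lit 76) (nat_lit 13799799724) (nat_lit 424) (nat_lit 5) (nat_lit 437) (nat_lit 5) (nat_lit 425) (nat_lit 5) (nat_lit 627) (nat_lit 597) (nat_lit 336)) (XT.nd (nat_lit 78) (nat_lit 836) (nat_lit 0) (XT.lf (nat_lit 0) (nat_lit 12854080992) (nat_lit 912) (nat_lit 390965795) (nat_lit 988) (nat_lit 12612134236) (nat_lit 412) (nat_lit 5) (nat_lit 424) (nat_lit 5) (nat_lit 425) (nat_lit 5) (nat_lit 628) (nat_lit 597) (nat_lit 335)) (XT.lf (nat_lit 0) (nat_lit 1008465645) (nat_lit 836) (nat_lit 15047909667) (nat_lit 912) (nat_lit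 10083542664) (nat_lit 401) (nat_lit 5) (nat_lit 412) (nat_lit 5) (nat_lit 413) (nat_lit 5) (nat_lit 629) (nat_lit 597) (nat_lit 334))))) (XT.nd (nat_lit 156) (nat_lit 912) (nat_lit 0) (XT.nd (nat_lit 78) (nat_lit 836) (nat_lit 0) (XT.lf (nat_lit 0) (nat_lit 15471141067) (nat_lit 836) (nat_lit 3539767804) (nat_lit 912) (nat_lit 7415661467) (nat_lit 401) (nat_lit 5) (nat_lit 412) (nat_lit 5) (nat_lit 413) (nat_lit 5) (nat_lit 630) (nat_lit 597) (nat_lit 333)) (XT.lf (nat_lit 0) (nat_lit 3493946574) (nat_lit 836) (nat_lit 18603707060) (nat_lit 912) (nat_lit 4619839938) (nat_lit 390) (nat_lit 5) (nat_lit 401) (nat_lit 5) (nat_lit 402) (nat_lit 5) (nat_lit 631) (nat_lit 597) (nat_lit 332))) (XT.nd (nat_lit 78) (nat_lit 912) (nat_lit 0) (XT.lf (nat_lit 0) (nat_lit 18354317050) (nat_lit 836) (nat_lit 6985863049) (nat_lit 912) (nat_lit 1672174464) (nat_lit 390) (nat_lit 5) (nat_lit 401) (nat_lit 5) (nat_lit 402) (nat_lit 5) (nat_lit 632) (nat_lit 597) (nat_lit 331)) (XT.nd (nat_lit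 78) (nat_lit 0) (nat_lit 0) (XT.lf (nat_lit 0) (nat_lit 1386836925) (nat_lit 912) (nat_lit 21074469731) (nat_lit 76) (nat_lit 4850235177) (nat_lit 378) (nat_lit 5) (nat_lit 390) (nat_lit 5) (nat_lit 379) (nat_lit 5) (nat_lit 633) (nat_lit 597) (nat_lit 330)) (XT.lf (nat_lit 0) (nat_lit 4586721571) (nat_lit 912) (nat_lit 6128589111) (nat_lit 76) (nat_lit 16899139652) (nat_lit 378) (nat_lit 5) (nat_lit 390) (nat_lit 5) (nat_lit 379) (nat_lit 5) (nat_lit 634) (nat_lit 597) (nat_lit 329)))))) (XT.nd (nat_lit 390) (nat_lit 2204) (nat_lit 0) (XT.nd (nat_lit 156) (nat_lit 1520) (nat_lit 0) (XT.nd (nat_lit 78) (nat_lit 0) (nat_lit 0) (XT.lf (nat_lit 0) (nat_lit 7916541333) (nat_lit 912) (nat_lit 18696268961) (nat_lit 76) (nat_lit 1309288175) (nat_lit 367) (nat_lit 5) (nat_lit 379) (nat_lit 5) (nat_lit 368) (nat_lit 5) (nat_lit 635) (nat_lit 597) (nat_lit 328)) (XT.lf (nat_lit 0) (nat_lit 11422718256) (nat_lit 912) (nat_lit 3338641630) (nat_lit 76) (nat_lit 13472344674) (nat_lit 367)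 (nat_lit 5) (nat_lit 379) (nat_lit 5) (nat_lit 368) (nat_lit 5) (nat_lit 636) (nat_lit 597) (nat_lit 327))) (XT.nd (nat_lit 78) (nat_lit 760) (nat_lit 0) (XT.lf (nat_lit 0) (nat_lit 12487223127) (nat_lit 760) (nat_lit 2590321933) (nat_lit 836) (nat_lit 13472427390) (nat_lit 357) (nat_lit 5) (nat_lit 367) (nat_lit 5) (nat_lit 368) (nat_lit 5) (nat_lit 637) (nat_lit 597) (nat_lit 326)) (XT.nd (nat_lit 78) (nat_lit 760) (nat_lit 0) (XT.lf (nat_lit 0) (nat_lit 18889288286) (nat_lit 836) (nat_lit 263908604) (nat_lit 76) (nat_lit 9717692609) (nat_lit 357) (nat_lit 5) (nat_lit 368) (nat_lit 5) (nat_lit 358) (nat_lit 5) (nat_lit 638) (nat_lit 597) (nat_lit 325)) (XT.lf (nat_lit 0) (nat_lit 16041475481) (nat_lit 760) (nat_lit 6854629263) (nat_lit 836) (nat_lit 6299743576) (nat_lit 347) (nat_lit 5) (nat_lit 357) (nat_lit 5) (nat_lit 358) (nat_lit 5) (nat_lit 639) (nat_lit 597) (nat_lit 324))))) (XT.nd (nat_lit 234) (nat_lit 684) (nat_lit 0) (XT.nd (nat_lit 78) (nat_lit 836) (nat_lit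 0) (XT.lf (nat_lit 0) (nat_lit 3150948715) (nat_lit 684) (nat_lit 23888854071) (nat_lit 760) (nat_lit 2486368819) (nat_lit 338) (nat_lit 5) (nat_lit 347) (nat_lit 5) (nat_lit 348) (nat_lit 5) (nat_lit 640) (nat_lit 597) (nat_lit 323)) (XT.nd (nat_lit 78) (nat_lit 760) (nat_lit 0) (XT.lf (nat_lit 0) (nat_lit 1516697629) (nat_lit 760) (nat_lit 9958449189) (nat_lit 76) (nat_lit 18385135934) (nat_lit 337) (nat_lit 5) (nat_lit 347) (nat_lit 5) (nat_lit 338) (nat_lit 5) (nat_lit 641) (nat_lit 597) (nat_lit 322)) (XT.lf (nat_lit 0) (nat_lit 5616818769) (nat_lit 836) (nat_lit 23350538237) (nat_lit 76) (nat_lit 1232384883) (nat_lit 327) (nat_lit 5) (nat_lit 338) (nat_lit 5) (nat_lit 328) (nat_lit 5) (nat_lit 642) (nat_lit 597) (nat_lit 321)))) (XT.nd (nat_lit 78) (nat_lit 684) (nat_lit 0) (XT.lf (nat_lit 0) (nat_lit 9939856886) (nat_lit 836) (nat_lit 6495776733) (nat_lit 76) (nat_lit 14107538477) (nat_lit 327) (nat_lit 5) (nat_lit 338) (nat_lit 5) (nat_lit 328) (nat_lit 5) (nat_lit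 643) (nat_lit 597) (nat_lit 320)) (XT.nd (nat_lit 78) (nat_lit 0) (nat_lit 0) (XT.lf (nat_lit 0) (nat_lit 10835557846) (nat_lit 684) (nat_lit 3581846813) (nat_lit 760) (nat_lit 16474705444) (nat_lit 318) (nat_lit 5) (nat_lit 327) (nat_lit 5) (nat_lit 328) (nat_lit 5) (nat_lit 644) (nat_lit 597) (nat_lit 319)) (XT.lf (nat_lit 0) (nat_lit 19087974062) (nat_lit 760) (nat_lit 2710399932) (nat_lit 76) (nat_lit 9447583634) (nat_lit 318) (nat_lit 5) (nat_lit 328) (nat_lit 5) (nat_lit 319) (nat_lit 5) (nat_lit 645) (nat_lit 597) (nat_lit 318))))))))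
noncomputable def xc226 : XT := (XT.nd (nat_lit 78312) (nat_lit 0) (nat_lit 11096) (XT.nd (nat_lit 77532) (nat_lit 0) (nat_lit 15276) (XT.nd (nat_lit 390) (nat_lit 1900) (nat_lit 0) (XT.nd (nat_lit 156) (nat_lit 760) (nat_lit 0) (XT.nd (nat_lit 78) (nat_lit 608) (nat_lit 0) (XT.lf (nat_lit 0) (nat_lit 15155110146) (nat_lit 684) (nat_lit 8816730442) (nat_lit 760) (nat_lit 7632643968) (nat_lit 309) (nat_lit 5) (nat_lit 318) (nat_lit 5) (nat_lit 319) (nat_lit 5) (nat_lit 646) (nat_lit 597) (nat_lit 317)) (XT.lf (nat_lit 0) (nat_lit 1432156732) (nat_lit 608) (nat_lit 27575354305) (nat_lit 684) (nat_lit 2961588618) (nat_lit 301) (nat_lit 5) (nat_lit 309) (nat_lit 5) (nat_lit 310) (nat_lit 5) (nat_lit 647) (nat_lit 597) (nat_lit 316))) (XT.nd (nat_lit 78) (nat_lit 684) (nat_lit 0) (XT.lf (nat_lit 0) (nat_lit 1946550605) (nat_lit 684) (nat_lit 12517973893) (nat_lit 76) (nat_lit 17872902445) (nat_lit 300) (nat_lit 5) (nat_lit 309) (nat_lit 5) (nat_lit 301) (nat_lit 5) (nat_lit 648)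 (nat_lit 597) (nat_lit 315)) (XT.nd (nat_lit 78) (nat_lit 0) (nat_lit 0) (XT.lf (nat_lit 0) (nat_lit 5916769564) (nat_lit 684) (nat_lit 1032727139) (nat_lit 760) (nat_lit 25762506711) (nat_lit 291) (nat_lit 5) (nat_lit 300) (nat_lit 5) (nat_lit 301) (nat_lit 5) (nat_lit 649) (nat_lit 597) (nat_lit 314)) (XT.lf (nat_lit 0) (nat_lit 12217177076) (nat_lit 760) (nat_lit 8287916538) (nat_lit 76) (nat_lit 12585684447) (nat_lit 291) (nat_lit 5) (nat_lit 301) (nat_lit 5) (nat_lit 292) (nat_lit 5) (nat_lit 650) (nat_lit 597) (nat_lit 313))))) (XT.nd (nat_lit 156) (nat_lit 1292) (nat_lit 0) (XT.nd (nat_lit 78) (nat_lit 0) (nat_lit 0) (XT.lf (nat_lit 0) (nat_lit 10720749652) (nat_lit 608) (nat_lit 6943818343) (nat_lit 684) (nat_lit 15811073215) (nat_lit 283) (nat_lit 5) (nat_lit 291) (nat_lit 5) (nat_lit 292) (nat_lit 5) (nat_lit 651) (nat_lit 597) (nat_lit 312)) (XT.lf (nat_lit 0) (nat_lit 23319549995) (nat_lit 684) (nat_lit 3692833670) (nat_lit 76) (nat_lit 6853845237) (nat_lit 283)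 (nat_lit 5) (nat_lit 292) (nat_lit 5) (nat_lit 284) (nat_lit 5) (nat_lit 652) (nat_lit 597) (nat_lit 311))) (XT.nd (nat_lit 78) (nat_lit 684) (nat_lit 0) (XT.lf (nat_lit 0) (nat_lit 15910616882) (nat_lit 608) (nat_lit 13324275881) (nat_lit 684) (nat_lit 5026790507) (nat_lit 275) (nat_lit 5) (nat_lit 283) (nat_lit 5) (nat_lit 284) (nat_lit 5) (nat_lit 653) (nat_lit 597) (nat_lit 310)) (XT.nd (nat_lit 76830) (nat_lit 0) (nat_lit 16872) (XT.lf (nat_lit 0) (nat_lit 631346419) (nat_lit 684) (nat_lit 33366630604) (nat_lit 76) (nat_lit 666276159) (nat_lit 266) (nat_lit 5) (nat_lit 275) (nat_lit 5) (nat_lit 267) (nat_lit 5) (nat_lit 654) (nat_lit 597) (nat_lit 309)) (XT.lf (nat_lit 0) (nat_lit 3885188915) (nat_lit 0) (nat_lit 3885188915) (nat_lit 1748) (nat_lit 1809273892) (nat_lit 488) (nat_lit 5) (nat_lit 488) (nat_lit 3) (nat_lit 511) (nat_lit 3) (nat_lit 598) (nat_lit 598) (nat_lit 364)))))) (XT.nd (nat_lit 390) (nat_lit 1596) (nat_lit 0) (XT.nd (nat_lit 156) (nat_lit 0) (nat_lit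 76) (XT.nd (nat_lit 78) (nat_lit 0) (nat_lit 0) (XT.lf (nat_lit 0) (nat_lit 15886291610) (nat_lit 1748) (nat_lit 1933269283) (nat_lit 1824) (nat_lit 1527516164) (nat_lit 488) (nat_lit 5) (nat_lit 511) (nat_lit 3) (nat_lit 512) (nat_lit 5) (nat_lit 599) (nat_lit 598) (nat_lit 363)) (XT.lf (nat_lit 76) (nat_lit 7759333763) (nat_lit 0) (nat_lit 8576534509) (nat_lit 1824) (nat_lit 3200795711) (nat_lit 489) (nat_lit 5) (nat_lit 488) (nat_lit 5) (nat_lit 512) (nat_lit 5) (nat_lit 600) (nat_lit 598) (nat_lit 362))) (XT.nd (nat_lit 78) (nat_lit 0) (nat_lit 0) (XT.lf (nat_lit 0) (nat_lit 16808405482) (nat_lit 1748) (nat_lit 2065964748) (nat_lit 1824) (nat_lit 855393470) (nat_lit 489) (nat_lit 5) (nat_lit 512) (nat_lit 5) (nat_lit 513) (nat_lit 5) (nat_lit 601) (nat_lit 598) (nat_lit 361)) (XT.nd (nat_lit 78) (nat_lit 0) (nat_lit 76) (XT.lf (nat_lit 76) (nat_lit 7883713415) (nat_lit 0) (nat_lit 9510137403) (nat_lit 1824) (nat_lit 2530805870) (nat_lit 490) (nat_lit 5) (nat_lit 489) (nat_lit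 5) (nat_lit 513) (nat_lit 5) (nat_lit 602) (nat_lit 598) (nat_lit 360)) (XT.lf (nat_lit 0) (nat_lit 18000787373) (nat_lit 1748) (nat_lit 2065739294) (nat_lit 1824) (nat_lit 56725640) (nat_lit 490) (nat_lit 5) (nat_lit 513) (nat_lit 5) (nat_lit 514) (nat_lit 5) (nat_lit 603) (nat_lit 598) (nat_lit 359))))) (XT.nd (nat_lit 156) (nat_lit 1748) (nat_lit 0) (XT.nd (nat_lit 78) (nat_lit 0) (nat_lit 0) (XT.lf (nat_lit 76) (nat_lit 8150333369) (nat_lit 0) (nat_lit 10581072917) (nat_lit 1824) (nat_lit 1592183088) (nat_lit 491) (nat_lit 5) (nat_lit 490) (nat_lit 5) (nat_lit 514) (nat_lit 5) (nat_lit 604) (nat_lit 598) (nat_lit 358)) (XT.lf (nat_lit 76) (nat_lit 18596198446) (nat_lit 0) (nat_lit 890015503) (nat_lit 1824) (nat_lit 1041528107) (nat_lit 491) (nat_lit 5) (nat_lit 490) (nat_lit 5) (nat_lit 514) (nat_lit 5) (nat_lit 605) (nat_lit 598) (nat_lit 357))) (XT.nd (nat_lit 78) (nat_lit 1824) (nat_lit 0) (XT.lf (nat_lit 76) (nat_lit 8566375307) (nat_lit 0) (nat_lit 11799571046) (nat_lit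 1824) (nat_lit 367835259) (nat_lit 492) (nat_lit 5) (nat_lit 491) (nat_lit 5) (nat_lit 515) (nat_lit 5) (nat_lit 606) (nat_lit 598) (nat_lit 356)) (XT.nd (nat_lit 78) (nat_lit 0) (nat_lit 76) (XT.lf (nat_lit 0) (nat_lit 329932244) (nat_lit 1824) (nat_lit 1653916107) (nat_lit 1900) (nat_lit 18959756741) (nat_lit 467) (nat_lit 5) (nat_lit 491) (nat_lit 5) (nat_lit 492) (nat_lit 5) (nat_lit 607) (nat_lit 598) (nat_lit 355)) (XT.lf (nat_lit 0) (nat_lit 1144845372) (nat_lit 1824) (nat_lit 12023699661) (nat_lit 1900) (nat_lit 7986869440) (nat_lit 468) (nat_lit 5) (nat_lit 492) (nat_lit 5) (nat_lit 493) (nat_lit 5) (nat_lit 608) (nat_lit 598) (nat_lit 354))))))) (XT.nd (nat_lit 780) (nat_lit 4256) (nat_lit 0) (XT.nd (nat_lit 390) (nat_lit 0) (nat_lit 228) (XT.nd (nat_lit 156) (nat_lit 0) (nat_lit 76) (XT.nd (nat_lit 78) (nat_lit 0) (nat_lit 76) (XT.lf (nat_lit 0) (nat_lit 1996368416) (nat_lit 1824) (nat_lit 1231609154) (nat_lit 1900) (nat_lit 18143076600) (nat_lit 468) (nat_lit 5)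 (nat_lit 492) (nat_lit 5) (nat_lit 493) (nat_lit 5) (nat_lit 609) (nat_lit 598) (nat_lit 353)) (XT.lf (nat_lit 0) (nat_lit 2970610568) (nat_lit 1824) (nat_lit 11731481737) (nat_lit 1900) (nat_lit 6886800939) (nat_lit 469) (nat_lit 5) (nat_lit 493) (nat_lit 5) (nat_lit 494) (nat_lit 5) (nat_lit 610) (nat_lit 598) (nat_lit 352))) (XT.nd (nat_lit 78) (nat_lit 0) (nat_lit 76) (XT.lf (nat_lit 0) (nat_lit 3990182794) (nat_lit 1824) (nat_lit 650102855) (nat_lit 1900) (nat_lit 17170286895) (nat_lit 469) (nat_lit 5) (nat_lit 493) (nat_lit 5) (nat_lit 494) (nat_lit 5) (nat_lit 611) (nat_lit 598) (nat_lit 351)) (XT.nd (nat_lit 78) (nat_lit 0) (nat_lit 0) (XT.lf (nat_lit 0) (nat_lit 5133416487) (nat_lit 1824) (nat_lit 11280500054) (nat_lit 1900) (nat_lit 5620703830) (nat_lit 470) (nat_lit 5) (nat_lit 494) (nat_lit 5) (nat_lit 495) (nat_lit 5) (nat_lit 612) (nat_lit 598) (nat_lit 350)) (XT.lf (nat_lit 76) (nat_lit 100064210) (nat_lit 0) (nat_lit 6231510672) (nat_lit 1900) (nat_lit 15930933408)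 (nat_lit 471) (nat_lit 5) (nat_lit 470) (nat_lit 5) (nat_lit 495) (nat_lit 5) (nat_lit 613) (nat_lit 598) (nat_lit 349))))) (XT.nd (nat_lit 156) (nat_lit 0) (nat_lit 76) (XT.nd (nat_lit 78) (nat_lit 0) (nat_lit 0) (XT.lf (nat_lit 0) (nat_lit 7653220556) (nat_lit 1824) (nat_lit 10662495147) (nat_lit 1900) (nat_lit 4177248109) (nat_lit 471) (nat_lit 5) (nat_lit 495) (nat_lit 5) (nat_lit 496) (nat_lit 5) (nat_lit 614) (nat_lit 598) (nat_lit 348)) (XT.lf (nat_lit 76) (nat_lit 1037110205) (nat_lit 0) (nat_lit 8008613040) (nat_lit 1900) (nat_lit 13681417041) (nat_lit 472) (nat_lit 5) (nat_lit 471) (nat_lit 5) (nat_lit 496) (nat_lit 5) (nat_lit 615) (nat_lit 598) (nat_lit 347))) (XT.nd (nat_lit 78) (nat_lit 0) (nat_lit 0) (XT.lf (nat_lit 0) (nat_lit 10550843247) (nat_lit 1824) (nat_lit 9868799250) (nat_lit 1900) (nat_lit 2544662762) (nat_lit 472) (nat_lit 5) (nat_lit 496) (nat_lit 5) (nat_lit 497) (nat_lit 5) (nat_lit 616) (nat_lit 598) (nat_lit 346)) (XT.nd (nat_lit 78) (nat_lit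 0) (nat_lit 76) (XT.lf (nat_lit 76) (nat_lit 2161485933) (nat_lit 0) (nat_lit 9988200422) (nat_lit 1900) (nat_lit 11055255072) (nat_lit 473) (nat_lit 5) (nat_lit 472) (nat_lit 5) (nat_lit 497) (nat_lit 5) (nat_lit 617) (nat_lit 598) (nat_lit 345)) (XT.lf (nat_lit 0) (nat_lit 13848006984) (nat_lit 1824) (nat_lit 8890322591) (nat_lit 1900) (nat_lit 710711034) (nat_lit 473) (nat_lit 5) (nat_lit 497) (nat_lit 5) (nat_lit 498) (nat_lit 5) (nat_lit 618) (nat_lit 598) (nat_lit 344)))))) (XT.nd (nat_lit 390) (nat_lit 2964) (nat_lit 0) (XT.nd (nat_lit 156) (nat_lit 1672) (nat_lit 0) (XT.nd (nat_lit 78) (nat_lit 0) (nat_lit 0) (XT.lf (nat_lit 76) (nat_lit 3482719292) (nat_lit 0) (nat_lit 12183005321) (nat_lit 1900) (nat_lit 8030588848) (nat_lit 474) (nat_lit 5) (nat_lit 473) (nat_lit 5) (nat_lit 498) (nat_lit 5) (nat_lit 619) (nat_lit 598) (nat_lit 343)) (XT.lf (nat_lit 76) (nat_lit 16221067182) (nat_lit 0) (nat_lit 1355107558) (nat_lit 1900) (nat_lit 6371229758) (nat_lit 474) (nat_lit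 5) (nat_lit 473) (nat_lit 5) (nat_lit 498) (nat_lit 5) (nat_lit 620) (nat_lit 598) (nat_lit 342))) (XT.nd (nat_lit 78) (nat_lit 1748) (nat_lit 0) (XT.lf (nat_lit 76) (nat_lit 5010790662) (nat_lit 0) (nat_lit 14606273901) (nat_lit 1900) (nat_lit 4584608464) (nat_lit 475) (nat_lit 5) (nat_lit 474) (nat_lit 5) (nat_lit 499) (nat_lit 5) (nat_lit 621) (nat_lit 598) (nat_lit 341)) (XT.nd (nat_lit 78) (nat_lit 1748) (nat_lit 0) (XT.lf (nat_lit 76) (nat_lit 18095636139) (nat_lit 0) (nat_lit 3660732348) (nat_lit 1900) (nat_lit 2703506796) (nat_lit 475) (nat_lit 5) (nat_lit 474) (nat_lit 5) (nat_lit 499) (nat_lit 5) (nat_lit 622) (nat_lit 598) (nat_lit 340)) (XT.lf (nat_lit 0) (nat_lit 6756148475) (nat_lit 1824) (nat_lit 17271793162) (nat_lit 1900) (nat_lit 693510558) (nat_lit 451) (nat_lit 5) (nat_lit 475) (nat_lit 5) (nat_lit 476) (nat_lit 5) (nat_lit 623) (nat_lit 598) (nat_lit 339))))) (XT.nd (nat_lit 234) (nat_lit 1824) (nat_lit 0) (XT.nd (nat_lit 78) (nat_lit 1064) (nat_lit 0)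 (XT.lf (nat_lit 0) (nat_lit 1403047561) (nat_lit 1900) (nat_lit 4798229307) (nat_lit 76) (nat_lit 18785524768) (nat_lit 450) (nat_lit 5) (nat_lit 475) (nat_lit 5) (nat_lit 451) (nat_lit 5) (nat_lit 624) (nat_lit 598) (nat_lit 338)) (XT.nd (nat_lit 78) (nat_lit 0) (nat_lit 0) (XT.lf (nat_lit 0) (nat_lit 3619444965) (nat_lit 1140) (nat_lit 16550185684) (nat_lit 76) (nat_lit 5085992110) (nat_lit 436) (nat_lit 5) (nat_lit 451) (nat_lit 5) (nat_lit 437) (nat_lit 5) (nat_lit 625) (nat_lit 598) (nat_lit 337)) (XT.lf (nat_lit 0) (nat_lit 5950676602) (nat_lit 1140) (nat_lit 3028932211) (nat_lit 76) (nat_lit 16548801620) (nat_lit 436) (nat_lit 5) (nat_lit 451) (nat_lit 5) (nat_lit 437) (nat_lit 5) (nat_lit 626) (nat_lit 598) (nat_lit 336)))) (XT.nd (nat_lit 78) (nat_lit 912) (nat_lit 0) (XT.lf (nat_lit 0) (nat_lit 8412682826) (nat_lit 988) (nat_lit 14918469090) (nat_lit 76) (nat_lit 2473819193) (nat_lit 424) (nat_lit 5) (nat_lit 437) (nat_lit 5) (nat_lit 425) (nat_lit 5) (nat_lit 627)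 (nat_lit 598) (nat_lit 335)) (XT.nd (nat_lit 78) (nat_lit 912) (nat_lit 0) (XT.lf (nat_lit 0) (nat_lit 11000983551) (nat_lit 988) (nat_lit 1027637649) (nat_lit 76) (nat_lit 14056900957) (nat_lit 424) (nat_lit 5) (nat_lit 437) (nat_lit 5) (nat_lit 425) (nat_lit 5) (nat_lit 628) (nat_lit 598) (nat_lit 334)) (XT.lf (nat_lit 0) (nat_lit 13312983320) (nat_lit 912) (nat_lit 411686463) (nat_lit 988) (nat_lit 12645342291) (nat_lit 412) (nat_lit 5) (nat_lit 424) (nat_lit 5) (nat_lit 425) (nat_lit 5) (nat_lit 629) (nat_lit 598) (nat_lit 333))))))))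
noncomputable def xc227 : XT := (XT.nd (nat_lit 1560) (nat_lit 1292) (nat_lit 0) (XT.nd (nat_lit 780) (nat_lit 4332) (nat_lit 0) (XT.nd (nat_lit 390) (nat_lit 1596) (nat_lit 0) (XT.nd (nat_lit 156) (nat_lit 1748) (nat_lit 0) (XT.nd (nat_lit 78) (nat_lit 0) (nat_lit 0) (XT.lf (nat_lit 0) (nat_lit 1233495308) (nat_lit 836) (nat_lit 15355767303) (nat_lit 912) (nat_lit 10069200757) (nat_lit 401) (nat_lit 5) (nat_lit 412) (nat_lit 5) (nat_lit 413) (nat_lit 5) (nat_lit 630) (nat_lit 598) (nat_lit 332)) (XT.lf (nat_lit 0) (nat_lit 15981407369) (nat_lit 836) (nat_lit 3617327319) (nat_lit 912) (nat_lit 7352197480) (nat_lit 401) (nat_lit 5) (nat_lit 412) (nat_lit 5) (nat_lit 413) (nat_lit 5) (nat_lit 631) (nat_lit 598) (nat_lit 331))) (XT.nd (nat_lit 78) (nat_lit 912) (nat_lit 0) (XT.lf (nat_lit 0) (nat_lit 3767533420) (nat_lit 836) (nat_lit 18976889738) (nat_lit 912) (nat_lit 4503306874) (nat_lit 390) (nat_lit 5) (nat_lit 401) (nat_lit 5) (nat_lit 402) (nat_lit 5) (nat_lit 632) (nat_lit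 598) (nat_lit 330)) (XT.nd (nat_lit 78) (nat_lit 912) (nat_lit 0) (XT.lf (nat_lit 0) (nat_lit 18921117034) (nat_lit 836) (nat_lit 7126667110) (nat_lit 912) (nat_lit 1500784755) (nat_lit 390) (nat_lit 5) (nat_lit 401) (nat_lit 5) (nat_lit 402) (nat_lit 5) (nat_lit 633) (nat_lit 598) (nat_lit 329)) (XT.lf (nat_lit 0) (nat_lit 1614072715) (nat_lit 912) (nat_lit 21290878819) (nat_lit 76) (nat_lit 4948815057) (nat_lit 378) (nat_lit 5) (nat_lit 390) (nat_lit 5) (nat_lit 379) (nat_lit 5) (nat_lit 634) (nat_lit 598) (nat_lit 328))))) (XT.nd (nat_lit 156) (nat_lit 760) (nat_lit 0) (XT.nd (nat_lit 78) (nat_lit 836) (nat_lit 0) (XT.lf (nat_lit 0) (nat_lit 4874043308) (nat_lit 912) (nat_lit 6050101770) (nat_lit 76) (nat_lit 17238666736) (nat_lit 378) (nat_lit 5) (nat_lit 390) (nat_lit 5) (nat_lit 379) (nat_lit 5) (nat_lit 635) (nat_lit 598) (nat_lit 327)) (XT.lf (nat_lit 0) (nat_lit 8267964659) (nat_lit 912) (nat_lit 18866624939) (nat_lit 76) (nat_lit 1342073519) (nat_lit 367) (nat_lit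 5) (nat_lit 379) (nat_lit 5) (nat_lit 368) (nat_lit 5) (nat_lit 636) (nat_lit 598) (nat_lit 326))) (XT.nd (nat_lit 78) (nat_lit 760) (nat_lit 0) (XT.lf (nat_lit 0) (nat_lit 11840478993) (nat_lit 912) (nat_lit 3205836618) (nat_lit 76) (nat_lit 13748261744) (nat_lit 367) (nat_lit 5) (nat_lit 379) (nat_lit 5) (nat_lit 368) (nat_lit 5) (nat_lit 637) (nat_lit 598) (nat_lit 325)) (XT.nd (nat_lit 78) (nat_lit 0) (nat_lit 0) (XT.lf (nat_lit 0) (nat_lit 12935232422) (nat_lit 760) (nat_lit 2630745289) (nat_lit 836) (nat_lit 13551241683) (nat_lit 357) (nat_lit 5) (nat_lit 367) (nat_lit 5) (nat_lit 368) (nat_lit 5) (nat_lit 638) (nat_lit 598) (nat_lit 324)) (XT.lf (nat_lit 0) (nat_lit 19450363911) (nat_lit 836) (nat_lit 71203020) (nat_lit 76) (nat_lit 9923059983) (nat_lit 357) (nat_lit 5) (nat_lit 368) (nat_lit 5) (nat_lit 358) (nat_lit 5) (nat_lit 639) (nat_lit 598) (nat_lit 323)))))) (XT.nd (nat_lit 390) (nat_lit 2052) (nat_lit 0) (XT.nd (nat_lit 156) (nat_lit 836) (nat_lit 0) (XT.nd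 (nat_lit 78) (nat_lit 684) (nat_lit 0) (XT.lf (nat_lit 0) (nat_lit 16558986223) (nat_lit 760) (nat_lit 6976013541) (nat_lit 836) (nat_lit 6241131771) (nat_lit 347) (nat_lit 5) (nat_lit 357) (nat_lit 5) (nat_lit 358) (nat_lit 5) (nat_lit 640) (nat_lit 598) (nat_lit 322)) (XT.lf (nat_lit 0) (nat_lit 3412863494) (nat_lit 684) (nat_lit 24346551137) (nat_lit 760) (nat_lit 2353690077) (nat_lit 338) (nat_lit 5) (nat_lit 347) (nat_lit 5) (nat_lit 348) (nat_lit 5) (nat_lit 641) (nat_lit 598) (nat_lit 321))) (XT.nd (nat_lit 78) (nat_lit 760) (nat_lit 0) (XT.lf (nat_lit 0) (nat_lit 1723515727) (nat_lit 760) (nat_lit 9960263435) (nat_lit 76) (nat_lit 18770166093) (nat_lit 337) (nat_lit 5) (nat_lit 347) (nat_lit 5) (nat_lit 338) (nat_lit 5) (nat_lit 642) (nat_lit 598) (nat_lit 320)) (XT.nd (nat_lit 78) (nat_lit 0) (nat_lit 0) (XT.lf (nat_lit 0) (nat_lit 5903593023) (nat_lit 836) (nat_lit 23618134793) (nat_lit 76) (nat_lit 1278506948) (nat_lit 327) (nat_lit 5) (nat_lit 338) (nat_lit 5)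 (nat_lit 328) (nat_lit 5) (nat_lit 643) (nat_lit 598) (nat_lit 319)) (XT.lf (nat_lit 0) (nat_lit 10309671552) (nat_lit 836) (nat_lit 6430188140) (nat_lit 76) (nat_lit 14410742548) (nat_lit 327) (nat_lit 5) (nat_lit 338) (nat_lit 5) (nat_lit 328) (nat_lit 5) (nat_lit 644) (nat_lit 598) (nat_lit 318))))) (XT.nd (nat_lit 156) (nat_lit 1368) (nat_lit 0) (XT.nd (nat_lit 78) (nat_lit 0) (nat_lit 0) (XT.lf (nat_lit 0) (nat_lit 11246486919) (nat_lit 684) (nat_lit 3628191068) (nat_lit 760) (nat_lit 16631883121) (nat_lit 318) (nat_lit 5) (nat_lit 327) (nat_lit 5) (nat_lit 328) (nat_lit 5) (nat_lit 645) (nat_lit 598) (nat_lit 317)) (XT.lf (nat_lit 0) (nat_lit 19635507515) (nat_lit 760) (nat_lit 2571034503) (nat_lit 76) (nat_lit 9661006838) (nat_lit 318) (nat_lit 5) (nat_lit 328) (nat_lit 5) (nat_lit 319) (nat_lit 5) (nat_lit 646) (nat_lit 598) (nat_lit 316))) (XT.nd (nat_lit 78) (nat_lit 684) (nat_lit 0) (XT.lf (nat_lit 0) (nat_lit 15650512267) (nat_lit 684) (nat_lit 8964537174) (nat_lit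 760) (nat_lit 7618237166) (nat_lit 309) (nat_lit 5) (nat_lit 318) (nat_lit 5) (nat_lit 319) (nat_lit 5) (nat_lit 647) (nat_lit 598) (nat_lit 315)) (XT.nd (nat_lit 78) (nat_lit 76) (nat_lit 0) (XT.lf (nat_lit 0) (nat_lit 1654916661) (nat_lit 608) (nat_lit 28094747346) (nat_lit 684) (nat_lit 2855565626) (nat_lit 301) (nat_lit 5) (nat_lit 309) (nat_lit 5) (nat_lit 310) (nat_lit 5) (nat_lit 648) (nat_lit 598) (nat_lit 314)) (XT.lf (nat_lit 0) (nat_lit 2145371243) (nat_lit 684) (nat_lit 12575886443) (nat_lit 76) (nat_lit 18259708507) (nat_lit 300) (nat_lit 5) (nat_lit 309) (nat_lit 5) (nat_lit 301) (nat_lit 5) (nat_lit 649) (nat_lit 598) (nat_lit 313))))))) (XT.nd (nat_lit 77688) (nat_lit 0) (nat_lit 13984) (XT.nd (nat_lit 77298) (nat_lit 0) (nat_lit 15580) (XT.nd (nat_lit 156) (nat_lit 608) (nat_lit 0) (XT.nd (nat_lit 78) (nat_lit 0) (nat_lit 0) (XT.lf (nat_lit 0) (nat_lit 6226285785) (nat_lit 684) (nat_lit 1020196661) (nat_lit 760) (nat_lit 26116589851) (nat_lit 291) (nat_lit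 5) (nat_lit 300) (nat_lit 5) (nat_lit 301) (nat_lit 5) (nat_lit 650) (nat_lit 598) (nat_lit 312)) (XT.lf (nat_lit 0) (nat_lit 12616629703) (nat_lit 760) (nat_lit 8263344911) (nat_lit 76) (nat_lit 12869505777) (nat_lit 291) (nat_lit 5) (nat_lit 301) (nat_lit 5) (nat_lit 292) (nat_lit 5) (nat_lit 651) (nat_lit 598) (nat_lit 311))) (XT.nd (nat_lit 78) (nat_lit 0) (nat_lit 0) (XT.lf (nat_lit 0) (nat_lit 11124242432) (nat_lit 608) (nat_lit 7046912272) (nat_lit 684) (nat_lit 15970922590) (nat_lit 283) (nat_lit 5) (nat_lit 291) (nat_lit 5) (nat_lit 292) (nat_lit 5) (nat_lit 652) (nat_lit 598) (nat_lit 310)) (XT.nd (nat_lit 76986) (nat_lit 0) (nat_lit 15580) (XT.lf (nat_lit 0) (nat_lit 23936458322) (nat_lit 684) (nat_lit 3578531321) (nat_lit 76) (nat_lit 7025542872) (nat_lit 283) (nat_lit 5) (nat_lit 292) (nat_lit 5) (nat_lit 284) (nat_lit 5) (nat_lit 653) (nat_lit 598) (nat_lit 309)) (XT.lf (nat_lit 0) (nat_lit 4052347569) (nat_lit 0) (nat_lit 4052347569) (nat_lit 1748) (nat_lit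 1662954678) (nat_lit 488) (nat_lit 5) (nat_lit 488) (nat_lit 3) (nat_lit 511) (nat_lit 3) (nat_lit 599) (nat_lit 599) (nat_lit 362))))) (XT.nd (nat_lit 156) (nat_lit 0) (nat_lit 76) (XT.nd (nat_lit 78) (nat_lit 0) (nat_lit 0) (XT.lf (nat_lit 0) (nat_lit 16553682049) (nat_lit 1748) (nat_lit 1788345224) (nat_lit 1824) (nat_lit 1384965197) (nat_lit 488) (nat_lit 5) (nat_lit 511) (nat_lit 3) (nat_lit 512) (nat_lit 5) (nat_lit 600) (nat_lit 599) (nat_lit 361)) (XT.lf (nat_lit 76) (nat_lit 8096902057) (nat_lit 0) (nat_lit 8909676160) (nat_lit 1824) (nat_lit 2913907001) (nat_lit 489) (nat_lit 5) (nat_lit 488) (nat_lit 5) (nat_lit 512) (nat_lit 5) (nat_lit 601) (nat_lit 599) (nat_lit 360))) (XT.nd (nat_lit 78) (nat_lit 0) (nat_lit 0) (XT.lf (nat_lit 0) (nat_lit 17480792509) (nat_lit 1748) (nat_lit 1920673309) (nat_lit 1824) (nat_lit 716137217) (nat_lit 489) (nat_lit 5) (nat_lit 512) (nat_lit 5) (nat_lit 513) (nat_lit 5) (nat_lit 602) (nat_lit 599) (nat_lit 359)) (XT.nd (nat_lit 78)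 (nat_lit 0) (nat_lit 0) (XT.lf (nat_lit 76) (nat_lit 8226770715) (nat_lit 0) (nat_lit 9845787139) (nat_lit 1824) (nat_lit 2243944426) (nat_lit 490) (nat_lit 5) (nat_lit 489) (nat_lit 5) (nat_lit 513) (nat_lit 5) (nat_lit 603) (nat_lit 599) (nat_lit 358)) (XT.lf (nat_lit 76) (nat_lit 18600799616) (nat_lit 0) (nat_lit 83966001) (nat_lit 1824) (nat_lit 1834442152) (nat_lit 490) (nat_lit 5) (nat_lit 489) (nat_lit 5) (nat_lit 513) (nat_lit 5) (nat_lit 604) (nat_lit 599) (nat_lit 357)))))) (XT.nd (nat_lit 390) (nat_lit 0) (nat_lit 76) (XT.nd (nat_lit 156) (nat_lit 1748) (nat_lit 0) (XT.nd (nat_lit 78) (nat_lit 0) (nat_lit 0) (XT.lf (nat_lit 76) (nat_lit 8501286449) (nat_lit 0) (nat_lit 10923044053) (nat_lit 1824) (nat_lit 1299334998) (nat_lit 491) (nat_lit 5) (nat_lit 490) (nat_lit 5) (nat_lit 514) (nat_lit 5) (nat_lit 605) (nat_lit 599) (nat_lit 356)) (XT.lf (nat_lit 76) (nat_lit 19152383603) (nat_lit 0) (nat_lit 1035609614) (nat_lit 1824) (nat_lit 744033422) (nat_lit 491) (nat_lit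 5) (nat_lit 490) (nat_lit 5) (nat_lit 514) (nat_lit 5) (nat_lit 606) (nat_lit 599) (nat_lit 355))) (XT.nd (nat_lit 78) (nat_lit 1824) (nat_lit 0) (XT.lf (nat_lit 76) (nat_lit 8927805026) (nat_lit 0) (nat_lit 12151817336) (nat_lit 1824) (nat_lit 62679155) (nat_lit 492) (nat_lit 5) (nat_lit 491) (nat_lit 5) (nat_lit 515) (nat_lit 5) (nat_lit 607) (nat_lit 599) (nat_lit 354)) (XT.nd (nat_lit 78) (nat_lit 0) (nat_lit 76) (XT.lf (nat_lit 0) (nat_lit 638897700) (nat_lit 1824) (nat_lit 1496573939) (nat_lit 1900) (nat_lit 19220930743) (nat_lit 467) (nat_lit 5) (nat_lit 491) (nat_lit 5) (nat_lit 492) (nat_lit 5) (nat_lit 608) (nat_lit 599) (nat_lit 353)) (XT.lf (nat_lit 0) (nat_lit 1464704087) (nat_lit 1824) (nat_lit 12068321225) (nat_lit 1900) (nat_lit 8039531277) (nat_lit 468) (nat_lit 5) (nat_lit 492) (nat_lit 5) (nat_lit 493) (nat_lit 5) (nat_lit 609) (nat_lit 599) (nat_lit 352))))) (XT.nd (nat_lit 234) (nat_lit 0) (nat_lit 152) (XT.nd (nat_lit 78) (nat_lit 0) (nat_lit 76) (XT.lf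 (nat_lit 0) (nat_lit 2327434811) (nat_lit 1824) (nat_lit 1064229151) (nat_lit 1900) (nat_lit 18400962102) (nat_lit 468) (nat_lit 5) (nat_lit 492) (nat_lit 5) (nat_lit 493) (nat_lit 5) (nat_lit 610) (nat_lit 599) (nat_lit 351)) (XT.nd (nat_lit 78) (nat_lit 0) (nat_lit 0) (XT.lf (nat_lit 0) (nat_lit 3316068891) (nat_lit 1824) (nat_lit 11768980380) (nat_lit 1900) (nat_lit 6929875025) (nat_lit 469) (nat_lit 5) (nat_lit 493) (nat_lit 5) (nat_lit 494) (nat_lit 5) (nat_lit 611) (nat_lit 599) (nat_lit 350)) (XT.lf (nat_lit 0) (nat_lit 4350423814) (nat_lit 1824) (nat_lit 469839233) (nat_lit 1900) (nat_lit 17420886817) (nat_lit 469) (nat_lit 5) (nat_lit 493) (nat_lit 5) (nat_lit 494) (nat_lit 5) (nat_lit 612) (nat_lit 599) (nat_lit 349)))) (XT.nd (nat_lit 78) (nat_lit 0) (nat_lit 0) (XT.lf (nat_lit 0) (nat_lit 5511723339) (nat_lit 1824) (nat_lit 11308020649) (nat_lit 1900) (nat_lit 5650031134) (nat_lit 470) (nat_lit 5) (nat_lit 494) (nat_lit 5) (nat_lit 495) (nat_lit 5) (nat_lit 613)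 (nat_lit 599) (nat_lit 348)) (XT.nd (nat_lit 78) (nat_lit 0) (nat_lit 76) (XT.lf (nat_lit 76) (nat_lit 298851680) (nat_lit 0) (nat_lit 6430866211) (nat_lit 1900) (nat_lit 15972585936) (nat_lit 471) (nat_lit 5) (nat_lit 470) (nat_lit 5) (nat_lit 495) (nat_lit 5) (nat_lit 614) (nat_lit 599) (nat_lit 347)) (XT.lf (nat_lit 0) (nat_lit 8071997071) (nat_lit 1824) (nat_lit 10676994089) (nat_lit 1900) (nat_lit 4188493767) (nat_lit 471) (nat_lit 5) (nat_lit 495) (nat_lit 5) (nat_lit 496) (nat_lit 5) (nat_lit 615) (nat_lit 599) (nat_lit 346))))))))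
noncomputable def xc228 : XT := (XT.nd (nat_lit 1560) (nat_lit 7220) (nat_lit 0) (XT.nd (nat_lit 780) (nat_lit 5472) (nat_lit 0) (XT.nd (nat_lit 390) (nat_lit 1596) (nat_lit 0) (XT.nd (nat_lit 156) (nat_lit 0) (nat_lit 76) (XT.nd (nat_lit 78) (nat_lit 0) (nat_lit 76) (XT.lf (nat_lit 76) (nat_lit 1255295798) (nat_lit 0) (nat_lit 8233125907) (nat_lit 1900) (nat_lit 13688002256) (nat_lit 472) (nat_lit 5) (nat_lit 471) (nat_lit 5) (nat_lit 496) (nat_lit 5) (nat_lit 616) (nat_lit 599) (nat_lit 345)) (XT.lf (nat_lit 0) (nat_lit 11018101538) (nat_lit 1824) (nat_lit 9867037724) (nat_lit 1900) (nat_lit 2533304283) (nat_lit 472) (nat_lit 5) (nat_lit 496) (nat_lit 5) (nat_lit 497) (nat_lit 5) (nat_lit 617) (nat_lit 599) (nat_lit 344))) (XT.nd (nat_lit 78) (nat_lit 0) (nat_lit 76) (XT.lf (nat_lit 76) (nat_lit 2402543047) (nat_lit 0) (nat_lit 10242638545) (nat_lit 1900) (nat_lit 11018786093) (nat_lit 473) (nat_lit 5) (nat_lit 472) (nat_lit 5) (nat_lit 497) (nat_lit 5) (nat_lit 618) (nat_lit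 599) (nat_lit 343)) (XT.nd (nat_lit 78) (nat_lit 0) (nat_lit 0) (XT.lf (nat_lit 0) (nat_lit 14372169604) (nat_lit 1824) (nat_lit 8868859487) (nat_lit 1900) (nat_lit 672026183) (nat_lit 473) (nat_lit 5) (nat_lit 497) (nat_lit 5) (nat_lit 498) (nat_lit 5) (nat_lit 619) (nat_lit 599) (nat_lit 342)) (XT.lf (nat_lit 76) (nat_lit 3750332249) (nat_lit 0) (nat_lit 12472347507) (nat_lit 1900) (nat_lit 7942665496) (nat_lit 474) (nat_lit 5) (nat_lit 473) (nat_lit 5) (nat_lit 498) (nat_lit 5) (nat_lit 620) (nat_lit 599) (nat_lit 341))))) (XT.nd (nat_lit 156) (nat_lit 1748) (nat_lit 0) (XT.nd (nat_lit 78) (nat_lit 0) (nat_lit 76) (XT.lf (nat_lit 76) (nat_lit 16739565556) (nat_lit 0) (nat_lit 1426996062) (nat_lit 1900) (nat_lit 6254992462) (nat_lit 474) (nat_lit 5) (nat_lit 473) (nat_lit 5) (nat_lit 498) (nat_lit 5) (nat_lit 621) (nat_lit 599) (nat_lit 340)) (XT.lf (nat_lit 76) (nat_lit 5308862491) (nat_lit 0) (nat_lit 14935722683) (nat_lit 1900) (nat_lit 4436396905) (nat_lit 475) (nat_lit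 5) (nat_lit 474) (nat_lit 5) (nat_lit 499) (nat_lit 5) (nat_lit 622) (nat_lit 599) (nat_lit 339))) (XT.nd (nat_lit 78) (nat_lit 1824) (nat_lit 0) (XT.lf (nat_lit 76) (nat_lit 18651525348) (nat_lit 0) (nat_lit 3770538469) (nat_lit 1900) (nat_lit 2522377198) (nat_lit 475) (nat_lit 5) (nat_lit 474) (nat_lit 5) (nat_lit 499) (nat_lit 5) (nat_lit 623) (nat_lit 599) (nat_lit 338)) (XT.nd (nat_lit 78) (nat_lit 76) (nat_lit 0) (XT.lf (nat_lit 0) (nat_lit 7088809084) (nat_lit 1824) (nat_lit 17646788032) (nat_lit 1900) (nat_lit 475722175) (nat_lit 451) (nat_lit 5) (nat_lit 475) (nat_lit 5) (nat_lit 476) (nat_lit 5) (nat_lit 624) (nat_lit 599) (nat_lit 337)) (XT.lf (nat_lit 0) (nat_lit 1655246111) (nat_lit 1900) (nat_lit 4697531632) (nat_lit 76) (nat_lit 19129257936) (nat_lit 450) (nat_lit 5) (nat_lit 475) (nat_lit 5) (nat_lit 451) (nat_lit 5) (nat_lit 625) (nat_lit 599) (nat_lit 336)))))) (XT.nd (nat_lit 390) (nat_lit 2584) (nat_lit 0) (XT.nd (nat_lit 156) (nat_lit 1824) (nat_lit 0)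 (XT.nd (nat_lit 78) (nat_lit 0) (nat_lit 0) (XT.lf (nat_lit 0) (nat_lit 3912678580) (nat_lit 1140) (nat_lit 16681215393) (nat_lit 76) (nat_lit 5162405487) (nat_lit 436) (nat_lit 5) (nat_lit 451) (nat_lit 5) (nat_lit 437) (nat_lit 5) (nat_lit 626) (nat_lit 599) (nat_lit 335)) (XT.lf (nat_lit 0) (nat_lit 6286204561) (nat_lit 1140) (nat_lit 2893457909) (nat_lit 76) (nat_lit 16854967392) (nat_lit 436) (nat_lit 5) (nat_lit 451) (nat_lit 5) (nat_lit 437) (nat_lit 5) (nat_lit 627) (nat_lit 599) (nat_lit 334))) (XT.nd (nat_lit 78) (nat_lit 912) (nat_lit 0) (XT.lf (nat_lit 0) (nat_lit 8794348190) (nat_lit 988) (nat_lit 15017664679) (nat_lit 76) (nat_lit 2504771301) (nat_lit 424) (nat_lit 5) (nat_lit 437) (nat_lit 5) (nat_lit 425) (nat_lit 5) (nat_lit 628) (nat_lit 599) (nat_lit 333)) (XT.nd (nat_lit 78) (nat_lit 912) (nat_lit 0) (XT.lf (nat_lit 0) (nat_lit 11430230385) (nat_lit 988) (nat_lit 852921977) (nat_lit 76) (nat_lit 14319877922) (nat_lit 424) (nat_lit 5) (nat_lit 437) (nat_lit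 5) (nat_lit 425) (nat_lit 5) (nat_lit 629) (nat_lit 599) (nat_lit 332)) (XT.lf (nat_lit 0) (nat_lit 13773226750) (nat_lit 912) (nat_lit 432320570) (nat_lit 988) (nat_lit 12687719889) (nat_lit 412) (nat_lit 5) (nat_lit 424) (nat_lit 5) (nat_lit 425) (nat_lit 5) (nat_lit 630) (nat_lit 599) (nat_lit 331))))) (XT.nd (nat_lit 156) (nat_lit 1748) (nat_lit 0) (XT.nd (nat_lit 78) (nat_lit 0) (nat_lit 0) (XT.lf (nat_lit 0) (nat_lit 1455070587) (nat_lit 836) (nat_lit 15669514177) (nat_lit 912) (nat_lit 10062960050) (nat_lit 401) (nat_lit 5) (nat_lit 412) (nat_lit 5) (nat_lit 413) (nat_lit 5) (nat_lit 631) (nat_lit 599) (nat_lit 330)) (XT.lf (nat_lit 0) (nat_lit 16494080000) (nat_lit 836) (nat_lit 3696175364) (nat_lit 912) (nat_lit 7295687782) (nat_lit 401) (nat_lit 5) (nat_lit 412) (nat_lit 5) (nat_lit 413) (nat_lit 5) (nat_lit 632) (nat_lit 599) (nat_lit 329))) (XT.nd (nat_lit 78) (nat_lit 912) (nat_lit 0) (XT.lf (nat_lit 0) (nat_lit 4038681778) (nat_lit 836) (nat_lit 19357493023)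 (nat_lit 912) (nat_lit 4392556149) (nat_lit 390) (nat_lit 5) (nat_lit 401) (nat_lit 5) (nat_lit 402) (nat_lit 5) (nat_lit 633) (nat_lit 599) (nat_lit 328)) (XT.nd (nat_lit 78) (nat_lit 912) (nat_lit 0) (XT.lf (nat_lit 0) (nat_lit 19491497893) (nat_lit 836) (nat_lit 7270245051) (nat_lit 912) (nat_lit 1333921173) (nat_lit 390) (nat_lit 5) (nat_lit 401) (nat_lit 5) (nat_lit 402) (nat_lit 5) (nat_lit 634) (nat_lit 599) (nat_lit 327)) (XT.lf (nat_lit 0) (nat_lit 1838106429) (nat_lit 912) (nat_lit 21519579608) (nat_lit 76) (nat_lit 5049305369) (nat_lit 378) (nat_lit 5) (nat_lit 390) (nat_lit 5) (nat_lit 379) (nat_lit 5) (nat_lit 635) (nat_lit 599) (nat_lit 326))))))) (XT.nd (nat_lit 780) (nat_lit 3344) (nat_lit 0) (XT.nd (nat_lit 390) (nat_lit 1520) (nat_lit 0) (XT.nd (nat_lit 156) (nat_lit 1520) (nat_lit 0) (XT.nd (nat_lit 78) (nat_lit 836) (nat_lit 0) (XT.lf (nat_lit 0) (nat_lit 5159516586) (nat_lit 912) (nat_lit 5977852052) (nat_lit 76) (nat_lit 17584924394) (nat_lit 378) (nat_lit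 5) (nat_lit 390) (nat_lit 5) (nat_lit 379) (nat_lit 5) (nat_lit 636) (nat_lit 599) (nat_lit 325)) (XT.lf (nat_lit 0) (nat_lit 8618918434) (nat_lit 912) (nat_lit 19048292884) (nat_lit 76) (nat_lit 1375258300) (nat_lit 367) (nat_lit 5) (nat_lit 379) (nat_lit 5) (nat_lit 368) (nat_lit 5) (nat_lit 637) (nat_lit 599) (nat_lit 324))) (XT.nd (nat_lit 78) (nat_lit 1520) (nat_lit 0) (XT.lf (nat_lit 0) (nat_lit 12259243948) (nat_lit 912) (nat_lit 3078125357) (nat_lit 76) (nat_lit 14029445911) (nat_lit 367) (nat_lit 5) (nat_lit 379) (nat_lit 5) (nat_lit 368) (nat_lit 5) (nat_lit 638) (nat_lit 599) (nat_lit 323)) (XT.nd (nat_lit 78) (nat_lit 760) (nat_lit 0) (XT.lf (nat_lit 0) (nat_lit 13384503037) (nat_lit 760) (nat_lit 2672419130) (nat_lit 836) (nat_lit 13639034822) (nat_lit 357) (nat_lit 5) (nat_lit 367) (nat_lit 5) (nat_lit 368) (nat_lit 5) (nat_lit 639) (nat_lit 599) (nat_lit 322)) (XT.lf (nat_lit 0) (nat_lit 119232480) (nat_lit 760) (nat_lit 19897085334) (nat_lit 836) (nat_lit 10013648692)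 (nat_lit 347) (nat_lit 5) (nat_lit 357) (nat_lit 5) (nat_lit 358) (nat_lit 5) (nat_lit 640) (nat_lit 599) (nat_lit 321))))) (XT.nd (nat_lit 156) (nat_lit 836) (nat_lit 0) (XT.nd (nat_lit 78) (nat_lit 684) (nat_lit 0) (XT.lf (nat_lit 0) (nat_lit 17079209807) (nat_lit 760) (nat_lit 7100435477) (nat_lit 836) (nat_lit 6188516232) (nat_lit 347) (nat_lit 5) (nat_lit 357) (nat_lit 5) (nat_lit 358) (nat_lit 5) (nat_lit 641) (nat_lit 599) (nat_lit 320)) (XT.lf (nat_lit 0) (nat_lit 3672293201) (nat_lit 684) (nat_lit 24814181875) (nat_lit 760) (nat_lit 2225440813) (nat_lit 338) (nat_lit 5) (nat_lit 347) (nat_lit 5) (nat_lit 348) (nat_lit 5) (nat_lit 642) (nat_lit 599) (nat_lit 319))) (XT.nd (nat_lit 78) (nat_lit 760) (nat_lit 0) (XT.lf (nat_lit 0) (nat_lit 1927617093) (nat_lit 760) (nat_lit 9969777491) (nat_lit 76) (nat_lit 19162224009) (nat_lit 337) (nat_lit 5) (nat_lit 347) (nat_lit 5) (nat_lit 338) (nat_lit 5) (nat_lit 643) (nat_lit 599) (nat_lit 318)) (XT.nd (nat_lit 78) (nat_lit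 0) (nat_lit 0) (XT.lf (nat_lit 0) (nat_lit 6189329127) (nat_lit 836) (nat_lit 23898826776) (nat_lit 76) (nat_lit 1324717580) (nat_lit 327) (nat_lit 5) (nat_lit 338) (nat_lit 5) (nat_lit 328) (nat_lit 5) (nat_lit 644) (nat_lit 599) (nat_lit 317)) (XT.lf (nat_lit 0) (nat_lit 10680241692) (nat_lit 836) (nat_lit 6370879440) (nat_lit 76) (nat_lit 14719193176) (nat_lit 327) (nat_lit 5) (nat_lit 338) (nat_lit 5) (nat_lit 328) (nat_lit 5) (nat_lit 645) (nat_lit 599) (nat_lit 316)))))) (XT.nd (nat_lit 390) (nat_lit 1292) (nat_lit 0) (XT.nd (nat_lit 156) (nat_lit 1368) (nat_lit 0) (XT.nd (nat_lit 78) (nat_lit 0) (nat_lit 0) (XT.lf (nat_lit 0) (nat_lit 11658092854) (nat_lit 684) (nat_lit 3676444355) (nat_lit 760) (nat_lit 16798895608) (nat_lit 318) (nat_lit 5) (nat_lit 327) (nat_lit 5) (nat_lit 328) (nat_lit 5) (nat_lit 646) (nat_lit 599) (nat_lit 315)) (XT.lf (nat_lit 0) (nat_lit 20187554433) (nat_lit 760) (nat_lit 2436398458) (nat_lit 76) (nat_lit 9877748248) (nat_lit 318) (nat_lit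 5) (nat_lit 328) (nat_lit 5) (nat_lit 319) (nat_lit 5) (nat_lit 647) (nat_lit 599) (nat_lit 314))) (XT.nd (nat_lit 78) (nat_lit 684) (nat_lit 0) (XT.lf (nat_lit 0) (nat_lit 16148355190) (nat_lit 684) (nat_lit 9116407813) (nat_lit 760) (nat_lit 7610029359) (nat_lit 309) (nat_lit 5) (nat_lit 318) (nat_lit 5) (nat_lit 319) (nat_lit 5) (nat_lit 648) (nat_lit 599) (nat_lit 313)) (XT.nd (nat_lit 78) (nat_lit 76) (nat_lit 0) (XT.lf (nat_lit 0) (nat_lit 1874593997) (nat_lit 608) (nat_lit 28625775275) (nat_lit 684) (nat_lit 2753839218) (nat_lit 301) (nat_lit 5) (nat_lit 309) (nat_lit 5) (nat_lit 310) (nat_lit 5) (nat_lit 649) (nat_lit 599) (nat_lit 312)) (XT.lf (nat_lit 0) (nat_lit 2341959585) (nat_lit 684) (nat_lit 12642430193) (nat_lit 76) (nat_lit 18653111071) (nat_lit 300) (nat_lit 5) (nat_lit 309) (nat_lit 5) (nat_lit 301) (nat_lit 5) (nat_lit 650) (nat_lit 599) (nat_lit 311))))) (XT.nd (nat_lit 77220) (nat_lit 0) (nat_lit 15580) (XT.nd (nat_lit 78) (nat_lit 608) (nat_lit 0) (XT.lf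 (nat_lit 0) (nat_lit 6534568545) (nat_lit 684) (nat_lit 1008704188) (nat_lit 760) (nat_lit 26484012964) (nat_lit 291) (nat_lit 5) (nat_lit 300) (nat_lit 5) (nat_lit 301) (nat_lit 5) (nat_lit 651) (nat_lit 599) (nat_lit 310)) (XT.nd (nat_lit 78) (nat_lit 608) (nat_lit 0) (XT.lf (nat_lit 0) (nat_lit 13018048308) (nat_lit 760) (nat_lit 8245672596) (nat_lit 76) (nat_lit 13157756755) (nat_lit 291) (nat_lit 5) (nat_lit 301) (nat_lit 5) (nat_lit 292) (nat_lit 5) (nat_lit 652) (nat_lit 599) (nat_lit 309)) (XT.lf (nat_lit 0) (nat_lit 11528462947) (nat_lit 608) (nat_lit 7153457556) (nat_lit 684) (nat_lit 16140041072) (nat_lit 283) (nat_lit 5) (nat_lit 291) (nat_lit 5) (nat_lit 292) (nat_lit 5) (nat_lit 653) (nat_lit 599) (nat_lit 308)))) (XT.nd (nat_lit 78) (nat_lit 0) (nat_lit 0) (XT.lf (nat_lit 0) (nat_lit 4219375753) (nat_lit 0) (nat_lit 4219375753) (nat_lit 1748) (nat_lit 1520795960) (nat_lit 488) (nat_lit 5) (nat_lit 488) (nat_lit 3) (nat_lit 511) (nat_lit 3) (nat_lit 600) (nat_lit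 600) (nat_lit 360)) (XT.nd (nat_lit 78) (nat_lit 0) (nat_lit 0) (XT.lf (nat_lit 0) (nat_lit 17220842394) (nat_lit 1748) (nat_lit 1647651686) (nat_lit 1824) (nat_lit 1246284945) (nat_lit 488) (nat_lit 5) (nat_lit 511) (nat_lit 3) (nat_lit 512) (nat_lit 5) (nat_lit 601) (nat_lit 600) (nat_lit 359)) (XT.lf (nat_lit 76) (nat_lit 8434139617) (nat_lit 0) (nat_lit 9243205094) (nat_lit 1824) (nat_lit 2634906571) (nat_lit 489) (nat_lit 5) (nat_lit 488) (nat_lit 5) (nat_lit 512) (nat_lit 5) (nat_lit 602) (nat_lit 600) (nat_lit 358))))))))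
noncomputable def xc229 : XT := (XT.nd (nat_lit 1560) (nat_lit 9804) (nat_lit 0) (XT.nd (nat_lit 780) (nat_lit 0) (nat_lit 152) (XT.nd (nat_lit 390) (nat_lit 1672) (nat_lit 0) (XT.nd (nat_lit 156) (nat_lit 0) (nat_lit 0) (XT.nd (nat_lit 78) (nat_lit 0) (nat_lit 0) (XT.lf (nat_lit 0) (nat_lit 18153571485) (nat_lit 1748) (nat_lit 1779722363) (nat_lit 1824) (nat_lit 580167648) (nat_lit 489) (nat_lit 5) (nat_lit 512) (nat_lit 5) (nat_lit 513) (nat_lit 5) (nat_lit 603) (nat_lit 600) (nat_lit 357)) (XT.lf (nat_lit 76) (nat_lit 8569490511) (nat_lit 0) (nat_lit 10182501985) (nat_lit 1824) (nat_lit 1964450419) (nat_lit 490) (nat_lit 5) (nat_lit 489) (nat_lit 5) (nat_lit 513) (nat_lit 5) (nat_lit 604) (nat_lit 600) (nat_lit 356))) (XT.nd (nat_lit 78) (nat_lit 0) (nat_lit 76) (XT.lf (nat_lit 76) (nat_lit 19147506179) (nat_lit 0) (nat_lit 222703265) (nat_lit 1824) (nat_lit 1553118352) (nat_lit 490) (nat_lit 5) (nat_lit 489) (nat_lit 5) (nat_lit 513) (nat_lit 5) (nat_lit 605) (nat_lit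 600) (nat_lit 355)) (XT.nd (nat_lit 78) (nat_lit 0) (nat_lit 0) (XT.lf (nat_lit 76) (nat_lit 8851960402) (nat_lit 0) (nat_lit 11266792975) (nat_lit 1824) (nat_lit 1013238122) (nat_lit 491) (nat_lit 5) (nat_lit 490) (nat_lit 5) (nat_lit 514) (nat_lit 5) (nat_lit 606) (nat_lit 600) (nat_lit 354)) (XT.lf (nat_lit 76) (nat_lit 19712537377) (nat_lit 0) (nat_lit 1179153219) (nat_lit 1824) (nat_lit 452949800) (nat_lit 491) (nat_lit 5) (nat_lit 490) (nat_lit 5) (nat_lit 514) (nat_lit 5) (nat_lit 607) (nat_lit 600) (nat_lit 353))))) (XT.nd (nat_lit 156) (nat_lit 0) (nat_lit 76) (XT.nd (nat_lit 78) (nat_lit 0) (nat_lit 0) (XT.lf (nat_lit 0) (nat_lit 233343800) (nat_lit 1824) (nat_lit 12271684573) (nat_lit 1900) (nat_lit 9054171778) (nat_lit 467) (nat_lit 5) (nat_lit 491) (nat_lit 5) (nat_lit 492) (nat_lit 5) (nat_lit 608) (nat_lit 600) (nat_lit 352)) (XT.lf (nat_lit 0) (nat_lit 942301193) (nat_lit 1824) (nat_lit 1343479188) (nat_lit 1900) (nat_lit 19491911129) (nat_lit 467) (nat_lit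 5) (nat_lit 491) (nat_lit 5) (nat_lit 492) (nat_lit 5) (nat_lit 609) (nat_lit 600) (nat_lit 351))) (XT.nd (nat_lit 78) (nat_lit 0) (nat_lit 0) (XT.lf (nat_lit 0) (nat_lit 1779428587) (nat_lit 1824) (nat_lit 12121440408) (nat_lit 1900) (nat_lit 8097404226) (nat_lit 468) (nat_lit 5) (nat_lit 492) (nat_lit 5) (nat_lit 493) (nat_lit 5) (nat_lit 610) (nat_lit 600) (nat_lit 350)) (XT.nd (nat_lit 78) (nat_lit 0) (nat_lit 76) (XT.lf (nat_lit 0) (nat_lit 2653817252) (nat_lit 1824) (nat_lit 900957615) (nat_lit 1900) (nat_lit 18668081660) (nat_lit 468) (nat_lit 5) (nat_lit 492) (nat_lit 5) (nat_lit 493) (nat_lit 5) (nat_lit 611) (nat_lit 600) (nat_lit 349)) (XT.lf (nat_lit 0) (nat_lit 3657328862) (nat_lit 1824) (nat_lit 11814883831) (nat_lit 1900) (nat_lit 6977486431) (nat_lit 469) (nat_lit 5) (nat_lit 493) (nat_lit 5) (nat_lit 494) (nat_lit 5) (nat_lit 612) (nat_lit 600) (nat_lit 348)))))) (XT.nd (nat_lit 390) (nat_lit 0) (nat_lit 228) (XT.nd (nat_lit 156) (nat_lit 0) (nat_lit 76) (XT.nd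 (nat_lit 78) (nat_lit 0) (nat_lit 76) (XT.lf (nat_lit 0) (nat_lit 4706979930) (nat_lit 1824) (nat_lit 293475081) (nat_lit 1900) (nat_lit 17680102501) (nat_lit 469) (nat_lit 5) (nat_lit 493) (nat_lit 5) (nat_lit 494) (nat_lit 5) (nat_lit 613) (nat_lit 600) (nat_lit 347)) (XT.lf (nat_lit 0) (nat_lit 5886892949) (nat_lit 1824) (nat_lit 11343783709) (nat_lit 1900) (nat_lit 5683171345) (nat_lit 470) (nat_lit 5) (nat_lit 494) (nat_lit 5) (nat_lit 495) (nat_lit 5) (nat_lit 614) (nat_lit 600) (nat_lit 346))) (XT.nd (nat_lit 78) (nat_lit 0) (nat_lit 76) (XT.lf (nat_lit 76) (nat_lit 493973453) (nat_lit 0) (nat_lit 6631307186) (nat_lit 1900) (nat_lit 16025826447) (nat_lit 471) (nat_lit 5) (nat_lit 470) (nat_lit 5) (nat_lit 495) (nat_lit 5) (nat_lit 615) (nat_lit 600) (nat_lit 345)) (XT.nd (nat_lit 78) (nat_lit 0) (nat_lit 0) (XT.lf (nat_lit 0) (nat_lit 8488831192) (nat_lit 1824) (nat_lit 10699500751) (nat_lit 1900) (nat_lit 4202771809) (nat_lit 471) (nat_lit 5) (nat_lit 495) (nat_lit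 5) (nat_lit 496) (nat_lit 5) (nat_lit 616) (nat_lit 600) (nat_lit 344)) (XT.lf (nat_lit 76) (nat_lit 1470178136) (nat_lit 0) (nat_lit 8459630608) (nat_lit 1900) (nat_lit 13705088785) (nat_lit 472) (nat_lit 5) (nat_lit 471) (nat_lit 5) (nat_lit 496) (nat_lit 5) (nat_lit 617) (nat_lit 600) (nat_lit 343))))) (XT.nd (nat_lit 156) (nat_lit 0) (nat_lit 76) (XT.nd (nat_lit 78) (nat_lit 0) (nat_lit 0) (XT.lf (nat_lit 0) (nat_lit 11484754827) (nat_lit 1824) (nat_lit 9872973720) (nat_lit 1900) (nat_lit 2524135946) (nat_lit 472) (nat_lit 5) (nat_lit 496) (nat_lit 5) (nat_lit 497) (nat_lit 5) (nat_lit 618) (nat_lit 600) (nat_lit 342)) (XT.lf (nat_lit 76) (nat_lit 2640739425) (nat_lit 0) (nat_lit 10500042368) (nat_lit 1900) (nat_lit 10991589650) (nat_lit 473) (nat_lit 5) (nat_lit 472) (nat_lit 5) (nat_lit 497) (nat_lit 5) (nat_lit 619) (nat_lit 600) (nat_lit 341))) (XT.nd (nat_lit 78) (nat_lit 0) (nat_lit 0) (XT.lf (nat_lit 0) (nat_lit 14897216303) (nat_lit 1824) (nat_lit 8854705002) (nat_lit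 1900) (nat_lit 634621769) (nat_lit 473) (nat_lit 5) (nat_lit 497) (nat_lit 5) (nat_lit 498) (nat_lit 5) (nat_lit 620) (nat_lit 600) (nat_lit 340)) (XT.nd (nat_lit 78) (nat_lit 0) (nat_lit 0) (XT.lf (nat_lit 76) (nat_lit 4015610493) (nat_lit 0) (nat_lit 12765702647) (nat_lit 1900) (nat_lit 7862634599) (nat_lit 474) (nat_lit 5) (nat_lit 473) (nat_lit 5) (nat_lit 498) (nat_lit 5) (nat_lit 621) (nat_lit 600) (nat_lit 339)) (XT.lf (nat_lit 76) (nat_lit 17260897650) (nat_lit 0) (nat_lit 1498583228) (nat_lit 1900) (nat_lit 6145892109) (nat_lit 474) (nat_lit 5) (nat_lit 473) (nat_lit 5) (nat_lit 498) (nat_lit 5) (nat_lit 622) (nat_lit 600) (nat_lit 338))))))) (XT.nd (nat_lit 780) (nat_lit 4788) (nat_lit 0) (XT.nd (nat_lit 390) (nat_lit 2660) (nat_lit 0) (XT.nd (nat_lit 156) (nat_lit 2888) (nat_lit 0) (XT.nd (nat_lit 78) (nat_lit 0) (nat_lit 0) (XT.lf (nat_lit 76) (nat_lit 5605212766) (nat_lit 0) (nat_lit 15270311130) (nat_lit 1900) (nat_lit 4294536869) (nat_lit 475) (nat_lit 5) (nat_lit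 474) (nat_lit 5) (nat_lit 499) (nat_lit 5) (nat_lit 623) (nat_lit 600) (nat_lit 337)) (XT.lf (nat_lit 76) (nat_lit 19210999997) (nat_lit 0) (nat_lit 3881119821) (nat_lit 1900) (nat_lit 2346758100) (nat_lit 475) (nat_lit 5) (nat_lit 474) (nat_lit 5) (nat_lit 499) (nat_lit 5) (nat_lit 624) (nat_lit 600) (nat_lit 336))) (XT.nd (nat_lit 78) (nat_lit 1140) (nat_lit 0) (XT.lf (nat_lit 0) (nat_lit 7420452279) (nat_lit 1824) (nat_lit 18028134988) (nat_lit 1900) (nat_lit 262573609) (nat_lit 451) (nat_lit 5) (nat_lit 475) (nat_lit 5) (nat_lit 476) (nat_lit 5) (nat_lit 625) (nat_lit 600) (nat_lit 335)) (XT.nd (nat_lit 78) (nat_lit 1064) (nat_lit 0) (XT.lf (nat_lit 0) (nat_lit 1903785096) (nat_lit 1900) (nat_lit 4602456639) (nat_lit 76) (nat_lit 19481107487) (nat_lit 450) (nat_lit 5) (nat_lit 475) (nat_lit 5) (nat_lit 451) (nat_lit 5) (nat_lit 626) (nat_lit 600) (nat_lit 334)) (XT.lf (nat_lit 0) (nat_lit 4203201197) (nat_lit 1140) (nat_lit 16822630931) (nat_lit 76) (nat_lit 5241329812)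 (nat_lit 436) (nat_lit 5) (nat_lit 451) (nat_lit 5) (nat_lit 437) (nat_lit 5) (nat_lit 627) (nat_lit 600) (nat_lit 333))))) (XT.nd (nat_lit 156) (nat_lit 1748) (nat_lit 0) (XT.nd (nat_lit 78) (nat_lit 912) (nat_lit 0) (XT.lf (nat_lit 0) (nat_lit 6620035560) (nat_lit 1140) (nat_lit 2762887097) (nat_lit 76) (nat_lit 17168219893) (nat_lit 436) (nat_lit 5) (nat_lit 451) (nat_lit 5) (nat_lit 437) (nat_lit 5) (nat_lit 628) (nat_lit 600) (nat_lit 332)) (XT.lf (nat_lit 0) (nat_lit 9175359824) (nat_lit 988) (nat_lit 15126578341) (nat_lit 76) (nat_lit 2537061772) (nat_lit 424) (nat_lit 5) (nat_lit 437) (nat_lit 5) (nat_lit 425) (nat_lit 5) (nat_lit 629) (nat_lit 600) (nat_lit 331))) (XT.nd (nat_lit 78) (nat_lit 1748) (nat_lit 0) (XT.lf (nat_lit 0) (nat_lit 11859937611) (nat_lit 988) (nat_lit 682294503) (nat_lit 76) (nat_lit 14588819641) (nat_lit 424) (nat_lit 5) (nat_lit 437) (nat_lit 5) (nat_lit 425) (nat_lit 5) (nat_lit 630) (nat_lit 600) (nat_lit 330)) (XT.nd (nat_lit 78) (nat_lit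 836) (nat_lit 0) (XT.lf (nat_lit 0) (nat_lit 14235142423) (nat_lit 912) (nat_lit 452885838) (nat_lit 988) (nat_lit 12739120146) (nat_lit 412) (nat_lit 5) (nat_lit 424) (nat_lit 5) (nat_lit 425) (nat_lit 5) (nat_lit 631) (nat_lit 600) (nat_lit 329)) (XT.lf (nat_lit 0) (nat_lit 1673431296) (nat_lit 836) (nat_lit 15989278478) (nat_lit 912) (nat_lit 10064656851) (nat_lit 401) (nat_lit 5) (nat_lit 412) (nat_lit 5) (nat_lit 413) (nat_lit 5) (nat_lit 632) (nat_lit 600) (nat_lit 328)))))) (XT.nd (nat_lit 390) (nat_lit 3040) (nat_lit 0) (XT.nd (nat_lit 156) (nat_lit 912) (nat_lit 0) (XT.nd (nat_lit 78) (nat_lit 836) (nat_lit 0) (XT.lf (nat_lit 0) (nat_lit 17009509930) (nat_lit 836) (nat_lit 3776347908) (nat_lit 912) (nat_lit 7245952125) (nat_lit 401) (nat_lit 5) (nat_lit 412) (nat_lit 5) (nat_lit 413) (nat_lit 5) (nat_lit 633) (nat_lit 600) (nat_lit 327)) (XT.lf (nat_lit 0) (nat_lit 4307650039) (nat_lit 836) (nat_lit 19745667000) (nat_lit 912) (nat_lit 4287388374) (nat_lit 390) (nat_lit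 5) (nat_lit 401) (nat_lit 5) (nat_lit 402) (nat_lit 5) (nat_lit 634) (nat_lit 600) (nat_lit 326))) (XT.nd (nat_lit 78) (nat_lit 912) (nat_lit 0) (XT.lf (nat_lit 0) (nat_lit 20065832386) (nat_lit 836) (nat_lit 7416653988) (nat_lit 912) (nat_lit 1171365383) (nat_lit 390) (nat_lit 5) (nat_lit 401) (nat_lit 5) (nat_lit 402) (nat_lit 5) (nat_lit 635) (nat_lit 600) (nat_lit 325)) (XT.nd (nat_lit 78) (nat_lit 0) (nat_lit 0) (XT.lf (nat_lit 0) (nat_lit 2059174844) (nat_lit 912) (nat_lit 21760508697) (nat_lit 76) (nat_lit 5151746696) (nat_lit 378) (nat_lit 5) (nat_lit 390) (nat_lit 5) (nat_lit 379) (nat_lit 5) (nat_lit 636) (nat_lit 600) (nat_lit 324)) (XT.lf (nat_lit 0) (nat_lit 5443399355) (nat_lit 912) (nat_lit 5911661542) (nat_lit 76) (nat_lit 17938049568) (nat_lit 378) (nat_lit 5) (nat_lit 390) (nat_lit 5) (nat_lit 379) (nat_lit 5) (nat_lit 637) (nat_lit 600) (nat_lit 323))))) (XT.nd (nat_lit 234) (nat_lit 1444) (nat_lit 0) (XT.nd (nat_lit 78) (nat_lit 760) (nat_lit 0) (XT.lf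 (nat_lit 0) (nat_lit 8969684425) (nat_lit 912) (nat_lit 19241192082) (nat_lit 76) (nat_lit 1408860457) (nat_lit 367) (nat_lit 5) (nat_lit 379) (nat_lit 5) (nat_lit 368) (nat_lit 5) (nat_lit 638) (nat_lit 600) (nat_lit 322)) (XT.nd (nat_lit 78) (nat_lit 760) (nat_lit 0) (XT.lf (nat_lit 0) (nat_lit 12679318653) (nat_lit 912) (nat_lit 2955308785) (nat_lit 76) (nat_lit 14316012272) (nat_lit 367) (nat_lit 5) (nat_lit 379) (nat_lit 5) (nat_lit 368) (nat_lit 5) (nat_lit 639) (nat_lit 600) (nat_lit 321)) (XT.lf (nat_lit 0) (nat_lit 13835359157) (nat_lit 760) (nat_lit 2715351303) (nat_lit 836) (nat_lit 13735698933) (nat_lit 357) (nat_lit 5) (nat_lit 367) (nat_lit 5) (nat_lit 368) (nat_lit 5) (nat_lit 640) (nat_lit 600) (nat_lit 320)))) (XT.nd (nat_lit 78) (nat_lit 684) (nat_lit 0) (XT.lf (nat_lit 0) (nat_lit 306954248) (nat_lit 760) (nat_lit 20280224752) (nat_lit 836) (nat_lit 10039962671) (nat_lit 347) (nat_lit 5) (nat_lit 357) (nat_lit 5) (nat_lit 358) (nat_lit 5) (nat_lit 641) (nat_lit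 600) (nat_lit 319)) (XT.nd (nat_lit 78) (nat_lit 684) (nat_lit 0) (XT.lf (nat_lit 0) (nat_lit 17602497060) (nat_lit 760) (nat_lit 7227932139) (nat_lit 836) (nat_lit 6141738523) (nat_lit 347) (nat_lit 5) (nat_lit 357) (nat_lit 5) (nat_lit 358) (nat_lit 5) (nat_lit 642) (nat_lit 600) (nat_lit 318)) (XT.lf (nat_lit 0) (nat_lit 3929488045) (nat_lit 684) (nat_lit 25291914681) (nat_lit 760) (nat_lit 2101434572) (nat_lit 338) (nat_lit 5) (nat_lit 347) (nat_lit 5) (nat_lit 348) (nat_lit 5) (nat_lit 643) (nat_lit 600) (nat_lit 317))))))))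
noncomputable def xc230 : XT := (XT.nd (nat_lit 78624) (nat_lit 0) (nat_lit 10108) (XT.nd (nat_lit 77844) (nat_lit 0) (nat_lit 13376) (XT.nd (nat_lit 390) (nat_lit 2052) (nat_lit 0) (XT.nd (nat_lit 156) (nat_lit 684) (nat_lit 0) (XT.nd (nat_lit 78) (nat_lit 760) (nat_lit 0) (XT.lf (nat_lit 0) (nat_lit 2129213506) (nat_lit 760) (nat_lit 9986847770) (nat_lit 76) (nat_lit 19561476365) (nat_lit 337) (nat_lit 5) (nat_lit 347) (nat_lit 5) (nat_lit 338) (nat_lit 5) (nat_lit 644) (nat_lit 600) (nat_lit 316)) (XT.lf (nat_lit 0) (nat_lit 6474269346) (nat_lit 836) (nat_lit 24192575406) (nat_lit 76) (nat_lit 1371050928) (nat_lit 327) (nat_lit 5) (nat_lit 338) (nat_lit 5) (nat_lit 328) (nat_lit 5) (nat_lit 645) (nat_lit 600) (nat_lit 315))) (XT.nd (nat_lit 78) (nat_lit 684) (nat_lit 0) (XT.lf (nat_lit 0) (nat_lit 11051840287) (nat_lit 836) (nat_lit 6317681435) (nat_lit 76) (nat_lit 15033027036) (nat_lit 327) (nat_lit 5) (nat_lit 338) (nat_lit 5) (nat_lit 328) (nat_lit 5) (nat_lit 646)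 (nat_lit 600) (nat_lit 314)) (XT.nd (nat_lit 78) (nat_lit 0) (nat_lit 0) (XT.lf (nat_lit 0) (nat_lit 12070682044) (nat_lit 684) (nat_lit 3726606714) (nat_lit 760) (nat_lit 16975679773) (nat_lit 318) (nat_lit 5) (nat_lit 327) (nat_lit 5) (nat_lit 328) (nat_lit 5) (nat_lit 647) (nat_lit 600) (nat_lit 313)) (XT.lf (nat_lit 0) (nat_lit 20744455047) (nat_lit 760) (nat_lit 2306294502) (nat_lit 76) (nat_lit 10097911126) (nat_lit 318) (nat_lit 5) (nat_lit 328) (nat_lit 5) (nat_lit 319) (nat_lit 5) (nat_lit 648) (nat_lit 600) (nat_lit 312))))) (XT.nd (nat_lit 156) (nat_lit 760) (nat_lit 0) (XT.nd (nat_lit 78) (nat_lit 608) (nat_lit 0) (XT.lf (nat_lit 0) (nat_lit 16648977693) (nat_lit 684) (nat_lit 9272380620) (nat_lit 760) (nat_lit 7607892624) (nat_lit 309) (nat_lit 5) (nat_lit 318) (nat_lit 5) (nat_lit 319) (nat_lit 5) (nat_lit 649) (nat_lit 600) (nat_lit 311)) (XT.lf (nat_lit 0) (nat_lit 2091419789) (nat_lit 608) (nat_lit 29168622367) (nat_lit 684) (nat_lit 2656246144) (nat_lit 301)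 (nat_lit 5) (nat_lit 309) (nat_lit 5) (nat_lit 310) (nat_lit 5) (nat_lit 650) (nat_lit 600) (nat_lit 310))) (XT.nd (nat_lit 78) (nat_lit 684) (nat_lit 0) (XT.lf (nat_lit 0) (nat_lit 2536512077) (nat_lit 684) (nat_lit 12717487583) (nat_lit 76) (nat_lit 19053286320) (nat_lit 300) (nat_lit 5) (nat_lit 309) (nat_lit 5) (nat_lit 301) (nat_lit 5) (nat_lit 651) (nat_lit 600) (nat_lit 309)) (XT.nd (nat_lit 78) (nat_lit 0) (nat_lit 0) (XT.lf (nat_lit 0) (nat_lit 6841881451) (nat_lit 684) (nat_lit 998220442) (nat_lit 760) (nat_lit 26864799832) (nat_lit 291) (nat_lit 5) (nat_lit 300) (nat_lit 5) (nat_lit 301) (nat_lit 5) (nat_lit 652) (nat_lit 600) (nat_lit 308)) (XT.lf (nat_lit 0) (nat_lit 13421706093) (nat_lit 760) (nat_lit 8234750587) (nat_lit 76) (nat_lit 13450574387) (nat_lit 291) (nat_lit 5) (nat_lit 301) (nat_lit 5) (nat_lit 292) (nat_lit 5) (nat_lit 653) (nat_lit 600) (nat_lit 307)))))) (XT.nd (nat_lit 390) (nat_lit 1596) (nat_lit 0) (XT.nd (nat_lit 156) (nat_lit 0) (nat_lit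 0) (XT.nd (nat_lit 78) (nat_lit 0) (nat_lit 0) (XT.lf (nat_lit 0) (nat_lit 4386405745) (nat_lit 0) (nat_lit 4386405745) (nat_lit 1748) (nat_lit 1382605755) (nat_lit 488) (nat_lit 5) (nat_lit 488) (nat_lit 3) (nat_lit 511) (nat_lit 3) (nat_lit 601) (nat_lit 601) (nat_lit 358)) (XT.lf (nat_lit 0) (nat_lit 17888295290) (nat_lit 1748) (nat_lit 1510996451) (nat_lit 1824) (nat_lit 1111291808) (nat_lit 488) (nat_lit 5) (nat_lit 511) (nat_lit 3) (nat_lit 512) (nat_lit 5) (nat_lit 602) (nat_lit 601) (nat_lit 357))) (XT.nd (nat_lit 78) (nat_lit 0) (nat_lit 76) (XT.lf (nat_lit 76) (nat_lit 8771314834) (nat_lit 0) (nat_lit 9577372744) (nat_lit 1824) (nat_lit 2363423070) (nat_lit 489) (nat_lit 5) (nat_lit 488) (nat_lit 5) (nat_lit 512) (nat_lit 5) (nat_lit 603) (nat_lit 601) (nat_lit 356)) (XT.nd (nat_lit 78) (nat_lit 0) (nat_lit 0) (XT.lf (nat_lit 0) (nat_lit 18827257223) (nat_lit 1748) (nat_lit 1642917338) (nat_lit 1824) (nat_lit 447314722) (nat_lit 489) (nat_lit 5) (nat_lit 512) (nat_lit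 5) (nat_lit 513) (nat_lit 5) (nat_lit 604) (nat_lit 601) (nat_lit 355)) (XT.lf (nat_lit 76) (nat_lit 8912145587) (nat_lit 0) (nat_lit 10520522558) (nat_lit 1824) (nat_lit 1691962326) (nat_lit 490) (nat_lit 5) (nat_lit 489) (nat_lit 5) (nat_lit 513) (nat_lit 5) (nat_lit 605) (nat_lit 601) (nat_lit 354))))) (XT.nd (nat_lit 156) (nat_lit 1672) (nat_lit 0) (XT.nd (nat_lit 78) (nat_lit 0) (nat_lit 76) (XT.lf (nat_lit 76) (nat_lit 19698363426) (nat_lit 0) (nat_lit 358893148) (nat_lit 1824) (nat_lit 1278516894) (nat_lit 490) (nat_lit 5) (nat_lit 489) (nat_lit 5) (nat_lit 513) (nat_lit 5) (nat_lit 606) (nat_lit 601) (nat_lit 353)) (XT.lf (nat_lit 76) (nat_lit 9202633043) (nat_lit 0) (nat_lit 11612551788) (nat_lit 1824) (nat_lit 733537894) (nat_lit 491) (nat_lit 5) (nat_lit 490) (nat_lit 5) (nat_lit 514) (nat_lit 5) (nat_lit 607) (nat_lit 601) (nat_lit 352))) (XT.nd (nat_lit 78) (nat_lit 1748) (nat_lit 0) (XT.lf (nat_lit 76) (nat_lit 20277016981) (nat_lit 0) (nat_lit 1320798003) (nat_lit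 1824) (nat_lit 167925473) (nat_lit 491) (nat_lit 5) (nat_lit 490) (nat_lit 5) (nat_lit 514) (nat_lit 5) (nat_lit 608) (nat_lit 601) (nat_lit 351)) (XT.nd (nat_lit 78) (nat_lit 0) (nat_lit 0) (XT.lf (nat_lit 0) (nat_lit 522937675) (nat_lit 1824) (nat_lit 12337680784) (nat_lit 1900) (nat_lit 9124041264) (nat_lit 467) (nat_lit 5) (nat_lit 491) (nat_lit 5) (nat_lit 492) (nat_lit 5) (nat_lit 609) (nat_lit 601) (nat_lit 350)) (XT.lf (nat_lit 0) (nat_lit 1240487412) (nat_lit 1824) (nat_lit 1194429673) (nat_lit 1900) (nat_lit 19772716068) (nat_lit 467) (nat_lit 5) (nat_lit 491) (nat_lit 5) (nat_lit 492) (nat_lit 5) (nat_lit 610) (nat_lit 601) (nat_lit 349))))))) (XT.nd (nat_lit 780) (nat_lit 3344) (nat_lit 0) (XT.nd (nat_lit 390) (nat_lit 0) (nat_lit 152) (XT.nd (nat_lit 156) (nat_lit 0) (nat_lit 76) (XT.nd (nat_lit 78) (nat_lit 0) (nat_lit 0) (XT.lf (nat_lit 0) (nat_lit 2089363967) (nat_lit 1824) (nat_lit 12182931845) (nat_lit 1900) (nat_lit 8160431052) (nat_lit 468) (nat_lit 5)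 (nat_lit 492) (nat_lit 5) (nat_lit 493) (nat_lit 5) (nat_lit 611) (nat_lit 601) (nat_lit 348)) (XT.lf (nat_lit 0) (nat_lit 2975861055) (nat_lit 1824) (nat_lit 741587188) (nat_lit 1900) (nat_lit 18944461668) (nat_lit 468) (nat_lit 5) (nat_lit 492) (nat_lit 5) (nat_lit 493) (nat_lit 5) (nat_lit 612) (nat_lit 601) (nat_lit 347))) (XT.nd (nat_lit 78) (nat_lit 0) (nat_lit 0) (XT.lf (nat_lit 0) (nat_lit 3994737831) (nat_lit 1824) (nat_lit 11869062942) (nat_lit 1900) (nat_lit 7029583167) (nat_lit 469) (nat_lit 5) (nat_lit 493) (nat_lit 5) (nat_lit 494) (nat_lit 5) (nat_lit 613) (nat_lit 601) (nat_lit 346)) (XT.nd (nat_lit 78) (nat_lit 0) (nat_lit 76) (XT.lf (nat_lit 0) (nat_lit 5060200305) (nat_lit 1824) (nat_lit 120796969) (nat_lit 1900) (nat_lit 17947966322) (nat_lit 469) (nat_lit 5) (nat_lit 493) (nat_lit 5) (nat_lit 494) (nat_lit 5) (nat_lit 614) (nat_lit 601) (nat_lit 345)) (XT.lf (nat_lit 0) (nat_lit 6259278197) (nat_lit 1824) (nat_lit 11387655391) (nat_lit 1900) (nat_lit 5720075437)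 (nat_lit 470) (nat_lit 5) (nat_lit 494) (nat_lit 5) (nat_lit 495) (nat_lit 5) (nat_lit 615) (nat_lit 601) (nat_lit 344))))) (XT.nd (nat_lit 156) (nat_lit 0) (nat_lit 76) (XT.nd (nat_lit 78) (nat_lit 0) (nat_lit 76) (XT.lf (nat_lit 76) (nat_lit 685652940) (nat_lit 0) (nat_lit 6832967980) (nat_lit 1900) (nat_lit 16090469074) (nat_lit 471) (nat_lit 5) (nat_lit 470) (nat_lit 5) (nat_lit 495) (nat_lit 5) (nat_lit 616) (nat_lit 601) (nat_lit 343)) (XT.lf (nat_lit 0) (nat_lit 8904084727) (nat_lit 1824) (nat_lit 10729875599) (nat_lit 1900) (nat_lit 4220033864) (nat_lit 471) (nat_lit 5) (nat_lit 495) (nat_lit 5) (nat_lit 496) (nat_lit 5) (nat_lit 617) (nat_lit 601) (nat_lit 342))) (XT.nd (nat_lit 78) (nat_lit 0) (nat_lit 76) (XT.lf (nat_lit 76) (nat_lit 1681988871) (nat_lit 0) (nat_lit 8688263995) (nat_lit 1900) (nat_lit 13732483990) (nat_lit 472) (nat_lit 5) (nat_lit 471) (nat_lit 5) (nat_lit 496) (nat_lit 5) (nat_lit 618) (nat_lit 601) (nat_lit 341)) (XT.nd (nat_lit 78) (nat_lit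 0) (nat_lit 0) (XT.lf (nat_lit 0) (nat_lit 11951177393) (nat_lit 1824) (nat_lit 9886460915) (nat_lit 1900) (nat_lit 2517107686) (nat_lit 472) (nat_lit 5) (nat_lit 496) (nat_lit 5) (nat_lit 497) (nat_lit 5) (nat_lit 619) (nat_lit 601) (nat_lit 340)) (XT.lf (nat_lit 76) (nat_lit 2876316149) (nat_lit 0) (nat_lit 10760553646) (nat_lit 1900) (nat_lit 10973462807) (nat_lit 473) (nat_lit 5) (nat_lit 472) (nat_lit 5) (nat_lit 497) (nat_lit 5) (nat_lit 620) (nat_lit 601) (nat_lit 339)))))) (XT.nd (nat_lit 390) (nat_lit 3724) (nat_lit 0) (XT.nd (nat_lit 156) (nat_lit 0) (nat_lit 0) (XT.nd (nat_lit 78) (nat_lit 0) (nat_lit 0) (XT.lf (nat_lit 0) (nat_lit 15423537510) (nat_lit 1824) (nat_lit 8847704834) (nat_lit 1900) (nat_lit 598443639) (nat_lit 473) (nat_lit 5) (nat_lit 497) (nat_lit 5) (nat_lit 498) (nat_lit 5) (nat_lit 621) (nat_lit 601) (nat_lit 338)) (XT.lf (nat_lit 76) (nat_lit 4278805823) (nat_lit 0) (nat_lit 13063219880) (nat_lit 1900) (nat_lit 7790279249) (nat_lit 474) (nat_lit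 5) (nat_lit 473) (nat_lit 5) (nat_lit 498) (nat_lit 5) (nat_lit 622) (nat_lit 601) (nat_lit 337))) (XT.nd (nat_lit 78) (nat_lit 0) (nat_lit 76) (XT.lf (nat_lit 76) (nat_lit 17785412780) (nat_lit 0) (nat_lit 1569930560) (nat_lit 1900) (nat_lit 6043704028) (nat_lit 474) (nat_lit 5) (nat_lit 473) (nat_lit 5) (nat_lit 498) (nat_lit 5) (nat_lit 623) (nat_lit 601) (nat_lit 336)) (XT.nd (nat_lit 78) (nat_lit 0) (nat_lit 0) (XT.lf (nat_lit 76) (nat_lit 5900105397) (nat_lit 0) (nat_lit 15610198316) (nat_lit 1900) (nat_lit 4158793644) (nat_lit 475) (nat_lit 5) (nat_lit 474) (nat_lit 5) (nat_lit 499) (nat_lit 5) (nat_lit 624) (nat_lit 601) (nat_lit 335)) (XT.lf (nat_lit 76) (nat_lit 19774424287) (nat_lit 0) (nat_lit 3992547083) (nat_lit 1900) (nat_lit 2176405064) (nat_lit 475) (nat_lit 5) (nat_lit 474) (nat_lit 5) (nat_lit 499) (nat_lit 5) (nat_lit 625) (nat_lit 601) (nat_lit 334))))) (XT.nd (nat_lit 234) (nat_lit 912) (nat_lit 0) (XT.nd (nat_lit 78) (nat_lit 1140) (nat_lit 0) (XT.lf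 (nat_lit 0) (nat_lit 7751355570) (nat_lit 1824) (nat_lit 18416005641) (nat_lit 1900) (nat_lit 53808348) (nat_lit 451) (nat_lit 5) (nat_lit 475) (nat_lit 5) (nat_lit 476) (nat_lit 5) (nat_lit 626) (nat_lit 601) (nat_lit 333)) (XT.nd (nat_lit 78) (nat_lit 1064) (nat_lit 0) (XT.lf (nat_lit 0) (nat_lit 2148929293) (nat_lit 1900) (nat_lit 4512820241) (nat_lit 76) (nat_lit 19841187529) (nat_lit 450) (nat_lit 5) (nat_lit 475) (nat_lit 5) (nat_lit 451) (nat_lit 5) (nat_lit 627) (nat_lit 601) (nat_lit 332)) (XT.lf (nat_lit 0) (nat_lit 4491291601) (nat_lit 1140) (nat_lit 16974338480) (nat_lit 76) (nat_lit 5322777146) (nat_lit 436) (nat_lit 5) (nat_lit 451) (nat_lit 5) (nat_lit 437) (nat_lit 5) (nat_lit 628) (nat_lit 601) (nat_lit 331)))) (XT.nd (nat_lit 78) (nat_lit 912) (nat_lit 0) (XT.lf (nat_lit 0) (nat_lit 6952462134) (nat_lit 1140) (nat_lit 2637022222) (nat_lit 76) (nat_lit 17488663445) (nat_lit 436) (nat_lit 5) (nat_lit 451) (nat_lit 5) (nat_lit 437) (nat_lit 5) (nat_lit 629)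 (nat_lit 601) (nat_lit 330)) (XT.nd (nat_lit 78) (nat_lit 0) (nat_lit 0) (XT.lf (nat_lit 0) (nat_lit 9556026450) (nat_lit 988) (nat_lit 15245104110) (nat_lit 76) (nat_lit 2570689440) (nat_lit 424) (nat_lit 5) (nat_lit 437) (nat_lit 5) (nat_lit 425) (nat_lit 5) (nat_lit 630) (nat_lit 601) (nat_lit 329)) (XT.lf (nat_lit 0) (nat_lit 12290429921) (nat_lit 988) (nat_lit 515542552) (nat_lit 76) (nat_lit 14863818027) (nat_lit 424) (nat_lit 5) (nat_lit 437) (nat_lit 5) (nat_lit 425) (nat_lit 5) (nat_lit 631) (nat_lit 601) (nat_lit 328))))))))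
noncomputable def xc231 : XT := (XT.nd (nat_lit 1560) (nat_lit 760) (nat_lit 0) (XT.nd (nat_lit 780) (nat_lit 4256) (nat_lit 0) (XT.nd (nat_lit 390) (nat_lit 2508) (nat_lit 0) (XT.nd (nat_lit 156) (nat_lit 836) (nat_lit 0) (XT.nd (nat_lit 78) (nat_lit 836) (nat_lit 0) (XT.lf (nat_lit 0) (nat_lit 14699056285) (nat_lit 912) (nat_lit 473399586) (nat_lit 988) (nat_lit 12799406066) (nat_lit 412) (nat_lit 5) (nat_lit 424) (nat_lit 5) (nat_lit 425) (nat_lit 5) (nat_lit 632) (nat_lit 601) (nat_lit 327)) (XT.lf (nat_lit 0) (nat_lit 1888810050) (nat_lit 836) (nat_lit 16315190555) (nat_lit 912) (nat_lit 10074136839) (nat_lit 401) (nat_lit 5) (nat_lit 412) (nat_lit 5) (nat_lit 413) (nat_lit 5) (nat_lit 633) (nat_lit 601) (nat_lit 326))) (XT.nd (nat_lit 78) (nat_lit 836) (nat_lit 0) (XT.lf (nat_lit 0) (nat_lit 17528043392) (nat_lit 836) (nat_lit 3857881246) (nat_lit 912) (nat_lit 7202819061) (nat_lit 401) (nat_lit 5) (nat_lit 412) (nat_lit 5) (nat_lit 413) (nat_lit 5) (nat_lit 634) (nat_lit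 601) (nat_lit 325)) (XT.nd (nat_lit 78) (nat_lit 0) (nat_lit 0) (XT.lf (nat_lit 0) (nat_lit 4574689839) (nat_lit 836) (nat_lit 20141564688) (nat_lit 912) (nat_lit 4187612402) (nat_lit 390) (nat_lit 5) (nat_lit 401) (nat_lit 5) (nat_lit 402) (nat_lit 5) (nat_lit 635) (nat_lit 601) (nat_lit 324)) (XT.lf (nat_lit 0) (nat_lit 20644489033) (nat_lit 836) (nat_lit 7565952115) (nat_lit 912) (nat_lit 1012906672) (nat_lit 390) (nat_lit 5) (nat_lit 401) (nat_lit 5) (nat_lit 402) (nat_lit 5) (nat_lit 636) (nat_lit 601) (nat_lit 323))))) (XT.nd (nat_lit 156) (nat_lit 1596) (nat_lit 0) (XT.nd (nat_lit 78) (nat_lit 0) (nat_lit 0) (XT.lf (nat_lit 0) (nat_lit 2277507789) (nat_lit 912) (nat_lit 22013613429) (nat_lit 76) (nat_lit 5256180342) (nat_lit 378) (nat_lit 5) (nat_lit 390) (nat_lit 5) (nat_lit 379) (nat_lit 5) (nat_lit 637) (nat_lit 601) (nat_lit 322)) (XT.lf (nat_lit 0) (nat_lit 5725943272) (nat_lit 912) (nat_lit 5851360025) (nat_lit 76) (nat_lit 18298181846) (nat_lit 378) (nat_lit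 5) (nat_lit 390) (nat_lit 5) (nat_lit 379) (nat_lit 5) (nat_lit 638) (nat_lit 601) (nat_lit 321))) (XT.nd (nat_lit 78) (nat_lit 760) (nat_lit 0) (XT.lf (nat_lit 0) (nat_lit 9320538727) (nat_lit 912) (nat_lit 19445252121) (nat_lit 76) (nat_lit 1442897905) (nat_lit 367) (nat_lit 5) (nat_lit 379) (nat_lit 5) (nat_lit 368) (nat_lit 5) (nat_lit 639) (nat_lit 601) (nat_lit 320)) (XT.nd (nat_lit 78) (nat_lit 760) (nat_lit 0) (XT.lf (nat_lit 0) (nat_lit 13101003666) (nat_lit 912) (nat_lit 2837195547) (nat_lit 76) (nat_lit 14608077849) (nat_lit 367) (nat_lit 5) (nat_lit 379) (nat_lit 5) (nat_lit 368) (nat_lit 5) (nat_lit 640) (nat_lit 601) (nat_lit 319)) (XT.lf (nat_lit 0) (nat_lit 14288119837) (nat_lit 760) (nat_lit 2759550477) (nat_lit 836) (nat_lit 13841135149) (nat_lit 357) (nat_lit 5) (nat_lit 367) (nat_lit 5) (nat_lit 368) (nat_lit 5) (nat_lit 641) (nat_lit 601) (nat_lit 318)))))) (XT.nd (nat_lit 390) (nat_lit 1976) (nat_lit 0) (XT.nd (nat_lit 156) (nat_lit 1520) (nat_lit 0)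 (XT.nd (nat_lit 78) (nat_lit 0) (nat_lit 0) (XT.lf (nat_lit 0) (nat_lit 491233584) (nat_lit 760) (nat_lit 20671601749) (nat_lit 836) (nat_lit 10073557969) (nat_lit 347) (nat_lit 5) (nat_lit 357) (nat_lit 5) (nat_lit 358) (nat_lit 5) (nat_lit 642) (nat_lit 601) (nat_lit 317)) (XT.lf (nat_lit 0) (nat_lit 18129194307) (nat_lit 760) (nat_lit 7358542254) (nat_lit 836) (nat_lit 6100647847) (nat_lit 347) (nat_lit 5) (nat_lit 357) (nat_lit 5) (nat_lit 358) (nat_lit 5) (nat_lit 643) (nat_lit 601) (nat_lit 316))) (XT.nd (nat_lit 78) (nat_lit 836) (nat_lit 0) (XT.lf (nat_lit 0) (nat_lit 4184691588) (nat_lit 684) (nat_lit 25779922495) (nat_lit 760) (nat_lit 1981491851) (nat_lit 338) (nat_lit 5) (nat_lit 347) (nat_lit 5) (nat_lit 348) (nat_lit 5) (nat_lit 644) (nat_lit 601) (nat_lit 315)) (XT.nd (nat_lit 78) (nat_lit 760) (nat_lit 0) (XT.lf (nat_lit 0) (nat_lit 2328510646) (nat_lit 760) (nat_lit 10011339366) (nat_lit 76) (nat_lit 19968092163) (nat_lit 337) (nat_lit 5) (nat_lit 347) (nat_lit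 5) (nat_lit 338) (nat_lit 5) (nat_lit 645) (nat_lit 601) (nat_lit 314)) (XT.lf (nat_lit 0) (nat_lit 6758650577) (nat_lit 836) (nat_lit 24499352803) (nat_lit 76) (nat_lit 1417540571) (nat_lit 327) (nat_lit 5) (nat_lit 338) (nat_lit 5) (nat_lit 328) (nat_lit 5) (nat_lit 646) (nat_lit 601) (nat_lit 313))))) (XT.nd (nat_lit 156) (nat_lit 1292) (nat_lit 0) (XT.nd (nat_lit 78) (nat_lit 684) (nat_lit 0) (XT.lf (nat_lit 0) (nat_lit 11424735764) (nat_lit 836) (nat_lit 6270432994) (nat_lit 76) (nat_lit 15352382306) (nat_lit 327) (nat_lit 5) (nat_lit 338) (nat_lit 5) (nat_lit 328) (nat_lit 5) (nat_lit 647) (nat_lit 601) (nat_lit 312)) (XT.lf (nat_lit 0) (nat_lit 12484555636) (nat_lit 684) (nat_lit 3778679672) (nat_lit 760) (nat_lit 17162181309) (nat_lit 318) (nat_lit 5) (nat_lit 327) (nat_lit 5) (nat_lit 328) (nat_lit 5) (nat_lit 648) (nat_lit 601) (nat_lit 311))) (XT.nd (nat_lit 78) (nat_lit 1292) (nat_lit 0) (XT.lf (nat_lit 0) (nat_lit 21306546691) (nat_lit 760) (nat_lit 2180532729)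 (nat_lit 76) (nat_lit 10321599368) (nat_lit 318) (nat_lit 5) (nat_lit 328) (nat_lit 5) (nat_lit 319) (nat_lit 5) (nat_lit 649) (nat_lit 601) (nat_lit 310)) (XT.nd (nat_lit 78) (nat_lit 608) (nat_lit 0) (XT.lf (nat_lit 0) (nat_lit 17152714071) (nat_lit 684) (nat_lit 9432496294) (nat_lit 760) (nat_lit 7611706261) (nat_lit 309) (nat_lit 5) (nat_lit 318) (nat_lit 5) (nat_lit 319) (nat_lit 5) (nat_lit 650) (nat_lit 601) (nat_lit 309)) (XT.lf (nat_lit 0) (nat_lit 2305618343) (nat_lit 608) (nat_lit 29723478461) (nat_lit 684) (nat_lit 2562629565) (nat_lit 301) (nat_lit 5) (nat_lit 309) (nat_lit 5) (nat_lit 310) (nat_lit 5) (nat_lit 651) (nat_lit 601) (nat_lit 308))))))) (XT.nd (nat_lit 77922) (nat_lit 0) (nat_lit 13376) (XT.nd (nat_lit 77532) (nat_lit 0) (nat_lit 13300) (XT.nd (nat_lit 77298) (nat_lit 0) (nat_lit 14972) (XT.nd (nat_lit 78) (nat_lit 684) (nat_lit 0) (XT.lf (nat_lit 0) (nat_lit 2729219731) (nat_lit 684) (nat_lit 12800949971) (nat_lit 76) (nat_lit 19460412242) (nat_lit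 300) (nat_lit 5) (nat_lit 309) (nat_lit 5) (nat_lit 301) (nat_lit 5) (nat_lit 652) (nat_lit 601) (nat_lit 307)) (XT.lf (nat_lit 0) (nat_lit 7148482185) (nat_lit 684) (nat_lit 988717502) (nat_lit 760) (nat_lit 27258984150) (nat_lit 291) (nat_lit 5) (nat_lit 300) (nat_lit 5) (nat_lit 301) (nat_lit 5) (nat_lit 653) (nat_lit 601) (nat_lit 306))) (XT.nd (nat_lit 78) (nat_lit 0) (nat_lit 0) (XT.lf (nat_lit 0) (nat_lit 4553567229) (nat_lit 0) (nat_lit 4553567229) (nat_lit 1748) (nat_lit 1248198927) (nat_lit 488) (nat_lit 5) (nat_lit 488) (nat_lit 3) (nat_lit 511) (nat_lit 3) (nat_lit 602) (nat_lit 602) (nat_lit 356)) (XT.nd (nat_lit 78) (nat_lit 0) (nat_lit 0) (XT.lf (nat_lit 0) (nat_lit 18556553360) (nat_lit 1748) (nat_lit 1378194207) (nat_lit 1824) (nat_lit 979808652) (nat_lit 488) (nat_lit 5) (nat_lit 511) (nat_lit 3) (nat_lit 512) (nat_lit 5) (nat_lit 603) (nat_lit 602) (nat_lit 355)) (XT.lf (nat_lit 76) (nat_lit 9108690789) (nat_lit 0) (nat_lit 9912426108) (nat_lit 1824) (nat_lit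 2099098267) (nat_lit 489) (nat_lit 5) (nat_lit 488) (nat_lit 5) (nat_lit 512) (nat_lit 5) (nat_lit 604) (nat_lit 602) (nat_lit 354))))) (XT.nd (nat_lit 156) (nat_lit 1748) (nat_lit 0) (XT.nd (nat_lit 78) (nat_lit 0) (nat_lit 0) (XT.lf (nat_lit 0) (nat_lit 19502355144) (nat_lit 1748) (nat_lit 1510070693) (nat_lit 1824) (nat_lit 317414151) (nat_lit 489) (nat_lit 5) (nat_lit 512) (nat_lit 5) (nat_lit 513) (nat_lit 5) (nat_lit 605) (nat_lit 602) (nat_lit 353)) (XT.lf (nat_lit 76) (nat_lit 9255003326) (nat_lit 0) (nat_lit 10860085771) (nat_lit 1824) (nat_lit 1426131156) (nat_lit 490) (nat_lit 5) (nat_lit 489) (nat_lit 5) (nat_lit 513) (nat_lit 5) (nat_lit 606) (nat_lit 602) (nat_lit 352))) (XT.nd (nat_lit 78) (nat_lit 1748) (nat_lit 0) (XT.lf (nat_lit 76) (nat_lit 20253717780) (nat_lit 0) (nat_lit 492691365) (nat_lit 1824) (nat_lit 1010292706) (nat_lit 490) (nat_lit 5) (nat_lit 489) (nat_lit 5) (nat_lit 513) (nat_lit 5) (nat_lit 607) (nat_lit 602) (nat_lit 351)) (XT.nd (nat_lit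 78) (nat_lit 1824) (nat_lit 0) (XT.lf (nat_lit 76) (nat_lit 9553576739) (nat_lit 0) (nat_lit 11960549607) (nat_lit 1824) (nat_lit 459891668) (nat_lit 491) (nat_lit 5) (nat_lit 490) (nat_lit 5) (nat_lit 514) (nat_lit 5) (nat_lit 608) (nat_lit 602) (nat_lit 350)) (XT.lf (nat_lit 0) (nat_lit 109918962) (nat_lit 1824) (nat_lit 1350034626) (nat_lit 1900) (nat_lit 20735519406) (nat_lit 466) (nat_lit 5) (nat_lit 490) (nat_lit 5) (nat_lit 491) (nat_lit 5) (nat_lit 609) (nat_lit 602) (nat_lit 349)))))) (XT.nd (nat_lit 390) (nat_lit 0) (nat_lit 152) (XT.nd (nat_lit 156) (nat_lit 0) (nat_lit 76) (XT.nd (nat_lit 78) (nat_lit 0) (nat_lit 0) (XT.lf (nat_lit 0) (nat_lit 807259365) (nat_lit 1824) (nat_lit 12411964695) (nat_lit 1900) (nat_lit 9199626713) (nat_lit 467) (nat_lit 5) (nat_lit 491) (nat_lit 5) (nat_lit 492) (nat_lit 5) (nat_lit 610) (nat_lit 602) (nat_lit 348)) (XT.lf (nat_lit 0) (nat_lit 1533790235) (nat_lit 1824) (nat_lit 1049230321) (nat_lit 1900) (nat_lit 20063371001) (nat_lit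 467) (nat_lit 5) (nat_lit 491) (nat_lit 5) (nat_lit 492) (nat_lit 5) (nat_lit 611) (nat_lit 602) (nat_lit 347))) (XT.nd (nat_lit 78) (nat_lit 0) (nat_lit 0) (XT.lf (nat_lit 0) (nat_lit 2394844833) (nat_lit 1824) (nat_lit 12252679129) (nat_lit 1900) (nat_lit 8228559648) (nat_lit 468) (nat_lit 5) (nat_lit 492) (nat_lit 5) (nat_lit 493) (nat_lit 5) (nat_lit 612) (nat_lit 602) (nat_lit 346)) (XT.nd (nat_lit 78) (nat_lit 0) (nat_lit 76) (XT.lf (nat_lit 0) (nat_lit 3293901401) (nat_lit 1824) (nat_lit 585917605) (nat_lit 1900) (nat_lit 19230135190) (nat_lit 468) (nat_lit 5) (nat_lit 492) (nat_lit 5) (nat_lit 493) (nat_lit 5) (nat_lit 613) (nat_lit 602) (nat_lit 345)) (XT.lf (nat_lit 0) (nat_lit 4328633349) (nat_lit 1824) (nat_lit 11931397521) (nat_lit 1900) (nat_lit 7086117743) (nat_lit 469) (nat_lit 5) (nat_lit 493) (nat_lit 5) (nat_lit 494) (nat_lit 5) (nat_lit 614) (nat_lit 602) (nat_lit 344))))) (XT.nd (nat_lit 234) (nat_lit 0) (nat_lit 152) (XT.nd (nat_lit 78) (nat_lit 0) (nat_lit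 76) (XT.lf (nat_lit 76) (nat_lit 49044713) (nat_lit 0) (nat_lit 5361698382) (nat_lit 1900) (nat_lit 18175790457) (nat_lit 470) (nat_lit 5) (nat_lit 469) (nat_lit 5) (nat_lit 494) (nat_lit 5) (nat_lit 615) (nat_lit 602) (nat_lit 343)) (XT.nd (nat_lit 78) (nat_lit 0) (nat_lit 0) (XT.lf (nat_lit 0) (nat_lit 6629222881) (nat_lit 1824) (nat_lit 11439510775) (nat_lit 1900) (nat_lit 5760698270) (nat_lit 470) (nat_lit 5) (nat_lit 494) (nat_lit 5) (nat_lit 495) (nat_lit 5) (nat_lit 616) (nat_lit 602) (nat_lit 342)) (XT.lf (nat_lit 76) (nat_lit 874106501) (nat_lit 0) (nat_lit 7035981291) (nat_lit 1900) (nat_lit 16166340450) (nat_lit 471) (nat_lit 5) (nat_lit 470) (nat_lit 5) (nat_lit 495) (nat_lit 5) (nat_lit 617) (nat_lit 602) (nat_lit 341)))) (XT.nd (nat_lit 78) (nat_lit 0) (nat_lit 0) (XT.lf (nat_lit 0) (nat_lit 9318111166) (nat_lit 1824) (nat_lit 10767987946) (nat_lit 1900) (nat_lit 4240234829) (nat_lit 471) (nat_lit 5) (nat_lit 495) (nat_lit 5) (nat_lit 496) (nat_lit 5) (nat_lit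 618) (nat_lit 602) (nat_lit 340)) (XT.nd (nat_lit 78) (nat_lit 0) (nat_lit 76) (XT.lf (nat_lit 76) (nat_lit 1890952728) (nat_lit 0) (nat_lit 8919161893) (nat_lit 1900) (nat_lit 13770007016) (nat_lit 472) (nat_lit 5) (nat_lit 471) (nat_lit 5) (nat_lit 496) (nat_lit 5) (nat_lit 619) (nat_lit 602) (nat_lit 339)) (XT.lf (nat_lit 0) (nat_lit 12417735993) (nat_lit 1824) (nat_lit 9907361723) (nat_lit 1900) (nat_lit 2512172082) (nat_lit 472) (nat_lit 5) (nat_lit 496) (nat_lit 5) (nat_lit 497) (nat_lit 5) (nat_lit 620) (nat_lit 602) (nat_lit 338))))))))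
noncomputable def xc232 : XT := (XT.nd (nat_lit 1560) (nat_lit 5092) (nat_lit 0) (XT.nd (nat_lit 780) (nat_lit 5244) (nat_lit 0) (XT.nd (nat_lit 390) (nat_lit 2736) (nat_lit 0) (XT.nd (nat_lit 156) (nat_lit 0) (nat_lit 76) (XT.nd (nat_lit 78) (nat_lit 0) (nat_lit 76) (XT.lf (nat_lit 76) (nat_lit 3109507538) (nat_lit 0) (nat_lit 11024313769) (nat_lit 1900) (nat_lit 10964213651) (nat_lit 473) (nat_lit 5) (nat_lit 472) (nat_lit 5) (nat_lit 497) (nat_lit 5) (nat_lit 621) (nat_lit 602) (nat_lit 337)) (XT.lf (nat_lit 0) (nat_lit 15951516988) (nat_lit 1824) (nat_lit 8847713269) (nat_lit 1900) (nat_lit 563439649) (nat_lit 473) (nat_lit 5) (nat_lit 497) (nat_lit 5) (nat_lit 498) (nat_lit 5) (nat_lit 622) (nat_lit 602) (nat_lit 336))) (XT.nd (nat_lit 78) (nat_lit 0) (nat_lit 0) (XT.lf (nat_lit 76) (nat_lit 4540163486) (nat_lit 0) (nat_lit 13365048657) (nat_lit 1900) (nat_lit 7725392753) (nat_lit 474) (nat_lit 5) (nat_lit 473) (nat_lit 5) (nat_lit 498) (nat_lit 5) (nat_lit 623) (nat_lit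 602) (nat_lit 335)) (XT.nd (nat_lit 78) (nat_lit 0) (nat_lit 76) (XT.lf (nat_lit 76) (nat_lit 18313455885) (nat_lit 0) (nat_lit 1641098170) (nat_lit 1900) (nat_lit 5948213322) (nat_lit 474) (nat_lit 5) (nat_lit 473) (nat_lit 5) (nat_lit 498) (nat_lit 5) (nat_lit 624) (nat_lit 602) (nat_lit 334)) (XT.lf (nat_lit 76) (nat_lit 6193797985) (nat_lit 0) (nat_lit 15955544308) (nat_lit 1900) (nat_lit 4028941871) (nat_lit 475) (nat_lit 5) (nat_lit 474) (nat_lit 5) (nat_lit 499) (nat_lit 5) (nat_lit 625) (nat_lit 602) (nat_lit 333))))) (XT.nd (nat_lit 156) (nat_lit 1064) (nat_lit 0) (XT.nd (nat_lit 78) (nat_lit 1824) (nat_lit 0) (XT.lf (nat_lit 76) (nat_lit 20342158341) (nat_lit 0) (nat_lit 4104890206) (nat_lit 1900) (nat_lit 2011082532) (nat_lit 475) (nat_lit 5) (nat_lit 474) (nat_lit 5) (nat_lit 499) (nat_lit 5) (nat_lit 626) (nat_lit 602) (nat_lit 332)) (XT.lf (nat_lit 0) (nat_lit 148843633) (nat_lit 1900) (nat_lit 18660730854) (nat_lit 76) (nat_lit 7931948000) (nat_lit 450) (nat_lit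 5) (nat_lit 475) (nat_lit 5) (nat_lit 451) (nat_lit 5) (nat_lit 627) (nat_lit 602) (nat_lit 331))) (XT.nd (nat_lit 78) (nat_lit 1064) (nat_lit 0) (XT.lf (nat_lit 0) (nat_lit 2390935652) (nat_lit 1900) (nat_lit 4428446187) (nat_lit 76) (nat_lit 20209616329) (nat_lit 450) (nat_lit 5) (nat_lit 475) (nat_lit 5) (nat_lit 451) (nat_lit 5) (nat_lit 628) (nat_lit 602) (nat_lit 330)) (XT.nd (nat_lit 78) (nat_lit 0) (nat_lit 0) (XT.lf (nat_lit 0) (nat_lit 4777221220) (nat_lit 1140) (nat_lit 17136254057) (nat_lit 76) (nat_lit 5406761272) (nat_lit 436) (nat_lit 5) (nat_lit 451) (nat_lit 5) (nat_lit 437) (nat_lit 5) (nat_lit 629) (nat_lit 602) (nat_lit 329)) (XT.lf (nat_lit 0) (nat_lit 7283769991) (nat_lit 1140) (nat_lit 2515673261) (nat_lit 76) (nat_lit 17816405913) (nat_lit 436) (nat_lit 5) (nat_lit 451) (nat_lit 5) (nat_lit 437) (nat_lit 5) (nat_lit 630) (nat_lit 602) (nat_lit 328)))))) (XT.nd (nat_lit 390) (nat_lit 2584) (nat_lit 0) (XT.nd (nat_lit 156) (nat_lit 1748) (nat_lit 0) (XT.nd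 (nat_lit 78) (nat_lit 0) (nat_lit 0) (XT.lf (nat_lit 0) (nat_lit 9936650467) (nat_lit 988) (nat_lit 15373145564) (nat_lit 76) (nat_lit 2605654202) (nat_lit 424) (nat_lit 5) (nat_lit 437) (nat_lit 5) (nat_lit 425) (nat_lit 5) (nat_lit 631) (nat_lit 602) (nat_lit 327)) (XT.lf (nat_lit 0) (nat_lit 12722026254) (nat_lit 988) (nat_lit 352460631) (nat_lit 76) (nat_lit 15144967891) (nat_lit 424) (nat_lit 5) (nat_lit 437) (nat_lit 5) (nat_lit 425) (nat_lit 5) (nat_lit 632) (nat_lit 602) (nat_lit 326))) (XT.nd (nat_lit 78) (nat_lit 836) (nat_lit 0) (XT.lf (nat_lit 0) (nat_lit 15165289441) (nat_lit 912) (nat_lit 493878759) (nat_lit 988) (nat_lit 12868450239) (nat_lit 412) (nat_lit 5) (nat_lit 424) (nat_lit 5) (nat_lit 425) (nat_lit 5) (nat_lit 633) (nat_lit 602) (nat_lit 325)) (XT.nd (nat_lit 78) (nat_lit 0) (nat_lit 0) (XT.lf (nat_lit 0) (nat_lit 2101432588) (nat_lit 836) (nat_lit 16647382973) (nat_lit 912) (nat_lit 10091254765) (nat_lit 401) (nat_lit 5) (nat_lit 412) (nat_lit 5) (nat_lit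 413) (nat_lit 5) (nat_lit 634) (nat_lit 602) (nat_lit 324)) (XT.lf (nat_lit 0) (nat_lit 18050022236) (nat_lit 836) (nat_lit 3940812015) (nat_lit 912) (nat_lit 7166125627) (nat_lit 401) (nat_lit 5) (nat_lit 412) (nat_lit 5) (nat_lit 413) (nat_lit 5) (nat_lit 635) (nat_lit 602) (nat_lit 323))))) (XT.nd (nat_lit 156) (nat_lit 1748) (nat_lit 0) (XT.nd (nat_lit 78) (nat_lit 0) (nat_lit 0) (XT.lf (nat_lit 0) (nat_lit 4840046380) (nat_lit 836) (nat_lit 20545342107) (nat_lit 912) (nat_lit 4093045024) (nat_lit 390) (nat_lit 5) (nat_lit 401) (nat_lit 5) (nat_lit 402) (nat_lit 5) (nat_lit 636) (nat_lit 602) (nat_lit 322)) (XT.lf (nat_lit 0) (nat_lit 21227832485) (nat_lit 836) (nat_lit 7718198731) (nat_lit 912) (nat_lit 858341642) (nat_lit 390) (nat_lit 5) (nat_lit 401) (nat_lit 5) (nat_lit 402) (nat_lit 5) (nat_lit 637) (nat_lit 602) (nat_lit 321))) (XT.nd (nat_lit 78) (nat_lit 836) (nat_lit 0) (XT.lf (nat_lit 0) (nat_lit 2493328465) (nat_lit 912) (nat_lit 22278851631) (nat_lit 76) (nat_lit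 5362648347) (nat_lit 378) (nat_lit 5) (nat_lit 390) (nat_lit 5) (nat_lit 379) (nat_lit 5) (nat_lit 638) (nat_lit 602) (nat_lit 320)) (XT.nd (nat_lit 78) (nat_lit 836) (nat_lit 0) (XT.lf (nat_lit 0) (nat_lit 6007394019) (nat_lit 912) (nat_lit 5796785199) (nat_lit 76) (nat_lit 18665463520) (nat_lit 378) (nat_lit 5) (nat_lit 390) (nat_lit 5) (nat_lit 379) (nat_lit 5) (nat_lit 639) (nat_lit 602) (nat_lit 319)) (XT.lf (nat_lit 0) (nat_lit 9671752091) (nat_lit 912) (nat_lit 19660412639) (nat_lit 76) (nat_lit 1477388541) (nat_lit 367) (nat_lit 5) (nat_lit 379) (nat_lit 5) (nat_lit 368) (nat_lit 5) (nat_lit 640) (nat_lit 602) (nat_lit 318))))))) (XT.nd (nat_lit 780) (nat_lit 1368) (nat_lit 0) (XT.nd (nat_lit 390) (nat_lit 1520) (nat_lit 0) (XT.nd (nat_lit 156) (nat_lit 1444) (nat_lit 0) (XT.nd (nat_lit 78) (nat_lit 760) (nat_lit 0) (XT.lf (nat_lit 0) (nat_lit 13524594905) (nat_lit 912) (nat_lit 2723601689) (nat_lit 76) (nat_lit 14905761639) (nat_lit 367) (nat_lit 5) (nat_lit 379)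 (nat_lit 5) (nat_lit 368) (nat_lit 5) (nat_lit 641) (nat_lit 602) (nat_lit 317)) (XT.lf (nat_lit 0) (nat_lit 14743099359) (nat_lit 760) (nat_lit 2805026135) (nat_lit 836) (nat_lit 13955253351) (nat_lit 357) (nat_lit 5) (nat_lit 367) (nat_lit 5) (nat_lit 368) (nat_lit 5) (nat_lit 642) (nat_lit 602) (nat_lit 316))) (XT.nd (nat_lit 78) (nat_lit 684) (nat_lit 0) (XT.lf (nat_lit 0) (nat_lit 672281104) (nat_lit 760) (nat_lit 21071358757) (nat_lit 836) (nat_lit 10114317907) (nat_lit 347) (nat_lit 5) (nat_lit 357) (nat_lit 5) (nat_lit 358) (nat_lit 5) (nat_lit 643) (nat_lit 602) (nat_lit 315)) (XT.nd (nat_lit 78) (nat_lit 684) (nat_lit 0) (XT.lf (nat_lit 0) (nat_lit 18659643731) (nat_lit 760) (nat_lit 7492306210) (nat_lit 836) (nat_lit 6065100783) (nat_lit 347) (nat_lit 5) (nat_lit 357) (nat_lit 5) (nat_lit 358) (nat_lit 5) (nat_lit 644) (nat_lit 602) (nat_lit 314)) (XT.lf (nat_lit 0) (nat_lit 4438141074) (nat_lit 684) (nat_lit 26278382844) (nat_lit 760) (nat_lit 1865439823) (nat_lit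 338) (nat_lit 5) (nat_lit 347) (nat_lit 5) (nat_lit 348) (nat_lit 5) (nat_lit 645) (nat_lit 602) (nat_lit 313))))) (XT.nd (nat_lit 156) (nat_lit 684) (nat_lit 0) (XT.nd (nat_lit 78) (nat_lit 760) (nat_lit 0) (XT.lf (nat_lit 0) (nat_lit 2525708378) (nat_lit 760) (nat_lit 10043125785) (nat_lit 76) (nat_lit 20382242809) (nat_lit 337) (nat_lit 5) (nat_lit 347) (nat_lit 5) (nat_lit 338) (nat_lit 5) (nat_lit 646) (nat_lit 602) (nat_lit 312)) (XT.lf (nat_lit 0) (nat_lit 7042704639) (nat_lit 836) (nat_lit 24819141752) (nat_lit 76) (nat_lit 1464219548) (nat_lit 327) (nat_lit 5) (nat_lit 338) (nat_lit 5) (nat_lit 328) (nat_lit 5) (nat_lit 647) (nat_lit 602) (nat_lit 311))) (XT.nd (nat_lit 78) (nat_lit 684) (nat_lit 0) (XT.lf (nat_lit 0) (nat_lit 11799192293) (nat_lit 836) (nat_lit 6228980764) (nat_lit 76) (nat_lit 15677398743) (nat_lit 327) (nat_lit 5) (nat_lit 338) (nat_lit 5) (nat_lit 328) (nat_lit 5) (nat_lit 648) (nat_lit 602) (nat_lit 310)) (XT.nd (nat_lit 78) (nat_lit 0) (nat_lit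 0) (XT.lf (nat_lit 0) (nat_lit 12900009869) (nat_lit 684) (nat_lit 3832666206) (nat_lit 760) (nat_lit 17358354519) (nat_lit 318) (nat_lit 5) (nat_lit 327) (nat_lit 5) (nat_lit 328) (nat_lit 5) (nat_lit 649) (nat_lit 602) (nat_lit 309)) (XT.lf (nat_lit 0) (nat_lit 21874164114) (nat_lit 760) (nat_lit 2058930327) (nat_lit 76) (nat_lit 10548917572) (nat_lit 318) (nat_lit 5) (nat_lit 328) (nat_lit 5) (nat_lit 319) (nat_lit 5) (nat_lit 650) (nat_lit 602) (nat_lit 308)))))) (XT.nd (nat_lit 77610) (nat_lit 0) (nat_lit 12616) (XT.nd (nat_lit 156) (nat_lit 76) (nat_lit 0) (XT.nd (nat_lit 78) (nat_lit 608) (nat_lit 0) (XT.lf (nat_lit 0) (nat_lit 17659894480) (nat_lit 684) (nat_lit 9596797952) (nat_lit 760) (nat_lit 7621356556) (nat_lit 309) (nat_lit 5) (nat_lit 318) (nat_lit 5) (nat_lit 319) (nat_lit 5) (nat_lit 651) (nat_lit 602) (nat_lit 307)) (XT.lf (nat_lit 0) (nat_lit 2517407525) (nat_lit 608) (nat_lit 30290539003) (nat_lit 684) (nat_lit 2472838806) (nat_lit 301) (nat_lit 5) (nat_lit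 309) (nat_lit 5) (nat_lit 310) (nat_lit 5) (nat_lit 652) (nat_lit 602) (nat_lit 306))) (XT.nd (nat_lit 77298) (nat_lit 0) (nat_lit 14288) (XT.lf (nat_lit 0) (nat_lit 2920268382) (nat_lit 684) (nat_lit 12892717371) (nat_lit 76) (nat_lit 19874668734) (nat_lit 300) (nat_lit 5) (nat_lit 309) (nat_lit 5) (nat_lit 301) (nat_lit 5) (nat_lit 653) (nat_lit 602) (nat_lit 305)) (XT.nd (nat_lit 78) (nat_lit 0) (nat_lit 0) (XT.lf (nat_lit 0) (nat_lit 4720987448) (nat_lit 0) (nat_lit 4720987448) (nat_lit 1748) (nat_lit 1117396909) (nat_lit 488) (nat_lit 5) (nat_lit 488) (nat_lit 3) (nat_lit 511) (nat_lit 3) (nat_lit 603) (nat_lit 603) (nat_lit 354)) (XT.lf (nat_lit 0) (nat_lit 19226119802) (nat_lit 1748) (nat_lit 1249066268) (nat_lit 1824) (nat_lit 851664540) (nat_lit 488) (nat_lit 5) (nat_lit 511) (nat_lit 3) (nat_lit 512) (nat_lit 5) (nat_lit 604) (nat_lit 603) (nat_lit 353))))) (XT.nd (nat_lit 234) (nat_lit 1672) (nat_lit 0) (XT.nd (nat_lit 78) (nat_lit 0) (nat_lit 76) (XT.lf (nat_lit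 76) (nat_lit 9446525561) (nat_lit 0) (nat_lit 10248608029) (nat_lit 1824) (nat_lit 1841586514) (nat_lit 489) (nat_lit 5) (nat_lit 488) (nat_lit 5) (nat_lit 512) (nat_lit 5) (nat_lit 605) (nat_lit 603) (nat_lit 352)) (XT.nd (nat_lit 78) (nat_lit 0) (nat_lit 0) (XT.lf (nat_lit 0) (nat_lit 20179361855) (nat_lit 1748) (nat_lit 1381001643) (nat_lit 1824) (nat_lit 190307161) (nat_lit 489) (nat_lit 5) (nat_lit 512) (nat_lit 5) (nat_lit 513) (nat_lit 5) (nat_lit 606) (nat_lit 603) (nat_lit 351)) (XT.lf (nat_lit 76) (nat_lit 9598326025) (nat_lit 0) (nat_lit 11201425090) (nat_lit 1824) (nat_lit 1166619931) (nat_lit 490) (nat_lit 5) (nat_lit 489) (nat_lit 5) (nat_lit 513) (nat_lit 5) (nat_lit 607) (nat_lit 603) (nat_lit 350)))) (XT.nd (nat_lit 78) (nat_lit 1748) (nat_lit 0) (XT.lf (nat_lit 76) (nat_lit 20813912363) (nat_lit 0) (nat_lit 624248725) (nat_lit 1824) (nat_lit 748112434) (nat_lit 490) (nat_lit 5) (nat_lit 489) (nat_lit 5) (nat_lit 513) (nat_lit 5) (nat_lit 608) (nat_lit 603)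 (nat_lit 349)) (XT.nd (nat_lit 78) (nat_lit 1824) (nat_lit 0) (XT.lf (nat_lit 76) (nat_lit 9905058727) (nat_lit 0) (nat_lit 12311012794) (nat_lit 1824) (nat_lit 191968217) (nat_lit 491) (nat_lit 5) (nat_lit 490) (nat_lit 5) (nat_lit 514) (nat_lit 5) (nat_lit 609) (nat_lit 603) (nat_lit 348)) (XT.lf (nat_lit 0) (nat_lit 380241644) (nat_lit 1824) (nat_lit 1216182539) (nat_lit 1900) (nat_lit 21037571387) (nat_lit 466) (nat_lit 5) (nat_lit 490) (nat_lit 5) (nat_lit 491) (nat_lit 5) (nat_lit 610) (nat_lit 603) (nat_lit 347))))))))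
noncomputable def xc233 : XT := (XT.nd (nat_lit 1560) (nat_lit 8968) (nat_lit 0) (XT.nd (nat_lit 780) (nat_lit 2356) (nat_lit 0) (XT.nd (nat_lit 390) (nat_lit 0) (nat_lit 152) (XT.nd (nat_lit 156) (nat_lit 0) (nat_lit 76) (XT.nd (nat_lit 78) (nat_lit 0) (nat_lit 0) (XT.lf (nat_lit 0) (nat_lit 1086633057) (nat_lit 1824) (nat_lit 12494431493) (nat_lit 1900) (nat_lit 9280874749) (nat_lit 467) (nat_lit 5) (nat_lit 491) (nat_lit 5) (nat_lit 492) (nat_lit 5) (nat_lit 611) (nat_lit 603) (nat_lit 346)) (XT.lf (nat_lit 0) (nat_lit 1822533202) (nat_lit 1824) (nat_lit 907692873) (nat_lit 1900) (nat_lit 20363908520) (nat_lit 467) (nat_lit 5) (nat_lit 491) (nat_lit 5) (nat_lit 492) (nat_lit 5) (nat_lit 612) (nat_lit 603) (nat_lit 345))) (XT.nd (nat_lit 78) (nat_lit 0) (nat_lit 0) (XT.lf (nat_lit 0) (nat_lit 2696195774) (nat_lit 1824) (nat_lit 12330574548) (nat_lit 1900) (nat_lit 8301742890) (nat_lit 468) (nat_lit 5) (nat_lit 492) (nat_lit 5) (nat_lit 493) (nat_lit 5) (nat_lit 613) (nat_lit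 603) (nat_lit 344)) (XT.nd (nat_lit 78) (nat_lit 0) (nat_lit 76) (XT.lf (nat_lit 0) (nat_lit 3608263786) (nat_lit 1824) (nat_lit 433755405) (nat_lit 1900) (nat_lit 19525141863) (nat_lit 468) (nat_lit 5) (nat_lit 492) (nat_lit 5) (nat_lit 493) (nat_lit 5) (nat_lit 614) (nat_lit 603) (nat_lit 343)) (XT.lf (nat_lit 0) (nat_lit 4659343618) (nat_lit 1824) (nat_lit 12001776068) (nat_lit 1900) (nat_lit 7147047050) (nat_lit 469) (nat_lit 5) (nat_lit 493) (nat_lit 5) (nat_lit 494) (nat_lit 5) (nat_lit 615) (nat_lit 603) (nat_lit 342))))) (XT.nd (nat_lit 156) (nat_lit 0) (nat_lit 76) (XT.nd (nat_lit 78) (nat_lit 0) (nat_lit 76) (XT.lf (nat_lit 76) (nat_lit 217168107) (nat_lit 0) (nat_lit 5542225640) (nat_lit 1900) (nat_lit 18294040096) (nat_lit 470) (nat_lit 5) (nat_lit 469) (nat_lit 5) (nat_lit 494) (nat_lit 5) (nat_lit 616) (nat_lit 603) (nat_lit 341)) (XT.lf (nat_lit 0) (nat_lit 6997062163) (nat_lit 1824) (nat_lit 11499233590) (nat_lit 1900) (nat_lit 5804998475) (nat_lit 470) (nat_lit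 5) (nat_lit 494) (nat_lit 5) (nat_lit 495) (nat_lit 5) (nat_lit 617) (nat_lit 603) (nat_lit 340))) (XT.nd (nat_lit 78) (nat_lit 0) (nat_lit 76) (XT.lf (nat_lit 76) (nat_lit 1059543746) (nat_lit 0) (nat_lit 7240478263) (nat_lit 1900) (nat_lit 16253279325) (nat_lit 471) (nat_lit 5) (nat_lit 470) (nat_lit 5) (nat_lit 495) (nat_lit 5) (nat_lit 618) (nat_lit 603) (nat_lit 339)) (XT.nd (nat_lit 78) (nat_lit 0) (nat_lit 0) (XT.lf (nat_lit 0) (nat_lit 9731256111) (nat_lit 1824) (nat_lit 10813715673) (nat_lit 1900) (nat_lit 4263332766) (nat_lit 471) (nat_lit 5) (nat_lit 495) (nat_lit 5) (nat_lit 496) (nat_lit 5) (nat_lit 619) (nat_lit 603) (nat_lit 338)) (XT.lf (nat_lit 76) (nat_lit 2097287814) (nat_lit 0) (nat_lit 9152459219) (nat_lit 1900) (nat_lit 13817488419) (nat_lit 472) (nat_lit 5) (nat_lit 471) (nat_lit 5) (nat_lit 496) (nat_lit 5) (nat_lit 620) (nat_lit 603) (nat_lit 337)))))) (XT.nd (nat_lit 390) (nat_lit 2736) (nat_lit 0) (XT.nd (nat_lit 156) (nat_lit 0) (nat_lit 76) (XT.nd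 (nat_lit 78) (nat_lit 0) (nat_lit 0) (XT.lf (nat_lit 0) (nat_lit 12884790303) (nat_lit 1824) (nat_lit 9935547009) (nat_lit 1900) (nat_lit 2509284269) (nat_lit 472) (nat_lit 5) (nat_lit 496) (nat_lit 5) (nat_lit 497) (nat_lit 5) (nat_lit 621) (nat_lit 603) (nat_lit 336)) (XT.lf (nat_lit 76) (nat_lit 3340541466) (nat_lit 0) (nat_lit 11291463874) (nat_lit 1900) (nat_lit 10963660927) (nat_lit 473) (nat_lit 5) (nat_lit 472) (nat_lit 5) (nat_lit 497) (nat_lit 5) (nat_lit 622) (nat_lit 603) (nat_lit 335))) (XT.nd (nat_lit 78) (nat_lit 0) (nat_lit 0) (XT.lf (nat_lit 0) (nat_lit 16481532265) (nat_lit 1824) (nat_lit 8854592887) (nat_lit 1900) (nat_lit 529559593) (nat_lit 473) (nat_lit 5) (nat_lit 497) (nat_lit 5) (nat_lit 498) (nat_lit 5) (nat_lit 623) (nat_lit 603) (nat_lit 334)) (XT.nd (nat_lit 78) (nat_lit 0) (nat_lit 0) (XT.lf (nat_lit 76) (nat_lit 4799922490) (nat_lit 0) (nat_lit 13671338846) (nat_lit 1900) (nat_lit 7667778269) (nat_lit 474) (nat_lit 5) (nat_lit 473) (nat_lit 5)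 (nat_lit 498) (nat_lit 5) (nat_lit 624) (nat_lit 603) (nat_lit 333)) (XT.lf (nat_lit 76) (nat_lit 18845367880) (nat_lit 0) (nat_lit 1712144855) (nat_lit 1900) (nat_lit 5859214511) (nat_lit 474) (nat_lit 5) (nat_lit 473) (nat_lit 5) (nat_lit 498) (nat_lit 5) (nat_lit 625) (nat_lit 603) (nat_lit 332))))) (XT.nd (nat_lit 156) (nat_lit 2888) (nat_lit 0) (XT.nd (nat_lit 78) (nat_lit 0) (nat_lit 0) (XT.lf (nat_lit 76) (nat_lit 6486542149) (nat_lit 0) (nat_lit 16306510274) (nat_lit 1900) (nat_lit 3904765186) (nat_lit 475) (nat_lit 5) (nat_lit 474) (nat_lit 5) (nat_lit 499) (nat_lit 5) (nat_lit 626) (nat_lit 603) (nat_lit 331)) (XT.lf (nat_lit 76) (nat_lit 20914558571) (nat_lit 0) (nat_lit 4218218481) (nat_lit 1900) (nat_lit 1850563474) (nat_lit 475) (nat_lit 5) (nat_lit 474) (nat_lit 5) (nat_lit 499) (nat_lit 5) (nat_lit 627) (nat_lit 603) (nat_lit 330))) (XT.nd (nat_lit 78) (nat_lit 1064) (nat_lit 0) (XT.lf (nat_lit 0) (nat_lit 346945774) (nat_lit 1900) (nat_lit 18862739138) (nat_lit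 76) (nat_lit 8062748772) (nat_lit 450) (nat_lit 5) (nat_lit 475) (nat_lit 5) (nat_lit 451) (nat_lit 5) (nat_lit 628) (nat_lit 603) (nat_lit 329)) (XT.nd (nat_lit 78) (nat_lit 1064) (nat_lit 0) (XT.lf (nat_lit 0) (nat_lit 2630053648) (nat_lit 1900) (nat_lit 4349165764) (nat_lit 76) (nat_lit 20586516315) (nat_lit 450) (nat_lit 5) (nat_lit 475) (nat_lit 5) (nat_lit 451) (nat_lit 5) (nat_lit 629) (nat_lit 603) (nat_lit 328)) (XT.lf (nat_lit 0) (nat_lit 5061254483) (nat_lit 1140) (nat_lit 17308303251) (nat_lit 76) (nat_lit 5493297674) (nat_lit 436) (nat_lit 5) (nat_lit 451) (nat_lit 5) (nat_lit 437) (nat_lit 5) (nat_lit 630) (nat_lit 603) (nat_lit 327))))))) (XT.nd (nat_lit 780) (nat_lit 4560) (nat_lit 0) (XT.nd (nat_lit 390) (nat_lit 1748) (nat_lit 0) (XT.nd (nat_lit 156) (nat_lit 1748) (nat_lit 0) (XT.nd (nat_lit 78) (nat_lit 912) (nat_lit 0) (XT.lf (nat_lit 0) (nat_lit 7614238370) (nat_lit 1140) (nat_lit 2398657425) (nat_lit 76) (nat_lit 18151558714) (nat_lit 436) (nat_lit 5)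 (nat_lit 451) (nat_lit 5) (nat_lit 437) (nat_lit 5) (nat_lit 631) (nat_lit 603) (nat_lit 326)) (XT.lf (nat_lit 0) (nat_lit 10317528313) (nat_lit 988) (nat_lit 15510615560) (nat_lit 76) (nat_lit 2641956995) (nat_lit 424) (nat_lit 5) (nat_lit 437) (nat_lit 5) (nat_lit 425) (nat_lit 5) (nat_lit 632) (nat_lit 603) (nat_lit 325))) (XT.nd (nat_lit 78) (nat_lit 1748) (nat_lit 0) (XT.lf (nat_lit 0) (nat_lit 13155040148) (nat_lit 988) (nat_lit 192850123) (nat_lit 76) (nat_lit 15432366963) (nat_lit 424) (nat_lit 5) (nat_lit 437) (nat_lit 5) (nat_lit 425) (nat_lit 5) (nat_lit 633) (nat_lit 603) (nat_lit 324)) (XT.nd (nat_lit 78) (nat_lit 836) (nat_lit 0) (XT.lf (nat_lit 0) (nat_lit 15634158505) (nat_lit 912) (nat_lit 514339937) (nat_lit 988) (nat_lit 12946134558) (nat_lit 412) (nat_lit 5) (nat_lit 424) (nat_lit 5) (nat_lit 425) (nat_lit 5) (nat_lit 634) (nat_lit 603) (nat_lit 323)) (XT.lf (nat_lit 0) (nat_lit 2311518079) (nat_lit 836) (nat_lit 16985990578) (nat_lit 912) (nat_lit 10115874160)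 (nat_lit 401) (nat_lit 5) (nat_lit 412) (nat_lit 5) (nat_lit 413) (nat_lit 5) (nat_lit 635) (nat_lit 603) (nat_lit 322))))) (XT.nd (nat_lit 156) (nat_lit 912) (nat_lit 0) (XT.nd (nat_lit 78) (nat_lit 836) (nat_lit 0) (XT.lf (nat_lit 0) (nat_lit 18575784289) (nat_lit 836) (nat_lit 4025177221) (nat_lit 912) (nat_lit 7135717061) (nat_lit 401) (nat_lit 5) (nat_lit 412) (nat_lit 5) (nat_lit 413) (nat_lit 5) (nat_lit 636) (nat_lit 603) (nat_lit 321)) (XT.lf (nat_lit 0) (nat_lit 5103958750) (nat_lit 836) (nat_lit 20957158335) (nat_lit 912) (nat_lit 4003510667) (nat_lit 390) (nat_lit 5) (nat_lit 401) (nat_lit 5) (nat_lit 402) (nat_lit 5) (nat_lit 637) (nat_lit 603) (nat_lit 320))) (XT.nd (nat_lit 78) (nat_lit 912) (nat_lit 0) (XT.lf (nat_lit 0) (nat_lit 21816223882) (nat_lit 836) (nat_lit 7873454260) (nat_lit 912) (nat_lit 707473908) (nat_lit 390) (nat_lit 5) (nat_lit 401) (nat_lit 5) (nat_lit 402) (nat_lit 5) (nat_lit 638) (nat_lit 603) (nat_lit 319)) (XT.nd (nat_lit 78) (nat_lit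 0) (nat_lit 0) (XT.lf (nat_lit 0) (nat_lit 2706853742) (nat_lit 912) (nat_lit 22556191383) (nat_lit 76) (nat_lit 5471193507) (nat_lit 378) (nat_lit 5) (nat_lit 390) (nat_lit 5) (nat_lit 379) (nat_lit 5) (nat_lit 639) (nat_lit 603) (nat_lit 318)) (XT.lf (nat_lit 0) (nat_lit 6287991613) (nat_lit 912) (nat_lit 5747782393) (nat_lit 76) (nat_lit 19040039647) (nat_lit 378) (nat_lit 5) (nat_lit 390) (nat_lit 5) (nat_lit 379) (nat_lit 5) (nat_lit 640) (nat_lit 603) (nat_lit 317)))))) (XT.nd (nat_lit 390) (nat_lit 2204) (nat_lit 0) (XT.nd (nat_lit 156) (nat_lit 1520) (nat_lit 0) (XT.nd (nat_lit 78) (nat_lit 0) (nat_lit 0) (XT.lf (nat_lit 0) (nat_lit 10023590236) (nat_lit 912) (nat_lit 19886623080) (nat_lit 76) (nat_lit 1512350266) (nat_lit 367) (nat_lit 5) (nat_lit 379) (nat_lit 5) (nat_lit 368) (nat_lit 5) (nat_lit 641) (nat_lit 603) (nat_lit 316)) (XT.lf (nat_lit 0) (nat_lit 13950383964) (nat_lit 912) (nat_lit 2614350377) (nat_lit 76) (nat_lit 15209184670) (nat_lit 367) (nat_lit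 5) (nat_lit 379) (nat_lit 5) (nat_lit 368) (nat_lit 5) (nat_lit 642) (nat_lit 603) (nat_lit 315))) (XT.nd (nat_lit 78) (nat_lit 760) (nat_lit 0) (XT.lf (nat_lit 0) (nat_lit 15200607564) (nat_lit 760) (nat_lit 2851788565) (nat_lit 836) (nat_lit 14077971931) (nat_lit 357) (nat_lit 5) (nat_lit 367) (nat_lit 5) (nat_lit 368) (nat_lit 5) (nat_lit 643) (nat_lit 603) (nat_lit 314)) (XT.nd (nat_lit 78) (nat_lit 0) (nat_lit 0) (XT.lf (nat_lit 0) (nat_lit 850300783) (nat_lit 760) (nat_lit 21479641923) (nat_lit 836) (nat_lit 10162133656) (nat_lit 347) (nat_lit 5) (nat_lit 357) (nat_lit 5) (nat_lit 358) (nat_lit 5) (nat_lit 644) (nat_lit 603) (nat_lit 313)) (XT.lf (nat_lit 0) (nat_lit 19194183720) (nat_lit 760) (nat_lit 7629266051) (nat_lit 836) (nat_lit 6034961025) (nat_lit 347) (nat_lit 5) (nat_lit 357) (nat_lit 5) (nat_lit 358) (nat_lit 5) (nat_lit 645) (nat_lit 603) (nat_lit 312))))) (XT.nd (nat_lit 234) (nat_lit 684) (nat_lit 0) (XT.nd (nat_lit 78) (nat_lit 836) (nat_lit 0) (XT.lf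 (nat_lit 0) (nat_lit 4690067731) (nat_lit 684) (nat_lit 26787477894) (nat_lit 760) (nat_lit 1753112071) (nat_lit 338) (nat_lit 5) (nat_lit 347) (nat_lit 5) (nat_lit 348) (nat_lit 5) (nat_lit 646) (nat_lit 603) (nat_lit 311)) (XT.nd (nat_lit 78) (nat_lit 760) (nat_lit 0) (XT.lf (nat_lit 0) (nat_lit 2721001015) (nat_lit 760) (nat_lit 10082088678) (nat_lit 76) (nat_lit 20804102201) (nat_lit 337) (nat_lit 5) (nat_lit 347) (nat_lit 5) (nat_lit 338) (nat_lit 5) (nat_lit 647) (nat_lit 603) (nat_lit 310)) (XT.lf (nat_lit 0) (nat_lit 7326658549) (nat_lit 836) (nat_lit 25151935479) (nat_lit 76) (nat_lit 1511120401) (nat_lit 327) (nat_lit 5) (nat_lit 338) (nat_lit 5) (nat_lit 328) (nat_lit 5) (nat_lit 648) (nat_lit 603) (nat_lit 309)))) (XT.nd (nat_lit 78) (nat_lit 684) (nat_lit 0) (XT.lf (nat_lit 0) (nat_lit 12175470077) (nat_lit 836) (nat_lit 6193178902) (nat_lit 76) (nat_lit 16008217758) (nat_lit 327) (nat_lit 5) (nat_lit 338) (nat_lit 5) (nat_lit 328) (nat_lit 5) (nat_lit 649) (nat_lit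 603) (nat_lit 308)) (XT.nd (nat_lit 78) (nat_lit 0) (nat_lit 0) (XT.lf (nat_lit 0) (nat_lit 13317336404) (nat_lit 684) (nat_lit 3888570723) (nat_lit 760) (nat_lit 17564162118) (nat_lit 318) (nat_lit 5) (nat_lit 327) (nat_lit 5) (nat_lit 328) (nat_lit 5) (nat_lit 650) (nat_lit 603) (nat_lit 307)) (XT.lf (nat_lit 0) (nat_lit 22447639793) (nat_lit 760) (nat_lit 1941311302) (nat_lit 76) (nat_lit 10779971104) (nat_lit 318) (nat_lit 5) (nat_lit 328) (nat_lit 5) (nat_lit 319) (nat_lit 5) (nat_lit 651) (nat_lit 603) (nat_lit 306))))))))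
noncomputable def xc234 : XT := (XT.nd (nat_lit 78858) (nat_lit 0) (nat_lit 5016) (XT.nd (nat_lit 78078) (nat_lit 0) (nat_lit 12616) (XT.nd (nat_lit 77688) (nat_lit 0) (nat_lit 12540) (XT.nd (nat_lit 77454) (nat_lit 0) (nat_lit 14212) (XT.nd (nat_lit 78) (nat_lit 608) (nat_lit 0) (XT.lf (nat_lit 0) (nat_lit 18170845280) (nat_lit 684) (nat_lit 9765331116) (nat_lit 760) (nat_lit 7636736562) (nat_lit 309) (nat_lit 5) (nat_lit 318) (nat_lit 5) (nat_lit 319) (nat_lit 5) (nat_lit 652) (nat_lit 603) (nat_lit 305)) (XT.lf (nat_lit 0) (nat_lit 2726999058) (nat_lit 608) (nat_lit 30870005080) (nat_lit 684) (nat_lit 2386729116) (nat_lit 301) (nat_lit 5) (nat_lit 309) (nat_lit 5) (nat_lit 310) (nat_lit 5) (nat_lit 653) (nat_lit 603) (nat_lit 304))) (XT.nd (nat_lit 78) (nat_lit 0) (nat_lit 0) (XT.lf (nat_lit 0) (nat_lit 4888791352) (nat_lit 0) (nat_lit 4888791352) (nat_lit 1748) (nat_lit 990027434) (nat_lit 488) (nat_lit 5) (nat_lit 488) (nat_lit 3) (nat_lit 511) (nat_lit 3) (nat_lit 604)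 (nat_lit 604) (nat_lit 352)) (XT.nd (nat_lit 78) (nat_lit 0) (nat_lit 0) (XT.lf (nat_lit 0) (nat_lit 19897488964) (nat_lit 1748) (nat_lit 1123440305) (nat_lit 1824) (nat_lit 726694482) (nat_lit 488) (nat_lit 5) (nat_lit 511) (nat_lit 3) (nat_lit 512) (nat_lit 5) (nat_lit 605) (nat_lit 604) (nat_lit 351)) (XT.lf (nat_lit 76) (nat_lit 9785072523) (nat_lit 0) (nat_lit 10586157467) (nat_lit 1824) (nat_lit 1590554233) (nat_lit 489) (nat_lit 5) (nat_lit 488) (nat_lit 5) (nat_lit 512) (nat_lit 5) (nat_lit 606) (nat_lit 604) (nat_lit 350))))) (XT.nd (nat_lit 156) (nat_lit 1748) (nat_lit 0) (XT.nd (nat_lit 78) (nat_lit 0) (nat_lit 0) (XT.lf (nat_lit 0) (nat_lit 20858765709) (nat_lit 1748) (nat_lit 1255535878) (nat_lit 1824) (nat_lit 65840263) (nat_lit 489) (nat_lit 5) (nat_lit 512) (nat_lit 5) (nat_lit 513) (nat_lit 5) (nat_lit 607) (nat_lit 604) (nat_lit 349)) (XT.lf (nat_lit 76) (nat_lit 9942371200) (nat_lit 0) (nat_lit 11544770780) (nat_lit 1824) (nat_lit 913103186) (nat_lit 490)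 (nat_lit 5) (nat_lit 489) (nat_lit 5) (nat_lit 513) (nat_lit 5) (nat_lit 608) (nat_lit 604) (nat_lit 348))) (XT.nd (nat_lit 78) (nat_lit 1748) (nat_lit 0) (XT.lf (nat_lit 76) (nat_lit 21379287331) (nat_lit 0) (nat_lit 753711335) (nat_lit 1824) (nat_lit 491653954) (nat_lit 490) (nat_lit 5) (nat_lit 489) (nat_lit 5) (nat_lit 513) (nat_lit 5) (nat_lit 609) (nat_lit 604) (nat_lit 347)) (XT.nd (nat_lit 78) (nat_lit 0) (nat_lit 0) (XT.lf (nat_lit 0) (nat_lit 69627433) (nat_lit 1824) (nat_lit 12594070516) (nat_lit 1900) (nat_lit 10187246752) (nat_lit 466) (nat_lit 5) (nat_lit 490) (nat_lit 5) (nat_lit 491) (nat_lit 5) (nat_lit 610) (nat_lit 604) (nat_lit 346)) (XT.lf (nat_lit 0) (nat_lit 645559186) (nat_lit 1824) (nat_lit 1085899521) (nat_lit 1900) (nat_lit 21350039070) (nat_lit 466) (nat_lit 5) (nat_lit 490) (nat_lit 5) (nat_lit 491) (nat_lit 5) (nat_lit 611) (nat_lit 604) (nat_lit 345)))))) (XT.nd (nat_lit 390) (nat_lit 0) (nat_lit 152) (XT.nd (nat_lit 156) (nat_lit 0) (nat_lit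 76) (XT.nd (nat_lit 78) (nat_lit 0) (nat_lit 0) (XT.lf (nat_lit 0) (nat_lit 1361372740) (nat_lit 1824) (nat_lit 12584984775) (nat_lit 1900) (nat_lit 9367737439) (nat_lit 467) (nat_lit 5) (nat_lit 491) (nat_lit 5) (nat_lit 492) (nat_lit 5) (nat_lit 612) (nat_lit 604) (nat_lit 344)) (XT.lf (nat_lit 0) (nat_lit 2107029965) (nat_lit 1824) (nat_lit 769635606) (nat_lit 1900) (nat_lit 20674368255) (nat_lit 467) (nat_lit 5) (nat_lit 491) (nat_lit 5) (nat_lit 492) (nat_lit 5) (nat_lit 613) (nat_lit 604) (nat_lit 343))) (XT.nd (nat_lit 78) (nat_lit 0) (nat_lit 0) (XT.lf (nat_lit 0) (nat_lit 2993731803) (nat_lit 1824) (nat_lit 12416518831) (nat_lit 1900) (nat_lit 8379938501) (nat_lit 468) (nat_lit 5) (nat_lit 492) (nat_lit 5) (nat_lit 493) (nat_lit 5) (nat_lit 614) (nat_lit 604) (nat_lit 342)) (XT.nd (nat_lit 78) (nat_lit 0) (nat_lit 76) (XT.lf (nat_lit 0) (nat_lit 3919264467) (nat_lit 1824) (nat_lit 284913643) (nat_lit 1900) (nat_lit 19829527792) (nat_lit 468) (nat_lit 5) (nat_lit 492)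 (nat_lit 5) (nat_lit 493) (nat_lit 5) (nat_lit 615) (nat_lit 604) (nat_lit 341)) (XT.lf (nat_lit 0) (nat_lit 4987187932) (nat_lit 1824) (nat_lit 12080095514) (nat_lit 1900) (nat_lit 7212332236) (nat_lit 469) (nat_lit 5) (nat_lit 493) (nat_lit 5) (nat_lit 494) (nat_lit 5) (nat_lit 616) (nat_lit 604) (nat_lit 340))))) (XT.nd (nat_lit 156) (nat_lit 0) (nat_lit 76) (XT.nd (nat_lit 78) (nat_lit 0) (nat_lit 76) (XT.lf (nat_lit 76) (nat_lit 382163623) (nat_lit 0) (nat_lit 5723517376) (nat_lit 1900) (nat_lit 18424178712) (nat_lit 470) (nat_lit 5) (nat_lit 469) (nat_lit 5) (nat_lit 494) (nat_lit 5) (nat_lit 617) (nat_lit 604) (nat_lit 339)) (XT.lf (nat_lit 0) (nat_lit 7363123000) (nat_lit 1824) (nat_lit 11566715954) (nat_lit 1900) (nat_lit 5852938352) (nat_lit 470) (nat_lit 5) (nat_lit 494) (nat_lit 5) (nat_lit 495) (nat_lit 5) (nat_lit 618) (nat_lit 604) (nat_lit 338))) (XT.nd (nat_lit 78) (nat_lit 0) (nat_lit 76) (XT.lf (nat_lit 76) (nat_lit 1242167835) (nat_lit 0) (nat_lit 7446588622)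 (nat_lit 1900) (nat_lit 16351136209) (nat_lit 471) (nat_lit 5) (nat_lit 470) (nat_lit 5) (nat_lit 495) (nat_lit 5) (nat_lit 619) (nat_lit 604) (nat_lit 337)) (XT.nd (nat_lit 78) (nat_lit 0) (nat_lit 0) (XT.lf (nat_lit 0) (nat_lit 10143857706) (nat_lit 1824) (nat_lit 10866944973) (nat_lit 1900) (nat_lit 4289288811) (nat_lit 471) (nat_lit 5) (nat_lit 495) (nat_lit 5) (nat_lit 496) (nat_lit 5) (nat_lit 620) (nat_lit 604) (nat_lit 336)) (XT.lf (nat_lit 76) (nat_lit 2301205919) (nat_lit 0) (nat_lit 9388290110) (nat_lit 1900) (nat_lit 13874769813) (nat_lit 472) (nat_lit 5) (nat_lit 471) (nat_lit 5) (nat_lit 496) (nat_lit 5) (nat_lit 621) (nat_lit 604) (nat_lit 335))))))) (XT.nd (nat_lit 780) (nat_lit 5244) (nat_lit 0) (XT.nd (nat_lit 390) (nat_lit 2736) (nat_lit 0) (XT.nd (nat_lit 156) (nat_lit 0) (nat_lit 76) (XT.nd (nat_lit 78) (nat_lit 0) (nat_lit 0) (XT.lf (nat_lit 0) (nat_lit 13352693327) (nat_lit 1824) (nat_lit 9970895830) (nat_lit 1900) (nat_lit 2508401850) (nat_lit 472)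 (nat_lit 5) (nat_lit 496) (nat_lit 5) (nat_lit 497) (nat_lit 5) (nat_lit 622) (nat_lit 604) (nat_lit 334)) (XT.lf (nat_lit 76) (nat_lit 3569639663) (nat_lit 0) (nat_lit 11562144969) (nat_lit 1900) (nat_lit 10971633686) (nat_lit 473) (nat_lit 5) (nat_lit 472) (nat_lit 5) (nat_lit 497) (nat_lit 5) (nat_lit 623) (nat_lit 604) (nat_lit 333))) (XT.nd (nat_lit 78) (nat_lit 0) (nat_lit 0) (XT.lf (nat_lit 0) (nat_lit 17013955044) (nat_lit 1824) (nat_lit 8868214304) (nat_lit 1900) (nat_lit 496755121) (nat_lit 473) (nat_lit 5) (nat_lit 497) (nat_lit 5) (nat_lit 498) (nat_lit 5) (nat_lit 624) (nat_lit 604) (nat_lit 332)) (XT.nd (nat_lit 78) (nat_lit 0) (nat_lit 0) (XT.lf (nat_lit 76) (nat_lit 5058315917) (nat_lit 0) (nat_lit 13982240840) (nat_lit 1900) (nat_lit 7617248464) (nat_lit 474) (nat_lit 5) (nat_lit 473) (nat_lit 5) (nat_lit 498) (nat_lit 5) (nat_lit 625) (nat_lit 604) (nat_lit 331)) (XT.lf (nat_lit 76) (nat_lit 19381485999) (nat_lit 0) (nat_lit 1783128160) (nat_lit 1900) (nat_lit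 5776511183) (nat_lit 474) (nat_lit 5) (nat_lit 473) (nat_lit 5) (nat_lit 498) (nat_lit 5) (nat_lit 626) (nat_lit 604) (nat_lit 330))))) (XT.nd (nat_lit 156) (nat_lit 2888) (nat_lit 0) (XT.nd (nat_lit 78) (nat_lit 0) (nat_lit 0) (XT.lf (nat_lit 76) (nat_lit 6778583838) (nat_lit 0) (nat_lit 16663258588) (nat_lit 1900) (nat_lit 3786055873) (nat_lit 475) (nat_lit 5) (nat_lit 474) (nat_lit 5) (nat_lit 499) (nat_lit 5) (nat_lit 627) (nat_lit 604) (nat_lit 329)) (XT.lf (nat_lit 76) (nat_lit 21491978023) (nat_lit 0) (nat_lit 4332600604) (nat_lit 1900) (nat_lit 1694629042) (nat_lit 475) (nat_lit 5) (nat_lit 474) (nat_lit 5) (nat_lit 499) (nat_lit 5) (nat_lit 628) (nat_lit 604) (nat_lit 328))) (XT.nd (nat_lit 78) (nat_lit 1064) (nat_lit 0) (XT.lf (nat_lit 0) (nat_lit 541433005) (nat_lit 1900) (nat_lit 19075435738) (nat_lit 76) (nat_lit 8197246551) (nat_lit 450) (nat_lit 5) (nat_lit 475) (nat_lit 5) (nat_lit 451) (nat_lit 5) (nat_lit 629) (nat_lit 604) (nat_lit 327)) (XT.nd (nat_lit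 78) (nat_lit 1064) (nat_lit 0) (XT.lf (nat_lit 0) (nat_lit 2866525618) (nat_lit 1900) (nat_lit 4274817528) (nat_lit 76) (nat_lit 20972014095) (nat_lit 450) (nat_lit 5) (nat_lit 475) (nat_lit 5) (nat_lit 451) (nat_lit 5) (nat_lit 630) (nat_lit 604) (nat_lit 326)) (XT.lf (nat_lit 0) (nat_lit 5343649159) (nat_lit 1140) (nat_lit 17490420981) (nat_lit 76) (nat_lit 5582403511) (nat_lit 436) (nat_lit 5) (nat_lit 451) (nat_lit 5) (nat_lit 437) (nat_lit 5) (nat_lit 631) (nat_lit 604) (nat_lit 325)))))) (XT.nd (nat_lit 390) (nat_lit 2584) (nat_lit 0) (XT.nd (nat_lit 156) (nat_lit 1748) (nat_lit 0) (XT.nd (nat_lit 78) (nat_lit 912) (nat_lit 0) (XT.lf (nat_lit 0) (nat_lit 7944140379) (nat_lit 1140) (nat_lit 2285798873) (nat_lit 76) (nat_lit 18494236833) (nat_lit 436) (nat_lit 5) (nat_lit 451) (nat_lit 5) (nat_lit 437) (nat_lit 5) (nat_lit 632) (nat_lit 604) (nat_lit 324)) (XT.lf (nat_lit 0) (nat_lit 10698950811) (nat_lit 988) (nat_lit 15657435989) (nat_lit 76) (nat_lit 2679599777) (nat_lit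 424) (nat_lit 5) (nat_lit 437) (nat_lit 5) (nat_lit 425) (nat_lit 5) (nat_lit 633) (nat_lit 604) (nat_lit 323))) (XT.nd (nat_lit 78) (nat_lit 1748) (nat_lit 0) (XT.lf (nat_lit 0) (nat_lit 13589780099) (nat_lit 988) (nat_lit 36519005) (nat_lit 76) (nat_lit 15726115912) (nat_lit 424) (nat_lit 5) (nat_lit 437) (nat_lit 5) (nat_lit 425) (nat_lit 5) (nat_lit 634) (nat_lit 604) (nat_lit 322)) (XT.nd (nat_lit 78) (nat_lit 836) (nat_lit 0) (XT.lf (nat_lit 0) (nat_lit 16105975926) (nat_lit 912) (nat_lit 534799364) (nat_lit 988) (nat_lit 13032349938) (nat_lit 412) (nat_lit 5) (nat_lit 424) (nat_lit 5) (nat_lit 425) (nat_lit 5) (nat_lit 635) (nat_lit 604) (nat_lit 321)) (XT.lf (nat_lit 0) (nat_lit 2519279429) (nat_lit 836) (nat_lit 17331150553) (nat_lit 912) (nat_lit 10147867056) (nat_lit 401) (nat_lit 5) (nat_lit 412) (nat_lit 5) (nat_lit 413) (nat_lit 5) (nat_lit 636) (nat_lit 604) (nat_lit 320))))) (XT.nd (nat_lit 234) (nat_lit 1748) (nat_lit 0) (XT.nd (nat_lit 78) (nat_lit 836) (nat_lit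 0) (XT.lf (nat_lit 0) (nat_lit 19105663688) (nat_lit 836) (nat_lit 4111014259) (nat_lit 912) (nat_lit 7111446513) (nat_lit 401) (nat_lit 5) (nat_lit 412) (nat_lit 5) (nat_lit 413) (nat_lit 5) (nat_lit 637) (nat_lit 604) (nat_lit 319)) (XT.nd (nat_lit 78) (nat_lit 0) (nat_lit 0) (XT.lf (nat_lit 0) (nat_lit 5366660226) (nat_lit 836) (nat_lit 21377175575) (nat_lit 912) (nat_lit 3918841109) (nat_lit 390) (nat_lit 5) (nat_lit 401) (nat_lit 5) (nat_lit 402) (nat_lit 5) (nat_lit 638) (nat_lit 604) (nat_lit 318)) (XT.lf (nat_lit 0) (nat_lit 22410021204) (nat_lit 836) (nat_lit 8031780280) (nat_lit 912) (nat_lit 560113807) (nat_lit 390) (nat_lit 5) (nat_lit 401) (nat_lit 5) (nat_lit 402) (nat_lit 5) (nat_lit 639) (nat_lit 604) (nat_lit 317)))) (XT.nd (nat_lit 78) (nat_lit 836) (nat_lit 0) (XT.lf (nat_lit 0) (nat_lit 2918294457) (nat_lit 912) (nat_lit 22845610789) (nat_lit 76) (nat_lit 5581859393) (nat_lit 378) (nat_lit 5) (nat_lit 390) (nat_lit 5) (nat_lit 379) (nat_lit 5) (nat_lit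 640) (nat_lit 604) (nat_lit 316)) (XT.nd (nat_lit 78) (nat_lit 836) (nat_lit 0) (XT.lf (nat_lit 0) (nat_lit 6567970701) (nat_lit 912) (nat_lit 5704204294) (nat_lit 76) (nat_lit 19422058102) (nat_lit 378) (nat_lit 5) (nat_lit 390) (nat_lit 5) (nat_lit 379) (nat_lit 5) (nat_lit 641) (nat_lit 604) (nat_lit 315)) (XT.lf (nat_lit 0) (nat_lit 10376314159) (nat_lit 912) (nat_lit 20123842458) (nat_lit 76) (nat_lit 1547800995) (nat_lit 367) (nat_lit 5) (nat_lit 379) (nat_lit 5) (nat_lit 368) (nat_lit 5) (nat_lit 642) (nat_lit 604) (nat_lit 314))))))))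
noncomputable def xc235 : XT := (XT.nd (nat_lit 79014) (nat_lit 0) (nat_lit 7144) (XT.nd (nat_lit 78234) (nat_lit 0) (nat_lit 11248) (XT.nd (nat_lit 390) (nat_lit 1520) (nat_lit 0) (XT.nd (nat_lit 156) (nat_lit 1444) (nat_lit 0) (XT.nd (nat_lit 78) (nat_lit 760) (nat_lit 0) (XT.lf (nat_lit 0) (nat_lit 14378658426) (nat_lit 912) (nat_lit 2509271617) (nat_lit 76) (nat_lit 15518470054) (nat_lit 367) (nat_lit 5) (nat_lit 379) (nat_lit 5) (nat_lit 368) (nat_lit 5) (nat_lit 643) (nat_lit 604) (nat_lit 313)) (XT.lf (nat_lit 0) (nat_lit 15660950183) (nat_lit 760) (nat_lit 2899848852) (nat_lit 836) (nat_lit 14209217560) (nat_lit 357) (nat_lit 5) (nat_lit 367) (nat_lit 5) (nat_lit 368) (nat_lit 5) (nat_lit 644) (nat_lit 604) (nat_lit 312))) (XT.nd (nat_lit 78) (nat_lit 684) (nat_lit 0) (XT.lf (nat_lit 0) (nat_lit 1025490244) (nat_lit 760) (nat_lit 21896601151) (nat_lit 836) (nat_lit 10216904003) (nat_lit 347) (nat_lit 5) (nat_lit 357) (nat_lit 5) (nat_lit 358) (nat_lit 5) (nat_lit 645)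 (nat_lit 604) (nat_lit 311)) (XT.nd (nat_lit 78) (nat_lit 684) (nat_lit 0) (XT.lf (nat_lit 0) (nat_lit 19733149203) (nat_lit 760) (nat_lit 7769465479) (nat_lit 836) (nat_lit 6010099141) (nat_lit 347) (nat_lit 5) (nat_lit 357) (nat_lit 5) (nat_lit 358) (nat_lit 5) (nat_lit 646) (nat_lit 604) (nat_lit 310)) (XT.lf (nat_lit 0) (nat_lit 4940697070) (nat_lit 684) (nat_lit 27307394496) (nat_lit 760) (nat_lit 1644348334) (nat_lit 338) (nat_lit 5) (nat_lit 347) (nat_lit 5) (nat_lit 348) (nat_lit 5) (nat_lit 647) (nat_lit 604) (nat_lit 309))))) (XT.nd (nat_lit 156) (nat_lit 684) (nat_lit 0) (XT.nd (nat_lit 78) (nat_lit 760) (nat_lit 0) (XT.lf (nat_lit 0) (nat_lit 2914577579) (nat_lit 760) (nat_lit 10128117588) (nat_lit 76) (nat_lit 21233846813) (nat_lit 337) (nat_lit 5) (nat_lit 347) (nat_lit 5) (nat_lit 338) (nat_lit 5) (nat_lit 648) (nat_lit 604) (nat_lit 308)) (XT.lf (nat_lit 0) (nat_lit 7610734797) (nat_lit 836) (nat_lit 25497737445) (nat_lit 76) (nat_lit 1558275201) (nat_lit 327)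 (nat_lit 5) (nat_lit 338) (nat_lit 5) (nat_lit 328) (nat_lit 5) (nat_lit 649) (nat_lit 604) (nat_lit 307))) (XT.nd (nat_lit 78) (nat_lit 684) (nat_lit 0) (XT.lf (nat_lit 0) (nat_lit 12553825633) (nat_lit 836) (nat_lit 6162888810) (nat_lit 76) (nat_lit 16344982498) (nat_lit 327) (nat_lit 5) (nat_lit 338) (nat_lit 5) (nat_lit 328) (nat_lit 5) (nat_lit 650) (nat_lit 604) (nat_lit 306)) (XT.nd (nat_lit 78) (nat_lit 0) (nat_lit 0) (XT.lf (nat_lit 0) (nat_lit 13736822633) (nat_lit 684) (nat_lit 3946399031) (nat_lit 760) (nat_lit 17779575030) (nat_lit 318) (nat_lit 5) (nat_lit 327) (nat_lit 5) (nat_lit 328) (nat_lit 5) (nat_lit 651) (nat_lit 604) (nat_lit 305)) (XT.lf (nat_lit 0) (nat_lit 23027304235) (nat_lit 760) (nat_lit 1827506202) (nat_lit 76) (nat_lit 11014866162) (nat_lit 318) (nat_lit 5) (nat_lit 328) (nat_lit 5) (nat_lit 319) (nat_lit 5) (nat_lit 652) (nat_lit 604) (nat_lit 304)))))) (XT.nd (nat_lit 390) (nat_lit 1672) (nat_lit 0) (XT.nd (nat_lit 156) (nat_lit 0) (nat_lit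 0) (XT.nd (nat_lit 78) (nat_lit 0) (nat_lit 0) (XT.lf (nat_lit 0) (nat_lit 5057101737) (nat_lit 0) (nat_lit 5057101737) (nat_lit 1748) (nat_lit 865924279) (nat_lit 488) (nat_lit 5) (nat_lit 488) (nat_lit 3) (nat_lit 511) (nat_lit 3) (nat_lit 605) (nat_lit 605) (nat_lit 350)) (XT.lf (nat_lit 0) (nat_lit 20571146900) (nat_lit 1748) (nat_lit 1001150087) (nat_lit 1824) (nat_lit 604739185) (nat_lit 488) (nat_lit 5) (nat_lit 511) (nat_lit 3) (nat_lit 512) (nat_lit 5) (nat_lit 606) (nat_lit 605) (nat_lit 349))) (XT.nd (nat_lit 78) (nat_lit 0) (nat_lit 0) (XT.lf (nat_lit 76) (nat_lit 10124580636) (nat_lit 0) (nat_lit 10925309757) (nat_lit 1824) (nat_lit 1345679416) (nat_lit 489) (nat_lit 5) (nat_lit 488) (nat_lit 5) (nat_lit 512) (nat_lit 5) (nat_lit 607) (nat_lit 605) (nat_lit 348)) (XT.nd (nat_lit 78) (nat_lit 0) (nat_lit 76) (XT.lf (nat_lit 76) (nat_lit 21484535674) (nat_lit 0) (nat_lit 56880978) (nat_lit 1824) (nat_lit 1076993635) (nat_lit 489) (nat_lit 5) (nat_lit 488) (nat_lit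 5) (nat_lit 512) (nat_lit 5) (nat_lit 608) (nat_lit 605) (nat_lit 347)) (XT.lf (nat_lit 76) (nat_lit 10287391880) (nat_lit 0) (nat_lit 11890350152) (nat_lit 1824) (nat_lit 665266496) (nat_lit 490) (nat_lit 5) (nat_lit 489) (nat_lit 5) (nat_lit 513) (nat_lit 5) (nat_lit 609) (nat_lit 605) (nat_lit 346))))) (XT.nd (nat_lit 156) (nat_lit 0) (nat_lit 0) (XT.nd (nat_lit 78) (nat_lit 1748) (nat_lit 0) (XT.lf (nat_lit 76) (nat_lit 21950180190) (nat_lit 0) (nat_lit 881220814) (nat_lit 1824) (nat_lit 240605902) (nat_lit 490) (nat_lit 5) (nat_lit 489) (nat_lit 5) (nat_lit 513) (nat_lit 5) (nat_lit 610) (nat_lit 605) (nat_lit 345)) (XT.lf (nat_lit 0) (nat_lit 323679500) (nat_lit 1824) (nat_lit 12694376761) (nat_lit 1900) (nat_lit 10284831153) (nat_lit 466) (nat_lit 5) (nat_lit 490) (nat_lit 5) (nat_lit 491) (nat_lit 5) (nat_lit 611) (nat_lit 605) (nat_lit 344))) (XT.nd (nat_lit 78) (nat_lit 0) (nat_lit 76) (XT.lf (nat_lit 0) (nat_lit 906175780) (nat_lit 1824) (nat_lit 959014408) (nat_lit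 1900) (nat_lit 21672960897) (nat_lit 466) (nat_lit 5) (nat_lit 490) (nat_lit 5) (nat_lit 491) (nat_lit 5) (nat_lit 612) (nat_lit 605) (nat_lit 343)) (XT.nd (nat_lit 78) (nat_lit 0) (nat_lit 0) (XT.lf (nat_lit 0) (nat_lit 1631782645) (nat_lit 1824) (nat_lit 12683536309) (nat_lit 1900) (nat_lit 9460172153) (nat_lit 467) (nat_lit 5) (nat_lit 491) (nat_lit 5) (nat_lit 492) (nat_lit 5) (nat_lit 613) (nat_lit 605) (nat_lit 342)) (XT.lf (nat_lit 0) (nat_lit 2387584731) (nat_lit 1824) (nat_lit 634883061) (nat_lit 1900) (nat_lit 20994796762) (nat_lit 467) (nat_lit 5) (nat_lit 491) (nat_lit 5) (nat_lit 492) (nat_lit 5) (nat_lit 614) (nat_lit 605) (nat_lit 341))))))) (XT.nd (nat_lit 780) (nat_lit 4256) (nat_lit 0) (XT.nd (nat_lit 390) (nat_lit 0) (nat_lit 152) (XT.nd (nat_lit 156) (nat_lit 0) (nat_lit 76) (XT.nd (nat_lit 78) (nat_lit 0) (nat_lit 0) (XT.lf (nat_lit 0) (nat_lit 3287758798) (nat_lit 1824) (nat_lit 12510420904) (nat_lit 1900) (nat_lit 8463108930) (nat_lit 468) (nat_lit 5)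 (nat_lit 492) (nat_lit 5) (nat_lit 493) (nat_lit 5) (nat_lit 615) (nat_lit 605) (nat_lit 340)) (XT.lf (nat_lit 0) (nat_lit 4227210893) (nat_lit 1824) (nat_lit 139211618) (nat_lit 1900) (nat_lit 20143345464) (nat_lit 468) (nat_lit 5) (nat_lit 492) (nat_lit 5) (nat_lit 493) (nat_lit 5) (nat_lit 616) (nat_lit 605) (nat_lit 339))) (XT.nd (nat_lit 78) (nat_lit 0) (nat_lit 0) (XT.lf (nat_lit 0) (nat_lit 5312477097) (nat_lit 1824) (nat_lit 12166260982) (nat_lit 1900) (nat_lit 7281938593) (nat_lit 469) (nat_lit 5) (nat_lit 493) (nat_lit 5) (nat_lit 494) (nat_lit 5) (nat_lit 617) (nat_lit 605) (nat_lit 338)) (XT.nd (nat_lit 78) (nat_lit 0) (nat_lit 76) (XT.lf (nat_lit 76) (nat_lit 544220729) (nat_lit 0) (nat_lit 5905699394) (nat_lit 1900) (nat_lit 18566074256) (nat_lit 470) (nat_lit 5) (nat_lit 469) (nat_lit 5) (nat_lit 494) (nat_lit 5) (nat_lit 618) (nat_lit 605) (nat_lit 337)) (XT.lf (nat_lit 0) (nat_lit 7727724554) (nat_lit 1824) (nat_lit 11641858128) (nat_lit 1900) (nat_lit 5904483766)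 (nat_lit 470) (nat_lit 5) (nat_lit 494) (nat_lit 5) (nat_lit 495) (nat_lit 5) (nat_lit 619) (nat_lit 605) (nat_lit 336))))) (XT.nd (nat_lit 156) (nat_lit 0) (nat_lit 76) (XT.nd (nat_lit 78) (nat_lit 0) (nat_lit 76) (XT.lf (nat_lit 76) (nat_lit 1422175757) (nat_lit 0) (nat_lit 7654440804) (nat_lit 1900) (nat_lit 16459773022) (nat_lit 471) (nat_lit 5) (nat_lit 470) (nat_lit 5) (nat_lit 495) (nat_lit 5) (nat_lit 620) (nat_lit 605) (nat_lit 335)) (XT.lf (nat_lit 0) (nat_lit 10556247041) (nat_lit 1824) (nat_lit 10927570096) (nat_lit 1900) (nat_lit 4318067079) (nat_lit 471) (nat_lit 5) (nat_lit 495) (nat_lit 5) (nat_lit 496) (nat_lit 5) (nat_lit 621) (nat_lit 605) (nat_lit 334))) (XT.nd (nat_lit 78) (nat_lit 0) (nat_lit 76) (XT.lf (nat_lit 76) (nat_lit 2502912802) (nat_lit 0) (nat_lit 9626788042) (nat_lit 1900) (nat_lit 13941703527) (nat_lit 472) (nat_lit 5) (nat_lit 471) (nat_lit 5) (nat_lit 496) (nat_lit 5) (nat_lit 622) (nat_lit 605) (nat_lit 333)) (XT.nd (nat_lit 78) (nat_lit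 0) (nat_lit 0) (XT.lf (nat_lit 0) (nat_lit 13821791809) (nat_lit 1824) (nat_lit 10013295179) (nat_lit 1900) (nat_lit 2509484820) (nat_lit 472) (nat_lit 5) (nat_lit 496) (nat_lit 5) (nat_lit 497) (nat_lit 5) (nat_lit 623) (nat_lit 605) (nat_lit 332)) (XT.lf (nat_lit 76) (nat_lit 3797018008) (nat_lit 0) (nat_lit 11836498035) (nat_lit 1900) (nat_lit 10987970955) (nat_lit 473) (nat_lit 5) (nat_lit 472) (nat_lit 5) (nat_lit 497) (nat_lit 5) (nat_lit 624) (nat_lit 605) (nat_lit 331)))))) (XT.nd (nat_lit 390) (nat_lit 4636) (nat_lit 0) (XT.nd (nat_lit 156) (nat_lit 0) (nat_lit 0) (XT.nd (nat_lit 78) (nat_lit 0) (nat_lit 0) (XT.lf (nat_lit 0) (nat_lit 17549151614) (nat_lit 1824) (nat_lit 8888455906) (nat_lit 1900) (nat_lit 464979666) (nat_lit 473) (nat_lit 5) (nat_lit 497) (nat_lit 5) (nat_lit 498) (nat_lit 5) (nat_lit 625) (nat_lit 605) (nat_lit 330)) (XT.lf (nat_lit 76) (nat_lit 5315571218) (nat_lit 0) (nat_lit 14297905665) (nat_lit 1900) (nat_lit 7573625180) (nat_lit 474) (nat_lit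 5) (nat_lit 473) (nat_lit 5) (nat_lit 498) (nat_lit 5) (nat_lit 626) (nat_lit 605) (nat_lit 329))) (XT.nd (nat_lit 78) (nat_lit 0) (nat_lit 76) (XT.lf (nat_lit 76) (nat_lit 19922144134) (nat_lit 0) (nat_lit 1854104457) (nat_lit 1900) (nat_lit 5699915669) (nat_lit 474) (nat_lit 5) (nat_lit 473) (nat_lit 5) (nat_lit 498) (nat_lit 5) (nat_lit 627) (nat_lit 605) (nat_lit 328)) (XT.nd (nat_lit 78) (nat_lit 0) (nat_lit 0) (XT.lf (nat_lit 76) (nat_lit 7070163633) (nat_lit 0) (nat_lit 17025952929) (nat_lit 1900) (nat_lit 3672614538) (nat_lit 475) (nat_lit 5) (nat_lit 474) (nat_lit 5) (nat_lit 499) (nat_lit 5) (nat_lit 628) (nat_lit 605) (nat_lit 327)) (XT.lf (nat_lit 76) (nat_lit 22074766719) (nat_lit 0) (nat_lit 4448104743) (nat_lit 1900) (nat_lit 1543068237) (nat_lit 475) (nat_lit 5) (nat_lit 474) (nat_lit 5) (nat_lit 499) (nat_lit 5) (nat_lit 629) (nat_lit 605) (nat_lit 326))))) (XT.nd (nat_lit 234) (nat_lit 1824) (nat_lit 0) (XT.nd (nat_lit 78) (nat_lit 1064) (nat_lit 0) (XT.lf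 (nat_lit 0) (nat_lit 732527251) (nat_lit 1900) (nat_lit 19298776265) (nat_lit 76) (nat_lit 8335473300) (nat_lit 450) (nat_lit 5) (nat_lit 475) (nat_lit 5) (nat_lit 451) (nat_lit 5) (nat_lit 630) (nat_lit 605) (nat_lit 325)) (XT.nd (nat_lit 78) (nat_lit 1064) (nat_lit 0) (XT.lf (nat_lit 0) (nat_lit 3100587098) (nat_lit 1900) (nat_lit 4205247028) (nat_lit 76) (nat_lit 21366240473) (nat_lit 450) (nat_lit 5) (nat_lit 475) (nat_lit 5) (nat_lit 451) (nat_lit 5) (nat_lit 631) (nat_lit 605) (nat_lit 324)) (XT.lf (nat_lit 0) (nat_lit 5624656693) (nat_lit 1140) (nat_lit 17682551263) (nat_lit 76) (nat_lit 5674097606) (nat_lit 436) (nat_lit 5) (nat_lit 451) (nat_lit 5) (nat_lit 437) (nat_lit 5) (nat_lit 632) (nat_lit 605) (nat_lit 323)))) (XT.nd (nat_lit 78) (nat_lit 1824) (nat_lit 0) (XT.lf (nat_lit 0) (nat_lit 8273743334) (nat_lit 1140) (nat_lit 2176928441) (nat_lit 76) (nat_lit 18844558849) (nat_lit 436) (nat_lit 5) (nat_lit 451) (nat_lit 5) (nat_lit 437) (nat_lit 5) (nat_lit 633)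 (nat_lit 605) (nat_lit 322)) (XT.nd (nat_lit 78) (nat_lit 912) (nat_lit 0) (XT.lf (nat_lit 0) (nat_lit 11081203501) (nat_lit 988) (nat_lit 15813537532) (nat_lit 76) (nat_lit 2718585507) (nat_lit 424) (nat_lit 5) (nat_lit 437) (nat_lit 5) (nat_lit 425) (nat_lit 5) (nat_lit 634) (nat_lit 605) (nat_lit 321)) (XT.lf (nat_lit 0) (nat_lit 118269560) (nat_lit 912) (nat_lit 13909048216) (nat_lit 988) (nat_lit 15908816686) (nat_lit 412) (nat_lit 5) (nat_lit 424) (nat_lit 5) (nat_lit 425) (nat_lit 5) (nat_lit 635) (nat_lit 605) (nat_lit 320))))))))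
noncomputable def xc236 : XT := (XT.nd (nat_lit 79092) (nat_lit 0) (nat_lit 11172) (XT.nd (nat_lit 780) (nat_lit 2964) (nat_lit 0) (XT.nd (nat_lit 390) (nat_lit 2508) (nat_lit 0) (XT.nd (nat_lit 156) (nat_lit 836) (nat_lit 0) (XT.nd (nat_lit 78) (nat_lit 836) (nat_lit 0) (XT.lf (nat_lit 0) (nat_lit 16581050318) (nat_lit 912) (nat_lit 555272965) (nat_lit 988) (nat_lit 13126996062) (nat_lit 412) (nat_lit 5) (nat_lit 424) (nat_lit 5) (nat_lit 425) (nat_lit 5) (nat_lit 636) (nat_lit 605) (nat_lit 319)) (XT.lf (nat_lit 0) (nat_lit 2724923560) (nat_lit 836) (nat_lit 17683002478) (nat_lit 912) (nat_lit 10187113721) (nat_lit 401) (nat_lit 5) (nat_lit 412) (nat_lit 5) (nat_lit 413) (nat_lit 5) (nat_lit 637) (nat_lit 605) (nat_lit 318))) (XT.nd (nat_lit 78) (nat_lit 836) (nat_lit 0) (XT.lf (nat_lit 0) (nat_lit 19639991220) (nat_lit 836) (nat_lit 4198360931) (nat_lit 912) (nat_lit 7093174780) (nat_lit 401) (nat_lit 5) (nat_lit 412) (nat_lit 5) (nat_lit 413) (nat_lit 5) (nat_lit 638)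 (nat_lit 605) (nat_lit 317)) (XT.nd (nat_lit 78) (nat_lit 0) (nat_lit 0) (XT.lf (nat_lit 0) (nat_lit 5628378572) (nat_lit 836) (nat_lit 21805559219) (nat_lit 912) (nat_lit 3838875206) (nat_lit 390) (nat_lit 5) (nat_lit 401) (nat_lit 5) (nat_lit 402) (nat_lit 5) (nat_lit 639) (nat_lit 605) (nat_lit 316)) (XT.lf (nat_lit 0) (nat_lit 23009579609) (nat_lit 836) (nat_lit 8193239545) (nat_lit 912) (nat_lit 416078117) (nat_lit 390) (nat_lit 5) (nat_lit 401) (nat_lit 5) (nat_lit 402) (nat_lit 5) (nat_lit 640) (nat_lit 605) (nat_lit 315))))) (XT.nd (nat_lit 156) (nat_lit 1596) (nat_lit 0) (XT.nd (nat_lit 78) (nat_lit 0) (nat_lit 0) (XT.lf (nat_lit 0) (nat_lit 3127855695) (nat_lit 912) (nat_lit 23147097763) (nat_lit 76) (nat_lit 5694690368) (nat_lit 378) (nat_lit 5) (nat_lit 390) (nat_lit 5) (nat_lit 379) (nat_lit 5) (nat_lit 641) (nat_lit 605) (nat_lit 314)) (XT.lf (nat_lit 0) (nat_lit 6847560849) (nat_lit 912) (nat_lit 5665910692) (nat_lit 76) (nat_lit 19811669644) (nat_lit 378) (nat_lit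 5) (nat_lit 390) (nat_lit 5) (nat_lit 379) (nat_lit 5) (nat_lit 642) (nat_lit 605) (nat_lit 313))) (XT.nd (nat_lit 78) (nat_lit 760) (nat_lit 0) (XT.lf (nat_lit 0) (nat_lit 10730180425) (nat_lit 912) (nat_lit 20372039142) (nat_lit 76) (nat_lit 1583758672) (nat_lit 367) (nat_lit 5) (nat_lit 379) (nat_lit 5) (nat_lit 368) (nat_lit 5) (nat_lit 643) (nat_lit 605) (nat_lit 312)) (XT.nd (nat_lit 78) (nat_lit 760) (nat_lit 0) (XT.lf (nat_lit 0) (nat_lit 14809702165) (nat_lit 912) (nat_lit 2408201985) (nat_lit 76) (nat_lit 15833743040) (nat_lit 367) (nat_lit 5) (nat_lit 379) (nat_lit 5) (nat_lit 368) (nat_lit 5) (nat_lit 644) (nat_lit 605) (nat_lit 311)) (XT.lf (nat_lit 0) (nat_lit 16124429151) (nat_lit 760) (nat_lit 2949218875) (nat_lit 836) (nat_lit 14348924970) (nat_lit 357) (nat_lit 5) (nat_lit 367) (nat_lit 5) (nat_lit 368) (nat_lit 5) (nat_lit 645) (nat_lit 605) (nat_lit 310)))))) (XT.nd (nat_lit 390) (nat_lit 684) (nat_lit 0) (XT.nd (nat_lit 156) (nat_lit 1520) (nat_lit 0)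 (XT.nd (nat_lit 78) (nat_lit 0) (nat_lit 0) (XT.lf (nat_lit 0) (nat_lit 1198041038) (nat_lit 760) (nat_lit 22322390142) (nat_lit 836) (nat_lit 10278535117) (nat_lit 347) (nat_lit 5) (nat_lit 357) (nat_lit 5) (nat_lit 358) (nat_lit 5) (nat_lit 646) (nat_lit 605) (nat_lit 309)) (XT.lf (nat_lit 0) (nat_lit 20276871981) (nat_lit 760) (nat_lit 7912949855) (nat_lit 836) (nat_lit 5990392334) (nat_lit 347) (nat_lit 5) (nat_lit 357) (nat_lit 5) (nat_lit 358) (nat_lit 5) (nat_lit 647) (nat_lit 605) (nat_lit 308))) (XT.nd (nat_lit 78) (nat_lit 836) (nat_lit 0) (XT.lf (nat_lit 0) (nat_lit 5190249174) (nat_lit 684) (nat_lit 27838324243) (nat_lit 760) (nat_lit 1538994260) (nat_lit 338) (nat_lit 5) (nat_lit 347) (nat_lit 5) (nat_lit 348) (nat_lit 5) (nat_lit 648) (nat_lit 605) (nat_lit 307)) (XT.nd (nat_lit 78) (nat_lit 760) (nat_lit 0) (XT.lf (nat_lit 0) (nat_lit 3106622057) (nat_lit 760) (nat_lit 10181109713) (nat_lit 76) (nat_lit 21671655783) (nat_lit 337) (nat_lit 5) (nat_lit 347) (nat_lit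 5) (nat_lit 338) (nat_lit 5) (nat_lit 649) (nat_lit 605) (nat_lit 306)) (XT.lf (nat_lit 0) (nat_lit 7895151604) (nat_lit 836) (nat_lit 25856561146) (nat_lit 76) (nat_lit 1605715592) (nat_lit 327) (nat_lit 5) (nat_lit 338) (nat_lit 5) (nat_lit 328) (nat_lit 5) (nat_lit 650) (nat_lit 605) (nat_lit 305))))) (XT.nd (nat_lit 77688) (nat_lit 0) (nat_lit 12920) (XT.nd (nat_lit 78) (nat_lit 684) (nat_lit 0) (XT.lf (nat_lit 0) (nat_lit 12934512059) (nat_lit 836) (nat_lit 6137978891) (nat_lit 76) (nat_lit 16687837920) (nat_lit 327) (nat_lit 5) (nat_lit 338) (nat_lit 5) (nat_lit 328) (nat_lit 5) (nat_lit 651) (nat_lit 605) (nat_lit 304)) (XT.lf (nat_lit 0) (nat_lit 14158751993) (nat_lit 684) (nat_lit 4006158321) (nat_lit 760) (nat_lit 18004572210) (nat_lit 318) (nat_lit 5) (nat_lit 327) (nat_lit 5) (nat_lit 328) (nat_lit 5) (nat_lit 652) (nat_lit 605) (nat_lit 303))) (XT.nd (nat_lit 78) (nat_lit 0) (nat_lit 0) (XT.lf (nat_lit 0) (nat_lit 5226039388) (nat_lit 0) (nat_lit 5226039388) (nat_lit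 1748) (nat_lit 744927017) (nat_lit 488) (nat_lit 5) (nat_lit 488) (nat_lit 3) (nat_lit 511) (nat_lit 3) (nat_lit 606) (nat_lit 606) (nat_lit 348)) (XT.nd (nat_lit 78) (nat_lit 0) (nat_lit 0) (XT.lf (nat_lit 0) (nat_lit 21247571911) (nat_lit 1748) (nat_lit 882035234) (nat_lit 1824) (nat_lit 485644824) (nat_lit 488) (nat_lit 5) (nat_lit 511) (nat_lit 3) (nat_lit 512) (nat_lit 5) (nat_lit 607) (nat_lit 606) (nat_lit 347)) (XT.lf (nat_lit 76) (nat_lit 10465294723) (nat_lit 0) (nat_lit 11266296863) (nat_lit 1824) (nat_lit 1106651153) (nat_lit 489) (nat_lit 5) (nat_lit 488) (nat_lit 5) (nat_lit 512) (nat_lit 5) (nat_lit 608) (nat_lit 606) (nat_lit 346))))))) (XT.nd (nat_lit 780) (nat_lit 0) (nat_lit 304) (XT.nd (nat_lit 390) (nat_lit 0) (nat_lit 152) (XT.nd (nat_lit 156) (nat_lit 1748) (nat_lit 0) (XT.nd (nat_lit 78) (nat_lit 0) (nat_lit 76) (XT.lf (nat_lit 76) (nat_lit 22049738617) (nat_lit 0) (nat_lit 178097923) (nat_lit 1824) (nat_lit 837806203) (nat_lit 489) (nat_lit 5) (nat_lit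 488) (nat_lit 5) (nat_lit 512) (nat_lit 5) (nat_lit 609) (nat_lit 606) (nat_lit 345)) (XT.lf (nat_lit 76) (nat_lit 10633636887) (nat_lit 0) (nat_lit 12238387794) (nat_lit 1824) (nat_lit 422806011) (nat_lit 490) (nat_lit 5) (nat_lit 489) (nat_lit 5) (nat_lit 513) (nat_lit 5) (nat_lit 610) (nat_lit 606) (nat_lit 344))) (XT.nd (nat_lit 78) (nat_lit 0) (nat_lit 76) (XT.lf (nat_lit 0) (nat_lit 5262838) (nat_lit 1824) (nat_lit 1001616329) (nat_lit 1900) (nat_lit 22521627963) (nat_lit 465) (nat_lit 5) (nat_lit 489) (nat_lit 5) (nat_lit 490) (nat_lit 5) (nat_lit 611) (nat_lit 606) (nat_lit 343)) (XT.nd (nat_lit 78) (nat_lit 0) (nat_lit 0) (XT.lf (nat_lit 0) (nat_lit 573001532) (nat_lit 1824) (nat_lit 12802574979) (nat_lit 1900) (nat_lit 10388489585) (nat_lit 466) (nat_lit 5) (nat_lit 490) (nat_lit 5) (nat_lit 491) (nat_lit 5) (nat_lit 612) (nat_lit 606) (nat_lit 342)) (XT.lf (nat_lit 0) (nat_lit 1162386003) (nat_lit 1824) (nat_lit 835362032) (nat_lit 1900) (nat_lit 22006382673) (nat_lit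 466) (nat_lit 5) (nat_lit 490) (nat_lit 5) (nat_lit 491) (nat_lit 5) (nat_lit 613) (nat_lit 606) (nat_lit 341))))) (XT.nd (nat_lit 156) (nat_lit 0) (nat_lit 76) (XT.nd (nat_lit 78) (nat_lit 0) (nat_lit 0) (XT.lf (nat_lit 0) (nat_lit 1898157677) (nat_lit 1824) (nat_lit 12790005803) (nat_lit 1900) (nat_lit 9558141422) (nat_lit 467) (nat_lit 5) (nat_lit 491) (nat_lit 5) (nat_lit 492) (nat_lit 5) (nat_lit 614) (nat_lit 606) (nat_lit 340)) (XT.lf (nat_lit 0) (nat_lit 2664492680) (nat_lit 1824) (nat_lit 503265789) (nat_lit 1900) (nat_lit 21325247428) (nat_lit 467) (nat_lit 5) (nat_lit 491) (nat_lit 5) (nat_lit 492) (nat_lit 5) (nat_lit 615) (nat_lit 606) (nat_lit 339))) (XT.nd (nat_lit 78) (nat_lit 0) (nat_lit 0) (XT.lf (nat_lit 0) (nat_lit 3578573912) (nat_lit 1824) (nat_lit 12612197657) (nat_lit 1900) (nat_lit 8551221222) (nat_lit 468) (nat_lit 5) (nat_lit 492) (nat_lit 5) (nat_lit 493) (nat_lit 5) (nat_lit 616) (nat_lit 606) (nat_lit 338)) (XT.nd (nat_lit 78) (nat_lit 0) (nat_lit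 76) (XT.lf (nat_lit 76) (nat_lit 3572240) (nat_lit 0) (nat_lit 4528853061) (nat_lit 1900) (nat_lit 20463104615) (nat_lit 469) (nat_lit 5) (nat_lit 468) (nat_lit 5) (nat_lit 493) (nat_lit 5) (nat_lit 617) (nat_lit 606) (nat_lit 337)) (XT.lf (nat_lit 0) (nat_lit 5635513843) (nat_lit 1824) (nat_lit 12260185546) (nat_lit 1900) (nat_lit 7355835451) (nat_lit 469) (nat_lit 5) (nat_lit 493) (nat_lit 5) (nat_lit 494) (nat_lit 5) (nat_lit 618) (nat_lit 606) (nat_lit 336)))))) (XT.nd (nat_lit 390) (nat_lit 0) (nat_lit 228) (XT.nd (nat_lit 156) (nat_lit 0) (nat_lit 76) (XT.nd (nat_lit 78) (nat_lit 0) (nat_lit 76) (XT.lf (nat_lit 76) (nat_lit 703522901) (nat_lit 0) (nat_lit 6088895726) (nat_lit 1900) (nat_lit 18719606401) (nat_lit 470) (nat_lit 5) (nat_lit 469) (nat_lit 5) (nat_lit 494) (nat_lit 5) (nat_lit 619) (nat_lit 606) (nat_lit 335)) (XT.lf (nat_lit 0) (nat_lit 8091178598) (nat_lit 1824) (nat_lit 11724568277) (nat_lit 1900) (nat_lit 5959604051) (nat_lit 470) (nat_lit 5) (nat_lit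 494) (nat_lit 5) (nat_lit 495) (nat_lit 5) (nat_lit 620) (nat_lit 606) (nat_lit 334))) (XT.nd (nat_lit 78) (nat_lit 0) (nat_lit 76) (XT.lf (nat_lit 76) (nat_lit 1599758608) (nat_lit 0) (nat_lit 7864162078) (nat_lit 1900) (nat_lit 16579062762) (nat_lit 471) (nat_lit 5) (nat_lit 470) (nat_lit 5) (nat_lit 495) (nat_lit 5) (nat_lit 621) (nat_lit 606) (nat_lit 333)) (XT.nd (nat_lit 78) (nat_lit 0) (nat_lit 0) (XT.lf (nat_lit 0) (nat_lit 10968748549) (nat_lit 1824) (nat_lit 10995493108) (nat_lit 1900) (nat_lit 4349634584) (nat_lit 471) (nat_lit 5) (nat_lit 495) (nat_lit 5) (nat_lit 496) (nat_lit 5) (nat_lit 622) (nat_lit 606) (nat_lit 332)) (XT.lf (nat_lit 76) (nat_lit 2702608472) (nat_lit 0) (nat_lit 9868085942) (nat_lit 1900) (nat_lit 14018152282) (nat_lit 472) (nat_lit 5) (nat_lit 471) (nat_lit 5) (nat_lit 496) (nat_lit 5) (nat_lit 623) (nat_lit 606) (nat_lit 331))))) (XT.nd (nat_lit 234) (nat_lit 0) (nat_lit 76) (XT.nd (nat_lit 78) (nat_lit 0) (nat_lit 0) (XT.lf (nat_lit 0)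 (nat_lit 14292426622) (nat_lit 1824) (nat_lit 10062639736) (nat_lit 1900) (nat_lit 2512495483) (nat_lit 472) (nat_lit 5) (nat_lit 496) (nat_lit 5) (nat_lit 497) (nat_lit 5) (nat_lit 624) (nat_lit 606) (nat_lit 330)) (XT.nd (nat_lit 78) (nat_lit 0) (nat_lit 76) (XT.lf (nat_lit 76) (nat_lit 4022886811) (nat_lit 0) (nat_lit 12114664141) (nat_lit 1900) (nat_lit 11012521412) (nat_lit 473) (nat_lit 5) (nat_lit 472) (nat_lit 5) (nat_lit 497) (nat_lit 5) (nat_lit 625) (nat_lit 606) (nat_lit 329)) (XT.lf (nat_lit 0) (nat_lit 18087483232) (nat_lit 1824) (nat_lit 8915203605) (nat_lit 1900) (nat_lit 434188373) (nat_lit 473) (nat_lit 5) (nat_lit 497) (nat_lit 5) (nat_lit 498) (nat_lit 5) (nat_lit 626) (nat_lit 606) (nat_lit 328)))) (XT.nd (nat_lit 78) (nat_lit 0) (nat_lit 0) (XT.lf (nat_lit 76) (nat_lit 5571910500) (nat_lit 0) (nat_lit 14618485085) (nat_lit 1900) (nat_lit 7536739117) (nat_lit 474) (nat_lit 5) (nat_lit 473) (nat_lit 5) (nat_lit 498) (nat_lit 5) (nat_lit 627) (nat_lit 606)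 (nat_lit 327)) (XT.nd (nat_lit 78) (nat_lit 0) (nat_lit 76) (XT.lf (nat_lit 76) (nat_lit 20467673151) (nat_lit 0) (nat_lit 1925129005) (nat_lit 1900) (nat_lit 5629248721) (nat_lit 474) (nat_lit 5) (nat_lit 473) (nat_lit 5) (nat_lit 498) (nat_lit 5) (nat_lit 628) (nat_lit 606) (nat_lit 326)) (XT.lf (nat_lit 76) (nat_lit 7361517039) (nat_lit 0) (nat_lit 17394758388) (nat_lit 1900) (nat_lit 3564249785) (nat_lit 475) (nat_lit 5) (nat_lit 474) (nat_lit 5) (nat_lit 499) (nat_lit 5) (nat_lit 629) (nat_lit 606) (nat_lit 325))))))))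
noncomputable def xc237 : XT := (XT.nd (nat_lit 1560) (nat_lit 836) (nat_lit 0) (XT.nd (nat_lit 780) (nat_lit 4788) (nat_lit 0) (XT.nd (nat_lit 390) (nat_lit 2660) (nat_lit 0) (XT.nd (nat_lit 156) (nat_lit 1064) (nat_lit 0) (XT.nd (nat_lit 78) (nat_lit 1824) (nat_lit 0) (XT.lf (nat_lit 76) (nat_lit 22663271988) (nat_lit 0) (nat_lit 4564798602) (nat_lit 1900) (nat_lit 1395677598) (nat_lit 475) (nat_lit 5) (nat_lit 474) (nat_lit 5) (nat_lit 499) (nat_lit 5) (nat_lit 630) (nat_lit 606) (nat_lit 324)) (XT.lf (nat_lit 0) (nat_lit 920443450) (nat_lit 1900) (nat_lit 19532725466) (nat_lit 76) (nat_lit 8477463252) (nat_lit 450) (nat_lit 5) (nat_lit 475) (nat_lit 5) (nat_lit 451) (nat_lit 5) (nat_lit 631) (nat_lit 606) (nat_lit 323))) (XT.nd (nat_lit 78) (nat_lit 1064) (nat_lit 0) (XT.lf (nat_lit 0) (nat_lit 3332467128) (nat_lit 1900) (nat_lit 4140306553) (nat_lit 76) (nat_lit 21769330465) (nat_lit 450) (nat_lit 5) (nat_lit 475) (nat_lit 5) (nat_lit 451) (nat_lit 5) (nat_lit 632) (nat_lit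 606) (nat_lit 322)) (XT.nd (nat_lit 78) (nat_lit 0) (nat_lit 0) (XT.lf (nat_lit 0) (nat_lit 5904522521) (nat_lit 1140) (nat_lit 17884646985) (nat_lit 76) (nat_lit 5768400421) (nat_lit 436) (nat_lit 5) (nat_lit 451) (nat_lit 5) (nat_lit 437) (nat_lit 5) (nat_lit 633) (nat_lit 606) (nat_lit 321)) (XT.lf (nat_lit 0) (nat_lit 8603309078) (nat_lit 1140) (nat_lit 2071883379) (nat_lit 76) (nat_lit 19202646950) (nat_lit 436) (nat_lit 5) (nat_lit 451) (nat_lit 5) (nat_lit 437) (nat_lit 5) (nat_lit 634) (nat_lit 606) (nat_lit 320))))) (XT.nd (nat_lit 156) (nat_lit 836) (nat_lit 0) (XT.nd (nat_lit 78) (nat_lit 912) (nat_lit 0) (XT.lf (nat_lit 0) (nat_lit 11464566974) (nat_lit 988) (nat_lit 15978859440) (nat_lit 76) (nat_lit 2758918131) (nat_lit 424) (nat_lit 5) (nat_lit 437) (nat_lit 5) (nat_lit 425) (nat_lit 5) (nat_lit 635) (nat_lit 606) (nat_lit 319)) (XT.lf (nat_lit 0) (nat_lit 270590710) (nat_lit 912) (nat_lit 14196815075) (nat_lit 988) (nat_lit 16064247064) (nat_lit 412) (nat_lit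 5) (nat_lit 424) (nat_lit 5) (nat_lit 425) (nat_lit 5) (nat_lit 636) (nat_lit 606) (nat_lit 318))) (XT.nd (nat_lit 78) (nat_lit 836) (nat_lit 0) (XT.lf (nat_lit 0) (nat_lit 17059686775) (nat_lit 912) (nat_lit 575776360) (nat_lit 988) (nat_lit 13229981124) (nat_lit 412) (nat_lit 5) (nat_lit 424) (nat_lit 5) (nat_lit 425) (nat_lit 5) (nat_lit 637) (nat_lit 606) (nat_lit 317)) (XT.nd (nat_lit 78) (nat_lit 0) (nat_lit 0) (XT.lf (nat_lit 0) (nat_lit 2928651696) (nat_lit 836) (nat_lit 18041688397) (nat_lit 912) (nat_lit 10233502405) (nat_lit 401) (nat_lit 5) (nat_lit 412) (nat_lit 5) (nat_lit 413) (nat_lit 5) (nat_lit 638) (nat_lit 606) (nat_lit 316)) (XT.lf (nat_lit 0) (nat_lit 20179094637) (nat_lit 836) (nat_lit 4287255473) (nat_lit 912) (nat_lit 7080770050) (nat_lit 401) (nat_lit 5) (nat_lit 412) (nat_lit 5) (nat_lit 413) (nat_lit 5) (nat_lit 639) (nat_lit 606) (nat_lit 315)))))) (XT.nd (nat_lit 390) (nat_lit 2204) (nat_lit 0) (XT.nd (nat_lit 156) (nat_lit 1748) (nat_lit 0) (XT.nd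 (nat_lit 78) (nat_lit 0) (nat_lit 0) (XT.lf (nat_lit 0) (nat_lit 5889336322) (nat_lit 836) (nat_lit 22242477912) (nat_lit 912) (nat_lit 3763458626) (nat_lit 390) (nat_lit 5) (nat_lit 401) (nat_lit 5) (nat_lit 402) (nat_lit 5) (nat_lit 640) (nat_lit 606) (nat_lit 314)) (XT.lf (nat_lit 0) (nat_lit 23615251768) (nat_lit 836) (nat_lit 8357896011) (nat_lit 912) (nat_lit 275189793) (nat_lit 390) (nat_lit 5) (nat_lit 401) (nat_lit 5) (nat_lit 402) (nat_lit 5) (nat_lit 641) (nat_lit 606) (nat_lit 313))) (XT.nd (nat_lit 78) (nat_lit 836) (nat_lit 0) (XT.lf (nat_lit 0) (nat_lit 3335737058) (nat_lit 912) (nat_lit 23460649828) (nat_lit 76) (nat_lit 5809731606) (nat_lit 378) (nat_lit 5) (nat_lit 390) (nat_lit 5) (nat_lit 379) (nat_lit 5) (nat_lit 642) (nat_lit 606) (nat_lit 312)) (XT.nd (nat_lit 78) (nat_lit 836) (nat_lit 0) (XT.lf (nat_lit 0) (nat_lit 7126986820) (nat_lit 912) (nat_lit 5632768229) (nat_lit 76) (nat_lit 20209027969) (nat_lit 378) (nat_lit 5) (nat_lit 390) (nat_lit 5) (nat_lit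 379) (nat_lit 5) (nat_lit 643) (nat_lit 606) (nat_lit 311)) (XT.lf (nat_lit 0) (nat_lit 11085441456) (nat_lit 912) (nat_lit 20631190646) (nat_lit 76) (nat_lit 1620241282) (nat_lit 367) (nat_lit 5) (nat_lit 379) (nat_lit 5) (nat_lit 368) (nat_lit 5) (nat_lit 644) (nat_lit 606) (nat_lit 310))))) (XT.nd (nat_lit 156) (nat_lit 1444) (nat_lit 0) (XT.nd (nat_lit 78) (nat_lit 760) (nat_lit 0) (XT.lf (nat_lit 0) (nat_lit 15243795643) (nat_lit 912) (nat_lit 2310984380) (nat_lit 76) (nat_lit 16155131074) (nat_lit 367) (nat_lit 5) (nat_lit 379) (nat_lit 5) (nat_lit 368) (nat_lit 5) (nat_lit 645) (nat_lit 606) (nat_lit 309)) (XT.lf (nat_lit 0) (nat_lit 16591342921) (nat_lit 760) (nat_lit 2999911293) (nat_lit 836) (nat_lit 14497036745) (nat_lit 357) (nat_lit 5) (nat_lit 367) (nat_lit 5) (nat_lit 368) (nat_lit 5) (nat_lit 646) (nat_lit 606) (nat_lit 308))) (XT.nd (nat_lit 78) (nat_lit 684) (nat_lit 0) (XT.lf (nat_lit 0) (nat_lit 1368138912) (nat_lit 760) (nat_lit 22757166441) (nat_lit 836)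 (nat_lit 10346940339) (nat_lit 347) (nat_lit 5) (nat_lit 357) (nat_lit 5) (nat_lit 358) (nat_lit 5) (nat_lit 647) (nat_lit 606) (nat_lit 307)) (XT.nd (nat_lit 78) (nat_lit 684) (nat_lit 0) (XT.lf (nat_lit 0) (nat_lit 20825681041) (nat_lit 760) (nat_lit 8059766201) (nat_lit 836) (nat_lit 5975724220) (nat_lit 347) (nat_lit 5) (nat_lit 357) (nat_lit 5) (nat_lit 358) (nat_lit 5) (nat_lit 648) (nat_lit 606) (nat_lit 306)) (XT.lf (nat_lit 0) (nat_lit 5438938974) (nat_lit 684) (nat_lit 28380463525) (nat_lit 760) (nat_lit 1436901172) (nat_lit 338) (nat_lit 5) (nat_lit 347) (nat_lit 5) (nat_lit 348) (nat_lit 5) (nat_lit 649) (nat_lit 606) (nat_lit 305))))))) (XT.nd (nat_lit 78390) (nat_lit 0) (nat_lit 10564) (XT.nd (nat_lit 78000) (nat_lit 0) (nat_lit 10488) (XT.nd (nat_lit 156) (nat_lit 0) (nat_lit 0) (XT.nd (nat_lit 78) (nat_lit 760) (nat_lit 0) (XT.lf (nat_lit 0) (nat_lit 3297313635) (nat_lit 760) (nat_lit 10240969675) (nat_lit 76) (nat_lit 22117711000) (nat_lit 337) (nat_lit 5)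 (nat_lit 347) (nat_lit 5) (nat_lit 338) (nat_lit 5) (nat_lit 650) (nat_lit 606) (nat_lit 304)) (XT.lf (nat_lit 0) (nat_lit 8180123179) (nat_lit 836) (nat_lit 26228429922) (nat_lit 76) (nat_lit 1653472818) (nat_lit 327) (nat_lit 5) (nat_lit 338) (nat_lit 5) (nat_lit 328) (nat_lit 5) (nat_lit 651) (nat_lit 606) (nat_lit 303))) (XT.nd (nat_lit 77688) (nat_lit 0) (nat_lit 12236) (XT.lf (nat_lit 0) (nat_lit 13317779302) (nat_lit 836) (nat_lit 6118324306) (nat_lit 76) (nat_lit 17036930868) (nat_lit 327) (nat_lit 5) (nat_lit 338) (nat_lit 5) (nat_lit 328) (nat_lit 5) (nat_lit 652) (nat_lit 606) (nat_lit 302)) (XT.nd (nat_lit 78) (nat_lit 0) (nat_lit 0) (XT.lf (nat_lit 0) (nat_lit 5395723205) (nat_lit 0) (nat_lit 5395723205) (nat_lit 1748) (nat_lit 626880779) (nat_lit 488) (nat_lit 5) (nat_lit 488) (nat_lit 3) (nat_lit 511) (nat_lit 3) (nat_lit 607) (nat_lit 607) (nat_lit 346)) (XT.lf (nat_lit 0) (nat_lit 21927235068) (nat_lit 1748) (nat_lit 765940977) (nat_lit 1824) (nat_lit 369262810)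 (nat_lit 488) (nat_lit 5) (nat_lit 511) (nat_lit 3) (nat_lit 512) (nat_lit 5) (nat_lit 608) (nat_lit 607) (nat_lit 345))))) (XT.nd (nat_lit 156) (nat_lit 1748) (nat_lit 0) (XT.nd (nat_lit 78) (nat_lit 0) (nat_lit 0) (XT.lf (nat_lit 76) (nat_lit 10807455744) (nat_lit 0) (nat_lit 11609347629) (nat_lit 1824) (nat_lit 873169172) (nat_lit 489) (nat_lit 5) (nat_lit 488) (nat_lit 5) (nat_lit 512) (nat_lit 5) (nat_lit 609) (nat_lit 607) (nat_lit 344)) (XT.lf (nat_lit 76) (nat_lit 22620983514) (nat_lit 0) (nat_lit 297076380) (nat_lit 1824) (nat_lit 603959382) (nat_lit 489) (nat_lit 5) (nat_lit 488) (nat_lit 5) (nat_lit 512) (nat_lit 5) (nat_lit 610) (nat_lit 607) (nat_lit 343))) (XT.nd (nat_lit 78) (nat_lit 1824) (nat_lit 0) (XT.lf (nat_lit 76) (nat_lit 10981351118) (nat_lit 0) (nat_lit 12589105799) (nat_lit 1824) (nat_lit 185428015) (nat_lit 490) (nat_lit 5) (nat_lit 489) (nat_lit 5) (nat_lit 513) (nat_lit 5) (nat_lit 611) (nat_lit 607) (nat_lit 342)) (XT.nd (nat_lit 78) (nat_lit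 0) (nat_lit 76) (XT.lf (nat_lit 0) (nat_lit 243220994) (nat_lit 1824) (nat_lit 886072431) (nat_lit 1900) (nat_lit 22865005125) (nat_lit 465) (nat_lit 5) (nat_lit 489) (nat_lit 5) (nat_lit 490) (nat_lit 5) (nat_lit 612) (nat_lit 607) (nat_lit 341)) (XT.lf (nat_lit 0) (nat_lit 817879904) (nat_lit 1824) (nat_lit 12918594455) (nat_lit 1900) (nat_lit 10498183453) (nat_lit 466) (nat_lit 5) (nat_lit 490) (nat_lit 5) (nat_lit 491) (nat_lit 5) (nat_lit 613) (nat_lit 607) (nat_lit 340)))))) (XT.nd (nat_lit 390) (nat_lit 0) (nat_lit 228) (XT.nd (nat_lit 156) (nat_lit 0) (nat_lit 76) (XT.nd (nat_lit 78) (nat_lit 0) (nat_lit 76) (XT.lf (nat_lit 0) (nat_lit 1414475234) (nat_lit 1824) (nat_lit 714782975) (nat_lit 1900) (nat_lit 22350357460) (nat_lit 466) (nat_lit 5) (nat_lit 490) (nat_lit 5) (nat_lit 491) (nat_lit 5) (nat_lit 614) (nat_lit 607) (nat_lit 339)) (XT.lf (nat_lit 0) (nat_lit 2160783825) (nat_lit 1824) (nat_lit 12904320691) (nat_lit 1900) (nat_lit 9661612810) (nat_lit 467) (nat_lit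 5) (nat_lit 491) (nat_lit 5) (nat_lit 492) (nat_lit 5) (nat_lit 615) (nat_lit 607) (nat_lit 338))) (XT.nd (nat_lit 78) (nat_lit 0) (nat_lit 76) (XT.lf (nat_lit 0) (nat_lit 2938040371) (nat_lit 1824) (nat_lit 374620096) (nat_lit 1900) (nat_lit 21665780377) (nat_lit 467) (nat_lit 5) (nat_lit 491) (nat_lit 5) (nat_lit 492) (nat_lit 5) (nat_lit 616) (nat_lit 607) (nat_lit 337)) (XT.nd (nat_lit 78) (nat_lit 0) (nat_lit 0) (XT.lf (nat_lit 0) (nat_lit 3866465976) (nat_lit 1824) (nat_lit 12721773727) (nat_lit 1900) (nat_lit 8644246910) (nat_lit 468) (nat_lit 5) (nat_lit 492) (nat_lit 5) (nat_lit 493) (nat_lit 5) (nat_lit 617) (nat_lit 607) (nat_lit 336)) (XT.lf (nat_lit 76) (nat_lit 145372963) (nat_lit 0) (nat_lit 4690700050) (nat_lit 1900) (nat_lit 20655088280) (nat_lit 469) (nat_lit 5) (nat_lit 468) (nat_lit 5) (nat_lit 493) (nat_lit 5) (nat_lit 618) (nat_lit 607) (nat_lit 335))))) (XT.nd (nat_lit 234) (nat_lit 0) (nat_lit 76) (XT.nd (nat_lit 78) (nat_lit 0) (nat_lit 0) (XT.lf (nat_lit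 0) (nat_lit 5956593213) (nat_lit 1824) (nat_lit 12361790011) (nat_lit 1900) (nat_lit 7433996072) (nat_lit 469) (nat_lit 5) (nat_lit 493) (nat_lit 5) (nat_lit 494) (nat_lit 5) (nat_lit 619) (nat_lit 607) (nat_lit 334)) (XT.nd (nat_lit 78) (nat_lit 0) (nat_lit 76) (XT.lf (nat_lit 76) (nat_lit 860247873) (nat_lit 0) (nat_lit 6273228758) (nat_lit 1900) (nat_lit 18884666214) (nat_lit 470) (nat_lit 5) (nat_lit 469) (nat_lit 5) (nat_lit 494) (nat_lit 5) (nat_lit 620) (nat_lit 607) (nat_lit 333)) (XT.lf (nat_lit 0) (nat_lit 8453789898) (nat_lit 1824) (nat_lit 11814762244) (nat_lit 1900) (nat_lit 6018271921) (nat_lit 470) (nat_lit 5) (nat_lit 494) (nat_lit 5) (nat_lit 495) (nat_lit 5) (nat_lit 621) (nat_lit 607) (nat_lit 332)))) (XT.nd (nat_lit 78) (nat_lit 0) (nat_lit 76) (XT.lf (nat_lit 76) (nat_lit 1775101853) (nat_lit 0) (nat_lit 8075878670) (nat_lit 1900) (nat_lit 16708889192) (nat_lit 471) (nat_lit 5) (nat_lit 470) (nat_lit 5) (nat_lit 495) (nat_lit 5) (nat_lit 622) (nat_lit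 607) (nat_lit 331)) (XT.nd (nat_lit 78) (nat_lit 0) (nat_lit 0) (XT.lf (nat_lit 0) (nat_lit 11381680389) (nat_lit 1824) (nat_lit 11070623664) (nat_lit 1900) (nat_lit 4383961151) (nat_lit 471) (nat_lit 5) (nat_lit 495) (nat_lit 5) (nat_lit 496) (nat_lit 5) (nat_lit 623) (nat_lit 607) (nat_lit 330)) (XT.lf (nat_lit 76) (nat_lit 2900487452) (nat_lit 0) (nat_lit 10112316306) (nat_lit 1900) (nat_lit 14103988880) (nat_lit 472) (nat_lit 5) (nat_lit 471) (nat_lit 5) (nat_lit 496) (nat_lit 5) (nat_lit 624) (nat_lit 607) (nat_lit 329))))))))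
noncomputable def xc238 : XT := (XT.nd (nat_lit 1560) (nat_lit 3876) (nat_lit 0) (XT.nd (nat_lit 780) (nat_lit 4408) (nat_lit 0) (XT.nd (nat_lit 390) (nat_lit 2736) (nat_lit 0) (XT.nd (nat_lit 156) (nat_lit 0) (nat_lit 76) (XT.nd (nat_lit 78) (nat_lit 0) (nat_lit 0) (XT.lf (nat_lit 0) (nat_lit 14764933148) (nat_lit 1824) (nat_lit 10118831644) (nat_lit 1900) (nat_lit 2517398378) (nat_lit 472) (nat_lit 5) (nat_lit 496) (nat_lit 5) (nat_lit 497) (nat_lit 5) (nat_lit 625) (nat_lit 607) (nat_lit 328)) (XT.lf (nat_lit 76) (nat_lit 4247451086) (nat_lit 0) (nat_lit 12396784554) (nat_lit 1900) (nat_lit 11045143080) (nat_lit 473) (nat_lit 5) (nat_lit 472) (nat_lit 5) (nat_lit 497) (nat_lit 5) (nat_lit 626) (nat_lit 607) (nat_lit 327))) (XT.nd (nat_lit 78) (nat_lit 0) (nat_lit 0) (XT.lf (nat_lit 0) (nat_lit 18629306509) (nat_lit 1824) (nat_lit 8948350604) (nat_lit 1900) (nat_lit 404338033) (nat_lit 473) (nat_lit 5) (nat_lit 497) (nat_lit 5) (nat_lit 498) (nat_lit 5) (nat_lit 627) (nat_lit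 607) (nat_lit 326)) (XT.nd (nat_lit 78) (nat_lit 0) (nat_lit 0) (XT.lf (nat_lit 76) (nat_lit 5827550802) (nat_lit 0) (nat_lit 14944131707) (nat_lit 1900) (nat_lit 7506429525) (nat_lit 474) (nat_lit 5) (nat_lit 473) (nat_lit 5) (nat_lit 498) (nat_lit 5) (nat_lit 628) (nat_lit 607) (nat_lit 325)) (XT.lf (nat_lit 76) (nat_lit 21018401214) (nat_lit 0) (nat_lit 1996256016) (nat_lit 1900) (nat_lit 5564339211) (nat_lit 474) (nat_lit 5) (nat_lit 473) (nat_lit 5) (nat_lit 498) (nat_lit 5) (nat_lit 629) (nat_lit 607) (nat_lit 324))))) (XT.nd (nat_lit 156) (nat_lit 2888) (nat_lit 0) (XT.nd (nat_lit 78) (nat_lit 0) (nat_lit 0) (XT.lf (nat_lit 76) (nat_lit 7652874766) (nat_lit 0) (nat_lit 17769841559) (nat_lit 1900) (nat_lit 3460777913) (nat_lit 475) (nat_lit 5) (nat_lit 474) (nat_lit 5) (nat_lit 499) (nat_lit 5) (nat_lit 630) (nat_lit 607) (nat_lit 323)) (XT.lf (nat_lit 76) (nat_lit 23257838787) (nat_lit 0) (nat_lit 4682749480) (nat_lit 1900) (nat_lit 1252260888) (nat_lit 475) (nat_lit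 5) (nat_lit 474) (nat_lit 5) (nat_lit 499) (nat_lit 5) (nat_lit 631) (nat_lit 607) (nat_lit 322))) (XT.nd (nat_lit 78) (nat_lit 1064) (nat_lit 0) (XT.lf (nat_lit 0) (nat_lit 1105389857) (nat_lit 1900) (nat_lit 19777257019) (nat_lit 76) (nat_lit 8623252892) (nat_lit 450) (nat_lit 5) (nat_lit 475) (nat_lit 5) (nat_lit 451) (nat_lit 5) (nat_lit 632) (nat_lit 607) (nat_lit 321)) (XT.nd (nat_lit 78) (nat_lit 1064) (nat_lit 0) (XT.lf (nat_lit 0) (nat_lit 3562388566) (nat_lit 1900) (nat_lit 4079854883) (nat_lit 76) (nat_lit 22181423325) (nat_lit 450) (nat_lit 5) (nat_lit 475) (nat_lit 5) (nat_lit 451) (nat_lit 5) (nat_lit 633) (nat_lit 607) (nat_lit 320)) (XT.lf (nat_lit 0) (nat_lit 6183486380) (nat_lit 1140) (nat_lit 18096669698) (nat_lit 76) (nat_lit 5865334040) (nat_lit 436) (nat_lit 5) (nat_lit 451) (nat_lit 5) (nat_lit 437) (nat_lit 5) (nat_lit 634) (nat_lit 607) (nat_lit 319)))))) (XT.nd (nat_lit 390) (nat_lit 1748) (nat_lit 0) (XT.nd (nat_lit 156) (nat_lit 1748) (nat_lit 0)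 (XT.nd (nat_lit 78) (nat_lit 912) (nat_lit 0) (XT.lf (nat_lit 0) (nat_lit 8933094287) (nat_lit 1140) (nat_lit 1970507099) (nat_lit 76) (nat_lit 19568626959) (nat_lit 436) (nat_lit 5) (nat_lit 451) (nat_lit 5) (nat_lit 437) (nat_lit 5) (nat_lit 635) (nat_lit 607) (nat_lit 318)) (XT.lf (nat_lit 0) (nat_lit 11849317178) (nat_lit 988) (nat_lit 16153349313) (nat_lit 76) (nat_lit 2800602563) (nat_lit 424) (nat_lit 5) (nat_lit 437) (nat_lit 5) (nat_lit 425) (nat_lit 5) (nat_lit 636) (nat_lit 607) (nat_lit 317))) (XT.nd (nat_lit 78) (nat_lit 836) (nat_lit 0) (XT.lf (nat_lit 0) (nat_lit 420135319) (nat_lit 912) (nat_lit 14489965040) (nat_lit 988) (nat_lit 16229105672) (nat_lit 412) (nat_lit 5) (nat_lit 424) (nat_lit 5) (nat_lit 425) (nat_lit 5) (nat_lit 637) (nat_lit 607) (nat_lit 316)) (XT.nd (nat_lit 78) (nat_lit 836) (nat_lit 0) (XT.lf (nat_lit 0) (nat_lit 17542187171) (nat_lit 912) (nat_lit 596324891) (nat_lit 988) (nat_lit 13341221597) (nat_lit 412) (nat_lit 5) (nat_lit 424) (nat_lit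 5) (nat_lit 425) (nat_lit 5) (nat_lit 638) (nat_lit 607) (nat_lit 315)) (XT.lf (nat_lit 0) (nat_lit 3130659624) (nat_lit 836) (nat_lit 18407352874) (nat_lit 912) (nat_lit 10286929094) (nat_lit 401) (nat_lit 5) (nat_lit 412) (nat_lit 5) (nat_lit 413) (nat_lit 5) (nat_lit 639) (nat_lit 607) (nat_lit 314))))) (XT.nd (nat_lit 156) (nat_lit 912) (nat_lit 0) (XT.nd (nat_lit 78) (nat_lit 836) (nat_lit 0) (XT.lf (nat_lit 0) (nat_lit 20723298975) (nat_lit 836) (nat_lit 4377736571) (nat_lit 912) (nat_lit 7074107648) (nat_lit 401) (nat_lit 5) (nat_lit 412) (nat_lit 5) (nat_lit 413) (nat_lit 5) (nat_lit 640) (nat_lit 607) (nat_lit 313)) (XT.lf (nat_lit 0) (nat_lit 6149751055) (nat_lit 836) (nat_lit 22688103622) (nat_lit 912) (nat_lit 3692443596) (nat_lit 390) (nat_lit 5) (nat_lit 401) (nat_lit 5) (nat_lit 402) (nat_lit 5) (nat_lit 641) (nat_lit 607) (nat_lit 312))) (XT.nd (nat_lit 78) (nat_lit 912) (nat_lit 0) (XT.lf (nat_lit 0) (nat_lit 24227388183) (nat_lit 836) (nat_lit 8525814864)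 (nat_lit 912) (nat_lit 137277705) (nat_lit 390) (nat_lit 5) (nat_lit 401) (nat_lit 5) (nat_lit 402) (nat_lit 5) (nat_lit 642) (nat_lit 607) (nat_lit 311)) (XT.nd (nat_lit 78) (nat_lit 0) (nat_lit 0) (XT.lf (nat_lit 0) (nat_lit 3542132930) (nat_lit 912) (nat_lit 23786273925) (nat_lit 76) (nat_lit 5927029113) (nat_lit 378) (nat_lit 5) (nat_lit 390) (nat_lit 5) (nat_lit 379) (nat_lit 5) (nat_lit 643) (nat_lit 607) (nat_lit 310)) (XT.lf (nat_lit 0) (nat_lit 7406468841) (nat_lit 912) (nat_lit 5604650163) (nat_lit 76) (nat_lit 20614289778) (nat_lit 378) (nat_lit 5) (nat_lit 390) (nat_lit 5) (nat_lit 379) (nat_lit 5) (nat_lit 644) (nat_lit 607) (nat_lit 309))))))) (XT.nd (nat_lit 78468) (nat_lit 0) (nat_lit 10488) (XT.nd (nat_lit 390) (nat_lit 1520) (nat_lit 0) (XT.nd (nat_lit 156) (nat_lit 1520) (nat_lit 0) (XT.nd (nat_lit 78) (nat_lit 0) (nat_lit 0) (XT.lf (nat_lit 0) (nat_lit 11442345809) (nat_lit 912) (nat_lit 20901283434) (nat_lit 76) (nat_lit 1657266866) (nat_lit 367) (nat_lit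 5) (nat_lit 379) (nat_lit 5) (nat_lit 368) (nat_lit 5) (nat_lit 645) (nat_lit 607) (nat_lit 308)) (XT.lf (nat_lit 0) (nat_lit 15681216187) (nat_lit 912) (nat_lit 2217467768) (nat_lit 76) (nat_lit 16482763850) (nat_lit 367) (nat_lit 5) (nat_lit 379) (nat_lit 5) (nat_lit 368) (nat_lit 5) (nat_lit 646) (nat_lit 607) (nat_lit 307))) (XT.nd (nat_lit 78) (nat_lit 760) (nat_lit 0) (XT.lf (nat_lit 0) (nat_lit 17061986761) (nat_lit 760) (nat_lit 3051939547) (nat_lit 836) (nat_lit 14653503119) (nat_lit 357) (nat_lit 5) (nat_lit 367) (nat_lit 5) (nat_lit 368) (nat_lit 5) (nat_lit 647) (nat_lit 607) (nat_lit 306)) (XT.nd (nat_lit 78) (nat_lit 0) (nat_lit 0) (XT.lf (nat_lit 0) (nat_lit 1535964063) (nat_lit 760) (nat_lit 23201091484) (nat_lit 836) (nat_lit 10422039969) (nat_lit 347) (nat_lit 5) (nat_lit 357) (nat_lit 5) (nat_lit 358) (nat_lit 5) (nat_lit 648) (nat_lit 607) (nat_lit 305)) (XT.lf (nat_lit 0) (nat_lit 21379902870) (nat_lit 760) (nat_lit 8209963207) (nat_lit 836) (nat_lit 5965984609)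 (nat_lit 347) (nat_lit 5) (nat_lit 357) (nat_lit 5) (nat_lit 358) (nat_lit 5) (nat_lit 649) (nat_lit 607) (nat_lit 304))))) (XT.nd (nat_lit 156) (nat_lit 760) (nat_lit 0) (XT.nd (nat_lit 78) (nat_lit 76) (nat_lit 0) (XT.lf (nat_lit 0) (nat_lit 5686976516) (nat_lit 684) (nat_lit 28934013584) (nat_lit 760) (nat_lit 1337925843) (nat_lit 338) (nat_lit 5) (nat_lit 347) (nat_lit 5) (nat_lit 348) (nat_lit 5) (nat_lit 650) (nat_lit 607) (nat_lit 303)) (XT.lf (nat_lit 0) (nat_lit 3486826937) (nat_lit 760) (nat_lit 10307609299) (nat_lit 76) (nat_lit 22572197189) (nat_lit 337) (nat_lit 5) (nat_lit 347) (nat_lit 5) (nat_lit 338) (nat_lit 5) (nat_lit 651) (nat_lit 607) (nat_lit 302))) (XT.nd (nat_lit 77766) (nat_lit 0) (nat_lit 12236) (XT.lf (nat_lit 0) (nat_lit 8465859959) (nat_lit 836) (nat_lit 26613376793) (nat_lit 76) (nat_lit 1701577754) (nat_lit 327) (nat_lit 5) (nat_lit 338) (nat_lit 5) (nat_lit 328) (nat_lit 5) (nat_lit 652) (nat_lit 607) (nat_lit 301)) (XT.nd (nat_lit 78) (nat_lit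 0) (nat_lit 0) (XT.lf (nat_lit 0) (nat_lit 5566270338) (nat_lit 0) (nat_lit 5566270338) (nat_lit 1748) (nat_lit 511636024) (nat_lit 488) (nat_lit 5) (nat_lit 488) (nat_lit 3) (nat_lit 511) (nat_lit 3) (nat_lit 608) (nat_lit 608) (nat_lit 344)) (XT.lf (nat_lit 0) (nat_lit 22610600722) (nat_lit 1748) (nat_lit 652717925) (nat_lit 1824) (nat_lit 255449574) (nat_lit 488) (nat_lit 5) (nat_lit 511) (nat_lit 3) (nat_lit 512) (nat_lit 5) (nat_lit 609) (nat_lit 608) (nat_lit 343)))))) (XT.nd (nat_lit 390) (nat_lit 0) (nat_lit 76) (XT.nd (nat_lit 156) (nat_lit 1748) (nat_lit 0) (XT.nd (nat_lit 78) (nat_lit 0) (nat_lit 0) (XT.lf (nat_lit 76) (nat_lit 11151301059) (nat_lit 0) (nat_lit 11954688011) (nat_lit 1824) (nat_lit 644943393) (nat_lit 489) (nat_lit 5) (nat_lit 488) (nat_lit 5) (nat_lit 512) (nat_lit 5) (nat_lit 610) (nat_lit 608) (nat_lit 342)) (XT.lf (nat_lit 76) (nat_lit 23198595538) (nat_lit 0) (nat_lit 413952642) (nat_lit 1824) (nat_lit 375166841) (nat_lit 489) (nat_lit 5) (nat_lit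 488) (nat_lit 5) (nat_lit 512) (nat_lit 5) (nat_lit 611) (nat_lit 608) (nat_lit 341))) (XT.nd (nat_lit 78) (nat_lit 0) (nat_lit 0) (XT.lf (nat_lit 0) (nat_lit 46533102) (nat_lit 1824) (nat_lit 12895878622) (nat_lit 1900) (nat_lit 11283930444) (nat_lit 465) (nat_lit 5) (nat_lit 489) (nat_lit 5) (nat_lit 490) (nat_lit 5) (nat_lit 612) (nat_lit 608) (nat_lit 340)) (XT.nd (nat_lit 78) (nat_lit 0) (nat_lit 76) (XT.lf (nat_lit 0) (nat_lit 476702196) (nat_lit 1824) (nat_lit 773482244) (nat_lit 1900) (nat_lit 23219406922) (nat_lit 465) (nat_lit 5) (nat_lit 489) (nat_lit 5) (nat_lit 490) (nat_lit 5) (nat_lit 613) (nat_lit 608) (nat_lit 339)) (XT.lf (nat_lit 0) (nat_lit 1058591924) (nat_lit 1824) (nat_lit 13042371934) (nat_lit 1900) (nat_lit 10613879607) (nat_lit 466) (nat_lit 5) (nat_lit 490) (nat_lit 5) (nat_lit 491) (nat_lit 5) (nat_lit 614) (nat_lit 608) (nat_lit 338))))) (XT.nd (nat_lit 234) (nat_lit 0) (nat_lit 152) (XT.nd (nat_lit 78) (nat_lit 0) (nat_lit 76) (XT.lf (nat_lit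 0) (nat_lit 1662720055) (nat_lit 1824) (nat_lit 597123331) (nat_lit 1900) (nat_lit 22704945476) (nat_lit 466) (nat_lit 5) (nat_lit 490) (nat_lit 5) (nat_lit 491) (nat_lit 5) (nat_lit 615) (nat_lit 608) (nat_lit 337)) (XT.nd (nat_lit 78) (nat_lit 0) (nat_lit 0) (XT.lf (nat_lit 0) (nat_lit 2419938558) (nat_lit 1824) (nat_lit 13026415919) (nat_lit 1900) (nat_lit 9770558792) (nat_lit 467) (nat_lit 5) (nat_lit 491) (nat_lit 5) (nat_lit 492) (nat_lit 5) (nat_lit 616) (nat_lit 608) (nat_lit 336)) (XT.lf (nat_lit 0) (nat_lit 3208506136) (nat_lit 1824) (nat_lit 248787807) (nat_lit 1900) (nat_lit 22016462381) (nat_lit 467) (nat_lit 5) (nat_lit 491) (nat_lit 5) (nat_lit 492) (nat_lit 5) (nat_lit 617) (nat_lit 608) (nat_lit 335)))) (XT.nd (nat_lit 78) (nat_lit 0) (nat_lit 0) (XT.lf (nat_lit 0) (nat_lit 4151715889) (nat_lit 1824) (nat_lit 12839081287) (nat_lit 1900) (nat_lit 8742161897) (nat_lit 468) (nat_lit 5) (nat_lit 492) (nat_lit 5) (nat_lit 493) (nat_lit 5) (nat_lit 618) (nat_lit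 608) (nat_lit 334)) (XT.nd (nat_lit 78) (nat_lit 0) (nat_lit 76) (XT.lf (nat_lit 76) (nat_lit 284506179) (nat_lit 0) (nat_lit 4853016481) (nat_lit 1900) (nat_lit 20859348804) (nat_lit 469) (nat_lit 5) (nat_lit 468) (nat_lit 5) (nat_lit 493) (nat_lit 5) (nat_lit 619) (nat_lit 608) (nat_lit 333)) (XT.lf (nat_lit 0) (nat_lit 6276002944) (nat_lit 1824) (nat_lit 12471002699) (nat_lit 1900) (nat_lit 7516397554) (nat_lit 469) (nat_lit 5) (nat_lit 493) (nat_lit 5) (nat_lit 494) (nat_lit 5) (nat_lit 620) (nat_lit 608) (nat_lit 332))))))))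
noncomputable def xc239 : XT := (XT.nd (nat_lit 1560) (nat_lit 4788) (nat_lit 0) (XT.nd (nat_lit 780) (nat_lit 5168) (nat_lit 0) (XT.nd (nat_lit 390) (nat_lit 0) (nat_lit 228) (XT.nd (nat_lit 156) (nat_lit 0) (nat_lit 76) (XT.nd (nat_lit 78) (nat_lit 0) (nat_lit 76) (XT.lf (nat_lit 76) (nat_lit 1014567896) (nat_lit 0) (nat_lit 6458819359) (nat_lit 1900) (nat_lit 19061155852) (nat_lit 470) (nat_lit 5) (nat_lit 469) (nat_lit 5) (nat_lit 494) (nat_lit 5) (nat_lit 621) (nat_lit 608) (nat_lit 331)) (XT.lf (nat_lit 0) (nat_lit 8815856591) (nat_lit 1824) (nat_lit 11912363334) (nat_lit 1900) (nat_lit 6080463376) (nat_lit 470) (nat_lit 5) (nat_lit 494) (nat_lit 5) (nat_lit 495) (nat_lit 5) (nat_lit 622) (nat_lit 608) (nat_lit 330))) (XT.nd (nat_lit 78) (nat_lit 0) (nat_lit 76) (XT.lf (nat_lit 76) (nat_lit 1948385584) (nat_lit 0) (nat_lit 8289715881) (nat_lit 1900) (nat_lit 16849146537) (nat_lit 471) (nat_lit 5) (nat_lit 470) (nat_lit 5) (nat_lit 495) (nat_lit 5) (nat_lit 623) (nat_lit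 608) (nat_lit 329)) (XT.nd (nat_lit 78) (nat_lit 0) (nat_lit 0) (XT.lf (nat_lit 0) (nat_lit 11795354818) (nat_lit 1824) (nat_lit 11152878788) (nat_lit 1900) (nat_lit 4421019339) (nat_lit 471) (nat_lit 5) (nat_lit 495) (nat_lit 5) (nat_lit 496) (nat_lit 5) (nat_lit 624) (nat_lit 608) (nat_lit 328)) (XT.lf (nat_lit 76) (nat_lit 3096739041) (nat_lit 0) (nat_lit 10359611311) (nat_lit 1900) (nat_lit 14199095909) (nat_lit 472) (nat_lit 5) (nat_lit 471) (nat_lit 5) (nat_lit 496) (nat_lit 5) (nat_lit 625) (nat_lit 608) (nat_lit 327))))) (XT.nd (nat_lit 156) (nat_lit 0) (nat_lit 76) (XT.nd (nat_lit 78) (nat_lit 0) (nat_lit 0) (XT.lf (nat_lit 0) (nat_lit 15239641647) (nat_lit 1824) (nat_lit 10181780282) (nat_lit 1900) (nat_lit 2524160211) (nat_lit 472) (nat_lit 5) (nat_lit 496) (nat_lit 5) (nat_lit 497) (nat_lit 5) (nat_lit 626) (nat_lit 608) (nat_lit 326)) (XT.lf (nat_lit 76) (nat_lit 4470910813) (nat_lit 0) (nat_lit 12683000839) (nat_lit 1900) (nat_lit 11085703034) (nat_lit 473) (nat_lit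 5) (nat_lit 472) (nat_lit 5) (nat_lit 497) (nat_lit 5) (nat_lit 627) (nat_lit 608) (nat_lit 325))) (XT.nd (nat_lit 78) (nat_lit 0) (nat_lit 0) (XT.lf (nat_lit 0) (nat_lit 19174973773) (nat_lit 1824) (nat_lit 8987797169) (nat_lit 1900) (nat_lit 375387012) (nat_lit 473) (nat_lit 5) (nat_lit 497) (nat_lit 5) (nat_lit 498) (nat_lit 5) (nat_lit 628) (nat_lit 608) (nat_lit 324)) (XT.nd (nat_lit 78) (nat_lit 0) (nat_lit 0) (XT.lf (nat_lit 76) (nat_lit 6082704368) (nat_lit 0) (nat_lit 15274999078) (nat_lit 1900) (nat_lit 7482543916) (nat_lit 474) (nat_lit 5) (nat_lit 473) (nat_lit 5) (nat_lit 498) (nat_lit 5) (nat_lit 629) (nat_lit 608) (nat_lit 323)) (XT.lf (nat_lit 76) (nat_lit 21574654091) (nat_lit 0) (nat_lit 2067538721) (nat_lit 1900) (nat_lit 5505023838) (nat_lit 474) (nat_lit 5) (nat_lit 473) (nat_lit 5) (nat_lit 498) (nat_lit 5) (nat_lit 630) (nat_lit 608) (nat_lit 322)))))) (XT.nd (nat_lit 390) (nat_lit 2660) (nat_lit 0) (XT.nd (nat_lit 156) (nat_lit 2888) (nat_lit 0) (XT.nd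 (nat_lit 78) (nat_lit 0) (nat_lit 0) (XT.lf (nat_lit 76) (nat_lit 7944463006) (nat_lit 0) (nat_lit 18151370651) (nat_lit 1900) (nat_lit 3362022627) (nat_lit 475) (nat_lit 5) (nat_lit 474) (nat_lit 5) (nat_lit 499) (nat_lit 5) (nat_lit 631) (nat_lit 608) (nat_lit 321)) (XT.lf (nat_lit 76) (nat_lit 23858810018) (nat_lit 0) (nat_lit 4802024334) (nat_lit 1900) (nat_lit 1112628807) (nat_lit 475) (nat_lit 5) (nat_lit 474) (nat_lit 5) (nat_lit 499) (nat_lit 5) (nat_lit 632) (nat_lit 608) (nat_lit 320))) (XT.nd (nat_lit 78) (nat_lit 1064) (nat_lit 0) (XT.lf (nat_lit 0) (nat_lit 1287568335) (nat_lit 1900) (nat_lit 20032353335) (nat_lit 76) (nat_lit 8772880940) (nat_lit 450) (nat_lit 5) (nat_lit 475) (nat_lit 5) (nat_lit 451) (nat_lit 5) (nat_lit 633) (nat_lit 608) (nat_lit 319)) (XT.nd (nat_lit 78) (nat_lit 1064) (nat_lit 0) (XT.lf (nat_lit 0) (nat_lit 3790568378) (nat_lit 1900) (nat_lit 4023757055) (nat_lit 76) (nat_lit 22602662566) (nat_lit 450) (nat_lit 5) (nat_lit 475) (nat_lit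 5) (nat_lit 451) (nat_lit 5) (nat_lit 634) (nat_lit 608) (nat_lit 318)) (XT.lf (nat_lit 0) (nat_lit 6461782605) (nat_lit 1140) (nat_lit 18318589418) (nat_lit 76) (nat_lit 5964922162) (nat_lit 436) (nat_lit 5) (nat_lit 451) (nat_lit 5) (nat_lit 437) (nat_lit 5) (nat_lit 635) (nat_lit 608) (nat_lit 317))))) (XT.nd (nat_lit 156) (nat_lit 1748) (nat_lit 0) (XT.nd (nat_lit 78) (nat_lit 912) (nat_lit 0) (XT.lf (nat_lit 0) (nat_lit 9263350778) (nat_lit 1140) (nat_lit 1872648933) (nat_lit 76) (nat_lit 19942628362) (nat_lit 436) (nat_lit 5) (nat_lit 451) (nat_lit 5) (nat_lit 437) (nat_lit 5) (nat_lit 636) (nat_lit 608) (nat_lit 316)) (XT.lf (nat_lit 0) (nat_lit 12235725729) (nat_lit 988) (nat_lit 16336962900) (nat_lit 76) (nat_lit 2843644669) (nat_lit 424) (nat_lit 5) (nat_lit 437) (nat_lit 5) (nat_lit 425) (nat_lit 5) (nat_lit 637) (nat_lit 608) (nat_lit 315))) (XT.nd (nat_lit 78) (nat_lit 836) (nat_lit 0) (XT.lf (nat_lit 0) (nat_lit 567073967) (nat_lit 912) (nat_lit 14788620226)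 (nat_lit 988) (nat_lit 16403335678) (nat_lit 412) (nat_lit 5) (nat_lit 424) (nat_lit 5) (nat_lit 425) (nat_lit 5) (nat_lit 638) (nat_lit 608) (nat_lit 314)) (XT.nd (nat_lit 78) (nat_lit 836) (nat_lit 0) (XT.lf (nat_lit 0) (nat_lit 18028850465) (nat_lit 912) (nat_lit 616933629) (nat_lit 988) (nat_lit 13460642002) (nat_lit 412) (nat_lit 5) (nat_lit 424) (nat_lit 5) (nat_lit 425) (nat_lit 5) (nat_lit 639) (nat_lit 608) (nat_lit 313)) (XT.lf (nat_lit 0) (nat_lit 3331137960) (nat_lit 836) (nat_lit 18780143058) (nat_lit 912) (nat_lit 10347297280) (nat_lit 401) (nat_lit 5) (nat_lit 412) (nat_lit 5) (nat_lit 413) (nat_lit 5) (nat_lit 640) (nat_lit 608) (nat_lit 312))))))) (XT.nd (nat_lit 780) (nat_lit 684) (nat_lit 0) (XT.nd (nat_lit 390) (nat_lit 2356) (nat_lit 0) (XT.nd (nat_lit 156) (nat_lit 912) (nat_lit 0) (XT.nd (nat_lit 78) (nat_lit 836) (nat_lit 0) (XT.lf (nat_lit 0) (nat_lit 21272926860) (nat_lit 836) (nat_lit 4469843388) (nat_lit 912) (nat_lit 7073069805) (nat_lit 401) (nat_lit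 5) (nat_lit 412) (nat_lit 5) (nat_lit 413) (nat_lit 5) (nat_lit 641) (nat_lit 608) (nat_lit 311)) (XT.lf (nat_lit 0) (nat_lit 6409835664) (nat_lit 836) (nat_lit 23142611708) (nat_lit 912) (nat_lit 3625688660) (nat_lit 390) (nat_lit 5) (nat_lit 401) (nat_lit 5) (nat_lit 402) (nat_lit 5) (nat_lit 642) (nat_lit 608) (nat_lit 310))) (XT.nd (nat_lit 78) (nat_lit 912) (nat_lit 0) (XT.lf (nat_lit 0) (nat_lit 24846337503) (nat_lit 836) (nat_lit 8697062547) (nat_lit 912) (nat_lit 2176388) (nat_lit 390) (nat_lit 5) (nat_lit 401) (nat_lit 5) (nat_lit 402) (nat_lit 5) (nat_lit 643) (nat_lit 608) (nat_lit 309)) (XT.nd (nat_lit 78) (nat_lit 0) (nat_lit 0) (XT.lf (nat_lit 0) (nat_lit 3747232731) (nat_lit 912) (nat_lit 24123986237) (nat_lit 76) (nat_lit 6046629744) (nat_lit 378) (nat_lit 5) (nat_lit 390) (nat_lit 5) (nat_lit 379) (nat_lit 5) (nat_lit 644) (nat_lit 608) (nat_lit 308)) (XT.lf (nat_lit 0) (nat_lit 7686222868) (nat_lit 912) (nat_lit 5581436140) (nat_lit 76) (nat_lit 21027614837)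 (nat_lit 378) (nat_lit 5) (nat_lit 390) (nat_lit 5) (nat_lit 379) (nat_lit 5) (nat_lit 645) (nat_lit 608) (nat_lit 307))))) (XT.nd (nat_lit 156) (nat_lit 1520) (nat_lit 0) (XT.nd (nat_lit 78) (nat_lit 0) (nat_lit 0) (XT.lf (nat_lit 0) (nat_lit 11801138442) (nat_lit 912) (nat_lit 21182312732) (nat_lit 76) (nat_lit 1694853531) (nat_lit 367) (nat_lit 5) (nat_lit 379) (nat_lit 5) (nat_lit 368) (nat_lit 5) (nat_lit 646) (nat_lit 608) (nat_lit 306)) (XT.lf (nat_lit 0) (nat_lit 16122238272) (nat_lit 912) (nat_lit 2127506956) (nat_lit 76) (nat_lit 16816773371) (nat_lit 367) (nat_lit 5) (nat_lit 379) (nat_lit 5) (nat_lit 368) (nat_lit 5) (nat_lit 647) (nat_lit 608) (nat_lit 305))) (XT.nd (nat_lit 78) (nat_lit 760) (nat_lit 0) (XT.lf (nat_lit 0) (nat_lit 17536653045) (nat_lit 760) (nat_lit 3105317849) (nat_lit 836) (nat_lit 14818281792) (nat_lit 357) (nat_lit 5) (nat_lit 367) (nat_lit 5) (nat_lit 368) (nat_lit 5) (nat_lit 648) (nat_lit 608) (nat_lit 304)) (XT.nd (nat_lit 78) (nat_lit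 0) (nat_lit 0) (XT.lf (nat_lit 0) (nat_lit 1701691391) (nat_lit 760) (nat_lit 23654330649) (nat_lit 836) (nat_lit 10503761067) (nat_lit 347) (nat_lit 5) (nat_lit 357) (nat_lit 5) (nat_lit 358) (nat_lit 5) (nat_lit 649) (nat_lit 608) (nat_lit 303)) (XT.lf (nat_lit 0) (nat_lit 21939861758) (nat_lit 760) (nat_lit 8363591230) (nat_lit 836) (nat_lit 5961069300) (nat_lit 347) (nat_lit 5) (nat_lit 357) (nat_lit 5) (nat_lit 358) (nat_lit 5) (nat_lit 650) (nat_lit 608) (nat_lit 302)))))) (XT.nd (nat_lit 78234) (nat_lit 0) (nat_lit 9652) (XT.nd (nat_lit 78000) (nat_lit 0) (nat_lit 11400) (XT.nd (nat_lit 77922) (nat_lit 0) (nat_lit 11400) (XT.lf (nat_lit 0) (nat_lit 5934567221) (nat_lit 684) (nat_lit 29499180580) (nat_lit 760) (nat_lit 1241930271) (nat_lit 338) (nat_lit 5) (nat_lit 347) (nat_lit 5) (nat_lit 348) (nat_lit 5) (nat_lit 651) (nat_lit 608) (nat_lit 301)) (XT.lf (nat_lit 0) (nat_lit 5737796311) (nat_lit 0) (nat_lit 5737796311) (nat_lit 1748) (nat_lit 399048320) (nat_lit 488)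 (nat_lit 5) (nat_lit 488) (nat_lit 3) (nat_lit 511) (nat_lit 3) (nat_lit 609) (nat_lit 609) (nat_lit 342))) (XT.nd (nat_lit 78) (nat_lit 0) (nat_lit 0) (XT.lf (nat_lit 0) (nat_lit 23298126993) (nat_lit 1748) (nat_lit 542221851) (nat_lit 1824) (nat_lit 144066360) (nat_lit 488) (nat_lit 5) (nat_lit 511) (nat_lit 3) (nat_lit 512) (nat_lit 5) (nat_lit 610) (nat_lit 609) (nat_lit 341)) (XT.nd (nat_lit 78) (nat_lit 0) (nat_lit 0) (XT.lf (nat_lit 76) (nat_lit 11497064682) (nat_lit 0) (nat_lit 12302541316) (nat_lit 1824) (nat_lit 421693508) (nat_lit 489) (nat_lit 5) (nat_lit 488) (nat_lit 5) (nat_lit 512) (nat_lit 5) (nat_lit 611) (nat_lit 609) (nat_lit 340)) (XT.lf (nat_lit 76) (nat_lit 23782898431) (nat_lit 0) (nat_lit 528858699) (nat_lit 1824) (nat_lit 151151793) (nat_lit 489) (nat_lit 5) (nat_lit 488) (nat_lit 5) (nat_lit 512) (nat_lit 5) (nat_lit 612) (nat_lit 609) (nat_lit 339))))) (XT.nd (nat_lit 234) (nat_lit 0) (nat_lit 76) (XT.nd (nat_lit 78) (nat_lit 0) (nat_lit 0) (XT.lf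 (nat_lit 0) (nat_lit 271597864) (nat_lit 1824) (nat_lit 13026039690) (nat_lit 1900) (nat_lit 11408728361) (nat_lit 465) (nat_lit 5) (nat_lit 489) (nat_lit 5) (nat_lit 490) (nat_lit 5) (nat_lit 613) (nat_lit 609) (nat_lit 338)) (XT.nd (nat_lit 78) (nat_lit 0) (nat_lit 76) (XT.lf (nat_lit 0) (nat_lit 705975554) (nat_lit 1824) (nat_lit 663700414) (nat_lit 1900) (nat_lit 23584892421) (nat_lit 465) (nat_lit 5) (nat_lit 489) (nat_lit 5) (nat_lit 490) (nat_lit 5) (nat_lit 614) (nat_lit 609) (nat_lit 337)) (XT.lf (nat_lit 0) (nat_lit 1295406229) (nat_lit 1824) (nat_lit 13173851428) (nat_lit 1900) (nat_lit 10735550205) (nat_lit 466) (nat_lit 5) (nat_lit 490) (nat_lit 5) (nat_lit 491) (nat_lit 5) (nat_lit 615) (nat_lit 609) (nat_lit 336)))) (XT.nd (nat_lit 78) (nat_lit 0) (nat_lit 76) (XT.lf (nat_lit 0) (nat_lit 1907388639) (nat_lit 1824) (nat_lit 482234479) (nat_lit 1900) (nat_lit 23070214000) (nat_lit 466) (nat_lit 5) (nat_lit 490) (nat_lit 5) (nat_lit 491) (nat_lit 5) (nat_lit 616)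 (nat_lit 609) (nat_lit 335)) (XT.nd (nat_lit 78) (nat_lit 0) (nat_lit 0) (XT.lf (nat_lit 0) (nat_lit 2675891209) (nat_lit 1824) (nat_lit 13156233756) (nat_lit 1900) (nat_lit 9884956631) (nat_lit 467) (nat_lit 5) (nat_lit 491) (nat_lit 5) (nat_lit 492) (nat_lit 5) (nat_lit 617) (nat_lit 609) (nat_lit 334)) (XT.lf (nat_lit 0) (nat_lit 3476160455) (nat_lit 1824) (nat_lit 125616032) (nat_lit 1900) (nat_lit 22377366790) (nat_lit 467) (nat_lit 5) (nat_lit 491) (nat_lit 5) (nat_lit 492) (nat_lit 5) (nat_lit 618) (nat_lit 609) (nat_lit 333))))))))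
noncomputable def xc240 : XT := (XT.nd (nat_lit 1560) (nat_lit 5852) (nat_lit 0) (XT.nd (nat_lit 780) (nat_lit 3344) (nat_lit 0) (XT.nd (nat_lit 390) (nat_lit 0) (nat_lit 152) (XT.nd (nat_lit 156) (nat_lit 0) (nat_lit 76) (XT.nd (nat_lit 78) (nat_lit 0) (nat_lit 0) (XT.lf (nat_lit 0) (nat_lit 4434596990) (nat_lit 1824) (nat_lit 12964059842) (nat_lit 1900) (nat_lit 8844946359) (nat_lit 468) (nat_lit 5) (nat_lit 492) (nat_lit 5) (nat_lit 493) (nat_lit 5) (nat_lit 619) (nat_lit 609) (nat_lit 332)) (XT.lf (nat_lit 76) (nat_lit 421132248) (nat_lit 0) (nat_lit 5015919208) (nat_lit 1900) (nat_lit 21075804099) (nat_lit 469) (nat_lit 5) (nat_lit 468) (nat_lit 5) (nat_lit 493) (nat_lit 5) (nat_lit 620) (nat_lit 609) (nat_lit 331))) (XT.nd (nat_lit 78) (nat_lit 0) (nat_lit 0) (XT.lf (nat_lit 0) (nat_lit 6594023836) (nat_lit 1824) (nat_lit 12587759246) (nat_lit 1900) (nat_lit 7603020738) (nat_lit 469) (nat_lit 5) (nat_lit 493) (nat_lit 5) (nat_lit 494) (nat_lit 5) (nat_lit 621) (nat_lit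 609) (nat_lit 330)) (XT.nd (nat_lit 78) (nat_lit 0) (nat_lit 76) (XT.lf (nat_lit 76) (nat_lit 1166649975) (nat_lit 0) (nat_lit 6645787006) (nat_lit 1900) (nat_lit 19248988268) (nat_lit 470) (nat_lit 5) (nat_lit 469) (nat_lit 5) (nat_lit 494) (nat_lit 5) (nat_lit 622) (nat_lit 609) (nat_lit 329)) (XT.lf (nat_lit 0) (nat_lit 9177670547) (nat_lit 1824) (nat_lit 12017302109) (nat_lit 1900) (nat_lit 6146157628) (nat_lit 470) (nat_lit 5) (nat_lit 494) (nat_lit 5) (nat_lit 495) (nat_lit 5) (nat_lit 623) (nat_lit 609) (nat_lit 328))))) (XT.nd (nat_lit 156) (nat_lit 0) (nat_lit 76) (XT.nd (nat_lit 78) (nat_lit 0) (nat_lit 76) (XT.lf (nat_lit 76) (nat_lit 2119784758) (nat_lit 0) (nat_lit 8505798201) (nat_lit 1900) (nat_lit 16999739195) (nat_lit 471) (nat_lit 5) (nat_lit 470) (nat_lit 5) (nat_lit 495) (nat_lit 5) (nat_lit 624) (nat_lit 609) (nat_lit 327)) (XT.lf (nat_lit 0) (nat_lit 12210078543) (nat_lit 1824) (nat_lit 11242182665) (nat_lit 1900) (nat_lit 4460784367) (nat_lit 471) (nat_lit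 5) (nat_lit 495) (nat_lit 5) (nat_lit 496) (nat_lit 5) (nat_lit 625) (nat_lit 609) (nat_lit 326))) (XT.nd (nat_lit 78) (nat_lit 0) (nat_lit 76) (XT.lf (nat_lit 76) (nat_lit 3291547562) (nat_lit 0) (nat_lit 10610102921) (nat_lit 1900) (nat_lit 14303365459) (nat_lit 472) (nat_lit 5) (nat_lit 471) (nat_lit 5) (nat_lit 496) (nat_lit 5) (nat_lit 626) (nat_lit 609) (nat_lit 325)) (XT.nd (nat_lit 78) (nat_lit 0) (nat_lit 0) (XT.lf (nat_lit 0) (nat_lit 15716877614) (nat_lit 1824) (nat_lit 10251402051) (nat_lit 1900) (nat_lit 2532749783) (nat_lit 472) (nat_lit 5) (nat_lit 496) (nat_lit 5) (nat_lit 497) (nat_lit 5) (nat_lit 627) (nat_lit 609) (nat_lit 324)) (XT.lf (nat_lit 76) (nat_lit 4693461196) (nat_lit 0) (nat_lit 12973454968) (nat_lit 1900) (nat_lit 11134077123) (nat_lit 473) (nat_lit 5) (nat_lit 472) (nat_lit 5) (nat_lit 497) (nat_lit 5) (nat_lit 628) (nat_lit 609) (nat_lit 323)))))) (XT.nd (nat_lit 390) (nat_lit 3724) (nat_lit 0) (XT.nd (nat_lit 156) (nat_lit 0) (nat_lit 0) (XT.nd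 (nat_lit 78) (nat_lit 0) (nat_lit 0) (XT.lf (nat_lit 0) (nat_lit 19724833431) (nat_lit 1824) (nat_lit 9033450414) (nat_lit 1900) (nat_lit 347295193) (nat_lit 473) (nat_lit 5) (nat_lit 497) (nat_lit 5) (nat_lit 498) (nat_lit 5) (nat_lit 629) (nat_lit 609) (nat_lit 322)) (XT.lf (nat_lit 76) (nat_lit 6337578899) (nat_lit 0) (nat_lit 15611241790) (nat_lit 1900) (nat_lit 7464937777) (nat_lit 474) (nat_lit 5) (nat_lit 473) (nat_lit 5) (nat_lit 498) (nat_lit 5) (nat_lit 630) (nat_lit 609) (nat_lit 321))) (XT.nd (nat_lit 78) (nat_lit 0) (nat_lit 76) (XT.lf (nat_lit 76) (nat_lit 22136755451) (nat_lit 0) (nat_lit 2139029427) (nat_lit 1900) (nat_lit 5451146847) (nat_lit 474) (nat_lit 5) (nat_lit 473) (nat_lit 5) (nat_lit 498) (nat_lit 5) (nat_lit 631) (nat_lit 609) (nat_lit 320)) (XT.nd (nat_lit 78) (nat_lit 0) (nat_lit 0) (XT.lf (nat_lit 76) (nat_lit 8236503693) (nat_lit 0) (nat_lit 18539515578) (nat_lit 1900) (nat_lit 3267814747) (nat_lit 475) (nat_lit 5) (nat_lit 474) (nat_lit 5)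 (nat_lit 499) (nat_lit 5) (nat_lit 632) (nat_lit 609) (nat_lit 319)) (XT.lf (nat_lit 76) (nat_lit 24466526833) (nat_lit 0) (nat_lit 4922689833) (nat_lit 1900) (nat_lit 976598705) (nat_lit 475) (nat_lit 5) (nat_lit 474) (nat_lit 5) (nat_lit 499) (nat_lit 5) (nat_lit 633) (nat_lit 609) (nat_lit 318))))) (XT.nd (nat_lit 156) (nat_lit 1976) (nat_lit 0) (XT.nd (nat_lit 78) (nat_lit 0) (nat_lit 0) (XT.lf (nat_lit 0) (nat_lit 1467174644) (nat_lit 1900) (nat_lit 20298005376) (nat_lit 76) (nat_lit 8926388338) (nat_lit 450) (nat_lit 5) (nat_lit 475) (nat_lit 5) (nat_lit 451) (nat_lit 5) (nat_lit 634) (nat_lit 609) (nat_lit 317)) (XT.lf (nat_lit 0) (nat_lit 4017217924) (nat_lit 1900) (nat_lit 3971884132) (nat_lit 76) (nat_lit 23033195993) (nat_lit 450) (nat_lit 5) (nat_lit 475) (nat_lit 5) (nat_lit 451) (nat_lit 5) (nat_lit 635) (nat_lit 609) (nat_lit 316))) (XT.nd (nat_lit 78) (nat_lit 912) (nat_lit 0) (XT.lf (nat_lit 0) (nat_lit 6739640420) (nat_lit 1140) (nat_lit 18550384434) (nat_lit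 76) (nat_lit 6067190080) (nat_lit 436) (nat_lit 5) (nat_lit 451) (nat_lit 5) (nat_lit 437) (nat_lit 5) (nat_lit 636) (nat_lit 609) (nat_lit 315)) (XT.nd (nat_lit 78) (nat_lit 912) (nat_lit 0) (XT.lf (nat_lit 0) (nat_lit 9594325796) (nat_lit 1140) (nat_lit 1778163900) (nat_lit 76) (nat_lit 20324784335) (nat_lit 436) (nat_lit 5) (nat_lit 451) (nat_lit 5) (nat_lit 437) (nat_lit 5) (nat_lit 637) (nat_lit 609) (nat_lit 314)) (XT.lf (nat_lit 0) (nat_lit 12624060205) (nat_lit 988) (nat_lit 16529663905) (nat_lit 76) (nat_lit 2888051256) (nat_lit 424) (nat_lit 5) (nat_lit 437) (nat_lit 5) (nat_lit 425) (nat_lit 5) (nat_lit 638) (nat_lit 609) (nat_lit 313))))))) (XT.nd (nat_lit 780) (nat_lit 1520) (nat_lit 0) (XT.nd (nat_lit 390) (nat_lit 1748) (nat_lit 0) (XT.nd (nat_lit 156) (nat_lit 1672) (nat_lit 0) (XT.nd (nat_lit 78) (nat_lit 0) (nat_lit 0) (XT.lf (nat_lit 0) (nat_lit 711571869) (nat_lit 912) (nat_lit 15092904631) (nat_lit 988) (nat_lit 16586888640) (nat_lit 412) (nat_lit 5) (nat_lit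 424) (nat_lit 5) (nat_lit 425) (nat_lit 5) (nat_lit 639) (nat_lit 609) (nat_lit 312)) (XT.lf (nat_lit 0) (nat_lit 18519972987) (nat_lit 912) (nat_lit 637617401) (nat_lit 988) (nat_lit 13588174693) (nat_lit 412) (nat_lit 5) (nat_lit 424) (nat_lit 5) (nat_lit 425) (nat_lit 5) (nat_lit 640) (nat_lit 609) (nat_lit 311))) (XT.nd (nat_lit 78) (nat_lit 836) (nat_lit 0) (XT.lf (nat_lit 0) (nat_lit 3530272390) (nat_lit 836) (nat_lit 19160208748) (nat_lit 912) (nat_lit 10414517740) (nat_lit 401) (nat_lit 5) (nat_lit 412) (nat_lit 5) (nat_lit 413) (nat_lit 5) (nat_lit 641) (nat_lit 609) (nat_lit 310)) (XT.nd (nat_lit 78) (nat_lit 836) (nat_lit 0) (XT.lf (nat_lit 0) (nat_lit 21828298800) (nat_lit 836) (nat_lit 4563615577) (nat_lit 912) (nat_lit 7077545431) (nat_lit 401) (nat_lit 5) (nat_lit 412) (nat_lit 5) (nat_lit 413) (nat_lit 5) (nat_lit 642) (nat_lit 609) (nat_lit 309)) (XT.lf (nat_lit 0) (nat_lit 6669798608) (nat_lit 836) (nat_lit 23606180987) (nat_lit 912) (nat_lit 3563058442)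 (nat_lit 390) (nat_lit 5) (nat_lit 401) (nat_lit 5) (nat_lit 402) (nat_lit 5) (nat_lit 643) (nat_lit 609) (nat_lit 308))))) (XT.nd (nat_lit 156) (nat_lit 836) (nat_lit 0) (XT.nd (nat_lit 78) (nat_lit 836) (nat_lit 0) (XT.lf (nat_lit 0) (nat_lit 128565623) (nat_lit 912) (nat_lit 8742278416) (nat_lit 76) (nat_lit 25343018467) (nat_lit 389) (nat_lit 5) (nat_lit 401) (nat_lit 5) (nat_lit 390) (nat_lit 5) (nat_lit 644) (nat_lit 609) (nat_lit 307)) (XT.lf (nat_lit 0) (nat_lit 3951221160) (nat_lit 912) (nat_lit 24473812014) (nat_lit 76) (nat_lit 6168581225) (nat_lit 378) (nat_lit 5) (nat_lit 390) (nat_lit 5) (nat_lit 379) (nat_lit 5) (nat_lit 645) (nat_lit 609) (nat_lit 306))) (XT.nd (nat_lit 78) (nat_lit 836) (nat_lit 0) (XT.lf (nat_lit 0) (nat_lit 7966460829) (nat_lit 912) (nat_lit 5563011973) (nat_lit 76) (nat_lit 21449166041) (nat_lit 378) (nat_lit 5) (nat_lit 390) (nat_lit 5) (nat_lit 379) (nat_lit 5) (nat_lit 646) (nat_lit 609) (nat_lit 305)) (XT.nd (nat_lit 78) (nat_lit 0)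 (nat_lit 0) (XT.lf (nat_lit 0) (nat_lit 12162060977) (nat_lit 912) (nat_lit 21474282351) (nat_lit 76) (nat_lit 1733019468) (nat_lit 367) (nat_lit 5) (nat_lit 379) (nat_lit 5) (nat_lit 368) (nat_lit 5) (nat_lit 647) (nat_lit 609) (nat_lit 304)) (XT.lf (nat_lit 0) (nat_lit 16567133789) (nat_lit 912) (nat_lit 2040962354) (nat_lit 76) (nat_lit 17157294001) (nat_lit 367) (nat_lit 5) (nat_lit 379) (nat_lit 5) (nat_lit 368) (nat_lit 5) (nat_lit 648) (nat_lit 609) (nat_lit 303)))))) (XT.nd (nat_lit 78312) (nat_lit 0) (nat_lit 8892) (XT.nd (nat_lit 156) (nat_lit 0) (nat_lit 0) (XT.nd (nat_lit 78) (nat_lit 760) (nat_lit 0) (XT.lf (nat_lit 0) (nat_lit 18015631539) (nat_lit 760) (nat_lit 3160061183) (nat_lit 836) (nat_lit 14991337750) (nat_lit 357) (nat_lit 5) (nat_lit 367) (nat_lit 5) (nat_lit 368) (nat_lit 5) (nat_lit 649) (nat_lit 609) (nat_lit 302)) (XT.lf (nat_lit 0) (nat_lit 1865490740) (nat_lit 760) (nat_lit 24117053300) (nat_lit 836) (nat_lit 10592037267) (nat_lit 347) (nat_lit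 5) (nat_lit 357) (nat_lit 5) (nat_lit 358) (nat_lit 5) (nat_lit 650) (nat_lit 609) (nat_lit 301))) (XT.nd (nat_lit 78000) (nat_lit 0) (nat_lit 10716) (XT.lf (nat_lit 0) (nat_lit 22505880092) (nat_lit 760) (nat_lit 8520702309) (nat_lit 836) (nat_lit 5960879881) (nat_lit 347) (nat_lit 5) (nat_lit 357) (nat_lit 5) (nat_lit 358) (nat_lit 5) (nat_lit 651) (nat_lit 609) (nat_lit 300)) (XT.nd (nat_lit 78) (nat_lit 0) (nat_lit 0) (XT.lf (nat_lit 0) (nat_lit 5910415143) (nat_lit 0) (nat_lit 5910415143) (nat_lit 1748) (nat_lit 288978127) (nat_lit 488) (nat_lit 5) (nat_lit 488) (nat_lit 3) (nat_lit 511) (nat_lit 3) (nat_lit 610) (nat_lit 610) (nat_lit 340)) (XT.lf (nat_lit 0) (nat_lit 23990266250) (nat_lit 1748) (nat_lit 434313469) (nat_lit 1824) (nat_lit 34979015) (nat_lit 488) (nat_lit 5) (nat_lit 511) (nat_lit 3) (nat_lit 512) (nat_lit 5) (nat_lit 611) (nat_lit 610) (nat_lit 339))))) (XT.nd (nat_lit 234) (nat_lit 0) (nat_lit 76) (XT.nd (nat_lit 78) (nat_lit 1824) (nat_lit 0) (XT.lf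 (nat_lit 76) (nat_lit 11844977526) (nat_lit 0) (nat_lit 12653128421) (nat_lit 1824) (nat_lit 203148569) (nat_lit 489) (nat_lit 5) (nat_lit 488) (nat_lit 5) (nat_lit 512) (nat_lit 5) (nat_lit 612) (nat_lit 610) (nat_lit 338)) (XT.nd (nat_lit 78) (nat_lit 0) (nat_lit 76) (XT.lf (nat_lit 0) (nat_lit 67456947) (nat_lit 1824) (nat_lit 574012802) (nat_lit 1900) (nat_lit 24306305163) (nat_lit 464) (nat_lit 5) (nat_lit 488) (nat_lit 5) (nat_lit 489) (nat_lit 5) (nat_lit 613) (nat_lit 610) (nat_lit 337)) (XT.lf (nat_lit 0) (nat_lit 492460521) (nat_lit 1824) (nat_lit 13163764919) (nat_lit 1900) (nat_lit 11539939557) (nat_lit 465) (nat_lit 5) (nat_lit 489) (nat_lit 5) (nat_lit 490) (nat_lit 5) (nat_lit 614) (nat_lit 610) (nat_lit 336)))) (XT.nd (nat_lit 78) (nat_lit 0) (nat_lit 76) (XT.lf (nat_lit 0) (nat_lit 931301633) (nat_lit 1824) (nat_lit 556586614) (nat_lit 1900) (nat_lit 23961528141) (nat_lit 465) (nat_lit 5) (nat_lit 489) (nat_lit 5) (nat_lit 490) (nat_lit 5) (nat_lit 615) (nat_lit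 610) (nat_lit 335)) (XT.nd (nat_lit 78) (nat_lit 0) (nat_lit 0) (XT.lf (nat_lit 0) (nat_lit 1528583160) (nat_lit 1824) (nat_lit 13312984027) (nat_lit 1900) (nat_lit 10863172596) (nat_lit 466) (nat_lit 5) (nat_lit 490) (nat_lit 5) (nat_lit 491) (nat_lit 5) (nat_lit 616) (nat_lit 610) (nat_lit 334)) (XT.lf (nat_lit 0) (nat_lit 2148741124) (nat_lit 1824) (nat_lit 369972865) (nat_lit 1900) (nat_lit 23446237286) (nat_lit 466) (nat_lit 5) (nat_lit 490) (nat_lit 5) (nat_lit 491) (nat_lit 5) (nat_lit 617) (nat_lit 610) (nat_lit 333))))))))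
noncomputable def xc241 : XT := (XT.nd (nat_lit 1560) (nat_lit 6764) (nat_lit 0) (XT.nd (nat_lit 780) (nat_lit 2356) (nat_lit 0) (XT.nd (nat_lit 390) (nat_lit 0) (nat_lit 152) (XT.nd (nat_lit 156) (nat_lit 0) (nat_lit 76) (XT.nd (nat_lit 78) (nat_lit 0) (nat_lit 0) (XT.lf (nat_lit 0) (nat_lit 2928903343) (nat_lit 1824) (nat_lit 13293723597) (nat_lit 1900) (nat_lit 10004788275) (nat_lit 467) (nat_lit 5) (nat_lit 491) (nat_lit 5) (nat_lit 492) (nat_lit 5) (nat_lit 618) (nat_lit 610) (nat_lit 332)) (XT.lf (nat_lit 0) (nat_lit 3741266320) (nat_lit 1824) (nat_lit 4956947) (nat_lit 1900) (nat_lit 22748573450) (nat_lit 467) (nat_lit 5) (nat_lit 491) (nat_lit 5) (nat_lit 492) (nat_lit 5) (nat_lit 619) (nat_lit 610) (nat_lit 331))) (XT.nd (nat_lit 78) (nat_lit 0) (nat_lit 0) (XT.lf (nat_lit 0) (nat_lit 4715375420) (nat_lit 1824) (nat_lit 13096656042) (nat_lit 1900) (nat_lit 8952584640) (nat_lit 468) (nat_lit 5) (nat_lit 492) (nat_lit 5) (nat_lit 493) (nat_lit 5) (nat_lit 620) (nat_lit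 610) (nat_lit 330)) (XT.nd (nat_lit 78) (nat_lit 0) (nat_lit 76) (XT.lf (nat_lit 76) (nat_lit 555406436) (nat_lit 0) (nat_lit 5179523249) (nat_lit 1900) (nat_lit 21304383155) (nat_lit 469) (nat_lit 5) (nat_lit 468) (nat_lit 5) (nat_lit 493) (nat_lit 5) (nat_lit 621) (nat_lit 610) (nat_lit 329)) (XT.lf (nat_lit 0) (nat_lit 6910930104) (nat_lit 1824) (nat_lit 12712002409) (nat_lit 1900) (nat_lit 7693850120) (nat_lit 469) (nat_lit 5) (nat_lit 493) (nat_lit 5) (nat_lit 494) (nat_lit 5) (nat_lit 622) (nat_lit 610) (nat_lit 328))))) (XT.nd (nat_lit 156) (nat_lit 0) (nat_lit 76) (XT.nd (nat_lit 78) (nat_lit 0) (nat_lit 76) (XT.lf (nat_lit 76) (nat_lit 1316656101) (nat_lit 0) (nat_lit 6834249900) (nat_lit 1900) (nat_lit 19448086928) (nat_lit 470) (nat_lit 5) (nat_lit 469) (nat_lit 5) (nat_lit 494) (nat_lit 5) (nat_lit 623) (nat_lit 610) (nat_lit 327)) (XT.lf (nat_lit 0) (nat_lit 9539517715) (nat_lit 1824) (nat_lit 12129516190) (nat_lit 1900) (nat_lit 6215337013) (nat_lit 470) (nat_lit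 5) (nat_lit 494) (nat_lit 5) (nat_lit 495) (nat_lit 5) (nat_lit 624) (nat_lit 610) (nat_lit 326))) (XT.nd (nat_lit 78) (nat_lit 0) (nat_lit 76) (XT.lf (nat_lit 76) (nat_lit 2289469440) (nat_lit 0) (nat_lit 8724249423) (nat_lit 1900) (nat_lit 17160581468) (nat_lit 471) (nat_lit 5) (nat_lit 470) (nat_lit 5) (nat_lit 495) (nat_lit 5) (nat_lit 625) (nat_lit 610) (nat_lit 325)) (XT.nd (nat_lit 78) (nat_lit 0) (nat_lit 0) (XT.lf (nat_lit 0) (nat_lit 12626153075) (nat_lit 1824) (nat_lit 11338466438) (nat_lit 1900) (nat_lit 4503234042) (nat_lit 471) (nat_lit 5) (nat_lit 495) (nat_lit 5) (nat_lit 496) (nat_lit 5) (nat_lit 626) (nat_lit 610) (nat_lit 324)) (XT.lf (nat_lit 76) (nat_lit 3485092605) (nat_lit 0) (nat_lit 10863922996) (nat_lit 1900) (nat_lit 14416698850) (nat_lit 472) (nat_lit 5) (nat_lit 471) (nat_lit 5) (nat_lit 496) (nat_lit 5) (nat_lit 627) (nat_lit 610) (nat_lit 323)))))) (XT.nd (nat_lit 390) (nat_lit 2736) (nat_lit 0) (XT.nd (nat_lit 156) (nat_lit 0) (nat_lit 76) (XT.nd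 (nat_lit 78) (nat_lit 0) (nat_lit 0) (XT.lf (nat_lit 0) (nat_lit 16196962123) (nat_lit 1824) (nat_lit 10327620177) (nat_lit 1900) (nat_lit 2543137927) (nat_lit 472) (nat_lit 5) (nat_lit 496) (nat_lit 5) (nat_lit 497) (nat_lit 5) (nat_lit 628) (nat_lit 610) (nat_lit 322)) (XT.lf (nat_lit 76) (nat_lit 4915292902) (nat_lit 0) (nat_lit 13268289419) (nat_lit 1900) (nat_lit 11190149695) (nat_lit 473) (nat_lit 5) (nat_lit 472) (nat_lit 5) (nat_lit 497) (nat_lit 5) (nat_lit 629) (nat_lit 610) (nat_lit 321))) (XT.nd (nat_lit 78) (nat_lit 0) (nat_lit 0) (XT.lf (nat_lit 0) (nat_lit 20279230314) (nat_lit 1824) (nat_lit 9085224095) (nat_lit 1900) (nat_lit 320023912) (nat_lit 473) (nat_lit 5) (nat_lit 497) (nat_lit 5) (nat_lit 498) (nat_lit 5) (nat_lit 630) (nat_lit 610) (nat_lit 320)) (XT.nd (nat_lit 78) (nat_lit 0) (nat_lit 0) (XT.lf (nat_lit 76) (nat_lit 6592377808) (nat_lit 0) (nat_lit 15953015578) (nat_lit 1900) (nat_lit 7453474310) (nat_lit 474) (nat_lit 5) (nat_lit 473) (nat_lit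 5) (nat_lit 498) (nat_lit 5) (nat_lit 631) (nat_lit 610) (nat_lit 319)) (XT.lf (nat_lit 76) (nat_lit 22705027159) (nat_lit 0) (nat_lit 2210779577) (nat_lit 1900) (nat_lit 5402559762) (nat_lit 474) (nat_lit 5) (nat_lit 473) (nat_lit 5) (nat_lit 498) (nat_lit 5) (nat_lit 632) (nat_lit 610) (nat_lit 318))))) (XT.nd (nat_lit 156) (nat_lit 2888) (nat_lit 0) (XT.nd (nat_lit 78) (nat_lit 0) (nat_lit 0) (XT.lf (nat_lit 76) (nat_lit 8529214761) (nat_lit 0) (nat_lit 18934448059) (nat_lit 1900) (nat_lit 3177991946) (nat_lit 475) (nat_lit 5) (nat_lit 474) (nat_lit 5) (nat_lit 499) (nat_lit 5) (nat_lit 633) (nat_lit 610) (nat_lit 317)) (XT.lf (nat_lit 76) (nat_lit 25081328933) (nat_lit 0) (nat_lit 5044812423) (nat_lit 1900) (nat_lit 843994310) (nat_lit 475) (nat_lit 5) (nat_lit 474) (nat_lit 5) (nat_lit 499) (nat_lit 5) (nat_lit 634) (nat_lit 610) (nat_lit 316))) (XT.nd (nat_lit 78) (nat_lit 1064) (nat_lit 0) (XT.lf (nat_lit 0) (nat_lit 1644398704) (nat_lit 1900) (nat_lit 20574212480)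 (nat_lit 76) (nat_lit 9083818238) (nat_lit 450) (nat_lit 5) (nat_lit 475) (nat_lit 5) (nat_lit 451) (nat_lit 5) (nat_lit 635) (nat_lit 610) (nat_lit 315)) (XT.nd (nat_lit 78) (nat_lit 1064) (nat_lit 0) (XT.lf (nat_lit 0) (nat_lit 4242543231) (nat_lit 1900) (nat_lit 3924112987) (nat_lit 76) (nat_lit 23473175729) (nat_lit 450) (nat_lit 5) (nat_lit 475) (nat_lit 5) (nat_lit 451) (nat_lit 5) (nat_lit 636) (nat_lit 610) (nat_lit 314)) (XT.lf (nat_lit 0) (nat_lit 7017284211) (nat_lit 1140) (nat_lit 18792041130) (nat_lit 76) (nat_lit 6172164672) (nat_lit 436) (nat_lit 5) (nat_lit 451) (nat_lit 5) (nat_lit 437) (nat_lit 5) (nat_lit 637) (nat_lit 610) (nat_lit 313))))))) (XT.nd (nat_lit 780) (nat_lit 2356) (nat_lit 0) (XT.nd (nat_lit 390) (nat_lit 1748) (nat_lit 0) (XT.nd (nat_lit 156) (nat_lit 1748) (nat_lit 0) (XT.nd (nat_lit 78) (nat_lit 912) (nat_lit 0) (XT.lf (nat_lit 0) (nat_lit 9926262295) (nat_lit 1140) (nat_lit 1686912479) (nat_lit 76) (nat_lit 20715231777) (nat_lit 436) (nat_lit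 5) (nat_lit 451) (nat_lit 5) (nat_lit 437) (nat_lit 5) (nat_lit 638) (nat_lit 610) (nat_lit 312)) (XT.lf (nat_lit 0) (nat_lit 13014584431) (nat_lit 988) (nat_lit 16731423799) (nat_lit 76) (nat_lit 2933830056) (nat_lit 424) (nat_lit 5) (nat_lit 437) (nat_lit 5) (nat_lit 425) (nat_lit 5) (nat_lit 639) (nat_lit 610) (nat_lit 311))) (XT.nd (nat_lit 78) (nat_lit 836) (nat_lit 0) (XT.lf (nat_lit 0) (nat_lit 853789102) (nat_lit 912) (nat_lit 15402944193) (nat_lit 988) (nat_lit 16779724306) (nat_lit 412) (nat_lit 5) (nat_lit 424) (nat_lit 5) (nat_lit 425) (nat_lit 5) (nat_lit 640) (nat_lit 610) (nat_lit 310)) (XT.nd (nat_lit 78) (nat_lit 836) (nat_lit 0) (XT.lf (nat_lit 0) (nat_lit 19015848717) (nat_lit 912) (nat_lit 658390797) (nat_lit 988) (nat_lit 13723759651) (nat_lit 412) (nat_lit 5) (nat_lit 424) (nat_lit 5) (nat_lit 425) (nat_lit 5) (nat_lit 641) (nat_lit 610) (nat_lit 309)) (XT.lf (nat_lit 0) (nat_lit 3728243920) (nat_lit 836) (nat_lit 19547702454) (nat_lit 912) (nat_lit 10488508321)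 (nat_lit 401) (nat_lit 5) (nat_lit 412) (nat_lit 5) (nat_lit 413) (nat_lit 5) (nat_lit 642) (nat_lit 610) (nat_lit 308))))) (XT.nd (nat_lit 156) (nat_lit 912) (nat_lit 0) (XT.nd (nat_lit 78) (nat_lit 836) (nat_lit 0) (XT.lf (nat_lit 0) (nat_lit 22389733484) (nat_lit 836) (nat_lit 4659093312) (nat_lit 912) (nat_lit 7087429894) (nat_lit 401) (nat_lit 5) (nat_lit 412) (nat_lit 5) (nat_lit 413) (nat_lit 5) (nat_lit 643) (nat_lit 610) (nat_lit 307)) (XT.lf (nat_lit 0) (nat_lit 6929844169) (nat_lit 836) (nat_lit 24078993807) (nat_lit 912) (nat_lit 3504423425) (nat_lit 390) (nat_lit 5) (nat_lit 401) (nat_lit 5) (nat_lit 402) (nat_lit 5) (nat_lit 644) (nat_lit 610) (nat_lit 306))) (XT.nd (nat_lit 78) (nat_lit 836) (nat_lit 0) (XT.lf (nat_lit 0) (nat_lit 256815929) (nat_lit 912) (nat_lit 8791277306) (nat_lit 76) (nat_lit 25847522733) (nat_lit 389) (nat_lit 5) (nat_lit 401) (nat_lit 5) (nat_lit 390) (nat_lit 5) (nat_lit 645) (nat_lit 610) (nat_lit 305)) (XT.nd (nat_lit 78) (nat_lit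 0) (nat_lit 0) (XT.lf (nat_lit 0) (nat_lit 4154278430) (nat_lit 912) (nat_lit 24835785422) (nat_lit 76) (nat_lit 6292932170) (nat_lit 378) (nat_lit 5) (nat_lit 390) (nat_lit 5) (nat_lit 379) (nat_lit 5) (nat_lit 646) (nat_lit 610) (nat_lit 304)) (XT.lf (nat_lit 0) (nat_lit 8247390876) (nat_lit 912) (nat_lit 5549269435) (nat_lit 76) (nat_lit 21879109481) (nat_lit 378) (nat_lit 5) (nat_lit 390) (nat_lit 5) (nat_lit 379) (nat_lit 5) (nat_lit 647) (nat_lit 610) (nat_lit 303)))))) (XT.nd (nat_lit 78390) (nat_lit 0) (nat_lit 8892) (XT.nd (nat_lit 156) (nat_lit 1520) (nat_lit 0) (XT.nd (nat_lit 78) (nat_lit 0) (nat_lit 0) (XT.lf (nat_lit 0) (nat_lit 12525351953) (nat_lit 912) (nat_lit 21777204527) (nat_lit 76) (nat_lit 1771782958) (nat_lit 367) (nat_lit 5) (nat_lit 379) (nat_lit 5) (nat_lit 368) (nat_lit 5) (nat_lit 648) (nat_lit 610) (nat_lit 302)) (XT.lf (nat_lit 0) (nat_lit 17016172304) (nat_lit 912) (nat_lit 1957699767) (nat_lit 76) (nat_lit 17504462529) (nat_lit 367) (nat_lit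 5) (nat_lit 379) (nat_lit 5) (nat_lit 368) (nat_lit 5) (nat_lit 649) (nat_lit 610) (nat_lit 301))) (XT.nd (nat_lit 78) (nat_lit 760) (nat_lit 0) (XT.lf (nat_lit 0) (nat_lit 18499209676) (nat_lit 760) (nat_lit 3216185300) (nat_lit 836) (nat_lit 15172643092) (nat_lit 357) (nat_lit 5) (nat_lit 367) (nat_lit 5) (nat_lit 368) (nat_lit 5) (nat_lit 650) (nat_lit 610) (nat_lit 300)) (XT.nd (nat_lit 78078) (nat_lit 0) (nat_lit 10716) (XT.lf (nat_lit 0) (nat_lit 2027527122) (nat_lit 760) (nat_lit 24589432850) (nat_lit 836) (nat_lit 10686808596) (nat_lit 347) (nat_lit 5) (nat_lit 357) (nat_lit 5) (nat_lit 358) (nat_lit 5) (nat_lit 651) (nat_lit 610) (nat_lit 299)) (XT.lf (nat_lit 0) (nat_lit 6084239463) (nat_lit 0) (nat_lit 6084239463) (nat_lit 1748) (nat_lit 181290602) (nat_lit 488) (nat_lit 5) (nat_lit 488) (nat_lit 3) (nat_lit 511) (nat_lit 3) (nat_lit 611) (nat_lit 611) (nat_lit 338))))) (XT.nd (nat_lit 234) (nat_lit 0) (nat_lit 76) (XT.nd (nat_lit 78) (nat_lit 1824) (nat_lit 0)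 (XT.lf (nat_lit 0) (nat_lit 24615040609) (nat_lit 0) (nat_lit 72898270) (nat_lit 1748) (nat_lit 256433269) (nat_lit 488) (nat_lit 5) (nat_lit 488) (nat_lit 3) (nat_lit 511) (nat_lit 3) (nat_lit 612) (nat_lit 611) (nat_lit 337)) (XT.nd (nat_lit 78) (nat_lit 0) (nat_lit 0) (XT.lf (nat_lit 0) (nat_lit 10809748) (nat_lit 1824) (nat_lit 12995785709) (nat_lit 1900) (nat_lit 12184385361) (nat_lit 464) (nat_lit 5) (nat_lit 488) (nat_lit 5) (nat_lit 489) (nat_lit 5) (nat_lit 613) (nat_lit 611) (nat_lit 336)) (XT.lf (nat_lit 0) (nat_lit 279888118) (nat_lit 1824) (nat_lit 471501424) (nat_lit 1900) (nat_lit 24691099990) (nat_lit 464) (nat_lit 5) (nat_lit 488) (nat_lit 5) (nat_lit 489) (nat_lit 5) (nat_lit 614) (nat_lit 611) (nat_lit 335)))) (XT.nd (nat_lit 78) (nat_lit 0) (nat_lit 0) (XT.lf (nat_lit 0) (nat_lit 709374994) (nat_lit 1824) (nat_lit 13309012955) (nat_lit 1900) (nat_lit 11677540182) (nat_lit 465) (nat_lit 5) (nat_lit 489) (nat_lit 5) (nat_lit 490) (nat_lit 5) (nat_lit 615)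 (nat_lit 611) (nat_lit 334)) (XT.nd (nat_lit 78) (nat_lit 0) (nat_lit 76) (XT.lf (nat_lit 0) (nat_lit 1152932826) (nat_lit 1824) (nat_lit 452005344) (nat_lit 1900) (nat_lit 24349387953) (nat_lit 465) (nat_lit 5) (nat_lit 489) (nat_lit 5) (nat_lit 490) (nat_lit 5) (nat_lit 616) (nat_lit 611) (nat_lit 333)) (XT.lf (nat_lit 0) (nat_lit 1758375130) (nat_lit 1824) (nat_lit 13459727724) (nat_lit 1900) (nat_lit 10996729192) (nat_lit 466) (nat_lit 5) (nat_lit 490) (nat_lit 5) (nat_lit 491) (nat_lit 5) (nat_lit 617) (nat_lit 611) (nat_lit 332))))))))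
noncomputable def xc242 : XT := (XT.nd (nat_lit 1560) (nat_lit 6308) (nat_lit 0) (XT.nd (nat_lit 780) (nat_lit 1216) (nat_lit 0) (XT.nd (nat_lit 390) (nat_lit 0) (nat_lit 228) (XT.nd (nat_lit 156) (nat_lit 0) (nat_lit 76) (XT.nd (nat_lit 78) (nat_lit 0) (nat_lit 76) (XT.lf (nat_lit 0) (nat_lit 2387029972) (nat_lit 1824) (nat_lit 260199789) (nat_lit 1900) (nat_lit 23833096487) (nat_lit 466) (nat_lit 5) (nat_lit 490) (nat_lit 5) (nat_lit 491) (nat_lit 5) (nat_lit 618) (nat_lit 611) (nat_lit 331)) (XT.lf (nat_lit 0) (nat_lit 3179229112) (nat_lit 1824) (nat_lit 13438841789) (nat_lit 1900) (nat_lit 10130040240) (nat_lit 467) (nat_lit 5) (nat_lit 491) (nat_lit 5) (nat_lit 492) (nat_lit 5) (nat_lit 619) (nat_lit 611) (nat_lit 330))) (XT.nd (nat_lit 78) (nat_lit 0) (nat_lit 76) (XT.lf (nat_lit 76) (nat_lit 114838552) (nat_lit 0) (nat_lit 3889986646) (nat_lit 1900) (nat_lit 23016075700) (nat_lit 468) (nat_lit 5) (nat_lit 467) (nat_lit 5) (nat_lit 492) (nat_lit 5) (nat_lit 620) (nat_lit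 611) (nat_lit 329)) (XT.nd (nat_lit 78) (nat_lit 0) (nat_lit 0) (XT.lf (nat_lit 0) (nat_lit 4994310465) (nat_lit 1824) (nat_lit 13236823499) (nat_lit 1900) (nat_lit 9065065162) (nat_lit 468) (nat_lit 5) (nat_lit 492) (nat_lit 5) (nat_lit 493) (nat_lit 5) (nat_lit 621) (nat_lit 611) (nat_lit 328)) (XT.lf (nat_lit 76) (nat_lit 687479139) (nat_lit 0) (nat_lit 5343941911) (nat_lit 1900) (nat_lit 21545025772) (nat_lit 469) (nat_lit 5) (nat_lit 468) (nat_lit 5) (nat_lit 493) (nat_lit 5) (nat_lit 622) (nat_lit 611) (nat_lit 327))))) (XT.nd (nat_lit 156) (nat_lit 0) (nat_lit 76) (XT.nd (nat_lit 78) (nat_lit 0) (nat_lit 0) (XT.lf (nat_lit 0) (nat_lit 7226989720) (nat_lit 1824) (nat_lit 12843681884) (nat_lit 1900) (nat_lit 7788873765) (nat_lit 469) (nat_lit 5) (nat_lit 493) (nat_lit 5) (nat_lit 494) (nat_lit 5) (nat_lit 623) (nat_lit 611) (nat_lit 326)) (XT.lf (nat_lit 76) (nat_lit 1464743477) (nat_lit 0) (nat_lit 7024325088) (nat_lit 1900) (nat_lit 19658385552) (nat_lit 470) (nat_lit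 5) (nat_lit 469) (nat_lit 5) (nat_lit 494) (nat_lit 5) (nat_lit 624) (nat_lit 611) (nat_lit 325))) (XT.nd (nat_lit 78) (nat_lit 0) (nat_lit 0) (XT.lf (nat_lit 0) (nat_lit 9901678461) (nat_lit 1824) (nat_lit 12248950074) (nat_lit 1900) (nat_lit 6287986921) (nat_lit 470) (nat_lit 5) (nat_lit 494) (nat_lit 5) (nat_lit 495) (nat_lit 5) (nat_lit 625) (nat_lit 611) (nat_lit 324)) (XT.nd (nat_lit 78) (nat_lit 0) (nat_lit 76) (XT.lf (nat_lit 76) (nat_lit 2457605029) (nat_lit 0) (nat_lit 8945192752) (nat_lit 1900) (nat_lit 17331597296) (nat_lit 471) (nat_lit 5) (nat_lit 470) (nat_lit 5) (nat_lit 495) (nat_lit 5) (nat_lit 626) (nat_lit 611) (nat_lit 323)) (XT.lf (nat_lit 0) (nat_lit 13043875061) (nat_lit 1824) (nat_lit 11441668023) (nat_lit 1900) (nat_lit 4548348692) (nat_lit 471) (nat_lit 5) (nat_lit 495) (nat_lit 5) (nat_lit 496) (nat_lit 5) (nat_lit 627) (nat_lit 611) (nat_lit 322)))))) (XT.nd (nat_lit 390) (nat_lit 1596) (nat_lit 0) (XT.nd (nat_lit 156) (nat_lit 0) (nat_lit 76)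 (XT.nd (nat_lit 78) (nat_lit 0) (nat_lit 76) (XT.lf (nat_lit 76) (nat_lit 3677549255) (nat_lit 0) (nat_lit 11121203394) (nat_lit 1900) (nat_lit 14539006377) (nat_lit 472) (nat_lit 5) (nat_lit 471) (nat_lit 5) (nat_lit 496) (nat_lit 5) (nat_lit 628) (nat_lit 611) (nat_lit 321)) (XT.lf (nat_lit 0) (nat_lit 16680212166) (nat_lit 1824) (nat_lit 10410364511) (nat_lit 1900) (nat_lit 2555297446) (nat_lit 472) (nat_lit 5) (nat_lit 496) (nat_lit 5) (nat_lit 497) (nat_lit 5) (nat_lit 629) (nat_lit 611) (nat_lit 320))) (XT.nd (nat_lit 78) (nat_lit 0) (nat_lit 76) (XT.lf (nat_lit 76) (nat_lit 5136592303) (nat_lit 0) (nat_lit 13567647279) (nat_lit 1900) (nat_lit 11253813349) (nat_lit 473) (nat_lit 5) (nat_lit 472) (nat_lit 5) (nat_lit 497) (nat_lit 5) (nat_lit 630) (nat_lit 611) (nat_lit 319)) (XT.nd (nat_lit 78) (nat_lit 0) (nat_lit 0) (XT.lf (nat_lit 0) (nat_lit 20838506014) (nat_lit 1824) (nat_lit 9143038413) (nat_lit 1900) (nat_lit 293535900) (nat_lit 473) (nat_lit 5) (nat_lit 497)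 (nat_lit 5) (nat_lit 498) (nat_lit 5) (nat_lit 631) (nat_lit 611) (nat_lit 318)) (XT.lf (nat_lit 76) (nat_lit 6847300462) (nat_lit 0) (nat_lit 16300477420) (nat_lit 1900) (nat_lit 7448024166) (nat_lit 474) (nat_lit 5) (nat_lit 473) (nat_lit 5) (nat_lit 498) (nat_lit 5) (nat_lit 632) (nat_lit 611) (nat_lit 317))))) (XT.nd (nat_lit 156) (nat_lit 1748) (nat_lit 0) (XT.nd (nat_lit 78) (nat_lit 0) (nat_lit 76) (XT.lf (nat_lit 76) (nat_lit 23279789563) (nat_lit 0) (nat_lit 2282839807) (nat_lit 1900) (nat_lit 5359121124) (nat_lit 474) (nat_lit 5) (nat_lit 473) (nat_lit 5) (nat_lit 498) (nat_lit 5) (nat_lit 633) (nat_lit 611) (nat_lit 316)) (XT.lf (nat_lit 76) (nat_lit 8822810393) (nat_lit 0) (nat_lit 19336341720) (nat_lit 1900) (nat_lit 3092398481) (nat_lit 475) (nat_lit 5) (nat_lit 474) (nat_lit 5) (nat_lit 499) (nat_lit 5) (nat_lit 634) (nat_lit 611) (nat_lit 315))) (XT.nd (nat_lit 78) (nat_lit 1824) (nat_lit 0) (XT.lf (nat_lit 76) (nat_lit 25703554861) (nat_lit 0) (nat_lit 5168458378)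 (nat_lit 1900) (nat_lit 714645467) (nat_lit 475) (nat_lit 5) (nat_lit 474) (nat_lit 5) (nat_lit 499) (nat_lit 5) (nat_lit 635) (nat_lit 611) (nat_lit 314)) (XT.nd (nat_lit 78) (nat_lit 0) (nat_lit 0) (XT.lf (nat_lit 0) (nat_lit 1819424863) (nat_lit 1900) (nat_lit 20860982193) (nat_lit 76) (nat_lit 9245215992) (nat_lit 450) (nat_lit 5) (nat_lit 475) (nat_lit 5) (nat_lit 451) (nat_lit 5) (nat_lit 636) (nat_lit 611) (nat_lit 313)) (XT.lf (nat_lit 0) (nat_lit 4466745257) (nat_lit 1900) (nat_lit 3880326093) (nat_lit 76) (nat_lit 23922758253) (nat_lit 450) (nat_lit 5) (nat_lit 475) (nat_lit 5) (nat_lit 451) (nat_lit 5) (nat_lit 637) (nat_lit 611) (nat_lit 312))))))) (XT.nd (nat_lit 780) (nat_lit 836) (nat_lit 0) (XT.nd (nat_lit 390) (nat_lit 2584) (nat_lit 0) (XT.nd (nat_lit 156) (nat_lit 1824) (nat_lit 0) (XT.nd (nat_lit 78) (nat_lit 0) (nat_lit 0) (XT.lf (nat_lit 0) (nat_lit 7294933800) (nat_lit 1140) (nat_lit 19043553817) (nat_lit 76) (nat_lit 6279874392) (nat_lit 436) (nat_lit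 5) (nat_lit 451) (nat_lit 5) (nat_lit 437) (nat_lit 5) (nat_lit 638) (nat_lit 611) (nat_lit 311)) (XT.lf (nat_lit 0) (nat_lit 10259399213) (nat_lit 1140) (nat_lit 1598760400) (nat_lit 76) (nat_lit 21114111341) (nat_lit 436) (nat_lit 5) (nat_lit 451) (nat_lit 5) (nat_lit 437) (nat_lit 5) (nat_lit 639) (nat_lit 611) (nat_lit 310))) (XT.nd (nat_lit 78) (nat_lit 912) (nat_lit 0) (XT.lf (nat_lit 0) (nat_lit 13407558764) (nat_lit 988) (nat_lit 16942221648) (nat_lit 76) (nat_lit 2980989717) (nat_lit 424) (nat_lit 5) (nat_lit 437) (nat_lit 5) (nat_lit 425) (nat_lit 5) (nat_lit 640) (nat_lit 611) (nat_lit 309)) (XT.nd (nat_lit 78) (nat_lit 0) (nat_lit 0) (XT.lf (nat_lit 0) (nat_lit 993880836) (nat_lit 912) (nat_lit 15718866850) (nat_lit 988) (nat_lit 16981810424) (nat_lit 412) (nat_lit 5) (nat_lit 424) (nat_lit 5) (nat_lit 425) (nat_lit 5) (nat_lit 641) (nat_lit 611) (nat_lit 308)) (XT.lf (nat_lit 0) (nat_lit 19516769566) (nat_lit 912) (nat_lit 679268194) (nat_lit 988) (nat_lit 13867344286)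 (nat_lit 412) (nat_lit 5) (nat_lit 424) (nat_lit 5) (nat_lit 425) (nat_lit 5) (nat_lit 642) (nat_lit 611) (nat_lit 307))))) (XT.nd (nat_lit 156) (nat_lit 1748) (nat_lit 0) (XT.nd (nat_lit 78) (nat_lit 0) (nat_lit 0) (XT.lf (nat_lit 0) (nat_lit 3925229100) (nat_lit 836) (nat_lit 19942779467) (nat_lit 912) (nat_lit 10569193736) (nat_lit 401) (nat_lit 5) (nat_lit 412) (nat_lit 5) (nat_lit 413) (nat_lit 5) (nat_lit 643) (nat_lit 611) (nat_lit 306)) (XT.lf (nat_lit 0) (nat_lit 22957548057) (nat_lit 836) (nat_lit 4756317299) (nat_lit 912) (nat_lit 7102624815) (nat_lit 401) (nat_lit 5) (nat_lit 412) (nat_lit 5) (nat_lit 413) (nat_lit 5) (nat_lit 644) (nat_lit 611) (nat_lit 305))) (XT.nd (nat_lit 78) (nat_lit 912) (nat_lit 0) (XT.lf (nat_lit 0) (nat_lit 7190172683) (nat_lit 836) (nat_lit 24561236122) (nat_lit 912) (nat_lit 3449659736) (nat_lit 390) (nat_lit 5) (nat_lit 401) (nat_lit 5) (nat_lit 402) (nat_lit 5) (nat_lit 645) (nat_lit 611) (nat_lit 304)) (XT.nd (nat_lit 78) (nat_lit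 836) (nat_lit 0) (XT.lf (nat_lit 0) (nat_lit 382750973) (nat_lit 912) (nat_lit 8846142953) (nat_lit 76) (nat_lit 26362208575) (nat_lit 389) (nat_lit 5) (nat_lit 401) (nat_lit 5) (nat_lit 390) (nat_lit 5) (nat_lit 646) (nat_lit 611) (nat_lit 303)) (XT.lf (nat_lit 0) (nat_lit 4356580499) (nat_lit 912) (nat_lit 25209949387) (nat_lit 76) (nat_lit 6419732107) (nat_lit 378) (nat_lit 5) (nat_lit 390) (nat_lit 5) (nat_lit 379) (nat_lit 5) (nat_lit 647) (nat_lit 611) (nat_lit 302)))))) (XT.nd (nat_lit 78546) (nat_lit 0) (nat_lit 7372) (XT.nd (nat_lit 156) (nat_lit 0) (nat_lit 0) (XT.nd (nat_lit 78) (nat_lit 836) (nat_lit 0) (XT.lf (nat_lit 0) (nat_lit 8529217616) (nat_lit 912) (nat_lit 5540106057) (nat_lit 76) (nat_lit 22317614507) (nat_lit 378) (nat_lit 5) (nat_lit 390) (nat_lit 5) (nat_lit 379) (nat_lit 5) (nat_lit 648) (nat_lit 611) (nat_lit 301)) (XT.lf (nat_lit 0) (nat_lit 12891247070) (nat_lit 912) (nat_lit 22091099760) (nat_lit 76) (nat_lit 1811162390) (nat_lit 367) (nat_lit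 5) (nat_lit 379) (nat_lit 5) (nat_lit 368) (nat_lit 5) (nat_lit 649) (nat_lit 611) (nat_lit 300))) (XT.nd (nat_lit 78234) (nat_lit 0) (nat_lit 9196) (XT.lf (nat_lit 0) (nat_lit 17469621316) (nat_lit 912) (nat_lit 1877590177) (nat_lit 76) (nat_lit 17858418223) (nat_lit 367) (nat_lit 5) (nat_lit 379) (nat_lit 5) (nat_lit 368) (nat_lit 5) (nat_lit 650) (nat_lit 611) (nat_lit 299)) (XT.nd (nat_lit 78) (nat_lit 0) (nat_lit 0) (XT.lf (nat_lit 0) (nat_lit 6259380633) (nat_lit 0) (nat_lit 6259380633) (nat_lit 1748) (nat_lit 75855391) (nat_lit 488) (nat_lit 5) (nat_lit 488) (nat_lit 3) (nat_lit 511) (nat_lit 3) (nat_lit 612) (nat_lit 612) (nat_lit 336)) (XT.lf (nat_lit 0) (nat_lit 25212157853) (nat_lit 0) (nat_lit 179172667) (nat_lit 1748) (nat_lit 47716792) (nat_lit 488) (nat_lit 5) (nat_lit 488) (nat_lit 3) (nat_lit 511) (nat_lit 3) (nat_lit 613) (nat_lit 612) (nat_lit 335))))) (XT.nd (nat_lit 234) (nat_lit 0) (nat_lit 76) (XT.nd (nat_lit 78) (nat_lit 0) (nat_lit 0) (XT.lf (nat_lit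 0) (nat_lit 217969112) (nat_lit 1824) (nat_lit 13143944920) (nat_lit 1900) (nat_lit 12328728680) (nat_lit 464) (nat_lit 5) (nat_lit 488) (nat_lit 5) (nat_lit 489) (nat_lit 5) (nat_lit 614) (nat_lit 612) (nat_lit 334)) (XT.nd (nat_lit 78) (nat_lit 0) (nat_lit 76) (XT.lf (nat_lit 0) (nat_lit 488371340) (nat_lit 1824) (nat_lit 371366253) (nat_lit 1900) (nat_lit 25087525530) (nat_lit 464) (nat_lit 5) (nat_lit 488) (nat_lit 5) (nat_lit 489) (nat_lit 5) (nat_lit 615) (nat_lit 612) (nat_lit 333)) (XT.lf (nat_lit 0) (nat_lit 922587161) (nat_lit 1824) (nat_lit 13461749094) (nat_lit 1900) (nat_lit 11821511818) (nat_lit 465) (nat_lit 5) (nat_lit 489) (nat_lit 5) (nat_lit 490) (nat_lit 5) (nat_lit 616) (nat_lit 612) (nat_lit 332)))) (XT.nd (nat_lit 78) (nat_lit 0) (nat_lit 76) (XT.lf (nat_lit 0) (nat_lit 1371113704) (nat_lit 1824) (nat_lit 349825725) (nat_lit 1900) (nat_lit 24748552999) (nat_lit 465) (nat_lit 5) (nat_lit 489) (nat_lit 5) (nat_lit 490) (nat_lit 5) (nat_lit 617) (nat_lit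 612) (nat_lit 331)) (XT.nd (nat_lit 78) (nat_lit 0) (nat_lit 0) (XT.lf (nat_lit 0) (nat_lit 1985026972) (nat_lit 1824) (nat_lit 13614047246) (nat_lit 1900) (nat_lit 11136207358) (nat_lit 466) (nat_lit 5) (nat_lit 490) (nat_lit 5) (nat_lit 491) (nat_lit 5) (nat_lit 618) (nat_lit 612) (nat_lit 330)) (XT.lf (nat_lit 0) (nat_lit 2622500316) (nat_lit 1824) (nat_lit 152781204) (nat_lit 1900) (nat_lit 24230879576) (nat_lit 466) (nat_lit 5) (nat_lit 490) (nat_lit 5) (nat_lit 491) (nat_lit 5) (nat_lit 619) (nat_lit 612) (nat_lit 329))))))))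
noncomputable def xc243 : XT := (XT.nd (nat_lit 1560) (nat_lit 5244) (nat_lit 0) (XT.nd (nat_lit 780) (nat_lit 2356) (nat_lit 0) (XT.nd (nat_lit 390) (nat_lit 0) (nat_lit 152) (XT.nd (nat_lit 156) (nat_lit 0) (nat_lit 76) (XT.nd (nat_lit 78) (nat_lit 0) (nat_lit 0) (XT.lf (nat_lit 0) (nat_lit 3427115600) (nat_lit 1824) (nat_lit 13591551458) (nat_lit 1900) (nat_lit 10260703521) (nat_lit 467) (nat_lit 5) (nat_lit 491) (nat_lit 5) (nat_lit 492) (nat_lit 5) (nat_lit 620) (nat_lit 612) (nat_lit 328)) (XT.lf (nat_lit 76) (nat_lit 232438890) (nat_lit 0) (nat_lit 4033919581) (nat_lit 1900) (nat_lit 23291315290) (nat_lit 468) (nat_lit 5) (nat_lit 467) (nat_lit 5) (nat_lit 492) (nat_lit 5) (nat_lit 621) (nat_lit 612) (nat_lit 327))) (XT.nd (nat_lit 78) (nat_lit 0) (nat_lit 0) (XT.lf (nat_lit 0) (nat_lit 5271654899) (nat_lit 1824) (nat_lit 13384522614) (nat_lit 1900) (nat_lit 9182380334) (nat_lit 468) (nat_lit 5) (nat_lit 492) (nat_lit 5) (nat_lit 493) (nat_lit 5) (nat_lit 622) (nat_lit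 612) (nat_lit 326)) (XT.nd (nat_lit 78) (nat_lit 0) (nat_lit 76) (XT.lf (nat_lit 76) (nat_lit 817496094) (nat_lit 0) (nat_lit 5509286913) (nat_lit 1900) (nat_lit 21797682299) (nat_lit 469) (nat_lit 5) (nat_lit 468) (nat_lit 5) (nat_lit 493) (nat_lit 5) (nat_lit 623) (nat_lit 612) (nat_lit 325)) (XT.lf (nat_lit 0) (nat_lit 7542464745) (nat_lit 1824) (nat_lit 12982754124) (nat_lit 1900) (nat_lit 7888083230) (nat_lit 469) (nat_lit 5) (nat_lit 493) (nat_lit 5) (nat_lit 494) (nat_lit 5) (nat_lit 624) (nat_lit 612) (nat_lit 324))))) (XT.nd (nat_lit 156) (nat_lit 0) (nat_lit 76) (XT.nd (nat_lit 78) (nat_lit 0) (nat_lit 76) (XT.lf (nat_lit 76) (nat_lit 1611064735) (nat_lit 0) (nat_lit 7216128574) (nat_lit 1900) (nat_lit 19879827854) (nat_lit 470) (nat_lit 5) (nat_lit 469) (nat_lit 5) (nat_lit 494) (nat_lit 5) (nat_lit 625) (nat_lit 612) (nat_lit 323)) (XT.lf (nat_lit 0) (nat_lit 10264427902) (nat_lit 1824) (nat_lit 12375554950) (nat_lit 1900) (nat_lit 6364095725) (nat_lit 470) (nat_lit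 5) (nat_lit 494) (nat_lit 5) (nat_lit 495) (nat_lit 5) (nat_lit 626) (nat_lit 612) (nat_lit 322))) (XT.nd (nat_lit 78) (nat_lit 0) (nat_lit 76) (XT.lf (nat_lit 76) (nat_lit 2624352479) (nat_lit 0) (nat_lit 9168750914) (nat_lit 1900) (nat_lit 17512720014) (nat_lit 471) (nat_lit 5) (nat_lit 470) (nat_lit 5) (nat_lit 495) (nat_lit 5) (nat_lit 627) (nat_lit 612) (nat_lit 321)) (XT.nd (nat_lit 78) (nat_lit 0) (nat_lit 0) (XT.lf (nat_lit 0) (nat_lit 13463536611) (nat_lit 1824) (nat_lit 11551731926) (nat_lit 1900) (nat_lit 4596111100) (nat_lit 471) (nat_lit 5) (nat_lit 495) (nat_lit 5) (nat_lit 496) (nat_lit 5) (nat_lit 628) (nat_lit 612) (nat_lit 320)) (XT.lf (nat_lit 76) (nat_lit 3869088320) (nat_lit 0) (nat_lit 11382076075) (nat_lit 1900) (nat_lit 14670207064) (nat_lit 472) (nat_lit 5) (nat_lit 471) (nat_lit 5) (nat_lit 496) (nat_lit 5) (nat_lit 629) (nat_lit 612) (nat_lit 319)))))) (XT.nd (nat_lit 390) (nat_lit 2736) (nat_lit 0) (XT.nd (nat_lit 156) (nat_lit 0) (nat_lit 76) (XT.nd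 (nat_lit 78) (nat_lit 0) (nat_lit 0) (XT.lf (nat_lit 0) (nat_lit 17166940977) (nat_lit 1824) (nat_lit 10499571349) (nat_lit 1900) (nat_lit 2569203048) (nat_lit 472) (nat_lit 5) (nat_lit 496) (nat_lit 5) (nat_lit 497) (nat_lit 5) (nat_lit 630) (nat_lit 612) (nat_lit 318)) (XT.lf (nat_lit 76) (nat_lit 5357541703) (nat_lit 0) (nat_lit 13871672343) (nat_lit 1900) (nat_lit 11324968681) (nat_lit 473) (nat_lit 5) (nat_lit 472) (nat_lit 5) (nat_lit 497) (nat_lit 5) (nat_lit 631) (nat_lit 612) (nat_lit 317))) (XT.nd (nat_lit 78) (nat_lit 0) (nat_lit 0) (XT.lf (nat_lit 0) (nat_lit 21402999216) (nat_lit 1824) (nat_lit 9206819823) (nat_lit 1900) (nat_lit 267795228) (nat_lit 473) (nat_lit 5) (nat_lit 497) (nat_lit 5) (nat_lit 498) (nat_lit 5) (nat_lit 632) (nat_lit 612) (nat_lit 316)) (XT.nd (nat_lit 78) (nat_lit 0) (nat_lit 0) (XT.lf (nat_lit 76) (nat_lit 7102542413) (nat_lit 0) (nat_lit 16653785633) (nat_lit 1900) (nat_lit 7448465205) (nat_lit 474) (nat_lit 5) (nat_lit 473) (nat_lit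 5) (nat_lit 498) (nat_lit 5) (nat_lit 633) (nat_lit 612) (nat_lit 315)) (XT.lf (nat_lit 76) (nat_lit 23861361767) (nat_lit 0) (nat_lit 2355260000) (nat_lit 1900) (nat_lit 5320696248) (nat_lit 474) (nat_lit 5) (nat_lit 473) (nat_lit 5) (nat_lit 498) (nat_lit 5) (nat_lit 634) (nat_lit 612) (nat_lit 314))))) (XT.nd (nat_lit 156) (nat_lit 2888) (nat_lit 0) (XT.nd (nat_lit 78) (nat_lit 0) (nat_lit 0) (XT.lf (nat_lit 76) (nat_lit 9117501258) (nat_lit 0) (nat_lit 19745372187) (nat_lit 1900) (nat_lit 3010884952) (nat_lit 475) (nat_lit 5) (nat_lit 474) (nat_lit 5) (nat_lit 499) (nat_lit 5) (nat_lit 635) (nat_lit 612) (nat_lit 313)) (XT.lf (nat_lit 76) (nat_lit 26333542288) (nat_lit 0) (nat_lit 5293693852) (nat_lit 1900) (nat_lit 588387888) (nat_lit 475) (nat_lit 5) (nat_lit 474) (nat_lit 5) (nat_lit 499) (nat_lit 5) (nat_lit 636) (nat_lit 612) (nat_lit 312))) (XT.nd (nat_lit 78) (nat_lit 1064) (nat_lit 0) (XT.lf (nat_lit 0) (nat_lit 1992432146) (nat_lit 1900) (nat_lit 21158330118)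 (nat_lit 76) (nat_lit 9410629144) (nat_lit 450) (nat_lit 5) (nat_lit 475) (nat_lit 5) (nat_lit 451) (nat_lit 5) (nat_lit 637) (nat_lit 612) (nat_lit 311)) (XT.nd (nat_lit 78) (nat_lit 1064) (nat_lit 0) (XT.lf (nat_lit 0) (nat_lit 4690020148) (nat_lit 1900) (nat_lit 3840411322) (nat_lit 76) (nat_lit 24382104430) (nat_lit 450) (nat_lit 5) (nat_lit 475) (nat_lit 5) (nat_lit 451) (nat_lit 5) (nat_lit 638) (nat_lit 612) (nat_lit 310)) (XT.lf (nat_lit 0) (nat_lit 7572804703) (nat_lit 1140) (nat_lit 19304924571) (nat_lit 76) (nat_lit 6390349261) (nat_lit 436) (nat_lit 5) (nat_lit 451) (nat_lit 5) (nat_lit 437) (nat_lit 5) (nat_lit 639) (nat_lit 612) (nat_lit 309))))))) (XT.nd (nat_lit 780) (nat_lit 836) (nat_lit 0) (XT.nd (nat_lit 390) (nat_lit 1748) (nat_lit 0) (XT.nd (nat_lit 156) (nat_lit 1748) (nat_lit 0) (XT.nd (nat_lit 78) (nat_lit 912) (nat_lit 0) (XT.lf (nat_lit 0) (nat_lit 10593971733) (nat_lit 1140) (nat_lit 1513578429) (nat_lit 76) (nat_lit 21521567470) (nat_lit 436) (nat_lit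 5) (nat_lit 451) (nat_lit 5) (nat_lit 437) (nat_lit 5) (nat_lit 640) (nat_lit 612) (nat_lit 308)) (XT.lf (nat_lit 0) (nat_lit 13803240355) (nat_lit 988) (nat_lit 17162043948) (nat_lit 76) (nat_lit 3029539788) (nat_lit 424) (nat_lit 5) (nat_lit 437) (nat_lit 5) (nat_lit 425) (nat_lit 5) (nat_lit 641) (nat_lit 612) (nat_lit 307))) (XT.nd (nat_lit 78) (nat_lit 836) (nat_lit 0) (XT.lf (nat_lit 0) (nat_lit 1131997545) (nat_lit 912) (nat_lit 16040802600) (nat_lit 988) (nat_lit 17193122556) (nat_lit 412) (nat_lit 5) (nat_lit 424) (nat_lit 5) (nat_lit 425) (nat_lit 5) (nat_lit 642) (nat_lit 612) (nat_lit 306)) (XT.nd (nat_lit 78) (nat_lit 836) (nat_lit 0) (XT.lf (nat_lit 0) (nat_lit 20023025636) (nat_lit 912) (nat_lit 700263767) (nat_lit 988) (nat_lit 14018883254) (nat_lit 412) (nat_lit 5) (nat_lit 424) (nat_lit 5) (nat_lit 425) (nat_lit 5) (nat_lit 643) (nat_lit 612) (nat_lit 305)) (XT.lf (nat_lit 0) (nat_lit 4121400254) (nat_lit 836) (nat_lit 20345597920) (nat_lit 912) (nat_lit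 10656505379) (nat_lit 401) (nat_lit 5) (nat_lit 412) (nat_lit 5) (nat_lit 413) (nat_lit 5) (nat_lit 644) (nat_lit 612) (nat_lit 304))))) (XT.nd (nat_lit 156) (nat_lit 912) (nat_lit 0) (XT.nd (nat_lit 78) (nat_lit 836) (nat_lit 0) (XT.lf (nat_lit 0) (nat_lit 23532058402) (nat_lit 836) (nat_lit 4855328806) (nat_lit 912) (nat_lit 7123037868) (nat_lit 401) (nat_lit 5) (nat_lit 412) (nat_lit 5) (nat_lit 413) (nat_lit 5) (nat_lit 645) (nat_lit 612) (nat_lit 303)) (XT.lf (nat_lit 0) (nat_lit 7450980779) (nat_lit 836) (nat_lit 25053097559) (nat_lit 912) (nat_lit 3398648934) (nat_lit 390) (nat_lit 5) (nat_lit 401) (nat_lit 5) (nat_lit 402) (nat_lit 5) (nat_lit 646) (nat_lit 612) (nat_lit 302))) (XT.nd (nat_lit 78) (nat_lit 836) (nat_lit 0) (XT.lf (nat_lit 0) (nat_lit 506513956) (nat_lit 912) (nat_lit 8906802934) (nat_lit 76) (nat_lit 26887276072) (nat_lit 389) (nat_lit 5) (nat_lit 401) (nat_lit 5) (nat_lit 390) (nat_lit 5) (nat_lit 647) (nat_lit 612) (nat_lit 301)) (XT.nd (nat_lit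 78) (nat_lit 0) (nat_lit 0) (XT.lf (nat_lit 0) (nat_lit 4558299288) (nat_lit 912) (nat_lit 25596355466) (nat_lit 76) (nat_lit 6549031490) (nat_lit 378) (nat_lit 5) (nat_lit 390) (nat_lit 5) (nat_lit 379) (nat_lit 5) (nat_lit 648) (nat_lit 612) (nat_lit 300)) (XT.lf (nat_lit 0) (nat_lit 8812142339) (nat_lit 912) (nat_lit 5535424934) (nat_lit 76) (nat_lit 22764853798) (nat_lit 378) (nat_lit 5) (nat_lit 390) (nat_lit 5) (nat_lit 379) (nat_lit 5) (nat_lit 649) (nat_lit 612) (nat_lit 299)))))) (XT.nd (nat_lit 78624) (nat_lit 0) (nat_lit 7448) (XT.nd (nat_lit 78390) (nat_lit 0) (nat_lit 7296) (XT.nd (nat_lit 78312) (nat_lit 0) (nat_lit 7296) (XT.lf (nat_lit 0) (nat_lit 13259979429) (nat_lit 912) (nat_lit 22415996672) (nat_lit 76) (nat_lit 1851176268) (nat_lit 367) (nat_lit 5) (nat_lit 379) (nat_lit 5) (nat_lit 368) (nat_lit 5) (nat_lit 650) (nat_lit 612) (nat_lit 298)) (XT.lf (nat_lit 0) (nat_lit 27093492) (nat_lit 1900) (nat_lit 6408673545) (nat_lit 1900) (nat_lit 6408673545) (nat_lit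 463) (nat_lit 3) (nat_lit 488) (nat_lit 3) (nat_lit 488) (nat_lit 5) (nat_lit 613) (nat_lit 613) (nat_lit 334))) (XT.nd (nat_lit 78) (nat_lit 0) (nat_lit 76) (XT.lf (nat_lit 0) (nat_lit 154812767) (nat_lit 1900) (nat_lit 127650760) (nat_lit 1900) (nat_lit 25661295650) (nat_lit 463) (nat_lit 3) (nat_lit 488) (nat_lit 3) (nat_lit 488) (nat_lit 5) (nat_lit 614) (nat_lit 613) (nat_lit 333)) (XT.nd (nat_lit 78) (nat_lit 0) (nat_lit 0) (XT.lf (nat_lit 0) (nat_lit 421235807) (nat_lit 1824) (nat_lit 13299406956) (nat_lit 1900) (nat_lit 12479816528) (nat_lit 464) (nat_lit 5) (nat_lit 488) (nat_lit 5) (nat_lit 489) (nat_lit 5) (nat_lit 615) (nat_lit 613) (nat_lit 332)) (XT.lf (nat_lit 0) (nat_lit 693145936) (nat_lit 1824) (nat_lit 273482929) (nat_lit 1900) (nat_lit 25495661605) (nat_lit 464) (nat_lit 5) (nat_lit 488) (nat_lit 5) (nat_lit 489) (nat_lit 5) (nat_lit 616) (nat_lit 613) (nat_lit 331))))) (XT.nd (nat_lit 234) (nat_lit 0) (nat_lit 76) (XT.nd (nat_lit 78) (nat_lit 0) (nat_lit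 0) (XT.lf (nat_lit 0) (nat_lit 1132335200) (nat_lit 1824) (nat_lit 13621945129) (nat_lit 1900) (nat_lit 11971841356) (nat_lit 465) (nat_lit 5) (nat_lit 489) (nat_lit 5) (nat_lit 490) (nat_lit 5) (nat_lit 617) (nat_lit 613) (nat_lit 330)) (XT.nd (nat_lit 78) (nat_lit 0) (nat_lit 76) (XT.lf (nat_lit 0) (nat_lit 1586081367) (nat_lit 1824) (nat_lit 249921311) (nat_lit 1900) (nat_lit 25159111609) (nat_lit 465) (nat_lit 5) (nat_lit 489) (nat_lit 5) (nat_lit 490) (nat_lit 5) (nat_lit 618) (nat_lit 613) (nat_lit 329)) (XT.lf (nat_lit 0) (nat_lit 2208776280) (nat_lit 1824) (nat_lit 13775913896) (nat_lit 1900) (nat_lit 11281599309) (nat_lit 466) (nat_lit 5) (nat_lit 490) (nat_lit 5) (nat_lit 491) (nat_lit 5) (nat_lit 619) (nat_lit 613) (nat_lit 328)))) (XT.nd (nat_lit 78) (nat_lit 0) (nat_lit 76) (XT.lf (nat_lit 0) (nat_lit 2855390292) (nat_lit 1824) (nat_lit 47587519) (nat_lit 1900) (nat_lit 24639681289) (nat_lit 466) (nat_lit 5) (nat_lit 490) (nat_lit 5) (nat_lit 491) (nat_lit 5)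 (nat_lit 620) (nat_lit 613) (nat_lit 327)) (XT.nd (nat_lit 78) (nat_lit 0) (nat_lit 0) (XT.lf (nat_lit 0) (nat_lit 3672803149) (nat_lit 1824) (nat_lit 13751822349) (nat_lit 1900) (nat_lit 10396773489) (nat_lit 467) (nat_lit 5) (nat_lit 491) (nat_lit 5) (nat_lit 492) (nat_lit 5) (nat_lit 621) (nat_lit 613) (nat_lit 326)) (XT.lf (nat_lit 76) (nat_lit 347913857) (nat_lit 0) (nat_lit 4178163143) (nat_lit 1900) (nat_lit 23579246628) (nat_lit 468) (nat_lit 5) (nat_lit 467) (nat_lit 5) (nat_lit 492) (nat_lit 5) (nat_lit 622) (nat_lit 613) (nat_lit 325))))))))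
noncomputable def xc244 : XT := (XT.nd (nat_lit 1560) (nat_lit 3496) (nat_lit 0) (XT.nd (nat_lit 780) (nat_lit 3344) (nat_lit 0) (XT.nd (nat_lit 390) (nat_lit 0) (nat_lit 152) (XT.nd (nat_lit 156) (nat_lit 0) (nat_lit 76) (XT.nd (nat_lit 78) (nat_lit 0) (nat_lit 0) (XT.lf (nat_lit 0) (nat_lit 5547655303) (nat_lit 1824) (nat_lit 13539720414) (nat_lit 1900) (nat_lit 9304526468) (nat_lit 468) (nat_lit 5) (nat_lit 492) (nat_lit 5) (nat_lit 493) (nat_lit 5) (nat_lit 623) (nat_lit 613) (nat_lit 324)) (XT.lf (nat_lit 76) (nat_lit 945598585) (nat_lit 0) (nat_lit 5675668504) (nat_lit 1900) (nat_lit 22062313388) (nat_lit 469) (nat_lit 5) (nat_lit 468) (nat_lit 5) (nat_lit 493) (nat_lit 5) (nat_lit 624) (nat_lit 613) (nat_lit 323))) (XT.nd (nat_lit 78) (nat_lit 0) (nat_lit 0) (XT.lf (nat_lit 0) (nat_lit 7857611648) (nat_lit 1824) (nat_lit 13129182180) (nat_lit 1900) (nat_lit 7991473490) (nat_lit 469) (nat_lit 5) (nat_lit 493) (nat_lit 5) (nat_lit 494) (nat_lit 5) (nat_lit 625) (nat_lit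 613) (nat_lit 322)) (XT.nd (nat_lit 78) (nat_lit 0) (nat_lit 76) (XT.lf (nat_lit 76) (nat_lit 1755768141) (nat_lit 0) (nat_lit 7409775429) (nat_lit 1900) (nat_lit 20112367310) (nat_lit 470) (nat_lit 5) (nat_lit 469) (nat_lit 5) (nat_lit 494) (nat_lit 5) (nat_lit 626) (nat_lit 613) (nat_lit 321)) (XT.lf (nat_lit 0) (nat_lit 10628036213) (nat_lit 1824) (nat_lit 12509288535) (nat_lit 1900) (nat_lit 6443654712) (nat_lit 470) (nat_lit 5) (nat_lit 494) (nat_lit 5) (nat_lit 495) (nat_lit 5) (nat_lit 627) (nat_lit 613) (nat_lit 320))))) (XT.nd (nat_lit 156) (nat_lit 0) (nat_lit 76) (XT.nd (nat_lit 78) (nat_lit 0) (nat_lit 76) (XT.lf (nat_lit 76) (nat_lit 2789868506) (nat_lit 0) (nat_lit 9395046258) (nat_lit 1900) (nat_lit 17703892112) (nat_lit 471) (nat_lit 5) (nat_lit 470) (nat_lit 5) (nat_lit 495) (nat_lit 5) (nat_lit 628) (nat_lit 613) (nat_lit 319)) (XT.lf (nat_lit 0) (nat_lit 13885425614) (nat_lit 1824) (nat_lit 11668609070) (nat_lit 1900) (nat_lit 4646506442) (nat_lit 471) (nat_lit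 5) (nat_lit 495) (nat_lit 5) (nat_lit 496) (nat_lit 5) (nat_lit 629) (nat_lit 613) (nat_lit 318))) (XT.nd (nat_lit 78) (nat_lit 0) (nat_lit 76) (XT.lf (nat_lit 76) (nat_lit 4059876545) (nat_lit 0) (nat_lit 11646673204) (nat_lit 1900) (nat_lit 14810228430) (nat_lit 472) (nat_lit 5) (nat_lit 471) (nat_lit 5) (nat_lit 496) (nat_lit 5) (nat_lit 630) (nat_lit 613) (nat_lit 317)) (XT.nd (nat_lit 78) (nat_lit 0) (nat_lit 0) (XT.lf (nat_lit 0) (nat_lit 17657458351) (nat_lit 1824) (nat_lit 10595183257) (nat_lit 1900) (nat_lit 2584831298) (nat_lit 472) (nat_lit 5) (nat_lit 496) (nat_lit 5) (nat_lit 497) (nat_lit 5) (nat_lit 631) (nat_lit 613) (nat_lit 316)) (XT.lf (nat_lit 76) (nat_lit 5578319559) (nat_lit 0) (nat_lit 14180509210) (nat_lit 1900) (nat_lit 11403524057) (nat_lit 473) (nat_lit 5) (nat_lit 472) (nat_lit 5) (nat_lit 497) (nat_lit 5) (nat_lit 632) (nat_lit 613) (nat_lit 315)))))) (XT.nd (nat_lit 390) (nat_lit 3724) (nat_lit 0) (XT.nd (nat_lit 156) (nat_lit 0) (nat_lit 0) (XT.nd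 (nat_lit 78) (nat_lit 0) (nat_lit 0) (XT.lf (nat_lit 0) (nat_lit 21973046015) (nat_lit 1824) (nat_lit 9276500858) (nat_lit 1900) (nat_lit 242767252) (nat_lit 473) (nat_lit 5) (nat_lit 497) (nat_lit 5) (nat_lit 498) (nat_lit 5) (nat_lit 633) (nat_lit 613) (nat_lit 314)) (XT.lf (nat_lit 76) (nat_lit 7358295627) (nat_lit 0) (nat_lit 17013099970) (nat_lit 1900) (nat_lit 7454682255) (nat_lit 474) (nat_lit 5) (nat_lit 473) (nat_lit 5) (nat_lit 498) (nat_lit 5) (nat_lit 634) (nat_lit 613) (nat_lit 313))) (XT.nd (nat_lit 78) (nat_lit 0) (nat_lit 76) (XT.lf (nat_lit 76) (nat_lit 24450061910) (nat_lit 0) (nat_lit 2428089341) (nat_lit 1900) (nat_lit 5287156983) (nat_lit 474) (nat_lit 5) (nat_lit 473) (nat_lit 5) (nat_lit 498) (nat_lit 5) (nat_lit 635) (nat_lit 613) (nat_lit 312)) (XT.nd (nat_lit 78) (nat_lit 0) (nat_lit 0) (XT.lf (nat_lit 76) (nat_lit 9413494743) (nat_lit 0) (nat_lit 20161717186) (nat_lit 1900) (nat_lit 2933308054) (nat_lit 475) (nat_lit 5) (nat_lit 474) (nat_lit 5)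 (nat_lit 499) (nat_lit 5) (nat_lit 636) (nat_lit 613) (nat_lit 311)) (XT.lf (nat_lit 76) (nat_lit 26971628291) (nat_lit 0) (nat_lit 5420584940) (nat_lit 1900) (nat_lit 465062903) (nat_lit 475) (nat_lit 5) (nat_lit 474) (nat_lit 5) (nat_lit 499) (nat_lit 5) (nat_lit 637) (nat_lit 613) (nat_lit 310))))) (XT.nd (nat_lit 156) (nat_lit 1976) (nat_lit 0) (XT.nd (nat_lit 78) (nat_lit 0) (nat_lit 0) (XT.lf (nat_lit 0) (nat_lit 2163594501) (nat_lit 1900) (nat_lit 21466279766) (nat_lit 76) (nat_lit 9580107424) (nat_lit 450) (nat_lit 5) (nat_lit 475) (nat_lit 5) (nat_lit 451) (nat_lit 5) (nat_lit 638) (nat_lit 613) (nat_lit 309)) (XT.lf (nat_lit 0) (nat_lit 4912559484) (nat_lit 1900) (nat_lit 3804261750) (nat_lit 76) (nat_lit 24851379555) (nat_lit 450) (nat_lit 5) (nat_lit 475) (nat_lit 5) (nat_lit 451) (nat_lit 5) (nat_lit 639) (nat_lit 613) (nat_lit 308))) (XT.nd (nat_lit 78) (nat_lit 912) (nat_lit 0) (XT.lf (nat_lit 0) (nat_lit 7851108382) (nat_lit 1140) (nat_lit 19576163083) (nat_lit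 76) (nat_lit 6503620856) (nat_lit 436) (nat_lit 5) (nat_lit 451) (nat_lit 5) (nat_lit 437) (nat_lit 5) (nat_lit 640) (nat_lit 613) (nat_lit 307)) (XT.nd (nat_lit 78) (nat_lit 912) (nat_lit 0) (XT.lf (nat_lit 0) (nat_lit 10930211545) (nat_lit 1140) (nat_lit 1431242175) (nat_lit 76) (nat_lit 21937748438) (nat_lit 436) (nat_lit 5) (nat_lit 451) (nat_lit 5) (nat_lit 437) (nat_lit 5) (nat_lit 641) (nat_lit 613) (nat_lit 306)) (XT.lf (nat_lit 0) (nat_lit 14201883415) (nat_lit 988) (nat_lit 17390884469) (nat_lit 76) (nat_lit 3079490711) (nat_lit 424) (nat_lit 5) (nat_lit 437) (nat_lit 5) (nat_lit 425) (nat_lit 5) (nat_lit 642) (nat_lit 613) (nat_lit 305))))))) (XT.nd (nat_lit 79092) (nat_lit 0) (nat_lit 6536) (XT.nd (nat_lit 390) (nat_lit 912) (nat_lit 0) (XT.nd (nat_lit 156) (nat_lit 1672) (nat_lit 0) (XT.nd (nat_lit 78) (nat_lit 0) (nat_lit 0) (XT.lf (nat_lit 0) (nat_lit 1268285221) (nat_lit 912) (nat_lit 16368883563) (nat_lit 988) (nat_lit 17413643912) (nat_lit 412) (nat_lit 5)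 (nat_lit 424) (nat_lit 5) (nat_lit 425) (nat_lit 5) (nat_lit 643) (nat_lit 613) (nat_lit 304)) (XT.lf (nat_lit 0) (nat_lit 20534905487) (nat_lit 912) (nat_lit 721391504) (nat_lit 988) (nat_lit 14178338277) (nat_lit 412) (nat_lit 5) (nat_lit 424) (nat_lit 5) (nat_lit 425) (nat_lit 5) (nat_lit 644) (nat_lit 613) (nat_lit 303))) (XT.nd (nat_lit 78) (nat_lit 836) (nat_lit 0) (XT.lf (nat_lit 0) (nat_lit 4316925694) (nat_lit 836) (nat_lit 20756318860) (nat_lit 912) (nat_lit 10750381130) (nat_lit 401) (nat_lit 5) (nat_lit 412) (nat_lit 5) (nat_lit 413) (nat_lit 5) (nat_lit 645) (nat_lit 613) (nat_lit 302)) (XT.nd (nat_lit 78) (nat_lit 836) (nat_lit 0) (XT.lf (nat_lit 0) (nat_lit 24113579409) (nat_lit 836) (nat_lit 4956169677) (nat_lit 912) (nat_lit 7148582589) (nat_lit 401) (nat_lit 5) (nat_lit 412) (nat_lit 5) (nat_lit 413) (nat_lit 5) (nat_lit 646) (nat_lit 613) (nat_lit 301)) (XT.lf (nat_lit 0) (nat_lit 7712461605) (nat_lit 836) (nat_lit 25554771501) (nat_lit 912) (nat_lit 3351277817)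 (nat_lit 390) (nat_lit 5) (nat_lit 401) (nat_lit 5) (nat_lit 402) (nat_lit 5) (nat_lit 647) (nat_lit 613) (nat_lit 300))))) (XT.nd (nat_lit 156) (nat_lit 0) (nat_lit 0) (XT.nd (nat_lit 78) (nat_lit 836) (nat_lit 0) (XT.lf (nat_lit 0) (nat_lit 628243584) (nat_lit 912) (nat_lit 8973190744) (nat_lit 76) (nat_lit 27422929442) (nat_lit 389) (nat_lit 5) (nat_lit 401) (nat_lit 5) (nat_lit 390) (nat_lit 5) (nat_lit 648) (nat_lit 613) (nat_lit 299)) (XT.lf (nat_lit 0) (nat_lit 4759602892) (nat_lit 912) (nat_lit 25995063709) (nat_lit 76) (nat_lit 6680881729) (nat_lit 378) (nat_lit 5) (nat_lit 390) (nat_lit 5) (nat_lit 379) (nat_lit 5) (nat_lit 649) (nat_lit 613) (nat_lit 298))) (XT.nd (nat_lit 78390) (nat_lit 0) (nat_lit 6460) (XT.lf (nat_lit 0) (nat_lit 9096363244) (nat_lit 912) (nat_lit 5535134543) (nat_lit 76) (nat_lit 23221003432) (nat_lit 378) (nat_lit 5) (nat_lit 390) (nat_lit 5) (nat_lit 379) (nat_lit 5) (nat_lit 650) (nat_lit 613) (nat_lit 297)) (XT.nd (nat_lit 78) (nat_lit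 0) (nat_lit 0) (XT.lf (nat_lit 0) (nat_lit 127069463) (nat_lit 1900) (nat_lit 6486131093) (nat_lit 1900) (nat_lit 6486131093) (nat_lit 463) (nat_lit 3) (nat_lit 488) (nat_lit 3) (nat_lit 488) (nat_lit 5) (nat_lit 614) (nat_lit 614) (nat_lit 332)) (XT.lf (nat_lit 0) (nat_lit 352877846) (nat_lit 1900) (nat_lit 30760788) (nat_lit 1900) (nat_lit 26075078576) (nat_lit 463) (nat_lit 3) (nat_lit 488) (nat_lit 3) (nat_lit 488) (nat_lit 5) (nat_lit 615) (nat_lit 614) (nat_lit 331)))))) (XT.nd (nat_lit 390) (nat_lit 0) (nat_lit 152) (XT.nd (nat_lit 156) (nat_lit 0) (nat_lit 76) (XT.nd (nat_lit 78) (nat_lit 0) (nat_lit 0) (XT.lf (nat_lit 0) (nat_lit 620844023) (nat_lit 1824) (nat_lit 13462149360) (nat_lit 1900) (nat_lit 12637634000) (nat_lit 464) (nat_lit 5) (nat_lit 488) (nat_lit 5) (nat_lit 489) (nat_lit 5) (nat_lit 616) (nat_lit 614) (nat_lit 330)) (XT.lf (nat_lit 0) (nat_lit 894443659) (nat_lit 1824) (nat_lit 177731279) (nat_lit 1900) (nat_lit 25915595563) (nat_lit 464) (nat_lit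 5) (nat_lit 488) (nat_lit 5) (nat_lit 489) (nat_lit 5) (nat_lit 617) (nat_lit 614) (nat_lit 329))) (XT.nd (nat_lit 78) (nat_lit 0) (nat_lit 0) (XT.lf (nat_lit 0) (nat_lit 1338849932) (nat_lit 1824) (nat_lit 13789579200) (nat_lit 1900) (nat_lit 12128520879) (nat_lit 465) (nat_lit 5) (nat_lit 489) (nat_lit 5) (nat_lit 490) (nat_lit 5) (nat_lit 618) (nat_lit 614) (nat_lit 328)) (XT.nd (nat_lit 78) (nat_lit 0) (nat_lit 76) (XT.lf (nat_lit 0) (nat_lit 1798065766) (nat_lit 1824) (nat_lit 152169902) (nat_lit 1900) (nat_lit 25581159229) (nat_lit 465) (nat_lit 5) (nat_lit 489) (nat_lit 5) (nat_lit 490) (nat_lit 5) (nat_lit 619) (nat_lit 614) (nat_lit 327)) (XT.lf (nat_lit 0) (nat_lit 2429853736) (nat_lit 1824) (nat_lit 13945305400) (nat_lit 1900) (nat_lit 11432902002) (nat_lit 466) (nat_lit 5) (nat_lit 490) (nat_lit 5) (nat_lit 491) (nat_lit 5) (nat_lit 620) (nat_lit 614) (nat_lit 326))))) (XT.nd (nat_lit 234) (nat_lit 0) (nat_lit 152) (XT.nd (nat_lit 78) (nat_lit 0) (nat_lit 76) (XT.lf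 (nat_lit 76) (nat_lit 56244239) (nat_lit 0) (nat_lit 3030052299) (nat_lit 1900) (nat_lit 25003723994) (nat_lit 467) (nat_lit 5) (nat_lit 466) (nat_lit 5) (nat_lit 491) (nat_lit 5) (nat_lit 621) (nat_lit 614) (nat_lit 325)) (XT.nd (nat_lit 78) (nat_lit 0) (nat_lit 0) (XT.lf (nat_lit 0) (nat_lit 3916525685) (nat_lit 1824) (nat_lit 13919630675) (nat_lit 1900) (nat_lit 10538249807) (nat_lit 467) (nat_lit 5) (nat_lit 491) (nat_lit 5) (nat_lit 492) (nat_lit 5) (nat_lit 622) (nat_lit 614) (nat_lit 324)) (XT.lf (nat_lit 76) (nat_lit 461394807) (nat_lit 0) (nat_lit 4322823263) (nat_lit 1900) (nat_lit 23879844472) (nat_lit 468) (nat_lit 5) (nat_lit 467) (nat_lit 5) (nat_lit 492) (nat_lit 5) (nat_lit 623) (nat_lit 614) (nat_lit 323)))) (XT.nd (nat_lit 78) (nat_lit 0) (nat_lit 0) (XT.lf (nat_lit 0) (nat_lit 5822552378) (nat_lit 1824) (nat_lit 13702390398) (nat_lit 1900) (nat_lit 9431503703) (nat_lit 468) (nat_lit 5) (nat_lit 492) (nat_lit 5) (nat_lit 493) (nat_lit 5) (nat_lit 624) (nat_lit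 614) (nat_lit 322)) (XT.nd (nat_lit 78) (nat_lit 0) (nat_lit 76) (XT.lf (nat_lit 76) (nat_lit 1071923637) (nat_lit 0) (nat_lit 5843195572) (nat_lit 1900) (nat_lit 22338889762) (nat_lit 469) (nat_lit 5) (nat_lit 468) (nat_lit 5) (nat_lit 493) (nat_lit 5) (nat_lit 625) (nat_lit 614) (nat_lit 321)) (XT.lf (nat_lit 0) (nat_lit 8172681612) (nat_lit 1824) (nat_lit 13282935542) (nat_lit 1900) (nat_lit 8099042862) (nat_lit 469) (nat_lit 5) (nat_lit 493) (nat_lit 5) (nat_lit 494) (nat_lit 5) (nat_lit 626) (nat_lit 614) (nat_lit 320))))))))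
noncomputable def xc245 : XT := (XT.nd (nat_lit 1560) (nat_lit 1748) (nat_lit 0) (XT.nd (nat_lit 780) (nat_lit 5168) (nat_lit 0) (XT.nd (nat_lit 390) (nat_lit 0) (nat_lit 228) (XT.nd (nat_lit 156) (nat_lit 0) (nat_lit 76) (XT.nd (nat_lit 78) (nat_lit 0) (nat_lit 76) (XT.lf (nat_lit 76) (nat_lit 1898997797) (nat_lit 0) (nat_lit 7605379899) (nat_lit 1900) (nat_lit 20355966923) (nat_lit 470) (nat_lit 5) (nat_lit 469) (nat_lit 5) (nat_lit 494) (nat_lit 5) (nat_lit 627) (nat_lit 614) (nat_lit 319)) (XT.lf (nat_lit 0) (nat_lit 10992768942) (nat_lit 1824) (nat_lit 12650114911) (nat_lit 1900) (nat_lit 6526658018) (nat_lit 470) (nat_lit 5) (nat_lit 494) (nat_lit 5) (nat_lit 495) (nat_lit 5) (nat_lit 628) (nat_lit 614) (nat_lit 318))) (XT.nd (nat_lit 78) (nat_lit 0) (nat_lit 76) (XT.lf (nat_lit 76) (nat_lit 2954305801) (nat_lit 0) (nat_lit 9624200860) (nat_lit 1900) (nat_lit 17905065011) (nat_lit 471) (nat_lit 5) (nat_lit 470) (nat_lit 5) (nat_lit 495) (nat_lit 5) (nat_lit 629) (nat_lit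 614) (nat_lit 317)) (XT.nd (nat_lit 78) (nat_lit 0) (nat_lit 0) (XT.lf (nat_lit 0) (nat_lit 14309826044) (nat_lit 1824) (nat_lit 11792256631) (nat_lit 1900) (nat_lit 4699522230) (nat_lit 471) (nat_lit 5) (nat_lit 495) (nat_lit 5) (nat_lit 496) (nat_lit 5) (nat_lit 630) (nat_lit 614) (nat_lit 316)) (XT.lf (nat_lit 76) (nat_lit 4250076823) (nat_lit 0) (nat_lit 11915127244) (nat_lit 1900) (nat_lit 14959006262) (nat_lit 472) (nat_lit 5) (nat_lit 471) (nat_lit 5) (nat_lit 496) (nat_lit 5) (nat_lit 631) (nat_lit 614) (nat_lit 315))))) (XT.nd (nat_lit 156) (nat_lit 0) (nat_lit 76) (XT.nd (nat_lit 78) (nat_lit 0) (nat_lit 0) (XT.lf (nat_lit 0) (nat_lit 18152070949) (nat_lit 1824) (nat_lit 10697148900) (nat_lit 1900) (nat_lit 2602160554) (nat_lit 472) (nat_lit 5) (nat_lit 496) (nat_lit 5) (nat_lit 497) (nat_lit 5) (nat_lit 632) (nat_lit 614) (nat_lit 314)) (XT.lf (nat_lit 76) (nat_lit 5799100696) (nat_lit 0) (nat_lit 14494303382) (nat_lit 1900) (nat_lit 11489395387) (nat_lit 473) (nat_lit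 5) (nat_lit 472) (nat_lit 5) (nat_lit 497) (nat_lit 5) (nat_lit 633) (nat_lit 614) (nat_lit 313))) (XT.nd (nat_lit 78) (nat_lit 0) (nat_lit 0) (XT.lf (nat_lit 0) (nat_lit 22548980228) (nat_lit 1824) (nat_lit 9352019954) (nat_lit 1900) (nat_lit 218418559) (nat_lit 473) (nat_lit 5) (nat_lit 497) (nat_lit 5) (nat_lit 498) (nat_lit 5) (nat_lit 634) (nat_lit 614) (nat_lit 312)) (XT.nd (nat_lit 78) (nat_lit 0) (nat_lit 0) (XT.lf (nat_lit 76) (nat_lit 7614748704) (nat_lit 0) (nat_lit 17378581716) (nat_lit 1900) (nat_lit 7466566891) (nat_lit 474) (nat_lit 5) (nat_lit 473) (nat_lit 5) (nat_lit 498) (nat_lit 5) (nat_lit 635) (nat_lit 614) (nat_lit 311)) (XT.lf (nat_lit 76) (nat_lit 25046207428) (nat_lit 0) (nat_lit 2501376370) (nat_lit 1900) (nat_lit 5258381486) (nat_lit 474) (nat_lit 5) (nat_lit 473) (nat_lit 5) (nat_lit 498) (nat_lit 5) (nat_lit 636) (nat_lit 614) (nat_lit 310)))))) (XT.nd (nat_lit 390) (nat_lit 2660) (nat_lit 0) (XT.nd (nat_lit 156) (nat_lit 2888) (nat_lit 0) (XT.nd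 (nat_lit 78) (nat_lit 0) (nat_lit 0) (XT.lf (nat_lit 76) (nat_lit 9710995185) (nat_lit 0) (nat_lit 20585556639) (nat_lit 1900) (nat_lit 2859530351) (nat_lit 475) (nat_lit 5) (nat_lit 474) (nat_lit 5) (nat_lit 499) (nat_lit 5) (nat_lit 637) (nat_lit 614) (nat_lit 309)) (XT.lf (nat_lit 76) (nat_lit 27618149628) (nat_lit 0) (nat_lit 5549197727) (nat_lit 1900) (nat_lit 344517235) (nat_lit 475) (nat_lit 5) (nat_lit 474) (nat_lit 5) (nat_lit 499) (nat_lit 5) (nat_lit 638) (nat_lit 614) (nat_lit 308))) (XT.nd (nat_lit 78) (nat_lit 1064) (nat_lit 0) (XT.lf (nat_lit 0) (nat_lit 2333081031) (nat_lit 1900) (nat_lit 21784862422) (nat_lit 76) (nat_lit 9753702747) (nat_lit 450) (nat_lit 5) (nat_lit 475) (nat_lit 5) (nat_lit 451) (nat_lit 5) (nat_lit 639) (nat_lit 614) (nat_lit 307)) (XT.nd (nat_lit 78) (nat_lit 1064) (nat_lit 0) (XT.lf (nat_lit 0) (nat_lit 5134550517) (nat_lit 1900) (nat_lit 3771775476) (nat_lit 76) (nat_lit 25330753395) (nat_lit 450) (nat_lit 5) (nat_lit 475) (nat_lit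 5) (nat_lit 451) (nat_lit 5) (nat_lit 640) (nat_lit 614) (nat_lit 306)) (XT.lf (nat_lit 0) (nat_lit 8130052488) (nat_lit 1140) (nat_lit 19857286518) (nat_lit 76) (nat_lit 6619722310) (nat_lit 436) (nat_lit 5) (nat_lit 451) (nat_lit 5) (nat_lit 437) (nat_lit 5) (nat_lit 641) (nat_lit 614) (nat_lit 305))))) (XT.nd (nat_lit 156) (nat_lit 1748) (nat_lit 0) (XT.nd (nat_lit 78) (nat_lit 912) (nat_lit 0) (XT.lf (nat_lit 0) (nat_lit 11268347088) (nat_lit 1140) (nat_lit 1351631894) (nat_lit 76) (nat_lit 22362806384) (nat_lit 436) (nat_lit 5) (nat_lit 451) (nat_lit 5) (nat_lit 437) (nat_lit 5) (nat_lit 642) (nat_lit 614) (nat_lit 304)) (XT.lf (nat_lit 0) (nat_lit 14603739475) (nat_lit 988) (nat_lit 17628744105) (nat_lit 76) (nat_lit 3130853812) (nat_lit 424) (nat_lit 5) (nat_lit 437) (nat_lit 5) (nat_lit 425) (nat_lit 5) (nat_lit 643) (nat_lit 614) (nat_lit 303))) (XT.nd (nat_lit 78) (nat_lit 836) (nat_lit 0) (XT.lf (nat_lit 0) (nat_lit 1402885570) (nat_lit 912) (nat_lit 16703244039)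 (nat_lit 988) (nat_lit 17643365179) (nat_lit 412) (nat_lit 5) (nat_lit 424) (nat_lit 5) (nat_lit 425) (nat_lit 5) (nat_lit 644) (nat_lit 614) (nat_lit 302)) (XT.nd (nat_lit 78) (nat_lit 836) (nat_lit 0) (XT.lf (nat_lit 0) (nat_lit 21052696385) (nat_lit 912) (nat_lit 742665221) (nat_lit 988) (nat_lit 14345677973) (nat_lit 412) (nat_lit 5) (nat_lit 424) (nat_lit 5) (nat_lit 425) (nat_lit 5) (nat_lit 645) (nat_lit 614) (nat_lit 301)) (XT.lf (nat_lit 0) (nat_lit 4511969932) (nat_lit 836) (nat_lit 21175106310) (nat_lit 912) (nat_lit 10850765188) (nat_lit 401) (nat_lit 5) (nat_lit 412) (nat_lit 5) (nat_lit 413) (nat_lit 5) (nat_lit 646) (nat_lit 614) (nat_lit 300))))))) (XT.nd (nat_lit 79170) (nat_lit 0) (nat_lit 6688) (XT.nd (nat_lit 78780) (nat_lit 0) (nat_lit 6460) (XT.nd (nat_lit 156) (nat_lit 912) (nat_lit 0) (XT.nd (nat_lit 78) (nat_lit 836) (nat_lit 0) (XT.lf (nat_lit 0) (nat_lit 24702425237) (nat_lit 836) (nat_lit 5058882358) (nat_lit 912) (nat_lit 7179178197) (nat_lit 401)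 (nat_lit 5) (nat_lit 412) (nat_lit 5) (nat_lit 413) (nat_lit 5) (nat_lit 647) (nat_lit 614) (nat_lit 299)) (XT.lf (nat_lit 0) (nat_lit 7974805041) (nat_lit 836) (nat_lit 26066455157) (nat_lit 912) (nat_lit 3307438230) (nat_lit 390) (nat_lit 5) (nat_lit 401) (nat_lit 5) (nat_lit 402) (nat_lit 5) (nat_lit 648) (nat_lit 614) (nat_lit 298))) (XT.nd (nat_lit 78) (nat_lit 836) (nat_lit 0) (XT.lf (nat_lit 0) (nat_lit 748074267) (nat_lit 912) (nat_lit 9045245630) (nat_lit 76) (nat_lit 27969377120) (nat_lit 389) (nat_lit 5) (nat_lit 401) (nat_lit 5) (nat_lit 390) (nat_lit 5) (nat_lit 649) (nat_lit 614) (nat_lit 297)) (XT.nd (nat_lit 78468) (nat_lit 0) (nat_lit 6460) (XT.lf (nat_lit 0) (nat_lit 4960655791) (nat_lit 912) (nat_lit 26406142543) (nat_lit 76) (nat_lit 6815335205) (nat_lit 378) (nat_lit 5) (nat_lit 390) (nat_lit 5) (nat_lit 379) (nat_lit 5) (nat_lit 650) (nat_lit 614) (nat_lit 296)) (XT.lf (nat_lit 0) (nat_lit 225183805) (nat_lit 1900) (nat_lit 6567107153) (nat_lit 1900)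 (nat_lit 6567107153) (nat_lit 463) (nat_lit 3) (nat_lit 488) (nat_lit 3) (nat_lit 488) (nat_lit 5) (nat_lit 615) (nat_lit 615) (nat_lit 330))))) (XT.nd (nat_lit 156) (nat_lit 0) (nat_lit 76) (XT.nd (nat_lit 78) (nat_lit 0) (nat_lit 76) (XT.lf (nat_lit 76) (nat_lit 65058746) (nat_lit 0) (nat_lit 482697008) (nat_lit 1900) (nat_lit 26436362312) (nat_lit 464) (nat_lit 5) (nat_lit 463) (nat_lit 3) (nat_lit 488) (nat_lit 5) (nat_lit 616) (nat_lit 615) (nat_lit 329)) (XT.lf (nat_lit 0) (nat_lit 817020515) (nat_lit 1824) (nat_lit 13632155771) (nat_lit 1900) (nat_lit 12802171705) (nat_lit 464) (nat_lit 5) (nat_lit 488) (nat_lit 5) (nat_lit 489) (nat_lit 5) (nat_lit 617) (nat_lit 615) (nat_lit 328))) (XT.nd (nat_lit 78) (nat_lit 0) (nat_lit 76) (XT.lf (nat_lit 0) (nat_lit 1092489014) (nat_lit 1824) (nat_lit 83995143) (nat_lit 1900) (nat_lit 26347422206) (nat_lit 464) (nat_lit 5) (nat_lit 488) (nat_lit 5) (nat_lit 489) (nat_lit 5) (nat_lit 618) (nat_lit 615) (nat_lit 327)) (XT.nd (nat_lit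 78) (nat_lit 0) (nat_lit 0) (XT.lf (nat_lit 0) (nat_lit 1542355139) (nat_lit 1824) (nat_lit 13964635652) (nat_lit 1900) (nat_lit 12291547559) (nat_lit 465) (nat_lit 5) (nat_lit 489) (nat_lit 5) (nat_lit 490) (nat_lit 5) (nat_lit 619) (nat_lit 615) (nat_lit 326)) (XT.lf (nat_lit 0) (nat_lit 2007290031) (nat_lit 1824) (nat_lit 56453367) (nat_lit 1900) (nat_lit 26014798358) (nat_lit 465) (nat_lit 5) (nat_lit 489) (nat_lit 5) (nat_lit 490) (nat_lit 5) (nat_lit 620) (nat_lit 615) (nat_lit 325)))))) (XT.nd (nat_lit 390) (nat_lit 0) (nat_lit 152) (XT.nd (nat_lit 156) (nat_lit 0) (nat_lit 76) (XT.nd (nat_lit 78) (nat_lit 0) (nat_lit 0) (XT.lf (nat_lit 0) (nat_lit 2648483424) (nat_lit 1824) (nat_lit 14122205767) (nat_lit 1900) (nat_lit 11590117046) (nat_lit 466) (nat_lit 5) (nat_lit 490) (nat_lit 5) (nat_lit 491) (nat_lit 5) (nat_lit 621) (nat_lit 615) (nat_lit 324)) (XT.lf (nat_lit 76) (nat_lit 158703775) (nat_lit 0) (nat_lit 3156675266) (nat_lit 1900) (nat_lit 25333079602) (nat_lit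 467) (nat_lit 5) (nat_lit 466) (nat_lit 5) (nat_lit 491) (nat_lit 5) (nat_lit 622) (nat_lit 615) (nat_lit 323))) (XT.nd (nat_lit 78) (nat_lit 0) (nat_lit 0) (XT.lf (nat_lit 0) (nat_lit 4158511016) (nat_lit 1824) (nat_lit 14094958966) (nat_lit 1900) (nat_lit 10685136340) (nat_lit 467) (nat_lit 5) (nat_lit 491) (nat_lit 5) (nat_lit 492) (nat_lit 5) (nat_lit 623) (nat_lit 615) (nat_lit 322)) (XT.nd (nat_lit 78) (nat_lit 0) (nat_lit 76) (XT.lf (nat_lit 76) (nat_lit 573008971) (nat_lit 0) (nat_lit 4468004119) (nat_lit 1900) (nat_lit 24193093909) (nat_lit 468) (nat_lit 5) (nat_lit 467) (nat_lit 5) (nat_lit 492) (nat_lit 5) (nat_lit 624) (nat_lit 615) (nat_lit 321)) (XT.lf (nat_lit 0) (nat_lit 6096581251) (nat_lit 1824) (nat_lit 13872512384) (nat_lit 1900) (nat_lit 9563315924) (nat_lit 468) (nat_lit 5) (nat_lit 492) (nat_lit 5) (nat_lit 493) (nat_lit 5) (nat_lit 625) (nat_lit 615) (nat_lit 320))))) (XT.nd (nat_lit 234) (nat_lit 0) (nat_lit 152) (XT.nd (nat_lit 78) (nat_lit 0) (nat_lit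 76) (XT.lf (nat_lit 76) (nat_lit 1196604209) (nat_lit 0) (nat_lit 6011975764) (nat_lit 1900) (nat_lit 22627391996) (nat_lit 469) (nat_lit 5) (nat_lit 468) (nat_lit 5) (nat_lit 493) (nat_lit 5) (nat_lit 626) (nat_lit 615) (nat_lit 319)) (XT.nd (nat_lit 78) (nat_lit 0) (nat_lit 0) (XT.lf (nat_lit 0) (nat_lit 8487920837) (nat_lit 1824) (nat_lit 13443989983) (nat_lit 1900) (nat_lit 8210792946) (nat_lit 469) (nat_lit 5) (nat_lit 493) (nat_lit 5) (nat_lit 494) (nat_lit 5) (nat_lit 627) (nat_lit 615) (nat_lit 318)) (XT.lf (nat_lit 76) (nat_lit 2040893837) (nat_lit 0) (nat_lit 7803055510) (nat_lit 1900) (nat_lit 20610599013) (nat_lit 470) (nat_lit 5) (nat_lit 469) (nat_lit 5) (nat_lit 494) (nat_lit 5) (nat_lit 628) (nat_lit 615) (nat_lit 317)))) (XT.nd (nat_lit 78) (nat_lit 0) (nat_lit 0) (XT.lf (nat_lit 0) (nat_lit 11358887300) (nat_lit 1824) (nat_lit 12798004373) (nat_lit 1900) (nat_lit 6613102570) (nat_lit 470) (nat_lit 5) (nat_lit 494) (nat_lit 5) (nat_lit 495) (nat_lit 5) (nat_lit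 629) (nat_lit 615) (nat_lit 316)) (XT.nd (nat_lit 78) (nat_lit 0) (nat_lit 76) (XT.lf (nat_lit 76) (nat_lit 3117813221) (nat_lit 0) (nat_lit 9856336624) (nat_lit 1900) (nat_lit 18116198853) (nat_lit 471) (nat_lit 5) (nat_lit 470) (nat_lit 5) (nat_lit 495) (nat_lit 5) (nat_lit 630) (nat_lit 615) (nat_lit 315)) (XT.lf (nat_lit 0) (nat_lit 14737018256) (nat_lit 1824) (nat_lit 11922637885) (nat_lit 1900) (nat_lit 4755148256) (nat_lit 471) (nat_lit 5) (nat_lit 495) (nat_lit 5) (nat_lit 496) (nat_lit 5) (nat_lit 631) (nat_lit 615) (nat_lit 314))))))))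
noncomputable def xc246 : XT := (XT.nd (nat_lit 80106) (nat_lit 0) (nat_lit 5624) (XT.nd (nat_lit 780) (nat_lit 4560) (nat_lit 0) (XT.nd (nat_lit 390) (nat_lit 1596) (nat_lit 0) (XT.nd (nat_lit 156) (nat_lit 0) (nat_lit 76) (XT.nd (nat_lit 78) (nat_lit 0) (nat_lit 76) (XT.lf (nat_lit 76) (nat_lit 4439848397) (nat_lit 0) (nat_lit 12187571057) (nat_lit 1900) (nat_lit 15116484411) (nat_lit 472) (nat_lit 5) (nat_lit 471) (nat_lit 5) (nat_lit 496) (nat_lit 5) (nat_lit 632) (nat_lit 615) (nat_lit 313)) (XT.lf (nat_lit 0) (nat_lit 18651082603) (nat_lit 1824) (nat_lit 10805422882) (nat_lit 1900) (nat_lit 2621170922) (nat_lit 472) (nat_lit 5) (nat_lit 496) (nat_lit 5) (nat_lit 497) (nat_lit 5) (nat_lit 633) (nat_lit 615) (nat_lit 312))) (XT.nd (nat_lit 78) (nat_lit 0) (nat_lit 76) (XT.lf (nat_lit 76) (nat_lit 6020056515) (nat_lit 0) (nat_lit 14813201355) (nat_lit 1900) (nat_lit 11582505909) (nat_lit 473) (nat_lit 5) (nat_lit 472) (nat_lit 5) (nat_lit 497) (nat_lit 5) (nat_lit 634)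 (nat_lit 615) (nat_lit 311)) (XT.nd (nat_lit 78) (nat_lit 0) (nat_lit 0) (XT.lf (nat_lit 0) (nat_lit 23131133701) (nat_lit 1824) (nat_lit 9433321291) (nat_lit 1900) (nat_lit 194716921) (nat_lit 473) (nat_lit 5) (nat_lit 497) (nat_lit 5) (nat_lit 498) (nat_lit 5) (nat_lit 635) (nat_lit 615) (nat_lit 310)) (XT.lf (nat_lit 76) (nat_lit 7872087088) (nat_lit 0) (nat_lit 17750393783) (nat_lit 1900) (nat_lit 7484017213) (nat_lit 474) (nat_lit 5) (nat_lit 473) (nat_lit 5) (nat_lit 498) (nat_lit 5) (nat_lit 636) (nat_lit 615) (nat_lit 309))))) (XT.nd (nat_lit 156) (nat_lit 1748) (nat_lit 0) (XT.nd (nat_lit 78) (nat_lit 0) (nat_lit 76) (XT.lf (nat_lit 76) (nat_lit 25650115312) (nat_lit 0) (nat_lit 2575169027) (nat_lit 1900) (nat_lit 5234254002) (nat_lit 474) (nat_lit 5) (nat_lit 473) (nat_lit 5) (nat_lit 498) (nat_lit 5) (nat_lit 637) (nat_lit 615) (nat_lit 308)) (XT.lf (nat_lit 76) (nat_lit 10010204080) (nat_lit 0) (nat_lit 21017072760) (nat_lit 1900) (nat_lit 2789420050) (nat_lit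 475) (nat_lit 5) (nat_lit 474) (nat_lit 5) (nat_lit 499) (nat_lit 5) (nat_lit 638) (nat_lit 615) (nat_lit 307))) (XT.nd (nat_lit 78) (nat_lit 1824) (nat_lit 0) (XT.lf (nat_lit 76) (nat_lit 28273443005) (nat_lit 0) (nat_lit 5679598336) (nat_lit 1900) (nat_lit 226602768) (nat_lit 475) (nat_lit 5) (nat_lit 474) (nat_lit 5) (nat_lit 499) (nat_lit 5) (nat_lit 639) (nat_lit 615) (nat_lit 306)) (XT.nd (nat_lit 78) (nat_lit 0) (nat_lit 0) (XT.lf (nat_lit 0) (nat_lit 2501056223) (nat_lit 1900) (nat_lit 22114117014) (nat_lit 76) (nat_lit 9931469202) (nat_lit 450) (nat_lit 5) (nat_lit 475) (nat_lit 5) (nat_lit 451) (nat_lit 5) (nat_lit 640) (nat_lit 615) (nat_lit 305)) (XT.lf (nat_lit 0) (nat_lit 5356176402) (nat_lit 1900) (nat_lit 3742855440) (nat_lit 76) (nat_lit 25820400229) (nat_lit 450) (nat_lit 5) (nat_lit 475) (nat_lit 5) (nat_lit 451) (nat_lit 5) (nat_lit 641) (nat_lit 615) (nat_lit 304)))))) (XT.nd (nat_lit 390) (nat_lit 1672) (nat_lit 0) (XT.nd (nat_lit 156) (nat_lit 1824)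 (nat_lit 0) (XT.nd (nat_lit 78) (nat_lit 0) (nat_lit 0) (XT.lf (nat_lit 0) (nat_lit 8409841098) (nat_lit 1140) (nat_lit 20148319382) (nat_lit 76) (nat_lit 6738688303) (nat_lit 436) (nat_lit 5) (nat_lit 451) (nat_lit 5) (nat_lit 437) (nat_lit 5) (nat_lit 642) (nat_lit 615) (nat_lit 303)) (XT.lf (nat_lit 0) (nat_lit 11608603795) (nat_lit 1140) (nat_lit 1274632310) (nat_lit 76) (nat_lit 22796897362) (nat_lit 436) (nat_lit 5) (nat_lit 451) (nat_lit 5) (nat_lit 437) (nat_lit 5) (nat_lit 643) (nat_lit 615) (nat_lit 302))) (XT.nd (nat_lit 78) (nat_lit 912) (nat_lit 0) (XT.lf (nat_lit 0) (nat_lit 15009057623) (nat_lit 988) (nat_lit 17875630740) (nat_lit 76) (nat_lit 3183641290) (nat_lit 424) (nat_lit 5) (nat_lit 437) (nat_lit 5) (nat_lit 425) (nat_lit 5) (nat_lit 644) (nat_lit 615) (nat_lit 301)) (XT.nd (nat_lit 78) (nat_lit 0) (nat_lit 0) (XT.lf (nat_lit 0) (nat_lit 1535936212) (nat_lit 912) (nat_lit 17044020574) (nat_lit 988) (nat_lit 17882284376) (nat_lit 412) (nat_lit 5) (nat_lit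 424) (nat_lit 5) (nat_lit 425) (nat_lit 5) (nat_lit 645) (nat_lit 615) (nat_lit 300)) (XT.lf (nat_lit 0) (nat_lit 21576684559) (nat_lit 912) (nat_lit 764098579) (nat_lit 988) (nat_lit 14520877702) (nat_lit 412) (nat_lit 5) (nat_lit 424) (nat_lit 5) (nat_lit 425) (nat_lit 5) (nat_lit 646) (nat_lit 615) (nat_lit 299))))) (XT.nd (nat_lit 156) (nat_lit 836) (nat_lit 0) (XT.nd (nat_lit 78) (nat_lit 0) (nat_lit 0) (XT.lf (nat_lit 0) (nat_lit 4706693880) (nat_lit 836) (nat_lit 21602127346) (nat_lit 912) (nat_lit 10957607900) (nat_lit 401) (nat_lit 5) (nat_lit 412) (nat_lit 5) (nat_lit 413) (nat_lit 5) (nat_lit 647) (nat_lit 615) (nat_lit 298)) (XT.lf (nat_lit 0) (nat_lit 25298909573) (nat_lit 836) (nat_lit 5163509917) (nat_lit 912) (nat_lit 7214749416) (nat_lit 401) (nat_lit 5) (nat_lit 412) (nat_lit 5) (nat_lit 413) (nat_lit 5) (nat_lit 648) (nat_lit 615) (nat_lit 297))) (XT.nd (nat_lit 78624) (nat_lit 0) (nat_lit 5548) (XT.lf (nat_lit 0) (nat_lit 8238197916) (nat_lit 836) (nat_lit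 26588349645) (nat_lit 912) (nat_lit 3267026880) (nat_lit 390) (nat_lit 5) (nat_lit 401) (nat_lit 5) (nat_lit 402) (nat_lit 5) (nat_lit 649) (nat_lit 615) (nat_lit 296)) (XT.nd (nat_lit 78) (nat_lit 0) (nat_lit 0) (XT.lf (nat_lit 0) (nat_lit 321549220) (nat_lit 1900) (nat_lit 6651595622) (nat_lit 1900) (nat_lit 6651595622) (nat_lit 463) (nat_lit 3) (nat_lit 488) (nat_lit 3) (nat_lit 488) (nat_lit 5) (nat_lit 616) (nat_lit 616) (nat_lit 328)) (XT.lf (nat_lit 76) (nat_lit 159450772) (nat_lit 0) (nat_lit 579985561) (nat_lit 1900) (nat_lit 26780733166) (nat_lit 464) (nat_lit 5) (nat_lit 463) (nat_lit 3) (nat_lit 488) (nat_lit 5) (nat_lit 617) (nat_lit 616) (nat_lit 327))))))) (XT.nd (nat_lit 780) (nat_lit 0) (nat_lit 380) (XT.nd (nat_lit 390) (nat_lit 0) (nat_lit 152) (XT.nd (nat_lit 156) (nat_lit 0) (nat_lit 76) (XT.nd (nat_lit 78) (nat_lit 0) (nat_lit 0) (XT.lf (nat_lit 0) (nat_lit 1009984927) (nat_lit 1824) (nat_lit 13809415786) (nat_lit 1900) (nat_lit 12973425660) (nat_lit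 464) (nat_lit 5) (nat_lit 488) (nat_lit 5) (nat_lit 489) (nat_lit 5) (nat_lit 618) (nat_lit 616) (nat_lit 326)) (XT.lf (nat_lit 76) (nat_lit 7941956) (nat_lit 0) (nat_lit 1279609189) (nat_lit 1900) (nat_lit 26783353318) (nat_lit 465) (nat_lit 5) (nat_lit 464) (nat_lit 5) (nat_lit 489) (nat_lit 5) (nat_lit 619) (nat_lit 616) (nat_lit 325))) (XT.nd (nat_lit 78) (nat_lit 0) (nat_lit 0) (XT.lf (nat_lit 0) (nat_lit 1743067878) (nat_lit 1824) (nat_lit 14147104901) (nat_lit 1900) (nat_lit 12460923554) (nat_lit 465) (nat_lit 5) (nat_lit 489) (nat_lit 5) (nat_lit 490) (nat_lit 5) (nat_lit 620) (nat_lit 616) (nat_lit 324)) (XT.nd (nat_lit 78) (nat_lit 0) (nat_lit 76) (XT.lf (nat_lit 76) (nat_lit 37838792) (nat_lit 0) (nat_lit 2176377651) (nat_lit 1900) (nat_lit 26422545367) (nat_lit 466) (nat_lit 5) (nat_lit 465) (nat_lit 5) (nat_lit 490) (nat_lit 5) (nat_lit 621) (nat_lit 616) (nat_lit 323)) (XT.lf (nat_lit 0) (nat_lit 2864883132) (nat_lit 1824) (nat_lit 14306605148) (nat_lit 1900)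 (nat_lit 11753250610) (nat_lit 466) (nat_lit 5) (nat_lit 490) (nat_lit 5) (nat_lit 491) (nat_lit 5) (nat_lit 622) (nat_lit 616) (nat_lit 322))))) (XT.nd (nat_lit 156) (nat_lit 0) (nat_lit 76) (XT.nd (nat_lit 78) (nat_lit 0) (nat_lit 76) (XT.lf (nat_lit 76) (nat_lit 259277553) (nat_lit 0) (nat_lit 3283266981) (nat_lit 1900) (nat_lit 25675651544) (nat_lit 467) (nat_lit 5) (nat_lit 466) (nat_lit 5) (nat_lit 491) (nat_lit 5) (nat_lit 623) (nat_lit 616) (nat_lit 321)) (XT.lf (nat_lit 0) (nat_lit 4398981138) (nat_lit 1824) (nat_lit 14277795936) (nat_lit 1900) (nat_lit 10837441083) (nat_lit 467) (nat_lit 5) (nat_lit 491) (nat_lit 5) (nat_lit 492) (nat_lit 5) (nat_lit 624) (nat_lit 616) (nat_lit 320))) (XT.nd (nat_lit 78) (nat_lit 0) (nat_lit 76) (XT.lf (nat_lit 76) (nat_lit 682879635) (nat_lit 0) (nat_lit 4613808253) (nat_lit 1900) (nat_lit 24518990147) (nat_lit 468) (nat_lit 5) (nat_lit 467) (nat_lit 5) (nat_lit 492) (nat_lit 5) (nat_lit 625) (nat_lit 616) (nat_lit 319)) (XT.nd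 (nat_lit 78) (nat_lit 0) (nat_lit 0) (XT.lf (nat_lit 0) (nat_lit 6369971762) (nat_lit 1824) (nat_lit 14050072376) (nat_lit 1900) (nat_lit 9699970695) (nat_lit 468) (nat_lit 5) (nat_lit 492) (nat_lit 5) (nat_lit 493) (nat_lit 5) (nat_lit 626) (nat_lit 616) (nat_lit 318)) (XT.lf (nat_lit 76) (nat_lit 1319769376) (nat_lit 0) (nat_lit 6182115588) (nat_lit 1900) (nat_lit 22927810308) (nat_lit 469) (nat_lit 5) (nat_lit 468) (nat_lit 5) (nat_lit 493) (nat_lit 5) (nat_lit 627) (nat_lit 616) (nat_lit 317)))))) (XT.nd (nat_lit 390) (nat_lit 0) (nat_lit 152) (XT.nd (nat_lit 156) (nat_lit 0) (nat_lit 76) (XT.nd (nat_lit 78) (nat_lit 0) (nat_lit 0) (XT.lf (nat_lit 0) (nat_lit 8803570828) (nat_lit 1824) (nat_lit 13612327424) (nat_lit 1900) (nat_lit 8326728553) (nat_lit 469) (nat_lit 5) (nat_lit 493) (nat_lit 5) (nat_lit 494) (nat_lit 5) (nat_lit 628) (nat_lit 616) (nat_lit 316)) (XT.lf (nat_lit 76) (nat_lit 2181592609) (nat_lit 0) (nat_lit 8002915172) (nat_lit 1900) (nat_lit 20876245010)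 (nat_lit 470) (nat_lit 5) (nat_lit 469) (nat_lit 5) (nat_lit 494) (nat_lit 5) (nat_lit 629) (nat_lit 616) (nat_lit 315))) (XT.nd (nat_lit 78) (nat_lit 0) (nat_lit 0) (XT.lf (nat_lit 0) (nat_lit 11726648457) (nat_lit 1824) (nat_lit 12952933284) (nat_lit 1900) (nat_lit 6702988027) (nat_lit 470) (nat_lit 5) (nat_lit 494) (nat_lit 5) (nat_lit 495) (nat_lit 5) (nat_lit 630) (nat_lit 616) (nat_lit 314)) (XT.nd (nat_lit 78) (nat_lit 0) (nat_lit 76) (XT.lf (nat_lit 76) (nat_lit 3280535983) (nat_lit 0) (nat_lit 10091575377) (nat_lit 1900) (nat_lit 18337262298) (nat_lit 471) (nat_lit 5) (nat_lit 470) (nat_lit 5) (nat_lit 495) (nat_lit 5) (nat_lit 631) (nat_lit 616) (nat_lit 313)) (XT.lf (nat_lit 0) (nat_lit 15167279278) (nat_lit 1824) (nat_lit 12059722054) (nat_lit 1900) (nat_lit 4813376540) (nat_lit 471) (nat_lit 5) (nat_lit 495) (nat_lit 5) (nat_lit 496) (nat_lit 5) (nat_lit 632) (nat_lit 616) (nat_lit 312))))) (XT.nd (nat_lit 234) (nat_lit 0) (nat_lit 152) (XT.nd (nat_lit 78) (nat_lit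 0) (nat_lit 76) (XT.lf (nat_lit 76) (nat_lit 4629347055) (nat_lit 0) (nat_lit 12464138000) (nat_lit 1900) (nat_lit 15282614584) (nat_lit 472) (nat_lit 5) (nat_lit 471) (nat_lit 5) (nat_lit 496) (nat_lit 5) (nat_lit 633) (nat_lit 616) (nat_lit 311)) (XT.nd (nat_lit 78) (nat_lit 0) (nat_lit 0) (XT.lf (nat_lit 0) (nat_lit 19154794599) (nat_lit 1824) (nat_lit 10919965601) (nat_lit 1900) (nat_lit 2641844203) (nat_lit 472) (nat_lit 5) (nat_lit 496) (nat_lit 5) (nat_lit 497) (nat_lit 5) (nat_lit 634) (nat_lit 616) (nat_lit 310)) (XT.lf (nat_lit 76) (nat_lit 6241355189) (nat_lit 0) (nat_lit 15137350721) (nat_lit 1900) (nat_lit 11682785992) (nat_lit 473) (nat_lit 5) (nat_lit 472) (nat_lit 5) (nat_lit 497) (nat_lit 5) (nat_lit 635) (nat_lit 616) (nat_lit 309)))) (XT.nd (nat_lit 78) (nat_lit 0) (nat_lit 0) (XT.lf (nat_lit 0) (nat_lit 23719836603) (nat_lit 1824) (nat_lit 9520354631) (nat_lit 1900) (nat_lit 171631242) (nat_lit 473) (nat_lit 5) (nat_lit 497) (nat_lit 5) (nat_lit 498) (nat_lit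 5) (nat_lit 636) (nat_lit 616) (nat_lit 308)) (XT.nd (nat_lit 78) (nat_lit 0) (nat_lit 0) (XT.lf (nat_lit 76) (nat_lit 8130493277) (nat_lit 0) (nat_lit 18128700807) (nat_lit 1900) (nat_lit 7506937641) (nat_lit 474) (nat_lit 5) (nat_lit 473) (nat_lit 5) (nat_lit 498) (nat_lit 5) (nat_lit 637) (nat_lit 616) (nat_lit 307)) (XT.lf (nat_lit 76) (nat_lit 26262102370) (nat_lit 0) (nat_lit 2649514709) (nat_lit 1900) (nat_lit 5214664654) (nat_lit 474) (nat_lit 5) (nat_lit 473) (nat_lit 5) (nat_lit 498) (nat_lit 5) (nat_lit 638) (nat_lit 616) (nat_lit 306))))))))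
noncomputable def xc247 : XT := (XT.nd (nat_lit 80184) (nat_lit 0) (nat_lit 1748) (XT.nd (nat_lit 780) (nat_lit 0) (nat_lit 0) (XT.nd (nat_lit 390) (nat_lit 2660) (nat_lit 0) (XT.nd (nat_lit 156) (nat_lit 2888) (nat_lit 0) (XT.nd (nat_lit 78) (nat_lit 0) (nat_lit 0) (XT.lf (nat_lit 76) (nat_lit 10311320302) (nat_lit 0) (nat_lit 21456450151) (nat_lit 1900) (nat_lit 2722850792) (nat_lit 475) (nat_lit 5) (nat_lit 474) (nat_lit 5) (nat_lit 499) (nat_lit 5) (nat_lit 639) (nat_lit 616) (nat_lit 305)) (XT.lf (nat_lit 76) (nat_lit 28937845336) (nat_lit 0) (nat_lit 5811852985) (nat_lit 1900) (nat_lit 111176335) (nat_lit 475) (nat_lit 5) (nat_lit 474) (nat_lit 5) (nat_lit 499) (nat_lit 5) (nat_lit 640) (nat_lit 616) (nat_lit 304))) (XT.nd (nat_lit 78) (nat_lit 1064) (nat_lit 0) (XT.lf (nat_lit 0) (nat_lit 2667680166) (nat_lit 1900) (nat_lit 22454089996) (nat_lit 76) (nat_lit 10113463062) (nat_lit 450) (nat_lit 5) (nat_lit 475) (nat_lit 5) (nat_lit 451) (nat_lit 5) (nat_lit 641) (nat_lit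 616) (nat_lit 303)) (XT.nd (nat_lit 78) (nat_lit 1064) (nat_lit 0) (XT.lf (nat_lit 0) (nat_lit 5577616418) (nat_lit 1900) (nat_lit 3717409257) (nat_lit 76) (nat_lit 26320498896) (nat_lit 450) (nat_lit 5) (nat_lit 475) (nat_lit 5) (nat_lit 451) (nat_lit 5) (nat_lit 642) (nat_lit 616) (nat_lit 302)) (XT.lf (nat_lit 0) (nat_lit 8690674945) (nat_lit 1140) (nat_lit 20449293395) (nat_lit 76) (nat_lit 6860555059) (nat_lit 436) (nat_lit 5) (nat_lit 451) (nat_lit 5) (nat_lit 437) (nat_lit 5) (nat_lit 643) (nat_lit 616) (nat_lit 301))))) (XT.nd (nat_lit 156) (nat_lit 1748) (nat_lit 0) (XT.nd (nat_lit 78) (nat_lit 912) (nat_lit 0) (XT.lf (nat_lit 0) (nat_lit 11951204327) (nat_lit 1140) (nat_lit 1200132432) (nat_lit 76) (nat_lit 23240181377) (nat_lit 436) (nat_lit 5) (nat_lit 451) (nat_lit 5) (nat_lit 437) (nat_lit 5) (nat_lit 644) (nat_lit 616) (nat_lit 300)) (XT.lf (nat_lit 0) (nat_lit 15418084757) (nat_lit 988) (nat_lit 18131559110) (nat_lit 76) (nat_lit 3237866214) (nat_lit 424) (nat_lit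 5) (nat_lit 437) (nat_lit 5) (nat_lit 425) (nat_lit 5) (nat_lit 645) (nat_lit 616) (nat_lit 299))) (XT.nd (nat_lit 78) (nat_lit 836) (nat_lit 0) (XT.lf (nat_lit 0) (nat_lit 1667570863) (nat_lit 912) (nat_lit 17391352019) (nat_lit 988) (nat_lit 18130406700) (nat_lit 412) (nat_lit 5) (nat_lit 424) (nat_lit 5) (nat_lit 425) (nat_lit 5) (nat_lit 646) (nat_lit 616) (nat_lit 298)) (XT.nd (nat_lit 78) (nat_lit 836) (nat_lit 0) (XT.lf (nat_lit 0) (nat_lit 22107155433) (nat_lit 912) (nat_lit 785705092) (nat_lit 988) (nat_lit 14703919410) (nat_lit 412) (nat_lit 5) (nat_lit 424) (nat_lit 5) (nat_lit 425) (nat_lit 5) (nat_lit 647) (nat_lit 616) (nat_lit 297)) (XT.lf (nat_lit 0) (nat_lit 4901255043) (nat_lit 836) (nat_lit 22037552159) (nat_lit 912) (nat_lit 11070865602) (nat_lit 401) (nat_lit 5) (nat_lit 412) (nat_lit 5) (nat_lit 413) (nat_lit 5) (nat_lit 648) (nat_lit 616) (nat_lit 296)))))) (XT.nd (nat_lit 79014) (nat_lit 0) (nat_lit 4864) (XT.nd (nat_lit 78780) (nat_lit 0) (nat_lit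 4712) (XT.nd (nat_lit 78702) (nat_lit 0) (nat_lit 4712) (XT.lf (nat_lit 0) (nat_lit 25903345888) (nat_lit 836) (nat_lit 5270096063) (nat_lit 912) (nat_lit 7255226311) (nat_lit 401) (nat_lit 5) (nat_lit 412) (nat_lit 5) (nat_lit 413) (nat_lit 5) (nat_lit 649) (nat_lit 616) (nat_lit 295)) (XT.lf (nat_lit 0) (nat_lit 416274840) (nat_lit 1900) (nat_lit 6739593246) (nat_lit 1900) (nat_lit 6739593246) (nat_lit 463) (nat_lit 3) (nat_lit 488) (nat_lit 3) (nat_lit 488) (nat_lit 5) (nat_lit 617) (nat_lit 617) (nat_lit 326))) (XT.nd (nat_lit 78) (nat_lit 0) (nat_lit 76) (XT.lf (nat_lit 76) (nat_lit 252115808) (nat_lit 0) (nat_lit 675816926) (nat_lit 1900) (nat_lit 27139150220) (nat_lit 464) (nat_lit 5) (nat_lit 463) (nat_lit 3) (nat_lit 488) (nat_lit 5) (nat_lit 618) (nat_lit 617) (nat_lit 325)) (XT.nd (nat_lit 78) (nat_lit 0) (nat_lit 0) (XT.lf (nat_lit 0) (nat_lit 1199950102) (nat_lit 1824) (nat_lit 13993924845) (nat_lit 1900) (nat_lit 13151397173) (nat_lit 464) (nat_lit 5) (nat_lit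 488) (nat_lit 5) (nat_lit 489) (nat_lit 5) (nat_lit 619) (nat_lit 617) (nat_lit 324)) (XT.lf (nat_lit 76) (nat_lit 99176899) (nat_lit 0) (nat_lit 1381153336) (nat_lit 1900) (nat_lit 27148636586) (nat_lit 465) (nat_lit 5) (nat_lit 464) (nat_lit 5) (nat_lit 489) (nat_lit 5) (nat_lit 620) (nat_lit 617) (nat_lit 323))))) (XT.nd (nat_lit 156) (nat_lit 0) (nat_lit 76) (XT.nd (nat_lit 78) (nat_lit 0) (nat_lit 0) (XT.lf (nat_lit 0) (nat_lit 1941198782) (nat_lit 1824) (nat_lit 14336983307) (nat_lit 1900) (nat_lit 12636655907) (nat_lit 465) (nat_lit 5) (nat_lit 489) (nat_lit 5) (nat_lit 490) (nat_lit 5) (nat_lit 621) (nat_lit 617) (nat_lit 322)) (XT.lf (nat_lit 76) (nat_lit 131046998) (nat_lit 0) (nat_lit 2288122213) (nat_lit 1900) (nat_lit 26787099887) (nat_lit 466) (nat_lit 5) (nat_lit 465) (nat_lit 5) (nat_lit 490) (nat_lit 5) (nat_lit 622) (nat_lit 617) (nat_lit 321))) (XT.nd (nat_lit 78) (nat_lit 0) (nat_lit 0) (XT.lf (nat_lit 0) (nat_lit 3079264647) (nat_lit 1824) (nat_lit 14498499713)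 (nat_lit 1900) (nat_lit 11922313337) (nat_lit 466) (nat_lit 5) (nat_lit 490) (nat_lit 5) (nat_lit 491) (nat_lit 5) (nat_lit 623) (nat_lit 617) (nat_lit 320)) (XT.nd (nat_lit 78) (nat_lit 0) (nat_lit 76) (XT.lf (nat_lit 76) (nat_lit 358080658) (nat_lit 0) (nat_lit 3409926370) (nat_lit 1900) (nat_lit 26031446725) (nat_lit 467) (nat_lit 5) (nat_lit 466) (nat_lit 5) (nat_lit 491) (nat_lit 5) (nat_lit 624) (nat_lit 617) (nat_lit 319)) (XT.lf (nat_lit 0) (nat_lit 4638152516) (nat_lit 1824) (nat_lit 14468136352) (nat_lit 1900) (nat_lit 10995176079) (nat_lit 467) (nat_lit 5) (nat_lit 491) (nat_lit 5) (nat_lit 492) (nat_lit 5) (nat_lit 625) (nat_lit 617) (nat_lit 318))))))) (XT.nd (nat_lit 780) (nat_lit 3268) (nat_lit 0) (XT.nd (nat_lit 390) (nat_lit 0) (nat_lit 228) (XT.nd (nat_lit 156) (nat_lit 0) (nat_lit 76) (XT.nd (nat_lit 78) (nat_lit 0) (nat_lit 76) (XT.lf (nat_lit 76) (nat_lit 791126313) (nat_lit 0) (nat_lit 4760336679) (nat_lit 1900) (nat_lit 24857538308) (nat_lit 468) (nat_lit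 5) (nat_lit 467) (nat_lit 5) (nat_lit 492) (nat_lit 5) (nat_lit 626) (nat_lit 617) (nat_lit 317)) (XT.lf (nat_lit 0) (nat_lit 6642948750) (nat_lit 1824) (nat_lit 14235062428) (nat_lit 1900) (nat_lit 9841479195) (nat_lit 468) (nat_lit 5) (nat_lit 492) (nat_lit 5) (nat_lit 493) (nat_lit 5) (nat_lit 627) (nat_lit 617) (nat_lit 316))) (XT.nd (nat_lit 78) (nat_lit 0) (nat_lit 76) (XT.lf (nat_lit 76) (nat_lit 1441544504) (nat_lit 0) (nat_lit 6353720518) (nat_lit 1900) (nat_lit 23240144361) (nat_lit 469) (nat_lit 5) (nat_lit 468) (nat_lit 5) (nat_lit 493) (nat_lit 5) (nat_lit 628) (nat_lit 617) (nat_lit 315)) (XT.nd (nat_lit 78) (nat_lit 0) (nat_lit 0) (XT.lf (nat_lit 0) (nat_lit 9119868670) (nat_lit 1824) (nat_lit 13787935796) (nat_lit 1900) (nat_lit 8446857653) (nat_lit 469) (nat_lit 5) (nat_lit 493) (nat_lit 5) (nat_lit 494) (nat_lit 5) (nat_lit 629) (nat_lit 617) (nat_lit 314)) (XT.lf (nat_lit 76) (nat_lit 2321226860) (nat_lit 0) (nat_lit 8205071277) (nat_lit 1900) (nat_lit 21152895264)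 (nat_lit 470) (nat_lit 5) (nat_lit 469) (nat_lit 5) (nat_lit 494) (nat_lit 5) (nat_lit 630) (nat_lit 617) (nat_lit 313))))) (XT.nd (nat_lit 156) (nat_lit 0) (nat_lit 76) (XT.nd (nat_lit 78) (nat_lit 0) (nat_lit 0) (XT.lf (nat_lit 0) (nat_lit 12096305811) (nat_lit 1824) (nat_lit 13114883937) (nat_lit 1900) (nat_lit 6796316728) (nat_lit 470) (nat_lit 5) (nat_lit 494) (nat_lit 5) (nat_lit 495) (nat_lit 5) (nat_lit 631) (nat_lit 617) (nat_lit 312)) (XT.lf (nat_lit 76) (nat_lit 3442615847) (nat_lit 0) (nat_lit 10330038969) (nat_lit 1900) (nat_lit 18568232330) (nat_lit 471) (nat_lit 5) (nat_lit 470) (nat_lit 5) (nat_lit 495) (nat_lit 5) (nat_lit 632) (nat_lit 617) (nat_lit 311))) (XT.nd (nat_lit 78) (nat_lit 0) (nat_lit 0) (XT.lf (nat_lit 0) (nat_lit 15600883088) (nat_lit 1824) (nat_lit 12203484173) (nat_lit 1900) (nat_lit 4874201278) (nat_lit 471) (nat_lit 5) (nat_lit 495) (nat_lit 5) (nat_lit 496) (nat_lit 5) (nat_lit 633) (nat_lit 617) (nat_lit 310)) (XT.nd (nat_lit 78) (nat_lit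 0) (nat_lit 76) (XT.lf (nat_lit 76) (nat_lit 4818725316) (nat_lit 0) (nat_lit 12744962015) (nat_lit 1900) (nat_lit 15457356153) (nat_lit 472) (nat_lit 5) (nat_lit 471) (nat_lit 5) (nat_lit 496) (nat_lit 5) (nat_lit 634) (nat_lit 617) (nat_lit 309)) (XT.lf (nat_lit 0) (nat_lit 19663505970) (nat_lit 1824) (nat_lit 11040743095) (nat_lit 1900) (nat_lit 2664163846) (nat_lit 472) (nat_lit 5) (nat_lit 496) (nat_lit 5) (nat_lit 497) (nat_lit 5) (nat_lit 635) (nat_lit 617) (nat_lit 308)))))) (XT.nd (nat_lit 390) (nat_lit 3648) (nat_lit 0) (XT.nd (nat_lit 156) (nat_lit 0) (nat_lit 76) (XT.nd (nat_lit 78) (nat_lit 0) (nat_lit 76) (XT.lf (nat_lit 76) (nat_lit 6463161862) (nat_lit 0) (nat_lit 15466900252) (nat_lit 1900) (nat_lit 11790172934) (nat_lit 473) (nat_lit 5) (nat_lit 472) (nat_lit 5) (nat_lit 497) (nat_lit 5) (nat_lit 636) (nat_lit 617) (nat_lit 307)) (XT.lf (nat_lit 0) (nat_lit 24315417714) (nat_lit 1824) (nat_lit 9613075175) (nat_lit 1900) (nat_lit 149131517) (nat_lit 473) (nat_lit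 5) (nat_lit 497) (nat_lit 5) (nat_lit 498) (nat_lit 5) (nat_lit 637) (nat_lit 617) (nat_lit 306))) (XT.nd (nat_lit 78) (nat_lit 0) (nat_lit 0) (XT.lf (nat_lit 76) (nat_lit 8390147017) (nat_lit 0) (nat_lit 18513669236) (nat_lit 1900) (nat_lit 7535238720) (nat_lit 474) (nat_lit 5) (nat_lit 473) (nat_lit 5) (nat_lit 498) (nat_lit 5) (nat_lit 638) (nat_lit 617) (nat_lit 305)) (XT.nd (nat_lit 78) (nat_lit 0) (nat_lit 76) (XT.lf (nat_lit 76) (nat_lit 26882485471) (nat_lit 0) (nat_lit 2724460311) (nat_lit 1900) (nat_lit 5199509248) (nat_lit 474) (nat_lit 5) (nat_lit 473) (nat_lit 5) (nat_lit 498) (nat_lit 5) (nat_lit 639) (nat_lit 617) (nat_lit 304)) (XT.lf (nat_lit 76) (nat_lit 10614540308) (nat_lit 0) (nat_lit 21903875901) (nat_lit 1900) (nat_lit 2659701446) (nat_lit 475) (nat_lit 5) (nat_lit 474) (nat_lit 5) (nat_lit 499) (nat_lit 5) (nat_lit 640) (nat_lit 617) (nat_lit 303))))) (XT.nd (nat_lit 234) (nat_lit 1900) (nat_lit 0) (XT.nd (nat_lit 78) (nat_lit 0) (nat_lit 76) (XT.lf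 (nat_lit 0) (nat_lit 1875567) (nat_lit 1900) (nat_lit 5944139879) (nat_lit 1976) (nat_lit 29609805854) (nat_lit 449) (nat_lit 5) (nat_lit 474) (nat_lit 5) (nat_lit 475) (nat_lit 5) (nat_lit 641) (nat_lit 617) (nat_lit 302)) (XT.nd (nat_lit 78) (nat_lit 0) (nat_lit 0) (XT.lf (nat_lit 0) (nat_lit 2833108758) (nat_lit 1900) (nat_lit 22804835235) (nat_lit 76) (nat_lit 10299742777) (nat_lit 450) (nat_lit 5) (nat_lit 475) (nat_lit 5) (nat_lit 451) (nat_lit 5) (nat_lit 642) (nat_lit 617) (nat_lit 301)) (XT.lf (nat_lit 0) (nat_lit 5799046186) (nat_lit 1900) (nat_lit 3695349049) (nat_lit 76) (nat_lit 26831232848) (nat_lit 450) (nat_lit 5) (nat_lit 475) (nat_lit 5) (nat_lit 451) (nat_lit 5) (nat_lit 643) (nat_lit 617) (nat_lit 300)))) (XT.nd (nat_lit 78) (nat_lit 912) (nat_lit 0) (XT.lf (nat_lit 0) (nat_lit 8972751636) (nat_lit 1140) (nat_lit 20760247377) (nat_lit 76) (nat_lit 6985360346) (nat_lit 436) (nat_lit 5) (nat_lit 451) (nat_lit 5) (nat_lit 437) (nat_lit 5) (nat_lit 644) (nat_lit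 617) (nat_lit 299)) (XT.nd (nat_lit 78) (nat_lit 912) (nat_lit 0) (XT.lf (nat_lit 0) (nat_lit 12296368798) (nat_lit 1140) (nat_lit 1128025388) (nat_lit 76) (nat_lit 23692822441) (nat_lit 436) (nat_lit 5) (nat_lit 451) (nat_lit 5) (nat_lit 437) (nat_lit 5) (nat_lit 645) (nat_lit 617) (nat_lit 298)) (XT.lf (nat_lit 0) (nat_lit 15831065812) (nat_lit 988) (nat_lit 18396550688) (nat_lit 76) (nat_lit 3293542509) (nat_lit 424) (nat_lit 5) (nat_lit 437) (nat_lit 5) (nat_lit 425) (nat_lit 5) (nat_lit 646) (nat_lit 617) (nat_lit 297))))))))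
noncomputable def xc248 : XT := (XT.nd (nat_lit 80340) (nat_lit 0) (nat_lit 0) (XT.nd (nat_lit 79560) (nat_lit 0) (nat_lit 4180) (XT.nd (nat_lit 79170) (nat_lit 0) (nat_lit 3952) (XT.nd (nat_lit 78936) (nat_lit 0) (nat_lit 3876) (XT.nd (nat_lit 78) (nat_lit 0) (nat_lit 0) (XT.lf (nat_lit 0) (nat_lit 1797919519) (nat_lit 912) (nat_lit 17745379590) (nat_lit 988) (nat_lit 18387744397) (nat_lit 412) (nat_lit 5) (nat_lit 424) (nat_lit 5) (nat_lit 425) (nat_lit 5) (nat_lit 647) (nat_lit 617) (nat_lit 296)) (XT.lf (nat_lit 0) (nat_lit 22644393873) (nat_lit 912) (nat_lit 807498146) (nat_lit 988) (nat_lit 14894791487) (nat_lit 412) (nat_lit 5) (nat_lit 424) (nat_lit 5) (nat_lit 425) (nat_lit 5) (nat_lit 648) (nat_lit 617) (nat_lit 295))) (XT.nd (nat_lit 78) (nat_lit 0) (nat_lit 0) (XT.lf (nat_lit 0) (nat_lit 509466384) (nat_lit 1900) (nat_lit 6831099559) (nat_lit 1900) (nat_lit 6831099559) (nat_lit 463) (nat_lit 3) (nat_lit 488) (nat_lit 3) (nat_lit 488) (nat_lit 5) (nat_lit 618) (nat_lit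 618) (nat_lit 324)) (XT.nd (nat_lit 78) (nat_lit 0) (nat_lit 76) (XT.lf (nat_lit 76) (nat_lit 343159682) (nat_lit 0) (nat_lit 770294100) (nat_lit 1900) (nat_lit 27511616415) (nat_lit 464) (nat_lit 5) (nat_lit 463) (nat_lit 3) (nat_lit 488) (nat_lit 5) (nat_lit 619) (nat_lit 618) (nat_lit 323)) (XT.lf (nat_lit 0) (nat_lit 1387122381) (nat_lit 1824) (nat_lit 14185684101) (nat_lit 1900) (nat_lit 13336092744) (nat_lit 464) (nat_lit 5) (nat_lit 488) (nat_lit 5) (nat_lit 489) (nat_lit 5) (nat_lit 620) (nat_lit 618) (nat_lit 322))))) (XT.nd (nat_lit 156) (nat_lit 0) (nat_lit 76) (XT.nd (nat_lit 78) (nat_lit 0) (nat_lit 76) (XT.lf (nat_lit 76) (nat_lit 188699946) (nat_lit 0) (nat_lit 1481779059) (nat_lit 1900) (nat_lit 27527841730) (nat_lit 465) (nat_lit 5) (nat_lit 464) (nat_lit 5) (nat_lit 489) (nat_lit 5) (nat_lit 621) (nat_lit 618) (nat_lit 321)) (XT.lf (nat_lit 0) (nat_lit 2136952349) (nat_lit 1824) (nat_lit 14534273059) (nat_lit 1900) (nat_lit 12818756463) (nat_lit 465) (nat_lit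 5) (nat_lit 489) (nat_lit 5) (nat_lit 490) (nat_lit 5) (nat_lit 622) (nat_lit 618) (nat_lit 320))) (XT.nd (nat_lit 78) (nat_lit 0) (nat_lit 76) (XT.lf (nat_lit 76) (nat_lit 222529367) (nat_lit 0) (nat_lit 2399452717) (nat_lit 1900) (nat_lit 27165309793) (nat_lit 466) (nat_lit 5) (nat_lit 465) (nat_lit 5) (nat_lit 490) (nat_lit 5) (nat_lit 623) (nat_lit 618) (nat_lit 319)) (XT.nd (nat_lit 78) (nat_lit 0) (nat_lit 0) (XT.lf (nat_lit 0) (nat_lit 3291834035) (nat_lit 1824) (nat_lit 14697891528) (nat_lit 1900) (nat_lit 12097320268) (nat_lit 466) (nat_lit 5) (nat_lit 490) (nat_lit 5) (nat_lit 491) (nat_lit 5) (nat_lit 624) (nat_lit 618) (nat_lit 318)) (XT.lf (nat_lit 76) (nat_lit 455224541) (nat_lit 0) (nat_lit 3536750474) (nat_lit 1900) (nat_lit 26400482187) (nat_lit 467) (nat_lit 5) (nat_lit 466) (nat_lit 5) (nat_lit 491) (nat_lit 5) (nat_lit 625) (nat_lit 618) (nat_lit 317)))))) (XT.nd (nat_lit 390) (nat_lit 0) (nat_lit 152) (XT.nd (nat_lit 156) (nat_lit 0) (nat_lit 76) (XT.nd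 (nat_lit 78) (nat_lit 0) (nat_lit 0) (XT.lf (nat_lit 0) (nat_lit 4876236361) (nat_lit 1824) (nat_lit 14665980910) (nat_lit 1900) (nat_lit 11158357354) (nat_lit 467) (nat_lit 5) (nat_lit 491) (nat_lit 5) (nat_lit 492) (nat_lit 5) (nat_lit 626) (nat_lit 618) (nat_lit 316)) (XT.lf (nat_lit 76) (nat_lit 897864915) (nat_lit 0) (nat_lit 4907688992) (nat_lit 1900) (nat_lit 25208753241) (nat_lit 468) (nat_lit 5) (nat_lit 467) (nat_lit 5) (nat_lit 492) (nat_lit 5) (nat_lit 627) (nat_lit 618) (nat_lit 315))) (XT.nd (nat_lit 78) (nat_lit 0) (nat_lit 0) (XT.lf (nat_lit 0) (nat_lit 6915732324) (nat_lit 1824) (nat_lit 14427480521) (nat_lit 1900) (nat_lit 9987856151) (nat_lit 468) (nat_lit 5) (nat_lit 492) (nat_lit 5) (nat_lit 493) (nat_lit 5) (nat_lit 628) (nat_lit 618) (nat_lit 314)) (XT.nd (nat_lit 78) (nat_lit 0) (nat_lit 76) (XT.lf (nat_lit 76) (nat_lit 1562051424) (nat_lit 0) (nat_lit 6526895100) (nat_lit 1900) (nat_lit 23564403080) (nat_lit 469) (nat_lit 5) (nat_lit 468) (nat_lit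 5) (nat_lit 493) (nat_lit 5) (nat_lit 629) (nat_lit 618) (nat_lit 313)) (XT.lf (nat_lit 0) (nat_lit 9437047307) (nat_lit 1824) (nat_lit 13970808914) (nat_lit 1900) (nat_lit 8571191317) (nat_lit 469) (nat_lit 5) (nat_lit 493) (nat_lit 5) (nat_lit 494) (nat_lit 5) (nat_lit 630) (nat_lit 618) (nat_lit 312))))) (XT.nd (nat_lit 156) (nat_lit 0) (nat_lit 76) (XT.nd (nat_lit 78) (nat_lit 0) (nat_lit 76) (XT.lf (nat_lit 76) (nat_lit 2459925906) (nat_lit 0) (nat_lit 8409635794) (nat_lit 1900) (nat_lit 21440548856) (nat_lit 470) (nat_lit 5) (nat_lit 469) (nat_lit 5) (nat_lit 494) (nat_lit 5) (nat_lit 631) (nat_lit 618) (nat_lit 311)) (XT.lf (nat_lit 0) (nat_lit 12468109267) (nat_lit 1824) (nat_lit 13283844425) (nat_lit 1900) (nat_lit 6893093640) (nat_lit 470) (nat_lit 5) (nat_lit 494) (nat_lit 5) (nat_lit 495) (nat_lit 5) (nat_lit 632) (nat_lit 618) (nat_lit 310))) (XT.nd (nat_lit 78) (nat_lit 0) (nat_lit 76) (XT.lf (nat_lit 76) (nat_lit 3604191294) (nat_lit 0) (nat_lit 10571849365)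 (nat_lit 1900) (nat_lit 18809094080) (nat_lit 471) (nat_lit 5) (nat_lit 470) (nat_lit 5) (nat_lit 495) (nat_lit 5) (nat_lit 633) (nat_lit 618) (nat_lit 309)) (XT.nd (nat_lit 78) (nat_lit 0) (nat_lit 0) (XT.lf (nat_lit 0) (nat_lit 16038100889) (nat_lit 1824) (nat_lit 12353904950) (nat_lit 1900) (nat_lit 4937618798) (nat_lit 471) (nat_lit 5) (nat_lit 495) (nat_lit 5) (nat_lit 496) (nat_lit 5) (nat_lit 634) (nat_lit 618) (nat_lit 308)) (XT.lf (nat_lit 76) (nat_lit 5008132618) (nat_lit 0) (nat_lit 13030177725) (nat_lit 1900) (nat_lit 15640675976) (nat_lit 472) (nat_lit 5) (nat_lit 471) (nat_lit 5) (nat_lit 496) (nat_lit 5) (nat_lit 635) (nat_lit 618) (nat_lit 307))))))) (XT.nd (nat_lit 780) (nat_lit 1824) (nat_lit 0) (XT.nd (nat_lit 390) (nat_lit 2736) (nat_lit 0) (XT.nd (nat_lit 156) (nat_lit 0) (nat_lit 76) (XT.nd (nat_lit 78) (nat_lit 0) (nat_lit 0) (XT.lf (nat_lit 0) (nat_lit 20177513766) (nat_lit 1824) (nat_lit 11167726913) (nat_lit 1900) (nat_lit 2688114904) (nat_lit 472)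 (nat_lit 5) (nat_lit 496) (nat_lit 5) (nat_lit 497) (nat_lit 5) (nat_lit 636) (nat_lit 618) (nat_lit 306)) (XT.lf (nat_lit 76) (nat_lit 6685638833) (nat_lit 0) (nat_lit 15801999999) (nat_lit 1900) (nat_lit 11904610787) (nat_lit 473) (nat_lit 5) (nat_lit 472) (nat_lit 5) (nat_lit 497) (nat_lit 5) (nat_lit 637) (nat_lit 618) (nat_lit 305))) (XT.nd (nat_lit 78) (nat_lit 0) (nat_lit 0) (XT.lf (nat_lit 0) (nat_lit 24918204710) (nat_lit 1824) (nat_lit 9711443417) (nat_lit 1900) (nat_lit 127188782) (nat_lit 473) (nat_lit 5) (nat_lit 497) (nat_lit 5) (nat_lit 498) (nat_lit 5) (nat_lit 638) (nat_lit 618) (nat_lit 304)) (XT.nd (nat_lit 78) (nat_lit 0) (nat_lit 0) (XT.lf (nat_lit 76) (nat_lit 8651225500) (nat_lit 0) (nat_lit 18905467431) (nat_lit 1900) (nat_lit 7568836926) (nat_lit 474) (nat_lit 5) (nat_lit 473) (nat_lit 5) (nat_lit 498) (nat_lit 5) (nat_lit 639) (nat_lit 618) (nat_lit 303)) (XT.lf (nat_lit 76) (nat_lit 27511581791) (nat_lit 0) (nat_lit 2800052272) (nat_lit 1900) (nat_lit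 5188689072) (nat_lit 474) (nat_lit 5) (nat_lit 473) (nat_lit 5) (nat_lit 498) (nat_lit 5) (nat_lit 640) (nat_lit 618) (nat_lit 302))))) (XT.nd (nat_lit 156) (nat_lit 988) (nat_lit 0) (XT.nd (nat_lit 78) (nat_lit 1900) (nat_lit 0) (XT.lf (nat_lit 76) (nat_lit 10920058334) (nat_lit 0) (nat_lit 22359539682) (nat_lit 1900) (nat_lit 2599855912) (nat_lit 475) (nat_lit 5) (nat_lit 474) (nat_lit 5) (nat_lit 499) (nat_lit 5) (nat_lit 641) (nat_lit 618) (nat_lit 301)) (XT.lf (nat_lit 0) (nat_lit 111282715) (nat_lit 1900) (nat_lit 5970160546) (nat_lit 1976) (nat_lit 30183297641) (nat_lit 449) (nat_lit 5) (nat_lit 474) (nat_lit 5) (nat_lit 475) (nat_lit 5) (nat_lit 642) (nat_lit 618) (nat_lit 300))) (XT.nd (nat_lit 78) (nat_lit 1064) (nat_lit 0) (XT.lf (nat_lit 0) (nat_lit 2997493913) (nat_lit 1900) (nat_lit 23166413907) (nat_lit 76) (nat_lit 10490368980) (nat_lit 450) (nat_lit 5) (nat_lit 475) (nat_lit 5) (nat_lit 451) (nat_lit 5) (nat_lit 643) (nat_lit 618) (nat_lit 299)) (XT.nd (nat_lit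 78) (nat_lit 1064) (nat_lit 0) (XT.lf (nat_lit 0) (nat_lit 6020637874) (nat_lit 1900) (nat_lit 3676591292) (nat_lit 76) (nat_lit 27352790198) (nat_lit 450) (nat_lit 5) (nat_lit 475) (nat_lit 5) (nat_lit 451) (nat_lit 5) (nat_lit 644) (nat_lit 618) (nat_lit 298)) (XT.lf (nat_lit 0) (nat_lit 9256265869) (nat_lit 1140) (nat_lit 21081227135) (nat_lit 76) (nat_lit 7113143470) (nat_lit 436) (nat_lit 5) (nat_lit 451) (nat_lit 5) (nat_lit 437) (nat_lit 5) (nat_lit 645) (nat_lit 618) (nat_lit 297)))))) (XT.nd (nat_lit 79248) (nat_lit 0) (nat_lit 3952) (XT.nd (nat_lit 156) (nat_lit 912) (nat_lit 0) (XT.nd (nat_lit 78) (nat_lit 912) (nat_lit 0) (XT.lf (nat_lit 0) (nat_lit 12644314998) (nat_lit 1140) (nat_lit 1058208260) (nat_lit 76) (nat_lit 24154988613) (nat_lit 436) (nat_lit 5) (nat_lit 451) (nat_lit 5) (nat_lit 437) (nat_lit 5) (nat_lit 646) (nat_lit 618) (nat_lit 296)) (XT.lf (nat_lit 0) (nat_lit 16248243990) (nat_lit 988) (nat_lit 18670633562) (nat_lit 76) (nat_lit 3350684958) (nat_lit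 424) (nat_lit 5) (nat_lit 437) (nat_lit 5) (nat_lit 425) (nat_lit 5) (nat_lit 647) (nat_lit 618) (nat_lit 295))) (XT.nd (nat_lit 78936) (nat_lit 0) (nat_lit 3876) (XT.lf (nat_lit 0) (nat_lit 1927108627) (nat_lit 912) (nat_lit 18106246939) (nat_lit 988) (nat_lit 18654316626) (nat_lit 412) (nat_lit 5) (nat_lit 424) (nat_lit 5) (nat_lit 425) (nat_lit 5) (nat_lit 648) (nat_lit 618) (nat_lit 294)) (XT.nd (nat_lit 78) (nat_lit 0) (nat_lit 0) (XT.lf (nat_lit 0) (nat_lit 601226306) (nat_lit 1900) (nat_lit 6926116829) (nat_lit 1900) (nat_lit 6926116829) (nat_lit 463) (nat_lit 3) (nat_lit 488) (nat_lit 3) (nat_lit 488) (nat_lit 5) (nat_lit 619) (nat_lit 619) (nat_lit 322)) (XT.lf (nat_lit 76) (nat_lit 432684887) (nat_lit 0) (nat_lit 863517010) (nat_lit 1900) (nat_lit 27898145543) (nat_lit 464) (nat_lit 5) (nat_lit 463) (nat_lit 3) (nat_lit 488) (nat_lit 5) (nat_lit 620) (nat_lit 619) (nat_lit 321))))) (XT.nd (nat_lit 234) (nat_lit 0) (nat_lit 76) (XT.nd (nat_lit 78) (nat_lit 0) (nat_lit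 0) (XT.lf (nat_lit 0) (nat_lit 1571701887) (nat_lit 1824) (nat_lit 14384700320) (nat_lit 1900) (nat_lit 13527523968) (nat_lit 464) (nat_lit 5) (nat_lit 488) (nat_lit 5) (nat_lit 489) (nat_lit 5) (nat_lit 621) (nat_lit 619) (nat_lit 320)) (XT.nd (nat_lit 78) (nat_lit 0) (nat_lit 76) (XT.lf (nat_lit 76) (nat_lit 276614188) (nat_lit 0) (nat_lit 1581582515) (nat_lit 1900) (nat_lit 27920990272) (nat_lit 465) (nat_lit 5) (nat_lit 464) (nat_lit 5) (nat_lit 489) (nat_lit 5) (nat_lit 622) (nat_lit 619) (nat_lit 319)) (XT.lf (nat_lit 0) (nat_lit 2330527220) (nat_lit 1824) (nat_lit 14738982055) (nat_lit 1900) (nat_lit 13007241779) (nat_lit 465) (nat_lit 5) (nat_lit 489) (nat_lit 5) (nat_lit 490) (nat_lit 5) (nat_lit 623) (nat_lit 619) (nat_lit 318)))) (XT.nd (nat_lit 78) (nat_lit 0) (nat_lit 76) (XT.lf (nat_lit 76) (nat_lit 312390785) (nat_lit 0) (nat_lit 2510463743) (nat_lit 1900) (nat_lit 27557201061) (nat_lit 466) (nat_lit 5) (nat_lit 465) (nat_lit 5) (nat_lit 490) (nat_lit 5) (nat_lit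 624) (nat_lit 619) (nat_lit 317)) (XT.nd (nat_lit 78) (nat_lit 0) (nat_lit 0) (XT.lf (nat_lit 0) (nat_lit 3502791913) (nat_lit 1824) (nat_lit 14904788441) (nat_lit 1900) (nat_lit 12278290764) (nat_lit 466) (nat_lit 5) (nat_lit 490) (nat_lit 5) (nat_lit 491) (nat_lit 5) (nat_lit 625) (nat_lit 619) (nat_lit 316)) (XT.lf (nat_lit 76) (nat_lit 550817181) (nat_lit 0) (nat_lit 3663834558) (nat_lit 1900) (nat_lit 26782784917) (nat_lit 467) (nat_lit 5) (nat_lit 466) (nat_lit 5) (nat_lit 491) (nat_lit 5) (nat_lit 626) (nat_lit 619) (nat_lit 315))))))))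
noncomputable def xc249 : XT := (XT.nd (nat_lit 1560) (nat_lit 912) (nat_lit 0) (XT.nd (nat_lit 780) (nat_lit 2356) (nat_lit 0) (XT.nd (nat_lit 390) (nat_lit 0) (nat_lit 152) (XT.nd (nat_lit 156) (nat_lit 0) (nat_lit 76) (XT.nd (nat_lit 78) (nat_lit 0) (nat_lit 0) (XT.lf (nat_lit 0) (nat_lit 5113438899) (nat_lit 1824) (nat_lit 14871336121) (nat_lit 1900) (nat_lit 11327004849) (nat_lit 467) (nat_lit 5) (nat_lit 491) (nat_lit 5) (nat_lit 492) (nat_lit 5) (nat_lit 627) (nat_lit 619) (nat_lit 314)) (XT.lf (nat_lit 76) (nat_lit 1003207907) (nat_lit 0) (nat_lit 5055963474) (nat_lit 1900) (nat_lit 25572659338) (nat_lit 468) (nat_lit 5) (nat_lit 467) (nat_lit 5) (nat_lit 492) (nat_lit 5) (nat_lit 628) (nat_lit 619) (nat_lit 313))) (XT.nd (nat_lit 78) (nat_lit 0) (nat_lit 0) (XT.lf (nat_lit 0) (nat_lit 7188538127) (nat_lit 1824) (nat_lit 14627330443) (nat_lit 1900) (nat_lit 10139119784) (nat_lit 468) (nat_lit 5) (nat_lit 492) (nat_lit 5) (nat_lit 493) (nat_lit 5) (nat_lit 629) (nat_lit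 619) (nat_lit 312)) (XT.nd (nat_lit 78) (nat_lit 0) (nat_lit 76) (XT.lf (nat_lit 76) (nat_lit 1681408590) (nat_lit 0) (nat_lit 6701743048) (nat_lit 1900) (nat_lit 23900604474) (nat_lit 469) (nat_lit 5) (nat_lit 468) (nat_lit 5) (nat_lit 493) (nat_lit 5) (nat_lit 630) (nat_lit 619) (nat_lit 311)) (XT.lf (nat_lit 0) (nat_lit 9755335795) (nat_lit 1824) (nat_lit 14160946355) (nat_lit 1900) (nat_lit 8699743661) (nat_lit 469) (nat_lit 5) (nat_lit 493) (nat_lit 5) (nat_lit 494) (nat_lit 5) (nat_lit 631) (nat_lit 619) (nat_lit 310))))) (XT.nd (nat_lit 156) (nat_lit 0) (nat_lit 76) (XT.nd (nat_lit 78) (nat_lit 0) (nat_lit 76) (XT.lf (nat_lit 76) (nat_lit 2597815801) (nat_lit 0) (nat_lit 8616720371) (nat_lit 1900) (nat_lit 21739213435) (nat_lit 470) (nat_lit 5) (nat_lit 469) (nat_lit 5) (nat_lit 494) (nat_lit 5) (nat_lit 632) (nat_lit 619) (nat_lit 309)) (XT.lf (nat_lit 0) (nat_lit 12842305498) (nat_lit 1824) (nat_lit 13459808520) (nat_lit 1900) (nat_lit 6993326310) (nat_lit 470) (nat_lit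 5) (nat_lit 494) (nat_lit 5) (nat_lit 495) (nat_lit 5) (nat_lit 633) (nat_lit 619) (nat_lit 308))) (XT.nd (nat_lit 78) (nat_lit 0) (nat_lit 76) (XT.lf (nat_lit 76) (nat_lit 3765397698) (nat_lit 0) (nat_lit 10817128736) (nat_lit 1900) (nat_lit 19059840651) (nat_lit 471) (nat_lit 5) (nat_lit 470) (nat_lit 5) (nat_lit 495) (nat_lit 5) (nat_lit 634) (nat_lit 619) (nat_lit 307)) (XT.nd (nat_lit 78) (nat_lit 0) (nat_lit 0) (XT.lf (nat_lit 0) (nat_lit 16479201372) (nat_lit 1824) (nat_lit 12510970643) (nat_lit 1900) (nat_lit 5003627513) (nat_lit 471) (nat_lit 5) (nat_lit 495) (nat_lit 5) (nat_lit 496) (nat_lit 5) (nat_lit 635) (nat_lit 619) (nat_lit 306)) (XT.lf (nat_lit 76) (nat_lit 5197715489) (nat_lit 0) (nat_lit 13319920524) (nat_lit 1900) (nat_lit 15832548223) (nat_lit 472) (nat_lit 5) (nat_lit 471) (nat_lit 5) (nat_lit 496) (nat_lit 5) (nat_lit 636) (nat_lit 619) (nat_lit 305)))))) (XT.nd (nat_lit 390) (nat_lit 2736) (nat_lit 0) (XT.nd (nat_lit 156) (nat_lit 0) (nat_lit 76)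 (XT.nd (nat_lit 78) (nat_lit 0) (nat_lit 0) (XT.lf (nat_lit 0) (nat_lit 20697113327) (nat_lit 1824) (nat_lit 11300893981) (nat_lit 1900) (nat_lit 2713683989) (nat_lit 472) (nat_lit 5) (nat_lit 496) (nat_lit 5) (nat_lit 497) (nat_lit 5) (nat_lit 637) (nat_lit 619) (nat_lit 304)) (XT.lf (nat_lit 76) (nat_lit 6908945742) (nat_lit 0) (nat_lit 16142801382) (nat_lit 1900) (nat_lit 12026050170) (nat_lit 473) (nat_lit 5) (nat_lit 472) (nat_lit 5) (nat_lit 497) (nat_lit 5) (nat_lit 638) (nat_lit 619) (nat_lit 303))) (XT.nd (nat_lit 78) (nat_lit 0) (nat_lit 0) (XT.lf (nat_lit 0) (nat_lit 25528524438) (nat_lit 1824) (nat_lit 9815425013) (nat_lit 1900) (nat_lit 105775075) (nat_lit 473) (nat_lit 5) (nat_lit 497) (nat_lit 5) (nat_lit 498) (nat_lit 5) (nat_lit 639) (nat_lit 619) (nat_lit 302)) (XT.nd (nat_lit 78) (nat_lit 0) (nat_lit 0) (XT.lf (nat_lit 76) (nat_lit 8913903550) (nat_lit 0) (nat_lit 19304265756) (nat_lit 1900) (nat_lit 7607654487) (nat_lit 474) (nat_lit 5) (nat_lit 473) (nat_lit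 5) (nat_lit 498) (nat_lit 5) (nat_lit 640) (nat_lit 619) (nat_lit 301)) (XT.lf (nat_lit 76) (nat_lit 28149709054) (nat_lit 0) (nat_lit 2876336628) (nat_lit 1900) (nat_lit 5182110718) (nat_lit 474) (nat_lit 5) (nat_lit 473) (nat_lit 5) (nat_lit 498) (nat_lit 5) (nat_lit 641) (nat_lit 619) (nat_lit 300))))) (XT.nd (nat_lit 156) (nat_lit 988) (nat_lit 0) (XT.nd (nat_lit 78) (nat_lit 1900) (nat_lit 0) (XT.lf (nat_lit 76) (nat_lit 11228066594) (nat_lit 0) (nat_lit 22823633842) (nat_lit 1900) (nat_lit 2543202931) (nat_lit 475) (nat_lit 5) (nat_lit 474) (nat_lit 5) (nat_lit 499) (nat_lit 5) (nat_lit 642) (nat_lit 619) (nat_lit 299)) (XT.lf (nat_lit 0) (nat_lit 218631049) (nat_lit 1900) (nat_lit 6000307576) (nat_lit 1976) (nat_lit 30768985577) (nat_lit 449) (nat_lit 5) (nat_lit 474) (nat_lit 5) (nat_lit 475) (nat_lit 5) (nat_lit 643) (nat_lit 619) (nat_lit 298))) (XT.nd (nat_lit 78) (nat_lit 1064) (nat_lit 0) (XT.lf (nat_lit 0) (nat_lit 3160983757) (nat_lit 1900) (nat_lit 23538894404)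 (nat_lit 76) (nat_lit 10685404490) (nat_lit 450) (nat_lit 5) (nat_lit 475) (nat_lit 5) (nat_lit 451) (nat_lit 5) (nat_lit 644) (nat_lit 619) (nat_lit 297)) (XT.nd (nat_lit 78) (nat_lit 1064) (nat_lit 0) (XT.lf (nat_lit 0) (nat_lit 6242560402) (nat_lit 1900) (nat_lit 3661056665) (nat_lit 76) (nat_lit 27885363777) (nat_lit 450) (nat_lit 5) (nat_lit 475) (nat_lit 5) (nat_lit 451) (nat_lit 5) (nat_lit 645) (nat_lit 619) (nat_lit 296)) (XT.lf (nat_lit 0) (nat_lit 9541409641) (nat_lit 1140) (nat_lit 21412285368) (nat_lit 76) (nat_lit 7243945284) (nat_lit 436) (nat_lit 5) (nat_lit 451) (nat_lit 5) (nat_lit 437) (nat_lit 5) (nat_lit 646) (nat_lit 619) (nat_lit 295))))))) (XT.nd (nat_lit 79716) (nat_lit 0) (nat_lit 3268) (XT.nd (nat_lit 79326) (nat_lit 0) (nat_lit 3040) (XT.nd (nat_lit 79092) (nat_lit 0) (nat_lit 2964) (XT.nd (nat_lit 78) (nat_lit 912) (nat_lit 0) (XT.lf (nat_lit 0) (nat_lit 12995258607) (nat_lit 1140) (nat_lit 990581925) (nat_lit 76) (nat_lit 24626852057) (nat_lit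 436) (nat_lit 5) (nat_lit 451) (nat_lit 5) (nat_lit 437) (nat_lit 5) (nat_lit 647) (nat_lit 619) (nat_lit 294)) (XT.lf (nat_lit 0) (nat_lit 16669860986) (nat_lit 988) (nat_lit 18953842332) (nat_lit 76) (nat_lit 3409309190) (nat_lit 424) (nat_lit 5) (nat_lit 437) (nat_lit 5) (nat_lit 425) (nat_lit 5) (nat_lit 648) (nat_lit 619) (nat_lit 293))) (XT.nd (nat_lit 78) (nat_lit 0) (nat_lit 0) (XT.lf (nat_lit 0) (nat_lit 691653942) (nat_lit 1900) (nat_lit 7024650006) (nat_lit 1900) (nat_lit 7024650006) (nat_lit 463) (nat_lit 3) (nat_lit 488) (nat_lit 3) (nat_lit 488) (nat_lit 5) (nat_lit 620) (nat_lit 620) (nat_lit 320)) (XT.nd (nat_lit 78) (nat_lit 0) (nat_lit 76) (XT.lf (nat_lit 76) (nat_lit 520790730) (nat_lit 0) (nat_lit 955582648) (nat_lit 1900) (nat_lit 28298762049) (nat_lit 464) (nat_lit 5) (nat_lit 463) (nat_lit 3) (nat_lit 488) (nat_lit 5) (nat_lit 621) (nat_lit 620) (nat_lit 319)) (XT.lf (nat_lit 0) (nat_lit 1753882810) (nat_lit 1824) (nat_lit 14590985770) (nat_lit 1900)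 (nat_lit 13725707443) (nat_lit 464) (nat_lit 5) (nat_lit 488) (nat_lit 5) (nat_lit 489) (nat_lit 5) (nat_lit 622) (nat_lit 620) (nat_lit 318))))) (XT.nd (nat_lit 156) (nat_lit 0) (nat_lit 76) (XT.nd (nat_lit 78) (nat_lit 0) (nat_lit 76) (XT.lf (nat_lit 76) (nat_lit 363019446) (nat_lit 0) (nat_lit 1680657335) (nat_lit 1900) (nat_lit 28328114141) (nat_lit 465) (nat_lit 5) (nat_lit 464) (nat_lit 5) (nat_lit 489) (nat_lit 5) (nat_lit 623) (nat_lit 620) (nat_lit 317)) (XT.lf (nat_lit 0) (nat_lit 2522116450) (nat_lit 1824) (nat_lit 14951123801) (nat_lit 1900) (nat_lit 13202133045) (nat_lit 465) (nat_lit 5) (nat_lit 489) (nat_lit 5) (nat_lit 490) (nat_lit 5) (nat_lit 624) (nat_lit 620) (nat_lit 316))) (XT.nd (nat_lit 78) (nat_lit 0) (nat_lit 76) (XT.lf (nat_lit 76) (nat_lit 400732825) (nat_lit 0) (nat_lit 2621247769) (nat_lit 1900) (nat_lit 27962809781) (nat_lit 466) (nat_lit 5) (nat_lit 465) (nat_lit 5) (nat_lit 490) (nat_lit 5) (nat_lit 625) (nat_lit 620) (nat_lit 315)) (XT.nd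 (nat_lit 78) (nat_lit 0) (nat_lit 0) (XT.lf (nat_lit 0) (nat_lit 3712333717) (nat_lit 1824) (nat_lit 15119203973) (nat_lit 1900) (nat_lit 12465248439) (nat_lit 466) (nat_lit 5) (nat_lit 490) (nat_lit 5) (nat_lit 491) (nat_lit 5) (nat_lit 626) (nat_lit 620) (nat_lit 314)) (XT.lf (nat_lit 76) (nat_lit 644963234) (nat_lit 0) (nat_lit 3791272219) (nat_lit 1900) (nat_lit 27178391679) (nat_lit 467) (nat_lit 5) (nat_lit 466) (nat_lit 5) (nat_lit 491) (nat_lit 5) (nat_lit 627) (nat_lit 620) (nat_lit 313)))))) (XT.nd (nat_lit 390) (nat_lit 0) (nat_lit 152) (XT.nd (nat_lit 156) (nat_lit 0) (nat_lit 76) (XT.nd (nat_lit 78) (nat_lit 0) (nat_lit 0) (XT.lf (nat_lit 0) (nat_lit 5349961629) (nat_lit 1824) (nat_lit 15084214201) (nat_lit 1900) (nat_lit 11501142358) (nat_lit 467) (nat_lit 5) (nat_lit 491) (nat_lit 5) (nat_lit 492) (nat_lit 5) (nat_lit 628) (nat_lit 620) (nat_lit 312)) (XT.lf (nat_lit 76) (nat_lit 1107264466) (nat_lit 0) (nat_lit 5205257198) (nat_lit 1900) (nat_lit 25949290371)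 (nat_lit 468) (nat_lit 5) (nat_lit 467) (nat_lit 5) (nat_lit 492) (nat_lit 5) (nat_lit 629) (nat_lit 620) (nat_lit 311))) (XT.nd (nat_lit 78) (nat_lit 0) (nat_lit 0) (XT.lf (nat_lit 0) (nat_lit 7461577591) (nat_lit 1824) (nat_lit 14834621681) (nat_lit 1900) (nat_lit 10295291750) (nat_lit 468) (nat_lit 5) (nat_lit 492) (nat_lit 5) (nat_lit 493) (nat_lit 5) (nat_lit 630) (nat_lit 620) (nat_lit 310)) (XT.nd (nat_lit 78) (nat_lit 0) (nat_lit 76) (XT.lf (nat_lit 76) (nat_lit 1799731243) (nat_lit 0) (nat_lit 6878367341) (nat_lit 1900) (nat_lit 24248775476) (nat_lit 469) (nat_lit 5) (nat_lit 468) (nat_lit 5) (nat_lit 493) (nat_lit 5) (nat_lit 631) (nat_lit 620) (nat_lit 309)) (XT.lf (nat_lit 0) (nat_lit 10074959565) (nat_lit 1824) (nat_lit 14358353348) (nat_lit 1900) (nat_lit 8832531805) (nat_lit 469) (nat_lit 5) (nat_lit 493) (nat_lit 5) (nat_lit 494) (nat_lit 5) (nat_lit 632) (nat_lit 620) (nat_lit 308))))) (XT.nd (nat_lit 234) (nat_lit 0) (nat_lit 152) (XT.nd (nat_lit 78) (nat_lit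 0) (nat_lit 76) (XT.lf (nat_lit 76) (nat_lit 2735019500) (nat_lit 0) (nat_lit 8826436421) (nat_lit 1900) (nat_lit 22048905049) (nat_lit 470) (nat_lit 5) (nat_lit 469) (nat_lit 5) (nat_lit 494) (nat_lit 5) (nat_lit 633) (nat_lit 620) (nat_lit 307)) (XT.nd (nat_lit 78) (nat_lit 0) (nat_lit 0) (XT.lf (nat_lit 0) (nat_lit 13219138195) (nat_lit 1824) (nat_lit 13642775555) (nat_lit 1900) (nat_lit 7097024821) (nat_lit 470) (nat_lit 5) (nat_lit 494) (nat_lit 5) (nat_lit 495) (nat_lit 5) (nat_lit 634) (nat_lit 620) (nat_lit 306)) (XT.lf (nat_lit 76) (nat_lit 3926367491) (nat_lit 0) (nat_lit 11065999553) (nat_lit 1900) (nat_lit 19320472960) (nat_lit 471) (nat_lit 5) (nat_lit 470) (nat_lit 5) (nat_lit 495) (nat_lit 5) (nat_lit 635) (nat_lit 620) (nat_lit 305)))) (XT.nd (nat_lit 78) (nat_lit 0) (nat_lit 0) (XT.lf (nat_lit 0) (nat_lit 16924450975) (nat_lit 1824) (nat_lit 12674672942) (nat_lit 1900) (nat_lit 5072227877) (nat_lit 471) (nat_lit 5) (nat_lit 495) (nat_lit 5) (nat_lit 496) (nat_lit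 5) (nat_lit 636) (nat_lit 620) (nat_lit 304)) (XT.nd (nat_lit 78) (nat_lit 0) (nat_lit 76) (XT.lf (nat_lit 76) (nat_lit 5387617721) (nat_lit 0) (nat_lit 13614326666) (nat_lit 1900) (nat_lit 16032954213) (nat_lit 472) (nat_lit 5) (nat_lit 471) (nat_lit 5) (nat_lit 496) (nat_lit 5) (nat_lit 637) (nat_lit 620) (nat_lit 303)) (XT.lf (nat_lit 0) (nat_lit 21222598544) (nat_lit 1824) (nat_lit 11440226480) (nat_lit 1900) (nat_lit 2740859232) (nat_lit 472) (nat_lit 5) (nat_lit 496) (nat_lit 5) (nat_lit 497) (nat_lit 5) (nat_lit 638) (nat_lit 620) (nat_lit 302))))))))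
noncomputable def xc250 : XT := (XT.nd (nat_lit 80652) (nat_lit 0) (nat_lit 988) (XT.nd (nat_lit 79872) (nat_lit 0) (nat_lit 2052) (XT.nd (nat_lit 390) (nat_lit 2736) (nat_lit 0) (XT.nd (nat_lit 156) (nat_lit 0) (nat_lit 76) (XT.nd (nat_lit 78) (nat_lit 0) (nat_lit 76) (XT.lf (nat_lit 76) (nat_lit 7133239739) (nat_lit 0) (nat_lit 16489457277) (nat_lit 1900) (nat_lit 12154448113) (nat_lit 473) (nat_lit 5) (nat_lit 472) (nat_lit 5) (nat_lit 497) (nat_lit 5) (nat_lit 639) (nat_lit 620) (nat_lit 301)) (XT.lf (nat_lit 0) (nat_lit 26146703187) (nat_lit 1824) (nat_lit 9924990654) (nat_lit 1900) (nat_lit 84863392) (nat_lit 473) (nat_lit 5) (nat_lit 497) (nat_lit 5) (nat_lit 498) (nat_lit 5) (nat_lit 640) (nat_lit 620) (nat_lit 300))) (XT.nd (nat_lit 78) (nat_lit 0) (nat_lit 0) (XT.lf (nat_lit 76) (nat_lit 9178353804) (nat_lit 0) (nat_lit 19710236669) (nat_lit 1900) (nat_lit 7651619209) (nat_lit 474) (nat_lit 5) (nat_lit 473) (nat_lit 5) (nat_lit 498) (nat_lit 5) (nat_lit 641) (nat_lit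 620) (nat_lit 299)) (XT.nd (nat_lit 78) (nat_lit 0) (nat_lit 76) (XT.lf (nat_lit 76) (nat_lit 28797185767) (nat_lit 0) (nat_lit 2953359045) (nat_lit 1900) (nat_lit 5179685906) (nat_lit 474) (nat_lit 5) (nat_lit 473) (nat_lit 5) (nat_lit 498) (nat_lit 5) (nat_lit 642) (nat_lit 620) (nat_lit 298)) (XT.lf (nat_lit 76) (nat_lit 11538755466) (nat_lit 0) (nat_lit 23296353507) (nat_lit 1900) (nat_lit 2489635906) (nat_lit 475) (nat_lit 5) (nat_lit 474) (nat_lit 5) (nat_lit 499) (nat_lit 5) (nat_lit 643) (nat_lit 620) (nat_lit 297))))) (XT.nd (nat_lit 156) (nat_lit 988) (nat_lit 0) (XT.nd (nat_lit 78) (nat_lit 0) (nat_lit 76) (XT.lf (nat_lit 0) (nat_lit 324044308) (nat_lit 1900) (nat_lit 6034523473) (nat_lit 1976) (nat_lit 31367085380) (nat_lit 449) (nat_lit 5) (nat_lit 474) (nat_lit 5) (nat_lit 475) (nat_lit 5) (nat_lit 644) (nat_lit 620) (nat_lit 296)) (XT.lf (nat_lit 0) (nat_lit 3323722814) (nat_lit 1900) (nat_lit 23922352240) (nat_lit 76) (nat_lit 10884914320) (nat_lit 450) (nat_lit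 5) (nat_lit 475) (nat_lit 5) (nat_lit 451) (nat_lit 5) (nat_lit 645) (nat_lit 620) (nat_lit 295))) (XT.nd (nat_lit 78) (nat_lit 1064) (nat_lit 0) (XT.lf (nat_lit 0) (nat_lit 6464979632) (nat_lit 1900) (nat_lit 3648669904) (nat_lit 76) (nat_lit 28429151190) (nat_lit 450) (nat_lit 5) (nat_lit 475) (nat_lit 5) (nat_lit 451) (nat_lit 5) (nat_lit 646) (nat_lit 620) (nat_lit 294)) (XT.nd (nat_lit 79170) (nat_lit 0) (nat_lit 2052) (XT.lf (nat_lit 0) (nat_lit 9828372451) (nat_lit 1140) (nat_lit 21753481566) (nat_lit 76) (nat_lit 7377808181) (nat_lit 436) (nat_lit 5) (nat_lit 451) (nat_lit 5) (nat_lit 437) (nat_lit 5) (nat_lit 647) (nat_lit 620) (nat_lit 293)) (XT.lf (nat_lit 0) (nat_lit 780845642) (nat_lit 1900) (nat_lit 7126706675) (nat_lit 1900) (nat_lit 7126706675) (nat_lit 463) (nat_lit 3) (nat_lit 488) (nat_lit 3) (nat_lit 488) (nat_lit 5) (nat_lit 621) (nat_lit 621) (nat_lit 318)))))) (XT.nd (nat_lit 390) (nat_lit 0) (nat_lit 228) (XT.nd (nat_lit 156) (nat_lit 0) (nat_lit 76)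 (XT.nd (nat_lit 78) (nat_lit 0) (nat_lit 76) (XT.lf (nat_lit 76) (nat_lit 607573467) (nat_lit 0) (nat_lit 1046585207) (nat_lit 1900) (nat_lit 28713500837) (nat_lit 464) (nat_lit 5) (nat_lit 463) (nat_lit 3) (nat_lit 488) (nat_lit 5) (nat_lit 622) (nat_lit 621) (nat_lit 317)) (XT.lf (nat_lit 0) (nat_lit 1933853666) (nat_lit 1824) (nat_lit 14804558121) (nat_lit 1900) (nat_lit 13930664687) (nat_lit 464) (nat_lit 5) (nat_lit 488) (nat_lit 5) (nat_lit 489) (nat_lit 5) (nat_lit 623) (nat_lit 621) (nat_lit 316))) (XT.nd (nat_lit 78) (nat_lit 0) (nat_lit 76) (XT.lf (nat_lit 76) (nat_lit 448012413) (nat_lit 0) (nat_lit 1779094751) (nat_lit 1900) (nat_lit 28749255493) (nat_lit 465) (nat_lit 5) (nat_lit 464) (nat_lit 5) (nat_lit 489) (nat_lit 5) (nat_lit 624) (nat_lit 621) (nat_lit 315)) (XT.nd (nat_lit 78) (nat_lit 0) (nat_lit 0) (XT.lf (nat_lit 0) (nat_lit 2711907765) (nat_lit 1824) (nat_lit 15170717313) (nat_lit 1900) (nat_lit 13403456012) (nat_lit 465) (nat_lit 5) (nat_lit 489) (nat_lit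 5) (nat_lit 490) (nat_lit 5) (nat_lit 625) (nat_lit 621) (nat_lit 314)) (XT.lf (nat_lit 76) (nat_lit 487653887) (nat_lit 0) (nat_lit 2731895285) (nat_lit 1900) (nat_lit 28382181988) (nat_lit 466) (nat_lit 5) (nat_lit 465) (nat_lit 5) (nat_lit 490) (nat_lit 5) (nat_lit 626) (nat_lit 621) (nat_lit 313))))) (XT.nd (nat_lit 156) (nat_lit 0) (nat_lit 76) (XT.nd (nat_lit 78) (nat_lit 0) (nat_lit 0) (XT.lf (nat_lit 0) (nat_lit 3920649946) (nat_lit 1824) (nat_lit 15341157222) (nat_lit 1900) (nat_lit 12658221093) (nat_lit 466) (nat_lit 5) (nat_lit 490) (nat_lit 5) (nat_lit 491) (nat_lit 5) (nat_lit 627) (nat_lit 621) (nat_lit 312)) (XT.lf (nat_lit 76) (nat_lit 737764179) (nat_lit 0) (nat_lit 3919155498) (nat_lit 1900) (nat_lit 27587348847) (nat_lit 467) (nat_lit 5) (nat_lit 466) (nat_lit 5) (nat_lit 491) (nat_lit 5) (nat_lit 628) (nat_lit 621) (nat_lit 311))) (XT.nd (nat_lit 78) (nat_lit 0) (nat_lit 0) (XT.lf (nat_lit 0) (nat_lit 5586001568) (nat_lit 1824) (nat_lit 15304632970) (nat_lit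 1900) (nat_lit 11680797473) (nat_lit 467) (nat_lit 5) (nat_lit 491) (nat_lit 5) (nat_lit 492) (nat_lit 5) (nat_lit 629) (nat_lit 621) (nat_lit 310)) (XT.nd (nat_lit 78) (nat_lit 0) (nat_lit 76) (XT.lf (nat_lit 76) (nat_lit 1210140629) (nat_lit 0) (nat_lit 5355666124) (nat_lit 1900) (nat_lit 26338689335) (nat_lit 468) (nat_lit 5) (nat_lit 467) (nat_lit 5) (nat_lit 492) (nat_lit 5) (nat_lit 630) (nat_lit 621) (nat_lit 309)) (XT.lf (nat_lit 0) (nat_lit 7735058182) (nat_lit 1824) (nat_lit 15049369313) (nat_lit 1900) (nat_lit 10456397095) (nat_lit 468) (nat_lit 5) (nat_lit 492) (nat_lit 5) (nat_lit 493) (nat_lit 5) (nat_lit 631) (nat_lit 621) (nat_lit 308))))))) (XT.nd (nat_lit 780) (nat_lit 1444) (nat_lit 0) (XT.nd (nat_lit 390) (nat_lit 0) (nat_lit 228) (XT.nd (nat_lit 156) (nat_lit 0) (nat_lit 76) (XT.nd (nat_lit 78) (nat_lit 0) (nat_lit 76) (XT.lf (nat_lit 76) (nat_lit 1917131558) (nat_lit 0) (nat_lit 7056870321) (nat_lit 1900) (nat_lit 24608951786) (nat_lit 469) (nat_lit 5)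 (nat_lit 468) (nat_lit 5) (nat_lit 493) (nat_lit 5) (nat_lit 632) (nat_lit 621) (nat_lit 307)) (XT.lf (nat_lit 0) (nat_lit 10396140660) (nat_lit 1824) (nat_lit 14563040662) (nat_lit 1900) (nat_lit 8969575818) (nat_lit 469) (nat_lit 5) (nat_lit 493) (nat_lit 5) (nat_lit 494) (nat_lit 5) (nat_lit 633) (nat_lit 621) (nat_lit 306))) (XT.nd (nat_lit 78) (nat_lit 0) (nat_lit 76) (XT.lf (nat_lit 76) (nat_lit 2871657013) (nat_lit 0) (nat_lit 9038895217) (nat_lit 1900) (nat_lit 22369647995) (nat_lit 470) (nat_lit 5) (nat_lit 469) (nat_lit 5) (nat_lit 494) (nat_lit 5) (nat_lit 634) (nat_lit 621) (nat_lit 305)) (XT.nd (nat_lit 78) (nat_lit 0) (nat_lit 0) (XT.lf (nat_lit 0) (nat_lit 13598848320) (nat_lit 1824) (nat_lit 13832750312) (nat_lit 1900) (nat_lit 7204201750) (nat_lit 470) (nat_lit 5) (nat_lit 494) (nat_lit 5) (nat_lit 495) (nat_lit 5) (nat_lit 635) (nat_lit 621) (nat_lit 304)) (XT.lf (nat_lit 76) (nat_lit 4087230327) (nat_lit 0) (nat_lit 11318584676) (nat_lit 1900) (nat_lit 19590999582)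 (nat_lit 471) (nat_lit 5) (nat_lit 470) (nat_lit 5) (nat_lit 495) (nat_lit 5) (nat_lit 636) (nat_lit 621) (nat_lit 303))))) (XT.nd (nat_lit 156) (nat_lit 0) (nat_lit 76) (XT.nd (nat_lit 78) (nat_lit 0) (nat_lit 0) (XT.lf (nat_lit 0) (nat_lit 17374114135) (nat_lit 1824) (nat_lit 12845008852) (nat_lit 1900) (nat_lit 5143422353) (nat_lit 471) (nat_lit 5) (nat_lit 495) (nat_lit 5) (nat_lit 496) (nat_lit 5) (nat_lit 637) (nat_lit 621) (nat_lit 302)) (XT.lf (nat_lit 76) (nat_lit 5577980536) (nat_lit 0) (nat_lit 13913533357) (nat_lit 1900) (nat_lit 16241882256) (nat_lit 472) (nat_lit 5) (nat_lit 471) (nat_lit 5) (nat_lit 496) (nat_lit 5) (nat_lit 638) (nat_lit 621) (nat_lit 301))) (XT.nd (nat_lit 78) (nat_lit 0) (nat_lit 0) (XT.lf (nat_lit 0) (nat_lit 21754262116) (nat_lit 1824) (nat_lit 11585711728) (nat_lit 1900) (nat_lit 2769630245) (nat_lit 472) (nat_lit 5) (nat_lit 496) (nat_lit 5) (nat_lit 497) (nat_lit 5) (nat_lit 639) (nat_lit 621) (nat_lit 300)) (XT.nd (nat_lit 78) (nat_lit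 0) (nat_lit 76) (XT.lf (nat_lit 76) (nat_lit 7358675662) (nat_lit 0) (nat_lit 16842122113) (nat_lit 1900) (nat_lit 12289767890) (nat_lit 473) (nat_lit 5) (nat_lit 472) (nat_lit 5) (nat_lit 497) (nat_lit 5) (nat_lit 640) (nat_lit 621) (nat_lit 299)) (XT.lf (nat_lit 0) (nat_lit 26773066951) (nat_lit 1824) (nat_lit 10040115938) (nat_lit 1900) (nat_lit 64427649) (nat_lit 473) (nat_lit 5) (nat_lit 497) (nat_lit 5) (nat_lit 498) (nat_lit 5) (nat_lit 641) (nat_lit 621) (nat_lit 298)))))) (XT.nd (nat_lit 390) (nat_lit 0) (nat_lit 76) (XT.nd (nat_lit 156) (nat_lit 1824) (nat_lit 0) (XT.nd (nat_lit 78) (nat_lit 0) (nat_lit 0) (XT.lf (nat_lit 76) (nat_lit 9444746892) (nat_lit 0) (nat_lit 20123554819) (nat_lit 1900) (nat_lit 7700664312) (nat_lit 474) (nat_lit 5) (nat_lit 473) (nat_lit 5) (nat_lit 498) (nat_lit 5) (nat_lit 642) (nat_lit 621) (nat_lit 297)) (XT.lf (nat_lit 76) (nat_lit 29454331456) (nat_lit 0) (nat_lit 3031164869) (nat_lit 1900) (nat_lit 5181331309) (nat_lit 474) (nat_lit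 5) (nat_lit 473) (nat_lit 5) (nat_lit 498) (nat_lit 5) (nat_lit 643) (nat_lit 621) (nat_lit 296))) (XT.nd (nat_lit 78) (nat_lit 1900) (nat_lit 0) (XT.lf (nat_lit 76) (nat_lit 11852313679) (nat_lit 0) (nat_lit 23777896674) (nat_lit 1900) (nat_lit 2439052727) (nat_lit 475) (nat_lit 5) (nat_lit 474) (nat_lit 5) (nat_lit 499) (nat_lit 5) (nat_lit 644) (nat_lit 621) (nat_lit 295)) (XT.nd (nat_lit 78) (nat_lit 0) (nat_lit 76) (XT.lf (nat_lit 0) (nat_lit 427642302) (nat_lit 1900) (nat_lit 6072755028) (nat_lit 1976) (nat_lit 31977818178) (nat_lit 449) (nat_lit 5) (nat_lit 474) (nat_lit 5) (nat_lit 475) (nat_lit 5) (nat_lit 645) (nat_lit 621) (nat_lit 294)) (XT.lf (nat_lit 0) (nat_lit 3485852194) (nat_lit 1900) (nat_lit 24316869976) (nat_lit 76) (nat_lit 11088965682) (nat_lit 450) (nat_lit 5) (nat_lit 475) (nat_lit 5) (nat_lit 451) (nat_lit 5) (nat_lit 646) (nat_lit 621) (nat_lit 293))))) (XT.nd (nat_lit 79404) (nat_lit 0) (nat_lit 1064) (XT.nd (nat_lit 79248) (nat_lit 0) (nat_lit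 988) (XT.lf (nat_lit 0) (nat_lit 6688058562) (nat_lit 1900) (nat_lit 3639359667) (nat_lit 76) (nat_lit 28984354877) (nat_lit 450) (nat_lit 5) (nat_lit 475) (nat_lit 5) (nat_lit 451) (nat_lit 5) (nat_lit 647) (nat_lit 621) (nat_lit 292)) (XT.nd (nat_lit 78) (nat_lit 0) (nat_lit 0) (XT.lf (nat_lit 0) (nat_lit 868894909) (nat_lit 1900) (nat_lit 7232297007) (nat_lit 1900) (nat_lit 7232297007) (nat_lit 463) (nat_lit 3) (nat_lit 488) (nat_lit 3) (nat_lit 488) (nat_lit 5) (nat_lit 622) (nat_lit 622) (nat_lit 316)) (XT.lf (nat_lit 76) (nat_lit 693126437) (nat_lit 0) (nat_lit 1136616205) (nat_lit 1900) (nat_lit 29142407097) (nat_lit 464) (nat_lit 5) (nat_lit 463) (nat_lit 3) (nat_lit 488) (nat_lit 5) (nat_lit 623) (nat_lit 622) (nat_lit 315)))) (XT.nd (nat_lit 78) (nat_lit 0) (nat_lit 0) (XT.lf (nat_lit 0) (nat_lit 2111797559) (nat_lit 1824) (nat_lit 15025440361) (nat_lit 1900) (nat_lit 14142422055) (nat_lit 464) (nat_lit 5) (nat_lit 488) (nat_lit 5) (nat_lit 489) (nat_lit 5) (nat_lit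 624) (nat_lit 622) (nat_lit 314)) (XT.nd (nat_lit 78) (nat_lit 0) (nat_lit 76) (XT.lf (nat_lit 76) (nat_lit 531686789) (nat_lit 0) (nat_lit 1876983711) (nat_lit 1900) (nat_lit 29184466543) (nat_lit 465) (nat_lit 5) (nat_lit 464) (nat_lit 5) (nat_lit 489) (nat_lit 5) (nat_lit 625) (nat_lit 622) (nat_lit 313)) (XT.lf (nat_lit 0) (nat_lit 2900083815) (nat_lit 1824) (nat_lit 15397787018) (nat_lit 1900) (nat_lit 13611240921) (nat_lit 465) (nat_lit 5) (nat_lit 489) (nat_lit 5) (nat_lit 490) (nat_lit 5) (nat_lit 626) (nat_lit 622) (nat_lit 312))))))))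
noncomputable def xc251 : XT := (XT.nd (nat_lit 80886) (nat_lit 0) (nat_lit 1064) (XT.nd (nat_lit 780) (nat_lit 1216) (nat_lit 0) (XT.nd (nat_lit 390) (nat_lit 0) (nat_lit 228) (XT.nd (nat_lit 156) (nat_lit 0) (nat_lit 76) (XT.nd (nat_lit 78) (nat_lit 0) (nat_lit 76) (XT.lf (nat_lit 76) (nat_lit 573249338) (nat_lit 0) (nat_lit 2842494898) (nat_lit 1900) (nat_lit 28815373505) (nat_lit 466) (nat_lit 5) (nat_lit 465) (nat_lit 5) (nat_lit 490) (nat_lit 5) (nat_lit 627) (nat_lit 622) (nat_lit 311)) (XT.lf (nat_lit 0) (nat_lit 4127926416) (nat_lit 1824) (nat_lit 15570672762) (nat_lit 1900) (nat_lit 12857240653) (nat_lit 466) (nat_lit 5) (nat_lit 490) (nat_lit 5) (nat_lit 491) (nat_lit 5) (nat_lit 628) (nat_lit 622) (nat_lit 310))) (XT.nd (nat_lit 78) (nat_lit 0) (nat_lit 76) (XT.lf (nat_lit 76) (nat_lit 829318464) (nat_lit 0) (nat_lit 4047574973) (nat_lit 1900) (nat_lit 28009712255) (nat_lit 467) (nat_lit 5) (nat_lit 466) (nat_lit 5) (nat_lit 491) (nat_lit 5) (nat_lit 629) (nat_lit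 622) (nat_lit 309)) (XT.nd (nat_lit 78) (nat_lit 0) (nat_lit 0) (XT.lf (nat_lit 0) (nat_lit 5821751499) (nat_lit 1824) (nat_lit 15532615754) (nat_lit 1900) (nat_lit 11866001531) (nat_lit 467) (nat_lit 5) (nat_lit 491) (nat_lit 5) (nat_lit 492) (nat_lit 5) (nat_lit 630) (nat_lit 622) (nat_lit 308)) (XT.lf (nat_lit 76) (nat_lit 1311939437) (nat_lit 0) (nat_lit 5507285196) (nat_lit 1900) (nat_lit 26740908292) (nat_lit 468) (nat_lit 5) (nat_lit 467) (nat_lit 5) (nat_lit 492) (nat_lit 5) (nat_lit 631) (nat_lit 622) (nat_lit 307))))) (XT.nd (nat_lit 156) (nat_lit 0) (nat_lit 76) (XT.nd (nat_lit 78) (nat_lit 0) (nat_lit 0) (XT.lf (nat_lit 0) (nat_lit 8009183644) (nat_lit 1824) (nat_lit 15271593915) (nat_lit 1900) (nat_lit 10622464205) (nat_lit 468) (nat_lit 5) (nat_lit 492) (nat_lit 5) (nat_lit 493) (nat_lit 5) (nat_lit 632) (nat_lit 622) (nat_lit 306)) (XT.lf (nat_lit 76) (nat_lit 2033718798) (nat_lit 0) (nat_lit 7237353780) (nat_lit 1900) (nat_lit 24981177727) (nat_lit 469) (nat_lit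 5) (nat_lit 468) (nat_lit 5) (nat_lit 493) (nat_lit 5) (nat_lit 633) (nat_lit 622) (nat_lit 305))) (XT.nd (nat_lit 78) (nat_lit 0) (nat_lit 0) (XT.lf (nat_lit 0) (nat_lit 10719097984) (nat_lit 1824) (nat_lit 14775024511) (nat_lit 1900) (nat_lit 9110898686) (nat_lit 469) (nat_lit 5) (nat_lit 493) (nat_lit 5) (nat_lit 494) (nat_lit 5) (nat_lit 634) (nat_lit 622) (nat_lit 304)) (XT.nd (nat_lit 78) (nat_lit 0) (nat_lit 76) (XT.lf (nat_lit 76) (nat_lit 3007845558) (nat_lit 0) (nat_lit 9254207980) (nat_lit 1900) (nat_lit 22701474678) (nat_lit 470) (nat_lit 5) (nat_lit 469) (nat_lit 5) (nat_lit 494) (nat_lit 5) (nat_lit 635) (nat_lit 622) (nat_lit 303)) (XT.lf (nat_lit 0) (nat_lit 13981674346) (nat_lit 1824) (nat_lit 14029742925) (nat_lit 1900) (nat_lit 7314872130) (nat_lit 470) (nat_lit 5) (nat_lit 494) (nat_lit 5) (nat_lit 495) (nat_lit 5) (nat_lit 636) (nat_lit 622) (nat_lit 302)))))) (XT.nd (nat_lit 390) (nat_lit 1596) (nat_lit 0) (XT.nd (nat_lit 156) (nat_lit 0) (nat_lit 76)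 (XT.nd (nat_lit 78) (nat_lit 0) (nat_lit 76) (XT.lf (nat_lit 76) (nat_lit 4248113232) (nat_lit 0) (nat_lit 11575007438) (nat_lit 1900) (nat_lit 19871436608) (nat_lit 471) (nat_lit 5) (nat_lit 470) (nat_lit 5) (nat_lit 495) (nat_lit 5) (nat_lit 637) (nat_lit 622) (nat_lit 301)) (XT.lf (nat_lit 0) (nat_lit 17828453531) (nat_lit 1824) (nat_lit 13021980589) (nat_lit 1900) (nat_lit 5217215366) (nat_lit 471) (nat_lit 5) (nat_lit 495) (nat_lit 5) (nat_lit 496) (nat_lit 5) (nat_lit 638) (nat_lit 622) (nat_lit 300))) (XT.nd (nat_lit 78) (nat_lit 0) (nat_lit 76) (XT.lf (nat_lit 76) (nat_lit 5768942741) (nat_lit 0) (nat_lit 14217678839) (nat_lit 1900) (nat_lit 16459327512) (nat_lit 472) (nat_lit 5) (nat_lit 471) (nat_lit 5) (nat_lit 496) (nat_lit 5) (nat_lit 639) (nat_lit 622) (nat_lit 299)) (XT.nd (nat_lit 78) (nat_lit 0) (nat_lit 0) (XT.lf (nat_lit 0) (nat_lit 22292395803) (nat_lit 1824) (nat_lit 11737342070) (nat_lit 1900) (nat_lit 2799988084) (nat_lit 472) (nat_lit 5) (nat_lit 496)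 (nat_lit 5) (nat_lit 497) (nat_lit 5) (nat_lit 640) (nat_lit 622) (nat_lit 298)) (XT.lf (nat_lit 76) (nat_lit 7585406200) (nat_lit 0) (nat_lit 17200951954) (nat_lit 1900) (nat_lit 12431978871) (nat_lit 473) (nat_lit 5) (nat_lit 472) (nat_lit 5) (nat_lit 497) (nat_lit 5) (nat_lit 641) (nat_lit 622) (nat_lit 297))))) (XT.nd (nat_lit 156) (nat_lit 1824) (nat_lit 0) (XT.nd (nat_lit 78) (nat_lit 0) (nat_lit 0) (XT.lf (nat_lit 0) (nat_lit 27407941689) (nat_lit 1824) (nat_lit 10160781262) (nat_lit 1900) (nat_lit 44442643) (nat_lit 473) (nat_lit 5) (nat_lit 497) (nat_lit 5) (nat_lit 498) (nat_lit 5) (nat_lit 642) (nat_lit 622) (nat_lit 296)) (XT.lf (nat_lit 76) (nat_lit 9713251608) (nat_lit 0) (nat_lit 20544397134) (nat_lit 1900) (nat_lit 7754728270) (nat_lit 474) (nat_lit 5) (nat_lit 473) (nat_lit 5) (nat_lit 498) (nat_lit 5) (nat_lit 643) (nat_lit 622) (nat_lit 295))) (XT.nd (nat_lit 78) (nat_lit 1824) (nat_lit 0) (XT.lf (nat_lit 76) (nat_lit 30121466886) (nat_lit 0) (nat_lit 3109799165)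 (nat_lit 1900) (nat_lit 5186968397) (nat_lit 474) (nat_lit 5) (nat_lit 473) (nat_lit 5) (nat_lit 498) (nat_lit 5) (nat_lit 644) (nat_lit 622) (nat_lit 294)) (XT.nd (nat_lit 78) (nat_lit 1900) (nat_lit 0) (XT.lf (nat_lit 76) (nat_lit 12168928487) (nat_lit 0) (nat_lit 24268464313) (nat_lit 1900) (nat_lit 2391355602) (nat_lit 475) (nat_lit 5) (nat_lit 474) (nat_lit 5) (nat_lit 499) (nat_lit 5) (nat_lit 645) (nat_lit 622) (nat_lit 293)) (XT.lf (nat_lit 0) (nat_lit 529541079) (nat_lit 1900) (nat_lit 6114953194) (nat_lit 1976) (nat_lit 32601410577) (nat_lit 449) (nat_lit 5) (nat_lit 474) (nat_lit 5) (nat_lit 475) (nat_lit 5) (nat_lit 646) (nat_lit 622) (nat_lit 292))))))) (XT.nd (nat_lit 780) (nat_lit 0) (nat_lit 380) (XT.nd (nat_lit 390) (nat_lit 0) (nat_lit 152) (XT.nd (nat_lit 156) (nat_lit 0) (nat_lit 76) (XT.nd (nat_lit 78) (nat_lit 0) (nat_lit 0) (XT.lf (nat_lit 0) (nat_lit 955892525) (nat_lit 1900) (nat_lit 7341433718) (nat_lit 1900) (nat_lit 7341433718) (nat_lit 463) (nat_lit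 3) (nat_lit 488) (nat_lit 3) (nat_lit 488) (nat_lit 5) (nat_lit 623) (nat_lit 623) (nat_lit 314)) (XT.lf (nat_lit 76) (nat_lit 777540197) (nat_lit 0) (nat_lit 1225764613) (nat_lit 1900) (nat_lit 29585536133) (nat_lit 464) (nat_lit 5) (nat_lit 463) (nat_lit 3) (nat_lit 488) (nat_lit 5) (nat_lit 624) (nat_lit 623) (nat_lit 313))) (XT.nd (nat_lit 78) (nat_lit 0) (nat_lit 0) (XT.lf (nat_lit 0) (nat_lit 2287892430) (nat_lit 1824) (nat_lit 15253660699) (nat_lit 1900) (nat_lit 14361010668) (nat_lit 464) (nat_lit 5) (nat_lit 488) (nat_lit 5) (nat_lit 489) (nat_lit 5) (nat_lit 625) (nat_lit 623) (nat_lit 312)) (XT.nd (nat_lit 78) (nat_lit 0) (nat_lit 76) (XT.lf (nat_lit 76) (nat_lit 614133412) (nat_lit 0) (nat_lit 1974410990) (nat_lit 1900) (nat_lit 29633809412) (nat_lit 465) (nat_lit 5) (nat_lit 464) (nat_lit 5) (nat_lit 489) (nat_lit 5) (nat_lit 626) (nat_lit 623) (nat_lit 311)) (XT.lf (nat_lit 0) (nat_lit 3086822415) (nat_lit 1824) (nat_lit 15632362673) (nat_lit 1900) (nat_lit 13825522437)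 (nat_lit 465) (nat_lit 5) (nat_lit 489) (nat_lit 5) (nat_lit 490) (nat_lit 5) (nat_lit 627) (nat_lit 623) (nat_lit 310))))) (XT.nd (nat_lit 156) (nat_lit 0) (nat_lit 76) (XT.nd (nat_lit 78) (nat_lit 0) (nat_lit 76) (XT.lf (nat_lit 76) (nat_lit 657611646) (nat_lit 0) (nat_lit 2953133442) (nat_lit 1900) (nat_lit 29262449792) (nat_lit 466) (nat_lit 5) (nat_lit 465) (nat_lit 5) (nat_lit 490) (nat_lit 5) (nat_lit 628) (nat_lit 623) (nat_lit 309)) (XT.lf (nat_lit 0) (nat_lit 4334344490) (nat_lit 1824) (nat_lit 15807780562) (nat_lit 1900) (nat_lit 13062343115) (nat_lit 466) (nat_lit 5) (nat_lit 490) (nat_lit 5) (nat_lit 491) (nat_lit 5) (nat_lit 629) (nat_lit 623) (nat_lit 308))) (XT.nd (nat_lit 78) (nat_lit 0) (nat_lit 76) (XT.lf (nat_lit 76) (nat_lit 919721635) (nat_lit 0) (nat_lit 4176619865) (nat_lit 1900) (nat_lit 28445547052) (nat_lit 467) (nat_lit 5) (nat_lit 466) (nat_lit 5) (nat_lit 491) (nat_lit 5) (nat_lit 630) (nat_lit 623) (nat_lit 307)) (XT.nd (nat_lit 78) (nat_lit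 0) (nat_lit 0) (XT.lf (nat_lit 0) (nat_lit 6057400196) (nat_lit 1824) (nat_lit 15768191295) (nat_lit 1900) (nat_lit 12056789563) (nat_lit 467) (nat_lit 5) (nat_lit 491) (nat_lit 5) (nat_lit 492) (nat_lit 5) (nat_lit 631) (nat_lit 623) (nat_lit 306)) (XT.lf (nat_lit 76) (nat_lit 1412761074) (nat_lit 0) (nat_lit 5660208437) (nat_lit 1900) (nat_lit 27156008245) (nat_lit 468) (nat_lit 5) (nat_lit 467) (nat_lit 5) (nat_lit 492) (nat_lit 5) (nat_lit 632) (nat_lit 623) (nat_lit 305)))))) (XT.nd (nat_lit 390) (nat_lit 0) (nat_lit 152) (XT.nd (nat_lit 156) (nat_lit 0) (nat_lit 76) (XT.nd (nat_lit 78) (nat_lit 0) (nat_lit 0) (XT.lf (nat_lit 0) (nat_lit 8284154224) (nat_lit 1824) (nat_lit 15501321463) (nat_lit 1900) (nat_lit 10793524762) (nat_lit 468) (nat_lit 5) (nat_lit 492) (nat_lit 5) (nat_lit 493) (nat_lit 5) (nat_lit 633) (nat_lit 623) (nat_lit 304)) (XT.lf (nat_lit 76) (nat_lit 2149599449) (nat_lit 0) (nat_lit 7419919053) (nat_lit 1900) (nat_lit 25365506112) (nat_lit 469) (nat_lit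 5) (nat_lit 468) (nat_lit 5) (nat_lit 493) (nat_lit 5) (nat_lit 634) (nat_lit 623) (nat_lit 303))) (XT.nd (nat_lit 78) (nat_lit 0) (nat_lit 0) (XT.lf (nat_lit 0) (nat_lit 11044047523) (nat_lit 1824) (nat_lit 14994326459) (nat_lit 1900) (nat_lit 9256526263) (nat_lit 469) (nat_lit 5) (nat_lit 493) (nat_lit 5) (nat_lit 494) (nat_lit 5) (nat_lit 635) (nat_lit 623) (nat_lit 302)) (XT.nd (nat_lit 78) (nat_lit 0) (nat_lit 76) (XT.lf (nat_lit 76) (nat_lit 3143699705) (nat_lit 0) (nat_lit 9472485968) (nat_lit 1900) (nat_lit 23044425474) (nat_lit 470) (nat_lit 5) (nat_lit 469) (nat_lit 5) (nat_lit 494) (nat_lit 5) (nat_lit 636) (nat_lit 623) (nat_lit 301)) (XT.lf (nat_lit 0) (nat_lit 14367852488) (nat_lit 1824) (nat_lit 14233768778) (nat_lit 1900) (nat_lit 7429053410) (nat_lit 470) (nat_lit 5) (nat_lit 494) (nat_lit 5) (nat_lit 495) (nat_lit 5) (nat_lit 637) (nat_lit 623) (nat_lit 300))))) (XT.nd (nat_lit 234) (nat_lit 0) (nat_lit 152) (XT.nd (nat_lit 78) (nat_lit 0) (nat_lit 76) (XT.lf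 (nat_lit 76) (nat_lit 4409140758) (nat_lit 0) (nat_lit 11835391735) (nat_lit 1900) (nat_lit 20161807510) (nat_lit 471) (nat_lit 5) (nat_lit 470) (nat_lit 5) (nat_lit 495) (nat_lit 5) (nat_lit 638) (nat_lit 623) (nat_lit 299)) (XT.nd (nat_lit 78) (nat_lit 0) (nat_lit 0) (XT.lf (nat_lit 0) (nat_lit 18287730323) (nat_lit 1824) (nat_lit 13205595480) (nat_lit 1900) (nat_lit 5293613273) (nat_lit 471) (nat_lit 5) (nat_lit 495) (nat_lit 5) (nat_lit 496) (nat_lit 5) (nat_lit 639) (nat_lit 623) (nat_lit 298)) (XT.lf (nat_lit 76) (nat_lit 5960640892) (nat_lit 0) (nat_lit 14526902480) (nat_lit 1900) (nat_lit 16685291851) (nat_lit 472) (nat_lit 5) (nat_lit 471) (nat_lit 5) (nat_lit 496) (nat_lit 5) (nat_lit 640) (nat_lit 623) (nat_lit 297)))) (XT.nd (nat_lit 78) (nat_lit 0) (nat_lit 0) (XT.lf (nat_lit 0) (nat_lit 22837290667) (nat_lit 1824) (nat_lit 11895114774) (nat_lit 1900) (nat_lit 2831925209) (nat_lit 472) (nat_lit 5) (nat_lit 496) (nat_lit 5) (nat_lit 497) (nat_lit 5) (nat_lit 641)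 (nat_lit 623) (nat_lit 296)) (XT.nd (nat_lit 78) (nat_lit 0) (nat_lit 76) (XT.lf (nat_lit 76) (nat_lit 7813582052) (nat_lit 0) (nat_lit 17566104595) (nat_lit 1900) (nat_lit 12581056379) (nat_lit 473) (nat_lit 5) (nat_lit 472) (nat_lit 5) (nat_lit 497) (nat_lit 5) (nat_lit 642) (nat_lit 623) (nat_lit 295)) (XT.lf (nat_lit 0) (nat_lit 28051653578) (nat_lit 1824) (nat_lit 10286971710) (nat_lit 1900) (nat_lit 24884015) (nat_lit 473) (nat_lit 5) (nat_lit 497) (nat_lit 5) (nat_lit 498) (nat_lit 5) (nat_lit 643) (nat_lit 623) (nat_lit 294))))))))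
noncomputable def xc252 : XT := (XT.nd (nat_lit 80964) (nat_lit 0) (nat_lit 0) (XT.nd (nat_lit 80184) (nat_lit 0) (nat_lit 228) (XT.nd (nat_lit 79794) (nat_lit 0) (nat_lit 76) (XT.nd (nat_lit 156) (nat_lit 760) (nat_lit 0) (XT.nd (nat_lit 78) (nat_lit 0) (nat_lit 0) (XT.lf (nat_lit 76) (nat_lit 9984035073) (nat_lit 0) (nat_lit 20972942918) (nat_lit 1900) (nat_lit 7813754661) (nat_lit 474) (nat_lit 5) (nat_lit 473) (nat_lit 5) (nat_lit 498) (nat_lit 5) (nat_lit 644) (nat_lit 623) (nat_lit 293)) (XT.lf (nat_lit 76) (nat_lit 30798914295) (nat_lit 0) (nat_lit 3189306758) (nat_lit 1900) (nat_lit 5196523280) (nat_lit 474) (nat_lit 5) (nat_lit 473) (nat_lit 5) (nat_lit 498) (nat_lit 5) (nat_lit 645) (nat_lit 623) (nat_lit 292))) (XT.nd (nat_lit 79482) (nat_lit 836) (nat_lit 0) (XT.lf (nat_lit 76) (nat_lit 12488785848) (nat_lit 0) (nat_lit 24768260460) (nat_lit 1900) (nat_lit 2346450901) (nat_lit 475) (nat_lit 5) (nat_lit 474) (nat_lit 5) (nat_lit 499) (nat_lit 5) (nat_lit 646) (nat_lit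 623) (nat_lit 291)) (XT.nd (nat_lit 78) (nat_lit 0) (nat_lit 0) (XT.lf (nat_lit 0) (nat_lit 1041926674) (nat_lit 1900) (nat_lit 7454132030) (nat_lit 1900) (nat_lit 7454132030) (nat_lit 463) (nat_lit 3) (nat_lit 488) (nat_lit 3) (nat_lit 488) (nat_lit 5) (nat_lit 624) (nat_lit 624) (nat_lit 312)) (XT.lf (nat_lit 76) (nat_lit 860902642) (nat_lit 0) (nat_lit 1314116972) (nat_lit 1900) (nat_lit 30042953214) (nat_lit 464) (nat_lit 5) (nat_lit 463) (nat_lit 3) (nat_lit 488) (nat_lit 5) (nat_lit 625) (nat_lit 624) (nat_lit 311))))) (XT.nd (nat_lit 156) (nat_lit 0) (nat_lit 76) (XT.nd (nat_lit 78) (nat_lit 0) (nat_lit 0) (XT.lf (nat_lit 0) (nat_lit 2462311294) (nat_lit 1824) (nat_lit 15489252493) (nat_lit 1900) (nat_lit 14586466340) (nat_lit 464) (nat_lit 5) (nat_lit 488) (nat_lit 5) (nat_lit 489) (nat_lit 5) (nat_lit 626) (nat_lit 624) (nat_lit 310)) (XT.lf (nat_lit 76) (nat_lit 695440385) (nat_lit 0) (nat_lit 2071461306) (nat_lit 1900) (nat_lit 30097355975) (nat_lit 465) (nat_lit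 5) (nat_lit 464) (nat_lit 5) (nat_lit 489) (nat_lit 5) (nat_lit 627) (nat_lit 624) (nat_lit 309))) (XT.nd (nat_lit 78) (nat_lit 0) (nat_lit 0) (XT.lf (nat_lit 0) (nat_lit 3272296775) (nat_lit 1824) (nat_lit 15874479280) (nat_lit 1900) (nat_lit 14046339593) (nat_lit 465) (nat_lit 5) (nat_lit 489) (nat_lit 5) (nat_lit 490) (nat_lit 5) (nat_lit 628) (nat_lit 624) (nat_lit 308)) (XT.nd (nat_lit 78) (nat_lit 0) (nat_lit 76) (XT.lf (nat_lit 76) (nat_lit 740830509) (nat_lit 0) (nat_lit 3063896079) (nat_lit 1900) (nat_lit 29723485809) (nat_lit 466) (nat_lit 5) (nat_lit 465) (nat_lit 5) (nat_lit 490) (nat_lit 5) (nat_lit 629) (nat_lit 624) (nat_lit 307)) (XT.lf (nat_lit 0) (nat_lit 4540081308) (nat_lit 1824) (nat_lit 16052515897) (nat_lit 1900) (nat_lit 13273568494) (nat_lit 466) (nat_lit 5) (nat_lit 490) (nat_lit 5) (nat_lit 491) (nat_lit 5) (nat_lit 630) (nat_lit 624) (nat_lit 306)))))) (XT.nd (nat_lit 390) (nat_lit 0) (nat_lit 228) (XT.nd (nat_lit 156) (nat_lit 0) (nat_lit 76) (XT.nd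 (nat_lit 78) (nat_lit 0) (nat_lit 76) (XT.lf (nat_lit 76) (nat_lit 1009066474) (nat_lit 0) (nat_lit 4306378129) (nat_lit 1900) (nat_lit 28894927574) (nat_lit 467) (nat_lit 5) (nat_lit 466) (nat_lit 5) (nat_lit 491) (nat_lit 5) (nat_lit 631) (nat_lit 624) (nat_lit 305)) (XT.lf (nat_lit 0) (nat_lit 6293132654) (nat_lit 1824) (nat_lit 16011393669) (nat_lit 1900) (nat_lit 12253200250) (nat_lit 467) (nat_lit 5) (nat_lit 491) (nat_lit 5) (nat_lit 492) (nat_lit 5) (nat_lit 632) (nat_lit 624) (nat_lit 304))) (XT.nd (nat_lit 78) (nat_lit 0) (nat_lit 76) (XT.lf (nat_lit 76) (nat_lit 1512703001) (nat_lit 0) (nat_lit 5814529039) (nat_lit 1900) (nat_lit 27584059000) (nat_lit 468) (nat_lit 5) (nat_lit 467) (nat_lit 5) (nat_lit 492) (nat_lit 5) (nat_lit 633) (nat_lit 624) (nat_lit 303)) (XT.nd (nat_lit 78) (nat_lit 0) (nat_lit 0) (XT.lf (nat_lit 0) (nat_lit 8560166900) (nat_lit 1824) (nat_lit 15738583254) (nat_lit 1900) (nat_lit 10969613704) (nat_lit 468) (nat_lit 5) (nat_lit 492) (nat_lit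 5) (nat_lit 493) (nat_lit 5) (nat_lit 634) (nat_lit 624) (nat_lit 302)) (XT.lf (nat_lit 76) (nat_lit 2264877362) (nat_lit 0) (nat_lit 7604667105) (nat_lit 1900) (nat_lit 25761998116) (nat_lit 469) (nat_lit 5) (nat_lit 468) (nat_lit 5) (nat_lit 493) (nat_lit 5) (nat_lit 635) (nat_lit 624) (nat_lit 301))))) (XT.nd (nat_lit 156) (nat_lit 0) (nat_lit 76) (XT.nd (nat_lit 78) (nat_lit 0) (nat_lit 0) (XT.lf (nat_lit 0) (nat_lit 11371202580) (nat_lit 1824) (nat_lit 15220973328) (nat_lit 1900) (nat_lit 9406487241) (nat_lit 469) (nat_lit 5) (nat_lit 493) (nat_lit 5) (nat_lit 494) (nat_lit 5) (nat_lit 636) (nat_lit 624) (nat_lit 300)) (XT.lf (nat_lit 76) (nat_lit 3279331520) (nat_lit 0) (nat_lit 9693840560) (nat_lit 1900) (nat_lit 23398548607) (nat_lit 470) (nat_lit 5) (nat_lit 469) (nat_lit 5) (nat_lit 494) (nat_lit 5) (nat_lit 637) (nat_lit 624) (nat_lit 299))) (XT.nd (nat_lit 78) (nat_lit 0) (nat_lit 0) (XT.lf (nat_lit 0) (nat_lit 14757616935) (nat_lit 1824) (nat_lit 14444848416)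 (nat_lit 1900) (nat_lit 7546765426) (nat_lit 470) (nat_lit 5) (nat_lit 494) (nat_lit 5) (nat_lit 495) (nat_lit 5) (nat_lit 638) (nat_lit 624) (nat_lit 298)) (XT.nd (nat_lit 78) (nat_lit 0) (nat_lit 76) (XT.lf (nat_lit 76) (nat_lit 4570435128) (nat_lit 0) (nat_lit 12099862112) (nat_lit 1900) (nat_lit 20462143017) (nat_lit 471) (nat_lit 5) (nat_lit 470) (nat_lit 5) (nat_lit 495) (nat_lit 5) (nat_lit 639) (nat_lit 624) (nat_lit 297)) (XT.lf (nat_lit 0) (nat_lit 18752204384) (nat_lit 1824) (nat_lit 13395865865) (nat_lit 1900) (nat_lit 5372624331) (nat_lit 471) (nat_lit 5) (nat_lit 495) (nat_lit 5) (nat_lit 496) (nat_lit 5) (nat_lit 640) (nat_lit 624) (nat_lit 296))))))) (XT.nd (nat_lit 80340) (nat_lit 0) (nat_lit 152) (XT.nd (nat_lit 79950) (nat_lit 608) (nat_lit 0) (XT.nd (nat_lit 156) (nat_lit 0) (nat_lit 76) (XT.nd (nat_lit 78) (nat_lit 0) (nat_lit 76) (XT.lf (nat_lit 76) (nat_lit 6153209434) (nat_lit 0) (nat_lit 14841344858) (nat_lit 1900) (nat_lit 16919783721) (nat_lit 472)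 (nat_lit 5) (nat_lit 471) (nat_lit 5) (nat_lit 496) (nat_lit 5) (nat_lit 641) (nat_lit 624) (nat_lit 295)) (XT.lf (nat_lit 0) (nat_lit 23389237315) (nat_lit 1824) (nat_lit 12059031931) (nat_lit 1900) (nat_lit 2865435459) (nat_lit 472) (nat_lit 5) (nat_lit 496) (nat_lit 5) (nat_lit 497) (nat_lit 5) (nat_lit 642) (nat_lit 624) (nat_lit 294))) (XT.nd (nat_lit 78) (nat_lit 0) (nat_lit 76) (XT.lf (nat_lit 76) (nat_lit 8043352087) (nat_lit 0) (nat_lit 17937739645) (nat_lit 1900) (nat_lit 12736981554) (nat_lit 473) (nat_lit 5) (nat_lit 472) (nat_lit 5) (nat_lit 497) (nat_lit 5) (nat_lit 643) (nat_lit 624) (nat_lit 293)) (XT.nd (nat_lit 78) (nat_lit 0) (nat_lit 0) (XT.lf (nat_lit 0) (nat_lit 28704529264) (nat_lit 1824) (nat_lit 10418676948) (nat_lit 1900) (nat_lit 5728215) (nat_lit 473) (nat_lit 5) (nat_lit 497) (nat_lit 5) (nat_lit 498) (nat_lit 5) (nat_lit 644) (nat_lit 624) (nat_lit 292)) (XT.lf (nat_lit 76) (nat_lit 10257262903) (nat_lit 0) (nat_lit 21409373943) (nat_lit 1900)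 (nat_lit 7877692024) (nat_lit 474) (nat_lit 5) (nat_lit 473) (nat_lit 5) (nat_lit 498) (nat_lit 5) (nat_lit 645) (nat_lit 624) (nat_lit 291))))) (XT.nd (nat_lit 156) (nat_lit 0) (nat_lit 76) (XT.nd (nat_lit 78) (nat_lit 0) (nat_lit 0) (XT.lf (nat_lit 0) (nat_lit 1127083065) (nat_lit 1900) (nat_lit 7570409632) (nat_lit 1900) (nat_lit 7570409632) (nat_lit 463) (nat_lit 3) (nat_lit 488) (nat_lit 3) (nat_lit 488) (nat_lit 5) (nat_lit 625) (nat_lit 625) (nat_lit 310)) (XT.lf (nat_lit 76) (nat_lit 943299127) (nat_lit 0) (nat_lit 1401757507) (nat_lit 1900) (nat_lit 30514733422) (nat_lit 464) (nat_lit 5) (nat_lit 463) (nat_lit 3) (nat_lit 488) (nat_lit 5) (nat_lit 626) (nat_lit 625) (nat_lit 309))) (XT.nd (nat_lit 78) (nat_lit 0) (nat_lit 0) (XT.lf (nat_lit 0) (nat_lit 2635222470) (nat_lit 1824) (nat_lit 15732254172) (nat_lit 1900) (nat_lit 14818829518) (nat_lit 464) (nat_lit 5) (nat_lit 488) (nat_lit 5) (nat_lit 489) (nat_lit 5) (nat_lit 627) (nat_lit 625) (nat_lit 308)) (XT.nd (nat_lit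 78) (nat_lit 0) (nat_lit 76) (XT.lf (nat_lit 76) (nat_lit 775693200) (nat_lit 0) (nat_lit 2168217422) (nat_lit 1900) (nat_lit 30575187730) (nat_lit 465) (nat_lit 5) (nat_lit 464) (nat_lit 5) (nat_lit 489) (nat_lit 5) (nat_lit 628) (nat_lit 625) (nat_lit 307)) (XT.lf (nat_lit 0) (nat_lit 3456675728) (nat_lit 1824) (nat_lit 16124177009) (nat_lit 1900) (nat_lit 14273735730) (nat_lit 465) (nat_lit 5) (nat_lit 489) (nat_lit 5) (nat_lit 490) (nat_lit 5) (nat_lit 629) (nat_lit 625) (nat_lit 306)))))) (XT.nd (nat_lit 390) (nat_lit 0) (nat_lit 228) (XT.nd (nat_lit 156) (nat_lit 0) (nat_lit 76) (XT.nd (nat_lit 78) (nat_lit 0) (nat_lit 76) (XT.lf (nat_lit 76) (nat_lit 822992976) (nat_lit 0) (nat_lit 3174866395) (nat_lit 1900) (nat_lit 30198565888) (nat_lit 466) (nat_lit 5) (nat_lit 465) (nat_lit 5) (nat_lit 490) (nat_lit 5) (nat_lit 630) (nat_lit 625) (nat_lit 305)) (XT.lf (nat_lit 0) (nat_lit 4745310009) (nat_lit 1824) (nat_lit 16304919275) (nat_lit 1900) (nat_lit 13490960775) (nat_lit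 466) (nat_lit 5) (nat_lit 490) (nat_lit 5) (nat_lit 491) (nat_lit 5) (nat_lit 631) (nat_lit 625) (nat_lit 304))) (XT.nd (nat_lit 78) (nat_lit 0) (nat_lit 76) (XT.lf (nat_lit 76) (nat_lit 1097443119) (nat_lit 0) (nat_lit 4436936552) (nat_lit 1900) (nat_lit 29357937219) (nat_lit 467) (nat_lit 5) (nat_lit 466) (nat_lit 5) (nat_lit 491) (nat_lit 5) (nat_lit 632) (nat_lit 625) (nat_lit 303)) (XT.nd (nat_lit 78) (nat_lit 0) (nat_lit 0) (XT.lf (nat_lit 0) (nat_lit 6529130308) (nat_lit 1824) (nat_lit 16262262207) (nat_lit 1900) (nat_lit 12455275881) (nat_lit 467) (nat_lit 5) (nat_lit 491) (nat_lit 5) (nat_lit 492) (nat_lit 5) (nat_lit 633) (nat_lit 625) (nat_lit 302)) (XT.lf (nat_lit 76) (nat_lit 1611860084) (nat_lit 0) (nat_lit 5970339452) (nat_lit 1900) (nat_lit 28025139056) (nat_lit 468) (nat_lit 5) (nat_lit 467) (nat_lit 5) (nat_lit 492) (nat_lit 5) (nat_lit 634) (nat_lit 625) (nat_lit 301))))) (XT.nd (nat_lit 234) (nat_lit 0) (nat_lit 76) (XT.nd (nat_lit 78) (nat_lit 0) (nat_lit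 0) (XT.lf (nat_lit 0) (nat_lit 8837415597) (nat_lit 1824) (nat_lit 15983415820) (nat_lit 1900) (nat_lit 11150769192) (nat_lit 468) (nat_lit 5) (nat_lit 492) (nat_lit 5) (nat_lit 493) (nat_lit 5) (nat_lit 635) (nat_lit 625) (nat_lit 300)) (XT.nd (nat_lit 78) (nat_lit 0) (nat_lit 76) (XT.lf (nat_lit 76) (nat_lit 2379653882) (nat_lit 0) (nat_lit 7791698615) (nat_lit 1900) (nat_lit 26170723163) (nat_lit 469) (nat_lit 5) (nat_lit 468) (nat_lit 5) (nat_lit 493) (nat_lit 5) (nat_lit 636) (nat_lit 625) (nat_lit 299)) (XT.lf (nat_lit 0) (nat_lit 11700773985) (nat_lit 1824) (nat_lit 15454997120) (nat_lit 1900) (nat_lit 9560813114) (nat_lit 469) (nat_lit 5) (nat_lit 493) (nat_lit 5) (nat_lit 494) (nat_lit 5) (nat_lit 637) (nat_lit 625) (nat_lit 298)))) (XT.nd (nat_lit 78) (nat_lit 0) (nat_lit 76) (XT.lf (nat_lit 76) (nat_lit 3414850695) (nat_lit 0) (nat_lit 9918383338) (nat_lit 1900) (nat_lit 23763900032) (nat_lit 470) (nat_lit 5) (nat_lit 469) (nat_lit 5) (nat_lit 494) (nat_lit 5) (nat_lit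 638) (nat_lit 625) (nat_lit 297)) (XT.nd (nat_lit 78) (nat_lit 0) (nat_lit 0) (XT.lf (nat_lit 0) (nat_lit 15151200066) (nat_lit 1824) (nat_lit 14663007459) (nat_lit 1900) (nat_lit 7668030365) (nat_lit 470) (nat_lit 5) (nat_lit 494) (nat_lit 5) (nat_lit 495) (nat_lit 5) (nat_lit 639) (nat_lit 625) (nat_lit 296)) (XT.lf (nat_lit 76) (nat_lit 4732116375) (nat_lit 0) (nat_lit 12368543843) (nat_lit 1900) (nat_lit 20772480991) (nat_lit 471) (nat_lit 5) (nat_lit 470) (nat_lit 5) (nat_lit 495) (nat_lit 5) (nat_lit 640) (nat_lit 625) (nat_lit 295))))))))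
noncomputable def xc253 : XT := (XT.nd (nat_lit 81198) (nat_lit 0) (nat_lit 0) (XT.nd (nat_lit 80418) (nat_lit 0) (nat_lit 152) (XT.nd (nat_lit 80028) (nat_lit 608) (nat_lit 0) (XT.nd (nat_lit 156) (nat_lit 0) (nat_lit 76) (XT.nd (nat_lit 78) (nat_lit 0) (nat_lit 0) (XT.lf (nat_lit 0) (nat_lit 19222134531) (nat_lit 1824) (nat_lit 13592809015) (nat_lit 1900) (nat_lit 5454258664) (nat_lit 471) (nat_lit 5) (nat_lit 495) (nat_lit 5) (nat_lit 496) (nat_lit 5) (nat_lit 641) (nat_lit 625) (nat_lit 294)) (XT.lf (nat_lit 76) (nat_lit 6346780855) (nat_lit 0) (nat_lit 15161147851) (nat_lit 1900) (nat_lit 17162818028) (nat_lit 472) (nat_lit 5) (nat_lit 471) (nat_lit 5) (nat_lit 496) (nat_lit 5) (nat_lit 642) (nat_lit 625) (nat_lit 293))) (XT.nd (nat_lit 78) (nat_lit 0) (nat_lit 0) (XT.lf (nat_lit 0) (nat_lit 23948526131) (nat_lit 1824) (nat_lit 12229100365) (nat_lit 1900) (nat_lit 2900514011) (nat_lit 472) (nat_lit 5) (nat_lit 496) (nat_lit 5) (nat_lit 497) (nat_lit 5) (nat_lit 643) (nat_lit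 625) (nat_lit 292)) (XT.nd (nat_lit 78) (nat_lit 0) (nat_lit 0) (XT.lf (nat_lit 76) (nat_lit 8274863490) (nat_lit 0) (nat_lit 18316018619) (nat_lit 1900) (nat_lit 12899741223) (nat_lit 473) (nat_lit 5) (nat_lit 472) (nat_lit 5) (nat_lit 497) (nat_lit 5) (nat_lit 644) (nat_lit 625) (nat_lit 291)) (XT.lf (nat_lit 76) (nat_lit 29353761014) (nat_lit 0) (nat_lit 13220927) (nat_lit 1900) (nat_lit 10542756041) (nat_lit 473) (nat_lit 5) (nat_lit 472) (nat_lit 5) (nat_lit 497) (nat_lit 5) (nat_lit 645) (nat_lit 625) (nat_lit 290))))) (XT.nd (nat_lit 156) (nat_lit 0) (nat_lit 76) (XT.nd (nat_lit 78) (nat_lit 0) (nat_lit 0) (XT.lf (nat_lit 0) (nat_lit 1211445043) (nat_lit 1900) (nat_lit 7690286645) (nat_lit 1900) (nat_lit 7690286645) (nat_lit 463) (nat_lit 3) (nat_lit 488) (nat_lit 3) (nat_lit 488) (nat_lit 5) (nat_lit 626) (nat_lit 626) (nat_lit 308)) (XT.lf (nat_lit 76) (nat_lit 1024812584) (nat_lit 0) (nat_lit 1488768239) (nat_lit 1900) (nat_lit 31000961523) (nat_lit 464) (nat_lit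 5) (nat_lit 463) (nat_lit 3) (nat_lit 488) (nat_lit 5) (nat_lit 627) (nat_lit 626) (nat_lit 307))) (XT.nd (nat_lit 78) (nat_lit 0) (nat_lit 0) (XT.lf (nat_lit 0) (nat_lit 2806789810) (nat_lit 1824) (nat_lit 15982709163) (nat_lit 1900) (nat_lit 15058145219) (nat_lit 464) (nat_lit 5) (nat_lit 488) (nat_lit 5) (nat_lit 489) (nat_lit 5) (nat_lit 628) (nat_lit 626) (nat_lit 306)) (XT.nd (nat_lit 78) (nat_lit 0) (nat_lit 76) (XT.lf (nat_lit 76) (nat_lit 854974852) (nat_lit 0) (nat_lit 2264760250) (nat_lit 1900) (nat_lit 31067395671) (nat_lit 465) (nat_lit 5) (nat_lit 464) (nat_lit 5) (nat_lit 489) (nat_lit 5) (nat_lit 629) (nat_lit 626) (nat_lit 305)) (XT.lf (nat_lit 0) (nat_lit 3640123947) (nat_lit 1824) (nat_lit 16381501133) (nat_lit 1900) (nat_lit 14507758450) (nat_lit 465) (nat_lit 5) (nat_lit 489) (nat_lit 5) (nat_lit 490) (nat_lit 5) (nat_lit 630) (nat_lit 626) (nat_lit 304)))))) (XT.nd (nat_lit 390) (nat_lit 0) (nat_lit 228) (XT.nd (nat_lit 156) (nat_lit 0) (nat_lit 76) (XT.nd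 (nat_lit 78) (nat_lit 0) (nat_lit 76) (XT.lf (nat_lit 76) (nat_lit 904183571) (nat_lit 0) (nat_lit 3286126501) (nat_lit 1900) (nat_lit 30687783614) (nat_lit 466) (nat_lit 5) (nat_lit 465) (nat_lit 5) (nat_lit 490) (nat_lit 5) (nat_lit 631) (nat_lit 626) (nat_lit 303)) (XT.lf (nat_lit 0) (nat_lit 4950199940) (nat_lit 1824) (nat_lit 16565036365) (nat_lit 1900) (nat_lit 13714567872) (nat_lit 466) (nat_lit 5) (nat_lit 490) (nat_lit 5) (nat_lit 491) (nat_lit 5) (nat_lit 632) (nat_lit 626) (nat_lit 302))) (XT.nd (nat_lit 78) (nat_lit 0) (nat_lit 76) (XT.lf (nat_lit 76) (nat_lit 1184939189) (nat_lit 0) (nat_lit 4568380839) (nat_lit 1900) (nat_lit 29834668332) (nat_lit 467) (nat_lit 5) (nat_lit 466) (nat_lit 5) (nat_lit 491) (nat_lit 5) (nat_lit 633) (nat_lit 626) (nat_lit 301)) (XT.nd (nat_lit 78) (nat_lit 0) (nat_lit 0) (XT.lf (nat_lit 0) (nat_lit 6765571239) (nat_lit 1824) (nat_lit 16520841425) (nat_lit 1900) (nat_lit 12663062315) (nat_lit 467) (nat_lit 5) (nat_lit 491) (nat_lit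 5) (nat_lit 492) (nat_lit 5) (nat_lit 634) (nat_lit 626) (nat_lit 300)) (XT.lf (nat_lit 76) (nat_lit 1710324720) (nat_lit 0) (nat_lit 6127731470) (nat_lit 1900) (nat_lit 28479335490) (nat_lit 468) (nat_lit 5) (nat_lit 467) (nat_lit 5) (nat_lit 492) (nat_lit 5) (nat_lit 635) (nat_lit 626) (nat_lit 299))))) (XT.nd (nat_lit 156) (nat_lit 0) (nat_lit 76) (XT.nd (nat_lit 78) (nat_lit 0) (nat_lit 0) (XT.lf (nat_lit 0) (nat_lit 9116091397) (nat_lit 1824) (nat_lit 16235860858) (nat_lit 1900) (nat_lit 11337032570) (nat_lit 468) (nat_lit 5) (nat_lit 492) (nat_lit 5) (nat_lit 493) (nat_lit 5) (nat_lit 636) (nat_lit 626) (nat_lit 298)) (XT.lf (nat_lit 76) (nat_lit 2494027980) (nat_lit 0) (nat_lit 7981114065) (nat_lit 1900) (nat_lit 26591758815) (nat_lit 469) (nat_lit 5) (nat_lit 468) (nat_lit 5) (nat_lit 493) (nat_lit 5) (nat_lit 637) (nat_lit 626) (nat_lit 297))) (XT.nd (nat_lit 78) (nat_lit 0) (nat_lit 0) (XT.lf (nat_lit 0) (nat_lit 12032970311) (nat_lit 1824) (nat_lit 15696434937)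 (nat_lit 1900) (nat_lit 9719538151) (nat_lit 469) (nat_lit 5) (nat_lit 493) (nat_lit 5) (nat_lit 494) (nat_lit 5) (nat_lit 638) (nat_lit 626) (nat_lit 296)) (XT.nd (nat_lit 78) (nat_lit 0) (nat_lit 76) (XT.lf (nat_lit 76) (nat_lit 3550364689) (nat_lit 0) (nat_lit 10146226174) (nat_lit 1900) (nat_lit 24140543328) (nat_lit 470) (nat_lit 5) (nat_lit 469) (nat_lit 5) (nat_lit 494) (nat_lit 5) (nat_lit 639) (nat_lit 626) (nat_lit 295)) (XT.lf (nat_lit 0) (nat_lit 15548832672) (nat_lit 1824) (nat_lit 14888276523) (nat_lit 1900) (nat_lit 7792872739) (nat_lit 470) (nat_lit 5) (nat_lit 494) (nat_lit 5) (nat_lit 495) (nat_lit 5) (nat_lit 640) (nat_lit 626) (nat_lit 294))))))) (XT.nd (nat_lit 80574) (nat_lit 0) (nat_lit 228) (XT.nd (nat_lit 80184) (nat_lit 0) (nat_lit 0) (XT.nd (nat_lit 156) (nat_lit 532) (nat_lit 0) (XT.nd (nat_lit 78) (nat_lit 0) (nat_lit 76) (XT.lf (nat_lit 76) (nat_lit 4894302479) (nat_lit 0) (nat_lit 12641563017) (nat_lit 1900) (nat_lit 21092866322) (nat_lit 471)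 (nat_lit 5) (nat_lit 470) (nat_lit 5) (nat_lit 495) (nat_lit 5) (nat_lit 641) (nat_lit 626) (nat_lit 293)) (XT.lf (nat_lit 0) (nat_lit 19697778738) (nat_lit 1824) (nat_lit 13796447042) (nat_lit 1900) (nat_lit 5538528234) (nat_lit 471) (nat_lit 5) (nat_lit 495) (nat_lit 5) (nat_lit 496) (nat_lit 5) (nat_lit 642) (nat_lit 626) (nat_lit 292))) (XT.nd (nat_lit 78) (nat_lit 608) (nat_lit 0) (XT.lf (nat_lit 76) (nat_lit 6541485822) (nat_lit 0) (nat_lit 15486454713) (nat_lit 1900) (nat_lit 17414416018) (nat_lit 472) (nat_lit 5) (nat_lit 471) (nat_lit 5) (nat_lit 496) (nat_lit 5) (nat_lit 643) (nat_lit 626) (nat_lit 291)) (XT.nd (nat_lit 79872) (nat_lit 684) (nat_lit 0) (XT.lf (nat_lit 0) (nat_lit 24515447509) (nat_lit 1824) (nat_lit 12405331542) (nat_lit 1900) (nat_lit 2937157359) (nat_lit 472) (nat_lit 5) (nat_lit 496) (nat_lit 5) (nat_lit 497) (nat_lit 5) (nat_lit 644) (nat_lit 626) (nat_lit 290)) (XT.lf (nat_lit 0) (nat_lit 1295093703) (nat_lit 1900) (nat_lit 7813785593) (nat_lit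 1900) (nat_lit 7813785593) (nat_lit 463) (nat_lit 3) (nat_lit 488) (nat_lit 3) (nat_lit 488) (nat_lit 5) (nat_lit 627) (nat_lit 627) (nat_lit 306))))) (XT.nd (nat_lit 156) (nat_lit 0) (nat_lit 76) (XT.nd (nat_lit 78) (nat_lit 0) (nat_lit 76) (XT.lf (nat_lit 76) (nat_lit 1105523633) (nat_lit 0) (nat_lit 1575229092) (nat_lit 1900) (nat_lit 31501731843) (nat_lit 464) (nat_lit 5) (nat_lit 463) (nat_lit 3) (nat_lit 488) (nat_lit 5) (nat_lit 628) (nat_lit 627) (nat_lit 305)) (XT.lf (nat_lit 0) (nat_lit 2977172905) (nat_lit 1824) (nat_lit 16240665835) (nat_lit 1900) (nat_lit 15304462979) (nat_lit 464) (nat_lit 5) (nat_lit 488) (nat_lit 5) (nat_lit 489) (nat_lit 5) (nat_lit 629) (nat_lit 627) (nat_lit 304))) (XT.nd (nat_lit 78) (nat_lit 0) (nat_lit 76) (XT.lf (nat_lit 76) (nat_lit 933365957) (nat_lit 0) (nat_lit 2361168949) (nat_lit 1900) (nat_lit 31574080173) (nat_lit 465) (nat_lit 5) (nat_lit 464) (nat_lit 5) (nat_lit 489) (nat_lit 5) (nat_lit 630) (nat_lit 627) (nat_lit 303)) (XT.nd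 (nat_lit 78) (nat_lit 0) (nat_lit 0) (XT.lf (nat_lit 0) (nat_lit 3822802150) (nat_lit 1824) (nat_lit 16646501960) (nat_lit 1900) (nat_lit 14748459569) (nat_lit 465) (nat_lit 5) (nat_lit 489) (nat_lit 5) (nat_lit 490) (nat_lit 5) (nat_lit 631) (nat_lit 627) (nat_lit 302)) (XT.lf (nat_lit 76) (nat_lit 984484405) (nat_lit 0) (nat_lit 3397757123) (nat_lit 1900) (nat_lit 31191241716) (nat_lit 466) (nat_lit 5) (nat_lit 465) (nat_lit 5) (nat_lit 490) (nat_lit 5) (nat_lit 632) (nat_lit 627) (nat_lit 301)))))) (XT.nd (nat_lit 390) (nat_lit 0) (nat_lit 152) (XT.nd (nat_lit 156) (nat_lit 0) (nat_lit 76) (XT.nd (nat_lit 78) (nat_lit 0) (nat_lit 0) (XT.lf (nat_lit 0) (nat_lit 5154916869) (nat_lit 1824) (nat_lit 16832917931) (nat_lit 1900) (nat_lit 13944441584) (nat_lit 466) (nat_lit 5) (nat_lit 490) (nat_lit 5) (nat_lit 491) (nat_lit 5) (nat_lit 633) (nat_lit 627) (nat_lit 300)) (XT.lf (nat_lit 76) (nat_lit 1271639903) (nat_lit 0) (nat_lit 4700795703) (nat_lit 1900) (nat_lit 30325222108)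 (nat_lit 467) (nat_lit 5) (nat_lit 466) (nat_lit 5) (nat_lit 491) (nat_lit 5) (nat_lit 634) (nat_lit 627) (nat_lit 299))) (XT.nd (nat_lit 78) (nat_lit 0) (nat_lit 0) (XT.lf (nat_lit 0) (nat_lit 7002630381) (nat_lit 1824) (nat_lit 16787180949) (nat_lit 1900) (nat_lit 12876608949) (nat_lit 467) (nat_lit 5) (nat_lit 491) (nat_lit 5) (nat_lit 492) (nat_lit 5) (nat_lit 635) (nat_lit 627) (nat_lit 298)) (XT.nd (nat_lit 78) (nat_lit 0) (nat_lit 76) (XT.lf (nat_lit 76) (nat_lit 1808186958) (nat_lit 0) (nat_lit 6286796315) (nat_lit 1900) (nat_lit 28946743858) (nat_lit 468) (nat_lit 5) (nat_lit 467) (nat_lit 5) (nat_lit 492) (nat_lit 5) (nat_lit 636) (nat_lit 627) (nat_lit 297)) (XT.lf (nat_lit 0) (nat_lit 9396382745) (nat_lit 1824) (nat_lit 16495965159) (nat_lit 1900) (nat_lit 11528448341) (nat_lit 468) (nat_lit 5) (nat_lit 492) (nat_lit 5) (nat_lit 493) (nat_lit 5) (nat_lit 637) (nat_lit 627) (nat_lit 296))))) (XT.nd (nat_lit 234) (nat_lit 0) (nat_lit 152) (XT.nd (nat_lit 78) (nat_lit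 0) (nat_lit 76) (XT.lf (nat_lit 76) (nat_lit 2608096371) (nat_lit 0) (nat_lit 8173013813) (nat_lit 1900) (nat_lit 27025190674) (nat_lit 469) (nat_lit 5) (nat_lit 468) (nat_lit 5) (nat_lit 493) (nat_lit 5) (nat_lit 638) (nat_lit 627) (nat_lit 295)) (XT.nd (nat_lit 78) (nat_lit 0) (nat_lit 0) (XT.lf (nat_lit 0) (nat_lit 12367998082) (nat_lit 1824) (nat_lit 15945328914) (nat_lit 1900) (nat_lit 9882699363) (nat_lit 469) (nat_lit 5) (nat_lit 493) (nat_lit 5) (nat_lit 494) (nat_lit 5) (nat_lit 639) (nat_lit 627) (nat_lit 294)) (XT.lf (nat_lit 76) (nat_lit 3685978845) (nat_lit 0) (nat_lit 10377481311) (nat_lit 1900) (nat_lit 24528549595) (nat_lit 470) (nat_lit 5) (nat_lit 469) (nat_lit 5) (nat_lit 494) (nat_lit 5) (nat_lit 640) (nat_lit 627) (nat_lit 293)))) (XT.nd (nat_lit 78) (nat_lit 0) (nat_lit 0) (XT.lf (nat_lit 0) (nat_lit 15950744163) (nat_lit 1824) (nat_lit 15120691144) (nat_lit 1900) (nat_lit 7921319359) (nat_lit 470) (nat_lit 5) (nat_lit 494) (nat_lit 5) (nat_lit 495) (nat_lit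 5) (nat_lit 641) (nat_lit 627) (nat_lit 292)) (XT.nd (nat_lit 78) (nat_lit 0) (nat_lit 76) (XT.lf (nat_lit 76) (nat_lit 5057109497) (nat_lit 0) (nat_lit 12919046621) (nat_lit 1900) (nat_lit 21423350822) (nat_lit 471) (nat_lit 5) (nat_lit 470) (nat_lit 5) (nat_lit 495) (nat_lit 5) (nat_lit 642) (nat_lit 627) (nat_lit 291)) (XT.lf (nat_lit 0) (nat_lit 20179394364) (nat_lit 1824) (nat_lit 14006806823) (nat_lit 1900) (nat_lit 5625446815) (nat_lit 471) (nat_lit 5) (nat_lit 495) (nat_lit 5) (nat_lit 496) (nat_lit 5) (nat_lit 643) (nat_lit 627) (nat_lit 290))))))))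
noncomputable def xc254 : XT := (XT.nd (nat_lit 161460) (nat_lit 0) (nat_lit 0) (XT.nd (nat_lit 80652) (nat_lit 0) (nat_lit 0) (XT.nd (nat_lit 80262) (nat_lit 0) (nat_lit 152) (XT.nd (nat_lit 80028) (nat_lit 0) (nat_lit 0) (XT.nd (nat_lit 79950) (nat_lit 608) (nat_lit 0) (XT.lf (nat_lit 76) (nat_lit 6737453322) (nat_lit 0) (nat_lit 15817410168) (nat_lit 1900) (nat_lit 17674605175) (nat_lit 472) (nat_lit 5) (nat_lit 471) (nat_lit 5) (nat_lit 496) (nat_lit 5) (nat_lit 644) (nat_lit 627) (nat_lit 289)) (XT.lf (nat_lit 0) (nat_lit 1378107994) (nat_lit 1900) (nat_lit 7940931369) (nat_lit 1900) (nat_lit 7940931369) (nat_lit 463) (nat_lit 3) (nat_lit 488) (nat_lit 3) (nat_lit 488) (nat_lit 5) (nat_lit 628) (nat_lit 628) (nat_lit 304))) (XT.nd (nat_lit 78) (nat_lit 0) (nat_lit 76) (XT.lf (nat_lit 76) (nat_lit 1185510688) (nat_lit 0) (nat_lit 1661217995) (nat_lit 1900) (nat_lit 32017148150) (nat_lit 464) (nat_lit 5) (nat_lit 463) (nat_lit 3) (nat_lit 488) (nat_lit 5) (nat_lit 629)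 (nat_lit 628) (nat_lit 303)) (XT.nd (nat_lit 78) (nat_lit 0) (nat_lit 0) (XT.lf (nat_lit 0) (nat_lit 3146527300) (nat_lit 1824) (nat_lit 16506177429) (nat_lit 1900) (nat_lit 15557836797) (nat_lit 464) (nat_lit 5) (nat_lit 488) (nat_lit 5) (nat_lit 489) (nat_lit 5) (nat_lit 630) (nat_lit 628) (nat_lit 302)) (XT.lf (nat_lit 76) (nat_lit 1010944856) (nat_lit 0) (nat_lit 2457521023) (nat_lit 1900) (nat_lit 32095350885) (nat_lit 465) (nat_lit 5) (nat_lit 464) (nat_lit 5) (nat_lit 489) (nat_lit 5) (nat_lit 631) (nat_lit 628) (nat_lit 301))))) (XT.nd (nat_lit 156) (nat_lit 0) (nat_lit 76) (XT.nd (nat_lit 78) (nat_lit 0) (nat_lit 0) (XT.lf (nat_lit 0) (nat_lit 4004867309) (nat_lit 1824) (nat_lit 16919234770) (nat_lit 1900) (nat_lit 14995895071) (nat_lit 465) (nat_lit 5) (nat_lit 489) (nat_lit 5) (nat_lit 490) (nat_lit 5) (nat_lit 632) (nat_lit 628) (nat_lit 300)) (XT.lf (nat_lit 76) (nat_lit 1063975287) (nat_lit 0) (nat_lit 3509837690) (nat_lit 1900) (nat_lit 31709051969) (nat_lit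 466) (nat_lit 5) (nat_lit 465) (nat_lit 5) (nat_lit 490) (nat_lit 5) (nat_lit 633) (nat_lit 628) (nat_lit 299))) (XT.nd (nat_lit 78) (nat_lit 0) (nat_lit 0) (XT.lf (nat_lit 0) (nat_lit 5359623173) (nat_lit 1824) (nat_lit 17108619772) (nat_lit 1900) (nat_lit 14180637561) (nat_lit 466) (nat_lit 5) (nat_lit 490) (nat_lit 5) (nat_lit 491) (nat_lit 5) (nat_lit 634) (nat_lit 628) (nat_lit 298)) (XT.nd (nat_lit 78) (nat_lit 0) (nat_lit 76) (XT.lf (nat_lit 76) (nat_lit 1357628189) (nat_lit 0) (nat_lit 4834264949) (nat_lit 1900) (nat_lit 30829708488) (nat_lit 467) (nat_lit 5) (nat_lit 466) (nat_lit 5) (nat_lit 491) (nat_lit 5) (nat_lit 635) (nat_lit 628) (nat_lit 297)) (XT.lf (nat_lit 0) (nat_lit 7240479717) (nat_lit 1824) (nat_lit 17061335464) (nat_lit 1900) (nat_lit 13095968682) (nat_lit 467) (nat_lit 5) (nat_lit 491) (nat_lit 5) (nat_lit 492) (nat_lit 5) (nat_lit 636) (nat_lit 628) (nat_lit 296)))))) (XT.nd (nat_lit 390) (nat_lit 304) (nat_lit 0) (XT.nd (nat_lit 156) (nat_lit 0)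 (nat_lit 76) (XT.nd (nat_lit 78) (nat_lit 0) (nat_lit 76) (XT.lf (nat_lit 76) (nat_lit 1905534610) (nat_lit 0) (nat_lit 6447624721) (nat_lit 1900) (nat_lit 29427468102) (nat_lit 468) (nat_lit 5) (nat_lit 467) (nat_lit 5) (nat_lit 492) (nat_lit 5) (nat_lit 637) (nat_lit 628) (nat_lit 295)) (XT.lf (nat_lit 0) (nat_lit 9678475644) (nat_lit 1824) (nat_lit 16763780544) (nat_lit 1900) (nat_lit 11725064136) (nat_lit 468) (nat_lit 5) (nat_lit 492) (nat_lit 5) (nat_lit 493) (nat_lit 5) (nat_lit 638) (nat_lit 628) (nat_lit 294))) (XT.nd (nat_lit 78) (nat_lit 0) (nat_lit 76) (XT.lf (nat_lit 76) (nat_lit 2721953639) (nat_lit 0) (nat_lit 8367498183) (nat_lit 1900) (nat_lit 27471112291) (nat_lit 469) (nat_lit 5) (nat_lit 468) (nat_lit 5) (nat_lit 493) (nat_lit 5) (nat_lit 639) (nat_lit 628) (nat_lit 293)) (XT.nd (nat_lit 78) (nat_lit 0) (nat_lit 0) (XT.lf (nat_lit 0) (nat_lit 12706061970) (nat_lit 1824) (nat_lit 16201726147) (nat_lit 1900) (nat_lit 10050336480) (nat_lit 469) (nat_lit 5)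 (nat_lit 493) (nat_lit 5) (nat_lit 494) (nat_lit 5) (nat_lit 640) (nat_lit 628) (nat_lit 292)) (XT.lf (nat_lit 76) (nat_lit 3821796521) (nat_lit 0) (nat_lit 10612261438) (nat_lit 1900) (nat_lit 24927997366) (nat_lit 470) (nat_lit 5) (nat_lit 469) (nat_lit 5) (nat_lit 494) (nat_lit 5) (nat_lit 641) (nat_lit 628) (nat_lit 291))))) (XT.nd (nat_lit 80184) (nat_lit 532) (nat_lit 0) (XT.nd (nat_lit 78) (nat_lit 0) (nat_lit 0) (XT.lf (nat_lit 0) (nat_lit 16357162773) (nat_lit 1824) (nat_lit 15360291714) (nat_lit 1900) (nat_lit 8053399307) (nat_lit 470) (nat_lit 5) (nat_lit 494) (nat_lit 5) (nat_lit 495) (nat_lit 5) (nat_lit 642) (nat_lit 628) (nat_lit 290)) (XT.lf (nat_lit 76) (nat_lit 5220651695) (nat_lit 0) (nat_lit 13201122615) (nat_lit 1900) (nat_lit 21763993130) (nat_lit 471) (nat_lit 5) (nat_lit 470) (nat_lit 5) (nat_lit 495) (nat_lit 5) (nat_lit 643) (nat_lit 628) (nat_lit 289))) (XT.nd (nat_lit 78) (nat_lit 0) (nat_lit 0) (XT.lf (nat_lit 0) (nat_lit 1460564826) (nat_lit 1900)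 (nat_lit 8071751212) (nat_lit 1900) (nat_lit 8071751212) (nat_lit 463) (nat_lit 3) (nat_lit 488) (nat_lit 3) (nat_lit 488) (nat_lit 5) (nat_lit 629) (nat_lit 629) (nat_lit 302)) (XT.nd (nat_lit 78) (nat_lit 0) (nat_lit 76) (XT.lf (nat_lit 76) (nat_lit 1264850066) (nat_lit 0) (nat_lit 1746810984) (nat_lit 1900) (nat_lit 32547323552) (nat_lit 464) (nat_lit 5) (nat_lit 463) (nat_lit 3) (nat_lit 488) (nat_lit 5) (nat_lit 630) (nat_lit 629) (nat_lit 301)) (XT.lf (nat_lit 0) (nat_lit 3315004691) (nat_lit 1824) (nat_lit 16779302013) (nat_lit 1900) (nat_lit 15818325097) (nat_lit 464) (nat_lit 5) (nat_lit 488) (nat_lit 5) (nat_lit 489) (nat_lit 5) (nat_lit 631) (nat_lit 629) (nat_lit 300))))))) (XT.nd (nat_lit 780) (nat_lit 76) (nat_lit 0) (XT.nd (nat_lit 390) (nat_lit 0) (nat_lit 228) (XT.nd (nat_lit 156) (nat_lit 0) (nat_lit 76) (XT.nd (nat_lit 78) (nat_lit 0) (nat_lit 76) (XT.lf (nat_lit 76) (nat_lit 1087787724) (nat_lit 0) (nat_lit 2553892411) (nat_lit 1900) (nat_lit 32631326634)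 (nat_lit 465) (nat_lit 5) (nat_lit 464) (nat_lit 5) (nat_lit 489) (nat_lit 5) (nat_lit 632) (nat_lit 629) (nat_lit 299)) (XT.lf (nat_lit 0) (nat_lit 4186472841) (nat_lit 1824) (nat_lit 17199759769) (nat_lit 1900) (nat_lit 15250125074) (nat_lit 465) (nat_lit 5) (nat_lit 489) (nat_lit 5) (nat_lit 490) (nat_lit 5) (nat_lit 633) (nat_lit 629) (nat_lit 298))) (XT.nd (nat_lit 78) (nat_lit 0) (nat_lit 76) (XT.lf (nat_lit 76) (nat_lit 1142733833) (nat_lit 0) (nat_lit 3622446424) (nat_lit 1900) (nat_lit 32241335103) (nat_lit 466) (nat_lit 5) (nat_lit 465) (nat_lit 5) (nat_lit 490) (nat_lit 5) (nat_lit 634) (nat_lit 629) (nat_lit 297)) (XT.nd (nat_lit 78) (nat_lit 0) (nat_lit 0) (XT.lf (nat_lit 0) (nat_lit 5564478043) (nat_lit 1824) (nat_lit 17392202665) (nat_lit 1900) (nat_lit 14423215274) (nat_lit 466) (nat_lit 5) (nat_lit 490) (nat_lit 5) (nat_lit 491) (nat_lit 5) (nat_lit 635) (nat_lit 629) (nat_lit 296)) (XT.lf (nat_lit 76) (nat_lit 1442984798) (nat_lit 0) (nat_lit 4968871560)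 (nat_lit 1900) (nat_lit 31348246082) (nat_lit 467) (nat_lit 5) (nat_lit 466) (nat_lit 5) (nat_lit 491) (nat_lit 5) (nat_lit 636) (nat_lit 629) (nat_lit 295))))) (XT.nd (nat_lit 156) (nat_lit 0) (nat_lit 76) (XT.nd (nat_lit 78) (nat_lit 0) (nat_lit 0) (XT.lf (nat_lit 0) (nat_lit 7479288474) (nat_lit 1824) (nat_lit 17343364649) (nat_lit 1900) (nat_lit 13321197892) (nat_lit 467) (nat_lit 5) (nat_lit 491) (nat_lit 5) (nat_lit 492) (nat_lit 5) (nat_lit 637) (nat_lit 629) (nat_lit 294)) (XT.lf (nat_lit 76) (nat_lit 2002453369) (nat_lit 0) (nat_lit 6610307012) (nat_lit 1900) (nat_lit 29921620470) (nat_lit 468) (nat_lit 5) (nat_lit 467) (nat_lit 5) (nat_lit 492) (nat_lit 5) (nat_lit 638) (nat_lit 629) (nat_lit 293))) (XT.nd (nat_lit 78) (nat_lit 0) (nat_lit 0) (XT.lf (nat_lit 0) (nat_lit 9962553850) (nat_lit 1824) (nat_lit 17039363807) (nat_lit 1900) (nat_lit 11926930690) (nat_lit 468) (nat_lit 5) (nat_lit 492) (nat_lit 5) (nat_lit 493) (nat_lit 5) (nat_lit 639) (nat_lit 629) (nat_lit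 292)) (XT.nd (nat_lit 78) (nat_lit 0) (nat_lit 76) (XT.lf (nat_lit 76) (nat_lit 2835692346) (nat_lit 0) (nat_lit 8564667538) (nat_lit 1900) (nat_lit 27929625083) (nat_lit 469) (nat_lit 5) (nat_lit 468) (nat_lit 5) (nat_lit 493) (nat_lit 5) (nat_lit 640) (nat_lit 629) (nat_lit 291)) (XT.lf (nat_lit 0) (nat_lit 13047364992) (nat_lit 1824) (nat_lit 16465678640) (nat_lit 1900) (nat_lit 10222491932) (nat_lit 469) (nat_lit 5) (nat_lit 493) (nat_lit 5) (nat_lit 494) (nat_lit 5) (nat_lit 641) (nat_lit 629) (nat_lit 290)))))) (XT.nd (nat_lit 80574) (nat_lit 0) (nat_lit 152) (XT.nd (nat_lit 80340) (nat_lit 0) (nat_lit 0) (XT.nd (nat_lit 80262) (nat_lit 456) (nat_lit 0) (XT.lf (nat_lit 76) (nat_lit 3957919205) (nat_lit 0) (nat_lit 10850679774) (nat_lit 1900) (nat_lit 25338972519) (nat_lit 470) (nat_lit 5) (nat_lit 469) (nat_lit 5) (nat_lit 494) (nat_lit 5) (nat_lit 642) (nat_lit 629) (nat_lit 289)) (XT.lf (nat_lit 0) (nat_lit 1542539168) (nat_lit 1900) (nat_lit 8206274678) (nat_lit 1900)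 (nat_lit 8206274678) (nat_lit 463) (nat_lit 3) (nat_lit 488) (nat_lit 3) (nat_lit 488) (nat_lit 5) (nat_lit 630) (nat_lit 630) (nat_lit 300))) (XT.nd (nat_lit 78) (nat_lit 0) (nat_lit 76) (XT.lf (nat_lit 76) (nat_lit 1343616084) (nat_lit 0) (nat_lit 1832082295) (nat_lit 1900) (nat_lit 33092380402) (nat_lit 464) (nat_lit 5) (nat_lit 463) (nat_lit 3) (nat_lit 488) (nat_lit 5) (nat_lit 631) (nat_lit 630) (nat_lit 299)) (XT.nd (nat_lit 78) (nat_lit 0) (nat_lit 0) (XT.lf (nat_lit 0) (nat_lit 3482753117) (nat_lit 1824) (nat_lit 17060102428) (nat_lit 1900) (nat_lit 16085990680) (nat_lit 464) (nat_lit 5) (nat_lit 488) (nat_lit 5) (nat_lit 489) (nat_lit 5) (nat_lit 632) (nat_lit 630) (nat_lit 298)) (XT.lf (nat_lit 76) (nat_lit 1163968672) (nat_lit 0) (nat_lit 2650357580) (nat_lit 1900) (nat_lit 33182135338) (nat_lit 465) (nat_lit 5) (nat_lit 464) (nat_lit 5) (nat_lit 489) (nat_lit 5) (nat_lit 633) (nat_lit 630) (nat_lit 297))))) (XT.nd (nat_lit 234) (nat_lit 0) (nat_lit 76) (XT.nd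 (nat_lit 78) (nat_lit 0) (nat_lit 0) (XT.lf (nat_lit 0) (nat_lit 4367768797) (nat_lit 1824) (nat_lit 17488142031) (nat_lit 1900) (nat_lit 15511213793) (nat_lit 465) (nat_lit 5) (nat_lit 489) (nat_lit 5) (nat_lit 490) (nat_lit 5) (nat_lit 634) (nat_lit 630) (nat_lit 296)) (XT.nd (nat_lit 78) (nat_lit 0) (nat_lit 76) (XT.lf (nat_lit 76) (nat_lit 1220835570) (nat_lit 0) (nat_lit 3735660424) (nat_lit 1900) (nat_lit 32788220719) (nat_lit 466) (nat_lit 5) (nat_lit 465) (nat_lit 5) (nat_lit 490) (nat_lit 5) (nat_lit 635) (nat_lit 630) (nat_lit 295)) (XT.lf (nat_lit 0) (nat_lit 5769637660) (nat_lit 1824) (nat_lit 17683732318) (nat_lit 1900) (nat_lit 14672237981) (nat_lit 466) (nat_lit 5) (nat_lit 490) (nat_lit 5) (nat_lit 491) (nat_lit 5) (nat_lit 636) (nat_lit 630) (nat_lit 294)))) (XT.nd (nat_lit 78) (nat_lit 0) (nat_lit 76) (XT.lf (nat_lit 76) (nat_lit 1527788405) (nat_lit 0) (nat_lit 5104697772) (nat_lit 1900) (nat_lit 31880962085) (nat_lit 467) (nat_lit 5) (nat_lit 466) (nat_lit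 5) (nat_lit 491) (nat_lit 5) (nat_lit 637) (nat_lit 630) (nat_lit 293)) (XT.nd (nat_lit 78) (nat_lit 0) (nat_lit 0) (XT.lf (nat_lit 0) (nat_lit 7719223305) (nat_lit 1824) (nat_lit 17633333130) (nat_lit 1900) (nat_lit 13552356411) (nat_lit 467) (nat_lit 5) (nat_lit 491) (nat_lit 5) (nat_lit 492) (nat_lit 5) (nat_lit 638) (nat_lit 630) (nat_lit 292)) (XT.lf (nat_lit 76) (nat_lit 2099026914) (nat_lit 0) (nat_lit 6774933179) (nat_lit 1900) (nat_lit 30429321435) (nat_lit 468) (nat_lit 5) (nat_lit 467) (nat_lit 5) (nat_lit 492) (nat_lit 5) (nat_lit 639) (nat_lit 630) (nat_lit 291))))))))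
noncomputable def xc255 : XT := (XT.nd (nat_lit 162318) (nat_lit 0) (nat_lit 0) (XT.nd (nat_lit 81042) (nat_lit 0) (nat_lit 0) (XT.nd (nat_lit 80652) (nat_lit 0) (nat_lit 76) (XT.nd (nat_lit 156) (nat_lit 380) (nat_lit 0) (XT.nd (nat_lit 78) (nat_lit 0) (nat_lit 0) (XT.lf (nat_lit 0) (nat_lit 10248799057) (nat_lit 1824) (nat_lit 17322776663) (nat_lit 1900) (nat_lit 12134101821) (nat_lit 468) (nat_lit 5) (nat_lit 492) (nat_lit 5) (nat_lit 493) (nat_lit 5) (nat_lit 640) (nat_lit 630) (nat_lit 290)) (XT.lf (nat_lit 76) (nat_lit 2949403150) (nat_lit 0) (nat_lit 8764622356) (nat_lit 1900) (nat_lit 28400838255) (nat_lit 469) (nat_lit 5) (nat_lit 468) (nat_lit 5) (nat_lit 493) (nat_lit 5) (nat_lit 641) (nat_lit 630) (nat_lit 289))) (XT.nd (nat_lit 80340) (nat_lit 456) (nat_lit 0) (XT.lf (nat_lit 0) (nat_lit 13392108699) (nat_lit 1824) (nat_lit 16737243240) (nat_lit 1900) (nat_lit 10399210822) (nat_lit 469) (nat_lit 5) (nat_lit 493) (nat_lit 5) (nat_lit 494) (nat_lit 5) (nat_lit 642)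 (nat_lit 630) (nat_lit 288)) (XT.nd (nat_lit 78) (nat_lit 0) (nat_lit 0) (XT.lf (nat_lit 0) (nat_lit 1624104143) (nat_lit 1900) (nat_lit 8344533622) (nat_lit 1900) (nat_lit 8344533622) (nat_lit 463) (nat_lit 3) (nat_lit 488) (nat_lit 3) (nat_lit 488) (nat_lit 5) (nat_lit 631) (nat_lit 631) (nat_lit 298)) (XT.lf (nat_lit 76) (nat_lit 1421881154) (nat_lit 0) (nat_lit 1917104460) (nat_lit 1900) (nat_lit 33652450213) (nat_lit 464) (nat_lit 5) (nat_lit 463) (nat_lit 3) (nat_lit 488) (nat_lit 5) (nat_lit 632) (nat_lit 631) (nat_lit 297))))) (XT.nd (nat_lit 156) (nat_lit 0) (nat_lit 76) (XT.nd (nat_lit 78) (nat_lit 0) (nat_lit 0) (XT.lf (nat_lit 0) (nat_lit 3649917149) (nat_lit 1824) (nat_lit 17348646244) (nat_lit 1900) (nat_lit 16360900690) (nat_lit 464) (nat_lit 5) (nat_lit 488) (nat_lit 5) (nat_lit 489) (nat_lit 5) (nat_lit 633) (nat_lit 631) (nat_lit 296)) (XT.lf (nat_lit 76) (nat_lit 1239559842) (nat_lit 0) (nat_lit 2746989606) (nat_lit 1900) (nat_lit 33747913927) (nat_lit 465)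 (nat_lit 5) (nat_lit 464) (nat_lit 5) (nat_lit 489) (nat_lit 5) (nat_lit 634) (nat_lit 631) (nat_lit 295))) (XT.nd (nat_lit 78) (nat_lit 0) (nat_lit 0) (XT.lf (nat_lit 0) (nat_lit 4548902046) (nat_lit 1824) (nat_lit 17784451455) (nat_lit 1900) (nat_lit 15779229513) (nat_lit 465) (nat_lit 5) (nat_lit 489) (nat_lit 5) (nat_lit 490) (nat_lit 5) (nat_lit 635) (nat_lit 631) (nat_lit 294)) (XT.nd (nat_lit 78) (nat_lit 0) (nat_lit 76) (XT.lf (nat_lit 76) (nat_lit 1298354030) (nat_lit 0) (nat_lit 3849555746) (nat_lit 1900) (nat_lit 33349847219) (nat_lit 466) (nat_lit 5) (nat_lit 465) (nat_lit 5) (nat_lit 490) (nat_lit 5) (nat_lit 636) (nat_lit 631) (nat_lit 293)) (XT.lf (nat_lit 0) (nat_lit 5975255380) (nat_lit 1824) (nat_lit 17983279321) (nat_lit 1900) (nat_lit 14927772708) (nat_lit 466) (nat_lit 5) (nat_lit 490) (nat_lit 5) (nat_lit 491) (nat_lit 5) (nat_lit 637) (nat_lit 631) (nat_lit 292)))))) (XT.nd (nat_lit 80808) (nat_lit 0) (nat_lit 0) (XT.nd (nat_lit 156) (nat_lit 228) (nat_lit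 0) (XT.nd (nat_lit 78) (nat_lit 0) (nat_lit 76) (XT.lf (nat_lit 76) (nat_lit 1612115714) (nat_lit 0) (nat_lit 5241825157) (nat_lit 1900) (nat_lit 32427992207) (nat_lit 467) (nat_lit 5) (nat_lit 466) (nat_lit 5) (nat_lit 491) (nat_lit 5) (nat_lit 638) (nat_lit 631) (nat_lit 291)) (XT.lf (nat_lit 0) (nat_lit 7960448467) (nat_lit 1824) (nat_lit 17931310430) (nat_lit 1900) (nat_lit 13789507499) (nat_lit 467) (nat_lit 5) (nat_lit 491) (nat_lit 5) (nat_lit 492) (nat_lit 5) (nat_lit 639) (nat_lit 631) (nat_lit 290))) (XT.nd (nat_lit 78) (nat_lit 304) (nat_lit 0) (XT.lf (nat_lit 76) (nat_lit 2195337016) (nat_lit 0) (nat_lit 6941592960) (nat_lit 1900) (nat_lit 30950699632) (nat_lit 468) (nat_lit 5) (nat_lit 467) (nat_lit 5) (nat_lit 492) (nat_lit 5) (nat_lit 640) (nat_lit 631) (nat_lit 289)) (XT.nd (nat_lit 80496) (nat_lit 380) (nat_lit 0) (XT.lf (nat_lit 0) (nat_lit 10537391080) (nat_lit 1824) (nat_lit 17614085694) (nat_lit 1900) (nat_lit 12346634412) (nat_lit 468) (nat_lit 5) (nat_lit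 492) (nat_lit 5) (nat_lit 493) (nat_lit 5) (nat_lit 641) (nat_lit 631) (nat_lit 288)) (XT.lf (nat_lit 0) (nat_lit 1705331123) (nat_lit 1900) (nat_lit 8486562175) (nat_lit 1900) (nat_lit 8486562175) (nat_lit 463) (nat_lit 3) (nat_lit 488) (nat_lit 3) (nat_lit 488) (nat_lit 5) (nat_lit 632) (nat_lit 632) (nat_lit 296))))) (XT.nd (nat_lit 234) (nat_lit 0) (nat_lit 152) (XT.nd (nat_lit 78) (nat_lit 0) (nat_lit 76) (XT.lf (nat_lit 76) (nat_lit 1499715884) (nat_lit 0) (nat_lit 2001948393) (nat_lit 1900) (nat_lit 34227673576) (nat_lit 464) (nat_lit 5) (nat_lit 463) (nat_lit 3) (nat_lit 488) (nat_lit 5) (nat_lit 633) (nat_lit 632) (nat_lit 295)) (XT.nd (nat_lit 78) (nat_lit 0) (nat_lit 0) (XT.lf (nat_lit 0) (nat_lit 3816638070) (nat_lit 1824) (nat_lit 17645005719) (nat_lit 1900) (nat_lit 16643126582) (nat_lit 464) (nat_lit 5) (nat_lit 488) (nat_lit 5) (nat_lit 489) (nat_lit 5) (nat_lit 634) (nat_lit 632) (nat_lit 294)) (XT.lf (nat_lit 76) (nat_lit 1314631505) (nat_lit 0) (nat_lit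 2843860267) (nat_lit 1900) (nat_lit 34328808271) (nat_lit 465) (nat_lit 5) (nat_lit 464) (nat_lit 5) (nat_lit 489) (nat_lit 5) (nat_lit 635) (nat_lit 632) (nat_lit 293)))) (XT.nd (nat_lit 78) (nat_lit 0) (nat_lit 0) (XT.lf (nat_lit 0) (nat_lit 4730016451) (nat_lit 1824) (nat_lit 18088762730) (nat_lit 1900) (nat_lit 16054244557) (nat_lit 465) (nat_lit 5) (nat_lit 489) (nat_lit 5) (nat_lit 490) (nat_lit 5) (nat_lit 636) (nat_lit 632) (nat_lit 292)) (XT.nd (nat_lit 78) (nat_lit 0) (nat_lit 76) (XT.lf (nat_lit 76) (nat_lit 1375360854) (nat_lit 0) (nat_lit 3964207486) (nat_lit 1900) (nat_lit 33926361739) (nat_lit 466) (nat_lit 5) (nat_lit 465) (nat_lit 5) (nat_lit 490) (nat_lit 5) (nat_lit 637) (nat_lit 632) (nat_lit 291)) (XT.lf (nat_lit 0) (nat_lit 6181481910) (nat_lit 1824) (nat_lit 18290919106) (nat_lit 1900) (nat_lit 15189890222) (nat_lit 466) (nat_lit 5) (nat_lit 490) (nat_lit 5) (nat_lit 491) (nat_lit 5) (nat_lit 638) (nat_lit 632) (nat_lit 290))))))) (XT.nd (nat_lit 162006)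 (nat_lit 0) (nat_lit 0) (XT.nd (nat_lit 80964) (nat_lit 0) (nat_lit 76) (XT.nd (nat_lit 80730) (nat_lit 228) (nat_lit 0) (XT.nd (nat_lit 78) (nat_lit 0) (nat_lit 76) (XT.lf (nat_lit 76) (nat_lit 1696041554) (nat_lit 0) (nat_lit 5380334700) (nat_lit 1900) (nat_lit 32989480618) (nat_lit 467) (nat_lit 5) (nat_lit 466) (nat_lit 5) (nat_lit 491) (nat_lit 5) (nat_lit 639) (nat_lit 632) (nat_lit 289)) (XT.lf (nat_lit 0) (nat_lit 8203126003) (nat_lit 1824) (nat_lit 18237370931) (nat_lit 1900) (nat_lit 14032717834) (nat_lit 467) (nat_lit 5) (nat_lit 491) (nat_lit 5) (nat_lit 492) (nat_lit 5) (nat_lit 640) (nat_lit 632) (nat_lit 288))) (XT.nd (nat_lit 78) (nat_lit 0) (nat_lit 0) (XT.lf (nat_lit 0) (nat_lit 1786289820) (nat_lit 1900) (nat_lit 8632396726) (nat_lit 1900) (nat_lit 8632396726) (nat_lit 463) (nat_lit 3) (nat_lit 488) (nat_lit 3) (nat_lit 488) (nat_lit 5) (nat_lit 633) (nat_lit 633) (nat_lit 294)) (XT.nd (nat_lit 78) (nat_lit 0) (nat_lit 76) (XT.lf (nat_lit 76) (nat_lit 1577189157)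 (nat_lit 0) (nat_lit 2086683481) (nat_lit 1900) (nat_lit 34818200095) (nat_lit 464) (nat_lit 5) (nat_lit 463) (nat_lit 3) (nat_lit 488) (nat_lit 5) (nat_lit 634) (nat_lit 633) (nat_lit 293)) (XT.lf (nat_lit 0) (nat_lit 3983054047) (nat_lit 1824) (nat_lit 17949257766) (nat_lit 1900) (nat_lit 16932744092) (nat_lit 464) (nat_lit 5) (nat_lit 488) (nat_lit 5) (nat_lit 489) (nat_lit 5) (nat_lit 635) (nat_lit 633) (nat_lit 292))))) (XT.nd (nat_lit 156) (nat_lit 0) (nat_lit 76) (XT.nd (nat_lit 78) (nat_lit 0) (nat_lit 76) (XT.lf (nat_lit 76) (nat_lit 1389252150) (nat_lit 0) (nat_lit 2941040113) (nat_lit 1900) (nat_lit 34924973119) (nat_lit 465) (nat_lit 5) (nat_lit 464) (nat_lit 5) (nat_lit 489) (nat_lit 5) (nat_lit 636) (nat_lit 633) (nat_lit 291)) (XT.lf (nat_lit 0) (nat_lit 4911253039) (nat_lit 1824) (nat_lit 18401155290) (nat_lit 1900) (nat_lit 16336335267) (nat_lit 465) (nat_lit 5) (nat_lit 489) (nat_lit 5) (nat_lit 490) (nat_lit 5) (nat_lit 637) (nat_lit 633) (nat_lit 290)))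 (XT.nd (nat_lit 78) (nat_lit 0) (nat_lit 76) (XT.lf (nat_lit 76) (nat_lit 1451925878) (nat_lit 0) (nat_lit 4079689853) (nat_lit 1900) (nat_lit 34517920092) (nat_lit 466) (nat_lit 5) (nat_lit 465) (nat_lit 5) (nat_lit 490) (nat_lit 5) (nat_lit 638) (nat_lit 633) (nat_lit 289)) (XT.nd (nat_lit 78) (nat_lit 0) (nat_lit 0) (XT.lf (nat_lit 0) (nat_lit 6388465471) (nat_lit 1824) (nat_lit 18606731913) (nat_lit 1900) (nat_lit 15458665015) (nat_lit 466) (nat_lit 5) (nat_lit 490) (nat_lit 5) (nat_lit 491) (nat_lit 5) (nat_lit 639) (nat_lit 633) (nat_lit 288)) (XT.lf (nat_lit 76) (nat_lit 1779638977) (nat_lit 0) (nat_lit 5520306868) (nat_lit 1900) (nat_lit 33565579887) (nat_lit 467) (nat_lit 5) (nat_lit 466) (nat_lit 5) (nat_lit 491) (nat_lit 5) (nat_lit 640) (nat_lit 633) (nat_lit 287)))))) (XT.nd (nat_lit 390) (nat_lit 0) (nat_lit 0) (XT.nd (nat_lit 156) (nat_lit 0) (nat_lit 76) (XT.nd (nat_lit 78) (nat_lit 0) (nat_lit 0) (XT.lf (nat_lit 0) (nat_lit 1867048367) (nat_lit 1900) (nat_lit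 8782075905) (nat_lit 1900) (nat_lit 8782075905) (nat_lit 463) (nat_lit 3) (nat_lit 488) (nat_lit 3) (nat_lit 488) (nat_lit 5) (nat_lit 634) (nat_lit 634) (nat_lit 292)) (XT.lf (nat_lit 76) (nat_lit 1654368231) (nat_lit 0) (nat_lit 2171377667) (nat_lit 1900) (nat_lit 35424188326) (nat_lit 464) (nat_lit 5) (nat_lit 463) (nat_lit 3) (nat_lit 488) (nat_lit 5) (nat_lit 635) (nat_lit 634) (nat_lit 291))) (XT.nd (nat_lit 78) (nat_lit 0) (nat_lit 0) (XT.lf (nat_lit 0) (nat_lit 4149300302) (nat_lit 1824) (nat_lit 18261483918) (nat_lit 1900) (nat_lit 17229833208) (nat_lit 464) (nat_lit 5) (nat_lit 488) (nat_lit 5) (nat_lit 489) (nat_lit 5) (nat_lit 636) (nat_lit 634) (nat_lit 290)) (XT.nd (nat_lit 78) (nat_lit 0) (nat_lit 76) (XT.lf (nat_lit 76) (nat_lit 1463488571) (nat_lit 0) (nat_lit 3038598556) (nat_lit 1900) (nat_lit 35536572045) (nat_lit 465) (nat_lit 5) (nat_lit 464) (nat_lit 5) (nat_lit 489) (nat_lit 5) (nat_lit 637) (nat_lit 634) (nat_lit 289)) (XT.lf (nat_lit 0) (nat_lit 5092750167)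 (nat_lit 1824) (nat_lit 18721713293) (nat_lit 1900) (nat_lit 16625581983) (nat_lit 465) (nat_lit 5) (nat_lit 489) (nat_lit 5) (nat_lit 490) (nat_lit 5) (nat_lit 638) (nat_lit 634) (nat_lit 288))))) (XT.nd (nat_lit 81042) (nat_lit 0) (nat_lit 0) (XT.nd (nat_lit 80886) (nat_lit 152) (nat_lit 0) (XT.lf (nat_lit 76) (nat_lit 1528117229) (nat_lit 0) (nat_lit 4196076246) (nat_lit 1900) (nat_lit 35124686720) (nat_lit 466) (nat_lit 5) (nat_lit 465) (nat_lit 5) (nat_lit 490) (nat_lit 5) (nat_lit 639) (nat_lit 634) (nat_lit 287)) (XT.nd (nat_lit 78) (nat_lit 0) (nat_lit 0) (XT.lf (nat_lit 0) (nat_lit 1947673409) (nat_lit 1900) (nat_lit 8935640572) (nat_lit 1900) (nat_lit 8935640572) (nat_lit 463) (nat_lit 3) (nat_lit 488) (nat_lit 3) (nat_lit 488) (nat_lit 5) (nat_lit 635) (nat_lit 635) (nat_lit 290)) (XT.lf (nat_lit 76) (nat_lit 1731318812) (nat_lit 0) (nat_lit 2256097527) (nat_lit 1900) (nat_lit 36045805722) (nat_lit 464) (nat_lit 5) (nat_lit 463) (nat_lit 3) (nat_lit 488) (nat_lit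 5) (nat_lit 636) (nat_lit 635) (nat_lit 289)))) (XT.nd (nat_lit 78) (nat_lit 76) (nat_lit 0) (XT.lf (nat_lit 0) (nat_lit 4315509275) (nat_lit 1824) (nat_lit 18581770302) (nat_lit 1900) (nat_lit 17534478156) (nat_lit 464) (nat_lit 5) (nat_lit 488) (nat_lit 5) (nat_lit 489) (nat_lit 5) (nat_lit 637) (nat_lit 635) (nat_lit 288)) (XT.nd (nat_lit 81120) (nat_lit 76) (nat_lit 0) (XT.lf (nat_lit 76) (nat_lit 1537405958) (nat_lit 0) (nat_lit 3136603938) (nat_lit 1900) (nat_lit 36163777404) (nat_lit 465) (nat_lit 5) (nat_lit 464) (nat_lit 5) (nat_lit 489) (nat_lit 5) (nat_lit 638) (nat_lit 635) (nat_lit 287)) (XT.lf (nat_lit 76) (nat_lit 1808105143) (nat_lit 0) (nat_lit 2340908353) (nat_lit 1900) (nat_lit 36683228594) (nat_lit 464) (nat_lit 5) (nat_lit 463) (nat_lit 3) (nat_lit 488) (nat_lit 5) (nat_lit 637) (nat_lit 636) (nat_lit 287))))))))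

set_option maxRecDepth 10000000 in
noncomputable def Tp : PT := (PT.nd (nat_lit 21697806) (PT.nd (nat_lit 19913712) (PT.nd (nat_lit 18291780) (PT.nd (nat_lit 17073498) (PT.nd (nat_lit 16100214) (PT.nd (nat_lit 15450630) pc0 pc1) (PT.nd (nat_lit 567372) pc2 pc3)) (PT.nd (nat_lit 649974) (PT.nd (nat_lit 325182) pc4 pc5) (PT.nd (nat_lit 324246) pc6 pc7))) (PT.nd (nat_lit 892788) (PT.nd (nat_lit 486798) (PT.nd (nat_lit 243672) pc8 pc9) (PT.nd (nat_lit 242814) pc10 pc11)) (PT.nd (nat_lit 404742) (PT.nd (nat_lit 242112) pc12 pc13) (PT.nd (nat_lit 162318) pc14 pc15)))) (PT.nd (nat_lit 975234) (PT.nd (nat_lit 488982) (PT.nd (nat_lit 244842) (PT.nd (nat_lit 161694) pc16 pc17) (PT.nd (nat_lit 161226) pc18 pc19)) (PT.nd (nat_lit 243438) (PT.nd (nat_lit 160758) pc20 pc21) (PT.nd (nat_lit 160290) pc22 pc23))) (PT.nd (nat_lit 405834) (PT.nd (nat_lit 241956) (PT.nd (nat_lit 159822) pc24 pc25) (PT.nd (nat_lit 81978) pc26 pc27)) (PT.nd (nat_lit 163488) (PT.nd (nat_lit 81822) pc28 pc29) (PT.nd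 (nat_lit 81510) pc30 pc31))))) (PT.nd (nat_lit 1059552) (PT.nd (nat_lit 570570) (PT.nd (nat_lit 248040) (PT.nd (nat_lit 162240) (PT.nd (nat_lit 81198) pc32 pc33) (PT.nd (nat_lit 80964) pc34 pc35)) (PT.nd (nat_lit 161460) (PT.nd (nat_lit 80808) pc36 pc37) (PT.nd (nat_lit 80574) pc38 pc39))) (PT.nd (nat_lit 245154) (PT.nd (nat_lit 160368) (PT.nd (nat_lit 80262) pc40 pc41) (PT.nd (nat_lit 79950) pc42 pc43)) (PT.nd (nat_lit 159432) (PT.nd (nat_lit 79794) pc44 pc45) (PT.nd (nat_lit 79482) pc46 pc47)))) (PT.nd (nat_lit 487812) (PT.nd (nat_lit 242346) (PT.nd (nat_lit 158496) (PT.nd (nat_lit 79326) pc48 pc49) (PT.nd (nat_lit 4836) pc50 pc51)) (PT.nd (nat_lit 157560) (PT.nd (nat_lit 78858) pc52 pc53) (PT.nd (nat_lit 6708) pc54 pc55))) (PT.nd (nat_lit 479934) (PT.nd (nat_lit 236964) (PT.nd (nat_lit 81666) pc56 pc57) (PT.nd (nat_lit 87126) pc58 pc59)) (PT.nd (nat_lit 251628) (PT.nd (nat_lit 88998) pc60 pc61) (PT.nd (nat_lit 243438) pc62 pc63))))))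

set_option maxRecDepth 10000000 in
noncomputable def Tx : XT := (XT.nd (nat_lit 37968372) (nat_lit 0) (nat_lit 4788) XT.nil (XT.nd (nat_lit 13723320) (nat_lit 0) (nat_lit 0) (XT.nd (nat_lit 6571656) (nat_lit 0) (nat_lit 5244) (XT.nd (nat_lit 4134000) (nat_lit 0) (nat_lit 4940) (XT.nd (nat_lit 2839824) (nat_lit 0) (nat_lit 1900) (XT.nd (nat_lit 1948050) (nat_lit 0) (nat_lit 912) (XT.nd (nat_lit 1378104) (nat_lit 0) (nat_lit 608) (XT.nd (nat_lit 893100) (nat_lit 0) (nat_lit 228) (XT.nd (nat_lit 648492) (nat_lit 0) (nat_lit 0) (XT.nd (nat_lit 405678) (nat_lit 0) (nat_lit 0) xc0 xc1) (XT.nd (nat_lit 162162) (nat_lit 0) (nat_lit 228) xc2 xc3)) (XT.nd (nat_lit 243204) (nat_lit 0) (nat_lit 0) (XT.nd (nat_lit 161226) (nat_lit 0) (nat_lit 0) xc4 xc5) (XT.nd (nat_lit 160290) (nat_lit 0) (nat_lit 152) xc6 xc7))) (XT.nd (nat_lit 324792) (nat_lit 0) (nat_lit 76) (XT.nd (nat_lit 162708) (nat_lit 0) (nat_lit 0) (XT.nd (nat_lit 81432) (nat_lit 0) (nat_lit 0) xc8 xc9) (XT.nd (nat_lit 81120)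 (nat_lit 0) (nat_lit 76) xc10 xc11)) (XT.nd (nat_lit 161460) (nat_lit 0) (nat_lit 228) (XT.nd (nat_lit 80808) (nat_lit 0) (nat_lit 228) xc12 xc13) (XT.nd (nat_lit 3198) (nat_lit 228) (nat_lit 0) xc14 xc15)))) (XT.nd (nat_lit 486174) (nat_lit 0) (nat_lit 760) (XT.nd (nat_lit 243750) (nat_lit 0) (nat_lit 228) (XT.nd (nat_lit 160524) (nat_lit 0) (nat_lit 228) (XT.nd (nat_lit 80340) (nat_lit 0) (nat_lit 0) xc16 xc17) (XT.nd (nat_lit 80028) (nat_lit 0) (nat_lit 1672) xc18 xc19)) (XT.nd (nat_lit 159588) (nat_lit 0) (nat_lit 304) (XT.nd (nat_lit 79872) (nat_lit 0) (nat_lit 0) xc20 xc21) (XT.nd (nat_lit 3198) (nat_lit 456) (nat_lit 0) xc22 xc23))) (XT.nd (nat_lit 241176) (nat_lit 0) (nat_lit 304) (XT.nd (nat_lit 82680) (nat_lit 0) (nat_lit 0) (XT.nd (nat_lit 79482) (nat_lit 0) (nat_lit 532) xc24 xc25) (XT.nd (nat_lit 79326) (nat_lit 0) (nat_lit 0) xc26 xc27)) (XT.nd (nat_lit 82290) (nat_lit 0) (nat_lit 228) (XT.nd (nat_lit 3198) (nat_lit 2660) (nat_lit 0) xc28 xc29) (XT.nd (nat_lit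 78936) (nat_lit 0) (nat_lit 6764) xc30 xc31))))) (XT.nd (nat_lit 726024) (nat_lit 0) (nat_lit 1444) (XT.nd (nat_lit 401856) (nat_lit 0) (nat_lit 1140) (XT.nd (nat_lit 163644) (nat_lit 0) (nat_lit 304) (XT.nd (nat_lit 81900) (nat_lit 0) (nat_lit 304) (XT.nd (nat_lit 78702) (nat_lit 0) (nat_lit 4560) xc32 xc33) (XT.nd (nat_lit 78546) (nat_lit 0) (nat_lit 2432) xc34 xc35)) (XT.nd (nat_lit 81588) (nat_lit 0) (nat_lit 532) (XT.nd (nat_lit 78390) (nat_lit 0) (nat_lit 1444) xc36 xc37) (XT.nd (nat_lit 78390) (nat_lit 0) (nat_lit 76) xc38 xc39))) (XT.nd (nat_lit 162396) (nat_lit 0) (nat_lit 304) (XT.nd (nat_lit 81276) (nat_lit 0) (nat_lit 0) (XT.nd (nat_lit 3198) (nat_lit 11552) (nat_lit 0) xc40 xc41) (XT.nd (nat_lit 3198) (nat_lit 10944) (nat_lit 0) xc42 xc43)) (XT.nd (nat_lit 80964) (nat_lit 0) (nat_lit 0) (XT.nd (nat_lit 3198) (nat_lit 11248) (nat_lit 0) xc44 xc45) (XT.nd (nat_lit 3198) (nat_lit 12464) (nat_lit 0) xc46 xc47)))) (XT.nd (nat_lit 248040) (nat_lit 0) (nat_lit 608) (XT.nd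 (nat_lit 87048) (nat_lit 0) (nat_lit 304) (XT.nd (nat_lit 6396) (nat_lit 988) (nat_lit 0) (XT.nd (nat_lit 3198) (nat_lit 14060) (nat_lit 0) xc48 xc49) (XT.nd (nat_lit 77454) (nat_lit 0) (nat_lit 2736) xc50 xc51)) (XT.nd (nat_lit 80574) (nat_lit 0) (nat_lit 304) (XT.nd (nat_lit 77376) (nat_lit 0) (nat_lit 4864) xc52 xc53) (XT.nd (nat_lit 77220) (nat_lit 0) (nat_lit 8360) xc54 xc55))) (XT.nd (nat_lit 160368) (nat_lit 0) (nat_lit 304) (XT.nd (nat_lit 80262) (nat_lit 0) (nat_lit 304) (XT.nd (nat_lit 77064) (nat_lit 0) (nat_lit 13072) xc56 xc57) (XT.nd (nat_lit 76908) (nat_lit 0) (nat_lit 20216) xc58 xc59)) (XT.nd (nat_lit 79950) (nat_lit 0) (nat_lit 380) (XT.nd (nat_lit 3198) (nat_lit 3344) (nat_lit 0) xc60 xc61) (XT.nd (nat_lit 3198) (nat_lit 8132) (nat_lit 0) xc62 xc63)))))) (XT.nd (nat_lit 1059552) (nat_lit 0) (nat_lit 2660) (XT.nd (nat_lit 491088) (nat_lit 0) (nat_lit 1064) (XT.nd (nat_lit 245310) (nat_lit 0) (nat_lit 380) (XT.nd (nat_lit 86112) (nat_lit 0) (nat_lit 0) (XT.nd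 (nat_lit 6396) (nat_lit 1140) (nat_lit 0) (XT.nd (nat_lit 3198) (nat_lit 15124) (nat_lit 0) xc64 xc65) (XT.nd (nat_lit 76518) (nat_lit 0) (nat_lit 6764) xc66 xc67)) (XT.nd (nat_lit 79560) (nat_lit 0) (nat_lit 304) (XT.nd (nat_lit 76362) (nat_lit 0) (nat_lit 16264) xc68 xc69) (XT.nd (nat_lit 3198) (nat_lit 836) (nat_lit 0) xc70 xc71))) (XT.nd (nat_lit 86112) (nat_lit 0) (nat_lit 304) (XT.nd (nat_lit 79716) (nat_lit 0) (nat_lit 684) (XT.nd (nat_lit 3198) (nat_lit 6916) (nat_lit 0) xc72 xc73) (XT.nd (nat_lit 3198) (nat_lit 14364) (nat_lit 0) xc74 xc75)) (XT.nd (nat_lit 79794) (nat_lit 0) (nat_lit 0) (XT.nd (nat_lit 76596) (nat_lit 0) (nat_lit 5624) xc76 xc77) (XT.nd (nat_lit 76674) (nat_lit 0) (nat_lit 12616) xc78 xc79)))) (XT.nd (nat_lit 320580) (nat_lit 0) (nat_lit 1140) (XT.nd (nat_lit 160134) (nat_lit 0) (nat_lit 380) (XT.nd (nat_lit 80028) (nat_lit 0) (nat_lit 304) (XT.nd (nat_lit 76830) (nat_lit 0) (nat_lit 20064) xc80 xc81) (XT.nd (nat_lit 3198) (nat_lit 2508) (nat_lit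 0) xc82 xc83)) (XT.nd (nat_lit 80184) (nat_lit 0) (nat_lit 380) (XT.nd (nat_lit 3198) (nat_lit 7448) (nat_lit 0) xc84 xc85) (XT.nd (nat_lit 3198) (nat_lit 12844) (nat_lit 0) xc86 xc87))) (XT.nd (nat_lit 86814) (nat_lit 0) (nat_lit 0) (XT.nd (nat_lit 6396) (nat_lit 1672) (nat_lit 0) (XT.nd (nat_lit 3198) (nat_lit 17176) (nat_lit 0) xc88 xc89) (XT.nd (nat_lit 77220) (nat_lit 0) (nat_lit 5092) xc90 xc91)) (XT.nd (nat_lit 80496) (nat_lit 0) (nat_lit 456) (XT.nd (nat_lit 77298) (nat_lit 0) (nat_lit 8436) xc92 xc93) (XT.nd (nat_lit 77376) (nat_lit 0) (nat_lit 11932) xc94 xc95))))) (XT.nd (nat_lit 648024) (nat_lit 0) (nat_lit 2128) (XT.nd (nat_lit 323232) (nat_lit 0) (nat_lit 1216) (XT.nd (nat_lit 161382) (nat_lit 0) (nat_lit 760) (XT.nd (nat_lit 80652) (nat_lit 0) (nat_lit 380) (XT.nd (nat_lit 77454) (nat_lit 0) (nat_lit 15732) xc96 xc97) (XT.nd (nat_lit 77532) (nat_lit 0) (nat_lit 18848) xc98 xc99)) (XT.nd (nat_lit 80886) (nat_lit 0) (nat_lit 76) (XT.nd (nat_lit 3198) (nat_lit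 1368) (nat_lit 0) xc100 xc101) (XT.nd (nat_lit 3198) (nat_lit 2736) (nat_lit 0) xc102 xc103))) (XT.nd (nat_lit 162162) (nat_lit 0) (nat_lit 456) (XT.nd (nat_lit 81042) (nat_lit 0) (nat_lit 0) (XT.nd (nat_lit 3198) (nat_lit 3420) (nat_lit 0) xc104 xc105) (XT.nd (nat_lit 3198) (nat_lit 4408) (nat_lit 0) xc106 xc107)) (XT.nd (nat_lit 81276) (nat_lit 0) (nat_lit 380) (XT.nd (nat_lit 3198) (nat_lit 4560) (nat_lit 0) xc108 xc109) (XT.nd (nat_lit 3198) (nat_lit 4104) (nat_lit 0) xc110 xc111)))) (XT.nd (nat_lit 326352) (nat_lit 0) (nat_lit 1368) (XT.nd (nat_lit 162942) (nat_lit 0) (nat_lit 912) (XT.nd (nat_lit 81432) (nat_lit 0) (nat_lit 456) (XT.nd (nat_lit 3198) (nat_lit 3496) (nat_lit 0) xc112 xc113) (XT.nd (nat_lit 3198) (nat_lit 2508) (nat_lit 0) xc114 xc115)) (XT.nd (nat_lit 81666) (nat_lit 0) (nat_lit 456) (XT.nd (nat_lit 3198) (nat_lit 988) (nat_lit 0) xc116 xc117) (XT.nd (nat_lit 78546) (nat_lit 0) (nat_lit 12160) xc118 xc119))) (XT.nd (nat_lit 163722) (nat_lit 0) (nat_lit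 532) (XT.nd (nat_lit 81822) (nat_lit 0) (nat_lit 532) (XT.nd (nat_lit 78624) (nat_lit 0) (nat_lit 9044) xc120 xc121) (XT.nd (nat_lit 78702) (nat_lit 0) (nat_lit 5168) xc122 xc123)) (XT.nd (nat_lit 81978) (nat_lit 0) (nat_lit 532) (XT.nd (nat_lit 78780) (nat_lit 0) (nat_lit 1596) xc124 xc125) (XT.nd (nat_lit 78936) (nat_lit 0) (nat_lit 456) xc126 xc127))))))) (XT.nd (nat_lit 2359188) (nat_lit 0) (nat_lit 4028) (XT.nd (nat_lit 1138176) (nat_lit 0) (nat_lit 1064) (XT.nd (nat_lit 569478) (nat_lit 0) (nat_lit 304) (XT.nd (nat_lit 248976) (nat_lit 0) (nat_lit 0) (XT.nd (nat_lit 162006) (nat_lit 0) (nat_lit 0) (XT.nd (nat_lit 81276) (nat_lit 0) (nat_lit 0) (XT.nd (nat_lit 3198) (nat_lit 14212) (nat_lit 0) xc128 xc129) (XT.nd (nat_lit 3198) (nat_lit 14212) (nat_lit 0) xc130 xc131)) (XT.nd (nat_lit 6786) (nat_lit 1520) (nat_lit 0) (XT.nd (nat_lit 3198) (nat_lit 15656) (nat_lit 0) xc132 xc133) (XT.nd (nat_lit 76830) (nat_lit 0) (nat_lit 5396) xc134 xc135))) (XT.nd (nat_lit 160212) (nat_lit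 0) (nat_lit 0) (XT.nd (nat_lit 80028) (nat_lit 0) (nat_lit 0) (XT.nd (nat_lit 76830) (nat_lit 0) (nat_lit 10260) xc136 xc137) (XT.nd (nat_lit 76986) (nat_lit 0) (nat_lit 16416) xc138 xc139)) (XT.nd (nat_lit 80106) (nat_lit 0) (nat_lit 304) (XT.nd (nat_lit 3198) (nat_lit 2280) (nat_lit 0) xc140 xc141) (XT.nd (nat_lit 3198) (nat_lit 6080) (nat_lit 0) xc142 xc143)))) (XT.nd (nat_lit 247104) (nat_lit 0) (nat_lit 380) (XT.nd (nat_lit 86580) (nat_lit 0) (nat_lit 0) (XT.nd (nat_lit 80184) (nat_lit 0) (nat_lit 2432) (XT.nd (nat_lit 3198) (nat_lit 10564) (nat_lit 0) xc144 xc145) (XT.nd (nat_lit 3198) (nat_lit 14440) (nat_lit 0) xc146 xc147)) (XT.nd (nat_lit 80262) (nat_lit 0) (nat_lit 0) (XT.nd (nat_lit 77064) (nat_lit 0) (nat_lit 6004) xc148 xc149) (XT.nd (nat_lit 77064) (nat_lit 0) (nat_lit 10564) xc150 xc151))) (XT.nd (nat_lit 160680) (nat_lit 0) (nat_lit 76) (XT.nd (nat_lit 80340) (nat_lit 0) (nat_lit 0) (XT.nd (nat_lit 77142) (nat_lit 0) (nat_lit 14972) xc152 xc153) (XT.nd (nat_lit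 3198) (nat_lit 1216) (nat_lit 0) xc154 xc155)) (XT.nd (nat_lit 80418) (nat_lit 0) (nat_lit 304) (XT.nd (nat_lit 3198) (nat_lit 4636) (nat_lit 0) xc156 xc157) (XT.nd (nat_lit 3198) (nat_lit 7448) (nat_lit 0) xc158 xc159))))) (XT.nd (nat_lit 571350) (nat_lit 0) (nat_lit 1216) (XT.nd (nat_lit 248118) (nat_lit 0) (nat_lit 836) (XT.nd (nat_lit 86892) (nat_lit 0) (nat_lit 0) (XT.nd (nat_lit 80496) (nat_lit 0) (nat_lit 1216) (XT.nd (nat_lit 3198) (nat_lit 11096) (nat_lit 0) xc160 xc161) (XT.nd (nat_lit 3198) (nat_lit 14060) (nat_lit 0) xc162 xc163)) (XT.nd (nat_lit 80574) (nat_lit 0) (nat_lit 380) (XT.nd (nat_lit 77376) (nat_lit 0) (nat_lit 3800) xc164 xc165) (XT.nd (nat_lit 77454) (nat_lit 0) (nat_lit 5928) xc166 xc167))) (XT.nd (nat_lit 161538) (nat_lit 0) (nat_lit 0) (XT.nd (nat_lit 80730) (nat_lit 0) (nat_lit 0) (XT.nd (nat_lit 77532) (nat_lit 0) (nat_lit 7676) xc168 xc169) (XT.nd (nat_lit 77610) (nat_lit 0) (nat_lit 9576) xc170 xc171)) (XT.nd (nat_lit 80808) (nat_lit 0) (nat_lit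 380) (XT.nd (nat_lit 77610) (nat_lit 0) (nat_lit 11552) xc172 xc173) (XT.nd (nat_lit 77688) (nat_lit 0) (nat_lit 13376) xc174 xc175)))) (XT.nd (nat_lit 324324) (nat_lit 0) (nat_lit 1216) (XT.nd (nat_lit 162006) (nat_lit 0) (nat_lit 456) (XT.nd (nat_lit 80964) (nat_lit 0) (nat_lit 380) (XT.nd (nat_lit 77766) (nat_lit 0) (nat_lit 15580) xc176 xc177) (XT.nd (nat_lit 3198) (nat_lit 836) (nat_lit 0) xc178 xc179)) (XT.nd (nat_lit 81120) (nat_lit 0) (nat_lit 380) (XT.nd (nat_lit 3198) (nat_lit 1292) (nat_lit 0) xc180 xc181) (XT.nd (nat_lit 3198) (nat_lit 1748) (nat_lit 0) xc182 xc183))) (XT.nd (nat_lit 162552) (nat_lit 0) (nat_lit 0) (XT.nd (nat_lit 81276) (nat_lit 0) (nat_lit 0) (XT.nd (nat_lit 3198) (nat_lit 1368) (nat_lit 0) xc184 xc185) (XT.nd (nat_lit 3198) (nat_lit 1368) (nat_lit 0) xc186 xc187)) (XT.nd (nat_lit 81354) (nat_lit 0) (nat_lit 456) (XT.nd (nat_lit 3198) (nat_lit 1368) (nat_lit 0) xc188 xc189) (XT.nd (nat_lit 3198) (nat_lit 912) (nat_lit 0) xc190 xc191)))))) (XT.nd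 (nat_lit 1543308) (nat_lit 0) (nat_lit 6156) (XT.nd (nat_lit 730002) (nat_lit 0) (nat_lit 2812) (XT.nd (nat_lit 326508) (nat_lit 0) (nat_lit 1292) (XT.nd (nat_lit 163098) (nat_lit 0) (nat_lit 836) (XT.nd (nat_lit 81510) (nat_lit 0) (nat_lit 380) (XT.nd (nat_lit 78312) (nat_lit 0) (nat_lit 13072) xc192 xc193) (XT.nd (nat_lit 78390) (nat_lit 0) (nat_lit 11248) xc194 xc195)) (XT.nd (nat_lit 81666) (nat_lit 0) (nat_lit 0) (XT.nd (nat_lit 78468) (nat_lit 0) (nat_lit 8588) xc196 xc197) (XT.nd (nat_lit 78546) (nat_lit 0) (nat_lit 6612) xc198 xc199))) (XT.nd (nat_lit 163722) (nat_lit 0) (nat_lit 532) (XT.nd (nat_lit 81822) (nat_lit 0) (nat_lit 76) (XT.nd (nat_lit 78624) (nat_lit 0) (nat_lit 3724) xc200 xc201) (XT.nd (nat_lit 78702) (nat_lit 0) (nat_lit 912) xc202 xc203)) (XT.nd (nat_lit 157638) (nat_lit 0) (nat_lit 456) (XT.nd (nat_lit 78780) (nat_lit 0) (nat_lit 0) xc204 xc205) (XT.nd (nat_lit 3198) (nat_lit 7828) (nat_lit 0) xc206 xc207)))) (XT.nd (nat_lit 405522) (nat_lit 0) (nat_lit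 1596) (XT.nd (nat_lit 164502) (nat_lit 0) (nat_lit 532) (XT.nd (nat_lit 82212) (nat_lit 0) (nat_lit 76) (XT.nd (nat_lit 3198) (nat_lit 2736) (nat_lit 0) xc208 xc209) (XT.nd (nat_lit 79092) (nat_lit 0) (nat_lit 8740) xc210 xc211)) (XT.nd (nat_lit 82368) (nat_lit 0) (nat_lit 0) (XT.nd (nat_lit 79170) (nat_lit 0) (nat_lit 3496) xc212 xc213) (XT.nd (nat_lit 79248) (nat_lit 0) (nat_lit 532) xc214 xc215))) (XT.nd (nat_lit 165438) (nat_lit 0) (nat_lit 608) (XT.nd (nat_lit 82680) (nat_lit 0) (nat_lit 608) (XT.nd (nat_lit 3198) (nat_lit 5700) (nat_lit 0) xc216 xc217) (XT.nd (nat_lit 79560) (nat_lit 0) (nat_lit 6536) xc218 xc219)) (XT.nd (nat_lit 159354) (nat_lit 0) (nat_lit 532) (XT.nd (nat_lit 79638) (nat_lit 0) (nat_lit 532) xc220 xc221) (XT.nd (nat_lit 3198) (nat_lit 6004) (nat_lit 0) xc222 xc223))))) (XT.nd (nat_lit 1055340) (nat_lit 0) (nat_lit 6156) (XT.nd (nat_lit 487110) (nat_lit 0) (nat_lit 2584) (XT.nd (nat_lit 243126) (nat_lit 0) (nat_lit 1292) (XT.nd (nat_lit 83070) (nat_lit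 0) (nat_lit 0) (XT.nd (nat_lit 79872) (nat_lit 0) (nat_lit 3952) xc224 xc225) (XT.nd (nat_lit 79950) (nat_lit 0) (nat_lit 1292) xc226 xc227)) (XT.nd (nat_lit 83382) (nat_lit 0) (nat_lit 608) (XT.nd (nat_lit 80184) (nat_lit 0) (nat_lit 4180) xc228 xc229) (XT.nd (nat_lit 80262) (nat_lit 0) (nat_lit 0) xc230 xc231))) (XT.nd (nat_lit 244764) (nat_lit 0) (nat_lit 1368) (XT.nd (nat_lit 83616) (nat_lit 0) (nat_lit 76) (XT.nd (nat_lit 80418) (nat_lit 0) (nat_lit 1368) xc232 xc233) (XT.nd (nat_lit 80496) (nat_lit 0) (nat_lit 1292) xc234 xc235)) (XT.nd (nat_lit 161538) (nat_lit 0) (nat_lit 684) (XT.nd (nat_lit 80730) (nat_lit 0) (nat_lit 684) xc236 xc237) (XT.nd (nat_lit 80886) (nat_lit 0) (nat_lit 836) xc238 xc239)))) (XT.nd (nat_lit 651768) (nat_lit 0) (nat_lit 4940) (XT.nd (nat_lit 325104) (nat_lit 0) (nat_lit 2356) (XT.nd (nat_lit 162318) (nat_lit 0) (nat_lit 1520) (XT.nd (nat_lit 81120) (nat_lit 0) (nat_lit 0) xc240 xc241) (XT.nd (nat_lit 81354) (nat_lit 0) (nat_lit 0) xc242 xc243))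 (XT.nd (nat_lit 163098) (nat_lit 0) (nat_lit 912) (XT.nd (nat_lit 81510) (nat_lit 0) (nat_lit 0) xc244 xc245) (XT.nd (nat_lit 81744) (nat_lit 0) (nat_lit 836) xc246 xc247))) (XT.nd (nat_lit 486954) (nat_lit 0) (nat_lit 3876) (XT.nd (nat_lit 242970) (nat_lit 0) (nat_lit 1824) (XT.nd (nat_lit 160836) (nat_lit 0) (nat_lit 912) xc248 xc249) (XT.nd (nat_lit 161460) (nat_lit 0) (nat_lit 988) xc250 xc251)) (XT.nd (nat_lit 324792) (nat_lit 0) (nat_lit 0) (XT.nd (nat_lit 162162) (nat_lit 0) (nat_lit 0) xc252 xc253) (XT.nd (nat_lit 243282) (nat_lit 0) (nat_lit 0) xc254 xc255)))))))) XT.nil))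

set_option maxRecDepth 10000000 in
noncomputable def Te : XT := XT.nil

set_option maxRecDepth 10000000 in
noncomputable def Tz : ZL := (ZL.cons (nat_lit 76) (nat_lit 6) (nat_lit 410381207423445202908) (ZL.cons (nat_lit 152) (nat_lit 3) (nat_lit 203176951640280439554) (ZL.cons (nat_lit 4788) (nat_lit 3) (nat_lit 88248829188064588484) (ZL.cons (nat_lit 5016) (nat_lit 6) (nat_lit 174975646467255662390) (ZL.cons (nat_lit 5168) (nat_lit 6) (nat_lit 173489015846612831018) (ZL.cons (nat_lit 5244) (nat_lit 3) (nat_lit 86728215466274694346) (ZL.cons (nat_lit 5396) (nat_lit 6) (nat_lit 172037183521800430762) (ZL.cons (nat_lit 5472) (nat_lit 6) (nat_lit 171972652613557143018) (ZL.cons (nat_lit 5700) (nat_lit 6) (nat_lit 170523729636428340172) (ZL.cons (nat_lit 5776) (nat_lit 3) (nat_lit 85245891821124247377) (ZL.cons (nat_lit 5928) (nat_lit 6) (nat_lit 169109093796073910036) (ZL.cons (nat_lit 6004) (nat_lit 6) (nat_lit 169045828199756961270) (ZL.cons (nat_lit 6156) (nat_lit 6) (nat_lit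 167728190333340772442) (ZL.cons (nat_lit 6232) (nat_lit 6) (nat_lit 167634219244732545880) (ZL.cons (nat_lit 6308) (nat_lit 3) (nat_lit 83801449821297721266) (ZL.cons (nat_lit 6460) (nat_lit 6) (nat_lit 166256403205036023330) (ZL.cons (nat_lit 6536) (nat_lit 6) (nat_lit 166194378110607642186) (ZL.cons (nat_lit 6688) (nat_lit 6) (nat_lit 164911839760651826350) (ZL.cons (nat_lit 6764) (nat_lit 6) (nat_lit 164819711242408466978) (ZL.cons (nat_lit 6840) (nat_lit 3) (nat_lit 82394502875058594591) (ZL.cons (nat_lit 6992) (nat_lit 6) (nat_lit 163478359952951564286) (ZL.cons (nat_lit 7068) (nat_lit 6) (nat_lit 163417551036845308262) (ZL.cons (nat_lit 7220) (nat_lit 6) (nat_lit 162169798222123421606) (ZL.cons (nat_lit 7296) (nat_lit 6) (nat_lit 162079476145414245748) (ZL.cons (nat_lit 7372) (nat_lit 3) (nat_lit 81024686360799633760) (ZL.cons (nat_lit 7524) (nat_lit 6) (nat_lit 160893512888460969072) (ZL.cons (nat_lit 7600) (nat_lit 6) (nat_lit 160774256340572460046) (ZL.cons (nat_lit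 7676) (nat_lit 6) (nat_lit 160714639756154561984) (ZL.cons (nat_lit 7828) (nat_lit 6) (nat_lit 159501379771416091632) (ZL.cons (nat_lit 7904) (nat_lit 6) (nat_lit 159412828715818860402) (ZL.cons (nat_lit 7980) (nat_lit 3) (nat_lit 79691657777607970284) (ZL.cons (nat_lit 8132) (nat_lit 6) (nat_lit 158260347270663118404) (ZL.cons (nat_lit 8208) (nat_lit 6) (nat_lit 158143429086458697790) (ZL.cons (nat_lit 8284) (nat_lit 6) (nat_lit 158084981454676444788) (ZL.cons (nat_lit 8436) (nat_lit 6) (nat_lit 156905943064297854478) (ZL.cons (nat_lit 8512) (nat_lit 6) (nat_lit 156819128303908412092) (ZL.cons (nat_lit 8588) (nat_lit 3) (nat_lit 78395096916364539462) (ZL.cons (nat_lit 8740) (nat_lit 6) (nat_lit 155699885360700188954) (ZL.cons (nat_lit 8816) (nat_lit 6) (nat_lit 155585259689911541294) (ZL.cons (nat_lit 8892) (nat_lit 6) (nat_lit 155527958090125018742) (ZL.cons (nat_lit 9044) (nat_lit 6) (nat_lit 154524783011860368808) (ZL.cons (nat_lit 9120) (nat_lit 6) (nat_lit 154382891742641127738)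 (ZL.cons (nat_lit 9196) (nat_lit 6) (nat_lit 154297779232455399912) (ZL.cons (nat_lit 9272) (nat_lit 3) (nat_lit 77134706051924105264) (ZL.cons (nat_lit 9424) (nat_lit 6) (nat_lit 153211552945255104596) (ZL.cons (nat_lit 9500) (nat_lit 6) (nat_lit 153099174836638783360) (ZL.cons (nat_lit 9576) (nat_lit 6) (nat_lit 153042996797632388702) (ZL.cons (nat_lit 9728) (nat_lit 6) (nat_lit 152070783949205477348) (ZL.cons (nat_lit 9804) (nat_lit 6) (nat_lit 151931674861735633164) (ZL.cons (nat_lit 9880) (nat_lit 6) (nat_lit 151848231224298645096) (ZL.cons (nat_lit 9956) (nat_lit 3) (nat_lit 75910210156949719911) (ZL.cons (nat_lit 10032) (nat_lit 6) (nat_lit 150960137394101638298) (ZL.cons (nat_lit 10108) (nat_lit 6) (nat_lit 150794821464618536320) (ZL.cons (nat_lit 10184) (nat_lit 6) (nat_lit 150684646848328025304) (ZL.cons (nat_lit 10260) (nat_lit 6) (nat_lit 150629570339498226620) (ZL.cons (nat_lit 10336) (nat_lit 6) (nat_lit 149879177732274919272) (ZL.cons (nat_lit 10412) (nat_lit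 6) (nat_lit 149688168820425878282) (ZL.cons (nat_lit 10488) (nat_lit 6) (nat_lit 149551787362122109472) (ZL.cons (nat_lit 10564) (nat_lit 6) (nat_lit 149469979874438787840) (ZL.cons (nat_lit 10640) (nat_lit 3) (nat_lit 74721357138004097215) (ZL.cons (nat_lit 10792) (nat_lit 6) (nat_lit 148611282947728563890) (ZL.cons (nat_lit 10868) (nat_lit 6) (nat_lit 148449208507058856068) (ZL.cons (nat_lit 10944) (nat_lit 6) (nat_lit 148341194177362276642) (ZL.cons (nat_lit 11020) (nat_lit 6) (nat_lit 148287197600078160284) (ZL.cons (nat_lit 11096) (nat_lit 6) (nat_lit 147563741538341221648) (ZL.cons (nat_lit 11172) (nat_lit 6) (nat_lit 147376477899273534400) (ZL.cons (nat_lit 11248) (nat_lit 6) (nat_lit 147242770587211015962) (ZL.cons (nat_lit 11324) (nat_lit 6) (nat_lit 147162567167913641810) (ZL.cons (nat_lit 11400) (nat_lit 3) (nat_lit 73567918094530059431) (ZL.cons (nat_lit 11476) (nat_lit 6) (nat_lit 146545133791711150636) (ZL.cons (nat_lit 11552) (nat_lit 6) (nat_lit 146333174860096424738)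 (ZL.cons (nat_lit 11628) (nat_lit 6) (nat_lit 146174278349635926874) (ZL.cons (nat_lit 11704) (nat_lit 6) (nat_lit 146068381947972613710) (ZL.cons (nat_lit 11780) (nat_lit 6) (nat_lit 146015444127105832968) (ZL.cons (nat_lit 11932) (nat_lit 6) (nat_lit 145318890251080790956) (ZL.cons (nat_lit 12008) (nat_lit 6) (nat_lit 145135298448073254442) (ZL.cons (nat_lit 12084) (nat_lit 6) (nat_lit 145004212848011961852) (ZL.cons (nat_lit 12160) (nat_lit 6) (nat_lit 144925582044779242098) (ZL.cons (nat_lit 12236) (nat_lit 3) (nat_lit 72449687601382992152) (ZL.cons (nat_lit 12312) (nat_lit 6) (nat_lit 144333226313556430850) (ZL.cons (nat_lit 12388) (nat_lit 6) (nat_lit 144125423439424346636) (ZL.cons (nat_lit 12464) (nat_lit 6) (nat_lit 143969642546816015396) (ZL.cons (nat_lit 12540) (nat_lit 6) (nat_lit 143865822545185316216) (ZL.cons (nat_lit 12616) (nat_lit 6) (nat_lit 143813922720806119410) (ZL.cons (nat_lit 12692) (nat_lit 6) (nat_lit 143375796512645883884) (ZL.cons (nat_lit 12768)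 (nat_lit 6) (nat_lit 143144257294274047028) (ZL.cons (nat_lit 12844) (nat_lit 6) (nat_lit 142964265330541168088) (ZL.cons (nat_lit 12920) (nat_lit 6) (nat_lit 142835750036363430258) (ZL.cons (nat_lit 12996) (nat_lit 6) (nat_lit 142758661013586254026) (ZL.cons (nat_lit 13072) (nat_lit 3) (nat_lit 71366484015610157507) (ZL.cons (nat_lit 13148) (nat_lit 6) (nat_lit 142191415241585041764) (ZL.cons (nat_lit 13224) (nat_lit 6) (nat_lit 141987686933612410182) (ZL.cons (nat_lit 13300) (nat_lit 6) (nat_lit 141834960568310124652) (ZL.cons (nat_lit 13376) (nat_lit 6) (nat_lit 141733176252985909770) (ZL.cons (nat_lit 13452) (nat_lit 6) (nat_lit 141682294072221991332) (ZL.cons (nat_lit 13528) (nat_lit 6) (nat_lit 141266523617807256734) (ZL.cons (nat_lit 13604) (nat_lit 6) (nat_lit 141039524384109377460) (ZL.cons (nat_lit 13680) (nat_lit 6) (nat_lit 140863061674567339288) (ZL.cons (nat_lit 13756) (nat_lit 6) (nat_lit 140737066288118576706) (ZL.cons (nat_lit 13832) (nat_lit 6) (nat_lit 140661488814807619618)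 (ZL.cons (nat_lit 13908) (nat_lit 3) (nat_lit 70318149808204820096) (ZL.cons (nat_lit 13984) (nat_lit 6) (nat_lit 140369219720343132018) (ZL.cons (nat_lit 14060) (nat_lit 6) (nat_lit 140119405853581284420) (ZL.cons (nat_lit 14136) (nat_lit 6) (nat_lit 139919672218313998556) (ZL.cons (nat_lit 14212) (nat_lit 6) (nat_lit 139769940487625483332) (ZL.cons (nat_lit 14288) (nat_lit 6) (nat_lit 139670151943189978544) (ZL.cons (nat_lit 14364) (nat_lit 6) (nat_lit 139620267452244960468) (ZL.cons (nat_lit 14440) (nat_lit 6) (nat_lit 139226970511231845532) (ZL.cons (nat_lit 14516) (nat_lit 6) (nat_lit 139004422242900591344) (ZL.cons (nat_lit 14592) (nat_lit 6) (nat_lit 138831419586486828428) (ZL.cons (nat_lit 14668) (nat_lit 6) (nat_lit 138707894697811570998) (ZL.cons (nat_lit 14744) (nat_lit 6) (nat_lit 138633799135742005222) (ZL.cons (nat_lit 14820) (nat_lit 3) (nat_lit 69304551921597483286) (ZL.cons (nat_lit 14896) (nat_lit 6) (nat_lit 138361868382417002196) (ZL.cons (nat_lit 14972)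 (nat_lit 6) (nat_lit 138116952826768132004) (ZL.cons (nat_lit 15048) (nat_lit 6) (nat_lit 137921135537290400764) (ZL.cons (nat_lit 15124) (nat_lit 6) (nat_lit 137774339722889895642) (ZL.cons (nat_lit 15200) (nat_lit 6) (nat_lit 137676507816580577224) (ZL.cons (nat_lit 15276) (nat_lit 6) (nat_lit 137627601452908990874) (ZL.cons (nat_lit 15352) (nat_lit 6) (nat_lit 137523760211399964278) (ZL.cons (nat_lit 15428) (nat_lit 6) (nat_lit 137256915942694607806) (ZL.cons (nat_lit 15504) (nat_lit 6) (nat_lit 137038731365899260562) (ZL.cons (nat_lit 15580) (nat_lit 6) (nat_lit 136869120918434787116) (ZL.cons (nat_lit 15656) (nat_lit 6) (nat_lit 136748018086400221006) (ZL.cons (nat_lit 15732) (nat_lit 6) (nat_lit 136675375378488882014) (ZL.cons (nat_lit 15808) (nat_lit 3) (nat_lit 68325582153682167157) (ZL.cons (nat_lit 15884) (nat_lit 6) (nat_lit 136423974321313715408) (ZL.cons (nat_lit 15960) (nat_lit 6) (nat_lit 136183861031461881884) (ZL.cons (nat_lit 16036) (nat_lit 6) (nat_lit 135991883296679792434)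 (ZL.cons (nat_lit 16112) (nat_lit 6) (nat_lit 135847965831581258000) (ZL.cons (nat_lit 16188) (nat_lit 6) (nat_lit 135752052197944671316) (ZL.cons (nat_lit 16264) (nat_lit 6) (nat_lit 135704104782580370974) (ZL.cons (nat_lit 16340) (nat_lit 6) (nat_lit 135617801318852364262) (ZL.cons (nat_lit 16416) (nat_lit 6) (nat_lit 135356189290709857916) (ZL.cons (nat_lit 16492) (nat_lit 6) (nat_lit 135142282842871282186) (ZL.cons (nat_lit 16568) (nat_lit 6) (nat_lit 134975998090455131748) (ZL.cons (nat_lit 16644) (nat_lit 6) (nat_lit 134857269823754576740) (ZL.cons (nat_lit 16720) (nat_lit 6) (nat_lit 134786051482665028706) (ZL.cons (nat_lit 16796) (nat_lit 3) (nat_lit 67381157569212638032) (ZL.cons (nat_lit 16872) (nat_lit 6) (nat_lit 134838080789035079328) (ZL.cons (nat_lit 16948) (nat_lit 6) (nat_lit 134555391566489952570) (ZL.cons (nat_lit 17024) (nat_lit 6) (nat_lit 134319986380360704018) (ZL.cons (nat_lit 17100) (nat_lit 6) (nat_lit 134131772914888067300) (ZL.cons (nat_lit 17176)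 (nat_lit 6) (nat_lit 133990677360869896288) (ZL.cons (nat_lit 17252) (nat_lit 6) (nat_lit 133896644386716379930) (ZL.cons (nat_lit 17328) (nat_lit 6) (nat_lit 133849637116751379596) (ZL.cons (nat_lit 17404) (nat_lit 6) (nat_lit 133781153820478942352) (ZL.cons (nat_lit 17480) (nat_lit 6) (nat_lit 133524671439947073388) (ZL.cons (nat_lit 17556) (nat_lit 6) (nat_lit 133314959236183763848) (ZL.cons (nat_lit 17632) (nat_lit 6) (nat_lit 133151934969109106556) (ZL.cons (nat_lit 17708) (nat_lit 6) (nat_lit 133035534707637974194) (ZL.cons (nat_lit 17784) (nat_lit 6) (nat_lit 132965712804609005536) (ZL.cons (nat_lit 17860) (nat_lit 3) (nat_lit 66471220939441878922) (ZL.cons (nat_lit 17936) (nat_lit 6) (nat_lit 133033172430031332750) (ZL.cons (nat_lit 18012) (nat_lit 6) (nat_lit 132756026133418463378) (ZL.cons (nat_lit 18088) (nat_lit 6) (nat_lit 132525236735252533426) (ZL.cons (nat_lit 18164) (nat_lit 6) (nat_lit 132340713729887203312) (ZL.cons (nat_lit 18240) (nat_lit 6) (nat_lit 132202384755359584670)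 (ZL.cons (nat_lit 18316) (nat_lit 6) (nat_lit 132110195565013000008) (ZL.cons (nat_lit 18392) (nat_lit 6) (nat_lit 132064110006223783992) (ZL.cons (nat_lit 18468) (nat_lit 6) (nat_lit 132311154069111654112) (ZL.cons (nat_lit 18544) (nat_lit 6) (nat_lit 132013749031242901990) (ZL.cons (nat_lit 18620) (nat_lit 6) (nat_lit 131762295716995971630) (ZL.cons (nat_lit 18696) (nat_lit 6) (nat_lit 131556695517228021104) (ZL.cons (nat_lit 18772) (nat_lit 6) (nat_lit 131396867804409729640) (ZL.cons (nat_lit 18848) (nat_lit 6) (nat_lit 131282749901006658698) (ZL.cons (nat_lit 18924) (nat_lit 6) (nat_lit 131214297054899826678) (ZL.cons (nat_lit 19000) (nat_lit 3) (nat_lit 65595741210917929177) (ZL.cons (nat_lit 19076) (nat_lit 6) (nat_lit 131297549044360712532) (ZL.cons (nat_lit 19152) (nat_lit 6) (nat_lit 131025836988857899422) (ZL.cons (nat_lit 19228) (nat_lit 6) (nat_lit 130799572873008948488) (ZL.cons (nat_lit 19304) (nat_lit 6) (nat_lit 130618667965788036612) (ZL.cons (nat_lit 19380)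 (nat_lit 6) (nat_lit 130483051324094292848) (ZL.cons (nat_lit 19456) (nat_lit 6) (nat_lit 130392669764930974548) (ZL.cons (nat_lit 19532) (nat_lit 6) (nat_lit 130347487844549390220) (ZL.cons (nat_lit 19608) (nat_lit 6) (nat_lit 130607145310031941202) (ZL.cons (nat_lit 19684) (nat_lit 6) (nat_lit 130315571743493948924) (ZL.cons (nat_lit 19760) (nat_lit 6) (nat_lit 130069048886389115240) (ZL.cons (nat_lit 19836) (nat_lit 6) (nat_lit 129867480063087202956) (ZL.cons (nat_lit 19912) (nat_lit 6) (nat_lit 129710786226990838780) (ZL.cons (nat_lit 19988) (nat_lit 6) (nat_lit 129598905929536847658) (ZL.cons (nat_lit 20064) (nat_lit 6) (nat_lit 129531795296098777050) (ZL.cons (nat_lit 20140) (nat_lit 3) (nat_lit 64754714004390580523) (ZL.cons (nat_lit 20216) (nat_lit 6) (nat_lit 129942267081694106128) (ZL.cons (nat_lit 20292) (nat_lit 6) (nat_lit 129631221445513781334) (ZL.cons (nat_lit 20368) (nat_lit 6) (nat_lit 129364837077373768482) (ZL.cons (nat_lit 20444) (nat_lit 6) (nat_lit 129143009512815973448)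 (ZL.cons (nat_lit 20520) (nat_lit 6) (nat_lit 128965651760638608864) (ZL.cons (nat_lit 20596) (nat_lit 6) (nat_lit 128832694268781997330) (ZL.cons (nat_lit 20672) (nat_lit 6) (nat_lit 128744084897053253900) (ZL.cons (nat_lit 20748) (nat_lit 6) (nat_lit 128699788896679151616) (ZL.cons (nat_lit 20900) (nat_lit 6) (nat_lit 128972517722251522078) (ZL.cons (nat_lit 20976) (nat_lit 6) (nat_lit 128686661284469176710) (ZL.cons (nat_lit 21052) (nat_lit 6) (nat_lit 128444972208876202508) (ZL.cons (nat_lit 21128) (nat_lit 6) (nat_lit 128247355715442955174) (ZL.cons (nat_lit 21204) (nat_lit 6) (nat_lit 128093734307505343232) (ZL.cons (nat_lit 21280) (nat_lit 6) (nat_lit 127984047741373979390) (ZL.cons (nat_lit 21356) (nat_lit 6) (nat_lit 127918253002709204284) (ZL.cons (nat_lit 21432) (nat_lit 3) (nat_lit 63948162144826359002) (ZL.cons (nat_lit 21508) (nat_lit 6) (nat_lit 128339202258521578110) (ZL.cons (nat_lit 21584) (nat_lit 6) (nat_lit 128034255556384004784) (ZL.cons (nat_lit 21660)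 (nat_lit 6) (nat_lit 127773094411148698066) (ZL.cons (nat_lit 21736) (nat_lit 6) (nat_lit 127555616406680271564) (ZL.cons (nat_lit 21812) (nat_lit 6) (nat_lit 127381736257486776872) (ZL.cons (nat_lit 21888) (nat_lit 6) (nat_lit 127251385775274412622) (ZL.cons (nat_lit 21964) (nat_lit 6) (nat_lit 127164513842207017104) (ZL.cons (nat_lit 22040) (nat_lit 6) (nat_lit 127121086390859858002) (ZL.cons (nat_lit 22116) (nat_lit 6) (nat_lit 127731026695318565142) (ZL.cons (nat_lit 22192) (nat_lit 6) (nat_lit 127407364047734689896) (ZL.cons (nat_lit 22268) (nat_lit 6) (nat_lit 127127112638144155220) (ZL.cons (nat_lit 22344) (nat_lit 6) (nat_lit 126890162564033396202) (ZL.cons (nat_lit 22420) (nat_lit 6) (nat_lit 126696420903804722342) (ZL.cons (nat_lit 22496) (nat_lit 6) (nat_lit 126545811680336475342) (ZL.cons (nat_lit 22572) (nat_lit 6) (nat_lit 126438275831188079416) (ZL.cons (nat_lit 22648) (nat_lit 6) (nat_lit 126373771185438299902) (ZL.cons (nat_lit 22724) (nat_lit 3) (nat_lit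 63176136223573813540) (ZL.cons (nat_lit 22800) (nat_lit 6) (nat_lit 127147752532421619246) (ZL.cons (nat_lit 22876) (nat_lit 6) (nat_lit 126805740918713918588) (ZL.cons (nat_lit 22952) (nat_lit 6) (nat_lit 126506773563677081992) (ZL.cons (nat_lit 23028) (nat_lit 6) (nat_lit 126250733225211095016) (ZL.cons (nat_lit 23104) (nat_lit 6) (nat_lit 126037519495340088640) (ZL.cons (nat_lit 23180) (nat_lit 6) (nat_lit 125867048760836662472) (ZL.cons (nat_lit 23256) (nat_lit 6) (nat_lit 125739254170432383796) (ZL.cons (nat_lit 23332) (nat_lit 6) (nat_lit 125654085608601603874) (ZL.cons (nat_lit 23408) (nat_lit 6) (nat_lit 125611509675908310640) (ZL.cons (nat_lit 23484) (nat_lit 6) (nat_lit 126229150238682859186) (ZL.cons (nat_lit 23560) (nat_lit 6) (nat_lit 125911833917522197178) (ZL.cons (nat_lit 23636) (nat_lit 6) (nat_lit 125637077633609908282) (ZL.cons (nat_lit 23712) (nat_lit 6) (nat_lit 125404773639383673948) (ZL.cons (nat_lit 23788) (nat_lit 6) (nat_lit 125214830835237915264)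 (ZL.cons (nat_lit 23864) (nat_lit 6) (nat_lit 125067174733798457420) (ZL.cons (nat_lit 23940) (nat_lit 6) (nat_lit 124961747430711794748) (ZL.cons (nat_lit 24016) (nat_lit 6) (nat_lit 124898507581937501106) (ZL.cons (nat_lit 24092) (nat_lit 3) (nat_lit 62438715193767440347) (ZL.cons (nat_lit 24168) (nat_lit 6) (nat_lit 125677365893649342644) (ZL.cons (nat_lit 24244) (nat_lit 6) (nat_lit 125342060390014341998) (ZL.cons (nat_lit 24320) (nat_lit 6) (nat_lit 125048955139978227690) (ZL.cons (nat_lit 24396) (nat_lit 6) (nat_lit 124797935200305691436) (ZL.cons (nat_lit 24472) (nat_lit 6) (nat_lit 124588902131804704794) (ZL.cons (nat_lit 24548) (nat_lit 6) (nat_lit 124421773960722914434) (ZL.cons (nat_lit 24624) (nat_lit 6) (nat_lit 124296485146601072594) (ZL.cons (nat_lit 24700) (nat_lit 6) (nat_lit 124212986556570896202) (ZL.cons (nat_lit 24776) (nat_lit 6) (nat_lit 124171245446087275382) (ZL.cons (nat_lit 24852) (nat_lit 6) (nat_lit 125150171497595708762) (ZL.cons (nat_lit 24928)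 (nat_lit 6) (nat_lit 124797229540554493764) (ZL.cons (nat_lit 25004) (nat_lit 6) (nat_lit 124486135108044040818) (ZL.cons (nat_lit 25080) (nat_lit 6) (nat_lit 124216766202247679152) (ZL.cons (nat_lit 25156) (nat_lit 6) (nat_lit 123989017188300390590) (ZL.cons (nat_lit 25232) (nat_lit 6) (nat_lit 123802798752863372272) (ZL.cons (nat_lit 25308) (nat_lit 6) (nat_lit 123658037869099197916) (ZL.cons (nat_lit 25384) (nat_lit 6) (nat_lit 123554677768033842356) (ZL.cons (nat_lit 25460) (nat_lit 6) (nat_lit 123492677916294338786) (ZL.cons (nat_lit 25536) (nat_lit 3) (nat_lit 61736007000106669189) (ZL.cons (nat_lit 25612) (nat_lit 6) (nat_lit 124647360307621544350) (ZL.cons (nat_lit 25688) (nat_lit 6) (nat_lit 124277127709986001556) (ZL.cons (nat_lit 25764) (nat_lit 6) (nat_lit 123948396824069334258) (ZL.cons (nat_lit 25840) (nat_lit 6) (nat_lit 123661038735798633954) (ZL.cons (nat_lit 25916) (nat_lit 6) (nat_lit 123414940755727519980) (ZL.cons (nat_lit 25992) (nat_lit 6) (nat_lit 123210006374844199742)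 (ZL.cons (nat_lit 26068) (nat_lit 6) (nat_lit 123046155226724797428) (ZL.cons (nat_lit 26144) (nat_lit 6) (nat_lit 122923323056017109352) (ZL.cons (nat_lit 26220) (nat_lit 6) (nat_lit 122841461693242426614) (ZL.cons (nat_lit 26296) (nat_lit 6) (nat_lit 122800539035905543456) (ZL.cons (nat_lit 26372) (nat_lit 6) (nat_lit 123781550936806681652) (ZL.cons (nat_lit 26448) (nat_lit 6) (nat_lit 123435529410295686558) (ZL.cons (nat_lit 26524) (nat_lit 6) (nat_lit 123130534868618771902) (ZL.cons (nat_lit 26600) (nat_lit 6) (nat_lit 122866447706073319290) (ZL.cons (nat_lit 26676) (nat_lit 6) (nat_lit 122643164359066173640) (ZL.cons (nat_lit 26752) (nat_lit 6) (nat_lit 122460597265500469406) (ZL.cons (nat_lit 26828) (nat_lit 6) (nat_lit 122318674830437553372) (ZL.cons (nat_lit 26904) (nat_lit 6) (nat_lit 122217341398020538118) (ZL.cons (nat_lit 26980) (nat_lit 6) (nat_lit 122156557229648475792) (ZL.cons (nat_lit 27056) (nat_lit 3) (nat_lit 61068149244196296521) (ZL.cons (nat_lit 27132)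 (nat_lit 6) (nat_lit 123310304877183914710) (ZL.cons (nat_lit 27208) (nat_lit 6) (nat_lit 122947331742247108052) (ZL.cons (nat_lit 27284) (nat_lit 6) (nat_lit 122625046559975865600) (ZL.cons (nat_lit 27360) (nat_lit 6) (nat_lit 122343322944024198636) (ZL.cons (nat_lit 27436) (nat_lit 6) (nat_lit 122102050414542714348) (ZL.cons (nat_lit 27512) (nat_lit 6) (nat_lit 121901134354853184702) (ZL.cons (nat_lit 27588) (nat_lit 6) (nat_lit 121740495974343966748) (ZL.cons (nat_lit 27664) (nat_lit 6) (nat_lit 121620072277571723536) (ZL.cons (nat_lit 27740) (nat_lit 6) (nat_lit 121539816039557328694) (ZL.cons (nat_lit 27816) (nat_lit 6) (nat_lit 121499695787266266776) (ZL.cons (nat_lit 27892) (nat_lit 6) (nat_lit 122863204728741378074) (ZL.cons (nat_lit 27968) (nat_lit 6) (nat_lit 122483612369857697334) (ZL.cons (nat_lit 28044) (nat_lit 6) (nat_lit 122144375579160643318) (ZL.cons (nat_lit 28120) (nat_lit 6) (nat_lit 121845361322614648558) (ZL.cons (nat_lit 28196) (nat_lit 6) (nat_lit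 121586452339726949918) (ZL.cons (nat_lit 28272) (nat_lit 6) (nat_lit 121367547097563081634) (ZL.cons (nat_lit 28348) (nat_lit 6) (nat_lit 121188559750930038268) (ZL.cons (nat_lit 28424) (nat_lit 6) (nat_lit 121049420108711493136) (ZL.cons (nat_lit 28500) (nat_lit 6) (nat_lit 120950073606341870336) (ZL.cons (nat_lit 28576) (nat_lit 6) (nat_lit 120890481284408475902) (ZL.cons (nat_lit 28652) (nat_lit 3) (nat_lit 60435309886686648367) (ZL.cons (nat_lit 28728) (nat_lit 6) (nat_lit 122440075158087525654) (ZL.cons (nat_lit 28804) (nat_lit 6) (nat_lit 122044189442393184048) (ZL.cons (nat_lit 28880) (nat_lit 6) (nat_lit 121688333427749255950) (ZL.cons (nat_lit 28956) (nat_lit 6) (nat_lit 121372367562777449626) (ZL.cons (nat_lit 29032) (nat_lit 6) (nat_lit 121096167939295423190) (ZL.cons (nat_lit 29108) (nat_lit 6) (nat_lit 120859626243725340554) (ZL.cons (nat_lit 29184) (nat_lit 6) (nat_lit 120662649714617958550) (ZL.cons (nat_lit 29260) (nat_lit 6) (nat_lit 120505161106275588006)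 (ZL.cons (nat_lit 29336) (nat_lit 6) (nat_lit 120387098658459663286) (ZL.cons (nat_lit 29412) (nat_lit 6) (nat_lit 120308416072171040894) (ZL.cons (nat_lit 29488) (nat_lit 6) (nat_lit 120269082491493529210) (ZL.cons (nat_lit 29564) (nat_lit 6) (nat_lit 122040750232057395156) (ZL.cons (nat_lit 29640) (nat_lit 6) (nat_lit 121628890637136915446) (ZL.cons (nat_lit 29716) (nat_lit 6) (nat_lit 121256741265682326482) (ZL.cons (nat_lit 29792) (nat_lit 6) (nat_lit 120924156176763646076) (ZL.cons (nat_lit 29868) (nat_lit 6) (nat_lit 120631004944855808076) (ZL.cons (nat_lit 29944) (nat_lit 6) (nat_lit 120377172608691397644) (ZL.cons (nat_lit 30020) (nat_lit 6) (nat_lit 120162559626177801288) (ZL.cons (nat_lit 30096) (nat_lit 6) (nat_lit 119987081835361092106) (ZL.cons (nat_lit 30172) (nat_lit 6) (nat_lit 119850670421421341974) (ZL.cons (nat_lit 30248) (nat_lit 6) (nat_lit 119753271889686417662) (ZL.cons (nat_lit 30324) (nat_lit 6) (nat_lit 119694848044653678020) (ZL.cons (nat_lit 30400)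 (nat_lit 3) (nat_lit 59837687987505672752) (ZL.cons (nat_lit 30476) (nat_lit 6) (nat_lit 121237553091812320442) (ZL.cons (nat_lit 30552) (nat_lit 6) (nat_lit 120849429841131593374) (ZL.cons (nat_lit 30628) (nat_lit 6) (nat_lit 120500551395402252102) (ZL.cons (nat_lit 30704) (nat_lit 6) (nat_lit 120190780939547540020) (ZL.cons (nat_lit 30780) (nat_lit 6) (nat_lit 119919996994957318024) (ZL.cons (nat_lit 30856) (nat_lit 6) (nat_lit 119688093371849393872) (ZL.cons (nat_lit 30932) (nat_lit 6) (nat_lit 119494979127626470338) (ZL.cons (nat_lit 31008) (nat_lit 6) (nat_lit 119340578531212381568) (ZL.cons (nat_lit 31084) (nat_lit 6) (nat_lit 119224831033353631844) (ZL.cons (nat_lit 31160) (nat_lit 6) (nat_lit 119147691242874590282) (ZL.cons (nat_lit 31236) (nat_lit 6) (nat_lit 119109128908877029808) (ZL.cons (nat_lit 31312) (nat_lit 6) (nat_lit 120870023340715350172) (ZL.cons (nat_lit 31388) (nat_lit 6) (nat_lit 120466239424126644572) (ZL.cons (nat_lit 31464) (nat_lit 6) (nat_lit 120101387099171165196)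 (ZL.cons (nat_lit 31540) (nat_lit 6) (nat_lit 119775323286505792248) (ZL.cons (nat_lit 31616) (nat_lit 6) (nat_lit 119487920117968696170) (ZL.cons (nat_lit 31692) (nat_lit 6) (nat_lit 119239064886434960454) (ZL.cons (nat_lit 31768) (nat_lit 6) (nat_lit 119028660001617709124) (ZL.cons (nat_lit 31844) (nat_lit 6) (nat_lit 118856622951797406002) (ZL.cons (nat_lit 31920) (nat_lit 6) (nat_lit 118722886271464317640) (ZL.cons (nat_lit 31996) (nat_lit 6) (nat_lit 118627397514861450666) (ZL.cons (nat_lit 32072) (nat_lit 6) (nat_lit 118570119235417588272) (ZL.cons (nat_lit 32148) (nat_lit 3) (nat_lit 59275514485531180157) (ZL.cons (nat_lit 32224) (nat_lit 6) (nat_lit 120526157254531848964) (ZL.cons (nat_lit 32300) (nat_lit 6) (nat_lit 120107019743915713430) (ZL.cons (nat_lit 32376) (nat_lit 6) (nat_lit 119726506753052255522) (ZL.cons (nat_lit 32452) (nat_lit 6) (nat_lit 119384469061160744470) (ZL.cons (nat_lit 32528) (nat_lit 6) (nat_lit 119080772535812987526) (ZL.cons (nat_lit 32604)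 (nat_lit 6) (nat_lit 118815298080332377728) (ZL.cons (nat_lit 32680) (nat_lit 6) (nat_lit 118587941587089314834) (ZL.cons (nat_lit 32756) (nat_lit 6) (nat_lit 118398613896674683916) (ZL.cons (nat_lit 32832) (nat_lit 6) (nat_lit 118247240762935381202) (ZL.cons (nat_lit 32908) (nat_lit 6) (nat_lit 118133762823858175590) (ZL.cons (nat_lit 32984) (nat_lit 6) (nat_lit 118058135578290487784) (ZL.cons (nat_lit 33060) (nat_lit 6) (nat_lit 118020329368488957906) (ZL.cons (nat_lit 33136) (nat_lit 6) (nat_lit 120205819983816254658) (ZL.cons (nat_lit 33212) (nat_lit 6) (nat_lit 119771629930035972130) (ZL.cons (nat_lit 33288) (nat_lit 6) (nat_lit 119375763345145084288) (ZL.cons (nat_lit 33364) (nat_lit 6) (nat_lit 119018064987345594704) (ZL.cons (nat_lit 33440) (nat_lit 6) (nat_lit 118698394582771699656) (ZL.cons (nat_lit 33516) (nat_lit 6) (nat_lit 118416626770480428992) (ZL.cons (nat_lit 33592) (nat_lit 6) (nat_lit 118172651053290492016) (ZL.cons (nat_lit 33668) (nat_lit 6) (nat_lit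 117966371754450049534) (ZL.cons (nat_lit 33744) (nat_lit 6) (nat_lit 117797707980116419024) (ZL.cons (nat_lit 33820) (nat_lit 6) (nat_lit 117666593587632999060) (ZL.cons (nat_lit 33896) (nat_lit 6) (nat_lit 117572977159590972616) (ZL.cons (nat_lit 33972) (nat_lit 6) (nat_lit 117516821983665617326) (ZL.cons (nat_lit 34048) (nat_lit 3) (nat_lit 58749053019109657703) (ZL.cons (nat_lit 34200) (nat_lit 6) (nat_lit 119908885906109463104) (ZL.cons (nat_lit 34276) (nat_lit 6) (nat_lit 119459938457070212934) (ZL.cons (nat_lit 34352) (nat_lit 6) (nat_lit 119049019329015178098) (ZL.cons (nat_lit 34428) (nat_lit 6) (nat_lit 118675967377188258580) (ZL.cons (nat_lit 34504) (nat_lit 6) (nat_lit 118340636306706385000) (ZL.cons (nat_lit 34580) (nat_lit 6) (nat_lit 118042894615188976232) (ZL.cons (nat_lit 34656) (nat_lit 6) (nat_lit 117782625541188378390) (ZL.cons (nat_lit 34732) (nat_lit 6) (nat_lit 117559727018401061826) (ZL.cons (nat_lit 34808) (nat_lit 6) (nat_lit 117374111635641619752)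 (ZL.cons (nat_lit 34884) (nat_lit 6) (nat_lit 117225706602563871992) (ZL.cons (nat_lit 34960) (nat_lit 6) (nat_lit 117114453721115631196) (ZL.cons (nat_lit 35036) (nat_lit 6) (nat_lit 117040309362715937268) (ZL.cons (nat_lit 35112) (nat_lit 6) (nat_lit 117003244451145809936) (ZL.cons (nat_lit 35188) (nat_lit 3) (nat_lit 58760693927333494616) (ZL.cons (nat_lit 35264) (nat_lit 6) (nat_lit 117532795801187633424) (ZL.cons (nat_lit 35340) (nat_lit 6) (nat_lit 117567024114454083896) (ZL.cons (nat_lit 35416) (nat_lit 6) (nat_lit 117624086217334288282) (ZL.cons (nat_lit 35492) (nat_lit 6) (nat_lit 117704004487123493718) (ZL.cons (nat_lit 35568) (nat_lit 6) (nat_lit 117806810264319656754) (ZL.cons (nat_lit 35644) (nat_lit 6) (nat_lit 117932543864913834708) (ZL.cons (nat_lit 35720) (nat_lit 6) (nat_lit 118081254596200378242) (ZL.cons (nat_lit 35796) (nat_lit 6) (nat_lit 118253000776113125214) (ZL.cons (nat_lit 35872) (nat_lit 6) (nat_lit 118447849756095178660) (ZL.cons (nat_lit 35948)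 (nat_lit 6) (nat_lit 118665877947511237428) (ZL.cons (nat_lit 36024) (nat_lit 6) (nat_lit 118907170851612837224) (ZL.cons (nat_lit 36100) (nat_lit 6) (nat_lit 119171823093068253190) (ZL.cons (nat_lit 36176) (nat_lit 6) (nat_lit 118746146569754250712) (ZL.cons (nat_lit 36252) (nat_lit 6) (nat_lit 118358042074763184200) (ZL.cons (nat_lit 36328) (nat_lit 6) (nat_lit 118007357410253880686) (ZL.cons (nat_lit 36404) (nat_lit 6) (nat_lit 117693955052828493386) (ZL.cons (nat_lit 36480) (nat_lit 6) (nat_lit 117417712099601757440) (ZL.cons (nat_lit 36556) (nat_lit 6) (nat_lit 117178520220003780010) (ZL.cons (nat_lit 36632) (nat_lit 6) (nat_lit 116976285613297463854) (ZL.cons (nat_lit 36708) (nat_lit 6) (nat_lit 116810928971793904530) (ZL.cons (nat_lit 36784) (nat_lit 6) (nat_lit 116682385449751335938) (ZL.cons (nat_lit 36860) (nat_lit 6) (nat_lit 116590604637945427658) (ZL.cons (nat_lit 36936) (nat_lit 6) (nat_lit 116535550543900961688) (ZL.cons (nat_lit 37012) (nat_lit 3) (nat_lit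 58258600788888568138) (ZL.cons (nat_lit 37088) (nat_lit 6) (nat_lit 116939646840957458466) (ZL.cons (nat_lit 37164) (nat_lit 6) (nat_lit 116962690892929159732) (ZL.cons (nat_lit 37240) (nat_lit 6) (nat_lit 117008788033755688422) (ZL.cons (nat_lit 37316) (nat_lit 6) (nat_lit 117077956340747172590) (ZL.cons (nat_lit 37392) (nat_lit 6) (nat_lit 117170222938729883404) (ZL.cons (nat_lit 37468) (nat_lit 6) (nat_lit 117285624010683421922) (ZL.cons (nat_lit 37544) (nat_lit 6) (nat_lit 117424204811930122872) (ZL.cons (nat_lit 37620) (nat_lit 6) (nat_lit 117586019687882239860) (ZL.cons (nat_lit 37696) (nat_lit 6) (nat_lit 117771132095353871754) (ZL.cons (nat_lit 37772) (nat_lit 6) (nat_lit 117979614627445987822) (ZL.cons (nat_lit 37848) (nat_lit 6) (nat_lit 118211549042014310464) (ZL.cons (nat_lit 37924) (nat_lit 6) (nat_lit 118467026293731219414) (ZL.cons (nat_lit 38000) (nat_lit 6) (nat_lit 118064164403481185260) (ZL.cons (nat_lit 38076) (nat_lit 6) (nat_lit 117698427195807734752)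 (ZL.cons (nat_lit 38152) (nat_lit 6) (nat_lit 117369671244354917518) (ZL.cons (nat_lit 38228) (nat_lit 6) (nat_lit 117077767625220203040) (ZL.cons (nat_lit 38304) (nat_lit 6) (nat_lit 116822601866396087506) (ZL.cons (nat_lit 38380) (nat_lit 6) (nat_lit 116604073902879110484) (ZL.cons (nat_lit 38456) (nat_lit 6) (nat_lit 116422098037428677078) (ZL.cons (nat_lit 38532) (nat_lit 6) (nat_lit 116276602906960296922) (ZL.cons (nat_lit 38608) (nat_lit 6) (nat_lit 116167531454560060846) (ZL.cons (nat_lit 38684) (nat_lit 6) (nat_lit 116094840907109380524) (ZL.cons (nat_lit 38760) (nat_lit 6) (nat_lit 116058502758511216474) (ZL.cons (nat_lit 38836) (nat_lit 3) (nat_lit 58190360230155948012) (ZL.cons (nat_lit 38912) (nat_lit 6) (nat_lit 116392356565762953098) (ZL.cons (nat_lit 38988) (nat_lit 6) (nat_lit 116427269445294732582) (ZL.cons (nat_lit 39064) (nat_lit 6) (nat_lit 116485472790232541054) (ZL.cons (nat_lit 39140) (nat_lit 6) (nat_lit 116566989425417530600) (ZL.cons (nat_lit 39216)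 (nat_lit 6) (nat_lit 116671851318157616896) (ZL.cons (nat_lit 39292) (nat_lit 6) (nat_lit 116800099590763678410) (ZL.cons (nat_lit 39368) (nat_lit 6) (nat_lit 116951784536675952814) (ZL.cons (nat_lit 39444) (nat_lit 6) (nat_lit 117126965640186954724) (ZL.cons (nat_lit 39520) (nat_lit 6) (nat_lit 117325711599768649240) (ZL.cons (nat_lit 39596) (nat_lit 6) (nat_lit 117548100355013029182) (ZL.cons (nat_lit 39672) (nat_lit 6) (nat_lit 117794219117196660978) (ZL.cons (nat_lit 39748) (nat_lit 6) (nat_lit 117413724514264242828) (ZL.cons (nat_lit 39824) (nat_lit 6) (nat_lit 117069916019647278600) (ZL.cons (nat_lit 39900) (nat_lit 6) (nat_lit 116762658806485134188) (ZL.cons (nat_lit 39976) (nat_lit 6) (nat_lit 116491832381753040122) (ZL.cons (nat_lit 40052) (nat_lit 6) (nat_lit 116257330539009924996) (ZL.cons (nat_lit 40128) (nat_lit 6) (nat_lit 116059061316748830724) (ZL.cons (nat_lit 40204) (nat_lit 6) (nat_lit 115896946962333576486) (ZL.cons (nat_lit 40280) (nat_lit 6) (nat_lit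 115770923901507528846) (ZL.cons (nat_lit 40356) (nat_lit 6) (nat_lit 115680942713462520728) (ZL.cons (nat_lit 40432) (nat_lit 6) (nat_lit 115626968111458142326) (ZL.cons (nat_lit 40508) (nat_lit 3) (nat_lit 57804489464491901844) (ZL.cons (nat_lit 40584) (nat_lit 6) (nat_lit 115855797472435006660) (ZL.cons (nat_lit 40660) (nat_lit 6) (nat_lit 115879302405446141952) (ZL.cons (nat_lit 40736) (nat_lit 6) (nat_lit 115926321489089201218) (ZL.cons (nat_lit 40812) (nat_lit 6) (nat_lit 115996873162220515068) (ZL.cons (nat_lit 40888) (nat_lit 6) (nat_lit 116090985092162880096) (ZL.cons (nat_lit 40964) (nat_lit 6) (nat_lit 116208694185555489388) (ZL.cons (nat_lit 41040) (nat_lit 6) (nat_lit 116350046602827124356) (ZL.cons (nat_lit 41116) (nat_lit 6) (nat_lit 116515097776298283682) (ZL.cons (nat_lit 41192) (nat_lit 6) (nat_lit 116703912431919348214) (ZL.cons (nat_lit 41268) (nat_lit 6) (nat_lit 116916564614653306604) (ZL.cons (nat_lit 41344) (nat_lit 6) (nat_lit 117153137717512995700)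 (ZL.cons (nat_lit 41420) (nat_lit 6) (nat_lit 116794571827637063830) (ZL.cons (nat_lit 41496) (nat_lit 6) (nat_lit 116472262071310772424) (ZL.cons (nat_lit 41572) (nat_lit 6) (nat_lit 116186082052551248424) (ZL.cons (nat_lit 41648) (nat_lit 6) (nat_lit 115935919543900154766) (ZL.cons (nat_lit 41724) (nat_lit 6) (nat_lit 115721676442412922390) (ZL.cons (nat_lit 41800) (nat_lit 6) (nat_lit 115543268731187007286) (ZL.cons (nat_lit 41876) (nat_lit 6) (nat_lit 115400626446414085564) (ZL.cons (nat_lit 41952) (nat_lit 6) (nat_lit 115293693649943265882) (ZL.cons (nat_lit 42028) (nat_lit 6) (nat_lit 115222428407344559684) (ZL.cons (nat_lit 42104) (nat_lit 6) (nat_lit 115186802771464006694) (ZL.cons (nat_lit 42180) (nat_lit 3) (nat_lit 57676401598807301788) (ZL.cons (nat_lit 42256) (nat_lit 6) (nat_lit 115364672025174681794) (ZL.cons (nat_lit 42332) (nat_lit 6) (nat_lit 115400283162297096868) (ZL.cons (nat_lit 42408) (nat_lit 6) (nat_lit 115459650574133661512) (ZL.cons (nat_lit 42484)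 (nat_lit 6) (nat_lit 115542797542022350844) (ZL.cons (nat_lit 42560) (nat_lit 6) (nat_lit 115649756672617238868) (ZL.cons (nat_lit 42636) (nat_lit 6) (nat_lit 115780569910675421614) (ZL.cons (nat_lit 42712) (nat_lit 6) (nat_lit 115935288555505941504) (ZL.cons (nat_lit 42788) (nat_lit 6) (nat_lit 116113973281087163452) (ZL.cons (nat_lit 42864) (nat_lit 6) (nat_lit 116316694159860491858) (ZL.cons (nat_lit 42940) (nat_lit 6) (nat_lit 116543530690209759402) (ZL.cons (nat_lit 43016) (nat_lit 6) (nat_lit 116206463538624500354) (ZL.cons (nat_lit 43092) (nat_lit 6) (nat_lit 115905230976700829360) (ZL.cons (nat_lit 43168) (nat_lit 6) (nat_lit 115639714874022305768) (ZL.cons (nat_lit 43244) (nat_lit 6) (nat_lit 115409811106627094860) (ZL.cons (nat_lit 43320) (nat_lit 6) (nat_lit 115215429516175041652) (ZL.cons (nat_lit 43396) (nat_lit 6) (nat_lit 115056493874591459064) (ZL.cons (nat_lit 43472) (nat_lit 6) (nat_lit 114932941854173765300) (ZL.cons (nat_lit 43548) (nat_lit 6) (nat_lit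 114844725003149247538) (ZL.cons (nat_lit 43624) (nat_lit 6) (nat_lit 114791808726674366752) (ZL.cons (nat_lit 43700) (nat_lit 3) (nat_lit 57387086136634076200) (ZL.cons (nat_lit 43776) (nat_lit 6) (nat_lit 114883176488644951532) (ZL.cons (nat_lit 43852) (nat_lit 6) (nat_lit 114907151520316309532) (ZL.cons (nat_lit 43928) (nat_lit 6) (nat_lit 114955110985632229984) (ZL.cons (nat_lit 44004) (nat_lit 6) (nat_lit 115027073692226170110) (ZL.cons (nat_lit 44080) (nat_lit 6) (nat_lit 115123067860767382438) (ZL.cons (nat_lit 44156) (nat_lit 6) (nat_lit 115243131136027843916) (ZL.cons (nat_lit 44232) (nat_lit 6) (nat_lit 115387310601644911584) (ZL.cons (nat_lit 44308) (nat_lit 6) (nat_lit 115555662798585494096) (ZL.cons (nat_lit 44384) (nat_lit 6) (nat_lit 115748253747318979918) (ZL.cons (nat_lit 44460) (nat_lit 6) (nat_lit 115965158973707617478) (ZL.cons (nat_lit 44536) (nat_lit 6) (nat_lit 115649169016524978842) (ZL.cons (nat_lit 44612) (nat_lit 6) (nat_lit 115368600370682308256)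 (ZL.cons (nat_lit 44688) (nat_lit 6) (nat_lit 115123343009259667414) (ZL.cons (nat_lit 44764) (nat_lit 6) (nat_lit 114913300752899635674) (ZL.cons (nat_lit 44840) (nat_lit 6) (nat_lit 114738391232089914982) (ZL.cons (nat_lit 44916) (nat_lit 6) (nat_lit 114598545854861560352) (ZL.cons (nat_lit 44992) (nat_lit 6) (nat_lit 114493709779890168508) (ZL.cons (nat_lit 45068) (nat_lit 6) (nat_lit 114423841894989476158) (ZL.cons (nat_lit 45144) (nat_lit 6) (nat_lit 114388914800988934010) (ZL.cons (nat_lit 45220) (nat_lit 3) (nat_lit 57217313487038959950) (ZL.cons (nat_lit 45296) (nat_lit 6) (nat_lit 114446733178189199682) (ZL.cons (nat_lit 45372) (nat_lit 6) (nat_lit 114483056538054063060) (ZL.cons (nat_lit 45448) (nat_lit 6) (nat_lit 114543611298127358994) (ZL.cons (nat_lit 45524) (nat_lit 6) (nat_lit 114628421205373822116) (ZL.cons (nat_lit 45600) (nat_lit 6) (nat_lit 114737519518580607898) (ZL.cons (nat_lit 45676) (nat_lit 6) (nat_lit 114870949021399954298) (ZL.cons (nat_lit 45752)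 (nat_lit 6) (nat_lit 115028762039127084588) (ZL.cons (nat_lit 45828) (nat_lit 6) (nat_lit 115211020459219930974) (ZL.cons (nat_lit 45904) (nat_lit 6) (nat_lit 115417795755568725950) (ZL.cons (nat_lit 45980) (nat_lit 6) (nat_lit 115122469714467087722) (ZL.cons (nat_lit 46056) (nat_lit 6) (nat_lit 114862159809880299886) (ZL.cons (nat_lit 46132) (nat_lit 6) (nat_lit 114636763959492838212) (ZL.cons (nat_lit 46208) (nat_lit 6) (nat_lit 114446193772775138988) (ZL.cons (nat_lit 46284) (nat_lit 6) (nat_lit 114290374516320646254) (ZL.cons (nat_lit 46360) (nat_lit 6) (nat_lit 114169245084538593544) (ZL.cons (nat_lit 46436) (nat_lit 6) (nat_lit 114082757975691027112) (ZL.cons (nat_lit 46512) (nat_lit 6) (nat_lit 114030879273264673400) (ZL.cons (nat_lit 46588) (nat_lit 3) (nat_lit 57006794316335172802) (ZL.cons (nat_lit 46664) (nat_lit 6) (nat_lit 114018847579703168458) (ZL.cons (nat_lit 46740) (nat_lit 6) (nat_lit 114043302112007953618) (ZL.cons (nat_lit 46816) (nat_lit 6) (nat_lit 114092220766630192478)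 (ZL.cons (nat_lit 46892) (nat_lit 6) (nat_lit 114165622727356011408) (ZL.cons (nat_lit 46968) (nat_lit 6) (nat_lit 114263536779268047984) (ZL.cons (nat_lit 47044) (nat_lit 6) (nat_lit 114386001320033718688) (ZL.cons (nat_lit 47120) (nat_lit 6) (nat_lit 114533064374963127710) (ZL.cons (nat_lit 47196) (nat_lit 6) (nat_lit 114704783615842521874) (ZL.cons (nat_lit 47272) (nat_lit 6) (nat_lit 114901226383550677414) (ZL.cons (nat_lit 47348) (nat_lit 6) (nat_lit 114626159083704921936) (ZL.cons (nat_lit 47424) (nat_lit 6) (nat_lit 114385710690153313268) (ZL.cons (nat_lit 47500) (nat_lit 6) (nat_lit 114179786909408184110) (ZL.cons (nat_lit 47576) (nat_lit 6) (nat_lit 114008306987045712844) (ZL.cons (nat_lit 47652) (nat_lit 6) (nat_lit 113871203676037522030) (ZL.cons (nat_lit 47728) (nat_lit 6) (nat_lit 113768423210379294732) (ZL.cons (nat_lit 47804) (nat_lit 6) (nat_lit 113699925284006066938) (ZL.cons (nat_lit 47880) (nat_lit 6) (nat_lit 113665683034985927578) (ZL.cons (nat_lit 47956)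 (nat_lit 3) (nat_lit 56811663463292149883) (ZL.cons (nat_lit 48032) (nat_lit 6) (nat_lit 113635675254777805144) (ZL.cons (nat_lit 48108) (nat_lit 6) (nat_lit 113672725081839965786) (ZL.cons (nat_lit 48184) (nat_lit 6) (nat_lit 113734490937114727642) (ZL.cons (nat_lit 48260) (nat_lit 6) (nat_lit 113820997042506120026) (ZL.cons (nat_lit 48336) (nat_lit 6) (nat_lit 113932277321977041524) (ZL.cons (nat_lit 48412) (nat_lit 6) (nat_lit 114068375414852774850) (ZL.cons (nat_lit 48488) (nat_lit 6) (nat_lit 114229344692934447746) (ZL.cons (nat_lit 48564) (nat_lit 6) (nat_lit 114415248281429151064) (ZL.cons (nat_lit 48640) (nat_lit 6) (nat_lit 114160042492618574754) (ZL.cons (nat_lit 48716) (nat_lit 6) (nat_lit 113939066168709298602) (ZL.cons (nat_lit 48792) (nat_lit 6) (nat_lit 113752232652319397402) (ZL.cons (nat_lit 48868) (nat_lit 6) (nat_lit 113599468675403228056) (ZL.cons (nat_lit 48944) (nat_lit 6) (nat_lit 113480714330518862654) (ZL.cons (nat_lit 49020) (nat_lit 6) (nat_lit 113395923047334973994)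 (ZL.cons (nat_lit 49096) (nat_lit 6) (nat_lit 113345061574367960552) (ZL.cons (nat_lit 49172) (nat_lit 3) (nat_lit 56664054982971074494) (ZL.cons (nat_lit 49248) (nat_lit 6) (nat_lit 113260016112694115620) (ZL.cons (nat_lit 49324) (nat_lit 6) (nat_lit 113284959735644996480) (ZL.cons (nat_lit 49400) (nat_lit 6) (nat_lit 113334856763359680118) (ZL.cons (nat_lit 49476) (nat_lit 6) (nat_lit 113409726763300015428) (ZL.cons (nat_lit 49552) (nat_lit 6) (nat_lit 113509599096250292734) (ZL.cons (nat_lit 49628) (nat_lit 6) (nat_lit 113634512927831276854) (ZL.cons (nat_lit 49704) (nat_lit 6) (nat_lit 113784517243859274054) (ZL.cons (nat_lit 49780) (nat_lit 6) (nat_lit 113959670869556256104) (ZL.cons (nat_lit 49856) (nat_lit 6) (nat_lit 113723937150388012310) (ZL.cons (nat_lit 49932) (nat_lit 6) (nat_lit 113522051090833964116) (ZL.cons (nat_lit 50008) (nat_lit 6) (nat_lit 113353933519890364836) (ZL.cons (nat_lit 50084) (nat_lit 6) (nat_lit 113219518509098020902) (ZL.cons (nat_lit 50160)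 (nat_lit 6) (nat_lit 113118753346687994138) (ZL.cons (nat_lit 50236) (nat_lit 6) (nat_lit 113051598516910319830) (ZL.cons (nat_lit 50312) (nat_lit 6) (nat_lit 113018027684537634184) (ZL.cons (nat_lit 50388) (nat_lit 3) (nat_lit 56458088684223131995) (ZL.cons (nat_lit 50464) (nat_lit 6) (nat_lit 112928772663203639472) (ZL.cons (nat_lit 50540) (nat_lit 6) (nat_lit 112966563486807043328) (ZL.cons (nat_lit 50616) (nat_lit 6) (nat_lit 113029564659187300420) (ZL.cons (nat_lit 50692) (nat_lit 6) (nat_lit 113117800886686520652) (ZL.cons (nat_lit 50768) (nat_lit 6) (nat_lit 113231306771746860580) (ZL.cons (nat_lit 50844) (nat_lit 6) (nat_lit 113370126826480108574) (ZL.cons (nat_lit 50920) (nat_lit 6) (nat_lit 113534315490123414928) (ZL.cons (nat_lit 50996) (nat_lit 6) (nat_lit 113317672035310399092) (ZL.cons (nat_lit 51072) (nat_lit 6) (nat_lit 113134501921202652818) (ZL.cons (nat_lit 51148) (nat_lit 6) (nat_lit 112984733316382878950) (ZL.cons (nat_lit 51224) (nat_lit 6) (nat_lit 112868307488064873654)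 (ZL.cons (nat_lit 51300) (nat_lit 6) (nat_lit 112785178779061061242) (ZL.cons (nat_lit 51376) (nat_lit 6) (nat_lit 112735314589877714730) (ZL.cons (nat_lit 51452) (nat_lit 3) (nat_lit 56359347682965420324) (ZL.cons (nat_lit 51528) (nat_lit 6) (nat_lit 112604024183311015800) (ZL.cons (nat_lit 51604) (nat_lit 6) (nat_lit 112629466678720914278) (ZL.cons (nat_lit 51680) (nat_lit 6) (nat_lit 112680361646989891588) (ZL.cons (nat_lit 51756) (nat_lit 6) (nat_lit 112756729046929033602) (ZL.cons (nat_lit 51832) (nat_lit 6) (nat_lit 112858598826538316456) (ZL.cons (nat_lit 51908) (nat_lit 6) (nat_lit 112986010934750920258) (ZL.cons (nat_lit 51984) (nat_lit 6) (nat_lit 113139015337099477406) (ZL.cons (nat_lit 52060) (nat_lit 6) (nat_lit 112941087827732763490) (ZL.cons (nat_lit 52136) (nat_lit 6) (nat_lit 112776266679748842628) (ZL.cons (nat_lit 52212) (nat_lit 6) (nat_lit 112644487257403407398) (ZL.cons (nat_lit 52288) (nat_lit 6) (nat_lit 112545697882491616454) (ZL.cons (nat_lit 52364)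 (nat_lit 6) (nat_lit 112479859814082131838) (ZL.cons (nat_lit 52440) (nat_lit 6) (nat_lit 112446947233324596890) (ZL.cons (nat_lit 52516) (nat_lit 3) (nat_lit 56155293471811034765) (ZL.cons (nat_lit 52592) (nat_lit 6) (nat_lit 112323434144274592526) (ZL.cons (nat_lit 52668) (nat_lit 6) (nat_lit 112361980784350064458) (ZL.cons (nat_lit 52744) (nat_lit 6) (nat_lit 112426241980177926690) (ZL.cons (nat_lit 52820) (nat_lit 6) (nat_lit 112516242932227131326) (ZL.cons (nat_lit 52896) (nat_lit 6) (nat_lit 112632018934988678054) (ZL.cons (nat_lit 52972) (nat_lit 6) (nat_lit 112773615390816591010) (ZL.cons (nat_lit 53048) (nat_lit 6) (nat_lit 112594036847573702506) (ZL.cons (nat_lit 53124) (nat_lit 6) (nat_lit 112447204882064120282) (ZL.cons (nat_lit 53200) (nat_lit 6) (nat_lit 112333061913124899404) (ZL.cons (nat_lit 53276) (nat_lit 6) (nat_lit 112251563178807436256) (ZL.cons (nat_lit 53352) (nat_lit 6) (nat_lit 112202676718823763204) (ZL.cons (nat_lit 53428) (nat_lit 3) (nat_lit 56093191681006551169)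 (ZL.cons (nat_lit 53504) (nat_lit 6) (nat_lit 112048345870709471668) (ZL.cons (nat_lit 53580) (nat_lit 6) (nat_lit 112074297216027568118) (ZL.cons (nat_lit 53656) (nat_lit 6) (nat_lit 112126210083661924972) (ZL.cons (nat_lit 53732) (nat_lit 6) (nat_lit 112204104831599849826) (ZL.cons (nat_lit 53808) (nat_lit 6) (nat_lit 112308012006801318336) (ZL.cons (nat_lit 53884) (nat_lit 6) (nat_lit 112437972357178174218) (ZL.cons (nat_lit 53960) (nat_lit 6) (nat_lit 112276382996409624352) (ZL.cons (nat_lit 54036) (nat_lit 6) (nat_lit 112147187484306256480) (ZL.cons (nat_lit 54112) (nat_lit 6) (nat_lit 112050335155961363398) (ZL.cons (nat_lit 54188) (nat_lit 6) (nat_lit 111985788030069711814) (ZL.cons (nat_lit 54264) (nat_lit 6) (nat_lit 111953520794032912844) (ZL.cons (nat_lit 54340) (nat_lit 3) (nat_lit 55902046990135606222) (ZL.cons (nat_lit 54416) (nat_lit 6) (nat_lit 111817198124936785898) (ZL.cons (nat_lit 54492) (nat_lit 6) (nat_lit 111856515697813767270) (ZL.cons (nat_lit 54568)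 (nat_lit 6) (nat_lit 111922062117558186746) (ZL.cons (nat_lit 54644) (nat_lit 6) (nat_lit 112013863088648375474) (ZL.cons (nat_lit 54720) (nat_lit 6) (nat_lit 112131954611465153138) (ZL.cons (nat_lit 54796) (nat_lit 6) (nat_lit 111988001704102817624) (ZL.cons (nat_lit 54872) (nat_lit 6) (nat_lit 111876096832593777548) (ZL.cons (nat_lit 54948) (nat_lit 6) (nat_lit 111796196112674696030) (ZL.cons (nat_lit 55024) (nat_lit 6) (nat_lit 111748268210729918528) (ZL.cons (nat_lit 55100) (nat_lit 3) (nat_lit 55866147165751890212) (ZL.cons (nat_lit 55176) (nat_lit 6) (nat_lit 111590582687904741026) (ZL.cons (nat_lit 55252) (nat_lit 6) (nat_lit 111617053060129199402) (ZL.cons (nat_lit 55328) (nat_lit 6) (nat_lit 111670004185116243396) (ZL.cons (nat_lit 55404) (nat_lit 6) (nat_lit 111749456828012926746) (ZL.cons (nat_lit 55480) (nat_lit 6) (nat_lit 111855442146718424628) (ZL.cons (nat_lit 55556) (nat_lit 6) (nat_lit 111728779879950416910) (ZL.cons (nat_lit 55632) (nat_lit 6) (nat_lit 111633826616867188398)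 (ZL.cons (nat_lit 55708) (nat_lit 6) (nat_lit 111570545120894980962) (ZL.cons (nat_lit 55784) (nat_lit 6) (nat_lit 111538910575760864326) (ZL.cons (nat_lit 55860) (nat_lit 3) (nat_lit 55697181018066298702) (ZL.cons (nat_lit 55936) (nat_lit 6) (nat_lit 111407728263691482326) (ZL.cons (nat_lit 56012) (nat_lit 6) (nat_lit 111447832188026003324) (ZL.cons (nat_lit 56088) (nat_lit 6) (nat_lit 111514689536165311192) (ZL.cons (nat_lit 56164) (nat_lit 6) (nat_lit 111608326526677303696) (ZL.cons (nat_lit 56240) (nat_lit 6) (nat_lit 111498615868335107542) (ZL.cons (nat_lit 56316) (nat_lit 6) (nat_lit 111420281829198753112) (ZL.cons (nat_lit 56392) (nat_lit 6) (nat_lit 111373293690037206542) (ZL.cons (nat_lit 56468) (nat_lit 3) (nat_lit 55678816512064614005) (ZL.cons (nat_lit 56544) (nat_lit 6) (nat_lit 111228459220345150268) (ZL.cons (nat_lit 56620) (nat_lit 6) (nat_lit 111255459000014097812) (ZL.cons (nat_lit 56696) (nat_lit 6) (nat_lit 111309469147500882684) (ZL.cons (nat_lit 56772)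 (nat_lit 6) (nat_lit 111390510843255499706) (ZL.cons (nat_lit 56848) (nat_lit 6) (nat_lit 111297419408860177634) (ZL.cons (nat_lit 56924) (nat_lit 6) (nat_lit 111235378726534484070) (ZL.cons (nat_lit 57000) (nat_lit 6) (nat_lit 111204364466599075604) (ZL.cons (nat_lit 57076) (nat_lit 3) (nat_lit 55539587814252288607) (ZL.cons (nat_lit 57152) (nat_lit 6) (nat_lit 111092809180614639836) (ZL.cons (nat_lit 57228) (nat_lit 6) (nat_lit 111133715183435851254) (ZL.cons (nat_lit 57304) (nat_lit 6) (nat_lit 111201909678537945280) (ZL.cons (nat_lit 57380) (nat_lit 6) (nat_lit 111125111600953284074) (ZL.cons (nat_lit 57456) (nat_lit 6) (nat_lit 111079044797853728614) (ZL.cons (nat_lit 57532) (nat_lit 3) (nat_lit 55531845601913149340) (ZL.cons (nat_lit 57608) (nat_lit 6) (nat_lit 110959818945584727648) (ZL.cons (nat_lit 57684) (nat_lit 6) (nat_lit 110987358720847054144) (ZL.cons (nat_lit 57760) (nat_lit 6) (nat_lit 111042449071283574716) (ZL.cons (nat_lit 57836) (nat_lit 6) (nat_lit 110981624872925051614)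 (ZL.cons (nat_lit 57912) (nat_lit 6) (nat_lit 110951218735733474686) (ZL.cons (nat_lit 57988) (nat_lit 3) (nat_lit 55428218070945508093) (ZL.cons (nat_lit 58064) (nat_lit 6) (nat_lit 110870342365043280060) (ZL.cons (nat_lit 58140) (nat_lit 6) (nat_lit 110912066487920915710) (ZL.cons (nat_lit 58216) (nat_lit 6) (nat_lit 110866902955470371140) (ZL.cons (nat_lit 58292) (nat_lit 3) (nat_lit 55425925206153112073) (ZL.cons (nat_lit 58368) (nat_lit 6) (nat_lit 110782620227257547130) (ZL.cons (nat_lit 58444) (nat_lit 6) (nat_lit 110810710798025120158) (ZL.cons (nat_lit 58520) (nat_lit 6) (nat_lit 110780900859602005522) (ZL.cons (nat_lit 58596) (nat_lit 3) (nat_lit 55362078953325754004) (ZL.cons (nat_lit 58672) (nat_lit 6) (nat_lit 110738342254266817162) (ZL.cons (nat_lit 58748) (nat_lit 3) (nat_lit 55361792429503924760) (ZL.cons (nat_lit 58824) (nat_lit 6) (nat_lit 110694932476824925034) (ZL.cons (nat_lit 58900) (nat_lit 1) (nat_lit 18446744073709551617) ZL.nil)))))))))))))))))))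))))))))))))))))))))))))))))))))))))))))))))))))))))))))))))))))))))))))))))))))))))))))))))))))))))))))))))))))))))))))))))))))))))))))))))))))))))))))))))))))))))))))))))))))))))))))))))))))))))))))))))))))))))))))))))))))))))))))))))))))))))))))))))))))))))))))))))))))))))))))))))))))))))))))))))))))))))))))))))))))))))))))))))))))))))))))))))))))))))))))))))))))))))))))))))))))))))))))))))))))))))))))))))))))))))))))))))))))))))))))))))))))))))))))))))))))))))))))))))))))))))))))))))))))))))))))))))))))))))))))))))))))))))))))))))))))))))))))))))))))))))))))))))))))))))))))))))))))))))))))))))))))))))))))))))))))))))))))))))))))))))))))))))))))))))))))))))))))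

noncomputable def vl : XL := ⟨(nat_lit 0), (nat_lit 76), (nat_lit 19290609), (nat_lit 152), (nat_lit 253496363), (nat_lit 76), (nat_lit 19290609), (nat_lit 1), (nat_lit 5), (nat_lit 2), (nat_lit 4), (nat_lit 1), (nat_lit 4), (nat_lit 0), (nat_lit 0), (nat_lit 0)⟩

noncomputable def cp0 : Nat := (nat_lit 31614234140190408875184552074946557729082896846475129535193258188654724144693330643756399875269962192722937759348105130097444157670943857002400967498883013876411970231207390265746685665751387033973667740413758684097506432036530925731797237846564947605776048150524634765605352430639688619703395966356100321564463785073036305654067516941183989174266673207074628195285226708172015437241918321345568256658127448901561644306776563217923864631595567356836312795484517302620103110389133093513958830262809021445964282527700618231374468659704283641190157236931213359639429532292078352901715190165994814876593413231452998307744368487898283500846303347137738943104662407932679037712313502778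761343518985330538141605025502215882072636555743422385345917791549901292311776363854810511841454943522792307166734443956256826013421603123379039187022061749342741866493763841582004096657803297680462127268973045855813753545021644574153529846785492654239226801052204773148094503963710191556013314113864318817982171143329181928411958789313919551732807223783624835200196363870368163327916457041317499615260325551322128030736969899123544236410510564526661991081027137073481184777630228070122960339756684339550691656664255712198426425529881508887293532086789849715630220306774394246830384948665545524109021247306893161682805948350029278416764178428749612732435205148328799790343335860440276109695972554396284699808276362581174379787042742159490192361110820577760992351270610905274101900538838401646800171264039057667679162501971631105901149732172450883043727804915528503750510512456578479168366686006651072676745518496413499288080518282961007179025500399391486717968032601516510316557079032879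351913382311272317030813717808410254368075982690893928034874214479906308082898337756244833341190840170171060967665361086300332025689166537333843590981723188470743732122432611818610269338161271536889261745183811041744481395749319730412744213314799543156290751015503249630321519403588798220395561868010775129174604469992555472919584600469251753647334121910260599280099909589804790157311531272514704711890014474076871061382033600793154160874110795932537109252245948300675814052543707073982272072415520017640737289666866982178023328060490603585415080183051516223691012712660173191623654822870502315692783758953562351112480811775455471302229017045127327032684100057844425514993701655093508488615065371761427866318613679080150826458261852899985446655090419566920925250011668163960849492337771481312186065060198486690764632772300716194919928870569184754083815519387749145859169051629920223309375538563192455426151705725537362484923166075811752652142485167288614579716212106830714810955934696657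500825861442532294616681724660513610571803519943378771370639564580921779591158380612195226149414955059364714451102078418504579573665608865987329245895869254377238439499193798038809115149815792028991716464703152572351276534955100085915796299512744818300486885387670607709407750770912362649081579592874087416826597201211550019791634257674601871976809980649455032224459097871259127062097776865154259112343315799728417185135651008622249049561431644712475250937115448221399220635365627324623775327441815967498490328521082603585652880914247052993355014348325469895436288907751873391065113200497795575390081543049327813311605772658401144767357345240236806384233133374819492033269359362517274098572157189808538872280783434659139474706808974661287270817029219297287377215454527224184879303771248677724240977078278651653727049162081870431343348260592204939382687536559378878862257477718180258965882043479530257229273466084212425627239357597606547950525924804777539787447872967418790350072363028474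363571093066248050904128924397124719548363280234752002100389530941742646319329041658600253669199494712204033049702250722407094486474553617538414713768595573431187045727518292311438957545616979729551131042908326548319033727406378973294826512344972528637142900541526590387100761161258605176658598432209629966225595043469293625357974542719026677480392350087027708922324915109514965203067656591526169035947403615765087187881983863138632754870608727694537324501040319258169391648998103908915531550312413623629747542095857815106852635530523129262639413867997945279878505648956517417806205210096624027562016203140188100739898737679556481141293566768179728840716780681220592363606885060650225883263205765422902841455220289694890218678450220728391317076410902631873857535887372309628447274292300872695199532335086082243538148682640386291401749175091823692381404526147890732880751140805372299678760567997394485097480863446444070800956703646003283946117424770082689110881226756374121229317796751843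573338349732292790760655908001033718899802635306445641265775515843213641568121271205843363027691039073249063258167413516498036720968438787404228567170989526341601557021890883064037503066164767468251020113379978554494559060393001272171471225623212130827365971030769900164651241258379998416440264591065287970238274318003005973427053818180031326470335999584091007427423437712984867348239762980952463461370679376866202601442832794241802845362116556767818117536206764182276271055271079544098423181244373929043208551715847846349964429670917152461738227375254209552600827905391876453491388154198930808548941687793353962783996517269210513209519345303270368964427883106927414176697603824443206362210314773194451690920083478878771083034664223271884670574802475423269513614027692428487438749792170086067552055781615399813997480598028000918916109893139650643444838697377847316890057622782626607834202581073147266532274285640472649171515016570584296722072492937807002328676345880646739529485849835091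913967506838005404590963804175912922545881377701664647771056876920219185005559968933198255535862320393090945491743190682312980054786178668226722305814867813170815227015004290972486004675775927742269467829787228816710598351361386982663890765739363626895616589249647062972780276395728277812166796508876037304584528853511531755085045260155463720542372181147189158432112042964153281248870395004791856090872877332012666647453148964442003346087726924654609325770887221323089135695566503712710382759773318671945656739967266757010515740530021427066306110526860586618058424543153718863716264166095483059856929275569330581856277605129520053836409409463291344024883625462767667496077668073239459806592224350153960988260488114035234039968777120641565813221795172157628725815160551203768340255666187205610989401126428840613333843860582315370533380205809936641654427854947671306482686101622706774435693171089453769749622016725908504984386779927645130895932784447177184956989532123190630540568796818899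346798549632842058674055760607047869086483327450723073182375252363146881075571101009155254850170142627047182540955042255314742054618798113839487409948403453849012290452571154916503932804058885262996183828813993670295157386317890971170632626393776925848313972658003842012001366281519646545705208261938199809066704860160995778691873274847346305161298444644590944980500508006723699734060746949593197683762503330595143719109593531277994012257734017072955587249734348307199552729254448274174620271552311587216354779175613382867376767554833039184540159662388320205791260548645646375992530079613536735388679868488259973173712913410772940488521940723060439364135009864943822020569237166641148080807157031407521173626544034173518664666416664809979941029992714583626047854450893986929240346707955198625503266867217304983371257643400134249665630563845472291436934437428040534505631438554723426802825950604750768259418605287377324832106685102095592997633013608629235930522144018138907924621112598556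691303193475116711350405231181227434298323736281070549410242594082559005837027302379764514738268651329509173184669271383569341225880667580061271876439690933249239449158594463276531516830409273571081311379055205439925134947304258660184611024256084828680105279547522210395850774775793694939396628316615649661290531621215246699521130335231456824759576975686427181201439718965028768289212712989534528660989096137317722673712026067212411193149918849984814069675220694306733445885012785855263107006612648420580390199091301686132288801898265101358601629586022980112863236900299271572101184516562858041313657106834584265510754586530558851405162652612105619541443393227821549635001496017735554545157541435889394934127149578075012405878928059768873118458892059735587468835593690871671625653703403289030359429539618063774011516429690978956958404009102789222589301294919177018225766816217046283065819823993396517617579301216532245619126597892671231112556627487720769875310613116222508367825547800314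513943877861069212109782171812770756646148764480339793795308861513437166318999627611902800678788736155877286584506238274103484423546816363452001137687149146494415422444706401846110676042302227869419885471840687567515679407340783939849121168724402309478795490885929517390426497944528842189105977638677667257517166772898907668219709783181544169974385676696755081493438156215157176097549658042640926886150201617859902253559162922718635638311570015520028386997952927169006004668355577933127660080673881268058723732751607292014662109672459319950400678095805049111704040086694586819014531426712186642451227639266908444245532256936100819519568814964899309036729545855765850194140251176325329363169363621792612553072857502214257186651763577033099346665179685364557293362644375454162341383594630906466133626343059828391817877664839203352646480950753401130370697822165331956104924692741444969939121581117508088399223821610406395771611935292707260590963245488564003684793327801903693882232625612182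789953080684736022092968372850661307062014434220215826086584045430940786242838003607113202731655436897473547939632768378160550570023984631542771237155374024265856254705190459652954962872666598414212132488440919598657730183689335944997218145064550492842197824778392087917546794852611704123102325914071885464582849733746130397744718705845543785258947474016447130179591251620122665639266855165347835589103054756445795146201172920768462865142994859745832008086207061768359345605587453364601576263196469515083846426467610662557367250794223199689172008655779947618900675734874319267314087158661361915878320492435881322775168965484173163764796208419619042633684037147093412983702491884069891600449305700225982496063356044124430573595445240994239664618630671388316538518036424958578545626405253754254109083678389735885530951205724434039355196771933914797573023194209281160297488558883896745822900456291357620389767379940816228562559102942806338340262684199500655984600629418225059874191585516283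249416923588133164321545235893376063571019929252232398596141055403505186606628810137598390802971805131828205355976977388891108897006664952902843371181657293324935723921024103468697851233520718425193864097076205189579600544014610012943437789838382140605233235582183826660392053983766774501774512689994108743288667473412962551248765704976909822897121280149666865149549492444687945291565003949520113433841093036846529164917821348131706912673286970485957574304765034316141513819454976537577083323269860208575805722588894495373771780212582516893403761400538295766834653325597663893537040928736031834924322606817271686626661957031588458399929597341638878472936394334097831813085259791924228995247276776156521051200124415933201767366521215538232345958886200931746192281795170996785571117544305852415600191744105801911885741476516948370067610340111260292899293242242853059164100720643269037377537914212424050630331353906627983684971067756706522318466989198594548725587165277216702036984393105135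912636161487638956820578539214529159361623946639742141641505072116810128391612452801344581959065851760941199137770539959305831479625234266254440646568331566418327322804285184247340823449622999376338457647218237488742047451388553525438769142061783413054224719876431492247844752201211716235075846446899889402680917313515828787905890380013719197425430894919586725348667408287987849446375583427713110696927570942278497262287644032567181771365528535947124103806465232912118806373647980641428809791557475613406244442416536559004031923324880263726026144889976642677682704709895180075271960811736814007968911515945869384195027724553870297927577561748038115102413465325671362082608440302506147697119282048962077367862615942656094670814052452732632388507120340715269177772289539949664373782899247510736341269863952681194181707516558075959528047298805274223114691486113018234936505247047906832063608514639302217484462272552141620141610582470858629048020994970289258528266225038383078809186840510058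595296462432058477420698250622150923942887665816917569699611356786933495090482557794566680723498656204455199433264510570627881285787710653314375254804593594193782403454860435063437977935213010913636360863323850372956696546594308685325183929091365352078922323696850039771917599650039455448566058465551617982124380048953485642137787844847437127295207298622510818513607445114452336175690982299010214101205778285172955075734419825789250370490657285984726110025534001114841522684902159451607882599545332164258428492022316895934485130809012190999230114864286707996260048655614402887587960165573422709930841230990510819867354380534221925480266578321790852671814799638630346945579439526415081518956386420086705570973443563822175061875105830379704171442366834943925373828805395263014631102602209899014845376872602059212942371728249698440655112501271105489780456672520712368602736268737116143625608110296345056332205734366788682541746086396903356952074308391989450649005526325390911301996031979545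267670940925083946299109574091711160451077651468143484166856307807165878561765111874708527469613056925945971992094371955939129557164148215718755590244828106646596774659722767740868391983406207720448462110176899298296235911042015101096069543183755397155828446773014743182799291848753001279204435243957795512340020646086214298801476606014980664671282388462629231131265970250795998083054553964763174015763794513940427102255322155505343723496839924800516048596742430298534805084265011808022956151067394333067591697242911631099698044881033372087113893007520330886808000238376823446678047566778516769517205981786111405647851986383953858394448980033242552451520799407097529489726667188779653292236853627404979510869464571771866181358553134534151316168744206164872062809270633818613223377372643388783481816682106610840424758451976729133371220227891480997982663413390864616134145682907237822026044594912236401378018439150498150067965139556894365615981314751477904627224949234102147900233822135413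868001610378489311048060794173115636436396042647418658139618225029005702544950446787234265314496876972668323750027393787674332214131840881859213687125153542435868400361715836668675079849354081836826091043797631510031253457000452370054221684796044112726767998795470022049013768920105393997948122327727410262083478319145523996521234797130191680627894201343126439431974506850095715582338170776585135922698616224401971805909087779233282164808952815302518460067366467163297322582635834930441508369038189233977736122053212953718360928238298420099924690274989079839725454732322935694570642170119148818289986133569141505378665124263099369544348009285616663109039997988919897990454121953184880542062457635536622774158525567556644941881094792442182539617039193197713632046153827665706984846148743986704184614005806499445768627518802054496011313785389111378235877852380892936232524242136424210650911335725858306697563424803455763674589182890632911010677047359600367407161980772592484016658767530003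169092873548766028548406496355049304529021253402783045715906638079019836150871136764177443710159422205441427062105986847192934135504602221846276333252117507524226423263023252861512195671056971720982887435319012736672227053014380159087346486063241488613535581072239579508663442916864373817571675917717646293150573138697400572518492798734029720715497443798485074822600197791373405576580083453561211104943535982347256659755303037510891713051897041159955710158588973362159688174767845425842741254493338418810890860297164054261304708097740364939556299132225399669962425986270469596249673367913067302584734907894556541972615543292967620074370419965984340064896996196292830903264733899129856276394511332597000068960489566405879857688515370693690736942568681081295184084194709319812410821747117236123246380581372940463624794824993583108546048997613103681160431325300850097112122463447958693580771219526304907007621802327980283017474501270395848962781604992469240292296883040625820170494874808046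173148413633398415851055836283168950937737908667096457340217604010312382529298477572349436803496844998598556679538143919629377610948384765913456632828348346932450002677878145523862424901563771931431982834316348953512704786100855880701657868816117701136919825243757062367199719241809372820691751680336433880539376736506495333948174160374620463138318129588318576079257386943787365280238809435816836574887797405605367025307939801470988586436398368302781760727980972200653814379356412410203220009434622207679729342072994165514679842391358819861162437447864201586108931235510499418051429618273671610596148346885043605741350256047093357659778425416531001018283612746176918771779677584227160926810592080341478327614414088174713425753579380774498068601218115091921615106186642711866786285587539694139909342780159362153606018797354343594677505809125354440531895908902134860862991048284546475124980763763216135643559308569172299562777799680960857362687688613743911808589048460319700530203493707113945170721041151496284723169220651220352921802751312477571687080094213353976785843544722555294340992060551156701363664080087869058582363250580749048398798387138020154186129678930799276875195067655885026903785958405779689732701297792592768331452311981585620581728396190128250279524386616639488)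

noncomputable def cp1 : Nat := (nat_lit 332890955816969157839629748802734731582607501410016458231887711983913185324871462003510331873293633103659175628677425193624642743003903654139091349198818763716829411351171041261936055659273557467557935055139198494128161510535497821269701095250906064875979338717593655706389158745555832286810823775790752125394761036290330638071626616480995263674510510313646740129425524758156308995718277469298515198055891313194670864822020183906089665980832840006152574687461348700189788322738771249346412079976578677098261599461157792775473033529058888132918674199045138223845839322962170025361538175567348215769007131644325598718074807390152626007337415452586107702116098833199696814064950230629581445126954918991371889774145770666696110955441540369945478977929451384643148654286737941528590821131777411750915865089202581305988838936816306884984333218016889514400068547388426107095325947119751535579370730105727491076629788549093529951372114977888475640242712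405207313036664513514357403595083800532749783113448127526821352066562808396743825904809238295222281352893570575191751840553790734342764270185999494215511714574400470207123422165782130122920275223497471311683019424560805087063108433852195125680718107803982216994739787498307346402660815458532333604834888477796654434215186315306590096416696525147560021909906791414025291006428119101599529484480583175672047065683397223824060467287305666584564290361115616683306336861991777334333047659318449597725531405556058657819546820436982107710239728736664633622883817646856356548430424109093531750185890874074036350878936937515922560940970568863552761508604662790838011563599238704812153651884323698616330284219216665760828029870301558857506687014114825353375138573574841755527304838594523930980866466756172346301314202610555635821210925366657815041005413042375803643803058005124370861006966433441510034344619328472786509339727992032817886848840788919360306314725126977779832277098199245259069913176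336464022632629332203110207270413949413140999373524620276075899746052312406920973071611224600184677639250809484154319984920671037270432805435338317083302298390652374149317036081368450338524485132543230922371954562556651188053844363450208823243933768164372441382115433084173058545708185565673843309567581859248721961425068653367512298969744146820190049365671230944008100909314886231112980880389180944677153734050230873467890436720953864450203980211112408847001565399008237947039722159781580145658113108503086602398874506294805967309725828095759611443467431503242926861512980411025880545327511727584482952088934206109272762864034254324625543529169953199414823690869408649242071547149235312757012673893401493873733029004361554942031559080204607240250964841874209067934987240940168616254275587989903685398263001814440254438915485798562918504973516318165186458288630929951193385864554881987632993453091532064283082736292110270454877037918087307710099416674294378619556221403048859059883866587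480929315062451199272997183564930472979004120477995939646640053945686254685123454916209283495891697533715452658922247729008624939315357939126949531996084133205900519540107444994247766881043779898116647130038126594069285091506596139425679058605614375518772887963745594012586536115571808241501264320984500323778842902255357144829713036918311566977143311124796795146088327720683997334170860489964010935778931303916544022633776837372598175198413985323922449854058316282644135531656707139101580105459874371831768859024632356439547226261541536172970354994532394672745161681012355839519133414820173804211895355343873200444332550470315152772090141459097983255029972351585248747403957873588385369516727900843026912391538032843220624090752650774771687774624527098124166085028982334298166001834534318443489707313079979878516019958121737090232230532092649385184502570481332218862321896070880518964039847858061098772737581015137440388471952665379244838535981662839468715669587318174340027086563520821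763347810323977878548954214809175753118370150962915135224918684347009783183813684845929320873085988395603817056752758541328386896475258219911630938379246117554533419363566448485978590320400698410110344998958835584944293377571291410396255149602353685377354974967030850174337147645393000919933965895863504232764953605684360371778523803255727829387075539026544933551570325813263996614865837722355367510523317183923582666743458940080563963521722348122404961050105432222113192978689296149880847013736505138226981360644825792150255830895038616489476846220927065668452593430739247496685953812810624803219157095259164310503660013784186916536085928776338945689782806852325479024079026878439465310141590194993626327993844257314244178255234849504860596463100189016226775320422197859153587286292482970330878798971182653797056339051106071167519044680056951737486309741436428482388571492094113433192000537268457970566739190203274990699555556060266618374232426676334993253226874378467049447584784031594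229544148492016495221912500733615507457495917733184320896734916165434345311237994719021391612446200428059167548259056105607295842880921671694101116917018583176144504024170445666585742216729866544017259669501231107469443872386947495886941940050451594171792828630896566499650910581736540091552711600264212996250626176290990201951385404659948592047145766254119433563109125523884186680396275058494164050866898682026486345340587087356444221590894954266505224329812193794369569042443600276138071900143561664764316050711614187641062197559725562280285790561987104961668172054704826766010174622400718016424229184026995185396193274669837111912512128645036926193115705818522839968156191364104688925476959642755042678257856240432272413846992098677142752208654587305408526802839042546179689887251012636535079521874181555375949086220240778944868139821333866765068707992412636927790081821354234826588338384718889632609312193260959762413507893810086061861188589820897828496687131796947023219205618503097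828069911803360028514385910615613299540246888618911414558315896881572057323799453865454373355044476255349401125904089926014352352990839780503820095637555503959225504888081800665570087384628577447784807748501271408200820671290670150655889893819501542684640411622284339347858924973983433298463922076118528540272407435826146881623314509029476673738203587799038923802698605048354890184837689983786837667997792325583727346593681109804564374556576653544372893001473337038931049710339767488875579672887466252626900594733797620295802752910970808029714607442430732102610090772997662070518080440690553928779203737710339941307724381916569860917395582221719194857665027597761300326577174305861635175851741357789844719307059310367365186603652871017557211077385344197991654058830987913213716783970027217354857194547217194299715493313333061461720940062645342126129467409412556317491038791604269943799271132036517205831620941862848195835659805476401163986373292944935379901913432243375096138072466776403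644866331889296583161069873912725681439819198502626512585419709656181781106905964855958015652263955529227435035334968505371730035213053712649914604070428301450542957380698507149454527870846630787627846611316061612656952639214070949719622298031019481919682149049522726867066472791354642934070877606609833617856629972835476525509783368834622374963595106323995252599503069109524943447471395842739787832325136646731632490677822788757810188938750467219138737386207676725299124244993432476255442394647153345025612662199691157052944555539835975096437060515249504833858822676773982780648314308745544675091214724470884433115551120001923321726623899343264447084505033872148660558913428855398535902496423455936389926000981331258889404683110959059619880453189103546935231767322328151270896569776974991101653181134079303405623556083553622866866149512531932862500558011814441126871276802076893440427296222205543626360231897069823057325435663671932870061874957589728721972319175600528962366655537991804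596731141350616126625626164324867933913414055296297497463710804223537865160197555674319802645634971333985350282234678665564002378564340708354816678619287334922033667767031145850903188074785679717979761955081426950284878811462149902688173935659404962148411004344376400265975976793338760572976841812794956606597417384419186300333327354747896213874968534407485625203038671359785899588848534419127731050063951771628991399376910055669048703918987283678143302278325124686825630487816056180577347079674815390587838280046219735921256973414630622735645093813434976864760990894049338437849757913253068806925208615565024887252926166270597968921517663897754585454016974213950003389622590136961214830596118005033503362647923383249301174051134246885186387505896686114746839159424585955019634129473616662333673380965615009583819301508599219035582472342665332243527482871475784430607809259471679222169285304136764546492857881656586799548612489195693788701637775773461664304273350603610297896123144432224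373111060753915428868191349233361585956228621139022483440804984133131997731952266722840318950839881224305191058453532169160523847991134973036968982816578539821112902917285896587614874999645751293599299158845930004296899801344287206211853367525129043160683184613647523345377393571343499580514798043704736539438913541709753320106941393379966439761186852984225406888623076725678612964088530411862334796172370287005671376090314487976455269100394067159946618512313968546116822462258741309191605860844145432823638339671182699422790777142085641418582526430334054976192329915722032873292708400481703417009454188252631333744357099498434583938944807815037723087643716715581287981688871800529298695325710460412210407052173946710333868484844924873025961965762317531910296673123585756830217409719446239488092584359817829623218684604683110733762759676387576305357105536026502160972839335850452453836778679775712651431063317880206593723366613725509017064506778486175482348838998482551605178416390064452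490856127374928470413435462676670261231455297679523794981291710969245135207144199090745336227116626055630369353165215773179597367388830521646148648493772014182398842395294401557322041942808812557634866420475099020506260595964423994332295969829905847927170930461973723181272970342341948537984164557562542788162204526397837201662697017355604788445701921654474211835124475087620501192883396153152760897594131299675542378458862694319422810631485098984244419350464503320758695340324216967271898022001955738117603319071480168215639748912225772109246599853491550418547539905218233519108815758364093453594331491659993217217885470082012544550599768929178908317767832823589490782161233170310949536216474680016694588988305499929378210104724338689856335340434825318943343532190700352845853631511459856587937751642286499330998651960910080921299065940961614239762248914920566117543121647362249347861891121864863779847991631550405292241011652109640409884342968365066603550166018327959788136534427381363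456226741065212278985964334362758329984324605073358226015071468223855657808927459704514224619581161529141260292467812452796767615244010907850057665317514200223999865289969141040127632336249010019566791078762364091112058303886606131053896711484725853996695388022111668314550343885866375859091272634679707407280894743078794678210425157227026762813046510199139626483957619454656310794856772276699140854117687530681421482690023406996232480270183945762184772672200629733353755328709626093069770223491760783767398392467735977894532252221268700902594537706431445221147115642525206437698086608635810790586316251672527165543273464780917246456530238146669445615205021054673337240739431094372316406071390300292175659218790999259221791927963583538426643154020336146785623738931382159787465014434354000082675372130203518783261060201260703339518924607445522926786659026490794536946434734873683232306105882690130476615506288574036696829717581640833575077273983232308150490313093609835330391401928591502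482061928375587368427820080725773262664326178238570220671862177731683634385111236136555412389837319585275970326411832519765759409775342178262702602510983491466019850587766676226757695031904944750015220110320789158038769443371886363047687380142849548843408632269282971256082290794954995285625851416588471236857191040605366297879540981116634038255294786067416060015618306352058964622879166082598766275136861275907118209505965278717693890453151127174697591570831051046222936798485260552683507192308761317537442678631056820895236925555223889152769745541160198400959328689978728176196421044530209209236925564140336071044619021456811028838631711604615138502334246001248804059474406752406430045545519601475288529240437390711408609951362290263479679379013141693676868251308482938728836247968453897661573323997343905349284117996600098729200237920503533674459166440643680213144314151230230777160924801329695266306577532019718424263687593654203870042749287320949016932075243036303419422998402664835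716932957226292919088844286571713906331609209730195425064722369879346475559743259328514043348181077794550740609634785908143691532932928626219550156009728174871159081560544471021422460209146372446674041112345044004364304068072530817999662727966040192108120221349492827286629509291083809854601500951239508072488334777564140037680237362898259829916357904879691721704639584430289166497500126501535226526174981023918633317883239354419980678877777226522675251036052847836727951126970732936340439278183171252813195795055905393683620641043315189171294724210995525607127059331722967236846598669476556264179068955178970009943550326043688912359378318523273782190210407831402479844176501899677647084376307603503921892798516130300214802780396895292261424842280953012202255093691436482829934816106545273690876572524030434235048636566966446596240368687117533065144045252877257301785679761002010204043504621496809843313740177671498010481386686199106049478648511758918951382378214584616800820505082862050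465717143477024443607268444303749352156020200409687196754751246558885609831790489984296228291694867816489758944309773797261036618487626250351968933303571149310563373510100913816116936943078968903112528688924865655776897065417395264075489891303389722688156750146523579662135472785349254673074588455619190308833378326387701645393178208385228480559112965910238916553350651697092464079680271327714030358869016230309630679081393656646930810573222063754252708527359942632804388963243654346814313750995144751781376649914870136015463790988484815491117715165305713537242862486782265131749122852300188278909714539196480331045792069635251657133411879940347232751570245293030242147772287716509101004540147901990602563266303474980905090981659609480696173774742212811223939842816595567195714628975459476313025851710850249534776599469978371358885626885220024747362641227706556825242716582626151089003976936906474296766894804947588579452172357253117827734721372671330117623385989013299861130849895654168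501277592996888002984791479216744512728341209000351021266634276858519300846625522982180799953522821662685161697105738272469213038473818878508460957691616825481405753630697064802745304471159497470880235366311454944852733954921316681535677354729346779225290985345231902103038927588831301521389973847623400873759871033595525190781889970435044244265212483547927804589631601041145876589119686046197212657045656184634076142950686374472066913830595417502505215677298761894944514489491102402758925013145086923168719985649560549278860322871573367962261995964203636135506290731988478670674392455023912904852676875247585265962588363850782385071638355747483718854901374757854937763285536785207504481247175621196435536398416803104198784296663331761955230603045787274728595889974839742315199593165825792547295787542872449567872465797954802924827791731318477369592406742183180322887396809157315683971717267365671385935646541730574553525042630475782171093868113670369389777603771812316647950715085084805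937689908027562328998017526916159569134718297164449641685341850811807124912484484635513536542258082985383026575869055521435452671582908880657697976073461266997629053713742801846011215868705740922454413097782447803020879585793868957410495161821522401587320052427002031026841646947642605384806200193283005773602531077207063105569767711985699172913001923569964606295419586516210073086194636981497785731710554455303936276318146914352420439350374196109857723355717632828849685512496804745378639676012316216943711791422494824303853552231181504589815583795834971431547363354032868129927178236840670659895238783028530182793679407182419507759720524239286293131983944887180896305017403849348724938331164805335915138310709175928055951057494063714652230730609724301339861956188830831335637278609532045503044294903255932028207401193213711329408535064780844719957919336114940994576477334134098478946259987804384953105012244090501889685986431877447857457733910030891680615237486055348279698355146406648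80700870419199265313942560215219391210673584132306287707768284118732037757087156559157570797799555492480786518775992603512129640362190638530709721271063429942876402186127589148802202170705759623700167219520986036588803878544684580214881570125318452886956392958516832929858841838881511680527624202731216547966821888105537011666735826418334616435427824822209786601620159830166483809872132473718189179051855250789211566715004455132629702228028291188010510073392099257537591012041751739871105141673808547681655686777767787042346976354084014069068300753471010982915695798229206621215118657395769138692229697913823252923122737555279442396706654784269473587935544178704175227483144870668459776411753924186514169750569641253875975797424261053318457683298684005124493185396320328074369622849226556106452690552511149830182130728122918096185808949598539818785364773760278300949828819907167823946723788265867750979080902725994561585659423204073610603995111921825543495239998059634024834832442171695628954907484354769619779584)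

noncomputable def rc0 : Nat := (nat_lit 316670083831298911085981866203202762302586971506046870496492554769823184207648185202938521232544520802072852720160641455072302652266698346853010469085262481447962043385610933084658781554032720537925907330226131902589119921252704234616297157901708029429835043537571784445894546394137363461263248027558838138566545706286261875494772993083593543905723158088682410139018374969292951352165682399312664707459332333888768333351491969260272710532319642221559509173954471691002497088796383001242230893327576879417725805428067941820869077520957845590141448720363682642455040915289576298098452255799559419105767100779504411836661146752348900455465018096416124985731301916276991941041024973644599820711487136351219558070665454866167512244870671702123570903638004528453064163455763927389069353474434932915748809151621408872200089377768277102719235112284843696195081348854373433637728488502643379142603497379432154475787865878918247469218339888888049151785715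993820477970497136712938694310157502479437579163760004566768127267053432896959288002513308736999907406063415243087893357536287246676368195692761525112545716709645447274766245200027916367646212898073430230288650528342602568972850887819412455989353819985842752846721090415931223132943024790647441181117380211670001686555150818376508635506890859053505807769548124361232671414224140938826701252443221664462757240583288762538867119057964430275519801381608239497877633754388688563758642742187547002457710237027537184365624261767338001613630511356656253973091856187398238887258931784685229231871541402478782263000632676523470418855344284235755260171567167552937840188142011198990170321327719406816602638257148632503795249521997019744309605042119806915077131159129004064660097118983961719850795419320462788497069514828975919739845233270182712533105774798393569158273493630655271049320614644617663446539780188578985142299541537592745749680241478923327740709268209119582972283777151284924566427608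227765284814742783025090135749551324121422678140729124294763928886643957342542583901578507648015521136176335676451996118665253644213222560638407396570459307871584925286357384701474561240443518099093003639203469456841040995916398756121141711401546642225398083014834412171425317957061484474323082741217629617820352316876386723134635527338941867890247114939106791283105756074776508292701579663462831141376678385334043397251415150513374250262649799766110483663965930981052120827632195588990207974873017850257660826076170020171369816127268491567283490847854799850476053702630853645533022199877854571662549709082480574353259712965187993349284546802972905134162090982390540716021281305081890486454286844923509984549104716281247471232920945343310396128977717827884957318098416065734251677426882746049318614405742162462545323036286860521906497386580723384658430882416131623538520158870208879767792097577992804572612832566073620801369522040664763788656717527471688493771624097178283506561348715994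039544504547217518270871226963645474524511293052620399050662225927544333905625724726815836223807687678548056451135809409880947931818779466147355110534056052701047956478023430926258876889510263108577784757093233978057821560593686808722526487742312982795835460689477208069916618510440192648774099037437913475192124423699440294978816054569938260393766509762221028482187394355902081290695842673659416821297086564517779758793798365712398389338943160622103145854900944374426976227667298038973088406131143099094399251021811993231494143241519877940645645033559731638254253550371230619844130374842217417233333922251850413386353747447592901833231340676250020697253983092615449712238098691058734017963456312571261883568651058878337398714848318011940289593418036475185684891423412378713550955304552500422063776173968462797873637362752885534414157530041802319685901320149519037650845837112178830756234678217179380095067172201725949574544526831379180434114070342562012129685842562609781842320610002539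511059539362742089616030060328947952483761407049020899867055082047223434537912496362185922305036877833408463568635004197383801343572965637960202565087392409794868945059393807463056678966701412279669980294838533555457034548567770342965540226137436943845229283088177492099413200569652782310346108065487033085013775733813038216967137788432301118063568735556650129758926880427252593227545650800840609195053925001913162734091089770200948858091527117441544623958659441772636216640879873683836729877688147278640030255375383250742401346683520689153913871854064845549013291585288508963789254683186285428164847589003426630113454008846969805550599176462483857504910316035246621883597851645166803221295424315364921201232371715229505365054316796680926719827593723829019042801025670425053488143400041538659617098303363377866655388782392542804550387656210604322119399099240227838782971745046222588775641006968656162007738182496009577100888561758091316752743501876587609067794796545998232519469772110830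155940905468340666990723218954454230076947251930471646068117221007736466008422769111073598696379404288995381055299817286804146080787780835800979694588597560918179014217896504723981824039777783418179429521263881049951097552686751656305463742178834037743463805791441156454848220733411221998654211842054179664093419552344194595784296098079925427669359983533769749785617397512632101072368664334603719510983210744740493864093243766761184971005724154093260347969427224235472803062725969908494503425813995885026714416263968705626995528703797659320608509927026940096416292057071539275800971794826969622067737482942881729337827295507040151740069585451206671739383660306873216792651135151179680185013685043958107708754323299430230919941006046931403777047774227873905272895995338211026517188595026743998891450314192245784985674125097342586675812253245407041851231646219045261131907625703657298066811885094517344228803238697267184630442965276600189541555809191789808193798351692139135786542362560526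964735635974776554855378753852895316408224420973588093752939472298760476726941424578878288935112314603240691381652426623033756688201174822317044783814243031454074996683733729184925928736552062365047738870008018135852780589813487704814855655141524856977319410345758689220249847232857915763934836433193476621948781712445138430924964837477068349544749683030093432936031348126982518827666293979763067834898813626952876600365338161849045608230582303587976843159546237920624874693409254300623567276334593448138895139644740878875036317303317262155801905043116462009376322486497997480417445741626092266780759287335766055684352682396557824180227051133433620300096436049868949651131569489795915572394790530713088121957022523907416619815938285127195160321556435974699737561674558627708747032277469260019785458312649143880115949114909925648896459902978397370896836290918816179116635673554147164496664276894128713558708859371588975942992239694499574567852919274891274740703085323015044345295029674085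782383418731953280644282400646075470267306825399286457694174610031047695803978738518681555453745685410372416729490405875040751411560466059652887852041192882586515561755427975293675290303301894472593459657379757096731997552819762149874084004875220480051647454936906816555687832909431176237340978281342501729574685803402195890040498665837970449515570147837775576435635350449636214715292044073683482008364708969579542364815292221180366532380975782534876455348058366659388216896542573351301946785722272739376881076900530385898368804775564336463193779851852731926788539764322040205911947621836010827677730048907372383348011451558429105497585162080699132489936634799451475550377713893630552286688443305829209679142127256099230671321058215753531293918915791569070717915893138864559795485181570559001681383548294561520937443936058064838140553309652786009530494432178521900914426719269001678537361163953259568602470762024198950733524561824374132561694094771848661238298486702050919625620640762821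175895411163684792904204969191883014635051424018108508078899605876392047180174329104050431225714279985057108791472710429847513517334706489998434755052542369798549040840296019563420237108056677207668344173093724084374075695018469226192704041718060198146491793689017748741944911532269134108901638191952217847728109474442115643183180066391559292383472561113039009218146595366699703197785922997599466959204568325153443040832330113420340143186490690714666416349261874008892952532856880661709341130517699408795198285446294304606725591569852531458867512729983289123414078243202356286355093812651748747728666986136847492056452259138068654155134860721489009710818129814626642066058293723781719189979669614965679924337894895928457287260672044252700580568915388861128210715615845935000724859307512946101504776513553486502899194996654745266490200713825828465046161836255775989897274968587602002981047645289121534027153833288526260988228067725936408462916953021270661657271810778789147688588766350763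279045103325681109187686791987375388729572686868126069611508544571396986742321933413862674609762321778494264819556677519879253307111218522952712327773819286131851297002900954024996909330203831953613604358600567528712716905225477781570694035153834131359691965528308433659764976892530922208747950085572863244581323849993748821534294454508884422675574600463791937118732799421324163213416546354040116127723798304731077947001284887400796716664432457460779893179839868185620089215190984812057724062517005895943908674315891070863507117047385056293661187360998350955715446260101239413854326506713078569688441173167628932070577005330468881533958107414668043357857036008108619310498496413989494654105215790894135183083694762032166420418645050406933289453974956128123322798515708797070561971263092305084611305589518069189068692452588887244391690801810383045354702734574656545627913516315162347724051849674998318064579334784285219337805272822465789822220196880617148459361539423997584001943790303685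990667544297546697082791875360759809178213139744658628514081244259274464576860194077603518400492146224022604473505765866775866691633808059534766889601240019279543659353577328083579281233151018364005759978371254022510440752074519273084498516087663378895412499939881521040467438919466743321597941804174750341715703887048425893912210163968225074190048156612015043837609467378326856507963914904048308867601974032416365337073606545250625614279809102215052289549035107285328899423541934920702870647745306143189399982342896306190461970619532160571596349853840961416564718282578819931778831435306030652990940049155429152795544329819012904249125952997107629643125515906710797732447995291401290024577333762384026349067692606421276747270905253148177798506219988756390069815468117961827322898193939464654361460749318030648838763346352129595866757766944594391075148065668204550716951713855484946478446049316227419824881243108551235907807589555462779712145517058094755277213154592749469981394455843011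032792293690987795888157269304491983869992583822455092220681616732702494490456582394944557964010364085108137382122732954355965321641792180294225272882235048191891393951877817386804405150672103111514355423460305517630963052304526209150364743447420549798138133574905720148013167374688102388220228927515168753699324076718034640034699110348252786703296747450620370841530856065993956714022524661038703546971428295915717893883661284334139153395176072215975718816231904365882933823756754039958846240355632792967489407507549076212553603738836820701752573097687841779949377266862691638302727017658847803652069759796727744193352186999798407632261776069085728864876101347427271288801411854556035246931161329367679637873559510883380094724188134553830425932935372125273895705665446032897295318526966980823482090153023040699534328093436977053972741427086490715463997844094524529061427503857518773591377289735997752903164279151679978964011977194413006786567406348762958944522028335945975923784237795827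553164152378823204870883970324363471959237133732572801492486057821603961461628537232589673164691940394132783821626860236882418159606455109735804743796721600751829002351406313511719752178255573024155161448223565613935915796639737081322984386741108525274531326360880107074397237349776960066630917400065199973452022904105520167999054539987021275966499692904875388393973766976862317345230971651926721599205286317499508034837849605577494768570947520140450420983568779045084428294208491779877810590164419575342770106364153491277871175382681404621459670363534641281435382476802817456211651446784072339056720169278131456914623245037461731086991651243820275172737486886274198191652378734793254777022339505623387504904426182787630136453113547700571927105873187489003204282705017865377847584947190562861089150845455887208967417802436312768481851773740039889199264202411176133971485546107367152325230867606018424527283021058999758821700720720977784239317812557793221571671589586496501266909855762625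794723933869309428421126296618730742933248287612249544470557472979033991078819930219522365791885253175674442941968539428562392210087130628896761875959286014223288335031186115509493905892584890731005636971895250282349336218275310350085583190798220699583962571641637801833637102525578903182369400451497147991260748566491341677940022277162492876813664569767953679408147090300025762196151372048583431502539609699859053445251700338346800832742878971451179273769962955976023061382004874114026733542074436727652973314242823610254213500540851954449870051148940203622658433686264699956001790703469485203484062214994797162210454779211019115524960401389250902413654719652607699366067426058117531049144370908728317410222400883695262343098142352660929245040463435364672802627005285743153003469447465751116867844467199873001902157670154989737989674426648319407502417626646795680014156251594503193100589145037114269516718619287559659711932438605259630917803779661113967394387949926182576827119780981466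370266292390302862868995003171939649904623862601736591168798095408643621800130339120856952704501856748987242340737108248062275049994022982164590930361474567882915638949276122292291644147493795043262266728536135362992306569537786228184401810181667308773497469129629914769719669980678775314540142863840677474016082935017263465313957202386200832304296255506955670955726123160856667093280359939126941768990350183551471582172257122953881530413484262959101483079850402058130129799167034760394784113258383644565465869900526224835669402888253967274588358489127164736226287235409804050642595289284601322589098538412562615986876085645916194627621490530418484367058381537371996068713026632576042471189572003773237500507625413634191732042110295660069377711952952884152358471389066554643669843598519490978483644250433363089297713504562868571901850351831762600165808010052118566073026646483792621114769672312748855676131581111690354959589846610741541281702568336600896370039590568071499036816375309782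902073225050646113138919729316159053026174804873595096057878416998339974000020615420417889175863608376484340184099142729542993953299992068776200903133080865577144811379015626253147436883341390599332439809936792038452138718819778110884433124027113573206834654371653668225515920314469690187212185575614504406810866889533415753381003915024982826696140173965870760792507319871402683110124319994542367158537122877136857232157036886302094869769007318787574004598631201139727782989858910880278905640606510654126314049084137360669363028315174981644374328218957007828313815025097561985554389361595786301856745507007036392582381555976670355354043882964556443442217332564448247561452624101103167669391369560025988060525658749023280740027858327616033720205869966616876598925947096003078003431222934773353819665249408022801576471780124011047652023570301641343645913360591584067589373559372915872480693468580787681326584083654958535798228702803892094647001443673464600117401722355385490254062686416241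813527935431989110947414389757611219891831515390758077607741825732445218911842912886994365642819215299819201761004972031054702280437144121026176104979890469149075686335127823002318541541655764277803045430530102814505743384369645557326051267682292602051125833159925565617828849655735671814994991791058114199618693004788082827722320656279248671821826129325900163309449990905946092452821272765874518816552510595061926803651197305530607129342620648033121042564880091905979281753942843493683085207565348882703933571482003501138678988741441200413397930328910478005051794903656461490680173812243078778191619118272156726515520054087679264646953433281270657175794124579985305335137267509643544103694380989843185612933150343425273715761832235584521735470866766917204738819225658817112441338409452986204531752842419885831338414485091897342382338794281640139465554447223029643976278237565459368759731398462638756542079093415696021555794991492416016643629035901612518785420876495930496196547401841528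37651952728047698486480555781694730299646511222282235018828699752692550874691147669994846923650526590232998018782516639442880709142010813741510403879886105566060035283156971630464290409824912095633332564481112387258378729645124006698844948687809393487986183994860028148117600461561418220597383190299466234162392366921340518254609733838304798033931554097395140414583255488521051814633509868007405328273170749713047621493569227866830715723229580180862590003409713173200119473924374496283299565212816473818384174051105784261512652328588531807920061326334842843977799345601479657421938788374929807736829961970158621889030033146555010743769281903269432512466506358040405735211048625520775436412173524686205477789980067478168126319256920613105082873416560638825916823987510026383795966901918907050594954163153459145114638581885393896266666536394077238629202834687918835034582340022348703390366347965692731265906809113214457543029412971354373147723426345134991744432675145848257499430252590604669297839277791468920504320)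

noncomputable def rc1 : Nat := (nat_lit 317192313156180887958659318153847970071708086179365554247665353235773496048901632739606818777489983531207550467418252412751142904324326977144473630035882844245944439848821484844324557770300621346085443189327152181897367102853027246419679128367266614576044735056957877496363638035321187668171514992420700148770601043711552406556749582781217449425811005603364340595988710869437257740122920002515033090479898781347564181793101016170632347136023428406739999117569455798372887074135630611272918045456253754377120185454032139062440146922860227623764049794167619710263203724711008769898336406513075809692467907601899814185769100487973613852497972401508009255842018116902344363992393123135944764980894137215828215625588596075888868544285403664721620520405733480417054661510207335728565184487136390125259851532872612442617232644592875575287702153436226481031514557434182621658084151480078977277432183521333694156527152941489832933484376936193183704808341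867653880253343715710145222811329573104635444508919691411403419830937947028779519185279640646583431076525295869709433568122737815968083577435064913849582088714118392901548680100006772511443169588734844693455239588509884058048274515332787193578182337024322200205076173308502603583966281340532293616661553556952548581306866183153783138179084824698940021660856810018658321633987720346704962478354093505638171608576674556791937298073991698184368230135176692211317145692563272604388391357971447033779385273736346748207121957684795708437007476664199954585376563018272476000647907558574705520678401646488994246988885535544600745411188778765344203907726902814810450118059653335355407424428979625905920497204430577995240997049149090429670250355306921815294703082172751833420754661714986680952691954779442894307454280301127417096082286101835062643702741593708788075988044708540649914624660656130462139899529189909416788755942494219476566091990574717902536971550343777876533617240761481937001395400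169259294016295744331491607891843939927854750924025692483017309384499926842182512552371937686540813681567613957334480502224911244738805845032991201977754391901872717154075405799066546681205498228730536986844250492055086090271540255938499370614130436537285023324607928023773743869585650686736922460993234662242720811467131917710079922907920898658591703649780979826752286879869197915164763418618520238563576500791782623735260108287691477036629135223052430255010423748038475109327532593017303738255020336581348853458729621986730287385993125324939604259753747924998473915225770888090331526455677904590968411879255434993801678928081054332244506314340045556883693168244458344054488144737831884260112862817527913000077008192131305241971421572788233085748824078572685371685506282499329306758314149780537393109169595460456639622457553927257161258801127925011360000786477801453625614554762393745535809563900256347474081236476933631579971780172454815169011307811056982606724746462842879452897530320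689504391200575204233059729624549072332949045031063465670025949876869306266472034010786031401682643814821092075628270492455324795397453209078005246860886768637936745651095525107879938207346324892253932337280618774338754612107043976063631874303035290652289685054589167996416197298456530676126417544138946096621280647896469353665191638282361791707990452963979515922236849668907107663383050629859250149898941580185212328065657609279935766878867471558539322269648214997051942392226906545866756398630443906899186748483084477321762933643957971808887525095032343171909879489857340704603190603035745487832048268952520328689837559256759355233311121449220457758920571632768813221774048781438581086430635907103601750038398655680910904535514570517177316482045860917200656053087088491057566595935997114473376339165100122221421828633818742988762073696643305698944534999501280031496446582468863117195630607883014451205221356909174550535809090049217193812466878974451383069612943300249307916255357305835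048470448535963259827490794183568031898541927775551066391120311073394083700090524889334223192091544343858643219994752787989441053759043877415679382890675180686271116049218983430621290008278974067384970093050457561777601213848168465838645859631744014226364929929109917042694538663484257147579866003896804004410487418297163609241748569459963358220731461007386653496660755483431247764726501648623882610386297375297416117939079735977827529860219880156454326147348233174564314257111615435521874595918866047622651905543351042165416349997579525414907917714483034931847094712760601066821213114618591590093861233995481515849626647738382028396221690977475492782912013414207231046905231327733463449463453711167492819354443464518278174216095767394421989773176595301389353933984260498630147348808618033102585039176371774284874564014462098695088043400217057535900320379489900257319973488980898730074327536794602492717998495663505925386417165380321948880613772791155574238453349735248595265789486340655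878011808901426317135365355737942550510366894051408333135886741744509428333746311485673007029084927114606395780793403183293027132008833144692193624575358637945232955281827532858861876193317308453215333614987476602859819200290652911231853630085896245322582081249104186161199036522955102710473321996611337316345691892199378051878390439527570836660279401817895039686676837547937820332065086804061506753486237595863665548207747625700443544577674520149584312688126162032271767038661411928079746554359544271337813988098966675547088535873028210420266182179514070953514200325840791996623198312234320094659857369836793463629287304557541407525246767689274126058739133537877025092909531920061410945264769200995193710179146270664314143436164683693634886864215502376379861088623072209514293923120217431265907524675917832002649477856894384832673456783231606886533507669682304911982356300052452669204098753517464609128137242856030452253656502983099511795188213384466621794161805259812088763906055588779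723855589993122662202388333946964408098777117742985045756016533588358037207783531278781379302469920805571664216484699223759317213966518641341290473927214128243182102878881527811038668958712016339668477628182365389071190061321106662502000361163341253630695335356700411251866370420099277211294571023995598529267293534747860564260799870334251385822278184480275029448452724031862338067903875950072366969122759880373826962929782608334133419417482969927577140961250434352743444375897547961972686565317320891448370243645172687527537448333854197826167380561772450328441497080737584790121726456932680336535071521434857329837685521970836445318008875986998154274479063834207635227067793735196035114336759871080857917455299999770677899591603186097543585269041093648983730040430046431638222057389640814093554447633715643176428481653524647228985647821064207777165956573218285476264934909938454193185161178080697943343548769433453395453672447305844531293665797293792023567683875402426028756672557390085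635126200653351089042214121827075675979751989200584606521774651994246288905316706515150628936792043467253490994893538464294188235076664785377777213238557356368972829363885436220366627933441973664049470229951847679539113197408643014479889267599653432881756683028339230132961507274120668246580103859446425737733729119012726883120565113137129818664847048361288360192616180260430498768422997126389284983163156982629110290463147146767234289494677922590205937255332981056894096075649206231721633826865577129994038106312285861092482184383736938335831198573121274733995984873200504723001903737416082966006994242711294256412656436911234181777848155424274300834218973398749094170366225859430517810202455802853612104678923572094926544765447747318966506321257640132529386663396111075436500342027528126420673874482944144627398881063641160006461212967273841548056655797947414228763630389693186096379227892482660290898326762971907830804638401509216956475191359736640512141537691357131814140992342470572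982598548371517304971912299436965161676212769601455871307598203958922809023148148187261051082994604575687941807799309879842940734635178228112763818829160579995024604716558836611387955711626780609494821854159481366575932191471005070907541822017204859628317683110233262047023801013498859826788861071852621770560832226561490657149801356604991406025047070172799098126173857848934962152712772312405576676341565096890234032870929485182415439472607168004954795914888871454570167165957127946726764146832649232792494056818268846678971805870998773996695639208243900136666738080255967361233098768978605704340580411690746800808679536746101547149036287582247429472453270322316315712429430229788587136617605238005935781464631214949577863364106140654926696156847239594972381326939466029821809048276541656478864327032576087243265836161771013479527334003939146219284382904742729892846085903102363636455097872089289681985724076684658832260327624755923314020123206457909585805322126896224784774834357117443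671180895038927256849231569581602790514315271064927096609899870837689083460682082957951093251490801783452754518414884956764386636452313926719832148820616822033374684495902309725982419854973615859124501336129215967715402340647931948483866056686325098902099966249186264701569370441359057203148498480070704171822884399831338610628325579839615710288395058186262768294921922817707957372076857177838924770294525920500627184160268682757093797560323270364686351968316305625038200345824445310548285556641369992030304678032520146421743561464707417140266402575868114300727310699682556070968870169218266213920093621156604631740764244873797140967756314622116318064066753365825526454491930778100382139318988196142107516233988159446554286547791663349829095138055875285484384184274311363193688641814336678436082107280482636040061637702911208881066653705957064875267504988391840568798745128349898256853044560557222058121177812126074816602396882373465314447084373908276128598287010185396577248334224050853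450640143306945512985296043522312167145433876353855655242994723481307223114996464563793454175173572832278010618094655925651049546925026277033688835783011241184647977219281897597668634811957501888809657486765903942494742589415632850369393485178046365040466185688864495941063788529901104799223818802909838895648962747823713909611259657939289332896196781701775806575014092158791966428047875077971123083702163583534668530784451803131128273900133580049617091373688749760231694670840165733110596840787448939526528033881217864061317543709063928084111608684397589123712980403987994048341566709578892639479503902450522895740721677961653126410674046033045383313558235133037115783914756604920367918376315697742530758832832366962108787482282734147113000327450981920186131701972904914812537555225425860691730218687025256087632712194144271238889748628425834588701612532384206070331332650376046777960841606850037780651322480317924401714255815227484113237721707271199417710282657557871840271944060623400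641588958467550867639210129604867431288648062715599661362890641887718513695556462845187128429610699053496527646189377596186178888788974811627545361244808728750845727305579808783826619353472849490267481132309395420394223485767217890120756828396665733907300749753451948810308269904770584028226347065025947986717695784261305887285178407646744657506745891364174460922293264078873067784587216653422794920636689501406358078468951042279756096313997138490780904720983691403520808758136353324738027248541480434992818763113550218132495595396832989226486497496882200032324101392255421922140419914792826525079729881039791407834483351748054892060894385448955809514092268740328660569977820922660523572708940200355789683568367220522012212495444843780372691673837307048963780727475166582437782680468131110448876022965974990535403799692566144300148650402566314856286153921412101552112959629123216666096911922091020255061385424449714355715046706165873372182809024413766023034455372738231383655959286300440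102890124054192826804412048000213081269653941312918097941564611834490567590503651764459370057468565406138894381975063578171664964205754990737039628443103467665499456614117648610425812242073819718439801350546299785864329703540925924521126991248587554237995923804395300332417543102744757988890984458564155731480743335653175600666623411331592590207754951414064507887944437615915351669559974613220971262028157104265515821452942920660930857536538636595377075362318603872713353923557132663806541300965304140433267024453848332591844482080687111867217738528802167307843213459105561160212473903255337983828058959025778818509065797289214577680920437311208067894631216984895649092376238700028251170315020326980037013977045949853327488265881333139003652275805052814456638303065976372268383050974794687390989596801772448567925218677461644987191839648575471105185298070402314768972984678068229687758544995130147216726860531067783423629751071771588666543990664034823057240716874029640889098830867187156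475827007507823782322055176637869643478525390486080950228673004930029816676729360399880635917595113512808772733510081203360501622263360364639823735825577637756709925317211403101086436438770373364079997084675378713257684507441398017533323935371896280047840407504458475413139704849972103627243828159062844418989491199247855682581550391063976228021354325453295854713544599062060080799358202213377423721997540509211927197620194252282361944885357778144338082014895974988346946795856660059343502100436134009940788648783262584365020945281995082313971689558406650348655859879242441414177258544638474840472340590224422290132280304091296984957756280182464131453915953410827915763721081960786528019055247035076662506848384874087127085504570380565641263026404945279500378564638852360902990479768378232811673181121631141598112420793801809104506832335427909180381661271352133159547644550237249498948737393247196369666475999544499773300862830933055521468054579267705896091137974785421978676954958811292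025916645352548057245879200576764972855133529126877015325404253788538153461525184908434462071605891463383669612806707462118378520884290821743552641674773651612568893686513270327125894655615220392571857031241781004205482520981020056788892257093096123929001949644299438540167732941469460565267860545513902428060550760111216595838957925755927710821487196926122179414898643579622647506039343238433182670073204526256879381157849388800467683606352558594306212237620933603569235897988493958099873847408833993919000147932201267013869316542512430165920458311524646695674279145511342444355950741039509451282649137207308151056135469966704518897723060030353638973644349791506036703687614222734539331047100314011969880994922347311084016935974053588120770103085234458040391820076984676541756344975543292252598631092176044724108552720812170298930773466725392538803232696657101036964755599720222785351526779340106991271139611632727820925963712577300905308208367608561458613032552790762112638791124992443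557275836303684747879750072206668528945730696358914532392535461697130914145228424224561820205420164894900115157469449769509979689409197228761768839153170719003720365951465649717319739595182268865976307531051673286512489576079366136729670765398139606400891973663976602367286762585477512077804626403791534376508579796071847883997476996449528247735931880386441031079662959640246500357006782486513502209641466065825923560810598333498092561778170061176424331879761738750235982406533664317304683037064756804361206145003057512864867495419758731018568451909589690393379052268962938686715402285939469355700311895582101392922184607983808125880047523299216856946204740517428639305574159179537663929007192043072891840990357091584131912972374718283871204659249204696208014942030753011964353048792406385729985106898468810308202688293563530410290284358706760322960143318843549203919528034916823692655777166713686836671016196271871892304328436905319610634810259129065192559872382424975556172612487281663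808095997847802076541233107750188848086852650555071611534873945596181081601476195397392378048459170408124465745369947485656548690545724608678891233170141296948943753705240985788764854430943478281624627565417044557826607065410616233036998438803077747949957746212148810268545429924197343417536691989875814591626873678950708194716020327709572174883973485520222530213057030263546922572773828242575333341849451390244267781623921752232759904180063543384745213183494011406633330530244687045606718559989922970231898451399620746313493692719367685088959563202176631547722902029975649200413970328615139797073773864603030437142291298188513535105226013838787134048920594757634912503723530883461614926999213309552430802401359386229014052135285757231326502798102432858290577449115564624556553348619612616471666636315679451546003629653866021784806126444188066320699742256968324569650222188732145283584015527318321701389032598705536125742077836626546812851163365653270207283032654865064587194098915823072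94259326730912455509628428849577295704084967776189341798719316283416245919639898960386314292252903894337015049345090351468023790287425472679449694440032751979869846797463182380658954029129880656682301796957640138287952706654739050229343656399192047221958180461933301259528301724118050364599050399052653238759263140730779466108182225370326579672280019019579847890712674633661772593880578404424428948072813256102579013001934903951659916766657736110134464418390869543740328464894618497629381353563290062184189555522402972271126076701416252803447873647592937841590900833953301726928603220067982717800844100427234038857413570507224262015290063245113173453125326668243699184422252300925995358780285909916640763901743983932640502959580911540062664600686604045088196122156912231536421152160369610401994287276431187389972510784585537572847785622796919521503170022639268335326224852170796441001646994454512717526651569495500929684041077104758949659838281921305955419598804613087063431399562569851558033984820971773716594688)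

noncomputable def rc2 : Nat := (nat_lit 317709014285680960145864903039342714042216270134294533973160569493821048543229405854479085688825038394671914925166754053757251644304798457110447469967081226168087935100737501111066319326810116532441426197773569669461355619689170065876336822350801987288307011650629716063776958479928120578905712027017798281426618715423042214993622694817108483061077408734224785061420590387851339586142104109314490066876446518223741383679340359141201087818256142002552381346427499625822876251718281231915343664105989544739285553911339707437883629138325874550626979469503473002267835898727394326959314776061429884463463408664097069043619436077177220613182414170704441735591122070449149325726505557991639497906652378979925849835289015203791261763669770701287129008281906998110427597199844462035920618903312902965507477492499731939411345286793239037690743661468823055293538698367314278974514044797857484258099366315856785795185286472603324256394231927379650901551988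536587579005840908455571159963834545458677920235089758446852259343347603460610337534264910758487086487699499482516905793668890577878465158802647091784514842800820284502135929179396743452232557552041385667655780436769659353654476422440500639500926887534007432907728284515280429717502875678282047448447498013138805595559143881756977760920641594469129472602619769269622399073769635231606245828023298271684444346817560583904615037068721600252246562709015802776548229489766603945166767798472468573464008704421443093261087499643370847696074326142612392790825420925487497903828644646615953052077256403048255754245727665027451047625600010875122463831363997757615651072985645632583099326642059498687851454356684789664705161980546143812568577030621598600964493551601679342212490620129763603343307938728622297237552276660138143059939862954971477290203905478139565766651382485083120702216896539436324732704275261863165667562182707913681159617956933816686604694380152109002454054707569803479969959623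903633997551226273305214339843103242773017022861435056608597535854993329129320107637018668386668017858914503529187030399463254560686065270758175268876906254007931852448466763483097386795678936321190422313156443997792663086975275471802534504734101957366728855750957746854870325838269791474715259022230382695232416049720487694321649763348736497742821282913809259553004432664556078863697678352939397711147091987296942755440263086459753213131603398611161933343762898689607475522528435590361823348654739381701029389442614975263243843023626795652219102112042613153405035555998536515942534562937814714564321622554951494854350839684062452761396736706669328743643190984616847230414686090118400419555254887322864118165645866700502389719363700899229649743658856029046757132122004586213548847292684668913008869281095696727040236742955916565598386534499963265374495034120071547745117114710039239950662968323657750248490113631707401191436855048145491080969606120912243715688073298914445437737139652679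034327392421150860800992070218738282503478580021529613748118513032488640097326879111711103827916103631021297457739716518816162264616783050315284374989919487987197105576649018671328695707818577266873650985255973263551902843873863305727525383802781022572619126073574342700862602007483254898126007776034687531607888970334299722541501312885668120569759627810969201094266859776223432278042768896058941337367745766955542706757554656934291569335583324656870131174235373431030336304728653895852186249560585682228743698561769109900764473993004544034194777634828740902789596942849587919096560546962748586092370002092825351535358272274669281053932944836075471437591412995245206387034814819541683342702409037519669692603462495717501603370661925691255868201873106914638995321872826137091371659391674989059288142241856446738816681109009986362134070584403230911859250437224043936415122304507235769898077705190453878529888234017057140556229595063527610864959506895731568809756523833229557837791532862265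355629443293783021226704362872662497821640330618866515173452534024252778454205989201686726858936451159786578557505168870874168550214255196161539789346164042990089149482343949430926298103356789209364079108557022854947305425959994594827559049543778941766065076905644532332263771504704913081707025772319411182454398656283822132948801408142167680721676997626006738103142399336825122875170242571337752144423436263232123850724510656529370438441523578691806989632816799740264980236407867018316245569482202626266518746616939979021481797354718403831139048576287355003122486356811305937906929359939030320793065903510591516124374298510003333638079759699719815939939469649428561468793127573728510275981634087204339029633857674186946433979676606818774522070782976076613608070913553134832804758063534258429240765004327594129149636906625300006188164023163289432336540912138127849432736275644190225091106257814837678881638515972591397327852761943708753314052732235990353925264266774437033942770552232164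147281344389566683517684159859590998431943743651547596090168224602742165373265071862103982326029358271169653984444836445064444726151789010845723056915838303835346709285411823538107614286802939332344530950532790922024664965461612695581589506885492929452976649041344823359861641840855554259083228256546252042897433364447067096129195568660376031960274438432162434405836645023446480181493990692237995188114220323380891253443389311201436899210203944689545345864585801563090835256450453122407488035447365520215779123706478284892286319613799827963810274963838712280825016807829909687717111665069066291674040624075614878028366356663638280629069303392090990708710614929343813789255212894342152051267731214136601300278108936220572446170572330744678963849191610224703059225166050428114481229384458397211400963451284980039782646449677762911633220020967207350089746927561823718971327135542646255484978622152346375246790986725706167316495041986936670540632407576959154273099448061958278321446022372297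376788869882620936789226825790099629564317253694760630594474160040390163555597532596474804502041145354964389647907016065955811942833172289691413962115598923220195812085375906715071752482382906817069277012160340669913394065384373030416974766446453976469442431614846598802975507877665433672299501452107725564656573378540740490999686528492061237950494192740734830378236094191687599336036152028605031952483091916774774447301937557579898766923332866347282367117745847549012467382943636980855082195469533068747102748649617501461465684534190095339090947234996082399618305235863839292917176614318674509205665705739652473629591915842152508775266064841386909123448439009235132378507500409870583590692327032128432206069456965622675102570800059509556974322990659186313809670278830081849813183993571249592942733642317070408057240196065748129394106657456732342631109572690112160177386946960702596870101989408321248616750702036306338790446890580251552934664416717559873449965303318262880302173345135609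988623753474307446666289580419342497564360816456305602659424611929915380852565123201426500662337968794737008131894449193952288497520342369610610328743367132852744583670690747876015746231182854132758556178300197686047344242751645257634877958406724544626133141103475759269078623159866058019651164296405816564648946395229888163163757844095979819460428187550429338455598200825952815860298092571904617341663883179360634072747389649097186274104575661161146609457291788059691552847107446827511450431409550222590899924487830162682819020246190485805216579595018789802624424792402289740798790093541662728589118454660483252917608050515303830192192537516867295142734707827493653290766014694292403447077879788837226281280555451784210094754724162941127013866625010550782728002173742379927912001037198291622024019436851562599792770081840482569008681455777506547664281944771154799946849706850254749014200422414426636971465196643928238930499581726577718034082385931831054264702975003150343105079083301936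715580729729130782502146860543021208860232739223916095636132901506722999237917305879142865621680815983555167935091455430625947173334486380795368225459862709490632250602053095817508628034510454719446583539596505960757116760906404918916874611889917854949395354719810222419689516243490517464954311535444471157847427868686669325126475547201462158328015425990837280627829528066585614450874606755348204204232522165930275826559603977078021667220706727862195562293347834877903844536828944232894080023501179426582131559904208584850757178850025805666366856455825182832962084573965191521282600568365597078775032845627286717025359454128063906573754945971328078623006359641214986811182178971680976210694934996723065782359702158041022710951917421399919063753375935098360842143883853709843828908764217478136152964846386839837581352719210249137946361097763216363076580171313600976591392859706592788869715801600497919709027761336085292864313504584647185020705227309340897103111807440399986023622117305226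586050754145417399684416249547496294355112406139227384927580146491201891815506305340670216222592247967162884340393595888473682027988050021757617073464025665046518598004354923108352938756507807606048345856718820177095691478648408008608850039633113552694460679786301113105350074357576512339346328293333746270703521266086077396707510338128374824831486724211689201345184982845869103252518150452752751115882556336891115701269413888994255731110782323798887519849008412847224410053832518071317387924866294289476972280204100368646620889969547219076485784605781333240646469603642816438223398401803579059669199562050103067147457440882796967923696922453390830168269697928316248528606330486306357758953667288215622752548975601382698276276221805364994379631580118542260004403761627683680018954651271536528738621738280008763392769520522088977079235062855644365984266895886477143947165469029356681692092159711681764384176054332370251936670068095797453955038717374973650418614067790780869249844003266789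619921625401514518368318974502820919941646702882473950813391844691415344047744782386115381837244161997143650002285688597581956833279957150746632911594000852840987839286009192869539689457956903202134014641882932276456819724861844840058672574041370874449484590249457268572631678869739682296767265012506725250443118498224659839321841326052384936118014427221975851079393141470548114638640776053683059664045947398168294397093560457431779499525053432165703801990414501695263129138294092748924386112950604462354528143217471552211441890562665105917288888143056474605580570630929732954902788729314704180519722381431206741703906088582036754788856896019073496901894717476556096580309457325889399354210399039377899695293070021558632535299721434788794253394752907291306276760923069153961492265929619516563934853435668950089737778964828379005272972875717957252989760380770054678406723846530110064381658897081779047193571503012479867857315559257261080456895237318358581506728875006322299010611793340864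390852588989537129795139505460425414770508003209106435869740303818489072238719263746019706449577773334757287428015504436081255947118548138894509527718842163374010799872684417111570767879900390380815155468404711747180930291197982064560404669316847514119643078492436788923703754687194181190359713246469585563968836646798830803491079972086002429884377682929690077912782023194799209660932656401911559229659091527805349146235292000580306217688228644115836201155331276813391741236948194462899672111858710577657202618270495007900471601465573824647445513514998674189467879269148604720572187596630289689519094606525184231766049646907718814077889414655187384473126698482913955561642299682969427996864826974432973246288125045329050229228629205093863926538836014657068759959623816716084816495013033568738205889242951332830720749350705367168667462444563537633023838621910768033740868727852700703280223095861490156537408022452688219350214714962931978204949021486081510809260721171678793275404964017830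657045227005245426673189799244089916617008225255285029494152368556768801362420428641522457472707313697271780457469861395130390154396349059507752093401119327836554751129709322357082067649270473991803204436884693194209754051966162083848856070621062461337959887676553363348792544194943743348174836644519652989766163160456721550376286493647132324915095270835544354852247121459714749875047545483583505933697584928704327040263717182913494056104286287479186325928070095837667510351608244461063612020843040056773305811888432167488418018843374227633061935061464509792881439825908138496114542223676753964909781737486164342353316601883177859072226255094537496576100503970014419146982271703950667311926778455249122300957386811503695366227792818791017328120917604388915842209659083323055729305175259263964123661283635485453652781363412268718467106317132712479143809668617615868847875806627234437236176519239633338850380246597659685928081909986279864141822128786356501465537165079021211567449421945827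708568636632175785581327745541197348798173951417317844814653319121716440443772551609275802464474812733876141698623678734392321208488293779987552189949058091791106671139235593177316903045551835221226301647469139974368692545829978584595056172902046328141822805122058111130527176826448384625889768072208102108324806767114894099368474758128279898996492662205223342240826410844476733926854432725207941635213499789398475889406167996772643662273503292444848169783009634802183201915741132322344924453486804620660961740067469794779386098221061368299316559148582081642643992005960722269670656291101223545395350751099510298411525070948590823096228730042590997875951036765873983858677384314557044855031606517777622729588367290387983923324023034334965850306858137631119169445006523963426896318925255382399238558271633480532036129551546060174723444020753336548926096539873544247664053339962268337285709691580839749467924566382872831658357738773204904235041875976069866322266133758833789913737794089342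776687291273746964103295841215696209755762071904729222270962372759907041618666761889222673285654294907233927559063758060890963783185845486267196009828558305688517717534776424834801418184919089208163332614843989100461339685248794315488054194171258502488730819425789199917550796875880217488708602758436890335227912481991112298151551438798953253979385892844335908430451859270147223932561759373709855380393542216137782084093321080498941502589826018174348728146100222588181725881651541964791043415741151448269046932435045374145934699801366843493163658685611092040830833566910072153454747904327505822591052497675087336945331034125352201148994833829479582595997926088052545476609681113581508249923650782804734263232606732319441695217680047620903164689066562250473224631173920117205526567090625003297361233064059634314189943585602965807930744630524817753054705627605576149784810401455291164667998956182605813520625198866274120779726580405873800064116202433506566985018699811041040050044894399959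780149587636977045465678347860730913930770384025909529140668022416518324346276074357941213046861769737191025100233551597837961909515696901409919859417509731737812960788719443927131528068889693852582590846830673655994599953564913972148007239933510648494383233544894691491824269653991929975711083091212113109844265680571753210701466063870799441212384061626668907561719955855815103387511020981270270675599728045214333870274833855228332296969276806499208944376476410912099030402480532417009621313574853092295288690669406259739303810548049215524572782664965284936503649202287901017867738922243154820124067248235381770837725194041124874269931171871374511402604122077440771241581980436774465591565046902455150821830996978981672976590907091171063791477158747895295892939549850387412911872063452664939611066611555230311190223466631048652205693509800374605293971914507445740370953651813526312622272752567787251309469715233845012675808198555972607512327518139963270490530208108902741924133684282284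524034493122986654542496252564932445005299963972569795106854505798259803622975881755737114235892569322225379438408623900241567748145033760620449544517467890867299367274393624546552343536045597582313760967956497103400611918921487297159226628099713723359711182633948698807685033981618368976464377515355627869596241929042150113342219670141301236255730230250562709209661023548180884907068120934661223297924733488041703161912076534711888959183974778451707602701433301796270942254976286673212898099382635373699621167030554055579018676974139959226439292374593851290167475012566491564454711262656013697512725017753134255832992338968815419413273565913294890458960763289933535591237672344519515945817574274765936421274221127558169043656281290308567186644428555388690231833294499735940136807420252855219483677622436446909533810275373795967670957712936376048513552015470464302745357728675811144712438236763620365403132711027717330901281173783056032522381238485274790403419510144700535797060155966630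84060768434617766792281456532478052675825402577916367213842351295711861117467027447749576030441747918986332995347332996174031405669099955855084125606581831876149404592483102052962519933075247584818684766789364866423390229514596341369805424129566409523464869060990343331668258886127355091449130471611238058769848230245640747822748487408957446629515973973390137485893765073440285343670063683504439994749902882346351272840854889884000139605861761216559045133585579034130117781190215140908576637316906589910224797967255213532818488638116590776248415972505116716337448696674742654800951552518162913730648711607116793034276498659863721423944745500970136586947008884085091871767331212910544038773033927197847859013445455616412759918103133892437680088345702158114177263952942715240072130144251145938593167976608910206909197953391522583536866562599498116605896022456280063771222865464695099191141699485537717297424306205687439118728598350595787424301165622989404092890387443587373716534368840209028496780387086528713588736)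

noncomputable def rc3 : Nat := (nat_lit 318220090689672394954259043475214202535227276996409816554683305825605626302048759317603576789178871539961681178653040878657872645223744164496170046752953512793664135858449591441996494862991612426658442959728867670060461111144825316086921567237257351670855892783445952796895578290864866934381680980019768286922614614517593760295882182926572362663792372052093007203710106883407533459157910943478464808408549430010043942728051433705903543636815590534914899073945459712855556854283987935991153276211594709971325068563683148031977021829966293859636276518123644980471647002952441929298919930087044362196934376840143266130504445675875282162358490871558625893686482422220120345084185131483172767013464218625804643684407082933008212451106581281784974143579625823516636816868031575893877687104613064999399183228207803999400364231257227637637283274636045452808124943626770424297396369835489584647105234359837938966788051040531705367775448973207351003334951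024722702724074480371936105089944923223126717041417077912986156361631316623083405360121363070838085870281110357444004859548795025338691603820249833917156549405773632770733487074067004707358604686200333248954963625931005392131707884803796544792554324687908004407432965878720139770828400937851007841706719889610501851399130330633716045507692329171592117765621369167298080914701419397742305689078655978253708897038425869250254420409731057102231899112543176753996161292451724126964968558039553720700775927980202256802538030154471504227904689201940497531191563115797512942754829688642195568838696089774852095304871672679872398241764077615613945981505966610905253817185829070718388407144727720292232155425349084168716955529123451111362068009232041427339656253746214317304800832720893101277267863753132952398123066687653532254651854828529860494817051704703672009495116567589821629548783879238271815564298281526063380030866877593559330229148432334614694214135792851225841695926313991111002721723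805962782127110343505834008859414404055907812440933493463558461007544876086145175118470950821516989574243636371892846413377840952053209920974972797078613183813704833777236559755536288530212604955487435377940602848631666171648480924721317827533998039412790490112454938289750785533319520200473571726632625302865527473036826221282484548815028898703966994641707923809953780779203904187788988642244325990852988561028833258804489380529217346446702101232837973413246047536529378499602378121037928838108031329495590031953265660931565792465263824034933657728513396146384876369963611638882895638624888028280724743862629458291194525454004000815271944695584734008509141622375448814534387530505948521541250420614451853347716322597447828800948188091277161852011640189529166886999247800192183144181421720007595211825369050987833225215524908952026183091338609378771812523857695146366071441545426974629076367970425666406056160864699065804300148537250921576857992336791945103673099926540613090136527763523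042380121479415377838039882690319119149484577952304200376343288479906720229207591292413956858359134635926282428656283734468915569236707849859622606498606846699888383476371356178178661223774371812681967984763361172355444121836851001304009430148280484427026483314140102248018472501520533149625694761073354854947247042467557803760220333675459824000789676240370110282774953428445125069072914366233011631240702536548683797783893219086136067755611745448112997968488298298034241199290769560804355425326208610282386400690077810635027631443111193068159994738991292017100781880872257210775330188688978086664492528434171503867230921189895571932018915426977548703079163220040384471105515016919175956881178550074388040864457798079967815072895120259430535517654563397450437240433908726401612584457388052300169681345614775038686541003077761450449330846338360913344994437318104846590904344838499109000596178783761040772521647272768806124357100881861079191587201897359233947278130305754829240677985154351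516574327602529700158140608959606154544454909932131218703809028483252344054525260845412805228775720146796259063138333053719201066467096921468529942233164624594124901411406893960834376932832369659666453522184204480112241241908435957363537070588177459090911449658355202217267501459044369440788556223775189230707987960091096206124002343258386590197612040966325782149092938518865501859896521810735854146655227815517560597087476445510768691765871972058793375267886301754458252024150237212242656136848055337255716071818880347334658951106223876853008342580723217137659642198870756915613053612390199501225291884216004909960437048155312076990296937972334401087545352978482997514241809865785244930596250695087352582107436382729141136453567511889673037332825980875548647968286498630827636170518244982026885829565129044587981594206480066647869524950731303844206510302679133362912024564864890601796139122737657905942619247728418577060603676705127611081138307418761922486426378367736970053693423064632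591711328332486110292015489853630616803740763914523059985075312990151925608265497396346169513177871706716227820628002681317479210308024373911121378059806462331024533961191962388111263551250661890708543036053839409448085813977758849832970533132395623937025607931329979916604501212237123173969518065361938651792341811500089927850766398844372196720831767417440534629352457622236462346434468008336050813594253305866421185502090694780585674286688699617348254144338631767552681572863223803977604568350170276276925736184589737210449800860823142206476449588942723734434731185564387748934998618374467014317420465324090475101534909069984188252216634792259112003120525351568458134731410968081586844773309020364227610731698862446883623717182976385338124283141655565735767044224772796579614981581091446690099848455687801676087952203323178760263511984795045736017279358462383512549992713818706816693999311156647846722494449137658483938424123923868164335074416747214333915280292566546325472349992960440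089352300990647305976245634388773489627328278540533262049339827522888902115775289994764966127336347711496707678985035538675091609957910568608736618869614764301776599400365365987116920918672589520155356350740653778036884164673543213319521182093309426894047945583676421445823122539790242708337805952220600538267978851744239182075175396787144420256927129707861850687478965204089624928545908453468627823035220933950939988754788034145465357390126117050392579024156647537039586823372392293076646700369470094681758789140206478141935412901644438445754461397999197367345095376333646545277679236866888351264417194156664758526422998644361271289978420210335427529769237498545284762418393912514742279562558378465430622025125296759914212578922714254936954523216116428913120143446743034970153739917863305803035368231071737863353276102325128193891533634854689822467083436429182681219465855039949540677330760475915319298299250251981000725838585354070130414450356887034807525713607428933743559273382808061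295148631185559104827524803894031479702382649999018910204941520300409981704792412543443136141727976502411544357956478996092570047542235595177711184449649941291777563812953460035722218823816555143916715035857245266784283112914983788290913108921071736325963862197832628169460156046334441772635885072229199406290614358676889441090526168472884770612180189200532015098900054684756184543113510942267055322034561607768391691586737171071844879216764260837495687851671258257838746329913062217870192079227647725608401484177658531496363194626582423109548688166276702423418399764063427463824514606824378461834917623042015438342609491675981252182358025015308408995603093238813031913185375232533323111653480490914597327977677869633433999318742201107172729108951849640631234297351893776739927424416042553196858283695524993389589878550708114076613756708340300360662759231783199243900006954850757128797624088307257998858031311080864052796845128928763104411927351548513562047884961287947587040929930616122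907730942493612892556947332621378185493746355320213962210971641799151440670838359094105067264664639719411765086862563382119549115613804460279478118563195421044384835631889183682754691222129071317250209639329097758550310002025011924701977593642700844478429347366566301883420438994605431272893769685244912739303899889895699331461818053809320750203311517218058155136220338881758310903307308563724399079570040515651221945714331972195125079778658477283545368887630133817223378411404324910234507439346235650902004157470155172937533909329732302730292369432736493547669721084172893468438330998135567927869853278927236553724155827606862790080556392925516044364756771167717170090253787669456347051834038147965820578172421535154936794064565319355193780278345618868062786073452240501665447481925893967851670847225044365624271486553865260998681303731282640870847069280238991423520509758249971818294077041722836516662201669480184390396710873583844180622995481936446061320933179691913567721427068364855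490879642992248340544302539457305693398058831269027892678415974162441780630230059955040877539980511882131161116525039991100847220846274940108270626349023544585220100759103935183977837477547691921933130797788544921755411347340409484681026247088844288421431990511632929360132674155754321104068130119425544891993413691712702014197566616158367319276062646276286972823862547404342779058764772826492416400709326340495049080247166242387128837602710091480110872880395373801095908960212563474586875768190467700374999856498276688562346744753131730485326662927904895417790314767142983312156813991939295532262867814685695710170790172830099945983638452301571778693542547120910479423630334412525052276430235467274119400484413779149072819239475881943683161121269753503556156480220274188937554680822382757316024087171019702197872855329251039131058849361430119620979390786431269464778405753776338700893914437392996506966650656825759565853932905824400584918642408044662315293118050303898263439247062871012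366736392977300071910960755115081874974280199717974654188738431814740934516309752885731827541725426631406062891651057370261380364401526991637651664227638671513588402680645916080347165422282169605304577379028975868511058804888086761917348885036323317363167244087609512982967039457434082161045442101786362565967643477159575050763436372468338696669230711859135586632903107684373878562742803764670298700935928087877507196804523479720045384540745563926450450883186867634028001644502010854873404472488442654978203574475572620128042336051788130737883739662893527434001112532539710127411130808440894728056862239068172090763151350085819438254742097013348235979310914692426230706085991575285729101586550309700232244470605677712987079616260809209666352714749468574742062368136774265344190838047014798823603726385974345133988893725672613488260429831637585190363263707016629582178547437846751178412802579227043239125105944699713630577069510528269256092153890390292443320325284120054709136282660553906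359088802967649731357706008038372692287533272634301278152071294609200755126986168745894108161756337999276248191936283711859195949689282952813468307045284344596098301816817827395771642419409190517066974510771749088164601115957841300097320700618998035154194509771200506889071213950289265161325583547833041974283306853843529560128595754047348969546426730948558392193740084907898982992000132074770230895241662210651794295102397832228311327841593509754383966255917178265251250004926283416671371215634406968980396631716647638992853492936118051236878066756722158484968205179818142190320092303006709395543141246533393331036519251355067263585195686120967647585970915928935017779524624145689666533420143630660153049071690488599245997887789808703795509090648814453191228357994783773648053827781967817182653838059612199135074091527669940880579168895453162310798182769784642572489291048221828950543183631703878605143054060856084677610542463149691998204246590436220018548732629423500326459314521148922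857418003548167662820850174347513967630286392616958925945165698081486950374868769486517900351681709583366842604428742099387031079036910765359457611666957092171597438395029288527501994387954556938383164251273628138950708688905069793188148595632018170293693066105587480261930234864208333628207976073158701858042890803588930544498919265262230160775378610247677243191637798859247839770060952431223111755009580019256628973880618495200519176458492323247573121910623573832992224150028902674780017308849733019218052701729545002249204557252619670972703173931066727596573760493912714284990244046733130958673673471827946089720174807369331941219712120535339138715458673953735752607928508448692987062381083483111294831008186324941888604281886333828655740589311164308380270608455616392323889072755737169095855872635895130116414555584420467089493379465527671409226593395716996381291962818014998502445329605393699610231149408876568458369604912036887889089599878044317966358861004259292661963260212877678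659555489962209427767222736715519702946983802031413267046610576409884333405715762049663940372203140689239730114410178927276232725489222630398217844422635297051082393347558222821634917981241584323543921578960841433944064368812336839779797983461134663071120846553510563840761186100702816085698145771383805471971680121369118262921563932003134946648622977755143338038494235283008321605314720463740718574970033232885045202058456108337595304626691502154103284281078094493871348317474243827970987339972880007867300304190367574597855720838128070308749987773781825534695567100232713209834791868371152443358648856202242219382528821861627635486384590956095592180654010213542094934570639357938408704099135496703040349724271781667485716315911127337926099611835258898665599081289855386459230534190906573467018541110308202578646154399012701488252502287604145314817977522191348628894204438242683902993621129516327950005641936570008195834882956511973973011885831030605295869103779607907429107227638990501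333317361041060715161766497981530813132283335225648531846598483455820476140805967242534477716417449498844292288322738667916832610895254137804280398024745791173138698091676092683523035221122739025443335858578672872681821257173478941843684206518832402871747367653974411191985721667309145677969950848932748615790450184269424608179247833790828043251025040010503532300560855016581109472294803939026617944764169365811072060790033228929422683246206712307625325356726733011292225273206309940245080213887611216669054943023307439553951633985603285904370206034282357342551398866686468037330236768347329037757305051756795425963788160555357806246547677081775796902958896659116328186886393605570936378437406345781041751662105971553664126837576242298132263188372756381118325049774329368032473423659196972552752745002996695995625363316672684827844410064618420074522106771526846134585428657556625612463204146675302243269286664274329041036577203657219245255294217019988255186838953328730403338667642159324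527179458257473455350288937961352401100654238236664644615566726505352585913629806428157397056582290191953254150535991569091741166107555159862030250184717401106174910790491845497388711741881519157627275927730539920294812354769010020829754863415297885195849493355846866962674021354016939972750208168330611679226288535296516037604731232178795879622165841322126792431996246114949642613380254004708012929775496424851376259819341022024805197526223701290573395448950807091910897500839160498881370184793554456475895281617235376389141724606634246502858505773388550095882405972343196464961122760521282362229630488550092636199857483083931052251926769979240825632421457873607319528802136099772580163043851462902805516437759299048696628905622368751999307871901653750137562540345835887616086543562160992525751473027807972054548389049870045788210939261774147907574486900248097313071592376060885877782656560170491099231804649178107227463334247827768583812389989215879761088225810988621551119777551841174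757320792941049206186301775691212280741715745516746198808834653931139120635720777678658648014634554810530667342309968727625905429635563136774468996546734324868368565773676675161654315448887126020219551460274044741240972712535549168973725738055301378364390621699588281619462882813798407484778899892076570542352709466598238808978262927279689860121710516266102941409603060486584312334536593321486895842511438724795292907878341314454822804225410576910800068643940589334134558680539533662363510075694401622840847834873389870343716104007623851091104244603021370734061830388000792918662520909017373284207169411371846273776932426666684800689120175039917545045440511265370926681131746248232325284414729763877874781042720261962782520130827100850175192524269973079074507981352184057823064017012322065103385568563390606797590852136109321887707994397201629834378433972846015227069908644502381056434017620461402294322751355226924826798234980648806469479691206651443994953898920272342964727396407785259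88740914289912965100957021689798768345722974336748503886227673893904055286019761964997642608474669494568938516527374251907856153173107644806076879085768224922538831561138360332751665573706031454940678149817211997055695756576327857731213059272475003724037243739045266963251679271926891768724533841417769285071233111325326845390283518292999953158874939193345101462518813491796887302275310806973484332968267170668226245249799947244508164210820751588090047195049273226337875180666678199755819037490877976984469217770244553761748281792197579548061568963977881450860239347725637190189339489799571107667666514756958118153633355246696156350416355165797743471897592715491186934712720538069108897755735718120670101507458295161466484692311080016598187577555509711202909012684623631923415220337533366653150517285867195363223120313774400003704118068028736549138814616950665913825861291865070376217163952724194029334495793540388900193205457456188630203109569187030548571632585834649269049183377537920819875528804783141156814848)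

noncomputable def rc4 : Nat := (nat_lit 318725460288333541632766112643653633188656074750674685242317625831982651045868510826525838369747841963286845331951181799178830464683213491437142123918866364775493060501320689068776120667711802882999452641577419889148100523208503183455643173420896735701921213500842217856778423253611797589167717929407259815977726308620728779946989329862388306635547054285119429728450920565925913310459702584218190973972518676049151270195228615742654084480542512807085737244653461626361595468780634588663233727577748079422358683945308398272676347833950752163788212769766368638723604542944484266529946444179934874351797988541961444672481028381995589823208826145251135999731835014784700364911464329632080006742591336854237832897988956848357859033732004283495153694267248126311620648453341853866597376669963980972884175765483491412129628577340708132848662171720835412961415073636998822155781944904097151274277155348395249021441344984791282624174472066353486704443956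130221984858877753499494248320547391261620994824538405605727967457156036612690379975874561043838173694583523370696984081112902282979645016055461482169694306150168707901867708149191827600302685539757111195153622739990941989975368402295561663789837845526610217472105572738310670294829488499352028142613923086514684922503301268288356034110860040125330753217909659907701791944658627614670543619485369574706411780789543448357699183824038336672280928056816593408657501753032097674111781023729729246704297965845453304474325878005747341437737508085592503412549618757134248066814486385951881596247661915506611245761454361174368661146441200667776182718930891679691599394881594331972533669880507163292591988017786827248373849905398958441634984583302570901486036365615240224893055065221837085093970680836726368185653195752583126944025019369139130101419059124698228103123246684039248318385567801648148306037711408208094914224883533934369159322056617504299762717239739640645043898619291105930272215080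281649570699599669549371463852931072165149455939399591982408324487889256411882740847908529220273678720407215339204418870250994761535004598350887900411778330018249315645771481089998628729265864607810085051515044545980800186961048996799495548622107294805063708652138912232675399761924211107467241503778397543603095512424107754204373533683904662157622790727722466491842656752916451852007317978342082974128193444807338641348185621804979474505732944348429451967729423573119401900635802686771999939614804661154585116598490148879799275942715364480173542506922652196791823672360966593581136430271137454903593890155439879409387414854650352946413794787448230142117539050923137022389717334890531203938629671146855634614260469534793566955601903785820078239263774548902917049175461884191347055109417188739645017263951097878154532762119080061973543333950006264470373524650593338420038101106352193920425297624580646516199955838332298171795952828406560374878034129724321159500250471797100207460287980488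806507018150191133014105434604746533558776604902851730467926189517602146827089820593865591944797309812215847265802939386996808295206114437165990298392069075809552354377140640542255805983393368591090323240227350048670976768900576170709049795631289563573485392466207421783314251727856679026005019164919881944143767986128644760537618869489035654022876738729377700389192894160925461519223443722817344666396795739476222458141543332357795559587084991863187090901126481597616269576646126132853755721534602415258058696705349209930585039257120378709057088622517150983668671675075773781282854436584708244085583440663614373699464546783352254506210386582310091514967753299352436585277827756256607734832192706624006932566807719930472803497934167266403398557308758681757197696435513125351664737262560182290658728242775895524812107326758348935867492669860045604644500844563284992402219495478358645770600629159954305128346616246973332363901131468787669298336589741699077088043724801697678430590859475754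599504351398725295624260076288008693869679907284515810778388418823887208666731236410174811477876140894108785622856644324492638315144307350274401501796454542636057280233101121326463190837336129773137499614961288465135147983643110608718961434521857398233215453496776102352764288945262136995315712898787246444539260862924098143844436148591143036873809811672535546095340386486069503520039087562310271503795606217563862011574766807436359822802620560000542080878308861034465527530311434769601204204642406255959892764480108679971365294660997696091666087367514085962179493467933783129313459763675996138084807357617059484361091069006044718219096029602590889971553547753188009975275491861692799068833798996553383957573000921251171606919277112713589920443496807275827522361328669949680556663251024465536900657749824569850972035542690564982356424581547674624262046094115637219324944065537198862019476850072106054612714435496782357838391182876528771018286528401226195009460041406962477728568566608312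306840161943086500791878550119239322650164443718126207428445980905041300364084932982687691140941436204127823453181855343104908407368902093978186810502311756498045255143432874317140245497237521971651297016577178312032289020144914966067201465905088241086137240285290162618174080818956508459647178790174679530664428106128503400889707356508507969900803068394476354101912164922836204866558166482372590417684467382862091861820888571699099535719676300113607094704309944150081020119787270243174091075031392568848359712522877269543595058834455476452691137087255014927138401909767052289313893302610137841407285728453764724364640756915613820901129774892296006856879082729416216556999126322169595634806015064014254471104076046122941359759873684885412948266421532475606562555774237621317037276518751243038963053177620100879368041215652922433910993646799408365939452523062159087668985396434574380326983376867340500103575782520784845687036178287719916040507591331255805510702361264644324834436245165842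986914494677727661017488535973194932745517409245223638832015756078515880236717331842471409272573328269830476887680981728165219501915253637326800931531215346570503833201487151126080020160465003654671743820627352285174633351570637692132625862860191303759250781059327397236032523116123699327539302635708536606235066457647717146450333426123141801380590603649245824778830707539964429568758275161302845976871569990248428151198416502822640926299351127687425286332021210442749011615004044590469846357600342880924550220841542198432013069409092770328554215261490392282528376977483829276890646700971215079748795059319015922198051226691081786727637526755127242594764658114978075638073049238335058382092670936116497713369590084651448386319014388136754387654585439089243485885417062280209889693798367031376726860286601580847262531477737999608547483310640330216037974355734920044290316469838297325773038647933592898271714738161784208211913660027182791016318743965771414228687212419542054010814579157303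998097040274843211272137428205932232687621686788626904521993062140069692745006424334612687273074628171853950708893917937191517916547721036396745069879670756909388476017198198009399271974108946821870634426655283301350349687854648256770376075221187089609488834900101298264417411212955939354575380274453610898895436690982361910689530396485724991400656303131994675235599752334001458729635044918047822915083749441843399751310636461240978412070848619919838972447611872359173867149477783308479417942218051527414004427017179925260823743130328076756632642730230572334219442729812738997823933720103451217296775145509428685960859831197406890935736904432773730366271458315271260009010881681875980783224279444045772329926408761466083891889603237556974467188679977861985880992644831416095716695510302759296143932024096765891874339411429334389389020822959174493056100170973381526993095061070182868806120727548277463409476587523760329962951983888513245980116147219833780600212094258142190167039148819012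512976022015754805141443254428616312820069048181406878039258446965300731329360772892297674498832415009622518594205256989160709023707365416592494492156407203333326788588101338936861319545957492153493129260068129092444461167688349445736555010971698871825101745009737326322650055614176334066974434988785231589952922696358163693834589543132702659865393729283984253370520471174548781414715953515095386905300883078646276349462686740590111315382677323666282325786968828528799937952245090633862346630493959241161432026392227899597377511165173204567717091637787819745700090229448699016827792978402391263908839251972123137179798581725188580350295021771380104019553803992115681070513073598835669018385802369067556984265916427632867407648164442512544013721580101844110543335198025944283968739149597141493610299237868785482195955362029587279308962412046476813720146617193681202679262219532743446062727393553207434758681209243998727097810833689294836352203111097541555304863639382295246938824763250789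867354001208197014638344322869261876257376066652869482473737926230657446979984526785460177692763935444065629319392415322129781797796019913740587707640426748401322127359536114930919465273828639088800180816588604362397805059947585855648122296039529224090996460924446004044110973191241705552025180559559187730172721513832404563841984674595861989373812874903042914007733865973023705282945836715771525031338836384871094473684497384534974686459340148869349466564483199969983815703344975136480890575906415550357426399960933627578398700732664971859919396779512011935061611945282498256846548336783078188733872144852356577309408402237286793021285000697267490400931840489548423620136757889887253616462280266363229216321454821554601437007744560602334526530917472727337632396611705744650428227160992609387462718031281631228453944515184163574712698805290557852193096701316720470056681585028571072110939772326147694906275889326020645621613244355097498121657929568215083820576627762345495436598655976836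347173507727635792399161265513756773367219219155269927686015210272812154062419031542112201779994928698234517687208189735481229389767574212527717884608253957609711118372025934573802171496003561319933202417862372401198601628409021132877357247693727382464652827549072197462379155416006599254174042192504140855103964797422304485858928138029269259637976394091679344194678909184116695928277292118455810708393777830668437328005935374964770867736140913662416543165193207235866390541245760597459911875264069607973617505314165812172196248727315595026840478670510408812968048443404255324379057072950400220633708161279125410388573308318968840859550590789812629446509911192939493277605902474966706019256831052841282036475480223493364537121947725435777983714600736564778281809023017653768437816142698205622466942721734495724344569584303278632541998201308757899927813270820917203824780651291014866996982648845244648890278155653321738828417053267961419624630098785912116349284361380088228956847485504820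775703702976283217043739291700229704714792834935740699214549929939404468515791331924613038544803324660528634443529615812265341507942386324517612085294090187157276630200369095811784176080245681169505343287627637862991679110531837652559235150784226982646136559725379202809193449140548165350709895444687221196358993516633775307799415142970876623809351334588862555153625855488916862081234673538083481135632071672543090139235639576141029532675351835300480135243893355649824207574694291759801408219043215514611370095632561311835043495052799481452086467923800325879871623990716838826632811729833318623178387439706267441985795508861029359146176381697603459527714836273239033117528169936199348202094444881519395663944857606651508311671579879342971160466838239421784318196450797673695343744422269312183662182765116705117179499899985388141605066081423781734154329287201967149106310865096551485826940045308351051927262450726723606371354087575480898405957032555829393956836159847949630968027979022700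202318860717740667895772420168681315935280920906951740069840131716269727102076363051136494317377597573198472746019576686057846168335112905438368895555701324432032563526491212518541305177117279784729093258908382174756184721390511924149262612883413872611211024359078878771825535404167283114736736175624601439950210679873888645030749231580957293148159947766431005794708449378185174450300350732551082108860126465669822122309622789331945839262528221385687024763190077516978260015223406923386766628951815017622667476604707081694971783433248128163975532807321893201399373110616390598244513782410011467553816358895346981744533389611485944909371491099147854966274931591791370831948295646386285010320744963146572445890646080718635870257899089804651243876410292435717227262691482314300020734679227926687640826863046712991561048939802076016368629594837469368707512141197062417056868409961558010251447602601111445215405141331061667404917019003273770863874282317292731274077777666733158610878452546573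975089622331732421356863787957624449456751551768907559608636150329494060044653142395081647216852986097932257192878027773781474153761524409393552915637706180085858601682149453245110506957685525677080817829629869331210380263848804531121659557559601245121662691555509406626849209498764165598867586527566647918315315338454686693359809059726234701982445050662400970608399733098088927739699234218277792671025052592253389892880149253840573424885985105561913960000783553771233878070511155633036790528915069830871614884373513974023875443464888340859869681208730050156978938239121326262816817342036210646793939515913010676397077457518289548581748364324987105350664249088709992531132738340570202047023033376958153471247876778213011666490046011028058382538401868015603520801526747938360555485913678347698254911919682630268291550429430024586748066301859443795507422674701788828302755244976079570773353607074974699226844132625530323628104167693830805467906145977696595877383380194398659035689113433151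313739380466008713348608552800263941236750383974980191579881605755181362158575879829587194473163730520756457341989278762053010634148596415404607895842997029844890051182759839581056834766767289411745564880692170516253112599459675896368788105505003160581490057665532066764636618641978457492828506314729763933843910695543959007955657461516974750758364662960257265869055635068464795646979209235513142353325708721558474738411116611457238942453867557909374566250998498230693185765818618828408705977560327341662941735009350824482253545673173043732505681490168882949300799226180072046587564155118100352642182526118442224690243474408209127949595364118013170618618883105064649104154768246736835230277269325775801629272693955516913718521111354835409541892586349506845876684806146494776975402106974335745656042467759804663613562097794315281051544482652436086596911085183755250268745514733447029908812234295620517469401341544141761431922046242749333865312006714010918183549671008679396229803326117289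963445440531645234342376212719764650363518472547490634299000324547002675669913993015923669695168231729917164664189081150629718489564611222776329906398575177931395604828267422058559976479123424694989858061850363486737129651128652732098334889071125247234976074926966116962695348949405112781594406093360734813442612919505588522681640784216047008243378367287027965402188744876573018484186068350371019500755601103271306879201193463173201894114363404363159435631261210444142033956744950604040647656624932224392359698479977841803450468496611129741594425953984308548706608868441913956529898747892746684432333766200942179311416096264589101884176518319908138690830679157072728185542029780934456025371024442804582212274571718740175242297403212859193348718441728509221568596808582600993600840076857846870359437614163224887614448883863195357149397808031287596484140008708632986777205448765392419693730778757361744816844201066984193837558247846318786121645009039782018577167159469707727237188849921057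646406945376884249636862812607882141628562262959301394195147453580716874337541644842349750121643523092011829175983098067591704319981866484061178067288794493142567497916509819682413068506350836726151532308529654331810079858556237873264853399158743777262816020035315903061620818132922761117984675010660175415260940933828725451497488517903290321225380597298746651505356403181524108116039356644278830896333307764822386766919232522240472551302292415939684552604232706627896233345247429679844565665230430741606803506104949128407762066304257047733316775991875644395361463231046664694356821600080038184252598444020932293297359898476659066464819869619191958301038817176194629680419616834649328772007799427252250784212552240487575756983882791864434210106919237398724127335923256043268901559188660551991707730003961332191762924994801326947477066319036781777627619990274624588659171433667033178464562575863949467198202151579284336795562654514137666546668357696715938547476287062805252019471619325557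19816833729066830209227557570441915577581692784477689553285124187712628820091418884760066949172955124289217699315912993381306829153822573616137213552146040417961582228198657273332727673398712680994849070100541221436171571364382482587205425966362769624126117533930607007581790764590926131020904217467741802035373903810484870234029183383340596874942301930193305508025587960678017284868403385264976168377155084290546581199815889317747878473884680734770824891388109144889292823489365602766167890398612485152270696690302378700135909104948742670438262830261997494907996475259188816432339390071706095805401376152416663483897533474609330456935147100045400810791139326671245896064918354079767978447500647121331588633417196913301517775011486476158007101895723776190690097113962690570471821811661689348889494736895152461550123203076647823249560235161302997891120493119795694625106735892327172030774479794860358017376927163721631058216209525662362367674191865401866949459886389716451169767380607597344073423949425725652598784)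

noncomputable def rc5 : Nat := (nat_lit 319225246738793591515695423266774150515381511584865445998565985251682952173073143855660130900194772990714373166310863578477130691086078559853908049971498295120200698542139667090907972762654725875259927098427325620584060607640292299541435646141214550170980362594057536410804825660128111212256232352252079641186606037861643272708614531832359089845764231386546684651877616666270053124351020594138955279713659433052761855985720127641010537437006391690816710271784272762774952877510974408871737597320581008474539204082896365458847036943214893948482223517930646411844705740364515487739759630718276163075745952270079519848245928820876564807840534397044099083749257918937004526909628836366552808434720519571051576534076595980919776240097404994676017445898338916150321599556093230045702277177314430249893994776612608910322581229439777783162916054042516421540672988756338031444668737788755105350682674307868321256048269412923851240362450017154230415618008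814325971019674603606939399169595897377517577443364920564880729567792720364684117152123692710304066146262337733768585445304876303910228161304805631839986421242441408303825654536623276186591490737128602829433774835099208985549063568647520843122591370620288935147623568553893813274223517209401263922394836297562864130548544210930409659104809070369166235157595610790358543176549485273221196106256186894690761586334390106780061278316494294001952891924076259213182583136702557574801177741393030872663988100706931566538034338142275171176396340846084658812065895441624200391020472918685673244109862202931355781363573621875330065756273298621214242917484552159119320646745363964294293938210249800753369479083737888596067426341202393993381084815225906170678188006197774397711391974427177593632215952967674405703173587928953466962609226131034891257272686836462307128337634654273463354724583317915858049720373267266344316539974107471877766705737601417296080611181899078182163815145979478539678897642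272235292100409547778943911251105578681031094423942440071634042578059989902681300167784572177059062062070030274178994079477990475554037320359577746157061427544487669210363080614471659183838433683168856339808619693510738051221839751724024777810952736856959202095173330056685701945428095403807459727918656379709428984965915783365026823580689971953652340351046404808046970936017052137814281590594194720986852313826283996777554411222258209789738782378195212774023204959833351111858133333510175135977369276180333781639196305039799961794205189765714759770936981664003773845501935397176834987973963216054505308886494755155947935357830606904078663914426433915387551492823831743945652466490394511588607741422924038211672463817192323870520993023352502906400576113129929336526024917675389576590649940399326332648040475991485183117692432019251081319991724230337085708859771410035905168180283875117025547643969234643934235248800196162507584351920867648466281922222891451107118058110697472948398539535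250926714374500527665948650562725871377812682382307291627470877617027905062008275187295761695018542971684078393378264049317344765969643891821222710638958266273369252785628281163747585090609793559853206339287978310876026290188206977665094322693809837060719623233413307380509386065171350852859332799901045609046299740319017321757967530396881394581224825632427782142741629951198461922167200349281566373300286461882860506322456837125318822055348710776166559008598332822520540530654023622408831438143059895516844959861006423528976434394401727557056259194915955852459874339082795359011635970321064370150589641284023395944546024485824300037752786386022872763683043000488235291570461282459443717860296880373964038904684874151050910088867332783361882854678336116806644760824106540152144678185687816335370152048241832908536038397164510708082574753838583575060715803716971405923810574825316268540891152139781174085869918794813231339626398929271759754749341006068996302391599620387440839812377058870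933404633392061543221115030869945809810796226295196964004921911465698891900190634208870394266054381578073568408675747977822582336408992315283962279471944242692725607130113107169124304594196296291544703709859165091315902863640076902873063264102826127678639478646060054414418531081049765870437586676513994761654640266010111640794739379126245005078247507668497145065716523919129906142695469286231460908916457095311074033687146738876343676790659485113727245940034019563143077479047855781701651535381498339052125405126056040744905204118439383701810085746487481982888231699822357534449283850337968121113503633859675805514124950986890381134396641465056045662106789314199092602133588813032745956038492175465304895226518088655881295910643956289578655962188303240903567623188127899399432469684409662888921666364195275351584346100694597910648456643069837941001824365579608808151624067478073459740641824561718653202069545723188367251852028094615147251890966329070305814557211622336035404623725866741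224145314884890270412843450446368983809299882551270423107440255388265174719181788481425047812961035269264032765532662350382550854496069147391469517394679271575575562790615248871667794236114810883198772189851426984252536183713243607729003423531679043322139133369012881008768046019993589325999263232134761973198982863609392222728245444634825698738760418744756277194766612436827602661710153831282496108203736609541039944331268162987172599565790110142041173892726368377752967542766973083786582806357814359959274206339000347193683699550115895528999938787965423711045672861554107946452127881365942105617057176959508516032823060593595878757099015869582760604497171570086684499356620442567363587557921195092729934205035986203178492025303061754795740004719065127236102568538553760736785397871799127432825894232545819430761494774750096077419119691710554081380191532438016212909669280567346109262483614159111675972623359066261704400506702643811722334706691168547602463553713786732088479120474922298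187240858456136819773021373995191526591690541535241981703517110021697305195583067042598156412513660743071308041893031936127488083150780715271753788727956898142658580586425932884548382795876672904619697565884778902845456107483132839452209828984896105960588428353601501946080695180374075251899044768299500725381687656062490765752217718594859538884376212638090004131739544762188803196154946109152838506896455374465894952498834075008401638456820205504878357481904797855430829326988953616150603035424099122802778476033244634661286313054514041875612313804910219663344244083336510095766224887406092983632805967359722479770435856951305269374051869019751710384551834305306591094579250376148769825973570692872472196353487669759060212805658473810921631781938529663693938903392551397407973413122440429790962808573715100400040070131158685776328023386628460599666957529092374105456659304663465081315281596180570998148243168729451873473062050635159353828623821592015569018129106309317665407040868572101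886977682730820134262314341149759769275247407659292872990979255967290031950724960767464241657355830273084433171545167427232618362970827794138070847522068138807918193322905033997494185374132916278069760059513602552199956372168519354945668662739422530896813543191884828459878429890183480938699328856211248504912591083011753507150757990921986339084264124800259977667183847033908306264957762100081005721203669403791471341973761382551599525722082282230155538333712671814973916926184907598013260291259871735851543810375740359679014789877892611159853020866465336763777562173711364024216730729061116677630060066456493285087811948354910530597245231464534976528201962544064651382459194223039217859289868410223157260973725576752894050477767155788618360550545551258846451743259590171345055452813331700158292523504935564183454586944117469218205952197554084226102794433161866114540222738957428702863996043542472144904910789751221651115154635090432507934796087978663024770332437416196368185611431321971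375731479063223549409436182983237925496979862819307397757041532925515920642755499436485074947394774863255558450807937795802314661654725635495945190180153629400323530108555201420151034701843082956666414130038634537680477247085739275347198135059853732133356864198493429767244046112512656506757620003882824607031365528305336521440967724357641939659037851104641600097689499738732869034964611135417658467445471930100411557976845908028867659106251607413638692010417425976563963839320605015750389133375879098861822055748865160520622270252888094493249720500320341381694905832372510481770664696375480348571183934732933780207547718259470308393251913974943232364423712609880480884159522787392830601527600826482506701851935829449493854033186519356863901773157784717181416212960321923560228489131914047289958043408965292695197670810367944286644849763745199977274332348944999999869490617368110042036439507977632418923227123037667899154707303347419970033117396689243908282570421623666657418969499495837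783956075138733471918117333151198016330445075449056923728716020550648748225124233876555193234076101368928299303296124731442483141559101334149732502722102088714881700000293909927766838686996250319018236867951707146339567902079945156131294298391598037440285094996684346347863770177302469381046270893074202396120744809205622865923041681801220711139790487458029536833798888296217883270353231269405863443406209099193396813729448066303739941769844792544625913305196433707978498003436380624456954607254435519425840383650567229437523539018890421337254952399142631092998649758303592259501258314466803436295034752956884453923268828627904183896545643260052750752238812497913562452517177071684638727166893925847402200089522102795085016876071659127947391055824052778885764665390388705805964921348213917589818417094020444975695973830750304995792754121244665461972730546304614484887980185469898718126197287817465133712414825307494128267553604839947974058840496799536830491429460306124635000886151337049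267016414401331020783355628516814910852370580438746144325359454038773025985651574191589151844771967259758655797213849033522179110484154016330390115898847340440177844944025507830569955608611745506898870948848852175930303014103810205562508119001877928123362578568710294883926535441905973747967739344598143790574861513111079038869491989499958167875500901304429787596506988273341297127964702105217748959382435744556204405408625153028920802986052052515042937309921832061850775884663117293359609362237077767889676052943948547385815744321850497048936745196512639498942815475410165823503364724668024102166029018614578028223328385961318011220632464564964132034604132395047620736794594357621611513359096693626394208571676828633143657812927788555378876818557821183356439742725450325114421056410745174132030630024398117433082573566561620732784907553746631584800535458149111684169074069664465081218675384889665510566555255543169901122187567209520498228751938822782997273443570856674165434155165092114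948535651062145058115057304066400157864983723375298627931999453443816193113562548979681445425002014270707633180285989893205877229258597180612639924564502048988575859962775537312854048077643090379076465955821611134776668098720564901244765576695286922452651229617491439272252783742750859279038390713454484025143529874977281010654048264416576695659867233882253912903046007930050907936349219115358777461795035843605346548237905789977657954186870021695162648700706935783789196792348254739831453184738347885678843480825307681465302835376542525825420724089643235909315837270213159670478218693373454639185381170988959804071942354789216173718019557818537020960505315542223277041939887273413564701127413064202464655079473511828744275457492809444334906488162990083797370467399332394418034597400510809707230029169910154232948637120028024143569219195971992702378606488319207641351097924055904543121058530976943515135497346029412778530206924736406453246968021999837452119955287344419517168760719696391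389009469973070353479614703061975542651628767896453017973649508400985971238538623108139409233171009716467021748077441630975162814872339483854642275179100136088176582214662164721903333660454728040441550651365751294718365051046770307404635550779952473926332027577931137704675120441340156709307520777309791599077011842859076765843731568231136843385232517228206380893435059860914208217986808667547396803763965676209660540405611115087269509891267909985490131531908690917835943441707463266576452596428609601302327938040925241059499923524497524969408017608974929283230967167330271284412965915997540901819247993122531690347287596948862224647375057043061536988557320362360343050721522830574945672947033927469891840458089857584285095695265448206420048106560053983164011329062220027841426914451875510163754026045050878227596240202974025479222956061605836630244136040033656644826188052656421872332483078324978008950584071583959214154930264274934930516034923269113866291213064147129048118757664852992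428745532139386227580932063745338548892558763612607305803953486794211591038235231686281644011255185050003857734554827604737602235932696655235157175483984941804088320498886132814915424407356442549649367235471185645819506261036498732861595426519866785280794642408737802195408446533671710123500367009703254060523200215728915269873657008630716423162613092785712105586226888547045357399450745314081661500787153438103630374914268614118533501101141927933822062470502172226856118561847341457075752177454021231396662691892747020117267843996186653088891295729307972949775555674610933219452144918028330985508255631568250540852060005477298760157471343911304294156408076402624973149122887793183614417722588012628625358126306896619003211076783608349479046899110272624836889933843982190995561000323161808429536337123582343052618430528727989256034613524301057807549797327130303826494704680661734461446676821951297177776569705419424763662210262913619932545798939184068453466461250367806962169170653465761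224474654856939416430554873461424835268340582445843272666131611869593632686525111552264303551065433839881572019672465851457235325130606507578714580668683256828068875786004961879802305302969995699411062146597422347346066453189189089372428617763314619949988925475643276216705842947966031173973261201201833022613831833045368103830509128206814102204163440831916180434043347939395129141790693152441523925159963911261164459194159640268006443959432714385828378591353882124492538970367247765670887106148575715532853278374708761221500207743786159320573830815580338031545820244879156728584575289859276105322603516938080742956613240097267203782825356993353630130630212441076988424892836205815416087998930039557149909317464941837899282764514009652068126381270524128012859528948547270541789633590756549045146746986596424450808409249944779365871186486688903391070125135076642686670150163515997546655752782954516005975493909263601029748111386815026336262323768330297102615808610884896313631476968558640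151020798558107896329457219396037166847698897626851310901348425360747692936182494934893293732226206861360636693010874741192973062805784876479198975859962575269903383599672162324544660976521218022741847266734473871429011428761500204152309935472272091651693362545879536404048038178897297960967654934442665219596109800259127836820492108351917308922387681126392510696643305355817006255263648662502284552860913519928093966119003211045209905690629971515424325013090117302550891351179111215700903567226518871931008788259667591305780223395160403856986069874899765197404702153003859184252064034853795657497366357442265595841052198630493908814943957742025006290700980169102048968935810815453684504658520848906639715801858144835607893954888078530349609763685156170779901753577160217353721841359254230890446328932640162546995407752574816129960864335615646937048534291328244949660274584990775119482414463514133151289712602166509631305587236928798846160105159909884858967817130066914509591379776821235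024596206716926244118900378563605802331490319837518107632782706985629533895988763521876925566029749393461591142689658196734450383341841793259723979752734472874103037699756150101079429418969522043153854613437648931153455782012999087249077525254229987754720657540649647470095290885832823159645277331532573416872456528648539123394265452166922528080519734735636725141810487637156954202745585018558342491517605065025870385295310766616006842207715708524084424954711340613989332580448514478962911063779695123905074950767112065218012936465711877964840828083331841633593409098045983210063920010601203768702521646543765036112165177242689885375800230373319168346460245594851353198207910318006783629375020393714590068536660344852810033367635531680132275940000860135213863696646192405767455605013597939411499810228659410253839376994471258480198810391416555604012484344116791369596411293236070286534940147146249398213411624060955305462425646512786885760124716798729445583862482182659061405337118331184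43418150684167756615430279083867962535987173316779524493713974768062510063220778267401929876091635425639640565065569370552170612177356163534748947761638728502521942058401840855317778396377949577039667383015589515018506802954681900223642803664425935058264274880083263792707301266902055059798026487740589671234031913289354052283025369258445018323578637752379567549333626020376502052884882237441410495682768461815977531161115954865621784378921199653510938300134162654367932863028434691250706865841333194133013656550527398150851693087402713971532960931603480108334676630801286087040165391011429250703509057335558316731009932478905888438826588500344737851986946468509959361202848700354783091093587782204135996668646882622353354664307734712894057958147214553361310631990052940641707526495944431060374548792747413601683519314240302235013415885634965416986179779456028378005405057392945973581528098619543793737477139084282759391234112149113207382122031196213456352529617910939350716688895875105046109160095963359481954304)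

noncomputable def rc6 : Nat := (nat_lit 319719555649661483539371466102851237033541257937899431758277741789462429195710935761882192971410970665586457460474651850172958094290237483512020989802331364043859224444031968363152861354336263169208702585527037032325152018022917982263233744906818732311939452359671442589086158398429506480063279258792176292027028600265730388170079827709458340654148696020461595455349825181877584472451446706791497872377529284659206645136591526269234233891730484727032247276187644517818705843440938047592969156346933349179428471131906690389592791450176885977103494777398477913522040086027715503108430625698702087118054787872018066128535469721301860819343002117953834524984555875969185809411390935696712946443448714968762670381319367523401247108692776531417381570373596255299362319085678266526638542515358272731458100779527762172422884883296723135110639591852132535702367093729489427561636357475073905517660412407763740653944499331881348581400735173068291202412127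151289052871439774064736291013610162948062107105691023853492395319120450425683899135413878504681561731307505400751935735475310334407469986621577184081868706602081254278925386941470663817749451119311930781020079961397725558780980719952942806120805087945062124784790388746645651242217864093506503867972394595420522278841863364691816760861832689722756539011346101792013176465956378082544548801174250334822804354586542868106012323357542344489644418301523268308762609087191205182439279064350304696447195480055543565869593251121113378333447923760202976058463443865179988018849659912000003952759747038474453848546511577470818057070331595039363183314895574111131800401636630920794291823500215800591277952819994572346615163993752451702282329124456595675089642688700169746457186252849111609639156075054815540262813865331368404992025646564963066742681565770023241923114172982470364095290136731576206357945856311313718159444400514208686864583220123151751840994686790052144036521052713016990804017237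311046207718857481681933559493803503617802290257133179961361254137940629738931146749344463586459495006488504225466438247316524225033266292026020366988067151697138878455156803555061721260211427293035446635320852117146623063984593789712159582148453653435767118628086847707969938673754853929640778427438201118940363643777229474847627214923041739838274806515490633556479168539317014560627599455249500576861551354430824044284924390116343655758398618491420214544697520159333399886488693372845672422279956486073016604112838222916511225264444479789769714182364026810572802453171848798127451513427616208021692954733621359135969665262331756858458044634726678391497774585310872267230135449878762823442429140644724405353892838633180987216957928329141134608011065213837345267348977406704524155912364202536355698926337967219762032897545544845447731932800396130254156107704680096402163859641068135667208059107499030564369132593018668766619893817208169804700407495676936167682604235481412286744990503034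319811885964617245290925026870767628637372552856994647170794507921201519563240342298573356090469463217536292636665357388789316242675761477042247695861037876762648547666849277930494282813516610181408575147159399424560010180213117516784992615687948448438032663559731018146966181829805085906413865201714623203686507588842854639524784964965075319920838831337849688292151261123005154844824615692324481453053480431731192873741666265404037692359619770735154002357008823394219594498958734446224908774784143643959082637637048812610750626248409274108685448334828195312121549562678504106009746697021484189632363969047012004159095367503903557850530587053370442324945601163255965111804865710676036679040803658580325580134233371794768608436045071269584520456961039415362431708159109264456317422496076974458137404852423263338305077565888231809000510957204522894971972986403861172693311002089714896863390825615311446555954119878925798898478177145809076280876847426288409605094956439844891008356663098521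900695896467725445269455610469493249032106572546002055618628959733516412020103980983588704997676772308096435871930207930392116666553701364142138031814533751824092147276810379232180765939326107927419349254961804656494335292578093355614868881594758251062146693442001590699074433150341984837676771804926329505941936238173402871402550389210835253162016229715696227099630281719800189245520414117979985398625147031117666959047152932568662466175841958505972987195522802799029460010301456034862376914460765231017531027689142692094940623798736325115036531525436685464508802258265139849448101572626017363862639802928413654871723920094304805846856405103563293662923598080977125753220940246231479080774892213645758012450962688259800656072468358769355732444065666486959129751185321698050415062795334978186131026651538227932728826139549129575928893002166586332558543662951863579795229050389254118109889483059799234205685639605730061937450705330865932780271916553179347521825249068761041259273314070170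757600484731210154427442260177995936300210228156587231302423265430636021496567511739300316883973964630518828818558254362081468003109221419406142746063956603294993223184953433163278360034225749116342300002390510271345217337932237627727286960788664225802582030688060026454087508013327775974419017024472851990004784876152261032077832146079214962943934811871417362344109147291216209306628510157731599009771249547500935586290162874944100707190146177284887097566548487042413175427001530827848349293603092823137430912948665683531217006534073520560751666954194881016954146625067910951045328291788658439388830195623830148976352837403714433111081675645973717278225072839514845083837418171535990336218027363554061145267255955995270050274797280242220435279631946660624871608633094143456748914342971951635214385197593640871967052280262788218541229878988934265856205672976111931528105718439476659898649560956200281844626999780237635538999389949014467644885521254599972446940321221161016538292631579471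336260160901408639090743449328754886416719329069657729217767040932774236243528902614764181797623480590536044133206111310308056151894360205744253701431180442589982062929388445246255555529188409514418698399456132523591528714850977379050566492966209647729082995802725062793608320414949304964270580393986280531472764387826351427988244406153851854578554312107134633094010645132422864625121480679744713566642659472894495551453748195938180753082357558912390770465535020951805278040132074468119511970561043715148550985435840151871612183004792503904097131346087748098723130852796876732777295652007202963639569481084077507281031526864888568217483724959843862996252411656217998384439751088532623594458556623258941975789504609513087405373180908098681657607929969228443436122786923730391045327132239202577548692821547055752187068190851798114462789358656561095429869991524751516478121376971677837199582701214681319968357523549197097226284145119209927849025699154593450558136414406892189001489956438099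468377194081194259744525257050902486977434375090948166172275626498652620736574481652778445265338988238859663424054563784471339513696174856944656518987288357332597918967829910724196423082185107543838267181560291512549350156785971015270517499916199855859100972110615055195672064584086918868651366781579356603331570584231374295365988226647119048604500249853794221838047187269250412219608248309834523405105499947021456939577351683314314622410301003545643047113801359945612451014372666658126564858876751094956345901801034477872771175461775514921964513211748467345586072814135508129853835884438127109148694970642876873616221167790610654344816942150870715315253543227585622715352056949442574012460873964002435624520427201164365803964657258781055555326917581580476961295751921726040064895011221465445863000596657080794382330320518926396937667741803662666888515021337620009646164649043272596986680136626505449759767066591268645617109665561623422806255553999584347601213125300938749564733479043659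968368389777229753354766382658637455166976521229397598844302901710529588741709971568999384949861229730940256770116440564075872741881920336618097801654415799187009509763728573695440412457980261175526861698483783407791841289848297191057115167874029732808893513465462253212113935580197441984547645344461018532972713425734805472591959019711627067180370365885032913736236975375074465989381475740283703661244100257414228973272138358137987264275613365587708752275554821076036187533442807481660358099122436759814260206015557826000774911908599482424761830634499036017614528266563459368516357252346757491609700411267008462881588483127400196011553907793089201608236800945377357028070470424239138423173772406704617829873493574901747826647624945923221385209210034462390786080822643356748504998609833266457840953346086816662246828485977704896701059066838375708354086352874507222943901697249160814698229371855790792131448225198791668484138028176771167711685662652455885682116949227026014269225607039204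887106531167725728867404459086143415983448728102081406876694336742293491021547911271749798975523617908319777688169885184821531122220153333213282528455778957794403590526411419005720833044124982676293590308721660380473248823166251646645339575667303592714205157683859802446695680374792818083935910852063335982945175321682418952751416466199236728594378588480619191309970731777518923542115648749870357664611683120439676935360868677197796606079888781599062678489546049228888728080108846598495912522434678580421144412672209157241321006867654656084015302726928999691829475473430524514943421080530925929375052652667903320444735846554425993245566094272782066179622583306761754289267004286260792988601457875270544637952865046518276183621979984599721325331086635379496045461598315017059747534581671787955307289913552665003964893825742311540969621973360385639344292943598333544984082659769241266015405543268714343273528823051265089653548476236966073953920383902270986006382093273894516034873802928884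179559266074679521339133120036886122740123641306270749116941686509016091076906093197104901308767425891794800803813907337916439443591165956723597532171840007874988835223273403968717669761257130959927959322814501867681629814896915852944228052897595172060284821675929042272168458053272616795442415448806736473704727831193864575429738504110227903971337399968346766510837620854680153576269844269502423792351452232234213635530037726491033181580576675533250988714773098589177001133450359345169621859267294044654617232202920759785815083735784273938589361488750554664460674606743793802411328531993743200202064848803678350077755494765394830767670608939829107374827841251749522131408126098476828910433271362751713140067896615070765198811945127567321308101706608484709269082821564028648609114355026972694131397178056697744003578218702657262674806025798143947685763929916872917058524817935476217361900517175430893093431566530214385051529483683445716106751476716221285228858239647092053791303473132906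420826391315559284651044688537556559251166956118197022723284057491024869436914022202234330066014291038960540899434743230262317396313268140982205044349964983221470052754382034525454341219696284765734581995914399883538791672665802344709233299377006348502879340366428300342239149814031493458048802473306445332155110493308160876604322234642640406382337529606687128253821995099909911320399208169020607976196007377080398411722362000814628371638738070055949084976016238501046401693080565233174623592941777671747899761357402388599677462145525975188334538028235279526543953932640536784997476554745802683559230397690249504501731816082926149975630954653936166069218105678964432723467692303841822480472843754270703020931715676964229650405591401454881963326291474739284125593284362493741952532890640276127794811308381148245251565294502354835278819924624679004906405013311642369665604952656985670196091220692931006831542692685905131514323466444168645340365839438820545949484857037915128843932566305619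599099893485219425589660696154398051966904053121812982699667363250298278098067724161450155462025001960402867596980771081146057459093038671432400465104706102594051130166047596361645663671877805744059188261211365695887225600809292443854084271494214417490119435722876240465825051077705484132700810504599228195752696710591680153021781353798532525690625628114265385041584976845376177939615283459326840273493589081888288660557385908427462530431852226635476955603610244621798458062841787406481675313707760138622427479454308332794766410698374576310645846497543976365911864452207219667327992343421423807118807850680456855674121575042912763037069504645947835055144233806550888133327569298328144733751514764219180900356245003624159740122817878117644269906021675634611292333355141386357095748714920360008840557298129963403529193204267623933986594955909945322335969212301092377403031802847458918519352527399507829937217046864262611826105880687693695347846289753745193159562239416387882565899308835538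918636935364172366781057733456609533709957619616974828858037110666389280650974891364626323067259986285017478078279663814462319025103091780165063098381190923460572113210134572007931828012038332456815398043908556790981786723088939847603425765942877074839725495388719479703481420629383221490231085588446838915000002741706306811626529518896906212745461469336856197077253538544845253422490965422206734213750665410850890216887476213070788042930088594665683724269917171328030805262691138718832377893443652021833438314946573081806247906358314152707993149506486148576234992342941786908994139035784975253524313990230220416830984573451750143659113838972452740591126535152596286071916183522825387960052841453180083020817770302332430941082489500839185973875943311629104404368146643750910644849996408392647999830818247509516012163423465219143151466083372271918987590665214266398143807712686393984551434862386294169053054453342695213191034124686646395589287583956716750613315188148262286219157268364651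072953119171693214347316140056629725901672894490286896300452457505751930765574012847919816321143520235435299111448897224573908732077896217161699129505368134276599329500258683755492624962580664362644481142462957428584810495254584265305353822341548341873581962250819407993641961422190638422935223221511646382252855639040592670318810751915654828746851698116662361871649969323137140258078978958542379034814529297575368138042376746642444521849986581950996111516837403024622882925721770934376800112144007100792084229229659913342973403315508465653327583723950031738412790380298263955859881087651577200497967878104501984393801298542752197812481345059893810117743048855310769197991457620991443131319291435870605605778285842221553253872570626813581269902217276678813700126619326522248485223843575900872229246793663423271066305866263701522517048181913081077150890853370404141445748623490709537868863935800287759079434939413721780859987200081428305313866254137104923410657305826352361003986175366574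696619456698545285252175552391999731712052196059328859009359496674253227661986434485242966907439333434564003746908455429288156631537962815174444529302599987689169963640487123383153238919550706794685056959303825403426437327312740991835841568987935231327502643599282110572425117296368773806780799224595081124308212672909998721511372117628182725814402554552944050097449309763164886147237134422719133139230192513071221028865176748630168387677326422716035743617388236125725768392941086625862291473310518122787983174734294937722147297073271432402311812850108075294891908824704277305201583220706166416631652205790239438649126228695796034827289257740436563284829352909069361766064223472981633621059380188879467996101351997191050672537065595669003385265290364743508113569564100207019920424913127540457675275677183457251311794928648250932739491537838554374933727265271223751252324851707901816798079363604583890806454833962479906896965775108252021482982914695305086720645784006691915995677981252372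181088415880912740856025867309383648460909974987701328633450986621383398128040303386693727638427398419108592183694314703126688232677615772214268857860505767157251675627359337942643798137894760627854415087577304458045819942317836238605150007295600983373169425389347792535430886313283331383076457291535075156736787471786188021468581406229292529259242915712578190842815892363298781879760007092072251290597628729222843613238347213597754596483509411343705860036257721338167942616357894498444347098194976192688282037114488230306760643049222695623775066286887248581757592157476394761734735689563541700354449911429238506100464282657325217166786368499098078726636688696050061594221435315528945028702207889069256825730344659047323374036183966984477204872935832866378562699414023915174820331946046315580657909594435231190032346683695680449577933349828092641230074990688908449291647565439222445243285455552927598391238977661206718867566993121523895502161798134847665347216561300141280821066084780194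37964322351101218830958338530676259141381602402189460679895122694150518585951198701797212213453400976497965320732327196818321172865188717912896382290048765921206947009423310140349847895627870786316748577704888505345196399343777097503770769906385725910137656768658517170187545202770044345859213543475690312084814671826363624542493460321387050672630575640859691878770683980458411237711916808074161529730618559486903717048186367326072175823490991385479616497983423353919422234144882121091385649837090130573791029848646877486126546958074221854763846015148010459771856846854805689659493316021244509984974217738895630077744086156844305942178950037492354506907540789362300703604035704979152985089301290679114090665690414860935254553293180328616927648649782644394526918577425727841611092505587057557644479961888011283800909491406978817369435583851194372856199138303341550798904667659232773835205155236657983947881644071791841067129133941445331929348989087390007855487574713065698680739852547648575042790613117629437575168)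

noncomputable def rc7 : Nat := (nat_lit 320208490728343875303013137340256633753251888465301007328202494247460501302144166333864007041130016906180231717013140126742451848972364910396955371852951307132790522546725834064554598887598843787524667140769385856106457717162050806488993448341441024281789471477381633506758713914683162640745242493079979706817653695340945974315486013331655896661448685294217437423016086280793849079517244109006599425787043712908823842709745586994191744304055587745280208090878485357504241995925965008609083983046125795472702420048599372978585138970448299794464033655300294785088393619640388665506189538064008660446764282065257327947188993210443192878442678472841567100733465861917390345689765583505570703967214369192931916932830429821001746202458089857766235640362042849788123407841147357107514761864282212758523953588793585235014499447811261028801296324191644336355901159005292950381012733638246279398150371849410359355014063834448926474833835551213290210164065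531770313180179530917856381570134058720779313805476355256865382960448929713468392030839600959479689378582844885786393147178949687258442856768554837174608815814289471600121633233328700479770010793312709025565174099068896145900766729442726968538527808378713385017001860750323434789192223710401818450464659007201853092127774967243496147815052767073142665885441279813048884208630313903608114618829305848262741458957311022152364353358113217947663759195793916657177147697950994751601024585091914828704548593743054917700631345582563071265131684152372229993511075011355311194732800809566234028903092743984047338519676090445498890082017138129505425402653209434213703027382062064653786554595584985469078983496089481036568283039157607596252998175413752538624410366378873565231084843767925479225301151936270028760495860461570709122023538382893735326538285910779164681063876949452898412538097167590180613076696010422211635551911044590283658391997579965979957280511107190338921303369569531494010550873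149830724991153441638667440102588298385661107470810805611636335047220263603151541075703044025729569438226756305410500334212124560140472955815534124722532277007460501641988589806676253613015127745824954760047771577470369823737350893923083449459943669807453853247765421802134138949345085795260140330554320424495436361428127798326191364775821705851458461263413593171047147954850782406632302254224443821761568760758850042645882479151724835268631295115397456575712439755851618405717887884577416863878074397806579724582285619751863041900642928616139446996104214584364495424879925834867107446156440547528990628879432540040733080874776212884360264842879559692146887568814615036358009131230425047829608531024883737804010220268696174694758888933577715907488806955401086027409852539521141461393016949529044749334222273496391186605788247181549331097818406701608476272153394380963440613237190543621402770167817573917906946829941003268679931963730128655967868218422414067521741521214144368958849175665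492956623660951757824775398814762119652795999055070355845642792165321282423302170429929016483609863817408476409347410565154210748976547763361253098844060281288307291602508439688839596282220608326017618772666747092481404121193982914706090835182320726010890021789087056449701924661728274201587162743326348316579999136013440883569734304391013481625884251719915378675806945187245119587379162236652728970388877639477771699873658354710431808078730155207483850486199402968397677689895170747873989845116131083594478322712747803900049811667266617200163427248656507977895570221035785149358760539222818662766933016529084192744830786245193025718454904395219642075381697206994934695638654752301242940487005178943116334907497331522418843147599911457522710219437182945122246839728356959631604872853869775175701790050431376564318780013853985583320348053109247788696705410685640220504034439758214681159997122196841056673583900584440212438813753413235859145119371169161033549030775818272698120346939865575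231385254640847429664895446820696509580331440457353956619230177178251410580342999116285064162245275656618167728837945069662037430565113742448159574405274871738345877983261283940176337645799356214995338927671642019031148848634062450331625359362467127892692199738304091382475811919570273192249329247633714242276640236200157136862189401457683359325850826860246044772003218518282712512517019544368899701473722083238953151359360772443239032834906078697746973864083086011429337500820214671644890472954183197526948759187446453285636876126995033780613270939395160937422717910749240602204186686057339642876564614267279999744139618621096131220205338361757288645534418919816996521480807391120374832454170753124142767320868707325046616718408541438765372689865232733652246832601050500915916066841128726073637948364093637033778059876129828668088451920337628769513208578081193185404058992616711802815011492375587541943643172869166533438499412121192096498628497968541342259462381982351516327602659665461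061045202600267534858400903996974912909947484343696749785647673554843524603252777710361868707606972886182519055009737268293985356259426802997754628641523359284823571777532484536947898920081359910610396334460029902605989921250626599944959885986960360507020813712878263058400966537379291832547099015766982332319587642635295243632263656216102473578176820018113551996074285447462568049601678357878768831362541180497802548993899016909029381015926856609050808670050223165992501201764520479598154688426893425828517314350875913669226868378900543061868132644506721026328376408799375378416270696590974332722955558887850758439555440329950788611808265408547477743819565773154730409169924694778299935542420972446917001558999129687232804633106195952855004826703564320164727443246355001026926033456341260981315223208491046922720795747172972096337668180901369784733836470722658226294640922672629587498498469885383952438551775626764218834656326013430033683281222621387769844867943892400653336267818678458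671082164453504815969900947659135184149185729319326735678323410887183544549662005358329697471935982564528967642837441380353440917947505849144677367391350649283065534132378932875850142307060976528999017077014086078313548436566289629020452737626335538953886382708132575073560701401521637487642921360414331526861204317242944217381659451329460662627582788485880432947330324606201783408587918335185649141865800516003298172531683008390351333981027550624809378422196963162142919562466128280797928238117360313378639007211709832281714441830199442907688336547234255814213048926050576053001986119038179363191650475257928701910725376835932045934580656178341535827004431789017836102636464328200434918098065691497278138172612346907684669666040267330600313089625813858839745654492960925444813091168138294322233827796915459986428186504459293806066873809684992124632095820834500664198497466677757974557899255328210464865721723327453447545277144965500745981371742741414259931550886663846325580087516897109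013513933293856177014149392333761430096083798335081251013032939284913623270785724391999448258485143127910515125619319648051940590413354987756652547499460569232426624625196065639950518580617313143410684543090050502006648659555103988129090576407228074482772826501032609709442760701385212879523373441087963511564069274777598052735177043570524959836144506708583499851308755831516509311691877044942766019722368199021768804100799506569637285437085773409592879113105268167721110574697253427275919034906274611109947752448149528433163375057579047571918243587486124844413454249353424332640321398511427138725326763035185936640377666977641177639770760005220618257292139824902479776982786389517051408535684705502197085520808577433270424813820746577161828370464780775793359156085763137021693668334220894012613099188244895328495202527606745193625198823713449942490585927362976765728454269417556877581196028728999203337401981918718585345036609961707073162956981963170874697727343909330966150351805445783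441586473875452826378965442268956189548008469118773788746458046330944080757631425369621655071841162172195007128048388043972354885527601177581415028740768594489267785148403304282334458595239858844209730829573481564460546457290526348328309880336549169347412989478978726003310367528072784069927766776730129151929378934515443722810028037800944768268411042859680912144705587120962577594712349653232009996666889018997066351385228022045887787440901407610252478669084985114568187580462214150723271540007765773500387309459633630300845509109747339290202381578796525226632430937971178961598631970122386432890510057371064864063700448135047301628047704061278159501588939553966004952193704571548150921014563289109657242882880623527770046630075524338588212672200733861347284889769593111456378478208929954995858331614063158593972822148165084881129976994368752781278961594126079896036467862611079718811112153815872560671720215598282854447765462449383836445157435506665638997833736703948146145489313852166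966011415540373267232735278582369998876599490023897428538338100484578268597230222486827601719891060695710783102891802869635070787766599012603312902622233306978714871616351540626482626224842261072588222403644972927839423511436230332319958600074833083053326278515600869476224036272654070250580041312211864377309641939911534248496412287970980933037476497474443778732964315519427147861707617142628124672954224739950141710232079149981049196800951396759040575651486569861129628516428351984982054770079464347823195259671043864449547019007988176866843069719958508242202150644273003238567998917865099955136065066101675509539546817199400279236016861969362424866536617812612182981898842966334233564392518908531096696607215013450271186321028541158047976965106221020420117447356033382984739420143775431198950095396591214971583341141105148793532334288345111168449211503259678195234905284795360390088031844464184597924537926905223101408441809576800690919210658812082621528529412366412425816062686918489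840783050692622218575435444798779895604293196068414495978944468420727784490328203930646386573900178730741999512262936992513986041385942365792255645645353555065177283772487917408620627665102142885422012455115983204024690884056211464753866974411511640941453968387065319253827860392113617082788405092348983337749382265724200123842950968137680553725752382647699243444598824139634069226367081851491590824868193948949299062611960683083974181568720986124969132089026478572102809917251612619626279294783407509505368791794695807089012814146889551091533137424074336265364547255201644542749051561911906438292120104307622059865731709732180246649088178979266794473665520338143753831488047937940444117002456568158831968776474829863561639676430784391818991393922081134125164389010660319236702978634946123478975697958010714315127153923362106952713117016952489068687232564894005554100693665156359477418678858848184833943090136617339092751137861650548821325880138161852580672523798182139899098473571486952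627154977201152018251889212628336208000098129141179407161774598308553393926587204710869443421969952407562213709901799517789659045742088154187648304541531402754204764110791948897534531537644911348937867195241293904118394246504848002780128431244172323672824522163516134102301823394841474792542589655149257638926544952663848459416599862314937249652284228435175007515923221144374324360347676260728853199483044012776219567117768089514023470047816444715243709336673547046932577237859907819944008367903989758202316054580468822016688724418969538006823635721549249969191128277499114624130294123460146860058184721990959009818984884979364340859912169537613183294753536249658041932822271760480227510216082181922401427183811643342010574478657576601589921615863666980360420778332385824845866208148673153771433860877659162743576121768688326737325132846755190200912130121112419052895635705743298198854215320670761169895003204587155984158848562676675526648292255027859386911967291099525935095893636845981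083373517977672180651558326044802979395500147131402819990742688366583942502152472418783819860513127532178666195625699502920174731938951070564129309534467483905774729188973052869082527486008458696548995605847477063663108785900711727193855913712466572942310868195357984242245914852855593005686125608671493172669808157976724827362358964770026294071997456493703313090705529969047388342781390426218849031850745327954304974617235372479198961768716789074201077429332910802384035177443928640829738267216626364609315088831362605208794724987750219855554757571359019828257054005138757766930589574521350413064207641807891367225078614942778256932265054984699223947305145846678801036625116986348488483106682042817970244383707109611894956699725345798772608437442852193446976640402011826642588575462767992683368299446214943888235905866031596928969545575158564437321298094190741959332192841404918378105416816880613609844161083692273767199078342055916679731749893230735478953267350363145326512508979943417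460538145871995940930576652083160823520467545437709612243998884058649877843579151508319739642336943736865058902995520504411395807076145723156928961590510066970828008325689356280137647103141449072494774460760518478175116164218853063565029330195909985473841469693758956353931961301325864346175093112456139172363378088421800216990313301693991907243307289904842674921572805638379711372545961583409146374174427894932673362575383892058494252471224662892387309883144675331684537940169771946764899496884588180202096649096134535049601396195873927240477038010455551763451224106278732067842597257801775767309956244841729709472426617024203544878862462888396379490732929302373748000953784616712319541951994207966067957574256656913112690846682497597878351756252322026252596547995913965480056188432064319467223168555904579732919266019100708541312130796366218612038800826019858629491707320604781131381664309972334978862347398593921096960431494337145726697293214789367007848411004764333721981896199191485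674157244255375368589389035116539676394106707432919631797433368119669539848142387971550216011892901240854840970624909810255155202379003210012147592000990222397336219210102839577615478740590945992447459585625514062497421396840366658586763791139573140847190879085560441697179206360054153101139759499127911537728108347878874537023971912494437893616957024829721112370368875705912931300384980058435266165699640183650109872756749049588606372477756224068646279351819949292750875362538698604484469049444670383026169768734809276935721766925123228674258788542147088858273598792117058271129551521513086905403773175700278094005231033035255997581655202546424142151135032085006019222209602599666591779291475108296764071271382141566772785412374528702073469672587322566679810010419480304889967034098784727377811470319694901821138722055600596676151245827856092924898621797774132990429335744827655671033208160812898074720708182490801033595066950113566055807352677294539755864565365198183032812159561911949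258381845802395859679720492243153981107278593721294199461375552021904106657868110593446299051357518871904688753637269960090579840958326511728102686791279250513962246133598874703926156943562398433007839307452458829566370656202162084424342389970622140503920903601006302394949396071918173928074703354950275465757994751995075116508463973585495729353593973837424476669775223421481825284472624853364441841166589780975370881982473911203344905822480041947178222741748714222423715557830736507534689665548231249238718991557986035299661323310358966924287780145418293597626190905410858553036015463323056328218521870059192734612831832777585696885592037204327576413474627543082861458181487240640399937745216127811329839789280857983950761164251231778796978864023437281263240966168554530705019286439364605734145936759578406910725400207670496517021311309622309990642848155678629700523004330186111640890394798843584971824904642422179883956540267987140283590996818057760879997110979789484892713623769313202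330368768270900431990587167055818362186098215826909454909645857551728264171427068099572571706642223194370966774993280523473474542648690930440901089397373459308079138110341708659944873133359357790295009009532378109366015875732124105717942722287921178168697529720430262694633777163711166692213796202577011307500723105897517773641209036289246329842710814355047240690733068487079415632543521751059093941025755789500701401204536356112080646865939241383851499379657678403490447284250336923748730587104370367773779275079105997106119098360275659634290500092380578610781347656698164304942004436059260781827655094561208274585493715336646779094677124688993966201498017101448795422465776470679964373155778565149665939211818439396223811470525544782808597105501382457884127739142321620409480381514642286278611571548548939477694625276220250606927394767075685855783147423027699041272183807699860329027795415816712923116808459753753907811150180372133006207009894594427702549962163499538615696361356197724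85664603584075700248713518243384267905032064857031908823533995398610208963410300641393303747684137569475412120546179578773261041421462516744073536862315782135785503365798614220996010889725246814683975086807477912898144429599843063201923368345408334621711788883256514871163812740358436975931393247614724838388705099044601298701549301489095940319746067416971565291075452649680852580359872259497721292584880922213147337791984101682304325128894749860534153320929465391272773879727432927836049225600086128369626028074166126906139815779480473644044180413041815870640057382529148768889410106206236293844551847865985700141620085378938829568758930570378450779078126867445086398829992131384637209935924683410734514644397494916951413491153582811426633054512607705423164755192867105827611068330142440910343386018201537240072691218978165868950626331216684321489919249618415158716684540017100159900268174370635742007346288784469073263001221013264651410074232923205003551595934455208655323865903252042085370863666977022402363392)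

noncomputable def rc8 : Nat := (nat_lit 320692104008710078602327441509147374718586071572698911183621037322263367132352087275341259357707873274163816645899030284943155496082570668998978796670077252743002474871610966999060233788942076872980219576164123000360280427020980773340113259865057757824045470398329429414362005280988713081891777873891335503752981044264156326528441054942504290357469996405837478438004478256733167299197211185773782843282235931628876946728420001551602684067413198498167676767803877416306908897949997555063075462651077788746921291079492703244307330383641858250841843354770034590506369456762169737635083045426896079199455863081250456089889582131352998345751436494142420375085184131331912279872745800694250501436303500973974628931473199911017141868891621153976691592754927731008086144353083229241601375731055468416053424893804035898308538475550331720219685773214281870385022046941315429411204954545449312290530758387618951488916831974807826743916192659930724557134668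751601614062154091372167614816990268179119657206016962411744720403339410961809592439568586922156539556985842327165121308814064342846296568658921264671061294525210457941050331278606090820189960709696345574278308387256570475194772439299534516362506652830679902873641355516709248025855060131773689456467544957763206260981751398808519728500797682232550218547899917977504354086226201988022051325978026418229526703110641199042025534527410945300469553762517888666849536191935463545710123392794670755208949503231891557767177450297783483204740945974335920973018867700153664714013781241054657036394084443093170921416701303257682139429818197892805573992189128581378676559747781137462277125320813592315525005184756143811626952697618567499631259789427053717770895292771024101307705376560927678301672339716873054958661158674405172888871500790912772370972771835905993787477422259873042748799114247720391938535475529168890077389016978383872222254039351686788101202074120612762245729927168232376972801224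760195734233951369789924477930051300345369749766077007791088201038493273340973849553751410671306777458413732378047526093026098289938467604337544437339857081883824480748591182729786977716711144168473352633062859055059018716445848202327934322640062284060490607133975595459026097857640712514924092540262781422553881895599600072513126465306400231353001890664937424794399220192590164674695892924902472151939679186721981924949368141111496465622568653829499535671997600746048386515536089652104135339607384820513010735492679295671137409002184067155996715947295086446819065467962623863562540864741183673493664255080647230292372995766753583211538854513593044941395837138073436440153754457290204037283709568796072611670367098461431515594988845233004474681219089921748592956119889869511372608599028237028974759727419371900707210845541546105330830551101389526711529795598343245798078301303033159148266787317075916925692277518516301945216479296078164827669887173037567673281615540052275656850919473771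893107056663847720183123281329070188132673800094047995445482974809654300507609204023620205303089026289139520918739696731035092291172971335043550519582530059084866481923201035858923603647725559524124952257388911631218106644622590351355994218936939359050711784271035322908726354137382578625223159781820274642284311382687295838909563404869517879171053982897397520822122641517325647933573475159293703183295665747910384071428280243969080573023482443256634726210609030052979652525701037590525143101729451646946836537978612925497254181657597167629094137446607405928561517545719060224839044815972695294886950005724809298085896088913271131792288564633670908333232593221336140759595877125721485038508325826167207529697453329774512198889744562244937921688522914623079632182991818039672806151240275441469816490728056537377999628145729140419379764841513711730648640686812667647604161209165997179500304289765348710620821740393655050499220030692475629673896101052965269946383738867067565884864208447676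371322051303713637028600589094808562551148085746901194575889997238752155655794312830484037712839828778797844527927666888122775629025004181714523584156306976621455256460695467414975646329295803321560089067893628894726545585870069078895246230963686063860245301387980755017475022591028644409059544363155727085108698454334654414112549774976890707397941905514353967780501004914815765909612799054862087184173578917601694739606252303711838454416100821540608822013579697750347409866078026290749595468326563898595111705033478564098208417328346792669886145600106345971863620475123958233933151208160265235629574874369990531682616161560174301661851408115764411234170089211890247206852186268780000153540691768930749612440495501515044093382297195674512795467858773821835418918227408175103134421777334840355132952812864857694369707974684831400356069053477995195567494432813715764351536233347502590716093287554120110302473633032414485667406962830993798076819570447097977623714568751372122726594400815203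012429277906228480577109773916706737789096074320796129703863276568232344984830566905418573458872675001530577372577932016752235419264844847816447892240281234184816175394334485145617247834134901903579925767788045731508743658803584675289987945120878189077934371302708565243241675470004070365294357132492767350279450922395760599208085789378653155013377430083414836458209030413591808084183768322298716314872546494775032970668511651522087983021837798793989903442286048242141265288110221165662362941478749099132341196452256170338201816674367465747376592129401596319596872817742130493903238547245483712232330059580450894704931627486424596818810347385320566090788608092845106053926956891270856652582988336770366529790404198606982830241086221928791983258748672224590014001207950996884714444339279196615802609312138163000007853118466848197997912401337421398655923214739188292045109619364811154883442264844151128431955280979220566153508822112069457698659803651766863241924954386011645844869047697290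593088302508003819655821274779292005700087582838769489983195220131864267055794083729362208124028967993693614441605421656709310258166580786681137269592940595810529680870464982394926284832788131578690372241399303725358006689966655772188721623100508826557107472142918377813543195918214320650251408766133232671793334761989214438513929385365990252393259191340896395778611658287321152572704258655057886524418493565925414816470761060415126006335587118966248633141332964419467460586639764264177962590505187602117529505195445779640358645724226246188869678491717708248872136865231172120651842717510651857911466432987912947186339703758725893167611599796766712764272540926750629252765500281843069762138499130949825508843364470849716191318874373305791432778519018893305069239619239159034083520312100082907317129873157051883646302041926776009603399064907132175631172162461154526366804738450878051349940121770517325792855138175118325332566090062394873868987193538020718740314003060715176286476670397756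803165723300594915030080150833279211392470163705789289789605997758085007395648328776912693914433291056098298289005259624013723633326931895939218276839182217847479960438222068657972962562125330794394486746542375131169864362610698863439769744644950200765288593909521386995929248270079083027732484473517797030250478242317627269092010658857185432081365976913755224014742307926742416237309504740437558442242165282246815133394942482283275364684079621276059362542742712768885630682402525775652538140716225206888146267716378191767512989111486412167686280248153164068550443818080079755114964113864425926783180152590057052964270163435575448858956792098055597904327615749909750852371501181145712785296717143203151686585781854194911450350668640753233471041919637359653274558298425410293922907139676585002853487051890891812078537336582198278827503062953597762052241806493711937419368389898933923457608462484517800746304417827364160907296336056837356285741433978859561481764434742363906704760938558500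292581610935566728462906107530403367581495346538544723009361407418050037148721223618986325343182281913981736310359010982228136657635879665274658752155567135829886781141273048855268723402254598743874661756540226101957789152408708576676299498761496110654926897376715736467329745035273566906557240648007393478750840292029112173611004533326344932890053426755842521008620153823144179165514614575768560737812379539309285228904057916579872515883432159490262202074944506744252568656680582235559052863092661003672372232852571695951319365713473868148107537766810223826550140956455121990165565503561157563116566179589167469711940745879046345916550643214371703948575233016381129594748388133407039024946723242527394812636925255843855032774870274271846183262431085716353762544311682735348691494179949604282034895219541045400779404207588923629247193916068590440181185041551244168318867833005077542781128796635397248967753713724472670313206541912015029657814975488494727301448421891927715484570919424954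021139418043075468376374381247307286668842668678015924775152179206614658221053009702203623508412566281426612198637960678174059933452565540652536708396273413493899425489704603747141464014161132040893395076630042029336523587087649227902394731444363276570986059726634636377350784832263436229217556394099650476205788192321213808332463056590228314521431093940128197941559414117192186519540331947569169219122531256865591407074199056560472546324706255448996852055629019369834630747752826519697742096068549978866850457320380917294626082125238718378664555885254629188877244028866117635284266597154468898734405081704789228994801505545374473656094570844044028321003056056007599344594072770268951382610171680593349849635711725873831576828984091934277711077574474901995440952450984741677760801637805409685983697003112982257210376281216438864737259895463912085454081872518865568989655638140911940507179883554017053233938266799314134430275413873572799991117847528664746319694159511614574171360603902750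341250720317001502177157871227682429006209448034710067098421137250809744894062042837380443691114366433803590547310464648243755266510024939307999690822517146661343284223270183320823642359877702227154021371670118467571815152380134372123936419832567303802760281526041804835316858047146633255979634371656584446231980117490976090293513076905377598849711882103857397139578595761916114313556071611640396115555878572316384087295451072420920959787214053918317959321157284966454882932977446612256667541716034390518103850111785031562666715583863944574124522714214141075418840349244787062504792351629392426772485766841995254875653432863298594119476847148546242083570146203249247965854186354290873276003185950754610297744924389820464234988182125375088616362176169253992024405331272984110914442539776079867998388197504848843647544659624885900166241274543498366987077005313301556632445338680572469034962705107083114864276455963956795443806304157443830920992886884439385559416798791606260986863465120964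065668484573164636512749597081986705218619121005301453192031962741120654126299732810960468895314151303256869684088484528073682427492977797723607394376291862109667731905113180578472558108007921948369861678838969723573919797968584233417472525850751237744205326212276064772489120651497640469584199774718162263168413335406243719180563267235519082245309747315387408173775785528931974490272464075462748437410626117919130607121405570385896227318851647608806232507253463775078926620540682075434292777101308970387524154702996139545045993138143948031613896060808905110049941957080770690870019110634031900125341021717075796672999084402239949672581276319374735262700732785471389429866820131189951222163329557247576202229854685085756330966975252397334931665639863834832449319728243530335734717935046247303655082724061088350759189113993646271639678685672756922317511576177458645095134913252725518851014925706683218926674699027973490063840651388415408651659294304100265465941925405784115364221786168381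003469458764519067933138511213671462221482870718858980046584814763310473867968755600423695484995281406264962418571123052901573636954970998184817157232759637761558130431571476803849974417985669864970135883848296937662027695837974711679464262348087838984675481777953405649825290942621848633232752539650776097031618547672677166076429182889706306478287493657986408662067282961731260820242586205096695616360891755067218457695242006199296940013910732801696789795377082615535405542190612529897304032432458451121865865486043649863636182726531775524718571203076672584686332411372129768013728585583466204127717722234622683621471512854282417224774127862970222954261433859273165650380872449952116044785546797164646356826457651340926142233349781235961909148347129214795739972116910939562523685008175395669285427551031606267879232344947935382956524196825671728106139096296677237666456484190622123904459829074067270197390353774258377804893698424118591253445294403924030962705928081434408077038565907374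052775441710288903166477401937995398101767880071248102384262810510485920721638313318053431733274782137906890050846501422917836928868861373126002726396499859406783634275067266806074164731797607015923490537161671453769051774758366576873631115264603725175326756381858494016941408362404513553245269970658890545045035579434844487595334754578619070316511954982390846202115940258735890092558455712158520283935980293789049342441193904809688516442093675897488290443709799813520346066741675738410992710525048229855896172178127931276188118699524229116462937134922064488667474446314046323881836542953703651089084405374798271681177825102906588698607436519730562284525041885071818867466337252447491360968539608110917222711262894899238363277380625852802155002022786361392097402884625197750699692256056695562526070432333533240522423673117227449665981632568322044907329591361841579854059221713210014226067240082314084135612630281710579828895728868286465149370961346264370127650377336893570517299841669916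244066000151184775367237496004484309460528076544880007060544866555499019010848252525765756546218481182630886067301694075544404097641778056597397887264076727949326537842841085412550210452320437985019143080063448978622876533528470941721284358281044953431592620334834720621408773269035622657223350729693247919563630182059886069200254103793092169404016006714317772043313353039801124855987125270150612153994556874006540697282081527479313631424672400352874417983388082656259906758962303799971663114259452785076106563059730581561967110312935496581372268844493706886197165203035116122364642412080506656016128895080426901083175933621316483367258235261392324624141770337694418418124318330074907298735504579675540377215890440626103242368223829416730205095515315484178422045373180658977009754804370919705463367118635522954996615196903521572523982667478775191114027329948498620905132665989805062816638851156785004993802061434836115108301777512778449343021571814544155145701201933227675319972011152681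678805441593640487062650765186261701300302120977549558011408493700545883130694631682178649493881651017105742256606535269304987066506877191451467171163162476927576529644423332707059150276514874713504648893331323890083715070554316361647988750801158353750906776741266097778564779628337764567424444248735049970929206811027205456333282572729742295897416042752746712023075537500511758717922703248960210812514215432599063330889600671532311249533505588785867515238446904774844615511694211900109426368235700792280663833608437204622193264091610394938538355575277572610392597062839986954440900588024372123809107430410594712779154203166523051433579563127501219679385520227097077575418219078705333955596973675330334773278310484830886029385507606932670743814074377052850320472650720313213065798780926770589934936447716432948816423324849052252781515205039680352497044098395541539516578257432254370750735424503388145125846130285120724734700184793182756025451159123781029070245288889570793217498243768475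839719560346155966263408058855128013005949567652551148306385434611509920757253630171462157053543367140795838401516144134184842995321675187515189367958164385760446741222220996710291400422558853887499860810955276643281610354483771889213604419101213719581648962865244840119055652857528327729144014858046192037369767497737488898636324355867047139914890518179451025769497476533338902249931023553005302069350564417477165752523146166862743855393214832458560188605648926302166142211891647208770821674418177252825536358806788491765771614869584712379310040164604418123536812273656600969028411896237178098311030015562142739062774688544679683481741960448306806641050489393035529186236945539084139779405125517711140984690668924254258363909274818613191943985453773158028854537697624268004188172193348081701650354252647173814441338754680838194710625786022028133812500578602747965000953035702768292588550788600009258478563451112241690310725998794840708480043835862558677615763641837805352016346326309010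46104398559652434271707767287058587169403058429269331029132378973243484966457692208201304231167905193359588581768134489643676833991909330838738530740215370464860626252113054550224187883650687421819040105833653081788601796435482693284602367543707824949345632528266255463786304221969271000625238175745537993168019852790010592080199530575351873572319165055924884955557904379191534327255584624761444199887167248944448183130538387451221381651205076343090469271400181867678798298378988056259626681409902740797879357691914115152762195414663166975364815912778658940578395265979810483050984902667145967088476540517440038542131214500650629059732163389159878178055168009420048020007214916767089799277697939911194094548974613397556852991594388557929577675440822761973985265377975629876594851836360722301824137707736507975712445426155426494808214187918334977008055315814922437620496329469979155373881660100860489423135163745947484630337539461008325903453746406437623290385784006733275241490480514915995032367771294456361254912)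

noncomputable def rc9 : Nat := (nat_lit 321170451587040957137313861594790099832576332032242522439198017360259629756348487234718408643913201603370774323510699882483309280975475794223635569102171279047652625129433676886285952176317727870200137483488983052939231131372021114500949166852321650938292696480708759427349507236044539615687604178787956107711738298428713199463641385269525370717683559733864389827724620588923739981901217997321031725867209574685562189461399105025866031001929325123033786713360422214790654585602850204101930775538977741199355041841298768150668878964684325078189005415221388851851947402293428908403807511148242512157686593938350612692219889012134140820309007851628919963324556521963615499395106112406371386749447012192415999193415755902422608598434462366260340721504376227303031432449256462121488097569443485722143620474156813383938453726767788538920099155880072049289785339639604280401140569576919534093075982792612685819882630016109592564561055974911126154148764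487029804517228138981360036679351410435986742959988036697297571228074641553875106641916411861450927878459706085881798651729500040202149895486412306383552293284921479997034749462995357938448112400376217734437008436373915132649440696087010202166808814662310748777720232829007669285399933427636726083859458436599054740848994222270646762814626835896645883998104087986030425854256074192268539228139146933905583531604639778745968732806087988486712204565185927238057392668829467334893419759564657832222298052745536317823702915901260642947814558054415344309139053580313072662569468533033312291159368336259313643643174265963978970455823768627238063690252661759760132365523964484944767674193067480208788400036746671259753468761546734278010810842281511148707467725539711663136875288580631729585852938801506226707874183138699137105570726909184430046224820178215274091778900898349323923632458309173835571248773854638097375717251020742806740690745783614855926535574875414903944505081707893501088222439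899376071643302139666454705168540653529762129209178388216690630050977968839193532544384876486547942814225629399202986254319030904179719105006185673030382332247659878171695350612065805355748959374241355596487785692086055594535066346260752792051674623461242585425206558167285398325834488628193810906396391374225903302017455672972211795657768307840309261799087060235999744258588585977268838470834874814732349081069597728249217043751656191843513394465341794689985468961895225808151423449433669389422454389173326737463898322572127368758184545192452791676421173408461523608053065759893380125730544494657021093965359645211176905935197810038750403482816632671623468833719544680816980795662446489430070166885213526978041158215010876686689261137948898201082381272781457292974556256170781885041450265044549752497640134680455199121267138614281284773723159068959147409415304648522423198468345470822922800879304276601746982599899303493347133550057248546007679778172911722539225164312201046999241564611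002128858105361249136636359337600534716832648602567707176666280172664252997371215863415627715236432626139225527103075009765773378034339172116114124302941425313506941255943340510786231913213350325838377884198002498713427435900548760129629690542584151852762685683356907666760531687974268111467268170446249314608688219942004052874474508087230732008231378534971113139781826991364270031998776137612729167219369501446295041908167689512034446855326739938141012700174921708672380164730511081223785670715114189820070798310427312674644509365270572492445190991550329373225848410989534232530613464927517321197800896306484136394753589763954683395216543358328212494696169494103069166158933492578198746287387878303378796453392816899436104092272027532665843588719594384136837962629273115407435164027988026221257675618697131271672617404880832142530137859343969467400561555554723045939274628052478512424751249167408210714864097080414233358916443256178706615561561931524505271719205887317675138551171516809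727774822400934318142402808798979320458901264115353021412782705318910472979405982595205556148392292244752504934085351318897742870913352082757790953431784384317632673468987251069420604009489778769766285452523144130118822176639443094947599735698384008471491945973762779145549452541052981683298868951312483116048839050693113739492648188880291573276767967091017153890684640944496164939818609762963823199723845247215429173407493672860156513341724768959459762413078560853470474524870620894517201976980438155498638347611860510998279607189081666303642784460161260652037210211075990878950118339979649646752702688216015325316904980053346837931995462539656276762618071289784280034796606912759913984108895610674737600698069385777625080827805755067892073343016468309101674062718358458535598680225220314188298333275437929523813292494870357995854269823437494291056908429756645948114992601278342417962522964637594956817487502561912768158383507832096154725366450251175248015456369200139646579415613881514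308519800294859000207282080595887079192142486684676167039603649945632963575408388623548818584538791872069606224277804471490721957884769081664897762712124709398953005689664452807171614141022232753835753424953787671180562948905348542177994358401646842164321174885881886645679108311889426573355262041649017548180702911993298631865463501514685185278955521818510953661188205836075437408150122072140676682609266573571225362203994581494557252178687327348766341521968637525756785119667289813732901159440851519304839700400071624892388709134661449087986279003101542327836157793364234352920666035859195452289806944874178008896909556206877072483637325652707995684330151008976225741913757130124363716379778105054802348646991496417944956336530266201409200110599076449356382060341016343891665993206995021757093199806516443012410434394807180403656809264745821473813933445332670757468296705892819252462912350094955772593456705162159675223438023923405231704174869551629088035133970144315265258946113561372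482019570415569117485341976794500653367478394751539914604247165129492373519617948740347675545656610709217460791422718092905924714579229465923415284977597900509920059287449897322646646481096373686019501605992872397110008079286986436047244417268007862505156760904787263464724157821890461010891338048170932990351812728342110889354841997418668775563486907408697923768097081222445873658352338406849889270036459712485956716023058598807085753339459165681870058753537842805686602304066988418750905704555572723734825835439751440368004525591723302469750190930914785811305082348160125102233413125329441903087316358085933323389265120122649168047432589880463400838503217010956475636819757453150794934212452880000350912494758332969819348106188440972835310308717434341670070615516073992055358901719588420890746247920002155784013940920866010825745096595482681607650664337891023193544499542063238532907882059650301745235286279134716173439038153053677987463734585056492280841372729842589271671413458018662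411058320876420947601925198636447480010779829197181127631898741313296015780867415618115060076892685987411535701223136427179285187023595802785374270382848781492573227235225884154163076954647655551432652744274213017297206857147828735743541851010879450861826769296429431549867578432087745615335345235871090861730265543110772115214137765398886252698503236679198450629142349983430565537137742176150802980389068024320815939319752043040475212571035102358540979063688393596056246949239377445239602507725872205826007857546757046187846764894962806911027064046137820328168622319000007748180738468243247795110457860103142865142739030976873982152901562800325807630882435089718027229031185430967515890282411784745879859776194636527505856743160697791778235107519355640760290672423443101920426023423892145631865478965651211608635112335398140714087559393347487736943185914755299375058582491024663931164858727505919085023522537322627860227162825085381594781509336940458349787918963648940257089723064621147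545150525361079941262946696967352825634112259293244141284502039254505209183790805408824010253475456765199312880912544902025471248860972796343301149031418341584542422755378054839841646603844093335957029966613669479872669727939963517647783424498705840468415693146974047399293880028097087368298439364591098350030693259528453766209214385122959982810715190498188788281462180170082820500055060728869947698539636772174600531269223673817882053168059775441210768731254082627888251314238774258156603638981161487863037652212282242752844399789729002827746744893196330064799978902753634995396548844395941886418017752676922400944015476336980787358397733907013505883718470970541107829413370325823406330462296705127586367887051124021124731326797665063414061666764928176208684325185383230538882671137450457900924354127336607537852035391947442133224635699276067560622659432889987656011270530907582572176409812363437241248736923510737246939512148853837852835260852503871456779976297944720666681636293263409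004763085112604563778163729954180573323707086280780646638546797595302933395570936273976057270479879508256615430790006440129367925355424601873109184406440895854421591711721750510366690583706290641831184302874164446555832922870159723270060548396425268129696837043687609335631469589150755553050684081006972385378335742589417678395836449175749487909924584449613876343687818316775422643522761417687432395042196176860568414450122025725143976789106483888431474010416801693922173188784740747306042552921038474981394305144291128211689757166710080173654028749384626958809141696138690144101567465200201829584785391268369530019940553787619840468572518143333122437105645553058942229810108743071153589297830278348888033191938318039653080615657452686368135254447781903285237290688712050010370289811862072004362040225732084379505986218785923100849710035022739283207620134867993448296619894105014683156361750680489771806030421046877478789213205836716871217275647805898681661823625765100519175882646974902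572303170551789979006438156774172817400237745479360288341848312061000209663731238758758807687455767856635732232985966771578861410065736913788730468681821680334362323003800795693781035893412304703678073620404741192090268490324975392614038978711654371737729362127118267906575946933846296590174470736539589412502818308413780105741988815762106299191947359691258731446682905146676522620347770326736426442607259282869987006285770215440254227185672178013599816816708882011517225905252465582556058298303154876000039265964764484939456360383560458262846252280293761634839245092272657961880049804414563835439830565106601510620088795970273442999093677856889792740198811247564449724151797566887842862525126118734370523589502858917248742819097094736783118918307171395729914194538025106617140867086230825441697993423543102937759618008322796217347633321721114101848633906665794610503238335224192885950117055675708786274692410302932497490222389257661103962343179981825235160757377556781949788283666874258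646038494687470814686162904074182465545024966446775982191235579808669187663356018523122531118738878139234670370087599474948467521036945300012725930565442457971398905418947609684344782183958585793502651920262118265890839254210726199436376393534591040452050878665573092976323836867488769833508594452074191663845844689588733912981035715052459219211699389722797671532127970647138945217705230744758245931434777729491688616910365886960941211893845396218590139047038722404955592884482005983995206469823105770432217038258393548578533779061465974146151284438480982626775327042194985836129857653045019147600087660426145775973502315364519853400115440971561438083880251164307186832640419204680632950002544813208236312937400253494851126817314201243437891970506500461369523194538780641594566365385489303398628249429017753267828141151051282441363755198170226319030812141109738652677754481128524653939153378987235450063403461923057651797449965365258442955675926642352380086988941585582966937519950526745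050119802330446094979035374097058310679873852663103056142063892650869198986943045433627521050725309082662061120036137201976968986728910344292316073823352931710249051618899435033911681381555074620640865107983132881587909171312599160155336504702219489145469061832927653902776207382596244980965994842572110449337715180167383008912558760028112409281949651189669745419786612247476029274054258134614211628112809513340849600036045970049789161775852454196244498235747169046767871996813747751835249294259407549788538946633170531032667218639422549887057008686947627727426047103785961780596849930094364798987275675170868408303889205511448854663405974785600690356921554612448957621383796994893186506889428414040401825195836803472405022582708770444511498876518234837395776357319217105117586922179966474717326390863235403169590207590420169759158635349657852555717803086436684944048049625384645539698760290331597267844515716210972530088892254004561365785306640236342248132538927320953117828617142049969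584576393738694020961523931789559319520857939504294979683109983410796054294741948088602770948304280804230095979499537715998232300099988866274527534394608275817691606441104351566858945922049230924559770665151651414627789891540785309751481030066372284383109516396379705532925115185556278779744978501515645537731106394175549971049087679828550611410987696701746908509847411718031326488151077233780828325836193181175558289114831978710311793417530869014216852121923439326465688290094118605622512113285200037304639057004203092512235082922240662211017537442568256526297066290954248703374231699613267254252771867747419693610481813690522600194051730727500719473066193365046964532767806082154140473570309430371495048041735319166995266255427054181645246149003995362030327435002432545582519745414983160511475322754911783192808013934198058110732274131716600663042426686756744695805293524046608467028561734866778493881813977087621636458000013362162015111582196439198371815065405770524626699281727178048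696007152979544552811022002090952637290286104486439558720714894355449612166004215452568286714444154600464322780668862481565070163449256235137007416236289276098423251668288642511477630375243403859260504110498809886696167408664156386720558961546051088041582392226280346541478635862279964091526845389410186400529788714161851095412695116718333001335789930313301494256370894692745254644395989380328848010214324899683071181413623025297106948877840149059207664558154783001897448187613896526494466922696991801612912784397698536360330650603537645286996311513641503117947017608713676857240134017983522477665231586009315959892980293424474170088428385729277945647766523421748609280365625550495863672154908872633908205239106350574063850971577789356110653712432518930765469712158072328017529052785064229013509508124947361019733919934290802552328080532490307571707992425689242910794186574805975011559967210499732219036441976729876744464978623394138947007709816630382341814556070407805452691790974567453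983636869675759917659717883869395742237258050263234918767686869518911097025462845537845307197600736250942713609116838652371438809790557217406945970908717976886835480014331385957156949897194510275206151938863640699212120532789755837410260866960557808510445512553742326831768387654951756082079989951094732721911852713386713192263283110531382906172803762448011395565029556869481223251172498567442790137512039667047693856028825929026520323961035283090930958234802531187054553042102801447357003767608265915508927313735075979863822562516580091428698143047373879499531587534342382780494038165601952128676618428952510046532736017994841685150669760961936284289044185347919988476828383096968265546615750276939061073701206147323519644878799801575586700031959384121448188869981965982244066820367384175682498405940582907320852411268476331067965372294990145355460615593836154192798474401019306444562455927967801572603596867437263328624418562997266379406646011763914231512148259369401165251842051682744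748566945638327018009880018837475553417139631621605484095576317388585789690769803701627658313791168431472684057991255178146068734217911221121347474967604815160177177706737558868799751274709544112759424582840667906420841192689968356119243870728404661376065654877208629088381836976105700308688564034485434078153996456926505835416511313442375951049894572518243084869373473273795912995096219199092495313935909771908934724719992081383938003845122860715249382691365542397380604380008372458634147748119763569080101149380761305364360039715522455397525648829073597678779799340669613425271992055075843095286641076742518206815979752173961951954834879734494225032111886463221543776787058272437092797407134787889552170926181809325477488140798796453251672209475529246064993297532144950730376541885867360369758444168557219639913790328285804143197623104459645705555637325495930035186448990330107843676552896401460545243442989717843759343398345468460827829867699357477657498594710298783831606371744539454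53850958243043575266019513163377794940296318264846274216282639572538854559622591784277011708733399369052424800728576679964394367612161078754548198304651052877655900346797597044634738509575303585207279973543603325004073035679125217350557412692407375887219769091985735431991285018801296186655992816937613925050543944602773760691616895054133213958509669683642452625600145323664051682809725303628670625836648208729027998949292068280633850321935978081241773849095570183115422412903753925503922929542293332812995723329011123113748152989242745870794351937488575819944110474467487738536006142688219041804358183134303554882502242871619529749182235555643611283586002631833081465854593424931246099140558104201541519934496384152331092791836271037628233978582498822345399015317399604096548563970196546527183535133434285381619517013434197728538281481463265643918162709278834825542446450274177421996881358312839810249685812128591884228238483007959296301038552985014605131344049312945155381017180686494065567738371944624380968960)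

noncomputable def rc10 : Nat := (nat_lit 32164356354420395957312015241568703436922653343984866297017381443827440690870969632814823649490239023421119043418156638953606475102209510356682243644345235605668235198004017112311186195744723226130483264883619992172252907793840679159903945220650223985106958804642430901579500029421317607366468513237672493795195027775949280001864582005956019624774828962349117451286924506221963446170581276175438347428405696715081794008192085357818934923503978013553577521166729555709645041531191146628937760624849627268003112272486815962699639657656899293734525378622482207055472975723712114603792302949498082866645067985852434717880760489619591176293065230039604451306527673682645543926142022307122509518944201592470260940525357167471444328722756627269777000581378166672147126628277152679218723503894679281463178252501826375857002352040239858850288852235908653720730123374489643342242930446612345738373785259887303370721377726274878574619327034259624595437205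291797806219826232894169338638831550615200289866935421000198134561594818478683566594393007909020288891182806811856282092238307409154968332043930912140862926836842692447659870004693637984323600966429506755043302841310876564440461788328951223684575828732164425350642063282153984894356233373239575316905930916800034856944576914583858644959314912543651873644024708115447582757159292366805867690496941316914575464171342061552697510004149726087395924766579592862882474791473916340560176077547436832805518732524206096604403379736995744302756559661223331833054102410323224184685617002653813577201950286768905274932983475787790939366844908190512999470048679579280001866661020406006353704212020394747702342811703650623102571017842626721811009911960444236916930788349994021567033907800406594634245935258159428662070061123732979839717706552354932622902002283301005790022220018960869040249306957999658404551749379233199801073940035388962888612946854583964595557843030700033914441249315264384029097846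073987482632987162162685464184971358804360615208938123105964992539529962764113982061744445710362854061695876969437193305360633499775535815549788541885775574261843170230733240527823927103389109243440740112719586021920456310812938543655119193263150684545681961703286904315367187141864957130544376619963855140700354705934245319675427548571173315852221396980931205485247666139413818503898508982438298843274532952979148436235911414219768423869926251318375596689393249927776696596401549189673169959599376861649311557528188945742314054377945001970860497371861602898844746264160375108707466485447492016273634257951572861816531179058021661758817960761182306115050298673609897935344301480237044019391421327502038207919389340159580649136403014536323631749956215078018509704875727777269479489098018551178732882830759234907416422823090833205877249379301250211819584884917402616805423800921419083623051505662857998671475395660871481436131500327024097049219916687309330555637334586158351371899516569364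302227558225850488053494914530595128401281799111309538034196865684820921663012459551594690833134754585977049908712517604165967247265318096701337781302041801241233401127985233327318865951223873171975685312984454390282796787765345656811375217932870329305389648297567651568562825688141777262360591929746150587122507836639043373487574445608869551324173329235381803659324162094311676620948257959624391744272097797069748998485099362016490397683085164086631906026997763006886098751147695240113935824110785023312554202851626107075320461707856858016469670057978402823914182371965195048286742492110344407880621970977217846489751457802236901482593445699114792911459201849756836965634262601700325547298881110324392256737739008955385914149533908574160151875624073978773636113586373702468361556732414053691692735600227057081072412507526624034766512253527348508976603914382736708999209136577634327937068602867735986936282479251539155413892626398629088170887950768994989979673511162759557267770201575478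345716708474155414124879017541404667388313477800954233841473613031787841555179182018075718520072730146276832232013892251749559626146137969113520468704482639075285648752840550313066058524232294594781980477826863698323815794253260767576627399944584038741528962283614929270019672244630031413088294659597592614862583978639513419635280451483383662382338433453203890122765502970532208823850567148654506444543777355783429875649754423704931713284344828210479344925330401791220653552524855861887555671650811596698980343206426455589694381511090823942602941895798566625544278112630313517489227513849859774115166187037457058853787924573776379845180828721242186966527339694373873222960216808726606639909655240011562493446423121926903897688583225543964136388580920193565579631656213625391811223695434062293287055793170913591109497873386231643940132295392546202540504047322153243342569553401011340639299157071286775529601275177226360097413496298551081065533563477523306600139664763217606409175164008357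154110941236322964523947276684292956537136823671612727370254098730808517083897158645071115119071614160419750001081612371383715209876830152212369511069597481558738194137153166175930169596645444877560823728342597064893868485319824296725097318296486035208542353622614104755608316292950183930064645548873892666455503133245584449115535441987132208571336804867856117962675415057403528146643010674546668857667575673180142589913415800777497660735630130757251101387181120614057800912015831895365369227572386393606424611550958284619707949606329210144469121085799553677343155215148451373095123345472687646450481765683041743628059314185075208828232311937136003282731110417024694970088312889653944962258985617278275237849794774565378829806378649743351694319601904565177650747430236093973621268404796583348353183555534702378768675768950075994527983551714976721315630551367752589157939136126236920612894777207791933716928522646285623170795341095294530846752865402163898273335739200549871739280923123157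210575985684210006327761408902154365309832416310307380111622149215153605836990259598794226590547329304315158310754145493773472413280385150529760409426590582138997318236278954964892747770665302943269908126241666552569272564345707354963558466540265364728629824115265165569526527470095608968778602913039072387619076529375235645088487436922972995450528719810143680067924863312226379757184046824446496087041205098335622100709359270988232445378399359924477519305867568506671031561931915539940451710564199535841079012017966074033337824925950616522329663090125863466855901467487744864026790334874828756060104623187673302519620386575656892808667046749141914526306573230429455892765345137362463579811201518885704993202554797594856093874353341540978029950219470860318596938344091764030112737772943032591747833343909570310108104067041701033805928750305274530858710399051850170377826186020937217841002202923464000489899942062005109861943133792162419403533915915682294969398035551976589027797981328443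451996271499234420452045805175591087540728933374200062556183042328778524277833793474526884456758175643747431676450023980994381005769137989472957390598851478463417812115247541998203373590193651467915325430294578919632591008786299536907678463482816047062329317167259046192864706125824470267630663599619809292109792535149145849143243940691254253126450762252365491189677478889807147238730170400558181707877004547682612659553000448058722876056932917230594229464384619696791077625047259334938431431063018948499388280163367081200395647239996646751858863769118745099201077751660897974833992674900877561750852859286370041119122683039633287679901047168653772009032568549153722893762810419625317790401070508129188156786937713591332339671596433140069074707386301018392563478415778049737125675646232315031414338494444589346476962072792898216696588256167814918299948543907536897911709851747025738909575974395400214325688553333450379814021350756136260960309461403052942490563989268286188951490683527179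518979595295247979623125564716322030149418282869066905021205911916966863381773061995569189965612284067543847028614961932989501701946933339700959651042574104567296395428948516349543792290060842676084041668401903487439238843539329615922845191072636944913074648173636803762814371237384399883084840191309752514841599888686494495417252918696894280900037602149962340626960268651746725044444294039930979415678593350855191462037712068060568882436832243801033167842281539313538325103902335787140434282471183664065897124932079249414155633548655514962168107847122681253393130440844017998339655155352159701215195900834627269597744661679499261541886061340938615705578743524140320790750687872991544976071935225359670441975359318384105042788579916043250896231319019849015283773734296585673361652885745859693325860407671619553644065319108177567180649219394700058406825372422393751092911610397168916602181874353767578495552236832080528843462069527838561948688813085315794472312985942244540680737408353800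092689452122737684281948281126930601594922757290270439985019126743125514680417244618003378729941916501674601527600279976187779570023193634409741914864149534823728323862450962806285861000211144064298897985324186171934196668889698549044370259498859479521443688411733546396717535497828116182281241245116916453196585567393665891693120154268816604141820087324189282674795411163986609393870762820751024536938675065603761373807224471573191650159500052057635616946956626547146163193072966014526393592193660211768422075808275118659616608659725711401866220328242706586013165194562983580690145839486561815535056057745480106714718539980569176177220936785445604540309173917343907524658976324899231136418506351951935583663305811236312452423824492329288773375956519334459668063265745710241628818963807201478640514171305054080321099869702015750928001020625678767031242890594714344448146944089617403746758751070877094036618415674836732039056856165075870989433004998570633067358568689391250435315427272556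634971381785085243611418959133151379869593407056279209886062294205336604223800184060940613693646556217653151811404700019522087827149084748784580704089904643461182220111518495549429694546387169683694962758904378375402499362472413643810415713943459192036075801176259260924988176931252436389888902852902598265503051753998874867068465594917444250820983572942615528848868564346614005279088779920801070421585851942650886574820774854157727900848085099599004556920453993199723801513661942352956960515821728913682180824585286265474721270818312930313314673952544264065466528054402421581538926074643305730790327912306734971777344676880964690757894370664257110058788099434215340333075247611680538250723303163179887839453822702301132284571748480009518114435427405032322671492248842266177567903743878492626892115368474334393057731666410056376888035502960548431627668153392881542283412569657488106995616901039971579719352688055448455826258115565732639675897643534783509456369296620371260610239766064900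852034870910852407655118964890637725784243170795559053404411462541319418485082145209246366740160874499782501615730243782227513630519949929308652755181989466840325646655224439941146679727634281677375083760635555460704003203601946804398124505132883485977000404161432412896115257966604391516839496263977609899761644036994266988277210672419127949475281409599069643876285696394077779341025246455391864433794717626781988577872361333596125928666644299942723336764356343698143167630825588905698834744465307350586794007617014658892972655614388927387667851876815705129907081159348849069405443641911505293652573743697683373151444977726587046196028784466190551293904069347232528383664564610641232595042026805737583095883283089727993545897612952923525734339966617386171470433053924296339196685350399614365673602141086050979319688141837588284518209409744298620832109329172668613009352408424483297345145234005525093824666164801224350110084539832969383891731840362154213455183781825063217148556858374732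071977539664333922205671379157419830050714451015354985609269055596217737168968573442408845495847752492283814148353058641929433331792288992121720924450014237809764848248206721890240015996285037259419902042200563615933763192705175073463358319757502669495376760771749738921297435600178191858953486700124425489511109659625180030694885707951947954758706161384305917864177726332573110913894254466983428182202482799657967350718164584330872495881928287437502846356149725724365030462638107888606298352876770102061623289644345486625880939768850717516801751772083478711338392805923711534897748783421965487929020063011627264419913565652179489028057872730017779679584273725798826435326455742304671889150987396646788553135356835493976578811103374582736622613323610236041016745530349866080625929685393433280704483010636129842539960384102786593213093768555398962452874856346704930373643046463431527299876731195732159714618384917789430453529526684637990263492473200823936843903800955462580807671729822333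310643538798649216738576766622897384912824530476985668448141237362811122164827370107823610022646541531271738223724232206278792615699898375022229002662726427995473525203059721906923754765303892761856518559159138074735241788564997464586476990413643348108366993131164767722161731116151842415967493952666398091452473470230487126444908607946562298634964963185381726959251960637092260727066666348865926500308744590705928815071674378000888823712860105007346949213300351739902962387897553986466856693200413092127069767329913583186044804073436170063281572464604803698255513015552005229438713467529025988428973318281510089709679177691638772160484850424185432009702417186010151558538531225933111692170397405498827132365330131532135151587111011322961432219363422927308395993941371501468956367483837373458709883948749650854642767401056311195077275406777890812637127724473617666116758735689353611674216296198110626041957889989808140093232587669319814485590206442402473416341735135147202144726648045510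108545157674224528045880062919470437252873860205033996286144997900273392146434863805410739264649113313624664387562442036865788956609078067914104389016288291043740178881545214366455632057078035302273373468015956370153631122190051933284924512714782452730116346429350660623337176358383691182740333106912603338391682791820616794056812971815832231975257965355520963289437974953043144795216477330930304822548835671920252802533961422396275145586398139458766624608954655556129798444877330327912621569866198114293698983638079430284444657105732020205883418579425299786983051168038463254613953637782938377950846600455999041068795698705568140374112385263409886319481442280200575845568519654595645668131602409151478481527799808475595242615558303826206407029035571331128728737349250695533734807746059109549154272528493706417387425587147072323754739500456701338535905509860680190396170514676093070992390364605056600710324765788245007651491697496198411681559455161032980979137814924035852386911160221046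026817786022451465533007431602441420446302134035142354769037422151975271376957340348269136324967569953049750169543206314377254388517277282624747610335169003951253003972193610293405992005178491902880666840414388353280221261548372248754419878907526532934753424477268452742597903799061032317405556096824780420396139853194996048549710181090414287104317186296564860719514492346018286782508221887553933188086303458073578331744585573091358725386151834964037221002541488450108059058374694446109384970671849397303945900552593322317707910451039277047078065229015509545205399156898664399029840247974466077811063378093670888636499724933521334490099281279732203435925322248201703865490246580549165849132474925249065318327019727124950891400430830672595664285984098121879038084741709516274653142314281839858922839665728218585714108735006422580310713104473894222946777169014724631203074030796549963614224474731488567730976931075410339865338164162829121851828045298351792020893128299140566759872316695652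047846916369581650597549983683294103324003643262346916064141499884818901382318172382961128093231901833915697373507673479983423838431898289827862453625037622709197974230068682689419212644612626546258608068672800888802086803903804571428101866470261437508932106925258698388492804326805905812116213149797041449056504325880548889073643415292820917731178698900577954347896752123697347586034728570170825661237540197707801119986304668841861724048982048020675644405852681819921668012263487635064315971621137359146565185133522106814189570279102753352905140115022344326942174537516468437271620940325022248004521521620291553739953037596752411974695255691921272720632248723588922477052252591279475734745805912106920543953726382260616724065210692907910331393437585291287574013114600221892975347008263689353354427055195003950619703328064980505760376233550341707934674829048116791206984687491535047211007312563202959243622222983969961804960283235693937291521482675745389649988964687330925017507102759292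865448412505673407502554807173330222828678462742361296201994143265684307789062476802904236128314398551507795955038613581355944717750720506743031361708179649635675611392318390924113934541569946056669766629282457193140387947735149844787646153539219432736974842115254177923662938498671759343129034416186201211396557080561022906055094980150363903682059461174877265879573836010322991232180230228458348353619634460901489570744490556361542886230055948849439337606344296744957327291752078566984979856612231994629159606866150602835652118681017574807566892481691817791056140689644197351554091583278996230814205843773970865006804333713560948663682607018231941306349523686813039600250728521731645477675812143906517175545524556822216431182156635322999559143810148937075478761426430651408744320779563963582190784328135945511410302955131636542846312436485726942470520147923538641824918742364435011137636966135189164747275145730859625989478937228237626915915208301345824820459198553742410930750660691230599467131300826850902671360)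

noncomputable def rc11 : Nat := (nat_lit 32211147162949938192814560265725789744168963034148737993667041783239663680257291039046963544824487069786648208152452840690966965028357716938220374937999578013178136534810702222569295628954696383289211530683426537502256038758706404352818315090689475105552799976847680582264208679779014564771180335023500880108298697258262279131313905829561383177416621401483665749650127776361960406588075525362159866929198001293997319568120997226510113306629336808245006515069006043057999409372808357637334176077829849024199177288471951818011367496088324469818209929620650585646251006451529108512085046235521916161719316757291405456751488430442415878017981993938598177931665151244685556957540281681154168044006471570777175006435337793927739244549965345553339353376071696496292241309636504524600684216650392243413212711252059918565146495198743808407665831323805654935264874117379069916600763182773185877228777565875581154691541631453689340481803846043824453153287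313865940937197446498741235212698444764960120566704274786601601156177138637599736914033220115684850231255991781134677119271483657307739629330524466810827252590504856534568211436460032207265421643964446664309199030560661277448811839315566492586477560937145395939014260317900756493768236202516164323013816575362489221663350913564873566944888954468230284067584927314040842884284597119821664109758759964975947299965708550406801319252939119561384489601633548691353379531382763430493286140453944591393390740700558416669189564499631224678404211698244290492891138322156807817994197849656624711441829294623279292236045765011930964058089675974404308973368915207693900328296480626023958195257687655451955306606469932232828172845533599747311382520876651973669589090364294435819570886130217418538573160888652282704426729769667064258784601609280661052047253188607528362002143617675506691882548544957748726626925615106323336720794469417656710690004059261955388711612051478153073503992082075030063838835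704275588260205818284134786075037021628180859705930475917920138268608407422879492935959545069122203821145088690187730470681403694947925010545215941583638158210032449201699911152952971562947903912303057569945869800411033684843998648793417390219075227605769335213198232643229312303722179551416660543202134759080757680307361426057496747001875800306236018179875822369876116803812466594804848216053036840493089963509352027662755505956610757393589973553985798775459722536286443354469856194036341224004895539536886758107216006661150834358024783673730724989021456454126386454556914201959501952517389664069169952592107439158625518177401651304901127036293046726082814310258701561309185881882931080177699697531591906689689705075298537985775695469893633600020409820137706495154925430932419219720782294249332160345491328778358308601476382226229372897696353378912699127334367701792324766207255963515442008123714844006150578710142249944102154906884205337292343367358041451141390303506746489939360216401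160816291762138058060286860208815266413028004133858188603277501632636675544168907707961517826845607662164144553286179155272527829602331829675579807867851429602132080109192869070461628812177751738338902298640560062063945212090309928770760882420200771722164512459990907934722504348638261130597308138669993414451165189202289980908095686941445612123721502731317115605051048065726931444969067078288618080215199478774069684715572329011927059433448403070571907183185336324649414305047470562935594345948449538582120311253894288004414490498421851405547121491102299197374089584446765382783956399087086090957714808130467185628692952991069708872441414890500311793554495009553395550385547640067049725631600128758483459545441989311217053024272940486492077458312942993171621937935034944463040925603805067580233418481730786405856806518706639132856993532012872206347576834914892434034848334926869591380620161262043174667746030332045416640591261095392146081575375315844054573948124652866168103980855112123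220406312225747919517626064918405695946500701507492156878388716647029675055177906930443153287315508047582177479576427019893505251752922421723250102478040132864830906376439116253684508516961730745151270771478408980285372145352749386301549985198809334658222186793793344489143383779003707609906568626299730457901704616771388872441825383095042509512408427795292971806729950576932726062722299205381611614085278360837976406152620786777742559587474344381445474122518267523191273023258260929304534684856222002770976340297509710373120756739327168609152334768036444198707727142745548526598398923960458583502746868327280078101731445709453544044031823019790879056702372433279711491297481546764163275312554535530828611240370441683088898424799821681449217633874738826329830779498589818609428607117521171685372757340185882963617923339077708034085802431984369394823169988497805178192949248926767898803182157679770554503260732180780419329528868704962134158230087665992647567091247822075010843271057393892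764707237462233856293365070773192228231456434100726936651719693389639096387550471117894894254522125338477591341262229910383572047366518261052154901450057415110216087925553623850287078473945730553530802196657740533533164644413920245451824557620781908948012368852038326112069974378118209218839444535149741205630185260056089457118787198324363015965264293988515475740715599059590062685168435476518665172297414760078291235447140416674753212680008373875109497299723002279741509124571313377906276617305589486469398464743668200062377592138592850334012382053350066403773677598050821281333671478027185407007169411449110290202117423258790765333194111319545617828089649155159525650609348445129141566340249679925712844599534237684490519823407678915041604921891680319541278032189968781495446055073066868416326106793478052498501757512855609322958444231021303923833117343605149185867792247359324606162359845336670547420446735141844736801545717700208884019177484308487708264185345296774007639910822274631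338848475656455880158663314604818864643671702456994762053979363116199872131470235050729236858313041958093325818977414700956988128917395179960379011548554722012512201307384886980603754698510125358137507309252438101880209387651568666838248715318509850994667340941800438681303572969586566114751203094047480289932625665373203411989481636224043546470925224362395160480920186708105609827064086311494469346442508469559167610800729923236095532258713523717619509181956344662704120883162251200833752671364618539831000369860286680976293612105597524052161348098122245199865965261632207928536428079308319485781310566604508635719288473732293307652132218011797556979405269243333453732153022154470092514648425249072122046220447260104600131057592730900024059725738449537363408619297329316013200339226946462922484599852050571843036191540072780127153254526812302423319392073230602925314278999092006709067077710409126462246885046342286955543691444729400053705623096199174412131931471778187024877186121466800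473685351742194437876848437719424488216271973381056474631207850496504595499171364255246664833264019573045327065175158679342757040915096983376554505550102274788637353193841172757536880245603257078911680608112647793434817871180003554807410273692051915084158838820313568194144443214274626215098722458596139391687122041298732055182388523252366948736368521275145020650985002832296414346043955748774418462589147832788555568830284700760743429782672722767790908221294427575587082446503689109959724850268910902790621121476101167714759081375897714561180169527942805658230365929971604952855871063534935299009871444980726856731613048964670999113697997667469797881926424070417871976986595125651727483978833374270054310724151311503128194689178171126072496930532689472555739975053418422058550873419659158471794671767088328146763391007298579305287269756534628022926764985723650827666268147860413355048687015615838129382410257142898982875643637721060909136943406970743241715341278957321732770697809529425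171557298153350331757382386962808484910050206418481767805089506066662136565931374427191156304365836435008262121360258129638601993484036304061880708697017293711985821549824531603506454232759610685497269189623981499169714567900713614547563963297055876900451828546418813914211522583527470244805540740076571987224687826884999156785352962106818086865332463287344483682209286881294892141303837576010555054743281198694177345155558183521448911998214805691510347179543655439331366418749852466763740188809152200327856879588257810889156819122381954838648440929106265636935349378480597272531610817187079235638587069264581045334168587159924839882791804627454600132246474457337985589993818516071533961416632144021574145757049217338058499184195167356202637392942433240831514237171219964693087855548168313492431847671829027463480910874003015396056906596106433765663815191263019795397754216065722954374224853903870646093117197421007202222745596835060947826102643820824533395611946284082446907947747668070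750372451716489841005685750081271697375190733533318987878435335420388188987519136217180988544483366938342532050650507889109817900881343662336894463054100239823987131415971994791686287294257225908393325129561857415308701582322471949217348588215507968397247295308353881610207389852510068102720662805199871675674108016592971401122648504938249976989859863257667787846575265960350848563219513149889039239156452870901382689054313685254437420659754070972309056311406200160382736231022282911736201497297383031211239317745966676017891823611489837654760277405313102392805976721784418842547285695068309002422655907257733514358074418988074113093606838351138369425585286252130556495492502509288882353188074492524217345645251793785080244469475159562207830098645694856100461054798066788916799358675161581300673126849348271181916730221580768494386870185829351101659226045595654640280232812121556695596931575511407025616971590320638645633330343940644906051818290576130890165008309231990887766522655707401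021921034798127294191754909706476552806387240985042755896285990217911173238054957775241004431803957441562097482108698458077090524497138545307008852826457702616643317894748727526379486919536866489641448873990683396164121259606368641762662953458776800678276573456155139581521420413507646314839690292861086643018219805580347850002716987179490621594633244273885136872799215090594312807206061323033569264855218485337186295260383823822153800653923423263167609401762758654967264874115425871477119932414657772087662031367653866039750851587549016887559504736110834217402229451531086589005114790182651722005119328322923369296100105637749486320573942258077499460134290380590844632880281695530628122063648743159170356057542954531684212843956757674536088197296751269179037778545555864331278162427307390503763154473974043052418560187363044303279299407833092158543996706616019016035419990655887142521839491459036023387143865059697200770249016112114747360538363343445390605597829604437207758277965751380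087221387542095245683671801032194803857652617646857995548001166076138384015903649256590743513039494276715646185467824458033083592939533370221247102307423454735478152191392914560773288695867834091489190892454770823854668693045728201635873081326401253014332820356399947181331776165258064344568762251260058335155423960442972483710776612059925565202183915584101557859716163686686740519696060828600397505893309338534425639463648946584167558455727456577600857847682021299089686817263833124441389677184481570626865602038520205819621312504436517366055646852417570072647812091741726391328227498959892826612400503481806892344260516012844218643914079051171419508010372459118135356972255960791806476244788588707627017540034870719329179155734502518802480022901115658176498889702498388455319866000572907505832499196538350129255986195293419021895109399191172373318706365518206715297884105820743297085135304086259938538541044933531060806121307767940612739386264442195957865862808290955801326001377691075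551773226759397964307350693653595060724696116831216620348799148853098037335568532415560077449566672333449627925842868166249041558285257533193698291518354493066077921299308065771678517747271530538405597657483395963293196854628964323390605590298512687848408831049038183240151555782891470846148749683543985874030773592760892713039013961336485292960718832330234760085825092051874995229281350394917919947375045351334307575748790500631662864165337214690821740549202079007835619858035365153760226365043968558965820738530304949710681691581933687503194458393265520208827697353043624208948860195798869642891509616817838064179758509494353979928418361441868273209908402171475195570358488578531080422446882102641077620895503834644264589818723246781757321430037496682904453203599951591587196868148796186378759983416666595342782130161912460440855645711488237687680396648487662737978683175402151169622856936980861030829381714458653699691229466268075990496328899726278208355050098147074604824328301830747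302943006714631175009164709633098144132879773976234221954693521144280915185716650851922790709595671690393241425435416602905814748500328640239743395907557582291010153959576312825418599768805358861986173953316327205923269173529504122408829715754228552752634211505541143322814609145342880273908893465849215224469063590543327048813046419464507571123578724946131178763780983367502547119738395496893156501961915934832947095483058068507328162725793027274347511525866501621730795740475144104679251547843992207981666839074557425226889978245570468382349176679990002591728498766142839670593302085792407779343864129240646009564686965864697898869407247608304363157581159126615661849538027610953406843788523118753520117579652323909020566021123563957621780765304850272359671317554589014484946209079202376977094505015131709777111415165340779679478213900267340851877904924911884153788248111406707722551933161774794848261913378147601134164890962184192674983125823630091874181668631452282902526064957135147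823456772452560536048563118112364229321912376217180143979805904376440372662832069344329378148481292234678569444115266838066768176255955336682564461062436260526771219297140956037862779777947813618218825920917120085321222966498724389758969500701732367366736638179703116983132005736644862285858222931448367170699707772693478574093851440575928883565984879405680503464199096465166482736420702478826912008071900333270977950622287808702992024543864468492384139876830163629642906210186582368609935486826684731245958514127764888193869113911831936446391568920936151193735643221101143838635468179556980499309972091267665217414532708060257283188729490390306069424916530600494497891424492589935269889037888419105258313026169964572245633823401585493614824801315433900858048541729840039139074597430950257337543114917484760836200780006430091389197159030085190202402100346796022105611007512680589214219996558727460794320939555447257782611770642580057605489575517990173360776094404985951984149581980714114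049262589440123274852193434856119626429298602564408569334240355753568303422977219389254953586165309946668777039068756120342371530293220772450823838900525505664760032447826375182004004100138222876559271646561929592816368110857908119160547619242051733298967146030638779821875863413827577341213395841424117781325434915305623911101179663657424003382280940876001876884099033292167155202627349323741285003048737516025565894367955472925052544883623381445320850873206622998848227327146841056457729009093258246273648748110139299823065413717820059824315631543737150349661557437642472258375936003070017661639319985786427003135531349480668999691275702759582083598587002093655870501373912799770517998241149891342607889386531622657779169393709462013810193488608865537187969916980819731046529858726923360943278498442612969735466113297644831876101435176699129449932844681789456620455568273659781613260746052581638883298255478494037646994234486023328491660463012318470407382291130304573210281405256582289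983879206213488396306510119286323334773173018129236789642015912807423509045058588900987879580899972532309348540435310920221515871188270827005432541162462180765923217504137849629896624928187542689779200745293488785902494484390657772569856627386114763413423564942700539601806723140521377304271069206694643482617309636601206858557537280301196511276812908539436076250270017402757302498945122768613227286650959497972333492817635096076507055450745178874998568872278646021966183324522475627092367804420897192925417802201653271788627585358441694536818477929801497441003856098576309381416070662404296753428785370377863254585777722424163072490176200115311098290828445812192048721079436530752081631965980787376868226929628472537321800512761203558008042979435006064291801072142786675996605344700187714664986948245757695579054458670286635917578401888585220013835283372945788629597606857380637688664051463068891437456467511155802555716705921045958299547845834190195919333945200055588879273746296897394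250765086515448810554215872274783509320339731425142794581711034817966633722906233933587621415853344538732521797540420807385135861748922943264908716930295912285015304555805074262922523667597585498054742026072249570834974355251894370084949139049385915289274704538710129625299702913380386369346168585322979466656041303521613074499324687971493606931112489785260227050253490496461803685226371863585033973963822500674320887744349919273541741720829800188879399757923407327363526263220703522108181622046773297219154337400440925106430670199651973892198024536683611623859834264751564056500061142702290191645240743578456808174722601337086853314149241944122426041807154030890883364143238852440916583324193669866416669037080558063949009567276769157691898542163771832331262873736198260273541228010233773990403461841435782914832121036359698714085467911812504839800651931294058818410651103204761196513629359948238795965975944211262650924457237310450268184234846248268808902472152885259589956729687787530287930623002451843609526272)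

noncomputable def rc12 : Nat := (nat_lit 32257420332390329687040620243919898771750216546647255183513648808254738172963596130310499566179492806577324795165437346398207461769547127320507683261903821802316739890765557515717121980209908578049730273677807428026323436002937893108872468645530356255618756418004808019843548737105259874259381583425994302812904679370515819494019728806338055912888399044474044732181186679066338314381021212354480053452150985190475383025455590240144659773499750119133219504899235148893422410404270025670782435225039610090491046701908833804718126730170791655492410805197724302429750221372032754030441939137525544274668304319521425808227668458331852212467627200269379439553545831792905558104256862797141904464079893448756288117518413789415577776605599222882207375152583188703997998241320579288510472239174788492288417162990395512566680938148603802477401620513181703257185566998337555562017963370498288326892135589759189447319608492328039692721296206481485547951369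213295105727493480302206517100317538561122282487086846452904588548027072599993354988945991222235522567994311705134393470137404432923294396328936972267105586054883123033576269655433034424262740530670566729001632273574857754211694940756390194559505299248513994284885353153219318336831528641805642330141448344766179127396457711296105944340822512981175362414106115303195645461017344058123779561919670814618716996203794044492902391917792627709558172039796867732734762027936458764338753612705594793311658352570662985517841371479816859115761651206889549950542698746289572638022263221295051758816763639630323995173118453971036113023835198195307029428833851195030287739164226186246752111157037178096629930438164716447373231956495455726864040506980592891952258757565950463122006145801422070592343175136510485497368719719353268028898470192629836529297427829492655961050664548928986804838241599270270323292989034834848018844165807507406621863503800869808122025376138265550955759544704103268043997919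067461576681512283904673421718526596537186167353452977876803718827772846191672567294753385786766487057342726880480820036297483947372114915848169881649060574659079566523142218550606116165452509632734664967562801826022710509832549967849343224208981998857961763398376344329222174261449890790344604998573494103843796174894359831927923144579063717680914085948512141883295183160092529117236847516483313077104254878730381882052665875615172979154544926531042907344159169723318097111715539251857013716149212174419006404834343215547902292118366276671251192471570754167835627824346783545602607159503419857121903103208225984093983970503884054176584800315849068622534065129673396377483248928287736200898732025082521289237787229567107060519618092555149562623125042327422156540435397798593087422690657316940896480480093456973831509694420023362489097368201027487102186412099702637162092230612425433648062836113433001877850287268460695884186540160580575091303571432399595213587229291129417759347319677741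357108957991385936850078737285452800948116483939101396509396058044854750794915159160431156042811171459859031884527724284946532899311541479804652111805153103301297719102131996119909572783609892887397709126314979877852865097533149015729838655408434428942727926405940269587405168036859617613912779105777951444022797099262525306761497248748794221244864801015209813822638979628322377101446479201745977876792086796535581582302375277432115749349907716877434889365421689187604754992250254566679533751685984557724902337277971746744548247133294014342934930961627221049571933598760309583235609338781206897502593939668622838613977423530472794357603591015758341657457886444643508954968213483092971959161065297001202764294046645761941628202569130646019932275562816315333967130653560037373990818674136304184760868348959365837869579109979878463068735324857681031471078705733860549026990088742871364221116233187972857902151763598202146492881446655688250308860335812661512460862950676296419933893138734882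750187984460379801138949690998559257599675828488103827307363228499751125276251481810822962135475610168285992251071895430917351378635887756867957807428507415302582481043547182307314218299107518351142440746145520541036886463224541179628716527097220891397099554232288181990892970124840508308041974705023731016447790924629999493885229725326063101207918434261537438912385658090211702603706534491396597652293985733961306834276477754099724092381756590849048080093609458568703475959540979503809415932685234259456501383613224564223275685900281791091732016738165343132600760227779513302819478482853513303693754048188437259584365393703133017488921463076181494318760860619150516406989476073079647755775265035197774062720380052674654196483369049126644621494280392551953238165144262107967629203629769045623662481311793878301007965134761430098514650952961709054637603350791339468791633791748703375309745749502002671869995206850702311844419217834774497307971898783637990843832004709880625362977898062767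493217210293895783822053981228994610128077276355538229920630827539078804558908703497055361047051550703735305198603504311190708916691186420582394001828641712187962262748461445454567481325507749574917651366390434087024819457949298659291189806228493826285485341086212342470928606172884596147369727828810181967263866944187230816797714470900386460748578194612042136400369329197220837448359621024715748575405652346135654032883748923804598273173357071474756601095107426068776003704985027161044124549346674746567382717755386360114598714840404652712364875929259925810223913215622165847075418012679351369261433855223881421166446607666496856813368533821250263110175314247309380789300975717873030756413872503957027170820905098923630200895514974864166672421710553393787870262024876767934908054106924482992060293986249949804349545448550785176250916155714094172969097305923832726967052778207566591525153883573382164466939348791431248234598140220411918393815563763311192823503740458629823504437080974815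107042992713108326263758479674695806936459033397032779949942231571740061267210486083729611677818663711168798937630189482562745187420725001727078941431027832391059253265496621295803901027628398093128594438097922673981186880511086372957572404895110541511274390148668508354074901480095953656080303755528580793373828074920768977058681883289122278733423054640795563977139872273220294051860773036005135759872474257678958752429849106105237119210057689250550780524431568943358831769435286126087150490463064598363386952846240429639579992246033357336071161353971954115083437571973378587178098267775477193337908192951393830754941275941447360904475915611141161535776033079042665635616707691908934116702419814349571059063051091998187035989770246864519877191915842301054997606354671893300812287333417114908162028354689429929073335414087084578032133979253884508676901535718255807947821637146843569701002293219691795923912115264431580351356365829142359612994464689553770298373893087698887823641517554412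012918133473560405052385396831608694335087313435230706658085197743751811674812122418382226564469370021310257207041489724382920086070315621535116656684710837291110478067142865173406495947730355723782615914908802900840638854104550896835656143397616701884751935221273328009366012981417353841998320687132443139530141588570831276019902595419575248674350116344473033297811826412099072240781907766164421911529158298469637766506345647916527476978283572729928477988132010975525445850816649195751344810623018700230083487462618536411537499807598208158153540961847968551246345565585287923732685530932394804245857305730442718895479118675418579972242739999225817846631064155571463153329673291078915679411352426626525796837706496476679977399242374135219874168307186661405200332260688136303849664733310506258120778480667588639912249227177120236968031904797429944567125879335560462538310173736815266246029677632343487368776066048275237470148310424027045592925356062613378240169844607210817663615891374429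285336544303214608272244471066984021596634260221097598668816476631854083478240645988234777018262156895172411102521585583601546651779243681066248001059658481277112120164120484962909601085803960404941790440618493262766013761830141026680922583380789552402514683264233022269256651826632445737376828633483084420017737578827983598807165902376877511767134569505552310705089357924110938613335481646182356116379490194149747620232412608364184371066235928381960264220481917902896409999670414948569695151984181004068493323049002166762180766642518903544257161702999085812521802695716149189926787903141591077713830008620589453624765510078390640654917803799259378971828515583509740270342554180266823711466180132922632809451872379185095637938565780236050291808962129225657103555719882792887814832446091592216656099415791883651317648594029781799016948851289176155934430449512850564429314484652284540201239121876661076109513435639721889617150012080797866454096500643166639293983797671784118304488194396136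448343526074746554654273644908641373349876386069529001055775829308168749219256904427248188099480831247887187218757463296071978124088922717262532442118325057824348063104069409305637452070937841538689195867882290127943358222499892624597446905596267948978216043822199503022304583343046520633812513986091500010466163433149864309804027298084763765863225234124357641986706809405769419925100900160439139447414926921152701237798851318882759298491546729842454137143653310745807504220789132650766900908642460647553708155332205066163153908617867034929776811681649434526605568374047448000800311381258438251740556583196796753637278205662129290054121180521876113944982458818544392959239513416614326181458349306958981513017156226123744962592519458411920025701859553337042015645930213772524215911868508610440915743625902365502509657352819906808634854067467139982323184899088567036887275288686074753719972314303626025474272875900074066938869691288092404126940544947380492829373597209444288942200608771315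764447780790942079299434230926431149276732474163569995561666384221177712539949728983586872013634986075166090204372145622589803683579372725734977846365133231397921606568112905048980441732488966695646867504043179807479678814627781628705490890586478710891792431858891305926685597570772301860798991490532081863656917436303993552102525876798848437121881191878932218148928842952678958344509936147090411342061806138554443114250196349348080553076466436924637484972486887811670557692787981794119201814487933815703198315608715864417119972054200475997393681031791434421979291072107110701934857754673087883301223560179099441249641768391147924544121251174404250124522891000660499993436774566597004678225782812532394500931887020177401589817843496743326606334237519720080387213022675647719089811744191202039590607681367519830752200315962114677523250963915871339622788565529923233006208019222367373251738066082794702727359677515574025625218975850014006614017310568732858803929969215979801527946586991896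625997405778341618435937735031103316808683427714635969586636733926145211622050223934820916540645292048033978005241056074440765909473492837455307486644776960098191543612414517476449520641590013256092494275037031677937230258795391803824556255872707195711419177963262042221818502122029779015376846400371869767289189345059475597603179386227574139903516026690337054313910691004447032960567699420436129828067156682569431623177547128640596673109541683065509387551709284370319847159462673766686800421051152447506165420046065605043923379484239234997556567549652155825416412544822396146433471079990742866188162102465392098387226056270505463338219370764822604235696757357605749783596338862051222045149564290309542587152269039815107484494054650322288582301607191587548588176915987640744667326625726929545016398861044030183218771327116552151854593592223547427690928973290217378426526787344651585549293633438012870180676011284083448522243307164147661453302610878119233439189176512569933320527474561546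075169829406909351288954226086198318360662329804922754651105925959584674735463679065410023021712482899521641286830797605909727212639615925702772626467068436896749872616531928266383808626576308597566466209021418038555707066092363119732027765412851626673247018286396522094271687081082798827369206752712156931922329660395127908519684171145399153765515101064110248285269562651268200576029559022951307789048945840284140363560277261873033154228473271490645880195644609297959714924244024760700938615246959544353491440899802905299644391918794015762005397874879558938072863416022437439133160648076825064451825706599406501422543339067943711946780179616739590339419715102020328804342047859692540430240685429992435555177469177509489914878848822235988364095813250295724667192042805185312746940523224200371399561633928367324651442183464114266052217822432239062688942225956507142530906796960089863767202953352068791318860501085520983348706698847706614049743225696454316732946513156585425072575700359829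363959997426414182277051526377643701222255255679345516960314570046703393864442076351008851241456929566295015194653003320199065477284352322797962998732064739436099055851012226036300198076575996036267877995688942130501590849241807362484332244482572614214281560893048757446398016003525101897133128106127494694370310025121326389510717605818177522270984253679332823098479194941369343537092805883489461184050780044892884060085953179047840540731408742333640786230649935871893904083489892644780061611855955851855332450914395051787349036409957716221175279616581294143352923544425659582070827840008965416193624652658541433163486234069083142717997537346032435310408917103108145357127125399590155565870638880463902564278775409761856214915931195359221890714740427753590599855125575710860513532243197796602541936537530360379206213890610634086736717241202084663286912447914604080308760223187458547272032183261692813290006789405440691981991349824646224089025386517131930717845347720324106567083717517853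589226535949512360272872559537565012245273349807319741724052750775761692983628852304590347393623566453691942309185612997818416541572231022218783151948127254268937663833560554248581727734177559260248418101930619848459272483194671513242389431758442206260261182656236527889945217327625597229651713985152112716554262532203349338336857723598769939294846709796263214847994312592825302383300312614644049538217177032870464752444955554747634190960860612347087766928644207608468379647813649443100838329805185782764031555533527199105211825261327278328701640020021780845558209020245754223954881805216010909344857122216946201845389862823272734407878750061067834248766412015950861181571573011228289599163610107643287745811114382332132264739325514955663735129350973804245432628803188900236728943804918560981352380436771842580712066528153227023504698635386389610094231224436101163503270376653405926921470962868943905694262556462623290958369360027045952831592749822042061685785848735819268150731809910944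376884036160380143142993828236944625437276319776924799931107097687239402964372157801141628555351190256093805154620554294910507191429926622137078572547822212975153217495570470051599394009041151803805683987059929009254840782954723815900868345432705149927279314231465128467882317807054608911475026746504260735324155620355869383380958231085266933745340252681738357452642334960757357995921408428228916315198059431210415710153350642992650761944664296321422534624311770039221022239259234357231204725084706492635874501831760291940830296305695296805676511390064302633487420606206857970996951184326964932969741858134892663424989775331013179798717819357286324642232064951296196734454129959577406574351578410141033526229712519395072179976676363366724976391204050162028232534908086702497387682495047327068477656902825284254098297986330816554082883820030621795826617678378379469306134633644039871636699654803033619048177864332790846069128869249034034868499124511743862435243979506796298652615194378439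300186953157518093572418006829746406594213891333559315666471752790294028263047326006945945062517257396448365513206847134702279534543737715004100262337850763586610386225837562053142052989912374564895726285839388490286562974309051242002408115386154111804331730305921835623153046042571392128581137537851250881968964784931198024266788356802129940923463632588954560904112209980549218205534433316257144806485413812684996203901213444081764510842630832336249677988814767130366140919232046248423478335259684711352962137265069541265478764731036337069812104449535177269866723700181785806130599922627478587898452095882490571572458065318630017197987185252661954915253865248846677200989391306244020318342224700106698708223061819355762660698354444369796767472780842424844112344191553348591408573008194945433975563363703534986187188046270036069811678792017865093412670012058318333686782782999481214113627933170194665914378881632650879490531759902105019145604102819712292260614372008543217622775832835193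029422994403383615266409326921255854877770647368443556332570228059631032134380004099678198910660952301760282441885322393326300818504320599894734131174166043741255859894816052372387663604321017565310855568327823730960923865914471689749750064516261326328550499649093241760931053654008473892084627871446032436776039478842806353504650331844436191734061075612781042158233451338278962723205590687231906971841976804366135136669010889724900887824678486629992912702153727540885761174383541263689695983241967424326064347749997279067963554201049592211148077176852462365739746508938681202920435331375153685912919421825288915779845017025087408761396443236612389982900241375868591955134782342716675100014205862326021978944037885897584260034990340840703087833686850453636131622717502664391154929015909465170740819125539807480390036771793308858711395586847967213995277477562610978086116998089190546740833443264927254816392839515950082213075274943273775420579070750723148109546267572167869109033053039712115939307958994386873745408)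

noncomputable def rc13 : Nat := (nat_lit 32303177278792412505467835982938762120232277961984497937110790300593452664056876811712673162653452336090412709644913013461660358778930020242587299996904083232388445715511731134633778191853328185551593166070519479896980934121250369478437898008552839935412886707395730635671562234001725729195530921293393278168647486219863254001446029308243629061333808236779042506801918350556966526778210034382536960095965386560024953843087165189513534854498701972555119060704690715755833506653857132601626362057324831992214011202262441233099485958468771669703046217952531195427404479882650772085118931873236880677473513558284342531066408930012773595314305517621061210360829479135043277344940663833506738123857873257686949511142204947910713359616062158688759350410995800122317659379983391764561566084076169628485602259533257090733134617713016758587250192101015274038942743385257034895532172115701287463299012326931911898773455364560291053691846438435313064165071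948333621357632860641999497790299686937282543256751783911637552516641882237855122739031505407378474071671514175422698959299456863253977445660817823143819447187544182568240533911755388620029865521756708980063004609873909355206053481593362899915748741170441950813748725010845882008062059139278587432944490576668162911378518093780970806581794489475511495495450349368987344881108235094471645550179361512067297738855244570656350033999657345501583045043042218353652978094546805824477751082230159084011203666493214758418969289316580071280547666527278799197691747818857348233993923820204416258365839827222941615479272854655122661594411620630634535523344252136072337466422025942033547721181705661145154842020815255304185534105236075391917477624014185762677533878935218306020768975211307415499499792511286585562014066560892989689714860542426484549328524192124697733372206687024228996232709679525059593435299502824865724581553528995969323082691015202926869429493042365918941282572483449683852308591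740495763943911324787094879061502394471562792208790039532240732905600214762661151825619495792440859105989948189638799701741667464804872247256970468307674720641096348775059516181863576657654527605178480324568362522729279744042156062420758330805220777710102909442275806629960205385461405547266530655689983993047363903066297408039440743574878547725325539473709196155119072467228965272940530676301236004911945613760751503721148503689082458289736811862658611457512486519098219792595543210727784182584353001573643256878615805052779968997978516085901179554951438515407682221066299506369326695907941626705182768934386803016420271999866721692226347891632129885348871953166694152391031620124689962475877662963216709887523248109802800126830886808005126408363975530685253535860138298322518124729722846039978894962195733379522647371285821720342278325039822855530806789735782390808498862994814487529655926954880126885299933057816873421379425948838839236035206946075355777468831067018818244591137250523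635638455573887903311162697120982891838474781077434509044188085955738626921047774973489385278104460616406313211536809958960543829672260783617693994601673839627846338149376803597706443833057912336297345393126724958622960603484910814568629126444218301060524252399670436557764093095673583257719295458828853091755958690362743525889693281196210015284366886032279874142042512752934579964414912122146645301874612306481162025999185111620705840038092529382943605510757178938757324999323944924001739513580909853545092711632658616485957881460496314715957595713519274446296533108944587159306890068152333663677521056461836039817138884513970668782156598420481717627553184716699256638128182029620612237474547678253688627085195308361072862154096414876144308066230460051128504430761353341886437106401764146683583955670264093856292498584079445037422776157825928765684323950499792674765197691146096345313805149549504008648100835347447102642063967206319328438329778254100829813396831036705525107591864055597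098585526127851949498787292437183397329667711234504339035748475154676826686272265635903798799442466044530848233628323972962400447221727736357599087329412799781079362584167065762722251570937265520674688454735624153179641789088140909258263533988547689762358483285143026424753066893644856559742256134583049118216606522484760853040942367923899109238614838797800761557867466283309254448734391583870326142680939898252708576518314048413288299538949855740465293579882417275370961878215650460655273730090796863825016493993765997230682103863095186568447523921933507370518370249408652340163864970339604741684035792221893387512384608753016488442708253410409509847600441782556322367650986760217884290249830964766785994889621299980441910293821885387345253159523594176195985951915260010068339553068278787826197399503925091027496473403198706859184379025935360443164190687887718751498122399818666075053595477754595243175054578446232176001390601298571370686597935252899225144100252898252347902370644651635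126871780431579256106651664471729580366297972391155985609545776445355031871051391469938993511689713498406160935875558574705946167187221079840332393404738936163290060443770323374535551918183747801499065762645518697042019316885370114393208311777798063666855500345208642746925742699828023959337799450848670758655516048259352678637428489346023595392564457037943247707290138918611762266820933167223200113153924102036980195637177340644339285165695707376301464186657401021947020972813652984248141240108731235324657205829333649257499043878685322568537926593972995748608860249457997563522573375005339222613091278047407371709065179223105622211719654248252442772559736319780705619635443112498128810352604181048236221920414164579128005771111321061462267365552771665815657089870947269034096181888425986649999144799721736051012403365777361189695109153131889763258648532158940435995819098730070985315760455731224800653813774758887343186034218531258763230523170133335858412370303022601872838681618460204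219393924565763505705527934709447184837252000108620824074051464630410545743402413276653377876553133970798934915828449661956165906525147607122846181292565907010910514571528642970272832711585841415689833376359634299986209366830090380832241791167121028520778706410840603584123838914736721419016857851917755358694538562834577355840536490042921810494495870438497102858726429945211041374389791281851474324023206355302102647963339471909373481841988335982420933474627113268073349525559704438655938737166643621383502290717966764016144551046553463183144278031522363083540198232685276477259952734607778715186003272731834568083843278962814022374120687705526126251429536687084928958291448438916533289583069840894483653766901472161013767491690916574478463884341916268415822038745250442105396211880205235632455896465251500465570340950851144949094742550849481263785678167943027420344416611091580168051521347027294223384113215289937520485846300527976300769849701783963746137748649062711830674234538363740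192998751346032419376293771029501282629841213640537458893931348282973638239418055369326191964670757815922845997493237966817623871084855163414223484315586178154184852803517690426056027656737137992425722286737592206619003835761507409154111456165320686484134115656580448965213235613691163165580990118992176104711143533979170653178182629765536485072356361307610377370688596338644123202673566282669742449137651141608258558914781073668921904147970660624236175664247908083395299984495421716738946171534233133141208868949688971447259581763238434823508932146836435908130781616416558135801323342187715897722644425074610201119387245732218530585687533787390927472677265785430781042640707395629238091619468173154603913466925358932245945136179975658279701097402756044384012574925355123898830192208559683378011198731191824033176428605557765477130589889578440884725453376685984368213603517155550251079621329644955133118747680148518595584906430430387698345783730902244029460974658840349200796345844789200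866966790976273000609320411474452515767929567320208062899109954934799116892105069864154310747401457675670895290673894338331814224843699673467239852636828202441138266349835119456889360380958369972518397452207400035980346634207059841193304146623702500031257718082685086234532876850511248965402647989125837047694476767954212395014866482110635482343052863666383146030380777061709587022676126099161487346169569892211942088719038724021947282700893962918051547960523773971869914111308756387178836857703360996261394424875271899082989093167980692640312709983744463951292274924697344119660111528641614305086649980726883994612891712101174698381882817209740208720373873936938061811619189124606332661582588045671871020901726170043858860510704522945852307263475277270155821804793368217763036301165741109329127978658185734285571548582127294131396380825121683422520298941631977515505042750031091425637888904399214680150960503448004778851845607314645899136608209406740170237006174763529826347952333075606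536832385135532197320289423252209028597435154947592608969028159670873609378489277592865550869137243375885012859454452504640429815349090302198742792460939954683945972709489059504456907209285617824646525178400284349647531157885267504444455172849978172442901020012458969790927724098609264060417209717784909436913511608780466650569795248777335664889513428415787180355401964386945725099009355039995696990687124295627623052980082420170017839660177526438946166186282911274165707066779250956391145708336119139867241548079045233340478529418317461578894198079631671913248950405555778753252864074917660775121903231156368174178004138711868163342193241642119872694717607089917999098966364449837501176140637974065197078003911390308920102241917508080503890678898137384629973779496950583391931560493175509171800180273390133294082962931597194669432784278431540757318579147323126183857459612732407266593328788983511416782940852863154411664651985323673353414576262873665376058968132648969840548325451907804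135914583668035116753312259976956458714731355088354860176236187515045472006507008680413340240976659506877215525768203463237629274236779675727044199253956124946135836565853213225054453444296825397090474584838673616810913063626020221754168670031838198926990933807330392650664234696863716120635579543159503987093676402518916430491230263716139362942182686712024800316122957088476846877426681400168130758750011180977924852880489401990910724446654521479485760198205513659611009444920938086413921621041775641056958149991939724742132630636267797721528068054183442303057607356500820103546904485193929298339016191224771321156138115284698905274883870346885829901127847933399880722641301979932324940999151875987407290767817113225214343135574453951085443424180415752601031656208008712137841837428808113049908694434238956542523964478303567331606547721919120259384846900225223994230100138409921542597110927424078557545552073181078398368017077732817349760130980252070699100424083067235392129372966338269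413769033449814798282342378737469230511836079322257471087879932936861927080992695136579658975066194144674811626089392701825356593503138105395048766367980277703139355257969092700772434775474422596762477138122753836063558885961584788074735079219035428347032995416982340119151204219959197026099443376491792385816717265736765314060573607785962763632023805017591163241461977359432318612745646058090054097525169229550403759530698772596007679048074743435336095027945445169168919260728482735295542804032267610190811108489501883655464571988701106651442654342983917292914505358232046623004185622110480464310872711172535696014415367079437213613850862207462367957344036148201030777632539291857273053525961525147468652457542758710574371531939579356547531332980703464945095376360394876032992102395813292278767257674771867094960169076726678367047004070870193930740928690015085430626327155168715416186175191193597733725922240247997138755902408731835806812248887400047514934783778657926911926219146527662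132830606199812623737510770184293601687500079701152243157623950906321730207659079142954448943276977432883723413972004126760207522603381958955805059871234931446556344579413804175199133325361237618543890948123154683598724737112057516125447703953495672749171636629675534631660282150731200600402265273066777857283170316963150792991711675225136938085244642469935762493296158329494188364669840946426876310959542205363824694987018840868538273186290855800801510872820923380601538989177479490547584874692070594562308448256975157841540893643189529820092607710188545915435057122022033378633852602717639693796459830344218616412735438335370519204366629854532189547686752477917228895549466865534439450692731798237387780255261397936600675770974277297524109715433658343069059313259670606433812286751719956141942100123380402540738144375623916754954906911226871808261348953834812719913007680392706683362039809988062912888950987513899476978854510762215227984453708241095903047331337137832674431841863397346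039912759556340150971217778752067964348199181449617310156534417027270123875961018067674565411648293880860502650418823224961158159001112093865872823683861392517465898564724329707220621715230545396630743986626840660230711312511424956365335041689695789483882693465636800247636169470454460287925078969666016273459355939785924764431207311683426259181088686801230757129702136096644660007488530679277779543894423743954591745915301042229873322660121046863934192650298251521410092845094557640455734312374633543284138722397726387439524674850366699938509577375532602653534657328684291697102277135445018725453497000975347791470976602041639731835013646705849520555877528794101638407806487112555452934207176334644586426023962232387021990864012058976671126059748816245934978633336423677641119480772442053653032483622770567961717356466208514333635016366375975433754411611087975209765729149064785557128452014111713795139918082435421178662210708153751116279970144667871670850460871329829631377497068914736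632407502616775225212379607645575526165840281498336227292651058308152469871219789304842038630837097027704527629519555241476308209143235959725831247573436904913809767833986644299518895915816553041674603618851402153686338269272348056340057782653436686976986687243735201112919035894527478926105189120339690257194348965273683345981492231177226865819839961894986679707678999985443850410494286112188893328104180942247099392309927113561025981143613256365982625360178483304915638867619858086331242446050151009767688393036130989047799903326679358833589678424805757888728312024152672097521670663956854939147205853842571602923534095254469542968096534109613282711662705625514747258644644810976655266254175603691341900231777758387504826238792447778760249552041882167195552860093511910457562245515226216254656217195527419678537870930566194822536130803223710788203114812695600847683300411910908747281199329340966645264942040596135041055249347912448190556082142428106750181578504225858014281399102244310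160346225660871931598786666939199174578080516184318462411744365268190127693837003380221165826550739350164334041974880656488434517712157940837086415352874871571597461378699883552526306237262690341993451019841900916738299524100774966692346036429582660329668461396319821146227836865168336754838412873253676378834672240406335030378000634161981215247844391124383225142421042308984998331244813120768344084218007472275967759074530514873475614465428454852109254917024937142783835594000095609614069994213459245271122675959804892482968282579563954605691513989882563258432030424316278533842990858873191676509118804544340220302632253642560460207051029459245336789692736238839893856736904651860802414449664751070799738091267962963705609914982090232437578843656393384144632622799221129790247993273392360926564874612070558697733377230966614770541351331434341393593252334768700774117800161054069240065503120896849691762016729048139459607212183103409661626285420879379649225192327864538339078189420869668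633717403550399366813691563104895713781783613880570678742505282270522162907560991486460376372462384936495798183888191913162532436058281503613435570714034782780226810482498495771980553708782017412239224585342235503188150382291341989835024305998905545637410051762076015196747350525894206950705431233624841867799468516838634594149211368266973428008524987321268263293055904221820094320888742075061686229568019342128569505217165618703011699694513528609480118511374746935696727391355321361162992466464952270598755516689020167301569952289695411023874629874364119942164219215283838859213558599050211292892583623069791020383830992309186506239142881743859016918236247930065485880834526701298561106796758850780268241281660128098992939044532441915183973958591953036623562275181781951027566630471880023542517920164702989611709216589771295444119337334952932107704720015752448296727279477784235179076149105680650678784894246230889132864150744718423763504357442002063973156524989201792577421374249852103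101749137025245742799348911013383151990150530581358273006649268809219603590939913824595899415444455804399784216864887364231633889418147841714715191625333142655224863130455388530157284062673339951462815693741583015972174440699555328251881990599670726060875707548425231869581046959527414184738444349206551852062323790341063742397798268325342294901328895705278393588027723512450688053165761299923751106925425659668135994186389283057946934616919682920090297227285370680085636812759085257806736598135330095559293485553208353953880892065497884447795410186352751380651484274972664870091504495390169625899355028630138304188870158828823463175183778512976001630120922639077780208598821972529649849077550737071862604989533488921544295618411185299351530659778344740139972391688686014010340791693210796135606814710702087400174871393696424708626767751727932186247878154864271929558859728665043501897174018102370385866638588246556629685953466718108820663914973739599818852502439304788721465341634620106065835736119768309844410368)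

noncomputable def rc14 : Nat := (nat_lit 32348420749297437315656358721225112599132002728885132955932277214171618594643693932103579399475401261467505465121054770373102432902818449990001519558476564549355926865442625974731166860479949155984956828700757483433515231252617434040493793128056205157539939866188753330632437487673281700081826737325771322928597589683831458300976386855655995237802071453527753956064852217403194554593247352021015592832121941033147604400838174075031427548364372875059991933584394319805219230969789736606532042685488646792973979935553093046848160442913151604904975489023863475510089906890181246684376697875065376587522153991018674302739170582776448796315137155946092082938392325528602412201529656673285426830917497064004830310646699330254291610122905683554029164189656562243987917371798491623661173668838675293362011343753544343876104130523062435029798675151646535015923491382871789498690867821082658942935954219378692976941558081616022431150487484287864120179505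431235494623187368118814151232945953982978458466091563444001707643767204770867241453000156395251665425234313005282766926030852755969144866098564311641057034493456573264606367029091664400352572375887435319479839225749367358068662915481888111985298304832300750554775637612978538500223432114733891429948970273849994951045145546753325565432147164005463364184352632467944049501248035117676829098668437721446562475280336216204168662980727935211734497196883087043910595266967908623765164200268668746136300987614833119330232715959765085997294047703518832713664569935921827570997642535159742203183671286092119698587538989731123618946381931666168729443357801199330105531146011225970565990074703905464434714961630916496470985875786811059790886421110257371270630685979086029471856534485831802370278167297602444161796693411893593515830418126010817845143374342453888848690471060540959747163476812478006186621104968137217658326220470718573697630611310300556263376721724691569280813582710555842235815684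645412316225301902190725503317094018590782388171934292534682911940455060772284185099426164852181153595663200118964949056503603238045678323911522365816140103553004707200032155845467872475771543835846157026970079657330227482552559028484068876185195053214432381113001431951175455535851024075213839696725110889716206005754624941019706218058699573330925621719069655092355427257936123607112214535282153584644491953581855946693392154400246211729951974272477254554369254834465180851540680549050574041738474864102106246006387941553532734779084971882111930150307062891309512294203400079238295176531594743990107365421393125967160707134825750470520812431008894584870193600210436776950329381035384317436932161125003096636903409476050870322817385952780485330695025713052521794936778065023991364306408038548341788746736891224715778122345439915136461378691339549537718616327004063090569899433834164389227806349182513767794509578860253310089958548465761599975351317533740017796732496430625010476868486646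149081285449188242535241566057551443960155082736808979879188585307076556567721943789011237930062158410563041583823166057471492646870643403024249508093260973894734619025177054431957851073952394803869368565411636443249309826293304904988777044383644226052749254972701929028960757964170302620082021211640568015047262591288770836190709850125686450482600477977084814857694710184089788668320199363437411500967278722136008385415213460149693586265115432687012481042599671444569135958705276937764543947262430832814551308249485310579633561371203586002932858286060319906027674414799480002579221787868916508996845424114497942445587675086807268264627632517756898314671675324998627372637340211958391372941820852191490040418709374688449752535743909788264289071006440598066781269036388675863481134224337612469865851082445046401098321722407855823763615255848529271169820681060378030728321891558416300887333396161459493657022843978204078013219026839321265605700756550937910757669960682248425652448360952068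110497144062995996383573774914152104518003474313932333680554267152402028936341325282467104162986006445083495960890158194120035401512059268413295031917755949622167895336328561041500310975985768703121766666485562726074778728119321241354657141079420676594420758378723903307269504383322798010363361942365558331311456943502072129292241955688203745736819798294922320733774393242961624503671468114209433743222851043585230209649371054826886374795314787426008628985302118054668997269301273162765725568955794961630019318633521545389043592245447971679102556568827528997961394797874097292357354495041719514098173063771988007006780768021380427857660021711732787582089321124107816056088799409447603334352594659305738709895473547550950378590846311134014138602630476243761942395765685552426017488728210783045748875489504197492336280039778664123819881526142776295586106046458540121788165760416882032725855808763587321228422356255100628062340941319623162650852281735201117911799102085440393138165478427001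852343615304179595589700371028636448710210374337922685711657237300672557691515083435684883002541138076335716021104587466312303152497100417672563272238547115888977407933035439868785187022788090316300573379880766638879997626540992288468450894797610080497481664384321074453712721901694041735113725420455358817388390046818906399460115765351448465541640186782407441430031197708184168511539356607669147839114548216503391534363922390935624521041155662808368042044362500230401507732265703558352250119866528063578473693651667583109923479344214188789126304391800733566783075384246188970032226405365447173519199769688202472445087797312043068237901895093610628604238559177020028484627352564719733832464416779446101860870279020585697716262007864482549649246149047459193181990547470926846287282565748798828103920711842078847769384647151311192154407832493531258626516670021499740500131792663940078147423302185808430338110319964688723879987650653449848402115356080205087294165946143365135076639717261428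796311157861234375012250962276683645961428223804365395640109329365791759598242713341342294356600347851983364562818447451661791888741761366796621620011655072251832396665155822677942342785369818902247708738155190442260217950833097228044631516904506378085142056833537212470476337150578089960058674867460604604838151226087551879972479060277291020918416842625729873623328560100942363430229155319941497148133167109842751810846608539284116608459999608599180633919936245049181606757167786901849064606800603527736694850783635174731681775238105282045466098206335398293062242717347768845542008257222969608800037766520580769909592648141977915636052287604213621023123712889366876652185875618934125248717115550975473853629986923226672042895885834219144219068603496350759885488559916340215485116581398411797580214949882075293685002894868549632443292064151502790515358818565669786164399865074846846441661424733415092681018918954399276871526015444893635340561046550661497536829949583099554925892089061861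593421039218257626372459606145587542171753183373762503010356030934643367684221783079715641190570138300678372990511214658313288506757721677366046718295214246753630086017152671981427851309796509403763402809435854892125147379625386398079079587237878678164552952953574686809254824477914627246524782692259268268169706391959685635375068344945752220566294990320607168474386771120023772358958316988458245879000454281717456101083883628753991757529447720719139906303135631430493580285469205579483817851543917019965772634521933039858330827292961011647384181250452001399205416264783806619809540581430986988456637087212752427266688671096996718608097043583913350672962442965522359101400040030305651402603288451110863013179887081031318820144212469651002399683343800896640790836136172720759736963041374035206719018712285824304882791271195716255943019452881739133223921830158075485790683209229609733840228050842508600230687396669842344910520054059168641240160404420728971787235047936830216364929502025028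633331171943753451340590433838003274650590022411477529455045105403823609871919018080692178046587108377733126241823754147472491951075415844057876306283462897261095355898238514121499655824762914855269480428777403055475986701926464579720428875624730818386216515465820757565201347049794265292566369667157959510268714087063840398024568115452665747141114965933612384784250021062475096023002039130195230250925403545146925802064474073395275630258801372047364406730627740825822417054960325559562767450124947423559409146397697299702353121703205828278145597305592476598747547026675886413673394290643690631184605599651715616698418163316878473415725240629093651963076027615885729745839679656126463607698563649658792494499487821463292468524412996920043360575423911939815872270363599075552434825848442222363661176307371372658268197332575106051929918801402707257717598638818814869694504505354838000195660242576188360132768840845617350971386700677694894648684492747861930968439035753313010242657967870925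513874637299250340047116322786443008679486857475570929954862721592238607599885689799181982185198274586610777769317643131931834390389733493431696392789288529413620927147564495815771489537971222596105382353837880729878461798740744769367760848768535210819855178485499531873471706155650814531599271301229946041307806455817057617491850535356913772331759221175577551048630329368568515367048923152876984566655248751747185169597380262416484688246871830245360641688209926171179147160478013812666705022067012163546684715661649009423877313503754422525725344241114892361224401610222017453197970033319653393162587455951809004980342521330991437915203181560410578861823086824832214822867861760174365672597044895237339363342880162333307226350017707686309620793577518731780732464560736042794630315519735143618874241320396219945823461110855835891126550569192253444666696390231453729262037719142182145531208503629126007888660433491199883790779586905720279250553064869203001328813539645839038042994233769892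155331025733068587362069534465058752604443823498404247398585879383007414194231185280215510986157607235335699091143157967602561646838583565904213082742249490100406180076464161345588128101620459230246267538240747916550865575796972544333078816487142238104615597254358378087402091030946422160640758570004044369483336643093312064086293543307135161592916209092678002574727476213356794631819281036082001378915339614728747758042132809187963483690695177745111870782748694534972197525863862615536626067526349145073228410431328292131099415353616078551856014322139712442999232229893918051441837878665817925717279799766536607245001457422774796515461809752013081414355442751896133458923618252087222713594993941155877514185063715204837343285016277392532885122459781985856514320094044696762960429900635444212441934865519980550810186094854003979778771522207817150035590470991818781441616795943345628099589809424718128486474062553826638353585081276481722801140412040970864253577205066339097411453069411657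487344645690847621212149114404338031186099607137898732167436255023037588693797110432075685685513891668583469644528880347830276686040953233713779528399875709635021709413545307615052150652109899010996714706606330440687013512604336006897619955490652593364207328832837832504376182288418133156791200281770751747716417442700897048619431815783714206987049392946930048039796421032842483813688163590627255565320862794809358498436925800910331001895095701004527718419667372449128631872146311913905182163373619168781164782253634887527289878853699404254251874921365442273494867064971029228864481196579144712812227649380644592046327587215087842762830202281162572356388688944235820386685658592843992406120027413684318361489791895297057074234999122500377833511075187732216883945655292431353665913794981541865883442654186478393468621840219347374734500679468984223005874919247396609991974345609859680321693671747259633191163935741372701520811385800544106734893669784736020427390526186934503103018055058150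109503758038967897509279506802402517143960388247312355532131647059755763853345633196591689418850191625378060507285943114139078905813792295543392638211633087948876150784490490955224497378220411651282275050702496160527906346216299242441052778250784024953254503402906715421747099450029179269566465962457588891144734286050835503650818834471310329184744158892204083311615478212064304697767977777372312245165717061343698846843399321964098350467300386853330349631715113687678506333831547686050968238326767230025543122529229661653924918867144714412313876493932608739986163030774319751645139046633225102002937426649645654697914550270754521371138215273947150883353083434217521279087083606312796402606393363865151505865762354984379078708777190898366268468283538410627243517000237638573556352173016174119191068988251030071875825954077324014363445825943549271211889926412626757920319668920831644957002910976392624373655726306019545724830633376887251513419530730359052283160832486910880091520561117481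862599065880063194894149350953377874045645516522333714651315493443312921458845081226333641870153291428451804419072865766404862830694429026877468707504462670639620706595732749552764440473616514135811047341439273757161072283111983859064441776106004162745785255304308045213170342039419758685953790170353758576272514776723311673194155993464113616004810111403333188583466964988087444254150677197104670721022231200827652003241870213587576376687587597162669001388955145176701812287789428072258420597915149327319008363028682530403720907540423300663896229961273297266182984889022426994741998473401918391994474974012584527419674346920190749845444152967243709263385913666869962010354619957430466574948454671764901427758931032686541166547472241503532661374722573154653336465770550156739482512607011793482993399539395771937172780664375449747131052705841972015270340879628587963058128430268235860660411726289864048295909284244865916005065084817019218506287957239603947411195393889387862197748962855173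124586479700913099227184077946687789706165686946370939966800988726326805006598074175153762082138374061693251702210532324010260761673949306151715549324711298790753542655706686764722024664612567617226527330359606638573250553487768452252786307433810798966556818591664317766359190839104116296230874901739903123842121502040719946592411757152627965243865784810681927731280280026081382465207176183509685206343570068485666424260493878219363136389240140501557649866912023084905260707279844443758287172705252037969817980221399136047541452061429557699719794973541377882868698238917146539289941216899874125380961616344579892943442088127991705345262350376736953289823489134073200480388680441588494309336766168147167681829309762662635903949629125395457458037345166419633701815553623284054216487343282961273595008376890922985454446917558136685562305286475587867091132858673367344496563144213403293736796481725370346845705763452472295121687071482282618261909229744151484142466276479030962942590716432184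338091905082026156579295878152986286791153598652456886754938798906955870463497818379408950994012302482181746188881531390155680803219160806327211519026494662672869061994290924108372162606521302775735727228342523716799833283716532153765440121330283636316218180423096418144476453032974667648034631290787172151799005279045970835563035473181707041241514228328072439102684078321117905007307012643581712468876873573787268185026782475045007780780936086139690349107845903709416071316755052855231829458237317074729833696848535592216882489639484898032946660544299112057383119288508757501836494605426579041152992846108245595593207329714537032009273709818281485088388330040716523500431872621710085490503802822641443545921737693210836676294062554845005203691163308666785345069913534289697628965718850333184752900873933263250748280391571675296784011951855947165865602600199183111548884540329518009205096652462296051448240461487103912216765089543007699435409854762411962211560701868748527830650507769137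725369352029214483929908812840969826675953044966730677317700778863476329298339640536516303160068942266890377968692631644036281399920658448373257579961727473163947217485792365188234835093831629342869119923716621397980378709598109526232184730261311981178970105166331419711045543125627504515012566453756804095855592678186556615898405793114376703184371831484952703278753089800305987952911790110717417791117313488078602600028966147794530234750874662358707600067422197194891274650006541399598357166190624479558052109036059457302118750308302490011841355516512028883136693803628362625952826472021421514811341306664353446615095689532795023019425493816409594416134430894672834842969247645395964122625171883193988986601665540259625620730669384372994700173818216365506956154322595476403622883325243420078224505211690132924814370467640150858078837950729602726380643846546805757206276392679299829856833097486444336453413671625966392213492105232727543323722670918332701058354566938001125088796024518198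055928477599558296951929113634495004377233702897190652579382260390043458734537476757328251097552850892335507137402009237284397062948788564487535172912866230831736738573005827527053091077301081243873282860124662653783180321546164843242885418041102857335993546921481500771277697557727619923023725486741545561504565927983253803151063002500842343771608339998616335236177428026445367201386683708916546058886322751726556353536778534732164633659154108271770169549766532472634846004522298819279328913502258219202280749403859151575902222911692217750772279782524080234040659819641669837488955215446964723839687485157654069346001531715519688738658901808722718035710198665646319497464850843360953565231860693957411383481571372517408609916239377777697286300101564260438506146147942705420576393778403532260580841285112144018420997128234235683774087625659895384881729358899733313811438527866041967786984646771008371469738312874144291996493327322639296899846220896490143821107006395977849934699847122465937137240565893220381229056)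

noncomputable def rc15 : Nat := (nat_lit 32393154817075491862890541342517265585032136164337508174818292272878272220712670946891046715023482442757195457242992009911840421543280057401907282431585140796430375786120677593016361601999912486490938096384860386642537377051080373578561908897226066521116949508282003171948845685251419912987870820730648991358087743566288997581837061755862673656281224054759623314550427189724036428180239118613901582013380399249628533179393692427152956248079525056608500989899724276279008562644721141932664157307544379569521315508888330112197771769124063949261230566425477898733024579100126334566267928535279340891517177069811768957414593732423333646470624590166217107399961610750175297121330591823941202812168595202939827181414636877100910875890146475633545180732469249068327026491537955196666497340118748583223650063769773575752974413975815948627324261522778014339853047564026259243314969507446771662402750061192905313656138778286302170697412404116774328156425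458897464065158984905370350628653661255420971817901571406322177839359663337077780753501143874892891788344849358461698804345357950845787937311700248023505573113443991106405769566263269183002351091996138167694484965490215135413326988767164581065716755657548858192271768192912464883640693645571438327735020797264294007947695205910962423896379039780929469914578318017405541261813434180645264889899167598129941689669926385358541125293836700390828744997083219122248294399449658548513190437856791942010128677380313321225486489138713663506340772717361872719136140718208694208032413326907428108271100017654905164406811429493621242115155431572522195071110291306314927017221314707136214553147581076928578943503661162727671171284911379986405035899796093016976067622208023697606112208939548814059782769680867619615655955568360216348759389343443742773833704187849282390707149507073478154806635676184572692566638669385059645507297107647959671637655060648847293176702429530048715824452486591423393236247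283282480160445568823969794145704810533069578270579902082937995980498793886534641474833170632855068769704887773070243827839518837614167764941597268452474866514015700516513260756573874457107644124552842897525528039260859166102726934282423329058771512279185313341909950057770898528652348288117116218824599137769074969736399304059529342058290961820339859254220168525491905442445756125940019761248029164785866048246096329826070096400973302378486034617588391098849727408647609183228725228419710239184615867687444076887219255134537585012463391550172917711235824744631680338207353473631070943734769650044683060484592046425286831302212421925906510885814823809532126723138899474360574215894597724285525704670557943956101757621937234403988765353717229135189311317453481398387669957380244218028340242914678964621799340017084312284966706813566749425860791050766714191523231488480626611000887505836179121872412323139161830781770590006958743623521479637894875966300271189205635329527328261862657637717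086102732797391405816518914146925614848146147240062385948297380509980385372238972258755942397489970971701010934789954421736476868438652453495027730041882677975191552739123816807587117343586499394026102091287826062110645470184238877171839139189121437436921338697918226195145317570095542710546952969640121372602363963892727448292240393970206196880629989576354424597544466749444270881326756893918042113354107496622406979157193462042903149475823224946271734345627866614006177283452087291231331832377151613044084591564914223352859746267978736506028894932946752982700464887563535737755397631439156498662209449206867964835117227554934102582288728765335937297237732412861828050448257098916466127780587440835906487861954460990196209790837468626997070527909632800936704719304141125798512111362364401230720292270509827252171888476094726418887122739053653498804669905679565252660315324725603570193216499138101218481833290110343494972522065031642514920432554423147812397922210931840370311354808726258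606523599590140433918750083806009344695480047472915691517638259113250397870979035622479951677313158628666356025440828612785983056654631543328851373140189568658358320072207366504477961001919493064832360277827870968078503697954652753779898485845078583844293269827446894434457640026383108659617327859124715528660390051945289897601778887563707304489901012542623230159843304616669145388674206115379194845572333372030497573660012452560354517324929284214667019963285483035974140654772179875504382265141364326420527828290669586623661595369180729860333787538504685236088741765058669702565881593865649579324454321516287973338929305947371728298804381341635430628318912559709910115986382499413572799956330546256808603338144944334088070352154739920980837789719774956076681456532413926523211653890769060187666488062752853289914890660045248011569559641266422986422638079295704014690729338214733769252586631844052978656374631582131683179760773995338552265113841591799548409839589123845177071860579376058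777520848711235180510510705739658729156543769839049991837743183924616898100169375089946102301182289901210156805142274084200619208318801872398168407979526952520317025237330784977418362274516181727011116589423620299568123462435189697510145108515322585039029554494990904504563871651485052058709569990186129768893897246141783188421692975423391903215480370028761938855241276649544402766060566630839453876557693901813865712123312538341720602083290615216274829122313245990340017964534034552332006667208315046649534711559863671794663630765487123022479428516600203251950251527256891401028213200590897009220180497572841963577349749932667139295518164904067698244803178390507007854043910438318078784531614046812991707665203009775387112669253105647194433229753081224589714441866810634365207805070742301475139916415324879121628238823716299315971545334204550589327388380375309182772649038879419820508522298027338385126552845291509058551448993051494045431877259140783120496129478352059158394695184110229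289986054609137954736732634238570810711999748955497516408219836214264171108362113490316603698180808877399808094656971532376615590483519669322094339038737742564565795645386052479430386559041131175541763983855957424750789517880663386300569979995955389485970640618058689076924877815200729741908851185578216736743256392078324435017275919818888512074256976289351739658623803562871123462187236184596590176997786529739680472191773614747673871400910503355743551070307558436324555871876055534500817057680927204850246010458045850162370306409358586788610771747063373440049201274270167838999407593766571082264206992188806338083010325514461029767444207286683450369309346959789262242826256270005369943865387346095661887350334647768425819491058938598215281330468291345653214637893615077711543310317466548033652334077833779433519707587613649879439370822504213421740513880204558476406345751527442738950004822319856971304293158985532718131607224267890470630616233334753010970416703582805674512861324240944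439221891363220166326692828538170544840901146562895852994022895524576347919319090370302973111272627398403456418370739374745063028449377624668490774599215463592049507357710890586962825805930233582971295306264930768592587995702057958348255930081275061924930843936930516328966794284932891962060939665120171123754623150701865469404892808204480603457246701851916189982726919853470058058932991979441580746434158123152386683220305267491179851778163953989763827175769562527498365223605649090928897484146512953209389938079488064247139093267588595802052844124466876481296241540934064934068714251726064390009465453923411118795941575182486233566112151382318753308098950530931420163492342881460803935415941345391727903352615773865599655974453255992900039502711505491652155060462037450993053167221056510151751941939502562588043620895931846481580923180256412845799075536287074966479481072949964839618021226488981077782650129404539838039946707564530927845105682346984335523494413913358113103957624163382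264399912782800287294003461382141115674008281046780096525695295732169629471494664916702374761698581623925038967294123434510435385148807608666328576956218973341533234835440443335200206190884706859173255967785661706992972878899309476237106742819350144447350680076137959981655283367701502330216225189860346617089928544044856425470629183943250600451466840503144590349266238133069882909218770213463951695598830694153077339688833154853638482078049646564157248541029911561227544270000021688822658806435064357842357605414688448032674783244009605052483366660771975082912836780198377488590764724755333013023202473302478296422245967718976976699652484775087257262993232121867058751183783027408788638156340267679091410839978317551184240730130592039356682116258225675952726148631612067882876020125222400216601162676504093497914075479696425948409910109646014658311995027451284319942088417398377452372915935487257297600716388695729048080976456764154832494744335616219594265178874792329644179665854888096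592039674662257419832719677979320957798697397613377227046310989050557640445569351493986071013939871772072377302218037046596471558246738049942518206999788635227246927610317449413178310892677065647411888854981449035344333429381460027209218570485954543229835232437198668217506049582673072993978951051705915290984946649249308952200166091503846148927063632379677800422634401753387487811234940138551556155804076929076757224575767037922448969869234009026200844611247331503662237146639234291278752676699402495852781851716462078190975610693226012308921146038694445410380665170991549967950430195257248419045533559367421180429581433012328738412429579349509912954645483064084029927853398945631051548007220527833950976115642029003113528698675842125413551847902389533689536833685324056266728820127426345809834461627865522887560714454367949229677291013000159820106856173478404315335673391889667501117008534983918728780020112146501477029471326626993781977695807946733479800855605125631628089478993023974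633773393109187913641415338588894573901857700602874304027441097390510454284041471969812224148393275458040114454861845990443585027036311558623560787265293536286547290528495418233989911312162662375510312471024886677485785073895838262747677326281727055439492512350886499664680891863112078448714505941393529853490021228545408885998832284502887948305515260517815765936188086283318496494238720475692564907605843495914905212398255919968356225768173984915315788967021565631989207118411194454548030470316138742492789907150887559899577334363364980837819822903530775599766506867793504499141131594205484004437802966718375637768046455831129037206043318618645059906696973920270424981307187257697975589524945712978026106567141904612115378280516386698162022595105701836427910913089186401196498711948780618475914483280146636114518839206570832862150992480083347251192009106763983040854733336478699253214781067548279177988855539180201241302636878929216009188350051784986641199413698156860981501977911956269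557277126696685867374230322900718065973970142299006545832374309864811968437481854470554810397770795044865314323496943482697432501143191491219097935519214282646561365966048529341906391042215775133747502741185690883739387290680733006411674516884317115556148474784206092279818103313708336811078284087993826309030465884098418885670194883089037585651356181577575415057231905658932290111797174229586293128982743564117912521128081125525321155699885609875598295569458735654009508624755272871241967073842958660958857622820989611835873955490932430750691791376093893497984388949204558607654386687766535549592185629938812079104363910378646480623972640408527310353518487737715975119834667786525671224647531782999033056467702066270363485849654453616107665390658564573327067218798413752313437933106166223037633034578101218518203342939063330691436864627739430300427214809422644524557196548148179092894625438787250619907312857407777727291426648008351506003209700297384239566670484107802602846849736005973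588335515111804870897204724174158710109936670164943767942625418997841498158721415903616964691507446737660807506289718502518640384993558861709818303502478332176980860221279124544036325622580638114199102683390457864700760854387025406995352407394704883715131677673930491115375848113621896802267515057071258640101660650624762660574005641957188122499075976645565848465837441823166301826622897074398594262417165123093056081721979062858278499257056470048009491116973941958847576548191878132344068073220346150780263090852699920483511712401795162607176925379593867466028400084705204853095255921619821451130595676648233279280107956691674013781141095893517455480442318664248303508870239380922174859311870970148649852513855619233527809949382674345596648457576306749989727833782962122495194534474180141715076809811405729206564498709390896271798263407310424847726097063557215329870526249124930648815939024425471891477806758340840751184921761966156578791366548332992747818907353120993197385664404086058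424908293891534053733800479365753192301771661429696540459493645900417507660316491003639901394870669260550499810129195944377527423579979118435423256059289286818760152004259219004711968369889154967323909612520645594492503981132247071576366133614901232748408937966547588265694695903298871445696330850485762741283147781970967404253971476390320655905262433700055353789553226882054489074994499521652620777870258263099023055988158188637935021644562597865571358517440117007188423564418169628716167137465925503075254927252087152278863707283515994018134159154188196425536354315570401278719790149799184146578678592834843349927790771282515233053839702553438320403895213329346127755163079648187707465287955317068716871306474744267643206844350576114256071739205893841913059349223582151611798902620439197227690166905919023744598759027026331807162927684221225071937345467464774643102982751763870326171215014986761517096423622514248128208268570946506041378045200701302691438039624348836703384499407868261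275688402813135769836119844208845510481100667309550030811051814667898120860729990238432727615163191037666310841655812641153498109441651920938607896835368142046073183682947748672387617649128762028501703690238259875211405329089138435141323166547711683450966738519935542853959578914963130839638309684781329308506980915546022472978544174027518621622241304544168395311077794430555661782730907866420342035660809280013331422612971360886570257460949918552529402273584881033229407563161202689328145150435558668154212892532481035435740635833411046701892089477269309829952283675856082415972448464046584185864263015208286548751338262118884328601161706566922627066279468772752455211468828536022433708823197002723234838843904524659522633427240157820696057967630838135606438456510917349358527203689272644191277919411765536000129451828927954780931154967361143715574218672929296899037219895707095534046737266652656477641218957026424247985056039642475981793567444387428888344062949976545105533200533851918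693297370034652280514237435191383789495859583662691327858008386774342812439632646820003749780479999976824935754425288585846927794347125946563427878137377114930109381284909418174294161872467437934586941626616274188380708531008439771909217555658490741447934717945279192536341293882558051635582951615635753272881700607378396936337593708732521820305170325942646127244337301191722762457922798990739149936106508422384905246939774477349495902443983720793763633741720257781461169991663680450190637724260639353357471007624533884631011968946344580388696600394753368771702815896219410539403411708573684694433254675269200658990610187335032071639302152058434186305110225347515950101058855745130952325458220267216495390939221147718348036863174894426140958655162918485237941932175177500191393818513207733849581018683008183056179818367276464685696708288287915874847724421094632380022367855676788942077573498836891540861204299949143343123417150549571534460244611820719682234668394367545139054155249265414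667100840172362894491295352348754191165352777796030236503312729186076403119055447216009650163827048697595584015131000943107869225004379263043051430807583487557999891587877194058191145253530002428405183020490417343493771399379977275600323794171786904623649201188600186599595203383288055768473952906317213907367634950314521428262953188618417708626889130237768685516352618833438498274169742259910682580916650046749429215744169719363575229351934171379101034368045112268070340748454378913338392812920053156708610380941494924280862138039735388820312195178182607100648948264950855066691166823748132928348657118288109293989032109785749122022196954621905150140615805409022119590726031786148152571397670764061477331139191100544807140667225351688191506027855895224718735314398418654276808271267431270253195440054948926885163130742023615790971588736087716807305078310446256029709612674431780597067887922709932027261870995617881500780872523845897065219294978619554168963354338516468383800379807555200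814185701266167819457953447851140932284134139235255825825882954087415494439904341156081376417213509823856812530105644613562195629123983482325966051126338253180633541788148797407448389105570293462589292334279456740120861289426511472032419747590197123433840119003068877748747896510918198456789745813581825441743893946710051871245186620954197053463859614365075508614802636083815532710339095929006224396995758828500567748821182386793733515040159452289848623882383206570749207350448112297156122947408454875333091726279890268067047525173635651914209091510587538990288430417077253506111687935701738687660588227542759251101208528836435779722307718133668897299362822278279650446949197665674228177558318645484206551202446738522044403399968853652749567670631091470006053506826744631004981423202820830306918021506954913702359940837802940086023174960822525509868904533476851808273513358208341303909171945079803573402084691207645160370677411084893350427790589055767910034187127720032757721355708515500940082992613513602690711552)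

noncomputable def rc16 : Nat := (nat_lit 32437383856986412357217349669628390435348853456845276859631704619016087813335209532748369375450270166648148327289639050153697374715579691373353389376101778654721738338698527888801877472993050638991831730312991480589252135198342761674531507414052649022613243365198433368403922283284796767676569379163799429502875413911077846917334331015698691992888387877553423954222536713587928225671560462616449202914506867601635937487008220335914287351665699383839753363113049553643031641086450370919743433307222075117162249490320495907794937995952429387973140798209718367347054859246203758275207247214967450639733130226755024651423902168738225094563984190378326981716022207502555253260845772712095799705492649865982570150408766306092795901955691837337333755193969928448950954006785321902617517341811202953474186789487921743451159417454450845225930604419984115334922955033756971920094328446639532115340799479589458594039791256981528888344985828468775524280427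312686468368145017125377963339987941110936415383116393498766382083366986867746416367188419222597950938738043540548108067845981285535168100903406203490364216951199216357870434288199797993506944924949907906846385888873479065912907361760109259152470937186219731357972568250723467776105266929252815637160784105190409733232326044438704356275498456140359528782310321265417423421815336508843664275340130900251386155080319586361216333885632212409596236806420576579220148532455406634555641830288051504331497338827975692931134448003989076227101323154060312133905437144693911245470007918539370239759717671425958492223293648979636045731388750973118254300908387216672294587565265440871564669386018528064853129084585630501561006866783668452289087830734376176492527899964296852922949701553294163523746650983839654129581176651939332230039877794919692191183387091961148601501887040579522437991802906440377498607289456042558021001715693171807881552968151818654117995063546581023042284977624209677111959955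485505292018666644790801944084683486886220871900642785979299537643585179583995785077854537395933749954269437327592118691727560220176286448570160321198833780668598115426823981418225137343710161096258122586816791661470642441649051578420644840854908515253184618186160086088849685394626622205210654361194757404923335707075540833546092296370544908270344525306734371615878759734044025274907675454585558906780237798986758889176765356310949045067133615611119368377623636796325677918509917438635924852297504378825087902665232895570963643917908553542545250673342192471417903927442995832337871133661142403661387973440410116466348634403180360947647558417692189935411490431246750920677703819333846209972306052409565993128928346124348722940434231189726756702097670640470858747887199993552587345075374282480796644079767784549264739601115271407377209394110048262366277059316963046515643107302659012649290058788800458513311693543020486899557657533995669962628904833915019828850179237651669297381548969198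025809851879567855816606056034487719288047283507890794422584055861021838990590354253211837988684557027697607134815018938887652750377708446907561598656626228014696592367661640237837210626264947675661057674633004456719235873080656490139660043729580964283180131478781298268467820824630155901031680856336332527078928618043237954647320278529643769972067295929994169060593022280213790633829252592034606978367625345424460829739283596957901115373194212976185055135282909195835839726400524070624397944469902103144976966568938893290652746088635485777984786067613916344844224071166811808654064623062785303762551782994356155546564987608525028225609942683757044972474943478896237384055008599376280264517945207606451604110158717781140424510750640215324398533412704840289203076391184002987620781437746547139337209732703916648135582762929607001711680486017026005683422958631946098604050138919392062307155124530372964091048445620854167073180660315609450618549348975888029438006441719714909242828652559838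733698619434051498066104002941728909178053794423876445432378170383518383251444178673537555179075060681017525107839161060169855140135636463805964819726113037533597654862027373586458808506625307459911269163558981075946837589367098345739605313691015532800124510908946965107831437492000815016042011750705411709137617853394552727383778713655601578652293831694938675841680234853040335944021890166542533484506873660118374594238097526007003110586235507972413225343987081447381692623780959322083621466519566233312159936766738665086859192677363629439110619722476812855171102843954075893255125035230499382183692135722378431668914720898443918847578506773617581348997167588296872856137788059358848095221053686548233096864723256248455495720086084007029730508105693298991538120435068300864454996757854992812953289470642919075928175304367769164109037273466232317311516896454014023753144243368778969831440044252911880059125292470297351430185289755730145477275255055638906225242721387943292062677926314723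752475734756452958207377642159913348500933501332292238118427075168484505051091124016939433619568743226403349223395548579458533277994579195258957824601354502554897801544801814336958989417880172754220638462845411274156084574366882908531915748028475821310108696816774881934187247920631407604862319071152386350905666464740384362356866284515368785760719489796147753590965634439268536641925048019339274258173452417783317788164763237214500155930888272849459676117949552012508369989888389517468224698497751979433512101681611788083715245416364797313983860735881392352762578626110861726862998905702307928109382695355090587930951243190129321278104104063245033311017737936547314446985259192830256851437594194334763969694871431119569148932102391929106412590267630391755872581603538006611734367371618942780087799705412209022556680156349539593939223389940053127703961063568603877065328899248821569048066413693087716407881316779277119369335850185346312392672533513947879721894957598390921441849289284753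016825338394667961601595034299217412599704832239856507113926140582711184236219599969772633278104597473609220428945635963466350760053856346685637429885123429595760842392344606752041309338935526836990679822925945975296505255613359295537117383776203273885362979607475241879197958014307678453667224760685396694930809043383705047157993244238932715225816500595660225025015645107572270108477801091017884666207039049325663318427973522765618913969094669120435489396076572277730525856721341020129118993036203343507772212735062550971807222846298931466206001555139433704381478832880732072169883598779589571195043448690068396223489137111173367061964619388121102595330295348336441175008219010749318149942397072736846066947345263532999751204952989711184880218487092281621130340137035113101179936074063806392142522293640034879335141222472798968592448814833939507830086169278122715620543430375203755393473371485947551703284975731650424873253503427462097966596090164909720857545715767857976715131553749052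081231026250356388633459552947724985753017009806497916558818136884674671138302451475444422099290009694504552760243533940169971754665940804636193590003117279527916180611313973461189755855205362359688358729646537919854601257935282713127825302678379173413147756416160940864014931894476153179474423208069795532969122996078469473815947463620658426990229154443182334580285169173513588858885014579867657539881100840216428942755522987854143853234962535164516372592854504918069803038381460031421517125659875430528033295017798812893558990524956851439530640155569500482352619161394641700529319009090263983833058151674344159689725231217593412753478942469322105138202618856030176023469720298717930901751085735743251001223003558242919456282224019474405464557345182515553044554234194431229802767062408140518691140773811939566579763522012727012825284458830981776262880405746056159872268923414986308443406509461543495410562136423109139366343016716133627388543116265204391168155230340559459297905279851139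603817052642802770901784517304735319371227470665702895015409250312392604987371985192125872872822424320754259147546307024024452022840941248809426897902762934597459441604962327315834506124900208494566443672269191853310242457646077526144034408997479179035259615653333158633030999675139645347487103982642351495449313177356140543556685821981813152350763686531922377475939355496166983470836200047758919871401924325234345496893103323952675995589807344561577695968234894928017127015923356407097445990822174151656767579537645430392158617061800545788103293189606922551936379555953911652498120138007597177857471799562268506137247805535831477920739993141166796455821493906731728191655635040305682084688526998301409873885947590416086215413401227023945502061814969991803040540447638566931515534459076690676608477442587631660784955448026885475456074558796589809240333675821529468210195901409377755834660115899438452599219444087201880636130024630674674233644916381488903650943459039470627962601067867263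611249103907230772131395624111870094891884448984560858989578410768772461975447609817869563095520706837794836980322091489826226918983473614028909876912894239614413468119774488961478216909236067605976517826260809058717770444356844012131252438742814894128397967910478378554006701510885578282867951860916422868617773307679822510772022578468492071166520879806681769628378192292504236884178010165142288963857832681840076565544873302492274258818626211616675382718533710266159844295533741239528853670085538352764854795742753003051714438357933131997736018935809885974986580056716533448497427282648185549051289477958635813386663893006897686428616008920319550616043154027867993568672937734220333389105319178182492917005114947983408143762178475697058979214889805312210079109904505099156460330194402208663962462758609614341034788575524109715365383245143109477142135429978529593381046457668821701035562744420246335344436848584655962578395208369449394428708721586777703151445403002364811954852467654724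019467899035289246680297131501295996660458336546659351778158691436274490395562190905383370371150826329411802227398975943632368176283064419904975555027010072222663213724430978604004375989710804660174237243975148057358941288262659338997928520127876192820916052411768895711615212370816438585650229807735247518068861574765855166297785377619411570192639063876071869869112207477813709924439493912602015504880101971226093684227128062893610770088695175517221960959130125076254070297796552246892212718925938990763762612205787453716122480489752316418298199487016286358430086754140468202379341946754280938913829431006276948499902892108058065490902723654330097459277001476671920124011764727830381573479054992148510824241274357621486340589548633506647096779789203669039985377109792165994517636397570689107891134736890178185410573442056418314571323618869239288544624084312692106662527873388765403696984809236976928481033617002165855854400990025046849496278025136285700583264070451280478968439742858592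608101378387019614025947486064843920184902889564168859975036385116714770830832230428050804341102923674389559066870429738905835278009066257115510821488714297611643315313346978411815432310282452812393730566163765954390166722036911190857994826785201500359507848822283182319419434269641100508323263852382923726123444059918750640213471510531221612801218346364982342169356208868479251096028469874561846881659696242468604672431665271156754711015769780583463092523613416062594464748705915562067875886675399005596672202275902674241997444866179984918578560413785474138955740428918584991551735600549528688792603511224034364663251643741088825558039572338754652815975946735006518423309014048539883632570831212009045839458275603960829176304548467904145893234155146428675374513137950719448233572372333289483212652282083050421295666639984090370213844089026550709230872919112608385717457793240612340819185337750084874115125795482929361764184791940337218672533463152284981249281545337441093968391792891988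848254451157666545011882795417081649858265657236757125475898671796557320945376032533307846637170958416607575284021562132693998703371272939643497507925368138558468164199057774370385651830184806969253185820844754486942306304234383303379080077394614317873978048814106643043827817522751634673570587676556521707230436819162516750883002588051309762773789459885579682808783134259272747423797819144804553465968570570189867421737899996443402959872712669415140638290931158649242362119447742870127631216355888119923827063739554408409551953475738973859155576917397007040876664823917831255880202459260187950184975450719438258810223007118372214251337614627372211887154797794922820671115828521008289746911293647851957937635984294585212632298257000290953056875765882513945239636852447105138862585412266876800638991169463864555925159106149580387133815597089345145144253003248320598579729885858140396963220632198458441129120774381266348412541595507721000186577546957256994836428270004039202907236662048876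922206811122799752836200546764178698356519801139010033668662651082740500024513217753954821044393415805445884282297420385602327643156355493756229518074694400618570305658311297346186401979751759802692770191310178906499202089790177404124786626821812002136492682730937521541272074351560892545537640817344796744694157915729276459224990543015647742834547501214684351864354124065767298742304021769703660797666588541064193751492477097360246325831368959011077239858467923994108528216442236894530055811417740642785318733097131918985555083543849973967346535308771786658300914057236855488065644038640085195754635782487542018807820272605088516198609366429581270804631007959971683955639490794749521929389079972884508065660745515899780911534072672813397274901402289660754985655577186428997568521359481366184462576851682050533780634113666405538287131651131641598259835953306964483696747727968111490999922593034366650516154608880215673262056744431991096781120138668216295338047607061943935649453098113954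149920821876679066076515360440580186598045715072511395682394660216113819470296031238521236870572347542926221369614601094484908368451498033947991568838098067813923978481637062736230729947660332388258081045063223351397061698336372861178896696508785535335499931736574596077532326540163714908000277044828854187958470391020027701224677293695088768606134740114085564509538795261859492778055577128204888873837203816708856608213663117218524883396356270514438011953026032298950563225088451931895073337038299729560565147621775028079108965793932122490180073797445444900696974605527401312234370260538228029482139819522204579380102008796990094976599440584043738658527441017480468254941892040935061603234601000198427923201321694054484213035916603891750871249909879856073131491355477596959498550131294582371878786245379193554234661858958764146498532388794060965599134289732227213768989154970776298476095665112122458421516834449670983200153840556168709826769698094700554439913432069035802533903319944148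710285940806646178409260919088433378207347535052783381256270971844614603594634476446357540936123837520973396324218383046543940815126989278792395807883331526165244659897143559749910273826478961973098235108052153193250539330039965551627804863794814344255891978508593638591289513235601318045646337448182953086261431833966318752654092259094608787689224420599296424874619495561540787034448214089427133088719778418342440992877499911403133882901449103428258320474703574680254063134612401194857364436299744326996793292566772569566770496462522969178040282681217888857503291260692834883416478388317088783596907074558250039409773949711014876547251321947894708505835952617783893744710572698695901489187729889525544847048827785369780960523486364171276955705890540799308366600107534863420227505208393090162367790057741918567933388089026197538434303214836618842622300778040288581292297193884598649795493026330157914072839873169479204344842331638658543720975181528044484010105848682881105293498455089039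049933669192692389189215394350555217613109706683428557805591650464114267472173441722572066032210933071069554081493824459233119369635413933053223633563176147535234983707747814901533605536144220294312650777521988598271849276867604236550732220052492508710318196246165619976052026873043625716359052997904479961664409484352165847454826463885091674628741174551328154325043539147459804332751395781750354391342641241464495487465451459505484625132549749462027901668031156654309316625893155479028122236109453811902561036450213623040492398000279884724343823568325592610165425930527487685490954515462878560369177381822705952460304314941274256844976833362556329967189758761726982523003398550642321287647232646254007050586178573511801928280787148990232786735591072943278961509252111464413420204864862089201677633860414597553028145663935844313111067458602171086292280773566272980016042486520247730036413205726232073231099714856418581371260484553686938080903511217334701414754718824389398300654060014043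055760405055404957569312268786905873213720973827104899874710679575455198548540515631664293338160499065560715995030179392092569947560955090864665142666414939543427503422823588182762648883859783552619557270376066261201397497877160000960780628830582814033813850777748559452931108802374386182482879606894103452513027310941207493586179730685662005070489776028088748105410839585532696803964346221970457123209539288366369547692174138426017978729292970906566949914686787186647931207942740968557945085684351147250873819937952424860577087635152710301088571139997839408203939677627979798759367379288290692786655188176885462487649949842116597693263005103174087001789461789642003466888685974440213123051559302909597237034288408601760984636440985499860889818198483482020348327293583963761566726579769795494097310779528396753176406659319389639204480485288392098977646149795727325005893911277573520996746295353662990150113956063696201982096668669795676488328003738647979824522154658922709423633203222840913317784356970008105975808)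

noncomputable def rc17 : Nat := (nat_lit 32481109498140984161149959071130510763000734037862029582952761639830475665529709269048564216876935646755202035358484316348464404338252456187692657707423777717235701648189123503085183752283151798462627187193333273681941363998025052778298060750684959998074526491282839736556733826013589495743997085693382583515537379927472818178690541297417413146304229858659471321737647868233877314560358346934095355136750594628702369906893669803029583965777239872232599202009307738168625540908117688008731957472992379052919602547257488173396973831716883297121330302098579089152733100193546900030459594885357565564656620247783580931455437874884759888868129177480797139832186343508655300772993362482614758767346443798678578213354373138376501600999458609378990459517498816935176287948404338262201645384337713913132652309122940487225773722443001807703686178263046172511564403342639686823186373828650969123119960099791826179202256261094932070055367837573045327745793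872060710536474615933467312466557449591095466586685505685835347954697714105160081470294472665966555459069780734573240490916627612650728902784012612776001962414147535982647205606273332403061544664034935818852370207745509901773523177212840348948370901858493836181040952317955738370651499265419863792548759277462249780561778775198255223962372382833442138370447863358185791411611642251049126563282640918654277093335802595083427869497179348117360856632379184457129048841628513763952818557368363355724906436421590239575309579216715425119961217295366948117315312024312578240906769043255893631498502987226493194354119387168331199011281780246714652990337717355460488007911973813386303468654362750480800127183547117322299212480330154005606712296067025806254165472595172384254591675154612554895686829967118768747489038329537525837430661406585870850571763036080553637641173807290549058669600352063048117922304886111178546451710574332167228819855388324123911522851328755642293115867088582634077670727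114429534952497760526166157955066746302214026009735828638178686423226766849454818589703031757854040074935154330236387115694904570725991921233965192622344849605506815587744078338927530076476248824775248759200903922422352937856508653052857354281020250081809795969410739045953252055352574844131131588241109587791562891363343505061143964347780919420882151444876723109675152801194184703072839901068954027337940985076387761824964040740095568727620143993168339189732495336021366087842691387387484446712825936363773036559547319252210429939602990291706998046223077372219019711579444111068852380371089988804679447780528260994547651573997724398228747936899472365120749801668599229598598696618945040260687102661600262747173722289641702196307842894151813273744339659429326900577970966863671976914843681092304130152651305509066766894004424808714204054481577729883559346346742717276512326351888758684174474435928772949003181966249467159741521251839251068133002117506341927852247393605500143427002724187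356847808295433936735600498506820574149653936003330196151458327161751980358133493673998195857470320136488540092207141408270861815553948658441324009435794053898506576936166150082127446075276803919861053423419000666251632501388339140996014628910290709847179216067750313774753031512756449400874007211811723530786159091263308711747203574477698456124346185703690902409839244594682483861514770826005831419653683744993384028293781475545477140169829095234783792126844570812275596979612469849663882776154764345954241745388617591563050279629375911975316258576903435703340170141381485387358087237317815972546026766270510721794672995156003873679972967377484069559180924914099328037957245113265107853373225625156585116518045798696287027299833472030416058101306385807075200684810930322822743330843189813000028545846343382613442628190365170938968114617037358270858861651203106584469422639475223709457382118391931801855112548213056019368451006015543080558843487909166788850690062963026448127012721239379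914562115854174624370032261274418778937513113329941884642765974994652190140903061964533136555803778230064834531077700774019291369074823394168783122906094876791012268984175112140237232673595036047881761293552919744235325434039552279156524527350327074339624802725764879961925073346695090596533538264408129945611163646769778925958976673221572153058012956110861815712482230813625488346108924090202151641346262092534967849515593841649932423461184242662517411170644401750774674410870849287976418810167817230685395190476893838942188430512701110132950182910529268568000674529882565113730199565217977733463134392736656801937555238721990482279472568093097141336572852573360933770800650812046725253708054168112835940068322115316185313607084324199421127291943904165216160327541484676570320562228336458051383384140943249144665039498674639496822595241218195623171813666177821228907511542064334774651907634108441087553321779423538633205336677063961947566496441100387613721161364289278540430168524328821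066827259400997081517194949341580188798837560050505826459521535614792036567904948230351416704865398976889910770452876322035475202998404573697616103821323850886916856859783607841294982273291682623254149964653117650894228939945720725733091575360028286271350094515996524393629373039081917706923960994886840003395153211258829887577983881312441577918428012691344968289106928977280995540978811545940453520403903012570757559975370193219134944666254688100467495053315902531153523834342188936959099280750796513795916759574945990663787613863522980464769336505634540812359213882422324578303478558798106856442896941970935235826065226847906345339563198770455556264480008699564913934804664182083354276505910007788812756722532276520242671490046840150703495891782420810221170104283660186219687096219315781700435551693637318573539251882644197688637213778870693901435443190153807404752134110986008031300672808953079946510662668872054552005851674082571211757031289558286386616502701330008445247926464723594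435093520246360993003050750333630136730454993989247273763707290511943058014459979301873854728528734785880146397450386641553704946791066855062170945004370494573029612062091293592114607309168377988832721991351747548994067736968297740034010883102328873688151350960246806555436338257395100193639432651138580031096055276710557916622110571374150361557538023386540287752069497767683609919621945445767276860371323569645183733438372169363251035431156859731186663654239592974233495290172773729007485365548800496238458631695536830222045683730727868301123404372952555965662333308086121995096485894088666456406795146677371183421232910304051674876492933915107415766759567202424964122439554113821030716802279593304093713462106780256277609020186242847239909282749524118923095569222800614477048144637895267787718541391690294124497160868156195743600304567365447675817432829006926920813231700035755319363067683962156226568013285290139957064207596050032590476472648332245697221738321439111475003914478567453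809245136230902677472389324067510470352801122708927890271071840665561319402856167232435517063471268262010328327321977945270789087015458830178783672089341104496600908756927707921777158540817584167989713667533797669634543586190005175743647895135838206052768285175478540992334172472784152953169349585649131382869871021192341266500231223340838552301292542183627601164818265877507461538147036374342547787389148952589138231672534533570325512552826861682464689231134182553266069124517388171556731267102607284147103766250877170738668324589499119333290488925898260896086670706123507564779038015487593821724936967640626954422522959225972631829330837833317209473451385491583624287441166505815076306407977727259353406661844664139372346885673810414627728093285566741748226495377241935980781364528946882020138091179142660450441523335477079138315693646702673557747456078289152425232193271899889959859251925072693953707813488722721692381383785474292640864824857156266738426283911764572208599592398069848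080241563059179048714773065531637413751634375261186997055392897711414796474281470666845825970516756981277238634634451445844049247198274876600967135700023062591255280692777451634650303516833251497113844239685101554760747521893468971249990987547527321306685454892716590569645748119962474132417813519101864970579296583313219746635379024815969196575812653629186570921919712276088031324750843420798096925398522889984711400369988696653646189752339770478173629089739813825526632386615084357054209182869494892515586783109253880195852826859012650937542389070833766247276235845473700963766967335185723715672946954054250755969102747004844073679281654301070370482226942367838526211761110394674166927262772408676556160630872147035273682676852122862985404328332202952275956613347100761569257340654551351031098811684832264965494330668674900445091957172213677723663554404099047715270074966123865826880002874419903018315745478842648030317830126810202740570651404422295374605921528052206842808108756170933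067871777413184207967057846889560084666598106072282860871845432292070882672143233349416925000147979365109299567476145369321107427559691255653742917945706316647159666715784920763878637953977492743733368339574909039326108753166886328777514886842219439666789952485296551544551400244098757591799105989078313947713063580066694100253218958896426220453417870059915007630536867232114132020926483217333954511000257739782725315297678674784208493689365618327951840568300849632812975774872386637806565124584309615523431364959100244563534280604079865705420459523354533803499147510673602239813015071029562623156775289987304763017607340930009204951566323575205627198071439130607187946976007690990928441812614817765175520329069698804963440772345019121457980433328742513726416493876560692458405783884910464305938175110563142705834234256756188891068359769353176538224380180890621151169899052937509365016463910789653589031773076035900644032876078745829536120135656665114963271551695347220248058034655423131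593240600581019213511662485241044820173302410846617133507480157621012195431728896875065428581942895262521190480359815694518162363712966082576229695619430947922855780310075989585053886592443474944048846232415901297531998640514720800918232779780024329337465692620884814258324136705948310105421520578422819279031103816429964607563650713405913334132223898783577248986330200210080369835890881937602177989594340784059792736699235185856400744118539162658017199099248662916749367751528796035043722297724704015682221557478254322297583696106441591431135099340413874646650490924782530885020903196519513854490595572541798653379321242124608103379707187623427892779823944719665246655162396328585872045756014877297958125989086767842579748975375284296843259040119622595542830114926140662891336363805073764517021038963791747683338742441256051392853496060945385328385519595278980799067712359753844328215882522089461185535844970052672266860150341259645264755882843535615062670978582639165464688602227733488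015888647524771470934924639503189344751270087373893901447128254747716757085681296024974587095914166494932697756623014002125276248209344155241257856311836606574744612656580805636934706322124130886862361917978459864290512074292834239406270021607980299342748329831386100454154324749301775233068596041700066584560555882573377038596820063052490478289454436308949065139570876316991446477233477585012633796901826659560105592709430064355721846349379837797790628276191802382618812388782237103286318238613433237832038932106197749040450113760493223762183166153598252117531149444518358815548837433908233836193957019298801456554618287297572678956253011779341044326844880746194712604829402627746152217551461122003513698226031400564314409227871953161448313547938684393815546308218848584471767803154588549092898585024546605302233030138889840166730333895113483000973956180289334641663517834007228479001063155987602151521960356505791774239525212911573000607061043145054246553854203594914063952887671100124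728637019701987014329906738764658432181540318072402817165252798422904792717342526093519615475624543482357358598848305783570029012058241466939386480725983092020777718463182135096695625705029756125583685584600898577219650018377992087693209235782922085867513652002558917626458509955051714122176456156139407368099150939116900122069943048214010605013403253281545169822666035409498585881034042550940942447087899925760677335592853615635041149048085445205453521770778197536740498409439455549837082756123546987479809463588589932557408934948901933694980417514853342807811270455331054819518380088321047358326450924735476174634116932809684999681837893876751794649189891220439526066025838640380982319022380526927305383652142923359978697377109086037452375394507100453417081457092215286474627244696375067673103391531179232824803407218322233455713868921157918467829614769721877449213207497911965015535166103988364831354809431737754464274740088028421403500433017527966855814014711257789080617560988265027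780510367160686322377636045483646092002861499769950822910894129215975819427533311552860497463492122039076052124232437591897581519067848861872659880326125663526025688722393410379868418680354693067031818222045848706733040106671886560723076782155251515809902971258101210627247025698673481933012737523579557621516938854840407131947462321720930757240477363704535008162330202597824093664543204528050590030757148711204106991263531412348753774191968982381935037490118218960399978483772561505869426403992118581702189914446580326029150679369066152679916595694860305860745308720358606182560791560259106621242394545540632098616319397786110619976702699966057708232684162457440700978457151153663374067098211389825913185084544186897772353620222956879883961122820432697171313678940359955208531732402829221736655555730808878733959449136712847023274939703809348315921898862740622239380801403812235564886375358903254360506120596305663894143833939957392120099319778717840810772711753996805620292624806968768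349611648559277631351822507544140461048251422223732984494058092150747965079878305155152790951938639969450846830696763299776899006692882259451376900931711795613973397801283263236354218344342556161354388079972787160328377779071224592696143046886235095642028300799366714208023176954069305385419808346716858461852335446785946689770267047047321183033066285620420520028276341614047748882413680323938713066014395555550231472396519791655507715654329717745205936333690087556789254183073713214507663133213945584403773677189435306965695585089937937004223117839445366281373566671360486087243674170091743209115391146317558881708581739789456477130572834318811319655252083599938258793047213936914061479225699831006433023257655264132388909020799722964978958797241619515429937748737143337182146918120498228946543227781066078311083271083180557147279182403373262961729647486751550989473488304238875059253669434227929640441301222839106367165673360442133553759915317871617150756277083795316315841955818760035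103627753796679562030650260336952492264534768100150478407415138384197172753286977824024062984729819574980517309006272439013719849749683458848381479863704508111476162499737355446427404391220339046531237344994142558307514760633807819030294702309383846312356029596246501418360037417760778297540732282029882162269840422314164377195369338442155044908229822972948782887111064699719878026392276816301355763028373118142957118784046045664454384575629759340158145237522825839144059168232600847461216548909273443955199592888124096909211354501588459635867105394568897860366766166125577977777563603990438424979121849430797483813250794931982744114545543984485560992588936691345078150988803447714634912294393946278186872610659978125001663247528241106062103613320151557109723558212183791430086836949478817790658280183355364038547009184013653268695028468905368605579901327575718444717947146881163449377478116346613299631010854089863861738442664137200677762089227761813660630027085068019945523987416151011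325345864082785838824984245355896505731849539473166726843315971288013373536943383625571221857633570971370518233582007215467942492668417802488328110184828574415857892673646392003893077356780356942050418461405446051237369898501759918733205905101738180922318556319557389407490232760865974310402011073322512968287580357597566195559814075339936226265590687256550698899767048389525340193232917979028218679398043337289351244669920698125275192702824221679805013462561279399338930377489713042027593968692473310159958856960505873623692395965287107669133124914328310795165671789608358712787094051756940584162582021267906713621438006404379123550858242774812403293778887603455438655857109658011666092458979526553631932978613001719654748715561691694314780138356404954045233655965265884440242402777192982208297723718515842151547225019400823971347806741116731271069613733318966596496223432393048732563979802627375542710691289825379572219158402767916794079232846528473836564083313799567361202902520916617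309476913539612130854196121678743728300733585606612254100916787808892684596244859047928406866252224444546344979190016873108641728226206569326948945612578418247309069426731902240255986768425400599365389712074244678629458350684905328174544235188834924079496064346898664831457253722022391798642093941065399404652306332325335371301428138860854365050867028035294637723239748310136167555453762458945219502986882693532384719530386913428945473104048674445119165003986711253679738978804022849591564146026176119190879942465105268101375153956784393260084349943354224923228233180971407647294307616692812163561398147941747621966533493322668713981691109195981480027393353383956868433794010150825505828661616229122071536706537948812383876122644756201612506554701770166286410013428664362570740169919084937128492176887783473583748332601971513071377234302065496501163674440974969939168741134909478716613030909831368186654371111702402116145162904710500325379267811503289501293346004490855659748328762762047987452632713963738832568320)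

noncomputable def rc18 : Nat := (nat_lit 32524334580848225247908650989841156120730442279832723516801659001002221903178650904404850436681373717859058598402226244379544305911764845079922864968223813724896746355270429031083316463615132915357443625474280547631600676698291951400423749841245382535598711170461226589991968153972168685178048812273576287005151470139323964705610947442769006986363055822337429645901306902724246326702187174673842960300774177365537281774782247274814884474955293204319944057002628474327206430573976669213900822416642605307396632046648980404078160668270608907698799393241764410752399754248647225241237666162819658894862523763903797452025590459250838810548511965080700470192481020854638881817608723574623527198938648521686393860690939562944948340760458576234818364698164791071395361493977474891025792224716453651521606159223433950539172022424806698915221724228715972479486618958291911131842733176611401263279082563384528477379577251924289268966401665698298856092524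371019745888917855958151668408091307186388011300751734217218019748755571879574252397720799586815205441203708578853793199672577128828413730221105726757323000549890291052608862831015186965629476389435151434402089513363211781687798783728182067605264446859542297752574231058375881102402183087292385275276499316089467383017285708709009674186239669409270433639121739043427136376995896508633753108545173021770095908201561562593624661850608972227604599210332179890265579461519708520232936505667936957567409131108199774706254439151116639377434030908316858968596095852938260960008966432547609550372862642116713908511402999744916661933525388690339665010594426085601989248721910667326381640478024369190290185512127328770888514059885434327637361924951172316589794889773292489052947406922868904260582551431106984253054128281011976497601330792063474311175849871547346446531703221448857236840562850320826724589940309038202849515009175501237374456525848038064570858880729658134687522883175207570098498393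594048277801742948617683254805339596240617017031016354773491913172450203287767379319360698306194500361754413675666248604050188290019735712455246234043075501682130927713273789098250390576009202485762751085008346235240083432427009375265814274646452628656301443563761449158211581062036541390717198671415422058458234001869786581592339394109639459315621080294325203675648085096687466466277060080080294749022470102855997395154614727326450736313390264400260268661716910668036856104973561027948207545738708954552346819934247750524315838856815179081383418650298027087372921714035245068308577107189113843823654707411733954016322421407170824870585688644439151267975264867681544226047220762374407484187991970714116759239688574900386991099652843564680830637972894429449452994229560939002683529240884289728959198163074493453819860913173270481447957990099546773182049578135571426282413674549579433940295064814127365240092549929922801586820814315958869709564083139869846397740898679950095826379155404763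504908072608962631959308398805643701989058497076229580754930439574158747469753549126541329017535089216627328114420147917427571185608649690449786653343807021810395843457774242360121114961830597473008531356049121831372176607438841246204027776147791246517282914029813342956653658959511021138076704869842908689398197220308087775474715558541147985223216626195186750556753718212360476970325427846258048359363076298718341335455198821231550996721031123255503839244948853605695776637896612694037676105829802748824156161430081454122865362747225669774777277936160246523165811892884078926299329481089535305594464589900153049631942458811762718085122746349888351281113788236347006385811565015866030700596532698354591819633952362699244782328740480713089609096555081792939179635496746048217478719227242891932168058068953169276616451151368828818275963542298584029504773997383737821953512543618458528005278576896254401777842656249692488396953705250843127276560377779095383520867447145297581900956337625662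363561239074273596976421926127424099094436437660791602118576800404815285046164391266236905332506865010426621397859494742437642459774484403159255578542095163244608697524749300614032273272163980899720046564483983570662030443858447526263578804078884491688121781795392876584213725378510187923804955211900355514018202073749162632199290176996441494268428887349536579512348598055294131683597531177252629767445611388990013810065919605954934516367878395780480886333991172965018110802726776566683747368892405922818309174482116133409738629764551366465144052037607565371794303786983490925707369785201984685682573451198173482631268538509706831962169705580642458953623654388522846986601239644398434405907534211750326138811458346417410545210760870340267171276673703152878236144220965649251442386447992362793747752167681245874899243624619243188174065115696047352755561738003728813466502318140519505564793564889734641769276862433047844175046166705445903210747468493417561009196430161191293263663504754261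314979674335306154939338260591775922506545925866039494018257572771174950890141236597986894722819003940976650247472684555968208058459240568251987383107934288814138134611624946039524015827212605022287656165207640356447102085148035886451502232881923332494064686839869380812793666245322307134282803163583820492207245125749285972839866563960445658751587409428433564784236806244437366608719766062907386281558818941876337322913633857142879936906967691304666467570938452658055454327924760356249619603957607777291698061674194186112300798207013897238886395896506888176477838486575814774099561467897683828389737399089275112029757833324792065376993786688123225062189308789898508262724877307197428827722690459956825248130547053624286921835377855089134005338249404238435774618711293801232709453776382602482464055185936256669865893701329192928124252527471586758105424738984373940882587714904575654784501900432648959029773066496153917304406491608411778443544110964060002702860871798605732162423550150134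584352531217321806710905319302044684350498433341589226482075986813348678079240537829688387857420194921945935044919260958995393077161997657454009663292309665214026106138711297834413922179979556305530183910561236473717072893613381523894688326853282928362943922924276652548143850441945786767711983559634650193645861350923907075989164753189140870169119020728482976366615354307767636812969459821254938621335117449787813521769270057133341203890393716021901167943399672512114592947332538019233863021972831249545920183116785593077035936582048554239915745755776362569347341905958151517810475948900349246340436834683961360148613020358205405428745181484626500962338982830628262842374368063872155565425502166629332582093701104045737159308290548039572453248522787329289083295596395906085651932505446806630609254308990356787008837676229777193805204962703952107143381178575303816185384980266004169476624520815227326005873775476430110122011638246385108345130625482156798822961074877863525788195594779057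899529403356568015286785135985713393845428954666146106458304771832474704581119172207452379938445537766574901930815744042967474823983855541959899515683614152667696460960951349916767668671736488046783922989566448145998420905303712903280815104239586567186497099115036496845590214342883844926246111591929478039522653873106911804713391655294799077148314187887874719825389150394443629131190880082897716447587324000039562189956926999820689738268151303594701230690733452838094955332872686073662083739006493913401360008502292965541220506518247295040637604054248203533041218588857044018642182391678679888849488294924391378759461530103416363752976535183715714169677099471863006704959073674132546868723773292209030642089700185698925925683058311332227913982638433606784279509268926830304561430559982856634643263480808334628565801155409029905505371611650503622926572010670992322724071324815161997430278079248608559098232585226417307534612022997121638325111252728132020119226073678880541663489475248162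953324519328322967205818021077322138241436691476382261054046651759908791395372891099415574538738313831006705922279979985415169421212511574417235501283490684239548057283409003236041548409491768676609643983910296776565945127175747039986619102851846078301231023004486281423066242842694929687332972163133006904551090089900774134674017256197950382130645464892556091488819454810061937226009410673016141350714063126789012205816396364938144371227242628743234084980491622234933885174648158870111896647723469016714720512778247901265774226135340068639327603545370089930429342774235520721654403807270581575230944895857102189715651734352092814538300900286810743388337376346929976471607786719752782737002617850014492936191961014644797360759215003414417588250146722817443374878742435034221523572678010605322032413444881317711518377627414695126742142231140393409851374199976122955656520468114288672568325414320417426081561162709282927978363676245591868023727131824491445256386996209707313399928478763958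797277147221175350154786403803949792005188391120305244013945187967991226836316483966119159524649360312179884366863288444951917234488452508863809770778371457256339363771270872839062935641567442235726889705072457210594038811700361890177938802607335766915331046273140044135688325542147689703880205613030519454759144203959321987716932970141221915985233297754301976341173460079611457054079833914578225734150835793808433077560362256373932679972114055983309233588092887595564928453550602176872660017627273613083045075780373822228407536572988440310925163262263755976627672329265398207400170437512418851841967482878244772896581402570394727348199758241632908623730621245330692478193128352381129434207394671918271486733950778928007546529788381694624883130032470684359615462979880546324962975234635743846891170511000574854647120998010441002057782930063380689252517206298389917750912318559444687257376039197706639822655765409618012536508696786930714114290815748338734920565246972926082892316693492450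208006270673243828892590378688809207808166327365694499900835437589301283405672170656862847358746585111730981294550311570797682972815781284335527639427955920144846833173976620860062384908624189362326190967937809895836962153637031922113318932292790109168748929920866351839615457157294478017196368252011813640769444170651507454479851206438893145929268416997648593888685101910346291163262283375989252538431331583052318598603821578895831071194888342182982851119439293642832042426401590264286077964874094968671100986013095122335343255304992448754135642008270525237935353604600086149368989168236990269405906897926765202534228778616491999472398394241305393121402315276174768555505624431981512165577391785246971148793265302698539224681927712790314059399854406584986961461834079470787015222103258344966912399661754510093526540016145731231543210366456255592529958488682825416862619295885579305339401959453888775623481428360608687182906434160988155731521216733833722259660701859337781100507082301097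326494564087079916961276155265266636537023493479602993056986127319117315396780973665620046802323603809139260540703445219629683516671193156730542390288023876988010299513738288799162549617053468382657045514992743776059146080012567934386029639795689022794167504914833977888267842658572280895720507228482081493216695262977733227222587769289870070676249536284466739383308046270701125098849720575324959491472566005586785506513513021906297502187947062224274106624009103202121033082937229021485317385077387954568775445750390051902788891189786530142867452417773938469070295468659390390272475382765238356530064820031853834681212049278368975626163938541101551152391435551750448777312169475935371424978660265163360399212667259205022939536210840227060484570578654970543022881235545205483789927387842276009928890603634945685782649285785082368672444639372343974231237104507893443632853309916131462422337186946002548122692095138766808295817992935013202251162203116046846851055750851866940670931886191400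503158001201523169834833778478093137877926148649187923660806661284566947934578460507857208791640954087133987289062007583144438047302472617701522480163034272506856815856863366666925683339165638990792586216895497424536253991176676431109196865775741825214878629127323698018174984255257597253128647559480952406277081323947089186374740874538675673556514038691522961505860952078154726398649503963007316448688245118300677308678967161356374856629310964473201676982203915711089404890830522327838188327476526277733524342167231084821864512599643354758191797314733987694207689364932349668298392342557486359592253962600008684568675842809240378731954732643146937657952475381722102632521568177349965329486174397996756431348608959501669460049911727810772540083689667181714566465395601059696737863509428355390773804524961486655606516653754500732256875803325775816076952670031404696027263180587212601622541581306925769165688332906263516703971203988434044895505043407416251520911800555795713805760403311677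653991706067659488792825521131367121726453946256651035514511079998132272468256832103837989031203916722447538685695430374823464051134939773151249716888605820179292187233082817109210735198775320753620218883993928912122996608191869143708301596387311268732421453407954728249578672628312550586782240248880266715920132397356036108371263172537923588543286707128204084741016119003535330615973525706466376554788796440394462757640886260488522910448032964360231967561596540769585626516602317509067698687019419986127230061331873068053562518218562992863891584632394585826511479231711867698309411610295438721548790951879426366815106789173017611152396392489325132078083957656823378274828000885630172058872544260666750553009928836974408274219423921969438664099882056695707624385187551436103273024739659548648089335584867851501244182613665261793416281045104094888216179455968196150701073894367637871638071351237865091787374757889108163211661716166409366712180291383341879333938810159918896476840709432570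556969456264942177388249954040298846899190907332946157443958317333712935085639605934085677234209369951026850195239820358205465288660567466773003405104871171591882198189811826731402521309906501188297177623907469514144932319037716547765472510760806001797399435097240423753094632127554445559559107601767077865293248098805272930668053781633534321330670342718322343167950286540737938369222800518435142634341335875112616677221980858806740010181882029548993545401334685860910373932654721431654444588322220815144282258131665132065815446016386714001052961778894061923698414331952016266106604400416020409225960132131828891932636196666351955220057910527858502136743999110654293317691159331065563345443300981492171460161978713659454045623384331039733722541064152580232558658982127429891586902891218282012514484356987768101718851886526451026290755475599290517908811355710764897280309058302480268952659706736688459998210125138213422809908779740230758986690063311389640357063917788217177299541922211728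556404196980800542853547949396283858541136427083885442399588377029531226167110280275389184606688422961163837180579410294024447784742688516478284409592324756889383303359472414413641429282296238395347364268650900039307078417147646541862798670976382216480037136733151513856005648694851563664987884514088521625972576008873552398753675219243379554408837911941920617141149940707943222169426968708759628726985525407620084607977396733607297122882150666254708002886556437882342086507489378271978208761806176648065373966950882764233778443878614500737253975528876401412369280227625839444090304988367913657845884258740985805694350409643838457817355869920547631005222264422048457318061097800389232756366596534265768626803780373380562745560605446128055525513194466639982642925928037583767652282344083726989021981538546197300707964018779307324971846776195581930220878152396367977348609921359932686180543487640480709062298796406019886147539165875202566361091601259671396925706628862442434815451798476215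855163963813161871912618622195517472648281252156597169939214495600066124854289000212596111764024041062849105170238227440773349523969150378714412930575931233155768306611380219106078152758154010498678206594278463573999207090101242601618411264604404132112293921137663671216933199940423171908019360185587612364129522400212319669669941138865395704255096413739674236637434921133988258202585546120711094630004251586193634045643416945410423323661719358434187077016112766936261950834446891165765396563659024092192462403783129408464068940870947688306984587470331549074530301643521763232455599171219348694003599168191701921439257567081371276002715910907932003781773214813583718987058378183605030688578206744414161040305272228832305943863354178685600484031140999755014369240071718596841146226099496675629377838446240693814392978010384425867025140697605572686899317245588840135494657905824471617271094604003350867726646819237381273517837310503727858683435078498444076666256712544174432424557167103792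226808193950374245583744066460697531784126786957796435845160487880179730107114649082844650762945515020131495526424355048293738833359501204993516297866189360142504324486741296292054638199875372323280748507507476711095555128523847734462736813980552528534129293069884410560192109469215927316308305067350890495294501185707697585064219078264587438614744494064852009280064599563996545931264301426614978564928641227887168624214739351089425675759505780847045053697920105199481651811888764463926283394114386025161246389709155817856251651112194476236936789983112509516449210344998791610764409999140803937614716957727135783998669915812631066186423464967172357898595411257655488499260260851246194913998624043072525611388247096615374257341871917616082861581450685272758512428316807846292296018215981074691707005331372988678227532451946475196859117977595051108542941538641453315691526132605566208074942632577251684923273135042158636202882295785515585502273314230687000298059700435271536663731241428899439654389082823896357404672)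

noncomputable def rc19 : Nat := (nat_lit 32567062498441905371503529877047085459933867158674734930559886484380845471671373964455797162256831187016445792828501094332054996027449774333025414493243322573732575584146934435451410153599213342884997393418684414534073596275922700213819594375921002135151034037193763494304965423377800909857510261811277905032138930036867907777099748231564865229069259257159497739581589774648914209646296708924843973363477669730317236166959517552836959391377604961444707319623603664541593124301708044672305906123360384469181819648792175068945171531890095578920256128380939073311057983152850222155058318568703181975296002223481363071756299690302791080359809432089679966489255103450677241577698743972037982848235753717144991875872599325682152156548008795445348457068615387702948050026327759572605173277586172859015268318017357426171896463590877848788637578461946654463618882858685075217505530095389793213057152486515556280119952160651648975289524096764128577486733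044878715439062074576182544944152114839047377106288506458584977521869796857241986158027999140047849962357372676074177191528931888588717760851716758484336920291427253113200956673249726956449657518041775549323665601578777251865662586190384043008933518186299412210480224102048300277555346239196018618579157671496130319896296186537083707496643710843492003902035760438758349061656771240181753368486224948708976598093164597914558433851581057671299770973348549806907761247686074000824683062079620260531352529328360526813907276770058459081795839186200009006239324477942086644100200039976363607399198933366404898028499099372819209373118271171056394428071583144078652098655265262221428071351686496758014243292171766661153571554973308412932469478010665483791575768746674146575252810679638200516351432519934856495272813277866735200733483293709485320731350891294338557770814266328453928903694104899590794497587723914253941564356129554094026174325793362092336937126448046498494793959770123884014836591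114881356986727704070898951998517970987098142280333273156210834836277063315078635115065837097588123234878445074738591646853007891589898294165000868384956280799582135398634625197637695798585758952713253186712030597416130199517331054045637115830777078810039685916772663837203551125130596817310205602440999310351490773517447055537650272112510517924970902706914328681687589008776108200892765296582803512306395117579512534502881591936458440242596060968594720749633191111224582052835837971084146018448804098602358514405617835618454470713235771741704042708361193920072994069394600412119064718359952510933810281767716675331726468994330626615189407441446518806641139395595200360684285474710823684315446698549743604449770344596399284305626219479649362398037439080706784116712434957114631568332322774978690479528853314169732700247932821237529118707216919591706081285303277075451322961002213122658883201556756119350649425561386105197732601247042846651225730219554982688257471985225488387659859859409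801666890134299901181739389579980506800110834237408875235645529508033507235343890083569229291339352344601657737642580705672937012927944049975105863931895890056584567481300641450229375445267127582367569066484450761294586562188287531041023518837113781924698485900903402691375653618347169703788378265585737267874272680257807254917368330981255244787869775554344964489949789720087358271426243753165582308224916706967008765762848033771350379162882953745328631343485608561325169930283020960025517162819892293905053429594324593709864714513699502330216414940542166971060438151636649915540678237735357544374733652674395352636596792994551514083874417408365776108180849936498396942360979612139263151867205021056956244274446218644317488321012449041453232185840000625275649854414829877407890529316931206279230360935812114042947785343293863429409312862467079125738303669609144324541760579090172233169047660859043104304492281065364437786032211522600585223127054987862806526075070607069785469356298150579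249770885341681247626491909404424455684421000210845362415243550329779106347838258995197257044628273930495369455529690768907859240587922064157711183651700619485275194856942760364823488779632674823609746245982396023866181948106753349033128087405084530879937010100923715112754092648641331363451411863549475035483239198181786318638136445022749064650148319902486268367920323206433655753122503921359701661438969691573393549585919951120458211732387239770367389624360295329936080534059782036138904184747984755853161321078786416113327243561039785233657562937029584745551439796554906159614967637967942764090541656582933080279193808476283215012441876296283554779952261102518876165205346436234802056348572788969583116615928224084952439906981718650309630951080165914209745804144063616455957167224548964910823425874630144121984831643950408631467082943990101254094419190763320482868538475186264869327387828347270446659896334437123818895875285440522872602527583683593333314847473522316935859736253898009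553341164826951714522106939028335106444542325035729977208700611768208818500244887060998892804333186982559728616125947256023128551521835200431586792954940682827966046046134500707781339094160511462871259353539429759475703946579922804812248403668078454094964219747822153614813357278523163048679949864069233719754630622102479176149055010549790301096821745917498739720811580233995414532863195816751803731168017461624939144204934658329082039714782005252612312309702920477860150016556403053191403373430974934557496084942450955632049669646102111830530625821537302163638037270972421733067016049804046805232091925024228023548471563813306599199049781627903378540154485367340348021619743826386202637903412827523447976457305111419028243960624371446681848295613242774035727315453328156146858840896572116135166354381282667526105672862154063844509175636818821884941984026777595095071862941080061057724515268431332001918705670111147387801543128288889407020754933870268322715217032132502718766106537138649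665757837881126891266665280880540487167062601077923516385223484331594068518649373946596362164566856028598802743691537419094985461006007763586375097167922849744185719293559873624250259790424324741365637554788956310013076029575536417459445557358296177819599788480286474899294339664629284039824395095526869355560692719494242405438893129605823501529280982803562917011537215708067299686581715070206578828064978175297676530748361749164421854481350104100001824725559615782823952557986425507708273130564100069449352115683821680795273790476676650600957749680421755484315805288532947481313890615181096574856743305433463924321125676024091225893893485025145134363189108263711162743791897076876157229855360475444814845878774368705651578639955093669580401862226098498657411045161053939318898390836986291656433184714932030881554162384113870957891523721510909162561456461113477445327153766218682758059950245131181871016232922471265276322938367272461154839366907261387741193583277977419594371236225290924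111693097982809934015168783141875867866885950570975281138783976750625650877149570193338917669578327005645956856454191926110992379293778681366156572787683191993196720087737260171481719233357366089987239554328233971031924415729190228946953629321364934714170894841779704657220388921708682575090650104119779259295139829003145401231814967394967146272777213570919188298459953356399357758467342343852844891639967562882979078650057232865852207370683828944031010522645388975470352705102188724946187942473830188186383013277359996429639730818977409647152141835053698856482521136403876623144168846887284539376421351262900139651789183598720315471222145668409511131511869486472639268220929315595809509925903030953502576191978646627131892341171837474044517506486018741195634455824579509551046834623695190516828670637549347408979344793943813956665686837946026298335604621066347278428564134756606261192395033899384903385461675787623528950696279549460899243661373278934598133608403223302439840865914462922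651675216393234153157416843011249104692852249277722117442607223611415237933443625034584093165166515347622354833813345003915210221076007600218214878761175211124327358367343607976106965339374988884070729376462990032699948144033078761241022680262851560627587735555589238771654986212460212941685478587341555687215863536105246916370798748903957482287925911899231750185380851652437151483505828875399734414209164036990962056689705447568526405475733658462025228380892235145485521206672942674323834165595133795059774784879098836333092869915433740158872549755578652973364257463529766047251482058078186158589145249675424679964239531860419888822217806409932207816279510670630614040376392198001117827882138652027099699058726760840340829430386872133496487909052425182902339265623265328128226564186769502122639012343836951846226350192248275779555041895533353949543012095071766506418867575641434249469196692176838053230279142825842887855580438885101357400743185668164842845737972010371562766213522345474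449199700130093570826800321171462172002206990896293525807390226319434898983236934038308082819490272261107211088341603161572913282327315025299374185257822378874778527883176407366430432107778424588134472859750585716103967667394628682597437795962441352533871089888542061729498943682505456758091140710558671151904286078928474807115942866582880629815477173468738136872402736604601067189165003831114243209792936244748070416536140904310972595916781656477962095332754029632640140131623717554996463696643860837612933167327943156451079578650403895032206574430914064639034429957832972766269858167374305307712608177932554593894995843468942902460916886211826587067656230969739236835053884774571006686247182033941261744368425818207766569496111710424245713223585243461623846627736382243796320697347453387988768224927098008731369397654352720695329108377411116931172572392982431538618348155099961616895755846973438940136907189701853471764434146765431861481273917128641862026510228502141955425779328734792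733970301898185139441104355770636738443105330764973177755053118494739309393229907016593862554439695673443497179088166560261132480128972303710313636735006739004356311728821197358034571740971592489856055653023587954117028252489833937569265501206317201435312709787420403971781919501839055508837320843897302960730761478747038232942751054847888751937049653835999691914705315323274907719556593507787375321541743729835487908065308795676888537323428386505092683719655890140477143139663995016355118629109353109162236986147260611483703275138605202117554369463635373166370234566639180165482180404970253762672547276465130927999651207399666028444876133997764928995736875281657123162933381066339856337403864190073922150283919739038868745468863793122343677030885258441720478099952935998209892829311259110321208958178064750847037258592810094263075540778226824880946785005821566803654670728693679622983166931695023649987675424458453579083969872830296142787790715025449365755754169875330752813687435209004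758118459213140740000480451501495873992492429845550634506768987167214964170787708083127800991435105333438442362172772936736940623823317025286515689294532002210407969379086415717054993548864492268021006902504971433325325962681569250590525841170684132316406233768552482255715077285759982136403750459928129237050625973703472677032933577123878867822546332195255386499909777224186752351239236670123240806306709140005315652281841649188381634107922567233963186639941844976817121762415497657204469565414799724986438810012642434151692323922398867719652700048473207722505122715401262139925372762850610989443455499362553196851810634971430396911434374152606191333801318372007337055319506668361494033481721825188793972990691191360918985856338191855311672183484167540590060804475219009874556959293518889116373291611069770614939951855556062078976461453872441635631325581392895096588152241037175197826215075989949402118511293635871017394778665989497622488760196029869435194719329932263289616468046401007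732577402887748591635578198113488748871330413567877348820855218780483009775427420339781640870637691310525979311535728545588594530089497342403610589355829497917575745406685774327733008444175405226896140888604187981081389300607416637799397223063405123766069534151013632540853338063692962198238366833685982254478693381225984947587258320162055689163205903085380656561889769658911706841184486857649675040292231735179850217556076678316402457756960490745080922265240786371229826495469248507009704796367437681055846688904359449073629341213365085579982031726094542982784132343603121567375564842592608920387435348710542596512142933776353384180137256957730912606711686121658698090254122621469415373415296245525362818838506344907010315812611773288132649434900053263001199433262290972377267532841911771655922291923045869498410213292230430708507666225834281988472293439254517036266119764657327813061367609890857855861287363829384836320841507129708429164718798810060289697660653017011226239433420406100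969523893685701657566718755060973525956241958462690705197909065660304097072066529714862599196942600394075390951764498635298408177166930557765175644840174410441865662274305060907546120696786993726416971734678516668765633791294139474506085192691054505776921678685951513533137493783247057642055275966703284534556678294819160356743814424794506388410203017554726056599424207154480527304152295202091919386890507215709935902307143261753466580583549840260075715075261660303347940348626659011922571410479484876331698249139731767497005319438172177860936008345342043426058339332524604997960025580746021769171770637358022437939220317133742512065574437392532379415093062468828891448269975051791786223685669880054824502428712978031101375908411211078387649506508577254354456645476507962709325479203989751554850184831640719146334888853781797274290785121605823051571304033434526507849673808199836494979722447822537951622053907880883035911456577753483494490651721799133399987564998929208374214092639868534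193131880718543375473852494868203051086637476889724713558726802054974712983003515793205154983594052934141023329540015517933256625546624319470974157195396257301139492355890443388826069525306043659058214249765962740849427929279995666724909391049627976272098400757826553999707178266759849167506671627014159684538593842187734030593136714773328134447837874524326701785724978739988199423104429175512743455672864506753219217608433060882587491600437593791707454211204444070147590165748636621896404525505993329190516947093240633471970939013761396739598552776677240263914524833765870681098482699484757781119055661924181095677503898724235475301181212512711428207306164200786935157645276088319460759767152858018591819767082119844701999183317461380388315411885330776960254919855050516425251374829069720822358988179128675368454019763927339646939150795548263578735401567056586761096285108388424162100917484876833380622102074956550722036935649104025949160975519146694900401766295851694777372832290742226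550825603618533586810320526554050706253223862919501885272300897928359842278473167810729388399025698591726080298595649438674126186826883458987154844683401076348334579866703374485745089132402340336001105459362985048213277017299570096721089232925156781179831634696224728719980285195643117879381363528320405522833506419122781709451890219367809897581460165992976146632226799246177330041697941798698446568884909290202242132535817183371656396310170435961014496902653479318867211089843504667287333446011905476743679226244136728404570202943354779313945165841675626196403470865581839797822147146190340609330419750933203305823634143518969015153805671683396263492154252546804676059011919425941145407285144710107757698721808768909979346984142130693487718504528250848893806072315456104522791272903808844977162541968964626762400790497514480292781683985284786996017345546712126412790333659161294815921162117752585550928379239854668982930575778604120059073472476627711644880175790335336944704848633744935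468380954465026084548035980320875084052204774553096983758487488810226255108834531289346499678720332587012726941503606997037183365430854964272166528416361996647189343174327273888946276131389539277749330006665546256122167542145844947214757370704400528723196753180587012283418256077812667751685007420693268974367912159650089623002462444117496975989439400189754145805386344188716691261455419171322226329406539010925493157262401341255341546447314052819533015420872770913020190707685310324371554942286904874214548192127484823889026220674092932200932108165094553207376320338903688832376485889919544954905069978663677970799001405149829733797115814667167673635664774036867828785981130753250948270658064982145833628301944289647980303159349228479587549197423178992753090155181997282174783369570278128461430569000030221405135212041951338543903502558836022168097675744484739082575268508205900267644133307965116011912667179328301263912690420569011955311543948305518634468474000526216963872123277232770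119683882455953729955159057249678629530746914574058989465654221119295987067382426776911753658381285661365019080436144369734410705890466580828153197660920196611939070660113128482209934128886713121315113821878746068693945802875323900258513743995815051185422660285642254108847196072550360944707151548362222712441874382768651764647603301579845583610789097602761083059079339497740591608199027572335981802834055269539116414554510914763256179134588457319150776725036361759462007765850156219559914097761949851409885420526485650457027408120845781531687284605292702048001604831005275102788882324643464203529085576197178262223589056239282349927962522725454818534260548526784981352483046271647095334018057035685898599028621470945689998518745122509491439630515274649583407511236135300657413778027223740382023513146700129798753105615530445398745506150868236023353091558989996909729883173577972734379847244794180361618537948052188964616416552229183223358543292588418541597032599217807712941730434515643264911277067695956592427008)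

noncomputable def rc20 : Nat := (nat_lit 32609297375392256804559745699126569978424641394506976745648367932675272699574146394892671706528468160640953167994366379121937822876788689291397467928646931430330377187548195516558230429580305946467340256511450704943000486588488736314202089531732854235161180200322658173215863177942741765125068042705652587424671862785908100510624391708881858842424498362421965228090818737007619018641199091537022550911113430576988477579326945564729886805906333850725159073245350773796400924479014860272497713072937688314813232860230628138764864983382933996558172631902588703821349312138979595340583519101908557129314482021396532286029933030195287676338210677429883920218953452506529881998749911879998498513012023025035761465562109163073675069235841425674299740671704801102625196625738434424624414627371873863475532963983126776068153406969870284106382284049015708660566359720486508562732508556852783140307125421340639721898272715960824914794575113180983229893938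032122757625411595875586346217392855697043109639759381751398679710916257456017390470750015413548160247798137008154526690517281617467474503026419521713063336698905238746821715311503744038486611667342239867227686902320283598128442698029506578881096470485959033872475942173590510936625756000329327344112139350096090068524402151151684774497096074167002747682914728766903045415577303481419248397886142455676263934648674732224010806214060326486310627538972273285054829368841124007616524430613654478508585784010535841901214625121142108592632502215256755403676311090597216409034914078970260750147024561258320233602626119017816582602047807845228525482132153603964283962305987616736540974340330316215949245060135706239414170625938443394351031686547818534256851295733138320759390941770249677133788194313515743166649734848388814982969315737861495396385592586403728630752129339467647303460493195277095671457591402196588380708586065072505997524437270823537470120780948380376415059161891464996766590613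173869714075697099985569412422531321789071546710567031072469602076691736217967415565539821636173474608136901938379268601306617203537010020015897710261640146232180915355920084199464184609156076446823965378937217553997831334481622582014770083928457641547076156970574500030710456883609571302785224216829496749573648955716501697227933543995815429668879987656295697719494518094689595099877501595140779392224384449271019185378080216133326188043805127516495419498751957408277274719543981208985223219565970429050578599053307983901147905886227580926605354028009465938043896896604285301652246370756274381330126745431254953346417052818733646663598122087279484897577534843486707704397321924001120876459584853421720584392059119807425424258495751757192461186665095540318840748158929413258593519830163742082381745048949231939276916493189488585167593794492948992988048136601360222145415488316293232855617158918359942785981581617656621778600070309765801532752764411329765769240414909848044113713567212771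707552100099547395863559678724438533569072096761401700716617288300095977783707481146854768736620874091217535677772675626473381878843489349810247362434057927141804430447844018928433523246080183208580180801061892558575034963704452191888602797090025446088439642603291683107845300877733885729941751189648502749840159243397673826804793586083371468252123955912661949314514811514087095912119455642378979696059255956345754166700357264933301809318509277420186940111642154339980794722397702217951732524705287706574884186732472985206090256085102803087618936767747975292656342161450676113718895956740132636564002169708341244072276139420286769345225979258771547416643562030746844688704015786472686148795378453039442519107054929288491126288320054086683353330666719948735672020631664800203088010952041666134854820450248008537202181119498713657133787503006208609525943181092230004569054937204302420797453447097825876696092085866786109668273172064296740556794684807721180853360035254438374260087430642010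985111375373315153657332832434156555608461224792587082126071214928401915442914674522570114957034036565616081155146913903351771944142281794921777660384434270029895795024028356080855217703799598492823027298889814168936974929056844097332868264915158029424137645689747668030411603657997539053591312219331156089229500690229239463022158199888633992714553062868874945688170597916679301464184562717179366815031868016652139705000378227358676806175211395240412739104423285430848515127824813449155275269319457854467667540267072368717211976077227173509698958484484890180950370755526150165415589061437681576666016961982376375657907542783203818662683703336941703745946873452866507914411093264559333239864451322897638422797597529779032006131797926129731894185839841206386506484420444786945169186584770131693325125633348161361982770898811584001306936218697590115873276590753857361331272057410179340713152458008245978470652304740568980247656503136243333658980055964531928939827461107866986794226209477641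191108785307478010115963382713048416079485734449976219439298452805308497554405216712430340440490423352563138932379135892420389965750512650512472656888208016132466013012494632217526959880434074469262810785850008539611533508681218166633882119105192860777649468327257072446802244295932173687659729307073949326085781692620812736951241358339525162023685387805498244532174367093900724595092528808107311173571715272188366107617311489870041961416197417740728116159712484144042381946733576850257865149461054361925419113871816082199544730014744956892488705834631414473545863968633522159017688665055794409284626537039931914335879408396375822231174544698421369175327544798270715972578154331649541238013119550376939532234747611710706311390080955503397864192049626761303785047934882526620479110977605875696573105342046312315679811299484746919374317562480053270676746976200833921164783094123295694560106465567583556733981356535602978096353097657431549194809901714739741330036169655561493519338400463512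382794239784219447530173339126164299382248508769815547229414682221228877554671109124654777707132152449773486015926998856848688283524729268789213555670090199510717302304996851691656104030275660568587408831628819964158967666115050666560599894234702306307965467878958345569058303480881057060499534702755381290187927556714273303862224214825057319141390558355222507260396940059443209702472487788502521386522872978488604476873770890061589408614905344549258056533100807108888433797217446363136038181300302255693875373592743802749327373786265843339796060225360007313246973164226589736611946760784442245560149148527080804757295922149716372431971947356521005306008608634310685491233657561177802643100335856392610427825523773692811303612912892111919801156331249134947922495371304573081245804018793201778862028669303454440774586076810455285905031879830129649967282583885509834401150174520238290624887487340937457481725924652690390676356789565183161966546587226754007158654152247771135412148371152425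387320061332669447113572654375057170478752456336542071437772010010135279649483702286423961422463521128916341120147436768767942908714475593697595956113524438212607039277667500771054110135674361412210861586342491258833534862326736695085869143588436532440950136707934721559400719881359790940785605856125983347747036752293044573016155190484993253035851694828203941004252553179020248180488832761059377863913371116581619329087981502505552824268324777532514833248595920293469633018081077608606726336724670833304021965307720772134763133757042400056427216524095634621053137362309865723776878388817685490331186507183915148363025289557057288030218079418631856508655403051176932263746445229565675985703910151013023186847671474886069745607157105755948810264569550576337550883418184015236147714009091180310386491456550850523705141437261104223399573514298826389550852128613306944276260493052194402457161457507272466926408395024084022081665267532539083135478204798714422487212352599037095218620716366693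162207082442366578012644957509563881425518474757001931784927706253635691375196866280053409906434191593731561247721819008964682122691577810077834949757961516990680945760883016155537073147407076034931041056321655261533284856416556758997557063963020119210798953283626681769215747037394626578552283554546372451917094260786525406666204909053493386462526817831509686854319041502126269508494880692657789850586406202477587389038614434190967212172482812034831493764810418427141835185728384060814580049913004286564900710892287600220525265812055913841208430935096339882115516222990248040724664506900280088565241515011841611481474114330946175815552884433610966187331771472744009942929387497574608036956207860360231150659185652717601849334867041016239283804298617478558400902601552302366860351630532741915118274115605352749729337726033908241745154810765251311375759112159062911126225821301852152184990623493188532550954564485187005813420028307429162692966781862259119380898592536010600442828896151805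748043634350440725324631292048190260721121692012158393180085312327642201085333865085447854143526687627174021493340108671131346968060238140060691675205227508615198543378441097288341852414207135492691216618215812989450227263106662397130091707259127089967491122357701700865618833920948531593689266362160034799431061195860956793578326483616684146381072467331989358455600990981857293371733076379251285577246768081128892150134098841239838280196755211661361129285650570909216799790323284970679004406108329555993444393234617672818844709959504850360070377987968551334617912351179828959502095257077320347155399165514012824879672101494700798105055670088207835609313161382734682964218430056610738368005790343981054569417304662951004255272229758102415724203708369501303600940320070576331830836800555791198897510013771921189682027974017227679680387500985289506107924507355753141464071503919169654336133791205678743181606794976649464253556051494077963303442206473796234395045941215234451980418896597971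093706416161612341564197051106586720303603956794129053650177396589163145149541397164521762050771450281241030410105354562798649413798642584595610472516004230633786384939378998913184793193902041625379703913482482454729900268093597314585928982660678386167623762237384843458542831597953609609554343016741252840146144955997602759886900492516196119447362556076860689705896936811972726766972493442812589074479802365151350767201123314172516911233435687625616212288322136143109585739444704718280802392162937602458173115829840338161627402040495083841826059415349319645759706025631398892523506733665301093182078292523053038289288536239279622393746632057385650348007413534844484692291051618827487720619567022708272182382156800466627271714207831806497441188981055990539059530760556689672899745837139150055092319986506140811734142505285275712556414532912158707776163392341469166631585135042339741678619567950046278426546457298970075857851886633072310200545566491327590751082157263634175613384886025327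022951291370606293875183457218897404490534355465682365826982121450115488958865247538760873559999794402166828297407918078557171338318684056099540712832532002213180717229944367578273415774391331538655786759813891747484347618551044471724054861951056019158732483757368315022624064965108033911295215274807047039308741420906027036602527284887817342861838081388574334123538709199145128984978791906738939216860352481718202525924969445235581336508961755545737084797589704858783596690854470439944756510070885385160871422515959677875267677095770908225923738128201043465520882940811901410685654453717237060334133629470507622234614160421672761758991132781473173954393950655150929954725567854209632616952302697319937193117999776918915783781284924515746429056646248812423742956438161912450299748399266402253219374285386105333732113974525096735563771064762824862088868199720166755996454776043483087482391582412391978483646505697717586595517315720831060824148448011423273727920587044397862883364066080486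866737552064258733075911184859211908760454012143790967136316157819697339489786936215199149891632177651227168339561837353704426098515650042894754288626135582097816694750767875352280800382165750713778856515310416685013239681529161851159428359951675767122329095429116816452668400704854383343595493346464407557963552934817092207084211035344880780266034269471570546111837655481443703626935272520574478197030764228096146270816032184078731797839166890369954950469614973465602443505017016720789061885613313250955462443982862295982376686935937624177898056371983476526964635776712339037911210552827511473586172643464764139180824603311343143603081840639121949237269582778929617387691199474251100101402050727952703626331700490633677151508479894892295269163212861307769091257317409070223702697086125036167265226608728998958272942688155013656364674681704689772674886858913360466557848478132176030756559609399782199401880282495785840150111475437644159097024428781987483272393920469348222787070334190645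223492092196910649939702795430506452914285814662430487685743262584960302064281410196396653330392774473743500474565448047432801490609356275384765218239394599137117124324661409123674073106525805385150824175140134220457955141466923517796509414591078832607612409673057050883798176916742428006846279573610824728008665824900829845661956281749393066072707309331966288246690844646011843714100921942344874499332795719892330291224966355309845598803744457052681903607375635151900580559712659521255733715551892064084351891702414254204544246683340298786033913249179358047661902492058842285232706703644581869526703379402746906685467686926801485543472174705633399809204751449224446281635658895617484663275135992737610262654720274774798482999294576695135324687544251874327284730444920235435518451759477316665769813929162801818784895308475938976979017541542143394072101243317716838616045799714032166453063049236142905766942727021065939608618992876011745671795036999536999262080327717852731030955301779448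236101569822839810640779080293040463991618679714427484837608319735002896852480739723326986166809817863156215417090062474574301212957916365344163714878633510990193179404861961682660624528722206884263416079543923246835237086255040256970535354201192854177587342978350420402164794176275587307895134840781068546917339959047387528063751167417643681537481719919741702422858726506734594827703236305231767563072089843824611817398824471077677156940397183406287463835373061425316715848826937223539703029769814740690784130405863868512583362788424931780595994133300933873246012926842262836750398351065914343183353086510113178320029081705567794697409470058826889958627694227469622802248408735798343836729978824209717746379801091744421321962196634826627618278850914354783915966216677991483815791687938951081748821500168488083215804137269655722653994961632732115959698030665997760524691960706949557324275177335247648590753190989512478318249870738265064171898995253976359262968972685535151668977486433295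054777613755617896561422611492554987102381517485856981296102127060161064761168203663027206489166698639409647052242405498969042794190374460393963062646279978611246053468008023222426369436845763718313607049407336287678336782952403991451147413885755266711060822856305777374450381596993289654613280557712966278645211590187731547513533994438413793962281854556726474325544837771763651728497037918234351806032717409606452774622339627241018301703702139030870890844565534469012037790137324875104311375277434941213628572130116808971634239615753383750458567134524806319474765576140731439086104661738809490702116820251898835796372115662372381270011866050756515335419292675334119489572860281141927827873032480647927400665838776295474997359273873223722078139882942324321563759577903929960818640471832478505011840717492321015289264284307604198793190314097341215001565750950688862124786838512862060834845959860378115629830181217898200234773671902790911510936773167380437085574577633772522046588368857321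969139989799486921272979292968579949131779585023121628423737480816816263892624807026202963689342947607093937745720215064166273308627330296958474398765279448072958776193231627413412942355875901223029722564806452307705577433053524244341142000369657377037862455637868989309426265401698057097499034887964882470079062208314092033328826029371471896445995129308124407333488207998213149011748948572051396994486992320430327082579768765241486036064825932536747541758999576930137034270766031966557434992146905199365611587418230265065178459607978566252847094591912833550739638448944493290398442036153485558191412822456974583721702217134165240700472822195434944310480635037816944532526448434959925130585938685508121921365195476571192355780330140205227308219415354324142120734932478204666602755256058747689523812785836853365667811973718949917423957936497312406356739415246122814140303453228728663139405573670906479577878329628378194445020744638737416893736840832965760689423831192872425701219560288150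821904270924589721526335718314763191459024782093576884284771510390180047649368008214765008326091515227118821140083629591895837658352176689715923475752909185229597420556333170871725014543879852933600118580755621082247411551385908685392487394897560364530297490561164005004286606636703800794108693612769935863076268654831885557174438387666440862301420136037352430379235290793136601565389088061187366911742316572343493701986815805775278435405734227145795041266357404555463413845334979999726142585520005993899218589169887055051788645384348579685938198459545144720428596088571567985496941949350218404458558282997534802117701978793889895152379135832751387705824087118065463877886459769644983223445349639182742597224381735761268339322454538590306658743147694521079255656287582995645211851274290182075696512890113099276215817812512474791366499721927317867296259201578060584964631512914328252732257712716024705866593157516594193083519773851855705265301484830675243550025969972058678808494124677469319387642802346013545725952)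

noncomputable def rc21 : Nat := (nat_lit 32651040927694168792104553307404712108779873036015436178894597417059417011845817123317040924274824088079726872446545384996319075490841027413072562944716813593518821767685962279716794196694235818797299059890481818699622637712717119234232691237060853380901788400563214735684981630589161256739613273542075250151585592391587675302840130507784785538974004067692109944611383750024349259673720015135331252960030440028918124549223183485743268603500082078011686993894486822368594969125592962899947879520757817585316119793801853612246999335342261709819667537790780219815276834481630507616905150496138125540162253204607568748178141027895419339585399973426677330990225415742770533195332348995044520280267453339116867471981632353954864152043930356112178663568600409258920873022564692198314973101352474745275929032590524564457944471052233571798265290948452199882015750276535087889926525613462462174259325114359839236278574671143152983130677061573094949036031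187227523625474696058089800895001959300838409877744282722629851653744930867554291319410957626320409976987526160150716810866635524687107110863325118893053494275206164291204049257551780767705322791596395158588264083182613758233424742860285729634761201486746554731002386735151535913719157734168514833970565547254695934891083708561701186185808436699389016480006918049527580500314340188367668302467147568351332450887364628924387260773884387127944599522917465676584121746653206043577211538739212618347459547117079855130879603139426892781114012087784279558667236533368600237522240137328206389335294585211933902058015736619649811014313131030437703847015611221147634123621115130422182058012495315222499634530638484417388698998316902760575952364117542233681583239783462662899307587627043798494292839695187914478129807171167318887400785080211654517056548714360908741039986581660086704065955642386424993309286224851855875638765850230341758117168318779397406537708097971452274094871720389127006999679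793852326092041887959381255818450115621662361805255512218650558563536647463953176815439682802263363050318854446551487762293058763017740543148875145353802206899774069141820232183698685879540579088795048108809856016802445941304424111901609209518906864570622585108910879845609067175365665762930492636819967081875263984420457853920314695865139904700210770820515697616136163346899360470951610811681183307316612078182372067781082413337523806992321351777097433857866011661870083077516452423445889021097649199344838446869360026284168774068449361591376256828275369201314174783152435708939015031931498695554246836219104113713313292338657955151324799144834414058844665614321332394846485555533225275505904681311883727746038175374990884985296270866474980888308153543298195199781755031184279842583296021439209475274446058174569546199362261808307681352217596488291194029078316742475340822974481527724229197562352980454607791286496423916593864935002502005922131396486056052128503941740646129856825091762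818318860922694229543545861561168940155883563570094640832054459146313091163336250371505854208944085592945979680138090933480575172604094197136017353611893025219810291972592818805211039973002838493728268514907633051314953150057789864311300204156583445653376581615088367408437426020469224748967898720804303030673412303351858226254683583375991054281445180379493273980980698692433241350777533478860997042925603605789504618673466437426424555491064784252408431944736520928114434075950252507285592194526823046798014880106420426839643225770279274422916755445112951638301786115228580618089032279668721319275249628425981452430021156321511773874164055106332953057132483061726150747196037203909165311159993809029979711513315663560117990744087963478895633258826747816438000759983512120890423424977639319462392432634547142706184007610260151184866660095424630055536713630264295951002166632434105521669790933343993788294706512302945401729990325393463406013043809711229910806016852192345571520832827412339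237640254553545486245954171736388819697389791558976443751141523063963578945876582312369381774806041909240220481963348105458815125287097031323841930028532617337052201249611221022329243070126881450720654341610787005867854568478569745338194321296454549941992873949872993260270103187814776661628929171292785693600725335430329850547191859854278971551278445284413342469153097173019294356604980692292647709821239944383712455693581149573897018315972654997992635396702262939712979695432450648269394496805429073250009745758467640026040033772862109001050147887821981968003443480988387991221512441251025786186474212779582989549543263272661620225841590086318482075347344170884810898556354743368959388717571744398690932126319167820366070755115948212177428423580544738952908587907452945163719953072416511705580886999450864028598973187996410049639718113531376432896857168137499672112881325737959125319013018773793998917929302587179518568174286742973146556866516010741450050161881029034079798487665924569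668777060498377687676127265498432172158752009307587591175886891623698962851100070411867867545511006825969598768141399975148557170208862504086737646822736047359394546780852661127252649436837428439260569877879916267777339320094327208601664211870953638929250741823505926485632705020994399595056642437185665606596683990135132668231032883399522068176554293176361398896852968844544792632545501787449072268000890258572961267177748387145680007012144280382732789687813888303938535835153057334197142617348576509751104781179927834381327559026039002903097413114638134996814275163996858824226036502644808125540980261917869510808913904566363985243665252289378876891595181442223864052396186989601898909091267872842090290530512383192582745927521758086132086020383295242650594858955167963790552184862278429370617442322079011556187455674261337715936549996163025703363622839709268041874907073678177867827563957973727647656051301594868564995121245493951618888328904544652858540518283397551286252822460747250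344138045385407473419786990242258014621156959841826851261424919894273207498848649110420790262618203628766087652663875840944643190583471504854616816386234457875711501829897499404384845500803432302695125485423629903454710333964075520716819922731866477000343055153481491647060125186152160653276784828573821266251570080829811443507046957252564190984053977836675432145246615833365574628947001814828746425100438076223729675567491613658093159389697008880674813061865179659657877094489230100091234119409285625013427799013781053968770196863651296371261410464235624631451769069176285073406409539388023652758528441897307395271251803098525322337252696632109685459942348466952909661738258804365610571593483343885580915129977832207517671640178783582015483808605040910191370675064621317959869360670024617883061615304088084268411272125992793836363547175076415337003525758100726213352360295987679300189169524328358196035129474367236753295727507120576542088453068240513306024114387543467472865238864134868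593895302259157366820571529168308515751229052634961551629379720759756624718251908016268763748480962485117295372224769265725847011897873485882743297144553709870419267054717521471218719918180113993786935931832767076474275532360371897317061716588816703912127536450869197338324296454590645833009312358188825801322788979419241378772605648451329332457867657981370614197576489995847073204097616183739363730128068561605694900916744711228964157144193721269711887715697234510038971013010056173454126586550602289287587713740844394074624043407700167477952479965147054839747179125987741838790660092571469390164314606279051558129032624954256208735325596163654621774334414991322190655310149029469395190260288353398264255123873843457345539052435094807772291703710962758328869665729753099650626570621466475437185386459490081038389869889299253403011911157324840447267183807949551828695729054661823947995774679912903035791773487756492400202076919130060776038855989548555721874033435835973792443141416410686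808459988684704172100000000138854616648337517125996258552698351801181354259409165887490114833322493434778425991064241232258153577656746717968830143933636243870001413028519397855359504051381742335163931254291279627482721451851579073795200829741973270241188262152028375437423585437239557770679952511527017764420854891561723038623698273923036510157634435693441157867737892661528035484200574691614212627041770148197113317577114938284063973603472004284349523856605884696741485221539224549674656928569037440150478946871083156606007896534781922069291342682399012379828831286438948875803918267412065063678942410725927388799648522715400834677640285059796828647189169614329652624388486323633703728270407063205697585512190453529839187337820438300882659782429748798993587405284059119415336286195353041481061607236554838168368636388934178294056307266651043690048738567663188932338745496232308977500607313824925466363104444492389748999577395567152381565169865521493768435903691279391029092283851898092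947651039624760447862053035237712684872828031297110338635749030763449981478207661419863799964529168788026034037152362480129799800704289570286596158902624961800158544252114980313036938701786046251009956734051129051364901812858197325113635085415294712131201310107130682722447911097423258806641765684001899948414417546947409073256734808202637124731587199351510602623236754196307859483441471738485222761250253877265613129472031609358127881119260672993420096493180510568504198638986601766991322102069777200067519319744896946411327506986606838952603394909997630453918880575294648946575352262560152667252698493709804967407616592884317520934250077617717352273645837875368584950364103078476213376166706628668947939189389342771422014289535989774991670071714620786401997418516328584133084055512000060076430935424362794448204883255159358171663763734713770138107420514684529225865781991559326586851346691058100085330231506793411612026728393392076356806824283031182282908002191429987243237680119461748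409957895086250593562200721106678656195953633212307451549520842696597017897962939949927930950348946822067848405086467625181613341812100990176250355242618991661763312247797461056422184747059583307046605059102971588391704382633815954384812462834982951318238256178270524924740677387890616857521205451897782236523200209909167082336483536841291549763122115291752231055801175300712889976202880222327578775968005630030320213171924531036488801875117460104527158530434768777131624164185071270492283950111739123423003446069248324480029377422497415557515730361310469168901754127221212828573697607324385235696129183797923247867024573840578530070687255688713966922201085789967399227763351323991020025080362828107607281258381466547713945451871612686289111712389452259607813009681944314009474872060636462617956413317968599079236690064170653940863396763032502265172272636042661036561707920851509314420729909252019703671201451617480345032324350612202141758528258148921266094598202436979873629726895400772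036315191932708662896107840711049900131895906735063936158769732277073339046979925693471348243618281689290005017941759253931888539080969604672774975039535999197352147056158012515897030846463515000388618793793871058586512965380769480496755099060510903758011732255342077156556942962286497407262783528875028699338766017928358939297559881108098777717178279492024176304976571836217501792242375042693007629457251725641609852229103284875869037037451283123118040228916007269402937011201596904775846157946945676306315011362107018789875850402530628620090696818404459052397909714581421520904614323864033838469928152554383152647960161902123216760578784206640313371229048843814344052907184222858561349423052349604010037526569317147066505420108872807831035134563694221753112705749848434908262870582978725190157202457697295455599495460390090064649186361885312778518365433769848854367634584026766770427102558784512314935618695498039324555807860179066360131233901011357362590250286289917389128629612748380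841038791398077591638729392210901066756631091882533345504600317451654480899793635334225534461056611339934861502218231242952398556419973779855788114478506299026928592961587569998042973239731439733335724744589590752541935506635992493538672654666335190636496700996881466768672725510152829994147541863912411716327439498138993852738140747259874471430791631951585948580840406676042676393034871819710927588219679483523775271074425524018280619746386390688109511323319563205605646345868212720877253907652544793795173956385644565198006121100238676806323987289294376660115372959908423504106763593842888518594614600945273576826430231381592569130069974476441568907416602759613232751171130352185367651289363049392551448179158651444027995486734008319619107375070525355789802882758514787952024208248462443476246709523368116126869698065410972133875918507062228913506427205013822760709493562892185489870089240834747817005259194690528799007013856920905410608635500970757776725003443469714027627041545204510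910245631965645324118541964418253416540699230142545361736081864780259853987212065705011034537719515933221108656530777020423636287487754478587635671987131599058546386991725771354479254729499603852393401314532060397548792237933054790499849612581667240448327546602071511497976743363469523952961027605682400259301421365321694450290377680132369427867856205821321079690147654121336647662338571606518285490564727116312494662630543400756054513601262190950915141205295512645644656211852742736827055408592221426001380905971017672186785787107189058342206095214211601232092855768816716057447078454267519937365118120084432031183730955738031748977320029442962191444233001433150215359425764569241104464966958112446294612084659669916034581485389721041391752717328741847980548849599867674484679721490601764875192706841111869880159787981546151280047689737979878340201764846096419323568232435581958935567052938004423040299180750574867874668771781025968906146516395827433408310008838398684589030503301994391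323264022384397970993071758302232263110315489035921516413458809606182469602747724558149540463658155647727609103166617687745111707052779497583541297890185095311668863585884072400994994945925856941899118702274249136902810466418655489897931677393780686847327199911174458250208632033913217165497498766104458855740230205734827438893686170477555044254738824565532047955950768986029615402285794965898464219207983167291420395962639601867584489057099261061661047313821557575547197753173653702104480035777531224937436113250622454502709477303890180579035216539478040232377454594852783772066836224833950982012577912089199596226222398235411324238996912786197271552869535093420395673738186126960627997320926020526835996489982610926203235633277359805604474232763035949442402481638828582701563326071447777519088056576823349991469297769436545018442153583647772166634617932216899625882023155633963285284312211702349409904919742189431091149992791619644588577586008489066812565061177790857846597005813010774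288539143700682657392963537153986572779685585754555091524336795080857977779131706268383183314556017764681642160041354037924037686204745330199392455802818638733734767275341440303448867744428358022380450292416761489450905847635461524118688222716468821127566072617520722625582772949772957909969384408054484813454177229599641670307964869067915661186328300394375553019888147848468617640722133873369823197400034419876859146988598443796115235347786957544448595133579026640694540042590699444251159707691806346101118079446855269333785405684475213048084645286972903323962457326508955720577506838537554556036229833280060129503331928784882229072776299516270533797520901376989310998053907618149024176908787268778017696229795906540218676207210927403910005536154376167900321452161671228066382769408024501795384433455884867082208993074243124675571743183319180539512609657917020702394877780469424500557410974330070384159835791081017428751105742476633131089580870820165505924352375856349740657422949820628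661164581289669947393101787953837999405194175907949921108311345782127755022002858278062465671928553303278099246435353941060781526299583497131501710489106855279213201623136574930303467810030763089444998703894808933809044118904703752425336765535533180164576555313318931627357918253438865554188594295040203441903026996613635986486552546080876157349523127883721467560864819946250407099091489382028410903442926685516212436163279820635849559410421936162257309273233196078612755761757422062485720260365202958802599712342691157241625839501533998186788309396784038554098654625248813038757615826370603837387623641694586768689191883939516020241866568201296785179824095704354755715666633090422840035029548685309459452177357968725978501483359133312339624297842935575980560642404508352011031070603256170881398245596884084370002134616653544740636634407444565687102376286729978866557403453906204061554339353620172439154442935528471188411020896348978933772354073004911584722528914439460790704021612053077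843519914886735229446300696701928026468923067455600886463529635473273553392362545993239799636222404483095903154878177447136543669523227800303498185987808854504189221258353867444758225572908603172836646160847882973422128026823414697559659610095276135177794631425547425140331566517882629418881032201359783616422873682453077051622852522033964635589869814726042694414409020731678257353164403682391244397100766218440757958515581332831701894438498582150688781635107387876793343878245979064906003612552026677816242021977989380953223927939155534425349656224486979419807193615249673888494556610667775456305548930729694570418936945556445421344205919686303595597252644765837836477138469015311901795844435655559648989617331215106743585695475110934870184111036519010801969571641746968705655559403553815523292596255015287280114151264426538383823949442554967942788470649624432823215903382153219386139032771691446383484842784229243850137824427540674068709187689988841955110533721623452733622023748529493055224520264425823008718848)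

noncomputable def rc22 : Nat := (nat_lit 32692298919163919427530608995214800161128506208209290660202785606899946055162706863868525955159191521543627653888789003131271883884715323586185824360024004739270425626858649103073613999101384084995640853822471071955415246131399260312160633233045000663687231136125636752402882358945427314923400613090755490444312949652818323030278178270808178973912783916620353612230869263269445980544326194930692068556750881288781135982565100386161337358128438035925835521756652666419503044972589956684346435933829349841273401899520720418063427081134398531095553861989539333133385942153653196831501355305512075577249610186746093147643972206060727662198490070080746672501388275348179697548042417371226493692347567357198751622783613585205228330877686209182516918175947469544716902891644659402833586366023476304583285794943693693255884586645358830096076496113664766655191885239982963139163090103004849692913577820801515577853801215795150643883284028997269759912416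845249431272005341754964993394961631744100364546390736763903701214460732569043165532735840280670866112266292629921533813298303689441041998122392854180689822200352573678628707382018552572675985261507128825890017447906218225054177653012209959993201199682758594908513149713094784436780983609155199557310753564483456124924065299544982063112787509998096010669499325641872898136167332553019224930032609827136784080687355442232102640586855245184677605569557083837762696284150381153790972895895578595601395705433577454061948036794693966172604573697645235445900249546174943378117976354666683164615061673227069111547657411814604243193470760377723420884603566675721771378628591348802218602167799197178214610518346118714559535224447386902437134936625328291780620284099401639009163164894497513244102592198747776814086362482564368759586304881680814783314877688000265741222425971217671674439380345508712969843519159939058260892336662357923912092725740949783133068754086172299372183278308650711730771224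410570398521623223638914223765237146929836156156206861275960863536697547394858350877426416561895532881436251651478680361728370646967189299494076119936443774189600914475812811476938587258445260957591663337405778285282414055483167212733584211274823498962859774099642713000461362328033020687198979402617942411521744879273262523131334766068586369276617184873666720407474348058950113151506688188891198720034856784654612917613503249897637130195688435369577419697592484332330106155606073051616607025711144272641708216738528532441293931383851437880573114810084211776929484995371852326041986981192334949431897024765945898212428768241340153962046570855834173223164008702149728722040185110112375858600577151192901298734040875096989972792373363396796376383657422590694548028690062050885347003487373108307868292425087190334082115230627577324898951864768226708739809573789290986035645024314951584233220214695728227962657001238032076959108674870971744927484373758431696603890143458637919675077345661480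682679689664254009573943230921939561599162723440352780454383800607167422312965494171129721569597019778812892867394562984449543621910393527459809629022779205703710987437626431490480851824589116460769339594881819007385187821587822981492573320321647758260985976805511716037136770697363617659963173340773131779095530575074240898866774422887477085438375569838707136292262598328720150414047390053297095172530346842360006791799629670603209632026759951846954268615860054595520677591985910239713696080781243701753779656058825222441227984864773626840347441038765954798358091426137334456020590822506129084735309506333096841072439785867912454058954898834929588428581340018137038107050153436972239436091382408613135736807069196237891790061791381062258444552830721019027399539532962390741300410162727650755072602225548003941027230161275726160864254118402491492024701037852749628220386477697905102364844260550175709124743391253175499668025592625154533701824279867248742797186532801072726884251962904219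443620940180316746737470343177518273905212292308710248294555301326284113354089412068859269713147910077349211221962706306646246567662101455937872520152631379194849104575269832405007321095286329311632479776655503785866502913310924852802482768222763058258798109538516958748685869756070569898298909382358926742243558071770559424919367488478370920937694787145889368513914550001203182947174740573003791623051980434871852768653319526113759885913697635179898756720620004831691528445185246966271944807913962032815792178129312693029734168740924858244064976705494533728100710496337874460934345838946043892852526098280473194026075145634497020647542638566950934339715042771811171531574205738053427025549399233864660846808054850269712637426528536827084069817613260195101460430855331178869480782263208629693133139657972143083544692391243081955204074366616711171673246813991312674674167901692010276616371297305641412648435887435423126740965838505744312944722468219051827574920707779800484614908389232789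896453067059823342403394325344398389366334287121006312093368996706668115718182939282042794680306314716194054575107535615168652943536447742932149455366924165049160523417890196567523730039827720360266171414268621037570429273951462585795684077951264487965983988896540890248474831909830238858139273100541987435071943074076534880694701475736537576713489913673060375086459855849149887017365529028786036975044959467695038611006806691745510459351879368498124197021389037326273016886829831297987328588730424514699296777260475800085702125083029182922787562390625384423884867803060244782376950015281965871002111211532362343085443102607350000807687468801019046209583758436158515516271983552722815999656285649570352877508557045215566668402266489495581556111314917200099198701280348620684906822818456699295802411343668040405572881687787896895434922417949160470177433516542130736883090465504673484432734764836179256878854146070180931575283582280295696272834186191106998790443619553922725849865437731226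278210136038192015484993575519402365953758953011585381754339092181386843698027008118435716028617961592910681747900745968279401140320082579439004316408552780717184840515416896154361985092624381777719695432738237348571465372733529009869962897246713919784551536149567912131590723350772107301225605943489326187983274061604867766707028107220482490987025718662804804702668034968225340770310020392753882629278474878742491439650298081681903392629476766691549274773284064752085768012885004400807549041536497373118638377354085995049105939181457187694252921013087322496088796502434470704608393650350479077910091528701315615206229858605215387908769486057236590991003610951981280852354167921335556700501301312686690966744581791727798202266731529115002804667164101684790149818537028832046097728547151851580045929046193767220595338555756615141920286897290813344784032896876347648918846674757470656480867577385812142809822908038810444511632903062667690936270603106219633957743048636177444092409894233174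693198483478439108528769733579377337942811026019354640557589460844492595666529362591310894345645985404797842760176812921813105818630204536424095585309949672122124534913488455947943684259410102943649543509112697867352381289843796103558469186049639376149204778963761850047225879282857572769332881418772751022322429077425531898680474431997530320021289611623567731617739205723081393860869420861766520283306401081716681773344924786455600303196044295014425559570893267217755103470513439048437335944766836295927916086742407697191852294496482699681009599582699096433530333228053914278040277383204816058506711062018276672937825571734143601560009506047416256287367483478637950649124335427792479945994324973157406347494692722314133458681123474704339233346609170329568431600966275508072899024438506744519447941776984458966491389953128506907422551954568850016448825295352683760619641408880244583035284243614505874325282946405759930010015224748797632021569878600541945082941003753116726816418862837609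179532232523990428056976683491084686510960417500728902026371840865521671416334464333166071069928493116675961518217162156204705259062731559720471578672044495999804290926951421131871423296415298050524528670495802160837049563972533362262028017452824850129900040502788857272745419381710447271544213474407456860666077103811359561146388430316001186200329542530382151597367577941977206724577146898179527341208204336905679710863224033785102288173234527403697070044997689886583543500571290418901480348949186776289241919893975164034339380579354755313270943841433251667794353951354316058926674203225978334217913052750254033499162084531383594374201996277893781140676879857920603681171157501379090133292980031837471984970650525552797028490175524025718834695830040459193531785484848735109778478098175964892828569590524156460136183279538965286855866545165983074255888316819064088536522006175618102377066414772696401031628419040216355538542296291700026093855158232412750619080735529395149392212227883807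257859247867741654592225461095145524045670096656400536307867260674338637345137927515025753829375580113091740236421375761066976483143697362689531898212121514546074025047351451083606052851802755744847277011138430193368058959967747447023440340846919569429127256183396329441580099083015999663907620131552839370052051721462112594266180251815850585392040876642623167351267318618506442709757820918895499944831351729024660298485430882793608588165336644909563363940013072637340602749443509860677270112585712787245033706614083836631019965053642152467296009321627424611369743006182219076753461364374237414137031091203291205707402383918056370785256189443207306562493756290962136943189238120139388459834022693600391940746758904987664189581909438942655816498504781792625051993242410441168530462471822407986310511194118873062624815960184618322055060529285831589033631868875488386520004713213220277172714164551236344368171326526469375125566627688042644164632033153551846275666500224466263624223408233524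302505207374705121548559683319613734388999507431465032329720645992375220322884195625569817134734066300245812811638249813564801686453044491495491748466300887708854668970502248260974783021244558486493133084084892741686643584139546062993506416947883364592956088812672747851574722399495737305285758989857789564354089963228146090883707370572042371160307292395483030656450325458595306677550145800879268359163284247452610837759538959685547173623324739901077265727546436433981346653348172260759349126616229819136083243116633590486314847508240705873484270326085103562170312628050780103828147171518628225387696962675770565911271015804159183843765453401189483159987385759376719651638660216268571774234799810094289392566202424879200242772289351571077822435083633594234772238531540919802585903727109712022145558229689439154155593244725857549374038022150584251512699214574716754185239450170824739150676493269783976248978446908430988450034314129330425426995569091500188690833093040577981850891702891963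192177221074738952003154243309213679847582388353492538956334998547861022634028773841548880352559698785939887187903550182522916760531878344036480224336275715100580057279884402182711947087986414965816579008429542421208305583550175973237631022452783625440610162178253982980104407586764912627591780568880614111767265212214652781999208095336859588734665016445567204679387665043569667300300913596663301096499440525646649524207582656008055269967840931355726325866701288330203968611929394074555015882579488075057798124882279745679335822719789426651363403602022605290244525949338701703060941238791636788363166582008965761373464642935510239921402485043352807617655687954920118023983805473040406784790009328523529233891105262666520642991011506842444016862336638629178297687969071451250586350059121420711510864181599515564726712957713106851138694512199385438386962292609614461240396321367391355536461210532935186838227922559102639825669247187634923411795103893416317204242787305794411064545096095847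303236934859434430396128431438842324923321588573834288722436312765614529637342898804036074350611893996765581809224998689286476790666056315909119433279133343777461123080066998442942535134789822961060644510959153151358697764853506800226968087038446423070422930476733298743024055354733287914017281265040974664553591821678406180103934050921065068575388896327411522380901218599934271384446058123062762294551385691541554839600957105448351791445719954210875519281325254947680401756356206560898866518985399333822537426447989159623298689639836760064032165397577940073565839405621765507598071676236475148777190168172694410129405435836580447737058922469702292697270056700658338782341171842099521383685520632161940565588278803597926058577627611606925550976798086354319727275266146875410014045032065731826042180362529352133311968826581389427073819345869900856294572536463787501436920628612558018201763480885862905747699287946679940732763640935030235698935239264141392918080039120780702963029948305255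951482999963351078517788493668177796167577011963032684873299262649993674164734771513763980531431871687633987690877948340953366744885519652591316942992833896428167014941582747091305151989505894031530312544295724326214259781482267665266773872869225671066661131612046532827004708015860485923215921065555109803680519676176713131245380605835253577643534041106086676695718719690283571154914339266688426495540060579128094314498717729583147464481699509197549224437127655146334244137519626063458607301350468142980836219491123942428229045021125117859319851399923567056982880638564284796652061710948340805729667436475788990841731937141066314663779325438934546966967845320055049394345269755387775933175436458747313758734254732038295724126256431431620907468456046684309827645117781718511436020479980115575328493058017301797824919954125505932319982316898421740351947886726366908274673967167726049609440773900967290184007317532339814764278342419956528091699268902578552650030957543460352276772473537376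487394985468451633733380665916344089815269530019667712038542497765644112754659072910643474745747655153761484786452463874297105684830529528528548888619503798683785880763834682585526113401864332540782340335883116611338197337117838121832135819067072591168009330608142881419473150310584004623916576122194198942913015183194646591770260975867315909293164237055480076455659226350583858033996071554226836876141443031376047236437003987631387132807948869207930704218380277731675677614077880689976485982463710620903040996063559392414311949404945014322135123652672767228609635316778628994342058116110239209614294329830656913452230979677211419417184718122219921791599659212774144385872604733191746834786315617038919581785093277578839142861272060110952095432949730662042615016118745236190258930208565269004210173036836352544626690250412869179853735402713082248332862807183281147664394044702380862920136861715915511832032555511196239442069357024903612973312018631630049518805821287484242487634257105099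146490147447367582897011864806656355266739691193878774716360357468851608851814273217191695282387247968725624600401932529427302299855673610913746232280107359523651384043598725981551121736182758479475870685477449122336781095166130852485127050336264107505729646083750696199830130187421581133935266730741243727461250404497227594931359901204573543273268972051863735653259310397788571937687614445279558058394441562065256583880258713779992820127481351968301163975510275714356107087595098965404465042482955442446010047183564858790465410093960282550225427050209659135798768545379473545672418647091822539847670468347451575530613663301453676249913920921297748626869364501728838444812196092168203956444718672152227114778592076073438600037087295807512650213138570214228836439236708653868597793288282607391963024533959425499379734875842851309349433916469862602106981793109769299210769499382927089143816433227250615524471112479677012692431448621204060836009893589039494551432738069872220559064786026777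931722405158108864651373388389815892988311907289390177979589923262242791458155316950624530325908937211645474885977255702326055750991416190756697463729736895411215641364094485066352968739401634391375463408329275585240422849290399508173207513376337620404266746795695234147223078197352800564641616912894355166491417660874845551723435379731018868381008697374787527016317648222428937607617852231457045363613127128423945262924488989821825790485140543775391969318701425565604270646075728420896958408335140913825405561906736276212888910723616712732813609255795043481145585023891865750451084947238595090937369365248820204726895046201191396110366840466638323621680902196074665948660618537633789006808454782824161274566443790269281518440085085821277363378437793191245856875206948097996785248332272969639744667839130287936418319145428453094496308545022783823320681444734010809407905865975087247970978672145442335463443703287238273581103011716827145876751910555477326739425957230255398002015145024792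252677637338049080699669560368593886447548701989955456818688243766967089286756294897239232744012196402176352951054672892602721493267548763420442437303688525667689130721798385309708135336405855987302724608653046745253237954028934704259605208701311516835032413216827804224256458048615213908428990590214191578542538287147427520660474555245278907834364035045609721540730155188538850705461661531578436981275899466847503561417429487586029826488603215835283944859427591740892625641775057843281975194265135444403046947068927933701617154939656808496819957305647824811450875279569944159700045705954459475298985394746753208127853964934509996547736682035008691426616883579970492485636318377524922046305635063442803363292865904734156942804535396313429147719743048435040173691332941076061671779162180607726824748024665386074844069768984751935029213889545202540546879597347877282934986240699140400803179001934568089774984894744934554974944338611201426817976295413973416109740501443047182820171549210215814915828231787688102985728)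

noncomputable def rc23 : Nat := (nat_lit 32733073782260798067194490168573869395502204953145005633005640189742270996591393525309945169662263489400955415066708723465703362284672111220854477337141858440028860840171936037539011934028340627822919865096249769934109586400587696661446617284809057205007029924499484598153483719773316357993102155274953845956903365905399960002538971787231852052724353053250253034661937413438781540336472773541822303383323955711833397666245955985114600409857924395226257966941554240855718873627252086274374481277060411047448177456448719438425100705816889354742787392796590899961056284477693582146105779079638403758917646482531245108883742709751790495021437186926275027918685228367970192371974893876541877219210307897754420268131687006760915728081076659506433485124505150961277531235434366567535670596266431674029057459315107788366752393690839039944523582722916181399623287086923595407261110214925083771348672311722378389911647942223558039141101955271771599907194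418870349171668611077168190717340150871470362184187140746055852724015448212077701496791924875747843820506365273794243891689594814840462628197318998443036645528984701525979393761346738630253718135612918888868014011830730795676725821257974160030746258302716140598110902586588121024915598655513893639751757365941681748779930642532982591416304743058199405346061943701512884767906805508069618370828972486476310904563825304696473416520814235249217678966998419232546532836726479727160732739853124161439470914287629896725212428195341355611421876646842343325397463657335076434414089100035579847487563047422164206910045198489124404051369753213275508907496539976155199032642746811563691349651348008191804722296956575251335928784780024277957586608326699833107815260552374635656826689121407881480834007644790792671427441213987502084864735071417873598906359610171048346009478270864795020943425249752311616894025299309521856876907080312968854834254175402932627870302792576809504700727220973408474641436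733264827865211686487569031296302594904223021678478707004946015324176947532495752423541566862858857426089950588880480102867712181199939437678227068459022353476774864793177235240926046113426657260607006181538756560906741620490818958985934596522908754788294125327703510296983632443299949499101192967581322827920337756581129026950165476213156358142270858925579656022291350002017520528534401269591958492577907365866932974435356670338582062190203689774475515369745580498551656369389424846959790758235580185047782403506717600268126750824184274001963087348738788925152828798720821105180899659330910121213690175501494529293897465129457509321445428098751905909546167184968163497612286784319671056529761567862825412411351619560904794692664370575203978237741266793114628565485182019234831691282476669098879305731058992769896729198746707860156223867569528609042205459162525322542172337416448919960086085948668553210736127484582418467241297679766668102769158852116531402682469382212024106870521418480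301492078155217470333249496508791913342807635156197344711681028953809253232550678086620947352383498017737886607901710850984302402498178077373181347572351710868096590433611613859138233204712012603758942689109930859139683360957062325315867133431938530988918481580841855199863697484777411310535957585671687518862738506646665811458466800060966539018297856742345975571352213127105325564917627442799654357880872233857764224355763063746764575562954659939774660406070116002739545784325149883897287519917020851120073676913776213510400830444793844240287551843785312978331264543525187556448471624369159248703334934815649312979843260359327860924155127326890692320705498346754647870377654036234404325906335982313434190994768034714770765157693368981338799583876173951738090332232490915029427740393305297551291807002649445749940368214059426007660360183186801963344760716311371035874544195968139128653187282454284268984181745263888170366422596930521831863088462861821450421891839459725389568674089539122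550960373085090669337099707263241539875888815724685228289928818506341218238271919317519291383312129075370221979305045288988760606792024865596791664582281415739875654802958032408690467822729281877824854725285332598696580727495564128649792001253771864129368839804599964620157039289456934508038451356150377239807769406275666599174745612894608610029635147204179832842867330513997956501361319689597287248592002216720855048533286627935763251975352862184484888436726488261223309355442327619029944750814617262209889930712816366111609317771385811769867617743389309350173514736933224385837130049193381631668586900193523234307261199556956781999713047292107234268270546205827930347104603883179421657110544165804072820836266884091676600268366453572304471100359956878980478633340396195788464241845020658759762085621392191441106793593009193198905069631906020380677623971164469170979552608956702257536791554518593597731463961760369351352399145244520662824687156602283898786837186116450202539210295131735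916091817039578143409749403148156510551285745006883418117731719985810914680171834938168283050134869582498219522756396001049488111802094205071460592034108799191369686505602405587302710016417276082763064448914735885261871533391339149487744369139476247427924225726491133570942120899545916128796782253382029928746539589153940771840466447368341490893697044631473605743192234099314747670722492135691849799719130362060839426925574864123658824259431946924752882029221980030122202050915588255789732576066319628354904524204937679741599628996838446200021288850072351510036977433549136327721287345009384563464070282848170872567071961955176085660045016489249142200935153006331909290019940492538894681546554874765081825152959774127087985729113220992565413249416865445844543304639773637365553122770695620959372600514760187366868891688806647579944336121543593489378830774619407635098218342583139835267526820289853095797197361061700624371761533093696132673924594945224386257688491031616119686055599364643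756085620228782477022331168346898248357036744618206607061152486813059856356798920718214038235062476251140618341219729005935512548788280195919993202510523615933636030337225768027010233584089662237439030415626852455418690463607251495500670552742748224698455613652089814963844506664116621045981712590277987805788489060632290418156612132107170183069880114552190437866563984366240915697560561652283104326862283932257992894843383140482683966541463820041698949316745727600708897040587858031562639245471044129952139487649652531192196131366992546323460540001649373408431053711141864969746681438093504714624667123597434916633584232229301953617751751433194034244048295899501142861580048003682176954044265614812277237710356297417382103817925737963560768118375699307301540730673706396941901667530268337275289096595668536294478809252477586294047887638178079870957612674173573677061559639536494201023448974788535897251925748470369223089943714260559632052016211943769720627721518617718881889803912187963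146472284903779458713351434635084403855721235652700417057073637852422722365050627221237554311209405433590093249447048738224653221423827835505268154374108991293226926227147682609791070657352890738928913825031512235446451899482102181284805410438999883046278439931325350333850911875412887716855347306764877346649512580078402692714370958545869422901633183269322530033597334885962400411804689077045084966955529411664887860293586511578926397819504278288962034635549342468079917860290276969697738488720817958627168036744305676348560812235858954060538290969718223982053496308419893062070008838949303236498120252689883801368397517334673977124351192270171578577231277153471111898082251446292079272528879768899450506511641792745746040567699358635645525985352646374214637336059687638774046162655903560882401200624628258870114080329218686798918484171870155523254194370159960697740628760752537568141625344649397365436459277808256522111442460287486714864773030718405845811035876625185283698691866744740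813906703440621872062045374511669458801354507031919099633998298845427639702730460990592818175817684732004550679734718343460924144462079207300119963078431680533544264123867312774700699905898729621676470119210655985619513720532163777901003550580629049784281739975134613226881321334289557901224379536982726009635564576044373885547824134135119757650131685660202966542269610636038051178511565725720077801328344957083894357169429061049812876927221630342628621206836951416647056280573188167923089972969925463078845793124054025744620267317223788468979247165623268275569645647939287574287764861504890029855107518575216130375518656036927764526390293824696483788689246980857780503987369488904722108919703372426908797807517399495078978269979394799858078411002805721673893044985649241892115375819143010719579858426061103768538173579543012756262304692797955993932876473986971304705217728503841089736985336071566459791834224618222622139146177683052070862008347603018052677673404361426272585652180888450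358095427073387110785634571303987244330664055793341306268204134989095303612369984027392143299444865003105599728764498497205245648760667447780703998201851328363127347786174935035314000298588413304075009333064545561767952669150119470093016544134934310399982096853563173763506820091295800094301812313446808180975361722848312084317708674063545068298046293431197330965552353532078061755971423355710881505158935485954906443096679622516009846694743884366295349758000644088942745197670074076704285521258958238786302673183299694619379487275187962854962618892002365844219521953260500638244606233814883940316299250451008181184066713635162802821645507179747315288849554751126241025517365196071715403558553064942687937431525711833194336660492283775970717964894504473365857402520100107112673759877355982981685430364489475391816835209937834901873842479082593432382329914965937095588131450477200371851145368423966954258651365735516301457363211373579621692409701406150568417817183553514304197278688809017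328457447309202804332677865236954839440733500435690517920035065400202797183663194610569306003045437553658558785552217533356853981135736617090765403301071577316765332578685155842304777517225548560549123181767034351273075826754063993439247323915936660721591311497526131917668039461231928549514100811947382539939033946087680801679885118013528089732403005498415444660970192162658048344106774610358183506492926032940267095256994564777047605677467165006586101483518879560319238289308679807356734485238753778547533739884125313185372141902196076538719452111721862207633898179460121414617588201127034452461920269375558887957750302585146769673559971149521999086272222968008504222301964649769822594482959548230796169254761921664200398878880141906827369904471720038986184419565224009803709078160035409731586124204631080495868763619680531625259330167017797520455802011520765803606003523338229495898497178328928894941996594747760398320274861769666477003166577601623781544706166778566001502532005956064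890009995200404101394694651444395908809182224921124651589270545139374605024186137311860366109278546937804112049244250776161651491013737464788964407872308820549690371603831749277287027663626169314237817590943263175129430269152554574008381535599282180133450682569971027215861496897822964031210995082173189143420566571806876370641391549850085782929380109756784120315247652210687283874361732229872459383311200581947710264964094682617101493427518782842292955725476734427622651683431055426402616641108143192690903638061904016153187915631578967868918340306620481697394213214453938861213005335079427532311562274029330453143822093319969265699703940871776626376847968319920202208337355040696809342880435226802594042546334970852475247919601566323544816806600743673977815289238175099271743353542072930190413912022165862194664513793848693028261285153298850766569772939687269809641768734327612393423879822492403573026541826004588592576038051402606150313884082362818131332225874004656983569720885887808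611932492424300651634039200057693937082933083961822580933097439076770833312106072094232526911074082392812656981941936753237323065019917611271678697890709800361549437662871173105843740157962108192943483434681976311556185232866714150573368850627929050174817127674069090330297740848361721692117918855117342475378466305227406960704890160618005073602625234060911706803804207571983236033414579479039199573655796609080296151087527905270007380755129185658070921638321582779597132125636055648334529580942705826325619000374345389701875134095234606917690864355029128858859851152722640765281205472225662023182292720369532920248514844601732560306724627976317801285195743167714966056170986437146567824385455460578696033156623500840084164868530161096249075519911591543763696543069599591959737795045372940358245820325974647632593444743011531531610919551369124381743185178303939748701797235911890049177547895476488644528331076870689651028000780270633544017568153775951849711696089629481830043641375788783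039155590820997815095273160448566617333337673727841481864464496752198359881623821856579723353399226534349513819543550504692041717121887903140569466080599191547269103259923216813310076086429430036940647122951803794627156381743507175311945663718661878586855443335174252714022171803648092402242551365524203440069627350043281552973453618997902562176994451704412335427136523116710861090594805415699700203690551766564275183524431954512016454392247025110592803711955724961216957421440227757429004763784570429355321242443083397767536383062861774489360395388265036049416753003545309415070546528283132069761021916704450373098101889907220181255048082866183909088259835779231840702750815573592477026363499426302392630665622463179910362911975103611810405039845577625626735986172893136155191935693983493561257044766140907632074494337233471340510061334979799712511237814840551982902193176668990004002635122786787858568871228668622162172982875134998573476201985409089244598414053317408658848096973506392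642430197600902052283014749435171686453946602146283752086853575309952113678867495091755573998443726297084965324147781932498144459614676434397172081058418138213364935609826306225132710207070854868784917238640479432058662896769607844991302636427107558241697678249429848358425150670191489410087344876100724631556785755998470067242624622866358023671894605350318208923036052053309227850489933623138039244863037241538520965416298270497367061445646092480904396172576370384065987344556240650355705794559297571187888812301724222397358778249615193911319602097432206440708774698523849653017074037329926427571213561364123888225520811372116468055798315710454763113077604755982202341186052404518982483255555599852808855979660699639254078735211414703713709326312908557645293144747507704829426752260612965354310788396893191307771027880097024687787921239885202672218131782840976921005372587363497048057859552337630467367448982802569913174229238928751289481374725731532377509944337966656707560215195264744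508213053141702210668798039504650226594845490532205086712317743938442597017591616794816340634286335312984644070120956486926908614533241051802679296959046975693866793110980389672255750967905466539104503926208233946570920220776877824865973113621132491680896036868625970902356907981045432029508412373669608270285947241844927817745125253905870791273613515453013482193173292221732893850153898155299956471170271261536115548351620244553435685993156290647078398538788354943378386723910659321071226668502761435188357070894375558303000026421939468005361655200723607522254815944776199178487858617576199587947345873139491750659013681030870771943430106119254993963892918142927914052088058136922099000271601468923999214637910983613741447924463665860011923589385610683296103992425994511290692276603540435784993345933167226263465331901701755600747544365183742082417730629110644395916185525296299191640140547006515672283072047059756934940054342918937331700446949486372665847652685805812938705408012028169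593635484632508229543638654485513088533757505017337117288410560020848928822493449358136149396585693240566814370103332064363671982308300023571671540348493609033212359013164846877135200052242514587188003012884197938579499996001057560367729001576681253320282234116493479715139761243995255735294782367971903789153755309823427265873510318520699605409973104003421656730241121421550831742398747098573250277564336341934046092921115081670794688075766419745875588913313309320243624040481746616761192895013482743771455059670752213634812347986479454282085925126501727157073703012993720180804559390560922372960872867467607696177273941618509986535176397541679950283066381939845117583360849487615277388674379119746937683541855081687155702244984791770728028134740261213160326349815200822718940189780263778538965272280670642876285098797907540681109032094715920559415832617893501706932138790274789687817910214692297711446558406996059249647729110161514779100920668465632828821722794485326085996339191381619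878260363363956261616276281215527827622815825258884308303923309060991614552058164578501366763252596544905737849442184392984322385468032629229922024880936709543623845934963549047510804321097990814536074528189818756757987787848544834185031503262667246963319911168106600535280230786836112127110484048685471614373179856249420492818087150653544260184424688936684309727803983870724834784685373464398350765605064667177936660799866103010853149543923804623769142550371014769532771226254918108022635988003144620620932190154053325337415311597074833138624527652647606892790260791321207880013555370322025233710593291940172918603498988184329509476948012218629567160625652901428678737169293807162862036481561278148907029774568578588382709799314374536083386397599609256423512609419724878495931007867023072316762557523653102800236634351663460582086830317234565250259309156510734162160218529697600741958003820147983447722610575827727438567781207524672872309188052028764974306776376831887761533940124769887320508334122230656779943936)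

noncomputable def rc24 : Nat := (nat_lit 32773367217666371942280773861207218712872660323454439115420038464909948985144231625879647797066250571722394352588811833246201716543237129013765406363468530945097128379823679713781871366062870398246076790704459469414434779630990077195983446787420526218826061067270118251116804829279434512947233731831392187731979498617579006982236778089580460494237214875198350574798881957366557207018145381064137618983397109288501279061558335569838394929178164358009191087312488329711247894103967057938953987306950808928134575711679105250561158091175403659458251415615899490593846108493328335512719941382053468010995580474422738612667770848665447357137539849389412057357756293580802029268368477565627638166987532937454719986340335357717040775366069323635316405241230546996339209580198667133880567496273570860313489840347688591365695609063219597512962756219055604228117018151027281761212216091585256126129641639685062850544914400686605047983741376098980659537361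993497287762772866548425292611485290126860694271148444882385079442102320716874762613714363825218981965627163574372679069585890948121973704893478515080908092028610948471962745235841429823374724298319688654348438542468865525574183316140425365422115898667365269756743576635396307315582729814268363013840359310221424817411349351639926913681390454399311913227116264308282477749092017701355369326053753811888079187076190265483300046586041445944442761694552557148280410266469169582178522508489644171436725302069393804294374511615428279291002775430914132495857205180326929823741731484681388344312006132015007089131552081054809993902695041104457547865408796223654795143361311885725424334957520661079341103444684023348580477713350175219762220840874866446787913681422226867481704636045132557930697454939380640929975603364937603387802329042515667319256295937007664926539566654298966057409388028642803048155898844754091633209963799663337210249222968383865446449560890758624670864129223679147391226256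862875165353715535273226106001223860630717972399269724355967276816423564843706648745130506626350083270750660489359210354240596575042658091496121647042723364196648136982627500149051340655522462608007537226633422829939689694027770694008956440747465496465198685192780684747776370769530273032598133475674201184876449300295886799324547269981174575071510513244527020863580476827982122372536683261590572236597411423709919327802637041216521932469163636013498341117883211423676309578023884262640667193432146423484492744008672475773018230850765191940374465742218621992193500726914818522330322800164266967574773444806057890341404326857833382333963178250768160644544820962219106312341216520367783619803358888612749172694890057455939361130520846787917416894092036182829766001089743594893527400130914984034027106086902062832563982391089007691125286926509138599886840614201447440421564155609007295418083238989442930047286906879089270138059776956844199296723278103501346774044785967736035250614774725896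884041239700104210981322366630455832002371692791136790544164899119466306904254439387177310823209096463754000101830349134584199663597133702968128367928756821323283159502177133344118574936926863769808551426237598892873222600274026384889055851264801339999428416811870740263698544412131486457621198940473540538690868363306876727312157452261535777860916452451537346984995178227887937863548554424007896289739352568756615370086993011054359722710577185724872688242311694601411551859325485537789388627013846088707520843755668850566808519292519699583423869432705008144340468942896671055537801337156347825435923683789168012660482565354644774762636778622400938200674408612772517368189347332812909384827866566670190262623198623010453862638097962576647877727384827357199038283090523754025689550600097875030802973232328187486570261386401502812705454660479610977372871336299341963417150867661582013026169956772714102296899143550098811653440505171181657255472186946780102791309786778795568922985311542339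255326638527213978551420624966324489769504972878201313906105117450730768604276959765073700801654217446603625640502757569781445281316075653468367288283980746653523432604740808150809582389015077924444411073762775125180423327925686741405857883034760723328053625926345201141525207475594358304525980689813915116212192257502303879665314695959661694133865166427933175127189424713575725510478745689770935314054973730171361344380288879812204504711008005917718589919331363720014982693457121997219726295898971212807872126242093953598311148976943357213491517008039734427583509142328959310270926388006017429360782616279465295839458330305432348739466772922429880675919467515220800080643146171211126372760688342792243472181599164603711242885950401059491721864465916226187284194803767054123815948096274129414801611216213039585751618357087673865904075538775093145822608402643634034857023384198579911880553094521245171606956103652625415678397756292525264639231699220867932322692742441158105938723868911500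066021075056412842000575626665910824469824955719814995569335156953362471639808354676741673235566042494347976982778923480006695314211763988301105968843486982761282692198337805698417338859394825843371366648647858747946332221643137258060870847936032394004057349281253065569525401085437205602404494645723569734163737209897744188051981040911103460255278343844781565970054599680228953561253647024958831565887196109869798461160137283117023248472830235611468449628242523575473192163181553585273003356906351387020561235843242192107561793783817781394951661372719864249096657830154627412956167500890304498390923004514439227057966887343684795213994424095031812671064331410017945440305491781697739430102702056085842252730617497733251396979031669245800247769542149850091239107690711975812547592033456294821309481429629518881308034515167136207954560745650594220714760305925976438849732313717266442100154245174265044987564357829138143288065775415131081018305559921013174460923584427015955013927012843357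062547023899871682912774684254814592195207467859316827966860782051367070092311636110264765793284160961032136273781852159784599705943225558896949462076908737891775241713240964893776050018904446431954325987794964919191188101659395407028966465509148306019885324979353338293989712978667499191014589692999506172621637615769688696748782624029683146544188972856575080630987298893117456051663063436540832430373612926413023591063502585377576631885398869993838544893897826291177790478554348845881381422919889402716837491710855159480178945043751242773644720406724040282441716789619072605135296737701547952328977635260804773989470762208092753847941808070150193290367326981540049658237478489394070931053523085761475590664033043679173714214307245510187811960693157740819905975960910878922157369154770300653121587673882321510902965982839608730152364846558485686452941348417520754408318734246503856285809018952067524578705366622981467075387331740123215348297689254099590508565215464504858404738817267319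848661732648455832735464862987873001124490074553938719502617560686384452020668582385544018277028606404460851223001246781576036479895184781121742426315390225347668399630366318634264962379775349441899545351929951720599276113294549932170484087393084548084209702507906199200070074281739840843173271277969551576416802418796212099936396207193728430002142751734973245591721643886170758051217231752462506331409191991448648737531531085964918243091835964200416474002345587971161501525476168530125624600311078829944217036312100730490999743275823269537474019967915783972135877724899457850886227134198799650502023737420032849594482727623238687225274664085054181560725696749515362811534604430853769848597844663800539377220096280590154038492447215719338467451885725316044130303359289170475306656648332785544285733357245057369074444631652944333971458907422192990159982682290601253256906093096547991870722214042222942776590591244701219047255770500591168085595399297627319427085740351147253787186550249500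231727170112426885692570621348298430788085397215176166785343597995244265984187495421745769965226869158667245217004305868849282451771951612277914758759430305064164129686782200093157904301819264519422567509537387272732901061548450358897307413064689205179258398813561742764818613863823232590614551319672048224515059665572602741225753257498776815944961922024273828729877760515291791366137832809564676371876117965209393398354687044246416493329744804477012907767598972218383944943129118176531406164871979024428679315364115134792756759473752246533845891460583842762279856829032470880521017211450098752859424310559141190288538193035622101139599506173915011399714070239696557883175191725635121034910893528645625744653432642473119368308839578532462610570541331786948643219115271894058174728808495949919845951685257101011356581033903103418679449417001014496150671481565184597919661519128927284625105391743189501180707517968082731725565663320882379597825482484883434633261764073598005810863799755982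198384453376003401006932869516318342238184703944112933314811563677556881002192087326176133284184611723776563110645955028301448372376900770560008940290295665643674065383404046425591297524932065419265155994293992027510514649164893199386235609170828062333666462021447228930236987311111289071070683685614425679749602458159330793564068279631167196843685930435822522508370958858489063379956402373050091300695760620056673559555443862119822669874485782243084307246979349463902666976595234834903585657058985186766544473902637058694689904327922482397894812972267648552703782807765218510348756377703423682648330853060702363057063103927630470086784248842766183075304508984613542081219154563383177737940320923761491059028095998208055697005514584277974888330616523643687981664655155041251907052657529021897754956756896325047772084223940351061160530542010922694151810853698620877614306968822504076511459770644066110529153932404419900719014084063662355577846125302934118409652571646784454765383090566086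565428120070312985951665774176690298702034983045385182763120377206245125628620625213231026091419872384255492682544200524251040131560280428904008143793521147356342920713571357449714647761624692990444502279672622097528576721279818619095809488467593074813482274342308606850565109990441746263635911882307086020139798162764233037300188213391260526206520259294542359300729257261682627023338775481535300759099053495799609692593958935512095598419834331999380490937717214680785192032902622981333480473024698505180856579068089324902425238641786391025942012264577235849340210313557469051267603228927661318586323928833198160910060967454373040196249278833022048882493949589817541625956918004247454896522166085719214140570937209346533306652186710732328019558830374914082670858478621776735045391458444025324421329234555536526584613876459314869705910336545384260812007185405110818234280813433085774196320677978810549561391137858519813414391307677428407227662742353315187393728098791647828356455395430193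576687168039521704678942675714363040047587537088050482105055520217494125118995095466039284035138441833312511312676703265062327775163511924926195006284832730383920505255088627050988840704327373123280357416329316864305112959610362243358556439857892659133996873798991136686620736527161292029213321274284005786778693823208041477978141126521266411311345867178437099507161001072205460560514345861609131916160526231220439147664689018640925913357700144890935079534539633297935464811173106444897836430225443441554359294437667802409984049165183508782323398705780969019205730413538798498291702299532929443193516803865160087424268831777226075441525379350493342700280085040682605990013960110367383561124783845112815706469915207594426721569535639592475178190664073417413658503071282604176083826829392930566835251663101167846168768200745654871146980994357827437594459977435518958557812783080777094752186737256765420977480066456381804920917859172171912151337651591308527643225981137687416590318170184091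428523627942094808850439803308323840447528894768625909860407743862611639719094693585204036751260234743207805795017105863741548342625105003323501878323467902803027245920055599633907400198580796508888173605290488912731085025448853272069217091963027877450100367961130943512436275916049269277430433702294871642004981178011291050090936381282828024850656955056334465827643696141981324809488025031123084276945188575082009536531000693530297841570105291177827810604551804995116116166527667422960581662948719913076539866424934313263777530026125427296412672622848771782431956638841864380460637487981400144285863601075361392632550535248685008991108973977895471813696648366555081070590524258476085686557727014166154655232050691320914373227064764241285021194180365417327708133567810431805840365570996183909778733609272745501929349106671652462271643067720220998380186433485670945222310780995750236920687068215692563060875026457562536563164634006271428742126630292657098165361442512619782626586304406142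047906867127487375275203092108992086616973384399935508568587199968986904531601583449021109763221515565061857651586441996313862597296177482249225960179469631311828302422772769360371814799334086419006799615804256481381502203658490702710002951613556512173686168282614809658079186645921793150542235431807747143501650270673324135041644262520447762717228726353436945389703996382887001003265325290682516824163939445088037494251536132177356054017646212889378648966516039913061714486445090725171611484845646710934480950781172201552889140408019375256439651117911331795521114153286879357245524360502390226824658373097603842680109049429778802619613447981794736722830715524556875618237685829947838856023266543672466310646522188259377807765478271918923419439392547900350721132362927747795618392225650004824997646216790014474955403410955887658147893631677673887118652349642239642721655943576803408483512728839772233632331187699075143691281465001337902430404067780778165786074709919001164345566922895833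414517834313443037931130870588027356278541268129709985097863442834336931522012549560275923262518583267100445776531946041035136127776418193111943083576273809713739709088669315010880226373909969894759597330686459675732392876396587903140845044671435434283743374349401789521806522647559951289798289351970823527338426979749568900381224107879758819883767020297244841656638077135305098187967378383538219547558708229155310075799305110817573754844263979810165404607677999061209165137094423288887286198737524504469896691618214081860860037317429170383485359956694428047856209778639411137047374396475359152739024137801124390709431129948228414836836815032483094949256198018324925578845499299229269494520564245080532941260688682210936400609394359302824935625081657863495066868088059432222943269335784265754228849838645323762051121391974850541729271596861805256374857924046871606760935456208606580450080447076344202718688621301251271270289446255875090895697554749823351616687272061795639212044564873947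662312431802179810783542873600610062308171113627499685303024172247559234183107349805765860926956427047258533950424647304931385581602472031843550863592350319439561333825328050090572975986019783202001640164318389461979703206188500909421945695817516123413821746299615880237787777675702289310846589712234283067539633038946214253415270773708511744251580899820120423682791901398579025838079692852640495411065122659610449605943007548208431912371711224826184583934809912747350301307254096333040528662953699480387761385815596833322018982224237370835553607103344222703978253006330616808875661337505405069572157838819741130521569229545337036905669560310393375859832780004922891532292290253240454879730222077497556882490360665461061214169639161350559306661900829904368924307158961375516479015034127212004082177741748271816305533913014625434435326683359826410183583159718567118547579589969565393075497117901534976721125730044455274565491269243124055186880841524081993872149224004944084234824846775556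528526103934632813098649223934407604053357073228277095949576267633327147867595738976831389315697807727223940030128862989589539488467263238864041323959187279300595609458058054813870619776989946045678889238923228221523429305425991365915760348926865968858498394200351460626980624709273897067757246840717053835170965103875357843665717598175589940291837491195505988609836015035764886373987355746271854697560820567626410345010924764141674994530100537632940928386350235245856687570398072256948431061965098919305974921521659418730774322682317101000099509551535176360302445735717473197785128918734601712870598814381260261903689036834889895043287245513441230135445712440494120846718801103616484669540965653082208397273309787463067869060807456720244915427174405780710641906578028372492341855274299961164556785351230064308029313905430498883279648731215566889887802536685374007789930658378616935249720176578763408081487119013887805425454726489368068137065105882883801565412520350823097966313652155534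424193911650009770067150850682818998587764308962034045165200411596593595720426657548982547274278363977051025393458418585199944995484759399418661447534099977268056379482368480276712484316220567521923919685928190717385889831628264719091401303780211276084099000246039019391992318762342251359245219881775985164331014218037283141997445808597585609279040851264293585803844932878737538235548518337928299799120215895400051119735225229563991535028378226025606171272374508413229254614411474775368376567963277712042607871009696453767844176758823815985875169610993370286843151780500866879161737410209044446903593472743007456288316562604958382301115337100342356060164519475608443327347732667827684388181549152790905006456008810993624480499654022181689382919069606206674339450665819918047271456922096749557527853612742477027294314172524964701856468158476329013809151076016349052573000419186413287840272774381397036181772068395996036308412419946283337958918034719318034092332440864622118399847865197849669066193039407677911859200)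

noncomputable def rc25 : Nat := (nat_lit 32813182418619233104338899222478723346078406921130791475961255676698311028633761280897828845814190947301624978960248587963171281763429521206900549469098449759193947968601534617344524384769481264823951173429275544462400538584381704083336287514589991475043236537068783100098107282680554051453781017250539424029588535664184424352001613010952403238464929911617740845008285118241569997672315899575075748900865940363369479175034179708352628590322447499396404527037491039335298508803174614143177617298162150939319822604054949015563310429819294357361806469633997683917316680552055541339359543876035810390417119612987768147711411116240860545454402465403602880158813420376817448983281409740019980033601275326478136992968625163538673378395527449312933966816891224047008368851892675096707724218644159346438578806186754612812621919774881352446822061328687567401913686790208586157430015592198165508239800476747626337015865360829892739392874986166639488283257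039071699357226682610588099872164432487365817243372884012301781273117162311379256543334353906633414430635546059173230458872627195118857817266876493584322995418664203351066722618353510744381724200272753085961792412584336050181184435852021930210304717841846762455402489685222189208971908404016383426040015933498728631607191489603891542848314454601454654313144916371962412247279769692866337124658403180869542574210177848541790277570148196669083347558930195810162121365771740815450112825755725383119770421583562867304877435231930123019136946512404791525017940772134026338524647642625390206681698615173391930984562624239068115516636753629210875417551007838291399414191591573313806526559133612839659322432579581352804229848876474702779970816414947368140847131440338648418105813640501022632926414218435013261454160446958396226240186376956843188737654238365940191395947962923770843417808250911377873112713671892956479778837761396380828054865460969241568611302569899142733230525884758747956769176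215226242542192166638700453566153777023082787463085110924212954995126095323651812201407203861210811863733968755632031933517807450118828593899648786400046399576325733831711064156444982636225381484526867802932637853875303194347119389875362961354499727394173462815836234912427458253166807257155045635797450307040624135673811810140901093322303493460231361953020371864981032036630254794488540772385358477426366351757149626982572618683844827825587936990611663922136570654959684919572289793331882313571672446341548696971230315427115470415558128889133853432154685163390626041818838303973684948511764111272711999122459607926567348429333068367958994266545423001669089516103861840982932136510055330284006876312579800223130100457914381762870055212306958052180507397836005293080934559738661083322920016533681845316817801809229185716915584488117533585031245803067473507709355809099248068310454879034293825714703480644199851626135399333405464560018356081553727089543129808938822354340759403775396896253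901841447377842368526604941949287425476635294967560417865471101341332960261635483575076099735098557411428821991653943490618740710046989441243499812648070193665682879218949336179216672714882711731253329889043266823607374121234041386247040126171152085937166840227349659288784195571058993451269153590788805344725051874968780163972684074174132929020906326141100601733743610774136090408540451080811563619609702998705444069986446886528787041331951444542208990418584808207450452491582545673002369016480342211029308807250550546712207936742108648493819040893782503433863393339161264591864621191736451639064751908501201378174766389465065921647277249099240252498092747630986841793173762163288441940100333634288688135859007982504109924745473578279841539928374938043980889101422669369850576823015830553223273965476869747381327527553527780091990887173054393179538917636615411132447849048864743908563784113794525662370902709358996424091391691757548499347614200787362328983486568853682497730372282339869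531408721367437473260309549157474255359162867398268518873435378087869349336396923909564349230060726226523514807905875787291824231120444773638135562075427292249993056431537278146998116198552769242976938310381879262188477395517221419589182587962176288619915702584960195516536598678021324293842262860168958558513021881828908789614722475498308565101164640771476783543329929674633006835615835771964292722600297517045439873433240533470801950220105193776211742251345135267907108166673663791233673253542434235028260718756270917710081698454528460700251497380458065394144336725568569809055105811163886379914917933792853587941703609355713910750065402357255744011728107994035996509843287717954697734614676628690805688426633926223949676262187546119974386587684029874144516796376776927529012747244383940244632506054802339242894195209871811319232384213751672692641727946396504985545420542186923891057058829728674493504585923395275524358158840593951541509117296097404388664009320724608622652823952601872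434034834404511363055449206110511366753168237464003580539335292079342893394065184948763803452537070713762984246686352124619073568396621074800421769770931555793840603496602337649070341592187739638014249971206572964864120527860745620727790650723946894359099608601561601717034458814567201761884309591473354580450874115761523856239801819883246413359433295059297392386094265303752545449056182783280314047308809635973511969169110499076580264424265088064787259052557956263668017661798144453618491780737165835227372009956486738713944233132692986303282010067557200174722944270478795430274426579934484997544629812123373340503245960767157033875253977300632765637426205277260943933308518833862308375803513160231123689442807179224784677677207566831336869331527194555383310260935424747254866188242548591853659539307233146229053146711565711470394438301732994701846270233412610621820490585585599096966977790328008969807130669086393998677092197612778105097699594763194556787100165942375511834720750627962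305787754745512668362924822403885694141526364675934953077689616430545665781785107657008477127814871123193502909808046373342715565996837444147792044348175241887842553703414404647911519421483135345107921267494874763175496753850232447284082124692568527550048607822727519774910451080217467540582670366382585571512401401317670114795334165691066193279059407423260592821731352921412180843700810439209177732058917695388454369474942356796621489132322452266879273547546308492414892390827031575735122275005535762303861318551714962610941264013632312207593555404967204920091921829607551272122538399067814599572158245517142275638821678691869436944398820545117137541555937688323400453074284424567604656743113063589283958638429293772677129665730299624861325759276357332163179690244677221725166673846069849965602992467795913303870306203757903542526702375410451058301644379705258947074962631868002336078118228988240858088120604133243204318496296478199929076135682410073950020067281552933698155878048670505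536040571589995665806970908947962027953306000007743308597216611964476903983891608633681576228372890540880543976803118341383388637070254635645715567439617494568692445265245697707916921087682758364827885940333368355924817228980298983933429495485095804991938148708912870284785823004594459697762887126136017246328374377816110308544650764698949433581475449827768379562205954807745822907174686113351357054980430873543629939788455585230421470247287241512949064247705839205016100002785176505820628894424211561165965287244990056805780780132103642034206228477694595534226833458096630508500011005711012321298733469057065464175643861370885420797742538348527642983348943434819814098897449004320433106889280655956731397637515442466902750959259722295806910901855572479691043460235150325698734659181563466949781985204304655288118397471774414948050094436726450940411321271527329180902124229213455994675399443991214388928147860909748459942660065057322721914254841987231855848150630388134214967341535009181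062448420265153513658309131713953145645723759116759313786146007969460306243623355224275216447098457332309589702496879950008753408588196527501651012835510410709015918556022203569759547783343952107249060012672263646415313777765740210220944836917400944338932689689319277873272183995393509000877496607399379127271939863211385510172506770116386271761671383692284106029689539081858841639249869600862461390605462300339378769380536595832900859942809604062675992772217870201349833697028384608360213896618474853653715546853732946195059551872944276167615624648508656612487881710250063362066866267497027964503271497005384678181369829265115978079259921461977892635063616944998612381842755883132295600358631365209456508011702803537841731631721997896292086323394520438824072041714219460442387567907732806707910999709505758111505748473492861887300321727140919630567244515089634943739769054402922972891764832182708657181944395630335141978706547597787121684479677659656665607042381202970027570112448606905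011409609844148376017408281820729189584405297479076112516620952900134828155018890958682462086887939617288821010123849735874912043159549029081981694702020291804520002491201417290204524638378344388291842918905056763025279973758781164129962820305162216809078348261491795640413361378003505328318072152410371833689746793683747750974327959409621667281014792007801624627706915124156407419230274932283751816519969429589580084743485942810921947899072933272465177896393212243562491889616905897729322204708823490126959451669945792090472897098454908491967377036953626880851465232803985846270968490044327125624070499265288603251285679265637199566373905682957401112748291548092231917930051132084814280321868223809475530303296610101251770890699870032970030620356117467728662764000476546140071884656566632552453643530440145736354551019426678555518219177135481955404538364635125216149351935344747044709270414669370253685084519165860356179207892496426802610452167648137812844117479625647159071914480024529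657978136932423684856204059043857385560049891746820760920594654400572246666619823068334859531823268875051657698967526291463338948937810135211746414055412498305083059516105025936555798454894319832046889462093977503995627782099744498977153524043528616081176864487616539164277745451917246510189415733689496379766696907357758359849712285698951127243166638651758687578793028776503781325596538599696453263765324424710224417942106202402215581322624718445846876355671132291613464936385135397784604957054495900861925836023046933787599559804991622907222534953336507415970941773192555609802989474336507212003993572560387553771327565776305325566136221278354851552587732254184182608746921166278067380723252620654998143049978948140536831575438286308216515766760312249066025664810858315008567751332637570574264035235600904042811431367096447550284261443346908482223330123660051398032087180580434250938274059616300569582276465741047946462470785813483592120069381379251605111564211621570289261367798699758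025158551211215685365679360199754268523123653366123070077415521894676123953109118529470756903679408471199282147499379626598749431570310501458511422007449088675202051959591245284621583340379425471617157170098171057780857473925711248766801826530636449717045678197204351707516697557831957414905404704824548787848480668175556679193465863862892203190684478591726241749540117804636124502471951715169002490601806349779342931397335393221293620250627236104040351339416371897717447374311415608376746423421730375459245316993450237222348638751089744330695931469566773394015024996490003308734795783798016197307904887059821323316435390832052530890675740284534649673729179014545098947727077996458431716155903921467747141492776440487343298988103972190538626543377826888488856202000535105510154877798602623850778317966314869930923145895112584644185829495326407493430301917410786813091084260285706236616215236641865426180117123464407743467736951450962975391301702391001891772857035120864854156228369451591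546554884240272018305738583025976616606684283286137830080965027036033911635555184538110027184060997271638672870964755710633956477825771109739035748897478281045865214964395172913798943288102192563683358694078973035806975161828682893258002651995034434718665273978755216351024606674404336766363026969439508061477212341777874211377713154016467959143247222568725176047712381873896133654271606782650866047191235699677925285127886253683584741449900967895913704218359259351547341322259117344964936495458052905340982667810056717616287924080569287260246006646635487928375372714112181995547738333363494522853122842000558672374417821101746478988218968905927538747328087893492207654287248775291294001913664660148776010339641431171876168552104680462181354774458196132265997836139481724379009515183691036434572740491668844242083148165892826033532697714141072321187130013517336592650031974774292195259073369464606231674249403069593195375142700851028674726637311933567416471423401324460575103409504127672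366748377430855160801588194032033621302973807449520163565072636502566807606834777611255294298186593899467755791340769196403681559327239531991897355447038773321091518540700527901211047421662065699931247921023367426003806468972739223481301486909251223332135096099869404739577554487176681081987605761824655053018694362439767893535759300811151447258963430137986837582208848635537645788246513821401280974732826072308548096114899867088272913108736395395030215503298732635396141704455796232202928641012009228424605753065559778186280364429267314955077508188469392036593551674136940717940619194497216273162041006315764426431436804774209053699638375667796348873995030188322475890603346535106156133533897813452589132710171671906772454912007667385106825151019190593212549873424904121165905183608988000861483124253919248665395150299190576445701483209156463975484971613162986639458032447119155899917334994717724686483841898603027646274690688675239491978049226125166043485264008145862410317521954581678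227146487657883385608217622851401546834498195842914592187231237340740405480558172042127497253173611522183615251896420956362159653463925193817057101762408832097701483212608040719116022156614413886523151351918262892162936211888001098205259428278634171470227801540603861577258491123730638360552209608061593098308168435547627778334269493883910115452489907478507213324963089569642913768644084153864294139088206992838663188295918425567610593101453900578089252600830204350265220249594650054166432859496378358434404775167755440232623210444273459203085672029987186932838921540636627314659991493400503351726665859371589581561594775376375010205191983994315162953656834781986271733488784518483195868451402473425077567562671898730486833904721158526478596549337411011234564762987009425370494790622695823319574051278545990422313916887610461871271484467065517811118797246989473837086987240591359245679446980727854827851733258289459293385554862234251621865881853970281621289068286948709881885997858116320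977101462078763044925980100166765658570548836297711436643337464862510638479129776405105695877325836029755532692146056989143057091618771785188998824482017473534791932272397532279921236918657642700153225674936267351336400894400580668267571471481001908083441090616842456413046894076273895185414143727077551660822032089878788098940304635326954530346022531239905924046573501197800445538145599485078835308112128317449309181526068292711429935488787521390396955564048875858531447391939657665807590843575342535336956363861900702716829963106765032526262439075270548379909863919867998743770739452752061162226834796385228683807632548743945617906267901372030536968615817602919135330720722624838563049855404051282836335718272476855379729096905573601459743290267044464071341912736968041090214036754732067924498447754360962941552501599317849381584804379405141897397647093226769691298575775350676487390092985042410694490593196070091415032073295799803125661710304271289860376141653320891862633175518225121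633830180470628023710282293503433577747140534385360260851903034003696489359373286990441067388100293768994033597224313075405469331091250921199572999969969803809689531775140264197621245321283762290475923894512656796857663317499832154884951340373890591110386716636703631819042576135293341990780631060123740611681426362582359487259097053189751269181507129801616901178419158519079987187778095828000208867905080217999435368822956583221349972597130093808845248077039290602267651142837895363041784208299097869282668261527435329299276001489631033737696634033364391637253062312559026584427900452055782842226380944443560492430592576826446059284931025635006602563829763507243515345474736756687940555266472352075284698844155593088635574140426655121458579179293963196449811499811983001549022126978804494720190665806208973299653113635615100215281555386952509431722813786637089999557519186860778019056052736773157665651769860464382632685616750939465123490449126576826303248779991266888261403409594447035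837076814385851589701178712004442652459374454070176693914223300016308007229807387257872697011035876252506565586203916797502025029003314494421874319910924781318246622980203589901233126039344542945724460629684789846008254172463301956015747892632918265653969852681744979905393981464881018379309697029215283148947792308834304488404367154416126503611071923394513104509026891640869208710629389820594488389596744333851232826201641874498529571299616894054226834026126709896436949196837874457482542246236548366844575680587614888050735860653741549688405996101275752439892424908018541002349573442432825826595362318180818858625958422924650238484660740925915468566316700092086477193266037226981024448506657862664686515154850445331119199377144478296462981358681218184791489569248353985728974277164797702550498979669573028960592019287117312727801393714507193957716175884023082955010300459895312581721246515733128897924235699579381740076622824556388104100693796277823680057959949086760345462515716880898848873920610334966647095296)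

noncomputable def rc26 : Nat := (nat_lit 32852522866304569009770551520541562651882767826961092936768922323222293595055634650365671664374852555331898120494773768179371410692886549573691866691759564446541096410294316223884712552052293175513060542870920899372532806459176441793021450505732112492738482895898425322541856230076570801893172712977041337785885805545470376038604801151306083881174421636124984596347185177971545034936661763392233956397922471213993351084628402342569912491164507034846629459061490533694934284153918778331000398418389249512604087302916360471898656540693074761996512371821412342866041630767376099393464028071959857100349234124149320619829473580201737411741332338812859309509019089858014995839326028694213014754993160459307010260229009789118810516674799413706392945696278020931011368310966491442273540026774056730637807116608264594414081940830411131351078349670762834736186886494113065678334586795215343030041723692249909379180234292094624036084587377005112294870040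731049090288613729911107659181647434217123940761249942488502856808245311132378586336472255948588718800570144927028195104413739366595540433922125365931842029285437898117395240652088498620687405147631693626205069578078082608206085149020019150448068033548706707257440398099294949975327423328904831862419638292572037538597141057633151576184961719201453153237668086942580574327456820093438193564309336334529140622101911188134935393755517732863957048350466821593919278483650896961895030013936884400934730331796664307887138195958209937201549166791042830550105236731784862532893463123196103601526379921025164951544430023525746405274944289080099831030841097029846793458721747574834293388708918431208613607559121834220944040230627925972859609674222326002025727667717584330872211791627945659782728320171960934827810619709247870184252544974394572313803592151011113480308215724915293918741685426966699175224386502839451283379988648018041651007889513743826605951793537584845062986993011373911349034490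670286610505561405755803723642777444133203727512462964052386095790722812574263398644116893387829263805234730443919238076622287045546103535286933380227868771353847512010331489083139769292613641291062112069179198714444239795461477415840957643490121242211358704484619420672415276150076742203401606151124794338018100036219688791697651293232257611745553851767477929733862718184276956727052156232311273686664919948666182823552692904061198402481042591573950937921731455787870566121516464231078546250649865319570641869619779095391918530114847783714108204175501986099662691797369403302764453422856480113492695758379034331393648965072809004318105266860779259607970334401833518675473501841841842034209496698447979207353874075517767261486061292069467866145068631385290682708213203662037522857240182798257874315836069560662590449255699103786188615387572906268701549260111939237458776049833077042986512944121264782072901804619594462777817590597673420843624217851977449223370827583011179969707934625768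333380166252926542803881774856122047817537268175735010244277665933228829419088851099136161778664056395582114184448935798268644294340513853308808605065867681470980587058758939362789547663190995890947670519832536950332488221613318073254960062559110660542402509564714274937925251737835158779407861622422196826026886382509028078547210037830367841861069050380041194963950521227260302452817899826661584308837481509061442241606929262237649105545524334153465490433831653346424089253178592964600832378183736480191639177861771212904492233547190059425229158863760685226695088197635192655614359678885908968344949212856067046623741151203400489483191963386390785091590881253483998097454697095751082326295863242866365543823402178604015852392455224163365171646695416348592910240918307733574768555089818931660271259179587013436615410325417290827350508030573708481452432398956234185142858574178706799098939616066937765451291244484384712151137252421288659054681886318520504996352675833570568428770816652625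322396884430267124801665745081469324476895184109430945387236075785345656697521577391821425506451412605590489593226992396057679250998167444588300624112005458454806157167285436200088414570289972068957915654108739281785846618527655749041609447155198784135224331866597005797420871759198567570259550906629589479208885156702607127929016954095482366815420351088363722482339593967692141790344227875902410146555031251117076759117363598427325268156976373280983946701528932516599494283769055996145377940429192576991677329012459335303110195149718635127439709497301816262500765388351752845888684300436858426955199467085237948377256028501953617962552709058021642897426772954980864194632677167899722898732097073479327113061012126502295950623506684975928980884696933798462590382626529168962776821022287595440265247082884391314952096443048339848803876469192304902006534217560790409153797514079207230750130697924245804269312160916425318697972151632333100561504785900031651838652146247512528819891991062282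514843858642257961633770079696014080256217662035219457130065907308522684408077833916946102243459514246373687199497188447599176243644429304962907786814556376162021932220055072149597359246029451901614323529980840317174152477318540420483645766574077768082587623213320082610542579816108792411844783349006238558947912996770235176756196877955877720445050490004632529186458276783201844832267675500719063014457300442116585585189693979708692778959704951527017895330713611486086339809961138805086303935929770167788701000066121254959377439415435295381377182705452388651114383301694058297739559926173132639254147822174956855149478530673786559803635828182972760232226717019646632839752797920285064456960185458523766215523087456731879512023153369328508833747945356016093205522721966563694400568723422608715002289717464408488920089252576373621628385382223568835992596833982283233837164593152265794217730614164117273374092108420254925823048343548941403849843683619783453841709769264280022832790750846270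935804359205023300282995837106678677156605942530711450910447299323935805319817616318010658840362572810938034827220849334852378491374054226094463522716533212956317339928558639077051196492973472087708517973321545626480497262122345389252979306033069050591794720442193222839576719534151048009483408620939281250802265144234771670154246582996454737513417985696293228230208149526897398532578294593137652654835194293272434805240106675072263704565471409889432117590204788368401011336252625960258493796966686978375490908900599988657427947633055955600636011093275361061943746215784324224113132612120780840393519889780572038621558892444105183306934504884123246106995732000238960898222987575253563003985385502146664427215495985967614114083570535762901129153490001464209737870592904676171856683844169311713371493660771660883805099308579645721308615078218050302448790457229182229654370143969789575079385443855478331704313815375646818278717588795429165435908991956097386188439418352815685321554745629469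664418395171412001371106506608140018699941213154042246334929476073952323665491104581180230758879998434803781686539969090610960726089358523723307284944124005292440388739915029268644889012599152622607966908952941741027140980551880075963955586548054287507118651400649979395660742698384608614744541584816917405748140830062214890905174835054012453211900951064676713020027518810693387841518907397571974421722575294057555211605091323050814908534386573740741928799247873990038606232500826359956900664936228491250336455227539485927417029891475410803244076581646032735690267468722623454177484887988742821112651558825425981696512798243506532860565733080757430022437662841654766010407960073957005573797758831587469408311215345485428348552863751382535955896246199559635705537798682254933694914199173327111967465562893038764768999109378907036512351582833482023089333845937900795852958516618030458954713842106637811542068490390224293983081184925202473524168062819777047095926818067919313884407196013852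879042122076257774871818783679691999687306478781521379907058051609654770793570865734024785612481536397501803029206314955438631167389613816927998988501804165261586883881160672850404654383675525324546560270825669954548017570288195277539560515013759373511595841002426788462004213376481338546172778383351521833754977441772105736096816500392257614168910658986040744896139449204242763482010887219885574960727066687416391243933944539708117637872532706595531390287547534623603728325333285442031037542351650445887376679430580561438872961814271427325994740794891208385300003041156101626462777386023105225302542989039536692769329910437249497994264236376443307302466220803804251192325936858396052023440183526149257997345474330484830871180429637949137535504086248993886039955856562072018047346390546428584854941221950892999206234565950304026515078218610661795767804555730852902637315664630510286307410474153538116985281646793378450154572828798745013347511412385457877530883033806981663177899672481000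168040052097655615459470958981215229804945717457531340657200561610190476756327272983548926082075161719781013709186333623908407257408542098845109833807889279776348115151776150172989350725263282539749445125981866622600811746659160404394417479174908708771155170371482880130234624959297923553867160152458090920924884137547432821840943262612839594109304328359164828509844726555494574310907831493347971524143834685229374238942074252676726882998693130496134004321821067448819675983761334830384878896745081005221445010939894565143939189823933054115465144975151893967297630406369885015462006464829434565695579370186626622907143913697763736256262319760170908176701273699065439124922451125280596859338294710936481413119321005701011708179000927947375525921585619285953417463117406525682100982160409592325282091019572527412300584508933502061179235416856467672546683417582954217220666267678100134215231643476314923242515155738244787099190263570830199378315378884759764429581294870794162631405280066803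308056748629199021321741023306899135765539400881113855240470031817033331825203334769730454547340196598654107143511556603135037225613147904300451939222154077048638557597342649818552797630071799297734984897314613100562692380482966499177204511996018371828295752672632414645448260236893595188240100829726054157331665075182804513490728816135869685402971994460673987971914547188371382529690542891025380476374466255963051308241636784321404188553183395162620374589926009620740666013805838070639114070241394017546063095658720651795509710090576145581975003065172585538201275257557698557224383667441491364577986603312176887240930905019807441608692727689775256538741117669989831916618957583065246791696202464748159353336000403014267192817529402599956447371473269677913416003100369138410221608421416821737681430415908083054505440336801309777481203965395204858593342472566366193101414737822450602658212433820323365427212588723511159374498481185651234807613550049680567927419936185523986366379139383459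435304483983171400715008716987411176953183523375853733196039145177314715674794316391411518316626648740600965148397328379859116060300050459939810061322614597802222583181498015278478807750364090111481399759745258858890492021082848296162983913179382002902565686556510758470488791347306120212632913940225114682727086273240147192855104613561953143465571247667679132724532226444156100056431552067751504848071248391473880217561445900052006552573371414927977867981071244584425655610251226724649606884721425528403676240138767739937001396405799599681039640387870711060008359240211645335141434622662460418074815231201105463203384895755038593027373915356006993171587184500364436710349472581402941990212064776217953922362636778544237057844775381030152805457806729743859662253215176479756176166054842451056393722867922736843183358194907238266794599186637536838467630164036462563676196628665259584529811185768846211158306126982884453319676377757456532667081548929464589911062727172625457962613674782413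345862197805029897788696360602048046510720528858124729110790550006311273736349335206387203765505906921182932042347704622769502822392174940877442510151480140380003862690960649891531023188872733585358895553000396140940423612415607251242753049321781134530879521356337460689673646249166869997726495288063057800354502798003934903181409182572352730668132268560932042416165691337513902045101396719585264935707370879579031453969445508493921948014242489171193986112845277155038160078081813587755011962057179814429823521921025728650598686779010725333931343308032008577698286945621973932796495483614153491720607711311825119977480827014868982806409080601071781005406016211338381566615220262951917639055374922940919046970748610032011611001274137685315082467929557980440725021144515285871995085734097959225867196324293533459199250070683776757259468840269352476397922236590681312783423320267912735030938585739738604143142440577063284046742443576311325723342847365032833073434768723887197110830521274879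517593867626359632786139147138535302201578479329391338173134842556063848981931000218276848640769417195626545417244787715442679302700543120743853396152944794546933914321349196743199150492307782174413532970573535927250783531053248056021400639688609615796161507562055163600381621945549237128399109800591787342217645542371998368537147953954819510000966201987847912189605259658341957066555884970362954443210946344544796831876593574660368108316487370169218320037271753471692277387896426132181603376178623600312576324254056396015560324771105139565146887078370695028372898704211046194343910324242972394812876902039116110084340517744991899314379113144476109212598061503758284511277215354444111447412241345081798189768822816799519037398631251202167818384153339564804229507842271162823107979431743446945864151922760579950065119959641815794477632927801410281613424125269078291992161589115126901923565408566129152584532389722900581151731018620779848300799037104113895446672464742868502211969261979235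170425148761294151153167419331378492145976941653642671770004490500317524768211839681878702852903063063474950198783190835645748557621917190149438118429750638832457407840485774475272152969714032590065240857933619418368234178714375232881677567715879612923460234400378161772390718703027295570511917136021683366432969111696084614686173600588796361321443231834269785454878828405681263685304055375287316900038946817746715982248498596222035109870824283384847994963655273752930850408555543883434955827053294669352903293223768571706450978635153996568134416590416922705802707438116815149301682597755047903332944302596356066294215361816717423448283403119947304810699277840197083779237414063150413560799811042364778025118456747671651530035329280489030946513717832586264965342407476329026194115452644076788043312347064998942296475607615576283504861040301722590761588405828113246977040876144785284297655217495206672694499088819889282407973966586730567826494416079699942190993756716678471990759743362158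849170923946250548462271686127924467500886405511326745220542092630599402774925592799408703716469823316285847726009924791967314436607124199889460016010259477040999419871902907058590526709792419872857346851329854590077217548978641584212017563101722221903937594545377527425068002692601314815588764436952576102162327236740112440886282339520453640420311608465589033217741320787512177634809248002685916660357453301679320211255934309378610783337734293724938689705144629192407371391059099144335240987727551437620480241914742684329821399224839809533907066951876581733276567216725317225731275081885242583720760418683996463078981579796275320522573472200918333904464086408024625187604372639478445716281987426449339459610059695133273696174250614627541930859409021161734306566956314813426297790324198384483139765072403156512315829704924000826611542738939419161714635454937548388265355676160634928301105903777413966543202689777938863397641717583924324422426887086658129099844403373317692465829139085884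667791746889202107600424865307024340259787162688669509266573142122622025876767093534827251103079007714534220146295003602416948332524547218744861016886590179558018864085936262597123455939217685503157458536261608347498202496362808395321785952686103726735768813572704408588479099817832259280721175419142800897000590054877693094495759602677478431713678096590787712466281506547834077200387025169542245624586562545206745838935474534081349126862790606355231949400145852133638682139313945620983983403493194325028383072235093834743420979100646428656109564130974683934118413613920281580511904933299386077962562488734483942454613241760183798810192901247637677626753305580389670302850788282390131658594292968106944865861854581949933670264535937890481337617195198712686770549771483146059622935939851434037974680753932942301728922435829725645328219633381894947406729436748339192694631203441752136477451616483131062553053618560171496182102686050043862266639442502623283449770219679000430033091285585409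614378177282902890790969892471632553609434220166158850893380391590660525778239258784477932991387303828362768677833197292030513639370839828414100061836103020050044132276785198052327508193441986512648295506357921461622624613253201619147444058646166916317189024850809493366795245777699732925358077243809414731325214300618674746796479673866550339921640562420010711783005475219960614515200742932531425429232123926516889814449334457606843170555981771050413141172687223451729719249214534990312146943973759000952244120717093486305511761272132216870288559406024269722064619428768597343483662407820136564665060797752965447639928815971189140651003696219706592264957179463319904671350348491862148104086410637757480819068199407231947701536146672393156116683793855532525692990392370333488525553482937010447089796123290263313408162016621491618628599468160117142151581015619561379575023895276760282635869452656767913915783857655673821195709566768752821701480897824627790632646572921726060578603973734775631207486166628244949827584)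

noncomputable def rc27 : Nat := (nat_lit 32891392599966443168259456184928491643669551763610172120517194377181525984085412585750904326662195031513908290237996653905512465148677394489216461079780675297825794688409558349680571684986506428689210732352931800156482491007396637436708938180387171783871159577782293052693649607506696358580810678076943251516086150483053688559014316545049488497724332913754390290173745923555497555615586244268981898343592155187157201556924774149295015626126943941485415364020941690814154946378342714354956425665238534040394531146169600872310899789916263138063283798111571709137190106283553114592981640140108394811450556073264674864534326372758312058359419943059047903523884420209841244862941148268600080948264617588160736112706689746791941157461207976637523317209288663814256203968602795123553827319824916331106658366937872604142876263872345146374725599796885318527322567218506268554059795710418797086805108266365430751489666841248021319599783524043372661441637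652821679812313778127542498051214952467268591157974428889792714397678941095501816779111639858072104923900037475337526961628641768327507854650905066691030379329766641426241679851345487162242205251015259388015688666201915858218123491265131098857907657925237453279641252527816177357969400955913008192706880418787943707036627565432593433878519631418861563450792168882533317748951705827562621168279328943280555521231560316322832059141708677226137074098043325699784032476465437573809364524132884532780745529358309894752206610251191384342830579857872062671980812016119700073356053361522544007420266221192189548663918275552373044127373228828056747489523361838627711048915246413350065773441892685375654191090870621310878603954072176722308979543137467394649731926857435745746538676697277901638541340220986548656435360721155656340068686548383842093293094062384170810137702383304375167297136963704265995077608322999074070335973504607116880810530172535796847940097959593627235868524694360885836266523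043724666498068049577000920699545205126901651256493523346766699809079785929730537111277708262929846050035281994234052272577322855274867477582756631604626211824189599402592515475533716203341181455256307994023263837052220355702502356821368531015649463053085017721632023002946551755444788394469726285401515445386211288017567302449881085112246129087026336796713201428573798736345217627617993638002151333131903044122325221700395802767522817677895153050560407475587096600630981538266114602151499967314901509480950846202947092288522930928411421022285646904505590617376889376718309351423535906335415034677689261509639940762833616733659549968678104795254236333615716007870815760796256419076317903642065056057560454194468472646796848766881731306771561990974490166700693278140615156107731616670829172813919728949313070645836376251525423586376233204331368799688385792018294414310684513155941353951723642538621061756630393288636981938497361418865803157222899260064069589158592950844153247460996267109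398404319461502096396066691690211726117945698170749876622184002085322695981801081725810027599084613705854052788763300685251229806564159076801844024899815238593343611248648242220063613346675876110074094064247555391777199451244774520342808283397633996566810097439204833743034125706410512422517050800237017360546876395553573485898423462426953103764627661506459638560844181239980587101081681748816411546073235312634512921892039126529552270538251809908619587915674700394741718377032149562193792434085815016317057217350482207953868589228436069425752902613300209348825604136567122771824327973250284451332254570133342580680290105944333250528737541602014913955888275064298351276630509281324970633179982519120338533554645528922904061606759267983352835492085439454767811525792315742319475737888527924531983519711396923203886469979629834493766912234976076727653585129387557106616362381282718672954259425410991321209768193074609098472164292322335256573782952720537023118855727075064711202511914095218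573537641696288124588369068162814598158937364170267680179646468687552808833175439360718600663627996217728861864456049159846322588874067802559975754422792153265833470426114993523636235899879886648090881953756854116241178872979655781936275178354689131043177768788436418179774217249873123064517179193932709656193792093438933974772667455136850520569585879666081941240733610098759464305288213608743616100970635138074694777928741232576432193620099991288411726608306827976514030958607854621094050790832606264448814662494062657680069120861360559679046586340507226891762405619406062483146117509316395152349934414547527219568246317509912469827955700684496480327813755637092920471455436527039613925579558859328251770786882277997076228919202177277284185051997565296862314053178427196043324377030348048388252652074713084039665316236600997714359641912956438313188695704030116350223529954815046329357478506873959297323626837413913019912810667254576388651068764479542614538347198119018487783896514652210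183771696079133293897842898042834817891039856581330200642579455544563578643223016024666922955186208150472759178505385300337076347658498896127717748102752125962055373513072164071354263522599113444880322798975781797507397846110942743100506729087198843257989982702533104057502729735976405228550489705862616873494380520881776908189246974636683468864846871645926620468852209634558800829666417764979928719890591322084949454821778845831587856207634665012619403497168701729845447540386912730916261577783072504338055960296650225837944287821646799683941422078727943357198454059054045924879732437133173425334927522002051196981246130432467822077415921721159119269612264860679023242019565371136775407522379954391134603198820487225837979877365969374111759104974200721422475329466064557848578552122007048222188844262534743780720513433136163462528330570051646802771190496251452672324219983280375553300400996333419969967227810697229658283059068169714153867168674981343321756878387534981311244806772384605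178023550581472245511154899751349117154237455007859511804832424356980407372097810174134096562680562041727084524459892372150208965948565418217127471674535913780875304212445023757731846946991860625116020697094147982647399869619512529810873348539077487919641437879176327984868774191148460724851564455118749208983753572302960007318183440878982130379664858721121405597371529080493553172659918132857382524627457542634536798718199424489422864748486381254632749376970759964949418059132833442876560673066228292304194856174893505229346390969510662303011847433181863342748998179213413256292437131458049078171779284340469947531553321371640119328239863876945325333750074398453415658784844470991033806500418669120928727013599734602258423740778771851028258520031115521709732563497163670967010664100768520484662410426688452430134305954713696207087487725621003827393569704485593901486232642498032387373490023600857801594205252996968265248478104570607726292104076591977853613598545901014392355455141453309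141080590086002699040817673435721275958403468607752802923730909805884942727950147750860876822571521489792636822613530492724353335151056048385264540806564125947463466729919783991738995004424531634151407597793554096513423612422907699054245142561479050028802845314426583329173440983925645898289440512697512211835379423060028521688850865406355033499906933396033527202142707484254368131403348670791916417709795203775387780424268225073649299112655583418170021783096637957738085246313145948602867348076185283294937061264707120166397270397428003469277551996814191040128268366823043827613982199743915875609873720427289689943354997466785706541693673117566104984806228613001526541451563347859629032252932107906163866611709785167315859195202026290583952222336951612361351935279280155585866805360659265786165797529069334364325794745998839896709149275141328341139116029198804917047973088083586542579348417834988789169153964927508851164642232281475092670588027314511074036377972772594753338373746201539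456094509568223796453519864861730742334875402458067725069154309893954027855303845758313050608231123606109866431122717419408792166596317163194450194479368483088993457751485822460464768743382680530318573921793599391423491035779390621747969114339614534820230614861332252800961723268379833353211300292729472414150965510642416282921249505734613733105352303678649087762768580581386070388112660228462059867363777765322561555122555469116966791144102016194919927487159509524368941696514453383448616577033891182645497416138620802896158618506270220795995504605280005019135028999163850764607583914818896600432565858554514213513906964114977286204946839993499162821059182244121391258058359787118932579447010874354488437579196916760881529595488360764702510342934526548582408161345122891982888847973716201658534102934961197285219236312052791446132649519450684560628950724173163127634474767792733257939439757342335178631178523442835360631992717267250456158753959096065298351671653683167899405800681669365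621923463099815641802595504748130980651686962406246671144546352558204820879984175038248351218998876571933747285415735192314645686665896342072293833089186429126117572201008417551069941048923518406268771709505264497453787468771743152599063193343943578119188012408312904549922645265744635677572316445579156905069501913681319334557329228470728351214175456511969101742699971888830997130096657955835348034960729884746318157635063214128390678916057246313302977138627725952197989204121483916686408230437368496253167662746096885388932617198080883816839685344533021089841792387766296672910516701093089810776545947571512005221310900154265527408025449498704143382131768876619208832470617083686202907437001244315976012744713139351930334381169558893106740494027150054539356728853632348749624482274932625672313089816502760765942768949483574518095965995997958123372447354693970835688252914510326688314452449138721353164956498552053322597028600883779067013652215711965763054782794376219183135555651746816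257642817037732238292120117438388153545000532877979332938371682833129342718284126586030496411167300873597850085172064855195112485780499582236274028759519211667105557247338593292163855288513500984358632321735415161799570465830418645442433156781590754695642985384661405190825519861751935001873948045916686629829752581052351899974331083719798405090975409824728410159403720939826763082335988802134163771257078582174518686439327157165729427745761142041392485741631113061352111621344605617336833406822756058476017612460564747409999971978294093161714985237013726623055118980020792605774449841191271703178062389188133858813616279974843863658262020937719848819391185012362282506938690303271052098951615604693116169282334769749638562026056462117442067344788840274258742126006913212301715487288517935836176270430032272097808024447056057020041012692896638361871872786194367444630255006334859064011769906717077994768322368592415090352423066187500363472851617882257978708727992254979278193449806531510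370365016055657020250848240785308452397651090329959544990628294157001376278603537757258321981823194635768805082723165221916084264626673670242223533153083085945789906388506182090640100970465354352778235712220523061764143781961724115872060544750925381709761360503594196093242017996517144823147916622018680297961323232740303564029052821040426592718133711791734459463396477118138381487863461030120592647165696840391056894314336758163156867978502814491110640810356496794548805875820617321457695213761870427167873083417426719589926812927252240793413951261776578796866417912722972427705216524298763544987131271433895713782089421045639358759214290607103783916817148510359536951115683574387849461335937133331285248871219047622901712074879233939421048068804899542190694671659395343962834536672806671238096207347795922389566588551388001879563309711143280386579494528679097507283768672065182042206528740762484501645093686056270816567847844003113814161782339583540179585975866029797677721398807158747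764166412824147273816234606038154057249719783466454352417993526511665047327036128388497522661974454957932133107696409294938122592320280420335636882156218356787587367655584930704977727962164785286477340171766436564701897111573162209214267681982736787659265553381289526784652579460341354009063941972192114070334665517232877522032454836134034091626892280049512580299191933101353204837404010293862762292366292901833142994659242231264829013093320394615478460322528402956423545444590484516956095066779976960338730561047980061343336012365103828540861010570850784702307798825130720901734198413385557840179928706120367280182370815304632359958287646308077647673478491181362489558098812588935719903827476887581920748043458649779577051457548167992871091342496080852100092191689315143194384145194677269191090107343352325789432013099410678751760317211608796231620769171384239052125132522766222396644562465916022422553583354343164558568113665378176963382655130622650207333703114146505981818134070425288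176097162751074850021226664613228826121248618452545446688365332928762019657487314993715145204298378515828943961378855459438670150965763346298684087267980622415550860893619897870616310113765634194017136505680381576972321225932634362377756132073873311204636052999881396833358501091378727747685622379343061736767910876898860225681788428260959151102229168689453150972930859293422252472544729353875104658415408608879691863726605344839033287383219288809425451024354043112191034524838409082714418506520365937855283008271401511363475364543277013512849474351743897718775257630812762607461004912614019807166584788055572449304218380396854208019603197137270732018786795384955255268390860076432591580767422045752721338315611494204056983351659772219743542752550519807105073911043606851209829430133533068071142104448323047471993888486692601872776329784203283731017045247212141794809584938256664098995038612694027726708254233900075063370150613397925391283677332787067378588817409539309559419840170913260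922557096960168126208323429899942708476908133248950664582037766214733593841303430326742401046608323706533017605715291113521518117139065847342900704881513334223897648078825607796008086557028747658450412100742419463900504757737773261708082681268712996280226871382028098435546051605319685739345166833569692419561057068957066260395775877822166214349586133852405949377019696744269656222270683832411537825346383409142979892208847896119135538287126759838459788344090674367953414122826506112425594377964200362900779335059345243638580243903030484546372064566068028616810972170875923030619485022832429052176932014539316549399338140991647104361938496430872121365893727261296664723725664185500457715191946529833174378832558085907107616490219530954497680986724703685681917031802797211140371191048254025625086807456384451593148460509484254484043959107702318400147631090791005920339914878369111866396479862359319378614126882270050485849635896992984506664228939599086068299599747743023285989722079026510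026380000658436720828597647964977399681337122739823821549938552111376555149169800332338697922648076831146735623764057357396519296723437948054911934885863473076700472574633171799875997052465563293687375526284317702091270273474655653365577684831091748811655295001497588036073649041642123238967875339701100631986545985468825172415648255082376943473678323305920842954312002060521771430997595949100361634127988248060648388103042789532622994357276483418008815093372467668364518920637948526687196319840760109256227083088883793358244909236465451985744747299538697901033072863293455943105230346441312470466394146943988615456996275040889517853961035329684262093666570054835941419614160690816588465343633928506798217401950550136047388876926847155007015211296029580021411729974281528725302794667977544887831462324782718501966726577140825404352872429525490568240106328460863479394471821696203290629189519111690766307431978589813594147322777364966415833529588005252453910639249423107282920552391128519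070965306223633291822602390672616755889998621629256255357048980779235820352372226176254407800708283165888401468401755440803512053955645715903679692441786922635340459503152199911323441725484300704531611201730989672357084129847251588784011494173988532659731253894217649758014540198511194427201805390686273998967134840140397556336776624620336555079343709408087468178458162437509295094795853469318112840743252280064052376393470587125343559178414757400956899841203269937226648775779485310255250595332268379889954460479361765013849940902576706848228168508177104891253687875966476560861210768159222135566082182282409439529579470834915387559397264392008110158008146232657781642094187431725952371572151732879504298946800967286698053040267305852416560892378110411497757487180338670864627819953783423409834235185285073208348139723470524474268445673633733490110091263337540810211432494657068870966059501814875868685261424014276691414882888315230730331791915902114171890821321294236754630239748451954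980387858526524472072323343542263673253778298677165330060177173471954972897890780995991425110601961281315252738679965650041170541476702141081794173139354239151639347961177817162611860908853287158790348363690690212705087473488706134824810078948586175498020045656164512919672861884727237565637357058474415786660033855528710669231849589405827356556446167660504981692276975973136076441542848950003688987725945721939328701913375389620602817813862444347409401896011076324201282148854586874879612343868244546104850040509120963420145378525490328311507828730476445352148669763262494697774715954040365497995052678243786917442476533144601716797413595160325546812648919117237695673062362345234659220620582165583249468360601831617869166726520248129555591748202274484557302344011775078163599171188613794325886379596019565830852409288539449831416234624260865027987876495957700719399625248196444433544727684906951042328338833891154634348240758495302437710440265206036582308754764697366619308291479373417267072682581487149838761984)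

noncomputable def rc28 : Nat := (nat_lit 32929796936915396320290160220811876354998757198282150519488842261638504478837004322813750273975593265695070253657332353369691448113350450326341422212214001403547255620085373807357691512459926037101109922466486658462353312032927062607025931776715364529141396624922172117888446040685858359200169623688395072321830099765893421446697253289509131031971911283976232557148637164665203927214946618111501138046367358475070549972376399280984969657666433376464098412414562590471559501899667376712328172188580745853878480673336366148891206926937437869470473172127360490502753827679532434706724621607267184828630648912806684618712168271054040187400371055771823953380712829308538034167209877623705560345621762679976007967474705480310797340427159106034156614442845318985107616801539694548484909696314483701037109117176480733677979255956251814849663108739940805050745371968819139371336418835775867253423672701305681912475512826691465636830671980908905456800826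050664001465605125678686321831250741627937428037411895528347366557093594135262895099749087750008405813555519291107367881766906567107324131007690577021280953799456823913154721605973017645469075743247453145348309187914565943857259250611912361110531383759792946245947379046992062039851967812963354759713166141965598332035489722870421251509709044564043542616705628412973735910815611730130403916548491435238144454983272005309823658225841954810025162831807487939892946125497934717019296151873980827912285400573888854185481202776943853171773835340929227369508687530875007251642087020362349710858231438242857034182510391555359475639388065179817260958040862087834449018996325540392669810525664189915535472398423574088180159822428516572878013401493236119901081421797340358885999934217454695331414165436039780989337564406324204732610339402054174864726423574682708046066985707359856566874172690079806836937343026020943636163151790949223058658525541455989023389114088925537830259147761642668319018163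751565467512441681241077376753842051422854432401813832487793287848657027250223476812478463460123754090360682221421585841546000766328278420722738159803839317613022282128564348936491918957443272565996527313519849829986206664941508501386751689173297677612452415764643719164782823924252363057657024705599407772955584887233826630462715113279594753858933178961367888883738805358213640533728458471717501220084889315662076225584853678489295038467485419648068086879420374635142533599160637806047500047609230474659425222760695281411868375009721566116658933645891590957134338319643383227199182066170192841759741610543294855206803432541418187060028569817787401587670631322529847442413625735441451055102645510927755815458497598664972919769042464792951435564029984247972235357878967868780245762535993766270579761081111237889308336202218196265199030764895481741055887746843399971820817590481651257137640995293278308429616594915100148435661520219841913289963880856156234446205600495626134170514532133371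782119537646289309262469584303468908244274483941128719528064107498643537114336016544527484441473742105429543654946589143986797014665181310993354905259614773963968189275181979315301067848664485583123114756528314709936242369558997836352826219139603781002700522291021167031105595845394087858430871196622907767739406814722152142755323451021243914888149269586201764385009465585759017574792087355171915557951954270881841360268529633316641342022023901049530507171186730671133586986641839772071211523315082561172375648192766117976267924683682835561348681802660495373157358353711677476152832270839115056848355574509199860931163756261758283031734968793718105487642786506379039378924969578553620712042397463215253570579444914728864469423798483237785178293015317374623208920642377239196764964482505061762958194342530383982326138373798742333034013398603581068284362951938896577308178139428687363796504054661452409104130303571303827957026819235876496570795183068927347557095965977365000504212263406493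783553530161291681960138209487483239815136908057795253869243485742048141152822162720605573017225085198095692396456785802493611101157986374938436500578663783415636375358224250480159953719026190669213085688865893305711745058311327993944011986264011450349421445945295803325766685355642753156875063155908567539303719597173224175553690598685285595877315151263836185031641525832479415463734204834312696488402982543759336964957259060552595798281268067435588577382782767166074710138314020839260974662251052585294545701193315670110081788071886725233507487377398481523660158713706192042487388788982043374111735638245888287915298260763996654273088208651070495187302462530807774157652277116979708715435746672080933646055503130505071379786745786286844129403575142748942344130078657489691651662345142821332462420509301619230905640517962389754664234522978615683693592828703794531620519942952658953449641755018756399378647511119654871359071563681169004568938012357898783586116890311562267977523232742451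546520630481044116277471683072268513538419036406003158288865639210821467547682521041379321692813701427092465024024738612323676689214436012880937755077960465585016815176495875025463313543506699019642257271346979803089412595763171241840148664903511437099235716054100628173171831120468494401682671833681952802206260168430257115115289835442668270080253111093358099839375236504001689392366537638459525908458181207582451054042029703653185108358271009754913320562497001513477099404513056609832061726879205588160244192307444864839209270827566269247132897955942072581175195435994939681185992039403397827331022557532667399645656962758686440671491329444614799225414785031461148219786235194668155941094585592581629354621339730754453481960602082102623414880780399924156755053029557613563951011563014676164112827818114527263824469495032770692429634796081209329245903621289420575328405537938194766627390329313554711929324390390703764102808727387987410259035600448555871794543410646588216497345282692339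443891298627060147580407636916108035345456600734573325578240654031590438698785352673609771969012150723074066239434234955814530068544364197146983505122602498393901156731720588125558584165882857335286988797663491283506776054462713648418493780791285921916452298279140994386597312835660582535101850910774847171882364171746453723427845096280644985933630731619885419944184161952417466197930493136344735599102066179013451956096331668675551749157027843899624189356683632883863437565191272572250003423872481306160526113278216561890640095093511337005538515006314466036071369667588297275071711575126426497079249745436497424998971222510762900564826734810856729131936605142229828847777892789993596569932008554239318375134049586194462502050161515687144664571554465038269127108612059969825233269303664285356695757674429839576803539072907723780923787303059471967799784511413881128853106593585304675130480629582911803968429256821143866365555408663720885106922592945554969640317255272109743056003808480924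978668989295748774174133514518816259011077842439552219904765487300339738733268635481327769414220180281286095758278748929623877330883258108630314680234112459812478754610089398702080667844866345391651684402493367736285277505222519980910146507331013259055814900897053455671447238023425849396452306330818767548381301801047031649122085218779917133905906761506067682181680053841225428197601606437702310507660934314588545461277328942410799598024440827263516064193700920755873143840660254193743223956118664491615409778371599922141642140693875870925852373802462555105338750179711295306128909277817818658860187031576045261415233657891805366106608801463817045604800540669532762100352455701634717824782491125145378478492000430202360003899696649528109134463318565363145646865143278100932242097180386538645422690174025300023187617582085385109639330234868511747555824041560309208625815582655623276864629804064083796302452451068442455969789019318136128260787015983618836328096019882744204120683681164390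300846635206015632594598743721712910493450279127740948693487327990246900939978811482589973182489008274681024366672232543149050019485367340919916885269157826231687449454039443530260024046128825446641001725981695596498603933805524873809942960673680462820235634716124606657147536614857996232416624357159396727577975004039956999846444490257886307173389330466771838867659429755854842434405743513265310223151305078322957636862537805580817151530735502594923596039803077322561416339184607821742395723401061769594405715945393150435321809384449341198402104491059832681748744309816210308647703919160601750836463193520814808281826213766624648681197809219045293126892908040117147267427661813683557078750258810446622198748253559245057026628469922962227028879136769627922382864349522669387023410171388529731846061522518226766860765293519851846620545277989299635422572786066297080861914861891519978137309886726137860380499495622488366420291083923949543042620487047685423113322517947951313066486624876648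704859242324677306175298490684446896464920032019460699932748875516008370254693849762933190214870845738616708511080667027341299374658484645916423962556508685652111058803227300055323921228009407802515740975909146998337851100358067155377756001752740886546863987141519797039013851191859232442942041562120752246974428897617104631947820226184667704973166437931196245441221249634701018502667050394619160669744268526183311225147550462181230840950554535312241104805993706317377996350456053227031491604183973179457952182956172715283304283714279561643732830053662012231670468533833520064168461139682027284184040031797199957781750805531486488382008804907155670344498562391083386771108629141021136973970118979538762620732232593558850473347856648841152900098808480829740958630278277155363166850787185465293520799030632202862115494492310524635157300286441181758825289272830081158354397617392164541026309611881689244448623718452075450097028784927411717889484023999923038290225694985293344940872984383953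415053226237825326159306002169597966176302351049033612285309770981783140241488460082321232920428097895959761189824380660203707202030432378055073357817269609580215512697175930781928164062436889439574174385653385342676287965853875611909736069346611027677965868389163030150890939377812503888975096733217877620252592306980565322873271929617223552020371471632769709271560345044221391669248357116264115812793216032871255938687151452834693570037982435457798010008620279014103963037615505199940472065153429577379081410226493663530797419050814281899119356169410297346767719423736743948214896123418160608025277123085630285294890920979394672397187651176199875001540713145300000579057890870515153705441167963952397951231848444889215836545573228427805764447546695359620821554112230724199600249764861927784371811656873821743348807787942915020795506167775548334537647763139525888621405185810471837627593083924156834352232286745133859097150048360280701019736767559147536007337639522903159331722793937022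710536120697759527079013062557572876657245927799906926979200406699791202473214614551726783693877513959217688326079402318263943149105749597360165859302786792944752015906663461261195351880909618039885403817896013520542471767624440680636441737844491068207375375285646171333498138531827159025063008624243795958896831006397729350625477093465494451778389622505236700239031872424574459211856508761315132979081344773315939385221730956638893405994654877688610709186165841505685799505571472076299078764091443192862410239186579625498027105073293216432941526924459972974705948130529415750810698306018865467303522217671696545370978345854107719827341884648338402756679181186337399516366964160549718497138640348045370734280730324232407446306790394909996106621509653940054455822864871618544425769190482029839489198577166691165833276325785218081636888995848439394173883730923739046896760049559223712071356219792270846960139210426350188242698517233793093238111127531233388768975119085315612650926444654784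403826593249417939858498263500802073256639338804762296280812277156150341601768894481955339522022719924067292642049957356471316232517779039056731540487857388892464947156206688530251370626044026848384479712409845130585234561313248473572726814912980945757966931497194511056961334581360286666445191621913329450519275674962583241557051812026101593465305270311807892698413964484927524120916177391359227394005408044105839948569600202154661681494592189863553435357747301866584424149580846252375603713530690246581653984503429520654070135003920700905948673512128841170266357965922202160745002750623460258464766665731899363793409867664074480775299925372779210473040131674403427634196781767151634254797607259537404361537315569135294649352650083172484935118611633584686666000312151363684421023221184896610305895868864154940112144002310327030472305809246986029798643256711207550016524016331016551142124554892410907494803978540080904602780203947933656162538034016282337089138962293004715844839975595510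126516700367375721717063527662231287483723092695690967786261663866513320791825276341642503019243024078374381807504653753962840386113916642033553063634359869332005386117256815202256778750075394783685869095014830919884452536584428889879155269216299445583466765841090808837027923217162438243296745274215802479825149008648736921229211815121116547836766893117993183052338915354756682778869756634210388981076158156730933817857649451143110345952546561327094006643693372251040368192293456215757996046324522301774470906764246819522923711592220116288412381512602603085500144142621547583757774524447286654627506629961950957061009114585997594128485888447624022939918523111973470197115758655200083780123438267523148953800367718007166327998909205687157592073566363517004516641057456249891399292814017324172878424678038703782961673262114198691257235362689725997743067764444919436963829148516845445007985302041084499604072353883497155761921449672052242773919823944214266776779266254803502848923862139862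500299577754917561184833562941430755361819448572871653616865655243247412424267281943300045953735919257177611616990356441755967713503780938757512461338965807035146635843415610741711672777604181551028238105676066093169809654698560222314205369089116806117500684161706151187766715644152218611788340748020727149491293748508230595047943994888877941386027743317108188005598761765004705116037066601969400579978265375042553152326755777005678503057967666988551231868404279428889501867201310694138367807821776988285579582155677813673685335989119491951440933151794703892113186575552956408852787939460306644342720030514831448077159998611696858453097026436916705655134124057816291339552074153930338182391605857792979834318409504113764559018285178820349784755736321038581969346828161338575499333239083728700122701808829201029286783144185705016882378870631775971226004894457292644857196846628103889332387837890685826467755368759721844787454637204665691267783470416532082082043007138944762314253007065421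851685527683644029831926604187004648447179065060434141222898714566270162186839049342227318265888273862521075355711553130204591360942604064440369843934996907428901573606774120153347966092731408892329965896084381554411617094499395838991483575697548869297188727622361402249335535029196703900564180734624809888181156575022167016003305570226952033146243398203542905255361575890096566372627932789723368213794218899786495278471657858554833582449132491706287515614046323222746007790951884614141441840294785024232803756261293857111793633264708358083254117261229938198965639013559782659124716685934679574722298909107132496675379992628842198425150516542919544235696246746724935390734622654952089059235740512918655709485682625111150965119468491950353086139555247400334168893169545848362438318250443861371081292723381505571077919210038879270242212957673427255521144997195044594994217356938628646075160120416543814542216233004110803250888103823699227907657534524434079126536808952852873397708819780253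312706835019996869801860159460200302720582154626336685673302248417567856792114766212867450385685109591336327294564188081461387692767065829959733139203703433014568112275637794854374748222290417029738167875107719674063477066001878064149859696872746875126553497656352302817852240908601315655013703118396239473377196984464326276988186558326001009986107806597718701895162134667492255099354925593936866980151834658032421262774229555905397774408577431186309040678156202927571134604942054937026084698084632181469849712632798716914343812824748660978495924551406222790904348276942959202264969007586287142799206592204561062766565570153596367608167362344089252390721323017199924260042620780081360932637797145952937869559985804642141086442386609634731705207712676309191034290159894898540451733579615065908590226787993769473486248566282058414553669499047842505720563052841856270199396588461694401786391655572051177061791622602024840376337674740425263582386648111728873955654024839490672222785037384372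207617158728586187268260992806893496089276089137219227483821046276152252932950450282455998435870154009216443872377315649648825681619566539398562026319730745532714737480155212339621188878631975892091957059231072315299201128349480239525081202915758302697037796945255713070843847139467124023775965213672717449091580084895559615331024208736379042845868554856277320515406201431170505177602909049353712425753429900684778626364331361572558585036427122957593447748478426321227512356573562096471477079130975126101575778291147689986872397053445397509518217305741733464794586496717508366400410448478947094703393694374375776690422054046059527897562555776672998073886398496185236089049582394977743210507350088471065058163740892313872730574733742959361568548531105103725067899862316660530097548328454235160465651838681180309951421673060533190302635695834604339011571712125286990484758808950876644352374280581871982290362224241000895369819971003597114933939939693024544927208120392031755407641036037260290879299533331192503861248)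

noncomputable def rc29 : Nat := (nat_lit 32967740782671600775011279920390112644912739509725566538984662402547134730146098891948004270849626623023849234962822919702870048130892874993813667450498539367262640901460563094492490757671142086619735944355626436459307175844575335372186089299322179398415627263630069100327587542805136907189343448815073910458143615957614280694278066284333485929108990809141256237459024410315168185296181537361431388292839049728234269575269833180093669299659385883534606770245384166543264596745974269418826971899644835360300915509235105092822344787894267320870649112936677245399415677815002639518456703629665751244906616042457765830317692768874827667987813419369607466700542001127132407586699890862683655871847432953789918617094151193930218855763421981042354609883749452733886733980297210752572652942073695318670862589711229879390350472343220840128419914342156464011147412118006912188449757612898044868377729707350545137239402868146555893298647347456887861081646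245173539847830219119825841329646876491865771016444278183503856701464791102905551998261847892109671872785365711395790823156803634622002387903279651208337956991225992182325621705428842965246159344636038791123416850439826060585645951807786320801273109748481133604944541087720102565804884025123896827571246290719356775664738901726023713218518268300801479887176331661845526910183513385590507561095175055596500069194328963953374594574222236189608849710045267295713471717693739118808012606412308040368616183842026550392042157379353054323570687267672856994732231479253204163904108004125472417787126006094865800449457687511665236606058072743897345697740567295071225478013458530035760472929894153127645579218489649880705265909571346125600115718292037184139346513078387347925798102620933601427467024703154241397657406310371519527195417307793400882014976069760457477655743875734943639452051541687959952207402431459629697169090934819206651957899961034119504372389778772954832864003813518958866374343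800373952467301584306973452820627661862519713007341583489458479319054306028700183243823596294904899209081910671551512780239527846609022232415247687221191285438510740792089298360886284460148042682637545297202603918161637435365428352649603914917065074878044926638281900163200497621442432948008354372892940215490630351368016425899781022792266535923361921896262372955608375635835582790606581930142264548767484013696154745038597134867689482801956967077376853140007020408806433856845707291139710569231803005947047976311266078893289908237558268631796411314259102526951680467532935330260574337895278700089230019977252966605573138389519391215367276288945011574447474599585452497060278369078325569478557293716198966221149131412050956117149727424998630448269028291330012636280870976050355206096071789680060346675984188440172499185576256840715924363232324298423624301662739150900416618758076472516059175679624011745366312555283615844095382011239374291817784542258255499014563016024312749244829360871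255288780898637106056981091169619199933708947600616380596369261900899490319161689124611964066023080839672300164998608837516890243358230235453028735694333753274590868440439395698662271758582720136958368245440407916745134209495542413611456881546627821420528175826830366925634803594244345124711616087812974451863525311970337084563754793668433952217540590347214883920078337812236436407868995484254457865400222298984132918841398525883650532837077144981168144484110896869393652042697626706088045527547925411731181270208251160365005801111197341135915971233351496984693763767469814031866929990604957420546456326152893402888155281255190466110733101430328741686699661362232329412093651778004364312575775447386168898017040773512529716712031530826022481848037551246561470862705270806603705887282587914355885011031433999095691705285957020183566180661532079067430807170815145611246059463883405442033733356748523741867485126840136710876806223892129284264596800095511233319691160310684893845767532890931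024985168012567192595145512331085515478864838169193285460597536241625508045513814487794253279662965355695135836234747368027404091566088351281655785246877783139238059446152382636357478762228099611944516751866660771129535076833557059531913032440118721364875577040788372442616740681387717057495201110712062131461584197992110754147850381785324874645412897067522891866440353409826319476406673905345448228894598952517548227263268958897502001405460346950345833362717802818739720620933200516820274419870684665107488193214662080853462559337378313502143719992932087944069134883000366113784383692637138071228696800289584032909046187716430143254065788387240852867872904298338442974247469570571834460001663685787975828375360353040792896425548122942688053832273540859761380817799756676151113704962198424678944349408039100421409427998688798035681267908725143565104651353479311065578575807275675959023472549045906537262503986475204663005778488937444039866316041339716634421918292252940333833260040432960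678346319934032044059068150327334446598666358701128288191069599605210169819200131774999421640247173521536195478852957361179457425542484177159859318892183129066584048819743123999938130738686509849699392406576875097658797127187116880278738616446168194498475537491187083650408999396351596302651513976200079809640411947529757062020308284362013635716102383694280927741690743289532481260993652636908953333262906020179708589614791939634722843139546767102844080822936662571247028330235714533661884650921174847752586634972317481132588800538367016259382555409509031241865642842779329537360291500902256355607928527834172767290068010902051556824521415943610999427823586521704060832646558285991881629301351458405697252371069130638626577980890182765304983929527658339625540856354849593411479345694706938415813303780903342939426183674854174383937406404757562732612561516200904944426671775716446432428454402530767322703669825508364580608143040309083591622676980898140711823080580936465291557482648721048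156015215165897344371696312799208028508028718356648575132455787071685035224427054508680272012933868741339018043093396666314112250164270621122445627955594295932260595194279454477465885905636734537160823332580144961608289959490819294169813562641498085506438149851421626351298456339126399924993684312760852585234153661505935843037890334171765772216274911318664855879939250097902429128071991886180513652772045382917599210198263012610834584623574104118693365742590985805919762387184166917408600648081440943456994700391621051222281062727171046226776542032091234888308628240836464611753492880254100901355401776560877412779254441933146748627234655956443769160464923711362354849480538187923373583904356902882438201138469329952555652904898391814763895171797251925455083036680236046329336593483384369459117481269805988513296850774533046221818183802823625350592346772153525625328600087148968349860950789794247875781183139679703493180643238690761811391371459477676694149475889222892543536318262737051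096613243105163700238935553384631917770716456450484162920703309093500822041503330756599423351178891500158825173615768133911107038726083672850923695174872655777336008410046454826318298053572437522361756746594139001504640049183908652872008606814617756381674798344873269461359508017227536716090791803339395471409119405560058028096959789245256642745366337577233302247140856743032348658921116720060068421685631209922959937043945732501496494738336706522530747753263750435721431113670043213838981277407149914122049219113072070004158027257697433301860253996915460719250788527617695780626694071930982695520132310569297553246811520684543933072863313741309868503654986014072415447829132033691890051013883486444532970831741423682914020295609616237832820758823043186013209179359902185768580115963216058855688588659231924729217962080018772068585028922858991588176940618678060111819766864715128793764101042091446548339049502685016120527609619653987973854094500203020083362410175342940256743669037596075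706932785953458242724470682971428968250554422046655721152761617439624478670459864628851054213116367506157522419253510209499945333623144168092422381766339122010182946193277489380022346923131495466509941528143835099821809020323838404967861121356857687339878992845572280911500253508509590196952174585799460965722818445886152050984763324035283734826855304623932551166721809558819950827779798933335533568352656730121941752167231442574256348935805205244106482672368682844842742683431722648980017472202255182281358991322086550220968139411261822740532921712742080506547052562759319178899926417187185091073394028637165632510222698620117706494447212653233953378032748560291204231408788529342610184045317666061215460303379018721101077635192183146003414761556774534802363705682604685041286223636797667409427100759117902977906971559989439350587888959099101469134322071054504548277043618333439221651853483106346319634303239593841621628979123807710801178487549287657243294377287651098490837160181733590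970918722191975671052723576497685688610749785483354593655783831987654988670733213811612829667454930616997883214354603455674653223629084843211644464311098270190999692445382753734119405884870174675743037400562186068945493289295964446601868433778955577479423613511284208360075413373849024874060961644587298396561645391966985642369770900011287457038665462074684080324578380455752356355533781549246897358194495375511486274706448511709196291599953592860155946328206435122288980729344267711882975895188365815894693282367114677247514773834607410128327940993183377008052490631389409584390184951835589017075427842336836209962502801326484232283773254953687990958172208570911591877441486257838395350700932640227468597308514079957703025072009105028461369686063435250166662841389057585762621971246589699155873091373576199886714296201636914478150652146035132513115914218656291078752198291742017829440742338041987902463889434215641935597515410306687261479114273794464781308241546822428163099948382221407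983211855104491330331915369955238176892115314292895932712999436238488004472093385413022387861377200001478089541821841096136216665398804324657057876906877473528075967950853948085871896861835455786604763286216517118688273895366047968926804433200163742944192351077653564403649656864584852631670911097003827759078838212759459146062758012847485458954925288741638736932399723490441014555419545090129388977960800860725828566161460541483225267585938405422020611012360203717033839870588425671528172144021173167871952317746988421221152115572742845373070125622525337790386558009011788788285360751746432225667847869426353257651471132490822950440400322768786876099916769225495822575699677758476514352425278772369327613338866797330417031106286867087087386384293173546993659378882101211164521838097177343836269946397233176816627888316694713152267401711696752774303788302162856621317074250441501769458536789606583209282161123940923779473395365623868078574476491706269587537806286747782517300697697315943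735626730264052753634774854943333209518688805559849537280507583152953466791447741652356964714241062667607575191457819662672178763886018836800307864961573326174710421388022418510545632756148284008232424740309819615235347109665973379747445746313088266991696711015058447166260881936847481350510896423366472449274078805048296159500907273972729765416570184378574390736828996068918833339782298253441227285910961497278821900438673372965128077133249637822977423632309866080461846847952080018772638312561329736059995251777255935923535787518499051140614050184417146851568999884779032096050042058845465459478062373291161863521371770619755032690521224409523952674122329463052824770324129519428149594663156137885248659117961466707081574881089753885121990132962510064152400979364969598172036932925389308580148929994611008972546265498902371033804862020187084380083994191126631543294226074433300885299959578944795146579164277344712743462570069929592420846408119884947975713765974352021600217152055304105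167973500169940790038390776907270762700308034066906465262944274090927478275680696800703052533574297269657365904049450562318870960580214957449041759568026100015632471411240454278584644439775864233784773367117302665091744645199260044816878612577762539287158337931194947713045703093341683459904862778948957983918608372971218911843895803784005324606842556940298140560773483823974649800977607296795014062852638989258024081888333255382431622173530093585655626652843497461772324288578932744920692801048562830424565682691054700901722834026015512508686552055842289398352182148011892616080658347596145428024493262926610557026459797719051443541157159356309707170425519990813822265365720131315545582549027912572744340451682993358755422992633727735383136388436375785035805234791469351070296365149870220489291915709931972848343041144601034044942998288771585549640366659024486039333114103439362775384018057754883591291762431576906965488120161113753387368220300489714366230260339077075201192270752430339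308565706446287517084953939929668206821339643169375693362392907672687932480327508642945945764792590922359129675514446917837701527722064410968612065088259304851173097908152123349618966830454040588308655946991414800651873756088616364007649563408953897223609135558149552145385447880709200457819344537938894213633809786890143304688985819874114086958632581051073809737559426217759975209690895906655847573882867532424087318721642007144700495933966047013410711519117981165969056016583731199707567892611679827761048176914035931902332048437730370393557577706687618692759254397357110727988916804933092602736424362235928168306284241429467426198910201544090582967863961640094422903253364947825141091195253795841319798684195930641179481234368794426092720964969824276719335457162891332882987289941912251496023007859911516972622975603712678781395187767273428698081803955506652294935304258922544471384923860347634705270054176490784097391887612959120832550064378181377017326472786214874962824151749621067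906880716244720994190405646170192672525175316348809552205812431353895643297777397092200152488781362054428340056137044602635827029848754700707843041293799841093057992912954657255190069721277884583586097587873690789080394438869722054263707936397680303943214869321288291146529208325990163031038667217094115989722033855126987276870372723655014926107424947551621272370115325348882726995563051936748898675307956607824212139062990587969336242091799425823834094589398074102573745535991810520438822771345135823737386999326773515853417427069803806545437163322410427825961411939066378124435427814873492730305563235423339926397446962496878372783326799465452699101967271940810644873968894824464724013089415155582564568485507448102109692059823264528856209492602708550600214222533805602511383630707170199991453944383545057383023429825248826096206645975130847309280894042074982007427823207548509173208346750564511486911367597309084103956752635198919119375485187628091345707040914008708581769597697980022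024052323010769088974807508616473746887225952920251782917698655562981976123733274536947080285381165313342124668114350274869374552494688594878851180643840817935173085273629860493506019416859549440766799517529329523339040786377207234416461275014517454445547281568740721524636944360697072626086677406398107353791884937186073447878270973016888054354007288331268747259928373659972082125533642660113358426453281116430457027686141432777657617734072546890648523089164787970691787450681745526051446577621875042798669108565817710558028938081634693766500582271386011425633709804590040389354560287022576101439701261370674953071308091108327820757355002180990335692027888727778770627309525114398581145580044069296611568636442279325764092929044215414015395019547218015923128223082404064692568315239850358061772588325783859882288318754492415104591725566055255186987577426496518488879133233647332383756203264863297190112627248542035821501716918268209283144602059857304647315353820987451822444674768000320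286587729561536247648761716575733201757469944573604584654658491142324009601869998715729173172601907197496952936141589868744827382192095327483667449466159427317436493066354126657804849952183771174142074442239725995347875475805042514399836102225183250698729242475162081187116473245011364177064759869913838686353366824440660073312794590199970724346322473481270874753807409290195098391306221917345773287553373079120509049148008156823166739495712242222814762919507133321058793259060252248893473989648950099876714170127849363832591410604996457523916802777162114583357600809187069266448939539376788300797943269993529917933253439919874353961229602576573925757179547706664549220834027657376458143698652885189118522576609247315652317117977435152627558080855020658353334863400123727324393292913898319119766239232223924065616503078578980657364682941331317195225035868494714095619114076512162582566883580006481915860551627381978576508457518853867503222756059052962254140956519352298039842149295795531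744764335104885527476810099376053327956935326041772859415707155862220049278105211775315246644268321715730246237556236611906633870640273596108912650124429369044709679207095664923428551325430772009702229037932544996494555634680147566085026675722460073357791605383090811132748707996640565218903244560164247621457455816519383485640329326708037984191110535063014992914146277763245295318626659548598749877574314342310909326461053261755308896877761361582924965754208836137995293678344150781485278147011452707993777593565492045278982529266679299733083713327165220668328669245725432420741290097130953464099706761679950408460589874978458144828481480695113708987662716503967640360108208358886492400640572101887067420639552151020964144839081897604035014470305561687259959674179343413921348004752621051712117925714879854872192942169329310921872825110960611538825758150857073559353541629031358224347396495965279505417979258883846215315976774700780319292620833963662529192379182087440098873706889797573896002434551931989850587136)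

noncomputable def rc30 : Nat := (nat_lit 33005227147958007559023800606118233375344940366580970863748571125667238245837443469195356128340642165585778722836407381258029319366416776598520259048473900953148756097211132561147974586537519382089746941618550436798893320640192182651546829167927436777761364893421241109018726071307889161614424034219167498675240274436349991644525199562628576414895275608015697763579210301634380262769673007057669202635025923387747084566833313066974962378886757838209999021992681688003562391499725035314315454245861039748912884583273925642908151659499228639632854599292547147408119604479214003249452505250757248421104279195995852228298582534046539637580960184412452779146923358916990987462125727270010629627542432529398062172839851086120654146931441110831642750722745322036238135989753075421878506230386341506954875078125058761633701631550077180846791737085052378824395668506201315458105686860986115760976744342867357186811144489320611064585775042837954243094655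692860105061146840100311714503060629942465863591425026041847720134270114829233195366689148419318990674614289103988729124181232774805419649611810077041131576731743372461178923384957596170655975583921045865603100471475445652171209886506193014107638820330762670450002221286676270601489800980410248560457384483956267801480477646939592089015924612063363186398762186580981327619559886130163680086105346941981078437992732106484800026956448875035640901842772748523941174114285558114133353446156896686513801846161477749551062031780237789459222124916703010945453680653843972909401753727432488461295128160877428493402628617944884270123298911423026850528485045019452597837657409324769919836838527959585759503995035098964751649432906765374967086991141910104791291129239266190907238259498716052884297049047157360636662362081750058197555443053377410935143884950871993416532103330373450359311607623998803697120378528174209492932567839172131893371058894275014927995292924772482338857894044333937421144530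089563623462949902641248101170545905971428272036440928939177972359589952052183908062572861278235532593013065984661430517409350595458035321743703981681401535569009142325298531578499539577032764910363330953225764337689946176132971402035239196643806723558177363350952717509897559522761806767630689729299287273086868446185039152579032479772869309127120891836255633563909356072564536813110683267446201259007622173771037606264491108566741896114055189803258596549126799749598626511375496717867205825886796408592193718014528370504839642981498240835655594719244298612840672542880493826566170533773496345403232844938238741688262577448077968609284771207712391040018359171061792517910543229801338962339800339839967106363725517151665405592380861384099744206932225014755151381050970354738087252539606281306376992497864357001820566577286150541900430476504559741102897371706182806883351551640068664853236232814304498813705331733778775911112290646535552291416975443645041438271238987284684124951005622583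192991708751797315971974564161430703393703400280520919621943166379033321414877538189333972717894353645607332823217156614539222695112833036498007366248144215705580246132275587123996859108442386846774614090416070113904481446548746872303120709638683424966869834225764125777381107795467427462062118392503605357753071534327050183011128346455651873331660053933227787509283685369797582368803460577226573286328846614835401669690773771238888501109647609681057431861645513497832097656411277062517334779242417033800772623842361734722522942979482131285589188362795241401114916585417565021139512595560413046906316637992760371317830932189427294830502370741723142155005781987003482874561464687946708373599242400782861639634050567022188686033134149699933666982880004405465955184727794224403214830790519255320603508841518442346204728750593266766041378233950184319761850303932278503246052587022340459407115252444535072608098647160673167467712426551549846297713714430753999682329187014021549771459900574361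999876596730210133791580944632475105859853601293486780095964842343333406846853713357418081430912868730316894483608512733208377088229418343023821936273806570695405641710768828051667486794733210262854314944131793234119078965810473390050554959873961803913721769156540549750725560331086148672077158056994655782734131640341350991263991893358916054756621737229150431812001938458795780902582187843865473671227548920972465770219579839785192224294746260488447892681768810774743715672554606818774062954011692864611604825707311231055771974876094430534118460177361053836047813539605814463366529951265493060370022736077495222017801698269191873012251504634301762157442269306513192390653714875132133611564450051586608938985859592120012556973607519708667817892233068041768246833952757270898316453852598811684337045581903910887858393543812239361606324488540699004557440150319227123545447227999458150856656268029099105592599268186890123021775447824136367255541978443380971172632299558433517512442321371684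445953517481672662395151050297233853136107906212226600529024722623639117934643335972080873717301750399727952786223177167133706514798959094686634316042594989557987852672639638877953262208475820441125586771992191579516893178211415215800458597438469569620084442304757376747880314516197456297337058389093044270492226867759204269844767997366103738457989879043815964676576289255867154519136803487903753096381549448989581626003548720916679712541461974475763298202010366540358931777637121623317773441558711289676369961716985601279652416970710427127106475326723777668637907697267023166977497081045383366483356721809609878833027263770912694223716528301707321408793101638831687927152998604848865876256279508277409157824208237586157798865711498272580742620969245445497329036329556048839978427734308613133105774267744929275558533964106703015510867702152095655936118459270791527339164377957005886960573520499283236322253962148679857691985429976742113216061653120555778059400698934672634327697922618225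397351013176606961597774507565053818504671306003239079272434383287503142380467822574075866418291012689849505261603872451219270998646617417621682175893628368660320972257640752604063021482434207207613144358276013942163807640716380663884936497112805916893991692437681990014974588748286321018679739132495851584114306480831231354025457081101628305730042972518280853098268123285695145559570590905468435678715067209413487228940604084398575081556260832133730842303481530334498645964938854481997393568658616730989091971701958755648234493941387372711248361926090043833472872476669137176104096619272222356021393133403750444854761347835769000643252539940802689894655477656708646692004067919895323583893061037689220202913350130508440700913263933899104448344341065727429113657750982672887200356037229873713321770938723937640377847745119296931600638204015462064765602122976217586038022082747354330758510412931919084405248499654975196543412696834978775245653110327811248723374948837562245288429348853543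903028396058744110048240512245362703259834138938164803281151193645831023899193071741864736395927922551503799270616689945554257951497508675949529528436067401559821195658274453937547992944265037144785408217216582392174424451709344798271292762960036237363378290972197891184730516148804678927187816765905896879676972225109951512162196261321692669086163118222776361743702482623698289701952057711182555753464751082193101809269213553416992556472097871188442790251095152057673194407218871631200354569073350492282211420732342005957441799797814141935694900684417000435280162380602631851668260295379890776509248629365187698137040782644257562027237010880480965154655092304173038890011874858310353012813432400469417016182571175119712412155917834480131909182882953439331443222098786673380715149194559082751212329318757739493932303310965360802679213885959041836943548630475967181090298455239355304723937187409898664861286942777938731008567985019734489357346057896791459101761224113910623140474551595311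106934359069971428613664311194511831623293153482702622984993310576298134422607412136851385856314063951999729909804224298272971216340111966689412568051686652044874247203494938320170300953887632136890731454992784098312235663734188084061971184398577556530257455524549673056419280188398963767555956587641528705451671310567934143467410671084465776363995315850919738908270151206061672556859470500787228665412990262775584034014910806658131952444915945345575468387597863766197957062839099268127142223396468282422665756420751800167846790924404794792613822838408194719551546160953688198678314467594016713127373472004990053601153720835424804676406679234106486705586688252668232463735352010567983016374312795601503908834453660092471785080562804887342969300055917441318218628740195250521475760970965571629259544532460885538003641768968303899990226816656046783461734934882535939872545576391947786462092828042302299635953341643893710694587396199660670520381672426705848487886537511352207713664858367132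566058144210394089561869721068708186695370136214727697373479591245103755971521079218451966259230427991192105491312456450400938186748784458916007552403008217560230514402372434172203195882161573631695025586948561821036477208746371839854183389487440294819086719737970519137706415411258326443837245676386069025728844979351163184019134000312403723967839266129202461043866114113376221272354962850268254865772560772907691912057460965449457214222570087450259300679874614231705573093122324729824438604362913341854382182433306975696848134930268243557963190985384640248252358760863728348345917059085961941057019924613012860415332717067329966437544515790056733118403573210765377717164357559202004472816741088054018008639335334759801188566015603215722133494125990464728537528402608321925444550575927455851383911567316421438887373571523264326382574787926563681312755573017805884094932606405788030798981526531215777803027164785285143905740935533544477452209044228080697131407312068414694771982574448296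399143810042057990013825493037119832589774935601063381008391389545207610775584883092235255457146152893179778992620218519366745625770144114605044444905547711340843942987215000853680442469769948607119049475791034704209541333865730409730581296270891258061537134609523863530053187130962797597728559709487716997955473655322845510789515207813938896688065173105001395691425530105698957802226997366325948190405272663945663330859547875254651117460152462413355417204036697451058421173344453403898339600207371575510430727781711380697290599941259511675453456642885241100548462948680634158872126221632428555259158549315108489880927626434373546191268099358644337905995517354395200788869164893299039109178107239487561715523732952859424405241961537154454018985285265790081406932602734841488005612246450621799571171729646779164155934567550722435102678389947215001682750618968337963993360563876771465614882550698357517513904091568512761887949079169991360916127449212862687264308444276970159698091668809650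854826285443790019313146559326272585842313253182475129120328881540335139131502864957158031862353714565554893405678756003316567555446585683260286217488898737387992736206255080145293971523747200954724190282158437531955988239434145526231834130280786209934506008996344587587930727148697023823267488772083425058994813222671575595636822152734659229643061503847610369063721483384714266037038900040731680304401493095926387366065787091268960394474270368969757324977639429569474013995274045363665664808251424340871560646898284422350407528772077869260642949888668713883047055060422535971170421138594635217521729929509588349250703922492462738658863067011194640643470407026719201419695646308126017074910985736263542483060843860080213728019922226143181581908965852631319987510544913878742303987031376068325679656706741262427510919854695149336127228073856912669369148756774860805198491369305505672391915161366810294519310533799719969658539903141285531676684869013795905208928049819781558722321920355938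691467854738239685832641760674062054372262490292982669437560981016140775166080159706436620525469667051635906599037698401136025578553831266963081243145343063852289281165419560669185646023550464533743510944420223321956229816345607602493967620059521844917046266711279881333818188077316263721492771371955837152412643358860236509529554072126386502530241682253432970125522885534753193246993911678513312054148469434881091364192091943674176776841367781425209935669502513458623530432505004622762347439674623039578760391847893029186251289507249526522344116532896094779060645303500304306109783976100072419702842619484362587020357902846064712354076216920554121071797462722474452205938334456639740861764708627151883638940219235694166405321717337994870307342058756631484079868763946183414657698465592068958822514905482387850161225935799162589981308677204176911635973398974449971946504642258762464853799926378150648812613594245608892784437261306243370192301672985452456789169745974406805157935432183841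465761301376094358252491691736171679102484723489059731003190770774048054839276819923101190761176270770648613948607763204380409533711441167346369016681561480445928183002103744832317098369790453901332532019265878065475376166544258470945769150390612227632895985706156890178243220504244786764283280740980114668495818720660608978155235859406111847707073309029702748857538495676838527666403709657063322226336940649238011528034056121094916293333922411397977856019734073738044202945372341618071810861505268645573417847814400502376930978209996394712170458151771975361067236826023399012071528036464350723989460054595619002226334538381852300002529777520754832343257708296092630640392895696259977058198314583129289469690312769356834536673830945720647119121150995175487963012397878473814685060252676158827510758401181205629294154957718926929578100111232028871298471958038826532031950915476864466924583661257014580110390388665225289264280759255224680917279422045254884796855891802048220362128266876204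951428509271481322524450098528820287034696710712848887203139328926205722654141282979904643844451895702238361512363202610515764623113057394548828033951992206700479516767587958325353023468721737790939866346683000379294710204352917343267945338827823877138418399158936853743476763623571619692246397736419804308360162844372848140761103686337728101761093802734719006115902469119847567475148200051764139832824323583028278365029110111290711655963195577987277508244148900552327821540406741873933172141141593001262345832519566683033201308799881713868430689521448613246272886014603791673426119209854446172068459319627261064915834562154427642524343661293235661166223059134883242409366391113420373093755395161832173974495231349084571943135675941868664404642288504669960728611979972300505882739408132927449912218653197031319934554342123881152642311353284976066281498699628463707898082816063733845249626684963893847620518412187160687311984205085507694241039179947508737416770743621938193151040820871373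481695973904197148815550824593200645564226576419696012829761117576206001529739802772643751515493410336584967680561785756408554290464535587770823076725787621454367528068313732909739912051108007930770621608883797995575456653336077771357859920755663140946102693377440088306698139365855816066816600393944092432234410662565671041905523244614584851704587067002428034798836339543078661413661333276951350232291046944135860924237349270345019970364229650557163308090203300920474626542183831819193835013089831040429572632346926422469542228104116274993323095365342513961206144782973559649117924256088478383763659742676674562116925965305367368846502184216748082530491808946217137941427278677920977979507168508921514149140784036562060949663068533856652402998003893619892957372738341544114286200803936617822384656331666768091388023228693712989124941535920557419598615090649197712496572609871250690937340300155790926611854080527793937332239149751893867805195850890998296890656367947556814563945588699873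688032313270405758081074425292342297505371543617028175927497260508944056813872713612688413715417441771403454071541732559320174376823680701251392945098788842829147595121659114474335819309576528043423696953976781729827730764981171725925097137664467764803361022258074930955236644968811413599670280712644982440360329557933873333010750778681893414801751959059182442120245625025952353648182215526548186115940306702815349991983893253946590274161998271445904356572201878988221432413452325542819894901524045616481454070572098402785412289459141673029945524384767148199527457509620417921438066897221336328337064902177204280527436198363188653091182080148967639245975885026553684978302330265415208503451513465622141339235854591843248693619654900251325004593997092183527753564752765048065777294384155071496282114280840402993499971860414978284217011675819367103933755631595842090230287438277089300743984563782787855712553509788460039724430970788394073968682018872186526539812692457408920922393045867857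504025482045506414424364208949829362956202714907888880494113424979759857587779391736545574814894335837262902678613051640022310830785199296081870157703850692588254302673509848807971668698721386374695931280950480334276577479345254527597002411647246926439472819522335795708154078314644453204536979876928109611323670055188711206773826246850881168499461656915798275224741915513465549146488172489441855129373705830787892131215440333910848474941015978188895218904682676475188524990224949381573061038108426306051899857902506413883034036106392980061004607831712533837936316486403684108809574508291692585285063206018102732158047688090917139054254438656216611113654309073347178037786371257326342334662790372655340448803947108665160783134193385886057656571769941114231992119402617492363031205918174125986863012922228448692383902579477363468850347374267773474931785371967259786534491584538721392286403796769463625215330239259187483814744797849059210651064578592383444799390338379108381325441179221407452166268891051859795509248)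

noncomputable def rc31 : Nat := (nat_lit 33042259989047768862103503267520092028782463014031372855782491594640311817743143696015719386136556348579529512153522089111171796393813304903533649240443415991485550812158618110324285074689893531787938049939530870820909032481439777480959144760392130762159277381791770282612176775799841858180266487170580423567283013455303284814534721669560709545448586828304576515459746869171264696541779645246646783114600430913926634989384550269551442139927039318200937403204426757855091049304158100995553816490095909823689721310675865122081317437636693765126351708146267996611504408165900466760029147328016627210251875976077232371909103979516532604784952961963450215742705567640338961806481151730454464485716541272509712469360683078458948922470364488647305965209699897266369117877541712714597068963831400891164712875123932046129999769354450124991213858117593995531645713405491892945966644699567822364915198562909056148233043146299768252662600764601537892279603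336585002636208381766401371512801312884332167233721802763441655247396941969233595289514471427467687195640536806654573506750080630823587080119525086906115795764952379143220411367054967484591225850645470201831346772042716396702712365684963112810607231672258981118959881560156967173655516329113939767428957873354966528592353199690056794944368992293311662162855483927243931988381848283335961001493081978293623329540767629594955376702016256420316581179140818899478312873184525274958793845590566136461212192432415353513882622274511374539500312186583243866511592477141238776052508520273506587887442061672275984895807230781275632887140697475056145328090905426221710075699772229692941278708289305522687006704194981863925409344074154161359760223752143874789693875537721174126375011202885778369004671672866044284867624225273036572822536956388344185976053294547901436652383377537963559642187277425237263112350137205083980992219568382971726356418945649735700978098079790394574141361750716162776035110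568403625848964761464148435895226539167008663987824826174871053234878298084740154085260013326529681721339483694499958948351327981758188534697972993877560162807017909763298315029698364243318407131499797368347631497885351767599156267863985292881451228567124917754248559316429925358224490381684156399445172524823528020811445721558986219446504405317902972592778943444175620148306135311724647138532290372084595701146175044016278131528937920669720294650996947017597293586904624549718246407979368556737854557483075199578609600873088783429228328553357225522035792511818354079028839291916600027516794056211256454115526005251979526904699480618027750474257720036157230293040485974983585471192187141348338534281089106452351970613486757943559984074088452169514029945523484706802604290118406037990152259484629218057332410233018801076072698646090855786860174357556856257993449427960435237293982973757433542392988909432655218626600232531249651793550911895739343421874087668923858820564413842221852570712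460008566282084292801378134160848765221195625766552001623255744160114422501941765100427751998759323761840796069550251246659886255203844088374865960509250804872027031681611078994353315762745451619133921660248629395759993969604976360535308122488054862220246951431388318715432684460343768837408334519178053490138010429627257652128749940797121152916874928600616763769716733462864234746095673575575441002970921299802922095876858418917687554635758584160472962324638264712976618627013731343587762214735394993132015886724326896675981653912115181857002059299384644358726001344721370704827183685433555886284248977210263787848097202160114789882563857700443551346447058847255795209796161329012347171088247756979907466558433655420799778717113799511688425542177247344900712515520231620218836947269675633539451909063644556168094584912998722551427446171365439384365766515253137787566242226974504152152528023832931319420175925693060974926707827511750111074203992859891156181077790056157782176396349664026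536346522888592922284196473305942731628997224762722945901331892473129871784146055014793629272480838599603531049242239499251621946734053728917879317789483627157093122209195483329578586550603800995038185604843619507842823224904150301706226578614083623165894145123544861950439032387460700162972132748380485220589671814703681049854866095419711966510032909938876910802716764030750653330183256864359664697602090873322740423097713417027234666521697942193048525726452485441746030299131314382042044707091173971853489443176765718285412424295131855807872191009479499146973708574704242054604545840205910249899448102282352030279324658656246652847238603455533348925319669014476070596859782435418939131175112277287944113897169500350853279320472602006890834017037166699318739993122301795322181699388744687468675732054189550087801834235516400561634167453537075697901258704240781787453081369201827987903162107130329546488721334054568208292281549566278554966634057761608088362525616185517366103732846947303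106543409568618797132384350579721500900842867867728678674605251062835194410780473735762413506304770838980073248659081830683609674668853754652737151907322973984546596229901961764765821598580693718240502884916683311441825383089194703943641181542868591895950452927209587669256185104807337666833888183497573765324662995347900451917595480141204615958787462814444226280871013636807007364905185641708626172286558637002653936927947949310346185241499941620508254260032564027911340413380660302855680583244171605623294389589227353853049790359911184354534641162849126983015430097175636716781823254340944799336925452521204211109154187478632142619896640994718420400183317883892588403671771511062421262021032738827848619741489319110997284341473121698975998588071898573033073320273692967038132276532983910164415655951420633510547065494330645320902158416730286279626042889760486955551446892498512704675236021729277073397061511834906517694314333967584950306515881146052946381993844677654372472280687495700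184259193399461155407144468849510764380454300871640893019888376001785535331642265952193310057595283985333480473237383969670093351619144176204947851589401535237126781106343264052534585101902398150842756417828865800340486150698171641904705504645136463174675145389921775310292293306915295650219460701881763343580554855485647298491413051981443098409858190560282098115837677446627633664246821271354314179373331876892929174083640311641091121605491269449153023774185923604276295716429603589435552182735021545803709932728806696898448372800937748156696362457968237995754454030285766039575232672446322735339092622359925820531087438440696756105045858982694448347792570621313197725768413034962337248522096868395799537018335383313730192125926761756740582536979986682962987145704228995317932304313613587870829179948599966461975052579099436398650471330565276032675838265515999092070605270904718987381402406207361206475570440393573309237389510530412474620026921946224164509238573702861029597475216297641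174428688206835695894289250764174039291283867100421070855677819244078001492082952179835342691015897238265280721760928994624907840541031875476939817670913991937228461127902336156847332233510060674293144070996238933653965931395159437303081707870199128149575507680025087195590798895647548632331578476796541276099919220199453092583723041109990979708897428537343410658066932659094006912372906379374267467296631525167870557166582180037079515062678448809217014723725799024138017084951401931214896813847758942795081410031509812767342697148105947765510178934881717872377126715823061208920066144416522641243279042218645831163922150256740300795918082324004360015823937291729845752630783848026967753346357588200742812425091174119268810730556481291037567686790460271082828662422472999738352087313980490917053178282135365041329778745853720931883601262123825356818836140449172374713834660238120660982165582558294019144238585977920496830156754811398475913420266625954900905219326671443095117790808135174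118639733427112349900149400206985739172139607977068296208792490293193935567867570449292647615370283623446944760428738673725404632737476261633084965585522722938747569419847370769142768693571386107409575485485183713687893698408344336862813244695531087699690557631233679950408054748205041170019221860262973225611452363627501195644105833010397106729945736715314207000697386654326972748334545452155932231230924075080698348133467195572813526893518926953202778086670583843148338873931876032234139753658045495407351447280228822373705940935600401477854066574309832168702608173969295871975224315763520996713123908507876686424249500189331388632813225406694868300638055676394459601719100465295916070981185817191435320908174373904637077743155906901169589040513700495604468704952971467194095470465131767108409109651387396505151350937628078948735607674477573735420177543917898590194337556825423726594979720781096654440031593617548613445145769634597658712420279166014775592392990528807659761575030675065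617559014886508093487091292976841510083212391865300735268176664190570332508903698298080596682526675939973418125254154675063362366787497126003924614750707064132130639365156898766844689790147435157276111056374358945928112441762863207242316678945310320587752722134363248573363485606315953338717464069539487197148158142568957103109162270302019605456396009153718523596310912068275658615118342329486980165038369637190429002109741807091654382553532845348000712081558955214494897330584763670043128106554052790098374099791836952608102600690743231071741557244885661000373196290123289334613454018536863502637457900094286741890244398912929441435107063533828468869740124432138677541496959944645579763777682213579296146099102287122903803468899827553879160102884383735194405976046572474471396075717967665507243885995779773711712157360861780056791157220260594400583514018716075210946674219522846855546259898613445034417500731337763592054806146300631449864228682641222037181595488732593518540200340937669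889522325211124815964910936336662897673501369963550742010916739877767843586894612415395090745369809377572732650090218856130737713444318474567631680775543337698948330770145949571371984725934073532492889878010336450749503276087122452461039818210371226414576327807860205813324901220957309998396705210774133302806653757303073090374739588015932021100961190967018237672490148719453095110094438952645804882996434600593243809327326352778036028905572398941150768981830831146447530302056763870175644008277653626005561764839683059508415011715072183697470046540480635654461327857502420802462823824512508597392821394483784790048809040051616897177362399070476700309863042419682567208135272706895772841053754659493874279111865477923872053822533021160835469967991503877384846414730771059527231842771124537955721328742091592144532774537122850842546211326945586058878514047945200220800369194036527271163046589794979032129318728503221841418844685180400016331620393428330403108999409545496880453824834174195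116372644040410458986679134618878467017978311442451722231071785000257322634238315033458139283530044200777026458228827988737113610961242240447518322670866398791960492654370804570634489254204541898544394338715523411610134420686510134439650693200577743707592537587183322089851482430279870381775823898312020032187417397385883358466975230304175181046818308573291167152400251583682809782964314353917546014246455067570314366140872088914674433724587513634762017332587361270985328049623610405982086947945256168375782303993959883014199015700732777630728997547210080105320805646021908564456146657202408239609639876192056992964010287857686509949421057684038600928898546328791086192265392046690079969673575589873745349176214561495579030915614264314554950538734599570827548401425614910826359689434593033158198660257406169739482525163310004449301614935212145773918725863401049208691730435050438727183341648758496161985004657388914311658254259519123178055427231411928549359483360061053070559778675039735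488231097944524647793938533346211863823746892741219315297516310321551969678997323658688262223528969745131503554224612614957065437007960835291311630910118331761393524818682257996637663121154008496481334222595409662631316426925046073087018284056576800051772397715394971186864856127376526582289723672869541705002931811221576169677361491074894977424037383295133808713934542376202666925216479351362181465952993763109051081819050567408648685903994358403333942210843990164558856700593961236123940175640286029205724585355735134240194988696834325578714816954970387738857405728642353777147198087339037828864465655538115087128029601579183032697618383668183962208559189851032481191305540733828150520209794002378953290631025000391518572609245921347429993908260428437488604817437089437204739318403944185735680811071452963576659257579111041738236564179253735078969325593483374566274853340791805547859685245694425406908252847533210342690939422994652809523986454720251229368075761212691345450757280969480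965325933371447871719996673563574618163709076789565698914204707864239917266591659921493503147796070652374429894068416604541818445903268207543298022429462756388932706424290541805698251344157520415727089279480972417214867920915774666144736086938908420123801689433357840423599988535162337831371832519673683928833017692816356427758605884484339060368543915675902587463493336177438624438235562511919746758748957582422967224236534014748305897626707774819529899271883162732501622817998187902523358380825084315801836780136100243456333260703755821326243661961539380378134342977006743637744247103562776737558230235100709944991923202056878353856424358469422341802314657473858951692958096181866525090839247695552375280005670641898776642845710594528486864582218713280260386689055786709995302025686797845147233399639559666953290271731842821704148911183764604455666010207574844939288061964805339523589202672751098990585061571439604057802236175530194280226526754789268588672108904288603082611119176692033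319777006113932366276274853578642580232259863845756266321342839203968326343052412286865237186116285417945793774560390025510031252406907412429596548656573317878291111959923412627269663816225995275181690425716142377953812352825573839266471979460948839958453038352949659963691553635985371248901343851682201256733864848028499260506496261737930202334546148665674100557449050426320316663437474418725082532303600260809307205483800549230560248309157448198900843589996085726965109411899369768538501784105511248942445881700398879005294706751672593659913146295190345035025227036233544950735527007916807657573226078242322905384242279586162767674189974053267133900967040518850997793368502314021651547577512762511180982465530958204634112270761539147955778806727019432285070385190133148448635912408782414060491231856154276985008556673491294525123023356932051322849814887750446306123510480681787997400120674014258285154402008632916943943844806761778681233062990039897215499921499464134836832990776011512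744546699241250567754246079571997674742560941446561278534783918922836618037571453192426240934506729067535763668537341038068876303233987218129215603374110929570691269478387552093795954634400245180255855210769096976202445027796352495549716399095346925462606189230971687505507103446654010368775072458805649571745103740388238043688465148365499039116581110226127126853125840355904902017264158167189830368855013620119392024205710392881967057528592617326885620618574936063670719933550662860048623068088208973789655405068823181808904610995442392735084524278675025043232598945657945379568665996669096274491196775935594571445380985294230702592703783984467447382069827697230063025331724735721126646013241489935796973867639894979317954147382476447243141711381769892128136174487710602571896080525026333946326987996571986320079696764975812943885202946588398186022879097754367090047506246459203858677970161790684426307279873924576643922296530424996498650045017808762184648927484189334006680120782696954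122707519214407250723201583643183232659736071839501379029192072671337117105426675010489072001849371842846306209612033626055386105365986869768039755017260284168841751844195763977580089636995135671596099364618647083020607012209370425638402475669985764173669081009857918301335038308792398676155483275036228924243868294815813788739844455409180025773234796332682642563780700489161243865039957556973811152906846064853847640462899010266754203415885722139904552944350649740140238653420485287300061234559695137553304971870593279874303768044791711347733615431230572592466790525907346413263167905119907021235006710795563962831849256598303388766274339950363350331189568730590627555512853952220600754688604920092133231799558148138402201279111865219604259436250651529503888410444082607223319046680622010709857193247163832027098297599374696419610352874641929951780366214966039139779938545713190289781490966086221528819360291892744212623870372309639125045606070421101944966861075834000094609543521754738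406742061070328905507132660252862100033063882643965033066595023863364138808650449532436988900492136604657966450372760306245280267176184643162517488246382605207797230401071487664995873186070382288202344778554108489695409344856206553867683805566916825351760659531001569222096982711831711139322431259113305866095928735375314842047160818317639470516813931355517884019834007201546506178777658614244218766867640824101545283210941387622933972181119884327359020617820584580209958200272790323179727764429831969822075322337891799550824795347714028633637341496836952711243812866171361714954216360056909967073069596337426489226630091402612672366901114804171643831559976102195810392222781941976147507583949790073093456970381154416545283180730263631134800705532383999720543350859417615761932293539280720535115300160196662516190020339688743952963033375491967278844901876303392504136850972421209147805594415667103680135147757355508450311359695691127726171464659894751601280585987278630419447977619036865710027807910988562711969792)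

noncomputable def rc32 : Nat := (nat_lit 33078842774835437814542319451793227796803123493844340793987206763468661990993497109260672919149657156752521574862726489758337140636354463984931105304571850869965294718714118976258779671483302015027307514698148678183848541485819282968641298469339520563782201629505851964254691645373121411645622865512784987563369043550117849139713285147329881999299327296421318140707999983957872566527709054680757772159417295625354279023475144530796256836238955515987418579522016638061924367241470576740936117793088842706386905203354628207902168607753428701912135998107442722150822378038115959205068969620540319434291635760963444111845502569755708718435494384286000244224914757446388038146318522791017063615120239909427602455416848885601056319459048052802935842355149312341799607415082552137780703669425460353139590555408074195391220761213166276668230620019170608040068787244326034314688789791490445940949719557667018942636090651589965269167362062734032055306379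853778711380641159074726719027554762891192537873054676305484066635349630334088175137258115109121043718811788092274328385421648788932343534702119402514996822175845947068213542130676641505416019666160849208950941893650905344058113696545655105629471253618391428392693227147771740658154832303088542620239098122943819564321327962917520443362466855138657650978181870890341459655751888400449312852052423600243497516907017866594808764868733975634440643215361862875571991202737930326244827238081852997995527474316750769990369016250251033875954771315478214030807362839830705776774476453701421145258270249611392974893406798878356366479893742368420731883146298942149021888351860972674847358982010135525178190014060163572868977008774809201015473901652836453523013455898132341803941709125298356036006161401767596403483047084378523240087648983086326966645435413579947210240660235280892196378874138062184384771752292412790956502855525340391609781454957764741615141796044999772229225440377692521403629687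489023800876778168031839581461552495618781529243920719189720391029158823774038840070393907845926399118260432063790186483806624160617068008674798710659934268283312555820627689891284622507034982659851529115741918622040966975280616177187848068777604625967529869506291423645129331023699004792065965201078033023633275983459282307630295058812656531334835317225417093239505211537213489817989663029341959700654095567937797735864463349426625504803430283108600443164184433056682329473540506467089893588071631523404183260598814914900748877916087162237065474192712688451450353249515675976142072962295744057377589389494933803538007307036974917745403583279066858906365850757963701805467604954491444128433489762790999116697373151739951345879883887776800406790776176927572455591334840254669543960703264714710029223998100699867875223125428659823678825447205199275303664769068790054167374686566977304245036006877746853531872917778416008199225984746309014196394158117839971492403810584535761328415269198496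883395112791852156347293297711955397654858553040625762716584236281685014850556710848479568004650844391827258097771287222843536260369550396979205718763513442594863808273992535067015615543835562584187172608319059781257486017969349665001653142008062679752877806746256314955158196743327288168273646149768501954492606461904275499092341155300923681424928459867877462851453274491629219423503233740078554157726492321105130348939648728857012115406892190652886397179127947388854417226182948164853022469850984408194316841204602527491305972503985606811920886167844315346662558768174992277854606349776298389773246196021289712781649391049040078478640152622439610219975292312372388893067060568208247914321624333391486722475880893660744150525755169218581929254873445180168103696184674788288801059012178710006647135704780386544086504089445332249836879346617734846795389064950477246727203457687540484703718769905856116978805206203996366140653049497097825017727484939018492894824220755698352214544880718701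614668301933319939769001033373512754635738170341913368711394148475514805658924991420676418251388820772838772971314859865687475769521403254893527228202893501761469275645879155182444797074595801122285796776717738292769476455237269821979753951363086030070083320923646457556005655254934038143351267598873781700296221792293862844231005251693369826181412185195303970572014848898097501527131621298320633800953656911656828390314150143298609252614440264307506876429750246119492966481920087728940884490983031793487586293163838471547568401183766078071499847604357406418531004164843020743986546825230806451297013723043322853347637851422256804762294657732807933989550547558288280952887060215531318137392384513585683732657879163175490489021796524645590225108215139124723684293388943401365866559375052501837402775909270916934988107223054742441464388466170422160568726185727794719780829149566416691629937950701943341749659338284660798405182979523183443128992606896750071735998658193706337431190702447124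551650513340109625954405789865809418518704411881798616928014293269153027693782467149554486441165338830552578775822057498242021526390376973040888387162597184427177120536843253581857597185262462099203876578152627524497652293375553437103208488563287093008578695612244290999900760441409027497168115668910941179893477688132464223239811457116369770916238833097903539461222942900107410964893840948395646395457828030579399824895967648356766834880213959693837754637734955150445974238024008247764115795482484868623981456955481907005467803243391184973457743764421862458295332955619436610997703274488631267984779327514367362345652402721015398630420765409523958927430072010085183524394763623848319623373599363469360361593469449194304727828716979120171425792048099965326436723930989781232937069836737214855576133069515017781380807526288192956573437516128925836856609973906451919179849115479590963868961494541057109072362748815426891836821403126842167545297260919613921389801852487468348129242865088376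049616142499583689600987951076730321520570265195298455300332512471473501573734820997047480337030660717964878093078890986502990557194076408454822500453351193137188970147544753002148232461883619444196912562819318360098300176505861371739367926826346638917365424863480723738146683805749423739437976024319128686890210143127743539268508252381470699151012633060298204276949810331613110789444129743553174272184025233871276686703604415860215332086961515203008833334554167307170995748566907426584024478783383588485899453985383319453850939996594995775811705852381021104870077902304046413925253277720387984279798531700684810329013593801803666541858508425242246067776450163689049504180045565266635393371569491053095036877975015208636714851224214200965938914086174898928174970197799377122852072892483726718438831309828763593172258424928466625485528415893131311835777676302984648751752696770934396210180814580511565112238065398990528106573561573037492286627261743610650486075887484243578142168073192130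718634716116988367603374942651669282155501954965558490644402422079401145148486801825324195057156502401150685534051409280980929755350664716963906310159435780898377426699552324859053052494097275935529997277872112893925589449020879646877615548763572365718914669189445855119786462549237685603084772228181814356822768213421524205800170715760199227359862227054010421712958964059911470787126458282975923024552759529814990017035397859065480963554879603747146065974064636318518761149633243335970316578813000613701870642946642892685374574036236846510021417071252968273434002435126260834209280368356790543385959842166505729483403197860147958293560386990822011369582492934179507678586011094853966893282306903587793103495459405343869438078795467680018255353550635963473390718190662997455727030260245872097524055783907906665466142736259764096966984249476552684897531166620344715365885311936328729195388874940237204307032062409289920124944835435807444513980994626319574776787091299411124054288907962265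806541248751592329454650727827058956444928084787762084393479334571994845126091463315091968605227972738710520424889602440046814589830029963283035459001742942552653354432273078710130307835673621769274189717411057167062515170729089037742197116551522114765888621414999859792319917747181889135191247656192951048288634248461988512538712887587520361199878446168282051522408161595744656361605952673214654009186903731708131965325077431891870311611576484326290726792170882047752082857897080980822946444735690445273907858561593893523945631054340401055903188135052446489649144450037058125439774304727020977817040162974970591209319955712405725003561699439205366253726258633278887682251283538976478082836929486381122602037556772554266912899039459318889718513169981018815743386060675124733874761891493308425038569628472022493798386441509551089581596024519127395627861298443192032854007991958043093053297248547090487482048563901585593018340761106089799962869796808001290996617277292018960220626819292612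169033954772322183209045203850501787945419453590289700650732664653029219540939080183244922468505381122568487122005062104383175711588074433155628263057649809821977286733893656613586731635882780449012885356766526229199147876296556183215555141934561507735533367684917757213959902371158627567999097875858175758797745334289399206239431947322688602868724419778468189572373869333938373142480237199175077861732229894262264829069001296002014348247405131861104474978790986332231154424923464627955582800955903854915553599082636896611842837644952371043595646130523115360685650098171656302861129495632678229368431807644484708989477326680484759287287754691848456373156383558513673518366094426891561139627365310976408428971854750535843920324830894460840098778278886553090507300093443371403165935532204029633666299309271817051373967831541731312473779434414615436052496733986965665754254499780723506612006420700071928261049551934220248823815414975366107625592623099679743361328815828226383831395200068329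920826405704268612602298854176248368757854677873718930888374197203088530766358863016168700079608371444374017209246833534308675815778612893241003525653860104566288912656054086866058558084116908707600638576365137933730866694953557755790852430538597004499844895160526019564155153158609077673872245737112406273843550871786126928541813148491414807555618920604080084182039788893872640245173964923786606681636728555889161646589586980307604461122855063203731748673847428717356413792642727289940041272636968358100605874379787815889251249859541764469217785141984182701291243084635615892818552569313202195774356264684299382856317038687935107640976172065945179597102001977615657974926459757723550655648693430181937430416736181044559213117665014233503664739954150480329445199538572746437013934973293179054491811875140179402944678414104844982119713346573844147503310867418955285104005096682645085236361456096727895677215433945753369192824743820384426424116170975639551058749360168868347888540468746013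262606776953153810305278601721693991319747351319673605850949000356242815443896131563467059977104904044423674263351834431771424933125227598854673617101796119872663328505507977531976238523554499991873887380586230882036662624287419384780288578846809365560457385018393432153579360174974027843993656788269129840220094784086361690525293708492028637521374585817295823038542893451768383029701141550032901760154235558903330087276539105850996645822338267887139528549749545242161890063057783466138403363650348223386594972475000339678652415938842426279734968324051725417630951744658893683948862534490111492679109847621298418950568522617565889484286002025570345293901212679161726489767236504432447405716791580253884896663426187682976037944918678522101206727841688995941757647884033033875938812323580222055754644350507833491554886648809586627496412106057183158543786832046425008797873821528838793895868894621925489467933479293960471211958052041183070708682565022352778889797082236005462277348714571083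176966648085553910903348697617115691266645502216079322952674301012475736934331615231234771352063453466462922990787907671699303645887817182006728146459926641650761793609919828734326299469916456387166993482726977853511004391721315053845409504464437316590724136137443087700996144779038787392240541233618849332636285264172859730490890888520532763995616292951417856703467871481579681711007025026360933041660108752433795839044093911319195613268364032483950691419465662708598784928193842049189368930408982497652954022868666872663995017437007881332952265614122540354215065026299293211888112719449525283898871916089682570641345767581906576962994120651191877635830101003937165554939305047524559663424887458223877336797451568929809061530450268975245755079888354093811341510514320694387536294436234611455925883820056410167253057047424542259271790563343707039433804833405516111408291570350168914488565997138833381302234071165148735446139265995688441871807925850013242516821263237960008812592177150189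381031792629207801251447679140098722056084568886342618278760555840786387278990494242939213960286791835077367848321822845622541792389524302264135316433186262777393636267902995515620422322135284834989572342014525344276935350414860135404321038591224876862610977107812770941076821911840185886629835337277195244227178661734431238922514995360938566799661275311173978828106379480433371537461464240605077291256850422912991587977493150483158322653611085817279125198464237268981768603521356983945533372026917112304835297906589687641782793121488618919910143923625601636969221874371417814972800867376374798472743119904655994813135269658380146719972166009924333692893182079495907855409180802566935074310575756577007038909542607059454110918547270913512203441327388698413040727889160572556644279266695804334827467355285065197449438745783523333235364858302033893099183435267722975819920997401416245983251789154701929734795071359957888469912420639656567759785950232572281841337867727432546586094114071123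332641949343484168568916885487059100787854253276979082242873058245857635669078301286605425927682172236648072355129060579378075860770556011322641041069485155332418811825762712292288564896878813358607819057075852861273275025689079709315233661650616765597198184058688693781208897191489826983104600457909667423832069352647300169338546453924053032647632400795884062959832854899037283149948594020170248395626611045333045657191157480817159406685873813523998293481408260455394937394784882947051350909209200982588771966224812249512729342486010419527159279742079286702797937437898950248434446632238393273792393250012190687674937252004041939495353677992765328430070981632121819172914967919970639451916720951317378371170956251091930789870494041388077237068817151821811491903883000856590652253234834246122661902140978705510088595223859230075068682243852483705339920815168908964666912686838186491503371833092243999271196715432114777570859719385178435198482742039274543760054651940270076401372095615059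790099692006230488552585980600562112764006596981190538600456068422802756624031557773857067515624833547339638491589124883785134523621184937833166458806137329569451898267878870116927368402497639463806952399141808710903879134667300872723660681377445880587544818919654292773812404464505435977727279155238585089361403402073582359302192331281130342329778552064748502375727727160920413395335299855926714168707346144809165323469025300937867653436084155218968646613725708198124761483738718389963023291078406887307399490912605824446563005717761792923465829032673890013756016199967662376937590417979385518559430446116237152541415234451368055119882676514709576996131220066084707768157913524805065471137109505825223073069660700652315796122655241764207919168968194343836104857013466089277584355826841173738045618057691675884864409009047034604968099995025429791092230280280572337600770343888599610691126376335571807451950428348671082316424853154944280428230492600926138434204502783639336859960991409347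521601937172709381373674925116338811776286261444885691211670920350726557214229158534400228220695287793458378211500211640373778265205914728637017242147828066107602654913427593912888726262119224666849741844288578939551419876541223013247353284644394777676180147105209464184253964210674381738755727477663530877803316875936870268419547740479304235699025392541169140509330248955073788506644002901211199479250379510794837724447009020220296428572832831320230065346474447591875683459946880375480240382618740882290547098316903932319287395451830872604071145690623963173749746530953884252058946521157554772769689124300227027228414757430822532497026256175810742175923077092764550396663932794356711971504678735087074625462559432790281464747195311307073815173518880937903446479364160222412062504936181242641691645097106299556200585236620260980971140280324482302402689203230007200470787670522943047429971807348894627955012484129566621298365234424254056108193659089683606180270889901208976616492373584974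484899595651182909413745581352505809522577886958742652803142651695080248488642177048425800319324824659097231192207577857367022577257049303147510195609392064424182027911957411610346192344350798575214130762818933095172116545100675751633987525995224028981410490552804265740603841390319642391999507996734037045144768717289758994306982916542781025069503816251093351571455413874555351769534683213998508303422155441699090323541859086822518647862013891676893211033117929238563381548298430039990013266537392960437694211600043921134394063714644397826338269832987434069059973906146181378066029332898091536256906752287734638003705826530406353486717756405655097019738910210652560727310093305719368310088200979022453522700779825412550819870529445461750636325537359481710161567740143014287260250591211283021089861480338779342573590332484277606720011698373193844650922754290400020431294991253437892040772589775456813214510387720314551872439110377695684230628587071755088509950110485938656903519555608309126353642915650395573321728)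

noncomputable def rc33 : Nat := (nat_lit 33114977903445883568177377733556623527966288772139461069828187076946824444429433403994707125877660927977442070507688671610167377038506665564670309592963973610064728182745286901927279634613311116057507987516570626182411249288733220294927513763031428701528499902839872307238152536542337260408533469310884145627685175615741465365280848987780875438967010309380352664249452158828069362264000436162944816333866273500733793640276457955008892723040918259582735621944382347932822278948978890464473107962015697782795213555601339727811835176946669278192536609895096339428256116246260953461832440756183022690874222524119372931244564370222052889174310682365866720047226415021514940893951813671235716038461664461236876204725746363039115725127251131473065117080986178682690363618442409976649158717817772803669724916375699142786856991729068597877866884484902350682871144923405247230745562202421098644926196506688220865264709995377882664293692013505907996072615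845074884218786280392663910371592901320827570838288596181991126189220249590990047455852631573928830184732888124939920219895223094530884305547718744063463693093844710958194036542213756968475440624137588894627610537577612067209442814655800121511477826931734624317036981248626993565332067477826822362378195952779156983880958529527410717621453295769657149867199748495751196845984900337423221790574240275928009261002709580116383348699022150426323287394239912098872309748215995802456465331826473799077395039008824028555921071760526010139249501835514097144680203348896716755293253080429366956789381535354300648948594778256728717840522067851445081686146490922627033152733103943823007729241947469338403155463528102218582478127539865688552261112707972105572625680560797269790977038671162210083389411566808771859711991388723739357413867338837413416212081872546981151725214700319370456453489695771860431949100468675530150943745642490087206608077854102812009460558727211079049149239778270877427179348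948808763074860403022642019698110544354929614580744406214219911694976660524245015604921312913061974420877573281667736941488752429507809153498945207567962436472820135596341819825997098660758789022936066508225101343481216872403614271911941044532473052871015832712644330186736633807422292700544885420632453589874120195459977810814800230819965331412851139411926236509661564040113716652156695330800497640998851332051059801427927422524845524562041228521535864575953539284142203981424899762188222323294193702821745104876166145914223769957828297688529113851641870188455312475578021538910625770328680954023113633745013776194461331195570483191392157262697989339384201370783124260589081777146014903873190542229739332621714217658471697033139560654247376190818530476573935232163675820455491298894909233748313476681397605442662877841990319449964079155579709091149819167825238521268358700337795180630731862558921683078321817304989692488407442625116213750698990895630362370975487234824906168730861123821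833466471930918562725221339527975942568308798446475110128722480639270366059042256560436445676690970051387260604836201615045545216345650317055820000531368879468679048989067625168994470319933803473502146638937708165428314573843855743115320631787110463782940385690956107131600836784351946432220358191278058438450591228725850957795179461987741618726121205533270096940391003751890252783777949502782052780974029137522720196482224716142288321034217696599905177549474136609674729507842178543803692158797757978372014465693806967607320908882124022597950629228159123641517361268299996010611830234006242939154402736183015739964129772471300804315966771042591784045704167545644675500079720122164869701333240810857636467246484867639264861757487736864586646083000997624552511832318551657427045715110119960596907664032365726299221299502043104218862053093565014370554777226748545470785701424204648573552548373017318323779719685073868851259783992583373818058855980338917331952116945162134861302061488777315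570398697183447572375065112993693152635562295527811631803965375411488917140000247610323690371951282622702850883612227580970974034738797190689846398557188788001287164646841545486221548414672782487803112883383303385928946076873375088092390331269436398190632719528147303256217437950874557336674074288703829861659501457787104782277115523832446745492801727174796963715969507193480670402372717311689968845466471940155927532719112343855571572415367592200244059930876986262124515159219145157464425179353813404159648279842396478779364884874524886219270817508511233547178151053569744945266016617563031292290667388727935930477343773123603466891442624682373442637481587535012113890216098886249066020834630749087376725783744647693235125262898852253111303743293455628199541365419150452647472143336739505502790078843139803075459986358344964014121536192787410041151314193745621838104851143416850472200208415562513474634405842463081496642948325483385503336972457960020198010901336822356370781297020799543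906736334208151925785907109735624664334496372709094162394815450576129766184112779985827997955201642420083643643016101298410165485308150554600152765140756124875750848001299786004614029731767654994154655609021573145470917427049656445843352080063089596880333440401317945448307517357959413489936347112859934927621776317449696771807371813335980343976070598658973476772633762815830758721051255044159489922445703251813764200423380836900428724144820046783397246515568506161823841092575146061401950331526185086696994169623862061428042452107679816863685566655263923330020849357947569520760388955975136983405625448330853899452876226899946318901784495836970162466793106259315719076014858563504595250751521424276226578246608758055735618797626630089035281440020728768797625198261567207896283095296090972015776695553845492155885555206507617278109609563226244630859690084345470293337547487423673131973397068363950612373690347669858852667757152300464778026010283254208766115171521407620811921291441587903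186909501477464580743190500200471881047722717841986912369435564069222043172023678803421493119626380682836663557697495139959989790489963275349530261708955089402057572301695509310833064034489060855369097170386572387896859323452822329256851157681172018402397050395666486384972988588485507617366901424081039065180090925855689461954949960870781012374329687132012483695714930215789465510463079975486893697456205207205390521815354289824622935498654568467610449511070366650439669171596753311507863596092726255080387786328869826274047457253637209561195699865757789091766521725744166282794385046554179380417012887417749837244607781541880387376207633299493752513746169919879273228929586912990056275433901567297023812863288211173875733801480833333968063459501134202165859655322213213854210835472979177767381847240147718770629959773713148570468928024243934688930825500480933732342827897314208479641723517150943309096720352001240670482910587792579745955921575220370078772572465658694498375496162456527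496574118199182223406619120943048307110170104858762577999645098151477785602731009743477006998652464885054957636346874676069019718339838360364673737157046920851777023536564037787620132006176688424198027973944438863436273894474146131689201786937959551666362514955680209490143693350732736536072894539822019586327478309979088874408535113458281687451347498639830054513967343209717039537069464132838272406159720011373722181737763731560327895952593803570645701431685433183709895989709338517561495489210773500176846573100931028996702998100520630902878730093963544912254037900418163536478177674463184940858338168378669772536440473034726720484447951633773609678544907624854405448211754336545683275430062302115427746930956941435246916702402006894149144442781755941252953089554032133074445208328053829006113204292675831654110010044866969505482507914423121299207048045004290521644953002114183641380524819850620209686652405438651137477977285468085692067119702823097777902564628617081491984101900415058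755202102925417169188889163910509283128385728268377789515176261983553435637528210286065694152602628776438324201102071580262974283151861227317070728576941960804993418721327107729644667342893444932241663732757267312032809253755133943027813376982987030357837846462011450052189769385165245857433048927674153615488066053563507969288487667105845574810989554874269448407990965573557692692758508293427150882820067248340332299382754473017665254737549113060985678591389205278465290969763977265952951924633442096206701468925880254861191281940193493391174132846869488652161449343491147816547286083922852991325720230482600555109355293327684068740180475185087487955804829189379183985091773549296200711459376376891289940900699306723314385177841615823447611828554737057331465319403636729980333272324485424695412939273016664028035459438941639424602344579087432677104697762770163323670350640629490055664578238708114988121676148472563373210805743837247138474800864955539183398403924883851221805911857101049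466069656753491247559384857788265514406307174359894724641388722516594451482845614951731644493965657537208438827180527455652884259156402162697602653202323575900386643166468265242623655190238438359918846177989764973328070791739769011369449329342663794706378958666429854843981387967850445555019388579993420414263359473378553730787636669867080086595991464262360173660192343287903054459526344355872023113240844484670303333772466772374283021052071959906803142089181681981274443667888145045146998902353695603994977324183456924997933534765455894095419396659593550496702883241747854062814735985993767724977566765256288382116517218252850457712465647387455316681967209132370723019370276811028114098516310631028021179330506018720075255135394184258244432187697554380379853460788796654330943173016778561296691827305959777996993175781299467072387338912438277147267464242135832864954414588865598878497734269466566199605008223676379404555873410938761984761972824841079962024375073754770795277704481953066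974703116738519991834260647429318093897210869869296341553995394432694116985015230578930252144229306655718513514703281211322126955003109551620049487562257028536098153479637893153616883908178334566754707546600967058406542256970009880992546382292202951500036002279921119256344245947764245679337337719257942273943660791343788642371089460390710522842610912028613012426820009353276636734067487658220309587343057750140946723202990768849799496962566105148877851525725205496760328346074841160530097007091774697164627211184839743528656063846191713397618360668751326038045968673883356949233288802328510356637168706475116502073913039794452138759071332201011655215287526391967724200918640158831893348704012821751109529390897253878343510966028208285692137429063113119457662270753439898220134313890398362892758710592682490290724923626287145912144442893242424424741512924793256503360580261776180079548614804752265711784093186007415850603579881149165475092878340042460006642384353838055549304481892884467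142385633765845100053189128563103970552348545207652147693747405912214449585886284173951582180774997538741862966969855229285704439117663313093383889072609309673652149980316104711606402329905517528531141229941576644080379522920351379042241981826873424634124338664067497293922016632270171796679808187349342587924619695912794683060968585956608224250029138121584960728906997624818629662106615556799729558233539112449359651096556238690982245332070259522585021914722287803153559756612661505897572277182688188825048163939938084687518984377003717104855241907509841356817104045247927727515290719140183055822461601788108602908845124046522094621981842093710858731517218965414905366894607427687365734477749836305340288303858957984665166290297816453494986856551351498756769039129857753210130347215189080423801530224832208850940491291085403225866869888943455048889453961228344566926840060718854316534004765226062886756993261281380278095682345311447128662417699828332578037727535236439106226329468140505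086624919229003809701449351932446836333600089610492366935349620210326287079429180998145645011658810977168869054226236680726490351868761271544921763268606341114763815487367526851409628266913154309993385242171409653856177965149950898706434100388227041441633099081088493814314597198114358810406709119915162590303039527957557215361315522846300632556738742907303989579853779633729916482120241263446445047847728830808463885297263724613822391076643588382545728446826960018653593581959173515155829536962626847331744866963250945037755699064682610069643590049018030797858198851316917805352956574259456683475063855580119126177618998489556778929192367964422087668969410409660831375898361585843681008871926714283978565423012706761026657759934604455972231539374654167869578383144653154309935512272473302691116665124138776140699546299069206988542083386063198901484553017100681124547515622364441613962179537247554490171760094144105277118665050000133714225001189659154381522248398805340876659198023769854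990055034478378383290808057522496697397310104094103315212314960373918454859026140730601537057685921847239568058208220219307563818379959349397067693626075069997771772812037743064090640805355074909451848667281699193909233031932956091374984560196661759623015013978573664764340996602652706544092156601101296079166314537877064716826588661882966742122276022403614619087911284210178622467899693972002934140432539861923370834198518632507737289608851940562654622052392391948640289581434878760047158100776762440963829485420896619562000776234406164703181380922925466966891286544768335221436126685036882232072603746647045257969653688349910082695552772650696488803183848436553256262477522943354921693137411190788538286244488600355311199849285150559467453071845346287044931572304449219430515041240430169627726505238315733723440318873008869471116701136539694876633486980471910493526183391083128709501555888753440756103668384007343356813653358596865244408053298109198321367286027941411582803485755960105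463628423435315181511611023326320937841993222223985911950166944514325442847231660375208236981489214443742793870601137808306693239974602638402161737280437144919390742790734911517007177405764522946068439083960301585477359194611469496256632806741756401370830412224159544470578040980369318460155767566893344779641985632573698228854412686674333116809650638554642186487940486457877262237779244101453010861902278620689065789120689716800443293281672602912087517505085903045892349158602401425867474864578201397633813014022937338135841354001625141854003802611170969897702210154385340844988956492551663358636277967956139970380970222008223088181825828209702468431473503745807882773346724490878031480718281911796351816628864815488418716118114339931223355344454195143504061193435976567827287596466464258988351733022144472095743573780699546617742318850552405319880293410539092906068037474877692419782925978536059133109113244178689148408919726467330863473202757529302781143072626457263132610379915784316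646460016871354416972397550976886646758014003697226409570459522128047681341845233949024166982393798787286805881453012324892135109519777138877618127061483317384194180791456346541976017998184320126016793059274029099857697697683222244756924593717353798279993050248543033581542095213965712521049487112537901289966185557124971044122460794506215852286606711336168481322250735112955243525825861637680870236091114058556423632774105426289041307039321577642614047457052878490455718242926207009973042222099998593790078537365751196642115128031908700205011703491713793075762413875328576358948458364462836152605620397931641016362464345551843381734643530694927731972788566531823077632709736313865831140566136640244203255702336169282771840685324884222936737496581776846164668975186967243729141925360632314245132253268425423479019699584241159052653872841017681600221400906570092758644192774891510048174443599267155644323908045545702649805955204941436273829710283181106782791389248186463530744407907020685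970442223597653744876458492927229061002982769396629887438133482894393820210627350880628581182618867403456309985870853982513367078348467906786672944055776088548543417397079988081440194207439828464475644431380760080584625880190150360355137283936121861924029228779062610627111209518074039696901105799232308459917489817384485982882639514897382516970533431310803953788177541288200385755374757126419140217733427566638880655541663727759910981958805204069149989308307624097232079360971010242383828583787422717513796669784354536901469976685894727635514874366687111877406419469664487509576842218555115350637029405195011479085131036258490828650772805707534644012130598744226137631510709367939201839240815976628789895666026932912590409761097976641425542362362545813052480037754932236779662646983618768671657504142545222772920400286728197163042224874151631270358288324285327677498070544230161472136824873978390975671744422980286761984532965392175619537576228555715803649315207759632943962732670529166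030618269381044659156076166350306300552983074285151170951067123754512038960517888372436732498868758258600539372336566079893009137024527190996737233892971468694248108704243633944909218334900641185682493507628324650262644659095117610518053565917342204661329272691728512090666291863225588989011419165139376851675479390548518060657448200246847741554787553502988404976861431162007955422535479803915550303709795673308005086074399833044077427372210403414331112703182704530587264851759963221702701394513482436603963266772284019912862102477925865588231058351029053531700521528499025934496205084692939857485237413658719267015705625876526110459699503609282309934020672698155530033941073270440672022848648130021157329579180313606574709748233698343755622503573760841689365038233730902956836379046535531871960277901777624487229437123847397728157603294609764693194080639605708082499666165496789195792688606630859644448134675007889084183133463166959668453855462860059023310968980261736548053175410852805430598968312001534313365504)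

noncomputable def rc34 : Nat := (nat_lit 33150669940793504224183628580965785912968042230774604510776947400922912281353033632702460818635137380578410612711038234666605122281837704388889120953546449914523652144310593461972567286984758024290211116102804807505927399035938888607371207236184953543375313971351202901228057197860681417548162623988693494371528041898020893193460826781785215418016604291242182931035838249691364717723447750120602762398723039277757871076462592314908062091009358827483169139041864914844823592357125638202775464844735166072805170353932735382334996013381761480901134119185201164065194783601986646899930023322946470873168301759063632616730724591826592090382006078344650854449476576449091364948203532140724964802264884926360942436142405888680015869368389472285016500149548077305252892251225793892790234923182400128811515510280104708727122467087116573275523640988915817067343318189947318799754536649058173086192378548227073839894287421648266060769759621097523504856937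391726893013588316405245003831662279399915189094350691438020519288504766454376108070453961514346661416386500578992622087081414527333118118234190511983156428380481469212837552148875596928057073848272145121586558839434097192884400671428161010732100591835325038849320934141047400473570787582412177875059302233321750604534329061223687728246942857789104361585916230582771722763565948213357340633226816712553010245598981648558705417442832186132941946119764232471147529281464544376929195223142255930401261584674063793137612013660828262501021504657199666520308683467306756447651327118298159452877400786301921592899189777132598200767109794653523509841246273892328920723789083077141389013366510517537967147726176519291863458428779657941083886532592683639245904442066647512714572880016689690035177205278995869663248501848434498089054659274105496518157911833814449051542045742509293666292086385687141456863665261726684805197261808772394413966568027944117932491851494402271052493058982145311965663858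517781876086393264922347687370714567509082607595338269798558650290463535564921465676426665109080900490763457010834580436940383838298339186904456600191457234746663591228441121352398726975450495635434911747752959871598555087796979251577474462731055646169912470649615845506830438613891054900386022116675521177323809268109153422652473412974155796862958216750704874854038441726499039996436754617323181787109469352791292710828969746712781689349556549785471113916728961878587474937151307168293943084084336080121166959191949852204856620531984124855578261079340642312337508802542689485749873957559530500157912209751760626277612385465607705233232416175194047956461376497079499607642294922858535237181847138198081422173046928433523208226715440604975248563136946352913240942229774810029586905166808301717168416564948670704857286820744891242620720658632218331772105038825716772694004921101543231633125979964114572460951358077995919219681998317529227461190516051439300795029360235923786985009505496691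573344277946997164607044836896082806011322707578871280465246027162304574084602128540977530462835271359954711698203560325344966091441553172903812021964305565634877890175153248798491358310331283643841580565819565587761299408627552487037154819147124691022020380234374386920936113968129034250488068350812285494855969554681599712836675827905086361209314470357221958893647453019009417611859332578097799903858858951531760555364875565087828428268332046305085692228416355180393293528094785242453311167208012679950785807180257810411839667401169206596064956514018541487090844248967067262040821073283492899136941065810003948459393132968356703581859009112717877045447501009522432044410831119597324000936608930320067433528864385743969256326962753310587789716604627332133334239128457137497679131630443104134152268684262209346507003232930272848366253419702764552481375401685818140245045035193602110479517638776319944384063173905974474995599994658255148571435211456059745090949827266354952829074483738114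828760816455040960606546617242834535903480199316947852576322468827366297600623073409155027676909791734210016546038549327246289647243906979314978775843364953228235910253650364077759484064795462650477658332998061915617904069050683517867662029933102602716622766438336704027184621802192785265317909575423322025366071788803130868757035054056824868236762576171389712068176743133616475315359708047912036767351653716629095063912581947803410850245105037230219466082383951950260238837010323735553668608906557603855721340477033671469310895623504891032288128190586423594340963094178235212429945559708124645228666319822145890337302959843843323223930295221948699801541791355892175952908719988573363673086050266042957236990730393258652362287507185336309287382390189788836920869948515265972756771109594121633405574632956006556122233136095518837719476576084683314538605795738008207177164390612288677426512378463344151808572602976017943419028989475402536675752663128802250758705374801204353554824987945964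269503471926380611094140925114443351405573035626301433345077564464404042816464499995797937908860474826131951161903446288651902992164308410046145683286482018454046402356597725442616145624880388915929945294817163541253812158925657422880325040469528058845144318674737702846606387844869044487276028135819502436152738342545004743220370054642519804651672106048478751231208947656376180211672728557861528844077142136973627805443571073071691965244915073194956527087145997257938135460760311016529055294705508297402195588910757464856043560106999447336315044506255234555874819636826121398102205518126870154208348039280154929697795078838733485146929109908156243872493247824261473660491733616830510029967599248128752348181124206349236074853658457805837432482968324811879119571858221779293095583245387860879556363829556254433915602115847893358132814787014051353901508604775634775368908980460887897869981172115003142152338215017998120189720915734736886899298663656588386266628681171313152930662845869250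220368966504941080081667305282026290975038882930918207289272907511249266263316077898092239274806187474492051085198437768982822328699274951012673237262788855062184269319263432367355786421369492310599982399376291538764794964128186640107406935928969408195309719880665557211143727239345114707280069447994607899555268346548199585463075998602984194598777990730132967537387305937426021588868566128969219956411494833639576911262382305742136269683994275426091500369499686942187951074445771156835897033270760041542418630165761258205237830171634355659423901040189279904088990731883216341656007013027186317333017859656945540911856803015763765761622102247511972313704127899806598169538589858273641006813839804512593334381825183347878793470208825810867547653227354480055392652243702962743608475094235507252305334978127912346789495264004496478138519679074223254451800367200951506956764957682337957879162944262783011867505806296305368728063853567129874660184714065627831951680881126307296214781128359794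528101144591949557420940742217597080990358599032615870060133171490261869769583151524075182328364904592879997495416920948537872560713268761847468658984801972492503694233393431696274628844632454173973529240583731727870269776873827772606188414050389788529596377286380533213742478917804177397530378297670480487286077299112944754609614206927623220730330980660784660781848201777088807375983240899440732484187669794886744037206977978443460180217134173352873218907989020025716045968278560337970575497078777514943141961490634664143461987368307491737580240055093637086984479117365127443928802106244365765923228715261125083054769423597651241367039414589746304759198771345351326879499427026993490795739374120377211750184145422093122819394240508793211439336464716323422032415652831661324208728408250448863761061316772900518635487188282396299291719871293660335662797476169372431581777587421873966569080986446242015057004942609178266334543580205430424656514788753491016754951527526900930047570517435489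733833332680161893934560899017115821743416155962407921733265725865069776059089291129814511282914174614055280621937268205107897505235961447844909851121544483248938109439275410916755021856563963392835721538991401887688549605124664554862630454264012539178539264906151963653505244334250819695362916380648301100637810828821891167137377504955189946139421351324201211732785610091768473657530489024502657905363624777330557686999214318269984732020869107711595870551218941436927761675461468778536580110030931598598749330486647309699946360550025175612768791008241842822388211214852089623048931523251587125325479548692729758759727636304088190833368388595081338290124787321662368128726225485141636998063979475385139543519103721474346012446264093302578425057206349203603168557755106211197190146411554515044052485276447011160919835874813130711018560958264960736578262685106481272965370207988620866532587337283185077362871597081058106551263571811292011480578853915934354810158643868664770519132250107027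658562499296123086490926913883431979852776525868297175797871037525859456535291675851951010860158501245499019124537875836930440711842589900528464259899916144623272377683128335530687250852404911485422369545970111066369253091774896392329381374839463915822696383759267895476984724831160089772450997565386921259319491431142256733460315877998583915183307252326279693834862112192889105805141346566164879231326552207273423016849410132224184667418620316970948745113017164485979169752472284127058988855567490560052115321369559555419214687616149899866961442242649477198174733443860459812314230386477492297431907209732091740197424902009332699923905289037605867043838003582336613837957857562881163979346620577215613260039233130401344938168410238206104353133438067979098030559265071641255061434827590247648585656280716209562584341844566955930811562285206315527690045657820315101010633834382668432632276129241304178277919617421805650758690061503300273033253937908794299345122071070687750541840604432636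037709686792978042723849592519269666210109803232036269794493096664958816283730797577099467341349860941941445507444296736810836927045075880306766098562657060043574938834996580829897594336872325169002289652337969843007708083772814418231111555935384946759312118251625953160530754649809050946316009266840637904804901951304634704138207872742707623652115730461995914325628046977904403177534176967561768400200244107492273887593273762682519616474728281906810510917426628143390809701304468601971972754247152457099929181127078015604351587178275562715275129240801429446788960806589881977975783499032310532794175940531736941451629158060816729196772530498211780254905170538519703359143669090622122702361879866178438955219370591769391968389446581645116096061450338926466400649325472661049175597853761719039179023462790493544667804422792986026552126087962930125806790874403875110799928563384648105929666796172205490617829530221071477419918481323669106123794244998470707188540469171748027690803431337709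055108003335763163189578163828284430240386341795103802894682086862492123028843669887394010579423446102435786781332790218810561930585203893796381436561616659982650309533890758972355388290212291494992382947081615673057107478845407388379016136040379728799584889216957325718097955161067193190982671823178958336829183407715729577870277185890781980685382262662887545083228802185221888832893527592161867168920474331842112224959122533878833957454318368454115348146459741833911097439207376490932793282938762298936781444884019993830125453550051849830649214418555975204227133096738955194962545195250141461362082025415284084325652905380121403324002003456005231156883786875219321022742715753190432415438604982509771831685091190941782542422746168227451765783528746842501025035553842364335923377838969332060486168297188974393538331320502549364481065638814368252131281772837014508173745217664934885022227751136762487459666896628124143031632383829307161902999559827484269764724250358390539125580094323333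424455572607233838666390147310286512364899884788465214930470971780860294986069466192766862235013780292103769534929795444560383295600403882677989149409204074955865544412708465433134215888897407410182643736034579778598062942220191760680194137872490345140397116577796323244870786398746815600404509164167302140228403367150627216246103233288777768520191465959582518124270167087002812031668690323200332359642704417097560166753257479539943673067325194771654158664021575398063911822546456776748915976915823786109408544202579050265945993305670354257339024927571530846813299731544139125827716603382037203520380780177447709710119646034128487949426736203456688172819672467241409932839710258846416331269377529773438931302220740719909261299783212413344723233307607795686354503895571614553937614613438902806358725369499226001174697378265755938015641346618109378288972945325032483816403792380300656174276677983725332951036276914058255158704192023419331125259220635736743929240087811324789167700451311752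136957146785293870651942660082732065476385882520458869489346032636626358976299131783583332866848275008251180674398534692184794946474784798998863060246864676894571512070642652945587352805068870588862634308895598234231205092627555095100688165476469541007517251476161839354682018007046058479541517306592006070789361217766482168286745382559622523988260153475037463845438768462987300005832786333611693548104693114649202971042029237533524787812011115974819820403956173570066050204075197965723462411714723552829005314189276239069500505436852050786892133111842191345594282801253733359237108650486994041591573981012842104667892279646605846428545527966285535705005417278133966801475407590799982091908961908842871406577467218392823988568973040366566752295933781193028984583005027887887218349526474466703740578478458348777328135034158396561125988350705876369216310686283013825857036094571811284452484323743327690529973876129057353628788639797728368467692511991586271764025322074187890792432474018368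929060183325739153724636579589687057766069962044709281407972292060670810534876707202592111956545510201225828643801279588671464857270471820605626919512917753010157645883145298574583039201546818557188074279408521582643179713172103055738246474506115758740612679306263834444589024473874466820329543155740389541764452725320322884654053518336598394334784798489343447439670774315890743169634342313566843348993995770362931329696632381904162427749824919909020673955226749712367074266516683127694358744253562220759933405608831927990002905158028711820257391949572812096621531946986669650497141645819051801457311181044975515703494938197626320809231120107092821710443611501541313256646312954200377994843131705406573822458246558630341108076390596663503185829285489138765561323443244255507677034303993210005470721193792380543945423093176288275959019043954860400355037407316001092810680970752170352853257338430501491540601738548553518445574293081856031640556520603905135555149056595759392641016922755689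468942450234041649751009435922027349518397241147007735063939703644673418954458508298949428524373413150034272762464923282457370737015045163292677640246304705444503163957467045858322286341227412062204954039361090346144162519149147095008347775319894064139047002150328920336132822518700529755146477391391981393558610247070151136416281337970513070292457724530491273975426960520031288316939712056843989383271339729837423143589298700976658944345679014568209115779178197089139790100595323481397900791333866733451199246325646379036656411658211336918577077748223429121872583329532414467487865578879304189539931070455763449575516286806693102091160384312504762297570167631497565396623690425870418301290577744593361985673615274647883457454003972280129069392346499319779232735759166428549054264348542969268287218654694196749282973209195878627687275979951881462519480079747964427698897867683483605548878904454506101239744330515354189299117421546932778297856916497285283486033036393298967424333964536390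697561764645282075754556854137877683313187211796773529857211414410712499485787356231580918432682578809344967264831637310912491355634374107018992648916746839065237835027898255201983550908224122322240829405071118807656004337561401427070038488452863345153157114907721267477816894099814127430674272781684769152106411814900160214728159222817886967154142574500818779669810843887705826592029136667198621852995407072983606328552981112821363319097436514178574097464232832446327579744127622388066367431139954981902058426719204679563346615661148447577586119577776622155936057869540755533459416758252185449208899739870115524110866435077922783705863269017138927572071676460347692294969619110104296268376800811206576566779274188981594400698343835941698537500315678461137540337465003806516582230714960737393278878502257652544851703081528196732588865063955206334825753976479383161710972895370680502126551453372763988303370958847200014201465796641443555024802518249153603542689112747673516550625242622478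775859421599641475546812111734458193052512646759083972965384209818083005664792248214985219225252014551762317611903906290297129187766728956026443243648696410793621363298779282164568465774719930298618643399927347484540638069760756882827907256351057715141777415675925813965285088905259097509979927029840009146126201783500828013340982563601876474302776342255050540851974253966726594771575859263867180572758920101601012365136427891640439218727288551226545454162053405880918581334415496370938355695172822015019330548704753434838685438526213908040054471796605035873829672707752291106458321858364766427938723613330145322542878590093870885996318978269408579987105384125124359423989973584504847803761688415174760410985425896846642360760799350300671342423277533339816736235698232499295237389977580795143644818621538091330789514996378127231272369257086071331614782775419197384832107177863350789228139927838475612572454323291564716329783746987448639467566632547275154720928920652054762905799832580047207546391820648651499241472)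

noncomputable def rc35 : Nat := (nat_lit 33185923473063335225066627044674671651114119213549799750871046154642519194468416541099639364591034726955420317977743172559280470940263445343209399463622285490916036864122360713915923682809582188598415514745023567944887063897187766645034659504995363052884463689341821158035628391597929977356340061972761285501181572218838805653329129324496812110663127726872469406660680847661489454038019662875240216399713747538064168064565721390260709649253995837697297989464790153277474680712615810467407148950353306998425623173339873671933565050661850137606235405251806520281404184066517462463601177956800900574976310041722165226393826642601702663026437599264468567036794297604188364427704618388202211318856766121702800962167643494811466995214793718470702126147801556218638585752814237858991892758366476151560490944535509357748248432304091936416145707562036690089536034223711373209864549212711425628629251070836301134324842082249628072708542321961887791996761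455913204281334871426360139803267299051317267957981689749107092215527372594233760197084998667122453108201856797748731667868222232616561000671966020675254852605876241399861621668999761040376509141864603372965481141997633197655498347956324839321649471689886554905964572032865604509992706724358686420675025083587058916664649339173426708476113276342871940204141038917962233309752808206655110920463597721300726209436967797080787142016232139378754081905434037191199582446007381056758969648066652463172498344553869341550933123848805893687192843504094004946161021033382462836572422806728454839339426625485970455905988664859435046903147368175913309985724738792493484352638661429553708052527854710805178955022810306956456932226914532239857576796414949057912172106462526558850110980253769242760404889270904058870226287995137389025683555083540580872444867477643965566958263087355297326254489245865702763386808491296682567452662021897894293553415912751051160825297355630093597916360313224777659753445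538825395448060557441734910045018949116817240136204516356364362118143131862465813767602653145777687095324138656162907236732434672912562528072559488569071964780554802222911269974280981379343641453339077614111833582403828025199593016333959882255954020840478901388768605814702969018288800494457752444683850644998537840315462094442897193360606015902032606628296544341071126806697565494646990520778992953550473412210823292692227735156009094354359695062302473310242686735462422628911550940745698155351670628962585147522437416798051943752308628769762870853118346682039309083149796616552752773660155175037639757257674846445503062838669974581470210715437452614220249626527067786486382545824157146602335296815358258958286044659678146288015997229163018504329298836949179925919964007643519956671168811586462878290634997213026160248743062748535098410485471612362776949756793348433616822904632750376893570547540615079978309068321182479460578419820775239510684264289635151959322214920279896210251982038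426194644980427529211078087217959665642351605352944963678809454049527827384907193861263681105207714909359410815582438640267743972508363084171063714535779959793622296612190663332979107087990816623404417259291147527697957533649464587755543708711346621024878347269469533301917069301282100675543365058959426620565629342101015879442578573904299889832840688552293245904413147626505554234974162372609989414847886967588315693558490851293039345547053729969090774471980451671733487368175261463110204559462051167399862638506414510459067529713128781572222342349970258594717395385174106544473912790870455805179443318558757199748785695954925599335311408301157084407022006114785041564357587766840154782862208360219315936568802463176452974242889158400272661421911025593687942237036042693809544529269340950783094365697640989005653029290065495423780880391888816306658160546025945282034096192470663980113632384862257276829995734828919149660936970807038602749378191263598993388876930001778148371208146237888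943349963308871451868742245796916637998568487591285803810528954835262028820066074639766699249404511709166327610107487108903359372394466622094833163795327840899721603359231515863481792191785680071967582233225064508774902731976337291568064934253609454062425304369661394345929060666357856998595164698615700325317876742057344832148282703915656660534781701361684171534063386311652082172982384613449268745575868718777326323802094505899814424807874579576367691581518797871732400067925880288658851348932752692204448496171532551771332540543884543505621889903623900079030006076809099589993388830695007813585556773792761552791267039000804956217205257115229684152477283729796125583645494886893759659222188966949699855092209336467685454021985045110757780689786638342971190106760183716272127533733342674514460035260775519034177128598856525353547621782907211255238822956718960751267501624629281391625358861519152044119855701705049898371343347556276661832030474991343343867176587273243910226915800005038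794459757932243946816419966223885046795057131642259901748844429248028129135066118527776659505815316334954596382954338525254630063064537266409656402494504772734358687303423609327034549101890359347876641046210322544954486151505326335688716787537610978779818018922743246200478709601323217074806195430190740836890555103764391080510925033433645666752459265848401927354648811720358496591686767590392549082972340710928211093737316382330335410305087339931132102645982475654407369158390032017922401016736034459907351886841362553787195951950956529071470586748733291665935436465245996702263494498627577659084236958595348698653794044525496353777869183156349824761778640800529095857111252015000161728196368863854482362576868031844586637247144369095651905049070511222712580646810937277266279991640169552299276563378779887202196091778017255022736775290100647336675073683406318940809286883496696615089912111088750047626803147343348140526840256164825021095040183260795157999513760788898117007070636746273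926555910086223808168290377180546337952479714755927598635146613245269482545751611393014943398616634882920214997111278065230331075670010048876316337877542000069519828218387667532614747228684816861577109336920650150038012605772324328357577395412574503221236990079103717986427716673118629181688409676018177650153709070371909431271705347198368961147744525963077488261743661078623365525882844767471175726793807291771748068375562221018282493200125201276563378982914904576205235173345690436439137018832474911511105556669611446113640658063875233870804504339740029625394823614940062917419864757799032353788877906584267398124721548916314304992794215561627784363543048270698763154652213961021735863950830468794796114092404904287361645999377114635686255546726988532505176226707417851082733220090968428919341149019597272569737903839976551742526502956877953816922857030414800345236824900814147262189202051105044446755267471393646537451633293937717240802875963838872504894190203788755474107210502848250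190820074301599651338983435455155897107651745748981760299321481908426834130977307216283770443889382307289365621798893725756417660998351681255052484055316036867999600255157723430169949147826505612401792249774719566758841378796318943423216309518690515542623888437600497130217271476659490505438735769287844968375458103465017589041459623343285483842768874473654716730032116161948271259177953062181885055892705369423333885523269399535103258770989587701592932443391006326552355748098411316924280530436284496404014842738444644436393481814631794361753080805237915151148805517285075542095965832841612500845311888819600493943536520792357249369009660049539302490473303909615452847280609059047067639902127804707953563275645034868066213512699428174896502051943410916614091643799795381791040965318873181850661942032745981474178517449729290667525240811593008465761668011868843562815484442360953538821944018980332042615150156589616270123946725551845589911938166139790896802451411658613617236366070708140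292326598078846827792552614341590169226109262085559502754814384772359043554014761846246797624606006190087581852036288823164380349022040980645390219373002570380400794901681883558668481920396675069122375209055633097700942766600591504861166669781254383956102010457677925172442581991381200365969758716686679958231298500104271464166170510440230013224036852847059074243011462664276804135877281404080439565817364116335713308688979630227808728889189887447663310961253988499801674546350953974452110271652858103369228796112665450707058719487794577816874921895616124115513445686361045646671031229387430832594136294431810107233712603746968776270194361432548059441432586867971334313619196412923850454704582615387121286822557213325399079775216358643234026169031548670985494340854111439412484488715409714475962058263916241600483220598691120825257194821922750050684124176759646214390764503429160140070816512833198210215093776519299181181153156637528419665721002329915222599343408442448103700489932139563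839516425388839548793951739758492346437396776267901651174748886175947690630610019243496508932969373557265464838091629443498512879813632879695653274428532514532824811484260202280603891450420952476929265544489407059607873941338922469052473675422897881461855388522791775952940037707519063186374712782557615558174699926396069070461484799017116631479661285086789468613072666080795305731772529355414657335393976695697518947521349270096958530403410410749657391862141085145016103701060367731547486205502446465089127882265347689120519873998194651245172353132018139974121705863513476438362819492919153751081755569484510658252426769873685691700051440165538936599123459913596918618990481729386209704545248211992391190990387748758818733318394695794531588134350820267652219701685242759139558943038809985935234085667414793591916236686068892327312621057840251884536177584451433797192599850762504428286506422832701174045108936983125586809136512443910616594971223907208763461305727482877676463827908491845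371049133627571186696955797477535351799033598648444073759911896830621813238760165832849925600864152053975704521698282619473948236438823411597613866583678070457228852288068230759300712997832456738723917885252542336204009570000803831124163576503442404873373907985556539665413732374000841623526192317964343108363396824550426393351447252078353590826457833035956884693195516493448395957986695152469192501321132744281246113620288466813512359141361565165736882711110624761178233935736265033081201786284592052426923902554138805606153757377043521484746434531493383578996622500825702195752574055227557392435661176863459146548597312491532564437287809112733686164144261407234543030437584346712757451359995918973303012637961345923730615178188896338630777768050381413810328889544222216769993655065969479391257683990799051979550341176030442583187827184184724009951727503074001025142819144138956873014338051601564368025198674754840101201363177091801107716103025156782818075351834469501463335444472428132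680330159769099524562969272272245204208055902609882725612472188622352979331003389491353906889140544721023280640200870985854659394198710545393966207500925631136272966884924212166975378242735555671841423420097858623716271170414911363102087912717907120896913524435727981570044124999991142592003567037881901217840735236586843548780467762233148552496536835445450307427220909247010811288563266969488125143019724613475264202948215970620758425543970127500019606206282694326862469015477666383860280729379954993505660775732300469111393607699140180465461925855089034382970834383927098016504450069183202365076022126868040692301558691956146312209385793183332375134208178195265742268089161473047117421984991045635823716655551099773746057651923969175100234494040810627658042100990287796923585953027129786264870140741377894950253775154198023393239750615228744848155978363868041385326423292108684588884328492297898254577945852181152135472350219128265064626052004007200592770506927764689583436913559638312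657187084536963846373054002066216983367499821802876237568948285556359915253165682656479202563499083458084705701506559254340260053042868631154562874950077099330712901228178443285437295680407667019596867366362397856534148086170595874685504014700091968866997378551553306524001219583242254021997159303904463013890225195480372195814804711857449430371487603816251849362064482859269431140416121583358901439074070004472931419392532718478419343811071438572515919918840646629484924434009264379535769514758208183722071300144199592978866803293281213947899271122113883086524191892607850841087143081273741383388322088258798243497684524806427629372081268158764327268490244198863312117933097210963401786703729620389290511598080169849878214586480485024552121944235666142640022348604429672586593331575015122812576305830324983441870873115751776952678273658373183739659132675814337519640474810272209293467774386019152795193489041176911477187051552523058300891754818667899441762433981272371047310342454889200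242782495046718204550881150067322651487962300239645656818669303753496682223820047110351802780859044507890592787022821374164076508334391339504879866806165308539514140635469104287218390221232151387581737762867745699599112359635838474170384596160617999540560985920244567634494764207511197433333213208842210399531065191833418244128273286252998079940013695683526139129892293505599045701872394482108230902986502042801909846787346272850242789197842920285577240301919658900573408253356746714700411499904417347395147771624995740154480728568834379438501729552680238656401814335717847625891450233766962516522872912522157341364471629905350150490376930180365729434080009515244012456754964252782635060424572800289693446442272616007332786364267063616629248817609756286558146213121145130886523217581692310412571628183342980768977197259279482712762673500994303178950719517367740411641018254254608911485447637019725866496434625929432701358331564539653386022755354158201742814461418863049320301347439454981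895100272150572749298490075240561042192053695028632724907633077107788570428644935546767659402026394836227286751007801663338371605980860712097618781779825328835483103307027115496828068275210899482612245020794320636917388539141984217663447839650047850706316968251975729190453677505603350569190889506844427269502043463358030870744014823613047878770582314253229893814002372141364428970560827297021301783947289971879711938967806680140132271597776671983515681859038324268372433673296295614283587053119530642340249122534411989310095084819169450430386773594048561059085363265925724898082320424460786293748677535950859802330958242910148267570876155016371057457494517661731503851300217879845126729733869213472788670850903296061368400343340737981481591506441824774714503338833366343215324871348927047207895804242765416948110192902039765523790488295119384400589586861360490401843726056474509991231104568800173606578040348416553703276949182435853261625013229867488441884884187986976144600325274391760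875961056050910275949424034428905803552201373651602847617976800415190868368234316946176858510563861513948972331487429792133554155937284184074446742197465212744371598607461808210864036175131043922470767446362851357540374749500650493983758776860336900681911767201562190605159858025624953772709464371349890783520473270361648390691668670544471523693142520804431831301743546917079338043283544525353986669336043585858976459844230543551831120318644060583857092047579963861696330920221803766163277061797028559618271396100123532546349790343487027804315404848347196238147206355511442959090582282947368414876856146260209072156916323435399566006874082521956131333794659079231119609385787602180226525770397123295165713125629140706115173105590048581526474773831313923902757904116053614389737177306895405679815966105032521030710787920859978212943368662857089038136646238814959246696340202463937903544954061025949296128255020134894220141484175728355145335565361079767112777252837436565230401682720210119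635272088990821148294064030628299367003602252669795561377444131904653378105680789658191701420512403259230137803398176680632095033015342348478976193817766110568655039609925877989457673227529270665186127254407958183037591881791517545253136684221967479765150282570316128434427431738801689352340237328429652510965338511298349948855006358422538785341866108017916960056560170636878539797566847264348553167629698227231833519285763704897653338402467759909875937736228863809451957270901883030163816212861681233135002908854197195342642498609330453080310879822468808947485240184699625757682742007858689827570071927614564071868176712568210475201465124845305766576747153571892411774611636587835085659170887422888453840933686614953121746077675419077004216150237528335362210818006446339364029400951356861394911602270339181431580781706269809542279902270777688196876778697699951746797367875861852465853770618984027923349275921084692957624201733497311876863979303007882505662080716330435466908205262413878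259413820483360055291089301841254055911064941448545389312627998373981863044408708844934364771927095437677335063513917772712152421095911192215925153382864135620276209514497189464233416852950326748919128105840828287414221471593461553828065873284221872659866242708999950123440711117328129754689533223781821496362660158648570045225201315185384024351190225487827942409410736864313939289811662672154152034500955788976122177954070615334440215025637009533349897020384132534433314218829272970711747242744562513669910672196686894619146866577156997983820961971371907828584479553877861156817770193635815086699616005979792756132897240526436030924352105315062496932807564591550351091170284876631954582219194546590576274572054015713539448342563715900676654996688013739648205742725492131296598641599291647339198338428761237851311471297293528303132447790697386455036159083660497049821843049516935555475659219895603021961436784742459707279962062482237472975761254084136920936092620443370580263554594618009875931400903010783198183424)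

noncomputable def rc36 : Nat := (nat_lit 33220743718722766126601617915335708610751961145103555152049995900265851761482442087402556199365271819578529136358777935400822808288798428499560094068822745820195462934268545166687752371572617826960608347133190230930228145668361442415801516306341085679900288496070363695828800449213476843011325541323834755478390381844519094245821216278490060006309393273069276706744498879248391884708366050920444250184711132491255340655665608138791676375349423127082399275799547209502180168388668447051482572978477232168473965395534305379598051921486413494922017887471489051065881814646671506606277861932440750855780655558827241051358349748489800596182974725933577542529393529328778505777006499566905574179180664634857746239291058639646842316144235405260772227179768640313176817306380481984040652085623671771527192293509846568560676044446312813993706938091333650874469956648268091416341572814656415361067901884485728123378022227525560518935096519864127188860671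559170325874093587230189283980628944892257055541602847646880792108216867775972164244126715526926863652494825321316205035790000987429916355063355764278896662795997218994923990389057416729273763222831319498546961616842558362144178547019379860246073760439911681599904842651460328371382265737504524338907606733496678523395064303591294478721502205642181180783366037852294650693470884764085327034838801686899352940309395561673364658729982337556787485146083936894246287528057670345887236739795675065712962992658529361640979800826055920010298212447892532833776025684494318034300534569401759232839041963930371311153047984792173043151601550948897597167312262971462768957969642468497740235347144006548750594296841656710484231720521578741407204214829493120632124463971549472546328291773384301659011180955352434037884662330789136316717862365582394737182124111762306129672460944865049475376771136660011532939137754037833688627595602475995443277703048059244534820465013065314330655892400191911787710114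056285033623198315264709125252066321810761941145914425665475529262652117005190670955507771055336825500480371455826542995832659167973874152696354339071137973090878870037087743542533749034273866027051650748208860179670371583698106617264761467624563565201298816840171774669499768275226447403834607409363828339575087778159857850261477845117723432899948262129743602718700973114497727630499775339006080937111050233390597737917245653760129920282117452694854089597957530447239574991041323241259289609273797246587272948255312009962660000075661837545015593720521314496220965330555680415027855657492774722095781301730282669125984481022065651172746195920264169041303245317358148136843125423609342285761952600066602112597152006595497611910203525999143986430670721226568420289682369762695444253931041753404981905012978812171896217554028280578874922135683258785200537549537292979527986185311377235067502386761102335096883560175569762660020519485477090664838728779111598388203290527135703734207779769091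518337052742508275051690742670970290107536463380237446940017828988049569068248470575699773657413735620521713935845918366331923278887251388963691206564899728027037140209479391691701148042291252870441770028438578990032694303891529069758297958571449057400069242479828477002659882224173230524638975927933750662530957201501588856230482384313119973952519824767655838999352813117305523903868756718106537944604023192428587737953423371169029745984918891259946424418417864037611640254274753602979259541946287280355749545501454322591086206002662145084937861304866824774896472820578619736089095891383566974421657329580495591741575902627660337350030615227011737521275358094007398226982038718690797332842845928789828301636649265354512575501398462378541628373137526130400460222923330142850158747696518399794163700723893915582746521116576984194468833871037218196752651350540805790123023571510247982137088327191510774189819379676308592738033296141440005054579968815970346440854414518466765515266438717641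093551077074541882093837091614137679306633273161140300411371292221299631729463905281346187310117805045721548274869364055935625747770201570297193139200296127559017721963320104133351882241493044227785756533346298860101211681696657130790620160827152817123822584876941617541188190783523892285234794922987642995733101452948460862406529284484610702252152836240179029272794422552567514973997433525050264878405414071386232353296986047512480223486834955965533515061022109014903210899106773392283920341810210371858270842076643368635216535226044207896914198898154250524700742124894580098117373925298398606145977114146167151147559102804974791075842354828822929858278128594587980961221819518874394798781817636736297571538376110839324736700522334292954229555311542522722407466635552187219017409237637592295942527046685233925661005508795320037125387010792918456715905325009474632259862898915838146121782788734334147993781600506056130165548895494308356224001332907996543916412975278968903039966656253454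535462492346769569660007602415208338837993194430224696957580608865642984180519122885651532223890249477625352332048603849365635712516774031888504021467928371732296622121704377550554685245964596556895071639381200861447245934242513408717326690190731073582344853651186156405723655604443647935828389761936639162466137771435500391340487591870322880109395294018243080341275704068495149818224479486656108413119064329814636896867651811394537067404313600589143103494962567307170123778753640061016775234931010425117163303835116424218251623005028778443980593756346464470393129503667153522555509178610497378617209841150906473818826086374655802149246783410544881772019197088794561736411987801289986721575863894002017419369198186281468156455102982060080905342225779973048253720660520834042974849305213700522607890647772572146010207428218188401585978971548159492213395069313477827384529700892529631818128968229460610375726014523517063193996205131163975414328906324275100581405188080176813260903167565681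940702668755875340068969544633487283422800250764747526265952175903859170394887484323968293514058220101015761843032561914486753053589766417925901722786652801263043493357290983974161632333441522154366546135630173433780822685187631940302235070154445131626295922262005037708871320346692109493251495799020658820709413344056835800062345156822435116869667831958236380334886709067137065878602244482110643327797614229732999341502587752684422775028042164677025544201388336319367024854576184496088058459198591903537800585773301654452262387441194168020225455848212856224140854580671532228852692154716884037471025750264556228828306734439719444295900321945327530223835080429502523099032359554568330212115932604997654177294622311379787752906435401229449558503631266806201086805237627231633186862946603922763024128444761652631573289381659106119713415709507175535039604249442753251763525832361513486276117082386341396669959898891138135464383307249036051626618024951351747144005456668336705761774828158748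145472405267292384682018679307625535229136112343419192303155191140533028153303684670082124801906704732827179410176263888895489907113496081957442527743672620449245206562517931947850222185608500414209607143681260864561347889947910184342545998548646594118248038103916756785534970504600012418185228001686488705011070201495724685413619769453128082904668444695550240132484230483244651014619759663692227057417364944807967311716396570310681579380670369805919376747994402759505092570226936510006652735855652583188268777574373037469806227731843573788713688900108797643309466966394578660858268134222266081697932446527399946682359936315336850522687592244990349074425295920698190066617851411083925674363025484900636427414084933784955998306785619084576472444945681332334490348098815197839588940359378111473292361912457807263409340793414080349608879294844416810010355387324195820085048400529950398554373120916065154581916626986516927306619121341580110891549462773374386196885678966003460302857256800714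345938922460924480461898930743628900166013743492078078867143172266739598899689698579620828907471047998840584765513579860010808327886926370168063561104188854596102137550275143634572035767016686288758496963856370859114913552051329816900233869075276757883457220376964801654326831441124162511849578873160677704974297180322460917628651736963536671361065511515517734336360698896007593593630484177728753313226747050035500900844836397340596325842988427079576422222065445518086349362071195743328221894896892449636928786270248597130399369569931540397287645371382845415254981268527762131997444260647370179972207529658583427690275870922105998033790716838989353368190810370052134473924669897325744538653521477393392177488133095284191723970255958073789785325000508286688664825888067873853020056056757930420872815321021969510069936689239053710125425764619262446249864583135889102927151832327801088848884419527028750826170317251836150322988772131971852404554705916516029840929115458766256338330791616414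265673516702265059836821374810233001500125565797424409767146724375104672794731808781547684201869699515347497061670981862475748443729948873892427322314295045705624778635838217173110649279414063174149026496317262819210282606394835595762486417884420546746263947466245699357969349386655190781383543969862669807583391715838323406053038294025822187444011628909841625402268853413570324537324463362015980351686929348408038913726106927823122160066201642468143780236271228141096979669886684857902987627036940572834851518560321887481515776342212466114819247550668194173926675728769608377038100138092260024515247256529333359783063862327630852976709677133347748004616307849526730874054652457623187889721931929034855944008376737256771555173726370492574364490306161276706547870851631885825399061467351089744211798901641770220319389123010963873181081950222039915768254658674897269394917734003458454300447657076655490323652761468729306057769400493664659844214405259983213113857670670838020337683680144019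609950980375139304240173174162736693729723146901540478011847766842784171238399784377275668443502479752160731499791780073884436335747438446370431860666839117440756907128487783768791847571784745128884861048567239542889288435786468833664644347049817099796968767154074878495703632647586209522475527091494937953189209331606727192939786840540210502090387121095259598253513525913544062293625318115310701437947341160205006244863798512331340586044252709629135754135270020795937244812260650689772512514196409671533682597847596456252491474032416622787392762427021650234304535708119916904354257385849361361040188818544066025979708605135899826268572556302410564653062656040007986581971540470842748051982721075087998867552475391518104389739823108342870646845378201441938539829078397798457897518128142071829966767632784283375342821124758924584850900025651852337522163927808546652555392787021982913525188732355586882144838371295882412775193274457785473543529294834273454316808583466978781813466328939824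070794502435250455075308616140806923742968732535390593933494512082143123166573088885438527978322217320911185586577798118951620103584815927492079952529190452498829880591588252953323755676155222424902929154475180436713420949678881725526899047831445486272994716026533239862804314891628467309588819309294703812933863010989967619089920491566426917965598725010905925113032691536652812601189020659024261626568238705856802049800971520386244616804482453668087738158795550033774751046641515410510313444888327345838222519421140978037510127113766611219129127999107551926460127666830548622695304237534714581485594613444952608033625115679635520829206571873211087388629481639098768659316036750076614761721044291080675210702210892419421005475466593284283529222830395861632089155666322236636458990217234415105846305419651039820428756405393226176547322450954870985383570144275622809950373494235253735064298574643546106974745441753866258634442389512183883909171909063113281611162837518536122667253724699704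614024652992331951588276410457784295370070814739210565286854928877162682060123068879969499856474204500466505299469455687219211128783615890440692275003590703090663060836190143909371969575443199679121067772498650731348417463486900108998985670682827623305264607559195707562946482223273373764437691092775685004852524527968956920769504261663627410311471869554536196929807921010865456678415846126554063174371863566373397509612688945473483120685692681532097168816808607279469433994460443545670452835035045296489697459909839025524400702529395164967369242432807691651822825624467001663669377667603623956201078053594357261104496820480603710201106133337785446970311669753991033041547099930516612416809414849977180466950925999420360204097550629880164336938800620397264043637975254289165614695548295202834156084780946651239064426283389341449839146681603456236979498611254014188957532460263509478878725383128742497181574559772181915533496400761325532258248584890929512547074838309996645950384160633013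348285795687947091453118378621412105070655827187398215355821266801769771498341356232440271106811885778560505147595616969791117605759739646834561089959038468736881937048440381983382914799499960631493751223275907275822278935990997814551036251976995042656001506131953188594071421612201354681982832715780658963190645019706202951881363619178552292414468923829272826186946241023696019083019224717961403960555015586866330145832506696592209998068240316988620666243965091828779466940559604615992466095142982362974356062420718199967173817488087106385603662280326985565791326443377960253606035475930194068069541788390573400159721915555755767574431698344408337054586728073940059913606709472558028808857955149906614573868951062394856151219141488635856255275240084796835703802244484943666091163189564627011880026558410444430021223591442039722790411440486912151259376545874239086712456216050490809393532494423829593317068855106552853631586434785235751615666875480991482153197597107732545373633481745412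760567401221075904679467825335397170369805499980503893853668331703162071695631858054509719785362614717897182358569627638754535951857358598228687356782809541698658356408698784330147763229357141163314655967419545602110531614091115606398617309118302262360374023240262517986344872227555701546211763321325445855606483544556668856548725784283111444480145248006355058133491924247793042268409555509165217943547477097337031748605443356109796689633842836643103862477017930875201762207215110238142314962208143620432400357098738228298557549280476315340781649998130205943145765718657006686854389501518374123873012190277377166809436021368663877749828275078694910747363272620778574319290858406662112928500172786122389190824653339811232416638554105745149597872668889867272230599513129876710412104209622357511564518635962468805944642779349358859671144411800594917666714487461875330669593458291293042500470177860667149591784056504761872021049854181966675438992440048512172798590507230916713043324080271905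380265865771993346541396635751335912011871576671410693634641787685110640625878565524685246577269870654025023748176828134851842982377206572634444128008477200054404580210046198960924954381327562903690960819776392096945044095127806794790196345279518673373740057553940587996270999578818406971894949910688041096360907614926696183166707616250371776917263099450418851242773758621218392880570633386499145316612066526136101104648142140586035408254120501452969237332841916776395469679237252747598740099173078790903109616325776931024191838316266875866890011327646992099341333256059464750073492131824712826713560383691372263280609439911419170065305357738441109402293259817247544534357228193287311433251995230894778253461348600341357055807342611263541253639756690219506696499343727229999927250311940892467470727916131098958334936522124867189838207344800681953872749961688073907620786354320426727082325020857116613639034819898396280155106374484190384584668463092808942550801438246254447299873962842770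352217127217780446258190209238832646701100763717769751311077690269339113198290666537101022112305566820311495338104492909416652643641372652717070473621227364941376725966384453548824548169194677030660885346828933427550442598364167964869890243336165340360906802289131916855497171319065121287080667228969782209016540859464219442787403336083421505792134120443158168684389502106000921467974802529476795014465270027654339605671279406445247353884821649795704872601858818501294084580021773410954619487810446329890038021489442073034707516276138794949543538273678833420254156156070250277127430089363397581206126767308094088866580185017664790897699686392614542331117612876220111006382438279039507701945661754205263112559151444174260188805691667114297703778636158587157428250389029560913698161216520155715902648144287417134536610542946433055834094897811758077763166596129962946839453898163400913182711661227038388401379459252827414098636523795628901637636293314373354720783405980561204266225215449782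387862141412508152626885533985127387583605130335357201156342572747012741828657219326645122116761867982193907202221565664074182565130469955333266733035249694307993739192230660713773397031782587128670813559519428121119778780263622058110116552322545837937225823531828272930294276758922267540316483827872250156079780729738757233896730567068169072988415532426545155657580911622815986541802854273388147430345661839456765953578004905161650130921083088661740744168541657993600763299758868458128325948142994036101056503955784282368198235749107097022789629604987822550725800137941081649113910049596398457092492054243854484568705309653607611946240426569218973135227265774975557520758283343848402783265588767793797872931765216278049143515876147818526810420822310313701255494812756887929880294484124438694546859688179036213905230135117423175660242515934827654473925848582183986779519675495247492294323577509039741697670588884214904758020821901446329212943254987702666343770472793429372303342718280798677071842845645193653256192)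

noncomputable def rc37 : Nat := (nat_lit 33255133313587239723018970525830872183312744506173508011709705021099944624202768808814753140877278159200582970557344395133043206479204154725730360920597369480950259636638229077868653851899229741642173930565701995015167674931229037031445262331029439727178110275373547405850347869309716962001114573503282266189348408641521605036801723862038274974876374844939957245853820178251525001591418372946830133399921249967601881897772560790108179574131874674232916979438349142430406322806204583481731176997127920120825467971976275225664240153583551059021326283681737413430152233909229362888503686118135366672651237033525876820403858959002509770119146395910239119215840309543154792986575240072355938504702801936570117482432708356872297167235946947799035461082746516145693212532269616828741150681272206042614962102133304205746784785853095428304349633146049289083044708978336308527324609092049635154166079297697845425490573050482908503390642542771000259038918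330199285326452614976294387185049321457536810485158844180151946109610460096853555262397496200227039517194685011357199998733007549928982433361840884858171722427871949896446109985989945657625128956342660671060053108755527388474132218606819823999713003296441380915781481683814147079238622622441778157486614479920339296063074281688283486932466375646058001289905246701743543336411972723536972795221924081507729280058090136561308857000936529634366663061568679063246450586049936370075585498198998072682062188809483181677684994396398542214072087307003265920996177925965872708638682953828514520348055686248052526616108487975546028756977483235076264269370817521444606552245484886136599810859888101077357235970739554405540297995522955906115685613424444818926834539059788653953132874239155089725545798668108790228713173754872258536394613726957655579483478413433022886714314638989044973205246250929808748556645199240539224227177214308782887262458267584151312350734444021775484930463667501257434637800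653587813432412961931140657491290772121843744578241796625004851307419341347729975059924613352744919089660013835993190481213176229172756179545084636770483081615600111092369563239728470778091375682892213638560823437216546476414182631857063057320155872747818567832747049405866051658054997252749806669047571991432419677110278898634061740620120443915846662538629320003556758187088021608143336369708254120144790233458227323730664993612277385896419766982223995220554874716513787162385658521104803657154908913059770270683441467853816476326714817440064681349263176031019646091432916905602402451364889957756836201232800807509521460374989067494389764549755484563072793615559894452811394766545811779569826632943268043141629533154992404696015754540705607696551909140132104839431266936271247412112189226795162649443380560640839327769739203246938843888121278928509865073759973168127886409123538970174689101282189983626000748943488278627175275692618238303536182612998140720472030763837291212767405179457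010964411958312290680875499712709403246326803367077658322581384878398770728645917081164769095504844746275876434559742024968445703253214032163426555646724674486985293538802572090129974960683229526026976967116543704427002490470234163253950805820596229925014068135896012578244139366503148365898412050594262239181311860537541704046899929616477344220043414127208181844268898034980569571058330592524828982312284824522412876320731905386057582571908514064363671085514058284682421560018905613888385107807093402981338677929912412536185253307857031504796912153023451994282695195587870151797250199548665034774825264118297102698307543332627464570482887024014453066388470018501277645341457443528059985091747575779713056367076330621022658095455532475635600425067212267243297898471849409131624655220108633520735766264403761102626529405001173826537266720636141797738482811253504637665739155088014170887685301250221038997225924187221657710207078968631268129078936676285179454719766989479027379852514646775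967678542741886082926647680527176387067606126993598001778358090706701729186481277698172174910194768519224418474723067804346331476712867679303947647655401722296401057150239234716070887454767983944276040553279956792355363939765775150157891970332928693011522792185523543764731089618944621845516401168185433296795343384345592311293843626310962565367424370897235456301600242935595906590425146925217948684943388302198192863193541435896646971682547846774293870945328146433677466782433304092376934214047788312453578112936338449783297608445511184297951092634433000416986494826504901927691557983798379523780194651536757055622637547428288118424158967067536169936883928791819835927292781010684364885477794015762616617681035183034995790623753253708001521551064865990302917845132080795962069414924768251533670461529183090290861051847120213713134331411674909975050880938940859846586590305289247977196163284754451161809123583664631127650848827136775660609924956761087531469800025808258823859433627173336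350719228638026854371830995301940626485627400877272819554501256534738622799925989239791923742232222884445816379316700420788673107918472024115540696601278209780583107787875353896506749339884621980794048407975566638094116176344523774635689899986738108943552374101844243084133790896339336073233594060838811084807904044946046660034638051777108500857599384930544444691446731642846741816353365669117376847168555549062245925877713963191598912514270527092435205117888817303698537442069829560757936022056356632073593232630391324498448412675245764218046887338492443101098078575484628302971926267794269499883577661792350646940191101635149262700889291195294291673792167756096747735688759074046674051718810735280683004735130812910322906775970124175374348850210368036299904371685639097668604004860425948819233318257751522131558181464893534271030293082456968407617052736106226712177189568708006129644775342156767391281705442523521138136548137701522872928431530049588901023931060227564703703762056226553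345050253360172226245620198690446003648539571497414921002657928490667294360526762858794604419856335906625083057254768612716049004093028371129606532625665580592371251496698366660710051503104024484203917980077832638731379211976792904818315652835007232472752024346389385174861613122500221782541041921454751080699534378923853621092008904550451974111440969912435904092674495125802136719484877283394497713091779997328045462484703830982205371483534956057348862837821739967647146559489282872083302052032013185311347461256228085933636509594930915397922497798200421311179595612148580648820403858761931961508802241599420983270924235390620131914453498995390382432322677042079414324162640187301484360305478620525867612732963808492604683768638234635786876517142477331274019081466107536200302100417838226302697604120879590804434373705342210616799981448496490954305840586237350746063808758186922186355729385468736253225576522818784558699754314610629697452331390142945794987629727387724870375837120337798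350232796043173384985233091099171750604227513330150844887746279115103176084694608378251556570603885349899175910849986369840659146436399738506435472170138110729796552936369537592227919006784647680697893215421787158122055584155879032062119550996484304928329658328816085385314634106396831059614948407031235886531618072672716581702468841516087462288426236662336128382865365690723975890555778825018621555910807991310981608404160936654717587312498887444145585036984389922293690207318582519606185103950964835633514997121816228090071271317630327666525499195963563852821268348909746906929531383993197697663103785156599830388285037243366540855722284268274970598835649314631584255304572130344269870621108491064867862133800380651788381434755291758048770542772495185684716519667890376111420765873963277076820162456814843720472457225950087313039057764315345134305227225021662154817825462577525308373947824938508061909820142163871820386900678643968196909236075987954016954344120298107657027834150780575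417443503972029384490230623895966994680251070887027687227439832885786600188776587727321759112229644861963420859894819654115644305484149442097814557392982215651050936129649156455134393541606736671442867561112644493509594341925950545530771154667912799607430050464514852042393726640521313987412424082021178349615071675305622169987944046749387463927132099531806828880761672634017766900518694876952790471092137256273743976574123839619364220101598324568690661858271856968280184060935397284950727585379553758785447806701620643988038976261448140022100961397306166275405816438518004677233958825271132834605543365280797302859945279908442937965333044012217892654630799815882528277263868499392870990895412978170455458873319073921968015205459635284168040816728740201134486780711539779401435256852544755396980648232307865354544410815676360876149471787578512030791780391644226461613681159849447569414917973449329454538488875235487867330191722413123735267806773981338557192065508684000844657087719616247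795373016779277273176606619887552606729820493758813886373061882619087985078625039000107172034915116315035063042989856960906132181108100709677018877003766016977457601356432715039586736355502502545981834921634903594302424213775519365164785437385711887742636738781931208288122276013430224174052011829267742263086146346282905048519391677527276729441687481658277547175909499551944103696682959196954285770317785306219959197460254791006627554129864027038048060441399532125988798646357289547092938423933196897694825198634114876161262368739134514477565001108143543369744063558101070100372819803299657548396617649668960014278402546862343744909609414715609250577859133176778495906712688994390467911491658018398128781641062032218875133862290092355342600025052508980078430639489429742870296156776113011377709059969439154451021510139643467379341863366906518400256014771945378786972739799777989690259285673691366280143933228034835435582434828091630838974949091269589593336964461931064945231491811434073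091816736271613180199725653379726264265585996114848362221504733715986939137065875404290525398897685200164251648774539004399170936781127450251392995075663167794037839147803584285846048292454063668350105693086785415371231237506678500731528213618403523457146490570149484677994054328047879656526959886694455661270526630773565104032293175441495797016429791545036078259906012602123648839043235458603456231396030760445020447130311606739070689795894117792908971477564363214537811227020064130206117005029151113623499447387367234162832406529462994334992193056169111565674329321689842135840020441831162383697330158738176316349475488623887416658909046366841901653730023948237047790554772938484031634889008978393409886152564147265774472393370871369896927213931192845577079258443404983890584445360537014744331724265899837785379634333212977863914115975211884623802087513833000421046268060641043667624419391177012198669135149755833461239391079756293034535183199933246511685352459467454838488251611988159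375481002958822817038999402247268585291453494265173881754740084759497866204267539125176029098226126328588798954048728248744685189758884677361258393309228888102378652508350180546982723417195323473112146686268586454520261108363534300989945574418577861009918542063761153974090587756081043350650315997695237858282103312140311122934216162071901162852419139719907140127424904968570736832829613719684681549531138073545499219466032548978318608819837314534997920595797994983940100444338957356651664118736624108568942015365452929269713119122992522113657949477664255568078400723755994444384386285433286006699690811007426530147674878404277084716751729976412361767362134655003491917063569177115805683089548824139227264940078462692303264852403748975655101752767218506744424409423038628073766355731244932002614593432962447736534493650801589366605016275814472956261430415639305390256850247536852418932093373381872394448920318596083532160087194518256821714843618127935536815293585836804128408989770135659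548128046984026629038666490569123575940848389191168328273974846058712342150672878975086875752500386380541157656693500705254039776011761327554749355287958177199941620904120880613878834330098614491550249749224081875968499884653278687805800007381722246207317326457893287916969755134193140875817329554385904857209270935763523856032398301211905048017712937136278117638995415263056519348532289892276404980569815829414549290091845837914083407791737539694188746615173339388379438885477990582294763379208085656814554962496086107592746950284411994643989398127110243890654161145888583685507107895265965637082572323927151811835114992566053849514259317222689695233200649813323832121807448687362932270843818564019687950303787921926039991560526405741696328955502651753299556909075845558231893242465739171971970927001242319910399117766262726781448509512550737900987548475999972083920842353171870497388419273507721549620247668453054025491672190876032910997623572316509482598016246314074641682040418896329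482253300799380844946885688590914564433202571934609498734364422560547200428972473618711087984818786012420235418916042610917646258388860036495869607485090478316524654335353761718435838191929459182707828695495430983155267549886972960243564075270375626259627566791347370192689721306001550691414922925583840906094486772003303534542789325260339960994721019021034107678920859132896957850925951800434712054670419320628180385521393311340546759974319161975520106281815167050156715064137587147898103159542527408415699455158361279035794408923240468859519733766440129790093215729506880663324740277231049941108603928333954696912447003133279766867281591946248462920330897397785294266963130075096283417664091271668428729193619067735612632558078452444965102472507785914040401375221375510312064370872344239238304935430939857292088959753269704239442960705259720748039476393589676759670753904955948919385602592055232282580041271624679227584050680745567484297169126063017015607370999219299875366150925567240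917867752878330333756057660426121898744377460144104019439379535210075500351592375719633628735944180854336832429432831608465967972687031512146989891361388987877242683569130776111621693517936659973965819603078418345877562868903013885576230111055354726896607288367747687165389264801308511625998462329258327282179187907483255879769747162920281735064084042082827468045369548691395932565691428403539921317822048604089898354802892010846276307953045995507584466104534300769878259780639500287602410048243831623346294896296571769215397161646819602082603196536405033576768167042906945495295096162937334805140782430769267142981508093964005374887765989195116423631709472537901620723201490328322671754998471201193696372706761663625556605313390305738636935212118850679134959798030886376529199477336076442971321546874942548208159894157632952172456477519231642684080194712210350782218221424091008055119405590130348713499946649827144927569069218461175091893719470836981103698339221207495236736686809497661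221017687115349980696462601850077738837959440627035564553830798592021347689006375476387699279673334415052320926016934516545414416026959154567934965318298130505578050971657866664084331753713579380251839026913502446239513308134985203885318101844566533146274497126632508082083838286525616535267119044975091234833837824231035163258959179805006674564812171135392119893426498253749516559396549123200732300767394591818882615343579766110478380510826578085438233387199084122536485020425549702715668464253613552339933768826249960820931379115513672663910184223321061149960540279501671559349739022912383109559222175647103550951671165287560877183432431089470063052148984002266857010434874490070274344621474256430690566381149599139403922605449427092580789003075601708583602917408914705371857896426356621836385180065147718385452044496581007402545541469850332620559002732802087120128786600439629204623304127241297895203288056498404681209126064759576207150628088537837357008212542160434531486143710669137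414691003713574790060271158444071836848076718104559142694970226357077960959023297395037544498365146002310151182031272635769895310714095709430096871127100283821429820319513728764888426080495235244125313607061729533982133197700095213681379835293538478113972029492427078542028519758560097918846564979868045529315942830890295738450154626199658234935850033461797199348442995331433167975144249359637992610596136394840866255886334621928763726935700063730517064360187897202925949762794500193668243612501109467552073959281123830806476453481485858417183031253029968210541812021205469822446712913473084276960056654008689529103701765741217471334787564665824541587745874238214671936865133632887964625751249545106146913995637371015241993451135910810546521825034721469540422984349816448765776697237862808806755582282588206321617659827565146980225990549391575151994964571221079294781048749684384228221628686838698981329556168974491013283132599615418634354015525286507843750076201370690428865442491495901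800669323141495995094330862119724425526417494912739649521594466290808183280828042661831707228633589691719393369220687943718401538496412920618300959093507163987019665496477902751938030835582270692032490580024874194710076814962429233802148785839209619678034749110604920210701599738965271715317530484341296366401085307255546916652932515366921373692179652938111959673820460011474136312536347697431327196083816696734154925219547499753077567475278287982759584416343202515667023777044269348493690266606862335317023334979859802707387632475786921822600546271164969395505778192277242890611953255091538177058658406119325138248491350032033862018818671883890214258289400719084246417551136204504342473976848363553165875406833575242143104075700631291070175754671812279003587867915857022263412694185831959462140086692494652962104146041515370472796077632001277996661790239166757411145962167001690313629407431908237941742659431023903320256904109293662638349991491020743240701465798789654284674650331743919960643906651779519643385856)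

noncomputable def rc38 : Nat := (nat_lit 33289095581696915783962974880273473158260750141001645823188771198391318532487146200351033187329363310365917562867742519362464274300390365413909134919881876371682941135117104126193605565927355746755793505513919849412816151053549782126970109525090606487597933871759365570638915874555583228681082377579075212539476103629033063807162661648099526367451051031364674012942552475815630899571827746929851519805589131319467086482202018390608966598083284000615257468746134870018978832273877124934641207997657867709826159946115779277547303352905888813291867419904513822384583932296217002536153817556734821576900713164432559871807480739015262600733741545258610770211609883319969681406495023062958144512695491899137188977414577066669611095544154036994547897792945138464314865428673794152859082113177741175091586508920258130598883893681630688498433321801688951440006854738842610709532594711975153557937073010572749107662978854909352995137211497788847564024271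240520731303666451351435740359508380053274978311344812752682135206656280839674382590480923829522228135289357057519175184055379073434276427018599949421551171457440047020712342216578213012292027522349747131168301942456080508706310843385219512568071810780398221699473978749830734640266081545853233360483488847779665443421518631530659009641669652514756002190990679141402529100642811910159952948448058317567204706568339722382406046728730566658456429036111561668330633686199177733433304765931844959772553140555605865781954682043698210771023972873666463362288381764685635654843042410909353175018589087407403635087893693751592256094097056886355276150860466279083801156359923870481215365188432369861633028421921666576082802987030155885750668701411482535337513857357484175552730483859452393098086646675617234630131420261055563582121092536665781504100541304237580364380305800512437086100696643344151003434461932847278650933972799203281788684884078891936030631472512697777983227709819924525906991317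633646402263262933220311020727041394941314099937352462027607589974605231240692097307161122460018467763925080948415431998492067103727043280543533831708330229839065237414931703608136845033852448513254323092237195456255665118805384436345020882324393376816437244138211543308417305854570818556567384330956758185924872196142506865336751229896974414682019004936567123094400810090931488623111298088038918094467715373405023087346789043672095386445020398021111240884700156539900823794703972215978158014565811310850308660239887450629480596730972582809575961144346743150324292686151298041102588054532751172758448295208893420610927276286403425432462554352916995319941482369086940864924207154714923531275701267389340149387373302900436155494203155908020460724025096484187420906793498724094016861625427558798990368539826300181444025443891548579856291850497351631816518645828863092995119338586455488198763299345309153206428308273629211027045487703791808730771009941667429437861955622140304885905988386658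748092931506245119927299718356493047297900412047799593964664005394568625468512345491620928349589169753371545265892224772900862493931535793912694953199608413320590051954010744499424776688104377989811664713003812659406928509150659613942567905860561437551877288796374559401258653611557180824150126432098450032377884290225535714482971303691831156697714331112479679514608832772068399733417086048996401093577893130391654402263377683737259817519841398532392244985405831628264413553165670713910158010545987437183176885902463235643954722626154153617297035499453239467274516168101235583951913341482017380421189535534387320044433255047031515277209014145909798325502997235158524874740395787358838536951672790084302691239153803284322062409075265077477168777462452709812416608502898233429816600183453431844348970731307997987851601995812173709023223053209264938518450257048133221886232189607088051896403984785806109877273758101513744038847195266537924483853598166283946871566958731817434002708656352082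176334781032397787854895421480917575311837015096291513522491868434700978318381368484592932087308598839560381705675275854132838689647525821991163093837924611755453341936356644848597859032040069841011034499895883558494429337757129141039625514960235368537735497496703085017433714764539300091993396589586350423276495360568436037177852380325572782938707553902654493355157032581326399661486583772235536751052331718392358266674345894008056396352172234812240496105010543222211319297868929614988084701373650513822698136064482579215025583089503861648947684622092706566845259343073924749668595381281062480321915709525916431050366001378418691653608592877633894568978280685232547902407902687843946531014159019499362632799384425731424417825523484950486059646310018901622677532042219785915358728629248297033087879897118265379705633905110607116751904468005695173748630974143642848238857149209411343319200053726845797056673919020327499069955555606026661837423242667633499325322687437846704944758478403159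422954414849201649522191250073361550745749591773318432089673491616543434531123799471902139161244620042805916754825905610560729584288092167169410111691701858317614450402417044566658574221672986654401725966950123110746944387238694749588694194005045159417179282863089656649965091058173654009155271160026421299625062617629099020195138540465994859204714576625411943356310912552388418668039627505849416405086689868202648634534058708735644422159089495426650522432981219379436956904244360027613807190014356166476431605071161418764106219755972556228028579056198710496166817205470482676601017462240071801642422918402699518539619327466983711191251212864503692619311570581852283996815619136410468892547695964275504267825785624043227241384699209867714275220865458730540852680283904254617968988725101263653507952187418155537594908622024077894486813982133386676506870799241263692779008182135423482658833838471888963260931219326095976241350789381008606186118858982089782849668713179694702321920561850309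782806991180336002851438591061561329954024688861891141455831589688157205732379945386545437335504447625534940112590408992601435235299083978050382009563755550395922550488808180066557008738462857744778480774850127140820082067129067015065588989381950154268464041162228433934785892497398343329846392207611852854027240743582614688162331450902947667373820358779903892380269860504835489018483768998378683766799779232558372734659368110980456437455657665354437289300147333703893104971033976748887557967288746625262690059473379762029580275291097080802971460744243073210261009077299766207051808044069055392877920373771033994130772438191656986091739558222171919485766502759776130032657717430586163517585174135778984471930705931036736518660365287101755721107738534419799165405883098791321371678397002721735485719454721719429971549331333306146172094006264534212612946740941255631749103879160426994379927113203651720583162094186284819583565980547640116398637329294493537990191343224337509613807246677640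364486633188929658316106987391272568143981919850262651258541970965618178110690596485595801565226395552922743503533496850537173003521305371264991460407042830145054295738069850714945452787084663078762784661131606161265695263921407094971962229803101948191968214904952272686706647279135464293407087760660983361785662997283547652550978336883462237496359510632399525259950306910952494344747139584273978783232513664673163249067782278875781018893875046721913873738620767672529912424499343247625544239464715334502561266219969115705294455553983597509643706051524950483385882267677398278064831430874554467509121472447088443311555112000192332172662389934326444708450503387214866055891342885539853590249642345593638992600098133125888940468311095905961988045318910354693523176732232815127089656977697499110165318113407930340562355608355362286686614951253193286250055801181444112687127680207689344042729622220554362636023189706982305732543566367193287006187495758972872197231917560052896236665553799180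459673114135061612662562616432486793391341405529629749746371080422353786516019755567431980264563497133398535028223467866556400237856434070835481667861928733492203366776703114585090318807478567971797976195508142695028487881146214990268817393565940496214841100434437640026597597679333876057297684181279495660659741738441918630033332735474789621387496853440748562520303867135978589958884853441912773105006395177162899139937691005566904870391898728367814330227832512468682563048781605618057734707967481539058783828004621973592125697341463062273564509381343497686476099089404933843784975791325306880692520861556502488725292616627059796892151766389775458545401697421395000338962259013696121483059611800503350336264792338324930117405113424688518638750589668611474683915942458595501963412947361666233367338096561500958381930150859921903558247234266533224352748287147578443060780925947167922216928530413676454649285788165658679954861248919569378870163777577346166430427335060361029789612314443222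437311106075391542886819134923336158595622862113902248344080498413313199773195226672284031895083988122430519105845353216916052384799113497303696898281657853982111290291728589658761487499964575129359929915884593000429689980134428720621185336752512904316068318461364752334537739357134349958051479804370473653943891354170975332010694139337996643976118685298422540688862307672567861296408853041186233479617237028700567137609031448797645526910039406715994661851231396854611682246225874130919160586084414543282363833967118269942279077714208564141858252643033405497619232991572203287329270840048170341700945418825263133374435709949843458393894480781503772308764371671558128798168887180052929869532571046041221040705217394671033386848484492487302596196576231753191029667312358575683021740971944623948809258435981782962321868460468311073376275967638757630535710553602650216097283933585045245383677867977571265143106331788020659372336661372550901706450677848617548234883899848255160517841639006445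249085612737492847041343546267667026123145529767952379498129171096924513520714419909074533622711662605563036935316521577317959736738883052164614864849377201418239884239529440155732204194280881255763486642047509902050626059596442399433229596982990584792717093046197372318127297034234194853798416455756254278816220452639783720166269701735560478844570192165447421183512447508762050119288339615315276089759413129967554237845886269431942281063148509898424441935046450332075869534032421696727189802200195573811760331907148016821563974891222577210924659985349155041854753990521823351910881575836409345359433149165999321721788547008201254455059976892917890831776783282358949078216123317031094953621647468001669458898830549992937821010472433868985633534043482531894334353219070035284585363151145985658793775164228649933099865196091008092129906594096161423976224891492056611754312164736224934786189112186486377984799163155040529224101165210964040988434296836506660355016601832795978813653442738136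345622674106521227898596433436275832998432460507335822601507146822385565780892745970451422461958116152914126029246781245279676761524401090785005766531751420022399986528996914104012763233624901001956679107876236409111205830388660613105389671148472585399669538802211166831455034388586637585909127263467970740728089474307879467821042515722702676281304651019913962648395761945465631079485677227669914085411768753068142148269002340699623248027018394576218477267220062973335375532870962609306977022349176078376739839246773597789453225222126870090259453770643144522114711564252520643769808660863581079058631625167252716554327346478091724645653023814666944561520502105467333724073943109437231640607139030029217565921879099925922179192796358353842664315402033614678562373893138215978746501443435400008267537213020351878326106020126070333951892460744552292678665902649079453694643473487368323230610588269013047661550628857403669682971758164083357507727398323230815049031309360983533039140192859150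248206192837558736842782008072577326266432617823857022067186217773168363438511123613655541238983731958527597032641183251976575940977534217826270260251098349146601985058776667622675769503190494475001522011032078915803876944337188636304768738014284954884340863226928297125608229079495499528562585141658847123685719104060536629787954098111663403825529478606741606001561830635205896462287916608259876627513686127590711820950596527871769389045315112717469759157083105104622293679848526055268350719230876131753744267863105682089523692555522388915276974554116019840095932868997872817619642104453020920923692556414033607104461902145681102883863171160461513850233424600124880405947440675240643004554551960147528852924043739071140860995136229026347967937901314169367686825130848293872883624796845389766157332399734390534928411799660009872920023792050353367445916644064368021314431415123023077716092480132969526630657753201971842426368759365420387004274928732094901693207524303630341942299840266483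571693295722629291908884428657171390633160920973019542506472236987934647555974325932851404334818107779455074060963478590814369153293292862621955015600972817487115908156054447102142246020914637244667404111234504400436430406807253081799966272796604019210812022134949282728662950929108380985460150095123950807248833477756414003768023736289825982991635790487969172170463958443028916649750012650153522652617498102391863331788323935441998067887777722652267525103605284783672795112697073293634043927818317125281319579505590539368362064104331518917129472421099552560712705933172296723684659866947655626417906895517897000994355032604368891235937831852327378219021040783140247984417650189967764708437630760350392189279851613030021480278039689529226142484228095301220225509369143648282993481610654527369087657252403043423504863656696644659624036868711753306514404525287725730178567976100201020404350462149680984331374017767149801048138668619910604947864851175891895138237821458461680082050508286205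046571714347702444360726844430374935215602020040968719675475124655888560983179048998429622829169486781648975894430977379726103661848762625035196893330357114931056337351010091381611693694307896890311252868892486565577689706541739526407548989130338972268815675014652357966213547278534925467307458845561919030883337832638770164539317820838522848055911296591023891655335065169709246407968027132771403035886901623030963067908139365664693081057322206375425270852735994263280438896324365434681431375099514475178137664991487013601546379098848481549111771516530571353724286248678226513174912285230018827890971453919648033104579206963525165713341187994034723275157024529303024214777228771650910100454014790199060256326630347498090509098165960948069617377474221281122393984281659556719571462897545947631302585171085024953477659946997837135888562688522002474736264122770655682524271658262615108900397693690647429676689480494758857945217235725311782773472137267133011762338598901329986113084989565416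850127759299688800298479147921674451272834120900035102126663427685851930084662552298218079995352282166268516169710573827246921303847381887850846095769161682548140575363069706480274530447115949747088023536631145494485273395492131668153567735472934677922529098534523190210303892758883130152138997384762340087375987103359552519078188997043504424426521248354792780458963160104114587658911968604619721265704565618463407614295068637447206691383059541750250521567729876189494451448949110240275892501314508692316871998564956054927886032287157336796226199596420363613550629073198847867067439245502391290485267687524758526596258836385078238507163835574748371885490137475785493776328553678520750448124717562119643553639841680310419878429666333176195523060304578727472859588997483974231519959316582579254729578754287244956787246579795480292482779173131847736959240674218318032288739680915731568397171726736567138593564654173057455352504263047578217109386811367036938977760377181231664795071508508480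593768990802756232899801752691615956913471829716444964168534185081180712491248448463551353654225808298538302657586905552143545267158290888065769797607346126699762905371374280184601121586870574092245441309778244780302087958579386895741049516182152240158732005242700203102684164694764260538480620019328300577360253107720706310556976771198569917291300192356996460629541958651621007308619463698149778573171055445530393627631814691435242043935037419610985772335571763282884968551249680474537863967601231621694371179142249482430385355223118150458981558379583497143154736335403286812992717823684067065989523878302853018279367940718241950775972052423928629313198394488718089630501740384934872493833116480533591513831070917592805595105749406371465223073060972430133986195618883083133563727860953204550304429490325593202820740119321371132940853506478084471995791933611494099457647733413409847894625998780438495310501224409050188968598643187744785745773391003089168061523748605534827969835514640664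880700870419199265313942560215219391210673584132306287707768284118732037757087156559157570797799555492480786518775992603512129640362190638530709721271063429942876402186127589148802202170705759623700167219520986036588803878544684580214881570125318452886956392958516832929858841838881511680527624202731216547966821888105537011666735826418334616435427824822209786601620159830166483809872132473718189179051855250789211566715004455132629702228028291188010510073392099257537591012041751739871105141673808547681655686777767787042346976354084014069068300753471010982915695798229206621215118657395769138692229697913823252923122737555279442396706654784269473587935544178704175227483144870668459776411753924186514169750569641253875975797424261053318457683298684005124493185396320328074369622849226556106452690552511149830182130728122918096185808949598539818785364773760278300949828819907167823946723788265867750979080902725994561585659423204073610603995111921825543495239998059634024834832442171695628954907484354769619779584)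

end Vale.Agent.Lib.P154.PChain.BD.S9
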